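import Crest.Agent.R276.NL_137

/-!
# R276, leaf ALG-NL (helper137), part 2: smooth maximum, truncated logarithm, positivity of `det Lv`

* `SM : ℝ → ℝ` smooth convex nondecreasing, `SM t = 0` for `t ≤ -1`, `SM t = t` for `1 ≤ t`;
* `VL j t` : smooth, `= -j` for `t ≤ exp (-j-1)`, `= log t` for `exp (-j+1) ≤ t`;
* `Levi_smax_nonneg` : Levi form of `b + SM (a - b)`.
-/

set_option autoImplicit false
set_option linter.unusedSectionVars false

noncomputable section

open Set Filter Topology MeasureTheory ComplexConjugate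
open scoped Matrix

namespace Crest.Agent.R276.NL_137

open Crest.Agent.R271.Ho51

/-! ### the function `SM` -/

/-- smooth step from `0` (at `-1`) to `1` (at `1`) -/
def ss (t : ℝ) : ℝ := Real.smoothTransition ((t + 1) / 2)

lemma ss_contDiff : ContDiff ℝ (⊤ : ℕ∞) ss :=
  Real.smoothTransition.contDiff.comp (by fun_prop)

lemma ss_nonneg (t : ℝ) : 0 ≤ ss t := Real.smoothTransition.nonneg _
lemma ss_le_one (t : ℝ) : ss t ≤ 1 := Real.smoothTransition.le_one _
lemma ss_zero {t : ℝ} (ht : t ≤ -1) : ss t = 0 :=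
  Real.smoothTransition.zero_of_nonpos (by linarith)
lemma ss_one {t : ℝ} (ht : 1 ≤ t) : ss t = 1 :=
  Real.smoothTransition.one_of_one_le (by linarith)
lemma ss_mono : Monotone ss := fun a b h => Real.smoothTransition.monotone (by linarith)
lemma ss_add (t : ℝ) : ss t + ss (-t) = 1 := by
  unfold ss Real.smoothTransition
  have e1 : 1 - (t + 1) / 2 = (-t + 1) / 2 := by ring
  have e2 : 1 - (-t + 1) / 2 = (t + 1) / 2 := by ring
  rw [e1, e2]
  have h := Real.smoothTransition.pos_denom ((t + 1) / 2)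
  rw [e1] at h
  rw [add_comm (expNegInvGlue ((-t + 1) / 2))]
  rw [← add_div, div_self h.ne']

/-- smooth convex regularisation of `max t 0` -/
def SM (t : ℝ) : ℝ := ∫ u in (-1 : ℝ)..t, ss u

lemma ss_cont : Continuous ss := ss_contDiff.continuous

lemma SM_hasDerivAt (t : ℝ) : HasDerivAt SM (ss t) t :=
  intervalIntegral.integral_hasDerivAt_right (ss_cont.intervalIntegrable _ _)
    (ss_cont.stronglyMeasurableAtFilter _ _) ss_cont.continuousAt

lemma deriv_SM : deriv SM = ss := funext fun t => (SM_hasDerivAt t).deriv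

lemma SM_contDiff : ContDiff ℝ (⊤ : ℕ∞) SM := by
  rw [contDiff_infty_iff_deriv]
  refine ⟨fun t => (SM_hasDerivAt t).differentiableAt, ?_⟩
  rw [deriv_SM]; exact ss_contDiff

lemma SM_zero {t : ℝ} (ht : t ≤ -1) : SM t = 0 := by
  unfold SM
  rw [intervalIntegral.integral_symm, neg_eq_zero]
  refine (intervalIntegral.integral_congr (g := fun _ => (0 : ℝ)) fun u hu => ?_).trans (by simp)
  rw [uIcc_of_le ht] at hu
  exact ss_zero hu.2

lemma SM_one : SM 1 = 1 := by
  have h1 : ∫ u in (-1 : ℝ)..1, ss (-u) = SM 1 := by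
    rw [intervalIntegral.integral_comp_neg]; simp [SM]
  have h2 : (∫ u in (-1 : ℝ)..1, ss (-u)) + ∫ u in (-1 : ℝ)..1, ss u = 2 := by
    rw [← intervalIntegral.integral_add]
    · have : ∀ u : ℝ, ss (-u) + ss u = 1 := fun u => by rw [add_comm]; exact ss_add u
      simp only [this]
      simp; norm_num
    · exact (ss_cont.comp continuous_neg).intervalIntegrable _ _
    · exact ss_cont.intervalIntegrable _ _
  rw [h1] at h2
  have h3 : SM 1 + SM 1 = 2 := h2
  linarith

lemma SM_id {t : ℝ} (ht : 1 ≤ t) : SM t = t := by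
  have h1 : SM t = SM 1 + ∫ u in (1 : ℝ)..t, ss u := by
    unfold SM
    rw [intervalIntegral.integral_add_adjacent_intervals (ss_cont.intervalIntegrable _ _)
      (ss_cont.intervalIntegrable _ _)]
  have h2 : ∫ u in (1 : ℝ)..t, ss u = t - 1 := by
    refine (intervalIntegral.integral_congr (g := fun _ => (1 : ℝ)) fun u hu => ?_).trans (by simp)
    rw [uIcc_of_le ht] at hu
    exact ss_one hu.1
  rw [h1, h2, SM_one]; ring

lemma SM_mono : Monotone SM :=
  monotone_of_deriv_nonneg (fun t => (SM_hasDerivAt t).differentiableAt) fun t => by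
    rw [deriv_SM]; exact ss_nonneg t

lemma SM_nonneg (t : ℝ) : 0 ≤ SM t := by
  rcases le_total t (-1) with h | h
  · rw [SM_zero h]
  · rw [← SM_zero (le_refl (-1))]; exact SM_mono h

lemma SM_le (t : ℝ) : SM t ≤ max t 0 + 1 := by
  rcases le_total t 1 with h | h
  · have := SM_mono h
    rw [SM_one] at this
    linarith [le_max_right t 0]
  · rw [SM_id h]
    linarith [le_max_left t 0]

lemma deriv_ss_nonneg (t : ℝ) : 0 ≤ deriv ss t := ss_mono.deriv_nonneg

/-! ### the truncated logarithm -/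

/-- `smoothmax (log t) (-j)` as a smooth function of `t ∈ ℝ` -/
def VL (j : ℝ) (t : ℝ) : ℝ := if 0 < t then -j + SM (Real.log t + j) else -j

lemma VL_of_pos (j : ℝ) {t : ℝ} (ht : 0 < t) : VL j t = -j + SM (Real.log t + j) := by
  rw [VL, if_pos ht]

lemma VL_small (j : ℝ) {t : ℝ} (ht : t ≤ Real.exp (-j - 1)) : VL j t = -j := by
  by_cases h : 0 < t
  · rw [VL_of_pos j h, SM_zero, add_zero]
    have := (Real.log_le_iff_le_exp h).2 ht
    linarith
  · rw [VL, if_neg h]

lemma VL_large (j : ℝ) {t : ℝ} (ht : Real.exp (-j + 1) ≤ t) : VL j t = Real.log t := by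
  have h : 0 < t := (Real.exp_pos _).trans_le ht
  rw [VL_of_pos j h, SM_id]
  · ring
  · have := (Real.le_log_iff_exp_le h).2 ht
    linarith

lemma VL_contDiff (j : ℝ) : ContDiff ℝ (⊤ : ℕ∞) (VL j) := by
  rw [contDiff_iff_contDiffAt]
  intro t
  rcases lt_or_ge 0 t with h | h
  · have h1 : ContDiffAt ℝ (⊤ : ℕ∞) (fun t => -j + SM (Real.log t + j)) t := by
      refine contDiffAt_const.add (SM_contDiff.contDiffAt.comp t ?_)
      exact (Real.contDiffAt_log.2 h.ne').add contDiffAt_const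
    refine h1.congr_of_eventuallyEq ?_
    filter_upwards [lt_mem_nhds h] with s hs
    exact VL_of_pos j hs
  · have h1 : ContDiffAt ℝ (⊤ : ℕ∞) (fun _ : ℝ => -j) t := contDiffAt_const
    refine h1.congr_of_eventuallyEq ?_
    filter_upwards [gt_mem_nhds (h.trans_lt (Real.exp_pos (-j - 1)))] with s hs
    exact VL_small j hs.le

lemma VL_le (j : ℝ) {t : ℝ} (ht : 0 < t) : VL j t ≤ max (Real.log t) (-j) + 1 := by
  rw [VL_of_pos j ht]
  have := SM_le (Real.log t + j)
  have h2 : -j + max (Real.log t + j) 0 = max (Real.log t) (-j) := by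
    rw [← max_add_add_left]; congr 1 <;> ring
  linarith

lemma VL_ge (j t : ℝ) : -j ≤ VL j t := by
  by_cases h : 0 < t
  · rw [VL_of_pos j h]; linarith [SM_nonneg (Real.log t + j)]
  · rw [VL, if_neg h]

/-! ### Levi forms -/

variable {n : ℕ} {M : Type*} [TopologicalSpace M] [RDom n M]

lemma Lv_congr {φ χ : M → ℝ} {x : M} (h : φ =ᶠ[𝓝 x] χ) (j k : Fin n) :
    Lv φ x j k = Lv χ x j k := by
  unfold Lv
  apply dz_congr
  filter_upwards [eventually_eventually_nhds.2 h] with y hy
  apply db_congr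
  filter_upwards [hy] with z hz
  rw [hz]

lemma LvM_congr {φ χ : M → ℝ} {x : M} (h : φ =ᶠ[𝓝 x] χ) : LvM φ x = LvM χ x := by
  ext j k; exact Lv_congr h j k

lemma Levi_congr {φ χ : M → ℝ} {x : M} (h : φ =ᶠ[𝓝 x] χ) (w : Fin n → ℂ) :
    Levi φ x w = Levi χ x w := by
  unfold Levi
  simp only [Lv_congr h]

lemma Lv_const (c : ℝ) (x : M) (j k : Fin n) : Lv (fun _ : M => c) x j k = 0 := by
  unfold Lv
  have : db k (fun _ : M => (c : ℂ)) = fun _ => 0 := by
    funext y; exact db_const _ _ _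
  rw [this, dz_const]

lemma Levi_const (c : ℝ) (x : M) (w : Fin n → ℂ) : Levi (fun _ : M => c) x w = 0 := by
  simp [Levi, Lv_const]

lemma Lv_add {φ χ : M → ℝ} (hφ : Sm φ) (hχ : Sm χ) (x : M) (j k : Fin n) :
    Lv (fun y => φ y + χ y) x j k = Lv φ x j k + Lv χ x j k := by
  unfold Lv
  rw [← dz_add (hφ.ofReal.db k) (hχ.ofReal.db k)]
  apply dz_congr
  refine Eventually.of_forall fun y => ?_
  have := db_add hφ.ofReal hχ.ofReal k y
  show db k (fun y => ((φ y + χ y : ℝ) : ℂ)) y =
    db k (fun x => (φ x : ℂ)) y + db k (fun x => (χ x : ℂ)) y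
  rw [← this]
  apply db_congr
  refine Eventually.of_forall fun z => ?_
  simp

lemma Lv_const_mul {φ : M → ℝ} (hφ : Sm φ) (c : ℝ) (x : M) (j k : Fin n) :
    Lv (fun y => c * φ y) x j k = c * Lv φ x j k := by
  unfold Lv
  rw [← dz_const_mul (hφ.ofReal.db k)]
  apply dz_congr
  refine Eventually.of_forall fun y => ?_
  have := db_const_mul hφ.ofReal (c : ℂ) k y
  show db k (fun y => ((c * φ y : ℝ) : ℂ)) y = (c : ℂ) * db k (fun x => (φ x : ℂ)) y
  rw [← this]
  apply db_congr
  refine Eventually.of_forall fun z => ?_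
  simp

lemma Levi_const_mul {φ : M → ℝ} (hφ : Sm φ) (c : ℝ) (x : M) (w : Fin n → ℂ) :
    Levi (fun y => c * φ y) x w = c * Levi φ x w := by
  unfold Levi
  simp only [Lv_const_mul hφ]
  rw [← Complex.re_ofReal_mul, Finset.mul_sum]
  congr 1
  refine Finset.sum_congr rfl fun j _ => ?_
  rw [Finset.mul_sum]
  exact Finset.sum_congr rfl fun k _ => by ring

/-- the smooth maximum of two psh functions is psh -/
theorem Levi_smax_nonneg {a b : M → ℝ} (ha : Sm a) (hb : Sm b) {x : M} {w : Fin n → ℂ}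
    (h1 : 0 ≤ Levi a x w) (h2 : 0 ≤ Levi b x w) :
    0 ≤ Levi (fun y => b y + SM (a y - b y)) x w := by
  have hab : Sm (fun y => a y - b y) := ha.sub hb
  have hS : Sm (fun y => SM (a y - b y)) := Sm.comp SM_contDiff hab
  rw [Levi_add hb hS, Levi_comp hab SM_contDiff, deriv_SM]
  have h3 : Levi (fun y => a y - b y) x w = Levi a x w - Levi b x w := by
    have h4 : (fun y => a y - b y) = fun y => a y + (-1) * b y := by funext y; ring
    rw [h4, Levi_add ha ((Sm.const (-1 : ℝ)).mulR hb), Levi_const_mul hb]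
    ring
  rw [h3]
  have h5 := ss_nonneg (a x - b x)
  have h6 := ss_le_one (a x - b x)
  have h7 : 0 ≤ deriv ss (a x - b x) * ‖∑ j, dz j (fun y => ((a y - b y : ℝ) : ℂ)) x * w j‖ ^ 2 :=
    mul_nonneg (deriv_ss_nonneg _) (by positivity)
  have h8 : Levi b x w + ss (a x - b x) * (Levi a x w - Levi b x w) =
      (1 - ss (a x - b x)) * Levi b x w + ss (a x - b x) * Levi a x w := by ring
  have h9 : 0 ≤ (1 - ss (a x - b x)) * Levi b x w + ss (a x - b x) * Levi a x w :=
    add_nonneg (mul_nonneg (by linarith) h2) (mul_nonneg h5 h1)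
  linarith

/-! ### determinant of a nonnegative Levi matrix -/

open scoped ComplexOrder in
lemma LvM_posSemidef {φ : M → ℝ} (hφ : Sm φ) {x : M} (h : ∀ w, 0 ≤ Levi φ x w) :
    (LvM φ x).PosSemidef := by
  refine Matrix.PosSemidef.of_dotProduct_mulVec_nonneg ?_ fun v => ?_
  · ext j k
    rw [Matrix.conjTranspose_apply]
    exact Lv_conj hφ x k j
  · have h1 : star v ⬝ᵥ (LvM φ x *ᵥ v) = ((Levi φ x (fun j => conj (v j)) : ℝ) : ℂ) := by
      rw [Levi_eq hφ]
      simp only [dotProduct, Matrix.mulVec, Finset.mul_sum, LvM, Matrix.of_apply, Pi.star_apply]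
      refine Finset.sum_congr rfl fun j _ => Finset.sum_congr rfl fun k _ => ?_
      simp only [Complex.conj_conj, RCLike.star_def]
      ring
    rw [h1]
    exact_mod_cast h _

open scoped ComplexOrder in
/-- `det Lv φ` is a nonnegative real number when the Levi form is nonnegative -/
lemma det_LvM_nonneg {φ : M → ℝ} (hφ : Sm φ) {x : M} (h : ∀ w, 0 ≤ Levi φ x w) :
    0 ≤ (LvM φ x).det.re ∧ ((LvM φ x).det.re : ℂ) = (LvM φ x).det := by
  have h1 := (LvM_posSemidef hφ h).det_nonneg
  have h2 := (Complex.le_def.1 h1)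
  exact ⟨h2.1, Complex.ext (by simp) (by simpa using h2.2)⟩

end Crest.Agent.R276.NL_137
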