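import Mathlib

/-!
# R276, leaf FLATALG (helper464): the mean value inequality for `‖f‖ ^ q`, `q > 0`

* `rpow_le_circleAverage` : one variable, circles (Jensen's formula and Jensen's inequality);
* `submean` : `volume (ball x r) * ‖f x‖ₑ ^ q ≤ ∫⁻ y in ball x r, ‖f y‖ₑ ^ q` in `ℂⁿ` (sup norm).
-/

set_option autoImplicit false

open MeasureTheory Metric Set Filter Topology
open scoped ENNReal Real

namespace Crest.Agent.R276.Lq_464

theorem log_le_circleAverage {f : ℂ → ℂ} {c : ℂ} {R : ℝ} (hR : 0 < R)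
    (hf : AnalyticOnNhd ℂ f (closedBall c R)) (h0 : f c ≠ 0) :
    Real.log ‖f c‖ ≤ Real.circleAverage (fun z => Real.log ‖f z‖) c R := by
  have hf' : AnalyticOnNhd ℂ f (closedBall c |R|) := by rwa [abs_of_pos hR]
  rw [hf'.circleAverage_log_norm hR.ne' h0]
  have : 0 ≤ ∑ᶠ u, (MeromorphicOn.divisor f (closedBall c |R|) u : ℝ) *
      Real.log (R * ‖c - u‖⁻¹) := by
    apply finsum_nonneg
    intro u
    by_cases hu : u ∈ closedBall c |R|
    · apply mul_nonneg
      · exact_mod_cast (MeromorphicOn.AnalyticOnNhd.divisor_nonneg hf') u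
      · by_cases huc : c = u
        · simp [huc]
        · apply Real.log_nonneg
          have h1 : 0 < ‖c - u‖ := norm_pos_iff.2 (sub_ne_zero.2 huc)
          rw [← div_eq_mul_inv, one_le_div h1]
          rw [abs_of_pos hR, mem_closedBall, dist_comm, dist_eq_norm] at hu
          exact hu
    · simp [Function.locallyFinsuppWithin.apply_eq_zero_of_notMem _ hu]
  linarith

/-- the mean value inequality for `‖f‖ ^ q` on circles -/
theorem rpow_le_circleAverage {f : ℂ → ℂ} {c : ℂ} {R q : ℝ} (hR : 0 < R) (hq : 0 < q)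
    (hf : AnalyticOnNhd ℂ f (closedBall c R)) :
    ‖f c‖ ^ q ≤ Real.circleAverage (fun z => ‖f z‖ ^ q) c R := by
  by_cases h0 : f c = 0
  · rw [h0, norm_zero, Real.zero_rpow hq.ne']
    apply Real.circleAverage_nonneg_of_nonneg
    intro z _
    positivity
  have h1 := log_le_circleAverage hR hf h0
  have hf' : AnalyticOnNhd ℂ f (sphere c |R|) := by
    rw [abs_of_pos hR]; exact hf.mono sphere_subset_closedBall
  have hne : ∀ᶠ z in codiscreteWithin (closedBall c R), f z ≠ 0 := by
    rcases hf.eqOn_zero_or_eventually_ne_zero_of_preconnected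
      (convex_closedBall c R).isPreconnected with h | h
    · exact absurd (h (mem_closedBall_self hR.le)) h0
    · exact h
  have hne' : ∀ᶠ z in codiscreteWithin (sphere c |R|), f z ≠ 0 := by
    rw [abs_of_pos hR]
    exact hne.filter_mono (codiscreteWithin_mono sphere_subset_closedBall)
  have hcont : Continuous (fun θ : ℝ => ‖f (circleMap c R θ)‖ ^ q) := by
    refine Continuous.rpow_const ?_ (fun _ => Or.inr hq.le)
    apply Continuous.norm
    rw [continuous_iff_continuousAt]
    intro θ
    exact ((hf' _ (circleMap_mem_sphere' c R θ)).continuousAt).comp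
      (continuous_circleMap c R).continuousAt
  have hae : ∀ᵐ θ ∂(volume.restrict (Ioc 0 (2 * π))), f (circleMap c R θ) ≠ 0 := by
    have h2 : {θ : ℝ | f (circleMap c R θ) ≠ 0} ∈ codiscrete ℝ :=
      circleMap_preimage_codiscrete hR.ne' hne'
    have h3 := ae_restrict_le_codiscreteWithin (μ := (volume : Measure ℝ)) (U := Ioc 0 (2 * π))
      measurableSet_Ioc
    exact h3 (codiscreteWithin_mono (subset_univ _) h2)
  have hpi : (0 : ℝ) ≤ 2 * π := by positivity
  have hint : CircleIntegrable (fun z => Real.log ‖f z‖) c R :=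
    hf'.meromorphicOn.circleIntegrable_log_norm
  have hint2 : IntegrableOn (fun θ => Real.log ‖f (circleMap c R θ)‖) (Ioc 0 (2 * π)) volume :=
    (intervalIntegrable_iff_integrableOn_Ioc_of_le hpi).1 hint
  set μ : Measure ℝ := volume.restrict (Ioc 0 (2 * π)) with hμ
  have hfin : IsFiniteMeasure μ := by rw [hμ]; infer_instance
  have hμ0 : NeZero μ := by
    refine ⟨fun h => ?_⟩
    have h2 : μ univ = 0 := by rw [h]; simp
    rw [hμ, Measure.restrict_apply_univ, Real.volume_Ioc] at h2
    have := Real.pi_pos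
    rw [ENNReal.ofReal_eq_zero] at h2
    linarith
  have heq : (Real.exp ∘ fun θ => q * Real.log ‖f (circleMap c R θ)‖) =ᵐ[μ]
      fun θ => ‖f (circleMap c R θ)‖ ^ q := by
    filter_upwards [hae] with θ hθ
    rw [Function.comp_apply, Real.rpow_def_of_pos (norm_pos_iff.2 hθ), mul_comm]
  have hintq : Integrable (fun θ => ‖f (circleMap c R θ)‖ ^ q) μ :=
    ((intervalIntegrable_iff_integrableOn_Ioc_of_le hpi).1 (hcont.intervalIntegrable 0 (2 * π)))
  have hJ := ConvexOn.map_average_le (μ := μ) (f := fun θ => q * Real.log ‖f (circleMap c R θ)‖)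
    convexOn_exp Real.continuous_exp.continuousOn isClosed_univ (Eventually.of_forall fun _ => mem_univ _)
    (hint2.const_mul q) (hintq.congr heq.symm)
  have hav : ∀ g : ℝ → ℝ, ⨍ θ, g θ ∂μ = (2 * π)⁻¹ * ∫ θ in (0 : ℝ)..(2 * π), g θ := by
    intro g
    rw [average_eq, intervalIntegral.integral_of_le hpi, hμ, smul_eq_mul]
    congr 2
    rw [Measure.real, Measure.restrict_apply_univ, Real.volume_Ioc, sub_zero,
      ENNReal.toReal_ofReal hpi]
  have h4 : ⨍ θ, Real.exp (q * Real.log ‖f (circleMap c R θ)‖) ∂μ =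
      Real.circleAverage (fun z => ‖f z‖ ^ q) c R := by
    have h5 : ⨍ θ, Real.exp (q * Real.log ‖f (circleMap c R θ)‖) ∂μ =
        ⨍ θ, ‖f (circleMap c R θ)‖ ^ q ∂μ := average_congr heq
    rw [h5, hav]
    rfl
  have h6 : ⨍ θ, q * Real.log ‖f (circleMap c R θ)‖ ∂μ =
      q * Real.circleAverage (fun z => Real.log ‖f z‖) c R := by
    rw [hav, intervalIntegral.integral_const_mul]
    unfold Real.circleAverage
    rw [smul_eq_mul]
    ring
  rw [h4, h6] at hJ
  calc ‖f c‖ ^ q = Real.exp (q * Real.log ‖f c‖) := by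
        rw [Real.rpow_def_of_pos (norm_pos_iff.2 h0), mul_comm]
    _ ≤ Real.exp (q * Real.circleAverage (fun z => Real.log ‖f z‖) c R) := by gcongr
    _ ≤ _ := hJ


/-! ### several variables -/

section several

variable {n : ℕ}

/-- rotation by a unit complex number preserves Lebesgue measure -/
theorem mp_rot (u : ℂ) (hu : ‖u‖ = 1) :
    MeasurePreserving (fun v : Fin n → ℂ => u • v) volume volume := by
  have h1 : MeasurePreserving (fun w : ℂ => u * w) volume volume := by
    exact (rotation ⟨u, mem_sphere_zero_iff_norm.2 hu⟩).measurePreserving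
  exact MeasureTheory.volume_preserving_pi (fun _ : Fin n => h1)

/-- `L^q` mean value inequality on balls (sup norm) of `ℂⁿ` -/
theorem submean {f : (Fin n → ℂ) → ℂ} {x : Fin n → ℂ} {r q : ℝ} {D : Set (Fin n → ℂ)}
    (hD : IsOpen D) (hf : DifferentiableOn ℂ f D) (hB : closedBall x r ⊆ D) (hq : 0 < q) :
    volume (ball x r) * ‖f x‖ₑ ^ q ≤ ∫⁻ y in ball x r, ‖f y‖ₑ ^ q := by
  classical
  rcases le_or_gt r 0 with hr | hr
  · rw [ball_eq_empty.2 hr]; simp
  set F : (Fin n → ℂ) → ℂ := D.piecewise f 0 with hF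
  have hFm : Measurable F :=
    ContinuousOn.measurable_piecewise hf.continuousOn continuousOn_const hD.measurableSet
  have hFf : ∀ y ∈ D, F y = f y := fun y hy => by rw [hF]; simp [hy]
  have hball : ball x r ⊆ D := ball_subset_closedBall.trans hB
  -- the inequality along a line
  have hline : ∀ v ∈ ball (0 : Fin n → ℂ) r,
      ENNReal.ofReal (2 * π) * ‖f x‖ₑ ^ q ≤
        ∫⁻ θ in Ioc 0 (2 * π), ‖F (x + circleMap 0 1 θ • v)‖ₑ ^ q := by
    intro v hv
    have hv' : ‖v‖ < r := by simpa using hv
    have hmem : ∀ t : ℂ, ‖t‖ ≤ 1 → x + t • v ∈ D := by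
      intro t ht
      apply hB
      rw [mem_closedBall, dist_eq_norm, add_sub_cancel_left, norm_smul]
      nlinarith [norm_nonneg v, norm_nonneg t]
    set U : Set ℂ := (fun t : ℂ => x + t • v) ⁻¹' D with hU
    have hUo : IsOpen U := hD.preimage (by fun_prop)
    have hg : AnalyticOnNhd ℂ (fun t : ℂ => f (x + t • v)) (closedBall 0 1) := by
      have h1 : DifferentiableOn ℂ (fun t : ℂ => f (x + t • v)) U := by
        refine hf.comp ?_ (fun t ht => ht)
        intro t _
        apply DifferentiableAt.differentiableWithinAt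
        fun_prop
      have h2 : AnalyticOnNhd ℂ (fun t : ℂ => f (x + t • v)) U := h1.analyticOnNhd hUo
      refine h2.mono ?_
      intro t ht
      exact hmem t (by simpa using ht)
    have h3 := rpow_le_circleAverage one_pos hq hg
    simp only [zero_smul, add_zero] at h3
    have hcont : Continuous (fun θ : ℝ => ‖f (x + circleMap 0 1 θ • v)‖ ^ q) := by
      refine Continuous.rpow_const ?_ (fun _ => Or.inr hq.le)
      apply Continuous.norm
      rw [continuous_iff_continuousAt]
      intro θ
      have h4 : ContinuousAt f (x + circleMap 0 1 θ • v) :=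
        (hf.continuousOn).continuousAt (hD.mem_nhds (hmem _ (by simp)))
      have h5 : ContinuousAt (fun θ : ℝ => x + circleMap 0 1 θ • v) θ := by
        have := (continuous_circleMap 0 1).continuousAt (x := θ)
        fun_prop
      exact ContinuousAt.comp (f := fun θ : ℝ => x + circleMap 0 1 θ • v) h4 h5
    have h6 : ‖f x‖ ^ q * (2 * π) ≤ ∫ θ in Ioc 0 (2 * π), ‖f (x + circleMap 0 1 θ • v)‖ ^ q := by
      unfold Real.circleAverage at h3
      rw [intervalIntegral.integral_of_le (by positivity), smul_eq_mul] at h3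
      have hpi : 0 < 2 * π := by positivity
      rw [← le_div_iff₀ hpi, div_eq_inv_mul]
      exact h3
    have hint : Integrable (fun θ : ℝ => ‖f (x + circleMap 0 1 θ • v)‖ ^ q)
        (volume.restrict (Ioc 0 (2 * π))) := by
      exact (intervalIntegrable_iff_integrableOn_Ioc_of_le (by positivity)).1
        (hcont.intervalIntegrable 0 (2 * π))
    have h7 := ENNReal.ofReal_le_ofReal h6
    rw [ofReal_integral_eq_lintegral_ofReal hint
      (Eventually.of_forall fun θ => by positivity)] at h7
    have h8 : ∀ y : Fin n → ℂ, ENNReal.ofReal (‖f y‖ ^ q) = ‖f y‖ₑ ^ q := by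
      intro y
      rw [← ENNReal.ofReal_rpow_of_nonneg (norm_nonneg _) hq.le, ofReal_norm]
    rw [ENNReal.ofReal_mul (by positivity), h8] at h7
    rw [mul_comm]
    refine h7.trans (le_of_eq (lintegral_congr fun θ => ?_))
    rw [h8, hFf _ (hmem _ (by simp))]
  -- integrate over the ball
  have hprod : Measurable fun p : (Fin n → ℂ) × ℝ => ‖F (x + circleMap 0 1 p.2 • p.1)‖ₑ ^ q := by
    have h1 : Measurable fun p : (Fin n → ℂ) × ℝ => x + circleMap 0 1 p.2 • p.1 := by
      apply Continuous.measurable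
      have := continuous_circleMap 0 1
      fun_prop
    exact ((hFm.comp h1).enorm).pow_const q
  have hrot : ∀ θ : ℝ, ∫⁻ v in ball (0 : Fin n → ℂ) r, ‖F (x + circleMap 0 1 θ • v)‖ₑ ^ q =
      ∫⁻ y in ball x r, ‖f y‖ₑ ^ q := by
    intro θ
    have hu : ‖circleMap 0 1 θ‖ = 1 := by simp
    have hmp : MeasurePreserving (fun v : Fin n → ℂ => x + circleMap 0 1 θ • v) volume volume :=
      (measurePreserving_add_left volume x).comp (mp_rot _ hu)
    have hpre : (fun v : Fin n → ℂ => x + circleMap 0 1 θ • v) ⁻¹' (ball x r) =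
        ball (0 : Fin n → ℂ) r := by
      ext v
      simp only [mem_preimage, mem_ball, dist_eq_norm, add_sub_cancel_left, norm_smul, hu, one_mul,
        sub_zero]
    rw [← hpre, hmp.setLIntegral_comp_preimage (f := fun y => ‖F y‖ₑ ^ q) measurableSet_ball
      (hFm.enorm.pow_const q)]
    refine setLIntegral_congr_fun measurableSet_ball fun y hy => ?_
    simp only [hFf y (hball hy)]
  have hpi : ENNReal.ofReal (2 * π) ≠ 0 := by
    have : (0 : ℝ) < 2 * π := by positivity
    simpa using this
  have key : ENNReal.ofReal (2 * π) * (volume (ball x r) * ‖f x‖ₑ ^ q) ≤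
      ENNReal.ofReal (2 * π) * ∫⁻ y in ball x r, ‖f y‖ₑ ^ q := by
    calc ENNReal.ofReal (2 * π) * (volume (ball x r) * ‖f x‖ₑ ^ q)
        = ∫⁻ v in ball (0 : Fin n → ℂ) r, ENNReal.ofReal (2 * π) * ‖f x‖ₑ ^ q := by
          rw [setLIntegral_const]
          have : volume (ball x r) = volume (ball (0 : Fin n → ℂ) r) := by
            rw [← Measure.addHaar_ball_center]
          rw [this]; ring
      _ ≤ ∫⁻ v in ball (0 : Fin n → ℂ) r,
            ∫⁻ θ in Ioc 0 (2 * π), ‖F (x + circleMap 0 1 θ • v)‖ₑ ^ q :=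
          setLIntegral_mono' measurableSet_ball hline
      _ = ∫⁻ θ in Ioc 0 (2 * π), ∫⁻ v in ball (0 : Fin n → ℂ) r,
            ‖F (x + circleMap 0 1 θ • v)‖ₑ ^ q := by
          rw [lintegral_lintegral_swap]
          exact hprod.aemeasurable
      _ = ∫⁻ _ in Ioc 0 (2 * π), ∫⁻ y in ball x r, ‖f y‖ₑ ^ q := by
          simp only [hrot]
      _ = _ := by
          rw [setLIntegral_const, Real.volume_Ioc, sub_zero, mul_comm]
  exact (ENNReal.mul_le_mul_iff_right hpi ENNReal.ofReal_ne_top).1 key

end several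

end Crest.Agent.R276.Lq_464
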