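import Mathlib
import Crest.Agent.R271.H3_51
import Crest.Agent.R271.Bd_741

/-!
# Area formula / change of coordinates on Riemann domains (helper448, row 276)

`M` a Riemann domain (`RDom n M`) with Lebesgue measure `μ`, `q : M → ℂⁿ` a holomorphic map with
Jacobian `J`.  For measurable `f : M → [0,∞]`:
`∫_M f |J|² dμ = ∫_{ℂⁿ} (∑_{q x = η, J x ≠ 0} f x) dη`.
-/

set_option autoImplicit false

open scoped Topology ENNReal
open Filter Set MeasureTheory

noncomputable section

namespace Crest.Agent.R276.Area_448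

open Crest.Agent.R271.Ho51 Crest.Agent.R271.Bd741

variable {n : ℕ} {M : Type*} [TopologicalSpace M] [RDom n M]

/-- `q` has strict complex derivative `q' x` at `x`, in the coordinates of `M` -/
def SD (q : M → (Fin n → ℂ)) (q' : M → ((Fin n → ℂ) →L[ℂ] (Fin n → ℂ))) : Prop :=
  ∀ x : M, HasStrictFDerivAt (q ∘ (ch x).symm) (q' x) (cp x)

variable {q : M → (Fin n → ℂ)} {q' : M → ((Fin n → ℂ) →L[ℂ] (Fin n → ℂ))}

lemma SD.chart (hq : SD q q') {e : OpenPartialHomeomorph M (Fin n → ℂ)} (he : IsCh e) {x : M}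
    (hx : x ∈ e.source) : HasStrictFDerivAt (q ∘ e.symm) (q' x) (cp x) := by
  refine (hq x).congr_of_eventuallyEq ?_
  filter_upwards [(isCh_ch x).germ he (mem_ch x) hx] with z hz
  simp only [Function.comp_apply, hz]

lemma SD.chart' (hq : SD q q') {e : OpenPartialHomeomorph M (Fin n → ℂ)} (he : IsCh e)
    {z : Fin n → ℂ} (hz : z ∈ e.target) : HasStrictFDerivAt (q ∘ e.symm) (q' (e.symm z)) z := by
  have h := hq.chart he (x := e.symm z) (e.map_target hz)
  rwa [he.cp_symm hz] at h

/-- near a point with nonvanishing Jacobian, `q` is injective -/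
lemma exists_inj (hq : SD q q') (x : M) (hx : (q' x).det ≠ 0) :
    ∃ U : Set M, IsOpen U ∧ x ∈ U ∧ U ⊆ (ch x).source ∧ InjOn q U := by
  let e' := (q' x).toContinuousLinearEquivOfDetNeZero hx
  have he' : (e' : (Fin n → ℂ) →L[ℂ] (Fin n → ℂ)) = q' x :=
    ContinuousLinearMap.coe_toContinuousLinearEquivOfDetNeZero _ _
  have hd : HasStrictFDerivAt (q ∘ (ch x).symm) (e' : (Fin n → ℂ) →L[ℂ] (Fin n → ℂ)) (cp x) := by
    rw [he']; exact hq x
  set h := hd.toOpenPartialHomeomorph (q ∘ (ch x).symm) with hh
  have hinj : InjOn (q ∘ (ch x).symm) h.source := by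
    have := h.injOn
    rwa [hd.toOpenPartialHomeomorph_coe] at this
  have hmem : cp x ∈ h.source := hd.mem_toOpenPartialHomeomorph_source
  refine ⟨(ch x).source ∩ cp ⁻¹' h.source, (ch x).open_source.inter
    (h.open_source.preimage cp_cont), ⟨mem_ch x, hmem⟩, inter_subset_left, ?_⟩
  rintro a ⟨ha, ha'⟩ b ⟨hb, hb'⟩ hab
  have h1 : (ch x).symm (cp a) = a := (isCh_ch x).symm_cp ha
  have h2 : (ch x).symm (cp b) = b := (isCh_ch x).symm_cp hb
  have h3 : cp a = cp b := hinj ha' hb' (by simp only [Function.comp_apply, h1, h2]; exact hab)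
  rw [← h1, ← h2, h3]

variable [MeasurableSpace M] [BorelSpace M]

/-- one piece: `A` a Borel subset of a chart on which `q` is injective -/
theorem piece {μ : Measure M} (hμ : IsLeb μ) (hq : SD q q')
    {e : OpenPartialHomeomorph M (Fin n → ℂ)} (he : IsCh e) {A : Set M} (hA : MeasurableSet A)
    (hAe : A ⊆ e.source) (hinj : InjOn q A) {f : M → ℝ≥0∞} (hf : Measurable f) :
    ∃ G : (Fin n → ℂ) → ℝ≥0∞, Measurable G ∧
      (∀ η, G η = ∑' x : {x : M // q x = η}, A.indicator f x.1) ∧
      ∫⁻ x in A, f x * ENNReal.ofReal (‖(q' x).det‖ ^ 2) ∂μ = ∫⁻ η, G η := by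
  classical
  set s : Set (Fin n → ℂ) := e.target ∩ e.symm ⁻¹' A with hs
  set φ : (Fin n → ℂ) → (Fin n → ℂ) := q ∘ e.symm with hφ
  -- measurability of `s`
  have hsm : MeasurableSet s := by
    have h1 : MeasurableSet (e.target.domRestrict e.symm ⁻¹' A) :=
      (continuousOn_iff_continuous_domRestrict.1 e.symm.continuousOn).measurable hA
    have h2 : s = Subtype.val '' (e.target.domRestrict e.symm ⁻¹' A) := by
      ext z
      simp only [hs, mem_inter_iff, mem_preimage, mem_image, Subtype.exists,
        exists_and_right, exists_eq_right]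
      constructor
      · rintro ⟨h1, h2⟩; exact ⟨h1, h2⟩
      · rintro ⟨h1, h2⟩; exact ⟨h1, h2⟩
    rw [h2]
    exact e.open_target.measurableSet.subtype_image h1
  have hsinj : InjOn φ s := by
    rintro a ⟨ha, ha'⟩ b ⟨hb, hb'⟩ hab
    have h1 := hinj ha' hb' hab
    have h2 := congrArg cp h1
    rwa [he.cp_symm ha, he.cp_symm hb] at h2
  have hder : ∀ z ∈ s, HasFDerivWithinAt φ ((q' (e.symm z)).restrictScalars ℝ) s z := by
    intro z hz
    exact ((hq.chart' he hz.1).hasFDerivAt.restrictScalars ℝ).hasFDerivWithinAt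
  -- the function `G`
  have hemb := measurableEmbedding_of_fderivWithin (E := Fin n → ℂ) hsm hder hsinj
  let G : (Fin n → ℂ) → ℝ≥0∞ := Function.extend (s.domRestrict φ) (fun z => f (e.symm z.1)) 0
  have hfm : Measurable (fun z : s => f (e.symm z.1)) := by
    apply hf.comp
    have h1 : Continuous (e.target.domRestrict e.symm) :=
      continuousOn_iff_continuous_domRestrict.1 e.symm.continuousOn
    have h2 : Continuous (fun z : s => (⟨z.1, z.2.1⟩ : e.target)) :=
      continuous_subtype_val.subtype_mk _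
    exact (h1.comp h2).measurable
  have hGm : Measurable G := hemb.measurable_extend hfm measurable_zero
  have hG1 : ∀ z (hz : z ∈ s), G (φ z) = f (e.symm z) := by
    intro z hz
    exact hemb.injective.extend_apply (fun z : s => f (e.symm z.1)) 0 ⟨z, hz⟩
  have hG2 : ∀ η, η ∉ φ '' s → G η = 0 := by
    intro η hη
    apply Function.extend_apply'
    rintro ⟨⟨z, hz⟩, h⟩
    exact hη ⟨z, hz, h⟩
  have hAs : ∀ x ∈ A, cp x ∈ s ∧ e.symm (cp x) = x := by
    intro x hx
    have h1 := he.symm_cp (hAe hx)
    refine ⟨⟨he.cp_mem (hAe hx), ?_⟩, h1⟩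
    rw [mem_preimage, h1]; exact hx
  refine ⟨G, hGm, ?_, ?_⟩
  · intro η
    by_cases hη : ∃ x ∈ A, q x = η
    · obtain ⟨x, hxA, hx⟩ := hη
      obtain ⟨hxs, hxe⟩ := hAs x hxA
      have h1 : G η = f x := by
        have : φ (cp x) = η := by simp only [hφ, Function.comp_apply, hxe, hx]
        rw [← this, hG1 _ hxs, hxe]
      rw [h1, tsum_eq_single (⟨x, hx⟩ : {x : M // q x = η})]
      · rw [Set.indicator_of_mem hxA]
      · rintro ⟨y, hy⟩ hne
        apply Set.indicator_of_notMem
        intro hyA
        apply hne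
        exact Subtype.ext (hinj hyA hxA (hy.trans hx.symm))
    · rw [hG2 η, eq_comm, ENNReal.tsum_eq_zero]
      · rintro ⟨y, hy⟩
        apply Set.indicator_of_notMem
        intro hyA
        exact hη ⟨y, hyA, hy⟩
      · rintro ⟨z, hz, hzη⟩
        exact hη ⟨e.symm z, hz.2, hzη⟩
  · -- the integral
    have h0 : ∫⁻ x in A, f x * ENNReal.ofReal (‖(q' x).det‖ ^ 2) ∂μ =
        ∫⁻ z in s, f (e.symm z) * ENNReal.ofReal (‖(q' (e.symm z)).det‖ ^ 2) := by
      have h1 : μ.restrict A = (volume.restrict s).map e.symm := by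
        have h2 : μ.restrict A = (μ.restrict e.source).restrict A := by
          rw [Measure.restrict_restrict hA, inter_eq_left.2 hAe]
        rw [h2, hμ e he]
        ext t ht
        rw [Measure.restrict_apply ht, Measure.map_apply_of_aemeasurable (aem_symm e) (ht.inter hA)]
        have h3 : AEMeasurable e.symm (volume.restrict s) :=
          (aem_symm e).mono_measure (Measure.restrict_mono_set _ inter_subset_left)
        rw [Measure.map_apply_of_aemeasurable h3 ht, Measure.restrict_apply' hsm,
          Measure.restrict_apply' e.open_target.measurableSet]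
        congr 1
        ext z
        simp only [hs, mem_inter_iff, mem_preimage]
        tauto
      have hemb2 : MeasurableEmbedding (s.domRestrict e.symm) := by
        have h1 : Continuous (s.domRestrict e.symm) := by
          have h1 : Continuous (e.target.domRestrict e.symm) :=
            continuousOn_iff_continuous_domRestrict.1 e.symm.continuousOn
          have h2 : Continuous (fun z : s => (⟨z.1, z.2.1⟩ : e.target)) :=
            continuous_subtype_val.subtype_mk _
          exact h1.comp h2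
        refine ⟨?_, h1.measurable, ?_⟩
        · rintro ⟨a, ha⟩ ⟨b, hb⟩ hab
          have h2 := congrArg cp hab
          simp only [Set.domRestrict_apply] at h2
          rw [he.cp_symm ha.1, he.cp_symm hb.1] at h2
          exact Subtype.ext h2
        · intro t ht
          have h2 : s.domRestrict e.symm '' t = A ∩ e.source ∩ cp ⁻¹' (Subtype.val '' t) := by
            ext x
            simp only [mem_image, mem_inter_iff, mem_preimage, Subtype.exists, Set.domRestrict_apply,
              exists_and_right, exists_eq_right]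
            constructor
            · rintro ⟨z, ⟨hz, hzt⟩, rfl⟩
              refine ⟨⟨hz.2, e.map_target hz.1⟩, ?_⟩
              rw [he.cp_symm hz.1]
              exact ⟨hz, hzt⟩
            · rintro ⟨⟨hxA, hxe⟩, hz, hzt⟩
              exact ⟨cp x, ⟨hz, hzt⟩, (hAs x hxA).2⟩
          rw [h2]
          exact (hA.inter e.open_source.measurableSet).inter
            (cp_cont.measurable (hsm.subtype_image ht))
      rw [h1]
      have h4 : (volume.restrict s : Measure (Fin n → ℂ)).map e.symm =
          ((volume : Measure (Fin n → ℂ)).comap Subtype.val).map (s.domRestrict e.symm) := by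
        have : s.domRestrict e.symm = e.symm ∘ Subtype.val := rfl
        rw [← map_comap_subtype_coe hsm, this]
        have h3 : AEMeasurable e.symm (volume.restrict s) :=
          (aem_symm e).mono_measure (Measure.restrict_mono_set _ inter_subset_left)
        rw [← map_comap_subtype_coe hsm] at h3
        rw [AEMeasurable.map_map_of_aemeasurable h3 measurable_subtype_coe.aemeasurable]
      rw [h4, hemb2.lintegral_map]
      have h5 := (MeasurableEmbedding.subtype_coe hsm).lintegral_map
        (μ := (volume : Measure (Fin n → ℂ)).comap Subtype.val)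
        (fun z => f (e.symm z) * ENNReal.ofReal (‖(q' (e.symm z)).det‖ ^ 2))
      rw [map_comap_subtype_coe hsm] at h5
      exact h5.symm
    rw [h0]
    have h1 : ∫⁻ η, G η = ∫⁻ η in φ '' s, G η := by
      rw [← lintegral_indicator (measurable_image_of_fderivWithin hsm hder hsinj)]
      apply lintegral_congr
      intro η
      by_cases hη : η ∈ φ '' s
      · rw [Set.indicator_of_mem hη]
      · rw [Set.indicator_of_notMem hη, hG2 η hη]
    rw [h1, lintegral_image_eq_lintegral_abs_det_fderiv_mul volume hsm hder hsinj G]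
    refine setLIntegral_congr_fun hsm ?_
    intro z hz
    simp only
    rw [hG1 z hz, abs_det_real, mul_comm]

/-- **Area formula.** -/
theorem area [SecondCountableTopology M] {μ : Measure M} (hμ : IsLeb μ) (hq : SD q q')
    (hJ : Continuous fun x => (q' x).det) {f : M → ℝ≥0∞} (hf : Measurable f) :
    ∫⁻ x, f x * ENNReal.ofReal (‖(q' x).det‖ ^ 2) ∂μ =
      ∫⁻ η, ∑' x : {x : M // q x = η}, {x | (q' x).det ≠ 0}.indicator f x.1 := by
  classical
  set Ω : Set M := {x | (q' x).det ≠ 0} with hΩ
  have hΩo : IsOpen Ω := isOpen_ne_fun hJ continuous_const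
  choose! U hUo hUm hUs hUi using fun x (hx : x ∈ Ω) => exists_inj hq x hx
  obtain ⟨T, hTΩ, hTc, hTcov⟩ : ∃ T ⊆ Ω, T.Countable ∧ Ω ⊆ ⋃ x ∈ T, U x :=
    TopologicalSpace.countable_cover_nhdsWithin
      (f := U) (s := Ω) (fun x hx => mem_nhdsWithin_of_mem_nhds ((hUo x hx).mem_nhds (hUm x hx)))
  rcases T.eq_empty_or_nonempty with hTe | hTne
  · have hΩe : Ω = ∅ := by
      apply Set.eq_empty_of_subset_empty
      simpa [hTe] using hTcov
    have h1 : ∀ x, (q' x).det = 0 := by
      intro x
      by_contra h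
      have : x ∈ Ω := h
      rw [hΩe] at this
      exact this
    simp [hΩe, h1]
  obtain ⟨u, hu⟩ := hTc.exists_eq_range hTne
  have huT : ∀ i, u i ∈ Ω := fun i => hTΩ (hu ▸ mem_range_self i)
  set E : ℕ → Set M := disjointed fun i => U (u i) ∩ Ω with hE
  have hEm : ∀ i, MeasurableSet (E i) := fun i =>
    MeasurableSet.disjointed (fun i => ((hUo _ (huT i)).inter hΩo).measurableSet) i
  have hEU' : ∀ i, E i ⊆ U (u i) ∩ Ω := fun i => disjointed_subset _ i
  have hEU : ∀ i, E i ⊆ U (u i) := fun i => (hEU' i).trans inter_subset_left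
  have hEd : Pairwise (Function.onFun Disjoint E) := disjoint_disjointed _
  have hEun : ⋃ i, E i = Ω := by
    rw [hE, iUnion_disjointed]
    apply Subset.antisymm
    · exact iUnion_subset fun i => inter_subset_right
    · intro x hx
      have := hTcov hx
      simp only [mem_iUnion] at this
      obtain ⟨y, hy, hxy⟩ := this
      rw [hu] at hy
      obtain ⟨i, rfl⟩ := hy
      exact mem_iUnion.2 ⟨i, hxy, hx⟩
  choose G hGm hG hGint using fun i => piece hμ hq (isCh_ch (u i)) (hEm i)
    ((hEU i).trans (hUs _ (huT i))) ((hUi _ (huT i)).mono (hEU i)) hf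
  have h1 : ∫⁻ x, f x * ENNReal.ofReal (‖(q' x).det‖ ^ 2) ∂μ =
      ∫⁻ x in Ω, f x * ENNReal.ofReal (‖(q' x).det‖ ^ 2) ∂μ := by
    rw [← lintegral_indicator hΩo.measurableSet]
    apply lintegral_congr
    intro x
    by_cases hx : x ∈ Ω
    · rw [Set.indicator_of_mem hx]
    · have : (q' x).det = 0 := by
        by_contra h
        exact hx h
      rw [Set.indicator_of_notMem hx, this]
      simp
  rw [h1, ← hEun, lintegral_iUnion hEm hEd]
  simp_rw [hGint]
  rw [← lintegral_tsum fun i => (hGm i).aemeasurable]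
  apply lintegral_congr
  intro η
  simp_rw [hG]
  rw [ENNReal.tsum_comm]
  apply tsum_congr
  rintro ⟨x, hx⟩
  simp only
  by_cases hxΩ : x ∈ ⋃ i, E i
  · rw [Set.indicator_of_mem hxΩ]
    obtain ⟨i, hi⟩ := mem_iUnion.1 hxΩ
    rw [tsum_eq_single i]
    · rw [Set.indicator_of_mem hi]
    · intro j hj
      rw [Set.indicator_of_notMem]
      intro hxj
      exact Set.disjoint_left.mp (hEd hj) hxj hi
  · rw [Set.indicator_of_notMem hxΩ, ENNReal.tsum_eq_zero]
    intro i
    rw [Set.indicator_of_notMem]
    exact fun h => hxΩ (mem_iUnion.2 ⟨i, h⟩)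

/-- multiplicity bound: `q` is at most `d` to one on `E ∩ {J ≠ 0}` and maps it into `W` -/
theorem area_le [SecondCountableTopology M] {μ : Measure M} (hμ : IsLeb μ) (hq : SD q q')
    (hJ : Continuous fun x => (q' x).det) {E : Set M} (hE : MeasurableSet E)
    {W : Set (Fin n → ℂ)} (hW : MeasurableSet W) (hEW : ∀ x ∈ E, (q' x).det ≠ 0 → q x ∈ W)
    {d : ℕ} (hd : ∀ η, {x : M | x ∈ E ∧ (q' x).det ≠ 0 ∧ q x = η}.encard ≤ d) :
    ∫⁻ x in E, ENNReal.ofReal (‖(q' x).det‖ ^ 2) ∂μ ≤ d * volume W := by
  have h1 : ∫⁻ x in E, ENNReal.ofReal (‖(q' x).det‖ ^ 2) ∂μ =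
      ∫⁻ x, (E.indicator 1 x) * ENNReal.ofReal (‖(q' x).det‖ ^ 2) ∂μ := by
    rw [← lintegral_indicator hE]
    apply lintegral_congr
    intro x
    by_cases hx : x ∈ E
    · simp [hx]
    · simp [hx]
  rw [h1, area hμ hq hJ (measurable_one.indicator hE)]
  have h2 : ∀ η, ∑' x : {x : M // q x = η},
      {x | (q' x).det ≠ 0}.indicator (E.indicator (1 : M → ℝ≥0∞)) x.1 ≤ W.indicator (fun _ => (d : ℝ≥0∞)) η := by
    intro η
    set S : Set M := {x : M | x ∈ E ∧ (q' x).det ≠ 0 ∧ q x = η} with hS
    have h3 : ∑' x : {x : M // q x = η},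
        {x | (q' x).det ≠ 0}.indicator (E.indicator (1 : M → ℝ≥0∞)) x.1 =
        ∑' x : S, (1 : ℝ≥0∞) := by
      have h5 := tsum_subtype {x : M | q x = η}
        (fun x => {x | (q' x).det ≠ 0}.indicator (E.indicator (1 : M → ℝ≥0∞)) x)
      refine h5.trans ?_
      rw [tsum_subtype S (fun _ => (1 : ℝ≥0∞))]
      apply tsum_congr
      intro x
      by_cases hx1 : q x = η
      · by_cases hx2 : (q' x).det = 0
        · have : x ∉ S := fun h => h.2.1 hx2
          simp [this, hx2, hx1]
        · by_cases hx3 : x ∈ E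
          · have : x ∈ S := ⟨hx3, hx2, hx1⟩
            simp [this, hx1, hx2, hx3]
          · have : x ∉ S := fun h => hx3 h.1
            simp [this, hx1, hx3]
      · have : x ∉ S := fun h => hx1 h.2.2
        simp [this, hx1]
    rw [h3]
    by_cases hη : η ∈ W
    · rw [Set.indicator_of_mem hη, ENNReal.tsum_const, mul_one]
      have h4 := hd η
      rw [← hS] at h4
      calc ((ENat.card S : ℕ∞) : ℝ≥0∞) ≤ ((d : ℕ∞) : ℝ≥0∞) := by
            exact_mod_cast h4
        _ = (d : ℝ≥0∞) := by simp
    · have : S = ∅ := by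
        apply Set.eq_empty_of_forall_notMem
        rintro x ⟨hx1, hx2, hx3⟩
        exact hη (hx3 ▸ hEW x hx1 hx2)
      simp [this]
  calc ∫⁻ η, ∑' x : {x : M // q x = η},
      {x | (q' x).det ≠ 0}.indicator (E.indicator (1 : M → ℝ≥0∞)) x.1
      ≤ ∫⁻ η, W.indicator (fun _ => (d : ℝ≥0∞)) η := lintegral_mono h2
    _ = d * volume W := by rw [lintegral_indicator hW, setLIntegral_const]

end Crest.Agent.R276.Area_448
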