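import Crest.Agent.R273.Dir0_73
import Mathlib.MeasureTheory.Measure.Lebesgue.VolumeOfBalls

/-!
# Row 276, leaf OT (helper189), (OT3): the tube limit

`ε⁻² ∫_{|h|² ≤ ε² e^Ψ} u dμ → π ∫_D u e^Ψ dμ_D` for a continuous compactly supported `u ≥ 0`, where
`D = Hs M a = {h = 0}`, `h = ell a (cp x)`.
-/

set_option autoImplicit false
set_option linter.unusedSectionVars false
set_option maxHeartbeats 800000

noncomputable section

open Set Filter Topology MeasureTheory Metric
open scoped ENNReal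

namespace Crest.Agent.R276.OTS_189

open Crest.Agent.R271.Ho51 Crest.Agent.R273.Dir73

variable {n : ℕ}

/-- the point at height `t` above `z` -/
def pt (a : Fin (n + 1) → ℂ) (z : Fin n → ℂ) (t : ℂ) : Fin (n + 1) → ℂ := Fin.cons (t + gam a z 0) z

lemma pt_zero' (a : Fin (n + 1) → ℂ) (z : Fin n → ℂ) : pt a z 0 = gam a z := by
  unfold pt
  rw [zero_add]
  funext i
  refine Fin.cases ?_ (fun j => ?_) i
  · rw [Fin.cons_zero]
  · rw [Fin.cons_succ, gam_succ]

lemma tail_pt (a : Fin (n + 1) → ℂ) (z : Fin n → ℂ) (t : ℂ) : Fin.tail (pt a z t) = z := rfl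

lemma ell_pt (a : Fin (n + 1) → ℂ) (z : Fin n → ℂ) (t : ℂ) : ell a (pt a z t) = t := by
  unfold ell pt
  simp only [Fin.cons_zero, Fin.cons_succ, gam_zero]
  ring

lemma continuous_pt (a : Fin (n + 1) → ℂ) :
    Continuous (fun p : (Fin n → ℂ) × ℂ => pt a p.1 p.2) := by
  have h0 : Continuous (fun z : Fin n → ℂ => gam a z 0) :=
    (continuous_apply 0).comp (continuous_gam a)
  unfold pt
  refine continuous_pi fun i => ?_
  refine Fin.cases ?_ (fun j => ?_) i
  · simp only [Fin.cons_zero]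
    exact continuous_snd.add (h0.comp continuous_fst)
  · simp only [Fin.cons_succ]
    exact (continuous_apply j).comp continuous_fst

/-- Fubini -/
lemma lintegral_pt (a : Fin (n + 1) → ℂ) {F : (Fin (n + 1) → ℂ) → ℝ≥0∞} (hF : Measurable F) :
    ∫⁻ w, F w = ∫⁻ z : Fin n → ℂ, ∫⁻ t : ℂ, F (pt a z t) := by
  have h1 := (volume_preserving_piFinSuccAbove (fun _ : Fin (n + 1) => ℂ) 0).symm
  rw [← h1.lintegral_comp hF, Measure.volume_eq_prod, lintegral_prod_symm']
  · refine lintegral_congr fun z => ?_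
    have h2 : ∀ t : ℂ, F ((MeasurableEquiv.piFinSuccAbove (fun _ : Fin (n + 1) => ℂ) 0).symm (t, z)) =
        (fun t => F (Fin.cons t z)) t := by
      intro t
      congr 1
      exact Fin.insertNth_zero' t z
    simp only [h2]
    rw [← lintegral_add_right_eq_self (fun t => F (Fin.cons t z)) (gam a z 0)]
    rfl
  · exact hF.comp (MeasurableEquiv.measurable _)

lemma lintegral_scale {f : ℂ → ℝ≥0∞} (hf : Measurable f) {ε : ℝ} (hε : 0 < ε) :
    ∫⁻ t, f t = ENNReal.ofReal (ε ^ 2) * ∫⁻ s : ℂ, f (ε • s) := by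
  have h1 := Measure.map_addHaar_smul (volume : Measure ℂ) hε.ne'
  have h2 : ∫⁻ s : ℂ, f (ε • s) = ∫⁻ t, f t ∂(Measure.map (ε • ·) (volume : Measure ℂ)) := by
    rw [lintegral_map hf (measurable_const_smul ε)]
  rw [h2, h1, lintegral_smul_measure, Complex.finrank_real_complex, smul_eq_mul, ← mul_assoc,
    ← ENNReal.ofReal_mul (by positivity), abs_of_pos (by positivity), mul_inv_cancel₀ (by positivity)]
  simp

theorem tube_flat (a : Fin (n + 1) → ℂ) {U P : (Fin (n + 1) → ℂ) → ℝ} (hU : Continuous U)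
    (hUc : HasCompactSupport U) (hPm : Measurable P)
    (hP : ∀ z ∈ tsupport U, ContinuousAt P z) :
    Tendsto (fun ε : ℝ => (∫⁻ z in {z | ‖ell a z‖ ^ 2 ≤ ε ^ 2 * Real.exp (P z)},
        ENNReal.ofReal (U z)) / ENNReal.ofReal (ε ^ 2)) (𝓝[>] 0)
      (𝓝 (ENNReal.ofReal Real.pi *
        ∫⁻ z, ENNReal.ofReal (U (gam a z) * Real.exp (P (gam a z))))) := by
  -- bounds
  obtain ⟨B, hB⟩ := hUc.exists_bound_of_continuous hU
  obtain ⟨B', hB'⟩ := hUc.isCompact.exists_bound_of_continuousOn
    (f := P) (fun z hz => (hP z hz).continuousWithinAt)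
  set R : ℝ := Real.sqrt (Real.exp B') with hR
  set K : Set (Fin n → ℂ) := (fun w : Fin (n + 1) → ℂ => Fin.tail w) '' (tsupport U) with hK
  have hKc : IsCompact K := by
    refine IsCompact.image hUc ?_
    exact continuous_pi fun j => continuous_apply j.succ
  -- the rescaled function
  set H : ℝ → (Fin n → ℂ) → ℂ → ℝ≥0∞ := fun ε z s =>
    {w : Fin (n + 1) → ℂ | ‖s‖ ^ 2 ≤ Real.exp (P w)}.indicator (fun w => ENNReal.ofReal (U w))
      (pt a z (ε • s)) with hH
  have hell : Measurable (fun w : Fin (n + 1) → ℂ => ‖ell a w‖ ^ 2) :=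
    ((continuous_ell a).norm.pow 2).measurable
  have htube : ∀ ε : ℝ, MeasurableSet {z | ‖ell a z‖ ^ 2 ≤ ε ^ 2 * Real.exp (P z)} := fun ε =>
    measurableSet_le hell ((Real.measurable_exp.comp hPm).const_mul _)
  have key : ∀ ε : ℝ, 0 < ε → (∫⁻ z in {z | ‖ell a z‖ ^ 2 ≤ ε ^ 2 * Real.exp (P z)},
        ENNReal.ofReal (U z)) / ENNReal.ofReal (ε ^ 2) = ∫⁻ z, ∫⁻ s, H ε z s := by
    intro ε hε
    have hFm : Measurable ({z | ‖ell a z‖ ^ 2 ≤ ε ^ 2 * Real.exp (P z)}.indicator
        (fun z => ENNReal.ofReal (U z))) := (hU.measurable.ennreal_ofReal).indicator (htube ε)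
    rw [← lintegral_indicator (htube ε), lintegral_pt a hFm]
    have h1 : ∀ z : Fin n → ℂ, ∫⁻ t : ℂ, {z | ‖ell a z‖ ^ 2 ≤ ε ^ 2 * Real.exp (P z)}.indicator
        (fun z => ENNReal.ofReal (U z)) (pt a z t) = ENNReal.ofReal (ε ^ 2) * ∫⁻ s, H ε z s := by
      intro z
      rw [lintegral_scale (f := fun t => {z | ‖ell a z‖ ^ 2 ≤ ε ^ 2 * Real.exp (P z)}.indicator
        (fun z => ENNReal.ofReal (U z)) (pt a z t)) (hFm.comp
          ((continuous_pt a).comp (Continuous.prodMk_right z)).measurable) hε]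
      congr 1
      refine lintegral_congr fun s => ?_
      simp only [hH]
      have h2 : (pt a z (ε • s) ∈ {z | ‖ell a z‖ ^ 2 ≤ ε ^ 2 * Real.exp (P z)}) ↔
          (pt a z (ε • s) ∈ {w : Fin (n + 1) → ℂ | ‖s‖ ^ 2 ≤ Real.exp (P w)}) := by
        simp only [mem_ofPred_eq]
        rw [ell_pt, norm_smul, mul_pow, Real.norm_eq_abs, sq_abs]
        exact mul_le_mul_iff_right₀ (by positivity)
      by_cases h3 : pt a z (ε • s) ∈ {z | ‖ell a z‖ ^ 2 ≤ ε ^ 2 * Real.exp (P z)}
      · rw [indicator_of_mem h3, indicator_of_mem (h2.1 h3)]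
      · rw [indicator_of_notMem h3, indicator_of_notMem (fun h => h3 (h2.2 h))]
    simp only [h1]
    rw [lintegral_const_mul' _ _ ENNReal.ofReal_ne_top, mul_comm, ENNReal.mul_div_cancel_right]
    · simpa using hε.ne'
    · exact ENNReal.ofReal_ne_top
  -- measurability
  have hHm : ∀ ε : ℝ, Measurable (fun p : (Fin n → ℂ) × ℂ => H ε p.1 p.2) := by
    intro ε
    have h1 : Continuous (fun p : (Fin n → ℂ) × ℂ => pt a p.1 (ε • p.2)) :=
      (continuous_pt a).comp (continuous_fst.prodMk (continuous_snd.const_smul ε))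
    have h2 : MeasurableSet {p : (Fin n → ℂ) × ℂ | ‖p.2‖ ^ 2 ≤ Real.exp (P (pt a p.1 (ε • p.2)))} :=
      measurableSet_le (continuous_snd.norm.pow 2).measurable
        (Real.measurable_exp.comp (hPm.comp h1.measurable))
    have h3 : (fun p : (Fin n → ℂ) × ℂ => H ε p.1 p.2) =
        {p : (Fin n → ℂ) × ℂ | ‖p.2‖ ^ 2 ≤ Real.exp (P (pt a p.1 (ε • p.2)))}.indicator
          (fun p => ENNReal.ofReal (U (pt a p.1 (ε • p.2)))) := by
      funext p
      simp only [hH, indicator_apply, mem_ofPred_eq]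
    rw [h3]
    exact ((hU.comp h1).measurable.ennreal_ofReal).indicator h2
  -- the bound
  have hbd : ∀ ε z s, H ε z s ≤ K.indicator (fun _ => (closedBall (0 : ℂ) R).indicator
      (fun _ => ENNReal.ofReal B) s) z := by
    intro ε z s
    by_cases h1 : pt a z (ε • s) ∈ tsupport U
    · have h2 : z ∈ K := ⟨_, h1, tail_pt a z _⟩
      rw [indicator_of_mem h2]
      by_cases h3 : ‖s‖ ^ 2 ≤ Real.exp (P (pt a z (ε • s)))
      · have h4 : s ∈ closedBall (0 : ℂ) R := by
          rw [mem_closedBall_zero_iff, hR]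
          apply Real.le_sqrt_of_sq_le
          refine h3.trans (Real.exp_le_exp.2 ?_)
          exact (le_abs_self _).trans (hB' _ h1)
        rw [indicator_of_mem h4]
        refine (indicator_le_self _ _ _).trans ?_
        exact ENNReal.ofReal_le_ofReal ((le_abs_self _).trans (hB _))
      · simp only [hH]
        rw [indicator_of_notMem (by exact h3)]
        exact zero_le
    · have h2 : U (pt a z (ε • s)) = 0 := image_eq_zero_of_notMem_tsupport h1
      have h3 : H ε z s = 0 := by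
        simp only [hH]
        refine le_antisymm ((indicator_le_self _ _ _).trans ?_) (zero_le)
        rw [h2]; simp
      rw [h3]; exact zero_le
  -- the limit of the inner integral
  set H0 : (Fin n → ℂ) → ℂ → ℝ≥0∞ := fun z s =>
    {s : ℂ | ‖s‖ ^ 2 ≤ Real.exp (P (gam a z))}.indicator
      (fun _ => ENNReal.ofReal (U (gam a z))) s with hH0
  have hinner : ∀ z, Tendsto (fun ε : ℝ => ∫⁻ s, H ε z s) (𝓝[>] 0) (𝓝 (∫⁻ s, H0 z s)) := by
    intro z
    refine tendsto_lintegral_filter_of_dominated_convergence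
      (fun s => (closedBall (0 : ℂ) R).indicator (fun _ => ENNReal.ofReal B) s) ?_ ?_ ?_ ?_
    · exact Eventually.of_forall fun ε => (hHm ε).comp (measurable_const.prodMk measurable_id)
    · refine Eventually.of_forall fun ε => Eventually.of_forall fun s => ?_
      refine (hbd ε z s).trans ?_
      exact indicator_le_self' (fun _ _ => zero_le) _
    · rw [lintegral_indicator isClosed_closedBall.measurableSet, setLIntegral_const]
      exact ENNReal.mul_ne_top ENNReal.ofReal_ne_top (measure_closedBall_lt_top).ne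
    · have hsp : ∀ᵐ s : ℂ, s ∉ sphere (0 : ℂ) (Real.sqrt (Real.exp (P (gam a z)))) := by
        rw [ae_iff]
        simp only [not_not]
        exact Measure.addHaar_sphere_of_ne_zero _ _ (by positivity)
      filter_upwards [hsp] with s hs
      have hcont : Tendsto (fun ε : ℝ => pt a z (ε • s)) (𝓝[>] 0) (𝓝 (gam a z)) := by
        have h1 : Continuous (fun ε : ℝ => pt a z (ε • s)) :=
          (continuous_pt a).comp (continuous_const.prodMk (continuous_id.smul continuous_const))
        have h2 := h1.tendsto 0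
        rw [zero_smul, pt_zero'] at h2
        exact h2.mono_left nhdsWithin_le_nhds
      by_cases hz : gam a z ∈ tsupport U
      · have hPc := (hP _ hz).tendsto.comp hcont
        have hec : Tendsto (fun ε : ℝ => Real.exp (P (pt a z (ε • s)))) (𝓝[>] 0)
            (𝓝 (Real.exp (P (gam a z)))) := (Real.continuous_exp.tendsto _).comp hPc
        have hne : ‖s‖ ^ 2 ≠ Real.exp (P (gam a z)) := by
          intro h
          apply hs
          rw [mem_sphere_zero_iff_norm, ← h, Real.sqrt_sq (norm_nonneg _)]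
        rcases lt_or_gt_of_ne hne with h | h
        · have h1 : H0 z s = ENNReal.ofReal (U (gam a z)) := by
            simp only [hH0]
            rw [indicator_of_mem (by exact h.le)]
          rw [h1]
          have h2 : ∀ᶠ ε : ℝ in 𝓝[>] 0, ENNReal.ofReal (U (pt a z (ε • s))) = H ε z s := by
            filter_upwards [hec.eventually (lt_mem_nhds h)] with ε hε
            simp only [hH]
            rw [indicator_of_mem (by exact hε.le)]
          refine Tendsto.congr' h2 ?_
          exact ((ENNReal.continuous_ofReal.comp hU).tendsto _).comp hcont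
        · have h1 : H0 z s = 0 := by
            simp only [hH0]
            rw [indicator_of_notMem (by exact not_le.2 h)]
          rw [h1]
          have h2 : ∀ᶠ ε : ℝ in 𝓝[>] 0, 0 = H ε z s := by
            filter_upwards [hec.eventually (gt_mem_nhds h)] with ε hε
            simp only [hH]
            rw [indicator_of_notMem (by exact not_le.2 hε)]
          exact Tendsto.congr' h2 tendsto_const_nhds
      · have hev : ∀ᶠ ε : ℝ in 𝓝[>] 0, U (pt a z (ε • s)) = 0 :=
          hcont.eventually (notMem_tsupport_iff_eventuallyEq.1 hz)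
        have h0 : U (gam a z) = 0 := image_eq_zero_of_notMem_tsupport hz
        have h1 : H0 z s = 0 := by
          simp only [hH0]
          refine le_antisymm ((indicator_le_self _ _ _).trans ?_) (zero_le)
          rw [h0]; simp
        rw [h1]
        have h2 : ∀ᶠ ε : ℝ in 𝓝[>] 0, 0 = H ε z s := by
          filter_upwards [hev] with ε hε
          simp only [hH]
          refine le_antisymm (zero_le) ((indicator_le_self _ _ _).trans ?_)
          rw [hε]; simp
        exact Tendsto.congr' h2 tendsto_const_nhds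
  have hH0i : ∀ z, ∫⁻ s, H0 z s = ENNReal.ofReal Real.pi *
      ENNReal.ofReal (U (gam a z) * Real.exp (P (gam a z))) := by
    intro z
    have h1 : {s : ℂ | ‖s‖ ^ 2 ≤ Real.exp (P (gam a z))} =
        closedBall (0 : ℂ) (Real.sqrt (Real.exp (P (gam a z)))) := by
      ext s
      rw [mem_closedBall_zero_iff, mem_ofPred_eq, Real.le_sqrt (norm_nonneg _) (Real.exp_pos _).le]
    simp only [hH0]
    rw [h1, lintegral_indicator isClosed_closedBall.measurableSet, setLIntegral_const,
      Complex.volume_closedBall, ← ENNReal.ofReal_pow (Real.sqrt_nonneg _),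
      Real.sq_sqrt (Real.exp_pos _).le, mul_comm (U _), ENNReal.ofReal_mul (Real.exp_pos _).le]
    have h2 : ((NNReal.pi : NNReal) : ℝ≥0∞) = ENNReal.ofReal Real.pi := by
      rw [ENNReal.ofReal, ← NNReal.coe_real_pi, Real.toNNReal_coe]
    rw [h2]
    ring
  have hlim : Tendsto (fun ε : ℝ => ∫⁻ z, ∫⁻ s, H ε z s) (𝓝[>] 0)
      (𝓝 (∫⁻ z, ∫⁻ s, H0 z s)) := by
    refine tendsto_lintegral_filter_of_dominated_convergence
      (fun z => K.indicator (fun _ => ENNReal.ofReal B * volume (closedBall (0 : ℂ) R)) z)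
      ?_ ?_ ?_ ?_
    · exact Eventually.of_forall fun ε => (hHm ε).lintegral_prod_right'
    · refine Eventually.of_forall fun ε => Eventually.of_forall fun z => ?_
      refine (lintegral_mono fun s => hbd ε z s).trans ?_
      by_cases hz : z ∈ K
      · simp only [indicator_of_mem hz]
        rw [lintegral_indicator isClosed_closedBall.measurableSet, setLIntegral_const]
      · simp only [indicator_of_notMem hz]
        simp
    · rw [lintegral_indicator hKc.isClosed.measurableSet, setLIntegral_const]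
      exact ENNReal.mul_ne_top (ENNReal.mul_ne_top ENNReal.ofReal_ne_top
        measure_closedBall_lt_top.ne) hKc.measure_lt_top.ne
    · exact Eventually.of_forall hinner
  simp only [hH0i] at hlim
  rw [lintegral_const_mul' _ _ ENNReal.ofReal_ne_top] at hlim
  refine hlim.congr' ?_
  filter_upwards [self_mem_nhdsWithin] with ε hε
  exact (key ε hε).symm

section transport

variable {M : Type*} [TopologicalSpace M] [RDom (n + 1) M] [T2Space M]
  [MeasurableSpace M] [BorelSpace M] {μ : Measure M} {a : Fin (n + 1) → ℂ}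

lemma continuous_ext0 {e : OpenPartialHomeomorph M (Fin (n + 1) → ℂ)} (he : IsCh e) {f : M → ℝ}
    (hf : Continuous f) (hfs : tsupport f ⊆ e.source) (hfc : HasCompactSupport f) :
    Continuous (ext0 e f) := by
  rw [continuous_iff_continuousAt]
  intro z
  by_cases hz : z ∈ cp '' (tsupport f)
  · obtain ⟨x, hx, rfl⟩ := hz
    have hxt : cp x ∈ e.target := he.cp_mem (hfs hx)
    refine ContinuousAt.congr ?_ (ext0_eventually hxt).symm
    exact hf.continuousAt.comp (e.symm.continuousAt (by simpa using hxt))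
  · exact continuousAt_const.congr (ext0_eventually_zero he hfs hfc hz).symm

/-- the logarithm of the tube radius in a chart -/
def PP (e : OpenPartialHomeomorph M (Fin (n + 1) → ℂ)) (Ψ : M → ℝ) : (Fin (n + 1) → ℂ) → ℝ :=
  e.target.indicator (Ψ ∘ e.symm)

lemma measurable_PP (e : OpenPartialHomeomorph M (Fin (n + 1) → ℂ)) {Ψ : M → ℝ} (hΨ : Continuous Ψ) :
    Measurable (PP e Ψ) := by
  classical
  unfold PP
  rw [← Set.piecewise_eq_indicator]
  exact ContinuousOn.measurable_piecewise (hΨ.comp_continuousOn e.symm.continuousOn)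
    continuous_zero.continuousOn e.open_target.measurableSet

lemma continuousAt_PP {e : OpenPartialHomeomorph M (Fin (n + 1) → ℂ)} {Ψ : M → ℝ}
    (hΨ : Continuous Ψ) {z : Fin (n + 1) → ℂ} (hz : z ∈ e.target) : ContinuousAt (PP e Ψ) z := by
  have h1 : PP e Ψ =ᶠ[𝓝 z] (Ψ ∘ e.symm) := by
    filter_upwards [e.open_target.mem_nhds hz] with w hw
    unfold PP
    rw [indicator_of_mem hw]
  refine ContinuousAt.congr ?_ h1.symm
  exact hΨ.continuousAt.comp (e.symm.continuousAt (by simpa using hz))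

lemma tsupport_ext0 {e : OpenPartialHomeomorph M (Fin (n + 1) → ℂ)} (he : IsCh e) {f : M → ℝ}
    (hfs : tsupport f ⊆ e.source) (hfc : HasCompactSupport f) : tsupport (ext0 e f) ⊆ e.target := by
  have h1 : tsupport (ext0 e f) ⊆ cp '' (tsupport f) := by
    refine closure_minimal ?_ (isCompact_cp_image hfc).isClosed
    intro z hz
    by_contra h
    exact hz (ext0_support he hfs h)
  refine h1.trans ?_
  rintro _ ⟨x, hx, rfl⟩
  exact he.cp_mem (hfs hx)

lemma tube_chart (hμ : IsLeb μ) {e : OpenPartialHomeomorph M (Fin (n + 1) → ℂ)} (he : IsCh e)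
    {Ψ : M → ℝ} (hΨ : Continuous Ψ) {f : M → ℝ} (hf : Continuous f)
    (hfs : tsupport f ⊆ e.source) (ε : ℝ) :
    ∫⁻ x in {x | ‖ell a (cp x)‖ ^ 2 ≤ ε ^ 2 * Real.exp (Ψ x)}, ENNReal.ofReal (f x) ∂μ =
      ∫⁻ z in {z | ‖ell a z‖ ^ 2 ≤ ε ^ 2 * Real.exp (PP e Ψ z)}, ENNReal.ofReal (ext0 e f z) := by
  have hcp : Continuous (fun x : M => ‖ell a (cp x)‖ ^ 2) :=
    ((continuous_ell a).comp cp_cont).norm.pow 2
  have hS : MeasurableSet {x : M | ‖ell a (cp x)‖ ^ 2 ≤ ε ^ 2 * Real.exp (Ψ x)} :=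
    (isClosed_le hcp (continuous_const.mul (Real.continuous_exp.comp hΨ))).measurableSet
  have hS' : MeasurableSet {z : Fin (n + 1) → ℂ | ‖ell a z‖ ^ 2 ≤ ε ^ 2 * Real.exp (PP e Ψ z)} :=
    measurableSet_le ((continuous_ell a).norm.pow 2).measurable
      ((Real.measurable_exp.comp (measurable_PP e hΨ)).const_mul _)
  rw [← lintegral_indicator hS, ← lintegral_indicator hS']
  set g := {x : M | ‖ell a (cp x)‖ ^ 2 ≤ ε ^ 2 * Real.exp (Ψ x)}.indicator
    (fun x => ENNReal.ofReal (f x)) with hg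
  set g' := {z : Fin (n + 1) → ℂ | ‖ell a z‖ ^ 2 ≤ ε ^ 2 * Real.exp (PP e Ψ z)}.indicator
    (fun z => ENNReal.ofReal (ext0 e f z)) with hg'
  have hgm : Measurable g := (hf.measurable.ennreal_ofReal).indicator hS
  have h1 : e.source.indicator g = g := by
    rw [indicator_eq_self]
    intro x hx
    by_contra h
    apply hx
    have h0 : f x = 0 := image_eq_zero_of_notMem_tsupport fun h' => h (hfs h')
    simp only [hg]
    refine le_antisymm ((indicator_le_self _ _ _).trans ?_) zero_le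
    rw [h0]; simp
  have h2 : e.target.indicator g' = g' := by
    rw [indicator_eq_self]
    intro z hz
    by_contra h
    apply hz
    have h0 : ext0 e f z = 0 := by unfold ext0; rw [indicator_of_notMem h]
    simp only [hg']
    refine le_antisymm ((indicator_le_self _ _ _).trans ?_) zero_le
    rw [h0]; simp
  rw [← h1, ← h2, lintegral_indicator e.open_source.measurableSet,
    lintegral_indicator e.open_target.measurableSet,
    lintegral_chart hμ he hgm.aemeasurable]
  refine setLIntegral_congr_fun e.open_target.measurableSet fun z hz => ?_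
  have e1 : PP e Ψ z = Ψ (e.symm z) := by
    unfold PP
    rw [indicator_of_mem hz]
    rfl
  have h3 : e.symm z ∈ {x : M | ‖ell a (cp x)‖ ^ 2 ≤ ε ^ 2 * Real.exp (Ψ x)} ↔
      z ∈ {z : Fin (n + 1) → ℂ | ‖ell a z‖ ^ 2 ≤ ε ^ 2 * Real.exp (PP e Ψ z)} := by
    rw [mem_ofPred_eq, mem_ofPred_eq, he.cp_symm hz, e1]
  simp only [hg, hg']
  by_cases h4 : z ∈ {z : Fin (n + 1) → ℂ | ‖ell a z‖ ^ 2 ≤ ε ^ 2 * Real.exp (PP e Ψ z)}
  · rw [indicator_of_mem h4, indicator_of_mem (h3.2 h4), ext0_of_mem e f hz]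
  · rw [indicator_of_notMem h4, indicator_of_notMem (fun h => h4 (h3.1 h))]

variable [MeasurableSpace (Hs M a)] [BorelSpace (Hs M a)] {μD : Measure (Hs M a)}

lemma D_chart (hμD : IsLeb μD) {e : OpenPartialHomeomorph M (Fin (n + 1) → ℂ)} (he : IsCh e)
    {Ψ : M → ℝ} (hΨ : Continuous Ψ) {f : M → ℝ} (hf : Continuous f)
    (hfs : tsupport f ⊆ e.source) :
    ∫⁻ y : Hs M a, ENNReal.ofReal (f (ι y) * Real.exp (Ψ (ι y))) ∂μD =
      ∫⁻ z, ENNReal.ofReal (ext0 e f (gam a z) * Real.exp (PP e Ψ (gam a z))) := by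
  rcases isEmpty_or_nonempty (Hs M a) with hE | ⟨⟨x0⟩⟩
  · have h1 : ∀ z, ENNReal.ofReal (ext0 e f (gam a z) * Real.exp (PP e Ψ (gam a z))) = 0 := by
      intro z
      have h2 : gam a z ∉ e.target := by
        intro h
        exact hE.false (mkHs (e.symm (gam a z)) (by rw [he.cp_symm h, ell_gam]))
      unfold ext0
      rw [indicator_of_notMem h2]
      simp
    simp only [h1, lintegral_zero]
    rw [Measure.eq_zero_of_isEmpty μD, lintegral_zero_measure]
  · set g : Hs M a → ℝ≥0∞ := fun y => ENNReal.ofReal (f (ι y) * Real.exp (Ψ (ι y))) with hg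
    set g' : (Fin n → ℂ) → ℝ≥0∞ := fun z =>
      ENNReal.ofReal (ext0 e f (gam a z) * Real.exp (PP e Ψ (gam a z))) with hg'
    have hgm : Measurable g := by
      refine (Continuous.measurable ?_).ennreal_ofReal
      exact (hf.comp continuous_ι).mul (Real.continuous_exp.comp (hΨ.comp continuous_ι))
    have h1 : (chD he x0).source.indicator g = g := by
      rw [indicator_eq_self]
      intro y hy
      by_contra h
      apply hy
      have h0 : f (ι y) = 0 := image_eq_zero_of_notMem_tsupport fun h' => h (hfs h')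
      simp [hg, h0]
    have h2 : (chD he x0).target.indicator g' = g' := by
      rw [indicator_eq_self]
      intro z hz
      by_contra h
      apply hz
      have h0 : ext0 e f (gam a z) = 0 := by
        unfold ext0; rw [indicator_of_notMem (by exact h)]
      simp [hg', h0]
    rw [← h1, ← h2, lintegral_indicator (chD he x0).open_source.measurableSet,
      lintegral_indicator (chD he x0).open_target.measurableSet,
      lintegral_chart hμD (isCh_chD he x0) hgm.aemeasurable]
    refine setLIntegral_congr_fun (chD he x0).open_target.measurableSet fun z hz => ?_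
    have hz' : gam a z ∈ e.target := hz
    simp only [hg, hg']
    rw [ι_chD_symm he x0 hz', ext0_of_mem e f hz']
    unfold PP
    rw [indicator_of_mem hz']
    rfl

/-- **tube limit** -/
theorem tube_limit (hμ : IsLeb μ) (hμD : IsLeb μD) {Ψ : M → ℝ} (hΨ : Continuous Ψ) {u : M → ℝ}
    (hu : Continuous u) (huc : HasCompactSupport u) (hu0 : ∀ x, 0 ≤ u x) :
    Tendsto (fun ε : ℝ => (∫⁻ x in {x | ‖ell a (cp x)‖ ^ 2 ≤ ε ^ 2 * Real.exp (Ψ x)},
        ENNReal.ofReal (u x) ∂μ) / ENNReal.ofReal (ε ^ 2)) (𝓝[>] 0)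
      (𝓝 (ENNReal.ofReal Real.pi *
        ∫⁻ y : Hs M a, ENNReal.ofReal (u (ι y) * Real.exp (Ψ (ι y))) ∂μD)) := by
  obtain ⟨m, c, g, hg, hsum⟩ := exists_pou (M := M) (K := tsupport u) huc
  have hsum1 : ∀ x, u x = ∑ i, g i x * u x := by
    intro x
    by_cases hx : x ∈ tsupport u
    · have := hsum.self_of_nhdsSet x hx
      rw [← Finset.sum_mul, this, one_mul]
    · simp [image_eq_zero_of_notMem_tsupport hx]
  have hc : ∀ i, Continuous (fun x => g i x * u x) := fun i => (hg i).1.continuous.mul hu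
  have hn : ∀ i x, 0 ≤ g i x * u x := fun i x => mul_nonneg ((hg i).2.2.2 x) (hu0 x)
  have hs : ∀ i, tsupport (fun x => g i x * u x) ⊆ (ch (c i)).source := fun i =>
    tsupport_mul_subset_left.trans (hg i).2.2.1
  have hk : ∀ i, HasCompactSupport (fun x => g i x * u x) := fun i => (hg i).2.1.mul_right
  have h1 : ∀ i, Tendsto (fun ε : ℝ => (∫⁻ x in {x | ‖ell a (cp x)‖ ^ 2 ≤ ε ^ 2 * Real.exp (Ψ x)},
        ENNReal.ofReal (g i x * u x) ∂μ) / ENNReal.ofReal (ε ^ 2)) (𝓝[>] 0)
      (𝓝 (ENNReal.ofReal Real.pi *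
        ∫⁻ y : Hs M a, ENNReal.ofReal (g i (ι y) * u (ι y) * Real.exp (Ψ (ι y))) ∂μD)) := by
    intro i
    have he := isCh_ch (c i)
    have h2 := tube_flat a (continuous_ext0 he (hc i) (hs i) (hk i))
      (ext0_hasCompactSupport he (hs i) (hk i)) (measurable_PP (ch (c i)) hΨ)
      (fun z hz => continuousAt_PP hΨ (tsupport_ext0 he (hs i) (hk i) hz))
    rw [← D_chart hμD he hΨ (hc i) (hs i)] at h2
    refine h2.congr fun ε => ?_
    rw [tube_chart hμ he hΨ (hc i) (hs i) ε]
  have h2 := tendsto_finsetSum (Finset.univ : Finset (Fin m)) (fun i _ => h1 i)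
  have e1 : ∑ i, (ENNReal.ofReal Real.pi *
        ∫⁻ y : Hs M a, ENNReal.ofReal (g i (ι y) * u (ι y) * Real.exp (Ψ (ι y))) ∂μD) =
      ENNReal.ofReal Real.pi *
        ∫⁻ y : Hs M a, ENNReal.ofReal (u (ι y) * Real.exp (Ψ (ι y))) ∂μD := by
    rw [← Finset.mul_sum, ← lintegral_finsetSum]
    · congr 1
      refine lintegral_congr fun y => ?_
      rw [← ENNReal.ofReal_sum_of_nonneg]
      · congr 1
        conv_rhs => rw [hsum1 (ι y), Finset.sum_mul]
      · intro i _
        exact mul_nonneg (hn i _) (Real.exp_pos _).le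
    · intro i _
      refine (Continuous.measurable ?_).ennreal_ofReal
      exact ((hc i).comp continuous_ι).mul (Real.continuous_exp.comp (hΨ.comp continuous_ι))
  rw [e1] at h2
  refine h2.congr fun ε => ?_
  simp only [div_eq_mul_inv]
  rw [← Finset.sum_mul, ← lintegral_finsetSum]
  · congr 1
    refine lintegral_congr fun x => ?_
    rw [← ENNReal.ofReal_sum_of_nonneg fun i _ => hn i x, ← hsum1 x]
  · intro i _
    exact (hc i).measurable.ennreal_ofReal

/-- the tube integral over a compact set is eventually `≤ ε² K'` -/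
theorem tube_le (hμ : IsLeb μ) (hμD : IsLeb μD) {Ψ : M → ℝ} (hΨ : Continuous Ψ) {v κ : M → ℝ}
    (hv : Continuous v) (hv0 : ∀ x, 0 ≤ v x) (hκ : Continuous κ) (hκc : HasCompactSupport κ)
    (hκ0 : ∀ x, 0 ≤ κ x) (hκ1 : ∀ x, κ x ≤ 1) {A : Set M} (hA : ∀ x ∈ A, κ x = 1)
    {K' : ℝ≥0∞} (hK' : ENNReal.ofReal Real.pi *
        ∫⁻ y : Hs M a, ENNReal.ofReal (v (ι y) * Real.exp (Ψ (ι y))) ∂μD < K') :
    ∀ᶠ ε : ℝ in 𝓝[>] 0, ∫⁻ x in A ∩ {x | ‖ell a (cp x)‖ ^ 2 ≤ ε ^ 2 * Real.exp (Ψ x)},
        ENNReal.ofReal (v x) ∂μ ≤ ENNReal.ofReal (ε ^ 2) * K' := by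
  have hu : Continuous (fun x => κ x * v x) := hκ.mul hv
  have h1 := tube_limit hμ hμD hΨ hu hκc.mul_right (fun x => mul_nonneg (hκ0 x) (hv0 x))
  have h2 : ENNReal.ofReal Real.pi *
        ∫⁻ y : Hs M a, ENNReal.ofReal (κ (ι y) * v (ι y) * Real.exp (Ψ (ι y))) ∂μD < K' := by
    refine lt_of_le_of_lt (mul_le_mul_right (lintegral_mono fun y => ?_) _) hK'
    apply ENNReal.ofReal_le_ofReal
    have := hκ1 (ι y)
    have := hv0 (ι y)
    have := Real.exp_pos (Ψ (ι y))
    gcongr
    nlinarith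
  filter_upwards [h1.eventually (gt_mem_nhds h2), self_mem_nhdsWithin] with ε hε hpos
  have hpos : 0 < ε := hpos
  have h3 : ∫⁻ x in {x | ‖ell a (cp x)‖ ^ 2 ≤ ε ^ 2 * Real.exp (Ψ x)},
        ENNReal.ofReal (κ x * v x) ∂μ ≤ ENNReal.ofReal (ε ^ 2) * K' := by
    rw [mul_comm]
    exact (ENNReal.div_le_iff_le_mul (Or.inl (by simpa using hpos.ne'))
      (Or.inl ENNReal.ofReal_ne_top)).1 hε.le
  refine le_trans ?_ h3
  have hcp : Continuous (fun x : M => ‖ell a (cp x)‖ ^ 2) :=
    ((continuous_ell a).comp cp_cont).norm.pow 2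
  have hS : MeasurableSet {x : M | ‖ell a (cp x)‖ ^ 2 ≤ ε ^ 2 * Real.exp (Ψ x)} :=
    (isClosed_le hcp (continuous_const.mul (Real.continuous_exp.comp hΨ))).measurableSet
  have hA1 : MeasurableSet {x | κ x = 1} := (isClosed_eq hκ continuous_const).measurableSet
  calc ∫⁻ x in A ∩ {x | ‖ell a (cp x)‖ ^ 2 ≤ ε ^ 2 * Real.exp (Ψ x)}, ENNReal.ofReal (v x) ∂μ
      ≤ ∫⁻ x in {x | κ x = 1} ∩ {x | ‖ell a (cp x)‖ ^ 2 ≤ ε ^ 2 * Real.exp (Ψ x)},
        ENNReal.ofReal (v x) ∂μ :=
        lintegral_mono_set (inter_subset_inter_left _ hA)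
    _ = ∫⁻ x in {x | κ x = 1} ∩ {x | ‖ell a (cp x)‖ ^ 2 ≤ ε ^ 2 * Real.exp (Ψ x)},
        ENNReal.ofReal (κ x * v x) ∂μ := by
        refine setLIntegral_congr_fun (hA1.inter hS) fun x hx => ?_
        have h4 : κ x = 1 := hx.1
        simp only [h4, one_mul]
    _ ≤ _ := lintegral_mono_set inter_subset_right

end transport

end Crest.Agent.R276.OTS_189
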