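import Crest.Agent.R276.PshA_29
import Crest.Agent.R276.SubL_29

/-!
# Row 276 (helper29): closure properties of psh functions on Riemann domains, part B

Pull back of psh functions by holomorphic maps between Riemann domains; restriction to open sets.
-/

set_option autoImplicit false
set_option linter.unusedSectionVars false
set_option linter.style.haveILetI false

open MeasureTheory Set Metric Filter Topology
open scoped ENNReal ContDiff

noncomputable section

namespace Crest.Agent.R276.PshB_29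

open Crest.Agent.R275.FL606 Crest.Agent.R271.Ho51 Crest.Agent.R273.Reg_844
  Crest.Agent.R276.PshA_29 Crest.Agent.R276.SubL_29
open Crest.Agent.R271.W792 (lev)
open TopologicalSpace (Opens)

section flat

variable {E : Type*} [NormedAddCommGroup E] [NormedSpace ℂ E] [CompleteSpace E]

/-- second derivative of the composition with a holomorphic curve -/
lemma snd_comp {H : E → ℝ} {g : ℂ → E} {w0 : ℂ} (hH : ContDiffAt ℝ 2 H (g w0))
    (hg : ∀ᶠ w in 𝓝 w0, DifferentiableAt ℂ g w) (a : ℂ) :
    fderiv ℝ (fderiv ℝ (H ∘ g)) w0 a a =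
      fderiv ℝ (fderiv ℝ H) (g w0) (a • deriv g w0) (a • deriv g w0) +
        fderiv ℝ H (g w0) (a • a • deriv (deriv g) w0) := by
  have hgan : AnalyticAt ℂ g w0 := by
    obtain ⟨s, hs, hso, hw⟩ := _root_.eventually_nhds_iff.1 hg
    exact DifferentiableOn.analyticAt (s := s) (fun w hw' => (hs w hw').differentiableWithinAt)
      (hso.mem_nhds hw)
  have hgc : ContDiffAt ℝ 2 g w0 := (hgan.contDiffAt (n := 2)).restrict_scalars ℝ
  have hHg : ContDiffAt ℝ 2 (H ∘ g) w0 := hH.comp w0 hgc
  have hdH : DifferentiableAt ℝ (fderiv ℝ H) (g w0) :=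
    (hH.fderiv_right (m := 1) (by norm_num)).differentiableAt (by norm_num)
  have hdHg : DifferentiableAt ℝ (fderiv ℝ (H ∘ g)) w0 :=
    (hHg.fderiv_right (m := 1) (by norm_num)).differentiableAt (by norm_num)
  have hevH : ∀ᶠ w in 𝓝 w0, ContDiffAt ℝ 2 H (g w) :=
    hgc.continuousAt.eventually (hH.eventually (by simp))
  have key : ∀ w, DifferentiableAt ℂ g w → HasFDerivAt g
      ((ContinuousLinearMap.toSpanSingleton ℂ (deriv g w)).restrictScalars ℝ) w := fun w hw =>
    (hw.hasDerivAt.hasFDerivAt).restrictScalars ℝ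
  have h1 : (fun w => fderiv ℝ (H ∘ g) w a) =ᶠ[𝓝 w0]
      fun w => fderiv ℝ H (g w) (a • deriv g w) := by
    filter_upwards [hg, hevH] with w hw hw2
    have h2 : HasFDerivAt (H ∘ g) ((fderiv ℝ H (g w)).comp
        ((ContinuousLinearMap.toSpanSingleton ℂ (deriv g w)).restrictScalars ℝ)) w :=
      HasFDerivAt.comp w (hw2.differentiableAt (by norm_num)).hasFDerivAt (key w hw)
    rw [h2.fderiv]
    simp [ContinuousLinearMap.toSpanSingleton_apply]
  have h2 : fderiv ℝ (fderiv ℝ (H ∘ g)) w0 a a = fderiv ℝ (fun w => fderiv ℝ (H ∘ g) w a) w0 a := by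
    rw [fderiv_clm_apply hdHg (differentiableAt_const a)]
    simp
  rw [h2, h1.fderiv_eq]
  have hg0 : DifferentiableAt ℂ g w0 := hg.self_of_nhds
  have hc : HasFDerivAt (fun w => fderiv ℝ H (g w)) ((fderiv ℝ (fderiv ℝ H) (g w0)).comp
      ((ContinuousLinearMap.toSpanSingleton ℂ (deriv g w0)).restrictScalars ℝ)) w0 :=
    HasFDerivAt.comp w0 hdH.hasFDerivAt (key w0 hg0)
  have hd1 : DifferentiableAt ℂ (deriv g) w0 := hgan.deriv.differentiableAt
  have hu : HasFDerivAt (fun w => a • deriv g w) (a •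
      ((ContinuousLinearMap.toSpanSingleton ℂ (deriv (deriv g) w0)).restrictScalars ℝ)) w0 :=
    HasFDerivAt.const_smul ((hd1.hasDerivAt.hasFDerivAt).restrictScalars ℝ) a
  have h3 := hc.clm_apply hu
  rw [h3.fderiv]
  simp [ContinuousLinearMap.toSpanSingleton_apply, add_comm]

lemma lap_comp {H : E → ℝ} {g : ℂ → E} {w0 : ℂ} (hH : ContDiffAt ℝ 2 H (g w0))
    (hg : ∀ᶠ w in 𝓝 w0, DifferentiableAt ℂ g w) :
    fderiv ℝ (fderiv ℝ (H ∘ g)) w0 1 1 + fderiv ℝ (fderiv ℝ (H ∘ g)) w0 Complex.I Complex.I =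
      fderiv ℝ (fderiv ℝ H) (g w0) (deriv g w0) (deriv g w0) +
      fderiv ℝ (fderiv ℝ H) (g w0) (Complex.I • deriv g w0) (Complex.I • deriv g w0) := by
  rw [snd_comp hH hg, snd_comp hH hg]
  have h1 : Complex.I • Complex.I • deriv (deriv g) w0 = - deriv (deriv g) w0 := by
    rw [smul_smul, Complex.I_mul_I, neg_one_smul]
  rw [h1, one_smul, one_smul, one_smul, map_neg]
  ring

end flat

section mani

variable {n n' : ℕ} {M : Type*} [TopologicalSpace M] [RDom n M]
  {M' : Type*} [TopologicalSpace M'] [RDom n' M']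

/-- holomorphic maps between Riemann domains -/
structure HolMap (f : M' → M) : Prop where
  cont : Continuous f
  hol : ∀ j, Hol (fun x => cp (f x) j)

lemma HolMap.id : HolMap (fun x : M => x) :=
  ⟨continuous_id, fun j e he => by
    have h1 : DifferentiableOn ℂ (fun z : Fin n → ℂ => z j) e.target :=
      (differentiable_apply j).differentiableOn
    exact h1.congr fun z hz => by simp only [Function.comp_apply]; rw [he.cp_symm hz]⟩

/-- **pull back by holomorphic maps** -/
theorem psh_comp_hol [T2Space M] {f : M' → M} (hf : HolMap f) {ψ : M → ℝ} (h : PSH ψ) :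
    PSH (fun x => ψ (f x)) := by
  refine psh_of_local (h.usc.comp hf.cont) (fun x => ?_) (fun x => ?_)
  · obtain ⟨c, hc⟩ := h.bdd (f x)
    exact ⟨c, hf.cont.continuousAt.eventually hc⟩
  obtain ⟨U, φ, hU, hCU, hφs, hφl, hφa, hφg, hφt⟩ := exists_reg h (isCompact_singleton (x := f x))
  set e' := ch x with he'
  have hch : IsCh e' := isCh_ch x
  have hcont : ContinuousOn (fun z => f (e'.symm z)) e'.target :=
    hf.cont.comp_continuousOn e'.symm.continuousOn
  have hVo : IsOpen (e'.target ∩ (fun z => f (e'.symm z)) ⁻¹' U) :=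
    hcont.isOpen_inter_preimage e'.open_target hU
  have hxV : cp x ∈ e'.target ∩ (fun z => f (e'.symm z)) ⁻¹' U := by
    refine ⟨hch.cp_mem (mem_ch x), ?_⟩
    rw [mem_preimage, he', symm_cp]
    exact hCU rfl
  obtain ⟨r, hr, hb⟩ := Metric.isOpen_iff.1 hVo _ hxV
  refine ⟨r, hr, SM.of_le fun z v hd => ?_⟩
  rw [zero_mul, add_zero]
  have hdt : ∀ w : ℂ, ‖w‖ ≤ 1 → z + w • v ∈ e'.target := fun w hw => (hb (hd w hw)).1
  have hdU : ∀ w : ℂ, ‖w‖ ≤ 1 → f (e'.symm (z + w • v)) ∈ U := fun w hw => (hb (hd w hw)).2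
  -- the smooth functions along the disc
  have hloc : ∀ (k : ℕ) (w : ℂ), ‖w‖ ≤ 1 →
      ContDiffAt ℝ 2 (fun w : ℂ => φ k (f (e'.symm (z + w • v)))) w ∧
      0 ≤ fderiv ℝ (fderiv ℝ (fun w : ℂ => φ k (f (e'.symm (z + w • v))))) w 1 1 +
        fderiv ℝ (fderiv ℝ (fun w : ℂ => φ k (f (e'.symm (z + w • v))))) w Complex.I Complex.I := by
    intro k w hw
    set y0 : M := f (e'.symm (z + w • v)) with hy0
    set G : ℂ → (Fin n → ℂ) := fun w' => cp (f (e'.symm (z + w' • v))) with hG
    have hline : Continuous (fun w' : ℂ => z + w' • v) := by fun_prop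
    have hev : ∀ᶠ w' in 𝓝 w, z + w' • v ∈ e'.target :=
      hline.continuousAt.eventually_mem (e'.open_target.mem_nhds (hdt w hw))
    have hcontG : ContinuousAt (fun w' : ℂ => f (e'.symm (z + w' • v))) w :=
      ContinuousAt.comp (g := fun z => f (e'.symm z)) (hcont.continuousAt
        (e'.open_target.mem_nhds (hdt w hw))) hline.continuousAt
    have hsrc : ∀ᶠ w' in 𝓝 w, f (e'.symm (z + w' • v)) ∈ (ch y0).source :=
      hcontG.eventually_mem ((ch y0).open_source.mem_nhds (mem_ch y0))
    have hGd : ∀ᶠ w' in 𝓝 w, DifferentiableAt ℂ G w' := by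
      filter_upwards [hev] with w' hw'
      rw [differentiableAt_pi]
      intro j
      have h1 : DifferentiableAt ℂ ((fun x => cp (f x) j) ∘ e'.symm) (z + w' • v) :=
        (hf.hol j e' hch).differentiableAt (e'.open_target.mem_nhds hw')
      have h2 : DifferentiableAt ℂ (fun w' : ℂ => z + w' • v) w' := by fun_prop
      exact DifferentiableAt.comp (g := (fun x => cp (f x) j) ∘ e'.symm) w' h1 h2
    have heq : (fun w : ℂ => φ k (f (e'.symm (z + w • v)))) =ᶠ[𝓝 w]
        ((φ k ∘ (ch y0).symm) ∘ G) := by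
      filter_upwards [hsrc] with w' hw'
      simp only [Function.comp_apply, hG]
      rw [(isCh_ch y0).symm_cp hw']
    have hH : ContDiffAt ℝ 2 (φ k ∘ (ch y0).symm) (G w) :=
      (hφs k y0 (hdU w hw)).of_le (by norm_cast)
    have hGan : AnalyticAt ℂ G w := by
      obtain ⟨s, hs, hso, hw⟩ := _root_.eventually_nhds_iff.1 hGd
      exact DifferentiableOn.analyticAt (s := s) (fun w hw' => (hs w hw').differentiableWithinAt)
        (hso.mem_nhds hw)
    have hGc : ContDiffAt ℝ 2 G w := (hGan.contDiffAt (n := 2)).restrict_scalars ℝ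
    refine ⟨(hH.comp w hGc).congr_of_eventuallyEq heq, ?_⟩
    rw [heq.fderiv.fderiv_eq, lap_comp hH hGd]
    have h1 := hφl k y0 (hdU w hw) (deriv G w)
    rw [lev_eq_chart (isCh_ch y0) (mem_ch y0) hH] at h1
    have h2 : cp y0 = G w := rfl
    rw [h2] at h1
    linarith
  have hstep : ∀ k, φ k (f (e'.symm z)) ≤ av (fun y => φ k (f (e'.symm y))) z v := by
    intro k
    rw [av_eq_circleAverage]
    have h1 := Crest.Agent.R275.FL884.le_circleAverage_of_contDiffAt
      (ψ := fun w : ℂ => φ k (f (e'.symm (z + w • v)))) (c := 0) (fun w hw => by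
        rw [mem_closedBall, dist_zero_right] at hw
        exact (hloc k w hw).1)
      (fun w hw => by
        rw [mem_closedBall, dist_zero_right] at hw
        rw [mul_zero, neg_zero]
        exact (hloc k w hw).2)
    simpa using h1
  -- bounds
  have hcurve : Continuous (fun θ : ℝ => z + ang θ • v) := by
    have := continuous_ang
    fun_prop
  have hcirc : ∀ k, Continuous (fun θ : ℝ => φ k (f (e'.symm (z + ang θ • v)))) := by
    intro k
    rw [continuous_iff_continuousAt]
    intro θ
    exact ContinuousAt.comp (g := fun w : ℂ => φ k (f (e'.symm (z + w • v))))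
      (hloc k (ang θ) (norm_ang θ).le).1.continuousAt continuous_ang.continuousAt
  have hcptM : IsCompact ((fun w : ℂ => f (e'.symm (z + w • v))) '' closedBall 0 1) := by
    refine (isCompact_closedBall (0 : ℂ) 1).image_of_continuousOn ?_
    refine hcont.comp (by fun_prop) ?_
    intro w hw
    rw [mem_closedBall, dist_zero_right] at hw
    exact hdt w hw
  obtain ⟨K, hK⟩ := h.exists_bound hcptM
  have hmem : ∀ θ : ℝ, f (e'.symm (z + ang θ • v)) ∈
      (fun w : ℂ => f (e'.symm (z + w • v))) '' closedBall 0 1 := fun θ =>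
    ⟨ang θ, by rw [mem_closedBall, dist_zero_right]; exact (norm_ang θ).le, rfl⟩
  obtain ⟨K0, hK0⟩ : ∃ K0 : ℝ, ∀ w ∈ closedBall (0 : ℂ) 1,
      ‖φ 0 (f (e'.symm (z + w • v)))‖ ≤ K0 := by
    refine (isCompact_closedBall (0 : ℂ) 1).exists_bound_of_continuousOn ?_
    intro w hw
    rw [mem_closedBall, dist_zero_right] at hw
    exact (hloc 0 w hw).1.continuousAt.continuousWithinAt
  have hav : Tendsto (fun k => av (fun y => φ k (f (e'.symm y))) z v) atTop
      (𝓝 (av (fun y => ψ (f (e'.symm y))) z v)) := by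
    unfold av
    refine tendsto_integral_of_dominated_convergence (fun _ => max K K0) (fun k => ?_)
      (integrable_const _) (fun k => ?_) ?_
    · exact (hcirc k).aestronglyMeasurable
    · refine Eventually.of_forall fun θ => ?_
      have hθU := hdU (ang θ) (norm_ang θ).le
      rw [Real.norm_eq_abs, abs_le]
      constructor
      · have h1 := (abs_le.1 (hK _ (hmem θ))).1
        have h2 := hφg k _ hθU
        have h3 := le_max_left K K0
        linarith
      · have h1 : φ k (f (e'.symm (z + ang θ • v))) ≤ φ 0 (f (e'.symm (z + ang θ • v))) :=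
          hφa _ hθU (Nat.zero_le k)
        have h2 := hK0 (ang θ) (by rw [mem_closedBall, dist_zero_right]; exact (norm_ang θ).le)
        rw [Real.norm_eq_abs] at h2
        exact h1.trans (((le_abs_self _).trans h2).trans (le_max_right _ _))
    · exact Eventually.of_forall fun θ => hφt _ (hdU (ang θ) (norm_ang θ).le)
  have hz : f (e'.symm z) ∈ U := by simpa using hdU 0 (by simp)
  exact le_of_tendsto_of_tendsto' (hφt _ hz) hav hstep

/-- restriction to an open subset -/
theorem psh_res (U : Opens M) {ψ : M → ℝ} (h : PSH ψ) :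
    @PSH n U _ (rdO U) (fun y : U => ψ y.1) := by
  letI := rdO U
  refine ⟨h.usc.comp continuous_subtype_val, fun x => ?_, fun e he => ?_⟩
  · obtain ⟨c, hc⟩ := h.bdd x.1
    exact ⟨c, continuous_subtype_val.continuousAt.eventually hc⟩
  · exact h.sm (liftCh U e he) (isCh_liftCh U e he)

end mani

end Crest.Agent.R276.PshB_29
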