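import Crest.Agent.R276.EngU_29
import Crest.Agent.R276.PshB_29
import Crest.Agent.R273.PsiB_844

/-!
# Row 276 (helper29): closure properties of `LPsh` (`log b` plurisubharmonic, `-∞` allowed)
-/

set_option autoImplicit false
set_option linter.unusedSectionVars false
set_option linter.style.haveILetI false

open MeasureTheory Set Metric Filter Topology
open scoped ENNReal ContDiff

noncomputable section

namespace Crest.Agent.R276.EngU_29

open Crest.Agent.R275.FL606 Crest.Agent.R271.Ho51 Crest.Agent.R273.Reg_844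
  Crest.Agent.R276.PshA_29 Crest.Agent.R276.PshB_29 Crest.Agent.R276.SubL_29
open TopologicalSpace (Opens)

/-! ### log-sum-exp -/

lemma lse_pos {ι : Type*} [Fintype ι] {δ : ℝ} (hδ : 0 < δ) (t : ι → ℝ) :
    0 < ∑ i, Real.exp (t i) + δ :=
  add_pos_of_nonneg_of_pos (Finset.sum_nonneg fun _ _ => (Real.exp_pos _).le) hδ

lemma convexOn_lse {ι : Type*} [Fintype ι] {δ : ℝ} (hδ : 0 < δ) :
    ConvexOn ℝ univ (fun t : ι → ℝ => Real.log (∑ i, Real.exp (t i) + δ)) := by
  refine ⟨convex_univ, fun s _ t _ a b ha hb hab => ?_⟩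
  set S : ℝ := ∑ i, Real.exp (s i) + δ with hS
  set T : ℝ := ∑ i, Real.exp (t i) + δ with hT
  have hS0 : 0 < S := lse_pos hδ s
  have hT0 : 0 < T := lse_pos hδ t
  simp only [smul_eq_mul, Pi.add_apply, Pi.smul_apply]
  rw [Real.log_le_iff_le_exp (lse_pos hδ _)]
  have hexp : ∀ x y : ℝ, Real.exp (a * x + b * y) ≤
      Real.exp (a * Real.log S + b * Real.log T) *
        (a * (Real.exp x / S) + b * (Real.exp y / T)) := by
    intro x y
    have h1 := convexOn_exp.2 (mem_univ (x - Real.log S)) (mem_univ (y - Real.log T)) ha hb hab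
    simp only [smul_eq_mul] at h1
    rw [Real.exp_sub, Real.exp_sub, Real.exp_log hS0, Real.exp_log hT0] at h1
    have h2 : Real.exp (a * x + b * y) = Real.exp (a * Real.log S + b * Real.log T) *
        Real.exp (a * (x - Real.log S) + b * (y - Real.log T)) := by
      rw [← Real.exp_add]; congr 1; ring
    rw [h2]
    exact mul_le_mul_of_nonneg_left h1 (Real.exp_pos _).le
  have hδe : δ = Real.exp (a * Real.log δ + b * Real.log δ) := by
    rw [← add_mul, hab, one_mul, Real.exp_log hδ]
  calc ∑ i, Real.exp (a * s i + b * t i) + δ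
      ≤ ∑ i, Real.exp (a * Real.log S + b * Real.log T) *
        (a * (Real.exp (s i) / S) + b * (Real.exp (t i) / T)) +
        Real.exp (a * Real.log S + b * Real.log T) * (a * (δ / S) + b * (δ / T)) := by
        refine add_le_add (Finset.sum_le_sum fun i _ => hexp _ _) ?_
        have := hexp (Real.log δ) (Real.log δ)
        rw [← hδe, Real.exp_log hδ] at this
        exact this
    _ = Real.exp (a * Real.log S + b * Real.log T) * (a * (S / S) + b * (T / T)) := by
        rw [← Finset.mul_sum, ← mul_add, Finset.sum_add_distrib, ← Finset.mul_sum,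
          ← Finset.mul_sum, ← Finset.sum_div, ← Finset.sum_div]
        congr 1
        rw [hS, hT]
        ring
    _ = Real.exp (a * Real.log S + b * Real.log T) := by
        rw [div_self hS0.ne', div_self hT0.ne', mul_one, mul_one, hab, mul_one]

lemma monotone_lse {ι : Type*} [Fintype ι] {δ : ℝ} (hδ : 0 < δ) :
    Monotone (fun t : ι → ℝ => Real.log (∑ i, Real.exp (t i) + δ)) := by
  intro s t hst
  refine Real.log_le_log (lse_pos hδ s) (add_le_add (Finset.sum_le_sum fun i _ => ?_) le_rfl)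
  exact Real.exp_le_exp.2 (hst i)

lemma continuous_lse {ι : Type*} [Fintype ι] {δ : ℝ} (hδ : 0 < δ) :
    Continuous (fun t : ι → ℝ => Real.log (∑ i, Real.exp (t i) + δ)) := by
  refine Continuous.log (by fun_prop) fun t => (lse_pos hδ t).ne'

section mani

variable {n : ℕ} {M : Type*} [TopologicalSpace M] [RDom n M]

/-- sums of exponentials of psh functions -/
theorem LPsh.sum_exp {ι : Type*} [Fintype ι] {u : ι → M → ℝ} (h : ∀ i, PSH (u i)) :
    LPsh (fun x => ∑ i, Real.exp (u i x)) :=
  ⟨fun x => Finset.sum_nonneg fun _ _ => (Real.exp_pos _).le, fun _δ hδ =>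
    psh_comp_pi h (convexOn_lse hδ) (monotone_lse hδ) (continuous_lse hδ)⟩

theorem LPsh.exp {u : M → ℝ} (h : PSH u) : LPsh (fun x => Real.exp (u x)) := by
  have := LPsh.sum_exp (ι := Unit) (u := fun _ => u) (fun _ => h)
  simpa using this

lemma LPsh.usc {b : M → ℝ} (h : LPsh b) : UpperSemicontinuous b := by
  intro x c hc
  have h0 := h.nonneg x
  have h1 : Real.log (b x + 1) < Real.log (c + 1) :=
    Real.log_lt_log (by linarith) (by linarith)
  filter_upwards [(h.psh 1 one_pos).usc x _ h1] with y hy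
  have h2 := h.nonneg y
  have h3 := (Real.log_lt_log_iff (by linarith : 0 < b y + 1) (by linarith)).1 hy
  linarith

lemma LPsh.measurable [MeasurableSpace M] [BorelSpace M] {b : M → ℝ} (h : LPsh b) :
    Measurable b := h.usc.measurable

lemma LPsh.exists_bound {b : M → ℝ} (h : LPsh b) {C : Set M} (hC : IsCompact C) :
    ∃ K, ∀ x ∈ C, b x ≤ K := usc_bdd h.usc hC

/-- decreasing limits -/
theorem LPsh.of_antitone {b : M → ℝ} {β : ℕ → M → ℝ} (h : ∀ k, LPsh (β k))
    (hanti : ∀ x, Antitone fun k => β k x)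
    (hlim : ∀ x, Tendsto (fun k => β k x) atTop (𝓝 (b x))) : LPsh b := by
  have h0 : ∀ x, 0 ≤ b x := fun x => ge_of_tendsto' (hlim x) fun k => (h k).nonneg x
  refine ⟨h0, fun δ hδ => psh_of_antitone (fun k => (h k).psh δ hδ) (fun x k k' hkk' => ?_)
    (fun x => ?_) fun x => ⟨Real.log δ, Eventually.of_forall fun y => ?_⟩⟩
  · exact Real.log_le_log (by have := (h k').nonneg x; positivity)
      (add_le_add (hanti x hkk') le_rfl)
  · have h1 : b x + δ ≠ 0 := by have := h0 x; positivity
    exact (Real.continuousAt_log h1).tendsto.comp ((hlim x).add_const δ)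
  · exact Real.log_le_log hδ (by linarith [h0 y])

/-- bounded pointwise limits -/
theorem LPsh.of_tendsto {b : M → ℝ} {β : ℕ → M → ℝ} (h : ∀ k, LPsh (β k))
    (husc : UpperSemicontinuous b) (hlim : ∀ x, Tendsto (fun k => β k x) atTop (𝓝 (b x)))
    (hbd : ∀ x, ∃ K, ∀ᶠ y in 𝓝 x, ∀ k, β k y ≤ K) : LPsh b := by
  have h0 : ∀ x, 0 ≤ b x := fun x => ge_of_tendsto' (hlim x) fun k => (h k).nonneg x
  refine ⟨h0, fun δ hδ => psh_of_tendsto ?_ (fun k => (h k).psh δ hδ) (fun x => ?_) fun x => ?_⟩
  · intro x c hc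
    have h1 : b x < Real.exp c - δ := by
      have := (Real.log_lt_iff_lt_exp (by have := h0 x; positivity)).1 hc
      linarith
    filter_upwards [husc x _ h1] with y hy
    rw [Real.log_lt_iff_lt_exp (by have := h0 y; positivity)]
    linarith
  · have h1 : b x + δ ≠ 0 := by have := h0 x; positivity
    exact (Real.continuousAt_log h1).tendsto.comp ((hlim x).add_const δ)
  · obtain ⟨K, hK⟩ := hbd x
    refine ⟨max |Real.log δ| |Real.log (K + δ)|, hK.mono fun y hy k => ?_⟩
    have h1 := (h k).nonneg y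
    have h2 := hy k
    rw [abs_le]
    constructor
    · have h3 : Real.log δ ≤ Real.log (β k y + δ) := Real.log_le_log hδ (by linarith)
      have := neg_abs_le (Real.log δ)
      have := le_max_left |Real.log δ| |Real.log (K + δ)|
      linarith
    · have h3 : Real.log (β k y + δ) ≤ Real.log (K + δ) :=
        Real.log_le_log (by positivity) (by linarith)
      have := le_abs_self (Real.log (K + δ))
      have := le_max_right |Real.log δ| |Real.log (K + δ)|
      linarith

/-- suprema -/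
theorem LPsh.of_sup {ι : Type*} {b : M → ℝ} {β : ι → M → ℝ} (h : ∀ i, LPsh (β i))
    (husc : UpperSemicontinuous b) (hle : ∀ i x, β i x ≤ b x)
    (happ : ∀ x, ∀ c < b x, ∃ i, c < β i x) : LPsh b := by
  have h0 : ∀ x, 0 ≤ b x := fun x => by
    obtain ⟨i, -⟩ := happ x (b x - 1) (by linarith)
    exact ((h i).nonneg x).trans (hle i x)
  refine ⟨h0, fun δ hδ => psh_of_sup (fun i => (h i).psh δ hδ) ?_ (fun i x => ?_) fun x c hc => ?_⟩
  · intro x c hc
    have h1 : b x < Real.exp c - δ := by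
      have := (Real.log_lt_iff_lt_exp (by have := h0 x; positivity)).1 hc
      linarith
    filter_upwards [husc x _ h1] with y hy
    rw [Real.log_lt_iff_lt_exp (by have := h0 y; positivity)]
    linarith
  · exact Real.log_le_log (by have := (h i).nonneg x; positivity) (by linarith [hle i x])
  · have h1 : Real.exp c - δ < b x := by
      have := (Real.lt_log_iff_exp_lt (by have := h0 x; positivity)).1 hc
      linarith
    obtain ⟨i, hi⟩ := happ x _ h1
    refine ⟨i, ?_⟩
    rw [Real.lt_log_iff_exp_lt (by have := (h i).nonneg x; positivity)]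
    linarith

lemma eps_pos (k : ℕ) : (0 : ℝ) < 1 / ((k : ℝ) + 1) := by positivity

lemma eps_anti {k k' : ℕ} (h : k ≤ k') : 1 / ((k' : ℝ) + 1) ≤ 1 / ((k : ℝ) + 1) := by
  apply one_div_le_one_div_of_le (by positivity)
  have : (k : ℝ) ≤ k' := by exact_mod_cast h
  linarith

/-- `b + δ` for `δ > 0` -/
theorem LPsh.add_const {b : M → ℝ} (h : LPsh b) {δ : ℝ} (hδ : 0 < δ) : LPsh (fun x => b x + δ) := by
  have h1 := LPsh.exp (h.psh δ hδ)
  have h2 : (fun x => Real.exp (Real.log (b x + δ))) = fun x => b x + δ := by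
    funext x
    exact Real.exp_log (by have := h.nonneg x; positivity)
  rwa [h2] at h1

theorem LPsh.mul {b b' : M → ℝ} (h : LPsh b) (h' : LPsh b') : LPsh (fun x => b x * b' x) := by
  refine LPsh.of_antitone (β := fun k x => (b x + 1 / ((k : ℝ) + 1)) * (b' x + 1 / ((k : ℝ) + 1)))
    (fun k => ?_) (fun x k k' hkk' => ?_) (fun x => ?_)
  · have h1 := LPsh.exp ((h.psh _ (eps_pos k)).add (h'.psh _ (eps_pos k)))
    have h2 : (fun x => Real.exp (Real.log (b x + 1 / ((k : ℝ) + 1)) +
        Real.log (b' x + 1 / ((k : ℝ) + 1)))) =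
        fun x => (b x + 1 / ((k : ℝ) + 1)) * (b' x + 1 / ((k : ℝ) + 1)) := by
      funext x
      have := h.nonneg x
      have := h'.nonneg x
      rw [Real.exp_add, Real.exp_log (by positivity), Real.exp_log (by positivity)]
    rwa [h2] at h1
  · have := h.nonneg x
    have := h'.nonneg x
    have := eps_pos k'
    exact mul_le_mul (by linarith [eps_anti hkk']) (by linarith [eps_anti hkk'])
      (by positivity) (by positivity)
  · have h1 : Tendsto (fun k : ℕ => b x + 1 / ((k : ℝ) + 1)) atTop (𝓝 (b x + 0)) :=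
      tendsto_one_div_add_atTop_nhds_zero_nat.const_add _
    have h2 : Tendsto (fun k : ℕ => b' x + 1 / ((k : ℝ) + 1)) atTop (𝓝 (b' x + 0)) :=
      tendsto_one_div_add_atTop_nhds_zero_nat.const_add _
    rw [add_zero] at h1 h2
    exact h1.mul h2

theorem LPsh.const {c : ℝ} (hc : 0 ≤ c) : LPsh (fun _ : M => c) :=
  ⟨fun _ => hc, fun _ _ => PSH.const _⟩

theorem LPsh.const_mul {b : M → ℝ} (h : LPsh b) {c : ℝ} (hc : 0 ≤ c) :
    LPsh (fun x => c * b x) := (LPsh.const hc).mul h

theorem LPsh.pow {b : M → ℝ} (h : LPsh b) (k : ℕ) : LPsh (fun x => b x ^ k) := by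
  induction k with
  | zero => simpa using LPsh.const (M := M) zero_le_one
  | succ k ih => simpa only [pow_succ] using ih.mul h

theorem LPsh.rpow {b : M → ℝ} (h : LPsh b) {c : ℝ} (hc : 0 ≤ c) : LPsh (fun x => b x ^ c) := by
  rcases hc.eq_or_lt with rfl | hc0
  · simpa using LPsh.const (M := M) zero_le_one
  refine LPsh.of_antitone (β := fun k x => (b x + 1 / ((k : ℝ) + 1)) ^ c)
    (fun k => ?_) (fun x k k' hkk' => ?_) (fun x => ?_)
  · have h1 := LPsh.exp ((h.psh _ (eps_pos k)).const_mul hc)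
    have h2 : (fun x => Real.exp (c * Real.log (b x + 1 / ((k : ℝ) + 1)))) =
        fun x => (b x + 1 / ((k : ℝ) + 1)) ^ c := by
      funext x
      have := h.nonneg x
      rw [Real.rpow_def_of_pos (by positivity), mul_comm]
    rwa [h2] at h1
  · have := h.nonneg x
    have := eps_pos k'
    exact Real.rpow_le_rpow (by positivity) (by linarith [eps_anti hkk']) hc
  · have h1 : Tendsto (fun k : ℕ => b x + 1 / ((k : ℝ) + 1)) atTop (𝓝 (b x + 0)) :=
      tendsto_one_div_add_atTop_nhds_zero_nat.const_add _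
    rw [add_zero] at h1
    exact h1.rpow_const (Or.inr hc)

theorem LPsh.sum {ι : Type*} (s : Finset ι) {b : ι → M → ℝ} (h : ∀ i ∈ s, LPsh (b i)) :
    LPsh (fun x => ∑ i ∈ s, b i x) := by
  have key : ∀ x, ∑ i ∈ s, b i x = ∑ i : s, b i.1 x := fun x =>
    (Finset.sum_coe_sort s (fun i => b i x)).symm
  simp only [key]
  refine LPsh.of_antitone (β := fun k x => ∑ i : s, (b i.1 x + 1 / ((k : ℝ) + 1)))
    (fun k => ?_) (fun x k k' hkk' => ?_) (fun x => ?_)
  · have h1 := LPsh.sum_exp (fun i : s => (h i.1 i.2).psh _ (eps_pos k))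
    have h2 : (fun x => ∑ i : s, Real.exp (Real.log (b i.1 x + 1 / ((k : ℝ) + 1)))) =
        fun x => ∑ i : s, (b i.1 x + 1 / ((k : ℝ) + 1)) := by
      funext x
      refine Finset.sum_congr rfl fun i _ => ?_
      have := (h i.1 i.2).nonneg x
      exact Real.exp_log (by positivity)
    rwa [h2] at h1
  · exact Finset.sum_le_sum fun i _ => by linarith [eps_anti hkk']
  · refine tendsto_finsetSum _ fun i _ => ?_
    have h1 : Tendsto (fun k : ℕ => b i.1 x + 1 / ((k : ℝ) + 1)) atTop (𝓝 (b i.1 x + 0)) :=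
      tendsto_one_div_add_atTop_nhds_zero_nat.const_add _
    rwa [add_zero] at h1

theorem LPsh.add {b b' : M → ℝ} (h : LPsh b) (h' : LPsh b') : LPsh (fun x => b x + b' x) := by
  have h1 := LPsh.sum (s := (Finset.univ : Finset Bool)) (b := fun i => if i then b else b')
    (fun i _ => by cases i <;> simp [h, h'])
  simpa using h1

theorem LPsh.max {b b' : M → ℝ} (h : LPsh b) (h' : LPsh b') : LPsh (fun x => max (b x) (b' x)) := by
  refine ⟨fun x => (h.nonneg x).trans (le_max_left _ _), fun δ hδ => ?_⟩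
  have h1 := (h.psh δ hδ).sup (h'.psh δ hδ)
  have h2 : (fun x => Real.log (Max.max (b x) (b' x) + δ)) =
      fun x => Max.max (Real.log (b x + δ)) (Real.log (b' x + δ)) := by
    funext x
    have h3 := h.nonneg x
    have h4 := h'.nonneg x
    rcases le_total (b x) (b' x) with hle | hle
    · rw [max_eq_right hle, max_eq_right (Real.log_le_log (by positivity) (by linarith))]
    · rw [max_eq_left hle, max_eq_left (Real.log_le_log (by positivity) (by linarith))]
  rwa [h2]

theorem LPsh.of_hol {f : M → ℂ} (hf : Hol f) : LPsh (fun x => ‖f x‖ ^ 2) :=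
  ⟨fun _ => by positivity, fun _ hδ => psh_log hf hδ⟩

theorem LPsh.of_hol_norm {f : M → ℂ} (hf : Hol f) : LPsh (fun x => ‖f x‖) := by
  have h1 := (LPsh.of_hol hf).rpow (c := 1 / 2) (by norm_num)
  have h2 : (fun x => (‖f x‖ ^ 2) ^ (1 / 2 : ℝ)) = fun x => ‖f x‖ := by
    funext x
    rw [← Real.sqrt_eq_rpow, Real.sqrt_sq (norm_nonneg _)]
  rwa [h2] at h1

theorem LPsh.of_hol_rpow {f : M → ℂ} (hf : Hol f) {c : ℝ} (hc : 0 ≤ c) :
    LPsh (fun x => ‖f x‖ ^ c) := (LPsh.of_hol_norm hf).rpow hc

/-- `∑ |f_i|²` -/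
theorem LPsh.sum_hol {ι : Type*} (s : Finset ι) {f : ι → M → ℂ} (hf : ∀ i ∈ s, Hol (f i)) :
    LPsh (fun x => ∑ i ∈ s, ‖f i x‖ ^ 2) := LPsh.sum s fun i hi => LPsh.of_hol (hf i hi)

theorem LPsh.comp_hol {n' : ℕ} {M' : Type*} [TopologicalSpace M'] [RDom n' M'] [T2Space M]
    {f : M' → M} (hf : HolMap f) {b : M → ℝ} (h : LPsh b) : LPsh (fun x => b (f x)) :=
  ⟨fun _ => h.nonneg _, fun δ hδ => psh_comp_hol hf (h.psh δ hδ)⟩

theorem LPsh.res (U : Opens M) {b : M → ℝ} (h : LPsh b) : @LPsh n U _ (rdO U) (fun y : U => b y.1) :=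
  @LPsh.mk n U _ (rdO U) _ (fun _ => h.nonneg _) fun δ hδ => psh_res U (h.psh δ hδ)

/-- local criterion -/
theorem LPsh.of_local {b : M → ℝ} (h0 : ∀ x, 0 ≤ b x) (husc : UpperSemicontinuous b)
    (hloc : ∀ δ : ℝ, 0 < δ → ∀ x, ∃ r : ℝ, 0 < r ∧
      SM 0 ((fun y => Real.log (b y + δ)) ∘ (ch x).symm) (ball (cp x) r)) : LPsh b := by
  refine ⟨h0, fun δ hδ => psh_of_local ?_ (fun x => ⟨Real.log δ, Eventually.of_forall fun y =>
    Real.log_le_log hδ (by linarith [h0 y])⟩) (hloc δ hδ)⟩
  intro x c hc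
  have h1 : b x < Real.exp c - δ := by
    have := (Real.log_lt_iff_lt_exp (by have := h0 x; positivity)).1 hc
    linarith
  filter_upwards [husc x _ h1] with y hy
  rw [Real.log_lt_iff_lt_exp (by have := h0 y; positivity)]
  linarith

end mani

end Crest.Agent.R276.EngU_29
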