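import Mathlib

/-!
# Row 276, leaf W1 (helper185), part 1: sub-mean value inequality for `‖f‖ ^ p`, `p > 0`

* `log_le`       : `log ‖f 0‖ ≤` circle average of `log ‖f‖` (`f` analytic, `f 0 ≠ 0`);
* `rpow_le`      : `‖f 0‖ ^ p ≤` circle average of `‖f‖ ^ p`;
* `mul_measure_le` : `‖g 0‖ ^ p * μ S ≤ ∫ over S of ‖g‖ ^ p`, `S` balanced open, `g` holomorphic;
* `weighted`     : the version with a second holomorphic function in the weight.
-/

set_option autoImplicit false

open MeasureTheory Set Metric Topology Filter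
open scoped ENNReal Real

namespace Crest.Agent.R276.Sub_185

noncomputable section

/-- the circle measure of total mass one -/
def cm : Measure ℝ := (ENNReal.ofReal (2 * π))⁻¹ • volume.restrict (Ioc 0 (2 * π))

instance : IsProbabilityMeasure cm := by
  refine ⟨?_⟩
  rw [cm, Measure.smul_apply, Measure.restrict_apply_univ, Real.volume_Ioc, sub_zero, smul_eq_mul]
  refine ENNReal.inv_mul_cancel ?_ ENNReal.ofReal_ne_top
  rw [Ne, ENNReal.ofReal_eq_zero, not_le]; positivity

theorem circleAverage_eq (u : ℂ → ℝ) :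
    Real.circleAverage u 0 1 = ∫ θ, u (circleMap 0 1 θ) ∂cm := by
  rw [Real.circleAverage_def, cm, integral_smul_measure, ENNReal.toReal_inv,
    ENNReal.toReal_ofReal (by positivity), intervalIntegral.integral_of_le (by positivity)]

theorem ae_cm {P : ℝ → Prop} (h : ∀ᵐ θ ∂(volume : Measure ℝ), P θ) : ∀ᵐ θ ∂cm, P θ := by
  unfold cm
  refine Measure.ae_smul_measure ?_ _
  exact ae_restrict_of_ae h

/-- Jensen's inequality on a circle -/
theorem log_le {f : ℂ → ℂ} (hf : AnalyticOnNhd ℂ f (closedBall 0 1)) (h0 : f 0 ≠ 0) :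
    Real.log ‖f 0‖ ≤ Real.circleAverage (fun z => Real.log ‖f z‖) 0 1 := by
  have h1 := AnalyticOnNhd.circleAverage_log_norm (c := 0) (R := 1) (f := f) one_ne_zero
    (by simpa using hf) h0
  rw [h1]
  have h2 : 0 ≤ ∑ᶠ u, (MeromorphicOn.divisor f (closedBall 0 |(1 : ℝ)|) u : ℝ) *
      Real.log (1 * ‖(0 : ℂ) - u‖⁻¹) := by
    refine finsum_nonneg fun u => ?_
    by_cases hu : u ∈ closedBall (0 : ℂ) |(1 : ℝ)|
    · have h3 : 0 ≤ MeromorphicOn.divisor f (closedBall 0 |(1 : ℝ)|) u := by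
        have := MeromorphicOn.AnalyticOnNhd.divisor_nonneg (f := f)
          (U := closedBall 0 |(1 : ℝ)|) (by simpa using hf)
        exact this u
      refine mul_nonneg (by exact_mod_cast h3) ?_
      rw [one_mul, zero_sub, norm_neg]
      rw [abs_one, mem_closedBall_zero_iff] at hu
      by_cases hu0 : ‖u‖ = 0
      · simp [hu0]
      · exact Real.log_nonneg (one_le_inv_iff₀.2 ⟨lt_of_le_of_ne (norm_nonneg _) (Ne.symm hu0), hu⟩)
    · rw [Function.locallyFinsuppWithin.apply_eq_zero_of_notMem _ hu]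
      simp
  linarith

theorem integrable_cm {u : ℂ → ℝ} (h : CircleIntegrable u 0 1) :
    Integrable (fun θ => u (circleMap 0 1 θ)) cm := by
  unfold cm
  refine Integrable.smul_measure ?_ ?_
  · have := h
    unfold CircleIntegrable at this
    rw [intervalIntegrable_iff_integrableOn_Ioc_of_le (by positivity)] at this
    exact this
  · rw [ENNReal.inv_ne_top, Ne, ENNReal.ofReal_eq_zero, not_le]; positivity

/-- zeros of `f` on the circle are negligible -/
theorem codisc {f : ℂ → ℂ} (hf : AnalyticOnNhd ℂ f (closedBall 0 1)) (h0 : f 0 ≠ 0) :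
    ∀ᶠ z in codiscreteWithin (sphere (0 : ℂ) |(1 : ℝ)|), f z ≠ 0 := by
  have h1 : ∀ᶠ z in codiscreteWithin (closedBall (0 : ℂ) |(1 : ℝ)|), f z ≠ 0 := by
    have hpre : IsPreconnected (closedBall (0 : ℂ) |(1 : ℝ)|) := (convex_closedBall 0 _).isPreconnected
    have hf' : AnalyticOnNhd ℂ f (closedBall 0 |(1 : ℝ)|) := by simpa using hf
    have := AnalyticOnNhd.preimage_zero_mem_codiscreteWithin (x := 0) hf' h0 (by simp)
      ⟨⟨0, by simp⟩, hpre⟩
    filter_upwards [this] with z hz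
    simpa using hz
  exact Filter.codiscreteWithin_mono sphere_subset_closedBall h1

/-- **sub-mean value inequality** for `‖f‖ ^ p` on a circle -/
theorem rpow_le {f : ℂ → ℂ} (hf : AnalyticOnNhd ℂ f (closedBall 0 1)) {p : ℝ} (hp : 0 < p) :
    ‖f 0‖ ^ p ≤ Real.circleAverage (fun z => ‖f z‖ ^ p) 0 1 := by
  by_cases h0 : f 0 = 0
  · rw [h0, norm_zero, Real.zero_rpow hp.ne']
    rw [Real.circleAverage_def]
    refine smul_nonneg (by positivity) (intervalIntegral.integral_nonneg (by positivity) fun θ _ => ?_)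
    positivity
  have hcont : ContinuousOn (fun z => ‖f z‖ ^ p) (sphere 0 |(1 : ℝ)|) := by
    refine ContinuousOn.rpow_const ?_ fun _ _ => Or.inr hp.le
    exact (hf.continuousOn.mono (by rw [abs_one]; exact sphere_subset_closedBall)).norm
  have hint : CircleIntegrable (fun z => ‖f z‖ ^ p) 0 1 := hcont.circleIntegrable'
  have hlog : CircleIntegrable (fun z => Real.log ‖f z‖) 0 1 := by
    refine MeromorphicOn.circleIntegrable_log_norm ?_
    refine (AnalyticOnNhd.meromorphicOn ?_)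
    exact hf.mono (by rw [abs_one]; exact sphere_subset_closedBall)
  have hcongr : (fun z => Real.exp (p * Real.log ‖f z‖)) =ᶠ[codiscreteWithin (sphere (0 : ℂ) |(1 : ℝ)|)]
      fun z => ‖f z‖ ^ p := by
    filter_upwards [codisc hf h0] with z hz
    rw [Real.rpow_def_of_pos (norm_pos_iff.2 hz), mul_comm]
  have hint2 : CircleIntegrable (fun z => Real.exp (p * Real.log ‖f z‖)) 0 1 :=
    CircleIntegrable.congr_codiscreteWithin hcongr.symm hint
  have h1 := log_le hf h0
  have h2 : Real.exp (∫ θ, p * Real.log ‖f (circleMap 0 1 θ)‖ ∂cm) ≤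
      ∫ θ, Real.exp (p * Real.log ‖f (circleMap 0 1 θ)‖) ∂cm := by
    refine convexOn_exp.map_integral_le Real.continuous_exp.continuousOn isClosed_univ
      (Eventually.of_forall fun _ => mem_univ _) ?_ ?_
    · exact (integrable_cm hlog).const_mul p
    · exact integrable_cm hint2
  have h3 : Real.circleAverage (fun z => Real.exp (p * Real.log ‖f z‖)) 0 1 =
      Real.circleAverage (fun z => ‖f z‖ ^ p) 0 1 :=
    Real.circleAverage_congr_codiscreteWithin hcongr one_ne_zero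
  rw [← h3, circleAverage_eq]
  refine le_trans ?_ h2
  rw [Real.rpow_def_of_pos (norm_pos_iff.2 h0), integral_const_mul]
  refine Real.exp_le_exp.2 ?_
  rw [mul_comm]
  refine mul_le_mul_of_nonneg_left ?_ hp.le
  rw [← circleAverage_eq (fun z => Real.log ‖f z‖)]
  exact h1

/-! ### balanced sets -/

variable {E : Type*} [NormedAddCommGroup E] [NormedSpace ℂ E]

/-- circle mean value inequality for `‖g‖ ^ p` on a complex line -/
theorem rpow_le_circle {g : E → ℂ} {S : Set E} (hS : IsOpen S) (hb : Balanced ℂ S)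
    (hg : DifferentiableOn ℂ g S) {w : E} (hw : w ∈ S) {p : ℝ} (hp : 0 < p) :
    ENNReal.ofReal (2 * π) * ‖g 0‖ₑ ^ p ≤
      ∫⁻ θ in Ioc 0 (2 * π), ‖g (circleMap 0 1 θ • w)‖ₑ ^ p := by
  set F : ℂ → ℂ := fun l => g (l • w) with hF
  set U : Set ℂ := {l | l • w ∈ S} with hU
  have hUo : IsOpen U := hS.preimage (by fun_prop)
  have hFd : DifferentiableOn ℂ F U := hg.comp (differentiable_id.smul_const w).differentiableOn
    fun l hl => hl
  have hsub : closedBall (0 : ℂ) 1 ⊆ U := fun l hl => hb.smul_mem (by simpa using hl) hw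
  have hFa : AnalyticOnNhd ℂ F (closedBall 0 1) := (hFd.analyticOnNhd hUo).mono hsub
  have h1 := rpow_le hFa hp
  have hF0 : F 0 = g 0 := by simp [hF]
  have hcont : ContinuousOn (fun z => ‖F z‖ ^ p) (sphere 0 |(1 : ℝ)|) := by
    refine ContinuousOn.rpow_const ?_ fun _ _ => Or.inr hp.le
    exact (hFa.continuousOn.mono (by rw [abs_one]; exact sphere_subset_closedBall)).norm
  have hint := (hcont.circleIntegrable' : CircleIntegrable (fun z => ‖F z‖ ^ p) 0 1)
  unfold CircleIntegrable at hint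
  rw [intervalIntegrable_iff_integrableOn_Ioc_of_le (by positivity)] at hint
  rw [hF0, Real.circleAverage_def, intervalIntegral.integral_of_le (by positivity), smul_eq_mul] at h1
  have h2 : 2 * π * ‖g 0‖ ^ p ≤ ∫ θ in Ioc 0 (2 * π), ‖F (circleMap 0 1 θ)‖ ^ p := by
    have h3 := mul_le_mul_of_nonneg_left h1 (show (0 : ℝ) ≤ 2 * π by positivity)
    rwa [← mul_assoc, mul_inv_cancel₀ (by positivity), one_mul] at h3
  have h4 := ENNReal.ofReal_le_ofReal h2
  rw [ofReal_integral_eq_lintegral_ofReal hint (Eventually.of_forall fun θ => by positivity),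
    ENNReal.ofReal_mul (by positivity)] at h4
  have h5 : ∀ z : ℂ, ENNReal.ofReal (‖z‖ ^ p) = ‖z‖ₑ ^ p := fun z => by
    rw [← ENNReal.ofReal_rpow_of_nonneg (norm_nonneg z) hp.le, ofReal_norm]
  rw [h5] at h4
  refine h4.trans (le_of_eq ?_)
  refine lintegral_congr fun θ => ?_
  rw [h5]

variable [FiniteDimensional ℂ E] [MeasurableSpace E] [BorelSpace E]

/-- multiplication by a unit complex number preserves Haar measure -/
theorem measurePreserving_smul_of_norm_one (μ : Measure E) [μ.IsAddHaarMeasure] {c : ℂ}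
    (hc : ‖c‖ = 1) : MeasurePreserving (fun w : E => c • w) μ μ := by
  have : FiniteDimensional ℝ E := FiniteDimensional.complexToReal E
  refine ⟨(continuous_const_smul c).measurable, ?_⟩
  set L : E →ₗ[ℝ] E := ((LinearMap.lsmul ℂ E c).restrictScalars ℝ) with hL
  have hdet : LinearMap.det L = 1 := by
    rw [hL, LinearMap.det_restrictScalars]
    have : LinearMap.det (LinearMap.lsmul ℂ E c) = c ^ Module.finrank ℂ E := by
      have h0 : LinearMap.lsmul ℂ E c = c • (LinearMap.id : E →ₗ[ℂ] E) := by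
        ext w; simp
      rw [h0, LinearMap.det_smul, LinearMap.det_id, mul_one]
    rw [this, Algebra.norm_complex_apply, map_pow, Complex.normSq_eq_norm_sq, hc]
    simp
  have h := Measure.map_linearMap_addHaar_eq_smul_addHaar μ (f := L) (by rw [hdet]; norm_num)
  rw [hdet] at h
  simp only [inv_one, abs_one, ENNReal.ofReal_one, one_smul] at h
  exact h

/-- **Sub-mean value inequality** for `‖g‖ ^ p`, `g` holomorphic, on a balanced open set. -/
theorem mul_measure_le (μ : Measure E) [μ.IsAddHaarMeasure] {g : E → ℂ} {S : Set E}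
    (hS : IsOpen S) (hb : Balanced ℂ S) (hg : DifferentiableOn ℂ g S) {p : ℝ} (hp : 0 < p) :
    ‖g 0‖ₑ ^ p * μ S ≤ ∫⁻ w in S, ‖g w‖ₑ ^ p ∂μ := by
  classical
  have : FiniteDimensional ℝ E := FiniteDimensional.complexToReal E
  set G : E → ℝ≥0∞ := S.indicator (fun w => ‖g w‖ₑ ^ p) with hG
  have hGm : Measurable G := by
    have h1 : ContinuousOn (fun w => ‖g w‖ₑ ^ p) S :=
      (ENNReal.continuous_rpow_const).comp_continuousOn
        (continuous_enorm.comp_continuousOn hg.continuousOn)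
    have h2 : Measurable (S.piecewise (fun w => ‖g w‖ₑ ^ p) (fun _ => (0 : ℝ≥0∞))) :=
      h1.measurable_piecewise continuousOn_const hS.measurableSet
    have h3 : S.piecewise (fun w => ‖g w‖ₑ ^ p) (fun _ => (0 : ℝ≥0∞)) = G := by
      ext w; by_cases hw : w ∈ S <;> simp [hG, hw]
    rwa [h3] at h2
  have hsmul : Measurable (fun q : ℝ × E => circleMap 0 1 q.1 • q.2) := by
    refine Continuous.measurable ?_
    exact ((continuous_circleMap 0 1).comp continuous_fst).smul continuous_snd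
  set ν : Measure ℝ := (volume : Measure ℝ).restrict (Ioc 0 (2 * π)) with hν
  have hνu : ν univ = ENNReal.ofReal (2 * π) := by
    rw [hν, Measure.restrict_apply_univ, Real.volume_Ioc, sub_zero]
  have hswap : (∫⁻ θ, ∫⁻ w, G (circleMap 0 1 θ • w) ∂μ ∂ν) =
      ∫⁻ w, ∫⁻ θ, G (circleMap 0 1 θ • w) ∂ν ∂μ :=
    lintegral_lintegral_swap (hGm.comp hsmul).aemeasurable
  have hinner : ∀ θ : ℝ, (∫⁻ w, G (circleMap 0 1 θ • w) ∂μ) = ∫⁻ w, G w ∂μ := by
    intro θ
    exact (measurePreserving_smul_of_norm_one μ (c := circleMap 0 1 θ) (by simp)).lintegral_comp hGm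
  have hleft : (∫⁻ θ, ∫⁻ w, G (circleMap 0 1 θ • w) ∂μ ∂ν) =
      ENNReal.ofReal (2 * π) * ∫⁻ w, G w ∂μ := by
    rw [lintegral_congr hinner, lintegral_const, hνu, mul_comm]
  have hright : ENNReal.ofReal (2 * π) * (‖g 0‖ₑ ^ p * μ S) ≤
      ∫⁻ w, ∫⁻ θ, G (circleMap 0 1 θ • w) ∂ν ∂μ := by
    have : ENNReal.ofReal (2 * π) * (‖g 0‖ₑ ^ p * μ S) =
        ∫⁻ w, S.indicator (fun _ => ENNReal.ofReal (2 * π) * ‖g 0‖ₑ ^ p) w ∂μ := by
      rw [lintegral_indicator hS.measurableSet, lintegral_const, Measure.restrict_apply_univ,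
        mul_assoc]
    rw [this]
    refine lintegral_mono fun w => ?_
    by_cases hw : w ∈ S
    · rw [indicator_of_mem hw]
      refine (rpow_le_circle hS hb hg hw hp).trans (le_of_eq ?_)
      refine lintegral_congr fun θ => ?_
      have : circleMap 0 1 θ • w ∈ S := hb.smul_mem (by simp) hw
      simp only [hG, indicator_of_mem this]
    · rw [indicator_of_notMem hw]; exact zero_le
  rw [← hswap, hleft] at hright
  have hpos : ENNReal.ofReal (2 * π) ≠ 0 := by
    rw [Ne, ENNReal.ofReal_eq_zero, not_le]; positivity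
  have h := (ENNReal.mul_le_mul_iff_right hpos ENNReal.ofReal_ne_top).1 hright
  refine h.trans (le_of_eq ?_)
  rw [hG, lintegral_indicator hS.measurableSet]

/-- version centred at `z` -/
theorem mul_measure_le' (μ : Measure E) [μ.IsAddHaarMeasure] {g : E → ℂ} {z : E} {ρ : ℝ}
    (hg : DifferentiableOn ℂ g (ball z ρ)) {p : ℝ} (hp : 0 < p) :
    ‖g z‖ₑ ^ p * μ (ball 0 ρ) ≤ ∫⁻ w in ball z ρ, ‖g w‖ₑ ^ p ∂μ := by
  have hb : Balanced ℂ (ball (0 : E) ρ) := balanced_ball_zero
  have hg' : DifferentiableOn ℂ (fun w => g (z + w)) (ball 0 ρ) := by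
    refine hg.comp (differentiable_id.const_add z).differentiableOn fun w hw => ?_
    simpa using hw
  have h := mul_measure_le μ isOpen_ball hb hg' hp
  simp only [add_zero] at h
  refine h.trans (le_of_eq ?_)
  have hmp : MeasurePreserving (fun w : E => z + w) μ μ := measurePreserving_add_left μ z
  have hme : MeasurableEmbedding (fun w : E => z + w) := measurableEmbedding_addLeft z
  have hpre : (fun w : E => z + w) ⁻¹' ball z ρ = ball 0 ρ := by
    ext w; simp
  rw [← hpre, ← hmp.setLIntegral_comp_preimage_emb hme (fun w => ‖g w‖ₑ ^ p) (ball z ρ)]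

/-- **weighted version** (leaf W1b): `f` is bounded at the centre by the integral of
`‖f‖ ^ p * ‖g‖ ^ (-a)` (the weight is `⊤` where `g = 0`) and an upper bound `D` of the integral of
`‖g‖ ^ b`. -/
theorem weighted (μ : Measure E) [μ.IsAddHaarMeasure] {f g : E → ℂ} {z : E} {ρ : ℝ}
    (hf : DifferentiableOn ℂ f (ball z ρ)) (hg : DifferentiableOn ℂ g (ball z (2 * ρ)))
    {p a b : ℝ} (hp : 0 < p) (ha : 0 ≤ a) (hb : 0 < b) {D : ℝ≥0∞} (hD0 : D ≠ 0) (hDt : D ≠ ∞)
    (hD : ∫⁻ w in ball z (2 * ρ), ‖g w‖ₑ ^ b ∂μ ≤ D) :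
    ‖f z‖ₑ ^ p * (μ (ball (0 : E) ρ) * μ (ball (0 : E) ρ) ^ (a / b)) ≤
      D ^ (a / b) * ∫⁻ w in ball z ρ, ‖f w‖ₑ ^ p * ‖g w‖ₑ ^ (-a) ∂μ := by
  have hρ'' : μ (ball (0 : E) ρ) ≠ ∞ := by
    have : FiniteDimensional ℝ E := FiniteDimensional.complexToReal E
    have : ProperSpace E := FiniteDimensional.proper ℝ E
    exact measure_ball_lt_top.ne
  have hab : 0 ≤ a / b := by positivity
  have h1 : ∀ w ∈ ball z ρ, ‖g w‖ₑ ^ a * μ (ball (0 : E) ρ) ^ (a / b) ≤ D ^ (a / b) := by
    intro w hw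
    have hsub : ball w ρ ⊆ ball z (2 * ρ) := by
      intro y hy
      rw [mem_ball] at hy hw ⊢
      linarith [dist_triangle y w z]
    have h2 := mul_measure_le' μ (hg.mono hsub) hb
    have h3 : ‖g w‖ₑ ^ b * μ (ball (0 : E) ρ) ≤ D :=
      (h2.trans (lintegral_mono_set hsub)).trans hD
    have h4 := ENNReal.rpow_le_rpow h3 hab
    rw [ENNReal.mul_rpow_of_nonneg _ _ hab, ← ENNReal.rpow_mul,
      mul_div_cancel₀ _ hb.ne'] at h4
    exact h4
  have h5 := mul_measure_le' μ hf hp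
  have hDa0 : D ^ (a / b) ≠ 0 := by
    intro h
    rw [ENNReal.rpow_eq_zero_iff] at h
    rcases h with h | h
    · exact hD0 h.1
    · exact hDt h.1
  have hDat : D ^ (a / b) ≠ ∞ := ENNReal.rpow_ne_top_of_nonneg hab hDt
  calc ‖f z‖ₑ ^ p * (μ (ball (0 : E) ρ) * μ (ball (0 : E) ρ) ^ (a / b))
      = ‖f z‖ₑ ^ p * μ (ball (0 : E) ρ) * μ (ball (0 : E) ρ) ^ (a / b) := by rw [mul_assoc]
    _ ≤ (∫⁻ w in ball z ρ, ‖f w‖ₑ ^ p ∂μ) * μ (ball (0 : E) ρ) ^ (a / b) := by gcongr
    _ = ∫⁻ w in ball z ρ, ‖f w‖ₑ ^ p * μ (ball (0 : E) ρ) ^ (a / b) ∂μ := by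
        rw [lintegral_mul_const']
        exact ENNReal.rpow_ne_top_of_nonneg hab hρ''
    _ ≤ ∫⁻ w in ball z ρ, D ^ (a / b) * (‖f w‖ₑ ^ p * ‖g w‖ₑ ^ (-a)) ∂μ := by
        refine setLIntegral_mono' measurableSet_ball fun w hw => ?_
        by_cases hg0 : ‖g w‖ₑ = 0
        · by_cases ha0 : a = 0
          · subst ha0
            simp
          have haa : 0 < a := lt_of_le_of_ne ha (Ne.symm ha0)
          by_cases hf0 : ‖f w‖ₑ ^ p = 0
          · rw [hf0, zero_mul]; exact zero_le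
          rw [hg0, ENNReal.zero_rpow_of_neg (neg_neg_of_pos haa), ENNReal.mul_top hf0,
            ENNReal.mul_top hDa0]
          exact le_top
        · have h6 := h1 w hw
          have hgt : ‖g w‖ₑ ≠ ∞ := enorm_ne_top
          have h7 : ‖g w‖ₑ ^ a * ‖g w‖ₑ ^ (-a) = 1 := by
            rw [← ENNReal.rpow_add _ _ hg0 hgt, add_neg_cancel, ENNReal.rpow_zero]
          calc ‖f w‖ₑ ^ p * μ (ball (0 : E) ρ) ^ (a / b)
              = ‖f w‖ₑ ^ p * (‖g w‖ₑ ^ a * ‖g w‖ₑ ^ (-a)) * μ (ball (0 : E) ρ) ^ (a / b) := by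
                rw [h7, mul_one]
            _ = (‖g w‖ₑ ^ a * μ (ball (0 : E) ρ) ^ (a / b)) * (‖f w‖ₑ ^ p * ‖g w‖ₑ ^ (-a)) := by
                ring
            _ ≤ D ^ (a / b) * (‖f w‖ₑ ^ p * ‖g w‖ₑ ^ (-a)) := by gcongr
    _ = D ^ (a / b) * ∫⁻ w in ball z ρ, ‖f w‖ₑ ^ p * ‖g w‖ₑ ^ (-a) ∂μ := by
        rw [lintegral_const_mul' _ _ hDat]

end

end Crest.Agent.R276.Sub_185
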