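import Crest.Agent.R276.LM2_976

/-!
# R276, leaf LM (helper976): part 3: volumes of Hermitian ellipsoids, determinants, dimension

`volume_herm`, `volume_herm_euclidean` : `vol {w : ⟨w, M w⟩ < 1} = vol(B) / det M`.
`det_add_smul_bound` : `|det (A + t B)| ≤ C t ^ r` if `rank B ≤ r`.
`finrank_le_lintegral`, `lintegral_le_finrank` : `dim V` and the Bergman function.
-/

set_option autoImplicit false

open MeasureTheory Set Metric Topology Filter Matrix
open scoped ENNReal Real ContDiff ComplexOrder MatrixOrder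

namespace Crest.Agent.R276.LM3_976

noncomputable section

theorem measure_preimage_complexLinear {E : Type*} [NormedAddCommGroup E] [NormedSpace ℂ E]
    [FiniteDimensional ℂ E] [MeasurableSpace E] [BorelSpace E] (μ : Measure E)
    [μ.IsAddHaarMeasure] (L : E →ₗ[ℂ] E) (hL : LinearMap.det L ≠ 0) (s : Set E) :
    μ (L ⁻¹' s) = ENNReal.ofReal ((‖LinearMap.det L‖ ^ 2)⁻¹) * μ s := by
  have : FiniteDimensional ℝ E := FiniteDimensional.complexToReal E
  have hdet : LinearMap.det (L.restrictScalars ℝ) = ‖LinearMap.det L‖ ^ 2 := by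
    rw [LinearMap.det_restrictScalars, Algebra.norm_complex_apply, Complex.normSq_eq_norm_sq]
  have hne : LinearMap.det (L.restrictScalars ℝ) ≠ 0 := by
    rw [hdet]; positivity
  have h := Measure.addHaar_preimage_linearMap μ hne s
  rw [hdet, abs_of_nonneg (by positivity)] at h
  exact h

theorem exists_gram {d : ℕ} {M : Matrix (Fin d) (Fin d) ℂ} (hM : M.PosSemidef) :
    ∃ G : Matrix (Fin d) (Fin d) ℂ, M = Gᴴ * G := by
  obtain ⟨G, hG⟩ := CStarAlgebra.nonneg_iff_eq_star_mul_self.1 hM.nonneg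
  exact ⟨G, hG⟩

/-- the Hermitian form of a matrix -/
def hq {d : ℕ} (M : Matrix (Fin d) (Fin d) ℂ) (w : Fin d → ℂ) : ℝ := (star w ⬝ᵥ (M *ᵥ w)).re

theorem hq_gram {d : ℕ} (G : Matrix (Fin d) (Fin d) ℂ) (w : Fin d → ℂ) :
    hq (Gᴴ * G) w = ∑ i, ‖(G *ᵥ w) i‖ ^ 2 := by
  have h1 : star w ⬝ᵥ ((Gᴴ * G) *ᵥ w) = star (G *ᵥ w) ⬝ᵥ (G *ᵥ w) := by
    rw [← Matrix.mulVec_mulVec, Matrix.dotProduct_mulVec, Matrix.star_mulVec]
  rw [hq, h1, dotProduct, Complex.re_sum]
  refine Finset.sum_congr rfl fun i _ => ?_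
  rw [Pi.star_apply, Complex.star_def, Complex.conj_mul']
  norm_cast

theorem hq_smul {d : ℕ} (M : Matrix (Fin d) (Fin d) ℂ) (c : ℂ) (w : Fin d → ℂ) :
    hq M (c • w) = ‖c‖ ^ 2 * hq M w := by
  have h1 : star (c • w) ⬝ᵥ (M *ᵥ (c • w)) = ((‖c‖ ^ 2 : ℝ) : ℂ) * (star w ⬝ᵥ (M *ᵥ w)) := by
    rw [Matrix.mulVec_smul, dotProduct_smul, star_smul, smul_dotProduct, smul_eq_mul, smul_eq_mul,
      ← mul_assoc]
    congr 1
    rw [Complex.star_def, Complex.mul_conj']
    push_cast
    rfl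
  rw [hq, h1, Complex.re_ofReal_mul, hq]

theorem hq_continuous {d : ℕ} (M : Matrix (Fin d) (Fin d) ℂ) : Continuous (hq M) := by
  unfold hq
  refine Complex.continuous_re.comp ?_
  exact Continuous.dotProduct continuous_star (Continuous.matrix_mulVec continuous_const continuous_id)

theorem det_gram {d : ℕ} (G : Matrix (Fin d) (Fin d) ℂ) : (Gᴴ * G).det = ((‖G.det‖ ^ 2 : ℝ) : ℂ) := by
  rw [det_mul, det_conjTranspose, Complex.star_def, Complex.conj_mul']
  push_cast; rfl

/-- volume of a Hermitian ellipsoid in `Fin d → ℂ` -/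
theorem volume_herm {d : ℕ} {M : Matrix (Fin d) (Fin d) ℂ} (hM : M.PosDef)
    (μ : Measure (Fin d → ℂ)) [μ.IsAddHaarMeasure] :
    μ {w : Fin d → ℂ | hq M w < 1} =
      ENNReal.ofReal ((M.det.re)⁻¹) * μ {w : Fin d → ℂ | ∑ i, ‖w i‖ ^ 2 < 1} := by
  obtain ⟨G, rfl⟩ := exists_gram hM.posSemidef
  have hdet : G.det ≠ 0 := by
    intro h
    have := hM.det_pos
    rw [det_gram, h] at this
    simp at this
  have h := measure_preimage_complexLinear μ (Matrix.toLin' G)
    (by rwa [LinearMap.det_toLin']) {w : Fin d → ℂ | ∑ i, ‖w i‖ ^ 2 < 1}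
  rw [LinearMap.det_toLin'] at h
  rw [det_gram, Complex.ofReal_re, ← h]
  congr 1
  ext w
  simp [hq_gram]

/-- volume of a Hermitian ellipsoid in `EuclideanSpace` -/
theorem volume_herm_euclidean {d : ℕ} {M : Matrix (Fin d) (Fin d) ℂ} (hM : M.PosDef)
    (μ : Measure (EuclideanSpace ℂ (Fin d))) [μ.IsAddHaarMeasure] :
    μ {w : EuclideanSpace ℂ (Fin d) | hq M w.ofLp < 1} =
      ENNReal.ofReal ((M.det.re)⁻¹) * μ (ball 0 1) := by
  obtain ⟨G, rfl⟩ := exists_gram hM.posSemidef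
  have hdet : G.det ≠ 0 := by
    intro h
    have := hM.det_pos
    rw [det_gram, h] at this
    simp at this
  have hd : LinearMap.det (Matrix.toEuclideanLin G) = G.det := by
    rw [Matrix.toEuclideanLin_eq_toLin_orthonormal, LinearMap.det_toLin]
  have h := measure_preimage_complexLinear μ (Matrix.toEuclideanLin G)
    (by rwa [hd]) (ball 0 1)
  rw [hd] at h
  rw [det_gram, Complex.ofReal_re, ← h]
  congr 1
  ext w
  simp only [mem_ofPred_eq, hq_gram, mem_preimage, mem_ball_zero_iff]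
  rw [EuclideanSpace.norm_eq, Real.sqrt_lt' one_pos, one_pow]
  rfl

/-- `det (A + t B)` grows at most like `t ^ rank B` -/
theorem det_add_smul_bound {d r : ℕ} {A B : Matrix (Fin d) (Fin d) ℂ} {c : ℝ} (hc : 0 ≤ c)
    (hA : ∀ i j, ‖A i j‖ ≤ c) (hB : ∀ i j, ‖B i j‖ ≤ c) (hr : B.rank ≤ r) {t : ℝ} (ht : 1 ≤ t) :
    ‖(A + (t : ℂ) • B).det‖ ≤ (2 ^ d * d.factorial * c ^ d) * t ^ r := by
  classical
  set f : MultilinearMap ℂ (fun _ : Fin d => Fin d → ℂ) ℂ :=
    (detRowAlternating (n := Fin d) (R := ℂ)).toMultilinearMap with hf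
  have hfd : ∀ N : Matrix (Fin d) (Fin d) ℂ, f N = N.det := fun N => rfl
  have h1 : (A + (t : ℂ) • B).det = ∑ s : Finset (Fin d), f (s.piecewise ((t : ℂ) • B) A) := by
    have := f.map_add_univ ((t : ℂ) • B) A
    rw [add_comm, ← hfd]
    exact this
  have h2 : ∀ s : Finset (Fin d), f (s.piecewise ((t : ℂ) • B) A) =
      (t : ℂ) ^ s.card * f (s.piecewise B A) := by
    intro s
    have := f.map_piecewise_smul (fun _ => (t : ℂ)) (s.piecewise B A) s
    rw [Finset.prod_const, smul_eq_mul] at this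
    rw [← this]
    congr 1
    ext i j
    by_cases hi : i ∈ s <;> simp [Finset.piecewise, hi]
  have h3 : ∀ s : Finset (Fin d), r < s.card → f (s.piecewise B A) = 0 := by
    intro s hs
    by_contra hne
    have hli := Matrix.linearIndependent_rows_of_det_ne_zero (A := s.piecewise B A) hne
    have hli2 := hli.comp (fun i : s => (i : Fin d)) Subtype.val_injective
    have hrow : ((fun i => s.piecewise B A i) ∘ fun i : s => (i : Fin d)) =
        fun i : s => B (i : Fin d) := by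
      funext i
      exact Finset.piecewise_eq_of_mem _ _ _ i.2
    rw [hrow] at hli2
    have h5 := finrank_span_eq_card hli2
    have h6 : Module.finrank ℂ (Submodule.span ℂ (Set.range fun i : s => B (i : Fin d))) ≤
        Module.finrank ℂ (Submodule.span ℂ (Set.range B.row)) := by
      apply Submodule.finrank_mono
      apply Submodule.span_mono
      rintro _ ⟨i, rfl⟩
      exact ⟨i, rfl⟩
    rw [← Matrix.rank_eq_finrank_span_row, h5, Fintype.card_coe] at h6
    omega
  have h4 : ∀ s : Finset (Fin d), ‖f (s.piecewise ((t : ℂ) • B) A)‖ ≤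
      (d.factorial * c ^ d) * t ^ r := by
    intro s
    rw [h2]
    by_cases hs : r < s.card
    · rw [h3 s hs]
      simp only [mul_zero, norm_zero]
      positivity
    · rw [norm_mul, norm_pow, Complex.norm_real, Real.norm_eq_abs, abs_of_nonneg (by linarith),
        mul_comm]
      have hdet : ‖f (s.piecewise B A)‖ ≤ d.factorial * c ^ d := by
        have := Matrix.det_le (A := (s.piecewise B A : Matrix (Fin d) (Fin d) ℂ))
          (abv := IsAbsoluteValue.toAbsoluteValue (norm : ℂ → ℝ)) (x := c) (by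
            intro i j
            by_cases hi : i ∈ s
            · simpa [Finset.piecewise, hi, IsAbsoluteValue.toAbsoluteValue] using hB i j
            · simpa [Finset.piecewise, hi, IsAbsoluteValue.toAbsoluteValue] using hA i j)
        simp only [IsAbsoluteValue.toAbsoluteValue_apply, Fintype.card_fin, nsmul_eq_mul] at this
        exact this
      have htp : t ^ s.card ≤ t ^ r := pow_le_pow_right₀ ht (not_lt.1 hs)
      gcongr
  rw [h1]
  calc _ ≤ ∑ s : Finset (Fin d), ‖f (s.piecewise ((t : ℂ) • B) A)‖ := norm_sum_le _ _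
    _ ≤ ∑ s : Finset (Fin d), (d.factorial * c ^ d) * t ^ r := Finset.sum_le_sum fun s _ => h4 s
    _ = _ := by
      rw [Finset.sum_const, Finset.card_univ, Fintype.card_finset, Fintype.card_fin, nsmul_eq_mul]
      push_cast; ring

/-! ### dimension and the Bergman function -/

section Dim

variable {X : Type*} [MeasurableSpace X] {ν : Measure X} {V : Type*} [AddCommGroup V]
  [Module ℂ V] [FiniteDimensional ℂ V]

/-- the squared norm -/
def nI (ν : Measure X) (f : X → ℂ) : ℝ≥0∞ := ∫⁻ x, ‖f x‖ₑ ^ 2 ∂ν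

theorem nI_eq (f : X → ℂ) : nI ν f = eLpNorm f 2 ν ^ 2 := by
  have h := eLpNorm_nnreal_pow_eq_lintegral (μ := ν) (f := f) (p := 2) two_ne_zero
  have h2 : ((2 : NNReal) : ℝ) = (2 : ℕ) := by norm_num
  rw [h2] at h
  simp only [ENNReal.rpow_natCast] at h
  rw [nI, ← h]
  rfl

/-- `Σ_j |e x s_j|²` for a suitable basis: reproducing (Bergman) function and its properties -/
theorem exists_bergman (e : X → V →ₗ[ℂ] ℂ)
    (hm : ∀ s, AEStronglyMeasurable (fun x => e x s) ν)
    (hfin : ∀ s, nI ν (fun x => e x s) ≠ ⊤)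
    (hinj : ∀ s, nI ν (fun x => e x s) = 0 → s = 0) :
    ∃ T : X → ℝ≥0∞, AEMeasurable T ν ∧ (∫⁻ x, T x ∂ν = Module.finrank ℂ V) ∧
      (∀ x, T x ≠ ⊤) ∧
      (∀ x s, ‖e x s‖ₑ ^ 2 ≤ T x * nI ν (fun y => e y s)) ∧
      (∀ x, T x ≠ 0 → ∃ s, nI ν (fun y => e y s) ≠ 0 ∧
        ‖e x s‖ₑ ^ 2 = T x * nI ν (fun y => e y s)) := by
  have hmem : ∀ s, MemLp (fun x => e x s) 2 ν := by
    intro s
    refine ⟨hm s, ?_⟩
    have h1 := hfin s
    rw [nI_eq] at h1
    rw [lt_top_iff_ne_top]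
    intro h2
    rw [h2] at h1
    exact h1 (by simp)
  let F : V →ₗ[ℂ] Lp ℂ 2 ν :=
    { toFun := fun s => (hmem s).toLp _
      map_add' := by
        intro s t
        rw [← MemLp.toLp_add]
        congr 1
        funext x
        simp
      map_smul' := by
        intro c s
        rw [RingHom.id_apply, ← MemLp.toLp_const_smul]
        congr 1
        funext x
        simp }
  have hFn : ∀ s, nI ν (fun x => e x s) = ENNReal.ofReal (‖F s‖ ^ 2) := by
    intro s
    have h1 : ‖F s‖ = (eLpNorm (fun x => e x s) 2 ν).toReal := Lp.norm_toLp _ (hmem s)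
    rw [h1, nI_eq, ENNReal.ofReal_pow ENNReal.toReal_nonneg, ENNReal.ofReal_toReal (hmem s).2.ne]
  have hFinj : Function.Injective F := by
    rw [← LinearMap.ker_eq_bot, LinearMap.ker_eq_bot']
    intro s hs
    apply hinj
    rw [hFn, hs]
    simp
  let W := LinearMap.range F
  have hWfin : FiniteDimensional ℂ W := inferInstance
  have hWdim : Module.finrank ℂ W = Module.finrank ℂ V := LinearMap.finrank_range_of_inj hFinj
  let b := stdOrthonormalBasis ℂ W
  have hb : ∀ j, ∃ s, F s = b j := fun j => (b j).2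
  choose sj hsj using hb
  have hF : ∀ c : Fin (Module.finrank ℂ W) → ℂ, ‖F (∑ j, c j • sj j)‖ ^ 2 = ∑ j, ‖c j‖ ^ 2 := by
    intro c
    have h1 : F (∑ j, c j • sj j) = ((∑ j, c j • b j : W) : Lp ℂ 2 ν) := by
      rw [map_sum, Submodule.coe_sum]
      refine Finset.sum_congr rfl fun j _ => ?_
      rw [map_smul, hsj, Submodule.coe_smul]
    rw [h1, Submodule.norm_coe]
    have h2 : (∑ j, c j • b j : W) = b.repr.symm (WithLp.toLp 2 c) := by
      rw [← b.sum_repr_symm]
    rw [h2, LinearIsometryEquiv.norm_map, EuclideanSpace.norm_sq_eq]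
  -- every `s` is a combination of the `sj`
  have hspan : ∀ s : V, ∃ c : Fin (Module.finrank ℂ W) → ℂ, s = ∑ j, c j • sj j := by
    intro s
    let w : W := ⟨F s, LinearMap.mem_range_self F s⟩
    refine ⟨fun j => b.repr w j, hFinj ?_⟩
    have h1 := b.sum_repr w
    have h2 : F s = ((∑ j, b.repr w j • b j : W) : Lp ℂ 2 ν) := by rw [h1]
    rw [h2, map_sum, Submodule.coe_sum]
    refine Finset.sum_congr rfl fun j _ => ?_
    rw [map_smul, hsj, Submodule.coe_smul]
  have hnc : ∀ c : Fin (Module.finrank ℂ W) → ℂ,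
      nI ν (fun x => e x (∑ j, c j • sj j)) = ∑ j, ‖c j‖ₑ ^ 2 := by
    intro c
    rw [hFn, hF, ENNReal.ofReal_sum_of_nonneg (fun _ _ => by positivity)]
    refine Finset.sum_congr rfl fun j _ => ?_
    rw [LM1_976.enorm_sq_eq]
  set T : X → ℝ≥0∞ := fun x => ∑ j, ‖e x (sj j)‖ₑ ^ 2 with hT
  have hTtop : ∀ x, T x ≠ ⊤ := by
    intro x
    simp only [hT]
    exact ENNReal.sum_ne_top.2 fun j _ => ENNReal.pow_ne_top enorm_ne_top
  refine ⟨T, ?_, ?_, hTtop, ?_, ?_⟩
  · refine Finset.aemeasurable_fun_sum _ fun j _ => ?_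
    exact ((hm (sj j)).enorm).pow_const 2
  · rw [hT, lintegral_finsetSum' _ (fun j _ => ((hm (sj j)).enorm).pow_const 2)]
    have h1 : ∀ j, ∫⁻ x, ‖e x (sj j)‖ₑ ^ 2 ∂ν = 1 := by
      intro j
      have h2 := hnc (Pi.single j 1)
      have h3 : ∑ i, (Pi.single j 1 : Fin (Module.finrank ℂ W) → ℂ) i • sj i = sj j := by
        rw [Finset.sum_eq_single j]
        · simp
        · intro i _ hi; simp [Pi.single_eq_of_ne hi]
        · intro h; exact absurd (Finset.mem_univ j) h
      have h4 : ∑ i, ‖(Pi.single j 1 : Fin (Module.finrank ℂ W) → ℂ) i‖ₑ ^ 2 = 1 := by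
        rw [Finset.sum_eq_single j]
        · simp
        · intro i _ hi; simp [Pi.single_eq_of_ne hi]
        · intro h; exact absurd (Finset.mem_univ j) h
      rw [h3, h4] at h2
      exact h2
    rw [Finset.sum_congr rfl fun j _ => h1 j]
    simp [hWdim]
  · intro x s
    obtain ⟨c, rfl⟩ := hspan s
    rw [hnc]
    have h1 : ‖e x (∑ j, c j • sj j)‖ ^ 2 ≤ (∑ j, ‖e x (sj j)‖ ^ 2) * ∑ j, ‖c j‖ ^ 2 := by
      rw [map_sum]
      have h2 : ‖∑ j, e x (c j • sj j)‖ ≤ ∑ j, ‖e x (sj j)‖ * ‖c j‖ := by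
        refine (norm_sum_le _ _).trans (le_of_eq ?_)
        refine Finset.sum_congr rfl fun j _ => ?_
        rw [map_smul, smul_eq_mul, norm_mul, mul_comm]
      calc _ ≤ (∑ j, ‖e x (sj j)‖ * ‖c j‖) ^ 2 := by gcongr
        _ ≤ _ := Finset.sum_mul_sq_le_sq_mul_sq _ _ _
    have h3 := ENNReal.ofReal_le_ofReal h1
    rw [ENNReal.ofReal_mul (Finset.sum_nonneg fun _ _ => by positivity),
      ENNReal.ofReal_sum_of_nonneg (fun _ _ => by positivity),
      ENNReal.ofReal_sum_of_nonneg (fun _ _ => by positivity)] at h3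
    simp only [LM1_976.enorm_sq_eq] at h3
    exact h3
  · intro x hx
    set c : Fin (Module.finrank ℂ W) → ℂ := fun j => star (e x (sj j)) with hc
    refine ⟨∑ j, c j • sj j, ?_, ?_⟩
    · rw [hnc]
      simpa [hc, hT] using hx
    · rw [hnc]
      have h1 : e x (∑ j, c j • sj j) = ((∑ j, ‖e x (sj j)‖ ^ 2 : ℝ) : ℂ) := by
        rw [map_sum]
        push_cast
        refine Finset.sum_congr rfl fun j _ => ?_
        rw [map_smul, smul_eq_mul, hc, Complex.star_def, Complex.conj_mul']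
      have h2 : ‖e x (∑ j, c j • sj j)‖ₑ = T x := by
        rw [h1, ← ofReal_norm, Complex.norm_real, Real.norm_eq_abs,
          abs_of_nonneg (Finset.sum_nonneg fun _ _ => by positivity),
          ENNReal.ofReal_sum_of_nonneg (fun _ _ => by positivity)]
        simp only [LM1_976.enorm_sq_eq, hT]
      have h3 : ∑ j, ‖c j‖ₑ ^ 2 = T x := by
        simp only [hT, hc]
        refine Finset.sum_congr rfl fun j _ => ?_
        congr 1
        rw [← ofReal_norm, ← ofReal_norm, norm_star]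
      rw [h2, h3, sq]

/-- upper bound of the dimension by the integral of a bound of the Bergman function -/
theorem finrank_le_lintegral (e : X → V →ₗ[ℂ] ℂ)
    (hm : ∀ s, AEStronglyMeasurable (fun x => e x s) ν)
    (hfin : ∀ s, nI ν (fun x => e x s) ≠ ⊤)
    (hinj : ∀ s, nI ν (fun x => e x s) = 0 → s = 0) (B : X → ℝ≥0∞)
    (hB : ∀ᵐ x ∂ν, ∀ s, ‖e x s‖ₑ ^ 2 ≤ B x * nI ν (fun y => e y s)) :
    (Module.finrank ℂ V : ℝ≥0∞) ≤ ∫⁻ x, B x ∂ν := by
  obtain ⟨T, -, hT1, hT2, -, hT4⟩ := exists_bergman e hm hfin hinj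
  rw [← hT1]
  refine lintegral_mono_ae (hB.mono fun x hx => ?_)
  by_cases h0 : T x = 0
  · rw [h0]; exact zero_le
  · obtain ⟨s, hs0, hs⟩ := hT4 x h0
    have h1 := hx s
    rw [hs] at h1
    exact (ENNReal.mul_le_mul_iff_left hs0 (hfin s)).1 h1

/-- lower bound of the dimension by the integral of a lower bound of the Bergman function -/
theorem lintegral_le_finrank (e : X → V →ₗ[ℂ] ℂ)
    (hm : ∀ s, AEStronglyMeasurable (fun x => e x s) ν)
    (hfin : ∀ s, nI ν (fun x => e x s) ≠ ⊤)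
    (hinj : ∀ s, nI ν (fun x => e x s) = 0 → s = 0) (B : X → ℝ≥0∞)
    (hB : ∀ᵐ x ∂ν, B x ≠ 0 → ∃ s, nI ν (fun y => e y s) ≠ 0 ∧
      B x * nI ν (fun y => e y s) ≤ ‖e x s‖ₑ ^ 2) :
    ∫⁻ x, B x ∂ν ≤ (Module.finrank ℂ V : ℝ≥0∞) := by
  obtain ⟨T, -, hT1, hT2, hT3, -⟩ := exists_bergman e hm hfin hinj
  rw [← hT1]
  refine lintegral_mono_ae (hB.mono fun x hx => ?_)
  by_cases h0 : B x = 0
  · rw [h0]; exact zero_le
  · obtain ⟨s, hs0, hs⟩ := hx h0
    exact (ENNReal.mul_le_mul_iff_left hs0 (hfin s)).1 (hs.trans (hT3 x s))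

end Dim

end

end Crest.Agent.R276.LM3_976
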