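import Mathlib
import Crest.Agent.R271.Bd_741
import Crest.Agent.R271.RExt2_747

/-!
# Row 276 (helper986), W1-BD part A: general lemmas

* `fibre_ge` : change of variables `∫_Ω g(s ζ) |det φ'|² ≤ ∫ (∑ over the fibre of g)` on an arbitrary
  finite dimensional complex space (generalisation of 741's `lintegral_fibre_ge`);
* `ext_bdd` : Riemann extension theorem for locally bounded functions on such a space.
-/

set_option autoImplicit false

open scoped ENNReal NNReal Topology BigOperators
open MeasureTheory Set Metric Filter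

noncomputable section

namespace Crest.Agent.R276.C1bd_986

open Crest.Agent.R271.Bd741

/-- real determinant of a complex linear map -/
theorem abs_det_real' {E : Type*} [NormedAddCommGroup E] [NormedSpace ℂ E]
    [FiniteDimensional ℂ E] (L : E →L[ℂ] E) :
    |(L.restrictScalars ℝ).det| = ‖L.det‖ ^ 2 := by
  have h : (L.restrictScalars ℝ).det = Algebra.norm ℝ L.det := by
    simp only [ContinuousLinearMap.det]
    exact LinearMap.det_restrictScalars (R := ℝ) (S := ℂ) (f := (L : E →ₗ[ℂ] E))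
  rw [h, Algebra.norm_complex_apply, Complex.normSq_eq_norm_sq, abs_of_nonneg (by positivity)]

/-- **change of variables**, fibre form -/
theorem fibre_ge {E : Type*} [NormedAddCommGroup E] [NormedSpace ℂ E] [FiniteDimensional ℂ E]
    [MeasurableSpace E] [BorelSpace E] (μ : Measure E) [μ.IsAddHaarMeasure]
    {M : Type*} (p : M → E) (Ω : Set E)
    (hΩ : IsOpen Ω) (s : E → M) (hs : InjOn s Ω) (φ' : E → (E →L[ℂ] E))
    (hφ : ∀ ζ ∈ Ω, HasStrictFDerivAt (fun ζ => p (s ζ)) (φ' ζ) ζ)
    (hdet : ∀ ζ ∈ Ω, (φ' ζ).det ≠ 0) (g : M → ℝ≥0∞) :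
    ∫⁻ ζ in Ω, g (s ζ) * ENNReal.ofReal (‖(φ' ζ).det‖ ^ 2) ∂μ ≤
      ∫⁻ ζ : E, ∑' y : {y : M // p y = ζ}, g y.1 ∂μ := by
  classical
  have hfd : FiniteDimensional ℝ E := FiniteDimensional.complexToReal E
  have hcomp : CompleteSpace E := FiniteDimensional.complete ℂ E
  have hsec : SecondCountableTopology E := by
    have : ProperSpace E := FiniteDimensional.proper ℂ E
    infer_instance
  set φ : E → E := fun ζ => p (s ζ) with hφdef
  -- local injectivity
  have hloc : ∀ ζ ∈ Ω, ∃ U : Set E, IsOpen U ∧ ζ ∈ U ∧ U ⊆ Ω ∧ InjOn φ U := by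
    intro ζ hζ
    let e := (φ' ζ).toContinuousLinearEquivOfDetNeZero (hdet ζ hζ)
    have he : (e : E →L[ℂ] E) = φ' ζ :=
      ContinuousLinearMap.coe_toContinuousLinearEquivOfDetNeZero _ _
    have hd : HasStrictFDerivAt φ (e : E →L[ℂ] E) ζ := by
      rw [he]; exact hφ ζ hζ
    refine ⟨(hd.toOpenPartialHomeomorph φ).source ∩ Ω,
      (hd.toOpenPartialHomeomorph φ).open_source.inter hΩ,
      ⟨hd.mem_toOpenPartialHomeomorph_source, hζ⟩, inter_subset_right, ?_⟩
    have := (hd.toOpenPartialHomeomorph φ).injOn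
    rw [hd.toOpenPartialHomeomorph_coe] at this
    exact this.mono inter_subset_left
  choose! U hUo hUm hUs hUi using hloc
  -- countable subcover
  obtain ⟨T, hTΩ, hTc, hTcov⟩ : ∃ T ⊆ Ω, T.Countable ∧ Ω ⊆ ⋃ x ∈ T, U x :=
    TopologicalSpace.countable_cover_nhdsWithin
      (f := U) (s := Ω) (fun x hx => mem_nhdsWithin_of_mem_nhds ((hUo x hx).mem_nhds (hUm x hx)))
  rcases T.eq_empty_or_nonempty with hTe | hTne
  · have : Ω = ∅ := by
      apply Set.eq_empty_of_subset_empty
      simpa [hTe] using hTcov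
    simp [this]
  obtain ⟨u, hu⟩ := hTc.exists_eq_range hTne
  have huT : ∀ i, u i ∈ Ω := fun i => hTΩ (hu ▸ mem_range_self i)
  set F : ℕ → Set E := disjointed fun i => U (u i) with hF
  have hFm : ∀ i, MeasurableSet (F i) := fun i =>
    MeasurableSet.disjointed (fun i => (hUo _ (huT i)).measurableSet) i
  have hFU : ∀ i, F i ⊆ U (u i) := fun i => disjointed_subset _ i
  have hFd : Pairwise (Function.onFun Disjoint F) := disjoint_disjointed _
  have hFun : ⋃ i, F i = Ω := by
    rw [hF, iUnion_disjointed]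
    apply Subset.antisymm
    · exact iUnion_subset fun i => hUs _ (huT i)
    · intro x hx
      have := hTcov hx
      simp only [mem_iUnion] at this
      obtain ⟨y, hy, hxy⟩ := this
      rw [hu] at hy
      obtain ⟨i, rfl⟩ := hy
      exact mem_iUnion.2 ⟨i, hxy⟩
  let G : ℕ → E → ℝ≥0∞ := fun i ξ =>
    if h : ∃ x ∈ F i, φ x = ξ then g (s h.choose) else 0
  have hG : ∀ i, ∀ x ∈ F i, G i (φ x) = g (s x) := by
    intro i x hx
    have h : ∃ x' ∈ F i, φ x' = φ x := ⟨x, hx, rfl⟩
    have hc := h.choose_spec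
    have : h.choose = x := hUi _ (huT i) (hFU i hc.1) (hFU i hx) hc.2
    simp only [G, dif_pos h, this]
  have step1 : ∀ i, ∫⁻ ζ in F i, g (s ζ) * ENNReal.ofReal (‖(φ' ζ).det‖ ^ 2) ∂μ =
      ∫⁻ ξ in φ '' (F i), G i ξ ∂μ := by
    intro i
    have hder : ∀ x ∈ F i, HasFDerivWithinAt φ ((φ' x).restrictScalars ℝ) (F i) x := by
      intro x hx
      have hxΩ : x ∈ Ω := hUs _ (huT i) (hFU i hx)
      exact ((hφ x hxΩ).hasFDerivAt.restrictScalars ℝ).hasFDerivWithinAt
    rw [lintegral_image_eq_lintegral_abs_det_fderiv_mul μ (hFm i) hder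
      ((hUi _ (huT i)).mono (hFU i)) (G i)]
    refine setLIntegral_congr_fun (hFm i) ?_
    intro x hx
    simp only
    rw [hG i x hx, abs_det_real', mul_comm]
  calc ∫⁻ ζ in Ω, g (s ζ) * ENNReal.ofReal (‖(φ' ζ).det‖ ^ 2) ∂μ
      = ∑' i, ∫⁻ ζ in F i, g (s ζ) * ENNReal.ofReal (‖(φ' ζ).det‖ ^ 2) ∂μ := by
        rw [← hFun, lintegral_iUnion hFm hFd]
    _ = ∑' i, ∫⁻ ξ in φ '' (F i), G i ξ ∂μ := by simp_rw [step1]
    _ ≤ ∑' i, ∫⁻ ξ, G i ξ ∂μ := ENNReal.tsum_le_tsum fun i => setLIntegral_le_lintegral _ _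
    _ ≤ ∫⁻ ξ, ∑' i, G i ξ ∂μ := tsum_lintegral_le _ _
    _ ≤ ∫⁻ ζ : E, ∑' y : {y : M // p y = ζ}, g y.1 ∂μ := by
        refine lintegral_mono fun ξ => ?_
        simp only
        -- indices with a preimage
        let I : Set ℕ := {i | ∃ x ∈ F i, φ x = ξ}
        have hsupp : Function.support (fun i => G i ξ) ⊆ I := by
          intro i hi
          by_contra h
          apply hi
          simp only [I, mem_ofPred_eq] at h
          simp only [G, dif_neg h]
        rw [← tsum_subtype_eq_of_support_subset hsupp]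
        let j : I → {y : M // p y = ξ} := fun i => ⟨s i.2.choose, i.2.choose_spec.2⟩
        have hj : Function.Injective j := by
          intro a b hab
          have h1 : s a.2.choose = s b.2.choose := congrArg Subtype.val hab
          have ha := a.2.choose_spec.1
          have hb := b.2.choose_spec.1
          have haΩ : a.2.choose ∈ Ω := hUs _ (huT a.1) (hFU a.1 ha)
          have hbΩ : b.2.choose ∈ Ω := hUs _ (huT b.1) (hFU b.1 hb)
          have h2 := hs haΩ hbΩ h1
          by_contra hne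
          have hne' : (a : ℕ) ≠ b := fun h => hne (Subtype.ext h)
          have hdisj := hFd hne'
          rw [Function.onFun, Set.disjoint_left] at hdisj
          exact hdisj ha (h2 ▸ hb)
        calc ∑' i : I, G i ξ = ∑' i : I, g (j i).1 := by
              refine tsum_congr fun i => ?_
              have h : ∃ x ∈ F i.1, φ x = ξ := i.2
              simp only [G, dif_pos h, j]
          _ ≤ ∑' y : {y : M // p y = ξ}, g y.1 :=
              ENNReal.tsum_comp_le_tsum_of_injective hj (fun y => g y.1)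

/-- **Riemann extension theorem**: `D` analytic on an open set `U`, not locally zero anywhere on
`U`; `f` holomorphic on `U ∩ {D ≠ 0}` and locally bounded near every point of `U`. -/
theorem ext_bdd {E : Type*} [NormedAddCommGroup E] [NormedSpace ℂ E] [FiniteDimensional ℂ E]
    {f D : E → ℂ} {U : Set E} (hU : IsOpen U)
    (hD : AnalyticOnNhd ℂ D U) (hne : ∀ a ∈ U, ¬ (∀ᶠ z in 𝓝 a, D z = 0))
    (hf : DifferentiableOn ℂ f (U ∩ {z | D z ≠ 0}))
    (hL : ∀ a ∈ U, ∃ W ∈ 𝓝 a, ∃ C : ℝ, ∀ z ∈ W, z ∈ U → D z ≠ 0 → ‖f z‖ ≤ C) :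
    ∃ g : E → ℂ, DifferentiableOn ℂ g U ∧ ∀ z ∈ U, D z ≠ 0 → g z = f z := by
  classical
  set n := Module.finrank ℂ E with hn
  let e : E ≃L[ℂ] (Fin n → ℂ) := ContinuousLinearEquiv.ofFinrankEq (by simp [hn])
  set U' : Set (Fin n → ℂ) := e.symm ⁻¹' U with hU'
  have hU'o : IsOpen U' := hU.preimage e.symm.continuous
  have h1 := Crest.Agent.R271.RExt747.riemann_ext (f := f ∘ e.symm) (D := D ∘ e.symm) hU'o
    (fun z hz => by
      have ha : AnalyticAt ℂ (e.symm : (Fin n → ℂ) → E) z :=
        (e.symm : (Fin n → ℂ) →L[ℂ] E).analyticAt z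
      exact (hD (e.symm z) hz).comp ha)
    (fun a ha hev => by
      refine hne (e.symm a) ha ?_
      have h2 : ∀ᶠ y in 𝓝 (e.symm a), D (e.symm (e y)) = 0 := by
        have h3 : Tendsto e (𝓝 (e.symm a)) (𝓝 a) := by
          have := e.continuous.tendsto (e.symm a)
          rwa [e.apply_symm_apply] at this
        exact h3.eventually hev
      filter_upwards [h2] with y hy
      rwa [e.symm_apply_apply] at hy)
    (by
      refine hf.comp e.symm.differentiable.differentiableOn ?_
      rintro z ⟨hz1, hz2⟩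
      exact ⟨hz1, hz2⟩)
    (fun a ha => by
      obtain ⟨W, hW, C, hC⟩ := hL (e.symm a) ha
      obtain ⟨ρ, hρ, hρW⟩ := Metric.mem_nhds_iff.1
        (e.symm.continuous.continuousAt.preimage_mem_nhds
          (Filter.inter_mem hW (hU.mem_nhds ha)))
      have hDc : ContinuousOn (D ∘ e.symm) (ball a ρ) :=
        hD.continuousOn.comp e.symm.continuous.continuousOn fun z hz => (hρW hz).2
      have hopen : IsOpen (ball a ρ ∩ {z | (D ∘ e.symm) z ≠ 0}) :=
        hDc.isOpen_inter_preimage isOpen_ball isOpen_ne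
      refine ⟨ball a ρ, ball_mem_nhds _ hρ, ?_⟩
      calc ∫⁻ z in ball a ρ ∩ {z | (D ∘ e.symm) z ≠ 0}, ‖(f ∘ e.symm) z‖ₑ ^ 2
          ≤ ∫⁻ z in ball a ρ ∩ {z | (D ∘ e.symm) z ≠ 0}, ENNReal.ofReal (max C 0) ^ 2 := by
            refine setLIntegral_mono' hopen.measurableSet fun z hz => ?_
            have h2 := hC (e.symm z) (hρW hz.1).1 (hρW hz.1).2 hz.2
            have h3 : ‖(f ∘ e.symm) z‖ₑ ≤ ENNReal.ofReal (max C 0) := by
              rw [← ofReal_norm]
              exact ENNReal.ofReal_le_ofReal (h2.trans (le_max_left _ _))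
            gcongr
        _ = ENNReal.ofReal (max C 0) ^ 2 * volume (ball a ρ ∩ {z | (D ∘ e.symm) z ≠ 0}) := by
            rw [lintegral_const, Measure.restrict_apply_univ]
        _ ≤ ENNReal.ofReal (max C 0) ^ 2 * volume (ball a ρ) := by
            gcongr
            exact inter_subset_left
        _ < ⊤ := ENNReal.mul_lt_top (ENNReal.pow_lt_top ENNReal.ofReal_lt_top)
            measure_ball_lt_top)
  obtain ⟨g, hg, hgf⟩ := h1
  refine ⟨g ∘ e, ?_, fun z hz hDz => ?_⟩
  · refine hg.comp e.differentiable.differentiableOn fun z hz => ?_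
    show e.symm (e z) ∈ U
    rwa [e.symm_apply_apply]
  · have := hgf (e z) (show e.symm (e z) ∈ U by rwa [e.symm_apply_apply]) (by
      simpa using hDz)
    simpa using this

end Crest.Agent.R276.C1bd_986
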