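import Mathlib
import Crest.Agent.R271.Alg_956
import Crest.Agent.R271.Null_956
import Crest.Agent.R271.Rd7_692
import Crest.Agent.R271.W_792
import Crest.Agent.R266.SCV

/-!
Row 276, AB2 (helper590): ALGEBRAICITY of holomorphic functions of algebraic growth on
`M = Hom(B,ℂ)`, `B` a domain of finite type étale over `ℂ[z]`.

* `hol51_iff`, `hol792_iff` : the three notions of holomorphic functions agree;
* `exists_card_le` : the fibres of `z` are (generically) bounded;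
* `lintM_lt_top` : a function with `f ≤ C (1+|z|²)^{-(n+1)}` is integrable on `M`;
* `mem_of_growth` : `|F| |u|^b ≤ C (1+|z|²)^a` implies `F ∈ B`;
* `mem_of_weight` : `∫ |F|² W < ∞`, `W ≥ c |u|^{2N} (1+|z|²)^{-M}` implies `F ∈ B`;
* `mem_of_phi` : the same for `W = e^{-φ}`.
-/

set_option autoImplicit false

open Topology Filter MeasureTheory Set
open scoped ENNReal

noncomputable section

namespace Crest.Agent.R276.AB2_590

open Crest.Agent.R271 Crest.Agent.R271.Defs710 Crest.Agent.R271.Rd692 Crest.Agent.R271.Ho51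

/-! ### holomorphic functions on a Riemann domain -/

section hol

variable {n : ℕ} {M : Type*} [TopologicalSpace M] [RDom n M]

/-- analytic in the charts -/
def HolA (F : M → ℂ) : Prop := ∀ x : M, AnalyticAt ℂ (F ∘ (ch x).symm) (cp x)

lemma comp_symm_analyticAt {F : M → ℂ} (h : HolA F) {e : OpenPartialHomeomorph M (Fin n → ℂ)}
    (he : IsCh e) {w : Fin n → ℂ} (hw : w ∈ e.target) : AnalyticAt ℂ (F ∘ e.symm) w := by
  have hx : e.symm w ∈ e.source := e.map_target hw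
  have h1 := h (e.symm w)
  rw [he.cp_symm hw] at h1
  have h2 := comp_germ he (isCh_ch (e.symm w)) hx (mem_ch _) F
  rw [he.cp_symm hw] at h2
  exact h1.congr h2.symm

theorem hol51_iff {F : M → ℂ} : Ho51.Hol F ↔ HolA F := by
  constructor
  · intro h x
    have h1 := R266.SCV.analyticOnNhd_of_differentiableOn (ch x).open_target
      (h (ch x) (isCh_ch x))
    exact h1 _ ((isCh_ch x).cp_mem (mem_ch x))
  · intro h e he w hw
    exact (comp_symm_analyticAt h he hw).differentiableAt.differentiableWithinAt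

theorem hol792_iff {F : M → ℂ} : W792.Hol F ↔ HolA F := by
  constructor
  · intro h x
    have h1 : ∀ᶠ w in 𝓝 (cp x), DifferentiableAt ℂ (F ∘ (ch x).symm) w := by
      filter_upwards [(ch x).open_target.mem_nhds ((isCh_ch x).cp_mem (mem_ch x))] with w hw
      have h2 : DifferentiableAt ℝ (F ∘ (ch x).symm) w :=
        (h.sm.contDiffAt' (isCh_ch x) hw).differentiableAt (by simp)
      refine R266.SCV.differentiableAt_complex_of_real h2 fun v => ?_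
      have h3 := h.cl ((ch x).symm w) v
      rw [D_symm (isCh_ch x) hw] at h3
      exact h3
    exact R266.SCV.analyticAt_of_eventually_differentiableAt h1
  · intro h
    refine ⟨fun x => ?_, fun x w => ?_⟩
    · exact ((h x).contDiffAt (n := ((⊤ : ℕ∞) : WithTop ℕ∞))).restrict_scalars ℝ
    · exact R266.SCV.fderiv_real_smul_I (h x).differentiableAt w

end hol

/-! ### `M = Hom(B,ℂ)` -/

variable {n : ℕ} {B : Type} [CommRing B] [Algebra ℂ B]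

/-- analytic in every `Chart` of `M = Hom(B,ℂ)` -/
def HolB (z : Fin n → B) (F : (B →ₐ[ℂ] ℂ) → ℂ) : Prop :=
  ∀ (y : B →ₐ[ℂ] ℂ) (C : Chart z y), AnalyticAt ℂ (fun ζ => F (C.s ζ)) 0

/-- `B` étale over `ℂ[z]` -/
abbrev Et (z : Fin n → B) : Prop :=
  RingHom.Etale ((MvPolynomial.aeval z : MvPolynomial (Fin n) ℂ →ₐ[ℂ] B) :
      MvPolynomial (Fin n) ℂ →+* B)

section holB

variable {z : Fin n → B}

theorem holA_iff (hch : ∀ y : Pt B, Nonempty (Chart z y)) {F : (B →ₐ[ℂ] ℂ) → ℂ} :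
    (letI := rdom hch; HolA (M := (B →ₐ[ℂ] ℂ)) F) ↔ HolB z F := by
  let _ := rdom hch
  have key : ∀ (y : B →ₐ[ℂ] ℂ) (C : Chart z y),
      (AnalyticAt ℂ (F ∘ (ch y).symm) (cp y) ↔ AnalyticAt ℂ (fun ζ => F (C.s ζ)) 0) := by
    intro y C
    have h0 : (fun w => (ch y).symm w) =ᶠ[𝓝 (cp y)] fun w => C.s (w - cp y) :=
      (isCh_ch y).germ (e' := chartHomeo hch C) rfl (mem_ch y) (self_mem_sheet C)
    have h1 : (F ∘ (ch y).symm) =ᶠ[𝓝 (cp y)] fun w => F (C.s (w - cp y)) := by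
      filter_upwards [h0] with w hw
      simp only [Function.comp_apply]
      rw [hw]
    rw [analyticAt_congr h1]
    constructor
    · intro h
      have h2 : AnalyticAt ℂ (fun ζ : Cn n => ζ + cp y) 0 := analyticAt_id.add analyticAt_const
      have h3 : AnalyticAt ℂ (fun w => F (C.s (w - cp y))) ((fun ζ : Cn n => ζ + cp y) 0) := by
        simpa using h
      have h4 := AnalyticAt.comp (g := fun w => F (C.s (w - cp y)))
        (f := fun ζ : Cn n => ζ + cp y) h3 h2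
      refine h4.congr (Eventually.of_forall fun ζ => ?_)
      simp
    · intro h
      have h2 : AnalyticAt ℂ (fun w : Cn n => w - cp y) (cp y) := analyticAt_id.sub analyticAt_const
      have h3 : AnalyticAt ℂ (fun ζ => F (C.s ζ)) ((fun w : Cn n => w - cp y) (cp y)) := by
        simpa using h
      exact AnalyticAt.comp (g := fun ζ => F (C.s ζ)) (f := fun w : Cn n => w - cp y) h3 h2
  constructor
  · intro h y C
    exact (key y C).mp (h y)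
  · intro h y
    obtain ⟨C⟩ := hch y
    exact (key y C).mpr (h y C)

theorem holB_of_51 (hch : ∀ y : Pt B, Nonempty (Chart z y)) {F : (B →ₐ[ℂ] ℂ) → ℂ}
    (h : letI := rdom hch; Ho51.Hol (M := (B →ₐ[ℂ] ℂ)) F) : HolB z F :=
  letI := rdom hch
  (holA_iff hch).mp (hol51_iff.mp h)

theorem holB_of_792 (hch : ∀ y : Pt B, Nonempty (Chart z y)) {F : (B →ₐ[ℂ] ℂ) → ℂ}
    (h : letI := rdom hch; W792.Hol (M := (B →ₐ[ℂ] ℂ)) F) : HolB z F :=
  letI := rdom hch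
  (holA_iff hch).mp (hol792_iff.mp h)

theorem holB_ev (b : B) : HolB z (fun y : B →ₐ[ℂ] ℂ => y b) := fun _ C =>
  C.anal b 0 (Metric.mem_ball_self C.r_pos)

theorem hol51_ev (hch : ∀ y : Pt B, Nonempty (Chart z y)) (b : B) :
    letI := rdom hch; Ho51.Hol (M := (B →ₐ[ℂ] ℂ)) (fun y => y b) :=
  letI := rdom hch
  hol51_iff.mpr ((holA_iff hch).mpr (holB_ev b))

theorem hol792_ev (hch : ∀ y : Pt B, Nonempty (Chart z y)) (b : B) :
    letI := rdom hch; W792.Hol (M := (B →ₐ[ℂ] ℂ)) (fun y => y b) :=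
  letI := rdom hch
  hol792_iff.mpr ((holA_iff hch).mpr (holB_ev b))

end holB

/-! ### integrability -/

section int

variable [IsDomain B] [Algebra.FiniteType ℂ B] {z : Fin n → B}

/-- the fibres of `z : M → ℂⁿ` are generically of constant finite cardinality -/
theorem exists_card (het : Et z) : ∃ (N : ℕ) (g : MvPolynomial (Fin n) ℂ), g ≠ 0 ∧
    ∀ ζ : Cn n, MvPolynomial.eval ζ g ≠ 0 →
      Nat.card (AlgB956.Fib z ζ) = N ∧ Finite (AlgB956.Fib z ζ) := by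
  obtain ⟨θ, μ, g, hD⟩ := Alg956.exists_fibData z het
  exact ⟨μ.natDegree, g, hD.g_ne, fun ζ hζ => AlgB956.natCard_fib hD hζ⟩

lemma tsum_le_card {α : Type*} [Finite α] {N : ℕ} (hN : Nat.card α = N) {f : α → ℝ≥0∞} {c : ℝ≥0∞}
    (hf : ∀ a, f a ≤ c) : ∑' a, f a ≤ N * c := by
  have := Fintype.ofFinite α
  rw [tsum_fintype]
  calc ∑ a, f a ≤ ∑ _a : α, c := Finset.sum_le_sum fun a _ => hf a
    _ = N * c := by rw [Finset.sum_const, Finset.card_univ, ← Nat.card_eq_fintype_card, hN,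
        nsmul_eq_mul]

/-- `∫_{ℂⁿ} (1+|ζ|²)^{-(n+1)} < ∞` -/
theorem lintegral_japanese (n : ℕ) :
    ∫⁻ ζ : Cn n, ENNReal.ofReal (1 / (1 + ∑ i, ‖ζ i‖ ^ 2) ^ (n + 1)) < ∞ := by
  have hfr : (Module.finrank ℝ (Cn n) : ℝ) < (2 * n + 1 : ℝ) := by
    rw [Module.finrank_pi_fintype]
    simp [Complex.finrank_real_complex]
    linarith
  have h1 := finite_integral_one_add_norm (E := Cn n) (μ := (volume : Measure (Cn n))) hfr
  have h2 : ∀ ζ : Cn n, ENNReal.ofReal (1 / (1 + ∑ i, ‖ζ i‖ ^ 2) ^ (n + 1)) ≤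
      ENNReal.ofReal ((2 : ℝ) ^ (n + 1)) * ENNReal.ofReal ((1 + ‖ζ‖) ^ (-(2 * n + 1 : ℝ))) := by
    intro ζ
    rw [← ENNReal.ofReal_mul (by positivity)]
    apply ENNReal.ofReal_le_ofReal
    have h3 : (1 + ‖ζ‖) ^ 2 ≤ 2 * (1 + ∑ i, ‖ζ i‖ ^ 2) := by
      have h4 : ‖ζ‖ ^ 2 ≤ ∑ i, ‖ζ i‖ ^ 2 := by
        have h5 : ‖ζ‖ ≤ Real.sqrt (∑ i, ‖ζ i‖ ^ 2) := by
          rw [pi_norm_le_iff_of_nonneg (Real.sqrt_nonneg _)]
          intro i
          apply Real.le_sqrt_of_sq_le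
          exact Finset.single_le_sum (f := fun i => ‖ζ i‖ ^ 2) (fun i _ => by positivity)
            (Finset.mem_univ i)
        calc ‖ζ‖ ^ 2 ≤ (Real.sqrt (∑ i, ‖ζ i‖ ^ 2)) ^ 2 := by gcongr
          _ = _ := Real.sq_sqrt (Finset.sum_nonneg fun i _ => by positivity)
      nlinarith [sq_nonneg (1 - ‖ζ‖)]
    have hp : 0 < 1 + ‖ζ‖ := by positivity
    have h5 : (1 + ‖ζ‖) ^ (-(2 * n + 1 : ℝ)) = 1 / (1 + ‖ζ‖) ^ (2 * n + 1) := by
      rw [Real.rpow_neg hp.le, one_div]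
      congr 1
      rw [← Real.rpow_natCast]
      push_cast
      rfl
    rw [h5, ← mul_div_assoc, mul_one]
    rw [div_le_div_iff₀ (by positivity) (by positivity), one_mul]
    calc (1 + ‖ζ‖) ^ (2 * n + 1) ≤ (1 + ‖ζ‖) ^ (2 * (n + 1)) :=
          pow_le_pow_right₀ (by linarith [norm_nonneg ζ]) (by omega)
      _ = ((1 + ‖ζ‖) ^ 2) ^ (n + 1) := by rw [pow_mul]
      _ ≤ (2 * (1 + ∑ i, ‖ζ i‖ ^ 2)) ^ (n + 1) := by gcongr
      _ = _ := by rw [mul_pow]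
  calc ∫⁻ ζ : Cn n, ENNReal.ofReal (1 / (1 + ∑ i, ‖ζ i‖ ^ 2) ^ (n + 1))
      ≤ ∫⁻ ζ : Cn n, ENNReal.ofReal ((2 : ℝ) ^ (n + 1)) *
          ENNReal.ofReal ((1 + ‖ζ‖) ^ (-(2 * n + 1 : ℝ))) := lintegral_mono h2
    _ = ENNReal.ofReal ((2 : ℝ) ^ (n + 1)) *
          ∫⁻ ζ : Cn n, ENNReal.ofReal ((1 + ‖ζ‖) ^ (-(2 * n + 1 : ℝ))) :=
        lintegral_const_mul' _ _ ENNReal.ofReal_ne_top
    _ < ∞ := ENNReal.mul_lt_top ENNReal.ofReal_lt_top h1

/-- a function on `M` of size `≤ C (1+|z|²)^{-(n+1)}` is integrable -/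
theorem lintM_lt_top (het : Et z) {f : (B →ₐ[ℂ] ℂ) → ℝ≥0∞} {C : ℝ}
    (hf : ∀ y : B →ₐ[ℂ] ℂ, f y ≤ ENNReal.ofReal (C / (1 + ∑ i, ‖y (z i)‖ ^ 2) ^ (n + 1))) :
    lintM z f < ∞ := by
  obtain ⟨N, g, hg, hN⟩ := exists_card het
  have hC : ∀ ζ : Cn n, ENNReal.ofReal (C / (1 + ∑ i, ‖ζ i‖ ^ 2) ^ (n + 1)) ≤
      ENNReal.ofReal C * ENNReal.ofReal (1 / (1 + ∑ i, ‖ζ i‖ ^ 2) ^ (n + 1)) := by
    intro ζ
    rw [← ENNReal.ofReal_mul' (by positivity)]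
    apply ENNReal.ofReal_le_ofReal
    rw [mul_one_div]
  calc lintM z f ≤ ∫⁻ ζ : Cn n, ((N : ℝ≥0∞) * ENNReal.ofReal C) *
        ENNReal.ofReal (1 / (1 + ∑ i, ‖ζ i‖ ^ 2) ^ (n + 1)) := by
        refine lintegral_mono_ae ?_
        filter_upwards [Null956.ae_eval_ne hg] with ζ hζ
        have := (hN ζ hζ).2
        rw [mul_assoc]
        refine tsum_le_card (hN ζ hζ).1 fun y => ?_
        refine (hf y.1).trans ?_
        simp only [y.2]
        exact hC ζ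
    _ = ((N : ℝ≥0∞) * ENNReal.ofReal C) *
        ∫⁻ ζ : Cn n, ENNReal.ofReal (1 / (1 + ∑ i, ‖ζ i‖ ^ 2) ^ (n + 1)) :=
        lintegral_const_mul' _ _ (ENNReal.mul_ne_top (ENNReal.natCast_ne_top N)
          ENNReal.ofReal_ne_top)
    _ < ∞ := ENNReal.mul_lt_top (ENNReal.mul_lt_top (ENNReal.natCast_lt_top N)
          ENNReal.ofReal_lt_top) (lintegral_japanese n)

/-- ALGEBRAICITY, sup growth: `|F| |u|^b ≤ C (1+|z|²)^a` implies `F ∈ B`. -/
theorem mem_of_growth (het : Et z) {F : (B →ₐ[ℂ] ℂ) → ℂ} (hF : HolB z F) {u : B} (hu : u ≠ 0)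
    (a b : ℕ) (C : ℝ)
    (hb : ∀ y : B →ₐ[ℂ] ℂ, ‖F y‖ * ‖y u‖ ^ b ≤ C * (1 + ∑ i, ‖y (z i)‖ ^ 2) ^ a) :
    ∃ f : B, ∀ y : B →ₐ[ℂ] ℂ, F y = y f := by
  refine Alg956.algebraicity_gen het hF hu b (2 * a + (n + 1)) ?_
  refine lintM_lt_top (C := C ^ 2) het fun y => ENNReal.ofReal_le_ofReal ?_
  set S : ℝ := 1 + ∑ i, ‖y (z i)‖ ^ 2 with hS
  have hS0 : 0 < S := by positivity
  rw [div_le_div_iff₀ (by positivity) (by positivity)]
  have h1 : ‖F y‖ ^ 2 * ‖y u‖ ^ (2 * b) ≤ C ^ 2 * S ^ (2 * a) := by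
    calc ‖F y‖ ^ 2 * ‖y u‖ ^ (2 * b) = (‖F y‖ * ‖y u‖ ^ b) ^ 2 := by ring
      _ ≤ (C * S ^ a) ^ 2 := pow_le_pow_left₀ (by positivity) (hb y) 2
      _ = _ := by ring
  calc ‖F y‖ ^ 2 * ‖y u‖ ^ (2 * b) * S ^ (n + 1) ≤ C ^ 2 * S ^ (2 * a) * S ^ (n + 1) := by gcongr
    _ = C ^ 2 * S ^ (2 * a + (n + 1)) := by rw [pow_add]; ring

omit [Algebra.FiniteType ℂ B] in
/-- every nonzero `v ∈ B` divides a nonzero polynomial in `z` -/
theorem exists_poly_dvd (het : Et z) {v : B} (hv : v ≠ 0) :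
    ∃ p : MvPolynomial (Fin n) ℂ, p ≠ 0 ∧ v ∣ MvPolynomial.aeval z p := by
  let _ : Algebra (MvPolynomial (Fin n) ℂ) B :=
    ((MvPolynomial.aeval z : MvPolynomial (Fin n) ℂ →ₐ[ℂ] B) :
      MvPolynomial (Fin n) ℂ →+* B).toAlgebra
  have _ : Algebra.Etale (MvPolynomial (Fin n) ℂ) B := het
  have h1 := (KT661.injective_and_isAlgebraic_of_etale
      (R := MvPolynomial (Fin n) ℂ) (S := B)).2
  obtain ⟨r, hr, h⟩ := (h1.isAlgebraic v).exists_nonzero_dvd (mem_nonZeroDivisors_of_ne_zero hv)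
  exact ⟨r, hr, h⟩

omit [Algebra.FiniteType ℂ B] in
/-- for almost every `ζ` the points of the fibre are off `{v = 0}` -/
theorem ae_fib_ne (het : Et z) {v : B} (hv : v ≠ 0) :
    ∀ᵐ ζ : Cn n, ∀ y : B →ₐ[ℂ] ℂ, (∀ i, y (z i) = ζ i) → y v ≠ 0 := by
  obtain ⟨p, hp, b, hb⟩ := exists_poly_dvd het hv
  filter_upwards [Null956.ae_eval_ne hp] with ζ hζ y hy h0
  apply hζ
  rw [← AlgB956.comp_aeval y hy, hb, map_mul, h0, zero_mul]

omit [Algebra.FiniteType ℂ B] in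
/-- `lintM` does not see the set `{v = 0}` -/
theorem lintM_mono_off (het : Et z) {v : B} (hv : v ≠ 0) {f g : (B →ₐ[ℂ] ℂ) → ℝ≥0∞}
    (hfg : ∀ y : B →ₐ[ℂ] ℂ, y v ≠ 0 → f y ≤ g y) : lintM z f ≤ lintM z g := by
  unfold lintM
  refine lintegral_mono_ae ?_
  filter_upwards [ae_fib_ne het hv] with ζ hζ
  exact ENNReal.tsum_le_tsum fun y => hfg y.1 (hζ y.1 y.2)

omit [Algebra.FiniteType ℂ B] in
theorem lintM_congr_off (het : Et z) {v : B} (hv : v ≠ 0) {f g : (B →ₐ[ℂ] ℂ) → ℝ≥0∞}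
    (hfg : ∀ y : B →ₐ[ℂ] ℂ, y v ≠ 0 → f y = g y) : lintM z f = lintM z g :=
  le_antisymm (lintM_mono_off het hv fun y hy => (hfg y hy).le)
    (lintM_mono_off het hv fun y hy => (hfg y hy).ge)

/-- ALGEBRAICITY for a weight `W ≥ c |u|^{2N} (1+|z|²)^{-M}` (off `{v = 0}`) -/
theorem mem_of_weight (het : Et z) {F : (B →ₐ[ℂ] ℂ) → ℂ} (hF : HolB z F) {u v : B} (hu : u ≠ 0)
    (hv : v ≠ 0) (N M : ℕ) {c : ℝ} (hc : 0 < c) {W : (B →ₐ[ℂ] ℂ) → ℝ≥0∞}
    (hW : ∀ y : B →ₐ[ℂ] ℂ, y v ≠ 0 →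
      ENNReal.ofReal (c * ‖y u‖ ^ (2 * N) / (1 + ∑ i, ‖y (z i)‖ ^ 2) ^ M) ≤ W y)
    (hint : lintM z (fun y => ENNReal.ofReal (‖F y‖ ^ 2) * W y) < ∞) :
    ∃ f : B, ∀ y : B →ₐ[ℂ] ℂ, F y = y f := by
  refine Alg956.algebraicity_gen het hF hu N M ?_
  have h1 : lintM z (fun y => ENNReal.ofReal
      (‖F y‖ ^ 2 * ‖y u‖ ^ (2 * N) / (1 + ∑ i, ‖y (z i)‖ ^ 2) ^ M)) ≤
      lintM z (fun y => ENNReal.ofReal c⁻¹ * (ENNReal.ofReal (‖F y‖ ^ 2) * W y)) := by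
    refine lintM_mono_off het hv fun y hy => ?_
    calc ENNReal.ofReal (‖F y‖ ^ 2 * ‖y u‖ ^ (2 * N) / (1 + ∑ i, ‖y (z i)‖ ^ 2) ^ M)
        = ENNReal.ofReal c⁻¹ * (ENNReal.ofReal (‖F y‖ ^ 2) *
          ENNReal.ofReal (c * ‖y u‖ ^ (2 * N) / (1 + ∑ i, ‖y (z i)‖ ^ 2) ^ M)) := by
          rw [← ENNReal.ofReal_mul (by positivity), ← ENNReal.ofReal_mul (by positivity)]
          congr 1
          field_simp
      _ ≤ _ := by
          gcongr
          exact hW y hy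
  have h2 : lintM z (fun y => ENNReal.ofReal c⁻¹ * (ENNReal.ofReal (‖F y‖ ^ 2) * W y)) =
      ENNReal.ofReal c⁻¹ * lintM z (fun y => ENNReal.ofReal (‖F y‖ ^ 2) * W y) := by
    unfold lintM
    rw [← lintegral_const_mul' _ _ ENNReal.ofReal_ne_top]
    refine lintegral_congr fun ζ => ?_
    rw [← ENNReal.tsum_mul_left]
  rw [h2] at h1
  exact h1.trans_lt (ENNReal.mul_lt_top ENNReal.ofReal_lt_top hint)

/-- ALGEBRAICITY for `∫ |F|² e^{-φ} < ∞`,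
`φ ≤ M log(1+|z|²) + N log(1/|u|²) + C` (where `u ≠ 0`, `v ≠ 0`). -/
theorem mem_of_phi (het : Et z) {F : (B →ₐ[ℂ] ℂ) → ℂ} (hF : HolB z F) {u v : B} (hu : u ≠ 0)
    (hv : v ≠ 0) (N M : ℕ) {C : ℝ} {φ : (B →ₐ[ℂ] ℂ) → ℝ}
    (hφ : ∀ y : B →ₐ[ℂ] ℂ, y u ≠ 0 → y v ≠ 0 →
      φ y ≤ M * Real.log (1 + ∑ i, ‖y (z i)‖ ^ 2) - N * Real.log (‖y u‖ ^ 2) + C)
    (hint : lintM z (fun y => ENNReal.ofReal (‖F y‖ ^ 2 * Real.exp (-(φ y)))) < ∞) :
    ∃ f : B, ∀ y : B →ₐ[ℂ] ℂ, F y = y f := by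
  refine mem_of_weight (W := fun y => ENNReal.ofReal (Real.exp (-(φ y)))) het hF hu
    (mul_ne_zero hu hv) N M (c := Real.exp (-C)) (by positivity) ?_ ?_
  · intro y hy
    rw [map_mul] at hy
    have hyu := left_ne_zero_of_mul hy
    have hyv := right_ne_zero_of_mul hy
    apply ENNReal.ofReal_le_ofReal
    have hu0 : 0 < ‖y u‖ ^ 2 := by
      have := norm_pos_iff.mpr hyu
      positivity
    set S : ℝ := 1 + ∑ i, ‖y (z i)‖ ^ 2 with hS
    have hS0 : 0 < S := by positivity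
    have h1 : Real.exp (-(M * Real.log S - N * Real.log (‖y u‖ ^ 2) + C)) =
        Real.exp (-C) * ‖y u‖ ^ (2 * N) / S ^ M := by
      have h2 : -(M * Real.log S - N * Real.log (‖y u‖ ^ 2) + C) =
          -C + N * Real.log (‖y u‖ ^ 2) - M * Real.log S := by ring
      rw [h2, Real.exp_sub, Real.exp_add, Real.exp_nat_mul, Real.exp_nat_mul, Real.exp_log hu0,
        Real.exp_log hS0, pow_mul]
    rw [← h1]
    exact Real.exp_le_exp.mpr (neg_le_neg (hφ y hyu hyv))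
  · have h3 : (fun y : B →ₐ[ℂ] ℂ => ENNReal.ofReal (‖F y‖ ^ 2 * Real.exp (-(φ y)))) =
        fun y => ENNReal.ofReal (‖F y‖ ^ 2) * ENNReal.ofReal (Real.exp (-(φ y))) := by
      funext y
      rw [ENNReal.ofReal_mul (by positivity)]
    rw [h3] at hint
    exact hint

end int

end Crest.Agent.R276.AB2_590
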