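import Mathlib
import Crest.Agent.R276.AB2_590

/-!
Row 276, AB2(c) (helper590): dimension of spaces of holomorphic functions of algebraic growth on
`M = Hom(B,ℂ)`: `∫ |F|² |u|^{2N} (1+|z|²)^{-M} < ∞` for all `F ∈ V` implies
`dim V ≤ d (M + K)^n`, `d`, `K` only depending on `B`, `z`.
-/

set_option autoImplicit false

open Topology Filter MeasureTheory Set
open scoped ENNReal

noncomputable section

namespace Crest.Agent.R276.AB2_590

open Crest.Agent.R271 Crest.Agent.R271.Defs710 Crest.Agent.R271.Rd692 Crest.Agent.R271.Ho51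
open Crest.Agent.R271.AlgB956 Crest.Agent.R271.AlgC956 Crest.Agent.R271.AlgD956

/-- polynomials of total degree `≤ L` in `n` variables: dimension `≤ (L+1)^n` -/
theorem finrank_restrict_le (n L : ℕ) :
    Module.finrank ℂ (MvPolynomial.restrictTotalDegree (Fin n) ℂ L) ≤ (L + 1) ^ n := by
  let Φ : MvPolynomial.restrictTotalDegree (Fin n) ℂ L →ₗ[ℂ] ((Fin n → Fin (L + 1)) → ℂ) :=
    { toFun := fun P e => MvPolynomial.coeff (Finsupp.equivFunOnFinite.symm fun i => (e i : ℕ)) P.1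
      map_add' := fun P Q => by ext e; simp
      map_smul' := fun c P => by ext e; simp }
  have hΦ : Function.Injective Φ := by
    rw [← LinearMap.ker_eq_bot, LinearMap.ker_eq_bot']
    intro P hP
    apply Subtype.ext
    ext s
    rw [ZeroMemClass.coe_zero, MvPolynomial.coeff_zero]
    by_contra hs
    have h1 : s ∈ P.1.support := MvPolynomial.mem_support_iff.mpr hs
    have h2 : ∀ i, s i ≤ L := by
      have h3 := (MvPolynomial.mem_restrictDegree (Fin n) P.1 L).mp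
        (MvPolynomial.restrictTotalDegree_le_restrictDegree (σ := Fin n) (R := ℂ) L P.2)
      exact h3 s h1
    have h4 := congrFun hP (fun i => ⟨s i, Nat.lt_succ_of_le (h2 i)⟩)
    apply hs
    have h5 : (Finsupp.equivFunOnFinite.symm fun i => s i) = s := by ext i; rfl
    simpa [Φ, h5] using h4
  calc Module.finrank ℂ (MvPolynomial.restrictTotalDegree (Fin n) ℂ L)
      ≤ Module.finrank ℂ ((Fin n → Fin (L + 1)) → ℂ) :=
        LinearMap.finrank_le_finrank_of_injective hΦ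
    _ = (L + 1) ^ n := by simp

variable {n : ℕ} {B : Type} [CommRing B] [Algebra ℂ B] {z : Fin n → B}

/-- the fibre sums are polynomials of controlled degree -/
theorem HH_poly_deg {θ : B} {μ : Polynomial (MvPolynomial (Fin n) ℂ)}
    {g : MvPolynomial (Fin n) ℂ} (hF : FibData z θ μ g)
    (hC : ∀ y : B →ₐ[ℂ] ℂ, Nonempty (Chart z y)) {G : (B →ₐ[ℂ] ℂ) → ℂ}
    (hG : HolB z G) (k : ℕ)
    {A : ℝ} {K : ℕ} (M : ℕ) (hA : 0 ≤ A) (hgr : ∀ y : B →ₐ[ℂ] ℂ, ‖y ((qq z θ μ).coeff k)‖ ≤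
      A * (1 + ∑ i, ‖y (z i)‖ ^ 2) ^ K)
    (hint : lintM z (fun y => ENNReal.ofReal (‖G y‖ ^ 2 / (1 + ∑ i, ‖y (z i)‖ ^ 2) ^ M)) < ∞) :
    ∃ P : MvPolynomial (Fin n) ℂ, P.totalDegree ≤ 2 * K + M ∧
      ∀ ζ : Cn n, MvPolynomial.eval ζ g ≠ 0 → HH z θ μ g G k ζ = MvPolynomial.eval ζ P := by
  obtain ⟨c, hc, hb⟩ : ∃ c : ℝ, 0 ≤ c ∧ ∀ ζ : Cn n, MvPolynomial.eval ζ g ≠ 0 →
      ‖HH z θ μ g G k ζ‖ₑ ^ 2 ≤ ENNReal.ofReal (c * (1 + ‖ζ‖) ^ (2 * (2 * K + M))) *
        ∑' y : Fib z ζ, ENNReal.ofReal (‖G y.1‖ ^ 2 / (1 + ∑ i, ‖y.1 (z i)‖ ^ 2) ^ M) := by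
    refine ⟨μ.natDegree * A ^ 2 * (n + 1 : ℝ) ^ (2 * K + M), by positivity, ?_⟩
    intro ζ hζ
    refine (HH_bound hF G k hA hgr ζ hζ).trans ?_
    set S : ℝ := 1 + ∑ i, ‖ζ i‖ ^ 2 with hS
    have hS0 : 0 < S := by positivity
    have h1 : ∀ y : Fib z ζ, ENNReal.ofReal (‖G y.1‖ ^ 2) = ENNReal.ofReal (S ^ M) *
        ENNReal.ofReal (‖G y.1‖ ^ 2 / (1 + ∑ i, ‖y.1 (z i)‖ ^ 2) ^ M) := by
      intro y
      have h2 : (1 + ∑ i, ‖y.1 (z i)‖ ^ 2) = S := by simp only [y.2, hS]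
      rw [h2, ← ENNReal.ofReal_mul (by positivity)]
      congr 1
      field_simp
    simp only [h1]
    rw [ENNReal.tsum_mul_left, ← mul_assoc, ← ENNReal.ofReal_mul (by positivity)]
    refine mul_le_mul' (ENNReal.ofReal_le_ofReal ?_) le_rfl
    have h3 : S ≤ (n + 1 : ℝ) * (1 + ‖ζ‖) ^ 2 := one_add_sum_le ζ
    calc (μ.natDegree : ℝ) * (A * S ^ K) ^ 2 * S ^ M
        = μ.natDegree * A ^ 2 * S ^ (2 * K + M) := by ring
      _ ≤ μ.natDegree * A ^ 2 * ((n + 1 : ℝ) * (1 + ‖ζ‖) ^ 2) ^ (2 * K + M) := by gcongr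
      _ = _ := by rw [mul_pow, ← pow_mul]; ring
  set L : ℕ := 2 * K + M with hL
  rw [lintM] at hint
  set Ψ : Cn n → ℝ≥0∞ := fun ζ => ∑' y : Fib z ζ,
    ENNReal.ofReal (‖G y.1‖ ^ 2 / (1 + ∑ i, ‖y.1 (z i)‖ ^ 2) ^ M) with hΨ
  have hopen : IsOpen {ζ : Cn n | MvPolynomial.eval ζ g ≠ 0} :=
    isOpen_ne.preimage (MvPolynomial.continuous_eval g)
  obtain ⟨E, hE, hEH⟩ := RExt747.riemann_ext_poly (f := HH z θ μ g G k) hF.g_ne
    (fun ζ hζ => (HH_differentiableAt hF hC hG k hζ).differentiableWithinAt) (by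
      intro a
      refine ⟨Metric.ball a 1, Metric.ball_mem_nhds a one_pos, ?_⟩
      have hm : MeasurableSet (Metric.ball a 1 ∩ {ζ : Cn n | MvPolynomial.eval ζ g ≠ 0}) :=
        Metric.isOpen_ball.measurableSet.inter hopen.measurableSet
      calc ∫⁻ ζ in Metric.ball a 1 ∩ {ζ : Cn n | MvPolynomial.eval ζ g ≠ 0},
            ‖HH z θ μ g G k ζ‖ₑ ^ 2
          ≤ ∫⁻ ζ in Metric.ball a 1 ∩ {ζ : Cn n | MvPolynomial.eval ζ g ≠ 0},
            ENNReal.ofReal (c * (2 + ‖a‖) ^ (2 * L)) * Ψ ζ := by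
            refine setLIntegral_mono' hm ?_
            rintro ζ ⟨hζ1, hζ2⟩
            refine (hb ζ hζ2).trans ?_
            have h1 : ‖ζ - a‖ < 1 := by simpa [dist_eq_norm] using hζ1
            have h2 : ‖ζ‖ ≤ ‖ζ - a‖ + ‖a‖ := by
              have : ζ = (ζ - a) + a := by abel
              conv_lhs => rw [this]
              exact norm_add_le _ _
            have h3 : 1 + ‖ζ‖ ≤ 2 + ‖a‖ := by linarith
            exact mul_le_mul' (ENNReal.ofReal_le_ofReal (mul_le_mul_of_nonneg_left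
              (pow_le_pow_left₀ (by positivity) h3 _) hc)) le_rfl
        _ ≤ ∫⁻ ζ, ENNReal.ofReal (c * (2 + ‖a‖) ^ (2 * L)) * Ψ ζ :=
            setLIntegral_le_lintegral _ _
        _ = ENNReal.ofReal (c * (2 + ‖a‖) ^ (2 * L)) * ∫⁻ ζ, Ψ ζ :=
            lintegral_const_mul' _ _ ENNReal.ofReal_ne_top
        _ < ∞ := ENNReal.mul_lt_top ENNReal.ofReal_lt_top hint)
  obtain ⟨P, hPd, hP⟩ := RExt747.poly_of_sq_growth (g := E) hE (N := L) (by
    calc ∫⁻ ζ, ‖E ζ‖ₑ ^ 2 * ENNReal.ofReal ((1 + ‖ζ‖) ^ (2 * L))⁻¹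
        ≤ ∫⁻ ζ, ENNReal.ofReal c * Ψ ζ := by
          refine lintegral_mono_ae ?_
          filter_upwards [Null956.ae_eval_ne hF.g_ne] with ζ hζ
          rw [hEH ζ hζ]
          calc ‖HH z θ μ g G k ζ‖ₑ ^ 2 * ENNReal.ofReal ((1 + ‖ζ‖) ^ (2 * L))⁻¹
              ≤ (ENNReal.ofReal (c * (1 + ‖ζ‖) ^ (2 * L)) * Ψ ζ) *
                ENNReal.ofReal ((1 + ‖ζ‖) ^ (2 * L))⁻¹ := by
                gcongr
                exact hb ζ hζ
            _ = (ENNReal.ofReal (c * (1 + ‖ζ‖) ^ (2 * L)) *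
                ENNReal.ofReal ((1 + ‖ζ‖) ^ (2 * L))⁻¹) * Ψ ζ := by ring
            _ = ENNReal.ofReal c * Ψ ζ := by
                rw [← ENNReal.ofReal_mul (by positivity)]
                congr 2
                field_simp
      _ = ENNReal.ofReal c * ∫⁻ ζ, Ψ ζ := lintegral_const_mul' _ _ ENNReal.ofReal_ne_top
      _ < ∞ := ENNReal.mul_lt_top ENNReal.ofReal_lt_top hint)
  exact ⟨P, hPd, fun ζ hζ => by rw [← hEH ζ hζ, hP]⟩

section dim

variable [IsDomain B] [Algebra.FiniteType ℂ B]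

/-- a holomorphic function which vanishes off `{v = 0} ∪ {g(z) = 0}` is zero -/
theorem eq_zero_of_off (het : Et z) {F : (B →ₐ[ℂ] ℂ) → ℂ} (hF : HolB z F) {v : B} (hv : v ≠ 0)
    (h : ∀ y : B →ₐ[ℂ] ℂ, y v ≠ 0 → F y = 0) : F = 0 := by
  have hnoeth : IsNoetherianRing B := Algebra.FiniteType.isNoetherianRing ℂ B
  funext y
  obtain ⟨C⟩ := Rd692.nonempty_chart z het y
  have h1 : ∃ᶠ ζ in 𝓝 (0 : Cn n), C.s ζ v ≠ 0 := by
    intro hz
    exact hv (Ord969.eq_zero_of_eventually C (Ord969.mI_le_of_unramified z y het) (by simpa using hz))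
  have h2 : ∃ᶠ ζ in 𝓝 (0 : Cn n), F (C.s ζ) = (fun _ => (0 : ℂ)) ζ :=
    h1.mono fun ζ hζ => h _ hζ
  have h4 := eq_of_frequently (φ1 := fun ζ => F (C.s ζ)) (φ2 := fun _ => (0 : ℂ))
      (hF y C).continuousAt continuousAt_const h2
  simpa [C.s_zero] using h4

/-- **dimension bound** for spaces of holomorphic functions of algebraic growth -/
theorem finrank_le (het : Et z) : ∃ d K : ℕ, ∀ (u : B) (N M : ℕ), u ≠ 0 →
    ∀ V : Submodule ℂ ((B →ₐ[ℂ] ℂ) → ℂ),
    (∀ F ∈ V, HolB z F ∧ lintM z (fun y => ENNReal.ofReal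
      (‖F y‖ ^ 2 * ‖y u‖ ^ (2 * N) / (1 + ∑ i, ‖y (z i)‖ ^ 2) ^ M)) < ∞) →
    Module.Finite ℂ V ∧ Module.finrank ℂ V ≤ d * (M + K) ^ n := by
  classical
  obtain ⟨θ, μ, g, hD⟩ := Alg956.exists_fibData z het
  have hgr : ∀ k, ∃ (A : ℝ) (K : ℕ), 0 ≤ A ∧ ∀ y : B →ₐ[ℂ] ℂ, ‖y ((qq z θ μ).coeff k)‖ ≤
      A * (1 + ∑ i, ‖y (z i)‖ ^ 2) ^ K := by
    intro k
    obtain ⟨C, K, hC, h⟩ := PG_coeff hD.monic hD.root k
    exact ⟨C, K, hC, h⟩
  choose A K hA hAK using hgr
  set d : ℕ := (qq z θ μ).natDegree + 1 with hd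
  set K0 : ℕ := ∑ k ∈ Finset.range d, 2 * K k with hK0
  refine ⟨d, K0 + 1, fun u N M hu V hV => ?_⟩
  set L : ℕ := M + K0 with hL
  set w : B := u ^ N * dd z θ μ with hw
  have hw0 : w ≠ 0 := mul_ne_zero (pow_ne_zero _ hu) hD.der
  have hg0 : MvPolynomial.aeval z g ≠ 0 := by
    have hinj : Function.Injective (Alg255.az z) := KT661.aeval_injective z het
    intro h
    apply hD.g_ne
    apply hinj
    rw [map_zero]
    exact h
  set v : B := w * MvPolynomial.aeval z g with hv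
  have hv0 : v ≠ 0 := mul_ne_zero hw0 hg0
  let Ψ : (Fin d → MvPolynomial.restrictTotalDegree (Fin n) ℂ L) →ₗ[ℂ] ((B →ₐ[ℂ] ℂ) → ℂ) :=
    { toFun := fun P y => if y v ≠ 0 then
        (∑ k : Fin d, MvPolynomial.eval (fun i => y (z i)) (P k).1 * y θ ^ (k : ℕ)) / y w else 0
      map_add' := fun P Q => by
        funext y
        simp only [Pi.add_apply]
        split_ifs
        · rw [← add_div, ← Finset.sum_add_distrib]
          congr 1
          refine Finset.sum_congr rfl fun k _ => ?_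
          rw [Submodule.coe_add, map_add, add_mul]
        · simp
      map_smul' := fun c P => by
        funext y
        simp only [Pi.smul_apply, RingHom.id_apply, smul_eq_mul]
        split_ifs
        · rw [← mul_div_assoc, Finset.mul_sum]
          congr 1
          refine Finset.sum_congr rfl fun k _ => ?_
          rw [Submodule.coe_smul, MvPolynomial.smul_eval, mul_assoc]
        · simp }
  let R : ((B →ₐ[ℂ] ℂ) → ℂ) →ₗ[ℂ] ((B →ₐ[ℂ] ℂ) → ℂ) :=
    { toFun := fun F y => if y v ≠ 0 then F y else 0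
      map_add' := fun F G => by
        funext y
        simp only [Pi.add_apply]
        split_ifs <;> simp
      map_smul' := fun c F => by
        funext y
        simp only [Pi.smul_apply, RingHom.id_apply, smul_eq_mul]
        split_ifs <;> simp }
  have hR : ∀ F ∈ V, R F ∈ LinearMap.range Ψ := by
    intro F hF
    obtain ⟨hFan, hint⟩ := hV F hF
    set G : (B →ₐ[ℂ] ℂ) → ℂ := fun y => F y * y u ^ N with hGdef
    have hGan : HolB z G := fun y C => (hFan y C).mul ((Jet956.germ_analyticAt C u).pow N)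
    have hint' : lintM z (fun y => ENNReal.ofReal
        (‖G y‖ ^ 2 / (1 + ∑ i, ‖y (z i)‖ ^ 2) ^ M)) < ∞ := by
      have : (fun y : B →ₐ[ℂ] ℂ => ENNReal.ofReal
          (‖G y‖ ^ 2 / (1 + ∑ i, ‖y (z i)‖ ^ 2) ^ M)) = (fun y => ENNReal.ofReal
          (‖F y‖ ^ 2 * ‖y u‖ ^ (2 * N) / (1 + ∑ i, ‖y (z i)‖ ^ 2) ^ M)) := by
        funext y
        congr 2
        rw [hGdef]
        simp only [norm_mul, norm_pow]
        ring
      rw [this]; exact hint
    have hP := fun k => HH_poly_deg hD (Rd692.nonempty_chart z het) hGan k M (hA k) (hAK k) hint'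
    choose P hPd hP using hP
    refine ⟨fun k => ⟨P k, ?_⟩, ?_⟩
    · rw [MvPolynomial.mem_restrictTotalDegree]
      refine (hPd k).trans ?_
      have h1 : 2 * K k ≤ K0 := Finset.single_le_sum (f := fun k => 2 * K k)
        (fun _ _ => Nat.zero_le _) (Finset.mem_range.mpr k.2)
      omega
    · funext y
      by_cases hy : y v ≠ 0
      · have hyw : y w ≠ 0 := by
          rw [hv, map_mul] at hy
          exact left_ne_zero_of_mul hy
        have hyg : MvPolynomial.eval (fun i => y (z i)) g ≠ 0 := by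
          rw [hv, map_mul, comp_aeval'] at hy
          exact right_ne_zero_of_mul hy
        have h1 := interp hD G hyg y (fun _ => rfl)
        have e1 : Ψ (fun k => ⟨P k, by
            rw [MvPolynomial.mem_restrictTotalDegree]
            refine (hPd k).trans ?_
            have h1 : 2 * K k ≤ K0 := Finset.single_le_sum (f := fun k => 2 * K k)
              (fun _ _ => Nat.zero_le _) (Finset.mem_range.mpr k.2)
            omega⟩) y =
          (∑ k : Fin d, MvPolynomial.eval (fun i => y (z i)) (P k) * y θ ^ (k : ℕ)) / y w :=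
          if_pos hy
        have e2 : R F y = F y := if_pos hy
        rw [e1, e2, div_eq_iff hyw, hw, map_mul, map_pow, ← mul_assoc]
        rw [show F y * y u ^ N = G y from rfl, h1, ← hd, Finset.sum_range]
        refine Finset.sum_congr rfl fun k _ => ?_
        rw [hP k _ hyg]
      · have e1 : R F y = 0 := if_neg hy
        rw [e1]
        exact if_neg hy
  have hinj : Function.Injective (R.domRestrict V) := by
    rw [← LinearMap.ker_eq_bot, LinearMap.ker_eq_bot']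
    intro F hF
    apply Subtype.ext
    refine eq_zero_of_off het (hV F.1 F.2).1 hv0 fun y hy => ?_
    have h1 := congrFun hF y
    have h2 : R F.1 y = F.1 y := if_pos hy
    rw [← h2]
    exact h1
  let R' : V →ₗ[ℂ] LinearMap.range Ψ := (R.domRestrict V).codRestrict _ fun F => hR F.1 F.2
  have hinj' : Function.Injective R' := by
    intro F G h
    apply hinj
    exact congrArg Subtype.val h
  refine ⟨Module.Finite.of_injective R' hinj', ?_⟩
  calc Module.finrank ℂ V ≤ Module.finrank ℂ (LinearMap.range Ψ) :=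
        LinearMap.finrank_le_finrank_of_injective hinj'
    _ ≤ Module.finrank ℂ (Fin d → MvPolynomial.restrictTotalDegree (Fin n) ℂ L) :=
        LinearMap.finrank_range_le Ψ
    _ = d * Module.finrank ℂ (MvPolynomial.restrictTotalDegree (Fin n) ℂ L) := by
        rw [Module.finrank_pi_fintype, Finset.sum_const, Finset.card_univ, Fintype.card_fin,
          smul_eq_mul]
    _ ≤ d * (M + (K0 + 1)) ^ n := by
        gcongr
        exact finrank_restrict_le n L

/-- dimension bound, sup growth version: all `F ∈ V` satisfy `|F| |u|^b ≤ C_F (1+|z|²)^a` -/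
theorem finrank_growth_le (het : Et z) : ∃ d K : ℕ, ∀ (u : B) (a b : ℕ), u ≠ 0 →
    ∀ V : Submodule ℂ ((B →ₐ[ℂ] ℂ) → ℂ),
    (∀ F ∈ V, HolB z F ∧ ∃ C : ℝ, ∀ y : B →ₐ[ℂ] ℂ,
      ‖F y‖ * ‖y u‖ ^ b ≤ C * (1 + ∑ i, ‖y (z i)‖ ^ 2) ^ a) →
    Module.Finite ℂ V ∧ Module.finrank ℂ V ≤ d * (a + K) ^ n := by
  obtain ⟨d, K, h⟩ := finrank_le het
  refine ⟨d * 2 ^ n, n + 1 + K, fun u a b hu V hV => ?_⟩
  obtain ⟨h1, h2⟩ := h u b (2 * a + (n + 1)) hu V fun F hF => by
    obtain ⟨hF1, C, hC⟩ := hV F hF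
    refine ⟨hF1, lintM_lt_top (C := C ^ 2) het fun y => ENNReal.ofReal_le_ofReal ?_⟩
    set S : ℝ := 1 + ∑ i, ‖y (z i)‖ ^ 2 with hS
    have hS0 : 0 < S := by positivity
    rw [div_le_div_iff₀ (by positivity) (by positivity)]
    have h1 : ‖F y‖ ^ 2 * ‖y u‖ ^ (2 * b) ≤ C ^ 2 * S ^ (2 * a) := by
      calc ‖F y‖ ^ 2 * ‖y u‖ ^ (2 * b) = (‖F y‖ * ‖y u‖ ^ b) ^ 2 := by ring
        _ ≤ (C * S ^ a) ^ 2 := pow_le_pow_left₀ (by positivity) (hC y) 2
        _ = _ := by ring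
    calc ‖F y‖ ^ 2 * ‖y u‖ ^ (2 * b) * S ^ (n + 1) ≤ C ^ 2 * S ^ (2 * a) * S ^ (n + 1) := by
          gcongr
      _ = C ^ 2 * S ^ (2 * a + (n + 1)) := by rw [pow_add]; ring
  refine ⟨h1, h2.trans ?_⟩
  rw [mul_assoc, ← mul_pow]
  gcongr
  omega

end dim

end Crest.Agent.R276.AB2_590
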