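import Crest.Agent.R276.Top1_175

/-!
# First cohomology with local coefficients, by affine near-diagonal cocycles (row 276, IPC)

`P : X → X → G` a near-diagonal cocycle, `ρ : Representation R G V`.
* `IsCoc ρ P u` : `u x y + ρ (P x y) (u y w) = u x w` near the diagonal.
* `IsCob ρ P u` : `u x y = v x - ρ (P x y) (v y)` near the diagonal, for some function `v`.
* `H1 ρ P` : cocycles modulo coboundaries.
The pair `(u, P)` is a near-diagonal cocycle with values in the affine group `V ⋊ G`, so the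
homotopy theorem of `Top1_175` computes `H1` of a product with a contractible space.
-/

set_option autoImplicit false

open Set Topology unitInterval Filter
open Crest.Agent.R276.Top1_175

namespace Crest.Agent.R276.ASH1_175

variable {X Y : Type*} [TopologicalSpace X] [TopologicalSpace Y] {G : Type*} [Group G]
  {R : Type*} [CommRing R] {V : Type*} [AddCommGroup V] [Module R V]
  (ρ : Representation R G V)

/-- the affine group `V ⋊ G` -/
@[ext] structure Aff (ρ : Representation R G V) where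
  v : V
  g : G

instance : Group (Aff ρ) where
  mul a b := ⟨a.v + ρ a.g b.v, a.g * b.g⟩
  one := ⟨0, 1⟩
  inv a := ⟨-(ρ a.g⁻¹ a.v), a.g⁻¹⟩
  mul_assoc a b c := by
    apply Aff.ext
    · show (a.v + ρ a.g b.v) + ρ (a.g * b.g) c.v = a.v + ρ a.g (b.v + ρ b.g c.v)
      rw [map_mul, Module.End.mul_apply, map_add, add_assoc]
    · exact mul_assoc a.g b.g c.g
  one_mul a := by
    apply Aff.ext
    · show (0 : V) + ρ 1 a.v = a.v
      simp
    · exact one_mul a.g
  mul_one a := by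
    apply Aff.ext
    · show a.v + ρ a.g 0 = a.v
      simp
    · exact mul_one a.g
  inv_mul_cancel a := by
    apply Aff.ext
    · show -(ρ a.g⁻¹ a.v) + ρ a.g⁻¹ a.v = 0
      simp
    · exact inv_mul_cancel a.g

@[simp] theorem Aff.mul_v (a b : Aff ρ) : (a * b).v = a.v + ρ a.g b.v := rfl
@[simp] theorem Aff.mul_g (a b : Aff ρ) : (a * b).g = a.g * b.g := rfl
@[simp] theorem Aff.one_v : (1 : Aff ρ).v = 0 := rfl
@[simp] theorem Aff.one_g : (1 : Aff ρ).g = 1 := rfl
@[simp] theorem Aff.inv_v (a : Aff ρ) : (a⁻¹).v = -(ρ a.g⁻¹ a.v) := rfl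
@[simp] theorem Aff.inv_g (a : Aff ρ) : (a⁻¹).g = a.g⁻¹ := rfl

/-- projection to the linear part -/
def Aff.toG : Aff ρ →* G where
  toFun a := a.g
  map_one' := rfl
  map_mul' _ _ := rfl

/-- twisted near-diagonal 1-cocycles -/
def IsCoc (P : X → X → G) (u : X → X → V) : Prop :=
  ∀ z, ∃ U ∈ 𝓝 z, ∀ x ∈ U, ∀ y ∈ U, ∀ w ∈ U, u x y + ρ (P x y) (u y w) = u x w

/-- coboundary of a function -/
def cob (P : X → X → G) (v : X → V) : X → X → V := fun x y => v x - ρ (P x y) (v y)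

/-- two functions agree near the diagonal -/
def NEq {W : Type*} (u u' : X → X → W) : Prop :=
  ∀ z, ∃ U ∈ 𝓝 z, ∀ x ∈ U, ∀ y ∈ U, u x y = u' x y

/-- coboundaries -/
def IsCob (P : X → X → G) (u : X → X → V) : Prop := ∃ v, NEq u (cob ρ P v)

theorem NEq.refl {W : Type*} (u : X → X → W) : NEq u u :=
  fun _ => ⟨univ, univ_mem, fun _ _ _ _ => rfl⟩

theorem NEq.symm {W : Type*} {u u' : X → X → W} (h : NEq u u') : NEq u' u := by
  intro z
  obtain ⟨U, hU, hc⟩ := h z
  exact ⟨U, hU, fun x hx y hy => (hc x hx y hy).symm⟩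

theorem NEq.trans {W : Type*} {u u' u'' : X → X → W} (h : NEq u u') (h' : NEq u' u'') :
    NEq u u'' := by
  intro z
  obtain ⟨U, hU, hc⟩ := h z
  obtain ⟨U', hU', hc'⟩ := h' z
  exact ⟨U ∩ U', inter_mem hU hU', fun x hx y hy =>
    (hc x hx.1 y hy.1).trans (hc' x hx.2 y hy.2)⟩

theorem NEq.add {W : Type*} [Add W] {u u' v v' : X → X → W} (h : NEq u u') (h' : NEq v v') :
    NEq (fun x y => u x y + v x y) (fun x y => u' x y + v' x y) := by
  intro z
  obtain ⟨U, hU, hc⟩ := h z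
  obtain ⟨U', hU', hc'⟩ := h' z
  exact ⟨U ∩ U', inter_mem hU hU', fun x hx y hy => by
    beta_reduce; rw [hc x hx.1 y hy.1, hc' x hx.2 y hy.2]⟩

theorem NEq.sub {W : Type*} [Sub W] {u u' v v' : X → X → W} (h : NEq u u') (h' : NEq v v') :
    NEq (fun x y => u x y - v x y) (fun x y => u' x y - v' x y) := by
  intro z
  obtain ⟨U, hU, hc⟩ := h z
  obtain ⟨U', hU', hc'⟩ := h' z
  exact ⟨U ∩ U', inter_mem hU hU', fun x hx y hy => by
    beta_reduce; rw [hc x hx.1 y hy.1, hc' x hx.2 y hy.2]⟩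

theorem NEq.comp {W : Type*} {u u' : X → X → W} (h : NEq u u') {f : Y → X} (hf : Continuous f) :
    NEq (fun a b => u (f a) (f b)) (fun a b => u' (f a) (f b)) := by
  intro z
  obtain ⟨U, hU, hc⟩ := h (f z)
  exact ⟨f ⁻¹' U, hf.continuousAt.preimage_mem_nhds hU, fun x hx y hy => hc _ hx _ hy⟩

variable {ρ}

theorem IsCoc.self {P : X → X → G} (hP : IsNDC P) {u : X → X → V} (hu : IsCoc ρ P u) (x : X) :
    u x x = 0 := by
  obtain ⟨U, hU, hc⟩ := hu x
  have hx := mem_of_mem_nhds hU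
  have := hc x hx x hx x hx
  rw [hP.self, map_one] at this
  simpa using this

theorem IsCoc.comp {P : X → X → G} {u : X → X → V} (h : IsCoc ρ P u) {f : Y → X}
    (hf : Continuous f) : IsCoc ρ (fun a b => P (f a) (f b)) (fun a b => u (f a) (f b)) := by
  intro z
  obtain ⟨U, hU, hc⟩ := h (f z)
  exact ⟨f ⁻¹' U, hf.continuousAt.preimage_mem_nhds hU, fun x hx y hy w hw => hc _ hx _ hy _ hw⟩

theorem IsCoc.add {P : X → X → G} {u v : X → X → V} (hu : IsCoc ρ P u) (hv : IsCoc ρ P v) :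
    IsCoc ρ P (fun x y => u x y + v x y) := by
  intro z
  obtain ⟨U, hU, hc⟩ := hu z
  obtain ⟨U', hU', hc'⟩ := hv z
  refine ⟨U ∩ U', inter_mem hU hU', fun x hx y hy w hw => ?_⟩
  beta_reduce
  rw [← hc x hx.1 y hy.1 w hw.1, ← hc' x hx.2 y hy.2 w hw.2, map_add]
  abel

theorem IsCoc.smul {P : X → X → G} {u : X → X → V} (hu : IsCoc ρ P u) (r : R) :
    IsCoc ρ P (fun x y => r • u x y) := by
  intro z
  obtain ⟨U, hU, hc⟩ := hu z
  refine ⟨U, hU, fun x hx y hy w hw => ?_⟩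
  beta_reduce
  rw [← hc x hx y hy w hw, map_smul, smul_add]

theorem isCoc_zero (P : X → X → G) : IsCoc ρ P (fun _ _ => 0) :=
  fun _ => ⟨univ, univ_mem, fun _ _ _ _ _ _ => by simp⟩

theorem IsCoc.congr {P Q : X → X → G} {u u' : X → X → V} (hu : IsCoc ρ P u) (h : NEq u u')
    (hPQ : NEq P Q) : IsCoc ρ Q u' := by
  intro z
  obtain ⟨U, hU, hc⟩ := hu z
  obtain ⟨U', hU', hc'⟩ := h z
  obtain ⟨U'', hU'', hc''⟩ := hPQ z
  refine ⟨U ∩ U' ∩ U'', inter_mem (inter_mem hU hU') hU'', fun x hx y hy w hw => ?_⟩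
  rw [← hc' x hx.1.2 y hy.1.2, ← hc' y hy.1.2 w hw.1.2, ← hc' x hx.1.2 w hw.1.2,
    ← hc'' x hx.2 y hy.2]
  exact hc x hx.1.1 y hy.1.1 w hw.1.1

theorem isCoc_cob {P : X → X → G} (hP : IsNDC P) (v : X → V) : IsCoc ρ P (cob ρ P v) := by
  intro z
  obtain ⟨U, hU, hc⟩ := hP z
  refine ⟨U, hU, fun x hx y hy w hw => ?_⟩
  simp only [cob]
  rw [← hc x hx y hy w hw, map_mul, Module.End.mul_apply, map_sub]
  abel

theorem IsCob.isCoc {P : X → X → G} (hP : IsNDC P) {u : X → X → V} (hu : IsCob ρ P u) :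
    IsCoc ρ P u := by
  obtain ⟨v, hv⟩ := hu
  exact (isCoc_cob hP v).congr hv.symm (NEq.refl _)

theorem IsCob.add {P : X → X → G} {u v : X → X → V} (hu : IsCob ρ P u) (hv : IsCob ρ P v) :
    IsCob ρ P (fun x y => u x y + v x y) := by
  obtain ⟨a, ha⟩ := hu
  obtain ⟨b, hb⟩ := hv
  refine ⟨fun x => a x + b x, (ha.add hb).trans ?_⟩
  intro z
  exact ⟨univ, univ_mem, fun x _ y _ => by simp only [cob, map_add]; abel⟩

theorem IsCob.smul {P : X → X → G} {u : X → X → V} (hu : IsCob ρ P u) (r : R) :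
    IsCob ρ P (fun x y => r • u x y) := by
  obtain ⟨a, ha⟩ := hu
  refine ⟨fun x => r • a x, ?_⟩
  intro z
  obtain ⟨U, hU, hc⟩ := ha z
  refine ⟨U, hU, fun x hx y hy => ?_⟩
  beta_reduce
  rw [hc x hx y hy]
  simp only [cob, map_smul, smul_sub]

theorem isCob_zero (P : X → X → G) : IsCob ρ P (fun _ _ => 0) :=
  ⟨fun _ => 0, fun _ => ⟨univ, univ_mem, fun _ _ _ _ => by simp [cob]⟩⟩

theorem IsCob.comp {P : X → X → G} {u : X → X → V} (h : IsCob ρ P u) {f : Y → X}
    (hf : Continuous f) : IsCob ρ (fun a b => P (f a) (f b)) (fun a b => u (f a) (f b)) := by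
  obtain ⟨v, hv⟩ := h
  exact ⟨fun a => v (f a), hv.comp hf⟩

theorem IsCob.congr {P Q : X → X → G} {u u' : X → X → V} (hu : IsCob ρ P u) (h : NEq u u')
    (hPQ : NEq P Q) : IsCob ρ Q u' := by
  obtain ⟨v, hv⟩ := hu
  refine ⟨v, (h.symm.trans hv).trans ?_⟩
  intro z
  obtain ⟨U, hU, hc⟩ := hPQ z
  exact ⟨U, hU, fun x hx y hy => by simp only [cob]; rw [hc x hx y hy]⟩

/-- gauge transformation of a cocycle -/
theorem IsCoc.gauge {P : X → X → G} {u : X → X → V} (hu : IsCoc ρ P u) (a : X → G) :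
    IsCoc ρ (fun x y => a x * P x y * (a y)⁻¹) (fun x y => ρ (a x) (u x y)) := by
  intro z
  obtain ⟨U, hU, hc⟩ := hu z
  refine ⟨U, hU, fun x hx y hy w hw => ?_⟩
  beta_reduce
  rw [← hc x hx y hy w hw, map_add, ← Module.End.mul_apply, ← Module.End.mul_apply, ← map_mul,
    ← map_mul]
  congr 3
  group

theorem IsCob.gauge {P : X → X → G} {u : X → X → V} (hu : IsCob ρ P u) (a : X → G) :
    IsCob ρ (fun x y => a x * P x y * (a y)⁻¹) (fun x y => ρ (a x) (u x y)) := by
  obtain ⟨v, hv⟩ := hu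
  refine ⟨fun x => ρ (a x) (v x), ?_⟩
  intro z
  obtain ⟨U, hU, hc⟩ := hv z
  refine ⟨U, hU, fun x hx y hy => ?_⟩
  beta_reduce
  rw [hc x hx y hy]
  simp only [cob]
  rw [map_sub, ← Module.End.mul_apply, ← Module.End.mul_apply, ← map_mul, ← map_mul]
  congr 3
  group

/-- the affine cocycle -/
def aff (ρ : Representation R G V) (P : X → X → G) (u : X → X → V) : X → X → Aff ρ :=
  fun x y => ⟨u x y, P x y⟩

theorem isNDC_aff {P : X → X → G} (hP : IsNDC P) {u : X → X → V} (hu : IsCoc ρ P u) :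
    IsNDC (aff ρ P u) := by
  intro z
  obtain ⟨U, hU, hc⟩ := hP z
  obtain ⟨U', hU', hc'⟩ := hu z
  refine ⟨U ∩ U', inter_mem hU hU', fun x hx y hy w hw => ?_⟩
  apply Aff.ext
  · exact hc' x hx.2 y hy.2 w hw.2
  · exact hc x hx.1 y hy.1 w hw.1

theorem lift_aff_g {P : I → I → G} (hP : IsNDC P) {u : I → I → V} (hu : IsCoc ρ P u) (t : I) :
    (lift (aff ρ P u) t).g = lift P t := by
  have h := isNDC_aff hP hu
  have h1 : (fun t => (lift (aff ρ P u) t).g) = lift P := by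
    refine lift_unique hP ?_ ?_
    · show (lift (aff ρ P u) 0).g = 1
      rw [lift_zero h]; rfl
    · intro z
      obtain ⟨U, hU, hc⟩ := lift_triv h z
      refine ⟨U, hU, fun x hx y hy => ?_⟩
      have := congrArg Aff.g (hc x hx y hy)
      exact this
  exact congrFun h1 t

theorem hlift_aff_g {P : X × I → X × I → G} (hP : IsNDC P) {u : X × I → X × I → V}
    (hu : IsCoc ρ P u) (p : X × I) : (hlift (aff ρ P u) p).g = hlift P p := by
  have hcont : Continuous (fun s : I => (p.1, s)) := by fun_prop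
  exact lift_aff_g (isNDC_slice hP p.1) (hu.comp hcont) p.2

/-- **Homotopy theorem for twisted 1-cocycles.** -/
theorem IsCoc.homotopy {P : X × I → X × I → G} (hP : IsNDC P) {u : X × I → X × I → V}
    (hu : IsCoc ρ P u) : ∃ v : X × I → V, (∀ x, v (x, 0) = 0) ∧
      NEq u (fun p q => ρ (hlift P p) (u (p.1, 0) (q.1, 0)) + cob ρ P v p q) := by
  have h := isNDC_aff hP hu
  refine ⟨fun p => (hlift (aff ρ P u) p).v, fun x => by beta_reduce; rw [hlift_zero h]; rfl,
    fun z => ?_⟩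
  obtain ⟨U, hU, hc⟩ := h.homotopy z
  refine ⟨U, hU, fun p hp q hq => ?_⟩
  have h1 : aff ρ P u p q * hlift (aff ρ P u) q =
      hlift (aff ρ P u) p * aff ρ P u (p.1, 0) (q.1, 0) := by
    rw [hc p hp q hq]; group
  have h2 := congrArg Aff.v h1
  simp only [Aff.mul_v, hlift_aff_g hP hu] at h2
  have h3 : u p q + ρ (P p q) (hlift (aff ρ P u) q).v =
      (hlift (aff ρ P u) p).v + ρ (hlift P p) (u (p.1, 0) (q.1, 0)) := h2
  simp only [cob]
  rw [eq_sub_of_add_eq h3]
  abel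

/-! ### Products with contractible spaces -/

section contr
variable {B : Type*} [TopologicalSpace B]

theorem hlift_eq_one_of_const {c : X × I → X × I → G} (hc : IsNDC c) {x : X}
    (hx : ∀ s t, c (x, s) (x, t) = 1) (t : I) : hlift c (x, t) = 1 := by
  have h1 : (fun _ : I => (1 : G)) = lift (fun s t => c (x, s) (x, t)) :=
    lift_unique (isNDC_slice hc x) rfl
      (fun z => ⟨univ, univ_mem, fun a _ b _ => by beta_reduce; rw [hx]; simp⟩)
  show lift (fun s t => c (x, s) (x, t)) t = 1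
  rw [← h1]

/-- a cocycle on `X × B`, `B` contractible to `b₀`, is a pull back from `X × {b₀}` up to gauge -/
theorem IsNDC.contract {P : X × B → X × B → G} (hP : IsNDC P) (H : B × I → B)
    (hH : Continuous H) (b₀ : B) (h0 : ∀ b, H (b, 0) = b₀) (h1 : ∀ b, H (b, 1) = b)
    (hb : ∀ t, H (b₀, t) = b₀) :
    ∃ a : X × B → G, (∀ x, a (x, b₀) = 1) ∧
      NearEq P (fun p q => a p * P (p.1, b₀) (q.1, b₀) * (a q)⁻¹) ∧
      ∀ u : X × B → X × B → V, IsCoc ρ P u → ∃ v : X × B → V, (∀ x, v (x, b₀) = 0) ∧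
        NEq u (fun p q => ρ (a p) (u (p.1, b₀) (q.1, b₀)) + cob ρ P v p q) := by
  set K : (X × B) × I → X × B := fun p => (p.1.1, H (p.1.2, p.2)) with hK
  have hKc : Continuous K := by
    refine Continuous.prodMk (by fun_prop) (hH.comp (by fun_prop))
  set c : (X × B) × I → (X × B) × I → G := fun p q => P (K p) (K q) with hc
  have hcn : IsNDC c := hP.comp hKc
  have K0 : ∀ p : X × B, K (p, 0) = (p.1, b₀) := fun p => by simp [hK, h0]
  have K1 : ∀ p : X × B, K (p, 1) = p := fun p => by simp [hK, h1]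
  have Kb : ∀ x t, K ((x, b₀), t) = (x, b₀) := fun x t => by simp [hK, hb]
  have hcont1 : Continuous (fun x : X × B => (x, (1 : I))) := by fun_prop
  refine ⟨fun p => hlift c (p, 1), ?_, ?_, ?_⟩
  · intro x
    refine hlift_eq_one_of_const hcn (fun s t => ?_) 1
    simp only [hc, Kb, hP.self]
  · intro z
    obtain ⟨U, hU, hcU⟩ := hcn.homotopy (z, 1)
    refine ⟨(fun x : X × B => (x, (1 : I))) ⁻¹' U,
      hcont1.continuousAt.preimage_mem_nhds hU, fun p hp q hq => ?_⟩
    have := hcU (p, 1) hp (q, 1) hq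
    simp only [hc, K0, K1] at this
    exact this
  · intro u hu
    have hu' : IsCoc ρ c (fun p q => u (K p) (K q)) := hu.comp hKc
    obtain ⟨v, hv0, hv⟩ := IsCoc.homotopy hcn hu'
    -- replace `v` by the canonical one to have `v (x, b₀) = 0`
    have haff := isNDC_aff hcn hu'
    refine ⟨fun p => (hlift (aff ρ c (fun p q => u (K p) (K q))) (p, 1)).v, ?_, ?_⟩
    · intro x
      have : hlift (aff ρ c (fun p q => u (K p) (K q))) ((x, b₀), 1) = 1 := by
        refine hlift_eq_one_of_const haff (fun s t => ?_) 1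
        apply Aff.ext
        · show u (K ((x, b₀), s)) (K ((x, b₀), t)) = 0
          rw [Kb, Kb]; exact hu.self hP _
        · show P (K ((x, b₀), s)) (K ((x, b₀), t)) = 1
          rw [Kb, Kb]; exact hP.self _
      beta_reduce
      rw [this]; rfl
    · intro z
      obtain ⟨U, hU, hcU⟩ := haff.homotopy (z, 1)
      refine ⟨(fun x : X × B => (x, (1 : I))) ⁻¹' U,
        hcont1.continuousAt.preimage_mem_nhds hU, fun p hp q hq => ?_⟩
      have e1 := hcU (p, 1) hp (q, 1) hq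
      have e2 : aff ρ c (fun p q => u (K p) (K q)) (p, 1) (q, 1) *
          hlift (aff ρ c (fun p q => u (K p) (K q))) (q, 1) =
          hlift (aff ρ c (fun p q => u (K p) (K q))) (p, 1) *
            aff ρ c (fun p q => u (K p) (K q)) (p, 0) (q, 0) := by
        rw [e1]; group
      have e3 := congrArg Aff.v e2
      simp only [Aff.mul_v, hlift_aff_g hcn hu'] at e3
      have e4 : u p q + ρ (P p q) (hlift (aff ρ c (fun p q => u (K p) (K q))) (q, 1)).v =
          (hlift (aff ρ c (fun p q => u (K p) (K q))) (p, 1)).v +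
            ρ (hlift c (p, 1)) (u (p.1, b₀) (q.1, b₀)) := by
        have := e3
        simp only [aff, hc, K0, K1] at this ⊢
        exact this
      simp only [cob]
      rw [eq_sub_of_add_eq e4]
      abel

end contr

/-! ### The module `H1` -/

section H1
variable (ρ)

/-- submodule of cocycles -/
def cocSub (P : X → X → G) : Submodule R (X → X → V) where
  carrier := {u | IsCoc ρ P u}
  add_mem' hu hv := hu.add hv
  zero_mem' := isCoc_zero P
  smul_mem' r _ hu := hu.smul r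

/-- submodule of coboundaries -/
def cobSub (P : X → X → G) : Submodule R (X → X → V) where
  carrier := {u | IsCob ρ P u}
  add_mem' hu hv := hu.add hv
  zero_mem' := isCob_zero P
  smul_mem' r _ hu := hu.smul r

/-- first cohomology with coefficients in the local system `(P, ρ)` -/
def H1 (P : X → X → G) : Type _ := cocSub ρ P ⧸ (cobSub ρ P).submoduleOf (cocSub ρ P)

instance (P : X → X → G) : AddCommGroup (H1 ρ P) :=
  inferInstanceAs (AddCommGroup (cocSub ρ P ⧸ (cobSub ρ P).submoduleOf (cocSub ρ P)))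

instance (P : X → X → G) : Module R (H1 ρ P) :=
  inferInstanceAs (Module R (cocSub ρ P ⧸ (cobSub ρ P).submoduleOf (cocSub ρ P)))

/-- the class of a cocycle -/
def H1.mk (P : X → X → G) : cocSub ρ P →ₗ[R] H1 ρ P :=
  ((cobSub ρ P).submoduleOf (cocSub ρ P)).mkQ

theorem H1.mk_surjective (P : X → X → G) : Function.Surjective (H1.mk ρ P) :=
  Submodule.mkQ_surjective _

theorem H1.mk_eq_zero_iff {P : X → X → G} {u : cocSub ρ P} :
    H1.mk ρ P u = 0 ↔ IsCob ρ P (u : X → X → V) := by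
  have h : H1.mk ρ P u = 0 ↔ u ∈ (cobSub ρ P).submoduleOf (cocSub ρ P) :=
    Submodule.Quotient.mk_eq_zero _
  rw [h]
  rfl

theorem H1.mk_eq_mk_iff {P : X → X → G} {u v : cocSub ρ P} :
    H1.mk ρ P u = H1.mk ρ P v ↔
      IsCob ρ P (fun x y => (u : X → X → V) x y - (v : X → X → V) x y) := by
  rw [← sub_eq_zero, ← map_sub, H1.mk_eq_zero_iff]
  rfl

/-- pull back of cocycles -/
def pullCoc (P : X → X → G) (Q : Y → Y → G) {f : Y → X} (hf : Continuous f)
    (hQ : ∀ a b, Q a b = P (f a) (f b)) : cocSub ρ P →ₗ[R] cocSub ρ Q where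
  toFun u := ⟨fun a b => (u : X → X → V) (f a) (f b),
    (IsCoc.comp u.2 hf).congr (NEq.refl _)
      (fun _ => ⟨univ, univ_mem, fun a _ b _ => (hQ a b).symm⟩)⟩
  map_add' _ _ := rfl
  map_smul' _ _ := rfl

/-- pull back on `H1` -/
def pull (P : X → X → G) (Q : Y → Y → G) {f : Y → X} (hf : Continuous f)
    (hQ : ∀ a b, Q a b = P (f a) (f b)) : H1 ρ P →ₗ[R] H1 ρ Q :=
  Submodule.mapQ ((cobSub ρ P).submoduleOf (cocSub ρ P)) ((cobSub ρ Q).submoduleOf (cocSub ρ Q))
    (pullCoc ρ P Q hf hQ) (fun u hu => by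
    have : IsCob ρ P (u : X → X → V) := hu
    exact (this.comp hf).congr (NEq.refl _)
      (fun _ => ⟨univ, univ_mem, fun a _ b _ => (hQ a b).symm⟩))

@[simp] theorem pull_mk (P : X → X → G) (Q : Y → Y → G) {f : Y → X} (hf : Continuous f)
    (hQ : ∀ a b, Q a b = P (f a) (f b)) (u : cocSub ρ P) :
    pull ρ P Q hf hQ (H1.mk ρ P u) = H1.mk ρ Q (pullCoc ρ P Q hf hQ u) := rfl

theorem pull_comp {Z : Type*} [TopologicalSpace Z] (P : X → X → G) (Q : Y → Y → G)
    (T : Z → Z → G) {f : Y → X} (hf : Continuous f) (hQ : ∀ a b, Q a b = P (f a) (f b))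
    {g : Z → Y} (hg : Continuous g) (hT : ∀ a b, T a b = Q (g a) (g b))
    (hT' : ∀ a b, T a b = P ((f ∘ g) a) ((f ∘ g) b)) (c : H1 ρ P) :
    pull ρ Q T hg hT (pull ρ P Q hf hQ c) = pull ρ P T (hf.comp hg) hT' c := by
  obtain ⟨u, rfl⟩ := H1.mk_surjective ρ P c
  rfl

variable {B : Type*} [TopologicalSpace B]

/-- **`H1 (X × B) = H1 (X)` for `B` contractible to `b₀`.** -/
theorem pull_bijective_of_contract {P : X × B → X × B → G} (hP : IsNDC P) (H : B × I → B)
    (hH : Continuous H) (b₀ : B) (h0 : ∀ b, H (b, 0) = b₀) (h1 : ∀ b, H (b, 1) = b)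
    (hb : ∀ t, H (b₀, t) = b₀) {f : X → X × B} (hf : Continuous f) (hfx : ∀ x, f x = (x, b₀))
    (Q : X → X → G) (hQ : ∀ a b, Q a b = P (f a) (f b)) :
    Function.Bijective (pull ρ P Q hf hQ) := by
  obtain ⟨a, ha0, haP, hau⟩ := IsNDC.contract (ρ := ρ) hP H hH b₀ h0 h1 hb
  obtain rfl : f = fun x => (x, b₀) := funext hfx
  obtain rfl : Q = fun x y => P (x, b₀) (y, b₀) := by funext x y; exact hQ x y
  constructor
  · rw [← LinearMap.ker_eq_bot, LinearMap.ker_eq_bot']
    intro c hc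
    obtain ⟨u, rfl⟩ := H1.mk_surjective ρ P c
    rw [pull_mk, H1.mk_eq_zero_iff] at hc
    rw [H1.mk_eq_zero_iff]
    obtain ⟨w, hw⟩ := hc
    obtain ⟨v, -, hv⟩ := hau u u.2
    refine ⟨fun p => ρ (a p) (w p.1) + v p, ?_⟩
    intro z
    obtain ⟨U₁, hU₁, hc₁⟩ := hv z
    obtain ⟨U₂, hU₂, hc₂⟩ := haP z
    obtain ⟨U₃, hU₃, hc₃⟩ := hw z.1
    have hfst : (Prod.fst ⁻¹' U₃ : Set (X × B)) ∈ 𝓝 z :=
      continuous_fst.continuousAt.preimage_mem_nhds hU₃
    refine ⟨U₁ ∩ U₂ ∩ Prod.fst ⁻¹' U₃, inter_mem (inter_mem hU₁ hU₂) hfst, ?_⟩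
    intro p hp q hq
    rw [hc₁ p hp.1.1 q hq.1.1]
    have e := hc₃ p.1 hp.2 q.1 hq.2
    have e' : (u : X × B → X × B → V) (p.1, b₀) (q.1, b₀) =
        w p.1 - ρ (P (p.1, b₀) (q.1, b₀)) (w q.1) := e
    beta_reduce
    rw [e']
    simp only [cob]
    have e2 : ρ (a p) (ρ (P (p.1, b₀) (q.1, b₀)) (w q.1)) = ρ (P p q) (ρ (a q) (w q.1)) := by
      rw [hc₂ p hp.1.2 q hq.1.2, ← Module.End.mul_apply, ← Module.End.mul_apply, ← map_mul,
        ← map_mul]
      congr 2
      group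
    rw [map_sub, e2, map_add]
    abel
  · intro c
    obtain ⟨u, rfl⟩ := H1.mk_surjective ρ _ c
    have hu' : IsCoc ρ (fun p q : X × B => P (p.1, b₀) (q.1, b₀))
        (fun p q => (u : X → X → V) p.1 q.1) := by
      have := IsCoc.comp u.2 (continuous_fst (X := X) (Y := B))
      exact this
    have hu2 := (hu'.gauge a).congr (NEq.refl _) (Q := P)
      (by intro z; obtain ⟨U, hU, hc⟩ := haP z; exact ⟨U, hU, fun x hx y hy => (hc x hx y hy).symm⟩)
    refine ⟨H1.mk ρ P ⟨_, hu2⟩, ?_⟩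
    rw [pull_mk]
    congr 1
    apply Subtype.ext
    funext x y
    show ρ (a (x, b₀)) ((u : X → X → V) x y) = (u : X → X → V) x y
    rw [ha0]; simp

/-- `H1` vanishes on contractible spaces -/
theorem IsCoc.isCob_of_contraction {P : X → X → G} (hP : IsNDC P) {u : X → X → V}
    (hu : IsCoc ρ P u) (H : X × I → X)
    (hH : Continuous H) (x₀ : X) (h0 : ∀ x, H (x, 0) = x₀) (h1 : ∀ x, H (x, 1) = x) :
    IsCob ρ P u := by
  obtain ⟨A, hA⟩ := (isNDC_aff hP hu).triv_of_contraction H hH x₀ h0 h1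
  refine ⟨fun x => (A x).v, fun z => ?_⟩
  obtain ⟨U, hU, hc⟩ := hA z
  refine ⟨U, hU, fun x hx y hy => ?_⟩
  have h2 : aff ρ P u x y * A y = A x := by rw [hc x hx y hy]; group
  have h3 := congrArg Aff.v h2
  have h4 : u x y + ρ (P x y) (A y).v = (A x).v := h3
  simp only [cob]
  rw [← h4]; abel

theorem IsCoc.isCob_of_contractible [ContractibleSpace X] {P : X → X → G} (hP : IsNDC P)
    {u : X → X → V} (hu : IsCoc ρ P u) : IsCob ρ P u := by
  obtain ⟨A, hA⟩ := (isNDC_aff hP hu).triv_of_contractible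
  refine ⟨fun x => (A x).v, fun z => ?_⟩
  obtain ⟨U, hU, hc⟩ := hA z
  refine ⟨U, hU, fun x hx y hy => ?_⟩
  have h2 : aff ρ P u x y * A y = A x := by rw [hc x hx y hy]; group
  have h3 := congrArg Aff.v h2
  have h4 : u x y + ρ (P x y) (A y).v = (A x).v := h3
  simp only [cob]
  rw [← h4]; abel

end H1

end Crest.Agent.R276.ASH1_175
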