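import Mathlib
import Crest.Agent.R271.Bd5_741

/-!
Row 276, leaf BC (boundary charts at divisorial valuations), part 0: algebra.

`DivModel n K`: a domain `A` of finite type over `ℂ` with fraction field `K`, étale over `ℂ[w₁..wₙ]`,
such that `t = w i₀` is prime in `A`.  It is an algebraic model of the divisorial valuation ring
`A_(t)` of `K/ℂ`.
-/

set_option autoImplicit false

open scoped Topology BigOperators
open Set Metric

noncomputable section

namespace Crest.Agent.R276.BC_986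

open Crest.Agent.R271.Defs710 Crest.Agent.R271.Bd741

/-- algebraic model of a divisorial valuation of `K/ℂ` -/
structure DivModel (n : ℕ) (K : Type) [Field K] [Algebra ℂ K] where
  /-- the ring of the model -/
  A : Type
  [cr : CommRing A]
  [dom : IsDomain A]
  [alg : Algebra ℂ A]
  [algK : Algebra A K]
  [tower : IsScalarTower ℂ A K]
  [frac : IsFractionRing A K]
  ft : Algebra.FiniteType ℂ A
  /-- the étale coordinates -/
  w : Fin n → A
  etale : RingHom.Etale ((MvPolynomial.aeval w : MvPolynomial (Fin n) ℂ →ₐ[ℂ] A) :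
    MvPolynomial (Fin n) ℂ →+* A)
  /-- the index of the coordinate which defines the divisor -/
  i₀ : Fin n
  prime : Prime (w i₀)

attribute [instance] DivModel.cr DivModel.dom DivModel.alg DivModel.algK DivModel.tower
  DivModel.frac

namespace DivModel

variable {n : ℕ} {K : Type} [Field K] [Algebra ℂ K] (D : DivModel n K)

/-- the equation of the divisor -/
def t : D.A := D.w D.i₀

lemma t_prime : Prime D.t := D.prime

lemma t_ne : D.t ≠ 0 := D.prime.ne_zero

lemma inj : Function.Injective (algebraMap D.A K) := IsFractionRing.injective D.A K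

lemma tK_ne : algebraMap D.A K D.t ≠ 0 := by
  intro h
  exact D.t_ne (D.inj (by rw [h, map_zero]))

instance : IsNoetherianRing D.A := by
  have := D.ft
  exact Algebra.FiniteType.isNoetherianRing ℂ D.A

/-- `f ∈ K` has order exactly `a` along the divisor -/
def HasOrd (f : K) (a : ℤ) : Prop :=
  ∃ u v : D.A, ¬ D.t ∣ u ∧ ¬ D.t ∣ v ∧ f * algebraMap D.A K v =
    algebraMap D.A K D.t ^ a * algebraMap D.A K u

lemma exists_pow_mul (x : D.A) (hx : x ≠ 0) : ∃ (k : ℕ) (u : D.A), ¬ D.t ∣ u ∧ x = D.t ^ k * u := by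
  have h1 : ∃ k : ℕ, ¬ D.t ^ (k + 1) ∣ x := by
    by_contra hcon
    push Not at hcon
    have h2 : x ∈ ⨅ i : ℕ, (Ideal.span {D.t}) ^ i := by
      rw [Submodule.mem_iInf]
      intro i
      rw [Ideal.span_singleton_pow, Ideal.mem_span_singleton]
      exact (pow_dvd_pow D.t (Nat.le_succ i)).trans (hcon i)
    rw [Ideal.iInf_pow_eq_bot_of_isDomain _ (by
      rw [Ne, Ideal.span_singleton_eq_top]; exact D.prime.not_isUnit)] at h2
    exact hx (by simpa using h2)
  classical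
  have h2 := Nat.find_spec h1
  set k := Nat.find h1
  have h3 : D.t ^ k ∣ x := by
    rcases Nat.eq_zero_or_pos k with h | h
    · rw [h]; simp
    · have h4 := Nat.find_min h1 (m := k - 1) (Nat.sub_lt h one_pos)
      rw [not_not] at h4
      rwa [Nat.sub_one_add_one h.ne'] at h4
  obtain ⟨u, hu⟩ := h3
  refine ⟨k, u, ?_, hu⟩
  rintro ⟨v, hv⟩
  apply h2
  exact ⟨v, by rw [hu, hv, pow_succ, mul_assoc]⟩

lemma exists_hasOrd (f : K) (hf : f ≠ 0) : ∃ a, D.HasOrd f a := by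
  obtain ⟨x, y, hy, h⟩ := IsFractionRing.div_surjective (A := D.A) f
  have hy0 : y ≠ 0 := nonZeroDivisors.ne_zero hy
  have hyK : algebraMap D.A K y ≠ 0 := fun h0 => hy0 (D.inj (by rw [h0, map_zero]))
  have hx0 : x ≠ 0 := by
    rintro rfl
    rw [map_zero, zero_div] at h
    exact hf h.symm
  obtain ⟨k, u, hu, hxu⟩ := D.exists_pow_mul x hx0
  obtain ⟨l, v, hv, hyv⟩ := D.exists_pow_mul y hy0
  refine ⟨(k : ℤ) - l, u, v, hu, hv, ?_⟩
  have hvK : algebraMap D.A K v ≠ 0 := fun h0 => by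
    apply hy0; apply D.inj; rw [hyv, map_mul, h0, mul_zero, map_zero]
  rw [← h, hxu, hyv, map_mul, map_mul, map_pow, map_pow, zpow_sub₀ D.tK_ne, zpow_natCast,
    zpow_natCast]
  have := D.tK_ne
  field_simp

lemma not_dvd_mul {u v : D.A} (hu : ¬ D.t ∣ u) (hv : ¬ D.t ∣ v) : ¬ D.t ∣ u * v := fun h =>
  (D.prime.dvd_or_dvd h).elim hu hv

lemma hasOrd_unique {f : K} {a b : ℤ} (ha : D.HasOrd f a) (hb : D.HasOrd f b) : a = b := by
  -- enough: `a ≤ b`
  have key : ∀ {a b : ℤ}, D.HasOrd f a → D.HasOrd f b → ¬ a < b := by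
    rintro a b ⟨u, v, hu, hv, h1⟩ ⟨u', v', hu', hv', h2⟩ hlt
    obtain ⟨k, hk⟩ := Int.eq_ofNat_of_zero_le (sub_nonneg.2 hlt.le)
    have hk0 : k ≠ 0 := by rintro rfl; simp at hk; omega
    have h3 : algebraMap D.A K (u * v') = algebraMap D.A K (D.t ^ k * u' * v) := by
      have ht := D.tK_ne
      have e1 : b = a + k := by omega
      rw [e1, zpow_add₀ ht, zpow_natCast] at h2
      have e2 : algebraMap D.A K D.t ^ a ≠ 0 := zpow_ne_zero _ ht
      apply mul_left_cancel₀ e2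
      rw [map_mul, map_mul, map_mul, map_pow]
      calc algebraMap D.A K D.t ^ a * (algebraMap D.A K u * algebraMap D.A K v')
          = (f * algebraMap D.A K v) * algebraMap D.A K v' := by rw [h1]; ring
        _ = (f * algebraMap D.A K v') * algebraMap D.A K v := by ring
        _ = _ := by rw [h2]; ring
    have h4 := D.inj h3
    have h5 : D.t ∣ u * v' := by
      rw [h4, mul_assoc]
      exact (dvd_pow_self D.t hk0).mul_right _
    exact D.not_dvd_mul hu hv' h5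
  rcases lt_trichotomy a b with h | h | h
  · exact absurd h (key ha hb)
  · exact h
  · exact absurd h (key hb ha)

lemma HasOrd.mul {f g : K} {a b : ℤ} (hf : D.HasOrd f a) (hg : D.HasOrd g b) :
    D.HasOrd (f * g) (a + b) := by
  obtain ⟨u, v, hu, hv, h1⟩ := hf
  obtain ⟨u', v', hu', hv', h2⟩ := hg
  refine ⟨u * u', v * v', D.not_dvd_mul hu hu', D.not_dvd_mul hv hv', ?_⟩
  rw [map_mul, map_mul, zpow_add₀ D.tK_ne]
  calc f * g * (algebraMap D.A K v * algebraMap D.A K v')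
      = (f * algebraMap D.A K v) * (g * algebraMap D.A K v') := by ring
    _ = _ := by rw [h1, h2]; ring

lemma HasOrd.ne_zero {f : K} {a : ℤ} (hf : D.HasOrd f a) : f ≠ 0 := by
  rintro rfl
  obtain ⟨u, v, hu, hv, h1⟩ := hf
  rw [zero_mul] at h1
  have : algebraMap D.A K u = 0 := by
    rcases mul_eq_zero.1 h1.symm with h | h
    · exact absurd h (zpow_ne_zero _ D.tK_ne)
    · exact h
  apply hu
  rw [D.inj (by rw [this, map_zero] : algebraMap D.A K u = algebraMap D.A K 0)]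
  exact dvd_zero _

lemma HasOrd.inv {f : K} {a : ℤ} (hf : D.HasOrd f a) : D.HasOrd f⁻¹ (-a) := by
  have hf0 := hf.ne_zero
  obtain ⟨u, v, hu, hv, h1⟩ := hf
  refine ⟨v, u, hv, hu, ?_⟩
  have ht : algebraMap D.A K D.t ^ a ≠ 0 := zpow_ne_zero _ D.tK_ne
  rw [zpow_neg]
  field_simp
  linear_combination -h1

lemma hasOrd_one : D.HasOrd (1 : K) 0 :=
  ⟨1, 1, fun h => D.prime.not_isUnit (isUnit_of_dvd_one h),
    fun h => D.prime.not_isUnit (isUnit_of_dvd_one h), by simp⟩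

lemma hasOrd_t : D.HasOrd (algebraMap D.A K D.t) 1 :=
  ⟨1, 1, fun h => D.prime.not_isUnit (isUnit_of_dvd_one h),
    fun h => D.prime.not_isUnit (isUnit_of_dvd_one h), by simp⟩

/-- there are points on the divisor off every proper subset: Nullstellensatz -/
lemma exists_point (g : D.A) (hg : ¬ D.t ∣ g) : ∃ y : D.A →ₐ[ℂ] ℂ, y D.t = 0 ∧ y g ≠ 0 := by
  let I : Ideal D.A := Ideal.span {D.t}
  have hI : I.IsPrime := (Ideal.span_singleton_prime D.t_ne).2 D.prime
  have hft : Algebra.FiniteType ℂ D.A := D.ft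
  have hft' : Algebra.FiniteType ℂ (D.A ⧸ I) :=
    Algebra.FiniteType.of_surjective (Ideal.Quotient.mkₐ ℂ I) (Ideal.Quotient.mkₐ_surjective ℂ I)
  have hJ : IsJacobsonRing (D.A ⧸ I) := by
    have := isJacobsonRing_of_finiteType (A := ℂ) (B := D.A ⧸ I)
    exact this
  have hg' : Ideal.Quotient.mk I g ≠ 0 := by
    rw [Ne, Ideal.Quotient.eq_zero_iff_mem, Ideal.mem_span_singleton]
    exact hg
  have h1 : ∃ m : Ideal (D.A ⧸ I), m.IsMaximal ∧ Ideal.Quotient.mk I g ∉ m := by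
    by_contra hcon
    push Not at hcon
    have h2 : Ideal.Quotient.mk I g ∈ (⊥ : Ideal (D.A ⧸ I)).jacobson := by
      rw [Ideal.mem_jacobson_bot]
      intro y
      by_contra hnu
      obtain ⟨m, hm, hmem⟩ := exists_max_ideal_of_mem_nonunits hnu
      have h3 := m.sub_mem hmem (m.mul_mem_right y (hcon m hm))
      rw [add_sub_cancel_left] at h3
      exact hm.ne_top ((Ideal.eq_top_iff_one m).2 h3)
    have h4 : (⊥ : Ideal (D.A ⧸ I)).jacobson = ⊥ :=
      IsJacobsonRing.out' (⊥ : Ideal (D.A ⧸ I)) (Ideal.isRadical_bot)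
    rw [h4] at h2
    exact hg' (by simpa using h2)
  obtain ⟨m, hm, hgm⟩ := h1
  have hfin : Module.Finite ℂ ((D.A ⧸ I) ⧸ m) := by
    let _ : Field ((D.A ⧸ I) ⧸ m) := Ideal.Quotient.field m
    have : Algebra.FiniteType ℂ ((D.A ⧸ I) ⧸ m) :=
      Algebra.FiniteType.of_surjective (Ideal.Quotient.mkₐ ℂ m) (Ideal.Quotient.mkₐ_surjective ℂ m)
    exact finite_of_finite_type_of_isJacobsonRing ℂ ((D.A ⧸ I) ⧸ m)
  let _ : Field ((D.A ⧸ I) ⧸ m) := Ideal.Quotient.field m
  have hbij : Function.Bijective (algebraMap ℂ ((D.A ⧸ I) ⧸ m)) :=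
    IsAlgClosed.algebraMap_bijective_of_isIntegral
  let e : ℂ ≃ₐ[ℂ] ((D.A ⧸ I) ⧸ m) :=
    AlgEquiv.ofBijective (Algebra.ofId ℂ ((D.A ⧸ I) ⧸ m)) hbij
  refine ⟨(e.symm : ((D.A ⧸ I) ⧸ m) →ₐ[ℂ] ℂ).comp
    ((Ideal.Quotient.mkₐ ℂ m).comp (Ideal.Quotient.mkₐ ℂ I)), ?_, ?_⟩
  · have h : Ideal.Quotient.mkₐ ℂ I D.t = 0 := by
      rw [Ideal.Quotient.mkₐ_eq_mk, Ideal.Quotient.eq_zero_iff_mem]
      exact Ideal.mem_span_singleton_self _
    simp only [AlgHom.comp_apply, h, map_zero]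
  · intro h
    have h1 : Ideal.Quotient.mkₐ ℂ m (Ideal.Quotient.mkₐ ℂ I g) = 0 := by
      have h2 : e.symm (Ideal.Quotient.mkₐ ℂ m (Ideal.Quotient.mkₐ ℂ I g)) = 0 := h
      exact (map_eq_zero_iff e.symm e.symm.injective).1 h2
    rw [Ideal.Quotient.mkₐ_eq_mk, Ideal.Quotient.mkₐ_eq_mk, Ideal.Quotient.eq_zero_iff_mem] at h1
    exact hgm h1

/-- generic points of the divisor: a finite set of nonzero rational functions has its generic
order at the point -/
lemma exists_generic (F : Finset K) (hF : ∀ f ∈ F, f ≠ 0) (g : D.A) (hg : ¬ D.t ∣ g) :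
    ∃ y : D.A →ₐ[ℂ] ℂ, y D.t = 0 ∧ y g ≠ 0 ∧ ∀ f ∈ F, ∀ a, D.HasOrd f a → OrdAt y D.t f a := by
  classical
  have h1 : ∀ f : K, ∃ h : D.A, ¬ D.t ∣ h ∧ ∀ y : D.A →ₐ[ℂ] ℂ, f ∈ F → y h ≠ 0 →
      ∀ a, D.HasOrd f a → OrdAt y D.t f a := by
    intro f
    by_cases hf : f ∈ F
    · obtain ⟨a, ha⟩ := D.exists_hasOrd f (hF f hf)
      obtain ⟨u, v, hu, hv, h⟩ := ha
      refine ⟨u * v, D.not_dvd_mul hu hv, fun y _ hy a' ha' => ?_⟩
      have e : a' = a := D.hasOrd_unique ha' ⟨u, v, hu, hv, h⟩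
      subst e
      rw [map_mul] at hy
      exact ⟨u, v, left_ne_zero_of_mul hy, right_ne_zero_of_mul hy, h⟩
    · exact ⟨1, fun h => D.prime.not_isUnit (isUnit_of_dvd_one h), fun y h => absurd h hf⟩
  choose h hh hh' using h1
  have h2 : ¬ D.t ∣ g * ∏ f ∈ F, h f := by
    apply D.not_dvd_mul hg
    intro hd
    obtain ⟨f, _, hf⟩ := (D.t_prime.dvd_finsetProd_iff _).1 hd
    exact hh f hf
  obtain ⟨y, hy0, hy⟩ := D.exists_point _ h2
  rw [map_mul, map_prod] at hy
  refine ⟨y, hy0, left_ne_zero_of_mul hy, fun f hf a ha => ?_⟩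
  exact hh' f y hf (Finset.prod_ne_zero_iff.1 (right_ne_zero_of_mul hy) f hf) a ha

end DivModel

end Crest.Agent.R276.BC_986
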