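import Mathlib
import Crest.Agent.R276.BC0_986

/-!
Row 276, leaf BC (boundary charts at divisorial valuations), part 1: the chart.

Given a divisorial model `D` of `K/ℂ` and a domain `B` of finite type over `ℂ` with fraction field
`K`, a small polydisc `U` around a general point of the divisor `t = 0` minus `{t = 0}` is embedded
into `Hom(B,ℂ)`.
-/

set_option autoImplicit false

open scoped Topology BigOperators
open Set Metric

noncomputable section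

namespace Crest.Agent.R276.BC_986

open Crest.Agent.R271.Defs710 Crest.Agent.R271.Bd741

variable {n : ℕ} {K : Type} [Field K] [Algebra ℂ K]

/-- a boundary chart of `Hom(B,ℂ)` along the divisor of `D`.  `y` is a point of the divisor,
`C` the chart of the model at `y` (coordinates `ζ ↦ w - w(y)`, so `ζ i₀ = t`), and
`s ζ ∈ Hom(B,ℂ)` for `‖ζ‖ < r`, `ζ i₀ ≠ 0`. -/
structure BChart (D : DivModel n K) (B : Type) [CommRing B] [Algebra ℂ B] [Algebra B K] where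
  y : D.A →ₐ[ℂ] ℂ
  C : Chart D.w y
  y_t : y D.t = 0
  r : ℝ
  r_pos : 0 < r
  r_le : r ≤ C.r
  s : Cn n → (B →ₐ[ℂ] ℂ)
  q : D.A
  q_ne : ∀ ζ ∈ ball (0 : Cn n) r, ζ D.i₀ ≠ 0 → C.s ζ q ≠ 0
  q_spec : ∀ b : B, ∃ (M : ℕ) (a : D.A),
    algebraMap B K b * algebraMap D.A K q ^ M = algebraMap D.A K a
  spec : ∀ ζ ∈ ball (0 : Cn n) r, ζ D.i₀ ≠ 0 → ∀ (b : B) (u v : D.A),
    algebraMap B K b * algebraMap D.A K v = algebraMap D.A K u → s ζ b * C.s ζ v = C.s ζ u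
  inj : InjOn s (ball (0 : Cn n) r ∩ {ζ | ζ D.i₀ ≠ 0})

/-- `f = t^a G` near the point, `G` holomorphic without zeros on the whole polydisc.  In fact
`G = u₀ / v₀` with regular functions `u₀`, `v₀` without zeros on the polydisc. -/
structure Good (D : DivModel n K) {B : Type} [CommRing B] [Algebra ℂ B] [Algebra B K]
    (X : BChart D B) (f : K) (a : ℤ) (G : Cn n → ℂ) : Prop where
  wit : ∃ u₀ v₀ : D.A, f * algebraMap D.A K v₀ = algebraMap D.A K D.t ^ a * algebraMap D.A K u₀ ∧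
    ∀ ζ ∈ ball (0 : Cn n) X.r, X.C.s ζ u₀ ≠ 0 ∧ X.C.s ζ v₀ ≠ 0 ∧
      G ζ * X.C.s ζ v₀ = X.C.s ζ u₀

namespace BChart

variable {D : DivModel n K} {B : Type} [CommRing B] [Algebra ℂ B] [Algebra B K]
  (X : BChart D B)

/-- the polydisc -/
def U : Set (Cn n) := ball (0 : Cn n) X.r

/-- the polydisc minus the divisor -/
def V : Set (Cn n) := ball (0 : Cn n) X.r ∩ {ζ | ζ D.i₀ ≠ 0}

lemma mem_V {ζ : Cn n} : ζ ∈ X.V ↔ ζ ∈ ball (0 : Cn n) X.r ∧ ζ D.i₀ ≠ 0 := Iff.rfl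

lemma isOpen_U : IsOpen X.U := isOpen_ball

lemma isOpen_V : IsOpen X.V :=
  isOpen_ball.inter (isOpen_ne_fun (continuous_apply _) continuous_const)

lemma ball_sub : ball (0 : Cn n) X.r ⊆ ball (0 : Cn n) X.C.r := ball_subset_ball X.r_le

lemma s_t {ζ : Cn n} (hζ : ζ ∈ ball (0 : Cn n) X.r) : X.C.s ζ D.t = ζ D.i₀ := by
  have h := X.C.s_z ζ (X.ball_sub hζ) D.i₀
  have h2 : X.y (D.w D.i₀) = 0 := X.y_t
  rw [h2, zero_add] at h
  exact h

lemma s_w {ζ : Cn n} (hζ : ζ ∈ ball (0 : Cn n) X.r) (i : Fin n) :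
    X.C.s ζ (D.w i) = X.y (D.w i) + ζ i := X.C.s_z ζ (X.ball_sub hζ) i

lemma analA (u : D.A) : AnalyticOnNhd ℂ (fun ζ => X.C.s ζ u) (ball (0 : Cn n) X.r) :=
  fun ζ hζ => X.C.anal u ζ (X.ball_sub hζ)

/-- regular functions on `Hom(B,ℂ)` are holomorphic in the chart -/
lemma anal (b : B) : AnalyticOnNhd ℂ (fun ζ => X.s ζ b) X.V := by
  intro ζ hζ
  obtain ⟨M, a, h⟩ := X.q_spec b
  have h1 : (fun ζ => X.s ζ b) =ᶠ[𝓝 ζ] fun ζ => X.C.s ζ a / (X.C.s ζ X.q) ^ M := by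
    filter_upwards [X.isOpen_V.mem_nhds hζ] with ζ' hζ'
    have h2 := X.spec ζ' hζ'.1 hζ'.2 b a (X.q ^ M) (by rw [map_pow]; exact h)
    have h3 : (X.C.s ζ' X.q) ^ M ≠ 0 := pow_ne_zero _ (X.q_ne ζ' hζ'.1 hζ'.2)
    rw [eq_div_iff h3, ← h2, map_pow]
  rw [analyticAt_congr h1]
  exact (X.analA a ζ hζ.1).div ((X.analA X.q ζ hζ.1).pow M)
    (pow_ne_zero _ (X.q_ne ζ hζ.1 hζ.2))

/-- shrink the polydisc -/
def shrink (ρ : ℝ) (hρ : 0 < ρ) (hρr : ρ ≤ X.r) : BChart D B where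
  y := X.y
  C := X.C
  y_t := X.y_t
  r := ρ
  r_pos := hρ
  r_le := hρr.trans X.r_le
  s := X.s
  q := X.q
  q_ne := fun ζ hζ => X.q_ne ζ (ball_subset_ball hρr hζ)
  q_spec := X.q_spec
  spec := fun ζ hζ => X.spec ζ (ball_subset_ball hρr hζ)
  inj := X.inj.mono (inter_subset_inter_left _ (ball_subset_ball hρr))

end BChart

namespace Good

variable {D : DivModel n K} {B : Type} [CommRing B] [Algebra ℂ B] [Algebra B K]
  {X : BChart D B} {f f' : K} {a a' : ℤ} {G G' : Cn n → ℂ}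

lemma eqG (h : Good D X f a G) : ∃ u₀ v₀ : D.A,
    f * algebraMap D.A K v₀ = algebraMap D.A K D.t ^ a * algebraMap D.A K u₀ ∧
    ∀ ζ ∈ ball (0 : Cn n) X.r, X.C.s ζ u₀ ≠ 0 ∧ X.C.s ζ v₀ ≠ 0 ∧
      G ζ = X.C.s ζ u₀ / X.C.s ζ v₀ := by
  obtain ⟨u₀, v₀, h1, h2⟩ := h.wit
  refine ⟨u₀, v₀, h1, fun ζ hζ => ?_⟩
  obtain ⟨h3, h4, h5⟩ := h2 ζ hζ
  exact ⟨h3, h4, by rw [← h5]; field_simp⟩

lemma anal (h : Good D X f a G) : AnalyticOnNhd ℂ G (ball (0 : Cn n) X.r) := by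
  obtain ⟨u₀, v₀, -, h2⟩ := h.eqG
  intro ζ hζ
  have h3 : G =ᶠ[𝓝 ζ] fun ζ => X.C.s ζ u₀ / X.C.s ζ v₀ := by
    filter_upwards [isOpen_ball.mem_nhds hζ] with ζ' hζ'
    exact (h2 ζ' hζ').2.2
  rw [analyticAt_congr h3]
  exact (X.analA u₀ ζ hζ).div (X.analA v₀ ζ hζ) (h2 ζ hζ).2.1

lemma ne (h : Good D X f a G) : ∀ ζ ∈ ball (0 : Cn n) X.r, G ζ ≠ 0 := by
  obtain ⟨u₀, v₀, -, h2⟩ := h.eqG
  intro ζ hζ
  rw [(h2 ζ hζ).2.2]
  exact div_ne_zero (h2 ζ hζ).1 (h2 ζ hζ).2.1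

lemma eqA (h : Good D X f a G) : ∀ ζ ∈ ball (0 : Cn n) X.r, ζ D.i₀ ≠ 0 → ∀ u v : D.A,
    f * algebraMap D.A K v = algebraMap D.A K u →
    X.C.s ζ u = ζ D.i₀ ^ a * G ζ * X.C.s ζ v := by
  obtain ⟨u₀, v₀, h1, h2⟩ := h.eqG
  intro ζ hζ hζ0 u v huv
  obtain ⟨e1, e2, e0⟩ := h2 ζ hζ
  have ht : X.C.s ζ D.t ≠ 0 := by rw [X.s_t hζ]; exact hζ0
  have e3 : algebraMap D.A K u * algebraMap D.A K v₀ =
      algebraMap D.A K D.t ^ a * algebraMap D.A K (u₀ * v) := by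
    rw [← huv, map_mul, ← mul_assoc (algebraMap D.A K D.t ^ a), ← h1]; ring
  have e4 := a_zpow D.inj ht D.tK_ne e3
  rw [map_mul, X.s_t hζ] at e4
  rw [e0]
  field_simp
  linear_combination e4

/-- the order is the valuation of `f` -/
lemma hasOrd (h : Good D X f a G) : D.HasOrd f a := by
  obtain ⟨u₀, v₀, h1, h2⟩ := h.eqG
  have h3 : ∀ u : D.A, X.C.s 0 u ≠ 0 → ¬ D.t ∣ u := by
    rintro u hu ⟨c, rfl⟩
    apply hu
    rw [map_mul, X.s_t (mem_ball_self X.r_pos), Pi.zero_apply, zero_mul]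
  obtain ⟨e1, e2, -⟩ := h2 0 (mem_ball_self X.r_pos)
  exact ⟨u₀, v₀, h3 u₀ e1, h3 v₀ e2, h1⟩

/-- quotients of regular functions -/
lemma eq₂ (h : Good D X f a G) {ζ : Cn n} (hζ : ζ ∈ X.V) (b₁ b₂ : B)
    (hf : f * algebraMap B K b₂ = algebraMap B K b₁) :
    X.s ζ b₁ = ζ D.i₀ ^ a * G ζ * X.s ζ b₂ := by
  obtain ⟨M₁, a₁, h₁⟩ := X.q_spec b₁
  obtain ⟨M₂, a₂, h₂⟩ := X.q_spec b₂
  have e1 := X.spec ζ hζ.1 hζ.2 b₁ (a₁ * X.q ^ M₂) (X.q ^ (M₁ + M₂)) (by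
    rw [map_mul, map_pow, map_pow, pow_add, ← h₁]; ring)
  have e2 := X.spec ζ hζ.1 hζ.2 b₂ (a₂ * X.q ^ M₁) (X.q ^ (M₁ + M₂)) (by
    rw [map_mul, map_pow, map_pow, pow_add, ← h₂]; ring)
  have e3 := h.eqA ζ hζ.1 hζ.2 (a₁ * X.q ^ M₂) (a₂ * X.q ^ M₁) (by
    rw [map_mul, map_mul, map_pow, map_pow, ← h₁, ← h₂, ← hf]; ring)
  have h3 : X.C.s ζ (X.q ^ (M₁ + M₂)) ≠ 0 := by
    rw [map_pow]; exact pow_ne_zero _ (X.q_ne ζ hζ.1 hζ.2)
  apply mul_right_cancel₀ h3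
  rw [e1, e3, ← e2]; ring

/-- the value of a regular function -/
lemma eq₁ (h : Good D X f a G) {ζ : Cn n} (hζ : ζ ∈ X.V) (b : B) (hf : algebraMap B K b = f) :
    X.s ζ b = ζ D.i₀ ^ a * G ζ := by
  have := h.eq₂ hζ b 1 (by rw [map_one, mul_one, hf])
  rwa [map_one, mul_one] at this

lemma shrink (h : Good D X f a G) (ρ : ℝ) (hρ : 0 < ρ) (hρr : ρ ≤ X.r) :
    Good D (X.shrink ρ hρ hρr) f a G := by
  obtain ⟨u₀, v₀, h1, h2⟩ := h.wit
  exact ⟨u₀, v₀, h1, fun ζ hζ => h2 ζ (ball_subset_ball hρr hζ)⟩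

end Good

section exist

variable (D : DivModel n K) {B : Type} [CommRing B] [IsDomain B] [Algebra ℂ B]
  [Algebra B K] [IsScalarTower ℂ B K] [IsFractionRing B K]

/-- finitely many rational functions are good at a point where they have their order -/
lemma eventually_good {y : D.A →ₐ[ℂ] ℂ} (C : Chart D.w y) {f : K} {a : ℤ}
    (hf : OrdAt y D.t f a) :
    ∃ G : Cn n → ℂ, ∃ ρ : ℝ, 0 < ρ ∧ ρ ≤ C.r ∧ ∃ u₀ v₀ : D.A,
      f * algebraMap D.A K v₀ = algebraMap D.A K D.t ^ a * algebraMap D.A K u₀ ∧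
      ∀ ζ ∈ ball (0 : Cn n) ρ, C.s ζ u₀ ≠ 0 ∧ C.s ζ v₀ ≠ 0 ∧ G ζ * C.s ζ v₀ = C.s ζ u₀ := by
  obtain ⟨u₀, v₀, hu₀, hv₀, h⟩ := hf
  have hcont : ∀ f : D.A, ContinuousAt (fun ζ => C.s ζ f) 0 := fun f =>
    (C.anal f 0 (mem_ball_self C.r_pos)).continuousAt
  have hs0 : ∀ f, C.s 0 f = y f := by rw [C.s_zero]; exact fun _ => rfl
  have h1 : ∀ᶠ ζ in 𝓝 (0 : Cn n), C.s ζ u₀ ≠ 0 :=
    (hcont u₀).eventually_ne (by simp only [hs0]; exact hu₀)
  have h2 : ∀ᶠ ζ in 𝓝 (0 : Cn n), C.s ζ v₀ ≠ 0 :=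
    (hcont v₀).eventually_ne (by simp only [hs0]; exact hv₀)
  obtain ⟨ρ, hρ, h3⟩ := Metric.eventually_nhds_iff_ball.1 (h1.and h2)
  refine ⟨fun ζ => C.s ζ u₀ / C.s ζ v₀, min ρ C.r, lt_min hρ C.r_pos, min_le_right _ _,
    u₀, v₀, h, ?_⟩
  intro ζ hζ
  obtain ⟨e1, e2⟩ := h3 ζ (ball_subset_ball (min_le_left _ _) hζ)
  exact ⟨e1, e2, by field_simp⟩

/-- **Existence of boundary charts** (BC1).  `F` is a finite set of nonzero elements of `K`,
`g` a function on the model which does not vanish on the divisor, `ε` arbitrary. -/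
theorem exists_bchart (hB : Algebra.FiniteType ℂ B) (F : Finset K) (hF : ∀ f ∈ F, f ≠ 0)
    (g : D.A) (hg : ¬ D.t ∣ g) (ε : ℝ) (hε : 0 < ε) :
    ∃ X : BChart D B, X.r ≤ ε ∧ (∀ ζ ∈ ball (0 : Cn n) X.r, X.C.s ζ g ≠ 0) ∧
      ∀ f ∈ F, ∃ (a : ℤ) (G : Cn n → ℂ), D.HasOrd f a ∧ Good D X f a G := by
  classical
  have hinjA := D.inj
  have hinjB : Function.Injective (algebraMap B K) := IsFractionRing.injective B K
  obtain ⟨q, hq0, hq⟩ := exists_denom (A := D.A) (B := B) K hB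
  have hqK : algebraMap D.A K q ≠ 0 := fun h => hq0 (hinjA (by rw [h, map_zero]))
  -- `w` in terms of `B`
  obtain ⟨⟨b0, hb0⟩, hb0'⟩ := IsLocalization.exist_integer_multiples_of_finite (nonZeroDivisors B)
    (fun i => algebraMap D.A K (D.w i))
  have hb00 : b0 ≠ 0 := nonZeroDivisors.ne_zero hb0
  have hcw : ∀ i, ∃ cw : B, algebraMap B K cw =
      algebraMap B K b0 * algebraMap D.A K (D.w i) := by
    intro i
    obtain ⟨cw, hcw⟩ := hb0' i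
    refine ⟨cw, ?_⟩
    rw [hcw, Algebra.smul_def]
  choose cw hcw using hcw
  obtain ⟨M0, u0, hu0⟩ := hq b0
  have hb0K : algebraMap B K b0 ≠ 0 := fun h => hb00 (hinjB (by rw [h, map_zero]))
  -- the generic point
  obtain ⟨y, hyt, hyg, hy⟩ := D.exists_generic (insert (algebraMap D.A K q)
    (insert (algebraMap B K b0) F)) (by
      intro f hf
      rcases Finset.mem_insert.1 hf with rfl | hf
      · exact hqK
      · rcases Finset.mem_insert.1 hf with rfl | hf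
        · exact hb0K
        · exact hF f hf) g hg
  obtain ⟨C⟩ := Crest.Agent.R271.Rd692.nonempty_chart D.w D.etale y
  have hcont : ∀ f : D.A, ContinuousAt (fun ζ => C.s ζ f) 0 := fun f =>
    (C.anal f 0 (mem_ball_self C.r_pos)).continuousAt
  have hs0 : ∀ f, C.s 0 f = y f := by rw [C.s_zero]; exact fun _ => rfl
  -- the elements of `insert q (insert b0 F)` are good on a common polydisc
  have hgood : ∀ f ∈ insert (algebraMap D.A K q) (insert (algebraMap B K b0) F),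
      ∃ (a : ℤ) (G : Cn n → ℂ) (ρ : ℝ), D.HasOrd f a ∧ 0 < ρ ∧ ρ ≤ C.r ∧
      ∃ u₀ v₀ : D.A, f * algebraMap D.A K v₀ = algebraMap D.A K D.t ^ a * algebraMap D.A K u₀ ∧
      ∀ ζ ∈ ball (0 : Cn n) ρ, C.s ζ u₀ ≠ 0 ∧ C.s ζ v₀ ≠ 0 ∧ G ζ * C.s ζ v₀ = C.s ζ u₀ := by
    intro f hf
    have hf0 : f ≠ 0 := by
      rcases Finset.mem_insert.1 hf with rfl | hf
      · exact hqK
      · rcases Finset.mem_insert.1 hf with rfl | hf
        · exact hb0K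
        · exact hF f hf
    obtain ⟨a, ha⟩ := D.exists_hasOrd f hf0
    obtain ⟨G, ρ, h1, h2, h3⟩ := eventually_good D C (hy f hf a ha)
    exact ⟨a, G, ρ, ha, h1, h2, h3⟩
  choose! aa GG ρρ hord hρ0 hρC uu vv huv hGeq using hgood
  obtain ⟨ρg, hρg, hρg'⟩ : ∃ ρ > 0, ∀ ζ ∈ ball (0 : Cn n) ρ, C.s ζ g ≠ 0 := by
    have h1 : ∀ᶠ ζ in 𝓝 (0 : Cn n), C.s ζ g ≠ 0 :=
      (hcont g).eventually_ne (by simp only [hs0]; exact hyg)
    exact Metric.eventually_nhds_iff_ball.1 h1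
  obtain ⟨r, hr0, hrε, hrg, hrC, hrρ⟩ : ∃ r : ℝ, 0 < r ∧ r ≤ ε ∧ r ≤ ρg ∧ r ≤ C.r ∧
      ∀ f ∈ insert (algebraMap D.A K q) (insert (algebraMap B K b0) F), r ≤ ρρ f := by
    have hne : (insert (algebraMap D.A K q) (insert (algebraMap B K b0) F)).Nonempty :=
      Finset.insert_nonempty _ _
    set r1 := (insert (algebraMap D.A K q) (insert (algebraMap B K b0) F)).inf' hne ρρ with hr1
    have h1 : 0 < r1 := by
      rw [hr1, Finset.lt_inf'_iff]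
      exact hρ0
    refine ⟨min (min ε ρg) (min C.r r1), lt_min (lt_min hε hρg) (lt_min C.r_pos h1),
      (min_le_left _ _).trans (min_le_left _ _), (min_le_left _ _).trans (min_le_right _ _),
      (min_le_right _ _).trans (min_le_left _ _), fun f hf => ?_⟩
    exact ((min_le_right _ _).trans (min_le_right _ _)).trans (Finset.inf'_le _ hf)
  have hst : ∀ ζ ∈ ball (0 : Cn n) r, C.s ζ D.t = ζ D.i₀ := by
    intro ζ hζ
    have h := C.s_z ζ (ball_subset_ball hrC hζ) D.i₀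
    have h2 : y (D.w D.i₀) = 0 := hyt
    rw [h2, zero_add] at h
    exact h
  -- every element of `A` which is in the list has no zeros off `t = 0`
  have hGA : ∀ u : D.A, algebraMap D.A K u ∈ insert (algebraMap D.A K q)
      (insert (algebraMap B K b0) F) → ∀ ζ ∈ ball (0 : Cn n) r, ζ D.i₀ ≠ 0 → C.s ζ u ≠ 0 := by
    intro u hu ζ hζ hζ0
    obtain ⟨h1, h2, -⟩ := hGeq _ hu ζ (ball_subset_ball (hrρ _ hu) hζ)
    have h3 := a_zpow D.inj (by rw [hst ζ hζ]; exact hζ0) D.tK_ne (huv _ hu)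
    rw [hst ζ hζ] at h3
    intro h0
    rw [h0, zero_mul] at h3
    exact (mul_ne_zero (zpow_ne_zero _ hζ0) h1) h3.symm
  have hqne : ∀ ζ ∈ ball (0 : Cn n) r, ζ D.i₀ ≠ 0 → C.s ζ q ≠ 0 :=
    hGA q (Finset.mem_insert_self _ _)
  -- the section
  have hex : ∀ ζ : Cn n, ∃ p : B →ₐ[ℂ] ℂ, ζ ∈ ball (0 : Cn n) r → ζ D.i₀ ≠ 0 →
      ∀ (b : B) (u v : D.A), algebraMap B K b * algebraMap D.A K v = algebraMap D.A K u →
      p b * C.s ζ v = C.s ζ u := by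
    intro ζ
    by_cases h : ζ ∈ ball (0 : Cn n) r ∧ ζ D.i₀ ≠ 0
    · obtain ⟨p, hp⟩ := exists_pt hinjA q hq (C.s ζ) (hqne ζ h.1 h.2)
      exact ⟨p, fun _ _ => hp⟩
    · by_cases hne : ∃ ζ' : Cn n, ζ' ∈ ball (0 : Cn n) r ∧ ζ' D.i₀ ≠ 0
      · obtain ⟨ζ', h1, h2⟩ := hne
        obtain ⟨p, hp⟩ := exists_pt hinjA q hq (C.s ζ') (hqne ζ' h1 h2)
        exact ⟨p, fun h1 h2 => absurd ⟨h1, h2⟩ h⟩
      · exfalso
        apply hne
        refine ⟨Pi.single D.i₀ (r / 2 : ℝ), ?_, ?_⟩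
        · rw [mem_ball_zero_iff, Pi.norm_single]
          simp only [Complex.norm_real, Real.norm_eq_abs]
          rw [abs_of_pos (by positivity)]
          linarith
        · rw [Pi.single_eq_same]
          simp [hr0.ne']
  choose s' hs' using hex
  -- injectivity
  have hinj : InjOn s' (ball (0 : Cn n) r ∩ {ζ | ζ D.i₀ ≠ 0}) := by
    intro ζ hζ ζ' hζ' heq
    have key : ∀ ζ ∈ ball (0 : Cn n) r ∩ {ζ : Cn n | ζ D.i₀ ≠ 0},
        s' ζ b0 ≠ 0 ∧ ∀ i, s' ζ (cw i) = s' ζ b0 * C.s ζ (D.w i) := by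
      intro ζ hζ
      have h2 := hqne ζ hζ.1 hζ.2
      have e1 := hs' ζ hζ.1 hζ.2 b0 u0 (q ^ M0) (by rw [map_pow]; exact hu0)
      have hb : s' ζ b0 ≠ 0 := by
        intro h
        rw [h, zero_mul] at e1
        have hmem : algebraMap B K b0 ∈ insert (algebraMap D.A K q)
          (insert (algebraMap B K b0) F) :=
          Finset.mem_insert_of_mem (Finset.mem_insert_self _ _)
        obtain ⟨g1, g2, -⟩ := hGeq _ hmem ζ (ball_subset_ball (hrρ _ hmem) hζ.1)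
        have h3 : algebraMap D.A K u0 * algebraMap D.A K (vv (algebraMap B K b0)) =
            algebraMap D.A K D.t ^ aa (algebraMap B K b0) *
              algebraMap D.A K (uu (algebraMap B K b0) * q ^ M0) := by
          rw [map_mul, ← mul_assoc, ← huv _ hmem, ← hu0, map_pow]; ring
        have h4 := a_zpow D.inj (by rw [hst ζ hζ.1]; exact hζ.2) D.tK_ne h3
        rw [← e1, zero_mul, map_mul, map_pow] at h4
        refine absurd h4.symm (mul_ne_zero (zpow_ne_zero _ ?_) (mul_ne_zero g1 (pow_ne_zero _ h2)))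
        rw [hst ζ hζ.1]; exact hζ.2
      refine ⟨hb, fun i => ?_⟩
      have e2 := hs' ζ hζ.1 hζ.2 (cw i) (u0 * D.w i) (q ^ M0) (by
        rw [hcw, map_pow, map_mul, ← hu0]; ring)
      rw [map_mul, ← e1, map_pow] at e2
      have hqp : (C.s ζ q) ^ M0 ≠ 0 := pow_ne_zero _ h2
      have : s' ζ (cw i) * (C.s ζ q) ^ M0 =
          (s' ζ b0 * C.s ζ (D.w i)) * (C.s ζ q) ^ M0 := by
        rw [e2]; ring
      exact mul_right_cancel₀ hqp this
    obtain ⟨k1, k2⟩ := key ζ hζ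
    obtain ⟨k1', k2'⟩ := key ζ' hζ'
    funext i
    have e1 := k2 i
    have e2 := k2' i
    rw [← heq, e1] at e2
    have e3 := mul_left_cancel₀ k1 e2
    rw [C.s_z ζ (ball_subset_ball hrC hζ.1) i, C.s_z ζ' (ball_subset_ball hrC hζ'.1) i] at e3
    exact add_left_cancel e3
  let X : BChart D B :=
    { y := y, C := C, y_t := hyt, r := r, r_pos := hr0, r_le := hrC, s := s', q := q,
      q_ne := hqne, q_spec := hq, spec := hs', inj := hinj }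
  refine ⟨X, hrε, fun ζ hζ => hρg' ζ (ball_subset_ball hrg hζ), fun f hf => ?_⟩
  have hf' : f ∈ insert (algebraMap D.A K q) (insert (algebraMap B K b0) F) :=
    Finset.mem_insert_of_mem (Finset.mem_insert_of_mem hf)
  exact ⟨aa f, GG f, hord f hf', ⟨uu f, vv f, huv f hf', fun ζ hζ =>
    hGeq f hf' ζ (ball_subset_ball (hrρ f hf') hζ)⟩⟩

end exist

end Crest.Agent.R276.BC_986
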