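import Mathlib
import Crest.Agent.R276.BC1_986
import Crest.Agent.R271.Fr_960
import Crest.Agent.R271.Rd6_692

/-!
Row 276, leaf BC (boundary charts at divisorial valuations), part 2: values of rational functions,
derivatives and the Jacobian of a boundary chart.
-/

set_option autoImplicit false

open scoped Topology BigOperators
open Set Metric

noncomputable section

namespace Crest.Agent.R276.BC_986

open Crest.Agent.R271.Defs710 Crest.Agent.R271.Bd741

section isval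

variable {A K : Type} [CommRing A] [Algebra ℂ A] [Field K] [Algebra A K]

/-- `c` is the value at the point `p ∈ Hom(A,ℂ)` of the rational function `f`, which is regular
at `p` -/
def IsVal (p : A →ₐ[ℂ] ℂ) (f : K) (c : ℂ) : Prop :=
  ∃ u v : A, p v ≠ 0 ∧ f * algebraMap A K v = algebraMap A K u ∧ c * p v = p u

variable {p : A →ₐ[ℂ] ℂ} {f g : K} {c d : ℂ}

lemma IsVal.eq_of (hinj : Function.Injective (algebraMap A K)) (h : IsVal p f c) (u v : A)
    (huv : f * algebraMap A K v = algebraMap A K u) : c * p v = p u := by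
  obtain ⟨u', v', h1, h2, h3⟩ := h
  have h4 : u * v' = u' * v := hinj (by rw [map_mul, map_mul, ← huv, ← h2]; ring)
  have h5 : p u * p v' = p u' * p v := by rw [← map_mul, h4, map_mul]
  apply mul_right_cancel₀ h1
  rw [h5, ← h3]; ring

lemma IsVal.unique (hinj : Function.Injective (algebraMap A K)) (h : IsVal p f c)
    (h' : IsVal p f d) : c = d := by
  obtain ⟨u', v', h1, h2, h3⟩ := h'
  have h4 := h.eq_of hinj u' v' h2
  exact mul_right_cancel₀ h1 (h4.trans h3.symm)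

lemma isVal_algebraMap (u : A) : IsVal (K := K) p (algebraMap A K u) (p u) :=
  ⟨u, 1, by simp, by simp, by simp⟩

lemma isVal_zero : IsVal (K := K) p 0 0 := by
  simpa using isVal_algebraMap (K := K) (p := p) 0

lemma isVal_one : IsVal (K := K) p 1 1 := by
  simpa using isVal_algebraMap (K := K) (p := p) 1

lemma isVal_intCast (m : ℤ) : IsVal (K := K) p (m : K) (m : ℂ) := by
  simpa using isVal_algebraMap (K := K) (p := p) (m : A)

lemma IsVal.add (hf : IsVal p f c) (hg : IsVal p g d) : IsVal p (f + g) (c + d) := by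
  obtain ⟨u, v, h1, h2, h3⟩ := hf
  obtain ⟨u', v', h1', h2', h3'⟩ := hg
  refine ⟨u * v' + u' * v, v * v', ?_, ?_, ?_⟩
  · rw [map_mul]; exact mul_ne_zero h1 h1'
  · rw [map_add, map_mul, map_mul, map_mul, ← h2, ← h2']; ring
  · rw [map_add, map_mul, map_mul, map_mul, ← h3, ← h3']; ring

lemma IsVal.mul (hf : IsVal p f c) (hg : IsVal p g d) : IsVal p (f * g) (c * d) := by
  obtain ⟨u, v, h1, h2, h3⟩ := hf
  obtain ⟨u', v', h1', h2', h3'⟩ := hg
  refine ⟨u * u', v * v', ?_, ?_, ?_⟩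
  · rw [map_mul]; exact mul_ne_zero h1 h1'
  · rw [map_mul, map_mul, ← h2, ← h2']; ring
  · rw [map_mul, map_mul, ← h3, ← h3']; ring

lemma IsVal.neg (hf : IsVal p f c) : IsVal p (-f) (-c) := by
  obtain ⟨u, v, h1, h2, h3⟩ := hf
  exact ⟨-u, v, h1, by rw [map_neg, ← h2]; ring, by rw [map_neg, ← h3]; ring⟩

lemma IsVal.sub (hf : IsVal p f c) (hg : IsVal p g d) : IsVal p (f - g) (c - d) := by
  rw [sub_eq_add_neg, sub_eq_add_neg]
  exact hf.add hg.neg

lemma IsVal.pow (hf : IsVal p f c) (k : ℕ) : IsVal p (f ^ k) (c ^ k) := by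
  induction k with
  | zero => simpa using isVal_one
  | succ k ih => rw [pow_succ, pow_succ]; exact ih.mul hf

lemma IsVal.inv (hinj : Function.Injective (algebraMap A K)) (hf : IsVal p f c) (hc : c ≠ 0) :
    IsVal p f⁻¹ c⁻¹ := by
  obtain ⟨u, v, h1, h2, h3⟩ := hf
  have hu : p u ≠ 0 := by rw [← h3]; exact mul_ne_zero hc h1
  have hu0 : algebraMap A K u ≠ 0 := by
    intro h
    have : u = 0 := hinj (by rw [h, map_zero])
    rw [this, map_zero] at hu
    exact hu rfl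
  have hf0 : f ≠ 0 := by
    rintro rfl
    rw [zero_mul] at h2
    exact hu0 h2.symm
  refine ⟨v, u, hu, ?_, ?_⟩
  · rw [← h2]; field_simp
  · rw [← h3]; field_simp

lemma IsVal.sum {ι : Type*} (s : Finset ι) {f : ι → K} {c : ι → ℂ}
    (h : ∀ i ∈ s, IsVal p (f i) (c i)) : IsVal p (∑ i ∈ s, f i) (∑ i ∈ s, c i) := by
  classical
  induction s using Finset.induction_on with
  | empty => simpa using isVal_zero
  | insert a s ha ih =>
    rw [Finset.sum_insert ha, Finset.sum_insert ha]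
    exact (h a (by simp)).add (ih fun i hi => h i (by simp [hi]))

lemma IsVal.prod {ι : Type*} (s : Finset ι) {f : ι → K} {c : ι → ℂ}
    (h : ∀ i ∈ s, IsVal p (f i) (c i)) : IsVal p (∏ i ∈ s, f i) (∏ i ∈ s, c i) := by
  classical
  induction s using Finset.induction_on with
  | empty => simpa using isVal_one
  | insert a s ha ih =>
    rw [Finset.prod_insert ha, Finset.prod_insert ha]
    exact (h a (by simp)).mul (ih fun i hi => h i (by simp [hi]))

lemma IsVal.det {m : Type*} [Fintype m] [DecidableEq m] {M : Matrix m m K} {N : Matrix m m ℂ}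
    (h : ∀ i j, IsVal p (M i j) (N i j)) : IsVal p M.det N.det := by
  rw [Matrix.det_apply', Matrix.det_apply']
  exact IsVal.sum _ fun σ _ => (isVal_intCast _).mul (IsVal.prod _ fun i _ => h _ _)

end isval

variable {n : ℕ} {K : Type} [Field K] [Algebra ℂ K]

section deriv

lemma DivModel.exists_basis (D : DivModel n K) : ∃ b : Module.Basis (Fin n) K (Ω[K⁄ℂ]),
    ∀ j, b j = KaehlerDifferential.D ℂ K (algebraMap D.A K (D.w j)) := by
  have h1 := (Crest.Agent.R271.Bs960.ECoord.fe (w := D.w) D.etale)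
  have h2 := h1.loc (S := D.A) (T := K) (nonZeroDivisors D.A)
  exact Crest.Agent.R271.Bs960.exists_basis_of_formallyEtale _ h2

/-- the basis `dw` of `Ω[K/ℂ]` -/
def DivModel.dw (D : DivModel n K) : Module.Basis (Fin n) K (Ω[K⁄ℂ]) := D.exists_basis.choose

lemma DivModel.dw_apply (D : DivModel n K) (j : Fin n) :
    D.dw j = KaehlerDifferential.D ℂ K (algebraMap D.A K (D.w j)) := D.exists_basis.choose_spec j

variable {D : DivModel n K}

/-- derivatives of functions which are values of a rational function -/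
theorem isVal_fderiv {y : D.A →ₐ[ℂ] ℂ} (C : Chart D.w y) {f : K} {g : Cn n → ℂ} {ζ : Cn n}
    (hζ : ζ ∈ ball (0 : Cn n) C.r) (h : ∀ᶠ ζ' in 𝓝 ζ, IsVal (C.s ζ') f (g ζ')) :
    AnalyticAt ℂ g ζ ∧ ∀ j, IsVal (C.s ζ) (D.dw.repr (KaehlerDifferential.D ℂ K f) j)
      (fderiv ℂ g ζ (Pi.single j 1)) := by
  obtain ⟨Δ, hΔ⟩ := exists_coord_deriv D.w D.etale
  obtain ⟨u, v, h1, h2, h3⟩ := h.self_of_nhds
  have hv : ∀ᶠ ζ' in 𝓝 ζ, C.s ζ' v ≠ 0 := (C.anal v ζ hζ).continuousAt.eventually_ne h1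
  have hgu : (fun ζ' => C.s ζ' u) =ᶠ[𝓝 ζ] fun ζ' => g ζ' * C.s ζ' v := by
    filter_upwards [h] with ζ' hζ'
    exact (hζ'.eq_of D.inj u v h2).symm
  have hg : g =ᶠ[𝓝 ζ] fun ζ' => C.s ζ' u / C.s ζ' v := by
    filter_upwards [hgu, hv] with ζ' e1 e2
    rw [e1]; field_simp
  have hga : AnalyticAt ℂ g ζ := by
    rw [analyticAt_congr hg]
    exact (C.anal u ζ hζ).div (C.anal v ζ hζ) h1
  refine ⟨hga, fun j => ?_⟩
  have hvK : algebraMap D.A K v ≠ 0 := by
    intro h0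
    have : v = 0 := D.inj (by rw [h0, map_zero])
    rw [this, map_zero] at h1
    exact h1 rfl
  have hrep : ∀ a : D.A, D.dw.repr (KaehlerDifferential.D ℂ K (algebraMap D.A K a)) j =
      algebraMap D.A K (Δ j a) := by
    intro a
    rw [D_K (K := K) D.w D.etale Δ hΔ a]
    have : ∑ j, algebraMap D.A K (Δ j a) • KaehlerDifferential.D ℂ K (algebraMap D.A K (D.w j)) =
      ∑ j, algebraMap D.A K (Δ j a) • D.dw j := by
      refine Finset.sum_congr rfl fun i _ => ?_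
      rw [D.dw_apply]
    rw [this, Module.Basis.repr_sum_self]
  -- the algebraic derivative
  have e1 : D.dw.repr (KaehlerDifferential.D ℂ K f) j * algebraMap D.A K v ^ 2 =
      algebraMap D.A K (v * Δ j u - u * Δ j v) := by
    have e2 := congrArg (KaehlerDifferential.D ℂ K) h2
    rw [Derivation.leibniz] at e2
    have e3 := congrArg (fun x => D.dw.repr x j) e2
    simp only [map_add, map_smul, Finsupp.add_apply, Finsupp.smul_apply, smul_eq_mul, hrep] at e3
    rw [map_sub, map_mul, map_mul, ← e3, ← h2]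
    ring
  -- the analytic derivative
  have d1 := chart_deriv D.w D.etale Δ hΔ C ζ hζ j u
  have d2 := chart_deriv D.w D.etale Δ hΔ C ζ hζ j v
  rw [hgu.fderiv_eq, fderiv_fun_mul hga.differentiableAt (C.anal v ζ hζ).differentiableAt] at d1
  simp only [_root_.add_apply, _root_.smul_apply, smul_eq_mul, d2] at d1
  refine ⟨v * Δ j u - u * Δ j v, v ^ 2, ?_, ?_, ?_⟩
  · rw [map_pow]; exact pow_ne_zero _ h1
  · rw [map_pow]; exact e1
  · rw [map_pow, map_sub, map_mul, map_mul, ← d1, ← h3]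
    ring

end deriv

namespace BChart

variable {D : DivModel n K} {B : Type} [CommRing B] [Algebra ℂ B] [Algebra B K]
  (X : BChart D B)

lemma isVal_s {ζ : Cn n} (hζ : ζ ∈ X.V) (b : B) :
    IsVal (X.C.s ζ) (algebraMap B K b) (X.s ζ b) := by
  obtain ⟨M, a, h⟩ := X.q_spec b
  refine ⟨a, X.q ^ M, ?_, by rw [map_pow]; exact h, ?_⟩
  · rw [map_pow]; exact pow_ne_zero _ (X.q_ne ζ hζ.1 hζ.2)
  · exact X.spec ζ hζ.1 hζ.2 b a (X.q ^ M) (by rw [map_pow]; exact h)

lemma isVal_good {f : K} {a : ℤ} {G : Cn n → ℂ} (hf : Good D X f a G) {ζ : Cn n} (hζ : ζ ∈ X.V) :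
    IsVal (X.C.s ζ) f (ζ D.i₀ ^ a * G ζ) := by
  obtain ⟨u₀, v₀, h1, h2⟩ := hf.wit
  obtain ⟨e1, e2, e3⟩ := h2 ζ hζ.1
  have ht : X.C.s ζ D.t = ζ D.i₀ := X.s_t hζ.1
  have ht0 : ζ D.i₀ ≠ 0 := hζ.2
  obtain ⟨N, hN | hN⟩ := Int.eq_nat_or_neg a
  · refine ⟨D.t ^ N * u₀, v₀, e2, ?_, ?_⟩
    · rw [h1, hN, zpow_natCast, map_mul, map_pow]
    · rw [map_mul, map_pow, ht, ← e3, hN, zpow_natCast]; ring
  · refine ⟨u₀, D.t ^ N * v₀, ?_, ?_, ?_⟩
    · rw [map_mul, map_pow, ht]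
      exact mul_ne_zero (pow_ne_zero _ ht0) e2
    · have htK := D.tK_ne
      rw [map_mul, map_pow]
      calc f * (algebraMap D.A K D.t ^ N * algebraMap D.A K v₀)
          = algebraMap D.A K D.t ^ N * (f * algebraMap D.A K v₀) := by ring
        _ = algebraMap D.A K u₀ := by
          rw [h1, hN, zpow_neg, zpow_natCast]; field_simp
    · rw [map_mul, map_pow, ht, ← e3, hN, zpow_neg, zpow_natCast]
      field_simp

/-- at every point of the polydisc if the order is `≥ 0` -/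
lemma isVal_good' {f : K} {a : ℕ} {G : Cn n → ℂ} (hf : Good D X f a G) {ζ : Cn n}
    (hζ : ζ ∈ ball (0 : Cn n) X.r) : IsVal (X.C.s ζ) f (ζ D.i₀ ^ a * G ζ) := by
  obtain ⟨u₀, v₀, h1, h2⟩ := hf.wit
  obtain ⟨e1, e2, e3⟩ := h2 ζ hζ
  have ht : X.C.s ζ D.t = ζ D.i₀ := X.s_t hζ
  refine ⟨D.t ^ a * u₀, v₀, e2, ?_, ?_⟩
  · rw [h1, zpow_natCast, map_mul, map_pow]
  · rw [map_mul, map_pow, ht, ← e3]; ring

/-- derivatives of the regular functions of `B` in the chart -/
lemma isVal_fderiv_s {ζ : Cn n} (hζ : ζ ∈ X.V) (b : B) (j : Fin n) :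
    IsVal (X.C.s ζ) (D.dw.repr (KaehlerDifferential.D ℂ K (algebraMap B K b)) j)
      (fderiv ℂ (fun ζ => X.s ζ b) ζ (Pi.single j 1)) := by
  refine (isVal_fderiv X.C (X.ball_sub hζ.1) ?_).2 j
  filter_upwards [X.isOpen_V.mem_nhds hζ] with ζ' hζ'
  exact X.isVal_s hζ' b

/-- the chart followed by the coordinates of `Hom(B,ℂ)` -/
def ψ (z : Fin n → B) (ζ : Cn n) : Cn n := fun i => X.s ζ (z i)

lemma analyticAt_ψ (z : Fin n → B) {ζ : Cn n} (hζ : ζ ∈ X.V) : AnalyticAt ℂ (X.ψ z) ζ :=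
  analyticAt_pi_iff.2 fun i => X.anal (z i) ζ hζ

lemma hasStrictFDerivAt_ψ (z : Fin n → B) {ζ : Cn n} (hζ : ζ ∈ X.V) :
    HasStrictFDerivAt (X.ψ z) (fderiv ℂ (X.ψ z) ζ) ζ := (X.analyticAt_ψ z hζ).hasStrictFDerivAt

lemma fderiv_ψ_apply (z : Fin n → B) {ζ : Cn n} (hζ : ζ ∈ X.V) (v : Cn n) (i : Fin n) :
    fderiv ℂ (X.ψ z) ζ v i = fderiv ℂ (fun ζ => X.s ζ (z i)) ζ v := by
  have h1 : HasFDerivAt (X.ψ z) (fderiv ℂ (X.ψ z) ζ) ζ :=
    (X.analyticAt_ψ z hζ).differentiableAt.hasFDerivAt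
  have h2 := (hasFDerivAt_pi'.1 h1) i
  have h3 := h2.fderiv
  have h4 : (fun x => X.ψ z x i) = fun ζ => X.s ζ (z i) := rfl
  rw [h4] at h3
  rw [h3]
  rfl

/-- **the Jacobian of the chart** is the value of the change of bases of differential forms -/
theorem isVal_det (z : Fin n → B) (b : Fin n → Ω[K⁄ℂ])
    (hb : ∀ j, b j = KaehlerDifferential.D ℂ K (algebraMap B K (z j))) {ζ : Cn n} (hζ : ζ ∈ X.V) :
    IsVal (X.C.s ζ) (D.dw.toMatrix b).det (fderiv ℂ (X.ψ z) ζ).det := by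
  have e1 : (fderiv ℂ (X.ψ z) ζ).det =
      (LinearMap.toMatrix' (fderiv ℂ (X.ψ z) ζ : Cn n →ₗ[ℂ] Cn n)).transpose.det := by
    rw [Matrix.det_transpose, ContinuousLinearMap.det, ← LinearMap.det_toMatrix']
  rw [e1]
  apply IsVal.det
  intro j i
  rw [Module.Basis.toMatrix_apply, hb, Matrix.transpose_apply, LinearMap.toMatrix'_apply]
  have h := X.isVal_fderiv_s hζ (z i) j
  rw [← X.fderiv_ψ_apply z hζ] at h
  simpa using h

/-- the Jacobian as `t^c` times a unit -/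
theorem det_eq (z : Fin n → B) (b : Fin n → Ω[K⁄ℂ])
    (hb : ∀ j, b j = KaehlerDifferential.D ℂ K (algebraMap B K (z j))) {c : ℤ} {G : Cn n → ℂ}
    (hG : Good D X (D.dw.toMatrix b).det c G) {ζ : Cn n} (hζ : ζ ∈ X.V) :
    (fderiv ℂ (X.ψ z) ζ).det = ζ D.i₀ ^ c * G ζ :=
  (X.isVal_det z b hb hζ).unique D.inj (X.isVal_good hG hζ)

theorem det_ne (z : Fin n → B) (b : Fin n → Ω[K⁄ℂ])
    (hb : ∀ j, b j = KaehlerDifferential.D ℂ K (algebraMap B K (z j))) {c : ℤ} {G : Cn n → ℂ}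
    (hG : Good D X (D.dw.toMatrix b).det c G) {ζ : Cn n} (hζ : ζ ∈ X.V) :
    (fderiv ℂ (X.ψ z) ζ).det ≠ 0 := by
  rw [X.det_eq z b hb hG hζ]
  exact mul_ne_zero (zpow_ne_zero _ hζ.2) (hG.ne ζ hζ.1)

end BChart

end Crest.Agent.R276.BC_986
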