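import Mathlib
import Crest.Agent.R276.FKDefs_779

/-!
# Row 276, route BETA (posts 1207, 1263): the field-level target of the geometers (helper231)

`Honest k K` : regularity of pluricanonical forms at the divisorial valuations implies regularity
at ALL valuation rings (true when `K/k` has a smooth proper model).

`CoreBeta` : `C_{n,m}` for function fields, direct `d + e` count, with honest `K/ℂ`, `L/ℂ`, `K/L`
(only these three: no reduction to `κ ≤ 1`, no field `K·T̄`), finite-test conclusion `KapGeF`.
-/

set_option autoImplicit false

noncomputable section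

namespace Crest.Agent.R276.BetaDefs_231

open Crest.Agent.R276.FKDefs_779

/-- regular at all divisorial valuations ⟹ regular at all valuations (consequence of the existence
of a smooth proper model of `K/k`). -/
def Honest (k K : Type*) [Field k] [Field K] [Algebra k K] : Prop :=
  ∀ (n : ℕ) (b : Module.Basis (Fin n) K (Ω[K⁄k])) (m : ℕ) (g : K), Pluri k b m g → PluriS k b m g

/-- THE GEOMETRIC CORE, direct form. -/
def CoreBeta : Prop :=
  ∀ (K : Type) [Field K] [Algebra ℂ K] (L : IntermediateField ℂ K), FGF ℂ K →
    (∀ a : K, IsAlgebraic L a → a ∈ L) →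
    Honest ℂ K → Honest ℂ L → Honest L K →
    ∀ d e : ℕ, KapGeS L K d → KapGeS ℂ L e → KapGeF ℂ K (d + e)

/-- for honest fields the two versions of `κ ≥ d` agree -/
theorem kapGeS_of_honest {k K : Type*} [Field k] [Field K] [Algebra k K] (h : Honest k K) {d : ℕ}
    (hd : KapGe k K d) : KapGeS k K d := by
  obtain ⟨n, b, m, hm, f, hf, hind⟩ := hd
  exact ⟨n, b, m, hm, f, fun i => ⟨(hf i).1, h n b m (f i) (hf i).2⟩, hind⟩

end Crest.Agent.R276.BetaDefs_231
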