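import Crest.Agent.R271.T7a_297
import Crest.Agent.R273.RegC_844

/-!
# Row 276 (helper29): the limit argument with exhausting domains and general weights

`limW` : `F_k` holomorphic on open sets `Ω_k` exhausting `M`, weights `W_k : M → [0,∞]` increasing,
locally bounded below, `∫_{Ω_k} |F_k - G|² W_k ≤ K` (up to `ε`, for many `k`) ⇒ along the
ultrafilter `F_k → F₀` pointwise, `F₀` holomorphic, `∫ |F₀ - G|² sup_k W_k ≤ K`.
-/

set_option autoImplicit false
set_option linter.unusedSectionVars false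

noncomputable section

open Set Filter Topology MeasureTheory Metric
open scoped ENNReal

namespace Crest.Agent.R276.LimW_29

open Crest.Agent.R271 Crest.Agent.R271.Ho51 Crest.Agent.R271.T7a297

variable {n : ℕ} {M : Type*} [TopologicalSpace M] [RDom n M]

/-- holomorphic on a subset (used for open subsets) -/
def HolOn (F : M → ℂ) (Ω : Set M) : Prop :=
  ∀ e : OpenPartialHomeomorph M (Fin n → ℂ), IsCh e →
    DifferentiableOn ℂ (F ∘ e.symm) (e.target ∩ e.symm ⁻¹' Ω)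

lemma HolOn.mono {F : M → ℂ} {Ω Ω' : Set M} (h : HolOn F Ω) (hs : Ω' ⊆ Ω) : HolOn F Ω' :=
  fun e he => (h e he).mono (inter_subset_inter_right _ (preimage_mono hs))

lemma HolOn.of_hol {F : M → ℂ} (h : Hol F) (Ω : Set M) : HolOn F Ω :=
  fun e he => (h e he).mono inter_subset_left

lemma HolOn.continuousOn {F : M → ℂ} {Ω : Set M} (h : HolOn F Ω) (hΩ : IsOpen Ω) :
    ContinuousOn F Ω := by
  intro x hx
  have hopen : IsOpen ((ch x).target ∩ (ch x).symm ⁻¹' Ω) :=
    (ch x).symm.continuousOn.isOpen_inter_preimage (ch x).open_target hΩ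
  have hmem : cp x ∈ (ch x).target ∩ (ch x).symm ⁻¹' Ω :=
    ⟨(isCh_ch x).cp_mem (mem_ch x), by rw [mem_preimage, symm_cp]; exact hx⟩
  have h1 : ContinuousAt (F ∘ (ch x).symm) (cp x) :=
    ((h (ch x) (isCh_ch x)).differentiableAt (hopen.mem_nhds hmem)).continuousAt
  have h2 : ContinuousAt (fun y => (F ∘ (ch x).symm) (cp y)) x :=
    ContinuousAt.comp (g := F ∘ (ch x).symm) h1 cp_cont.continuousAt
  exact (h2.congr (eventually_eq_comp (isCh_ch x) (mem_ch x) F).symm).continuousWithinAt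

variable [T2Space M] [SecondCountableTopology M] [MeasurableSpace M] [BorelSpace M]

open Classical in
lemma measurable_ind {Ω : Set M} (hΩ : IsOpen Ω) {F : M → ℂ} (hF : ContinuousOn F Ω) :
    Measurable (Ω.indicator F) := by
  rw [← piecewise_eq_indicator]
  exact hF.measurable_piecewise continuousOn_const hΩ.measurableSet

section main

variable {μ : Measure M} {Ω : ℕ → Set M} {W : ℕ → M → ℝ≥0∞} {G : M → ℂ} {F : ℕ → M → ℂ}
  {K : ℝ≥0∞}

/-- the local bound and Montel's theorem in a chart -/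
theorem local_montelW (hμ : IsLeb μ) (hΩo : ∀ k, IsOpen (Ω k)) (hΩm : Monotone Ω)
    (hΩc : ∀ C : Set M, IsCompact C → ∃ k, C ⊆ Ω k) (hG : Continuous G)
    (hF : ∀ k, HolOn (F k) (Ω k)) (hWmono : ∀ x, Monotone fun k => W k x)
    (hWm : ∀ k, Measurable (W k))
    (hWlb : ∀ x, ∃ k, ∃ c : ℝ≥0∞, 0 < c ∧ ∀ᶠ y in 𝓝 x, c ≤ W k y)
    (hK : K ≠ ⊤)
    (hb : ∀ᶠ k in (hyperfilter ℕ : Filter ℕ),
      ∫⁻ x in Ω k, ENNReal.ofReal (‖F k x - G x‖ ^ 2) * W k x ∂μ ≤ K)
    {e : OpenPartialHomeomorph M (Fin n → ℂ)} (he : IsCh e) {z : Fin n → ℂ} (hz : z ∈ e.target) :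
    ∃ r : ℝ, 0 < r ∧ ball z r ⊆ e.target ∧ ∃ f0 : (Fin n → ℂ) → ℂ,
      DifferentiableOn ℂ f0 (ball z r) ∧
      TendstoLocallyUniformlyOn (fun j => F j ∘ e.symm) f0 (hyperfilter ℕ : Filter ℕ)
        (ball z r) := by
  have hlf := hμ.locallyFinite
  obtain ⟨k1, c, hc, hWc⟩ := hWlb (e.symm z)
  -- choose the radius
  have h0 : ∀ᶠ y in 𝓝 z, c ≤ W k1 (e.symm y) :=
    (e.symm.continuousAt (by simpa using hz)).eventually hWc
  obtain ⟨r, hr, hB'⟩ := Metric.nhds_basis_closedBall.mem_iff.1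
    (inter_mem (e.open_target.mem_nhds hz) h0)
  have hB : closedBall z r ⊆ e.target := fun y hy => (hB' hy).1
  have hBW : ∀ y ∈ closedBall z r, c ≤ W k1 (e.symm y) := fun y hy => (hB' hy).2
  set B : Set (Fin n → ℂ) := closedBall z r with hBdef
  have hBc : IsCompact B := isCompact_closedBall z r
  set S : Set M := e.symm '' B with hSdef
  have hSc : IsCompact S := hBc.image_of_continuousOn (e.symm.continuousOn.mono hB)
  have hSm : MeasurableSet S := hSc.isClosed.measurableSet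
  obtain ⟨k2, hk2⟩ := hΩc S hSc
  set k0 := max k1 k2 with hk0
  have hSk : ∀ j, k0 ≤ j → S ⊆ Ω j := fun j hj =>
    hk2.trans (hΩm ((le_max_right _ _).trans hj))
  have hSW : ∀ j, k0 ≤ j → ∀ x ∈ S, c ≤ W j x := by
    rintro j hj _ ⟨y, hy, rfl⟩
    exact (hBW y hy).trans (hWmono _ ((le_max_left _ _).trans hj))
  obtain ⟨g, hg'⟩ := hSc.bddAbove_image hG.norm.continuousOn
  have hSg : ∀ x ∈ S, ‖G x‖ ≤ g := fun x hx => hg' (mem_image_of_mem _ hx)
  -- finite constant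
  obtain ⟨c', hc'0, hc'c⟩ : ∃ c' : ℝ≥0∞, c' ≠ ⊤ ∧ ∀ j, k0 ≤ j → ∀ x ∈ S, 1 ≤ c' * W j x := by
    refine ⟨(min c 1)⁻¹, ?_, fun j hj x hx => ?_⟩
    · exact ENNReal.inv_ne_top.2 (lt_min hc one_pos).ne'
    · have h1 : (min c 1)⁻¹ * min c 1 = 1 :=
        ENNReal.inv_mul_cancel (lt_min hc one_pos).ne' (ne_top_of_le_ne_top ENNReal.one_ne_top
          (min_le_right _ _))
      calc (1 : ℝ≥0∞) = (min c 1)⁻¹ * min c 1 := h1.symm
        _ ≤ (min c 1)⁻¹ * W j x := by
            gcongr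
            exact (min_le_left _ _).trans (hSW j hj x hx)
  set C : ℝ≥0∞ := 2 * c' * K + 2 * ENNReal.ofReal (g ^ 2) * μ S with hCdef
  have hC : C ≠ ⊤ := by
    refine ENNReal.add_ne_top.2 ⟨ENNReal.mul_ne_top (ENNReal.mul_ne_top (by simp)
      hc'0) hK, ENNReal.mul_ne_top (ENNReal.mul_ne_top (by simp)
      ENNReal.ofReal_ne_top) hSc.measure_lt_top.ne⟩
  have hFc : ∀ j, ContinuousOn (F j) (Ω j) := fun j => (hF j).continuousOn (hΩo j)
  have hbound : ∀ j, k0 ≤ j →
      ∫⁻ x in Ω j, ENNReal.ofReal (‖F j x - G x‖ ^ 2) * W j x ∂μ ≤ K →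
      ∫⁻ y in ball z r, ‖(F j ∘ e.symm) y‖ₑ ^ 2 ≤ C := by
    intro j hj hbj
    have hfm : Measurable fun x => ‖(Ω j).indicator (F j) x‖ₑ ^ 2 := by
      have h1 : Measurable ((Ω j).indicator (F j)) := measurable_ind (hΩo j) (hFc j)
      exact h1.enorm.pow_const 2
    have h0 : ∫⁻ y in ball z r, ‖(F j ∘ e.symm) y‖ₑ ^ 2 =
        ∫⁻ y in ball z r, ‖(Ω j).indicator (F j) (e.symm y)‖ₑ ^ 2 := by
      refine setLIntegral_congr_fun measurableSet_ball fun y hy => ?_
      simp only [Function.comp_apply]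
      rw [indicator_of_mem (hSk j hj (mem_image_of_mem _ (ball_subset_closedBall hy)))]
    have h1 : ∫⁻ y in B, ‖(Ω j).indicator (F j) (e.symm y)‖ₑ ^ 2 ≤
        ∫⁻ x in S, ‖(Ω j).indicator (F j) x‖ₑ ^ 2 ∂μ :=
      lintegral_ball_le hμ he hBc hB hfm
    have h2 : ∀ x ∈ S, ‖(Ω j).indicator (F j) x‖ₑ ^ 2 ≤ 2 * c' *
        (ENNReal.ofReal (‖F j x - G x‖ ^ 2) * W j x) +
        2 * ENNReal.ofReal (g ^ 2) := by
      intro x hx
      rw [indicator_of_mem (hSk j hj hx)]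
      refine (enorm_sq_le_aux (F j x) (G x)).trans (add_le_add ?_ ?_)
      · calc 2 * ENNReal.ofReal (‖F j x - G x‖ ^ 2)
            = 2 * ENNReal.ofReal (‖F j x - G x‖ ^ 2) * 1 := (mul_one _).symm
          _ ≤ 2 * ENNReal.ofReal (‖F j x - G x‖ ^ 2) * (c' * W j x) := by
              gcongr
              exact hc'c j hj x hx
          _ = _ := by ring
      · refine mul_le_mul_right (ENNReal.ofReal_le_ofReal ?_) _
        have := hSg x hx
        exact pow_le_pow_left₀ (norm_nonneg _) this 2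
    rw [h0]
    calc ∫⁻ y in ball z r, ‖(Ω j).indicator (F j) (e.symm y)‖ₑ ^ 2
        ≤ ∫⁻ y in B, ‖(Ω j).indicator (F j) (e.symm y)‖ₑ ^ 2 :=
          lintegral_mono_set ball_subset_closedBall
      _ ≤ ∫⁻ x in S, ‖(Ω j).indicator (F j) x‖ₑ ^ 2 ∂μ := h1
      _ ≤ ∫⁻ x in S, (2 * c' * (ENNReal.ofReal (‖F j x - G x‖ ^ 2) * W j x) +
        2 * ENNReal.ofReal (g ^ 2)) ∂μ := setLIntegral_mono' hSm h2
      _ = ∫⁻ x in S, 2 * c' * (ENNReal.ofReal (‖F j x - G x‖ ^ 2) * W j x) ∂μ +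
          2 * ENNReal.ofReal (g ^ 2) * μ S := by
        rw [lintegral_add_right _ measurable_const, setLIntegral_const]
      _ = 2 * c' * ∫⁻ x in S, (ENNReal.ofReal (‖F j x - G x‖ ^ 2) * W j x) ∂μ +
          2 * ENNReal.ofReal (g ^ 2) * μ S := by
        rw [lintegral_const_mul' _ _ (ENNReal.mul_ne_top (by simp) hc'0)]
      _ ≤ C := by
        rw [hCdef]
        gcongr
        exact (lintegral_mono_set (hSk j hj)).trans hbj
  -- Montel for the modified family
  set F' : ℕ → (Fin n → ℂ) → ℂ := fun j => if k0 ≤ j then F j ∘ e.symm else fun _ => 0 with hF'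
  have hF'd : ∀ j, DifferentiableOn ℂ (F' j) (ball z r) := by
    intro j
    by_cases hj : k0 ≤ j
    · simp only [hF', if_pos hj]
      refine (hF j e he).mono fun y hy => ?_
      exact ⟨hB (ball_subset_closedBall hy),
        hSk j hj (mem_image_of_mem _ (ball_subset_closedBall hy))⟩
    · simp only [hF', if_neg hj]
      exact differentiableOn_const _
  have hle : (hyperfilter ℕ : Filter ℕ) ≤ atTop := by
    rw [← Nat.cofinite_eq_atTop]
    exact hyperfilter_le_cofinite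
  have hev : ∀ᶠ j in (hyperfilter ℕ : Filter ℕ), k0 ≤ j := hle (eventually_ge_atTop k0)
  obtain ⟨f0, hf0d, hf0⟩ := Montel297.montel_L2 (ball z r) isOpen_ball F' hF'd C hC
    (hyperfilter ℕ) (by
      filter_upwards [hev, hb] with j hj hbj
      simp only [hF', if_pos hj]
      exact hbound j hj hbj)
  refine ⟨r, hr, ball_subset_closedBall.trans hB, f0, hf0d, ?_⟩
  intro u hu x hx
  obtain ⟨t, ht, hev2⟩ := hf0 u hu x hx
  refine ⟨t, ht, ?_⟩
  filter_upwards [hev2, hev] with j hj1 hj2 y hy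
  have := hj1 y hy
  simpa only [hF', if_pos hj2] using this

/-- **limit lemma** -/
theorem limW' (hμ : IsLeb μ) (hΩo : ∀ k, IsOpen (Ω k)) (hΩm : Monotone Ω)
    (hΩc : ∀ C : Set M, IsCompact C → ∃ k, C ⊆ Ω k) (hG : Continuous G)
    (hF : ∀ k, HolOn (F k) (Ω k)) (hWmono : ∀ x, Monotone fun k => W k x)
    (hWm : ∀ k, Measurable (W k))
    (hWlb : ∀ x, ∃ k, ∃ c : ℝ≥0∞, 0 < c ∧ ∀ᶠ y in 𝓝 x, c ≤ W k y)
    (hK : K ≠ ⊤)
    (hb : ∀ K', K < K' → ∀ᶠ k in (hyperfilter ℕ : Filter ℕ),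
      ∫⁻ x in Ω k, ENNReal.ofReal (‖F k x - G x‖ ^ 2) * W k x ∂μ ≤ K') :
    ∃ F0 : M → ℂ, Hol F0 ∧
      (∀ x, Tendsto (fun j => F j x) (hyperfilter ℕ : Filter ℕ) (𝓝 (F0 x))) ∧
      ∫⁻ x, ENNReal.ofReal (‖F0 x - G x‖ ^ 2) * (⨆ k, W k x) ∂μ ≤ K := by
  obtain ⟨K1, hK1, hK1t⟩ := exists_between hK.lt_top
  have hloc := fun {e : OpenPartialHomeomorph M (Fin n → ℂ)} (he : IsCh e) {z : Fin n → ℂ}
    (hz : z ∈ e.target) => local_montelW hμ hΩo hΩm hΩc hG hF hWmono hWm hWlb hK1t.ne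
      (hb K1 hK1) he hz
  set l : Filter ℕ := (hyperfilter ℕ : Filter ℕ) with hl
  -- pointwise limits
  set F0 : M → ℂ := fun x => limUnder l (fun j => F j x) with hF0
  have hlim : ∀ x, Tendsto (fun j => F j x) l (𝓝 (F0 x)) := by
    intro x
    obtain ⟨r, hr, -, f0, -, hf0⟩ := hloc (isCh_ch x) ((isCh_ch x).cp_mem (mem_ch x))
    have h1 := hf0.tendsto_at (mem_ball_self hr)
    have h2 : Tendsto (fun j => F j x) l (𝓝 (f0 (cp x))) := by
      simpa [symm_cp] using h1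
    exact tendsto_nhds_limUnder ⟨_, h2⟩
  have hagree : ∀ {e : OpenPartialHomeomorph M (Fin n → ℂ)} {z : Fin n → ℂ} {r : ℝ}
      {f0 : (Fin n → ℂ) → ℂ}, TendstoLocallyUniformlyOn (fun j => F j ∘ e.symm) f0 l (ball z r) →
      ∀ y ∈ ball z r, f0 y = F0 (e.symm y) := by
    intro e z r f0 hf0 y hy
    exact tendsto_nhds_unique (hf0.tendsto_at hy) (hlim (e.symm y))
  have hHol : Hol F0 := by
    intro e he z hz
    obtain ⟨r, hr, hsub, f0, hd, hf0⟩ := hloc he hz
    have h1 : DifferentiableAt ℂ f0 z := hd.differentiableAt (isOpen_ball.mem_nhds (mem_ball_self hr))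
    refine (h1.congr_of_eventuallyEq ?_).differentiableWithinAt
    filter_upwards [isOpen_ball.mem_nhds (mem_ball_self hr)] with y hy
    exact (hagree hf0 y hy).symm
  have hF0c : Continuous F0 := Hol.continuous hHol
  have hLU : TendstoLocallyUniformly F F0 l := by
    intro u hu x
    obtain ⟨r, hr, hsub, f0, hd, hf0⟩ := hloc (isCh_ch x) ((isCh_ch x).cp_mem (mem_ch x))
    obtain ⟨t, ht, hev⟩ := hf0 u hu (cp x) (mem_ball_self hr)
    rw [isOpen_ball.nhdsWithin_eq (mem_ball_self hr)] at ht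
    refine ⟨(ch x).source ∩ cp ⁻¹' (t ∩ ball (cp x) r), inter_mem
      ((ch x).open_source.mem_nhds (mem_ch x)) (cp_cont.continuousAt.preimage_mem_nhds
        (inter_mem ht (isOpen_ball.mem_nhds (mem_ball_self hr)))), ?_⟩
    filter_upwards [hev] with j hj y hy
    have h1 := hj (cp y) hy.2.1
    rw [hagree hf0 _ hy.2.2] at h1
    simpa [(isCh_ch x).symm_cp hy.1] using h1
  have hle : l ≤ atTop := by
    rw [← Nat.cofinite_eq_atTop]
    exact hyperfilter_le_cofinite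
  have hlc : LocallyCompactSpace M := R273.Reg_844.locallyCompact_rdom n M
  set CE : CompactExhaustion M := default with hCE
  have hFc : ∀ j, ContinuousOn (F j) (Ω j) := fun j => (hF j).continuousOn (hΩo j)
  refine ⟨F0, hHol, hlim, ?_⟩
  refine le_of_forall_gt_imp_ge_of_dense fun K' hK' => ?_
  -- a subsequence converging uniformly on the compact sets
  have hsub : ∀ m : ℕ, ∃ j : ℕ, m ≤ j ∧ (∀ x ∈ CE m, dist (F0 x) (F j x) < 1 / ((m : ℝ) + 1)) ∧
      ∫⁻ x in Ω j, ENNReal.ofReal (‖F j x - G x‖ ^ 2) * W j x ∂μ ≤ K' := by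
    intro m
    have h1 : TendstoUniformlyOn F F0 l (CE m) :=
      (tendstoLocallyUniformlyOn_iff_tendstoUniformlyOn_of_compact (CE.isCompact m)).1
        hLU.tendstoLocallyUniformlyOn
    have h2 := (Metric.tendstoUniformlyOn_iff.1 h1) (1 / ((m : ℝ) + 1)) (by positivity)
    have h3 : ∀ᶠ j in l, m ≤ j := hle (eventually_ge_atTop m)
    obtain ⟨j, ⟨hj1, hj2⟩, hj3⟩ := ((h3.and h2).and (hb K' hK')).exists
    exact ⟨j, hj1, fun x hx => hj2 x hx, hj3⟩
  choose J hJ1 hJ2 hJ3 using hsub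
  have hJlim : ∀ x, Tendsto (fun m => F (J m) x) atTop (𝓝 (F0 x)) := by
    intro x
    rw [tendsto_iff_dist_tendsto_zero]
    refine squeeze_zero' (Eventually.of_forall fun _ => dist_nonneg) ?_
      tendsto_one_div_add_atTop_nhds_zero_nat
    obtain ⟨m0, hm0⟩ := mem_iUnion.1 (by rw [CE.iUnion_eq]; trivial : x ∈ ⋃ m, CE m)
    filter_upwards [eventually_ge_atTop m0] with m hm
    rw [dist_comm]
    exact (hJ2 m x (CE.subset hm hm0)).le
  -- Fatou
  have hfatou : ∀ k : ℕ, ∫⁻ x in Ω k,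
      ENNReal.ofReal (‖F0 x - G x‖ ^ 2) * W k x ∂μ ≤ K' := by
    intro k
    have hsubk : ∀ m, Ω k ⊆ Ω (J (m + k)) := fun m =>
      hΩm ((Nat.le_add_left k m).trans (hJ1 (m + k)))
    set f : ℕ → M → ℝ≥0∞ := fun m x =>
      ENNReal.ofReal (‖(Ω (J (m + k))).indicator (F (J (m + k))) x - G x‖ ^ 2) * W k x with hf
    have hfm : ∀ m, Measurable (f m) := fun m =>
      (((((measurable_ind (hΩo _) (hFc (J (m + k)))).sub hG.measurable).norm).pow_const
        2).ennreal_ofReal).mul (hWm k)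
    have h1 : ∀ x ∈ Ω k, ENNReal.ofReal (‖F0 x - G x‖ ^ 2) * W k x ≤
        liminf (fun m => f m x) atTop := by
      intro x hx
      have h3 : Tendsto (fun m => ENNReal.ofReal (‖F (J (m + k)) x - G x‖ ^ 2)) atTop
          (𝓝 (ENNReal.ofReal (‖F0 x - G x‖ ^ 2))) :=
        (ENNReal.continuous_ofReal.tendsto _).comp
          (((((hJlim x).comp (tendsto_add_atTop_nat k)).sub_const (G x)).norm).pow 2)
      have h4 : (fun m => f m x) = fun m =>
          ENNReal.ofReal (‖F (J (m + k)) x - G x‖ ^ 2) * W k x := by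
        funext m
        simp only [hf]
        rw [indicator_of_mem (hsubk m hx)]
      rw [h4]
      rcases eq_or_ne (ENNReal.ofReal (‖F0 x - G x‖ ^ 2)) 0 with h0 | h0
      · rw [h0, zero_mul]; exact zero_le
      · have h2 := ENNReal.Tendsto.mul_const (b := W k x) h3 (Or.inl h0)
        rw [h2.liminf_eq]
    calc ∫⁻ x in Ω k, ENNReal.ofReal (‖F0 x - G x‖ ^ 2) * W k x ∂μ
        ≤ ∫⁻ x in Ω k, liminf (fun m => f m x) atTop ∂μ :=
          setLIntegral_mono' (hΩo k).measurableSet h1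
      _ ≤ liminf (fun m => ∫⁻ x in Ω k, f m x ∂μ) atTop := lintegral_liminf_le hfm
      _ ≤ K' := by
        refine liminf_le_of_frequently_le' (Eventually.frequently (Eventually.of_forall fun m => ?_))
        refine le_trans ?_ (hJ3 (m + k))
        refine (setLIntegral_mono' (hΩo k).measurableSet (g := fun x =>
          ENNReal.ofReal (‖F (J (m + k)) x - G x‖ ^ 2) * W (J (m + k)) x) fun x hx => ?_).trans
          (lintegral_mono_set (hsubk m))
        simp only [hf]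
        rw [indicator_of_mem (hsubk m hx)]
        exact mul_le_mul_right (hWmono x ((Nat.le_add_left k m).trans (hJ1 (m + k)))) _
  -- monotone convergence
  set g : ℕ → M → ℝ≥0∞ := fun k => (Ω k).indicator
    (fun x => ENNReal.ofReal (‖F0 x - G x‖ ^ 2) * W k x) with hg
  have hgm : ∀ k, Measurable (g k) := fun k =>
    ((((hF0c.sub hG).norm.pow 2).measurable.ennreal_ofReal).mul
      (hWm k)).indicator (hΩo k).measurableSet
  have hgmono : Monotone g := by
    intro k k' hkk' x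
    by_cases hx : x ∈ Ω k
    · simp only [hg, indicator_of_mem hx, indicator_of_mem (hΩm hkk' hx)]
      exact mul_le_mul_right (hWmono x hkk') _
    · simp only [hg, indicator_of_notMem hx]
      exact zero_le
  have hsup : ∀ x, ENNReal.ofReal (‖F0 x - G x‖ ^ 2) * (⨆ k, W k x) = ⨆ k, g k x := by
    intro x
    rw [ENNReal.mul_iSup]
    apply le_antisymm
    · refine iSup_le fun k => ?_
      obtain ⟨m0, hm0⟩ := hΩc {x} isCompact_singleton
      have hx : x ∈ Ω (max k m0) := hΩm (le_max_right _ _) (hm0 rfl)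
      refine le_trans ?_ (le_iSup (fun k => g k x) (max k m0))
      simp only [hg, indicator_of_mem hx]
      exact mul_le_mul_right (hWmono x (le_max_left _ _)) _
    · refine iSup_mono fun k => ?_
      exact indicator_le_self _ _ _
  simp only [hsup]
  rw [lintegral_iSup hgm hgmono]
  refine iSup_le fun k => ?_
  simp only [hg]
  rw [lintegral_indicator (hΩo k).measurableSet]
  exact hfatou k

/-- **limit lemma**, simple form -/
theorem limW (hμ : IsLeb μ) (hΩo : ∀ k, IsOpen (Ω k)) (hΩm : Monotone Ω)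
    (hΩc : ∀ C : Set M, IsCompact C → ∃ k, C ⊆ Ω k) (hG : Continuous G)
    (hF : ∀ k, HolOn (F k) (Ω k)) (hWmono : ∀ x, Monotone fun k => W k x)
    (hWm : ∀ k, Measurable (W k))
    (hWlb : ∀ x, ∃ k, ∃ c : ℝ≥0∞, 0 < c ∧ ∀ᶠ y in 𝓝 x, c ≤ W k y)
    (hK : K ≠ ⊤)
    (hb : ∀ k, ∫⁻ x in Ω k, ENNReal.ofReal (‖F k x - G x‖ ^ 2) * W k x ∂μ ≤ K) :
    ∃ F0 : M → ℂ, Hol F0 ∧
      (∀ x, Tendsto (fun j => F j x) (hyperfilter ℕ : Filter ℕ) (𝓝 (F0 x))) ∧
      ∫⁻ x, ENNReal.ofReal (‖F0 x - G x‖ ^ 2) * (⨆ k, W k x) ∂μ ≤ K :=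
  limW' hμ hΩo hΩm hΩc hG hF hWmono hWm hWlb hK fun _ hK' =>
    Eventually.of_forall fun k => (hb k).trans hK'.le

end main

end Crest.Agent.R276.LimW_29
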