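import Crest.Agent.R276.SubL_29
import Crest.Agent.R276.LimW_29
import Crest.Agent.R273.TwE_34
import Crest.Agent.R273.RegC_844

/-!
# Row 276 (helper29): the (twisted) engine with a singular psh weight

`LPsh b` : `b ≥ 0` and `log (b + δ)` plurisubharmonic for all `δ > 0` (i.e. `log b` psh, `-∞`
allowed).  `twU` : helper34's twisted engine with the additional weight `1/b`;
`engU` : the untwisted engine with weight `e^{-ψ}/b`.
-/

set_option autoImplicit false
set_option linter.unusedSectionVars false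
set_option linter.style.haveILetI false

noncomputable section

open Set Filter Topology MeasureTheory ComplexConjugate
open scoped ENNReal

namespace Crest.Agent.R276.EngU_29

open Crest.Agent.R271 Crest.Agent.R271.Ho51 Crest.Agent.R273.TwA_34 Crest.Agent.R273.Reg_844
  Crest.Agent.R276.SubL_29 Crest.Agent.R276.LimW_29
open Crest.Agent.R271.W792 (lev)
open TopologicalSpace (Opens)

variable {n : ℕ} {M : Type*} [TopologicalSpace M] [RDom n M]

/-- `log b` is plurisubharmonic -/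
structure LPsh (b : M → ℝ) : Prop where
  nonneg : ∀ x, 0 ≤ b x
  psh : ∀ δ : ℝ, 0 < δ → PSH (fun x => Real.log (b x + δ))

lemma lev_res (U : Opens M) (φ : M → ℝ) (x : U) (w : Fin n → ℂ) :
    @lev n U _ (rdO U) (fun y : U => φ y.1) x w = lev φ x.1 w := by
  unfold lev
  have h1 : ∀ v : Fin n → ℂ, (fun y : U => @D n U _ (rdO U) ℝ _ _ (fun y : U => φ y.1) y v) =
      fun y : U => D φ y.1 v := by
    intro v; funext y
    rw [D_res]
  simp only [h1]
  rw [D_res U (fun y => D φ y w) x, D_res U (fun y => D φ y (Complex.I • w)) x]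

variable [T2Space M] [SecondCountableTopology M] [MeasurableSpace M] [BorelSpace M]
  {μ : Measure M} {c : ℝ}

/-- twisted engine with a psh weight on a sublevel domain -/
theorem twU_step (hμ : IsLeb μ) {ρ : M → ℝ} (hρ : Sm ρ)
    (hcpt : ∀ t : ℝ, IsCompact {x | ρ x ≤ t}) (hL : ∀ x w, nsq w ≤ Levi ρ x w) (a : ℝ)
    (hc1 : 1 < c) {Φ ψ q : M → ℝ} (hΦ : Sm Φ) (hψ : Sm ψ) (hq : Sm q) (hq2 : ∀ x, 2 ≤ q x)
    (hpos : ∀ x w, 0 ≤ Bt c Φ ψ q x w) {G : M → ℂ} (hG : Sm G) {κ : M → ℝ}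
    (hk : ∀ x (w : Fin n → ℂ), ‖∑ j, db j G x * conj (w j)‖ ^ 2 ≤ κ x * Bt c Φ ψ q x w)
    {u : M → ℝ} (hu : PSH u) {K : ℝ≥0∞} (hKt : K ≠ ∞)
    (hK : ∫⁻ x, ENNReal.ofReal (κ x * Real.exp (ψ x - Φ x)) *
      ENNReal.ofReal (Real.exp (-u x)) ∂μ ≤ K) :
    ∃ F : M → ℂ, HolOn F {x | ρ x < a} ∧ ∫⁻ x in {x | ρ x < a},
      ENNReal.ofReal (‖F x - G x‖ ^ 2) *
        ENNReal.ofReal (Real.exp (ψ x - Φ x) / q x * Real.exp (-u x)) ∂μ ≤ K := by
  obtain ⟨U₀, φ, hU₀, hCU, hφs, hφl, hφa, hφg, hφt⟩ := exists_reg hu (hcpt a)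
  set U : Opens M := sub ρ hρ.continuous a with hU
  letI := rdO U
  have hUU₀ : ∀ x : U, x.1 ∈ U₀ := fun x => hCU (show ρ x.1 ≤ a from (show ρ x.1 < a from x.2).le)
  have hμU : IsLeb (μ.comap (Subtype.val : U → M)) := isLeb_res U hμ
  have hΦU : Sm (fun y : U => Φ y.1) := sm_res U hΦ
  have hψU : Sm (fun y : U => ψ y.1) := sm_res U hψ
  have hqU : Sm (fun y : U => q y.1) := sm_res U hq
  have hGU : Sm (fun y : U => G y.1) := sm_res U hG
  have hφU : ∀ j, Sm (fun y : U => φ j y.1) := fun j =>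
    sm_res' U fun x hx => hφs j x (hCU (show ρ x ≤ a from (show ρ x < a from hx).le))
  have hBt : ∀ j (x : U) (w : Fin n → ℂ), Bt c Φ ψ q x.1 w ≤
      Bt c (fun y : U => Φ y.1 + φ j y.1) (fun y : U => ψ y.1) (fun y : U => q y.1) x w := by
    intro j x w
    unfold Bt
    have h1 : (fun y : U => Φ y.1 + φ j y.1 + ψ y.1) =
        fun y : U => (Φ y.1 + ψ y.1) + φ j y.1 := by funext y; ring
    have h2 : Levi (fun y : U => (Φ y.1 + ψ y.1) + φ j y.1) x w =
        Levi (fun y : U => Φ y.1 + ψ y.1) x w + Levi (fun y : U => φ j y.1) x w :=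
      Levi_add (hΦU.add hψU) (hφU j) x w
    have h3 : Levi (fun y : U => Φ y.1 + ψ y.1) x w = Levi (fun y => Φ y + ψ y) x.1 w :=
      Levi_res U (fun y => Φ y + ψ y) x w
    have h4 : 0 ≤ Levi (fun y : U => φ j y.1) x w := by
      rw [W792.Levi_eq_lev (hφU j), lev_res]
      exact hφl j x.1 (hUU₀ x) w
    have h5 : ∀ i : Fin n, dz i (fun y : U => ((ψ y.1 : ℝ) : ℂ)) x =
        dz i (fun y => (ψ y : ℂ)) x.1 := fun i => dz_res U i (fun y => (ψ y : ℂ)) x
    rw [h1, h2, h3]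
    simp only [h5]
    linarith
  set κ' : U → ℝ := fun x => max (κ x.1) 0 with hκ'
  have hstep : ∀ j, ∃ F : U → ℂ, Hol F ∧
      ∫⁻ x : U, ENNReal.ofReal (‖F x - G x.1‖ ^ 2 * (Real.exp (ψ x.1 - (Φ x.1 + φ j x.1)) /
        q x.1)) ∂(μ.comap (Subtype.val : U → M)) ≤ K := by
    intro j
    have hpos' : ∀ (x : U) (w : Fin n → ℂ), 0 ≤
        Bt c (fun y : U => Φ y.1 + φ j y.1) (fun y : U => ψ y.1) (fun y : U => q y.1) x w :=
      fun x w => (hpos x.1 w).trans (hBt j x w)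
    refine R273.TwE_34.twE hμU (sm_rhoA hρ a) (isCompact_rhoA hρ.continuous hcpt a)
      (Levi_rhoA hρ hL a) hc1 (hΦU.add (hφU j)) hψU hqU (fun x => hq2 x.1) hpos' hGU
      (κ := κ') ?_ ?_
    · intro x w
      have h1 : ∀ i : Fin n, db i (fun y : U => G y.1) x = db i G x.1 := fun i => db_res U i G x
      simp only [h1]
      refine (hk x.1 w).trans ?_
      calc κ x.1 * Bt c Φ ψ q x.1 w ≤ κ' x * Bt c Φ ψ q x.1 w :=
            mul_le_mul_of_nonneg_right (le_max_left _ _) (hpos x.1 w)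
        _ ≤ _ := mul_le_mul_of_nonneg_left (hBt j x w) (le_max_right _ _)
    · calc ∫⁻ x : U, ENNReal.ofReal (κ' x * Real.exp (ψ x.1 - (Φ x.1 + φ j x.1)))
            ∂(μ.comap (Subtype.val : U → M))
          ≤ ∫⁻ x : U, (fun x : M => ENNReal.ofReal (κ x * Real.exp (ψ x - Φ x)) *
              ENNReal.ofReal (Real.exp (-u x))) x.1 ∂(μ.comap (Subtype.val : U → M)) := by
            refine lintegral_mono fun x => ?_
            have h1 : ψ x.1 - (Φ x.1 + φ j x.1) = (ψ x.1 - Φ x.1) + -φ j x.1 := by ring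
            have h2 : κ' x * Real.exp (ψ x.1 - (Φ x.1 + φ j x.1)) =
                max (κ x.1) 0 * Real.exp (ψ x.1 - Φ x.1) * Real.exp (-φ j x.1) := by
              rw [h1, Real.exp_add]; simp only [hκ']; ring
            rw [h2, ENNReal.ofReal_mul (mul_nonneg (le_max_right _ _) (Real.exp_pos _).le)]
            have h3 : ENNReal.ofReal (max (κ x.1) 0 * Real.exp (ψ x.1 - Φ x.1)) =
                ENNReal.ofReal (κ x.1 * Real.exp (ψ x.1 - Φ x.1)) := by
              rcases le_total (κ x.1) 0 with h | h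
              · rw [max_eq_right h, zero_mul, ENNReal.ofReal_zero, ENNReal.ofReal_of_nonpos]
                exact mul_nonpos_of_nonpos_of_nonneg h (Real.exp_pos _).le
              · rw [max_eq_left h]
            rw [h3]
            refine mul_le_mul_right (ENNReal.ofReal_le_ofReal (Real.exp_le_exp.2 ?_)) _
            linarith [hφg j x.1 (hUU₀ x)]
        _ = ∫⁻ x in (U : Set M), ENNReal.ofReal (κ x * Real.exp (ψ x - Φ x)) *
              ENNReal.ofReal (Real.exp (-u x)) ∂μ :=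
            lintegral_res U (fun x => ENNReal.ofReal (κ x * Real.exp (ψ x - Φ x)) *
              ENNReal.ofReal (Real.exp (-u x)))
        _ ≤ _ := (setLIntegral_le_lintegral _ _).trans hK
  choose F hFh hFb using hstep
  -- limit on `U`
  have hq0 : ∀ x, 0 < q x := fun x => by have := hq2 x; linarith
  have hlq : Continuous (fun x : U => Real.log (q x.1)) :=
    hqU.continuous.log fun x => (hq0 x.1).ne'
  obtain ⟨F0, hF0, -, hb0⟩ := limW (Ω := fun _ => (univ : Set U)) hμU (fun _ => isOpen_univ)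
    (fun _ _ _ => le_rfl) (fun C _ => ⟨0, subset_univ C⟩) hGU.continuous
    (fun k => HolOn.of_hol (hFh k) univ)
    (W := fun k x => ENNReal.ofReal (Real.exp (ψ x.1 - Φ x.1) / q x.1 * Real.exp (-φ k x.1)))
    (fun x k k' hkk' => ENNReal.ofReal_le_ofReal (mul_le_mul_of_nonneg_left
      (Real.exp_le_exp.2 (neg_le_neg (hφa x.1 (hUU₀ x) hkk')))
      (div_nonneg (Real.exp_pos _).le (hq0 _).le)))
    (fun k => by
      have h1 : Continuous (fun x : U => Real.exp (ψ x.1 - Φ x.1) / q x.1 *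
          Real.exp (-φ k x.1)) := by
        refine Continuous.mul (Continuous.div (Real.continuous_exp.comp
          (hψU.continuous.sub hΦU.continuous)) hqU.continuous fun x => (hq0 x.1).ne')
          (Real.continuous_exp.comp (hφU k).continuous.neg)
      exact h1.measurable.ennreal_ofReal)
    (fun x => by
      have h1 : Continuous (fun x : U => Real.exp (ψ x.1 - Φ x.1) / q x.1 *
          Real.exp (-φ 0 x.1)) := by
        refine Continuous.mul (Continuous.div (Real.continuous_exp.comp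
          (hψU.continuous.sub hΦU.continuous)) hqU.continuous fun x => (hq0 x.1).ne')
          (Real.continuous_exp.comp (hφU 0).continuous.neg)
      have h2 : 0 < Real.exp (ψ x.1 - Φ x.1) / q x.1 * Real.exp (-φ 0 x.1) :=
        mul_pos (div_pos (Real.exp_pos _) (hq0 _)) (Real.exp_pos _)
      refine ⟨0, ENNReal.ofReal (Real.exp (ψ x.1 - Φ x.1) / q x.1 * Real.exp (-φ 0 x.1) / 2),
        ENNReal.ofReal_pos.2 (by positivity), ?_⟩
      filter_upwards [h1.continuousAt.eventually (lt_mem_nhds (half_lt_self h2))] with y hy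
      exact ENNReal.ofReal_le_ofReal hy.le)
    hKt (fun k => by
      refine le_trans (le_of_eq ?_) (hFb k)
      rw [Measure.restrict_univ]
      refine lintegral_congr fun x => ?_
      rw [← ENNReal.ofReal_mul (by positivity)]
      congr 1
      have h1 : ψ x.1 - (Φ x.1 + φ k x.1) = (ψ x.1 - Φ x.1) + -φ k x.1 := by ring
      rw [h1, Real.exp_add]
      ring)
  -- back to `M`
  classical
  refine ⟨fun x => if hx : x ∈ U then F0 ⟨x, hx⟩ else 0, ?_, ?_⟩
  · intro e he z hz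
    have hzU : e.symm z ∈ U := hz.2
    refine (differentiableAt_of_hol U hF0 (F' := fun x => if hx : x ∈ U then F0 ⟨x, hx⟩ else 0)
      (fun x => ?_) he hz.1 hzU).differentiableWithinAt
    rw [dif_pos x.2]
  · have h1 := lintegral_res (U := U) (μ := μ) (fun x => ENNReal.ofReal
      (‖(if hx : x ∈ U then F0 ⟨x, hx⟩ else 0) - G x‖ ^ 2) *
        ENNReal.ofReal (Real.exp (ψ x - Φ x) / q x * Real.exp (-u x)))
    refine le_trans (le_of_eq ?_) hb0
    refine h1.symm.trans ?_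
    refine lintegral_congr fun x => ?_
    rw [dif_pos x.2]
    congr 1
    -- the supremum
    have h2 : Tendsto (fun k => ENNReal.ofReal (Real.exp (ψ x.1 - Φ x.1) / q x.1 *
        Real.exp (-φ k x.1))) atTop (𝓝 (ENNReal.ofReal (Real.exp (ψ x.1 - Φ x.1) / q x.1 *
        Real.exp (-u x.1)))) :=
      (ENNReal.continuous_ofReal.tendsto _).comp
        (((Real.continuous_exp.tendsto _).comp (hφt x.1 (hUU₀ x)).neg).const_mul _)
    refine (tendsto_nhds_unique (tendsto_atTop_iSup ?_) h2).symm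
    intro k k' hkk'
    exact ENNReal.ofReal_le_ofReal (mul_le_mul_of_nonneg_left
      (Real.exp_le_exp.2 (neg_le_neg (hφa x.1 (hUU₀ x) hkk')))
      (div_nonneg (Real.exp_pos _).le (hq0 _).le))

lemma exhaust {ρ : M → ℝ} (hρ : Continuous ρ) (C : Set M) (hC : IsCompact C) :
    ∃ k : ℕ, C ⊆ {x | ρ x < k} := by
  obtain ⟨b, hb⟩ := hC.bddAbove_image hρ.continuousOn
  obtain ⟨k, hk⟩ := exists_nat_gt b
  exact ⟨k, fun x hx => lt_of_le_of_lt (hb (mem_image_of_mem _ hx)) hk⟩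

/-- **twisted engine with a psh weight** -/
theorem twU_psh (hμ : IsLeb μ) {ρ : M → ℝ} (hρ : Sm ρ)
    (hcpt : ∀ t : ℝ, IsCompact {x | ρ x ≤ t}) (hL : ∀ x w, nsq w ≤ Levi ρ x w)
    (hc1 : 1 < c) {Φ ψ q : M → ℝ} (hΦ : Sm Φ) (hψ : Sm ψ) (hq : Sm q) (hq2 : ∀ x, 2 ≤ q x)
    (hpos : ∀ x w, 0 ≤ Bt c Φ ψ q x w) {G : M → ℂ} (hG : Sm G) {κ : M → ℝ}
    (hk : ∀ x (w : Fin n → ℂ), ‖∑ j, db j G x * conj (w j)‖ ^ 2 ≤ κ x * Bt c Φ ψ q x w)
    {u : M → ℝ} (hu : PSH u) {K : ℝ≥0∞} (hKt : K ≠ ∞)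
    (hK : ∫⁻ x, ENNReal.ofReal (κ x * Real.exp (ψ x - Φ x)) *
      ENNReal.ofReal (Real.exp (-u x)) ∂μ ≤ K) :
    ∃ F : M → ℂ, Hol F ∧ ∫⁻ x, ENNReal.ofReal (‖F x - G x‖ ^ 2) *
        ENNReal.ofReal (Real.exp (ψ x - Φ x) / q x * Real.exp (-u x)) ∂μ ≤ K := by
  have hq0 : ∀ x, 0 < q x := fun x => by have := hq2 x; linarith
  choose F hF hFb using fun k : ℕ =>
    twU_step hμ hρ hcpt hL (k : ℝ) hc1 hΦ hψ hq hq2 hpos hG hk hu hKt hK
  have hcont : Continuous (fun x => Real.exp (ψ x - Φ x) / q x) :=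
    Continuous.div (Real.continuous_exp.comp (hψ.continuous.sub hΦ.continuous)) hq.continuous
      fun x => (hq0 x).ne'
  obtain ⟨F0, hF0, -, hb⟩ := limW (Ω := fun k : ℕ => {x | ρ x < (k : ℝ)}) hμ
    (fun k => isOpen_lt hρ.continuous continuous_const)
    (fun k k' hkk' x hx => lt_of_lt_of_le (show ρ x < (k : ℝ) from hx)
      (by exact_mod_cast hkk' : (k : ℝ) ≤ (k' : ℝ)))
    (exhaust hρ.continuous) hG.continuous hF
    (W := fun _ x => ENNReal.ofReal (Real.exp (ψ x - Φ x) / q x * Real.exp (-u x)))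
    (fun x _ _ _ => le_rfl)
    (fun _ => (hcont.measurable.mul
      (Real.measurable_exp.comp hu.usc.measurable.neg)).ennreal_ofReal)
    (fun x => by
      have h2 : 0 < Real.exp (ψ x - Φ x) / q x := div_pos (Real.exp_pos _) (hq0 _)
      refine ⟨0, ENNReal.ofReal (Real.exp (ψ x - Φ x) / q x / 2 * Real.exp (-(u x + 1))),
        ENNReal.ofReal_pos.2 (by positivity), ?_⟩
      filter_upwards [hcont.continuousAt.eventually (lt_mem_nhds (half_lt_self h2)),
        hu.usc x (u x + 1) (by linarith)] with y hy1 hy2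
      refine ENNReal.ofReal_le_ofReal (mul_le_mul hy1.le (Real.exp_le_exp.2 (by linarith))
        (Real.exp_pos _).le (div_nonneg (Real.exp_pos _).le (hq0 _).le)))
    hKt (fun k => hFb k)
  refine ⟨F0, hF0, le_trans (le_of_eq ?_) hb⟩
  simp only [iSup_const]

/-! ### singular weights -/

lemma exp_neg_log {b δ : ℝ} (hb : 0 ≤ b) (hδ : 0 < δ) : Real.exp (-Real.log (b + δ)) = (b + δ)⁻¹ := by
  rw [Real.exp_neg, Real.exp_log (by positivity)]

lemma iSup_inv_eq {b : ℝ} (hb : 0 ≤ b) :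
    ⨆ k : ℕ, ENNReal.ofReal ((b + 1 / ((k : ℝ) + 1))⁻¹) = (ENNReal.ofReal b)⁻¹ := by
  have h1 : ∀ k : ℕ, ENNReal.ofReal ((b + 1 / ((k : ℝ) + 1))⁻¹) =
      (ENNReal.ofReal (b + 1 / ((k : ℝ) + 1)))⁻¹ := fun k =>
    ENNReal.ofReal_inv_of_pos (by positivity)
  simp only [h1]
  rw [← ENNReal.inv_iInf]
  congr 1
  have h2 : Tendsto (fun k : ℕ => ENNReal.ofReal (b + 1 / ((k : ℝ) + 1))) atTop
      (𝓝 (ENNReal.ofReal b)) := by
    have h3 : Tendsto (fun k : ℕ => b + 1 / ((k : ℝ) + 1)) atTop (𝓝 (b + 0)) :=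
      tendsto_one_div_add_atTop_nhds_zero_nat.const_add b
    rw [add_zero] at h3
    exact (ENNReal.continuous_ofReal.tendsto _).comp h3
  refine tendsto_nhds_unique (tendsto_atTop_iInf ?_) h2
  intro k k' hkk'
  refine ENNReal.ofReal_le_ofReal (add_le_add le_rfl ?_)
  apply one_div_le_one_div_of_le (by positivity)
  have : (k : ℝ) ≤ k' := by exact_mod_cast hkk'
  linarith

/-- **twisted engine with a singular psh weight** -/
theorem twU (hμ : IsLeb μ) {ρ : M → ℝ} (hρ : Sm ρ)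
    (hcpt : ∀ t : ℝ, IsCompact {x | ρ x ≤ t}) (hL : ∀ x w, nsq w ≤ Levi ρ x w)
    (hc1 : 1 < c) {Φ ψ q : M → ℝ} (hΦ : Sm Φ) (hψ : Sm ψ) (hq : Sm q) (hq2 : ∀ x, 2 ≤ q x)
    (hpos : ∀ x w, 0 ≤ Bt c Φ ψ q x w) {G : M → ℂ} (hG : Sm G) {κ : M → ℝ}
    (hk : ∀ x (w : Fin n → ℂ), ‖∑ j, db j G x * conj (w j)‖ ^ 2 ≤ κ x * Bt c Φ ψ q x w)
    {b : M → ℝ} (hb : LPsh b) {K : ℝ≥0∞} 
    (hK : ∫⁻ x, ENNReal.ofReal (κ x * Real.exp (ψ x - Φ x)) / ENNReal.ofReal (b x) ∂μ ≤ K) :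
    ∃ F : M → ℂ, Hol F ∧ ∫⁻ x, ENNReal.ofReal (‖F x - G x‖ ^ 2 * (Real.exp (ψ x - Φ x) / q x)) /
        ENNReal.ofReal (b x) ∂μ ≤ K := by
  by_cases hKt : K = ∞
  · subst hKt
    exact ⟨fun _ => 0, fun e _ => differentiableOn_const _, le_top⟩
  have hq0 : ∀ x, 0 < q x := fun x => by have := hq2 x; linarith
  have hδ : ∀ k : ℕ, (0 : ℝ) < 1 / ((k : ℝ) + 1) := fun k => by positivity
  have hmono : ∀ x {k k' : ℕ}, k ≤ k' → (b x + 1 / ((k : ℝ) + 1))⁻¹ ≤
      (b x + 1 / ((k' : ℝ) + 1))⁻¹ := by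
    intro x k k' hkk'
    have h1 := hb.nonneg x
    have h2 := hδ k'
    have h3 : 1 / ((k' : ℝ) + 1) ≤ 1 / ((k : ℝ) + 1) := by
      apply one_div_le_one_div_of_le (by positivity)
      have : (k : ℝ) ≤ k' := by exact_mod_cast hkk'
      linarith
    exact inv_anti₀ (by positivity) (by linarith)
  choose F hF hFb using fun k : ℕ =>
    twU_psh hμ hρ hcpt hL hc1 hΦ hψ hq hq2 hpos hG hk (hb.psh _ (hδ k)) hKt (by
      refine le_trans (lintegral_mono fun x => ?_) hK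
      rw [exp_neg_log (hb.nonneg x) (hδ k), ENNReal.div_eq_inv_mul, mul_comm]
      refine mul_le_mul_left ?_ _
      rw [ENNReal.ofReal_inv_of_pos (add_pos_of_nonneg_of_pos (hb.nonneg x) (hδ k))]
      refine ENNReal.inv_le_inv.2 (ENNReal.ofReal_le_ofReal ?_)
      linarith [hδ k])
  have hcont : Continuous (fun x => Real.exp (ψ x - Φ x) / q x) :=
    Continuous.div (Real.continuous_exp.comp (hψ.continuous.sub hΦ.continuous)) hq.continuous
      fun x => (hq0 x).ne'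
  have hbm : ∀ k : ℕ, UpperSemicontinuous (fun x => Real.log (b x + 1 / ((k : ℝ) + 1))) :=
    fun k => (hb.psh _ (hδ k)).usc
  obtain ⟨F0, hF0, -, hbd⟩ := limW (Ω := fun _ : ℕ => (univ : Set M)) hμ
    (fun _ => isOpen_univ) (fun _ _ _ => le_rfl) (fun C _ => ⟨0, subset_univ C⟩) hG.continuous
    (fun k => HolOn.of_hol (hF k) univ)
    (W := fun k x => ENNReal.ofReal (Real.exp (ψ x - Φ x) / q x *
      Real.exp (-Real.log (b x + 1 / ((k : ℝ) + 1)))))
    (fun x k k' hkk' => by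
      refine ENNReal.ofReal_le_ofReal (mul_le_mul_of_nonneg_left ?_
        (div_nonneg (Real.exp_pos _).le (hq0 _).le))
      rw [exp_neg_log (hb.nonneg x) (hδ k), exp_neg_log (hb.nonneg x) (hδ k')]
      exact hmono x hkk')
    (fun k => (hcont.measurable.mul
      (Real.measurable_exp.comp (hbm k).measurable.neg)).ennreal_ofReal)
    (fun x => by
      have h2 : 0 < Real.exp (ψ x - Φ x) / q x := div_pos (Real.exp_pos _) (hq0 _)
      set u : M → ℝ := fun x => Real.log (b x + 1 / (((0 : ℕ) : ℝ) + 1)) with hu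
      refine ⟨0, ENNReal.ofReal (Real.exp (ψ x - Φ x) / q x / 2 * Real.exp (-(u x + 1))),
        ENNReal.ofReal_pos.2 (by positivity), ?_⟩
      filter_upwards [hcont.continuousAt.eventually (lt_mem_nhds (half_lt_self h2)),
        hbm 0 x (u x + 1) (by simp only [hu]; linarith)] with y hy1 hy2
      exact ENNReal.ofReal_le_ofReal (mul_le_mul hy1.le (Real.exp_le_exp.2 (neg_le_neg hy2.le))
        (Real.exp_pos _).le (div_nonneg (Real.exp_pos _).le (hq0 _).le)))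
    hKt (fun k => by
      rw [Measure.restrict_univ]
      exact hFb k)
  refine ⟨F0, hF0, le_trans (le_of_eq ?_) hbd⟩
  refine lintegral_congr fun x => ?_
  have h1 : ∀ k : ℕ, ENNReal.ofReal (Real.exp (ψ x - Φ x) / q x *
      Real.exp (-Real.log (b x + 1 / ((k : ℝ) + 1)))) =
      ENNReal.ofReal (Real.exp (ψ x - Φ x) / q x) *
        ENNReal.ofReal ((b x + 1 / ((k : ℝ) + 1))⁻¹) := by
    intro k
    rw [exp_neg_log (hb.nonneg x) (hδ k),
      ENNReal.ofReal_mul (div_nonneg (Real.exp_pos _).le (hq0 _).le)]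
  simp only [h1]
  rw [← ENNReal.mul_iSup, iSup_inv_eq (hb.nonneg x), ENNReal.ofReal_mul (by positivity), ENNReal.div_eq_inv_mul]
  ring

/-- **engine with a singular psh weight** -/
theorem engU (hμ : IsLeb μ) {ρ : M → ℝ} (hρ : Sm ρ)
    (hcpt : ∀ t : ℝ, IsCompact {x | ρ x ≤ t}) (hL : ∀ x w, nsq w ≤ Levi ρ x w)
    {ψ : M → ℝ} (hψ : Sm ψ) (hpos : ∀ x w, 0 ≤ Levi ψ x w) {G : M → ℂ} (hG : Sm G) {κ : M → ℝ}
    (hk : ∀ x (w : Fin n → ℂ), ‖∑ j, db j G x * conj (w j)‖ ^ 2 ≤ κ x * Levi ψ x w)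
    {b : M → ℝ} (hb : LPsh b) {K : ℝ≥0∞}
    (hK : ∫⁻ x, ENNReal.ofReal (κ x * Real.exp (-ψ x)) / ENNReal.ofReal (b x) ∂μ ≤ K) :
    ∃ F : M → ℂ, Hol F ∧ ∫⁻ x, ENNReal.ofReal (‖F x - G x‖ ^ 2 * Real.exp (-ψ x)) /
        ENNReal.ofReal (b x) ∂μ ≤ 2 * K := by
  have hBt : ∀ x (w : Fin n → ℂ), Bt 2 ψ (fun _ => 0) (fun _ => 2) x w = Levi ψ x w := by
    intro x w
    unfold Bt
    have h0 : D (fun _ : M => ((0 : ℝ) : ℂ)) x = 0 := by
      show fderiv ℝ (fun _ => ((0 : ℝ) : ℂ)) (cp x) = 0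
      exact fderiv_const_apply _
    have h1 : ∀ j : Fin n, dz j (fun _ : M => ((0 : ℝ) : ℂ)) x = 0 := by
      intro j
      unfold dz
      rw [h0]
      simp [wz]
    simp only [h1, mul_zero, Finset.sum_const_zero, norm_zero, add_zero]
    ring
  obtain ⟨F, hF, hFb⟩ := twU (c := 2) hμ hρ hcpt hL (by norm_num) hψ (Sm.const 0) (q := fun _ => 2)
    (Sm.const 2) (fun _ => le_rfl) (fun x w => by rw [hBt]; exact hpos x w) hG
    (κ := κ) (fun x w => by rw [hBt]; exact hk x w) hb (K := K) (by simpa using hK)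
  refine ⟨F, hF, ?_⟩
  calc ∫⁻ x, ENNReal.ofReal (‖F x - G x‖ ^ 2 * Real.exp (-ψ x)) / ENNReal.ofReal (b x) ∂μ
      = ∫⁻ x, 2 * (ENNReal.ofReal (‖F x - G x‖ ^ 2 * (Real.exp (0 - ψ x) / 2)) /
        ENNReal.ofReal (b x)) ∂μ := by
        refine lintegral_congr fun x => ?_
        rw [← mul_div_assoc]
        congr 1
        have h2 : (2 : ℝ≥0∞) = ENNReal.ofReal 2 := by simp
        rw [h2, ← ENNReal.ofReal_mul (by norm_num)]
        congr 1
        rw [zero_sub]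
        ring
    _ = 2 * ∫⁻ x, (ENNReal.ofReal (‖F x - G x‖ ^ 2 * (Real.exp (0 - ψ x) / 2)) /
        ENNReal.ofReal (b x)) ∂μ := lintegral_const_mul' _ _ (by simp)
    _ ≤ 2 * K := by gcongr

end Crest.Agent.R276.EngU_29
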