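import Mathlib
import Crest.Agent.R271.H3_51

/-!
# Row 276 (S0419), IPC = iterated parabolic cohomology: frozen interface (helper735)

* `NDC c` : near-diagonal cocycle `c : X → X → G` (flat bundle with a frame chosen at each point).
* `IsHS w S E` : polarised Hodge structure of weight `w` on `ℂ^N`, Hermitian form `S`, grading operator `E`
  (`E = p` on the type `p` part, `0 ≤ p ≤ w`, `(-1)^p S > 0` there).
* `VHS m X N w` : polarised variation over a Riemann domain `X` (class `RDom m X` of row 271), with a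
  lattice: the transports `P x y : fibre at y → fibre at x` are in `GL_N(ℤ)`.
* `PVHS A N w` : the same over the punctured plane `ℂ \ A`.
* `Punc S k`, `Tot Q` : family of punctured planes over `S` and its total space (`RDom (m+1)`).
* `OneStep` : the one-step theorem.
-/

set_option autoImplicit false

noncomputable section

open Set Filter Topology MeasureTheory Matrix
open Crest.Agent.R271.Ho51

namespace Crest.Agent.R276.Ipc735

/-- near-diagonal cocycle -/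
def NDC {X G : Type*} [TopologicalSpace X] [Group G] (c : X → X → G) : Prop :=
  ∀ z, ∃ U ∈ 𝓝 z, ∀ x ∈ U, ∀ y ∈ U, ∀ w ∈ U, c x y * c y w = c x w

/-- near-diagonal cocycle near the points of `s` -/
def NDCOn {X G : Type*} [TopologicalSpace X] [Group G] (s : Set X) (c : X → X → G) : Prop :=
  ∀ z ∈ s, ∃ U ∈ 𝓝 z, ∀ x ∈ U, ∀ y ∈ U, ∀ w ∈ U, c x y * c y w = c x w

/-- an integral matrix as a complex matrix -/
def cm {N : ℕ} (g : GL (Fin N) ℤ) : Matrix (Fin N) (Fin N) ℂ :=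
  (g : Matrix (Fin N) (Fin N) ℤ).map (fun a : ℤ => (a : ℂ))

/-- polarised Hodge structure of weight `w` on `ℂ^N` given by the flat Hermitian form `S` and the grading
operator `E` -/
structure IsHS {N : ℕ} (w : ℕ) (S E : Matrix (Fin N) (Fin N) ℂ) : Prop where
  herm : S.IsHermitian
  adj : S * E = Eᴴ * S
  eig : Polynomial.aeval E (∏ p ∈ Finset.range (w + 1),
    (Polynomial.X - Polynomial.C (p : ℂ))) = 0
  pos : ∀ (p : ℕ) (v : Fin N → ℂ), p ≤ w → v ≠ 0 → E *ᵥ v = (p : ℂ) • v →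
    0 < (-1 : ℝ) ^ p * (star v ⬝ᵥ S *ᵥ v).re

/-- the projector on the type `p` part -/
def hpr {N : ℕ} (w p : ℕ) (E : Matrix (Fin N) (Fin N) ℂ) : Matrix (Fin N) (Fin N) ℂ :=
  Polynomial.aeval E (Lagrange.basis (Finset.range (w + 1)) (fun q : ℕ => (q : ℂ)) p)

/-- the Weil operator `(-1)^E` -/
def weil {N : ℕ} (w : ℕ) (E : Matrix (Fin N) (Fin N) ℂ) : Matrix (Fin N) (Fin N) ℂ :=
  ∑ p ∈ Finset.range (w + 1), (-1 : ℂ) ^ p • hpr w p E

/-- the Hodge metric `v ↦ vᴴ S (-1)^E v` -/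
def hodge {N : ℕ} (w : ℕ) (S E : Matrix (Fin N) (Fin N) ℂ) : Matrix (Fin N) (Fin N) ℂ :=
  S * weil w E

/-- the endomorphism field `A` seen from `z` (transported to the fibre at `z`) -/
def lM {X : Type*} {N : ℕ} (P : X → X → GL (Fin N) ℤ) (A : X → Matrix (Fin N) (Fin N) ℂ) (z y : X) :
    Matrix (Fin N) (Fin N) ℂ := cm (P z y) * A y * cm (P z y)⁻¹

/-- the section `φ` seen from `z` -/
def lV {X : Type*} {N : ℕ} (P : X → X → GL (Fin N) ℤ) (φ : X → Fin N → ℂ) (z y : X) : Fin N → ℂ :=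
  cm (P z y) *ᵥ φ y

/-! ### over a Riemann domain -/

section RD

variable {m : ℕ} {X : Type*} [TopologicalSpace X] [RDom m X]

/-- smooth at a point -/
def SmAt {G : Type*} [NormedAddCommGroup G] [NormedSpace ℝ G] (f : X → G) (z : X) : Prop :=
  ContDiffAt ℝ (⊤ : ℕ∞) (f ∘ (ch z).symm) (cp z)

/-- holomorphic (analytic) at a point -/
def HolAt {G : Type*} [NormedAddCommGroup G] [NormedSpace ℂ G] (f : X → G) (z : X) : Prop :=
  AnalyticAt ℂ (f ∘ (ch z).symm) (cp z)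

/-- `∂/∂z_j` at `z` of the endomorphism field `A` (flat connection), in the frame at `z` -/
def dM {N : ℕ} (P : X → X → GL (Fin N) ℤ) (A : X → Matrix (Fin N) (Fin N) ℂ) (j : Fin m) (z : X) :
    Matrix (Fin N) (Fin N) ℂ := Matrix.of fun i k => dz j (fun y => lM P A z y i k) z

end RD

/-- polarised variation of Hodge structure of weight `w`, rank `N`, with a lattice, over a Riemann
domain `X` over `ℂ^m` -/
structure VHS (m : ℕ) (X : Type*) [TopologicalSpace X] [RDom m X] (N w : ℕ) where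
  P : X → X → GL (Fin N) ℤ
  S : X → Matrix (Fin N) (Fin N) ℂ
  E : X → Matrix (Fin N) (Fin N) ℂ
  ndc : NDC P
  hs : ∀ x, IsHS w (S x) (E x)
  flatS : ∀ z, ∀ᶠ y in 𝓝 z, S y = (cm (P z y))ᴴ * S z * cm (P z y)
  smE : ∀ z i k, SmAt (fun y => lM P E z y i k) z
  tr : ∀ z j, E z * dM P E j z - dM P E j z * E z = - dM P E j z

/-- flat action of a group `Γ` on a `VHS` by automorphisms of the lattice, the form and the Hodge
structures -/
structure Act {m : ℕ} {X : Type*} [TopologicalSpace X] [RDom m X] {N w : ℕ} (V : VHS m X N w)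
    (Γ : Type) [Group Γ] where
  ρ : Γ → X → GL (Fin N) ℤ
  mul : ∀ g h x, ρ (g * h) x = ρ g x * ρ h x
  flat : ∀ g z, ∀ᶠ y in 𝓝 z, V.P z y * ρ g y = ρ g z * V.P z y
  commE : ∀ g x, cm (ρ g x) * V.E x = V.E x * cm (ρ g x)
  presS : ∀ g x, (cm (ρ g x))ᴴ * V.S x * cm (ρ g x) = V.S x

/-! ### over a punctured plane -/

/-- `∂/∂x` for functions on `ℂ` with values in a complex vector space -/
def wz {F : Type*} [NormedAddCommGroup F] [NormedSpace ℂ F] (f : ℂ → F) (z : ℂ) : F :=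
  (1 / 2 : ℂ) • (fderiv ℝ f z 1 - Complex.I • fderiv ℝ f z Complex.I)

/-- `∂/∂\bar x` -/
def wb {F : Type*} [NormedAddCommGroup F] [NormedSpace ℂ F] (f : ℂ → F) (z : ℂ) : F :=
  (1 / 2 : ℂ) • (fderiv ℝ f z 1 + Complex.I • fderiv ℝ f z Complex.I)

/-- `∂/∂x` at `z` of an endomorphism field, in the frame at `z` -/
def wM {N : ℕ} (P : ℂ → ℂ → GL (Fin N) ℤ) (A : ℂ → Matrix (Fin N) (Fin N) ℂ) (z : ℂ) :
    Matrix (Fin N) (Fin N) ℂ := Matrix.of fun i k => wz (fun y => lM P A z y i k) z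

/-- polarised variation with lattice over `ℂ \ A` -/
structure PVHS (A : Finset ℂ) (N w : ℕ) where
  P : ℂ → ℂ → GL (Fin N) ℤ
  S : ℂ → Matrix (Fin N) (Fin N) ℂ
  E : ℂ → Matrix (Fin N) (Fin N) ℂ
  ndc : NDCOn (A : Set ℂ)ᶜ P
  hs : ∀ x ∉ A, IsHS w (S x) (E x)
  flatS : ∀ z ∉ A, ∀ᶠ y in 𝓝 z, S y = (cm (P z y))ᴴ * S z * cm (P z y)
  smE : ∀ z ∉ A, ∀ i k, ContDiffAt ℝ (⊤ : ℕ∞) (fun y => lM P E z y i k) z
  tr : ∀ z ∉ A, E z * wM P E z - wM P E z * E z = - wM P E z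

namespace PVHS

variable {A : Finset ℂ} {N w : ℕ} (V : PVHS A N w)

/-- Hodge metric at `x` -/
def H (x : ℂ) : Matrix (Fin N) (Fin N) ℂ := hodge w (V.S x) (V.E x)

/-- smooth sections -/
def Sm (φ : ℂ → Fin N → ℂ) : Prop :=
  ∀ z ∉ A, ContDiffAt ℝ (⊤ : ℕ∞) (lV V.P φ z) z

/-- holomorphic sections (of the flat bundle) -/
def Ho (φ : ℂ → Fin N → ℂ) : Prop := ∀ z ∉ A, AnalyticAt ℂ (lV V.P φ z) z

/-- `dx`-component of the flat derivative -/
def d1 (φ : ℂ → Fin N → ℂ) (z : ℂ) : Fin N → ℂ := wz (lV V.P φ z) z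

/-- `d\bar x`-component of the flat derivative -/
def d2 (φ : ℂ → Fin N → ℂ) (z : ℂ) : Fin N → ℂ := wb (lV V.P φ z) z

/-- the one-form `a dx + b d\bar x` is closed -/
def Closed (a b : ℂ → Fin N → ℂ) : Prop := ∀ z ∉ A, V.d2 a z = V.d1 b z

/-- square of the Hodge norm of a section at a point -/
def nsq (φ : ℂ → Fin N → ℂ) (z : ℂ) : ℝ := (star (φ z) ⬝ᵥ V.H z *ᵥ φ z).re

/-- the one-form `a dx + b d\bar x` is exact on the open set `U` minus the punctures -/
def ExactOn (U : Set ℂ) (a b : ℂ → Fin N → ℂ) : Prop :=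
  ∃ φ : ℂ → Fin N → ℂ, ∀ z ∈ U, z ∉ A → ContDiffAt ℝ (⊤ : ℕ∞) (lV V.P φ z) z ∧
    V.d1 φ z = a z ∧ V.d2 φ z = b z

/-- parabolic closed one-forms: exact near each puncture, including infinity -/
def Par (a b : ℂ → Fin N → ℂ) : Prop :=
  (∀ p ∈ A, ∃ U ∈ 𝓝 p, V.ExactOn U a b) ∧ ∃ R : ℝ, V.ExactOn {z | R < ‖z‖} a b

/-- the top piece: `L²` holomorphic one-forms `f dx` with values in the type `w` part -/
structure Top (f : ℂ → Fin N → ℂ) : Prop where
  zero : ∀ z ∈ A, f z = 0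
  eig : ∀ z ∉ A, V.E z *ᵥ f z = (w : ℂ) • f z
  hol : V.Ho f
  int : IntegrableOn (V.nsq f) ((A : Set ℂ)ᶜ)

end PVHS

/-! ### families of punctured planes -/

/-- a family of `k` punctures over `S`, locally given by holomorphic functions -/
structure Punc {m : ℕ} (S : Type*) [TopologicalSpace S] [RDom m S] (k : ℕ) where
  A : S → Finset ℂ
  loc : ∀ s₀, ∃ a : Fin k → S → ℂ, (∀ i, HolAt (a i) s₀) ∧ ∀ᶠ s in 𝓝 s₀,
    Function.Injective (fun i => a i s) ∧ A s = Finset.univ.image (fun i => a i s)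

/-- the total space -/
def Tot {m : ℕ} {S : Type*} [TopologicalSpace S] [RDom m S] {k : ℕ} (Q : Punc S k) : Type _ :=
  {q : S × ℂ // q.2 ∉ Q.A q.1}

instance {m : ℕ} {S : Type*} [TopologicalSpace S] [RDom m S] {k : ℕ} (Q : Punc S k) :
    TopologicalSpace (Tot Q) := inferInstanceAs (TopologicalSpace {q : S × ℂ // q.2 ∉ Q.A q.1})

section tot

variable {m : ℕ} {S : Type*} [TopologicalSpace S] [RDom m S] {k : ℕ}

lemma HolAt.continuousAt {G : Type*} [NormedAddCommGroup G] [NormedSpace ℂ G] {f : S → G} {z : S}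
    (h : HolAt f z) : ContinuousAt f z := by
  have h1 : ContinuousAt (f ∘ (ch z).symm) (cp z) := AnalyticAt.continuousAt h
  have h2 : ContinuousAt (fun y => (f ∘ (ch z).symm) (cp y)) z :=
    ContinuousAt.comp (g := f ∘ (ch z).symm) h1 cp_cont.continuousAt
  exact h2.congr (eventually_eq_comp (isCh_ch z) (mem_ch z) f).symm

lemma isOpen_tot (Q : Punc S k) : IsOpen {q : S × ℂ | q.2 ∉ Q.A q.1} := by
  rw [isOpen_iff_mem_nhds]
  rintro ⟨s₀, x₀⟩ hq
  obtain ⟨a, ha, hloc⟩ := Q.loc s₀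
  have h1 : ∀ᶠ q : S × ℂ in 𝓝 (s₀, x₀), Q.A q.1 = Finset.univ.image (fun i => a i q.1) :=
    (continuous_fst.continuousAt (x := (s₀, x₀))).eventually (hloc.mono fun s hs => hs.2)
  have h0 : Q.A s₀ = Finset.univ.image (fun i => a i s₀) := (hloc.self_of_nhds).2
  have h2 : ∀ᶠ q : S × ℂ in 𝓝 (s₀, x₀), ∀ i, q.2 ≠ a i q.1 := by
    rw [Filter.eventually_all]
    intro i
    have hc : ContinuousAt (fun q : S × ℂ => q.2 - a i q.1) (s₀, x₀) := by
      refine continuousAt_snd.sub ?_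
      exact ContinuousAt.comp (g := a i) (ha i).continuousAt continuousAt_fst
    have hne : x₀ - a i s₀ ≠ 0 := by
      intro h
      apply hq
      show x₀ ∈ Q.A s₀
      rw [h0]
      exact Finset.mem_image.mpr ⟨i, Finset.mem_univ _, (sub_eq_zero.mp h).symm⟩
    have h3 := hc.eventually_ne hne
    filter_upwards [h3] with q hq
    exact sub_ne_zero.mp hq
  filter_upwards [h1, h2] with q hq1 hq2
  show q.2 ∉ Q.A q.1
  rw [hq1]
  intro h
  obtain ⟨i, _, hi⟩ := Finset.mem_image.mp h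
  exact hq2 i hi.symm

/-- the coordinates on the total space: coordinate `0` is the fibre coordinate, the others are the
coordinates of the base -/
def totp (q : S × ℂ) : Fin (m + 1) → ℂ := Fin.cons q.2 (cp q.1)

lemma totp_lh : IsLocalHomeomorph (totp : S × ℂ → (Fin (m + 1) → ℂ)) := by
  let c : ((Fin m → ℂ) × ℂ) ≃ₜ (Fin (m + 1) → ℂ) :=
    (Homeomorph.prodComm _ _).trans
      (Fin.consEquivL ℂ (fun _ : Fin (m + 1) => ℂ)).toHomeomorph
  refine IsLocalHomeomorph.mk _ fun q => ?_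
  refine ⟨((ch q.1).prod (OpenPartialHomeomorph.refl ℂ)).trans c.toOpenPartialHomeomorph, ?_, ?_⟩
  · simp [mem_ch]
  · intro y hy
    simp only [OpenPartialHomeomorph.coe_trans, Function.comp_apply,
      OpenPartialHomeomorph.prod_apply, OpenPartialHomeomorph.refl_apply]
    have h1 : (ch q.1) y.1 = cp y.1 := (isCh_ch q.1).apply y.1
    rw [h1]
    rfl

instance (Q : Punc S k) : RDom (m + 1) (Tot Q) where
  p := fun q => totp q.1
  hp := totp_lh.comp (IsOpen.isOpenEmbedding_subtypeVal (isOpen_tot Q)).isLocalHomeomorph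

/-- the point `(s, x)` of the total space -/
def Tot.mk (Q : Punc S k) (s : S) (x : ℂ) (h : x ∉ Q.A s) : Tot Q := ⟨(s, x), h⟩

open Classical in
/-- a function of two points of the total space restricted to the fibre over `s` (junk value `1` on the
punctures) -/
def rP {N : ℕ} (Q : Punc S k) (P : Tot Q → Tot Q → GL (Fin N) ℤ) (s : S) (x y : ℂ) :
    GL (Fin N) ℤ :=
  if h : x ∉ Q.A s ∧ y ∉ Q.A s then P (Tot.mk Q s x h.1) (Tot.mk Q s y h.2) else 1

open Classical in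
/-- a matrix field restricted to the fibre over `s` -/
def rM {N : ℕ} (Q : Punc S k) (B : Tot Q → Matrix (Fin N) (Fin N) ℂ) (s : S) (x : ℂ) :
    Matrix (Fin N) (Fin N) ℂ :=
  if h : x ∉ Q.A s then B (Tot.mk Q s x h) else 0

/-- `R` is the restriction of `V` to the fibre over `s` -/
structure IsRes {N w : ℕ} {Q : Punc S k} (V : VHS (m + 1) (Tot Q) N w) (s : S)
    (R : PVHS (Q.A s) N w) : Prop where
  P : R.P = rP Q V.P s
  S : R.S = rM Q V.S s
  E : R.E = rM Q V.E s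

/-- a family of functions on the fibres as a section over the total space -/
def sec {N : ℕ} {Q : Punc S k} (F : S → ℂ → Fin N → ℂ) : Tot Q → Fin N → ℂ :=
  fun q => F q.1.1 q.1.2

/-- the family `F` is a holomorphic section of `V` at all points of the fibre over `s` -/
def HolFib {N w : ℕ} {Q : Punc S k} (V : VHS (m + 1) (Tot Q) N w) (F : S → ℂ → Fin N → ℂ) (s : S) :
    Prop := ∀ q : Tot Q, q.1.1 = s → HolAt (lV V.P (sec F) q) q

end tot

/-- **One-step theorem.** `W` is the parabolic cohomology `H¹` of the fibres with values in `V`; `cl s`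
identifies the `L²` holomorphic one-forms with values in the top piece of `V` with the top piece of
`W`. -/
def OneStep : Prop :=
  ∀ (m k N w : ℕ) (S : Type) [TopologicalSpace S] [T2Space S] [PreconnectedSpace S] [RDom m S]
    (Q : Punc S k) (V : VHS (m + 1) (Tot Q) N w) (Γ : Type) [Group Γ] (ρ : Act V Γ)
    (R : ∀ s : S, PVHS (Q.A s) N w), (∀ s, IsRes V s (R s)) →
    ∃ (N' : ℕ) (W : VHS m S N' (w + 1)) (ρ' : Act W Γ)
      (cl : ∀ _ : S, (ℂ → Fin N → ℂ) → (Fin N' → ℂ)),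
      (∀ s f g, (R s).Top f → (R s).Top g → cl s (f + g) = cl s f + cl s g) ∧
      (∀ s (c : ℂ) f, (R s).Top f → cl s (c • f) = c • cl s f) ∧
      (∀ s f, (R s).Top f → W.E s *ᵥ cl s f = ((w + 1 : ℕ) : ℂ) • cl s f) ∧
      (∀ s v, W.E s *ᵥ v = ((w + 1 : ℕ) : ℂ) • v → ∃ f, (R s).Top f ∧ cl s f = v) ∧
      (∀ s f, (R s).Top f →
        (star (cl s f) ⬝ᵥ hodge (w + 1) (W.S s) (W.E s) *ᵥ cl s f).re =
          ∫ z in ((Q.A s : Set ℂ)ᶜ), (R s).nsq f z) ∧
      (∀ s g f, (R s).Top f →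
        cl s (fun x => rM Q (fun q => cm (ρ.ρ g q)) s x *ᵥ f x) = cm (ρ'.ρ g s) *ᵥ cl s f) ∧
      (∀ (s₀ : S) (F : S → ℂ → Fin N → ℂ), (∀ᶠ s in 𝓝 s₀, (R s).Top (F s)) →
        (∀ᶠ s in 𝓝 s₀, HolFib V F s) → HolAt (lV W.P (fun s => cl s (F s)) s₀) s₀) ∧
      (∀ (s₀ : S) (v : S → Fin N' → ℂ) (F : S → ℂ → Fin N → ℂ),
        HolAt (lV W.P v s₀) s₀ → (∀ᶠ s in 𝓝 s₀, W.E s *ᵥ v s = ((w + 1 : ℕ) : ℂ) • v s) →
        (∀ᶠ s in 𝓝 s₀, (R s).Top (F s) ∧ cl s (F s) = v s) → ∀ᶠ s in 𝓝 s₀, HolFib V F s)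

/-- entrywise `∂/∂x` of a matrix valued function -/
def wE {N : ℕ} (E : ℂ → Matrix (Fin N) (Fin N) ℂ) (z : ℂ) : Matrix (Fin N) (Fin N) ℂ :=
  Matrix.of fun i k => wz (fun y => E y i k) z

/-- **Normal form near an end** (`w = log x`, half plane `Re w < -s0`, flat frame `ℂ^N`, monodromy `T`). -/
structure EndNF (N wt : ℕ) (s0 : ℝ) where
  T : GL (Fin N) ℤ
  S : Matrix (Fin N) (Fin N) ℂ
  E : ℂ → Matrix (Fin N) (Fin N) ℂ
  hs : ∀ u : ℂ, u.re < -s0 → IsHS wt S (E u)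
  smE : ∀ u : ℂ, u.re < -s0 → ∀ i k, ContDiffAt ℝ (⊤ : ℕ∞) (fun y => E y i k) u
  tr : ∀ u : ℂ, u.re < -s0 → E u * wE E u - wE E u * E u = - wE E u
  per : ∀ u : ℂ, u.re < -s0 → E (u + 2 * Real.pi * Complex.I) = cm T * E u * cm T⁻¹
  TS : (cm T)ᴴ * S * cm T = S

end Crest.Agent.R276.Ipc735
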