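import Mathlib
import Crest.Agent.R271.Alg_956
import Crest.Agent.R271.Rd8_692

/-!
Row 276 (S0419), MOD: affine models of finitely generated fields, étale over `ℂ[z]`
(helper987).

`Mdl K n`: a finitely generated `ℂ`-subalgebra `B` of the field `K` with `Frac B = K`, together
with `z : Fin n → B` étale, `B` standard étale over `ℂ[z]` and finite over `ℂ[z][1/h]`.
`exists_mdl`: models exist for all prescribed transcendence bases, with finitely many prescribed
elements (units), `h` divisible by a prescribed polynomial.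
-/

set_option autoImplicit false

open Polynomial

noncomputable section

namespace Crest.Agent.R276.Mod1_987

open Crest.Agent.R271.Defs710 Crest.Agent.R271.Alg255

/-! ### standard étale presentations -/

section std

variable {R B : Type} [CommRing R] [CommRing B] [Algebra R B]

/-- standard étale presentation from a monic polynomial with a Bezout relation -/
def presOf (μ : R[X]) (θ : B) (g : R) (hm : μ.Monic) (h0 : aeval θ μ = 0)
    (hu : IsUnit (algebraMap R B g))
    (hb : ∃ a b : R[X], a * μ + b * derivative μ = C g)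
    (hmin : ∀ q : R[X], aeval θ q = 0 → μ ∣ q)
    (hgen : ∀ b : B, ∃ (k : ℕ) (q : R[X]), algebraMap R B (g ^ k) * b = aeval θ q) :
    StandardEtalePresentation R B where
  f := μ
  monic_f := hm
  g := C g
  cond := by
    obtain ⟨a, b, hab⟩ := hb
    exact ⟨b, a, 1, by rw [pow_one, ← hab]; ring⟩
  x := θ
  hasMap := ⟨h0, by simpa using hu⟩
  lift_bijective := by
    set P : StandardEtalePair R := ⟨μ, hm, C g, by
      obtain ⟨a, b, hab⟩ := hb
      exact ⟨b, a, 1, by rw [pow_one, ← hab]; ring⟩⟩ with hP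
    have hmap : P.HasMap θ := ⟨h0, by simpa [hP] using hu⟩
    change Function.Bijective (P.lift θ hmap)
    constructor
    · rw [injective_iff_map_eq_zero]
      intro w hw
      let Q : StandardEtalePresentation R P.Ring := ⟨P, P.X, P.hasMap_X, by
        simpa [StandardEtalePair.lift_X_left] using Function.bijective_id⟩
      obtain ⟨p, k, hp⟩ := Q.exists_mul_aeval_x_g_pow_eq_aeval_x w
      have hp' : w * (aeval P.X P.g) ^ k = aeval P.X p := hp
      have h1 := congrArg (P.lift θ hmap) hp'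
      rw [map_mul, hw, zero_mul, ← aeval_algHom_apply, StandardEtalePair.lift_X] at h1
      obtain ⟨c, hc⟩ := hmin p h1.symm
      have h2 : aeval P.X p = 0 := by
        rw [hc, map_mul]
        have : aeval P.X μ = 0 := P.hasMap_X.1
        rw [this, zero_mul]
      rw [h2] at hp'
      have h3 : IsUnit ((aeval P.X P.g) ^ k) := P.hasMap_X.2.pow k
      exact h3.mul_left_eq_zero.mp hp'
    · intro b
      obtain ⟨k, q, hq⟩ := hgen b
      have hu' : IsUnit (algebraMap R P.Ring g) := by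
        have := P.hasMap_X.2
        simpa [hP] using this
      obtain ⟨u, hu1⟩ := hu'
      refine ⟨((u⁻¹ ^ k : P.Ringˣ) : P.Ring) * aeval P.X q, ?_⟩
      rw [map_mul, ← aeval_algHom_apply, StandardEtalePair.lift_X, ← hq, ← mul_assoc]
      have h4 : P.lift θ hmap ((u⁻¹ ^ k : P.Ringˣ) : P.Ring) * algebraMap R B (g ^ k) = 1 := by
        rw [← AlgHom.commutes (P.lift θ hmap), ← map_mul, map_pow, ← hu1, ← Units.val_pow_eq_pow_val,
          ← Units.val_mul, ← mul_pow]
        simp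
      rw [h4, one_mul]

end std

/-! ### localisation of a subalgebra of a field -/

section loc

variable {K : Type} [Field K] [Algebra ℂ K]

/-- `B₀[1/H]` inside `K` -/
def locSub (B0 : Subalgebra ℂ K) (H : K) (hH : H ∈ B0) : Subalgebra ℂ K where
  carrier := {b | ∃ k : ℕ, H ^ k * b ∈ B0}
  mul_mem' := by
    rintro a b ⟨k, hk⟩ ⟨l, hl⟩
    refine ⟨k + l, ?_⟩
    have h1 : H ^ (k + l) * (a * b) = (H ^ k * a) * (H ^ l * b) := by ring
    rw [h1]
    exact mul_mem hk hl
  add_mem' := by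
    rintro a b ⟨k, hk⟩ ⟨l, hl⟩
    refine ⟨k + l, ?_⟩
    have h1 : H ^ (k + l) * (a + b) = H ^ l * (H ^ k * a) + H ^ k * (H ^ l * b) := by ring
    rw [h1]
    exact add_mem (mul_mem (pow_mem hH l) hk) (mul_mem (pow_mem hH k) hl)
  algebraMap_mem' := fun r => ⟨0, by simp⟩

variable {B0 : Subalgebra ℂ K} {H : K} {hH : H ∈ B0}

lemma mem_locSub {b : K} : b ∈ locSub B0 H hH ↔ ∃ k : ℕ, H ^ k * b ∈ B0 := Iff.rfl

lemma le_locSub : B0 ≤ locSub B0 H hH := fun b hb => ⟨0, by simpa using hb⟩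

lemma inv_mem_locSub (h0 : H ≠ 0) : H⁻¹ ∈ locSub B0 H hH :=
  ⟨1, by rw [pow_one, mul_inv_cancel₀ h0]; exact one_mem _⟩

lemma locSub_eq_adjoin (h0 : H ≠ 0) {S : Set K} (hS : Algebra.adjoin ℂ S = B0) :
    locSub B0 H hH = Algebra.adjoin ℂ (S ∪ {H⁻¹}) := by
  apply le_antisymm
  · rintro b ⟨k, hk⟩
    have h1 : b = (H⁻¹) ^ k * (H ^ k * b) := by
      rw [← mul_assoc, ← mul_pow, inv_mul_cancel₀ h0, one_pow, one_mul]
    rw [h1]
    apply mul_mem
    · have h2 : H⁻¹ ∈ Algebra.adjoin ℂ (S ∪ {H⁻¹}) :=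
        Algebra.subset_adjoin (Or.inr (Set.mem_singleton _))
      exact pow_mem h2 k
    · rw [← hS] at hk
      exact Algebra.adjoin_mono (Set.subset_union_left) hk
  · rw [Algebra.adjoin_le_iff]
    rintro b (hb | hb)
    · apply le_locSub
      rw [← hS]
      exact Algebra.subset_adjoin hb
    · rw [Set.mem_singleton_iff] at hb
      rw [hb]
      exact inv_mem_locSub h0

lemma locSub_fg (h0 : H ≠ 0) (hfg : B0.FG) : (locSub B0 H hH).FG := by
  classical
  obtain ⟨S, hS⟩ := hfg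
  refine ⟨S ∪ {H⁻¹}, ?_⟩
  rw [locSub_eq_adjoin (hH := hH) h0 hS]
  simp

end loc

/-! ### models -/

/-- an affine model of the field `K`, étale over `ℂⁿ` with coordinates `z`, finite over
`ℂ[z][1/h]` -/
structure Mdl (K : Type) [Field K] [Algebra ℂ K] (n : ℕ) where
  /-- the coordinate ring -/
  B : Subalgebra ℂ K
  /-- the étale coordinates -/
  z : Fin n → B
  /-- the polynomial whose zero set is removed from `ℂⁿ` -/
  h : MvPolynomial (Fin n) ℂ
  /-- a primitive element, integral over `ℂ[z]` -/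
  θ : B
  /-- its minimal polynomial -/
  μ : Polynomial (MvPolynomial (Fin n) ℂ)
  ft : Algebra.FiniteType ℂ B
  frac : ∀ a : K, ∃ b c : B, c ≠ 0 ∧ a = (b : K) / c
  h_ne : h ≠ 0
  h_unit : IsUnit (az z h)
  monic : μ.Monic
  root : Polynomial.eval₂ (az z) θ μ = 0
  bez : ∃ a b : Polynomial (MvPolynomial (Fin n) ℂ), a * μ + b * derivative μ = C h
  dvd : ∀ q : Polynomial (MvPolynomial (Fin n) ℂ), Polynomial.eval₂ (az z) θ q = 0 → μ ∣ q
  gen : ∀ b : B, ∃ (k : ℕ) (q : Polynomial (MvPolynomial (Fin n) ℂ)),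
    az z (h ^ k) * b = Polynomial.eval₂ (az z) θ q

namespace Mdl

variable {K : Type} [Field K] [Algebra ℂ K] {n : ℕ} (M : Mdl K n)

instance : Algebra.FiniteType ℂ M.B := M.ft

instance : IsFractionRing M.B K := by
  apply IsFractionRing.of_field
  intro a
  obtain ⟨b, c, _, h⟩ := M.frac a
  exact ⟨b, c, h⟩

lemma az_injective : Function.Injective (az M.z) := by
  rw [injective_iff_map_eq_zero]
  intro p hp
  have h1 : Polynomial.eval₂ (az M.z) M.θ (C p) = 0 := by rw [Polynomial.eval₂_C]; exact hp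
  obtain ⟨c, hc⟩ := M.dvd _ h1
  by_contra hp0
  have hc0 : c ≠ 0 := by
    rintro rfl
    rw [mul_zero, C_eq_zero] at hc
    exact hp0 hc
  have h2 : (M.μ * c).natDegree = 0 := by rw [← hc]; exact natDegree_C p
  rw [M.monic.natDegree_mul' hc0] at h2
  have h3 : M.μ = 1 := by
    apply M.monic.natDegree_eq_zero.mp
    omega
  have h4 := M.root
  rw [h3, Polynomial.eval₂_one] at h4
  exact one_ne_zero h4

/-- `M` is étale over `ℂⁿ` -/
theorem het : RingHom.Etale ((MvPolynomial.aeval M.z : MvPolynomial (Fin n) ℂ →ₐ[ℂ] M.B) :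
    MvPolynomial (Fin n) ℂ →+* M.B) := by
  let _ : Algebra (MvPolynomial (Fin n) ℂ) M.B := (az M.z).toAlgebra
  have P : StandardEtalePresentation (MvPolynomial (Fin n) ℂ) M.B :=
    presOf M.μ M.θ M.h M.monic M.root M.h_unit M.bez M.dvd M.gen
  have : Algebra.IsStandardEtale (MvPolynomial (Fin n) ℂ) M.B := ⟨⟨P⟩⟩
  have h : Algebra.Etale (MvPolynomial (Fin n) ℂ) M.B := inferInstance
  exact h

end Mdl

/-! ### existence -/

section exist

variable {K : Type} [Field K] [Algebra ℂ K] {n : ℕ}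

lemma aeval_mem {B0 : Subalgebra ℂ K} {x : Fin n → K} (hx : ∀ i, x i ∈ B0)
    (p : MvPolynomial (Fin n) ℂ) : MvPolynomial.aeval x p ∈ B0 := by
  have h1 : MvPolynomial.aeval x p = B0.val (MvPolynomial.aeval (fun i => (⟨x i, hx i⟩ : B0)) p) := by
    rw [MvPolynomial.comp_aeval_apply]
    rfl
  rw [h1]
  exact Subtype.property _

lemma az_val {B : Subalgebra ℂ K} (z : Fin n → B) (p : MvPolynomial (Fin n) ℂ) :
    ((az z p : B) : K) = MvPolynomial.aeval (fun i => (z i : K)) p := by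
  have := MvPolynomial.comp_aeval_apply z B.val p
  exact this

lemma eval₂_az_val {B : Subalgebra ℂ K} (z : Fin n → B) (θ : B)
    (q : Polynomial (MvPolynomial (Fin n) ℂ)) :
    ((Polynomial.eval₂ (az z) θ q : B) : K) =
      Polynomial.eval₂ ((MvPolynomial.aeval (fun i => (z i : K)) :
        MvPolynomial (Fin n) ℂ →ₐ[ℂ] K) : MvPolynomial (Fin n) ℂ →+* K) (θ : K) q := by
  have h1 := Polynomial.hom_eval₂ q (az z) (B.val : B →+* K) θ
  have h2 : (B.val : B →+* K).comp (az z) = ((MvPolynomial.aeval (fun i => (z i : K)) :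
        MvPolynomial (Fin n) ℂ →ₐ[ℂ] K) : MvPolynomial (Fin n) ℂ →+* K) :=
    RingHom.ext fun p => az_val z p
  rw [h2] at h1
  exact h1

/-- abbreviation: evaluation of polynomials over `ℂ[x]` in the field `K` -/
abbrev ev2 (x : Fin n → K) (θ : K) (q : Polynomial (MvPolynomial (Fin n) ℂ)) : K :=
  Polynomial.eval₂ ((MvPolynomial.aeval x : MvPolynomial (Fin n) ℂ →ₐ[ℂ] K) :
    MvPolynomial (Fin n) ℂ →+* K) θ q

/-- the primitive element data over a finitely generated algebra `B₀` with fraction field `K` -/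
theorem exists_prim (B0 : Subalgebra ℂ K) (hfg : B0.FG)
    (x : Fin n → K) (hx : ∀ i, x i ∈ B0) (htr : IsTranscendenceBasis ℂ x) :
    ∃ (g : MvPolynomial (Fin n) ℂ) (θ : K) (μ : Polynomial (MvPolynomial (Fin n) ℂ)),
      g ≠ 0 ∧ θ ∈ B0 ∧ μ.Monic ∧ ev2 x θ μ = 0 ∧
      (∃ a b : Polynomial (MvPolynomial (Fin n) ℂ), a * μ + b * derivative μ = C g) ∧
      (∀ q : Polynomial (MvPolynomial (Fin n) ℂ), ev2 x θ q = 0 → μ ∣ q) ∧
      ∀ b ∈ B0, ∃ (k : ℕ) (q : Polynomial (MvPolynomial (Fin n) ℂ)),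
        MvPolynomial.aeval x (g ^ k) * b = ev2 x θ q := by
  let x0 : Fin n → B0 := fun i => ⟨x i, hx i⟩
  have hinj0 : Function.Injective (MvPolynomial.aeval x : MvPolynomial (Fin n) ℂ →ₐ[ℂ] K) :=
    htr.1
  have hinj : Function.Injective (az x0) := by
    intro p q hpq
    apply hinj0
    have h1 := congrArg (fun b : B0 => (b : K)) hpq
    simp only [az_val] at h1
    exact h1
  let _ : Algebra (MvPolynomial (Fin n) ℂ) B0 := (az x0).toAlgebra
  have hmap : algebraMap (MvPolynomial (Fin n) ℂ) B0 = az x0 := rfl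
  have : IsScalarTower ℂ (MvPolynomial (Fin n) ℂ) B0 := by
    refine IsScalarTower.of_algebraMap_eq fun c => ?_
    rw [hmap, MvPolynomial.algebraMap_eq]
    simp [az]
  have : FaithfulSMul (MvPolynomial (Fin n) ℂ) B0 :=
    (faithfulSMul_iff_algebraMap_injective _ _).mpr hinj
  have : Module.IsTorsionFree (MvPolynomial (Fin n) ℂ) B0 := inferInstance
  have hft : Algebra.FiniteType ℂ B0 := (Subalgebra.fg_iff_finiteType B0).mp hfg
  have : Algebra.FiniteType (MvPolynomial (Fin n) ℂ) B0 :=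
    Algebra.FiniteType.of_restrictScalars_finiteType ℂ _ _
  have halg0 : Algebra.IsAlgebraic (Algebra.adjoin ℂ (Set.range x)) K := htr.isAlgebraic
  have : Algebra.IsAlgebraic (MvPolynomial (Fin n) ℂ) B0 := by
    let f : MvPolynomial (Fin n) ℂ →+* Algebra.adjoin ℂ (Set.range x) :=
      ((MvPolynomial.aeval x : MvPolynomial (Fin n) ℂ →ₐ[ℂ] K) :
        MvPolynomial (Fin n) ℂ →+* K).codRestrict (Algebra.adjoin ℂ (Set.range x)) (fun q => by
        rw [Algebra.adjoin_range_eq_range_aeval]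
        exact ⟨q, rfl⟩)
    refine Algebra.IsAlgebraic.of_ringHom_of_comp_eq (S := Algebra.adjoin ℂ (Set.range x)) (B := K)
      f (B0.val : B0 →+* K) ?_ Subtype.val_injective ?_
    · rintro ⟨b, hb⟩
      have hb' := hb
      rw [Algebra.adjoin_range_eq_range_aeval] at hb'
      obtain ⟨p, hp⟩ := hb'
      exact ⟨p, Subtype.ext hp⟩
    · exact RingHom.ext fun p => (az_val x0 p).symm
  obtain ⟨θ, g, hg, hθ, hder, hab, hgen⟩ := exists_theta (MvPolynomial (Fin n) ℂ) B0
  have hev : ∀ q : Polynomial (MvPolynomial (Fin n) ℂ), ((aeval θ q : B0) : K) = ev2 x θ q :=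
    fun q => eval₂_az_val x0 θ q
  refine ⟨g, θ, minpoly (MvPolynomial (Fin n) ℂ) θ, hg, θ.2, minpoly.monic hθ, ?_, hab, ?_, ?_⟩
  · rw [← hev, minpoly.aeval]
    rfl
  · intro q hq
    apply minpoly.isIntegrallyClosed_dvd hθ
    apply Subtype.ext
    rw [hev, hq]
    rfl
  · intro b hb
    obtain ⟨k, q, hq⟩ := hgen ⟨b, hb⟩
    refine ⟨k, q, ?_⟩
    rw [← hev, ← hq]
    change _ = ((az x0 (g ^ k) : B0) : K) * b
    rw [az_val]

/-- the frozen data of a primitive element -/
structure Prim (B0 : Subalgebra ℂ K) (x : Fin n → K) where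
  /-- the polynomial which has to be inverted -/
  g : MvPolynomial (Fin n) ℂ
  /-- the primitive element -/
  θ : K
  /-- its minimal polynomial -/
  μ : Polynomial (MvPolynomial (Fin n) ℂ)
  g_ne : g ≠ 0
  θ_mem : θ ∈ B0
  monic : μ.Monic
  root : ev2 x θ μ = 0
  bez : ∃ a b : Polynomial (MvPolynomial (Fin n) ℂ), a * μ + b * derivative μ = C g
  dvd : ∀ q : Polynomial (MvPolynomial (Fin n) ℂ), ev2 x θ q = 0 → μ ∣ q
  gen : ∀ b ∈ B0, ∃ (k : ℕ) (q : Polynomial (MvPolynomial (Fin n) ℂ)),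
    MvPolynomial.aeval x (g ^ k) * b = ev2 x θ q

theorem nonempty_prim (B0 : Subalgebra ℂ K) (hfg : B0.FG)
    (x : Fin n → K) (hx : ∀ i, x i ∈ B0) (htr : IsTranscendenceBasis ℂ x) :
    Nonempty (Prim B0 x) := by
  obtain ⟨g, θ, μ, h1, h2, h3, h4, h5, h6, h7⟩ := exists_prim B0 hfg x hx htr
  exact ⟨⟨g, θ, μ, h1, h2, h3, h4, h5, h6, h7⟩⟩

/-- the model attached to a primitive element and a multiple `h ≠ 0` of `g` -/
def mkMdl {B0 : Subalgebra ℂ K} (hfg : B0.FG)
    (hfrac : ∀ a : K, ∃ b ∈ B0, ∃ c ∈ B0, c ≠ 0 ∧ a = b / c) {x : Fin n → K}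
    (hx : ∀ i, x i ∈ B0) (hx0 : AlgebraicIndependent ℂ x)
    (P : Prim B0 x) (h : MvPolynomial (Fin n) ℂ) (h0 : h ≠ 0) (hg : P.g ∣ h) : Mdl K n where
  B := locSub B0 (MvPolynomial.aeval x h) (aeval_mem hx h)
  z := fun i => ⟨x i, le_locSub (hx i)⟩
  h := h
  θ := ⟨P.θ, le_locSub P.θ_mem⟩
  μ := P.μ
  ft := (Subalgebra.fg_iff_finiteType _).mp (locSub_fg (by
    rw [Ne, map_eq_zero_iff _ (hx0 : Function.Injective _)]
    exact h0) hfg)
  frac := by
    intro a
    obtain ⟨b, hb, c, hc, hc0, h⟩ := hfrac a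
    exact ⟨⟨b, le_locSub hb⟩, ⟨c, le_locSub hc⟩, fun h => hc0 (congrArg Subtype.val h), h⟩
  h_ne := h0
  h_unit := by
    have hne : MvPolynomial.aeval x h ≠ 0 := by
      rw [Ne, map_eq_zero_iff _ (hx0 : Function.Injective _)]
      exact h0
    refine IsUnit.of_mul_eq_one (⟨(MvPolynomial.aeval x h)⁻¹, inv_mem_locSub hne⟩ :
      locSub B0 (MvPolynomial.aeval x h) (aeval_mem hx h)) ?_
    apply Subtype.ext
    rw [MulMemClass.coe_mul, az_val]
    exact mul_inv_cancel₀ hne
  monic := P.monic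
  root := by
    apply Subtype.ext
    rw [eval₂_az_val]
    exact P.root
  bez := by
    obtain ⟨a, b, hab⟩ := P.bez
    obtain ⟨e, he⟩ := hg
    refine ⟨C e * a, C e * b, ?_⟩
    rw [he, C_mul, ← hab]
    ring
  dvd := by
    intro q hq
    apply P.dvd
    have h1 := congrArg Subtype.val hq
    rw [eval₂_az_val] at h1
    exact h1
  gen := by
    rintro ⟨b, k, hk⟩
    obtain ⟨l, q, hq⟩ := P.gen _ hk
    obtain ⟨e, he⟩ := hg
    refine ⟨k + l, C (e ^ l) * q, ?_⟩
    apply Subtype.ext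
    rw [MulMemClass.coe_mul, az_val, eval₂_az_val]
    change MvPolynomial.aeval x (h ^ (k + l)) * b = ev2 x P.θ (C (e ^ l) * q)
    rw [ev2, Polynomial.eval₂_mul, Polynomial.eval₂_C]
    have hq' : Polynomial.eval₂ ((MvPolynomial.aeval x : MvPolynomial (Fin n) ℂ →ₐ[ℂ] K) :
        MvPolynomial (Fin n) ℂ →+* K) P.θ q = MvPolynomial.aeval x (P.g ^ l) *
          ((MvPolynomial.aeval x h) ^ k * b) := hq.symm
    rw [hq']
    have h2 : ((MvPolynomial.aeval x : MvPolynomial (Fin n) ℂ →ₐ[ℂ] K) :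
        MvPolynomial (Fin n) ℂ →+* K) (e ^ l) = (MvPolynomial.aeval x e) ^ l := by
      rw [map_pow]; rfl
    rw [h2, map_pow, map_pow, pow_add, he, map_mul]
    ring

/-- a finitely generated algebra with fraction field `K` containing given elements -/
theorem exists_B0 [Algebra.EssFiniteType ℂ K] (S : Finset K) :
    ∃ B0 : Subalgebra ℂ K, B0.FG ∧ (∀ s ∈ S, s ∈ B0) ∧
      ∀ a : K, ∃ b ∈ B0, ∃ c ∈ B0, c ≠ 0 ∧ a = b / c := by
  classical
  obtain ⟨G, hG⟩ := IntermediateField.fg_top ℂ K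
  refine ⟨Algebra.adjoin ℂ ((S ∪ G : Finset K) : Set K), ⟨S ∪ G, rfl⟩, ?_, ?_⟩
  · intro s hs
    exact Algebra.subset_adjoin (by simp [hs])
  · intro a
    have ha : a ∈ IntermediateField.adjoin ℂ (G : Set K) := by rw [hG]; trivial
    rw [IntermediateField.mem_adjoin_iff_div] at ha
    obtain ⟨b, hb, c, hc, hbc⟩ := ha
    have hmono : Algebra.adjoin ℂ (G : Set K) ≤ Algebra.adjoin ℂ ((S ∪ G : Finset K) : Set K) :=
      Algebra.adjoin_mono (by simp)
    by_cases hc0 : c = 0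
    · refine ⟨0, zero_mem _, 1, one_mem _, one_ne_zero, ?_⟩
      rw [hbc, hc0]; simp
    · exact ⟨b, hmono hb, c, hmono hc, hc0, hbc⟩

/-- **(E)** existence of models for every transcendence basis; finitely many prescribed elements
belong, together with their inverses, to the coordinate ring; every sufficiently divisible `h` is
allowed. -/
theorem exists_mdl [Algebra.EssFiniteType ℂ K] (x : Fin n → K) (htr : IsTranscendenceBasis ℂ x)
    (S : Finset K) :
    ∃ g : MvPolynomial (Fin n) ℂ, g ≠ 0 ∧ ∀ h : MvPolynomial (Fin n) ℂ, h ≠ 0 → g ∣ h →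
      ∃ M : Mdl K n, M.h = h ∧ (∀ i, (M.z i : K) = x i) ∧ ∀ s ∈ S, s ∈ M.B ∧ s⁻¹ ∈ M.B := by
  classical
  obtain ⟨B0, hfg, hS, hfrac⟩ := exists_B0 (K := K) (S ∪ S.image (fun s => s⁻¹) ∪
    Finset.univ.image x)
  have hx : ∀ i, x i ∈ B0 := fun i => hS _ (by simp)
  obtain ⟨P⟩ := nonempty_prim B0 hfg x hx htr
  refine ⟨P.g, P.g_ne, fun h h0 hg => ⟨mkMdl hfg hfrac hx htr.1 P h h0 hg, rfl, fun i => rfl, ?_⟩⟩
  intro s hs
  refine ⟨le_locSub (hH := aeval_mem hx h) (hS s (by simp [hs])),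
    le_locSub (hH := aeval_mem hx h) (hS _ ?_)⟩
  simp only [Finset.mem_union, Finset.mem_image]
  exact Or.inl (Or.inr ⟨s, hs, rfl⟩)

end exist

end Crest.Agent.R276.Mod1_987
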