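import Mathlib
import Crest.Agent.R276.Mod1_987

/-!
Row 276 (S0419), MOD (helper987), part 2: the space of points of a model.

* `Mdl.Pts`, `RDom`, second countable, `T2`;
* `Mdl.fd` : fibre data over every `ζ` with `h(ζ) ≠ 0`;
* growth of the elements of `B`;
* `Mdl.isCompact_preimage`, `Mdl.isCoveringMap`: `M → {h ≠ 0}` is a finite covering;
* `Mdl.connectedSpace`: `M` is connected.
-/

set_option autoImplicit false

open Polynomial Topology Filter MeasureTheory
open scoped ENNReal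

noncomputable section

namespace Crest.Agent.R276.Mod1_987

open Crest.Agent.R271.Defs710 Crest.Agent.R271.Alg255 Crest.Agent.R271.Rd692
open Crest.Agent.R271.AlgB956 Crest.Agent.R271.Ho51

namespace Mdl

variable {K : Type} [Field K] [Algebra ℂ K] {n : ℕ} (M : Mdl K n)

/-- the points of the model -/
abbrev Pts : Type := M.B →ₐ[ℂ] ℂ

/-- the projection to `ℂⁿ` -/
abbrev pz : M.Pts → Cn n := pr M.z

lemma hch (y : M.Pts) : Nonempty (Chart M.z y) := nonempty_chart M.z M.het y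

instance : RDom n (M.B →ₐ[ℂ] ℂ) := rdom (z := M.z) M.hch

instance : SecondCountableTopology (M.B →ₐ[ℂ] ℂ) := secondCountable_of_ft M.ft

lemma cp_eq (y : M.Pts) : cp y = M.pz y := rfl

/-- standard étale presentation of `B` -/
def pres : @StandardEtalePresentation (MvPolynomial (Fin n) ℂ) M.B _ _ (az M.z).toAlgebra :=
  letI : Algebra (MvPolynomial (Fin n) ℂ) M.B := (az M.z).toAlgebra
  presOf M.μ M.θ M.h M.monic M.root M.h_unit M.bez M.dvd M.gen

lemma apply_az' (y : M.Pts) (p : MvPolynomial (Fin n) ℂ) :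
    y (az M.z p) = MvPolynomial.eval (M.pz y) p := apply_az M.z y _ (fun _ => rfl) p

lemma eval_h_ne (y : M.Pts) : MvPolynomial.eval (M.pz y) M.h ≠ 0 := by
  rw [← M.apply_az']
  exact (M.h_unit.map (y : M.B →+* ℂ)).ne_zero

lemma exists_pt {ζ : Cn n} (hζ : MvPolynomial.eval ζ M.h ≠ 0) {t : ℂ}
    (ht : (M.μ.map (MvPolynomial.eval ζ)).eval t = 0) :
    ∃ y : M.Pts, (∀ i, y (M.z i) = ζ i) ∧ y M.θ = t := by
  let _ : Algebra (MvPolynomial (Fin n) ℂ) M.B := (az M.z).toAlgebra
  obtain ⟨φ, h1, h2⟩ := exists_secHom M.pres ζ t (by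
    rw [eval_map] at ht
    exact ht) (by
    change Polynomial.eval₂ (MvPolynomial.eval ζ) t (C M.h) ≠ 0
    rw [eval₂_C]
    exact hζ)
  have h3 : ∀ p : MvPolynomial (Fin n) ℂ, φ (az M.z p) = MvPolynomial.eval ζ p :=
    fun p => congrArg (fun f : MvPolynomial (Fin n) ℂ →+* ℂ => f p) h1
  have h4 : ∀ c : ℂ, φ (algebraMap ℂ M.B c) = c := by
    intro c
    have := h3 (MvPolynomial.C c)
    rw [MvPolynomial.eval_C] at this
    exact (congrArg φ (MvPolynomial.aeval_C M.z c).symm).trans this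
  refine ⟨{ φ with commutes' := h4 }, fun i => ?_, h2⟩
  have := h3 (MvPolynomial.X i)
  rw [MvPolynomial.eval_X] at this
  exact (congrArg φ (MvPolynomial.aeval_X M.z i).symm).trans this

lemma pt_ext {y y' : M.Pts} (h1 : M.pz y = M.pz y') (h2 : y M.θ = y' M.θ) : y = y' := by
  let _ : Algebra (MvPolynomial (Fin n) ℂ) M.B := (az M.z).toAlgebra
  have h3 : (y : M.B →+* ℂ) = (y' : M.B →+* ℂ) := by
    refine secHom_unique M.pres (M.pz y) (y : M.B →+* ℂ) (y' : M.B →+* ℂ) ?_ ?_ h2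
    · exact RingHom.ext fun p => M.apply_az' y p
    · rw [h1]
      exact RingHom.ext fun p => M.apply_az' y' p
  ext b
  exact congrArg (fun f : M.B →+* ℂ => f b) h3

lemma eval_μ_eq_zero (y : M.Pts) : (M.μ.map (MvPolynomial.eval (M.pz y))).eval (y M.θ) = 0 := by
  have h1 := Polynomial.hom_eval₂ M.μ (az M.z) (y : M.B →+* ℂ) M.θ
  rw [M.root, map_zero] at h1
  have h2 : (y : M.B →+* ℂ).comp (az M.z) = MvPolynomial.eval (M.pz y) :=
    RingHom.ext fun p => M.apply_az' y p
  rw [h2] at h1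
  rw [eval_map]
  exact h1.symm

/-- fibre data over all points with `h ≠ 0` -/
theorem fd : FibData M.z M.θ M.μ M.h where
  monic := M.monic
  g_ne := M.h_ne
  root := M.root
  der := by
    intro h0
    obtain ⟨a, b, hab⟩ := M.bez
    have h1 := congrArg (Polynomial.eval₂ (az M.z) M.θ) hab
    rw [Polynomial.eval₂_add, Polynomial.eval₂_mul, Polynomial.eval₂_mul, M.root,
      Polynomial.eval₂_C] at h1
    have h0' : Polynomial.eval₂ (az M.z) M.θ (derivative M.μ) = 0 := h0
    rw [h0', mul_zero, mul_zero, add_zero] at h1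
    exact M.h_unit.ne_zero h1.symm
  sep := by
    intro ζ hζ
    obtain ⟨a, b, hab⟩ := M.bez
    have h1 := congrArg (Polynomial.map (MvPolynomial.eval ζ)) hab
    rw [Polynomial.map_add, Polynomial.map_mul, Polynomial.map_mul, Polynomial.map_C,
      ← Polynomial.derivative_map] at h1
    refine ⟨C (MvPolynomial.eval ζ M.h)⁻¹ * a.map (MvPolynomial.eval ζ),
      C (MvPolynomial.eval ζ M.h)⁻¹ * b.map (MvPolynomial.eval ζ), ?_⟩
    have h2 : C (MvPolynomial.eval ζ M.h)⁻¹ * C (MvPolynomial.eval ζ M.h) =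
        (1 : Polynomial ℂ) := by
      rw [← C_mul, inv_mul_cancel₀ hζ, C_1]
    linear_combination (C (MvPolynomial.eval ζ M.h)⁻¹) * h1 + h2
  bij := by
    intro ζ hζ
    refine ⟨?_, ?_, ?_⟩
    · intro y hy
      have h1 := M.eval_μ_eq_zero y
      have h2 : M.pz y = ζ := funext hy
      rw [h2] at h1
      exact h1
    · intro y hy y' hy' h
      exact M.pt_ext ((funext hy : M.pz y = ζ).trans (funext hy' : M.pz y' = ζ).symm) h
    · intro t ht
      obtain ⟨y, hy, hyt⟩ := M.exists_pt hζ ht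
      exact ⟨y, hy, hyt⟩

/-- the number of sheets -/
abbrev deg : ℕ := M.μ.natDegree

lemma deg_pos : 0 < M.deg := by
  rw [Nat.pos_iff_ne_zero]
  intro h0
  have h1 := M.monic.natDegree_eq_zero.mp h0
  have h2 := M.root
  rw [h1, Polynomial.eval₂_one] at h2
  exact one_ne_zero h2

lemma card_fib {ζ : Cn n} (hζ : MvPolynomial.eval ζ M.h ≠ 0) :
    Nat.card {y : M.Pts // M.pz y = ζ} = M.deg ∧ Finite {y : M.Pts // M.pz y = ζ} := by
  have e : {y : M.Pts // M.pz y = ζ} ≃ Fib M.z ζ :=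
    Equiv.subtypeEquivRight fun y => ⟨fun h i => congrFun h i, fun h => funext h⟩
  have h1 := natCard_fib M.fd hζ
  have := h1.2
  exact ⟨(Nat.card_congr e).trans h1.1, Finite.of_equiv _ e.symm⟩

lemma surj {ζ : Cn n} (hζ : MvPolynomial.eval ζ M.h ≠ 0) : ∃ y : M.Pts, M.pz y = ζ := by
  have h1 := M.card_fib hζ
  have : Nonempty {y : M.Pts // M.pz y = ζ} := by
    by_contra h
    rw [not_nonempty_iff] at h
    have h2 := M.deg_pos
    rw [← h1.1, Nat.card_of_isEmpty] at h2
    exact lt_irrefl _ h2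
  obtain ⟨y, hy⟩ := this
  exact ⟨y, hy⟩

instance : Nonempty (M.B →ₐ[ℂ] ℂ) := by
  have h1 : ∃ ζ : Cn n, MvPolynomial.eval ζ M.h ≠ 0 := by
    by_contra h
    push Not at h
    exact M.h_ne (MvPolynomial.funext fun ζ => by rw [h ζ, map_zero])
  obtain ⟨ζ, hζ⟩ := h1
  obtain ⟨y, _⟩ := M.surj hζ
  exact ⟨y⟩

/-! ### growth -/

/-- growth of the elements of `B` -/
theorem growth (b : M.B) : ∃ (C : ℝ) (k l : ℕ), 0 ≤ C ∧ ∀ y : M.Pts,
    ‖MvPolynomial.eval (M.pz y) M.h‖ ^ l * ‖y b‖ ≤ C * (1 + ∑ i, ‖y (M.z i)‖ ^ 2) ^ k := by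
  obtain ⟨l, q, hq⟩ := M.gen b
  have hθ : PG M.z M.θ := growth_root M.monic M.root
  have hp : ∀ p : MvPolynomial (Fin n) ℂ, PG M.z (az M.z p) := by
    intro p
    apply PG.adjoin
    rw [Algebra.adjoin_range_eq_range_aeval]
    exact ⟨p, rfl⟩
  have hpow : ∀ k : ℕ, PG M.z (M.θ ^ k) := by
    intro k
    induction k with
    | zero => simpa using PG.const M.z 1
    | succ k ih => rw [pow_succ]; exact ih.mul hθ
  have h1 : PG M.z (Polynomial.eval₂ (az M.z) M.θ q) := by
    rw [Polynomial.eval₂_eq_sum_range]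
    have : ∀ N : ℕ, PG M.z (∑ i ∈ Finset.range N, az M.z (q.coeff i) * M.θ ^ i) := by
      intro N
      induction N with
      | zero => simpa using PG.const M.z 0
      | succ N ih =>
        rw [Finset.sum_range_succ]
        exact ih.add ((hp _).mul (hpow N))
    exact this _
  obtain ⟨C, k, hC, h2⟩ := h1
  refine ⟨C, k, l, hC, fun y => ?_⟩
  have h3 := h2 y
  rw [← hq, map_mul, norm_mul, M.apply_az', map_pow, norm_pow] at h3
  exact h3

/-! ### properness and covering -/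

/-- `M → {h ≠ 0}` is proper -/
theorem isCompact_preimage {S : Set (Cn n)} (hS : IsCompact S)
    (hh : ∀ ζ ∈ S, MvPolynomial.eval ζ M.h ≠ 0) : IsCompact (M.pz ⁻¹' S) := by
  obtain ⟨N, a, ha⟩ := exists_gens M.ft
  choose C k l hC hgr using fun i => M.growth (a i)
  have hb : ∀ i, ∃ D : ℝ, ∀ y : M.Pts, M.pz y ∈ S → ‖y (a i)‖ ≤ D := by
    intro i
    have hcont : ContinuousOn (fun ζ : Cn n => C i * (1 + ∑ j, ‖ζ j‖ ^ 2) ^ (k i) /
        ‖MvPolynomial.eval ζ M.h‖ ^ (l i)) S := by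
      apply ContinuousOn.div
      · fun_prop
      · exact ((MvPolynomial.continuous_eval M.h).norm.pow _).continuousOn
      · intro ζ hζ
        exact pow_ne_zero _ (norm_ne_zero_iff.mpr (hh ζ hζ))
    obtain ⟨D, hD⟩ := hS.exists_bound_of_continuousOn hcont
    refine ⟨D, fun y hy => ?_⟩
    have h1 := hgr i y
    have h2 : 0 < ‖MvPolynomial.eval (M.pz y) M.h‖ ^ (l i) :=
      pow_pos (norm_pos_iff.mpr (M.eval_h_ne y)) _
    have h3 : ‖y (a i)‖ ≤ C i * (1 + ∑ j, ‖M.pz y j‖ ^ 2) ^ (k i) /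
        ‖MvPolynomial.eval (M.pz y) M.h‖ ^ (l i) := by
      rw [le_div_iff₀ h2, mul_comm]
      exact h1
    exact h3.trans ((le_abs_self _).trans (hD _ hy))
  choose D hD using hb
  refine IsCompact.of_isClosed_subset (isCompact_sublevel a ha (∑ i, (D i) ^ 2))
    (hS.isClosed.preimage (continuous_pr M.z)) ?_
  intro y hy
  have h0 : ∑ i, ‖y (a i)‖ ^ 2 ≤ ∑ i, (D i) ^ 2 := by
    apply Finset.sum_le_sum
    intro i _
    have h1 := hD i y hy
    gcongr
  exact h0

/-- the complement of the zero set of `h` -/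
abbrev U : Set (Cn n) := {ζ | MvPolynomial.eval ζ M.h ≠ 0}

lemma isOpen_U : IsOpen M.U :=
  isOpen_ne_fun (MvPolynomial.continuous_eval M.h) continuous_const

/-- the projection onto `{h ≠ 0}` -/
def pU (y : M.Pts) : M.U := ⟨M.pz y, M.eval_h_ne y⟩

@[simp] lemma pU_coe (y : M.Pts) : (M.pU y : Cn n) = M.pz y := rfl

lemma continuous_pU : Continuous M.pU := (continuous_pr M.z).subtype_mk _

instance : LocallyCompactSpace M.U := M.isOpen_U.locallyCompactSpace

theorem isProperMap_pU : IsProperMap M.pU := by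
  rw [isProperMap_iff_isCompact_preimage]
  refine ⟨M.continuous_pU, fun S hS => ?_⟩
  have h1 : IsCompact (Subtype.val '' S : Set (Cn n)) := hS.image continuous_subtype_val
  have h2 := M.isCompact_preimage h1 (by rintro _ ⟨ζ, _, rfl⟩; exact ζ.2)
  convert! h2 using 1
  ext y
  constructor
  · intro hy
    exact ⟨_, hy, rfl⟩
  · rintro ⟨ζ, hζ, h⟩
    have : ζ = M.pU y := Subtype.ext h
    rw [this] at hζ
    exact hζ

theorem isLocalHomeomorph_pU : IsLocalHomeomorph M.pU :=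
  IsLocalHomeomorph.of_comp (g := (Subtype.val : M.U → Cn n)) (f := M.pU)
    (isLocalHomeomorph_pr M.hch) M.isOpen_U.isOpenEmbedding_subtypeVal.isLocalHomeomorph
    M.continuous_pU

/-- `M → {h ≠ 0}` is a finite covering -/
theorem isCoveringMap : IsCoveringMap M.pU := by
  rw [isCoveringMap_iff_isCoveringMapOn_univ]
  apply IsClosedMap.isCoveringMapOn_of_isLocalHomeomorphOn M.isProperMap_pU.isClosedMap
  · intro ζ _
    have h1 := (M.card_fib ζ.2).2
    have e : {y : M.Pts // M.pz y = ζ} ≃ (M.pU ⁻¹' {ζ} : Set M.Pts) :=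
      Equiv.subtypeEquivRight fun y => ⟨fun h => Subtype.ext h, fun h => congrArg Subtype.val h⟩
    exact Set.finite_coe_iff.mp (Finite.of_equiv _ e)
  · exact M.isLocalHomeomorph_pU.isLocalHomeomorphOn

lemma surjective_pU : Function.Surjective M.pU := fun ζ => by
  obtain ⟨y, hy⟩ := M.surj ζ.2
  exact ⟨y, Subtype.ext hy⟩

end Mdl

end Crest.Agent.R276.Mod1_987
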