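import Mathlib
import Crest.Agent.R276.Mod2_987

/-!
Row 276 (S0419), MOD (helper987), part 3: integrals, algebraicity, connectedness.

* `Mdl.lintM_le` : `lintM` of a function bounded by `G ∘ pz`;
* `Mdl.alg_of_growth` : a holomorphic function of polynomial growth in `z` and `1/h` is in `B`;
* `Mdl.ext_of_pts`, `Mdl.eq_of_eventually` : elements of `B` are determined by their values;
* `Mdl.connectedSpace` : `M` is connected.
-/

set_option autoImplicit false

open Polynomial Topology Filter MeasureTheory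
open scoped ENNReal

noncomputable section

namespace Crest.Agent.R276.Mod1_987

open Crest.Agent.R271.Defs710 Crest.Agent.R271.Alg255 Crest.Agent.R271.Rd692
open Crest.Agent.R271.AlgB956 Crest.Agent.R271.Ho51

/-- `∫ (1+|ζ|²)^{-(n+1)} < ∞` -/
lemma lintegral_poly_lt_top (n : ℕ) :
    ∫⁻ ζ : Cn n, ENNReal.ofReal (1 / (1 + ∑ i, ‖ζ i‖ ^ 2) ^ (n + 1)) < ∞ := by
  have hfr : (Module.finrank ℝ (Cn n) : ℝ) < ((2 * n + 2 : ℕ) : ℝ) := by
    have h1 : Module.finrank ℝ (Cn n) = 2 * n := by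
      rw [Module.finrank_pi_fintype]
      simp [Complex.finrank_real_complex, mul_comm]
    rw [h1]
    exact_mod_cast (by omega)
  have h2 := finite_integral_one_add_norm (μ := (volume : Measure (Cn n))) hfr
  refine lt_of_le_of_lt (lintegral_mono (g := fun ζ : Cn n => ENNReal.ofReal (2 ^ (n + 1)) *
    ENNReal.ofReal ((1 + ‖ζ‖) ^ (-((2 * n + 2 : ℕ) : ℝ)))) ?_) ?_
  · intro ζ
    dsimp only
    rw [← ENNReal.ofReal_mul (by positivity)]
    apply ENNReal.ofReal_le_ofReal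
    rw [Real.rpow_neg (by positivity), Real.rpow_natCast, ← div_eq_mul_inv,
      div_le_div_iff₀ (by positivity) (by positivity), one_mul]
    have h3 : ‖ζ‖ ^ 2 ≤ ∑ i, ‖ζ i‖ ^ 2 := by
      have h5 : ‖ζ‖ ≤ Real.sqrt (∑ i, ‖ζ i‖ ^ 2) := by
        rw [pi_norm_le_iff_of_nonneg (Real.sqrt_nonneg _)]
        intro i
        apply Real.le_sqrt_of_sq_le
        exact Finset.single_le_sum (f := fun i => ‖ζ i‖ ^ 2) (fun _ _ => by positivity)
          (Finset.mem_univ i)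
      calc ‖ζ‖ ^ 2 ≤ (Real.sqrt (∑ i, ‖ζ i‖ ^ 2)) ^ 2 := by gcongr
        _ = _ := Real.sq_sqrt (Finset.sum_nonneg fun _ _ => by positivity)
    have h4 : (1 + ‖ζ‖) ^ 2 ≤ 2 * (1 + ∑ i, ‖ζ i‖ ^ 2) := by
      nlinarith [sq_nonneg (‖ζ‖ - 1)]
    calc (1 + ‖ζ‖) ^ (2 * n + 2) = ((1 + ‖ζ‖) ^ 2) ^ (n + 1) := by
          rw [← pow_mul]; congr 1
      _ ≤ (2 * (1 + ∑ i, ‖ζ i‖ ^ 2)) ^ (n + 1) := by gcongr
      _ = _ := by rw [mul_pow]
  · rw [lintegral_const_mul' _ _ ENNReal.ofReal_ne_top]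
    exact ENNReal.mul_lt_top ENNReal.ofReal_lt_top h2

namespace Mdl

variable {K : Type} [Field K] [Algebra ℂ K] {n : ℕ} (M : Mdl K n)

lemma tsum_fib_le (ζ : Cn n) (c : ℝ≥0∞) :
    ∑' _ : {y : M.Pts // ∀ i, y (M.z i) = ζ i}, c ≤ M.deg * c := by
  by_cases hζ : MvPolynomial.eval ζ M.h = 0
  · have : IsEmpty {y : M.Pts // ∀ i, y (M.z i) = ζ i} := by
      refine ⟨fun y => M.eval_h_ne y.1 ?_⟩
      have h1 : M.pz y.1 = ζ := funext y.2
      rw [h1]
      exact hζ
    rw [tsum_empty]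
    exact bot_le
  · have h1 := natCard_fib M.fd hζ
    have := h1.2
    have _ : Fintype (Fib M.z ζ) := Fintype.ofFinite _
    rw [tsum_fintype, Finset.sum_const, Finset.card_univ, ← Nat.card_eq_fintype_card, h1.1,
      nsmul_eq_mul]

/-- `lintM` of a function bounded by a function of `z` -/
theorem lintM_le {g : M.Pts → ℝ≥0∞} {G : Cn n → ℝ≥0∞} (h : ∀ y, g y ≤ G (M.pz y)) :
    lintM M.z g ≤ M.deg * ∫⁻ ζ, G ζ := by
  unfold lintM
  rw [← lintegral_const_mul' _ _ (ENNReal.natCast_ne_top _)]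
  apply lintegral_mono
  intro ζ
  dsimp only
  refine le_trans (ENNReal.tsum_le_tsum fun y => ?_) (M.tsum_fib_le ζ (G ζ))
  have h1 : M.pz y.1 = ζ := funext y.2
  have h2 := h y.1
  rw [h1] at h2
  exact h2

/-- **algebraicity**: a holomorphic function on `M` of polynomial growth in `z` and `1/h` is an
element of `B` -/
theorem alg_of_growth {F : M.Pts → ℂ}
    (hF : ∀ (y : M.Pts) (c : Chart M.z y), AnalyticAt ℂ (fun ζ => F (c.s ζ)) 0)
    {C : ℝ} {k l : ℕ}
    (hgr : ∀ y : M.Pts, ‖F y‖ * ‖MvPolynomial.eval (M.pz y) M.h‖ ^ l ≤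
      C * (1 + ∑ i, ‖M.pz y i‖ ^ 2) ^ k) : ∃ b : M.B, ∀ y : M.Pts, F y = y b := by
  have hu : az M.z M.h ≠ 0 := M.h_unit.ne_zero
  refine Crest.Agent.R271.Alg956.algebraicity_gen M.het hF hu l (2 * k + (n + 1)) ?_
  refine lt_of_le_of_lt (M.lintM_le (G := fun ζ => ENNReal.ofReal (C ^ 2) *
    ENNReal.ofReal (1 / (1 + ∑ i, ‖ζ i‖ ^ 2) ^ (n + 1))) ?_) ?_
  · intro y
    rw [← ENNReal.ofReal_mul (by positivity)]
    apply ENNReal.ofReal_le_ofReal
    have h1 := hgr y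
    have h2 : y (az M.z M.h) = MvPolynomial.eval (M.pz y) M.h := M.apply_az' y _
    rw [h2]
    have h3 : (1 + ∑ i, ‖y (M.z i)‖ ^ 2) = 1 + ∑ i, ‖M.pz y i‖ ^ 2 := rfl
    rw [h3]
    set w := 1 + ∑ i, ‖M.pz y i‖ ^ 2 with hw
    have hw0 : 0 < w := by positivity
    have h4 : ‖F y‖ ^ 2 * ‖MvPolynomial.eval (M.pz y) M.h‖ ^ (2 * l) ≤ C ^ 2 * w ^ (2 * k) := by
      calc ‖F y‖ ^ 2 * ‖MvPolynomial.eval (M.pz y) M.h‖ ^ (2 * l)
          = (‖F y‖ * ‖MvPolynomial.eval (M.pz y) M.h‖ ^ l) ^ 2 := by ring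
        _ ≤ (C * w ^ k) ^ 2 := by gcongr
        _ = _ := by ring
    rw [div_le_iff₀ (by positivity)]
    calc ‖F y‖ ^ 2 * ‖MvPolynomial.eval (M.pz y) M.h‖ ^ (2 * l) ≤ C ^ 2 * w ^ (2 * k) := h4
      _ = _ := by
        have h5 : w ^ (n + 1) ≠ 0 := by positivity
        rw [pow_add _ (2 * k) (n + 1), mul_one_div]
        rw [div_mul_eq_mul_div, eq_div_iff h5]
        ring
  · rw [lintegral_const_mul' _ _ ENNReal.ofReal_ne_top]
    exact ENNReal.mul_lt_top (ENNReal.natCast_lt_top _)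
      (ENNReal.mul_lt_top ENNReal.ofReal_lt_top (lintegral_poly_lt_top n))

/-- elements of `B` are determined by their values -/
theorem ext_of_pts {b c : M.B} (h : ∀ y : M.Pts, y b = y c) : b = c := by
  by_contra hne
  have h1 : b - c ≠ 0 := sub_ne_zero.mpr hne
  obtain ⟨y, _, hy⟩ := Crest.Agent.R271.KT661.exists_point_of_isPrime (⊥ : Ideal M.B)
    (Ideal.isPrime_bot) (b - c) (by simpa using h1)
  apply hy
  rw [map_sub, h y, sub_self]

/-- `M` is connected -/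
instance : PreconnectedSpace (M.B →ₐ[ℂ] ℂ) := by
  classical
  rw [preconnectedSpace_iff_clopen]
  intro s hs
  let F : M.Pts → ℂ := s.indicator 1
  have hF : ∀ (y : M.Pts) (c : Chart M.z y), AnalyticAt ℂ (fun ζ => F (c.s ζ)) 0 := by
    intro y c
    have hcont : ContinuousAt (c.s : Cn n → Pt M.B) 0 :=
      chart_continuousAt c (Metric.mem_ball_self c.r_pos)
    by_cases hy : y ∈ s
    · have h1 : ∀ᶠ ζ in 𝓝 (0 : Cn n), c.s ζ ∈ s := by
        apply hcont.eventually_mem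
        rw [c.s_zero]
        exact hs.isOpen.mem_nhds hy
      refine (analyticAt_const (v := (1 : ℂ))).congr ?_
      filter_upwards [h1] with ζ hζ
      simp [F, hζ]
    · have h1 : ∀ᶠ ζ in 𝓝 (0 : Cn n), c.s ζ ∈ sᶜ := by
        apply hcont.eventually_mem
        rw [c.s_zero]
        exact hs.compl.isOpen.mem_nhds hy
      refine (analyticAt_const (v := (0 : ℂ))).congr ?_
      filter_upwards [h1] with ζ hζ
      have : c.s ζ ∉ s := hζ
      simp [F, this]
  have hgr : ∀ y : M.Pts, ‖F y‖ * ‖MvPolynomial.eval (M.pz y) M.h‖ ^ 0 ≤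
      1 * (1 + ∑ i, ‖M.pz y i‖ ^ 2) ^ 0 := by
    intro y
    simp only [pow_zero, mul_one]
    by_cases hy : y ∈ s <;> simp [F, hy]
  obtain ⟨b, hb⟩ := M.alg_of_growth hF hgr
  have h2 : b * b = b := by
    apply M.ext_of_pts
    intro y
    rw [map_mul, ← hb y]
    by_cases hy : y ∈ s <;> simp [F, hy]
  have h3 : b = 0 ∨ b = 1 := by
    rcases eq_or_ne b 0 with h | h
    · exact Or.inl h
    · right
      exact mul_left_cancel₀ h (by rw [h2, mul_one])
  rcases h3 with rfl | rfl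
  · left
    ext y
    simp only [Set.mem_empty_iff_false, iff_false]
    intro hy
    have := hb y
    rw [map_zero] at this
    simp [F, hy] at this
  · right
    ext y
    simp only [Set.mem_univ, iff_true]
    by_contra hy
    have := hb y
    rw [map_one] at this
    simp [F, hy] at this

instance : ConnectedSpace (M.B →ₐ[ℂ] ℂ) where
  toNonempty := inferInstance

end Mdl

end Crest.Agent.R276.Mod1_987
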