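import Mathlib
import Crest.Agent.R276.SkelDefs_220

/-!
# Row 276 (S0419), AC-OPEN (helper89)

Analytic charts `X : AC M δ i₀` (SkelDefs_220) of a model: continuity, openness and analytic local
inverses at the points where `X.J ≠ 0`.

* `isOpen_PD`, `preconnected`-free facts on `PD`;
* `continuousAt_s`, `continuousOn_s`, `analyticAt_pz`, `analyticOnNhd_J`;
* `map_nhds_eq : X.J ζ ≠ 0 → map X.s (𝓝 ζ) = 𝓝 (X.s ζ)`, `nhds_le`, `isOpen_image`, `isOpenMap`;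
* `exists_inverse`: analytic local inverse `ψ` with `X.s (ψ (pz y)) = y` near `X.s ζ`;
* `eventually_ch`: `X.s ζ' = (ch (X.s ζ)).symm (pz (X.s ζ'))` near `ζ`;
* `analyticAt_comp_iff`: `g` is holomorphic at `X.s ζ` iff `g ∘ X.s` is analytic at `ζ`.
-/

set_option autoImplicit false

open Set Filter Topology

noncomputable section

namespace Crest.Agent.R276.AcOpen_89

open Crest.Agent.R271 Crest.Agent.R271.Defs710 Crest.Agent.R271.Rd692 Crest.Agent.R271.Ho51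
open Crest.Agent.R276.Mod1_987 Crest.Agent.R276.SkelDefs_220

/-! ### the punctured polydisc -/

section pd

variable {n : ℕ}

lemma isOpen_PD (δ : ℝ) (i₀ : Option (Fin n)) : IsOpen (PD δ i₀) := by
  have h1 : PD δ i₀ = {ζ : Cn n | ‖ζ‖ < δ} ∩ ⋂ i : Fin n, {ζ : Cn n | i₀ = some i → ζ i ≠ 0} := by
    ext ζ
    simp [PD]
  rw [h1]
  refine (isOpen_lt continuous_norm continuous_const).inter (isOpen_iInter_of_finite fun i => ?_)
  by_cases h : i₀ = some i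
  · simp only [h, true_imp_iff]
    exact isOpen_ne_fun (continuous_apply i) continuous_const
  · simp only [h, false_imp_iff]
    exact isOpen_univ

lemma PD_mono {δ δ' : ℝ} (h : δ' ≤ δ) (i₀ : Option (Fin n)) : PD δ' i₀ ⊆ PD δ i₀ :=
  fun _ hζ => ⟨hζ.1.trans_le h, hζ.2⟩

lemma PD_none (δ : ℝ) : PD δ (none : Option (Fin n)) = Metric.ball 0 δ := by
  ext ζ
  simp [PD]

lemma PD_subset_ball (δ : ℝ) (i₀ : Option (Fin n)) : PD δ i₀ ⊆ Metric.ball 0 δ := by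
  intro ζ hζ
  simpa using hζ.1

lemma tau_ne {δ : ℝ} {i₀ : Option (Fin n)} {ζ : Cn n} (h : ζ ∈ PD δ i₀) : tau i₀ ζ ≠ 0 := by
  cases i₀ with
  | none => exact one_ne_zero
  | some i => exact h.2 i rfl

lemma PD_eq (δ : ℝ) (i₀ : Option (Fin n)) :
    PD δ i₀ = Metric.ball 0 δ ∩ {ζ : Cn n | tau i₀ ζ ≠ 0} := by
  ext ζ
  constructor
  · intro h
    exact ⟨PD_subset_ball δ i₀ h, tau_ne h⟩
  · rintro ⟨h1, h2⟩
    refine ⟨by simpa using h1, ?_⟩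
    rintro i rfl
    exact h2

lemma differentiable_tau (i₀ : Option (Fin n)) : Differentiable ℂ (tau i₀) := by
  cases i₀ with
  | none => exact differentiable_const _
  | some i => exact differentiable_apply i

lemma analyticOnNhd_tau (i₀ : Option (Fin n)) (s : Set (Cn n)) : AnalyticOnNhd ℂ (tau i₀) s := by
  intro ζ _
  cases i₀ with
  | none => exact analyticAt_const
  | some i => exact (ContinuousLinearMap.proj (R := ℂ) (φ := fun _ : Fin n => ℂ) i).analyticAt ζ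

/-- a monomial function `τ^k G` has no zeros on `PD` -/
lemma Mono.ne_zero {δ : ℝ} {i₀ : Option (Fin n)} {u : Cn n → ℂ} {k : ℤ} (h : Mono δ i₀ u k)
    {ζ : Cn n} (hζ : ζ ∈ PD δ i₀) : u ζ ≠ 0 := by
  obtain ⟨G, _, h2, h3⟩ := h
  rw [h3 ζ hζ]
  exact mul_ne_zero (zpow_ne_zero _ (tau_ne hζ)) (h2 ζ (PD_subset_ball δ i₀ hζ))

end pd

/-! ### charts -/

variable {K : Type} [Field K] [Algebra ℂ K] {n : ℕ} {M : Mdl K n} {δ : ℝ} {i₀ : Option (Fin n)}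

section chart

variable (X : AC M δ i₀)

theorem continuousAt_s {ζ : Cn n} (hζ : ζ ∈ PD δ i₀) : ContinuousAt X.s ζ :=
  continuousAt_iff_ev.mpr fun b => (X.anal b ζ hζ).continuousAt

theorem continuousOn_s : ContinuousOn X.s (PD δ i₀) :=
  fun _ hζ => (continuousAt_s X hζ).continuousWithinAt

theorem analyticAt_pz {ζ : Cn n} (hζ : ζ ∈ PD δ i₀) :
    AnalyticAt ℂ (fun ζ => M.pz (X.s ζ)) ζ :=
  AnalyticAt.pi fun i => X.anal (M.z i) ζ hζ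

theorem analyticOnNhd_pz : AnalyticOnNhd ℂ (fun ζ => M.pz (X.s ζ)) (PD δ i₀) :=
  fun _ hζ => analyticAt_pz X hζ

theorem analyticOnNhd_J : AnalyticOnNhd ℂ X.J (PD δ i₀) := by
  intro ζ hζ
  have h1 : AnalyticAt ℂ (fderiv ℂ (fun ζ => M.pz (X.s ζ))) ζ := (analyticAt_pz X hζ).fderiv
  have h2 : ∀ L : Cn n →L[ℂ] Cn n, L.det =
      (Matrix.of fun i j => L (Pi.single j 1) i).det := by
    intro L
    rw [ContinuousLinearMap.det, ← LinearMap.det_toMatrix']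
    congr 1
  have h3 : X.J = fun ζ => (Matrix.of fun i j =>
      (fderiv ℂ (fun ζ => M.pz (X.s ζ)) ζ) (Pi.single j 1) i).det := by
    funext ζ
    exact h2 _
  rw [h3]
  simp only [Matrix.det_apply']
  refine Finset.analyticAt_fun_sum _ fun σ _ => ?_
  refine analyticAt_const.mul ?_
  refine Finset.analyticAt_fun_prod _ fun i _ => ?_
  simp only [Matrix.of_apply]
  have h4 : AnalyticAt ℂ (fun ζ' => (fderiv ℂ (fun ζ => M.pz (X.s ζ)) ζ') (Pi.single i 1)) ζ :=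
    (ContinuousLinearMap.apply ℂ (Cn n) (Pi.single i 1 : Cn n)).analyticAt _ |>.comp h1
  exact (ContinuousLinearMap.proj (R := ℂ) (φ := fun _ : Fin n => ℂ) (σ i)).analyticAt _ |>.comp h4

/-- the chart in terms of the standard chart of the Riemann domain -/
theorem eventually_ch {ζ : Cn n} (hζ : ζ ∈ PD δ i₀) :
    ∀ᶠ ζ' in 𝓝 ζ, X.s ζ' = (ch (X.s ζ)).symm (M.pz (X.s ζ')) := by
  have h1 : ∀ᶠ ζ' in 𝓝 ζ, X.s ζ' ∈ (ch (X.s ζ)).source :=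
    (continuousAt_s X hζ).eventually_mem ((ch (X.s ζ)).open_source.mem_nhds (mem_ch _))
  filter_upwards [h1] with ζ' h
  have h2 := (ch (X.s ζ)).left_inv h
  rw [(isCh_ch (X.s ζ)).apply] at h2
  exact h2.symm

/-- the derivative of `pz ∘ s` as an equivalence -/
theorem exists_equiv {ζ : Cn n} (hJ : X.J ζ ≠ 0) :
    ∃ L : Cn n ≃L[ℂ] Cn n, (L : Cn n →L[ℂ] Cn n) = fderiv ℂ (fun ζ => M.pz (X.s ζ)) ζ := by
  refine ⟨ContinuousLinearMap.toContinuousLinearEquivOfDetNeZero _ hJ, ?_⟩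
  rfl

theorem hasStrictFDerivAt_pz {ζ : Cn n} (hζ : ζ ∈ PD δ i₀) :
    HasStrictFDerivAt (fun ζ => M.pz (X.s ζ)) (fderiv ℂ (fun ζ => M.pz (X.s ζ)) ζ) ζ :=
  (analyticAt_pz X hζ).hasStrictFDerivAt

theorem map_pz_nhds {ζ : Cn n} (hζ : ζ ∈ PD δ i₀) (hJ : X.J ζ ≠ 0) :
    map (fun ζ => M.pz (X.s ζ)) (𝓝 ζ) = 𝓝 (M.pz (X.s ζ)) := by
  obtain ⟨L, hL⟩ := exists_equiv X hJ
  have h1 := hasStrictFDerivAt_pz X hζ
  rw [← hL] at h1
  exact h1.map_nhds_eq_of_equiv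

/-- **AC charts are open**: `s` maps the neighbourhoods of `ζ` onto the neighbourhoods of `s ζ` -/
theorem map_nhds_eq {ζ : Cn n} (hζ : ζ ∈ PD δ i₀) (hJ : X.J ζ ≠ 0) :
    map X.s (𝓝 ζ) = 𝓝 (X.s ζ) := by
  have h1 : map X.s (𝓝 ζ) = map (fun ζ' => (ch (X.s ζ)).symm (M.pz (X.s ζ'))) (𝓝 ζ) :=
    Filter.map_congr (eventually_ch X hζ)
  have h2 : map (fun ζ' => (ch (X.s ζ)).symm (M.pz (X.s ζ'))) (𝓝 ζ) =
      map (ch (X.s ζ)).symm (map (fun ζ' => M.pz (X.s ζ')) (𝓝 ζ)) := by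
    rw [Filter.map_map]
    rfl
  rw [h1, h2, map_pz_nhds X hζ hJ]
  have h3 : M.pz (X.s ζ) = (ch (X.s ζ)) (X.s ζ) := ((isCh_ch (X.s ζ)).apply _).symm
  rw [h3, (ch (X.s ζ)).symm.map_nhds_eq ((ch (X.s ζ)).map_source (mem_ch _)),
    (ch (X.s ζ)).left_inv (mem_ch _)]

theorem nhds_le {ζ : Cn n} (hζ : ζ ∈ PD δ i₀) (hJ : X.J ζ ≠ 0) :
    𝓝 (X.s ζ) ≤ map X.s (𝓝 ζ) :=
  (map_nhds_eq X hζ hJ).ge

theorem isOpen_image {U : Set (Cn n)} (hU : IsOpen U) (hs : U ⊆ PD δ i₀)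
    (hJ : ∀ ζ ∈ U, X.J ζ ≠ 0) : IsOpen (X.s '' U) := by
  rw [isOpen_iff_mem_nhds]
  rintro _ ⟨ζ, hζ, rfl⟩
  rw [← map_nhds_eq X (hs hζ) (hJ ζ hζ)]
  exact Filter.image_mem_map (hU.mem_nhds hζ)

/-- if `J` is a monomial, the image of the whole chart is open -/
theorem isOpen_image_of_mono {c : ℤ} (hJ : Mono δ i₀ X.J c) {U : Set (Cn n)} (hU : IsOpen U)
    (hs : U ⊆ PD δ i₀) : IsOpen (X.s '' U) :=
  isOpen_image X hU hs fun _ hζ => Mono.ne_zero hJ (hs hζ)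

/-- analytic local inverse -/
theorem exists_inverse {ζ : Cn n} (hζ : ζ ∈ PD δ i₀) (hJ : X.J ζ ≠ 0) :
    ∃ ψ : Cn n → Cn n, AnalyticAt ℂ ψ (M.pz (X.s ζ)) ∧ ψ (M.pz (X.s ζ)) = ζ ∧
      (∀ᶠ ζ' in 𝓝 ζ, ψ (M.pz (X.s ζ')) = ζ') ∧
      (∀ᶠ w in 𝓝 (M.pz (X.s ζ)), M.pz (X.s (ψ w)) = w) ∧
      (∀ᶠ w in 𝓝 (M.pz (X.s ζ)), X.s (ψ w) = (ch (X.s ζ)).symm w) ∧
      ∀ᶠ y in 𝓝 (X.s ζ), X.s (ψ (M.pz y)) = y := by
  obtain ⟨L, hL⟩ := exists_equiv X hJ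
  have h1 := hasStrictFDerivAt_pz X hζ
  rw [← hL] at h1
  have h2 : AnalyticAt ℂ (h1.localInverse _ _ _) (M.pz (X.s ζ)) := by
    have := (analyticAt_pz X hζ).contDiffAt (n := ⊤)
    have h3 : ContDiffAt ℂ ⊤ (h1.localInverse _ _ _) (M.pz (X.s ζ)) := by
      have h4 := ContDiffAt.to_localInverse this (h1.hasFDerivAt) (by simp)
      exact h4
    exact h3.analyticAt
  have h5 : ∀ᶠ ζ' in 𝓝 ζ, (h1.localInverse _ _ _) (M.pz (X.s ζ')) = ζ' :=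
    h1.eventually_left_inverse
  have h6 : ∀ᶠ w in 𝓝 (M.pz (X.s ζ)), M.pz (X.s (h1.localInverse _ _ _ w)) = w :=
    h1.eventually_right_inverse
  have h7 : (h1.localInverse _ _ _) (M.pz (X.s ζ)) = ζ := h1.localInverse_apply_image
  have h8 : ∀ᶠ w in 𝓝 (M.pz (X.s ζ)), X.s (h1.localInverse _ _ _ w) =
      (ch (X.s ζ)).symm w := by
    have h9 : Tendsto (h1.localInverse _ _ _) (𝓝 (M.pz (X.s ζ))) (𝓝 ζ) := by
      have := h2.continuousAt.tendsto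
      rwa [h7] at this
    filter_upwards [h9.eventually (eventually_ch X hζ), h6] with w hw1 hw2
    rw [hw2] at hw1
    exact hw1
  refine ⟨h1.localInverse _ _ _, h2, h7, h5, h6, h8, ?_⟩
  have h10 : Tendsto M.pz (𝓝 (X.s ζ)) (𝓝 (M.pz (X.s ζ))) := (continuous_pr M.z).continuousAt
  filter_upwards [h10.eventually h8, (ch (X.s ζ)).open_source.mem_nhds (mem_ch _)] with y hy1 hy2
  rw [hy1]
  have h11 := (ch (X.s ζ)).left_inv hy2
  rw [(isCh_ch (X.s ζ)).apply] at h11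
  exact h11

variable {E : Type*} [NormedAddCommGroup E] [NormedSpace ℂ E]

/-- holomorphic functions in the chart -/
theorem analyticAt_comp {g : M.Pts → E} {ζ : Cn n} (hζ : ζ ∈ PD δ i₀)
    (hg : AnalyticAt ℂ (fun w => g ((ch (X.s ζ)).symm w)) (M.pz (X.s ζ))) :
    AnalyticAt ℂ (fun ζ => g (X.s ζ)) ζ := by
  have h1 : AnalyticAt ℂ (fun ζ' => g ((ch (X.s ζ)).symm (M.pz (X.s ζ')))) ζ :=
    AnalyticAt.comp (g := fun w => g ((ch (X.s ζ)).symm w)) (f := fun ζ' => M.pz (X.s ζ')) hg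
      (analyticAt_pz X hζ)
  refine h1.congr ?_
  filter_upwards [eventually_ch X hζ] with ζ' h
  rw [← h]

theorem analyticAt_of_comp {g : M.Pts → E} {ζ : Cn n} (hζ : ζ ∈ PD δ i₀) (hJ : X.J ζ ≠ 0)
    (hg : AnalyticAt ℂ (fun ζ => g (X.s ζ)) ζ) :
    AnalyticAt ℂ (fun w => g ((ch (X.s ζ)).symm w)) (M.pz (X.s ζ)) := by
  obtain ⟨ψ, h1, h2, -, -, h3, -⟩ := exists_inverse X hζ hJ
  have h4 : AnalyticAt ℂ (fun w => g (X.s (ψ w))) (M.pz (X.s ζ)) := by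
    refine AnalyticAt.fun_comp (g := fun ζ => g (X.s ζ)) (f := ψ) ?_ h1
    rw [h2]
    exact hg
  refine h4.congr ?_
  filter_upwards [h3] with w hw
  rw [hw]

theorem analyticAt_comp_iff {g : M.Pts → E} {ζ : Cn n} (hζ : ζ ∈ PD δ i₀) (hJ : X.J ζ ≠ 0) :
    AnalyticAt ℂ (fun ζ => g (X.s ζ)) ζ ↔
      AnalyticAt ℂ (fun w => g ((ch (X.s ζ)).symm w)) (M.pz (X.s ζ)) :=
  ⟨analyticAt_of_comp X hζ hJ, analyticAt_comp X hζ⟩

end chart

end Crest.Agent.R276.AcOpen_89
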