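import Mathlib
import Crest.Agent.R276.IpcDefs_735

/-!
# Row 276, IPC-RES (helper735): restriction of a variation over the total space to the fibres
-/

set_option autoImplicit false

noncomputable section

open Set Filter Topology MeasureTheory Matrix
open Crest.Agent.R271.Ho51

namespace Crest.Agent.R276.Ipc735

section res

variable {m : ℕ} {S : Type*} [TopologicalSpace S] [RDom m S] {k : ℕ}

lemma Tot.ext' {Q : Punc S k} {p q : Tot Q} (h1 : p.1.1 = q.1.1) (h2 : p.1.2 = q.1.2) : p = q :=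
  Subtype.ext (Prod.ext h1 h2)

lemma cp_tot (Q : Punc S k) (q : Tot Q) :
    (cp q : Fin (m + 1) → ℂ) = Fin.cons q.1.2 (cp q.1.1) := rfl

open Classical in
/-- the inclusion of the fibre over `s` (junk value `z` on the punctures) -/
def fib (Q : Punc S k) (s : S) (z : ℂ) (hz : z ∉ Q.A s) (x : ℂ) : Tot Q :=
  if h : x ∉ Q.A s then Tot.mk Q s x h else Tot.mk Q s z hz

lemma fib_of {Q : Punc S k} {s : S} {z : ℂ} (hz : z ∉ Q.A s) {x : ℂ} (hx : x ∉ Q.A s) :
    fib Q s z hz x = Tot.mk Q s x hx := by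
  unfold fib; rw [dif_pos hx]

lemma eventually_notMem (A : Finset ℂ) {z : ℂ} (hz : z ∉ A) : ∀ᶠ x in 𝓝 z, x ∉ A := by
  have : IsOpen ((A : Set ℂ)ᶜ) := A.finite_toSet.isClosed.isOpen_compl
  exact this.mem_nhds (by simpa using hz)

lemma fib_cont {Q : Punc S k} {s : S} {z : ℂ} (hz : z ∉ Q.A s) : ContinuousAt (fib Q s z hz) z := by
  have h1 : ContinuousAt (fun x : ℂ => (s, x)) z := by fun_prop
  have h2 : (fun x => (fib Q s z hz x).1) =ᶠ[𝓝 z] fun x : ℂ => (s, x) := by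
    filter_upwards [eventually_notMem _ hz] with x hx
    rw [fib_of hz hx]; rfl
  have h3 : ContinuousAt (fun x => (fib Q s z hz x).1) z := h1.congr h2.symm
  have h4 : Topology.IsInducing (Subtype.val : {q : S × ℂ // q.2 ∉ Q.A q.1} → S × ℂ) :=
    Topology.IsInducing.subtypeVal
  exact h4.continuousAt_iff.mpr h3

lemma continuousAt_fib_tendsto {Q : Punc S k} {s : S} {z : ℂ} (hz : z ∉ Q.A s) :
    Tendsto (fib Q s z hz) (𝓝 z) (𝓝 (Tot.mk Q s z hz)) := by
  have := fib_cont hz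
  rwa [ContinuousAt, fib_of hz hz] at this

/-- the affine inclusion in coordinates -/
def aff (c : Fin m → ℂ) (x : ℂ) : Fin (m + 1) → ℂ := Fin.cons x c

lemma aff_contDiff (c : Fin m → ℂ) (n : WithTop ℕ∞) : ContDiff ℝ n (aff c) := by
  rw [contDiff_pi]
  intro i
  refine Fin.cases ?_ (fun j => ?_) i
  · exact contDiff_id
  · exact contDiff_const

lemma aff_hasFDerivAt (c : Fin m → ℂ) (x : ℂ) :
    HasFDerivAt (𝕜 := ℝ) (aff c)
      (ContinuousLinearMap.single ℝ (fun _ : Fin (m + 1) => ℂ) 0) x := by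
  rw [hasFDerivAt_pi']
  intro i
  refine Fin.cases ?_ (fun j => ?_) i
  · have h1 : (ContinuousLinearMap.proj (0 : Fin (m + 1))).comp
        (ContinuousLinearMap.single ℝ (fun _ : Fin (m + 1) => ℂ) 0) = ContinuousLinearMap.id ℝ ℂ := by
      ext v; simp
    rw [h1]
    exact hasFDerivAt_id x
  · have h1 : (ContinuousLinearMap.proj (j.succ : Fin (m + 1))).comp
        (ContinuousLinearMap.single ℝ (fun _ : Fin (m + 1) => ℂ) 0) = 0 := by
      ext v; simp
    rw [h1]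
    exact hasFDerivAt_const (c j) x

lemma comp_fib {G : Type*} {Q : Punc S k} {s : S} {z : ℂ} (hz : z ∉ Q.A s) (g : Tot Q → G) :
    (fun x => g (fib Q s z hz x)) =ᶠ[𝓝 z]
      fun x => (g ∘ (ch (Tot.mk Q s z hz)).symm) (aff (cp s) x) := by
  have h1 : ∀ᶠ q in 𝓝 (Tot.mk Q s z hz), q ∈ (ch (Tot.mk Q s z hz)).source :=
    (ch _).open_source.mem_nhds (mem_ch _)
  filter_upwards [(continuousAt_fib_tendsto hz).eventually h1, eventually_notMem _ hz] with x hx hx2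
  have h2 : (ch (Tot.mk Q s z hz)).symm (aff (cp s) x) = fib Q s z hz x := by
    have h3 := (isCh_ch (Tot.mk Q s z hz)).symm_cp hx
    rw [← h3]
    congr 1
    rw [fib_of hz hx2]; rfl
  simp only [Function.comp_apply, h2]

lemma contDiffAt_fib {G : Type*} [NormedAddCommGroup G] [NormedSpace ℝ G] {Q : Punc S k} {s : S}
    {z : ℂ} (hz : z ∉ Q.A s) {g : Tot Q → G} (hg : SmAt g (Tot.mk Q s z hz)) :
    ContDiffAt ℝ (⊤ : ℕ∞) (fun x => g (fib Q s z hz x)) z := by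
  refine ContDiffAt.congr_of_eventuallyEq ?_ (comp_fib hz g)
  have h1 : ContDiffAt ℝ (⊤ : ℕ∞) (g ∘ (ch (Tot.mk Q s z hz)).symm) (aff (cp s) z) := hg
  exact h1.comp z (aff_contDiff _ _).contDiffAt

lemma fderiv_fib {G : Type*} [NormedAddCommGroup G] [NormedSpace ℝ G] {Q : Punc S k} {s : S}
    {z : ℂ} (hz : z ∉ Q.A s) {g : Tot Q → G} (hg : SmAt g (Tot.mk Q s z hz)) (v : ℂ) :
    fderiv ℝ (fun x => g (fib Q s z hz x)) z v = D g (Tot.mk Q s z hz) (Pi.single 0 v) := by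
  rw [(comp_fib hz g).fderiv_eq]
  have h1 : DifferentiableAt ℝ (g ∘ (ch (Tot.mk Q s z hz)).symm) (aff (cp s) z) :=
    ContDiffAt.differentiableAt (n := (⊤ : ℕ∞)) hg (by simp)
  have h2 := (h1.hasFDerivAt).comp z (aff_hasFDerivAt (cp s) z)
  have h3 := h2.fderiv
  have h4 : (fun x => (g ∘ (ch (Tot.mk Q s z hz)).symm) (aff (cp s) x)) =
    (g ∘ (ch (Tot.mk Q s z hz)).symm) ∘ aff (cp s) := rfl
  rw [h4, h3]
  rfl

lemma wz_fib {Q : Punc S k} {s : S}
    {z : ℂ} (hz : z ∉ Q.A s) {g : Tot Q → ℂ} (hg : SmAt g (Tot.mk Q s z hz)) :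
    Ipc735.wz (fun x => g (fib Q s z hz x)) z = dz 0 g (Tot.mk Q s z hz) := by
  rw [dz_eq, Ipc735.wz, fderiv_fib hz hg, fderiv_fib hz hg]
  simp [smul_eq_mul]

lemma wb_fib {Q : Punc S k} {s : S}
    {z : ℂ} (hz : z ∉ Q.A s) {g : Tot Q → ℂ} (hg : SmAt g (Tot.mk Q s z hz)) :
    Ipc735.wb (fun x => g (fib Q s z hz x)) z = db 0 g (Tot.mk Q s z hz) := by
  rw [db_eq, Ipc735.wb, fderiv_fib hz hg, fderiv_fib hz hg]
  simp [smul_eq_mul]

lemma rP_of {N : ℕ} {Q : Punc S k} (P : Tot Q → Tot Q → GL (Fin N) ℤ) {s : S} {x y : ℂ}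
    (hx : x ∉ Q.A s) (hy : y ∉ Q.A s) :
    rP Q P s x y = P (Tot.mk Q s x hx) (Tot.mk Q s y hy) := by
  unfold rP; rw [dif_pos ⟨hx, hy⟩]

lemma rM_of {N : ℕ} {Q : Punc S k} (B : Tot Q → Matrix (Fin N) (Fin N) ℂ) {s : S} {x : ℂ}
    (hx : x ∉ Q.A s) : rM Q B s x = B (Tot.mk Q s x hx) := by
  unfold rM; rw [dif_pos hx]

lemma lM_fib {N : ℕ} {Q : Punc S k} (P : Tot Q → Tot Q → GL (Fin N) ℤ)
    (B : Tot Q → Matrix (Fin N) (Fin N) ℂ) {s : S} {z : ℂ} (hz : z ∉ Q.A s) :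
    ∀ᶠ x in 𝓝 z, lM (rP Q P s) (rM Q B s) z x = lM P B (Tot.mk Q s z hz) (fib Q s z hz x) := by
  filter_upwards [eventually_notMem _ hz] with x hx
  rw [fib_of hz hx, lM, lM, rP_of P hz hx, rM_of B hx]

lemma lV_fib {N : ℕ} {Q : Punc S k} (P : Tot Q → Tot Q → GL (Fin N) ℤ)
    (F : S → ℂ → Fin N → ℂ) {s : S} {z : ℂ} (hz : z ∉ Q.A s) :
    ∀ᶠ x in 𝓝 z, lV (rP Q P s) (F s) z x = lV P (sec F) (Tot.mk Q s z hz) (fib Q s z hz x) := by
  filter_upwards [eventually_notMem _ hz] with x hx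
  rw [fib_of hz hx, lV, lV, rP_of P hz hx]
  rfl

/-- **IPC-RES**: a variation over the total space restricts to a variation on every fibre. -/
theorem exists_isRes {N w : ℕ} {Q : Punc S k} (V : VHS (m + 1) (Tot Q) N w) (s : S) :
    ∃ R : PVHS (Q.A s) N w, IsRes V s R := by
  refine ⟨{ P := rP Q V.P s, S := rM Q V.S s, E := rM Q V.E s, ndc := ?_, hs := ?_, flatS := ?_,
            smE := ?_, tr := ?_ }, rfl, rfl, rfl⟩
  · intro z hz
    have hz' : z ∉ Q.A s := by simpa using hz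
    obtain ⟨U, hU, h⟩ := V.ndc (Tot.mk Q s z hz')
    refine ⟨{x | fib Q s z hz' x ∈ U} ∩ {x | x ∉ Q.A s},
      Filter.inter_mem ((continuousAt_fib_tendsto hz').eventually_mem hU)
        (eventually_notMem _ hz'), ?_⟩
    rintro x ⟨hx1, hx2⟩ y ⟨hy1, hy2⟩ u ⟨hu1, hu2⟩
    have hx3 : Tot.mk Q s x hx2 ∈ U := by
      have : fib Q s z hz' x ∈ U := hx1
      rwa [fib_of hz' hx2] at this
    have hy3 : Tot.mk Q s y hy2 ∈ U := by
      have : fib Q s z hz' y ∈ U := hy1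
      rwa [fib_of hz' hy2] at this
    have hu3 : Tot.mk Q s u hu2 ∈ U := by
      have : fib Q s z hz' u ∈ U := hu1
      rwa [fib_of hz' hu2] at this
    rw [rP_of V.P hx2 hy2, rP_of V.P hy2 hu2, rP_of V.P hx2 hu2]
    exact h _ hx3 _ hy3 _ hu3
  · intro x hx
    rw [rM_of _ hx, rM_of _ hx]
    exact V.hs _
  · intro z hz
    filter_upwards [(continuousAt_fib_tendsto hz).eventually (V.flatS (Tot.mk Q s z hz)),
      eventually_notMem _ hz] with y hy hy2
    rw [fib_of hz hy2] at hy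
    rw [rM_of _ hy2, rP_of _ hz hy2, rM_of _ hz]
    exact hy
  · intro z hz i j
    refine (contDiffAt_fib hz (V.smE (Tot.mk Q s z hz) i j)).congr_of_eventuallyEq ?_
    filter_upwards [lM_fib V.P V.E hz] with x hx
    rw [hx]
  · intro z hz
    have h1 : wM (rP Q V.P s) (rM Q V.E s) z = dM V.P V.E 0 (Tot.mk Q s z hz) := by
      ext i j
      simp only [wM, dM, Matrix.of_apply]
      rw [← wz_fib hz (V.smE (Tot.mk Q s z hz) i j)]
      have h2 : (fun y => lM (rP Q V.P s) (rM Q V.E s) z y i j) =ᶠ[𝓝 z]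
          fun x => lM V.P V.E (Tot.mk Q s z hz) (fib Q s z hz x) i j := by
        filter_upwards [lM_fib V.P V.E hz] with x hx
        rw [hx]
      simp only [Ipc735.wz]
      rw [h2.fderiv_eq]
    rw [h1, rM_of _ hz]
    exact V.tr _ 0

/-- the restriction to the fibre over `s` -/
def VHS.res {N w : ℕ} {Q : Punc S k} (V : VHS (m + 1) (Tot Q) N w) (s : S) : PVHS (Q.A s) N w :=
  (exists_isRes V s).choose

lemma VHS.isRes {N w : ℕ} {Q : Punc S k} (V : VHS (m + 1) (Tot Q) N w) (s : S) :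
    IsRes V s (V.res s) := (exists_isRes V s).choose_spec

end res

end Crest.Agent.R276.Ipc735
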