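import Mathlib
import Crest.Agent.R276.Res_735

/-!
# Row 276, IPC (helper175): forms and cocycles on open subsets of the plane

Everything is written in the frames of `IpcDefs_735`: `P : ℂ → ℂ → GL (Fin N) ℤ` is a near-diagonal
cocycle near the points of an open set `O`, sections are functions `ℂ → Fin N → ℂ`.

* `CocOn O P u`, `CobOn O P u` : additive near-diagonal cocycles / coboundaries.
* `aff P u f z y = P z y • f y + u z y` : the section `f` of the affine bundle of `u`, seen from `z`.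
* `RepBy O P u f a b` : `f` is a smooth section of the affine bundle with derivative `a dx + b dx̄`.
* `exists_rep` (R1), `RepBy.cob` (R2), `exact_iff` (R3).
-/

set_option autoImplicit false
set_option linter.unusedSectionVars false

noncomputable section

open Set Filter Topology MeasureTheory Matrix
open Crest.Agent.R276.Ipc735

namespace Crest.Agent.R276.DR_175

variable {N : ℕ}

/-! ### the action of integral matrices -/

lemma cm_mul (g h : GL (Fin N) ℤ) : cm (g * h) = cm g * cm h := by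
  unfold cm
  ext i j
  simp [Matrix.mul_apply]

lemma cm_one : cm (1 : GL (Fin N) ℤ) = 1 := by
  unfold cm
  ext i j
  by_cases h : i = j
  · subst h; simp
  · simp [Matrix.one_apply_ne h]

/-- the action of an integral matrix on `ℂ^N` as a continuous linear map -/
def act (g : GL (Fin N) ℤ) : (Fin N → ℂ) →L[ℂ] (Fin N → ℂ) :=
  LinearMap.toContinuousLinearMap (Matrix.mulVecLin (cm g))

lemma act_apply (g : GL (Fin N) ℤ) (v : Fin N → ℂ) : act g v = cm g *ᵥ v := rfl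

@[simp] lemma act_one_apply (v : Fin N → ℂ) : act (1 : GL (Fin N) ℤ) v = v := by
  rw [act_apply, cm_one, Matrix.one_mulVec]

lemma act_mul_apply (g h : GL (Fin N) ℤ) (v : Fin N → ℂ) : act (g * h) v = act g (act h v) := by
  rw [act_apply, act_apply, act_apply, cm_mul, Matrix.mulVec_mulVec]

@[simp] lemma act_inv_act (g : GL (Fin N) ℤ) (v : Fin N → ℂ) : act g⁻¹ (act g v) = v := by
  rw [← act_mul_apply, inv_mul_cancel, act_one_apply]

@[simp] lemma act_act_inv (g : GL (Fin N) ℤ) (v : Fin N → ℂ) : act g (act g⁻¹ v) = v := by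
  rw [← act_mul_apply, mul_inv_cancel, act_one_apply]

lemma act_inj {g : GL (Fin N) ℤ} {v v' : Fin N → ℂ} (h : act g v = act g v') : v = v' := by
  have := congrArg (act g⁻¹) h
  simpa using this

lemma lV_eq (P : ℂ → ℂ → GL (Fin N) ℤ) (φ : ℂ → Fin N → ℂ) (z y : ℂ) :
    lV P φ z y = act (P z y) (φ y) := rfl

/-! ### cocycles -/

/-- additive near-diagonal cocycle with values in the local system `P` -/
def CocOn (O : Set ℂ) (P : ℂ → ℂ → GL (Fin N) ℤ) (u : ℂ → ℂ → Fin N → ℂ) : Prop :=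
  ∀ z ∈ O, ∃ U ∈ 𝓝 z, ∀ x ∈ U, ∀ y ∈ U, ∀ t ∈ U, u x y + act (P x y) (u y t) = u x t

/-- coboundary near the diagonal -/
def CobOn (O : Set ℂ) (P : ℂ → ℂ → GL (Fin N) ℤ) (u : ℂ → ℂ → Fin N → ℂ) : Prop :=
  ∃ f : ℂ → Fin N → ℂ, ∀ z ∈ O, ∃ U ∈ 𝓝 z, ∀ x ∈ U, ∀ y ∈ U, u x y = f x - act (P x y) (f y)

/-- the section `f` of the affine bundle of `u`, seen from `z` -/
def aff (P : ℂ → ℂ → GL (Fin N) ℤ) (u : ℂ → ℂ → Fin N → ℂ) (f : ℂ → Fin N → ℂ) (z y : ℂ) :
    Fin N → ℂ := act (P z y) (f y) + u z y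

/-- `f` is a smooth section of the affine bundle of `u`, with derivative `a dx + b dx̄` -/
def RepBy (O : Set ℂ) (P : ℂ → ℂ → GL (Fin N) ℤ) (u : ℂ → ℂ → Fin N → ℂ) (f a b : ℂ → Fin N → ℂ) :
    Prop := ∀ z ∈ O, ContDiffAt ℝ (⊤ : ℕ∞) (aff P u f z) z ∧ wz (aff P u f z) z = a z ∧
      wb (aff P u f z) z = b z

/-- the closed form `a dx + b dx̄` represents the class of `u` -/
def Rep (O : Set ℂ) (P : ℂ → ℂ → GL (Fin N) ℤ) (u : ℂ → ℂ → Fin N → ℂ) (a b : ℂ → Fin N → ℂ) :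
    Prop := ∃ f, RepBy O P u f a b

/-- smooth section on `O` -/
def SmOn (O : Set ℂ) (P : ℂ → ℂ → GL (Fin N) ℤ) (φ : ℂ → Fin N → ℂ) : Prop :=
  ∀ z ∈ O, ContDiffAt ℝ (⊤ : ℕ∞) (lV P φ z) z

/-- closed form on `O` -/
def ClOn (O : Set ℂ) (P : ℂ → ℂ → GL (Fin N) ℤ) (a b : ℂ → Fin N → ℂ) : Prop :=
  ∀ z ∈ O, wb (lV P a z) z = wz (lV P b z) z

/-- the derivative of a section -/
def e1 (P : ℂ → ℂ → GL (Fin N) ℤ) (φ : ℂ → Fin N → ℂ) (z : ℂ) : Fin N → ℂ := wz (lV P φ z) z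
/-- the derivative of a section -/
def e2 (P : ℂ → ℂ → GL (Fin N) ℤ) (φ : ℂ → Fin N → ℂ) (z : ℂ) : Fin N → ℂ := wb (lV P φ z) z

/-! ### Wirtinger derivatives -/

section wirt
variable {F F' : Type*} [NormedAddCommGroup F] [NormedSpace ℂ F] [NormedAddCommGroup F']
  [NormedSpace ℂ F']

lemma wz_congr {f g : ℂ → F} {z : ℂ} (h : f =ᶠ[𝓝 z] g) : wz f z = wz g z := by
  unfold wz; rw [h.fderiv_eq]

lemma wb_congr {f g : ℂ → F} {z : ℂ} (h : f =ᶠ[𝓝 z] g) : wb f z = wb g z := by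
  unfold wb; rw [h.fderiv_eq]

lemma wz_const (c : F) (z : ℂ) : wz (fun _ => c) z = 0 := by simp [wz]
lemma wb_const (c : F) (z : ℂ) : wb (fun _ => c) z = 0 := by simp [wb]

lemma wz_add {f g : ℂ → F} {z : ℂ} (hf : DifferentiableAt ℝ f z) (hg : DifferentiableAt ℝ g z) :
    wz (fun y => f y + g y) z = wz f z + wz g z := by
  unfold wz
  rw [fderiv_fun_add hf hg]
  simp only [_root_.add_apply]
  module

lemma wb_add {f g : ℂ → F} {z : ℂ} (hf : DifferentiableAt ℝ f z) (hg : DifferentiableAt ℝ g z) :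
    wb (fun y => f y + g y) z = wb f z + wb g z := by
  unfold wb
  rw [fderiv_fun_add hf hg]
  simp only [_root_.add_apply]
  module

lemma wz_sub {f g : ℂ → F} {z : ℂ} (hf : DifferentiableAt ℝ f z) (hg : DifferentiableAt ℝ g z) :
    wz (fun y => f y - g y) z = wz f z - wz g z := by
  unfold wz
  rw [fderiv_fun_sub hf hg]
  simp only [_root_.sub_apply]
  module

lemma wb_sub {f g : ℂ → F} {z : ℂ} (hf : DifferentiableAt ℝ f z) (hg : DifferentiableAt ℝ g z) :
    wb (fun y => f y - g y) z = wb f z - wb g z := by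
  unfold wb
  rw [fderiv_fun_sub hf hg]
  simp only [_root_.sub_apply]
  module

lemma wz_add_const {f : ℂ → F} (c : F) {z : ℂ} : wz (fun y => f y + c) z = wz f z := by
  unfold wz; rw [fderiv_add_const]

lemma wb_add_const {f : ℂ → F} (c : F) {z : ℂ} : wb (fun y => f y + c) z = wb f z := by
  unfold wb; rw [fderiv_add_const]

lemma wz_clm {f : ℂ → F} (T : F →L[ℂ] F') {z : ℂ} (hf : DifferentiableAt ℝ f z) :
    wz (fun y => T (f y)) z = T (wz f z) := by
  have h := ((T.restrictScalars ℝ).hasFDerivAt.comp z hf.hasFDerivAt).fderiv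
  have h2 : fderiv ℝ (fun y => T (f y)) z = (T.restrictScalars ℝ).comp (fderiv ℝ f z) := h
  unfold wz
  rw [h2]
  simp

lemma wb_clm {f : ℂ → F} (T : F →L[ℂ] F') {z : ℂ} (hf : DifferentiableAt ℝ f z) :
    wb (fun y => T (f y)) z = T (wb f z) := by
  have h := ((T.restrictScalars ℝ).hasFDerivAt.comp z hf.hasFDerivAt).fderiv
  have h2 : fderiv ℝ (fun y => T (f y)) z = (T.restrictScalars ℝ).comp (fderiv ℝ f z) := h
  unfold wb
  rw [h2]
  simp

lemma fderiv_eq_wir (f : ℂ → F) (z v : ℂ) :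
    fderiv ℝ f z v = v • wz f z + (starRingEnd ℂ) v • wb f z := by
  have h1 : fderiv ℝ f z v = (v.re : ℂ) • fderiv ℝ f z 1 + (v.im : ℂ) • fderiv ℝ f z Complex.I := by
    conv_lhs => rw [show v = v.re • (1 : ℂ) + v.im • Complex.I by simp]
    rw [map_add, map_smul, map_smul, Complex.coe_smul, Complex.coe_smul]
  rw [h1]
  unfold wz wb
  have h2 : v = (v.re : ℂ) + (v.im : ℂ) * Complex.I := (Complex.re_add_im v).symm
  have h3 : (starRingEnd ℂ) v = (v.re : ℂ) - (v.im : ℂ) * Complex.I :=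
    Complex.ext (by simp) (by simp)
  have hI : Complex.I * Complex.I = -1 := Complex.I_mul_I
  have c1 : v * (1 / 2) + (starRingEnd ℂ) v * (1 / 2) = v.re := by
    rw [h3]; nth_rewrite 1 [h2]; ring
  have c2 : -(v * (1 / 2 * Complex.I)) + (starRingEnd ℂ) v * (1 / 2 * Complex.I) = v.im := by
    rw [h3]; nth_rewrite 1 [h2]
    linear_combination (-(v.im : ℂ)) * hI
  rw [← c1, ← c2]
  module

/-- a real-linear map with given Wirtinger coefficients -/
def wir (p q : F) : ℂ →L[ℝ] F :=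
  ((ContinuousLinearMap.id ℂ ℂ).smulRight p).restrictScalars ℝ +
    (((ContinuousLinearMap.id ℂ ℂ).smulRight q).restrictScalars ℝ).comp
      Complex.conjCLE.toContinuousLinearMap

lemma wir_apply (p q : F) (v : ℂ) : wir p q v = v • p + (starRingEnd ℂ) v • q := by
  simp [wir]

lemma fderiv_eq_wir' (f : ℂ → F) (z : ℂ) : fderiv ℝ f z = wir (wz f z) (wb f z) := by
  ext v
  rw [wir_apply, fderiv_eq_wir]

lemma wz_of_hasFDerivAt {f : ℂ → F} {z : ℂ} {p q : F} (h : HasFDerivAt f (wir p q) z) :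
    wz f z = p := by
  unfold wz
  rw [h.fderiv, wir_apply, wir_apply]
  have hI : Complex.I * Complex.I = -1 := Complex.I_mul_I
  simp only [map_one, one_smul, Complex.conj_I, smul_add, smul_smul, hI]
  have : (Complex.I * -Complex.I : ℂ) = 1 := by rw [mul_neg, hI, neg_neg]
  rw [this]
  module

lemma wb_of_hasFDerivAt {f : ℂ → F} {z : ℂ} {p q : F} (h : HasFDerivAt f (wir p q) z) :
    wb f z = q := by
  unfold wb
  rw [h.fderiv, wir_apply, wir_apply]
  have hI : Complex.I * Complex.I = -1 := Complex.I_mul_I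
  simp only [map_one, one_smul, Complex.conj_I, smul_add, smul_smul, hI]
  have : (Complex.I * -Complex.I : ℂ) = 1 := by rw [mul_neg, hI, neg_neg]
  rw [this]
  module

lemma contDiffAt_wz {f : ℂ → F} {z : ℂ} (h : ContDiffAt ℝ (⊤ : ℕ∞) f z) :
    ContDiffAt ℝ (⊤ : ℕ∞) (fun y => wz f y) z := by
  have h1 : ContDiffAt ℝ (⊤ : ℕ∞) (fderiv ℝ f) z := h.fderiv_right (m := (⊤ : ℕ∞)) (by simp)
  unfold wz
  exact contDiffAt_const.smul
    ((h1.clm_apply contDiffAt_const).sub (contDiffAt_const.smul (h1.clm_apply contDiffAt_const)))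

lemma contDiffAt_wb {f : ℂ → F} {z : ℂ} (h : ContDiffAt ℝ (⊤ : ℕ∞) f z) :
    ContDiffAt ℝ (⊤ : ℕ∞) (fun y => wb f y) z := by
  have h1 : ContDiffAt ℝ (⊤ : ℕ∞) (fderiv ℝ f) z := h.fderiv_right (m := (⊤ : ℕ∞)) (by simp)
  unfold wb
  exact contDiffAt_const.smul
    ((h1.clm_apply contDiffAt_const).add (contDiffAt_const.smul (h1.clm_apply contDiffAt_const)))

lemma wir_inj {p q p' q' : F} (h : wir p q = wir p' q') : p = p' ∧ q = q' := by
  have h1 : HasFDerivAt (fun v : ℂ => wir p q v) (wir p q) 0 := (wir p q).hasFDerivAt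
  have h2 : HasFDerivAt (fun v : ℂ => wir p q v) (wir p' q') 0 := by rw [← h]; exact h1
  exact ⟨(wz_of_hasFDerivAt h1).symm.trans (wz_of_hasFDerivAt h2),
    (wb_of_hasFDerivAt h1).symm.trans (wb_of_hasFDerivAt h2)⟩

/-- symmetry of the second derivatives -/
lemma wb_wz {f : ℂ → F} {z : ℂ} (h : ContDiffAt ℝ (⊤ : ℕ∞) f z) :
    wb (fun y => wz f y) z = wz (fun y => wb f y) z := by
  have h1 : ContDiffAt ℝ (⊤ : ℕ∞) (fderiv ℝ f) z := h.fderiv_right (m := (⊤ : ℕ∞)) (by simp)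
  have h2 : DifferentiableAt ℝ (fderiv ℝ f) z := h1.differentiableAt (by simp)
  have hs : IsSymmSndFDerivAt ℝ f z := h.isSymmSndFDerivAt (by
    rw [minSmoothness_of_isRCLikeNormedField]; exact WithTop.coe_le_coe.2 (le_top : (2 : ℕ∞) ≤ ⊤))
  have key : ∀ v c : ℂ, fderiv ℝ (fun y => fderiv ℝ f y c) z v = fderiv ℝ (fderiv ℝ f) z v c := by
    intro v c
    have h3 := (h2.hasFDerivAt.clm_apply (hasFDerivAt_const c z)).fderiv
    have h4 : fderiv ℝ (fun y => fderiv ℝ f y c) z =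
        ((fderiv ℝ f z).comp (0 : ℂ →L[ℝ] ℂ) + (fderiv ℝ (fderiv ℝ f) z).flip c) := h3
    rw [h4]; simp
  have hd : ∀ c : ℂ, DifferentiableAt ℝ (fun y => fderiv ℝ f y c) z := fun c =>
    (h2.hasFDerivAt.clm_apply (hasFDerivAt_const c z)).differentiableAt
  have kz : ∀ v : ℂ, fderiv ℝ (fun y => wz f y) z v =
      (1 / 2 : ℂ) • (fderiv ℝ (fderiv ℝ f) z v 1 - Complex.I • fderiv ℝ (fderiv ℝ f) z v Complex.I) := by
    intro v
    have h5 : HasFDerivAt (fun y => wz f y) ((1 / 2 : ℂ) • (fderiv ℝ (fun y => fderiv ℝ f y 1) z -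
        Complex.I • fderiv ℝ (fun y => fderiv ℝ f y Complex.I) z)) z :=
      ((hd 1).hasFDerivAt.sub ((hd Complex.I).hasFDerivAt.const_smul Complex.I)).const_smul
        (1 / 2 : ℂ)
    rw [h5.fderiv]
    simp only [_root_.smul_apply, _root_.sub_apply, key]
  have kb : ∀ v : ℂ, fderiv ℝ (fun y => wb f y) z v =
      (1 / 2 : ℂ) • (fderiv ℝ (fderiv ℝ f) z v 1 + Complex.I • fderiv ℝ (fderiv ℝ f) z v Complex.I) := by
    intro v
    have h5 : HasFDerivAt (fun y => wb f y) ((1 / 2 : ℂ) • (fderiv ℝ (fun y => fderiv ℝ f y 1) z +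
        Complex.I • fderiv ℝ (fun y => fderiv ℝ f y Complex.I) z)) z :=
      ((hd 1).hasFDerivAt.add ((hd Complex.I).hasFDerivAt.const_smul Complex.I)).const_smul
        (1 / 2 : ℂ)
    rw [h5.fderiv]
    simp only [_root_.smul_apply, _root_.add_apply, key]
  have hs' := hs.eq 1 Complex.I
  conv_lhs => unfold wb
  conv_rhs => unfold wz
  rw [kz, kz, kb, kb, hs']
  module

end wirt

/-! ### change of the centre -/

section frames

variable {O : Set ℂ} {P : ℂ → ℂ → GL (Fin N) ℤ} {u u' : ℂ → ℂ → Fin N → ℂ}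
  {f f' a b φ ψ : ℂ → Fin N → ℂ}

lemma ndc_self (hP : NDCOn O P) {z : ℂ} (hz : z ∈ O) : P z z = 1 := by
  obtain ⟨U, hU, h⟩ := hP z hz
  have := h z (mem_of_mem_nhds hU) z (mem_of_mem_nhds hU) z (mem_of_mem_nhds hU)
  exact mul_eq_left.mp this

lemma coc_self (hP : NDCOn O P) (hu : CocOn O P u) {z : ℂ} (hz : z ∈ O) : u z z = 0 := by
  obtain ⟨U, hU, h⟩ := hu z hz
  have := h z (mem_of_mem_nhds hU) z (mem_of_mem_nhds hU) z (mem_of_mem_nhds hU)
  rw [ndc_self hP hz, act_one_apply] at this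
  exact add_eq_left.mp this

lemma aff_self (hP : NDCOn O P) (hu : CocOn O P u) {z : ℂ} (hz : z ∈ O) : aff P u f z z = f z := by
  unfold aff; rw [ndc_self hP hz, coc_self hP hu hz, act_one_apply, add_zero]

lemma lV_self (hP : NDCOn O P) {z : ℂ} (hz : z ∈ O) : lV P φ z z = φ z := by
  rw [lV_eq, ndc_self hP hz, act_one_apply]

lemma NDCOn.mono {O' : Set ℂ} (hP : NDCOn O P) (h : O' ⊆ O) : NDCOn O' P :=
  fun z hz => hP z (h hz)

lemma CocOn.mono {O' : Set ℂ} (hu : CocOn O P u) (h : O' ⊆ O) : CocOn O' P u :=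
  fun z hz => hu z (h hz)

lemma CobOn.mono {O' : Set ℂ} (hu : CobOn O P u) (h : O' ⊆ O) : CobOn O' P u := by
  obtain ⟨g, hg⟩ := hu
  exact ⟨g, fun z hz => hg z (h hz)⟩

lemma RepBy.mono {O' : Set ℂ} (hf : RepBy O P u f a b) (h : O' ⊆ O) : RepBy O' P u f a b :=
  fun z hz => hf z (h hz)

lemma cocOn_zero : CocOn O P (fun _ _ => 0) := fun z _ => ⟨univ, univ_mem, by
  intro x _ y _ t _
  simp⟩

lemma aff_zero : aff P (fun _ _ => 0) f = lV P f := by
  funext z y
  unfold aff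
  rw [add_zero]; rfl

/-- change of the centre for sections of affine bundles -/
lemma aff_change (hP : NDCOn O P) (hu : CocOn O P u) {z : ℂ} (hz : z ∈ O) :
    ∃ U ∈ 𝓝 z, ∀ f : ℂ → Fin N → ℂ, ∀ x ∈ U, ∀ y ∈ U,
      aff P u f z y = act (P z x) (aff P u f x y) + u z x := by
  obtain ⟨U, hU, h⟩ := hP z hz
  obtain ⟨U', hU', h'⟩ := hu z hz
  refine ⟨U ∩ U', Filter.inter_mem hU hU', fun f x hx y hy => ?_⟩
  unfold aff
  rw [map_add, ← act_mul_apply, h z (mem_of_mem_nhds hU) x hx.1 y hy.1,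
    ← h' z (mem_of_mem_nhds hU') x hx.2 y hy.2]
  abel

lemma aff_change' (hP : NDCOn O P) (hu : CocOn O P u) {z : ℂ} (hz : z ∈ O) :
    ∀ᶠ x in 𝓝 z, ∀ f : ℂ → Fin N → ℂ,
      aff P u f z =ᶠ[𝓝 x] fun y => act (P z x) (aff P u f x y) + u z x := by
  obtain ⟨U, hU, h⟩ := aff_change hP hu hz
  obtain ⟨W, hWU, hW, hzW⟩ := mem_nhds_iff.mp hU
  filter_upwards [hW.mem_nhds hzW] with x hx f
  filter_upwards [hW.mem_nhds hx] with y hy
  exact h f x (hWU hx) y (hWU hy)

lemma lV_change (hP : NDCOn O P) {z : ℂ} (hz : z ∈ O) :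
    ∀ᶠ x in 𝓝 z, ∀ f : ℂ → Fin N → ℂ,
      lV P f z =ᶠ[𝓝 x] fun y => act (P z x) (lV P f x y) := by
  have h := aff_change' (u := fun _ _ => 0) hP cocOn_zero hz
  filter_upwards [h] with x hx f
  have h2 := hx f
  rw [aff_zero] at h2
  simpa using h2

lemma near_diff {F : Type*} [NormedAddCommGroup F] [NormedSpace ℝ F] {g : ℂ → F} {z : ℂ}
    (h : ContDiffAt ℝ (⊤ : ℕ∞) g z) : DifferentiableAt ℝ g z := h.differentiableAt (by simp)

/-- the derivatives of an affine section near the centre -/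
lemma RepBy.near (hO : IsOpen O) (hP : NDCOn O P) (hu : CocOn O P u) (h : RepBy O P u f a b)
    {z : ℂ} (hz : z ∈ O) : ∀ᶠ x in 𝓝 z, ContDiffAt ℝ (⊤ : ℕ∞) (aff P u f z) x ∧
      wz (aff P u f z) x = lV P a z x ∧ wb (aff P u f z) x = lV P b z x := by
  filter_upwards [aff_change' hP hu hz, hO.mem_nhds hz] with x hx hxO
  obtain ⟨h1, h2, h3⟩ := h x hxO
  have h4 := hx f
  have h5 : ContDiffAt ℝ (⊤ : ℕ∞) (fun y => act (P z x) (aff P u f x y)) x :=
    ((act (P z x)).restrictScalars ℝ).contDiff.contDiffAt.comp x h1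
  refine ⟨(h5.add contDiffAt_const).congr_of_eventuallyEq h4, ?_, ?_⟩
  · rw [wz_congr h4, wz_add_const, wz_clm _ (near_diff h1), h2]; rfl
  · rw [wb_congr h4, wb_add_const, wb_clm _ (near_diff h1), h3]; rfl

lemma RepBy.smooth (hO : IsOpen O) (hP : NDCOn O P) (hu : CocOn O P u) (h : RepBy O P u f a b) :
    SmOn O P a ∧ SmOn O P b ∧ ClOn O P a b := by
  have h0 : ∀ z ∈ O, (lV P a z =ᶠ[𝓝 z] fun x => wz (aff P u f z) x) ∧
      (lV P b z =ᶠ[𝓝 z] fun x => wb (aff P u f z) x) := by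
    intro z hz
    constructor
    · filter_upwards [h.near hO hP hu hz] with x hx using hx.2.1.symm
    · filter_upwards [h.near hO hP hu hz] with x hx using hx.2.2.symm
  refine ⟨fun z hz => ?_, fun z hz => ?_, fun z hz => ?_⟩
  · exact (contDiffAt_wz (h z hz).1).congr_of_eventuallyEq (h0 z hz).1
  · exact (contDiffAt_wb (h z hz).1).congr_of_eventuallyEq (h0 z hz).2
  · rw [wb_congr (h0 z hz).1, wz_congr (h0 z hz).2]
    exact wb_wz (h z hz).1

lemma smOn_near (hO : IsOpen O) (hP : NDCOn O P) (h : SmOn O P φ) {z : ℂ} (hz : z ∈ O) :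
    ∀ᶠ x in 𝓝 z, ContDiffAt ℝ (⊤ : ℕ∞) (lV P φ z) x ∧
      wz (lV P φ z) x = lV P (e1 P φ) z x ∧ wb (lV P φ z) x = lV P (e2 P φ) z x := by
  have h1 : RepBy O P (fun _ _ => 0) φ (e1 P φ) (e2 P φ) := by
    intro z hz
    rw [aff_zero]
    exact ⟨h z hz, rfl, rfl⟩
  have h2 := h1.near hO hP cocOn_zero hz
  rwa [aff_zero] at h2

lemma smOn_e1 (hO : IsOpen O) (hP : NDCOn O P) (h : SmOn O P φ) : SmOn O P (e1 P φ) := by
  have h1 : RepBy O P (fun _ _ => 0) φ (e1 P φ) (e2 P φ) := by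
    intro z hz
    rw [aff_zero]
    exact ⟨h z hz, rfl, rfl⟩
  exact (h1.smooth hO hP cocOn_zero).1

lemma smOn_e2 (hO : IsOpen O) (hP : NDCOn O P) (h : SmOn O P φ) : SmOn O P (e2 P φ) := by
  have h1 : RepBy O P (fun _ _ => 0) φ (e1 P φ) (e2 P φ) := by
    intro z hz
    rw [aff_zero]
    exact ⟨h z hz, rfl, rfl⟩
  exact (h1.smooth hO hP cocOn_zero).2.1

/-! ### R2: the class of a form is well defined -/

/-- two representations of the same form differ by a coboundary -/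
theorem RepBy.cob (hO : IsOpen O) (hP : NDCOn O P) (hu : CocOn O P u) (hu' : CocOn O P u')
    (h : RepBy O P u f a b) (h' : RepBy O P u' f' a b) :
    ∀ z ∈ O, ∃ U ∈ 𝓝 z, ∀ x ∈ U, ∀ y ∈ U,
      u x y - u' x y = (f x - f' x) - act (P x y) (f y - f' y) := by
  intro z hz
  obtain ⟨U0, hU0, h0⟩ := hP z hz
  obtain ⟨U1, hU1, h1⟩ := hu z hz
  obtain ⟨U2, hU2, h2⟩ := hu' z hz
  have h3 := (h.near hO hP hu hz).and (h'.near hO hP hu' hz)
  obtain ⟨ε, hε, hball⟩ := Metric.mem_nhds_iff.mp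
    (Filter.inter_mem (Filter.inter_mem hU0 (Filter.inter_mem hU1 hU2)) h3)
  have hz' : z ∈ Metric.ball z ε := Metric.mem_ball_self hε
  have hconst : ∀ x ∈ Metric.ball z ε, aff P u f z x - aff P u' f' z x = f z - f' z := by
    intro x hx
    have h4 : (fun y => aff P u f z y - aff P u' f' z y) x =
        (fun y => aff P u f z y - aff P u' f' z y) z := by
      refine (Metric.isOpen_ball (x := z) (ε := ε)).is_const_of_fderiv_eq_zero (𝕜 := ℝ)
        (f := fun y => aff P u f z y - aff P u' f' z y)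
        (convex_ball z ε).isPreconnected ?_ ?_ hx hz'
      · intro y hy
        have h5 := (hball hy).2
        exact ((near_diff h5.1.1).sub (near_diff h5.2.1)).differentiableWithinAt
      · intro y hy
        have h5 := (hball hy).2
        show fderiv ℝ (fun y => aff P u f z y - aff P u' f' z y) y = 0
        rw [fderiv_eq_wir', wz_sub (near_diff h5.1.1) (near_diff h5.2.1),
          wb_sub (near_diff h5.1.1) (near_diff h5.2.1), h5.1.2.1, h5.1.2.2, h5.2.2.1, h5.2.2.2,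
          sub_self, sub_self]
        ext v
        simp [wir_apply]
    simp only at h4
    rw [h4, aff_self hP hu hz, aff_self hP hu' hz]
  refine ⟨Metric.ball z ε, Metric.ball_mem_nhds z hε, fun x hx y hy => ?_⟩
  apply act_inj (g := P z x)
  have hx0 := (hball hx).1
  have hy0 := (hball hy).1
  have hz0 := (hball hz').1
  have e1 := hconst x hx
  have e2 := hconst y hy
  rw [← e2] at e1
  unfold aff at e1
  rw [← h0 z hz0.1 x hx0.1 y hy0.1, ← h1 z hz0.2.1 x hx0.2.1 y hy0.2.1,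
    ← h2 z hz0.2.2 x hx0.2.2 y hy0.2.2, act_mul_apply, act_mul_apply] at e1
  simp only [map_sub]
  have e3 : act (P z x) (f x) + u z x - (act (P z x) (f' x) + u' z x) -
      (act (P z x) (act (P x y) (f y)) + (u z x + act (P z x) (u x y)) -
      (act (P z x) (act (P x y) (f' y)) + (u' z x + act (P z x) (u' x y)))) = 0 := by
    rw [e1, sub_self]
  rw [← sub_eq_zero, ← neg_eq_zero]
  rw [← e3]
  abel

theorem Rep.cob (hO : IsOpen O) (hP : NDCOn O P) (hu : CocOn O P u) (hu' : CocOn O P u')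
    (h : Rep O P u a b) (h' : Rep O P u' a b) : CobOn O P (fun x y => u x y - u' x y) := by
  obtain ⟨f, hf⟩ := h
  obtain ⟨f', hf'⟩ := h'
  exact ⟨fun x => f x - f' x, hf.cob hO hP hu hu' hf'⟩

/-! ### R3: exactness -/

lemma rep_zero_iff : Rep O P (fun _ _ => 0) a b ↔
    ∃ φ, ∀ z ∈ O, ContDiffAt ℝ (⊤ : ℕ∞) (lV P φ z) z ∧ e1 P φ z = a z ∧ e2 P φ z = b z := by
  unfold Rep RepBy
  simp only [aff_zero]
  rfl

/-- change of the cocycle by a coboundary -/
lemma RepBy.of_cob (h : RepBy O P u f a b) (g : ℂ → Fin N → ℂ)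
    (hg : ∀ z ∈ O, ∃ U ∈ 𝓝 z, ∀ x ∈ U, ∀ y ∈ U, u x y - u' x y = g x - act (P x y) (g y)) :
    RepBy O P u' (fun x => f x - g x) a b := by
  intro z hz
  obtain ⟨U, hU, hg⟩ := hg z hz
  have h1 : aff P u' (fun x => f x - g x) z =ᶠ[𝓝 z] fun y => aff P u f z y + (- g z) := by
    filter_upwards [hU] with y hy
    have := hg z (mem_of_mem_nhds hU) y hy
    unfold aff
    have h2 : u' z y = u z y - (g z - act (P z y) (g y)) := by rw [← this]; abel
    rw [h2, map_sub]; abel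
  obtain ⟨h2, h3, h4⟩ := h z hz
  refine ⟨(h2.add contDiffAt_const).congr_of_eventuallyEq h1, ?_, ?_⟩
  · rw [wz_congr h1, wz_add_const, h3]
  · rw [wb_congr h1, wb_add_const, h4]

theorem Rep.exact_iff (hO : IsOpen O) (hP : NDCOn O P) (hu : CocOn O P u) (h : Rep O P u a b) :
    Rep O P (fun _ _ => 0) a b ↔ CobOn O P u := by
  constructor
  · intro h0
    have := Rep.cob hO hP hu cocOn_zero h h0
    simpa using this
  · rintro ⟨g, hg⟩
    obtain ⟨f, hf⟩ := h
    refine ⟨_, hf.of_cob g ?_⟩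
    simpa using hg

end frames

end Crest.Agent.R276.DR_175
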