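import Mathlib.Analysis.Distribution.Sobolev
import Mathlib.Analysis.Distribution.TemperateGrowth
import Mathlib.LinearAlgebra.Complex.FiniteDimensional
import Mathlib.Analysis.Fourier.FourierTransformDeriv
import Mathlib.Analysis.Calculus.BumpFunction.InnerProduct
import Mathlib.Analysis.Calculus.LineDeriv.IntegrationByParts

/-!
# R276 (S0419), IPC (helper735), leaf REG (helper309): elliptic regularity on open subsets of `ℂ`

* `dS s φ z = ½ (∂_x φ + s ∂_y φ)` (`s = I` : `∂̄`, `s = -I` : `∂`);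
* `WD s U u f` : `D_s u = f` weakly on `U` (tested with `C_c^∞(U)`);
* `L2l U u` : `u` is square integrable on compact subsets of `U`;
* `Hs k w` : `w ∈ L²(ℂ)` is in the Sobolev space `H^k` (`k : ℕ`);
* `Hs.gain` : `w, D_s w ∈ H^k` implies `w ∈ H^{k+1}` (`s² = -1`);
* `smooth_of_all` : `⋂ H^k` consists of smooth functions;
* `all_Hs`, `smooth_rep` : weak `L²_loc` solutions of `D_{s_k} u_k = ∑ F_kl u_l + f_k` with smooth
  coefficients are smooth, `smooth_eq` : the equations hold pointwise.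
-/

set_option autoImplicit false
set_option linter.unusedSectionVars false

open MeasureTheory TemperedDistribution FourierTransform Set Filter Topology
open scoped SchwartzMap ContDiff LineDeriv

noncomputable section

namespace Crest.Agent.R276.IpcReg_309

/-- tempered distributions on `ℂ` -/
abbrev TD := 𝓢'(ℂ, ℂ)

/-- `½ (∂_x + s ∂_y)` on distributions -/
def DT (s : ℂ) (T : TD) : TD := (1/2 : ℂ) • (∂_{(1:ℂ)} T + s • ∂_{Complex.I} T)

/-- the symbol of `DT` -/
def sy (s : ℂ) (x : ℂ) : ℂ :=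
  (Real.pi * Complex.I) * (((inner ℝ x 1 : ℝ) : ℂ) + s * ((inner ℝ x Complex.I : ℝ) : ℂ))

theorem tg_inner (m : ℂ) : (fun x : ℂ => ((inner ℝ x m : ℝ) : ℂ)).HasTemperateGrowth := by fun_prop

theorem tg_sy (s : ℂ) : (sy s).HasTemperateGrowth := by
  unfold sy
  fun_prop

theorem DT_eq (s : ℂ) (T : TD) : DT s T = fourierMultiplierCLM ℂ (sy s) T := by
  unfold DT
  rw [lineDeriv_eq_fourierMultiplierCLM, lineDeriv_eq_fourierMultiplierCLM]
  have h1 := tg_inner 1
  have h2 := tg_inner Complex.I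
  have h3 : sy s = (Real.pi * Complex.I : ℂ) • (fun x : ℂ => ((inner ℝ x (1:ℂ) : ℝ) : ℂ)) + (Real.pi * Complex.I * s : ℂ) • (fun x : ℂ => ((inner ℝ x Complex.I : ℝ) : ℂ)) := by
    funext x
    simp only [sy, Pi.add_apply, Pi.smul_apply, smul_eq_mul]
    ring
  rw [h3]
  simp only [fourierMultiplierCLM_apply]
  rw [smulLeftCLM_add (by fun_prop) (by fun_prop), smulLeftCLM_smul h1, smulLeftCLM_smul h2]
  rw [_root_.add_apply, _root_.smul_apply, _root_.smul_apply, FourierTransform.fourierInv_add,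
    FourierTransform.fourierInv_smul, FourierTransform.fourierInv_smul, smul_add, smul_smul,
    smul_smul, smul_smul]
  congr 2 <;> ring

theorem fm_add {g1 g2 : ℂ → ℂ} (h1 : g1.HasTemperateGrowth) (h2 : g2.HasTemperateGrowth) (T : TD) :
    fourierMultiplierCLM ℂ g1 T + fourierMultiplierCLM ℂ g2 T = fourierMultiplierCLM ℂ (g1 + g2) T := by
  simp only [fourierMultiplierCLM_apply]
  rw [smulLeftCLM_add h1 h2, _root_.add_apply, FourierTransform.fourierInv_add]

theorem norm_sq_eq (x : ℂ) : ((‖x‖ ^ 2 : ℝ) : ℂ) = ((inner ℝ x (1:ℂ) : ℝ) : ℂ) ^ 2 + ((inner ℝ x Complex.I : ℝ) : ℂ) ^ 2 := by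
  norm_cast
  rw [Complex.sq_norm, Complex.normSq_apply, Complex.inner, Complex.inner]
  simp
  ring

theorem gain {s : ℂ} (hs : s * s = -1) {k : ℝ} {T : TD} (h0 : MemSobolev k 2 T) (h1 : MemSobolev k 2 (DT s T)) :
    MemSobolev (k + 1) 2 T := by
  rw [add_comm, ← memSobolev_besselPotential_iff (r := 1)]
  set m : ℂ → ℂ := fun x => (((1 + ‖x‖ ^ 2) ^ (-1 / 2 : ℝ) : ℝ) : ℂ) with hm
  have hmt : m.HasTemperateGrowth := by rw [hm]; fun_prop
  have hmb : ∀ x, ‖m x‖ ≤ 1 := by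
    intro x
    rw [hm]
    simp only [Complex.norm_real, Real.norm_eq_abs]
    rw [abs_eq_self.mpr (by positivity)]
    exact Real.rpow_le_one_of_one_le_of_nonpos (by nlinarith [norm_nonneg x]) (by norm_num)
  set m2 : ℂ → ℂ := fun x => (Real.pi * Complex.I)⁻¹ * (((inner ℝ x 1 : ℝ) : ℂ) - s * ((inner ℝ x Complex.I : ℝ) : ℂ)) * (((1 + ‖x‖ ^ 2) ^ (-1 / 2 : ℝ) : ℝ) : ℂ) with hm2
  have hmt2 : m2.HasTemperateGrowth := by rw [hm2]; fun_prop
  have hpi : (Real.pi * Complex.I : ℂ) ≠ 0 :=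
    mul_ne_zero (by exact_mod_cast Real.pi_ne_zero) Complex.I_ne_zero
  have key : besselPotential ℂ ℂ 1 T = fourierMultiplierCLM ℂ m T + fourierMultiplierCLM ℂ m2 (DT s T) := by
    rw [DT_eq, fourierMultiplierCLM_fourierMultiplierCLM_apply (tg_sy s) hmt2, fm_add hmt ((tg_sy s).mul hmt2)]
    unfold besselPotential
    congr 2
    funext x
    simp only [Pi.add_apply, Pi.mul_apply, hm, hm2, sy]
    have e1 : (((1 + ‖x‖ ^ 2) ^ ((1 : ℝ) / 2) : ℝ) : ℂ) = (((1 + ‖x‖ ^ 2) ^ (-1 / 2 : ℝ) : ℝ) : ℂ) * (1 + ((‖x‖ ^ 2 : ℝ) : ℂ)) := by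
      have : ((1 + ‖x‖ ^ 2) ^ ((1 : ℝ) / 2) : ℝ) = (1 + ‖x‖ ^ 2) ^ (-1 / 2 : ℝ) * (1 + ‖x‖ ^ 2) := by
        conv_rhs => rw [← Real.rpow_one (1 + ‖x‖ ^ 2), ← Real.rpow_mul (by positivity)]
        rw [← Real.rpow_add (by positivity)]
        norm_num
      rw [this]
      push_cast
      ring
    rw [e1, norm_sq_eq]
    generalize ((inner ℝ x (1 : ℂ) : ℝ) : ℂ) = a
    generalize ((inner ℝ x Complex.I : ℝ) : ℂ) = b
    generalize (((1 + ‖x‖ ^ 2) ^ (-1 / 2 : ℝ) : ℝ) : ℂ) = r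
    have e2 : (Real.pi * Complex.I : ℂ) * (Real.pi * Complex.I : ℂ)⁻¹ = 1 := mul_inv_cancel₀ hpi
    linear_combination (-(a + s * b) * (a - s * b) * r) * e2 + (r * b ^ 2) * hs
  rw [key]
  refine (h0.fourierMultiplierCLM_of_bounded hmt ⟨1, hmb⟩).add (h1.fourierMultiplierCLM_of_bounded hmt2 ⟨2, fun x => ?_⟩)
  have hs1 : ‖s‖ = 1 := by
    have : ‖s‖ * ‖s‖ = 1 := by rw [← norm_mul, hs]; simp
    nlinarith [norm_nonneg s]
  have h3 : ‖m2 x‖ ≤ Real.pi⁻¹ * (‖x‖ + ‖x‖) * ((1 + ‖x‖ ^ 2) ^ (-1 / 2 : ℝ)) := by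
    rw [hm2]
    simp only [norm_mul, norm_inv, Complex.norm_I, mul_one, Complex.norm_real, Real.norm_eq_abs]
    rw [abs_of_pos Real.pi_pos, abs_eq_self.mpr (by positivity : (0:ℝ) ≤ (1 + ‖x‖ ^ 2) ^ (-1 / 2 : ℝ))]
    gcongr
    refine (norm_sub_le _ _).trans ?_
    rw [norm_mul, hs1, one_mul, Complex.norm_real, Complex.norm_real, Real.norm_eq_abs, Real.norm_eq_abs]
    gcongr
    · refine (abs_real_inner_le_norm _ _).trans ?_
      simp
    · refine (abs_real_inner_le_norm _ _).trans ?_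
      simp
  refine h3.trans ?_
  have h4 : ‖x‖ * (1 + ‖x‖ ^ 2) ^ (-1 / 2 : ℝ) ≤ 1 := by
    have h5 : ‖x‖ ≤ (1 + ‖x‖ ^ 2) ^ (1 / 2 : ℝ) := by
      rw [← Real.sqrt_eq_rpow]
      exact Real.le_sqrt_of_sq_le (by linarith)
    have h6 : (1 + ‖x‖ ^ 2) ^ (1 / 2 : ℝ) * (1 + ‖x‖ ^ 2) ^ (-1 / 2 : ℝ) = 1 := by
      rw [← Real.rpow_add (by positivity)]
      norm_num
    calc ‖x‖ * (1 + ‖x‖ ^ 2) ^ (-1 / 2 : ℝ) ≤ (1 + ‖x‖ ^ 2) ^ (1 / 2 : ℝ) * (1 + ‖x‖ ^ 2) ^ (-1 / 2 : ℝ) := by gcongr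
      _ = 1 := h6
  have h7 : Real.pi⁻¹ ≤ 1 := by
    rw [inv_le_one₀ Real.pi_pos]
    linarith [Real.two_le_pi]
  calc Real.pi⁻¹ * (‖x‖ + ‖x‖) * ((1 + ‖x‖ ^ 2) ^ (-1 / 2 : ℝ)) = Real.pi⁻¹ * (2 * (‖x‖ * ((1 + ‖x‖ ^ 2) ^ (-1 / 2 : ℝ)))) := by ring
    _ ≤ 1 * (2 * 1) := by gcongr
    _ = 2 := by norm_num

theorem li_lp {p : ENNReal} [hp : Fact (1 ≤ p)] (v : Lp ℂ p (volume : Measure ℂ)) : LocallyIntegrable v volume :=
  (Lp.memLp v).locallyIntegrable hp.out

theorem smul_ae {p q : ENNReal} [hp : Fact (1 ≤ p)] [hq : Fact (1 ≤ q)] {v : Lp ℂ p (volume : Measure ℂ)}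
    {v' : Lp ℂ q (volume : Measure ℂ)} {g : ℂ → ℂ} (hg : g.HasTemperateGrowth)
    (h : smulLeftCLM ℂ g (v : TD) = (v' : TD)) : ∀ᵐ x, g x * v x = v' x := by
  have hgc : Continuous g := hg.1.continuous
  refine ae_eq_of_integral_contDiff_smul_eq ?_ (li_lp v') fun φ hφ hc => ?_
  · exact (li_lp v).continuous_mul (f := (v : ℂ → ℂ)) hgc
  · have hg₁ : HasCompactSupport (Complex.ofRealCLM ∘ φ) := hc.comp_left rfl
    have hg₂ : ContDiff ℝ ∞ (Complex.ofRealCLM ∘ φ) := by fun_prop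
    have h1 := congrArg (fun T : TD => T (hg₁.toSchwartzMap hg₂)) h
    simp only [smulLeftCLM_apply_apply, Lp.toTemperedDistribution_apply] at h1
    simp only [SchwartzMap.smulLeftCLM_apply_apply hg] at h1
    refine Eq.trans ?_ (h1.trans ?_)
    · congr 1
      funext x
      simp
      ring
    · congr 1
      
theorem pow_le_one_add (r : ℝ) (hr : 0 ≤ r) (n : ℕ) : r ^ n ≤ (1 + r ^ 2) ^ ((n : ℝ) / 2) := by
  have h1 : r ≤ (1 + r ^ 2) ^ (1 / 2 : ℝ) := by
    rw [← Real.sqrt_eq_rpow]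
    exact Real.le_sqrt_of_sq_le (by linarith)
  calc r ^ n ≤ ((1 + r ^ 2) ^ (1 / 2 : ℝ)) ^ n := by gcongr
    _ = (1 + r ^ 2) ^ ((n : ℝ) / 2) := by
      rw [← Real.rpow_natCast, ← Real.rpow_mul (by positivity)]
      congr 1
      ring

theorem smooth_of_all {w : Lp ℂ 2 (volume : Measure ℂ)} (h : ∀ n : ℕ, MemSobolev (n : ℝ) 2 (w : TD)) :
    ∃ W : ℂ → ℂ, ContDiff ℝ ∞ W ∧ ∀ᵐ x, w x = W x := by
  have hfin : (Module.finrank ℝ ℂ : ℝ) < 2 * 2 := by rw [Complex.finrank_real_complex]; norm_num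
  have h1 : ∀ n : ℕ, ∃ v : Lp ℂ 1 (volume : Measure ℂ), 𝓕 (besselPotential ℂ ℂ n (w : TD)) = (v : TD) := by
    intro n
    refine MemSobolev.fourier_memL1 (s := 2) hfin ?_
    rw [memSobolev_besselPotential_iff]
    have := h (n + 2)
    push_cast at this
    exact this
  choose v hv using h1
  have h2 : ∀ n : ℕ, ∀ᵐ x, (((1 + ‖x‖ ^ 2) ^ ((n : ℝ) / 2) : ℝ) : ℂ) * v 0 x = v n x := by
    intro n
    refine smul_ae (by fun_prop) ?_
    rw [← hv n, fourier_besselPotential_eq_smulLeftCLM_fourier_apply]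
    congr 1
    have h0 := hv 0
    rw [← h0]
    simp
  have h3 : ∀ n : ℕ, Integrable (fun x => ‖x‖ ^ n * ‖v 0 x‖) := by
    intro n
    refine (L1.integrable_coeFn (v n)).norm.mono' ?_ ?_
    · exact (by fun_prop : Continuous fun x : ℂ => ‖x‖ ^ n).aestronglyMeasurable.mul (Lp.aestronglyMeasurable (v 0)).norm
    · filter_upwards [h2 n] with x hx
      rw [← hx, norm_mul, norm_mul, norm_norm, norm_pow, norm_norm, Complex.norm_real, Real.norm_eq_abs, abs_of_nonneg (by positivity)]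
      gcongr
      exact pow_le_one_add _ (norm_nonneg _) n
  have h4 : ContDiff ℝ ∞ (𝓕 (v 0 : ℂ → ℂ)) := Real.contDiff_fourier (N := ⊤) fun n _ => h3 n
  have hW : ContDiff ℝ ∞ (𝓕⁻ (v 0 : ℂ → ℂ)) := by
    have h5 : 𝓕⁻ (v 0 : ℂ → ℂ) = fun x => 𝓕 (v 0 : ℂ → ℂ) (-x) := by
      funext x
      exact Real.fourierInv_eq_fourier_neg _ _
    rw [h5]
    exact h4.comp contDiff_neg
  refine ⟨𝓕⁻ (v 0 : ℂ → ℂ), hW, ?_⟩
  refine ae_eq_of_integral_contDiff_smul_eq (li_lp w) hW.continuous.locallyIntegrable fun φ hφ hc => ?_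
  have hg₁ : HasCompactSupport (Complex.ofRealCLM ∘ φ) := hc.comp_left rfl
  have hg₂ : ContDiff ℝ ∞ (Complex.ofRealCLM ∘ φ) := by fun_prop
  set u : 𝓢(ℂ, ℂ) := hg₁.toSchwartzMap hg₂ with hu
  have hux : ∀ x, u x = (φ x : ℂ) := fun x => rfl
  have h6 : 𝓕 (w : TD) = (v 0 : TD) := by
    have := hv 0
    simpa using this
  have h7 : (w : TD) u = (v 0 : TD) (𝓕⁻ u) := by
    rw [← h6, TemperedDistribution.fourier_apply, FourierTransform.fourier_fourierInv_eq]
  simp only [Lp.toTemperedDistribution_apply] at h7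
  have h8 : ∫ x, φ x • (w : ℂ → ℂ) x = ∫ x, u x • (w : ℂ → ℂ) x := by
    congr 1
  rw [h8, h7]
  have hv0 : Integrable (fun x => (v 0 : ℂ → ℂ) (-x)) := (L1.integrable_coeFn (v 0)).comp_neg
  have h9 : ∫ ξ, (𝓕 (u : ℂ → ℂ)) ξ • (v 0 : ℂ → ℂ) (-ξ) = ∫ x, u x • 𝓕 (fun x => (v 0 : ℂ → ℂ) (-x)) x := by
    simpa using! VectorFourier.integral_fourierIntegral_smul_eq_flip (L := innerₗ ℂ)
      Real.continuous_fourierChar continuous_inner u.integrable hv0
  have h10 : ∫ ξ, (𝓕 (u : ℂ → ℂ)) ξ • (v 0 : ℂ → ℂ) (-ξ) = ∫ ξ, (𝓕⁻ u) ξ • (v 0 : ℂ → ℂ) ξ := by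
    rw [← integral_neg_eq_self]
    congr 1
    funext ξ
    rw [neg_neg, SchwartzMap.fourierInv_coe, Real.fourierInv_eq_fourier_neg]
  rw [← h10, h9, ← Real.fourierInv_eq_fourier_comp_neg]
  rfl


/-! ### Sobolev functions -/

/-- `w ∈ H^k` -/
def Hs (k : ℕ) (w : ℂ → ℂ) : Prop :=
  ∃ h : MemLp w 2 (volume : Measure ℂ), MemSobolev (k : ℝ) 2 ((h.toLp w : Lp ℂ 2 volume) : TD)

theorem Hs.zero {w : ℂ → ℂ} (h : MemLp w 2 (volume : Measure ℂ)) : Hs 0 w :=
  ⟨h, by rw [Nat.cast_zero, memSobolev_zero_iff]; exact ⟨_, rfl⟩⟩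

theorem Hs.add {k : ℕ} {w w' : ℂ → ℂ} (h : Hs k w) (h' : Hs k w') :
    Hs k (fun z => w z + w' z) := by
  obtain ⟨h1, h2⟩ := h
  obtain ⟨h1', h2'⟩ := h'
  refine ⟨h1.add h1', ?_⟩
  have e1 : ((h1.add h1').toLp (fun z => w z + w' z) : Lp ℂ 2 volume) = h1.toLp w + h1'.toLp w' :=
    MemLp.toLp_add h1 h1'
  rw [e1]
  have e2 : ((h1.toLp w + h1'.toLp w' : Lp ℂ 2 volume) : TD) =
      ((h1.toLp w : Lp ℂ 2 volume) : TD) + ((h1'.toLp w' : Lp ℂ 2 volume) : TD) := by
    rw [← Lp.toTemperedDistributionCLM_apply, map_add]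
    rfl
  rw [e2]
  exact h2.add h2'

theorem Hs.congr {k : ℕ} {w w' : ℂ → ℂ} (h : Hs k w) (e : ∀ z, w z = w' z) : Hs k w' := by
  have : w = w' := funext e
  rwa [← this]

theorem Hs.of_schwartz {k : ℕ} (u : 𝓢(ℂ, ℂ)) : Hs k (u : ℂ → ℂ) := by
  refine ⟨u.memLp 2 volume, ?_⟩
  have := SchwartzMap.memSobolev (s := (k : ℝ)) (p := 2) u
  rwa [← Lp.toTemperedDistribution_toLp_eq (p := 2)] at this

theorem Hs.sum {k : ℕ} {ι : Type*} (t : Finset ι) {w : ι → ℂ → ℂ} (h : ∀ i ∈ t, Hs k (w i)) :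
    Hs k (fun z => ∑ i ∈ t, w i z) := by
  classical
  induction t using Finset.induction_on with
  | empty =>
    simp only [Finset.sum_empty]
    exact (Hs.of_schwartz (0 : 𝓢(ℂ, ℂ))).congr fun z => rfl
  | insert i t hi ih =>
    simp only [Finset.sum_insert hi]
    exact (h i (Finset.mem_insert_self i t)).add (ih fun j hj => h j (Finset.mem_insert_of_mem hj))

/-- `½ (∂_x + s ∂_y)` on functions -/
def dS (s : ℂ) (φ : ℂ → ℂ) (z : ℂ) : ℂ :=
  (1 / 2 : ℂ) * (fderiv ℝ φ z 1 + s * fderiv ℝ φ z Complex.I)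

theorem DT_apply (s : ℂ) {w : ℂ → ℂ} (h : MemLp w 2 (volume : Measure ℂ)) (u : 𝓢(ℂ, ℂ)) :
    DT s ((h.toLp w : Lp ℂ 2 volume) : TD) u = - ∫ x, dS s u x * w x := by
  have e0 : ∀ v : 𝓢(ℂ, ℂ), ((h.toLp w : Lp ℂ 2 volume) : TD) v = ∫ x, v x * w x := by
    intro v
    rw [Lp.toTemperedDistribution_apply]
    refine integral_congr_ae ?_
    filter_upwards [h.coeFn_toLp] with x hx
    rw [hx, smul_eq_mul]
  have hi : ∀ v : 𝓢(ℂ, ℂ), Integrable (fun x => v x * w x) := fun v =>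
    MemLp.integrable_mul (p := 2) (q := 2) (v.memLp 2 volume) h
  have e1 : DT s ((h.toLp w : Lp ℂ 2 volume) : TD) u =
      (1 / 2 : ℂ) * (((h.toLp w : Lp ℂ 2 volume) : TD) (-∂_{(1:ℂ)} u) +
        s * ((h.toLp w : Lp ℂ 2 volume) : TD) (-∂_{Complex.I} u)) := rfl
  rw [e1, map_neg, map_neg, e0, e0, mul_neg, ← neg_add, mul_neg, ← integral_const_mul,
    ← integral_add (hi _) ((hi _).const_mul s), ← integral_const_mul]
  congr 1
  refine integral_congr_ae (Eventually.of_forall fun x => ?_)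
  simp only [dS, SchwartzMap.lineDerivOp_apply_eq_fderiv]
  ring

theorem Hs.gain {s : ℂ} (hs : s * s = -1) {k : ℕ} {w g : ℂ → ℂ} (hw : Hs k w) (hg : Hs k g)
    (heq : ∀ u : 𝓢(ℂ, ℂ), ∫ x, dS s u x * w x = - ∫ x, u x * g x) : Hs (k + 1) w := by
  obtain ⟨h1, h2⟩ := hw
  obtain ⟨h1', h2'⟩ := hg
  refine ⟨h1, ?_⟩
  push_cast
  refine IpcReg_309.gain hs h2 ?_
  have e1 : DT s ((h1.toLp w : Lp ℂ 2 volume) : TD) = ((h1'.toLp g : Lp ℂ 2 volume) : TD) := by
    ext u
    rw [DT_apply, heq u, neg_neg, Lp.toTemperedDistribution_apply]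
    refine integral_congr_ae ?_
    filter_upwards [h1'.coeFn_toLp] with x hx
    rw [hx, smul_eq_mul]
  rw [e1]
  exact h2'

/-! ### localisation -/

/-- `D_s u = f` weakly on `U` -/
def WD (s : ℂ) (U : Set ℂ) (u f : ℂ → ℂ) : Prop :=
  ∀ φ : ℂ → ℂ, ContDiff ℝ ∞ φ → HasCompactSupport φ → tsupport φ ⊆ U →
    ∫ z, dS s φ z * u z = - ∫ z, φ z * f z

/-- locally square integrable on `U` -/
def L2l (U : Set ℂ) (u : ℂ → ℂ) : Prop :=
  ∀ K ⊆ U, IsCompact K → MemLp u 2 ((volume : Measure ℂ).restrict K)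

theorem memLp_bdd_mul {μ : Measure ℂ} {χ u : ℂ → ℂ} (hu : MemLp u 2 μ)
    (hχ : AEStronglyMeasurable χ μ) {C : ℝ} (hC : ∀ z, ‖χ z‖ ≤ C) :
    MemLp (fun z => χ z * u z) 2 μ := by
  refine MemLp.of_le_mul (c := C) hu (hχ.mul hu.1) (Eventually.of_forall fun z => ?_)
  rw [norm_mul]
  gcongr
  exact hC z

/-- cut-off functions: smooth, compact support inside `U` -/
structure Cut (U : Set ℂ) (χ : ℂ → ℂ) : Prop where
  sm : ContDiff ℝ ∞ χ
  cs : HasCompactSupport χ
  sub : tsupport χ ⊆ U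

theorem Cut.mul_memLp {U : Set ℂ} {χ u : ℂ → ℂ} (h : Cut U χ) (hu : L2l U u) :
    MemLp (fun z => χ z * u z) 2 (volume : Measure ℂ) := by
  have h1 : MemLp u 2 ((volume : Measure ℂ).restrict (tsupport χ)) := hu _ h.sub h.cs
  obtain ⟨C, hC⟩ := h.cs.exists_bound_of_continuous h.sm.continuous
  have h2 : MemLp (fun z => χ z * u z) 2 ((volume : Measure ℂ).restrict (tsupport χ)) :=
    memLp_bdd_mul h1 h.sm.continuous.aestronglyMeasurable hC
  have h3 : (tsupport χ).indicator (fun z => χ z * u z) = fun z => χ z * u z := by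
    funext z
    by_cases hz : z ∈ tsupport χ
    · rw [indicator_of_mem hz]
    · rw [indicator_of_notMem hz, image_eq_zero_of_notMem_tsupport hz, zero_mul]
  rw [← h3]
  exact (memLp_indicator_iff_restrict (isClosed_tsupport χ).measurableSet).2 h2

theorem Cut.mul_integrable {U : Set ℂ} {χ u : ℂ → ℂ} (h : Cut U χ) (hu : L2l U u) :
    Integrable (fun z => χ z * u z) := by
  have h1 : MemLp u 2 ((volume : Measure ℂ).restrict (tsupport χ)) := hu _ h.sub h.cs
  have hf : IsFiniteMeasure ((volume : Measure ℂ).restrict (tsupport χ)) :=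
    ⟨by rw [Measure.restrict_apply_univ]; exact h.cs.isCompact.measure_lt_top⟩
  obtain ⟨C, hC⟩ := h.cs.exists_bound_of_continuous h.sm.continuous
  have h2 : MemLp (fun z => χ z * u z) 2 ((volume : Measure ℂ).restrict (tsupport χ)) :=
    memLp_bdd_mul h1 h.sm.continuous.aestronglyMeasurable hC
  have h4 : IntegrableOn (fun z => χ z * u z) (tsupport χ) := h2.integrable (by norm_num)
  have h3 : (tsupport χ).indicator (fun z => χ z * u z) = fun z => χ z * u z := by
    funext z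
    by_cases hz : z ∈ tsupport χ
    · rw [indicator_of_mem hz]
    · rw [indicator_of_notMem hz, image_eq_zero_of_notMem_tsupport hz, zero_mul]
  rw [← h3]
  exact (integrable_indicator_iff (isClosed_tsupport χ).measurableSet).2 h4

/-- products of cut-offs with functions smooth on `U` -/
theorem Cut.mul {U : Set ℂ} (hU : IsOpen U) {χ F : ℂ → ℂ} (h : Cut U χ)
    (hF : ContDiffOn ℝ ∞ F U) : Cut U (fun z => χ z * F z) := by
  have h1 : tsupport (fun z => χ z * F z) ⊆ tsupport χ := tsupport_mul_subset_left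
  refine ⟨?_, h.cs.mul_right, h1.trans h.sub⟩
  rw [contDiff_iff_contDiffAt]
  intro z
  by_cases hz : z ∈ tsupport χ
  · exact (h.sm.contDiffAt).mul (hF.contDiffAt (hU.mem_nhds (h.sub hz)))
  · have h2 : (fun z => χ z * F z) =ᶠ[𝓝 z] fun _ => 0 := by
      have h3 : χ =ᶠ[𝓝 z] 0 := notMem_tsupport_iff_eventuallyEq.1 hz
      filter_upwards [h3] with y hy
      rw [hy]
      simp
    exact contDiffAt_const.congr_of_eventuallyEq h2

theorem tsupport_dS (s : ℂ) (χ : ℂ → ℂ) : tsupport (dS s χ) ⊆ tsupport χ := by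
  refine closure_minimal ?_ (isClosed_tsupport χ)
  intro z hz
  by_contra h
  have h3 : χ =ᶠ[𝓝 z] fun _ => 0 := notMem_tsupport_iff_eventuallyEq.1 h
  apply hz
  unfold dS
  rw [h3.fderiv_eq]
  simp

theorem contDiff_dS (s : ℂ) {χ : ℂ → ℂ} (h : ContDiff ℝ ∞ χ) : ContDiff ℝ ∞ (dS s χ) := by
  have h1 : ContDiff ℝ ∞ (fderiv ℝ χ) := h.fderiv_right (by simp)
  unfold dS
  fun_prop

theorem Cut.dS {U : Set ℂ} {χ : ℂ → ℂ} (h : Cut U χ) (s : ℂ) : Cut U (dS s χ) :=
  ⟨contDiff_dS s h.sm, h.cs.mono' ((subset_tsupport _).trans (tsupport_dS s χ)),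
    (tsupport_dS s χ).trans h.sub⟩

theorem Cut.hs {U : Set ℂ} {χ : ℂ → ℂ} (h : Cut U χ) (k : ℕ) : Hs k χ :=
  (Hs.of_schwartz (h.cs.toSchwartzMap h.sm)).congr fun _ => rfl

theorem dS_mul {s : ℂ} {f g : ℂ → ℂ} {z : ℂ} (hf : DifferentiableAt ℝ f z)
    (hg : DifferentiableAt ℝ g z) :
    dS s (fun y => f y * g y) z = dS s f z * g z + f z * dS s g z := by
  have h : fderiv ℝ (fun y => f y * g y) z = f z • fderiv ℝ g z + g z • fderiv ℝ f z :=
    fderiv_mul hf hg
  simp only [dS, h, _root_.add_apply, _root_.smul_apply, smul_eq_mul]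
  ring

/-- **bootstrap**: weak solutions with smooth coefficients are in all local Sobolev spaces -/
theorem all_Hs {κ : Type*} [Fintype κ] {U : Set ℂ} (hU : IsOpen U) {s : κ → ℂ}
    (hs : ∀ k, s k * s k = -1) {u : κ → ℂ → ℂ} (hu : ∀ k, L2l U (u k))
    {F : κ → κ → ℂ → ℂ} (hF : ∀ k l, ContDiffOn ℝ ∞ (F k l) U)
    {f : κ → ℂ → ℂ} (hf : ∀ k, ContDiffOn ℝ ∞ (f k) U)
    (he : ∀ k, WD (s k) U (u k) (fun z => ∑ l, F k l z * u l z + f k z)) (m : ℕ) :
    ∀ χ : ℂ → ℂ, Cut U χ → ∀ k, Hs m (fun z => χ z * u k z) := by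
  induction m with
  | zero => exact fun χ hχ k => Hs.zero (hχ.mul_memLp (hu k))
  | succ m ih =>
    intro χ hχ k
    have h1 : Hs m (fun z => dS (s k) χ z * u k z) := ih _ (hχ.dS (s k)) k
    have h2 : ∀ l, Hs m (fun z => (χ z * F k l z) * u l z) := fun l => ih _ (hχ.mul hU (hF k l)) l
    have h3 : Hs m (fun z => χ z * f k z) := (hχ.mul hU (hf k)).hs m
    have h4 := (h1.add (Hs.sum Finset.univ fun l _ => h2 l)).add h3
    refine (ih χ hχ k).gain (hs k) h4 fun φ => ?_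
    have hφ : ContDiff ℝ ∞ (φ : ℂ → ℂ) := φ.smooth ⊤
    have hc : Cut U (fun z => χ z * φ z) := hχ.mul hU hφ.contDiffOn
    have e1 := he k _ hc.sm hc.cs hc.sub
    have e2 : ∀ z, dS (s k) φ z * (χ z * u k z) =
        dS (s k) (fun y => χ y * φ y) z * u k z - (dS (s k) χ z * φ z) * u k z := by
      intro z
      rw [dS_mul (hχ.sm.contDiffAt.differentiableAt (by simp)) (hφ.contDiffAt.differentiableAt (by simp))]
      ring
    have i1 : Integrable (fun z => dS (s k) (fun y => χ y * φ y) z * u k z) :=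
      (hc.dS (s k)).mul_integrable (hu k)
    have i2 : Integrable (fun z => (dS (s k) χ z * φ z) * u k z) :=
      ((hχ.dS (s k)).mul hU hφ.contDiffOn).mul_integrable (hu k)
    have i3 : ∀ l, Integrable (fun z => ((χ z * φ z) * F k l z) * u l z) := fun l =>
      (hc.mul hU (hF k l)).mul_integrable (hu l)
    have i4 : Integrable (fun z => (χ z * φ z) * f k z) := by
      have := (hc.mul hU (hf k))
      exact this.sm.continuous.integrable_of_hasCompactSupport this.cs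
    have i5 : Integrable (fun z => (χ z * φ z) * (∑ l, F k l z * u l z + f k z)) := by
      refine ((integrable_finsetSum Finset.univ fun l _ => i3 l).add i4).congr
        (Eventually.of_forall fun z => ?_)
      simp only [Pi.add_apply, mul_add, Finset.mul_sum, mul_assoc]
    have e3 : ∫ z, dS (s k) φ z * (χ z * u k z) =
        (∫ z, dS (s k) (fun y => χ y * φ y) z * u k z) - ∫ z, (dS (s k) χ z * φ z) * u k z := by
      rw [← integral_sub i1 i2]
      exact integral_congr_ae (Eventually.of_forall e2)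
    have e4 : ∫ z, φ z * (dS (s k) χ z * u k z + ∑ l, χ z * F k l z * u l z + χ z * f k z) =
        (∫ z, (χ z * φ z) * (∑ l, F k l z * u l z + f k z)) +
          ∫ z, (dS (s k) χ z * φ z) * u k z := by
      rw [← integral_add i5 i2]
      refine integral_congr_ae (Eventually.of_forall fun z => ?_)
      simp only [mul_add, Finset.mul_sum]
      have : ∀ l, φ z * (χ z * F k l z * u l z) = χ z * φ z * (F k l z * u l z) := fun l => by ring
      simp only [this]
      ring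
    rw [e3, e4, e1]
    ring

theorem exists_cut {U : Set ℂ} (hU : IsOpen U) {z : ℂ} (hz : z ∈ U) :
    ∃ r > 0, Metric.ball z r ⊆ U ∧ ∃ χ : ℂ → ℂ, Cut U χ ∧ ∀ y ∈ Metric.ball z r, χ y = 1 := by
  obtain ⟨R, hR, hRU⟩ := Metric.isOpen_iff.1 hU z hz
  let b : ContDiffBump z := ⟨R / 4, R / 2, by positivity, by linarith⟩
  refine ⟨R / 4, by positivity, (Metric.ball_subset_ball (by linarith)).trans hRU,
    fun y => (b y : ℂ), ⟨?_, ?_, ?_⟩, fun y hy => ?_⟩
  · exact Complex.ofRealCLM.contDiff.comp b.contDiff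
  · exact b.hasCompactSupport.comp_left (g := fun x : ℝ => (x : ℂ)) Complex.ofReal_zero
  · have h1 : tsupport (fun y => (b y : ℂ)) ⊆ tsupport b :=
      closure_mono fun y hy h => hy (by simpa using h)
    refine h1.trans ?_
    rw [b.tsupport_eq]
    exact (Metric.closedBall_subset_ball (by show R / 2 < R; linarith)).trans hRU
  · have : b y = 1 := b.one_of_mem_closedBall (Metric.ball_subset_closedBall hy)
    simp [this]

/-- a function which is locally a.e. equal to smooth functions has a smooth representative -/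
theorem patch {U : Set ℂ} {u : ℂ → ℂ}
    (h : ∀ z ∈ U, ∃ r > 0, ∃ W : ℂ → ℂ, ContDiff ℝ ∞ W ∧ ∀ᵐ y, y ∈ Metric.ball z r → u y = W y) :
    ∃ v : ℂ → ℂ, ContDiffOn ℝ ∞ v U ∧ ∀ᵐ y, y ∈ U → u y = v y := by
  classical
  choose! r hr W hW hu using h
  have key : ∀ z ∈ U, ∀ y ∈ U, ∀ x ∈ Metric.ball z (r z) ∩ Metric.ball y (r y), W z x = W y x := by
    intro z hz y hy x hx
    have ho : IsOpen (Metric.ball z (r z) ∩ Metric.ball y (r y)) :=
      Metric.isOpen_ball.inter Metric.isOpen_ball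
    refine Measure.eqOn_open_of_ae_eq (μ := volume) ?_ ho (hW z hz).continuous.continuousOn
      (hW y hy).continuous.continuousOn hx
    refine (ae_restrict_iff' ho.measurableSet).2 ?_
    filter_upwards [hu z hz, hu y hy] with t h1 h2 ht
    rw [← h1 ht.1, h2 ht.2]
  set v : ℂ → ℂ := fun z => W z z with hv
  have hvW : ∀ z ∈ U, ∀ x ∈ U, x ∈ Metric.ball z (r z) → v x = W z x := by
    intro z hz x hx hxz
    exact key x hx z hz x ⟨Metric.mem_ball_self (hr x hx), hxz⟩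
  refine ⟨v, fun z hz => ?_, ?_⟩
  · refine (hW z hz).contDiffAt.contDiffWithinAt.congr_of_eventuallyEq ?_ (hvW z hz z hz (Metric.mem_ball_self (hr z hz)))
    filter_upwards [self_mem_nhdsWithin, mem_nhdsWithin_of_mem_nhds (Metric.ball_mem_nhds z (hr z hz))] with x hx hxz
    exact hvW z hz x hx hxz
  · have h0 : (volume : Measure ℂ) {y | ¬ (y ∈ U → u y = v y)} = 0 := by
      refine measure_null_of_locally_null _ fun z hz => ?_
      have hzU : z ∈ U := by
        by_contra h'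
        exact hz fun h'' => absurd h'' h'
      refine ⟨{y | ¬ (y ∈ U → u y = v y)} ∩ Metric.ball z (r z),
        inter_mem self_mem_nhdsWithin (mem_nhdsWithin_of_mem_nhds (Metric.ball_mem_nhds z (hr z hzU))), ?_⟩
      refine measure_mono_null ?_ (ae_iff.1 (hu z hzU))
      rintro y ⟨hy1, hy2⟩ hy3
      apply hy1
      intro hyU
      rw [hy3 hy2, hvW z hzU y hyU hy2]
    exact h0

theorem L2l.of_continuousOn {U : Set ℂ} {v : ℂ → ℂ} (hv : ContinuousOn v U) : L2l U v := by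
  intro K hKU hK
  have hf : IsFiniteMeasure ((volume : Measure ℂ).restrict K) :=
    ⟨by rw [Measure.restrict_apply_univ]; exact hK.measure_lt_top⟩
  obtain ⟨C, hC⟩ := hK.exists_bound_of_continuousOn (hv.mono hKU)
  refine MemLp.of_bound ((hv.mono hKU).aestronglyMeasurable hK.measurableSet) C ?_
  filter_upwards [ae_restrict_mem hK.measurableSet] with z hz
  exact hC z hz

theorem integral_dS {s : ℂ} {φ v : ℂ → ℂ} {U : Set ℂ} (hU : IsOpen U) (hφ : Cut U φ)
    (hv : ContDiffOn ℝ ∞ v U) : ∫ z, dS s φ z * v z = - ∫ z, φ z * dS s v z := by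
  have h1 : ContDiff ℝ ∞ (fun z => φ z * v z) := (hφ.mul hU hv).sm
  -- `∫ dS (φ v) = 0`
  have h2 : ∀ ψ : ℂ → ℂ, Cut U ψ → ∀ m : ℂ, ∫ z, fderiv ℝ ψ z m = 0 := by
    intro ψ hψ m
    have hd : Continuous (fun z => fderiv ℝ ψ z m) :=
      (hψ.sm.continuous_fderiv (by simp)).clm_apply continuous_const
    have hc : HasCompactSupport (fun z => fderiv ℝ ψ z m) := hψ.cs.fderiv_apply ℝ m
    have := integral_mul_fderiv_eq_neg_fderiv_mul_of_integrable (μ := (volume : Measure ℂ))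
      (f := fun _ : ℂ => (1 : ℂ)) (g := ψ) (v := m) (by simp)
      (by simpa using hd.integrable_of_hasCompactSupport hc)
      (by simpa using hψ.sm.continuous.integrable_of_hasCompactSupport hψ.cs)
      (fun _ _ => differentiableAt_const _)
      (fun x _ => hψ.sm.contDiffAt.differentiableAt (by simp))
    simpa using this
  have h3 : ∫ z, dS s (fun z => φ z * v z) z = 0 := by
    have hψ := hφ.mul hU hv
    have hi : ∀ m : ℂ, Integrable (fun z => fderiv ℝ (fun z => φ z * v z) z m) := fun m =>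
      ((hψ.sm.continuous_fderiv (by simp)).clm_apply continuous_const).integrable_of_hasCompactSupport
        (hψ.cs.fderiv_apply ℝ m)
    unfold dS
    rw [integral_const_mul, integral_add (hi 1) ((hi Complex.I).const_mul s), integral_const_mul,
      h2 _ hψ 1, h2 _ hψ Complex.I]
    simp
  have h4 : ∀ z, dS s (fun z => φ z * v z) z = dS s φ z * v z + φ z * dS s v z := by
    intro z
    by_cases hz : z ∈ tsupport φ
    · exact dS_mul (hφ.sm.contDiffAt.differentiableAt (by simp))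
        ((hv.contDiffAt (hU.mem_nhds (hφ.sub hz))).differentiableAt (by simp))
    · have e1 : φ =ᶠ[𝓝 z] fun _ => 0 := notMem_tsupport_iff_eventuallyEq.1 hz
      have e2 : (fun z => φ z * v z) =ᶠ[𝓝 z] fun _ => 0 := by
        filter_upwards [e1] with y hy
        rw [hy, zero_mul]
      have e3 : φ z = 0 := e1.self_of_nhds
      simp only [dS, e2.fderiv_eq, e1.fderiv_eq, e3]
      simp
  have i1 : Integrable (fun z => dS s φ z * v z) :=
    (hφ.dS s).mul_integrable (L2l.of_continuousOn hv.continuousOn)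
  have i2 : Integrable (fun z => dS s (fun z => φ z * v z) z) :=
    ((hφ.mul hU hv).dS s).sm.continuous.integrable_of_hasCompactSupport ((hφ.mul hU hv).dS s).cs
  have i3 : Integrable (fun z => φ z * dS s v z) := by
    refine (i2.sub i1).congr (Eventually.of_forall fun z => ?_)
    simp only [Pi.sub_apply, h4 z]
    ring
  refine eq_neg_of_add_eq_zero_left ?_
  rw [← integral_add i1 i3, ← h3]
  refine integral_congr_ae (Eventually.of_forall fun z => ?_)
  simp only [h4 z]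

/-- fundamental lemma of the calculus of variations -/
theorem eq_zero_of_weak {U : Set ℂ} (hU : IsOpen U) {g : ℂ → ℂ} (hgc : ContinuousOn g U)
    (h6 : ∀ φ : ℂ → ℂ, Cut U φ → ∫ y, φ y * g y = 0) : ∀ z ∈ U, g z = 0 := by
  have h7 : ∀ᵐ y, y ∈ U → g y = 0 := by
    refine hU.ae_eq_zero_of_integral_contDiff_smul_eq_zero
      (hgc.locallyIntegrableOn hU.measurableSet) fun φ hφ hc hs' => ?_
    have hcut : Cut U (fun y => (φ y : ℂ)) := by
      refine ⟨Complex.ofRealCLM.contDiff.comp hφ,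
        hc.comp_left (g := fun x : ℝ => (x : ℂ)) Complex.ofReal_zero, ?_⟩
      have h1 : tsupport (fun y => (φ y : ℂ)) ⊆ tsupport φ :=
        closure_mono fun y hy h => hy (by simpa using h)
      exact h1.trans hs'
    have := h6 _ hcut
    simpa [Complex.real_smul] using this
  exact Measure.eqOn_open_of_ae_eq (μ := volume) (f := g) (g := fun _ => 0)
    ((ae_restrict_iff' hU.measurableSet).2 h7) hU hgc continuousOn_const

/-- **regularity**: weak `L²_loc` solutions of first order elliptic systems on open subsets of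
the plane, with smooth coefficients, are smooth -/
theorem smooth_rep {κ : Type*} [Fintype κ] {U : Set ℂ} (hU : IsOpen U) {s : κ → ℂ}
    (hs : ∀ k, s k * s k = -1) {u : κ → ℂ → ℂ} (hu : ∀ k, L2l U (u k))
    {F : κ → κ → ℂ → ℂ} (hF : ∀ k l, ContDiffOn ℝ ∞ (F k l) U)
    {f : κ → ℂ → ℂ} (hf : ∀ k, ContDiffOn ℝ ∞ (f k) U)
    (he : ∀ k, WD (s k) U (u k) (fun z => ∑ l, F k l z * u l z + f k z)) :
    ∃ v : κ → ℂ → ℂ, (∀ k, ContDiffOn ℝ ∞ (v k) U) ∧ (∀ k, ∀ᵐ z, z ∈ U → u k z = v k z) ∧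
      ∀ k, ∀ z ∈ U, dS (s k) (v k) z = ∑ l, F k l z * v l z + f k z := by
  have h1 : ∀ k, ∃ v : ℂ → ℂ, ContDiffOn ℝ ∞ v U ∧ ∀ᵐ z, z ∈ U → u k z = v z := by
    intro k
    refine patch fun z hz => ?_
    obtain ⟨r, hr, hrU, χ, hχ, hχ1⟩ := exists_cut hU hz
    have h2 : ∀ m, Hs m (fun z => χ z * u k z) := fun m => all_Hs hU hs hu hF hf he m χ hχ k
    obtain ⟨hm, -⟩ := h2 0
    have h3 : ∀ n : ℕ, MemSobolev (n : ℝ) 2 ((hm.toLp _ : Lp ℂ 2 volume) : TD) := fun n =>
      (h2 n).2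
    obtain ⟨W, hW, hWe⟩ := smooth_of_all h3
    refine ⟨r, hr, W, hW, ?_⟩
    filter_upwards [hWe, hm.coeFn_toLp] with y hy1 hy2 hy3
    rw [← hy1, hy2, hχ1 y hy3, one_mul]
  choose v hv huv using h1
  refine ⟨v, hv, huv, fun k z hz => ?_⟩
  -- the difference is continuous and weakly zero
  set g : ℂ → ℂ := fun z => dS (s k) (v k) z - (∑ l, F k l z * v l z + f k z) with hg
  have hdS : ContinuousOn (dS (s k) (v k)) U := by
    have h5 : ContinuousOn (fderiv ℝ (v k)) U := (hv k).continuousOn_fderiv_of_isOpen hU (by simp)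
    unfold dS
    exact continuousOn_const.mul ((h5.clm_apply continuousOn_const).add
      (continuousOn_const.mul (h5.clm_apply continuousOn_const)))
  have hgc : ContinuousOn g U := by
    refine hdS.sub (ContinuousOn.add ?_ (hf k).continuousOn)
    exact continuousOn_finsetSum _ fun l _ => (hF k l).continuousOn.mul (hv l).continuousOn
  have hR : ContinuousOn (fun z => ∑ l, F k l z * v l z + f k z) U :=
    ContinuousOn.add (continuousOn_finsetSum _ fun l _ =>
      (hF k l).continuousOn.mul (hv l).continuousOn) (hf k).continuousOn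
  have h6 : ∀ φ : ℂ → ℂ, Cut U φ → ∫ y, φ y * g y = 0 := by
    intro φ hφ
    have e1 := he k φ hφ.sm hφ.cs hφ.sub
    have e2 : ∫ y, dS (s k) φ y * u k y = ∫ y, dS (s k) φ y * v k y := by
      refine integral_congr_ae ?_
      filter_upwards [huv k] with y hy
      by_cases hyU : y ∈ U
      · rw [hy hyU]
      · have : dS (s k) φ y = 0 := image_eq_zero_of_notMem_tsupport fun h => hyU ((hφ.dS (s k)).sub h)
        rw [this, zero_mul, zero_mul]
    have e3 : ∫ y, φ y * (∑ l, F k l y * u l y + f k y) =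
        ∫ y, φ y * (∑ l, F k l y * v l y + f k y) := by
      refine integral_congr_ae ?_
      filter_upwards [ae_all_iff.2 huv] with y hy
      by_cases hyU : y ∈ U
      · simp only [fun l => hy l hyU]
      · rw [image_eq_zero_of_notMem_tsupport fun h => hyU (hφ.sub h), zero_mul, zero_mul]
    rw [e2, e3, integral_dS hU hφ (hv k), neg_inj] at e1
    have i1 : Integrable (fun y => φ y * dS (s k) (v k) y) :=
      hφ.mul_integrable (L2l.of_continuousOn hdS)
    have i2 : Integrable (fun y => φ y * (∑ l, F k l y * v l y + f k y)) :=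
      hφ.mul_integrable (L2l.of_continuousOn hR)
    have e4 : ∫ y, φ y * g y = (∫ y, φ y * dS (s k) (v k) y) -
        ∫ y, φ y * (∑ l, F k l y * v l y + f k y) := by
      rw [← integral_sub i1 i2]
      refine integral_congr_ae (Eventually.of_forall fun y => ?_)
      simp only [hg, mul_sub]
    rw [e4, e1, sub_self]
  have := eq_zero_of_weak hU hgc h6 z hz
  simp only [hg] at this
  exact sub_eq_zero.1 this

/-! ### the case of one-forms `a dx + b dx̄` -/

/-- **plane version** -/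
theorem plane {ι : Type*} [Fintype ι] {U : Set ℂ} (hU : IsOpen U) {a b : ι → ℂ → ℂ}
    (ha : ∀ i, L2l U (a i)) (hb : ∀ i, L2l U (b i)) {F G H K : ι → ι → ℂ → ℂ}
    (hF : ∀ i j, ContDiffOn ℝ ∞ (F i j) U) (hG : ∀ i j, ContDiffOn ℝ ∞ (G i j) U)
    (hH : ∀ i j, ContDiffOn ℝ ∞ (H i j) U) (hK : ∀ i j, ContDiffOn ℝ ∞ (K i j) U)
    {f g : ι → ℂ → ℂ} (hf : ∀ i, ContDiffOn ℝ ∞ (f i) U) (hg : ∀ i, ContDiffOn ℝ ∞ (g i) U)
    (h1 : ∀ i, WD Complex.I U (a i)
      (fun z => (∑ j, F i j z * a j z) + (∑ j, G i j z * b j z) + f i z))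
    (h2 : ∀ i, WD (-Complex.I) U (b i)
      (fun z => (∑ j, H i j z * a j z) + (∑ j, K i j z * b j z) + g i z)) :
    ∃ a' b' : ι → ℂ → ℂ, (∀ i, ContDiffOn ℝ ∞ (a' i) U) ∧ (∀ i, ContDiffOn ℝ ∞ (b' i) U) ∧
      (∀ i, ∀ᵐ z, z ∈ U → a i z = a' i z) ∧ (∀ i, ∀ᵐ z, z ∈ U → b i z = b' i z) ∧
      (∀ i, ∀ z ∈ U, dS Complex.I (a' i) z =
        (∑ j, F i j z * a' j z) + (∑ j, G i j z * b' j z) + f i z) ∧
      (∀ i, ∀ z ∈ U, dS (-Complex.I) (b' i) z =
        (∑ j, H i j z * a' j z) + (∑ j, K i j z * b' j z) + g i z) := by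
  obtain ⟨v, hv, huv, hev⟩ := smooth_rep (κ := ι ⊕ ι) hU
    (s := Sum.elim (fun _ => Complex.I) (fun _ => -Complex.I))
    (by rintro (i | i) <;> simp)
    (u := Sum.elim a b) (by rintro (i | i); exacts [ha i, hb i])
    (F := fun k l => Sum.elim (fun i => Sum.elim (F i) (G i) l) (fun i => Sum.elim (H i) (K i) l) k)
    (by rintro (i | i) (j | j); exacts [hF i j, hG i j, hH i j, hK i j])
    (f := Sum.elim f g) (by rintro (i | i); exacts [hf i, hg i])
    (by
      rintro (i | i)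
      · simpa using h1 i
      · simpa using h2 i)
  refine ⟨fun i => v (Sum.inl i), fun i => v (Sum.inr i), fun i => hv _, fun i => hv _,
    fun i => huv (Sum.inl i), fun i => huv (Sum.inr i), fun i z hz => ?_, fun i z hz => ?_⟩
  · simpa using hev (Sum.inl i) z hz
  · simpa using hev (Sum.inr i) z hz

/-- **regularity of harmonic forms**: if `η = a dx + b dx̄` is weakly closed
(`∂̄ a = ∂ b`) and `K a dx - K b dx̄` is weakly closed (`∂̄ (K a) = - ∂ (K b)`), `K` a smooth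
invertible matrix, then `η` is smooth. -/
theorem harm_smooth {ι : Type*} [Fintype ι] [DecidableEq ι] {U : Set ℂ} (hU : IsOpen U)
    {a b : ι → ℂ → ℂ} (ha : ∀ i, L2l U (a i)) (hb : ∀ i, L2l U (b i))
    {K Ki : ι → ι → ℂ → ℂ} (hK : ∀ i j, ContDiffOn ℝ ∞ (K i j) U)
    (hKi : ∀ i j, ContDiffOn ℝ ∞ (Ki i j) U)
    (hKK : ∀ z ∈ U, ∀ i l, ∑ j, Ki i j z * K j l z = if i = l then 1 else 0)
    (h1 : ∀ i, ∀ φ : ℂ → ℂ, Cut U φ →
      ∫ z, dS Complex.I φ z * a i z = ∫ z, dS (-Complex.I) φ z * b i z)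
    (h2 : ∀ i, ∀ φ : ℂ → ℂ, Cut U φ →
      ∫ z, dS Complex.I φ z * ∑ j, K i j z * a j z =
        - ∫ z, dS (-Complex.I) φ z * ∑ j, K i j z * b j z) :
    ∃ a' b' : ι → ℂ → ℂ, (∀ i, ContDiffOn ℝ ∞ (a' i) U) ∧ (∀ i, ContDiffOn ℝ ∞ (b' i) U) ∧
      (∀ i, ∀ᵐ z, z ∈ U → a i z = a' i z) ∧ (∀ i, ∀ᵐ z, z ∈ U → b i z = b' i z) ∧
      (∀ i, ∀ z ∈ U, dS Complex.I (a' i) z = dS (-Complex.I) (b' i) z) ∧
      (∀ i, ∀ z ∈ U, dS Complex.I (fun y => ∑ j, K i j y * a' j y) z =
        - dS (-Complex.I) (fun y => ∑ j, K i j y * b' j y) z) := by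
  classical
  have hdK : ∀ s i k, ContDiffOn ℝ ∞ (dS s (Ki i k)) U := by
    intro s i k
    have h5 : ContDiffOn ℝ ∞ (fderiv ℝ (Ki i k)) U :=
      (hKi i k).fderiv_of_isOpen hU (by simp)
    unfold dS
    exact contDiffOn_const.mul ((h5.clm_apply contDiffOn_const).add
      (contDiffOn_const.mul (h5.clm_apply contDiffOn_const)))
  set F : ℂ → ι → ι → ℂ → ℂ := fun s i j z => ∑ k, (1 / 2 : ℂ) * (dS s (Ki i k) z * K k j z)
    with hFdef
  have hF : ∀ s i j, ContDiffOn ℝ ∞ (F s i j) U := fun s i j =>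
    ContDiffOn.sum fun k _ => contDiffOn_const.mul ((hdK s i k).mul (hK k j))
  -- pointwise algebra
  have alg : ∀ (s : ℂ) (φ : ℂ → ℂ) (hφ : Cut U φ) (i : ι) (w : ι → ℂ → ℂ) (z : ℂ),
      ∑ k, dS s (fun y => φ y * Ki i k y) z * ∑ j, K k j z * w j z =
        dS s φ z * w i z + 2 * (φ z * ∑ j, F s i j z * w j z) := by
    intro s φ hφ i w z
    by_cases hz : z ∈ tsupport φ
    · have hzU := hφ.sub hz
      have e1 : ∀ k, dS s (fun y => φ y * Ki i k y) z =
          dS s φ z * Ki i k z + φ z * dS s (Ki i k) z := fun k =>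
        dS_mul (hφ.sm.contDiffAt.differentiableAt (by simp))
          (((hKi i k).contDiffAt (hU.mem_nhds hzU)).differentiableAt (by simp))
      simp only [e1, add_mul, Finset.sum_add_distrib]
      congr 1
      · have e2 : ∑ k, dS s φ z * Ki i k z * ∑ j, K k j z * w j z =
            dS s φ z * ∑ j, (∑ k, Ki i k z * K k j z) * w j z := by
          simp only [Finset.mul_sum, Finset.sum_mul]
          rw [Finset.sum_comm]
          exact Finset.sum_congr rfl fun j _ => Finset.sum_congr rfl fun k _ => by ring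
        rw [e2]
        congr 1
        simp only [hKK z hzU, ite_mul, one_mul, zero_mul, Finset.sum_ite_eq, Finset.mem_univ,
          if_true]
      · simp only [hFdef, Finset.mul_sum, Finset.sum_mul]
        rw [Finset.sum_comm]
        exact Finset.sum_congr rfl fun j _ => Finset.sum_congr rfl fun k _ => by ring
    · have e0 : φ z = 0 := image_eq_zero_of_notMem_tsupport hz
      have e1 : dS s φ z = 0 := image_eq_zero_of_notMem_tsupport fun h => hz (tsupport_dS s φ h)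
      have e2 : ∀ k, dS s (fun y => φ y * Ki i k y) z = 0 := fun k =>
        image_eq_zero_of_notMem_tsupport fun h =>
          hz (tsupport_mul_subset_left (tsupport_dS s _ h))
      simp only [e2, e0, e1, zero_mul, Finset.sum_const_zero, mul_zero, add_zero]
  have hI : ∀ (s : ℂ) (φ : ℂ → ℂ) (hφ : Cut U φ) (i : ι) (w : ι → ℂ → ℂ) (hw : ∀ j, L2l U (w j)),
      ∑ k, ∫ z, dS s (fun y => φ y * Ki i k y) z * ∑ j, K k j z * w j z =
        (∫ z, dS s φ z * w i z) + 2 * ∫ z, φ z * ∑ j, F s i j z * w j z := by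
    intro s φ hφ i w hw
    have i1 : ∀ k, Integrable (fun z => dS s (fun y => φ y * Ki i k y) z * ∑ j, K k j z * w j z) := by
      intro k
      have hc := (hφ.mul hU (hKi i k)).dS s
      refine (integrable_finsetSum Finset.univ fun j _ =>
        (hc.mul hU (hK k j)).mul_integrable (hw j)).congr (Eventually.of_forall fun z => ?_)
      simp only [Finset.mul_sum, mul_assoc]
    have i2 : Integrable (fun z => φ z * ∑ j, F s i j z * w j z) := by
      refine (integrable_finsetSum Finset.univ fun j _ =>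
        (hφ.mul hU (hF s i j)).mul_integrable (hw j)).congr (Eventually.of_forall fun z => ?_)
      simp only [Finset.mul_sum, mul_assoc]
    rw [← integral_finsetSum _ fun k _ => i1 k, ← integral_const_mul,
      ← integral_add ((hφ.dS s).mul_integrable (hw i)) (i2.const_mul 2)]
    exact integral_congr_ae (Eventually.of_forall fun z => alg s φ hφ i w z)
  have key : ∀ i, ∀ φ : ℂ → ℂ, Cut U φ →
      (∫ z, dS Complex.I φ z * a i z) = - ((∫ z, φ z * ∑ j, F Complex.I i j z * a j z) +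
        ∫ z, φ z * ∑ j, F (-Complex.I) i j z * b j z) := by
    intro i φ hφ
    have e1 : ∑ k, ∫ z, dS Complex.I (fun y => φ y * Ki i k y) z * ∑ j, K k j z * a j z =
        - ∑ k, ∫ z, dS (-Complex.I) (fun y => φ y * Ki i k y) z * ∑ j, K k j z * b j z := by
      rw [← Finset.sum_neg_distrib]
      exact Finset.sum_congr rfl fun k _ => h2 k _ (hφ.mul hU (hKi i k))
    rw [hI _ φ hφ i a ha, hI _ φ hφ i b hb] at e1
    have e2 := h1 i φ hφ
    linear_combination (1 / 2 : ℂ) * e1 + (1 / 2 : ℂ) * e2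
  have hint : ∀ (s : ℂ) (φ : ℂ → ℂ) (hφ : Cut U φ) (i : ι) (w : ι → ℂ → ℂ)
      (hw : ∀ j, L2l U (w j)), Integrable (fun z => φ z * ∑ j, F s i j z * w j z) := by
    intro s φ hφ i w hw
    refine (integrable_finsetSum Finset.univ fun j _ =>
      (hφ.mul hU (hF s i j)).mul_integrable (hw j)).congr (Eventually.of_forall fun z => ?_)
    simp only [Finset.mul_sum, mul_assoc]
  have key2 : ∀ i, ∀ φ : ℂ → ℂ, Cut U φ →
      (∫ z, dS Complex.I φ z * a i z) = - ∫ z, φ z * ((∑ j, F Complex.I i j z * a j z) +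
        (∑ j, F (-Complex.I) i j z * b j z) + 0) := by
    intro i φ hφ
    rw [key i φ hφ, ← integral_add (hint _ φ hφ i a ha) (hint _ φ hφ i b hb)]
    congr 1
    refine integral_congr_ae (Eventually.of_forall fun z => ?_)
    simp only
    ring
  obtain ⟨a', b', ha', hb', hae, hbe, q1, q2⟩ := plane hU ha hb (F := F Complex.I)
    (G := F (-Complex.I)) (H := F Complex.I) (K := F (-Complex.I)) (hF _) (hF _) (hF _) (hF _)
    (f := fun _ _ => 0) (g := fun _ _ => 0) (fun _ => contDiffOn_const) (fun _ => contDiffOn_const)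
    (fun i φ h1 h2 h3 => key2 i φ ⟨h1, h2, h3⟩)
    (fun i φ h1' h2' h3' => by
      rw [← h1 i φ ⟨h1', h2', h3'⟩]
      exact key2 i φ ⟨h1', h2', h3'⟩)
  refine ⟨a', b', ha', hb', hae, hbe, fun i z hz => by rw [q1 i z hz, q2 i z hz],
    fun i z hz => ?_⟩
  have hsm : ∀ w : ι → ℂ → ℂ, (∀ j, ContDiffOn ℝ ∞ (w j) U) →
      ContDiffOn ℝ ∞ (fun y => ∑ j, K i j y * w j y) U := fun w hw =>
    ContDiffOn.sum fun j _ => (hK i j).mul (hw j)
  have hcd : ∀ (s : ℂ) (w : ℂ → ℂ), ContDiffOn ℝ ∞ w U → ContinuousOn (dS s w) U := by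
    intro s w hw
    have h5 : ContinuousOn (fderiv ℝ w) U := hw.continuousOn_fderiv_of_isOpen hU (by simp)
    unfold dS
    exact continuousOn_const.mul ((h5.clm_apply continuousOn_const).add
      (continuousOn_const.mul (h5.clm_apply continuousOn_const)))
  have hz0 := eq_zero_of_weak hU (g := fun z => dS Complex.I (fun y => ∑ j, K i j y * a' j y) z +
      dS (-Complex.I) (fun y => ∑ j, K i j y * b' j y) z)
    ((hcd _ _ (hsm a' ha')).add (hcd _ _ (hsm b' hb'))) (fun φ hφ => by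
      have e1 := h2 i φ hφ
      have e2 : ∀ (s : ℂ) (w w' : ι → ℂ → ℂ), (∀ j, ∀ᵐ z, z ∈ U → w j z = w' j z) →
          ∫ z, dS s φ z * ∑ j, K i j z * w j z = ∫ z, dS s φ z * ∑ j, K i j z * w' j z := by
        intro s w w' hww
        refine integral_congr_ae ?_
        filter_upwards [ae_all_iff.2 hww] with y hy
        by_cases hyU : y ∈ U
        · simp only [fun l => hy l hyU]
        · rw [image_eq_zero_of_notMem_tsupport fun h => hyU ((hφ.dS s).sub h), zero_mul, zero_mul]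
      rw [e2 _ a a' hae, e2 _ b b' hbe, integral_dS hU hφ (hsm a' ha'),
        integral_dS hU hφ (hsm b' hb'), neg_neg] at e1
      have i1 : Integrable (fun z => φ z * dS Complex.I (fun y => ∑ j, K i j y * a' j y) z) :=
        hφ.mul_integrable (L2l.of_continuousOn (hcd _ _ (hsm a' ha')))
      have i2 : Integrable (fun z => φ z * dS (-Complex.I) (fun y => ∑ j, K i j y * b' j y) z) :=
        hφ.mul_integrable (L2l.of_continuousOn (hcd _ _ (hsm b' hb')))
      simp only [mul_add]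
      rw [integral_add i1 i2, ← e1, add_neg_cancel]) z hz
  exact eq_neg_of_add_eq_zero_left hz0

end Crest.Agent.R276.IpcReg_309
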