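import Crest.Agent.R276.IpcEx_975

/-!
# R276, IPC fixed-s assembly (helper975), part 9: pure generators of `Ex`, stability of `Ha`
-/

set_option autoImplicit false

open Set Filter Topology MeasureTheory UniformSpace
open scoped ContDiff ComplexConjugate

namespace Crest.Agent.R276.IpcG1_975

open VCalc_442 IpcGr_975

variable {V : Type*} [NormedAddCommGroup V] [NormedSpace ℂ V] {X : Set ℂ}

namespace PV

variable {w : ℕ} (M : PV V X w)

theorem th_P {z : ℂ} (hz : z ∈ X) (p : ℕ) : M.th z * M.Pf p z = M.Pm p z * M.th z := by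
  cases p with
  | zero => rw [M.Pm_zero, zero_mul]; exact (M.lo_th hz).mul_pr_zero (M.sp z hz)
  | succ p => rw [M.Pm_succ]; exact (M.lo_th hz).mul_pr (M.sp z hz) p

theorem ths_P {z : ℂ} (hz : z ∈ X) (p : ℕ) : M.ths z * M.Pf p z = M.Pf (p + 1) z * M.ths z :=
  (M.hi_ths hz).mul_pr (M.sp z hz) p

theorem Pm_idem {z : ℂ} (hz : z ∈ X) (p : ℕ) (u : V) : M.Pm p z (M.Pm p z u) = M.Pm p z u := by
  cases p with
  | zero => rw [M.Pm_zero]; simp
  | succ p => rw [M.Pm_succ]; exact M.Pf_idem hz p u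

theorem Pm_Pf {z : ℂ} (hz : z ∈ X) (p : ℕ) (u : V) : M.Pm p z (M.Pf p z u) = 0 := by
  cases p with
  | zero => rw [M.Pm_zero]; simp
  | succ p => rw [M.Pm_succ]; exact M.Pf_mul0 hz (by omega) u

theorem Pf_Pm {z : ℂ} (hz : z ∈ X) (p : ℕ) (u : V) : M.Pf p z (M.Pm p z u) = 0 := by
  cases p with
  | zero => rw [M.Pm_zero]; simp
  | succ p => rw [M.Pm_succ]; exact M.Pf_mul0 hz (by omega) u

/-- derivative of a pure section -/
theorem d1_pure {p : ℕ} {φ : ℂ → V} (hφ : M.Sm φ) (hp : ∀ z ∈ X, M.Pf p z (φ z) = φ z) {z : ℂ}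
    (hz : z ∈ X) : M.Pm p z (M.d1 φ z) + M.Pf p z (M.d1 φ z) = M.d1 φ z := by
  have h1 : M.d1 (fun z => M.Pf p z (φ z)) z = M.d1 φ z := by
    have : M.tr z (fun z => M.Pf p z (φ z)) =ᶠ[𝓝 z] M.tr z φ := by
      filter_upwards [M.op.mem_nhds hz] with y hy
      rw [FB.tr, FB.tr, hp y hy]
    exact dW_congr this 1
  have h2 := FB.d1_app (M.smP p) hφ hz
  rw [h1, M.D1_P p hz, sub_apply, mul_apply_eq_comp, mul_apply_eq_comp, hp z hz] at h2
  have h3 : M.th z (φ z) = M.Pm p z (M.th z (φ z)) := by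
    have := congrArg (fun T : V →L[ℂ] V => T (φ z)) (M.th_P hz p)
    simp only [mul_apply_eq_comp] at this
    rwa [hp z hz] at this
  -- `d1 φ = θ φ - P_p θ φ + P_p d1 φ`
  have e1 : M.Pf p z (M.th z (φ z)) = 0 := by rw [h3]; exact M.Pf_Pm hz p _
  rw [e1, sub_zero] at h2
  have e2 : M.Pm p z (M.d1 φ z) = M.th z (φ z) := by
    rw [h2, map_add, M.Pm_Pf hz, add_zero, ← h3]
  rw [e2, ← h2]

theorem d2_pure {p : ℕ} {φ : ℂ → V} (hφ : M.Sm φ) (hp : ∀ z ∈ X, M.Pf p z (φ z) = φ z) {z : ℂ}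
    (hz : z ∈ X) : M.Pf p z (M.d2 φ z) + M.Pf (p + 1) z (M.d2 φ z) = M.d2 φ z := by
  have h1 : M.d2 (fun z => M.Pf p z (φ z)) z = M.d2 φ z := by
    have : M.tr z (fun z => M.Pf p z (φ z)) =ᶠ[𝓝 z] M.tr z φ := by
      filter_upwards [M.op.mem_nhds hz] with y hy
      rw [FB.tr, FB.tr, hp y hy]
    exact dB_congr this 1
  have h2 := FB.d2_app (M.smP p) hφ hz
  rw [h1, M.D2_P p hz, sub_apply, mul_apply_eq_comp, mul_apply_eq_comp, hp z hz] at h2
  have h3 : M.ths z (φ z) = M.Pf (p + 1) z (M.ths z (φ z)) := by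
    have := congrArg (fun T : V →L[ℂ] V => T (φ z)) (M.ths_P hz p)
    simp only [mul_apply_eq_comp] at this
    rwa [hp z hz] at this
  have e1 : M.Pf p z (M.ths z (φ z)) = 0 := by rw [h3]; exact M.Pf_mul0 hz (by omega) _
  rw [e1, sub_zero] at h2
  have e2 : M.Pf (p + 1) z (M.d2 φ z) = M.ths z (φ z) := by
    rw [h2, map_add, M.Pf_mul0 hz (by omega), add_zero, ← h3]
  rw [e2, add_comm, ← h2]

variable [FiniteDimensional ℂ V]

/-- `D` of the pure sections -/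
def Gen : Set M.L := {d | ∃ φ : M.toFB.A0, (∃ p, p ≤ w ∧ ∀ z ∈ X, M.Pf p z (φ.1 z) = φ.1 z) ∧
  d = M.DL φ}

theorem gen_ex {d : M.L} (hd : d ∈ M.Gen) : d ∈ M.Ex := by
  obtain ⟨φ, -, rfl⟩ := hd
  exact M.DL_mem_ex φ

theorem gen_type {d : M.L} (hd : d ∈ M.Gen) :
    ∃ P, P + 1 ≤ w + 1 ∧ d = M.Ty P d + M.Ty (P + 1) d := by
  obtain ⟨φ, ⟨p, hp, hφ⟩, rfl⟩ := hd
  refine ⟨p, by omega, ?_⟩
  have e : M.DL φ = ((M.mb.dbl.s0 (M.toFB.Df φ.1) (FB.Df_mem φ.2) : M.mb.dbl.H0) : M.L) := rfl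
  unfold Ty
  rw [e, M.mb.dbl.op_coe (M.ok_ty p), M.mb.dbl.op_coe (M.ok_ty (p + 1)), ← Completion.coe_add]
  congr 1
  refine MB.H0.ext ?_
  funext z
  show M.toFB.Df φ.1 z = M.ty p z (M.toFB.Df φ.1 z) + M.ty (p + 1) z (M.toFB.Df φ.1 z)
  by_cases hz : z ∈ X
  · refine Prod.ext ?_ ?_
    · exact (M.d1_pure φ.2.1 hφ hz).symm
    · exact (M.d2_pure φ.2.1 hφ hz).symm
  · have e1 : M.toFB.Df φ.1 z = 0 := Prod.ext (FB.d1_zero_out φ.2 hz) (FB.d2_zero_out φ.2 hz)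
    rw [e1]
    simp

theorem range_le_span : (LinearMap.range M.DL) ≤ Submodule.span ℂ M.Gen := by
  rintro _ ⟨φ, rfl⟩
  have hm : ∀ p, (fun z => M.Pf p z (φ.1 z)) ∈ M.toFB.A0 := fun p =>
    FB.app_mem_A0 (M.smP p) φ.2
  have hsum : φ = ∑ p ∈ Finset.range (w + 1), (⟨_, hm p⟩ : M.toFB.A0) := by
    apply Subtype.ext
    rw [Submodule.coe_sum]
    funext z
    rw [Finset.sum_apply]
    by_cases hz : z ∈ X
    · exact (M.sum_Pf hz _).symm
    · simp [FB.zero_out φ.2 hz]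
  rw [hsum, map_sum]
  refine Submodule.sum_mem _ fun p hp => Submodule.subset_span ?_
  refine ⟨⟨_, hm p⟩, ⟨p, by simpa [Nat.lt_succ_iff] using hp, fun z hz => ?_⟩, rfl⟩
  exact M.Pf_idem hz p _

theorem ex_sub : (M.Ex : Set M.L) ⊆ closure (Submodule.span ℂ M.Gen : Set M.L) :=
  closure_mono M.range_le_span

/-- 817's `Fix` from a class map -/
noncomputable def fix {W : Type*} [NormedAddCommGroup W] [NormedSpace ℂ W] (cl : M.Zc →L[ℂ] W)
    (hs : Function.Surjective cl) (hk : ∀ u : M.Zc, cl u = 0 ↔ (u : M.L) ∈ M.Ex) :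
    HsB_817.Fix M.L W where
  β := M.be
  symm := M.be_symm
  Ex := M.Ex
  Zc := M.Zc
  exClosed := M.ex_closed
  memZc := fun _ => Iff.rfl
  exLe := M.ex_le_zc
  cl := cl
  clSurj := hs
  clKer := hk

/-- 817's `Types` -/
theorem types {W : Type*} [NormedAddCommGroup W] [NormedSpace ℂ W] (cl : M.Zc →L[ℂ] W)
    (hs : Function.Surjective cl) (hk : ∀ u : M.Zc, cl u = 0 ↔ (u : M.L) ∈ M.Ex) :
    HsB_817.Types (M.fix cl hs hk) (w + 1) M.Ty 1 where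
  cpos := one_pos
  sum := M.Ty_sum
  idem := fun P _ u => by rw [M.Ty_Ty, if_pos rfl]
  mul0 := fun P _ Q _ h u => by rw [M.Ty_Ty, if_neg h]
  orth := fun P _ Q _ h u v => M.Ty_orth h u v
  coer := M.be_coer
  stab := HsB_817.stab_of_generators (D := M.fix cl hs hk) M.Ty_sum
    (fun P _ Q _ h u v => M.Ty_orth h u v) M.Gen M.ex_sub (fun _ hd => M.gen_ex hd)
    (fun _ hd => M.gen_type hd)

end PV

end Crest.Agent.R276.IpcG1_975
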