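import Crest.Agent.R276.IpcLc_975
import Crest.Agent.R276.IpcSt_975
import Crest.Agent.R276.IpcReg_309

/-!
# R276, IPC fixed-s assembly (helper975), part 12: harmonic elements are smooth
-/

set_option autoImplicit false

open Set Filter Topology MeasureTheory UniformSpace
open scoped ContDiff ComplexConjugate ENNReal

namespace Crest.Agent.R276.IpcG1_975

open VCalc_442 IpcGr_975 IpcReg_309

theorem dS_I (φ : ℂ → ℂ) (z : ℂ) : dS Complex.I φ z = dB φ 1 z := by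
  unfold dS dB
  simp [smul_eq_mul]

theorem dS_negI (φ : ℂ → ℂ) (z : ℂ) : dS (-Complex.I) φ z = dW φ 1 z := by
  unfold dS dW
  simp [smul_eq_mul, sub_eq_add_neg]

theorem dW_conj_fun {χ : ℂ → ℂ} (z : ℂ) (hχ : DifferentiableAt ℝ χ z) :
    dW (fun y => (starRingEnd ℂ) (χ y)) 1 z = (starRingEnd ℂ) (dB χ 1 z) :=
  dW_conj (Complex.conjCLE : ℂ →L[ℝ] ℂ) (fun c a => by simp) hχ 1

theorem dB_conj_fun {χ : ℂ → ℂ} (z : ℂ) (hχ : DifferentiableAt ℝ χ z) :
    dB (fun y => (starRingEnd ℂ) (χ y)) 1 z = (starRingEnd ℂ) (dW χ 1 z) :=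
  dB_conj (Complex.conjCLE : ℂ →L[ℝ] ℂ) (fun c a => by simp) hχ 1

variable {X : Set ℂ}

namespace PV

section dual

variable {V : Type*} [NormedAddCommGroup V] [NormedSpace ℂ V] [FiniteDimensional ℂ V] {w : ℕ}
  (M : PV V X w)

/-- every functional is `S(u, ·)` -/
theorem exists_dual {z : ℂ} (hz : z ∈ X) (f : Module.Dual ℂ V) : ∃ u, ∀ v, M.S z u v = f v := by
  let T : V →ₗ[ℝ] Module.Dual ℂ V :=
    { toFun := fun u => (M.S z u).toLinearMap
      map_add' := fun a b => by ext v; simp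
      map_smul' := fun r a => by
        ext v
        have h1 : M.S z (r • a) = (r : ℂ) • M.S z a := by
          rw [← Complex.coe_smul r a, map_smulₛₗ, Complex.conj_ofReal]
        simp [h1] }
  have hinj : Function.Injective T := by
    rw [← LinearMap.ker_eq_bot, LinearMap.ker_eq_bot']
    intro u hu
    refine M.nondeg hz fun v => ?_
    rw [← M.hermS z hz]
    have : M.S z u v = 0 := congrArg (fun L : Module.Dual ℂ V => L v) hu
    rw [this, map_zero]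
  haveI : FiniteDimensional ℝ V := FiniteDimensional.complexToReal V
  haveI : FiniteDimensional ℝ (Module.Dual ℂ V) := FiniteDimensional.complexToReal _
  have hdim : Module.finrank ℝ V = Module.finrank ℝ (Module.Dual ℂ V) := by
    rw [finrank_real_of_complex, finrank_real_of_complex, Subspace.dual_finrank_eq]
  obtain ⟨u, hu⟩ := (LinearMap.injective_iff_surjective_of_finrank_eq_finrank hdim).1 hinj f
  exact ⟨u, fun v => congrArg (fun L : Module.Dual ℂ V => L v) hu⟩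

end dual

variable {ι : Type*} [Fintype ι] [DecidableEq ι] {w : ℕ} (M : PV (ι → ℂ) X w)

/-- the standard basis of the space of forms -/
noncomputable def bas : ι ⊕ ι → (ι → ℂ) × (ι → ℂ) :=
  Sum.elim (fun i => (Pi.single i 1, 0)) (fun i => (0, Pi.single i 1))

/-- the coordinates -/
noncomputable def coo : ι ⊕ ι → ((ι → ℂ) × (ι → ℂ) →L[ℂ] ℂ) :=
  Sum.elim (fun i => (ContinuousLinearMap.proj (R := ℂ) (φ := fun _ : ι => ℂ) i).comp
      (ContinuousLinearMap.fst ℂ _ _))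
    (fun i => (ContinuousLinearMap.proj (R := ℂ) (φ := fun _ : ι => ℂ) i).comp
      (ContinuousLinearMap.snd ℂ _ _))

theorem sum_single (v : ι → ℂ) : ∑ i, v i • (Pi.single i 1 : ι → ℂ) = v := by
  ext j
  simp [Finset.sum_apply, Pi.single_apply]

theorem coo_bas (u : (ι → ℂ) × (ι → ℂ)) : ∑ k, (coo k u : ℂ) • (bas k : (ι → ℂ) × (ι → ℂ)) = u := by
  rw [Fintype.sum_sum_type]
  have h1 : ∑ i : ι, (coo (Sum.inl i) u : ℂ) • (bas (Sum.inl i) : (ι → ℂ) × (ι → ℂ)) = (u.1, 0) := by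
    refine Prod.ext ?_ ?_
    · rw [Prod.fst_sum]
      exact sum_single u.1
    · rw [Prod.snd_sum]
      simp [bas]
  have h2 : ∑ i : ι, (coo (Sum.inr i) u : ℂ) • (bas (Sum.inr i) : (ι → ℂ) × (ι → ℂ)) = (0, u.2) := by
    refine Prod.ext ?_ ?_
    · rw [Prod.fst_sum]
      simp [bas]
    · rw [Prod.snd_sum]
      exact sum_single u.2
  rw [h1, h2]
  simp

/-- small discs on which `S` is constant in the frame at the centre -/
structure PDisc (z : ℂ) (r : ℝ) : Prop where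
  d : M.mb.dbl.Disc z r
  nb : ∃ U, M.toFB.Nb z U ∧ Metric.closedBall z r ⊆ U ∧
    ∀ y ∈ U, ∀ u v, M.S z (M.P z y u) (M.P z y v) = M.S y u v

theorem exists_pdisc {z : ℂ} (hz : z ∈ X) : ∃ r, M.PDisc z r := by
  obtain ⟨r, hr⟩ := M.mb.dbl.exists_disc hz
  obtain ⟨U, hU, hS⟩ := Nb.exists_flatS (M := M) hz
  obtain ⟨r', hr', hr'U⟩ := Metric.mem_nhds_iff.1 (hU.op.mem_nhds hU.mem)
  have hmin : 0 < min r (r' / 2) := lt_min hr.pos (by linarith)
  refine ⟨min r (r' / 2), hr.mono hmin (min_le_left _ _), U, hU, ?_, hS⟩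
  refine (Metric.closedBall_subset_ball ?_).trans hr'U
  exact lt_of_le_of_lt (min_le_right _ _) (by linarith)

variable {M} {z : ℂ} {r : ℝ}

/-- the test section `conj χ • u` -/
noncomputable def tst (F : FB (ι → ℂ) X) (z : ℂ) (χ : ℂ → ℂ) (u : ι → ℂ) (y : ℂ) : ι → ℂ :=
  (starRingEnd ℂ) (χ y) • F.P y z u

theorem tst_mem (h : M.PDisc z r) {χ : ℂ → ℂ} (hχ : Cut (Metric.ball z r) χ) (u : ι → ℂ) :
    tst M.toFB z χ u ∈ M.A0 := by
  obtain ⟨U, hU, hs, -⟩ := h.nb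
  refine FB.cut_mem_A0 hU.op hU.sub (f := fun y => (starRingEnd ℂ) (χ y))
    (Complex.conjCLE.contDiff.comp hχ.sm)
    (hχ.cs.comp_left (g := fun x : ℂ => (starRingEnd ℂ) x) (map_zero _)) ?_ ?_
  · refine (closure_mono fun y hy h0 => ?_ : tsupport (fun y => (starRingEnd ℂ) (χ y)) ⊆ tsupport χ).trans
      ((hχ.sub.trans Metric.ball_subset_closedBall).trans hs)
    exact hy (by show (starRingEnd ℂ) (χ y) = 0; rw [h0, map_zero])
  · intro x hx
    have e1 : M.tr x (fun y => M.P y z u) =ᶠ[𝓝 x] fun _ => M.P x z u := by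
      filter_upwards [hU.op.mem_nhds hx] with y hy
      exact hU.comp_apply hx hy hU.mem u
    exact contDiffAt_const.congr_of_eventuallyEq e1

theorem tst_tr (h : M.PDisc z r) (χ : ℂ → ℂ) (u : ι → ℂ) {y : ℂ}
    (hy : y ∈ Metric.ball z r) : M.tr z (tst M.toFB z χ u) =ᶠ[𝓝 y]
      fun x => (starRingEnd ℂ) (χ x) • u := by
  obtain ⟨U, hU, hs, -⟩ := h.nb
  have hyU : y ∈ U := hs (Metric.ball_subset_closedBall hy)
  filter_upwards [hU.op.mem_nhds hyU] with x hx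
  show M.P z x ((starRingEnd ℂ) (χ x) • M.P x z u) = _
  rw [map_smul, hU.inv_apply hU.mem hx]

theorem dW_smul_const {f : ℂ → ℂ} {y : ℂ} (hf : DifferentiableAt ℝ f y) (u : ι → ℂ) :
    dW (fun x => f x • u) 1 y = dW f 1 y • u := by
  have := dW_clm ((ContinuousLinearMap.id ℂ ℂ).smulRight u) hf 1
  exact this

theorem dB_smul_const {f : ℂ → ℂ} {y : ℂ} (hf : DifferentiableAt ℝ f y) (u : ι → ℂ) :
    dB (fun x => f x • u) 1 y = dB f 1 y • u := by
  have := dB_clm ((ContinuousLinearMap.id ℂ ℂ).smulRight u) hf 1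
  exact this

theorem tst_d1 (h : M.PDisc z r) {χ : ℂ → ℂ} (hχ : Cut (Metric.ball z r) χ) (u : ι → ℂ) {y : ℂ}
    (hy : y ∈ Metric.ball z r) :
    M.d1 (tst M.toFB z χ u) y = M.P y z ((starRingEnd ℂ) (dB χ 1 y) • u) := by
  obtain ⟨U, hU, hs, -⟩ := h.nb
  have hyU : y ∈ U := hs (Metric.ball_subset_closedBall hy)
  have hd : DifferentiableAt ℝ χ y := hχ.sm.contDiffAt.differentiableAt (by simp)
  have hdc : DifferentiableAt ℝ (fun x => (starRingEnd ℂ) (χ x)) y :=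
    (Complex.conjCLE : ℂ →L[ℝ] ℂ).differentiableAt.comp y hd
  rw [hU.val hyU (M.d1 (tst M.toFB z χ u)), hU.tr_d1 (tst_mem h hχ u).1 hyU,
    dW_congr (tst_tr h χ u hy), dW_smul_const hdc, dW_conj_fun y hd]

theorem tst_d2 (h : M.PDisc z r) {χ : ℂ → ℂ} (hχ : Cut (Metric.ball z r) χ) (u : ι → ℂ) {y : ℂ}
    (hy : y ∈ Metric.ball z r) :
    M.d2 (tst M.toFB z χ u) y = M.P y z ((starRingEnd ℂ) (dW χ 1 y) • u) := by
  obtain ⟨U, hU, hs, -⟩ := h.nb
  have hyU : y ∈ U := hs (Metric.ball_subset_closedBall hy)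
  have hd : DifferentiableAt ℝ χ y := hχ.sm.contDiffAt.differentiableAt (by simp)
  have hdc : DifferentiableAt ℝ (fun x => (starRingEnd ℂ) (χ x)) y :=
    (Complex.conjCLE : ℂ →L[ℝ] ℂ).differentiableAt.comp y hd
  rw [hU.val hyU (M.d2 (tst M.toFB z χ u)), hU.tr_d2 (tst_mem h hχ u).1 hyU,
    dB_congr (tst_tr h χ u hy), dB_smul_const hdc, dB_conj_fun y hd]

/-- `S` in the frame at `z` -/
theorem PDisc.S (h : M.PDisc z r) {y : ℂ} (hy : y ∈ Metric.ball z r) (u v : ι → ℂ) :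
    M.S y (M.P y z u) (M.P y z v) = M.S z u v := by
  obtain ⟨U, hU, hs, hS⟩ := h.nb
  have hyU : y ∈ U := hs (Metric.ball_subset_closedBall hy)
  rw [← hS y hyU, hU.inv_apply hU.mem hyU, hU.inv_apply hU.mem hyU]

theorem PDisc.mem (h : M.PDisc z r) {y : ℂ} (hy : y ∈ Metric.ball z r) : y ∈ X :=
  h.d.sub (Metric.ball_subset_closedBall hy)

/-- local coordinate of `u` -/
noncomputable def PDisc.co (h : M.PDisc z r) (u : M.L) (k : ι ⊕ ι) : ℂ → ℂ := h.d.loc (coo k) u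

theorem tst_zero {χ : ℂ → ℂ} {F : FB (ι → ℂ) X} (hχ : Cut (Metric.ball z r) χ) (u : ι → ℂ) :
    ∀ x ∉ tsupport χ, tst F z χ u x = 0 := by
  intro x hx
  have : χ x = 0 := image_eq_zero_of_notMem_tsupport hx
  simp [tst, this]

theorem cut_dW_zero {χ : ℂ → ℂ} {y : ℂ} (hχ : Cut (Metric.ball z r) χ) (hy : y ∉ Metric.ball z r) :
    dS (-Complex.I) χ y = 0 :=
  image_eq_zero_of_notMem_tsupport fun h => hy ((hχ.dS (-Complex.I)).sub h)

theorem cut_dB_zero {χ : ℂ → ℂ} {y : ℂ} (hχ : Cut (Metric.ball z r) χ) (hy : y ∉ Metric.ball z r) :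
    dS (Complex.I) χ y = 0 :=
  image_eq_zero_of_notMem_tsupport fun h => hy ((hχ.dS Complex.I).sub h)

/-- the field `J` in the frame at `z` -/
noncomputable def Kf (M : PV (ι → ℂ) X w) (z : ℂ) (i j : ι) (y : ℂ) : ℂ :=
  M.trO z M.Jf y (Pi.single j 1) i

/-- pairing of `u` with `A (D φ)`, `A` a diagonal field -/
theorem PDisc.pairD (h : M.PDisc z r) (u : M.L) {A : ℂ → ((ι → ℂ) × (ι → ℂ) →L[ℂ] (ι → ℂ) × (ι → ℂ))}
    (hA : M.mb.dbl.Ok A) {χ : ℂ → ℂ} (hχ : Cut (Metric.ball z r) χ) (v : ι → ℂ) :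
    inner ℂ (M.mb.dbl.opL A (M.DL ⟨_, tst_mem h hχ v⟩)) u =
      ∫ y in Metric.ball z r, ∑ k, M.mb.dbl.G y (A y (M.P y z ((starRingEnd ℂ) (dB χ 1 y) • v),
        M.P y z ((starRingEnd ℂ) (dW χ 1 y) • v))) (M.toFB.dbl.P y z (bas k)) * h.co u k y := by
  rw [M.DL_apply, M.mb.dbl.op_coe hA]
  rw [h.d.pair (e := bas) (ℓ := coo) coo_bas]
  · refine setIntegral_congr_fun Metric.isOpen_ball.measurableSet fun y hy => ?_
    simp only
    refine Finset.sum_congr rfl fun k _ => ?_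
    have e : M.toFB.Df (tst M.toFB z χ v) y = (M.P y z ((starRingEnd ℂ) (dB χ 1 y) • v),
        M.P y z ((starRingEnd ℂ) (dW χ 1 y) • v)) :=
      Prod.ext (tst_d1 h hχ v hy) (tst_d2 h hχ v hy)
    have e2 : (M.mb.dbl.s0 (fun z_1 => A z_1 ((M.mb.dbl.s0 (M.toFB.Df (tst M.toFB z χ v))
        (FB.Df_mem (tst_mem h hχ v))).f z_1)) (FB.app_mem_A0 hA.1 (MB.H0.mem _))).f y =
        A y (M.toFB.Df (tst M.toFB z χ v) y) := rfl
    rw [e2, e]
    rfl
  · refine ⟨tsupport χ, hχ.sub, hχ.cs, fun x hx => ?_⟩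
    have e1 : M.d1 (tst M.toFB z χ v) x = 0 := FB.d1_zero_of hχ.cs (tst_zero hχ v) hx
    have e2 : M.d2 (tst M.toFB z χ v) x = 0 := FB.d2_zero_of hχ.cs (tst_zero hχ v) hx
    show A x (M.d1 (tst M.toFB z χ v) x, M.d2 (tst M.toFB z χ v) x) = 0
    rw [e1, e2]
    exact map_zero _

theorem S_conj (z : ℂ) (c : ℂ) (u v : ι → ℂ) :
    M.S z ((starRingEnd ℂ) c • u) v = c * M.S z u v := by
  rw [map_smulₛₗ, smul_apply, Complex.conj_conj, smul_eq_mul]

theorem P2_inl (y z : ℂ) (i : ι) :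
    M.toFB.dbl.P y z (bas (Sum.inl i)) = (M.P y z (Pi.single i 1), 0) := by
  show (M.P y z (Pi.single i 1), M.P y z 0) = _
  rw [map_zero]

theorem P2_inr (y z : ℂ) (i : ι) :
    M.toFB.dbl.P y z (bas (Sum.inr i)) = (0, M.P y z (Pi.single i 1)) := by
  show (M.P y z 0, M.P y z (Pi.single i 1)) = _
  rw [map_zero]

theorem ball_int {z : ℂ} {r : ℝ} {f : ℂ → ℂ} (h : ∀ y ∉ Metric.ball z r, f y = 0) :
    ∫ y in Metric.ball z r, f y = ∫ y, f y :=
  setIntegral_eq_integral_of_forall_compl_eq_zero fun x hx => h x hx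

theorem PDisc.l2 (h : M.PDisc z r) (u : M.L) (k : ι ⊕ ι) : L2l (Metric.ball z r) (h.co u k) := by
  intro K hK _
  have h1 : MemLp (h.co u k) 2 (volume.restrict (Metric.ball z r)) := Lp.memLp _
  exact h1.mono_measure (Measure.restrict_mono hK le_rfl)

/-- weak closedness in local coordinates -/
theorem PDisc.weak1 (h : M.PDisc z r) {u : M.L} (hu : u ∈ M.Zc) (hz : z ∈ X) (j : ι) {χ : ℂ → ℂ}
    (hχ : Cut (Metric.ball z r) χ) :
    ∫ y, dS Complex.I χ y * h.co u (Sum.inl j) y = ∫ y, dS (-Complex.I) χ y * h.co u (Sum.inr j) y := by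
  obtain ⟨v, hv⟩ := M.exists_dual hz (LinearMap.proj j : (ι → ℂ) →ₗ[ℂ] ℂ)
  have h0 : inner ℂ (M.mb.dbl.opL M.bt (M.DL ⟨_, tst_mem h hχ v⟩)) u = 0 := by
    have h1 := (M.mem_Zc'.1 hu) ⟨_, tst_mem h hχ v⟩
    have h2 : inner ℂ (M.be (M.DL ⟨_, tst_mem h hχ v⟩)) u = 0 := by
      rw [M.be_symm, ← inner_conj_symm, h1, map_zero]
    exact h2
  rw [h.pairD u M.ok_bt hχ v] at h0
  have key : ∀ y ∈ Metric.ball z r,
      ∑ k, M.mb.dbl.G y (M.bt y (M.P y z ((starRingEnd ℂ) (dB χ 1 y) • v),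
        M.P y z ((starRingEnd ℂ) (dW χ 1 y) • v))) (M.toFB.dbl.P y z (bas k)) * h.co u k y =
      dS (-Complex.I) χ y * h.co u (Sum.inr j) y - dS Complex.I χ y * h.co u (Sum.inl j) y := by
    intro y hy
    have hyX := h.mem hy
    rw [Fintype.sum_sum_type]
    have e1 : ∀ i : ι, M.mb.dbl.G y (M.bt y (M.P y z ((starRingEnd ℂ) (dB χ 1 y) • v),
        M.P y z ((starRingEnd ℂ) (dW χ 1 y) • v))) (M.toFB.dbl.P y z (bas (Sum.inl i))) =
        - (dB χ 1 y * (Pi.single i (1:ℂ) : ι → ℂ) j) := by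
      intro i
      rw [P2_inl]
      show M.Gf y (- M.Jf y (M.P y z ((starRingEnd ℂ) (dB χ 1 y) • v))) (M.P y z (Pi.single i 1)) +
        M.Gf y (M.Jf y (M.P y z ((starRingEnd ℂ) (dW χ 1 y) • v))) 0 = _
      rw [map_zero, add_zero, map_neg, neg_apply, M.G_J hyX, h.S hy, S_conj, hv]
      rfl
    have e2 : ∀ i : ι, M.mb.dbl.G y (M.bt y (M.P y z ((starRingEnd ℂ) (dB χ 1 y) • v),
        M.P y z ((starRingEnd ℂ) (dW χ 1 y) • v))) (M.toFB.dbl.P y z (bas (Sum.inr i))) =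
        dW χ 1 y * (Pi.single i (1:ℂ) : ι → ℂ) j := by
      intro i
      rw [P2_inr]
      show M.Gf y (- M.Jf y (M.P y z ((starRingEnd ℂ) (dB χ 1 y) • v))) 0 +
        M.Gf y (M.Jf y (M.P y z ((starRingEnd ℂ) (dW χ 1 y) • v))) (M.P y z (Pi.single i 1)) = _
      rw [map_zero, zero_add, M.G_J hyX, h.S hy, S_conj, hv]
      rfl
    simp only [e1, e2, Pi.single_apply, dS_I, dS_negI]
    simp only [mul_ite, mul_one, mul_zero, neg_ite, neg_zero, ite_mul, zero_mul,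
      Finset.sum_ite_eq, Finset.mem_univ, if_true]
    ring
  rw [setIntegral_congr_fun Metric.isOpen_ball.measurableSet key, ball_int, integral_sub] at h0
  · exact (sub_eq_zero.1 h0).symm
  · exact (hχ.dS (-Complex.I)).mul_integrable (h.l2 u _)
  · exact (hχ.dS Complex.I).mul_integrable (h.l2 u _)
  · intro y hy
    rw [cut_dW_zero hχ hy, cut_dB_zero hχ hy]; ring

/-- weak closedness of `β u` in local coordinates -/
theorem PDisc.weak2 (h : M.PDisc z r) {u : M.L} (hu : M.be u ∈ M.Zc) (hz : z ∈ X) (j : ι)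
    {χ : ℂ → ℂ} (hχ : Cut (Metric.ball z r) χ) :
    ∫ y, dS Complex.I χ y * ∑ i, Kf M z j i y * h.co u (Sum.inl i) y =
      - ∫ y, dS (-Complex.I) χ y * ∑ i, Kf M z j i y * h.co u (Sum.inr i) y := by
  obtain ⟨v, hv⟩ := M.exists_dual hz (LinearMap.proj j : (ι → ℂ) →ₗ[ℂ] ℂ)
  have h0 : inner ℂ (M.mb.dbl.opL (fun _ => 1) (M.DL ⟨_, tst_mem h hχ v⟩)) u = 0 := by
    have h1 := (M.mem_Zc'.1 hu) ⟨_, tst_mem h hχ v⟩
    rw [M.be_be] at h1
    rw [M.mb.dbl.opL_one, ← inner_conj_symm, h1, map_zero]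
  rw [h.pairD u M.mb.dbl.ok_one hχ v] at h0
  obtain ⟨U, hU, hs, hSU⟩ := h.nb
  have hJP : ∀ y ∈ Metric.ball z r, ∀ v, M.Jf y (M.P y z v) = M.P y z (M.trO z M.Jf y v) := by
    intro y hy v
    have hyU : y ∈ U := hs (Metric.ball_subset_closedBall hy)
    show M.Jf y (M.P y z v) = M.P y z (M.P z y (M.Jf y (M.P y z v)))
    rw [hU.inv_apply hyU hU.mem]
  have key : ∀ y ∈ Metric.ball z r,
      ∑ k, M.mb.dbl.G y ((1 : (ι → ℂ) × (ι → ℂ) →L[ℂ] (ι → ℂ) × (ι → ℂ))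
        (M.P y z ((starRingEnd ℂ) (dB χ 1 y) • v),
        M.P y z ((starRingEnd ℂ) (dW χ 1 y) • v))) (M.toFB.dbl.P y z (bas k)) * h.co u k y =
      dS Complex.I χ y * (∑ i, Kf M z j i y * h.co u (Sum.inl i) y) +
        dS (-Complex.I) χ y * ∑ i, Kf M z j i y * h.co u (Sum.inr i) y := by
    intro y hy
    have hyX := h.mem hy
    rw [Fintype.sum_sum_type]
    have e1 : ∀ i : ι, M.mb.dbl.G y ((1 : (ι → ℂ) × (ι → ℂ) →L[ℂ] (ι → ℂ) × (ι → ℂ))
        (M.P y z ((starRingEnd ℂ) (dB χ 1 y) • v),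
        M.P y z ((starRingEnd ℂ) (dW χ 1 y) • v))) (M.toFB.dbl.P y z (bas (Sum.inl i))) =
        dB χ 1 y * Kf M z j i y := by
      intro i
      rw [P2_inl]
      show M.Gf y (M.P y z ((starRingEnd ℂ) (dB χ 1 y) • v)) (M.P y z (Pi.single i 1)) +
        M.Gf y (M.P y z ((starRingEnd ℂ) (dW χ 1 y) • v)) 0 = _
      rw [map_zero, add_zero, Gf_apply, M.S_J hyX, hJP y hy, h.S hy, S_conj, hv]
      rfl
    have e2 : ∀ i : ι, M.mb.dbl.G y ((1 : (ι → ℂ) × (ι → ℂ) →L[ℂ] (ι → ℂ) × (ι → ℂ))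
        (M.P y z ((starRingEnd ℂ) (dB χ 1 y) • v),
        M.P y z ((starRingEnd ℂ) (dW χ 1 y) • v))) (M.toFB.dbl.P y z (bas (Sum.inr i))) =
        dW χ 1 y * Kf M z j i y := by
      intro i
      rw [P2_inr]
      show M.Gf y (M.P y z ((starRingEnd ℂ) (dB χ 1 y) • v)) 0 +
        M.Gf y (M.P y z ((starRingEnd ℂ) (dW χ 1 y) • v)) (M.P y z (Pi.single i 1)) = _
      rw [map_zero, zero_add, Gf_apply, M.S_J hyX, hJP y hy, h.S hy, S_conj, hv]
      rfl
    simp only [e1, e2, dS_I, dS_negI, Finset.mul_sum]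
    congr 1
    · exact Finset.sum_congr rfl fun i _ => by ring
    · exact Finset.sum_congr rfl fun i _ => by ring
  have hKs : ∀ i, ContDiffOn ℝ ∞ (Kf M z j i) (Metric.ball z r) := by
    intro i
    have h1 : ContDiffOn ℝ ∞ (M.trO z M.Jf) (Metric.ball z r) :=
      (hU.contDiffOnO M.smJ).mono (Metric.ball_subset_closedBall.trans hs)
    exact (((ContinuousLinearMap.proj (R := ℂ) (φ := fun _ : ι => ℂ) j).comp
      (ContinuousLinearMap.apply ℂ (ι → ℂ) (Pi.single i 1))).restrictScalars ℝ).contDiff.comp_contDiffOn h1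
  have hint : ∀ (s : ℂ) (c : ι → ι ⊕ ι), Integrable (fun y => dS s χ y *
      ∑ i, Kf M z j i y * h.co u (c i) y) := by
    intro s c
    refine (integrable_finsetSum Finset.univ fun i _ =>
      ((hχ.dS s).mul Metric.isOpen_ball (hKs i)).mul_integrable (h.l2 u (c i))).congr
        (Eventually.of_forall fun y => ?_)
    simp only [Finset.mul_sum, mul_assoc]
  rw [setIntegral_congr_fun Metric.isOpen_ball.measurableSet key, ball_int,
    integral_add (hint _ _) (hint _ _)] at h0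
  · exact eq_neg_of_add_eq_zero_left h0
  · intro y hy
    rw [cut_dW_zero hχ hy, cut_dB_zero hχ hy]; ring

theorem PDisc.KK (h : M.PDisc z r) {y : ℂ} (hy : y ∈ Metric.ball z r) (i l : ι) :
    ∑ j, Kf M z i j y * Kf M z j l y = if i = l then 1 else 0 := by
  obtain ⟨U, hU, hs, -⟩ := h.nb
  have hyU : y ∈ U := hs (Metric.ball_subset_closedBall hy)
  have e1 : M.trO z M.Jf y (M.trO z M.Jf y (Pi.single l 1)) = Pi.single l 1 := by
    show M.P z y (M.Jf y (M.P y z (M.P z y (M.Jf y (M.P y z (Pi.single l 1)))))) = _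
    rw [hU.inv_apply hyU hU.mem, M.JJ (h.mem hy), hU.inv_apply hU.mem hyU]
  have e2 : M.trO z M.Jf y (M.trO z M.Jf y (Pi.single l 1)) i =
      ∑ j, Kf M z i j y * Kf M z j l y := by
    conv_lhs => rw [← sum_single (M.trO z M.Jf y (Pi.single l 1)), map_sum]
    rw [Finset.sum_apply]
    refine Finset.sum_congr rfl fun j _ => ?_
    rw [map_smul, Pi.smul_apply, smul_eq_mul, mul_comm]
    rfl
  rw [← e2, e1, Pi.single_apply]

/-- **local smoothness of harmonic elements** -/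
theorem PDisc.lrep (h : M.PDisc z r) (hz : z ∈ X) {u : M.L} (hu : u ∈ M.Zc) (hbu : M.be u ∈ M.Zc) :
    ∃ α, M.mb.dbl.LRep u (Metric.ball z r) α := by
  obtain ⟨U, hU, hs, -⟩ := h.nb
  have hKs : ∀ j i, ContDiffOn ℝ ∞ (Kf M z j i) (Metric.ball z r) := by
    intro j i
    have h1 : ContDiffOn ℝ ∞ (M.trO z M.Jf) (Metric.ball z r) :=
      (hU.contDiffOnO M.smJ).mono (Metric.ball_subset_closedBall.trans hs)
    exact (((ContinuousLinearMap.proj (R := ℂ) (φ := fun _ : ι => ℂ) j).comp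
      (ContinuousLinearMap.apply ℂ (ι → ℂ) (Pi.single i 1))).restrictScalars ℝ).contDiff.comp_contDiffOn h1
  obtain ⟨a, b, ha, hb, hae, hbe, -, -⟩ := harm_smooth Metric.isOpen_ball
    (a := fun i => h.co u (Sum.inl i)) (b := fun i => h.co u (Sum.inr i))
    (fun i => h.l2 u _) (fun i => h.l2 u _) (K := Kf M z) (Ki := Kf M z) hKs hKs
    (fun y hy i l => h.KK hy i l) (fun i χ hχ => h.weak1 hu hz i hχ)
    (fun i χ hχ => h.weak2 hbu hz i hχ)
  set c : ℂ → (ι → ℂ) × (ι → ℂ) := fun y => (fun i => a i y, fun i => b i y) with hc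
  have hcs : ContDiffOn ℝ ∞ c (Metric.ball z r) :=
    (contDiffOn_pi.2 ha).prodMk (contDiffOn_pi.2 hb)
  refine ⟨fun y => M.toFB.dbl.P y z (c y), Metric.isOpen_ball,
    Metric.ball_subset_closedBall.trans h.d.sub, ?_, ?_⟩
  · intro x hx
    have hxU : x ∈ U := hs (Metric.ball_subset_closedBall hx)
    have h1 : ContDiffAt ℝ ∞ (fun y => M.toFB.dbl.P x z (c y)) x :=
      ((M.toFB.dbl.P x z).restrictScalars ℝ).contDiff.contDiffAt.comp x
        (hcs.contDiffAt (Metric.isOpen_ball.mem_nhds hx))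
    refine h1.congr_of_eventuallyEq ?_
    filter_upwards [hU.op.mem_nhds hxU] with y hy
    show M.toFB.dbl.P x y (M.toFB.dbl.P y z (c y)) = M.toFB.dbl.P x z (c y)
    exact Prod.ext (hU.comp_apply hxU hy hU.mem _) (hU.comp_apply hxU hy hU.mem _)
  · intro ζ hζ
    rw [h.d.pair (e := bas) (ℓ := coo) coo_bas hζ]
    have e1 : ∫ x, M.mb.dbl.G x (ζ.f x) (M.toFB.dbl.P x z (c x)) =
        ∫ x in Metric.ball z r, M.mb.dbl.G x (ζ.f x) (M.toFB.dbl.P x z (c x)) := by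
      symm
      obtain ⟨K, hK, -, h0⟩ := hζ
      refine setIntegral_eq_integral_of_forall_compl_eq_zero fun x hx => ?_
      rw [h0 x fun h => hx (hK h)]; simp
    rw [e1]
    refine integral_congr_ae ?_
    have hae' : ∀ᵐ y ∂(MB.mu z r), ∀ i, h.co u (Sum.inl i) y = a i y := by
      rw [ae_all_iff]
      intro i
      rw [ae_restrict_iff' Metric.isOpen_ball.measurableSet]
      exact hae i
    have hbe' : ∀ᵐ y ∂(MB.mu z r), ∀ i, h.co u (Sum.inr i) y = b i y := by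
      rw [ae_all_iff]
      intro i
      rw [ae_restrict_iff' Metric.isOpen_ball.measurableSet]
      exact hbe i
    filter_upwards [hae', hbe'] with y hy1 hy2
    have e2 : c y = ∑ k, (coo k (c y) : ℂ) • (bas k : (ι → ℂ) × (ι → ℂ)) := (coo_bas (c y)).symm
    conv_rhs => rw [e2, map_sum, map_sum]
    rw [Fintype.sum_sum_type, Fintype.sum_sum_type]
    congr 1
    · refine Finset.sum_congr rfl fun i _ => ?_
      rw [map_smul, map_smul, smul_eq_mul, mul_comm]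
      congr 1
      exact hy1 i
    · refine Finset.sum_congr rfl fun i _ => ?_
      rw [map_smul, map_smul, smul_eq_mul, mul_comm]
      congr 1
      exact hy2 i

/-- **harmonic elements are represented by smooth forms** -/
theorem exists_rep {u : M.L} (hu : u ∈ M.Zc) (hbu : M.be u ∈ M.Zc) : ∃ α, M.Rep u α := by
  obtain ⟨α, hα⟩ := MB.LRep.glue (M := M.mb.dbl) (η := u) (fun z hz => by
    obtain ⟨r, hr⟩ := M.exists_pdisc hz
    obtain ⟨α, hα⟩ := hr.lrep hz hu hbu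
    exact ⟨_, Metric.mem_ball_self hr.d.pos, α, hα⟩)
  exact ⟨α, hα.sm, hα.rep⟩

end PV

end Crest.Agent.R276.IpcG1_975
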