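import Crest.Agent.R276.RepC_201
import Crest.Agent.R276.IpcRg_975

/-!
# R276, IPC-LOC (helper175): the top piece in the completion model of 975

`TopS M f` : holomorphic section of the top piece with finite `L²` norm; `emb M f : M.L` the element of the
Hilbert space of forms represented by `f dx`.  `emb_zc`, `emb_ty`, `emb_surj`, `emb_norm`.
-/

set_option autoImplicit false
set_option linter.unusedSectionVars false

open Set Filter Topology MeasureTheory UniformSpace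
open scoped ContDiff ComplexConjugate

namespace Crest.Agent.R276.TopE_175

open Crest.Agent.R276.IpcG1_975 Crest.Agent.R276.IpcGr_975

variable {V : Type*} [NormedAddCommGroup V] [NormedSpace ℂ V] {X : Set ℂ} {w : ℕ}

/-- holomorphic square integrable sections of the top piece -/
structure TopS (M : PV V X w) (f : ℂ → V) : Prop where
  sm : M.Sm f
  ty : ∀ z ∈ X, M.Pf w z (f z) = f z
  hol : ∀ z ∈ X, M.d2 f z = 0
  int : IntegrableOn (fun z => (M.Gf z (f z) (f z)).re) X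

/-- the form `f dx` -/
def fx (f : ℂ → V) (z : ℂ) : V × V := (f z, 0)

@[simp] theorem fx_fst (f : ℂ → V) (z : ℂ) : (fx f z).1 = f z := rfl
@[simp] theorem fx_snd (f : ℂ → V) (z : ℂ) : (fx f z).2 = 0 := rfl

variable {M : PV V X w}

theorem sm_zero (F : FB V X) : F.Sm (fun _ => (0 : V)) := by
  intro z _
  have e : F.tr z (fun _ => (0 : V)) = fun _ => 0 := by funext y; simp [FB.tr]
  rw [e]
  exact contDiffAt_const

theorem sm_fx {f : ℂ → V} (h : M.Sm f) : M.toFB.dbl.Sm (fx f) :=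
  FB.sm_dbl.2 ⟨h, sm_zero _⟩

theorem d1_zero (F : FB V X) (z : ℂ) : F.d1 (fun _ => (0 : V)) z = 0 := by
  have e : F.tr z (fun _ => (0 : V)) = fun _ => 0 := by funext y; simp [FB.tr]
  show VCalc_442.dW (F.tr z (fun _ => (0 : V))) 1 z = 0
  rw [e, VCalc_442.dW_const]

variable [FiniteDimensional ℂ V]

/-- `975.Rep` is `201.Rep` -/
theorem rep_iff {u : M.L} {α : ℂ → V × V} : M.Rep u α ↔ RepC_201.Rep M.mb.dbl u α := Iff.rfl

theorem G_fx (f g : ℂ → V) (z : ℂ) : M.mb.dbl.G z (fx f z) (fx g z) = M.Gf z (f z) (g z) := by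
  show M.Gf z (f z) (g z) + M.Gf z 0 0 = _
  simp

theorem TopS.exists_rep {f : ℂ → V} (h : TopS M f) : ∃ u : M.L, M.Rep u (fx f) := by
  refine RepC_201.exists_rep (M := M.mb.dbl) (sm_fx h.sm) ?_
  refine h.int.congr_fun (fun z _ => ?_) M.op.measurableSet
  exact (congrArg Complex.re (G_fx (M := M) f f z)).symm

variable (M) in
open Classical in
/-- the element represented by `f dx` -/
noncomputable def emb (f : ℂ → V) : M.L := if h : ∃ u : M.L, M.Rep u (fx f) then h.choose else 0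

theorem TopS.rep {f : ℂ → V} (h : TopS M f) : M.Rep (emb M f) (fx f) := by
  unfold emb
  rw [dif_pos h.exists_rep]
  exact h.exists_rep.choose_spec

theorem emb_eq {f : ℂ → V} {u : M.L} (h : M.Rep u (fx f)) : emb M f = u := by
  unfold emb
  have h' : ∃ u : M.L, M.Rep u (fx f) := ⟨u, h⟩
  rw [dif_pos h']
  exact RepC_201.Rep.unique (M := M.mb.dbl) h'.choose_spec h

theorem fx_add (f g : ℂ → V) : fx (f + g) = fun x => fx f x + fx g x := by
  funext x
  simp [fx]

theorem fx_smul (c : ℂ) (f : ℂ → V) : fx (c • f) = fun x => c • fx f x := by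
  funext x
  simp [fx]

theorem emb_add {f g : ℂ → V} (hf : TopS M f) (hg : TopS M g) :
    emb M (f + g) = emb M f + emb M g := by
  refine emb_eq ?_
  rw [fx_add]
  exact hf.rep.add hg.rep

theorem emb_smul (c : ℂ) {f : ℂ → V} (hf : TopS M f) : emb M (c • f) = c • emb M f := by
  refine emb_eq ?_
  rw [fx_smul]
  exact hf.rep.smul c

theorem emb_zc {f : ℂ → V} (hf : TopS M f) : emb M f ∈ M.Zc := by
  refine hf.rep.mem_Zc fun z hz => ?_
  show M.d2 f z = M.d1 (fun _ => 0) z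
  rw [hf.hol z hz, d1_zero]

theorem emb_ty {f : ℂ → V} (hf : TopS M f) : M.Ty (w + 1) (emb M f) = emb M f := by
  have h1 : RepC_201.Rep M.mb.dbl (M.Ty (w + 1) (emb M f)) (fun z => M.ty (w + 1) z (fx f z)) :=
    RepC_201.Rep.opL (M := M.mb.dbl) hf.rep (M.ok_ty (w + 1))
  have h2 : RepC_201.Rep M.mb.dbl (M.Ty (w + 1) (emb M f)) (fx f) := by
    refine h1.congr fun z hz => ?_
    show (M.Pm (w + 1) z (f z), M.Pf (w + 1) z 0) = fx f z
    rw [M.Pm_succ, hf.ty z hz, map_zero]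
    rfl
  exact RepC_201.Rep.unique (M := M.mb.dbl) h2 hf.rep

/-- `β` on the top type -/
theorem be_top {u : M.L} (h : M.Ty (w + 1) u = u) : M.be u = (-1 : ℂ) ^ (w + 1) • u := by
  rw [← M.Jop_eq, HsB_817.Jop_apply, Finset.sum_eq_single (w + 1)]
  · rw [h]
  · intro P _ hP
    rw [← h, M.Ty_Ty, if_neg hP, smul_zero]
  · intro h'
    exact absurd (Finset.mem_range.2 (Nat.lt_succ_self _)) h'

theorem inner_top {u : M.L} (h : M.Ty (w + 1) u = u) :
    (-1 : ℝ) ^ (w + 1) * (inner ℂ (M.be u) u).re = ‖u‖ ^ 2 := by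
  rw [be_top h, inner_smul_left]
  have h1 : inner ℂ u u = ((‖u‖ ^ 2 : ℝ) : ℂ) := by
    rw [inner_self_eq_norm_sq_to_K]
    push_cast
    rfl
  have h2 : (starRingEnd ℂ) ((-1 : ℂ) ^ (w + 1)) = (((-1 : ℝ) ^ (w + 1) : ℝ) : ℂ) := by
    rw [map_pow, map_neg, map_one]
    push_cast
    rfl
  rw [h1, h2, ← Complex.ofReal_mul, Complex.ofReal_re, ← mul_assoc, ← mul_pow]
  simp

theorem emb_norm {f : ℂ → V} (hf : TopS M f) :
    (-1 : ℝ) ^ (w + 1) * (inner ℂ (M.be (emb M f)) (emb M f)).re =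
      ∫ z in X, (M.Gf z (f z) (f z)).re := by
  rw [inner_top (emb_ty hf), RepC_201.Rep.norm_sq (M := M.mb.dbl) hf.rep]
  refine setIntegral_congr_fun M.op.measurableSet fun z _ => ?_
  exact congrArg Complex.re (G_fx (M := M) f f z)

/-- a weakly closed element which is represented by a smooth form has a closed representative -/
theorem rep_closed {u : M.L} {α : ℂ → V × V} (hu : M.Rep u α) (hz : u ∈ M.Zc) :
    ∀ z ∈ X, M.d2 (fun x => (α x).1) z = M.d1 (fun x => (α x).2) z := by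
  obtain ⟨h1, h2⟩ := FB.sm_dbl.1 hu.1
  set ψ : ℂ → V := fun z => M.d2 (fun x => (α x).1) z - M.d1 (fun x => (α x).2) z with hψ
  have hsm : M.Sm ψ := h1.d2.sub h2.d1
  have h0 : RepC_201.Rep M.mb 0 ψ := by
    refine ⟨hsm, fun ζ => ?_⟩
    rw [inner_zero_right]
    have hm : (fun z => M.Jf z (ζ.f z)) ∈ M.toFB.A0 := FB.app_mem_A0 M.smJ ζ.mem
    have e1 := hu.pair ⟨_, hm⟩
    have e2 : inner ℂ (M.DL ⟨_, hm⟩) (M.be u) = 0 := by
      rw [← inner_conj_symm, (M.mem_Zc'.1 hz) ⟨_, hm⟩, map_zero]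
    rw [e2] at e1
    exact e1
  intro z hz
  have h3 := h0.eqOn (RepC_201.Rep.zero (M := M.mb)) hz
  exact sub_eq_zero.1 h3

/-- the form data of a represented element of top type -/
theorem topS_of_rep {u : M.L} {α : ℂ → V × V} (hu : M.Rep u α) (hz : u ∈ M.Zc)
    (ht : M.Ty (w + 1) u = u) : TopS M (fun z => (α z).1) ∧ ∀ z ∈ X, (α z).2 = 0 := by
  have h1 : RepC_201.Rep M.mb.dbl (M.Ty (w + 1) u) (fun z => M.ty (w + 1) z (α z)) :=
    RepC_201.Rep.opL (M := M.mb.dbl) hu (M.ok_ty (w + 1))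
  rw [ht] at h1
  have h2 : ∀ z ∈ X, α z = M.ty (w + 1) z (α z) := fun z hz =>
    RepC_201.Rep.eqOn (M := M.mb.dbl) hu h1 hz
  have ha : ∀ z ∈ X, M.Pf w z (α z).1 = (α z).1 := by
    intro z hz
    have := congrArg Prod.fst (h2 z hz)
    exact this.symm
  have hb : ∀ z ∈ X, (α z).2 = 0 := by
    intro z hz
    have := congrArg Prod.snd (h2 z hz)
    have h3 : (M.ty (w + 1) z (α z)).2 = M.Pf (w + 1) z (α z).2 := rfl
    have h4 : M.Pf (w + 1) z = 0 := pr_gt (by omega) _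
    rw [this, h3, h4]
    rfl
  have hsm := FB.sm_dbl.1 hu.1
  refine ⟨⟨hsm.1, ha, fun z hz' => ?_, ?_⟩, hb⟩
  · rw [rep_closed hu hz z hz']
    have e : M.tr z (fun x => (α x).2) =ᶠ[𝓝 z] fun _ => 0 := by
      filter_upwards [M.op.mem_nhds hz'] with y hy
      show M.P z y (α y).2 = 0
      rw [hb y hy, map_zero]
    show VCalc_442.dW (M.tr z (fun x => (α x).2)) 1 z = 0
    rw [VCalc_442.dW_congr e, VCalc_442.dW_const]
  · have h5 := RepC_201.Rep.integrableOn (M := M.mb.dbl) hu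
    refine h5.congr_fun (fun z hz => ?_) M.op.measurableSet
    show (M.Gf z (α z).1 (α z).1 + M.Gf z (α z).2 (α z).2).re = _
    rw [hb z hz]
    simp

end Crest.Agent.R276.TopE_175

namespace Crest.Agent.R276.TopE_175

open Crest.Agent.R276.IpcG1_975 Crest.Agent.R276.IpcGr_975

variable {ι : Type*} [Fintype ι] [DecidableEq ι] {X : Set ℂ} {w : ℕ} {M : PV (ι → ℂ) X w}

/-- **every closed element of top type is `f dx`** -/
theorem emb_surj {u : M.L} (hz : u ∈ M.Zc) (ht : M.Ty (w + 1) u = u) :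
    ∃ f, TopS M f ∧ emb M f = u := by
  have hb : M.be u ∈ M.Zc := by
    rw [be_top ht]
    exact M.Zc.smul_mem _ hz
  obtain ⟨α, hα⟩ := PV.exists_rep hz hb
  obtain ⟨h1, h2⟩ := topS_of_rep hα hz ht
  refine ⟨_, h1, emb_eq ?_⟩
  refine RepC_201.Rep.congr (M := M.mb.dbl) hα fun z hz => ?_
  exact Prod.ext rfl (h2 z hz)

end Crest.Agent.R276.TopE_175
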