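import Crest.Agent.R276.Nat7_591
import Crest.Agent.R276.TopE_175
import Crest.Agent.R276.DR_175

/-!
# R276, IPC-LOC (helper175): a polarised variation over a punctured plane as a `PV` of 975

`pvOf R : PV (Fin N → ℂ) (Aᶜ) w` with `P x y = mc (cm (R.P x y))`, `S x = mg (R.S x)`, `E x = mc (R.E x)`,
and the dictionary between `PVHS` (IpcDefs) and `PV`.
-/

set_option autoImplicit false

noncomputable section

open Set Filter Topology MeasureTheory Matrix
open scoped ContDiff ComplexConjugate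

namespace Crest.Agent.R276.PvO_175

open Crest.Agent.R276.Ipc735 Crest.Agent.R276.Nat_591 Crest.Agent.R276.IpcG1_975
open Crest.Agent.R276.IpcGr_975 Crest.Agent.R276.TopE_175

/-! ### the algebra map from matrices to operators -/

section alg

variable {N : ℕ}

/-- `mc` as an algebra map -/
def mcA : Matrix (Fin N) (Fin N) ℂ →ₐ[ℂ] ((Fin N → ℂ) →L[ℂ] (Fin N → ℂ)) where
  toFun := mc
  map_one' := by
    ext v i
    simp
  map_mul' A B := by
    refine ContinuousLinearMap.ext fun v => ?_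
    show (A * B) *ᵥ v = A *ᵥ (B *ᵥ v)
    rw [mulVec_mulVec]
  map_zero' := by
    refine ContinuousLinearMap.ext fun v => ?_
    show (0 : Matrix (Fin N) (Fin N) ℂ) *ᵥ v = 0
    rw [zero_mulVec]
  map_add' A B := by
    refine ContinuousLinearMap.ext fun v => ?_
    show (A + B) *ᵥ v = A *ᵥ v + B *ᵥ v
    rw [add_mulVec]
  commutes' c := by
    refine ContinuousLinearMap.ext fun v => ?_
    show (algebraMap ℂ (Matrix (Fin N) (Fin N) ℂ) c) *ᵥ v = c • v
    rw [Algebra.algebraMap_eq_smul_one, smul_mulVec, one_mulVec]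

theorem mcA_apply (A : Matrix (Fin N) (Fin N) ℂ) : mcA A = mc A := rfl

theorem mc_mul (A B : Matrix (Fin N) (Fin N) ℂ) : mc (A * B) = mc A * mc B := map_mul mcA A B
theorem mc_one : mc (1 : Matrix (Fin N) (Fin N) ℂ) = 1 := map_one mcA
theorem mc_add (A B : Matrix (Fin N) (Fin N) ℂ) : mc (A + B) = mc A + mc B := map_add mcA A B
theorem mc_sub (A B : Matrix (Fin N) (Fin N) ℂ) : mc (A - B) = mc A - mc B := map_sub mcA A B
theorem mc_neg (A : Matrix (Fin N) (Fin N) ℂ) : mc (-A) = -mc A := map_neg mcA A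
theorem mc_zero : mc (0 : Matrix (Fin N) (Fin N) ℂ) = 0 := map_zero mcA
theorem mc_smul (c : ℂ) (A : Matrix (Fin N) (Fin N) ℂ) : mc (c • A) = c • mc A := map_smul mcA c A

theorem mc_aeval (A : Matrix (Fin N) (Fin N) ℂ) (f : Polynomial ℂ) :
    Polynomial.aeval (mc A) f = mc (Polynomial.aeval A f) := by
  rw [← mcA_apply, ← mcA_apply]
  exact Polynomial.aeval_algHom_apply mcA A f

theorem lag_eq {w p : ℕ} (hp : p ≤ w) :
    lag w p = Lagrange.basis (Finset.range (w + 1)) (fun q : ℕ => (q : ℂ)) p := by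
  unfold lag Lagrange.basis Lagrange.basisDivisor
  rw [if_pos hp]

theorem pr_mc {w p : ℕ} (hp : p ≤ w) (E : Matrix (Fin N) (Fin N) ℂ) :
    pr w p (mc E) = mc (hpr w p E) := by
  unfold pr hpr
  rw [mc_aeval, lag_eq hp]

theorem J_mc (w : ℕ) (E : Matrix (Fin N) (Fin N) ℂ) : IpcGr_975.J w (mc E) = mc (weil w E) := by
  unfold IpcGr_975.J weil
  rw [← mcA_apply (∑ p ∈ Finset.range (w + 1), (-1 : ℂ) ^ p • hpr w p E), map_sum]
  refine Finset.sum_congr rfl fun p hp => ?_
  rw [pr_mc (by have := Finset.mem_range.1 hp; omega), map_smul]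
  rfl

theorem sp_mc {w : ℕ} {S E : Matrix (Fin N) (Fin N) ℂ} (h : IsHS w S E) : Sp w (mc E) := by
  unfold Sp nod
  rw [mc_aeval, h.eig, mc_zero]

/-- real linear version of `mcA` -/
def mcR : Matrix (Fin N) (Fin N) ℂ →ₗ[ℝ] ((Fin N → ℂ) →L[ℂ] (Fin N → ℂ)) :=
  (mcA : Matrix (Fin N) (Fin N) ℂ →ₐ[ℂ] _).toLinearMap.restrictScalars ℝ

/-- smoothness of `mc` of a matrix function with smooth entries -/
theorem contDiffAt_mc {F : ℂ → Matrix (Fin N) (Fin N) ℂ} {z : ℂ}
    (h : ∀ i k, ContDiffAt ℝ (⊤ : ℕ∞) (fun y => F y i k) z) :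
    ContDiffAt ℝ (⊤ : ℕ∞) (fun y => mc (F y)) z := by
  have e : (fun y => mc (F y)) = fun y => ∑ i, ∑ k, F y i k • mc (Matrix.single i k (1 : ℂ)) := by
    funext y
    have h1 := matrix_eq_sum_single (F y)
    conv_lhs => rw [h1]
    rw [← mcA_apply, map_sum]
    refine Finset.sum_congr rfl fun i _ => ?_
    rw [map_sum]
    refine Finset.sum_congr rfl fun k _ => ?_
    rw [← mcA_apply, ← map_smul, smul_single, smul_eq_mul, mul_one]
  rw [e]
  exact ContDiffAt.sum fun i _ => ContDiffAt.sum fun k _ => (h i k).smul contDiffAt_const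

/-- derivative of `mc` of a matrix function -/
theorem dW_mc {F : ℂ → Matrix (Fin N) (Fin N) ℂ} {z : ℂ}
    (h : ∀ i k, DifferentiableAt ℝ (fun y => F y i k) z) :
    VCalc_442.dW (fun y => mc (F y)) 1 z = mc (Matrix.of fun i k => wz (fun y => F y i k) z) := by
  have hF : DifferentiableAt ℝ (fun y => mc (F y)) z := by
    have e : (fun y => mc (F y)) = fun y => ∑ i, ∑ k, F y i k • mc (Matrix.single i k (1 : ℂ)) := by
      funext y
      have h1 := matrix_eq_sum_single (F y)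
      conv_lhs => rw [h1]
      rw [← mcA_apply, map_sum]
      refine Finset.sum_congr rfl fun i _ => ?_
      rw [map_sum]
      refine Finset.sum_congr rfl fun k _ => ?_
      rw [← mcA_apply, ← map_smul, smul_single, smul_eq_mul, mul_one]
    rw [e]
    exact DifferentiableAt.fun_sum fun i _ => DifferentiableAt.fun_sum fun k _ =>
      (h i k).smul (differentiableAt_const _)
  -- test on basis vectors and coordinates
  have key : ∀ i k, (VCalc_442.dW (fun y => mc (F y)) 1 z) (Pi.single k 1) i =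
      wz (fun y => F y i k) z := by
    intro i k
    let T : ((Fin N → ℂ) →L[ℂ] (Fin N → ℂ)) →L[ℂ] ℂ :=
      (ContinuousLinearMap.proj (R := ℂ) (φ := fun _ : Fin N => ℂ) i).comp
        (ContinuousLinearMap.apply ℂ (Fin N → ℂ) (Pi.single k 1))
    have h1 := VCalc_442.dW_clm T hF 1
    have h2 : (fun y => T (mc (F y))) = fun y => F y i k := by
      funext y
      show (F y *ᵥ Pi.single k 1) i = F y i k
      rw [mulVec_single_one]
      rfl
    rw [h2, dW_one] at h1
    exact h1.symm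
  refine ContinuousLinearMap.ext fun v => ?_
  funext i
  have h3 : v = ∑ k, v k • (Pi.single k 1 : Fin N → ℂ) := by
    ext j
    simp [Finset.sum_apply, Pi.single_apply]
  rw [mc_apply]
  conv_lhs => rw [h3]
  rw [map_sum, Finset.sum_apply]
  unfold mulVec dotProduct
  refine Finset.sum_congr rfl fun k _ => ?_
  rw [map_smul, Pi.smul_apply, key, smul_eq_mul, mul_comm]
  rfl

end alg

/-! ### the variation -/

variable {A : Finset ℂ} {N w : ℕ}

theorem cm_star_dot (u v : Fin N → ℂ) (g S : Matrix (Fin N) (Fin N) ℂ) :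
    star (g *ᵥ u) ⬝ᵥ S *ᵥ (g *ᵥ v) = star u ⬝ᵥ (gᴴ * S * g) *ᵥ v := by
  rw [star_mulVec, ← dotProduct_mulVec, mulVec_mulVec, mulVec_mulVec, mul_assoc]

/-- **the polarised variation as a `PV`** -/
def pvOf (R : PVHS A N w) : PV (Fin N → ℂ) ((A : Set ℂ)ᶜ) w where
  P x y := mc (cm (R.P x y))
  op := A.finite_toSet.isClosed.isOpen_compl
  ndc := by
    intro z hz
    obtain ⟨U, hU, h⟩ := R.ndc z hz
    refine ⟨U, hU, fun x hx y hy v hv => ?_⟩
    rw [← mc_mul, ← cm_mul, h x hx y hy v hv]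
  one := by
    intro z hz
    rw [DR_175.ndc_self R.ndc hz, cm_one, mc_one]
  S x := mg (R.S x)
  E x := mc (R.E x)
  flatS := by
    intro z hz
    filter_upwards [R.flatS z (fun h => hz h)] with y hy u v
    rw [mg_apply, mg_apply, mc_apply, mc_apply, hy, cm_star_dot]
  hermS := by
    intro z hz u v
    have h := (R.hs z (fun h => hz h)).herm
    rw [mg_apply, mg_apply, starRingEnd_apply, star_dotProduct, star_mulVec, star_star,
      ← dotProduct_mulVec, h.eq]
  sa := by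
    intro z hz u v
    have h := (R.hs z (fun h => hz h)).adj
    rw [mg_apply, mg_apply, mc_apply, mc_apply, star_mulVec, ← dotProduct_mulVec, mulVec_mulVec,
      mulVec_mulVec, h]
  sp := by
    intro z hz
    exact sp_mc (R.hs z (fun h => hz h))
  pos := by
    intro z hz u hu
    have h := R.hs z (fun h => hz h)
    have h1 := h.hodge_pos hu
    rw [J_mc, mg_apply, mc_apply, star_mulVec, ← dotProduct_mulVec, mulVec_mulVec, ← h.S_weil]
    exact h1
  smE := by
    intro z hz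
    have h1 := contDiffAt_mc (F := fun y => lM R.P R.E z y) (z := z) (R.smE z (fun h => hz h))
    refine h1.congr_of_eventuallyEq ?_
    obtain ⟨U, hU, hc⟩ := R.ndc z hz
    filter_upwards [hU] with y hy
    show mc (cm (R.P z y)) * mc (R.E y) * mc (cm (R.P y z)) = mc (lM R.P R.E z y)
    have h2 : R.P z y * R.P y z = 1 := by
      rw [hc z (mem_of_mem_nhds hU) y hy z (mem_of_mem_nhds hU), DR_175.ndc_self R.ndc hz]
    have h3 : R.P y z = (R.P z y)⁻¹ := (inv_eq_of_mul_eq_one_right h2).symm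
    unfold lM
    rw [mc_mul, mc_mul, h3]
  lo := by
    intro z hz
    have hz' : z ∉ A := fun h => hz h
    have h1 : mc (wM R.P R.E z) = VCalc_442.dW (fun y => mc (lM R.P R.E z y)) 1 z :=
      (dW_mc fun i k => ((R.smE z hz' i k).differentiableAt (by simp))).symm
    have h2 : (fun y => mc (cm (R.P z y)) * mc (R.E y) * mc (cm (R.P y z))) =ᶠ[𝓝 z]
        fun y => mc (lM R.P R.E z y) := by
      obtain ⟨U, hU, hc⟩ := R.ndc z hz
      filter_upwards [hU] with y hy
      have h2 : R.P z y * R.P y z = 1 := by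
        rw [hc z (mem_of_mem_nhds hU) y hy z (mem_of_mem_nhds hU), DR_175.ndc_self R.ndc hz]
      have h3 : R.P y z = (R.P z y)⁻¹ := (inv_eq_of_mul_eq_one_right h2).symm
      unfold lM
      rw [mc_mul, mc_mul, h3]
    have h3 := R.tr z hz'
    unfold Lo
    have h4 : VCalc_442.dW (fun y => mc (cm (R.P z y)) * mc (R.E y) * mc (cm (R.P y z))) 1 z =
        mc (wM R.P R.E z) := by
      rw [h1]
      exact VCalc_442.dW_congr h2 1
    show mc (R.E z) * VCalc_442.dW (fun y => mc (cm (R.P z y)) * mc (R.E y) * mc (cm (R.P y z))) 1 z -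
      VCalc_442.dW (fun y => mc (cm (R.P z y)) * mc (R.E y) * mc (cm (R.P y z))) 1 z * mc (R.E z) =
      - VCalc_442.dW (fun y => mc (cm (R.P z y)) * mc (R.E y) * mc (cm (R.P y z))) 1 z
    rw [h4, ← mc_mul, ← mc_mul, ← mc_sub, h3, mc_neg]

/-! ### dictionary -/

variable (R : PVHS A N w)

theorem pvOf_P (x y : ℂ) (v : Fin N → ℂ) : (pvOf R).P x y v = cm (R.P x y) *ᵥ v := rfl
theorem pvOf_S (x : ℂ) (u v : Fin N → ℂ) : (pvOf R).S x u v = star u ⬝ᵥ R.S x *ᵥ v := mg_apply _ u v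
theorem pvOf_E (x : ℂ) (v : Fin N → ℂ) : (pvOf R).E x v = R.E x *ᵥ v := rfl

theorem pvOf_tr (z : ℂ) (φ : ℂ → Fin N → ℂ) : (pvOf R).tr z φ = lV R.P φ z := rfl

theorem pvOf_Pf {p : ℕ} (hp : p ≤ w) (x : ℂ) (v : Fin N → ℂ) :
    (pvOf R).Pf p x v = hpr w p (R.E x) *ᵥ v := by
  show pr w p (mc (R.E x)) v = _
  rw [pr_mc hp]
  rfl

theorem pvOf_Jf (x : ℂ) (v : Fin N → ℂ) : (pvOf R).Jf x v = weil w (R.E x) *ᵥ v := by
  show IpcGr_975.J w (mc (R.E x)) v = _
  rw [J_mc]
  rfl

theorem pvOf_G {x : ℂ} (hx : x ∉ A) (u v : Fin N → ℂ) :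
    (pvOf R).Gf x u v = star u ⬝ᵥ R.H x *ᵥ v := by
  rw [PV.Gf_apply, pvOf_Jf, pvOf_S, star_mulVec, ← dotProduct_mulVec, mulVec_mulVec,
    ← (R.hs x hx).S_weil]
  rfl

theorem pvOf_nsq {x : ℂ} (hx : x ∉ A) (φ : ℂ → Fin N → ℂ) :
    ((pvOf R).Gf x (φ x) (φ x)).re = R.nsq φ x := by
  rw [pvOf_G R hx]
  rfl

theorem isFB : IsFB R (pvOf R).toFB := fun _ _ _ _ _ => rfl

theorem isMB : IsMB R (pvOf R).toFB (pvOf R).mb.dbl where
  fb := isFB R
  form := fun _ _ _ => rfl
  met := by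
    intro x hx u v
    show (pvOf R).Gf x u.1 v.1 + (pvOf R).Gf x u.2 v.2 = _
    rw [pvOf_G R hx, pvOf_G R hx]

theorem sm_iff (φ : ℂ → Fin N → ℂ) : (pvOf R).Sm φ ↔ R.Sm φ :=
  ⟨fun h z hz => h z hz, fun h z hz => h z hz⟩

theorem d1_eq (φ : ℂ → Fin N → ℂ) (z : ℂ) : (pvOf R).d1 φ z = R.d1 φ z := by
  show VCalc_442.dW (lV R.P φ z) 1 z = wz (lV R.P φ z) z
  unfold VCalc_442.dW wz
  simp

theorem d2_eq (φ : ℂ → Fin N → ℂ) (z : ℂ) : (pvOf R).d2 φ z = R.d2 φ z := by
  show VCalc_442.dB (lV R.P φ z) 1 z = wb (lV R.P φ z) z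
  unfold VCalc_442.dB wb
  simp

theorem closed_iff (a b : ℂ → Fin N → ℂ) :
    (∀ z ∈ ((A : Set ℂ)ᶜ), (pvOf R).d2 a z = (pvOf R).d1 b z) ↔ R.Closed a b := by
  constructor
  · intro h z hz
    have := h z hz
    rwa [d2_eq, d1_eq] at this
  · intro h z hz
    rw [d2_eq, d1_eq]
    exact h z hz

end Crest.Agent.R276.PvO_175
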