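import Mathlib

/-!
# R276 / IPC (HS), part A: strong differentiability of families of operators

`T : E → L →L[ℂ] M` is strongly differentiable at `s0` (`SDiff T s0`) if the norms are bounded
near `s0` and `s ↦ T s u` is real differentiable at `s0` for every fixed `u`.
`E` is finite dimensional. Product rule and inverse rule.
-/

set_option autoImplicit false

open Set Filter Topology Asymptotics

namespace Crest.Agent.R276.HsA_817

set_option linter.unusedSectionVars false

variable {E : Type*} [NormedAddCommGroup E] [NormedSpace ℝ E] [FiniteDimensional ℝ E]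
variable {L M N : Type*} [NormedAddCommGroup L] [NormedSpace ℂ L]
  [NormedAddCommGroup M] [NormedSpace ℂ M] [NormedAddCommGroup N] [NormedSpace ℂ N]

/-- strong differentiability -/
def SDiff (T : E → L →L[ℂ] M) (s0 : E) : Prop :=
  (∃ C : ℝ, ∀ᶠ s in 𝓝 s0, ‖T s‖ ≤ C) ∧ ∀ u, DifferentiableAt ℝ (fun s => T s u) s0

/-- If `B s → 0` strongly then `B s (D (s - s0)) = o(s - s0)`. -/
lemma isLittleO_of_strong {B : E → L →L[ℂ] M} {s0 : E}
    (hB : ∀ y, Tendsto (fun s => B s y) (𝓝 s0) (𝓝 0)) (D : E →L[ℝ] L) :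
    (fun s => B s (D (s - s0))) =o[𝓝 s0] fun s => s - s0 := by
  classical
  set b := Module.finBasis ℝ E with hb
  have h1 : ∀ s, B s (D (s - s0)) = ∑ i, (b.repr (s - s0) i) • B s (D (b i)) := by
    intro s
    conv_lhs => rw [← b.sum_repr (s - s0)]
    rw [map_sum, map_sum]
    refine Finset.sum_congr rfl fun i _ => ?_
    rw [map_smul]
    exact ((B s).restrictScalars ℝ).map_smul _ _
  rw [funext h1]
  refine IsLittleO.fun_sum (s := Finset.univ) fun i _ => ?_
  have h2 : (fun s => b.repr (s - s0) i) =O[𝓝 s0] fun s => s - s0 := by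
    refine IsBigO.of_bound ‖LinearMap.toContinuousLinearMap (b.coord i)‖
      (Eventually.of_forall fun s => ?_)
    exact (LinearMap.toContinuousLinearMap (b.coord i)).le_opNorm (s - s0)
  have h3 : (fun s => B s (D (b i))) =o[𝓝 s0] fun _ => (1 : ℝ) :=
    (isLittleO_one_iff ℝ).mpr (hB (D (b i)))
  have h5 : (fun s => ‖s - s0‖ • (1 : ℝ)) =O[𝓝 s0] fun s => s - s0 :=
    IsBigO.of_bound 1 (Eventually.of_forall fun s => by simp)
  have h6 := (h2.norm_right).smul_isLittleO h3
  exact h6.trans_isBigO h5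

lemma SDiff.continuousAt {T : E → L →L[ℂ] M} {s0 : E} (h : SDiff T s0) (u : L) :
    ContinuousAt (fun s => T s u) s0 := (h.2 u).continuousAt

/-- Product rule. -/
lemma SDiff.hasFDerivAt_apply {T : E → L →L[ℂ] M} {s0 : E} (hT : SDiff T s0)
    {u : E → L} {u' : E →L[ℝ] L} (hu : HasFDerivAt u u' s0) :
    HasFDerivAt (fun s => T s (u s))
      (fderiv ℝ (fun s => T s (u s0)) s0 + ((T s0).restrictScalars ℝ).comp u') s0 := by
  obtain ⟨C, hC⟩ := hT.1
  have h1 := (hT.2 (u s0)).hasFDerivAt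
  rw [hasFDerivAt_iff_isLittleO] at h1 hu ⊢
  have h2 : (fun s => T s (u s - u s0 - u' (s - s0))) =o[𝓝 s0] fun s => s - s0 := by
    refine IsBigO.trans_isLittleO ?_ hu
    refine IsBigO.of_bound C ?_
    filter_upwards [hC] with s hs
    exact ((T s).le_opNorm _).trans (mul_le_mul_of_nonneg_right hs (norm_nonneg _))
  have h3 : (fun s => (T s - T s0) (u' (s - s0))) =o[𝓝 s0] fun s => s - s0 := by
    refine isLittleO_of_strong (fun y => ?_) u'
    exact tendsto_sub_nhds_zero_iff.mpr (hT.continuousAt y)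
  have h4 := (h1.add h2).add h3
  refine h4.congr_left fun s => ?_
  simp only [add_apply, ContinuousLinearMap.coe_comp, Function.comp_apply,
    ContinuousLinearMap.coe_restrictScalars', map_sub, sub_apply]
  abel

lemma SDiff.comp {T : E → L →L[ℂ] M} {R : E → M →L[ℂ] N} {s0 : E} (hR : SDiff R s0)
    (hT : SDiff T s0) : SDiff (fun s => (R s).comp (T s)) s0 := by
  obtain ⟨C, hC⟩ := hT.1
  obtain ⟨C', hC'⟩ := hR.1
  refine ⟨⟨|C'| * |C|, ?_⟩, fun u => ?_⟩
  · filter_upwards [hC, hC'] with s h1 h2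
    refine (ContinuousLinearMap.opNorm_comp_le _ _).trans ?_
    exact mul_le_mul (h2.trans (le_abs_self _)) (h1.trans (le_abs_self _)) (norm_nonneg _)
      (abs_nonneg _)
  · exact (hR.hasFDerivAt_apply (hT.2 u).hasFDerivAt).differentiableAt

lemma SDiff.add {T R : E → L →L[ℂ] M} {s0 : E} (hT : SDiff T s0) (hR : SDiff R s0) :
    SDiff (fun s => T s + R s) s0 := by
  obtain ⟨C, hC⟩ := hT.1
  obtain ⟨C', hC'⟩ := hR.1
  refine ⟨⟨C + C', ?_⟩, fun u => ?_⟩
  · filter_upwards [hC, hC'] with s h1 h2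
    exact (norm_add_le _ _).trans (add_le_add h1 h2)
  · exact (hT.2 u).add (hR.2 u)

lemma SDiff.const_smul {T : E → L →L[ℂ] M} {s0 : E} (hT : SDiff T s0) (c : ℂ) :
    SDiff (fun s => c • T s) s0 := by
  obtain ⟨C, hC⟩ := hT.1
  refine ⟨⟨‖c‖ * C, ?_⟩, fun u => ?_⟩
  · filter_upwards [hC] with s h1
    rw [norm_smul]
    exact mul_le_mul_of_nonneg_left h1 (norm_nonneg _)
  · exact (hT.2 u).const_smul c

lemma SDiff.const (T : L →L[ℂ] M) (s0 : E) : SDiff (fun _ : E => T) s0 :=
  ⟨⟨‖T‖, Eventually.of_forall fun _ => le_rfl⟩, fun _ => differentiableAt_const _⟩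

lemma SDiff.sub {T R : E → L →L[ℂ] M} {s0 : E} (hT : SDiff T s0) (hR : SDiff R s0) :
    SDiff (fun s => T s - R s) s0 := by
  have := hT.add (hR.const_smul (-1))
  refine ⟨?_, fun u => ?_⟩
  · obtain ⟨C, hC⟩ := this.1
    refine ⟨C, ?_⟩
    filter_upwards [hC] with s hs
    simpa [sub_eq_add_neg] using hs
  · exact (hT.2 u).sub (hR.2 u)

lemma SDiff.sum {ι : Type*} (t : Finset ι) {T : ι → E → L →L[ℂ] M} {s0 : E}
    (h : ∀ i ∈ t, SDiff (T i) s0) : SDiff (fun s => ∑ i ∈ t, T i s) s0 := by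
  classical
  induction t using Finset.induction_on with
  | empty =>
    simp only [Finset.sum_empty]
    exact SDiff.const 0 s0
  | insert a t ha ih =>
    simp only [Finset.sum_insert ha]
    exact (h a (Finset.mem_insert_self _ _)).add
      (ih fun i hi => h i (Finset.mem_insert_of_mem hi))

/-- Inverse rule. `R s` is a two-sided inverse of `A s` near `s0`. -/
lemma SDiff.inverse {A R : E → L →L[ℂ] L} {s0 : E} (hA : SDiff A s0)
    (h1 : ∀ᶠ s in 𝓝 s0, (R s).comp (A s) = ContinuousLinearMap.id ℂ L)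
    (h2 : ∀ᶠ s in 𝓝 s0, (A s).comp (R s) = ContinuousLinearMap.id ℂ L)
    {C : ℝ} (hC : ∀ᶠ s in 𝓝 s0, ‖R s‖ ≤ C) : SDiff R s0 := by
  have e1 : ∀ᶠ s in 𝓝 s0, ∀ y, R s (A s y) = y := by
    filter_upwards [h1] with s hs y
    exact congrArg (fun T : L →L[ℂ] L => T y) hs
  have e2 : ∀ᶠ s in 𝓝 s0, ∀ y, A s (R s y) = y := by
    filter_upwards [h2] with s hs y
    exact congrArg (fun T : L →L[ℂ] L => T y) hs
  have e20 : ∀ y, A s0 (R s0 y) = y := e2.self_of_nhds
  have key : ∀ᶠ s in 𝓝 s0, ∀ y, R s y - R s0 y = - R s (A s (R s0 y) - A s0 (R s0 y)) := by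
    filter_upwards [e1] with s hs y
    rw [map_sub, hs, e20 y]
    abel
  have hstrong : ∀ y, Tendsto (fun s => (R s - R s0) y) (𝓝 s0) (𝓝 0) := by
    intro y
    have h3 : Tendsto (fun s => C * ‖A s (R s0 y) - A s0 (R s0 y)‖) (𝓝 s0) (𝓝 0) := by
      have := (tendsto_sub_nhds_zero_iff.mpr (hA.continuousAt (R s0 y))).norm.const_mul C
      simpa using this
    refine squeeze_zero_norm' ?_ h3
    filter_upwards [key, hC] with s hs hCs
    rw [sub_apply, hs y, norm_neg]
    exact ((R s).le_opNorm _).trans (mul_le_mul_of_nonneg_right hCs (norm_nonneg _))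
  refine ⟨⟨C, hC⟩, fun y => ?_⟩
  set z := R s0 y with hz
  set D := fderiv ℝ (fun s => A s z) s0 with hD
  have hd := (hA.2 z).hasFDerivAt
  refine HasFDerivAt.differentiableAt (f' := - ((R s0).restrictScalars ℝ).comp D) ?_
  rw [hasFDerivAt_iff_isLittleO] at hd ⊢
  have h4 : (fun s => R s (A s z - A s0 z - D (s - s0))) =o[𝓝 s0] fun s => s - s0 := by
    refine IsBigO.trans_isLittleO ?_ hd
    refine IsBigO.of_bound C ?_
    filter_upwards [hC] with s hs
    exact ((R s).le_opNorm _).trans (mul_le_mul_of_nonneg_right hs (norm_nonneg _))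
  have h5 : (fun s => (R s - R s0) (D (s - s0))) =o[𝓝 s0] fun s => s - s0 :=
    isLittleO_of_strong hstrong D
  have h6 := (h4.add h5).neg_left
  refine h6.congr' ?_ EventuallyEq.rfl
  filter_upwards [key] with s hs
  rw [hs y]
  simp only [map_sub, sub_apply, neg_apply,
    ContinuousLinearMap.coe_comp, Function.comp_apply,
    ContinuousLinearMap.coe_restrictScalars']
  abel

end Crest.Agent.R276.HsA_817
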