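import Mathlib
import Crest.Agent.R276.HsA_817

/-!
# R276 / IPC (HS), part B: the Hilbert space package at one parameter value

`L` = L²-forms, `B(u,v) = ⟪β u, v⟫`, `Ex` = closure of `D C_c^∞`, `Zc = Ex^{⊥B}` = weakly closed forms,
`cl : Zc → W` the class map (kernel `Ex`), `π P` the projections on the total types `P ≤ n`,
`J = Σ (-1)^P π P` the Weil operator.
-/

set_option autoImplicit false
set_option linter.unusedSectionVars false

open Set Filter Topology
open scoped InnerProductSpace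

namespace Crest.Agent.R276.HsB_817

variable {L W : Type*} [NormedAddCommGroup L] [InnerProductSpace ℂ L]
  [NormedAddCommGroup W] [NormedSpace ℂ W]

local notation "⟪" x ", " y "⟫" => inner ℂ x y

/-- The data which do not depend on the parameter. -/
structure Fix (L W : Type*) [NormedAddCommGroup L] [InnerProductSpace ℂ L]
    [NormedAddCommGroup W] [NormedSpace ℂ W] where
  /-- the operator of the Hermitian form `B(u,v) = ⟪β u, v⟫` -/
  β : L →L[ℂ] L
  symm : ∀ u v, inner ℂ (β u) v = inner ℂ u (β v)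
  /-- closure of the exact compactly supported forms -/
  Ex : Submodule ℂ L
  /-- weakly closed forms -/
  Zc : Submodule ℂ L
  exClosed : IsClosed (Ex : Set L)
  memZc : ∀ u, u ∈ Zc ↔ ∀ e ∈ Ex, inner ℂ (β u) e = 0
  exLe : Ex ≤ Zc
  /-- the class map -/
  cl : Zc →L[ℂ] W
  clSurj : Function.Surjective cl
  clKer : ∀ u : Zc, cl u = 0 ↔ (u : L) ∈ Ex

/-- Weil operator -/
noncomputable def Jop (n : ℕ) (π : ℕ → L →L[ℂ] L) : L →L[ℂ] L :=
  ∑ P ∈ Finset.range (n + 1), ((-1 : ℂ) ^ P) • π P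

/-- projection on total types `≥ P` -/
noncomputable def qop (n : ℕ) (π : ℕ → L →L[ℂ] L) (P : ℕ) : L →L[ℂ] L :=
  ∑ Q ∈ Finset.Ico P (n + 1), π Q

/-- The type decomposition at one parameter value. -/
structure Types (D : Fix L W) (n : ℕ) (π : ℕ → L →L[ℂ] L) (c : ℝ) : Prop where
  cpos : 0 < c
  sum : ∀ u, ∑ P ∈ Finset.range (n + 1), π P u = u
  idem : ∀ P ≤ n, ∀ u, π P (π P u) = π P u
  mul0 : ∀ P ≤ n, ∀ Q ≤ n, P ≠ Q → ∀ u, π P (π Q u) = 0
  orth : ∀ P ≤ n, ∀ Q ≤ n, P ≠ Q → ∀ u v, ⟪D.β (π P u), π Q v⟫ = 0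
  coer : ∀ u, c * ‖u‖ ^ 2 ≤ (⟪D.β (Jop n π u), u⟫).re
  stab : ∀ u ∈ D.Zc, Jop n π u ∈ D.Zc → ∀ P ≤ n, π P u ∈ D.Zc

section basic

variable (D : Fix L W)

lemma Fix.inner_zc_ex {u e : L} (hu : u ∈ D.Zc) (he : e ∈ D.Ex) : ⟪D.β u, e⟫ = 0 :=
  (D.memZc u).mp hu e he

lemma Fix.inner_ex_zc {u e : L} (hu : u ∈ D.Zc) (he : e ∈ D.Ex) : ⟪D.β e, u⟫ = 0 := by
  rw [D.symm, ← inner_conj_symm, D.inner_zc_ex hu he, map_zero]

lemma Fix.zcClosed : IsClosed (D.Zc : Set L) := by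
  have : (D.Zc : Set L) = ⋂ e ∈ D.Ex, {u | ⟪D.β u, e⟫ = 0} := by
    ext u
    simp only [SetLike.mem_coe, D.memZc u, mem_iInter, mem_ofPred_eq]
  rw [this]
  refine isClosed_biInter fun e _ => ?_
  exact isClosed_eq (by fun_prop) continuous_const

lemma Jop_apply (n : ℕ) (π : ℕ → L →L[ℂ] L) (u : L) :
    Jop n π u = ∑ P ∈ Finset.range (n + 1), ((-1 : ℂ) ^ P) • π P u := by
  simp [Jop]

lemma qop_apply (n : ℕ) (π : ℕ → L →L[ℂ] L) (P : ℕ) (u : L) :
    qop n π P u = ∑ Q ∈ Finset.Ico P (n + 1), π Q u := by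
  simp [qop]

end basic

section types

variable {D : Fix L W} {n : ℕ} {π : ℕ → L →L[ℂ] L} {c : ℝ}

lemma Types.pi_Jop (T : Types D n π c) {P : ℕ} (hP : P ≤ n) (u : L) :
    π P (Jop n π u) = ((-1 : ℂ) ^ P) • π P u := by
  rw [Jop_apply, map_sum, Finset.sum_eq_single P]
  · rw [map_smul, T.idem P hP]
  · intro Q hQ hne
    rw [map_smul, T.mul0 P hP Q (by simpa [Nat.lt_succ_iff] using hQ) (Ne.symm hne), smul_zero]
  · intro h
    exact absurd (Finset.mem_range.mpr (Nat.lt_succ_of_le hP)) h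

lemma Types.Jop_pi (T : Types D n π c) {P : ℕ} (hP : P ≤ n) (u : L) :
    Jop n π (π P u) = ((-1 : ℂ) ^ P) • π P u := by
  rw [Jop_apply, Finset.sum_eq_single P]
  · rw [T.idem P hP]
  · intro Q hQ hne
    rw [T.mul0 Q (by simpa [Nat.lt_succ_iff] using hQ) P hP hne, smul_zero]
  · intro h
    exact absurd (Finset.mem_range.mpr (Nat.lt_succ_of_le hP)) h

/-- orthogonality of types against an arbitrary vector -/
lemma Types.inner_pi_left (T : Types D n π c) {P : ℕ} (hP : P ≤ n) (u v : L) :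
    ⟪D.β (π P u), v⟫ = ⟪D.β (π P u), π P v⟫ := by
  conv_lhs => rw [← T.sum v]
  rw [inner_sum, Finset.sum_eq_single P]
  · intro Q hQ hne
    exact T.orth P hP Q (by simpa [Nat.lt_succ_iff] using hQ) (Ne.symm hne) u v
  · intro h
    exact absurd (Finset.mem_range.mpr (Nat.lt_succ_of_le hP)) h

lemma Types.inner_pi_right (T : Types D n π c) {P : ℕ} (hP : P ≤ n) (u v : L) :
    ⟪D.β u, π P v⟫ = ⟪D.β (π P u), π P v⟫ := by
  conv_lhs => rw [← T.sum u]
  rw [map_sum, sum_inner, Finset.sum_eq_single P]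
  · intro Q hQ hne
    exact T.orth Q (by simpa [Nat.lt_succ_iff] using hQ) P hP hne u v
  · intro h
    exact absurd (Finset.mem_range.mpr (Nat.lt_succ_of_le hP)) h

lemma Types.inner_J_left (T : Types D n π c) (u v : L) :
    ⟪D.β (Jop n π u), v⟫ =
      ∑ P ∈ Finset.range (n + 1), ((-1 : ℂ) ^ P) * ⟪D.β (π P u), π P v⟫ := by
  rw [Jop_apply, map_sum, sum_inner]
  refine Finset.sum_congr rfl fun P hP => ?_
  rw [map_smul, inner_smul_left, T.inner_pi_left (by simpa [Nat.lt_succ_iff] using hP)]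
  simp

lemma Types.inner_J_right (T : Types D n π c) (u v : L) :
    ⟪D.β u, Jop n π v⟫ =
      ∑ P ∈ Finset.range (n + 1), ((-1 : ℂ) ^ P) * ⟪D.β (π P u), π P v⟫ := by
  rw [Jop_apply, inner_sum]
  refine Finset.sum_congr rfl fun P hP => ?_
  rw [inner_smul_right, T.inner_pi_right (by simpa [Nat.lt_succ_iff] using hP)]

lemma Types.inner_J_comm (T : Types D n π c) (u v : L) :
    ⟪D.β (Jop n π u), v⟫ = ⟪D.β u, Jop n π v⟫ := by
  rw [T.inner_J_left, T.inner_J_right]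

/-- `Ha = {u ∈ Zc | J u ∈ Zc}` is stable under type projections. -/
lemma Types.harm_stab (T : Types D n π c) {u : L} (hu : u ∈ D.Zc) (hJ : Jop n π u ∈ D.Zc)
    {P : ℕ} (hP : P ≤ n) : π P u ∈ D.Zc ∧ Jop n π (π P u) ∈ D.Zc := by
  have h := T.stab u hu hJ P hP
  refine ⟨h, ?_⟩
  rw [T.Jop_pi hP]
  exact D.Zc.smul_mem _ h

/-- A vector with `⟪β J u, u⟫ = 0` vanishes. -/
lemma Types.eq_zero (T : Types D n π c) {u : L} (h : ⟪D.β (Jop n π u), u⟫ = 0) : u = 0 := by
  have h1 := T.coer u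
  rw [h] at h1
  have h2 : ‖u‖ ^ 2 ≤ 0 := by
    have := T.cpos
    simp only [Complex.zero_re] at h1
    by_contra hc
    push Not at hc
    have := mul_pos T.cpos hc
    linarith
  have h3 : ‖u‖ = 0 := by nlinarith [norm_nonneg u, sq_nonneg ‖u‖]
  exact norm_eq_zero.mp h3

/-- On type `P` the form `(-1)^P B` is positive. -/
lemma Types.pos (T : Types D n π c) {P : ℕ} (hP : P ≤ n) {u : L} (hu : π P u = u) (hne : u ≠ 0) :
    0 < (-1 : ℝ) ^ P * (⟪D.β u, u⟫).re := by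
  have h1 := T.coer u
  have h2 : Jop n π u = ((-1 : ℂ) ^ P) • u := by
    conv_lhs => rw [← hu]
    rw [T.Jop_pi hP, hu]
  rw [h2, map_smul, inner_smul_left] at h1
  have h3 : ((starRingEnd ℂ) ((-1 : ℂ) ^ P) * ⟪D.β u, u⟫).re = (-1 : ℝ) ^ P * (⟪D.β u, u⟫).re := by
    have : (starRingEnd ℂ) ((-1 : ℂ) ^ P) = (((-1 : ℝ) ^ P : ℝ) : ℂ) := by
      simp
    rw [this, Complex.re_ofReal_mul]
  rw [h3] at h1
  have h4 : 0 < ‖u‖ := norm_pos_iff.mpr hne
  have := mul_pos T.cpos (pow_pos h4 2)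
  linarith

lemma Types.qop_idem (T : Types D n π c) (P : ℕ) (u : L) :
    qop n π P (qop n π P u) = qop n π P u := by
  simp only [qop_apply]
  refine Finset.sum_congr rfl fun Q hQ => ?_
  have hQn : Q ≤ n := by
    have := (Finset.mem_Ico.mp hQ).2
    omega
  rw [map_sum, Finset.sum_eq_single Q]
  · exact T.idem Q hQn u
  · intro R hR hne
    refine T.mul0 Q hQn R ?_ (Ne.symm hne) u
    have := (Finset.mem_Ico.mp hR).2
    omega
  · intro h
    exact absurd hQ h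

lemma Types.qop_zero (T : Types D n π c) (u : L) : qop n π 0 u = u := by
  rw [qop_apply, ← Finset.range_eq_Ico]
  exact T.sum u

lemma qop_last (P : ℕ) (hP : n < P) (u : L) : qop n π P u = 0 := by
  rw [qop_apply, Finset.Ico_eq_empty (by omega), Finset.sum_empty]

/-- `q_P u = u` iff all components of type `< P` vanish. -/
lemma Types.qop_eq_iff (T : Types D n π c) (P : ℕ) (u : L) :
    qop n π P u = u ↔ ∀ R ≤ n, R < P → π R u = 0 := by
  constructor
  · intro h R hR hRP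
    rw [← h, qop_apply, map_sum]
    refine Finset.sum_eq_zero fun Q hQ => ?_
    obtain ⟨h1, h2⟩ := Finset.mem_Ico.mp hQ
    exact T.mul0 R hR Q (by omega) (by omega) u
  · intro h
    conv_rhs => rw [← T.sum u]
    rw [qop_apply]
    refine Finset.sum_subset ?_ ?_
    · intro Q hQ
      rw [Finset.mem_range]
      exact (Finset.mem_Ico.mp hQ).2
    · intro Q hQ hQ'
      rw [Finset.mem_range] at hQ
      refine h Q (by omega) ?_
      by_contra hc
      exact hQ' (Finset.mem_Ico.mpr ⟨by omega, hQ⟩)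

lemma Types.qop_mono (T : Types D n π c) {P P' : ℕ} (h : P' ≤ P) {u : L}
    (hu : qop n π P u = u) : qop n π P' u = u := by
  rw [T.qop_eq_iff] at hu ⊢
  intro R hR hRP
  exact hu R hR (by omega)

/-- The generator criterion for `stab`. -/
lemma stab_of_generators
    (hsum : ∀ u, ∑ P ∈ Finset.range (n + 1), π P u = u)
    (horth : ∀ P ≤ n, ∀ Q ≤ n, P ≠ Q → ∀ u v, ⟪D.β (π P u), π Q v⟫ = 0)
    (G : Set L) (hG : (D.Ex : Set L) ⊆ closure (Submodule.span ℂ G : Set L))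
    (hGE : ∀ d ∈ G, d ∈ D.Ex)
    (hd : ∀ d ∈ G, ∃ P, P + 1 ≤ n ∧ d = π P d + π (P + 1) d) :
    ∀ u ∈ D.Zc, Jop n π u ∈ D.Zc → ∀ P ≤ n, π P u ∈ D.Zc := by
  have hleft : ∀ P ≤ n, ∀ u v, ⟪D.β u, π P v⟫ = ⟪D.β (π P u), π P v⟫ := by
    intro P hP u v
    conv_lhs => rw [← hsum u]
    rw [map_sum, sum_inner, Finset.sum_eq_single P]
    · intro Q hQ hne
      exact horth Q (by simpa [Nat.lt_succ_iff] using hQ) P hP hne u v
    · intro h
      exact absurd (Finset.mem_range.mpr (Nat.lt_succ_of_le hP)) h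
  have hJ : ∀ P ≤ n, ∀ u v, ⟪D.β (Jop n π u), π P v⟫ = ((-1 : ℂ) ^ P) * ⟪D.β (π P u), π P v⟫ := by
    intro P hP u v
    rw [Jop_apply, map_sum, sum_inner, Finset.sum_eq_single P]
    · rw [map_smul, inner_smul_left]
      simp
    · intro Q hQ hne
      rw [map_smul, inner_smul_left,
        horth Q (by simpa [Nat.lt_succ_iff] using hQ) P hP hne u v, mul_zero]
    · intro h
      exact absurd (Finset.mem_range.mpr (Nat.lt_succ_of_le hP)) h
  intro u hu hJu R hR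
  rw [D.memZc]
  -- vanishing on `G`
  have hGv : ∀ d ∈ G, ⟪D.β (π R u), d⟫ = 0 := by
    intro d hdG
    obtain ⟨P, hPn, hdP⟩ := hd d hdG
    have h1 := D.inner_zc_ex hu (hGE d hdG)
    have h2 := D.inner_zc_ex hJu (hGE d hdG)
    rw [hdP, inner_add_right] at h1 h2
    rw [hleft P (by omega), hleft (P + 1) hPn] at h1
    rw [hJ P (by omega), hJ (P + 1) hPn] at h2
    set X := ⟪D.β (π P u), π P d⟫
    set Y := ⟪D.β (π (P + 1) u), π (P + 1) d⟫
    have h3 : X - Y = 0 := by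
      have : ((-1 : ℂ) ^ P) * (X - Y) = 0 := by
        rw [← h2, pow_succ]
        ring
      rcases mul_eq_zero.mp this with h | h
      · exact absurd h (pow_ne_zero _ (by norm_num))
      · exact h
    have hX : X = 0 := by linear_combination (h1 + h3) / 2
    have hY : Y = 0 := by linear_combination (h1 - h3) / 2
    rw [hdP, inner_add_right]
    have e1 : ⟪D.β (π R u), π P d⟫ = 0 := by
      by_cases hRP : R = P
      · subst hRP; exact hX
      · exact horth R hR P (by omega) hRP u d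
    have e2 : ⟪D.β (π R u), π (P + 1) d⟫ = 0 := by
      by_cases hRP : R = P + 1
      · subst hRP; exact hY
      · exact horth R hR (P + 1) hPn hRP u d
    rw [e1, e2, add_zero]
  have hspan : ∀ d ∈ Submodule.span ℂ G, ⟪D.β (π R u), d⟫ = 0 := by
    intro d hdG
    induction hdG using Submodule.span_induction with
    | mem x hx => exact hGv x hx
    | zero => exact inner_zero_right _
    | add x y _ _ hx hy => rw [inner_add_right, hx, hy, add_zero]
    | smul a x _ hx => rw [inner_smul_right, hx, mul_zero]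
  intro e he
  have hcl : IsClosed {d : L | ⟪D.β (π R u), d⟫ = 0} :=
    isClosed_eq (by fun_prop) continuous_const
  exact (closure_minimal (fun d hd => hspan d hd) hcl) (hG he)

end types

section harm

variable [CompleteSpace L]

instance instCompleteEx (D : Fix L W) : CompleteSpace D.Ex := D.exClosed.completeSpace_coe

instance instCompleteZc (D : Fix L W) : CompleteSpace D.Zc := D.zcClosed.completeSpace_coe

/-- compression of `K` to `Ex` -/
noncomputable def Fix.A (D : Fix L W) (K : L →L[ℂ] L) : D.Ex →L[ℂ] D.Ex :=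
  (D.Ex.orthogonalProjectionOnto).comp (K.comp D.Ex.subtypeL)

lemma Fix.inner_proj (D : Fix L W) (x : L) (e : D.Ex) :
    ⟪((D.Ex.orthogonalProjectionOnto x : D.Ex) : L), (e : L)⟫ = ⟪x, (e : L)⟫ := by
  have h := Submodule.starProjection_inner_eq_zero (K := D.Ex) x e e.2
  rw [inner_sub_left, sub_eq_zero] at h
  rw [h]
  rfl

lemma Fix.inner_A (D : Fix L W) (K : L →L[ℂ] L) (x e : D.Ex) :
    ⟪D.A K x, e⟫ = ⟪K (x : L), (e : L)⟫ := by
  rw [Submodule.coe_inner]
  exact D.inner_proj _ _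

variable {D : Fix L W} {K : L →L[ℂ] L} {c : ℝ}

lemma isUnit_A (hc : 0 < c) (hK : ∀ u, c * ‖u‖ ^ 2 ≤ (⟪K u, u⟫).re) : IsUnit (D.A K) := by
  refine ContinuousLinearMap.isUnit_of_forall_le_norm_inner_map (c := c.toNNReal) _
    (Real.toNNReal_pos.mpr hc) fun x => ?_
  rw [D.inner_A, Real.coe_toNNReal c hc.le]
  have h1 := hK (x : L)
  have h2 := Complex.re_le_norm ⟪K (x : L), (x : L)⟫
  have h3 : ‖x‖ = ‖(x : L)‖ := rfl
  rw [h3]
  linarith

lemma norm_inverse_A_le (hc : 0 < c) (hK : ∀ u, c * ‖u‖ ^ 2 ≤ (⟪K u, u⟫).re) :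
    ‖Ring.inverse (D.A K)‖ ≤ c⁻¹ := by
  refine ContinuousLinearMap.opNorm_le_bound _ (by positivity) fun y => ?_
  set x := Ring.inverse (D.A K) y with hx
  have hAx : D.A K x = y := by
    have := Ring.mul_inverse_cancel _ (isUnit_A (D := D) hc hK)
    exact congrArg (fun T : D.Ex →L[ℂ] D.Ex => T y) this
  have h1 := hK (x : L)
  rw [← D.inner_A, hAx] at h1
  have h2 : (⟪y, x⟫).re ≤ ‖y‖ * ‖x‖ := (Complex.re_le_norm _).trans (norm_inner_le_norm _ _)
  have h3 : ‖x‖ = ‖(x : L)‖ := rfl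
  rw [← h3] at h1
  rw [inv_mul_eq_div, le_div_iff₀ hc]
  by_cases h0 : ‖x‖ = 0
  · rw [h0, zero_mul]
    exact norm_nonneg _
  · have h5 : 0 < ‖x‖ := lt_of_le_of_ne (norm_nonneg _) (Ne.symm h0)
    nlinarith

/-- The harmonic projection: `x - harm x ∈ Ex`, `K (harm x) ⊥ Ex`. -/
noncomputable def Fix.harm (D : Fix L W) (K : L →L[ℂ] L) : L →L[ℂ] L :=
  ContinuousLinearMap.id ℂ L -
    D.Ex.subtypeL.comp ((Ring.inverse (D.A K)).comp ((D.Ex.orthogonalProjectionOnto).comp K))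

lemma Fix.harm_apply (D : Fix L W) (K : L →L[ℂ] L) (x : L) :
    D.harm K x = x - (Ring.inverse (D.A K) (D.Ex.orthogonalProjectionOnto (K x)) : D.Ex) := rfl

lemma Fix.sub_harm_mem (D : Fix L W) (K : L →L[ℂ] L) (x : L) : x - D.harm K x ∈ D.Ex := by
  rw [D.harm_apply, sub_sub_cancel]
  exact Submodule.coe_mem _

lemma inner_K_harm (hc : 0 < c) (hK : ∀ u, c * ‖u‖ ^ 2 ≤ (⟪K u, u⟫).re) (x : L) {e : L}
    (he : e ∈ D.Ex) : ⟪K (D.harm K x), e⟫ = 0 := by
  set y := D.Ex.orthogonalProjectionOnto (K x) with hy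
  have hAx : D.A K (Ring.inverse (D.A K) y) = y := by
    have := Ring.mul_inverse_cancel _ (isUnit_A (D := D) hc hK)
    exact congrArg (fun T : D.Ex →L[ℂ] D.Ex => T y) this
  have h1 := D.inner_A K (Ring.inverse (D.A K) y) ⟨e, he⟩
  rw [hAx] at h1
  have h2 := D.inner_proj (K x) ⟨e, he⟩
  rw [D.harm_apply, map_sub, inner_sub_left, ← h2, ← h1, Submodule.coe_inner]
  simp [hy]

lemma harm_ex (hc : 0 < c) (hK : ∀ u, c * ‖u‖ ^ 2 ≤ (⟪K u, u⟫).re) {e : L}
    (he : e ∈ D.Ex) : D.harm K e = 0 := by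
  have h1 : D.Ex.orthogonalProjectionOnto (K e) = D.A K ⟨e, he⟩ := rfl
  rw [D.harm_apply, h1]
  have := Ring.inverse_mul_cancel _ (isUnit_A (D := D) hc hK)
  have h2 := congrArg (fun T : D.Ex →L[ℂ] D.Ex => T ⟨e, he⟩) this
  have h3 : Ring.inverse (D.A K) (D.A K ⟨e, he⟩) = ⟨e, he⟩ := h2
  rw [h3, sub_self]

lemma harm_congr (hc : 0 < c) (hK : ∀ u, c * ‖u‖ ^ 2 ≤ (⟪K u, u⟫).re) {x y : L}
    (h : x - y ∈ D.Ex) : D.harm K x = D.harm K y := by
  have := harm_ex hc hK h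
  rwa [map_sub, sub_eq_zero] at this

/-- uniqueness of the harmonic representative -/
lemma harm_eq_of (hc : 0 < c) (hK : ∀ u, c * ‖u‖ ^ 2 ≤ (⟪K u, u⟫).re) {x h : L}
    (h1 : x - h ∈ D.Ex) (h2 : ∀ e ∈ D.Ex, ⟪K h, e⟫ = 0) : D.harm K x = h := by
  have h3 : D.harm K x - h ∈ D.Ex := by
    have := D.Ex.sub_mem h1 (D.sub_harm_mem K x)
    rwa [sub_sub_sub_cancel_left] at this
  have h4 : ⟪K (D.harm K x - h), D.harm K x - h⟫ = 0 := by
    rw [map_sub, inner_sub_left, inner_K_harm hc hK x h3, h2 _ h3, sub_zero]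
  have h5 := hK (D.harm K x - h)
  rw [h4, Complex.zero_re] at h5
  have h6 : ‖D.harm K x - h‖ ^ 2 ≤ 0 := by
    by_contra hcon
    push Not at hcon
    have := mul_pos hc hcon
    linarith
  have h7 : ‖D.harm K x - h‖ = 0 := by
    nlinarith [norm_nonneg (D.harm K x - h), sq_nonneg ‖D.harm K x - h‖]
  exact sub_eq_zero.mp (norm_eq_zero.mp h7)

end harm

/-! ### The decomposition of the class space -/

section classes

variable [CompleteSpace L] [FiniteDimensional ℂ W]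

/-- a linear section of the class map -/
noncomputable def Fix.xs (D : Fix L W) : W →ₗ[ℂ] D.Zc :=
  (LinearMap.exists_rightInverse_of_surjective D.cl.toLinearMap
    (LinearMap.range_eq_top.mpr D.clSurj)).choose

lemma Fix.cl_xs (D : Fix L W) (w : W) : D.cl (D.xs w) = w := by
  have h := (LinearMap.exists_rightInverse_of_surjective D.cl.toLinearMap
    (LinearMap.range_eq_top.mpr D.clSurj)).choose_spec
  exact congrArg (fun T : W →ₗ[ℂ] W => T w) h

/-- continuous section with values in `L` -/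
noncomputable def Fix.xL (D : Fix L W) : W →L[ℂ] L :=
  LinearMap.toContinuousLinearMap (D.Zc.subtype.comp D.xs)

lemma Fix.xL_apply (D : Fix L W) (w : W) : D.xL w = (D.xs w : L) := rfl

lemma Fix.xL_mem (D : Fix L W) (w : W) : D.xL w ∈ D.Zc := (D.xs w).2

/-- the class map extended to `L` by the orthogonal projection -/
noncomputable def Fix.clL (D : Fix L W) : L →L[ℂ] W :=
  D.cl.comp D.Zc.orthogonalProjectionOnto

lemma Fix.clL_eq (D : Fix L W) {u : L} (hu : u ∈ D.Zc) : D.clL u = D.cl ⟨u, hu⟩ := by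
  have h : D.Zc.orthogonalProjectionOnto u = ⟨u, hu⟩ :=
    Submodule.orthogonalProjectionOnto_mem_subspace_eq_self (K := D.Zc) ⟨u, hu⟩
  show D.cl (D.Zc.orthogonalProjectionOnto u) = _
  rw [h]

lemma Fix.clL_xL (D : Fix L W) (w : W) : D.clL (D.xL w) = w := by
  rw [D.clL_eq (D.xL_mem w)]
  exact D.cl_xs w

lemma Fix.clL_eq_zero_iff (D : Fix L W) {u : L} (hu : u ∈ D.Zc) : D.clL u = 0 ↔ u ∈ D.Ex := by
  rw [D.clL_eq hu, D.clKer]

lemma Fix.clL_eq_iff (D : Fix L W) {u v : L} (hu : u ∈ D.Zc) (hv : v ∈ D.Zc) :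
    D.clL u = D.clL v ↔ u - v ∈ D.Ex := by
  rw [← D.clL_eq_zero_iff (D.Zc.sub_mem hu hv), map_sub, sub_eq_zero]

/-- the flat Hermitian form on the class space -/
noncomputable def Fix.SW (D : Fix L W) (w w' : W) : ℂ := ⟪D.β (D.xL w), D.xL w'⟫

/-- `S_W` may be computed with arbitrary weakly closed representatives -/
lemma Fix.SW_clL (D : Fix L W) {u v : L} (hu : u ∈ D.Zc) (hv : v ∈ D.Zc) :
    D.SW (D.clL u) (D.clL v) = ⟪D.β u, v⟫ := by
  have h1 : D.xL (D.clL u) - u ∈ D.Ex :=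
    (D.clL_eq_iff (D.xL_mem _) hu).mp (D.clL_xL _)
  have h2 : D.xL (D.clL v) - v ∈ D.Ex :=
    (D.clL_eq_iff (D.xL_mem _) hv).mp (D.clL_xL _)
  have e1 : D.xL (D.clL u) = u + (D.xL (D.clL u) - u) := by abel
  have e2 : D.xL (D.clL v) = v + (D.xL (D.clL v) - v) := by abel
  unfold Fix.SW
  rw [e1, e2, map_add, inner_add_left, inner_add_right, inner_add_right,
    D.inner_zc_ex hu h2, D.inner_ex_zc hv h1, D.inner_zc_ex (D.exLe h1) h2]
  simp

lemma Fix.SW_symm (D : Fix L W) (w w' : W) : (starRingEnd ℂ) (D.SW w w') = D.SW w' w := by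
  unfold Fix.SW
  rw [inner_conj_symm, D.symm]

lemma Fix.SW_add_right (D : Fix L W) (w a b : W) : D.SW w (a + b) = D.SW w a + D.SW w b := by
  simp [Fix.SW]

lemma Fix.SW_add_left (D : Fix L W) (w a b : W) : D.SW (a + b) w = D.SW a w + D.SW b w := by
  simp [Fix.SW]

lemma Fix.SW_smul_right (D : Fix L W) (w a : W) (r : ℂ) : D.SW w (r • a) = r * D.SW w a := by
  simp [Fix.SW]

variable {D : Fix L W} {n : ℕ} {π : ℕ → L →L[ℂ] L} {c : ℝ}

/-- the metric operator -/
noncomputable def Kop (D : Fix L W) (n : ℕ) (π : ℕ → L →L[ℂ] L) : L →L[ℂ] L :=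
  D.β.comp (Jop n π)

lemma Types.coerK (T : Types D n π c) : ∀ u, c * ‖u‖ ^ 2 ≤ (⟪Kop D n π u, u⟫).re := T.coer

/-- harmonic representative of a class -/
noncomputable def hr (D : Fix L W) (n : ℕ) (π : ℕ → L →L[ℂ] L) : W →L[ℂ] L :=
  (D.harm (Kop D n π)).comp D.xL

lemma hr_mem (w : W) : hr D n π w ∈ D.Zc := by
  have h := D.sub_harm_mem (Kop D n π) (D.xL w)
  have h2 := D.Zc.sub_mem (D.xL_mem w) (D.exLe h)
  rwa [sub_sub_cancel] at h2

lemma Types.J_hr_mem (T : Types D n π c) (w : W) : Jop n π (hr D n π w) ∈ D.Zc := by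
  rw [D.memZc]
  intro e he
  exact inner_K_harm T.cpos T.coerK (D.xL w) he

lemma clL_hr (w : W) : D.clL (hr D n π w) = w := by
  conv_rhs => rw [← D.clL_xL w]
  rw [D.clL_eq_iff (hr_mem w) (D.xL_mem w)]
  have h := D.sub_harm_mem (Kop D n π) (D.xL w)
  have := D.Ex.neg_mem h
  rwa [neg_sub] at this

/-- uniqueness: a vector `h` with `h, J h ∈ Zc` is the harmonic representative of its class -/
lemma Types.hr_clL (T : Types D n π c) {h : L} (h1 : h ∈ D.Zc) (h2 : Jop n π h ∈ D.Zc) :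
    hr D n π (D.clL h) = h := by
  refine harm_eq_of T.cpos T.coerK ?_ ?_
  · exact (D.clL_eq_iff (D.xL_mem _) h1).mp (D.clL_xL _)
  · intro e he
    exact (D.memZc _).mp h2 e he

/-- the projector on the classes of type `P` -/
noncomputable def Pi (D : Fix L W) (n : ℕ) (π : ℕ → L →L[ℂ] L) (P : ℕ) : W →L[ℂ] W :=
  D.clL.comp ((π P).comp (hr D n π))

/-- the projector on `F^P W` -/
noncomputable def Q (D : Fix L W) (n : ℕ) (π : ℕ → L →L[ℂ] L) (P : ℕ) : W →L[ℂ] W :=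
  D.clL.comp ((qop n π P).comp (hr D n π))

/-- the Hodge filtration on classes -/
noncomputable def F (D : Fix L W) (n : ℕ) (π : ℕ → L →L[ℂ] L) (P : ℕ) : Submodule ℂ W :=
  (D.Zc ⊓ LinearMap.ker ((qop n π P).toLinearMap - LinearMap.id)).map D.clL.toLinearMap

lemma mem_F {P : ℕ} {w : W} :
    w ∈ F D n π P ↔ ∃ v ∈ D.Zc, qop n π P v = v ∧ D.clL v = w := by
  unfold F
  simp only [Submodule.mem_map, Submodule.mem_inf, LinearMap.mem_ker, LinearMap.sub_apply,
    LinearMap.id_apply, sub_eq_zero]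
  constructor
  · rintro ⟨v, ⟨h1, h2⟩, h3⟩
    exact ⟨v, h1, h2, h3⟩
  · rintro ⟨v, h1, h2, h3⟩
    exact ⟨v, ⟨h1, h2⟩, h3⟩

lemma Types.hr_Pi (T : Types D n π c) {P : ℕ} (hP : P ≤ n) (w : W) :
    hr D n π (Pi D n π P w) = π P (hr D n π w) := by
  obtain ⟨h1, h2⟩ := T.harm_stab (hr_mem w) (T.J_hr_mem w) hP
  exact T.hr_clL h1 h2

lemma Types.qop_hr_mem (T : Types D n π c) (P : ℕ) (w : W) :
    qop n π P (hr D n π w) ∈ D.Zc ∧ Jop n π (qop n π P (hr D n π w)) ∈ D.Zc := by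
  have h : ∀ R ∈ Finset.Ico P (n + 1), π R (hr D n π w) ∈ D.Zc ∧
      Jop n π (π R (hr D n π w)) ∈ D.Zc := by
    intro R hR
    have := (Finset.mem_Ico.mp hR).2
    exact T.harm_stab (hr_mem w) (T.J_hr_mem w) (by omega)
  rw [qop_apply]
  refine ⟨D.Zc.sum_mem fun R hR => (h R hR).1, ?_⟩
  rw [map_sum]
  exact D.Zc.sum_mem fun R hR => (h R hR).2

lemma Types.hr_Q (T : Types D n π c) (P : ℕ) (w : W) :
    hr D n π (Q D n π P w) = qop n π P (hr D n π w) := by
  obtain ⟨h1, h2⟩ := T.qop_hr_mem P w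
  exact T.hr_clL h1 h2

/-- The harmonic representative of a class of `F^P` has types `≥ P`. -/
lemma Types.mem_F_iff (T : Types D n π c) {P : ℕ} {w : W} :
    w ∈ F D n π P ↔ qop n π P (hr D n π w) = hr D n π w := by
  constructor
  · intro hw
    obtain ⟨v, hv, hqv, rfl⟩ := mem_F.mp hw
    rw [T.qop_eq_iff]
    intro R hR hRP
    set h := hr D n π (D.clL v) with hh
    have h1 : h ∈ D.Zc := hr_mem _
    have h2 := T.J_hr_mem (D.clL v)
    obtain ⟨h3, h4⟩ := T.harm_stab h1 h2 hR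
    -- `v = h + e`
    have he : h - v ∈ D.Ex := (D.clL_eq_iff h1 hv).mp (clL_hr _)
    have hvR : π R v = 0 := (T.qop_eq_iff P v).mp hqv R hR hRP
    apply T.eq_zero
    have h5 : ⟪D.β (Jop n π (π R h)), h - v⟫ = 0 := D.inner_zc_ex h4 he
    rw [inner_sub_right] at h5
    have h6 : ⟪D.β (Jop n π (π R h)), v⟫ = 0 := by
      rw [T.Jop_pi hR, map_smul, inner_smul_left, T.inner_pi_left hR, hvR, inner_zero_right,
        mul_zero]
    rw [h6, sub_zero] at h5
    rw [T.Jop_pi hR, map_smul, inner_smul_left] at h5 ⊢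
    rw [T.inner_pi_left hR] at h5
    exact h5
  · intro h
    rw [mem_F]
    exact ⟨hr D n π w, hr_mem w, h, clL_hr w⟩

lemma Types.mem_F_iff_Q (T : Types D n π c) {P : ℕ} {w : W} :
    w ∈ F D n π P ↔ Q D n π P w = w := by
  rw [T.mem_F_iff]
  constructor
  · intro h
    show D.clL (qop n π P (hr D n π w)) = w
    rw [h, clL_hr]
  · intro h
    rw [← T.hr_Q, h]

lemma Types.Q_mem (T : Types D n π c) (P : ℕ) (w : W) : Q D n π P w ∈ F D n π P := by
  rw [T.mem_F_iff, T.hr_Q, T.qop_idem]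

lemma Types.Q_idem (T : Types D n π c) (P : ℕ) (w : W) :
    Q D n π P (Q D n π P w) = Q D n π P w := (T.mem_F_iff_Q).mp (T.Q_mem P w)

lemma Types.F_zero (T : Types D n π c) : F D n π 0 = ⊤ := by
  rw [eq_top_iff]
  intro w _
  rw [T.mem_F_iff]
  exact T.qop_zero _

lemma Types.F_last (T : Types D n π c) {P : ℕ} (hP : n < P) : F D n π P = ⊥ := by
  rw [eq_bot_iff]
  intro w hw
  rw [T.mem_F_iff, qop_last P hP] at hw
  have := clL_hr (D := D) (n := n) (π := π) w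
  rw [← hw, map_zero] at this
  rw [Submodule.mem_bot, ← this]

lemma Types.F_anti (T : Types D n π c) {P P' : ℕ} (h : P' ≤ P) : F D n π P ≤ F D n π P' := by
  intro w hw
  rw [T.mem_F_iff] at hw ⊢
  exact T.qop_mono h hw

/-- `w` is of type `P`. -/
lemma Types.Pi_eq_iff (T : Types D n π c) {P : ℕ} (hP : P ≤ n) {w : W} :
    Pi D n π P w = w ↔ π P (hr D n π w) = hr D n π w := by
  constructor
  · intro h
    rw [← T.hr_Pi hP, h]
  · intro h
    show D.clL (π P (hr D n π w)) = w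
    rw [h, clL_hr]

lemma Types.Pi_idem (T : Types D n π c) {P : ℕ} (hP : P ≤ n) (w : W) :
    Pi D n π P (Pi D n π P w) = Pi D n π P w := by
  rw [T.Pi_eq_iff hP, T.hr_Pi hP, T.idem P hP]

lemma Types.Pi_mul0 (T : Types D n π c) {P R : ℕ} (hP : P ≤ n) (hR : R ≤ n) (hne : P ≠ R)
    (w : W) : Pi D n π P (Pi D n π R w) = 0 := by
  show D.clL (π P (hr D n π (Pi D n π R w))) = 0
  rw [T.hr_Pi hR, T.mul0 P hP R hR hne, map_zero]

lemma Types.Pi_sum (T : Types D n π c) (w : W) :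
    ∑ P ∈ Finset.range (n + 1), Pi D n π P w = w := by
  show ∑ P ∈ Finset.range (n + 1), D.clL (π P (hr D n π w)) = w
  rw [← map_sum, T.sum, clL_hr]

lemma Q_eq_sum (P : ℕ) (w : W) :
    Q D n π P w = ∑ R ∈ Finset.Ico P (n + 1), Pi D n π R w := by
  show D.clL (qop n π P (hr D n π w)) = ∑ R ∈ Finset.Ico P (n + 1), D.clL (π R (hr D n π w))
  rw [qop_apply, map_sum]

/-- different types are orthogonal for the flat form -/
lemma Types.SW_orth (T : Types D n π c) {P R : ℕ} (hP : P ≤ n) (hR : R ≤ n) (hne : P ≠ R)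
    (w w' : W) : D.SW (Pi D n π P w) (Pi D n π R w') = 0 := by
  obtain ⟨h1, _⟩ := T.harm_stab (hr_mem w) (T.J_hr_mem w) hP
  obtain ⟨h2, _⟩ := T.harm_stab (hr_mem w') (T.J_hr_mem w') hR
  show D.SW (D.clL (π P (hr D n π w))) (D.clL (π R (hr D n π w'))) = 0
  rw [D.SW_clL h1 h2]
  exact T.orth P hP R hR hne _ _

/-- `(-1)^P S_W` is positive definite on type `P` -/
lemma Types.SW_pos (T : Types D n π c) {P : ℕ} (hP : P ≤ n) {w : W}
    (hw : Pi D n π P w = w) (hne : w ≠ 0) : 0 < (-1 : ℝ) ^ P * (D.SW w w).re := by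
  rw [T.Pi_eq_iff hP] at hw
  have h0 : hr D n π w ≠ 0 := by
    intro h
    apply hne
    have := clL_hr (D := D) (n := n) (π := π) w
    rw [h, map_zero] at this
    exact this.symm
  have h1 : D.SW w w = ⟪D.β (hr D n π w), hr D n π w⟫ := by
    conv_lhs => rw [← clL_hr (D := D) (n := n) (π := π) w]
    exact D.SW_clL (hr_mem w) (hr_mem w)
  rw [h1]
  exact T.pos hP hw h0

/-- `F^P` and the types `< P` are orthogonal -/
lemma Types.SW_F_Pi (T : Types D n π c) {P R : ℕ} (hR : R ≤ n) (hRP : R < P) {w : W}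
    (hw : w ∈ F D n π P) (w' : W) : D.SW w (Pi D n π R w') = 0 := by
  rw [T.mem_F_iff_Q, Q_eq_sum] at hw
  rw [← hw]
  have : ∀ s : Finset ℕ, (∀ i ∈ s, i ≤ n ∧ R ≠ i) →
      D.SW (∑ i ∈ s, Pi D n π i w) (Pi D n π R w') = 0 := by
    intro s
    induction s using Finset.induction_on with
    | empty => intro _; simp [Fix.SW]
    | insert a s ha ih =>
      intro h
      rw [Finset.sum_insert ha, D.SW_add_left, ih fun i hi => h i (Finset.mem_insert_of_mem hi),
        T.SW_orth (h a (Finset.mem_insert_self _ _)).1 hR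
          (Ne.symm (h a (Finset.mem_insert_self _ _)).2), add_zero]
  refine this _ fun i hi => ?_
  obtain ⟨h1, h2⟩ := Finset.mem_Ico.mp hi
  exact ⟨by omega, by omega⟩

lemma Types.SW_Pi_left (T : Types D n π c) {P : ℕ} (hP : P ≤ n) (w w' : W) :
    D.SW (Pi D n π P w) w' = D.SW (Pi D n π P w) (Pi D n π P w') := by
  obtain ⟨h1, _⟩ := T.harm_stab (hr_mem w) (T.J_hr_mem w) hP
  obtain ⟨h2, _⟩ := T.harm_stab (hr_mem w') (T.J_hr_mem w') hP
  have e1 : D.SW (D.clL (π P (hr D n π w))) w' = ⟪D.β (π P (hr D n π w)), hr D n π w'⟫ := by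
    conv_lhs => rw [← clL_hr (D := D) (n := n) (π := π) w']
    exact D.SW_clL h1 (hr_mem w')
  have e2 : D.SW (D.clL (π P (hr D n π w))) (D.clL (π P (hr D n π w'))) =
      ⟪D.β (π P (hr D n π w)), π P (hr D n π w')⟫ := D.SW_clL h1 h2
  show D.SW (D.clL (π P (hr D n π w))) w' =
    D.SW (D.clL (π P (hr D n π w))) (D.clL (π P (hr D n π w')))
  rw [e1, e2]
  exact T.inner_pi_left hP _ _

/-- a type component on which `S_W` vanishes is zero -/
lemma Types.Pi_eq_zero_of (T : Types D n π c) {P : ℕ} (hP : P ≤ n) {w : W}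
    (h : D.SW (Pi D n π P w) w = 0) : Pi D n π P w = 0 := by
  by_contra hne
  rw [T.SW_Pi_left hP] at h
  have := T.SW_pos hP (T.Pi_idem hP w) hne
  rw [h] at this
  simp at this

lemma Types.Pi_mem_F (T : Types D n π c) {P R : ℕ} (hR : R ≤ n) (hPR : P ≤ R) (w : W) :
    Pi D n π R w ∈ F D n π P := by
  rw [T.mem_F_iff, T.hr_Pi hR, T.qop_eq_iff]
  intro R' hR' hlt
  exact T.mul0 R' hR' R hR (by omega) _

/-- An element of `F^P` which is `S_W`-orthogonal to `F^{P+1}` is of type `P`. -/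
lemma Types.type_of_orth (T : Types D n π c) {P : ℕ} (hP : P ≤ n) {w : W}
    (hw : w ∈ F D n π P) (ho : ∀ w' ∈ F D n π (P + 1), D.SW w' w = 0) :
    Pi D n π P w = w := by
  have h1 : Q D n π P w = Pi D n π P w + Q D n π (P + 1) w := by
    rw [Q_eq_sum, Q_eq_sum, Finset.sum_eq_sum_Ico_succ_bot (by omega)]
  rw [(T.mem_F_iff_Q).mp hw] at h1
  have hz : Q D n π (P + 1) w = 0 := by
    rw [Q_eq_sum]
    refine Finset.sum_eq_zero fun R hR => ?_
    obtain ⟨h3, h4⟩ := Finset.mem_Ico.mp hR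
    exact T.Pi_eq_zero_of (by omega) (ho _ (T.Pi_mem_F (by omega) (by omega) w))
  rw [hz, add_zero] at h1
  exact h1.symm

/-- An element orthogonal to everything is zero: `S_W` is nondegenerate. -/
lemma Types.SW_nondeg (T : Types D n π c) {w : W} (h : ∀ w', D.SW w' w = 0) : w = 0 := by
  rw [← T.Pi_sum w]
  refine Finset.sum_eq_zero fun P hP => ?_
  exact T.Pi_eq_zero_of (by simpa [Nat.lt_succ_iff] using hP) (h _)

/-- sign on `F^P ∩ (F^{P+1})^⊥` (flag form of a polarised Hodge structure) -/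
lemma Types.flag_pos (T : Types D n π c) {P : ℕ} (hP : P ≤ n) {w : W}
    (hw : w ∈ F D n π P) (ho : ∀ w' ∈ F D n π (P + 1), D.SW w' w = 0) (hne : w ≠ 0) :
    0 < (-1 : ℝ) ^ P * (D.SW w w).re :=
  T.SW_pos hP (T.type_of_orth hP hw ho) hne

/-- every element of `F^P` is the sum of an element of `F^P ∩ (F^{P+1})^⊥` and one of `F^{P+1}` -/
lemma Types.flag_split (T : Types D n π c) {P : ℕ} (hP : P ≤ n) {w : W}
    (hw : w ∈ F D n π P) :
    ∃ a ∈ F D n π P, ∃ b ∈ F D n π (P + 1),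
      (∀ w' ∈ F D n π (P + 1), D.SW w' a = 0) ∧ w = a + b := by
  refine ⟨Pi D n π P w, T.Pi_mem_F hP le_rfl w, Q D n π (P + 1) w, T.Q_mem _ _,
    fun w' hw' => T.SW_F_Pi hP (Nat.lt_succ_self P) hw' w, ?_⟩
  have h1 : Q D n π P w = Pi D n π P w + Q D n π (P + 1) w := by
    rw [Q_eq_sum, Q_eq_sum, Finset.sum_eq_sum_Ico_succ_bot (by omega)]
  rw [← h1]
  exact ((T.mem_F_iff_Q).mp hw).symm

/-- the top piece consists of the classes of the weakly closed forms of top type -/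
lemma mem_F_top {w : W} :
    w ∈ F D n π n ↔ ∃ v ∈ D.Zc, π n v = v ∧ D.clL v = w := by
  rw [mem_F]
  simp [qop_apply]

/-- norm of the top piece: `(-1)^n S_W(cl v, cl v) = ⟪β J v, v⟫` for `v` closed of top type -/
lemma Types.SW_of_type (T : Types D n π c) {P : ℕ} (hP : P ≤ n) {v : L} (hv : v ∈ D.Zc)
    (h : π P v = v) : ((-1 : ℂ) ^ P) * D.SW (D.clL v) (D.clL v) = ⟪D.β (Jop n π v), v⟫ := by
  rw [D.SW_clL hv hv]
  have h1 : Jop n π v = ((-1 : ℂ) ^ P) • v := by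
    conv_lhs => rw [← h]
    rw [T.Jop_pi hP, h]
  rw [h1, map_smul, inner_smul_left]
  simp

end classes

end Crest.Agent.R276.HsB_817
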