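import Mathlib
import Crest.Agent.R276.HsB_817

/-!
# R276 / IPC (HS), part C: families over a complex parameter space

The type projections `π s P` are only strongly real differentiable in `s`.
Output: `F^P_s` is a holomorphic family of subspaces of the fixed space `W`
(`Family.frames`), and Griffiths transversality (`Family.deriv_mem`).
-/

set_option autoImplicit false
set_option linter.unusedSectionVars false

open Set Filter Topology
open Crest.Agent.R276.HsA_817 Crest.Agent.R276.HsB_817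
open scoped InnerProductSpace

namespace Crest.Agent.R276.HsC_817

variable {L W : Type*} [NormedAddCommGroup L] [InnerProductSpace ℂ L]
  [NormedAddCommGroup W] [NormedSpace ℂ W]
variable {E : Type*} [NormedAddCommGroup E] [NormedSpace ℂ E] [FiniteDimensional ℂ E]

local notation "⟪" x ", " y "⟫" => inner ℂ x y

/-- Families of type decompositions: only first order, strong (pointwise on vectors) hypotheses. -/
structure Family (D : Fix L W) (n : ℕ) (π : E → ℕ → L →L[ℂ] L) (U : Set E) : Prop where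
  isOpen : IsOpen U
  types : ∀ s0 ∈ U, ∃ c, ∀ᶠ s in 𝓝 s0, Types D n (π s) c
  bdd : ∀ s0 ∈ U, ∀ P ≤ n, ∃ C : ℝ, ∀ᶠ s in 𝓝 s0, ‖π s P‖ ≤ C
  diff : ∀ s0 ∈ U, ∀ P ≤ n, ∀ u, DifferentiableAt ℝ (fun s => π s P u) s0
  hol : ∀ s0 ∈ U, ∀ P, ∀ u, qop n (π s0) P u = u → ∀ t : E,
    fderiv ℝ (fun s => qop n (π s) P u) s0 (Complex.I • t) =
      Complex.I • fderiv ℝ (fun s => qop n (π s) P u) s0 t
  trans : ∀ s0 ∈ U, ∀ P, ∀ u, qop n (π s0) (P + 1) u = u → ∀ t : E,
    qop n (π s0) P (fderiv ℝ (fun s => qop n (π s) (P + 1) u) s0 t) =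
      fderiv ℝ (fun s => qop n (π s) (P + 1) u) s0 t

section strong

variable {D : Fix L W} {n : ℕ} {π : E → ℕ → L →L[ℂ] L} {U : Set E}

lemma Family.sdiff_pi (Φ : Family D n π U) {s0 : E} (hs : s0 ∈ U) {P : ℕ} (hP : P ≤ n) :
    SDiff (fun s => π s P) s0 := ⟨Φ.bdd s0 hs P hP, Φ.diff s0 hs P hP⟩

lemma Family.sdiff_J (Φ : Family D n π U) {s0 : E} (hs : s0 ∈ U) :
    SDiff (fun s => Jop n (π s)) s0 := by
  unfold Jop
  refine SDiff.sum _ fun P hP => ?_
  exact (Φ.sdiff_pi hs (by simpa [Nat.lt_succ_iff] using hP)).const_smul _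

lemma Family.sdiff_q (Φ : Family D n π U) {s0 : E} (hs : s0 ∈ U) (P : ℕ) :
    SDiff (fun s => qop n (π s) P) s0 := by
  unfold qop
  refine SDiff.sum _ fun R hR => ?_
  have := (Finset.mem_Ico.mp hR).2
  exact Φ.sdiff_pi hs (by omega)

lemma Family.sdiff_K (Φ : Family D n π U) {s0 : E} (hs : s0 ∈ U) :
    SDiff (fun s => Kop D n (π s)) s0 :=
  (SDiff.const D.β s0).comp (Φ.sdiff_J hs)

variable [CompleteSpace L] [FiniteDimensional ℂ W]

lemma Family.sdiff_A (Φ : Family D n π U) {s0 : E} (hs : s0 ∈ U) :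
    SDiff (fun s => D.A (Kop D n (π s))) s0 :=
  (SDiff.const D.Ex.orthogonalProjectionOnto s0).comp
    ((Φ.sdiff_K hs).comp (SDiff.const D.Ex.subtypeL s0))

lemma Family.sdiff_inv (Φ : Family D n π U) {s0 : E} (hs : s0 ∈ U) :
    SDiff (fun s => Ring.inverse (D.A (Kop D n (π s)))) s0 := by
  obtain ⟨c, hc⟩ := Φ.types s0 hs
  refine (Φ.sdiff_A hs).inverse (C := c⁻¹) ?_ ?_ ?_
  · filter_upwards [hc] with s T
    exact Ring.inverse_mul_cancel _ (isUnit_A (D := D) T.cpos T.coerK)
  · filter_upwards [hc] with s T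
    exact Ring.mul_inverse_cancel _ (isUnit_A (D := D) T.cpos T.coerK)
  · filter_upwards [hc] with s T
    exact norm_inverse_A_le T.cpos T.coerK

lemma Family.sdiff_harm (Φ : Family D n π U) {s0 : E} (hs : s0 ∈ U) :
    SDiff (fun s => D.harm (Kop D n (π s))) s0 :=
  (SDiff.const (ContinuousLinearMap.id ℂ L) s0).sub
    ((SDiff.const D.Ex.subtypeL s0).comp ((Φ.sdiff_inv hs).comp
      ((SDiff.const D.Ex.orthogonalProjectionOnto s0).comp (Φ.sdiff_K hs))))

/-- the harmonic representative is strongly differentiable in the parameter -/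
lemma Family.sdiff_hr (Φ : Family D n π U) {s0 : E} (hs : s0 ∈ U) :
    SDiff (fun s => hr D n (π s)) s0 :=
  (Φ.sdiff_harm hs).comp (SDiff.const D.xL s0)

lemma Family.sdiff_Q (Φ : Family D n π U) {s0 : E} (hs : s0 ∈ U) (P : ℕ) :
    SDiff (fun s => Q D n (π s) P) s0 :=
  (SDiff.const D.clL s0).comp ((Φ.sdiff_q hs P).comp (Φ.sdiff_hr hs))

/-- In finite dimension strong differentiability is norm differentiability. -/
lemma differentiableAt_of_strong {T : E → W →L[ℂ] W} {s0 : E}
    (h : ∀ w, DifferentiableAt ℝ (fun s => T s w) s0) : DifferentiableAt ℝ T s0 := by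
  classical
  set b := Module.finBasis ℂ W with hb
  have h1 : T = fun s => ∑ i, ContinuousLinearMap.smulRightL ℂ W W
      (LinearMap.toContinuousLinearMap (b.coord i)) (T s (b i)) := by
    funext s
    refine ContinuousLinearMap.ext fun w => ?_
    conv_lhs => rw [← b.sum_repr w, map_sum]
    rw [sum_apply]
    refine Finset.sum_congr rfl fun i _ => ?_
    rw [map_smul]
    rfl
  rw [h1]
  refine DifferentiableAt.fun_sum fun i _ => ?_
  have h2 : DifferentiableAt ℝ (fun w : W => ContinuousLinearMap.smulRightL ℂ W W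
      (LinearMap.toContinuousLinearMap (b.coord i)) w) (T s0 (b i)) :=
    ((ContinuousLinearMap.smulRightL ℂ W W
      (LinearMap.toContinuousLinearMap (b.coord i))).restrictScalars ℝ).differentiableAt
  exact h2.comp s0 (h (b i))

lemma Family.diff_Q (Φ : Family D n π U) {s0 : E} (hs : s0 ∈ U) (P : ℕ) :
    DifferentiableAt ℝ (fun s => Q D n (π s) P) s0 :=
  differentiableAt_of_strong (Φ.sdiff_Q hs P).2

/-- The main differentiation statement. -/
lemma Family.main (Φ : Family D n π U) {s0 : E} (hs : s0 ∈ U) (P : ℕ) {c : E → W}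
    {c' : E →L[ℝ] W} (hc : ∀ᶠ s in 𝓝 s0, c s ∈ F D n (π s) P) (hd : HasFDerivAt c c' s0)
    (t : E) :
    (∀ P', P = P' + 1 → c' t ∈ F D n (π s0) P') ∧
      c' (Complex.I • t) - Complex.I • c' t ∈ F D n (π s0) P := by
  obtain ⟨κ, hT⟩ := Φ.types s0 hs
  have T := hT.self_of_nhds
  set u : E → L := fun s => hr D n (π s) (c s) with hu
  have h1 := (Φ.sdiff_hr hs).hasFDerivAt_apply hd
  set u' := fderiv ℝ (fun s => hr D n (π s) (c s0)) s0 +
    ((hr D n (π s0)).restrictScalars ℝ).comp c' with hu'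
  have hmem : ∀ s, u s ∈ D.Zc := fun s => hr_mem _
  -- the derivative is weakly closed
  have hu'mem : ∀ t, u' t ∈ D.Zc := by
    intro t
    rw [D.memZc]
    intro e he
    have h2 : HasFDerivAt (fun s => innerSL ℂ (D.β e) (u s))
        (((innerSL ℂ (D.β e)).restrictScalars ℝ).comp u') s0 :=
      ((innerSL ℂ (D.β e)).restrictScalars ℝ).hasFDerivAt.comp s0 h1
    have h3 : (fun s => innerSL ℂ (D.β e) (u s)) = fun _ => (0 : ℂ) := by
      funext s
      exact D.inner_ex_zc (hmem s) he
    rw [h3] at h2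
    have h4 := h2.unique (hasFDerivAt_const (0 : ℂ) s0)
    have h5 : ⟪D.β e, u' t⟫ = 0 := congrArg (fun T : E →L[ℝ] ℂ => T t) h4
    rw [D.symm, ← inner_conj_symm, h5, map_zero]
  -- the class of the derivative
  have hcl : ∀ t, D.clL (u' t) = c' t := by
    intro t
    have h2 : HasFDerivAt (fun s => D.clL (u s))
        ((D.clL.restrictScalars ℝ).comp u') s0 :=
      (D.clL.restrictScalars ℝ).hasFDerivAt.comp s0 h1
    have h3 : (fun s => D.clL (u s)) = c := by
      funext s
      exact clL_hr _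
    rw [h3] at h2
    exact congrArg (fun T : E →L[ℝ] W => T t) (h2.unique hd)
  -- differentiate `q u = u`
  have hqu0 : qop n (π s0) P (u s0) = u s0 := (T.mem_F_iff).mp hc.self_of_nhds
  have hq := (Φ.sdiff_q hs P).hasFDerivAt_apply h1
  set q' := fderiv ℝ (fun s => qop n (π s) P (u s0)) s0 with hq'
  have hqu : (fun s => qop n (π s) P (u s)) =ᶠ[𝓝 s0] u := by
    filter_upwards [hc, hT] with s hcs Ts
    exact (Ts.mem_F_iff).mp hcs
  have h2 : q' + ((qop n (π s0) P).restrictScalars ℝ).comp u' = u' :=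
    (hq.congr_of_eventuallyEq hqu.symm).unique h1
  have h3 : ∀ t, q' t + qop n (π s0) P (u' t) = u' t := fun t =>
    congrArg (fun T : E →L[ℝ] L => T t) h2
  have hol : ∀ t, q' (Complex.I • t) = Complex.I • q' t := Φ.hol s0 hs P (u s0) hqu0
  constructor
  · intro P' hP'
    subst hP'
    rw [mem_F]
    refine ⟨u' t, hu'mem t, ?_, hcl t⟩
    have h4 : qop n (π s0) P' (q' t) = q' t := Φ.trans s0 hs P' (u s0) hqu0 t
    have h5 : qop n (π s0) P' (qop n (π s0) (P' + 1) (u' t)) = qop n (π s0) (P' + 1) (u' t) :=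
      T.qop_mono (Nat.le_succ _) (T.qop_idem _ _)
    conv_lhs => rw [← h3 t, map_add, h4, h5]
    exact h3 t
  · rw [mem_F]
    refine ⟨u' (Complex.I • t) - Complex.I • u' t,
      D.Zc.sub_mem (hu'mem _) (D.Zc.smul_mem _ (hu'mem _)), ?_, ?_⟩
    · have e1 := h3 (Complex.I • t)
      have e2 := h3 t
      rw [hol t] at e1
      rw [map_sub, (qop n (π s0) P).map_smul Complex.I (u' t)]
      have e3 : qop n (π s0) P (u' (Complex.I • t)) = u' (Complex.I • t) - Complex.I • q' t :=
        eq_sub_of_add_eq' e1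
      have e4 : qop n (π s0) P (u' t) = u' t - q' t := eq_sub_of_add_eq' e2
      rw [e3, e4, smul_sub]
      abel
    · rw [map_sub, D.clL.map_smul Complex.I (u' t), hcl, hcl]

/-- **Griffiths transversality.** -/
theorem Family.deriv_mem (Φ : Family D n π U) {s0 : E} (hs : s0 ∈ U) (P : ℕ) {c : E → W}
    (hc : ∀ᶠ s in 𝓝 s0, c s ∈ F D n (π s) (P + 1)) (hd : DifferentiableAt ℂ c s0) (t : E) :
    fderiv ℂ c s0 t ∈ F D n (π s0) P := by
  have h := (Φ.main hs (P + 1) hc (hd.hasFDerivAt.restrictScalars ℝ) t).1 P rfl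
  exact h

end strong

section frames

variable {D : Fix L W} {n : ℕ} {π : E → ℕ → L →L[ℂ] L} {U : Set E}
variable [CompleteSpace L] [FiniteDimensional ℂ W]

/-- **Holomorphy of the Hodge filtration**: local holomorphic frames of `F^P`. -/
theorem Family.frames (Φ : Family D n π U) {s0 : E} (hs : s0 ∈ U) (P : ℕ) :
    ∃ (V : Set E) (f : Fin (Module.finrank ℂ (F D n (π s0) P)) → E → W),
      IsOpen V ∧ s0 ∈ V ∧ V ⊆ U ∧ (∀ i, DifferentiableOn ℂ (f i) V) ∧
      ∀ s ∈ V, LinearIndependent ℂ (fun i => f i s) ∧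
        Submodule.span ℂ (Set.range fun i => f i s) = F D n (π s) P := by
  classical
  set Q0 := Q D n (π s0) P with hQ0
  let Qs : E → W →L[ℂ] W := fun s => Q D n (π s) P
  let M : E → W →L[ℂ] W := fun s => Q0 * (Qs s * Q0) + (1 - Q0)
  obtain ⟨κ, hT⟩ := Φ.types s0 hs
  have T0 := hT.self_of_nhds
  have hQ0idem : ∀ w, Q0 (Q0 w) = Q0 w := T0.Q_idem P
  have hQd : ∀ s ∈ U, DifferentiableAt ℝ Qs s := fun s hsU => Φ.diff_Q hsU P
  have hMd : ∀ s ∈ U, DifferentiableAt ℝ M s := by
    intro s hsU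
    have h1 : DifferentiableAt ℝ (fun s => Qs s * Q0) s := (hQd s hsU).mul_const Q0
    exact (h1.const_mul Q0).add_const _
  have hM0 : M s0 = 1 := by
    have h1 : Q0 * Q0 = Q0 := ContinuousLinearMap.ext hQ0idem
    show Q0 * (Q0 * Q0) + (1 - Q0) = 1
    rw [h1, h1]
    abel
  have hunit : ∀ᶠ s in 𝓝 s0, IsUnit (M s) := by
    have h1 : ContinuousAt M s0 := (hMd s0 hs).continuousAt
    have h2 : {x : W →L[ℂ] W | IsUnit x} ∈ 𝓝 (M s0) := by
      rw [hM0]
      exact Units.isOpen.mem_nhds isUnit_one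
    exact h1 h2
  have hclose : ∀ᶠ s in 𝓝 s0, ‖Qs s - Q0‖ < 1 / 2 := by
    have h1 : ContinuousAt (fun s => ‖Qs s - Q0‖) s0 :=
      ((hQd s0 hs).continuousAt.sub continuousAt_const).norm
    have h2 : ‖Qs s0 - Q0‖ < 1 / 2 := by
      show ‖Q0 - Q0‖ < 1 / 2
      rw [sub_self, norm_zero]
      norm_num
    exact h1 (Iio_mem_nhds h2)
  obtain ⟨V, hVsub, hVo, hsV⟩ := eventually_nhds_iff.mp
    ((Φ.isOpen.eventually_mem hs).and (hunit.and (hclose.and hT.eventually_nhds)))
  let b := Module.finBasis ℂ (F D n (π s0) P)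
  have hb0 : ∀ i, Q0 (b i : W) = b i := fun i => (T0.mem_F_iff_Q).mp (b i).2
  -- computations with `M`
  have hMapp : ∀ s x, M s x = Q0 (Qs s (Q0 x)) + (x - Q0 x) := fun s x => rfl
  have hinv : ∀ s ∈ V, ∀ y, M s (Ring.inverse (M s) y) = y := by
    intro s hsV y
    have := Ring.mul_inverse_cancel _ (hVsub s hsV).2.1
    exact congrArg (fun T : W →L[ℂ] W => T y) this
  have hinv0 : ∀ s ∈ V, ∀ y, Q0 y = y → Q0 (Ring.inverse (M s) y) = Ring.inverse (M s) y := by
    intro s hsV y hy
    set x := Ring.inverse (M s) y with hx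
    have h1 : M s x = y := hinv s hsV y
    rw [hMapp] at h1
    have h2 := congrArg Q0 h1
    rw [map_add, map_sub, hQ0idem, hQ0idem, sub_self, add_zero, hy] at h2
    rw [h2] at h1
    have h3 : x - Q0 x = 0 := by
      have := congrArg (fun z => z - y) h1
      simpa using this
    exact (sub_eq_zero.mp h3).symm
  have hQ0inj : ∀ s ∈ V, ∀ w, w ∈ F D n (π s) P → Q0 w = 0 → w = 0 := by
    intro s hsV w hw h0
    have Ts := (hVsub s hsV).2.2.2.self_of_nhds
    have hlt := (hVsub s hsV).2.2.1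
    have h1 : Qs s w = w := (Ts.mem_F_iff_Q).mp hw
    have h2 : (Qs s - Q0) w = w := by rw [sub_apply, h1, h0, sub_zero]
    have h3 := (Qs s - Q0).le_opNorm w
    rw [h2] at h3
    have h4 : ‖w‖ ≤ 0 := by
      have h5 : ‖Qs s - Q0‖ * ‖w‖ ≤ 1 / 2 * ‖w‖ :=
        mul_le_mul_of_nonneg_right hlt.le (norm_nonneg _)
      linarith
    exact norm_le_zero_iff.mp h4
  let f : Fin (Module.finrank ℂ (F D n (π s0) P)) → E → W :=
    fun i s => Qs s (Ring.inverse (M s) (b i))
  have hQf : ∀ s ∈ V, ∀ i, Q0 (f i s) = b i := by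
    intro s hsV i
    have h1 := hinv0 s hsV _ (hb0 i)
    have h2 := hinv s hsV (b i)
    rw [hMapp, h1, sub_self, add_zero] at h2
    exact h2
  have hfmem : ∀ s ∈ V, ∀ i, f i s ∈ F D n (π s) P := by
    intro s hsV i
    have Ts := (hVsub s hsV).2.2.2.self_of_nhds
    exact Ts.Q_mem P _
  refine ⟨V, f, hVo, hsV, fun s hs => (hVsub s hs).1, ?_, ?_⟩
  · intro i s hsV'
    refine DifferentiableAt.differentiableWithinAt ?_
    have hsU := (hVsub s hsV').1
    have hMs := (hVsub s hsV').2.1
    have h1 : DifferentiableAt ℝ (fun s => Ring.inverse (M s)) s := by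
      obtain ⟨x, hx⟩ := hMs
      have h2 : DifferentiableAt ℝ (Ring.inverse : (W →L[ℂ] W) → _) (M s) := by
        rw [← hx]
        exact differentiableAt_inverse (𝕜 := ℝ) x.isUnit
      exact h2.comp s (hMd s hsU)
    have h2 : DifferentiableAt ℝ (fun s => Ring.inverse (M s) (b i : W)) s := by
      have h3 : DifferentiableAt ℝ (fun T : W →L[ℂ] W => T (b i : W)) (Ring.inverse (M s)) :=
        ((ContinuousLinearMap.apply ℂ W (b i : W)).restrictScalars ℝ).differentiableAt
      exact h3.comp s h1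
    have h3 := (Φ.sdiff_Q hsU P).hasFDerivAt_apply h2.hasFDerivAt
    have h4 : DifferentiableAt ℝ (f i) s := h3.differentiableAt
    set f' := fderiv ℝ (f i) s with hf'
    have h5 : HasFDerivAt (f i) f' s := h4.hasFDerivAt
    have h6 : ∀ᶠ s' in 𝓝 s, f i s' ∈ F D n (π s') P := by
      filter_upwards [hVo.mem_nhds hsV'] with s' hs'
      exact hfmem s' hs' i
    have h7 : ∀ t, Q0 (f' t) = 0 := by
      intro t
      have h8 : HasFDerivAt (fun s => Q0 (f i s)) ((Q0.restrictScalars ℝ).comp f') s :=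
        (Q0.restrictScalars ℝ).hasFDerivAt.comp s h5
      have h9 : (fun s => Q0 (f i s)) =ᶠ[𝓝 s] fun _ => (b i : W) := by
        filter_upwards [hVo.mem_nhds hsV'] with s' hs'
        exact hQf s' hs' i
      have h10 := (h8.congr_of_eventuallyEq h9.symm).unique (hasFDerivAt_const (b i : W) s)
      exact congrArg (fun T : E →L[ℝ] W => T t) h10
    have h8 : ∀ t, f' (Complex.I • t) = Complex.I • f' t := by
      intro t
      have h9 := (Φ.main hsU P h6 h5 t).2
      refine sub_eq_zero.mp (hQ0inj s hsV' _ h9 ?_)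
      rw [map_sub, Q0.map_smul Complex.I (f' t), h7, h7, smul_zero, sub_zero]
    let fC : E →L[ℂ] W :=
      { toFun := f'
        map_add' := f'.map_add
        map_smul' := by
          intro a x
          have h9 : a • x = a.re • x + a.im • (Complex.I • x) := by
            conv_lhs => rw [← Complex.re_add_im a]
            rw [add_smul, mul_smul]
            rfl
          have h10 : a • f' x = a.re • f' x + a.im • (Complex.I • f' x) := by
            conv_lhs => rw [← Complex.re_add_im a]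
            rw [add_smul, mul_smul]
            rfl
          rw [h9, map_add, map_smul, map_smul, h8]
          exact h10.symm
        cont := f'.cont }
    have h11 : fC.restrictScalars ℝ = f' := rfl
    exact (hasFDerivAt_of_restrictScalars ℝ h5 h11).differentiableAt
  · intro s hsV'
    have Ts := (hVsub s hsV').2.2.2.self_of_nhds
    have hli : LinearIndependent ℂ (fun i => f i s) := by
      refine LinearIndependent.of_comp Q0.toLinearMap ?_
      have h1 : (Q0.toLinearMap ∘ fun i => f i s) = fun i => (b i : W) := by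
        funext i
        exact hQf s hsV' i
      rw [h1]
      exact b.linearIndependent.map' (F D n (π s0) P).subtype (Submodule.ker_subtype _)
    refine ⟨hli, ?_⟩
    refine Submodule.eq_of_le_of_finrank_le ?_ ?_
    · rw [Submodule.span_le]
      rintro _ ⟨i, rfl⟩
      exact hfmem s hsV' i
    · rw [finrank_span_eq_card hli, Fintype.card_fin]
      let g : F D n (π s) P →ₗ[ℂ] F D n (π s0) P :=
        (Q0.toLinearMap.comp (F D n (π s) P).subtype).codRestrict _ fun x => T0.Q_mem P _
      have hg : Function.Injective g := by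
        rw [injective_iff_map_eq_zero]
        intro x hx
        have h1 : Q0 (x : W) = 0 := congrArg Subtype.val hx
        exact Subtype.ext (hQ0inj s hsV' _ x.2 h1)
      exact LinearMap.finrank_le_finrank_of_injective hg

end frames

end Crest.Agent.R276.HsC_817
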