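import Crest.Agent.R276.IpcG2_975

/-!
# R276, IPC fixed-s assembly (helper975), part 3 = (K1),(K2): the L² space of a metric flat bundle

`MB V X`: flat bundle on the open set `X ⊆ ℂ` with a smooth positive Hermitian metric `G`.
`M.H0` = smooth compactly supported sections with `⟪φ, ψ⟫ = ∫ G(φ, ψ)`, `M.L2` its completion (a
complex Hilbert space).  `M.opL A` = extension to `M.L2` of a smooth bounded field of operators
(`0` if `A` is not smooth or not bounded).
-/

set_option autoImplicit false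

open Set Filter Topology MeasureTheory UniformSpace
open scoped ContDiff ComplexConjugate

namespace Crest.Agent.R276.IpcG1_975

open VCalc_442 IpcGr_975

/-- flat bundle with a smooth Hermitian metric -/
structure MB (V : Type*) [NormedAddCommGroup V] [NormedSpace ℂ V] (X : Set ℂ) extends FB V X where
  /-- the metric, antilinear in the first variable -/
  G : ℂ → (V →L⋆[ℂ] V →L[ℂ] ℂ)
  herm : ∀ z ∈ X, ∀ u v, (starRingEnd ℂ) (G z u v) = G z v u
  smG : ∀ φ ψ, toFB.Sm φ → toFB.Sm ψ → ∀ z ∈ X, ContDiffAt ℝ ∞ (fun y => G y (φ y) (ψ y)) z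
  bd : ∀ z ∈ X, ∃ C : ℝ, 0 < C ∧ ∀ᶠ y in 𝓝 z, ∀ u,
    ‖P z y u‖ ^ 2 ≤ C * (G y u u).re ∧ (G y u u).re ≤ C * ‖P z y u‖ ^ 2

namespace MB

variable {V : Type*} [NormedAddCommGroup V] [NormedSpace ℂ V] {X : Set ℂ} (M : MB V X)

theorem G_im {z : ℂ} (hz : z ∈ X) (u : V) : (M.G z u u).im = 0 := by
  have := M.herm z hz u u
  exact Complex.conj_eq_iff_im.1 this

theorem G_nonneg {z : ℂ} (hz : z ∈ X) (u : V) : 0 ≤ (M.G z u u).re := by
  obtain ⟨C, hC, h⟩ := M.bd z hz
  have h1 := (h.self_of_nhds u).1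
  by_contra hcon
  push Not at hcon
  nlinarith [sq_nonneg ‖M.P z z u‖]

theorem cs {φ ψ : ℂ → V} (hφ : φ ∈ M.A0) (hψ : ψ ∈ M.A0) :
    CS X (fun x => M.G x (φ x) (ψ x)) := by
  refine ⟨M.smG φ ψ hφ.1 hψ.1, ?_⟩
  obtain ⟨K, hK, hKc, h0⟩ := hφ.2
  exact ⟨K, hK, hKc, fun x hx => by simp [h0 x hx]⟩

/-- smooth against compactly supported -/
theorem cs_left {φ ψ : ℂ → V} (hφ : φ ∈ M.A0) (hψ : M.Sm ψ) :
    CS X (fun x => M.G x (φ x) (ψ x)) := by
  refine ⟨M.smG φ ψ hφ.1 hψ, ?_⟩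
  obtain ⟨K, hK, hKc, h0⟩ := hφ.2
  exact ⟨K, hK, hKc, fun x hx => by simp [h0 x hx]⟩

/-- the pre-Hilbert space of smooth compactly supported sections -/
def H0 (M : MB V X) : Type _ := M.A0

noncomputable instance : AddCommGroup M.H0 := inferInstanceAs (AddCommGroup M.A0)
noncomputable instance : Module ℂ M.H0 := inferInstanceAs (Module ℂ M.A0)

/-- the section -/
def H0.f {M : MB V X} (φ : M.H0) : ℂ → V := (show M.A0 from φ).1

theorem H0.mem {M : MB V X} (φ : M.H0) : φ.f ∈ M.A0 := (show M.A0 from φ).2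

/-- constructor -/
def s0 (φ : ℂ → V) (h : φ ∈ M.A0) : M.H0 := (⟨φ, h⟩ : M.A0)

@[simp] theorem s0_f (φ : ℂ → V) (h : φ ∈ M.A0) : (M.s0 φ h).f = φ := rfl

@[simp] theorem f_s0 (φ : M.H0) : M.s0 φ.f φ.mem = φ := rfl

variable {M} in
theorem H0.ext {φ ψ : M.H0} (h : φ.f = ψ.f) : φ = ψ := Subtype.ext h

@[simp] theorem add_f (φ ψ : M.H0) : (φ + ψ).f = fun z => φ.f z + ψ.f z := rfl
@[simp] theorem sub_f (φ ψ : M.H0) : (φ - ψ).f = fun z => φ.f z - ψ.f z := rfl
@[simp] theorem neg_f (φ : M.H0) : (-φ).f = fun z => - φ.f z := rfl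
@[simp] theorem smul_f (c : ℂ) (φ : M.H0) : (c • φ).f = fun z => c • φ.f z := rfl
@[simp] theorem zero_f : (0 : M.H0).f = fun _ => 0 := rfl

/-- pre-inner product structure -/
noncomputable def core (M : MB V X) : PreInnerProductSpace.Core ℂ M.H0 where
  inner φ ψ := ∫ x, M.G x (φ.f x) (ψ.f x)
  conj_inner_symm φ ψ := by
    rw [← integral_conj]
    refine integral_congr_ae (Eventually.of_forall fun x => ?_)
    by_cases hx : x ∈ X
    · exact M.herm x hx _ _
    · obtain ⟨K, hK, -, h0⟩ := φ.mem.2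
      have : φ.f x = 0 := h0 x (fun h => hx (hK h))
      simp [this]
  re_inner_nonneg φ := by
    have h1 : Integrable (fun x => M.G x (φ.f x) (φ.f x)) := (M.cs φ.mem φ.mem).integrable
    show 0 ≤ (∫ x, M.G x (φ.f x) (φ.f x)).re
    have h2 : (∫ x, M.G x (φ.f x) (φ.f x)).re = ∫ x, (M.G x (φ.f x) (φ.f x)).re :=
      (integral_re h1).symm
    rw [h2]
    refine integral_nonneg fun x => ?_
    by_cases hx : x ∈ X
    · exact M.G_nonneg hx _
    · obtain ⟨K, hK, -, h0⟩ := φ.mem.2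
      have : φ.f x = 0 := h0 x (fun h => hx (hK h))
      simp [this]
  add_left φ ψ χ := by
    rw [← integral_add (M.cs φ.mem χ.mem).integrable (M.cs ψ.mem χ.mem).integrable]
    refine integral_congr_ae (Eventually.of_forall fun x => ?_)
    simp
  smul_left φ ψ r := by
    rw [← integral_const_mul]
    refine integral_congr_ae (Eventually.of_forall fun x => ?_)
    simp

noncomputable instance : SeminormedAddCommGroup M.H0 :=
  @InnerProductSpace.Core.toSeminormedAddCommGroup ℂ M.H0 _ _ _ M.core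

noncomputable instance : InnerProductSpace ℂ M.H0 := InnerProductSpace.ofCore M.core

theorem inner_H0 (φ ψ : M.H0) : inner ℂ φ ψ = ∫ x, M.G x (φ.f x) (ψ.f x) := rfl

/-- the Hilbert space of square integrable sections -/
abbrev L2 (M : MB V X) : Type _ := Completion M.H0

/-- bounded field of operators -/
def Bd (A : ℂ → (V →L[ℂ] V)) (C : ℝ) : Prop :=
  0 ≤ C ∧ ∀ x ∈ X, ∀ u, (M.G x (A x u) (A x u)).re ≤ C ^ 2 * (M.G x u u).re

theorem norm_sq_H0 (φ : M.H0) : ‖φ‖ ^ 2 = ∫ x, (M.G x (φ.f x) (φ.f x)).re := by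
  have h1 : Integrable (fun x => M.G x (φ.f x) (φ.f x)) := (M.cs φ.mem φ.mem).integrable
  have h2 : ‖φ‖ ^ 2 = (inner ℂ φ φ).re := norm_sq_eq_re_inner (𝕜 := ℂ) φ
  rw [h2, inner_H0]
  exact (integral_re h1).symm

theorem norm_s0_le {φ : M.H0} {A : ℂ → (V →L[ℂ] V)} {C : ℝ} (hA : M.SmO A) (hC : M.Bd A C) :
    ‖M.s0 (fun z => A z (φ.f z)) (FB.app_mem_A0 hA φ.mem)‖ ≤ C * ‖φ‖ := by
  rw [← abs_of_nonneg (norm_nonneg (M.s0 _ _)), ← abs_of_nonneg (mul_nonneg hC.1 (norm_nonneg φ)),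
    ← sq_le_sq, mul_pow, norm_sq_H0, norm_sq_H0, ← integral_const_mul]
  have i1 : Integrable (fun x => (M.G x (φ.f x) (φ.f x)).re) :=
    (M.cs φ.mem φ.mem).integrable.re
  have i2 := (M.cs (FB.app_mem_A0 hA φ.mem) (FB.app_mem_A0 hA φ.mem)).integrable.re
  refine integral_mono i2 (i1.const_mul _) fun x => ?_
  by_cases hx : x ∈ X
  · exact hC.2 x hx (φ.f x)
  · obtain ⟨K, hK, -, h0⟩ := φ.mem.2
    have : φ.f x = 0 := h0 x (fun h => hx (hK h))
    simp [this]

/-- a smooth bounded field of operators on `H0` -/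
noncomputable def op0 {A : ℂ → (V →L[ℂ] V)} (hA : M.SmO A) (C : ℝ) (hC : M.Bd A C) :
    M.H0 →L[ℂ] M.H0 :=
  LinearMap.mkContinuous
    { toFun := fun φ => M.s0 (fun z => A z (φ.f z)) (FB.app_mem_A0 hA φ.mem)
      map_add' := fun φ ψ => H0.ext (by funext z; simp)
      map_smul' := fun c φ => H0.ext (by funext z; simp) } C
    (fun φ => M.norm_s0_le hA hC)

open Classical in
/-- the operator on `L2` defined by a field of operators -/
noncomputable def opL (A : ℂ → (V →L[ℂ] V)) : M.L2 →L[ℂ] M.L2 :=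
  if h : M.SmO A ∧ ∃ C, M.Bd A C then (M.op0 h.1 h.2.choose h.2.choose_spec).completion else 0

/-- smooth bounded field of operators -/
def Ok (A : ℂ → (V →L[ℂ] V)) : Prop := M.SmO A ∧ ∃ C, M.Bd A C

theorem op_coe {A : ℂ → (V →L[ℂ] V)} (h : M.Ok A) (φ : M.H0) :
    M.opL A (φ : M.L2) = (M.s0 (fun z => A z (φ.f z)) (FB.app_mem_A0 h.1 φ.mem) : M.H0) := by
  unfold opL
  have h' : M.SmO A ∧ ∃ C, M.Bd A C := h
  rw [dif_pos h', ContinuousLinearMap.completion_apply_coe]
  rfl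

/-- two continuous maps on `L2` which agree on `H0` are equal -/
theorem dense_ext {Z : Type*} [TopologicalSpace Z] [T2Space Z] {f g : M.L2 → Z}
    (hf : Continuous f) (hg : Continuous g) (h : ∀ φ : M.H0, f φ = g φ) (u : M.L2) : f u = g u :=
  Completion.induction_on u (isClosed_eq hf hg) h

theorem norm_op_le {A : ℂ → (V →L[ℂ] V)} (hA : M.SmO A) {C : ℝ} (hC : M.Bd A C) (u : M.L2) :
    ‖M.opL A u‖ ≤ C * ‖u‖ := by
  refine Completion.induction_on u (isClosed_le (by fun_prop) (by fun_prop)) fun φ => ?_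
  rw [M.op_coe ⟨hA, C, hC⟩, Completion.norm_coe, Completion.norm_coe]
  exact M.norm_s0_le hA hC

theorem op_adj {A B : ℂ → (V →L[ℂ] V)} (hA : M.Ok A) (hB : M.Ok B)
    (h : ∀ x ∈ X, ∀ u v, M.G x (A x u) v = M.G x u (B x v)) (u v : M.L2) :
    inner ℂ (M.opL A u) v = inner ℂ u (M.opL B v) := by
  refine Completion.induction_on₂ u v (isClosed_eq (by fun_prop) (by fun_prop)) fun φ ψ => ?_
  rw [M.op_coe hA, M.op_coe hB, Completion.inner_coe, Completion.inner_coe, inner_H0, inner_H0]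
  refine integral_congr_ae (Eventually.of_forall fun x => ?_)
  by_cases hx : x ∈ X
  · exact h x hx _ _
  · obtain ⟨K, hK, -, h0⟩ := φ.mem.2
    have : φ.f x = 0 := h0 x (fun h => hx (hK h))
    simp [this]

/-- equality of `⟪A u, B v⟫` and `⟪A' u, B' v⟫` from the pointwise identity -/
theorem op_inner_eq {A B A' B' : ℂ → (V →L[ℂ] V)} (hA : M.Ok A) (hB : M.Ok B) (hA' : M.Ok A')
    (hB' : M.Ok B') (h : ∀ x ∈ X, ∀ u v, M.G x (A x u) (B x v) = M.G x (A' x u) (B' x v))
    (u v : M.L2) : inner ℂ (M.opL A u) (M.opL B v) = inner ℂ (M.opL A' u) (M.opL B' v) := by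
  refine Completion.induction_on₂ u v (isClosed_eq (by fun_prop) (by fun_prop)) fun φ ψ => ?_
  rw [M.op_coe hA, M.op_coe hB, M.op_coe hA', M.op_coe hB', Completion.inner_coe,
    Completion.inner_coe, inner_H0, inner_H0]
  refine integral_congr_ae (Eventually.of_forall fun x => ?_)
  by_cases hx : x ∈ X
  · exact h x hx _ _
  · obtain ⟨K, hK, -, h0⟩ := φ.mem.2
    have : φ.f x = 0 := h0 x (fun h => hx (hK h))
    simp [this]

theorem op_congr {A B : ℂ → (V →L[ℂ] V)} (hA : M.Ok A) (hB : M.Ok B)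
    (h : ∀ x ∈ X, A x = B x) : M.opL A = M.opL B := by
  ext u
  refine M.dense_ext (M.opL A).continuous (M.opL B).continuous (fun φ => ?_) u
  rw [M.op_coe hA, M.op_coe hB]
  congr 1
  refine H0.ext ?_
  funext x
  simp only [s0_f]
  by_cases hx : x ∈ X
  · rw [h x hx]
  · obtain ⟨K, hK, -, h0⟩ := φ.mem.2
    have : φ.f x = 0 := h0 x (fun h => hx (hK h))
    simp [this]

/-- product of operator fields -/
theorem op_mul {A B : ℂ → (V →L[ℂ] V)} (hA : M.Ok A) (hB : M.Ok B)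
    (hAB : M.Ok (fun x => A x * B x)) (u : M.L2) :
    M.opL A (M.opL B u) = M.opL (fun x => A x * B x) u := by
  refine M.dense_ext (f := fun u => M.opL A (M.opL B u)) (g := fun u => M.opL _ u)
    ((M.opL A).continuous.comp (M.opL B).continuous) (M.opL _).continuous (fun φ => ?_) u
  rw [M.op_coe hB, M.op_coe hA, M.op_coe hAB]
  rfl

theorem op_add {A B : ℂ → (V →L[ℂ] V)} (hA : M.Ok A) (hB : M.Ok B)
    (hAB : M.Ok (fun x => A x + B x)) (u : M.L2) :
    M.opL (fun x => A x + B x) u = M.opL A u + M.opL B u := by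
  refine M.dense_ext (f := fun u => M.opL _ u) (g := fun u => M.opL A u + M.opL B u)
    (M.opL _).continuous ((M.opL A).continuous.add (M.opL B).continuous) (fun φ => ?_) u
  rw [M.op_coe hB, M.op_coe hA, M.op_coe hAB, ← Completion.coe_add]
  rfl

theorem op_smul {A : ℂ → (V →L[ℂ] V)} (hA : M.Ok A) (c : ℂ)
    (hcA : M.Ok (fun x => c • A x)) (u : M.L2) :
    M.opL (fun x => c • A x) u = c • M.opL A u := by
  refine M.dense_ext (f := fun u => M.opL _ u) (g := fun u => c • M.opL A u)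
    (M.opL _).continuous ((M.opL A).continuous.const_smul c) (fun φ => ?_) u
  rw [M.op_coe hA, M.op_coe hcA, ← Completion.coe_smul]
  rfl

end MB

end Crest.Agent.R276.IpcG1_975
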