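import Mathlib
import Crest.Agent.R276.IpcL2_975
import Crest.Agent.R276.HsC_817

/-!
# R276 / IPC K4, the L² half: families of operator fields in the completion model of `IpcL2_975`

`DFam M T z0` : the fields `T z` are smooth, uniformly Lipschitz in `z` at `z0` in the metric of `M`, and
pointwise differentiable in `z` at `z0`.  Then `z ↦ M.opL (T z) u` is differentiable for every
`u : M.L2`, with derivative `t ↦ M.opL (x ↦ ∂_t T x) u`.

`PtFam M n p b U` : pointwise data of a family of type decompositions; output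
`PtFam.family : Family D n (fun z P => M.opL (p z P)) U` (structure of `HsC_817`).
-/

set_option autoImplicit false
set_option linter.unusedSectionVars false

open Set Filter Topology MeasureTheory UniformSpace
open scoped ContDiff ComplexConjugate

namespace Crest.Agent.R276.K4_817

open Crest.Agent.R276.IpcG1_975 Crest.Agent.R276.HsA_817 Crest.Agent.R276.HsB_817
  Crest.Agent.R276.HsC_817

variable {V : Type*} [NormedAddCommGroup V] [NormedSpace ℂ V] {X : Set ℂ} {M : MB V X}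
variable {E : Type*} [NormedAddCommGroup E] [NormedSpace ℂ E] [FiniteDimensional ℂ E]

/-- `|u|²` in the fibre at `x` -/
noncomputable def gn (M : MB V X) (x : ℂ) (u : V) : ℝ := (M.G x u u).re

lemma gn_nonneg {x : ℂ} (hx : x ∈ X) (u : V) : 0 ≤ gn M x u := M.G_nonneg hx u

lemma gn_smul (x : ℂ) (c : ℂ) (u : V) : gn M x (c • u) = ‖c‖ ^ 2 * gn M x u := by
  unfold gn
  have h1 : M.G x (c • u) (c • u) = ((‖c‖ ^ 2 : ℝ) : ℂ) * M.G x u u := by
    rw [(M.G x (c • u)).map_smul, ContinuousLinearMap.map_smulₛₗ, smul_apply, smul_eq_mul,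
      smul_eq_mul, ← mul_assoc, mul_comm c, Complex.conj_mul', ← Complex.ofReal_pow]
  rw [h1, Complex.re_ofReal_mul]

lemma gn_zero (x : ℂ) : gn M x 0 = 0 := by
  unfold gn
  simp

/-- parallelogram law -/
lemma gn_add_sub (x : ℂ) (u v : V) :
    gn M x (u + v) + gn M x (u - v) = 2 * gn M x u + 2 * gn M x v := by
  unfold gn
  simp only [map_add, map_sub, add_apply, sub_apply, Complex.add_re, Complex.sub_re]
  ring

lemma gn_add_le {x : ℂ} (hx : x ∈ X) (u v : V) : gn M x (u + v) ≤ 2 * gn M x u + 2 * gn M x v := by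
  have h1 := gn_add_sub (M := M) x u v
  have h2 := gn_nonneg (M := M) hx (u - v)
  linarith

lemma gn_sub_le {x : ℂ} (hx : x ∈ X) (u v : V) : gn M x (u - v) ≤ 2 * gn M x u + 2 * gn M x v := by
  have h1 := gn_add_sub (M := M) x u v
  have h2 := gn_nonneg (M := M) hx (u + v)
  linarith

lemma gn_le (x : ℂ) (u : V) : gn M x u ≤ ‖M.G x‖ * ‖u‖ ^ 2 := by
  unfold gn
  have h1 : (M.G x u u).re ≤ ‖M.G x u u‖ := Complex.re_le_norm _
  have h2 : ‖M.G x u u‖ ≤ ‖M.G x u‖ * ‖u‖ := (M.G x u).le_opNorm u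
  have h3 : ‖M.G x u‖ ≤ ‖M.G x‖ * ‖u‖ := (M.G x).le_opNorm u
  calc (M.G x u u).re ≤ ‖M.G x u‖ * ‖u‖ := h1.trans h2
    _ ≤ (‖M.G x‖ * ‖u‖) * ‖u‖ := mul_le_mul_of_nonneg_right h3 (norm_nonneg _)
    _ = ‖M.G x‖ * ‖u‖ ^ 2 := by ring

lemma gn_continuous (x : ℂ) : Continuous (gn M x) := by
  unfold gn
  have h1 : Continuous fun u => M.G x u u := by fun_prop
  exact Complex.continuous_re.comp h1

lemma bd_iff {A : ℂ → (V →L[ℂ] V)} {C : ℝ} :
    M.Bd A C ↔ 0 ≤ C ∧ ∀ x ∈ X, ∀ u, gn M x (A x u) ≤ C ^ 2 * gn M x u := Iff.rfl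

lemma bd_mono {A : ℂ → (V →L[ℂ] V)} {C C' : ℝ} (h : M.Bd A C) (hC : C ≤ C') : M.Bd A C' := by
  refine ⟨h.1.trans hC, fun x hx u => (h.2 x hx u).trans ?_⟩
  exact mul_le_mul_of_nonneg_right (pow_le_pow_left₀ h.1 hC 2) (M.G_nonneg hx u)

lemma bd_sub {A B : ℂ → (V →L[ℂ] V)} {C C' : ℝ} (h : M.Bd A C) (h' : M.Bd B C') :
    M.Bd (fun x => A x - B x) (2 * (C + C')) := by
  refine ⟨by linarith [h.1, h'.1], fun x hx u => ?_⟩
  have h1 := gn_sub_le (M := M) hx (A x u) (B x u)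
  have h2 := (bd_iff.mp h).2 x hx u
  have h3 := (bd_iff.mp h').2 x hx u
  have h4 := gn_nonneg (M := M) hx u
  show gn M x (A x u - B x u) ≤ _
  have h5 : (2 * (C + C')) ^ 2 * gn M x u =
      2 * (C ^ 2 * gn M x u) + 2 * (C' ^ 2 * gn M x u) +
        (2 * C ^ 2 + 2 * C' ^ 2 + 8 * (C * C')) * gn M x u := by ring
  show _ ≤ (2 * (C + C')) ^ 2 * gn M x u
  rw [h5]
  have h6 : 0 ≤ (2 * C ^ 2 + 2 * C' ^ 2 + 8 * (C * C')) * gn M x u := by
    have := mul_nonneg h.1 h'.1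
    positivity
  linarith

lemma bd_add {A B : ℂ → (V →L[ℂ] V)} {C C' : ℝ} (h : M.Bd A C) (h' : M.Bd B C') :
    M.Bd (fun x => A x + B x) (2 * (C + C')) := by
  refine ⟨by linarith [h.1, h'.1], fun x hx u => ?_⟩
  have h1 := gn_add_le (M := M) hx (A x u) (B x u)
  have h2 := (bd_iff.mp h).2 x hx u
  have h3 := (bd_iff.mp h').2 x hx u
  have h4 := gn_nonneg (M := M) hx u
  show gn M x (A x u + B x u) ≤ _
  have h5 : (2 * (C + C')) ^ 2 * gn M x u =
      2 * (C ^ 2 * gn M x u) + 2 * (C' ^ 2 * gn M x u) +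
        (2 * C ^ 2 + 2 * C' ^ 2 + 8 * (C * C')) * gn M x u := by ring
  show _ ≤ (2 * (C + C')) ^ 2 * gn M x u
  rw [h5]
  have h6 : 0 ≤ (2 * C ^ 2 + 2 * C' ^ 2 + 8 * (C * C')) * gn M x u := by
    have := mul_nonneg h.1 h'.1
    positivity
  linarith

lemma bd_mul {A B : ℂ → (V →L[ℂ] V)} {C C' : ℝ} (h : M.Bd A C) (h' : M.Bd B C') :
    M.Bd (fun x => A x * B x) (C * C') := by
  refine ⟨mul_nonneg h.1 h'.1, fun x hx u => ?_⟩
  have h1 := (bd_iff.mp h).2 x hx (B x u)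
  have h2 := (bd_iff.mp h').2 x hx u
  show gn M x (A x (B x u)) ≤ (C * C') ^ 2 * gn M x u
  have h3 := mul_le_mul_of_nonneg_left h2 (sq_nonneg C)
  calc gn M x (A x (B x u)) ≤ C ^ 2 * gn M x (B x u) := h1
    _ ≤ C ^ 2 * (C' ^ 2 * gn M x u) := h3
    _ = (C * C') ^ 2 * gn M x u := by ring

lemma bd_smul {A : ℂ → (V →L[ℂ] V)} {C : ℝ} (h : M.Bd A C) (c : ℂ) :
    M.Bd (fun x => c • A x) (‖c‖ * C) := by
  refine ⟨mul_nonneg (norm_nonneg _) h.1, fun x hx u => ?_⟩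
  have h1 := (bd_iff.mp h).2 x hx u
  show gn M x (c • A x u) ≤ (‖c‖ * C) ^ 2 * gn M x u
  rw [gn_smul, mul_pow, mul_assoc]
  exact mul_le_mul_of_nonneg_left h1 (sq_nonneg _)

/-! smooth fields -/

lemma trO_add' (z : ℂ) (A B : ℂ → (V →L[ℂ] V)) :
    M.trO z (fun x => A x + B x) = fun y => M.trO z A y + M.trO z B y := by
  funext y
  unfold FB.trO
  rw [mul_add, add_mul]

lemma trO_sub' (z : ℂ) (A B : ℂ → (V →L[ℂ] V)) :
    M.trO z (fun x => A x - B x) = fun y => M.trO z A y - M.trO z B y := by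
  funext y
  unfold FB.trO
  rw [mul_sub, sub_mul]

lemma SmO_add {A B : ℂ → (V →L[ℂ] V)} (hA : M.SmO A) (hB : M.SmO B) :
    M.SmO (fun x => A x + B x) := by
  intro z hz
  rw [trO_add']
  exact (hA z hz).add (hB z hz)

lemma SmO_sub {A B : ℂ → (V →L[ℂ] V)} (hA : M.SmO A) (hB : M.SmO B) :
    M.SmO (fun x => A x - B x) := by
  intro z hz
  rw [trO_sub']
  exact (hA z hz).sub (hB z hz)

lemma SmO_smul {A : ℂ → (V →L[ℂ] V)} (hA : M.SmO A) (c : ℂ) : M.SmO (fun x => c • A x) := by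
  intro z hz
  have : M.trO z (fun x => c • A x) = fun y => c • M.trO z A y := by
    funext y
    unfold FB.trO
    rw [mul_smul_comm, smul_mul_assoc]
  rw [this]
  exact (hA z hz).const_smul c

lemma SmO_mul {A B : ℂ → (V →L[ℂ] V)} (hA : M.SmO A) (hB : M.SmO B) :
    M.SmO (fun x => A x * B x) := by
  intro z hz
  obtain ⟨U, hU⟩ := M.exists_nb hz
  have h1 : M.trO z (fun x => A x * B x) =ᶠ[𝓝 z] fun y => M.trO z A y * M.trO z B y := by
    filter_upwards [hU.op.mem_nhds hU.mem] with y hy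
    unfold FB.trO
    have h2 := hU.inv hy hU.mem
    calc M.P z y * (A y * B y) * M.P y z = M.P z y * A y * 1 * B y * M.P y z := by
          rw [mul_one]
          simp only [mul_assoc]
      _ = M.P z y * A y * (M.P y z * M.P z y) * B y * M.P y z := by rw [h2]
      _ = _ := by simp only [mul_assoc]
  exact ((hA z hz).mul (hB z hz)).congr_of_eventuallyEq h1

lemma SmO_zero : M.SmO (fun _ => (0 : V →L[ℂ] V)) := by
  intro z hz
  have : M.trO z (fun _ => (0 : V →L[ℂ] V)) = fun _ => 0 := by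
    funext y
    unfold FB.trO
    rw [mul_zero, zero_mul]
  rw [this]
  exact contDiffAt_const

lemma ok_add {A B : ℂ → (V →L[ℂ] V)} (hA : M.Ok A) (hB : M.Ok B) : M.Ok (fun x => A x + B x) := by
  obtain ⟨h1, C, h2⟩ := hA
  obtain ⟨h3, C', h4⟩ := hB
  exact ⟨SmO_add h1 h3, _, bd_add h2 h4⟩

lemma ok_sub {A B : ℂ → (V →L[ℂ] V)} (hA : M.Ok A) (hB : M.Ok B) : M.Ok (fun x => A x - B x) := by
  obtain ⟨h1, C, h2⟩ := hA
  obtain ⟨h3, C', h4⟩ := hB
  exact ⟨SmO_sub h1 h3, _, bd_sub h2 h4⟩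

lemma ok_mul {A B : ℂ → (V →L[ℂ] V)} (hA : M.Ok A) (hB : M.Ok B) : M.Ok (fun x => A x * B x) := by
  obtain ⟨h1, C, h2⟩ := hA
  obtain ⟨h3, C', h4⟩ := hB
  exact ⟨SmO_mul h1 h3, _, bd_mul h2 h4⟩

lemma ok_smul {A : ℂ → (V →L[ℂ] V)} (hA : M.Ok A) (c : ℂ) : M.Ok (fun x => c • A x) := by
  obtain ⟨h1, C, h2⟩ := hA
  exact ⟨SmO_smul h1 c, _, bd_smul h2 c⟩

lemma ok_zero : M.Ok (fun _ => (0 : V →L[ℂ] V)) := by
  refine ⟨SmO_zero, 0, le_rfl, fun x hx u => ?_⟩
  simp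

lemma ok_sum {ι : Type*} (s : Finset ι) {A : ι → ℂ → (V →L[ℂ] V)} (h : ∀ i ∈ s, M.Ok (A i)) :
    M.Ok (fun x => ∑ i ∈ s, A i x) := by
  classical
  induction s using Finset.induction_on with
  | empty => simpa using ok_zero (M := M)
  | insert a s ha ih =>
    simp only [Finset.sum_insert ha]
    exact ok_add (h a (Finset.mem_insert_self _ _))
      (ih fun i hi => h i (Finset.mem_insert_of_mem hi))

lemma op_sub {A B : ℂ → (V →L[ℂ] V)} (hA : M.Ok A) (hB : M.Ok B) (u : M.L2) :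
    M.opL (fun x => A x - B x) u = M.opL A u - M.opL B u := by
  have h1 := ok_sub hA hB
  have h2 := M.op_add h1 hB (ok_add h1 hB) u
  have h3 : M.opL (fun x => (A x - B x) + B x) = M.opL A :=
    M.op_congr (ok_add h1 hB) hA fun x _ => sub_add_cancel _ _
  rw [h3] at h2
  rw [h2, add_sub_cancel_right]

lemma op_zero (u : M.L2) : M.opL (fun _ => (0 : V →L[ℂ] V)) u = 0 := by
  have h1 := M.op_smul (ok_zero (M := M)) 0 (ok_smul ok_zero 0) u
  have h2 : M.opL (fun x => (0 : ℂ) • (0 : V →L[ℂ] V)) = M.opL (fun _ => (0 : V →L[ℂ] V)) :=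
    M.op_congr (ok_smul ok_zero 0) ok_zero fun x _ => smul_zero _
  rw [h2, zero_smul] at h1
  exact h1

lemma op_sum {ι : Type*} (s : Finset ι) {A : ι → ℂ → (V →L[ℂ] V)} (h : ∀ i ∈ s, M.Ok (A i))
    (u : M.L2) : M.opL (fun x => ∑ i ∈ s, A i x) u = ∑ i ∈ s, M.opL (A i) u := by
  classical
  induction s using Finset.induction_on with
  | empty => simpa using op_zero u
  | insert a s ha ih =>
    have h1 := h a (Finset.mem_insert_self _ _)
    have h2 := ok_sum s fun i hi => h i (Finset.mem_insert_of_mem hi)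
    simp only [Finset.sum_insert ha]
    rw [M.op_add h1 h2 (ok_add h1 h2), ih fun i hi => h i (Finset.mem_insert_of_mem hi)]

lemma op_mul' {A B : ℂ → (V →L[ℂ] V)} (hA : M.Ok A) (hB : M.Ok B) (u : M.L2) :
    M.opL A (M.opL B u) = M.opL (fun x => A x * B x) u := M.op_mul hA hB (ok_mul hA hB) u

/-- norm bound as an operator norm -/
lemma opNorm_le {A : ℂ → (V →L[ℂ] V)} (hA : M.SmO A) {C : ℝ} (hC : M.Bd A C) :
    ‖M.opL A‖ ≤ C :=
  ContinuousLinearMap.opNorm_le_bound _ hC.1 fun u => M.norm_op_le hA hC u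

/-- differentiable family of fields at `z0` -/
structure DFam (M : MB V X) (T : E → ℂ → (V →L[ℂ] V)) (z0 : E) : Prop where
  sm : ∀ᶠ z in 𝓝 z0, M.SmO (T z)
  bd : ∃ C, M.Bd (T z0) C
  lip : ∃ C : ℝ, ∀ᶠ z in 𝓝 z0, M.Bd (fun x => T z x - T z0 x) (C * ‖z - z0‖)
  diff : ∀ x ∈ X, DifferentiableAt ℝ (fun z => T z x) z0
  smD : ∀ t, M.SmO (fun x => fderiv ℝ (fun z => T z x) z0 t)

/-- the derivative field -/
noncomputable def dT (T : E → ℂ → (V →L[ℂ] V)) (z0 t : E) (x : ℂ) : V →L[ℂ] V :=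
  fderiv ℝ (fun z => T z x) z0 t


lemma dfam_bd {T : E → ℂ → (V →L[ℂ] V)} {z0 : E} (h : DFam M T z0) :
    ∃ C, ∀ᶠ z in 𝓝 z0, M.Bd (T z) C := by
  obtain ⟨C, hC⟩ := h.bd
  obtain ⟨K, hK⟩ := h.lip
  refine ⟨2 * (C + |K|), ?_⟩
  have h1 : ∀ᶠ z in 𝓝 z0, ‖z - z0‖ ≤ 1 := by
    have : ∀ᶠ z in 𝓝 z0, z ∈ Metric.ball z0 1 := Metric.ball_mem_nhds z0 one_pos
    filter_upwards [this] with z hz
    rw [Metric.mem_ball, dist_eq_norm] at hz
    exact hz.le
  filter_upwards [hK, h1] with z hz hz1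
  have h2 : M.Bd (fun x => T z x - T z0 x) |K| := by
    refine bd_mono hz ?_
    calc K * ‖z - z0‖ ≤ |K| * ‖z - z0‖ := mul_le_mul_of_nonneg_right (le_abs_self _) (norm_nonneg _)
      _ ≤ |K| * 1 := mul_le_mul_of_nonneg_left hz1 (abs_nonneg _)
      _ = |K| := mul_one _
  have h3 := bd_add h2 hC
  rw [add_comm |K| C] at h3
  have h4 : (fun x => (T z x - T z0 x) + T z0 x) = T z := by
    funext x
    exact sub_add_cancel _ _
  rw [h4] at h3
  exact h3

lemma dfam_slope {T : E → ℂ → (V →L[ℂ] V)} {z0 : E} (h : DFam M T z0) (t : E) {x : ℂ}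
    (hx : x ∈ X) :
    Tendsto (fun k : ℕ => ((k : ℝ) + 1) • (T (z0 + ((k : ℝ) + 1)⁻¹ • t) x - T z0 x)) atTop
      (𝓝 (dT T z0 t x)) := by
  have h1 := (h.diff x hx).hasFDerivAt.hasLineDerivAt t
  have h2 := h1.tendsto_slope_zero
  have h3 : Tendsto (fun k : ℕ => ((k : ℝ) + 1)⁻¹) atTop (𝓝[≠] 0) := by
    rw [tendsto_nhdsWithin_iff]
    refine ⟨?_, Eventually.of_forall fun k => ?_⟩
    · have := tendsto_one_div_add_atTop_nhds_zero_nat (𝕜 := ℝ)
      simpa [one_div] using this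
    · have : (0 : ℝ) < ((k : ℝ) + 1)⁻¹ := by positivity
      exact this.ne'
  have h4 := h2.comp h3
  refine h4.congr fun k => ?_
  simp only [Function.comp_apply, inv_inv]

/-- bound of the derivative field -/
lemma bd_dT {T : E → ℂ → (V →L[ℂ] V)} {z0 : E} (h : DFam M T z0) {C : ℝ}
    (hC : ∀ᶠ z in 𝓝 z0, M.Bd (fun x => T z x - T z0 x) (C * ‖z - z0‖)) (t : E) :
    M.Bd (dT T z0 t) (|C| * ‖t‖) := by
  refine ⟨by positivity, fun x hx u => ?_⟩
  have h3 : Tendsto (fun k : ℕ => z0 + ((k : ℝ) + 1)⁻¹ • t) atTop (𝓝 z0) := by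
    have h4 : Tendsto (fun k : ℕ => ((k : ℝ) + 1)⁻¹) atTop (𝓝 0) := by
      have := tendsto_one_div_add_atTop_nhds_zero_nat (𝕜 := ℝ)
      simpa [one_div] using this
    have h5 := (h4.smul_const t).const_add z0
    simpa using h5
  have h4 := h3.eventually hC
  have h5 : Tendsto (fun k : ℕ => gn M x ((((k : ℝ) + 1) •
      (T (z0 + ((k : ℝ) + 1)⁻¹ • t) x - T z0 x)) u)) atTop (𝓝 (gn M x (dT T z0 t x u))) := by
    have h6 : Tendsto (fun k : ℕ => (((k : ℝ) + 1) •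
      (T (z0 + ((k : ℝ) + 1)⁻¹ • t) x - T z0 x)) u) atTop (𝓝 (dT T z0 t x u)) :=
      ((ContinuousLinearMap.apply ℂ V u).continuous.tendsto _).comp (dfam_slope h t hx)
    exact ((gn_continuous x).tendsto _).comp h6
  refine le_of_tendsto h5 ?_
  filter_upwards [h4] with k hk
  have hpos : (0 : ℝ) < (k : ℝ) + 1 := by positivity
  have h6 := (bd_iff.mp hk).2 x hx u
  rw [add_sub_cancel_left, norm_smul, Real.norm_of_nonneg (inv_pos.mpr hpos).le] at h6
  have h7 : (((k : ℝ) + 1) • (T (z0 + ((k : ℝ) + 1)⁻¹ • t) x - T z0 x)) u =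
      (((k : ℝ) + 1 : ℝ) : ℂ) • ((T (z0 + ((k : ℝ) + 1)⁻¹ • t) x - T z0 x) u) := rfl
  rw [h7, gn_smul, Complex.norm_real, Real.norm_of_nonneg hpos.le]
  calc ((k : ℝ) + 1) ^ 2 * gn M x ((T (z0 + ((k : ℝ) + 1)⁻¹ • t) x - T z0 x) u)
      ≤ ((k : ℝ) + 1) ^ 2 * ((C * (((k : ℝ) + 1)⁻¹ * ‖t‖)) ^ 2 * gn M x u) :=
        mul_le_mul_of_nonneg_left h6 (sq_nonneg _)
    _ = (|C| * ‖t‖) ^ 2 * gn M x u := by
        rw [mul_pow (|C|), sq_abs]
        field_simp

lemma ok_dT {T : E → ℂ → (V →L[ℂ] V)} {z0 : E} (h : DFam M T z0) (t : E) :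
    M.Ok (dT T z0 t) := by
  obtain ⟨C, hC⟩ := h.lip
  exact ⟨h.smD t, _, bd_dT h hC t⟩

/-- the derivative as a continuous linear map -/
noncomputable def DL (T : E → ℂ → (V →L[ℂ] V)) (z0 : E) (h : DFam M T z0) (u : M.L2) :
    E →L[ℝ] M.L2 :=
  LinearMap.toContinuousLinearMap
    { toFun := fun t => M.opL (dT T z0 t) u
      map_add' := by
        intro a b
        have h1 : dT T z0 (a + b) = fun x => dT T z0 a x + dT T z0 b x := by
          funext x
          exact map_add _ _ _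
        rw [h1, M.op_add (ok_dT h a) (ok_dT h b) (ok_add (ok_dT h a) (ok_dT h b))]
      map_smul' := by
        intro r a
        have h1 : dT T z0 (r • a) = fun x => (r : ℂ) • dT T z0 a x := by
          funext x
          have := (fderiv ℝ (fun z => T z x) z0).map_smul r a
          exact this
        rw [h1, M.op_smul (ok_dT h a) _ (ok_smul (ok_dT h a) _)]
        rfl }

lemma DL_apply {T : E → ℂ → (V →L[ℂ] V)} {z0 : E} (h : DFam M T z0) (u : M.L2) (t : E) :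
    DL T z0 h u t = M.opL (dT T z0 t) u := rfl

/-- Differentiability of `z ↦ M.opL (T z) u`. -/
theorem hasFDerivAt_opL {T : E → ℂ → (V →L[ℂ] V)} {z0 : E} (h : DFam M T z0) (u : M.L2) :
    HasFDerivAt (fun z => M.opL (T z) u) (DL T z0 h u) z0 := by
  obtain ⟨C, hC⟩ := h.lip
  obtain ⟨C1, hC1⟩ := dfam_bd h
  have hok : ∀ᶠ z in 𝓝 z0, M.Ok (T z) := by
    filter_upwards [h.sm, hC1] with z h1 h2
    exact ⟨h1, _, h2⟩
  have hz0 : M.Ok (T z0) := hok.self_of_nhds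
  let R : E → ℂ → (V →L[ℂ] V) := fun z x => (T z x - T z0 x) - dT T z0 (z - z0) x
  set K : ℝ := 2 * (|C| + |C|) with hK
  have hR : ∀ᶠ z in 𝓝 z0, M.SmO (R z) ∧ M.Bd (R z) (K * ‖z - z0‖) ∧ ∀ u : M.L2,
      M.opL (T z) u - M.opL (T z0) u - M.opL (dT T z0 (z - z0)) u = M.opL (R z) u := by
    filter_upwards [hok, hC] with z hz hCz
    have h1 := ok_sub hz hz0
    have h2 := ok_dT h (z - z0)
    refine ⟨(ok_sub h1 h2).1, ?_, fun u => ?_⟩
    · have h3 : M.Bd (fun x => T z x - T z0 x) (|C| * ‖z - z0‖) :=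
        bd_mono hCz (mul_le_mul_of_nonneg_right (le_abs_self _) (norm_nonneg _))
      have h4 := bd_sub h3 (bd_dT h hC (z - z0))
      have h5 : 2 * (|C| * ‖z - z0‖ + |C| * ‖z - z0‖) = K * ‖z - z0‖ := by
        rw [hK]; ring
      rw [h5] at h4
      exact h4
    · rw [op_sub h1 h2, op_sub hz hz0]
  -- the statement for `φ ∈ H0`
  have key : ∀ φ : M.H0, Tendsto (fun z => ‖z - z0‖⁻¹ * ‖M.opL (R z) (φ : M.L2)‖) (𝓝 z0)
      (𝓝 0) := by
    intro φ
    have h1 : Tendsto (fun z => ∫ x, ‖z - z0‖⁻¹ ^ 2 * gn M x (R z x (φ.f x))) (𝓝 z0)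
        (𝓝 (∫ _x : ℂ, (0 : ℝ))) := by
      have hint : Integrable (fun x => K ^ 2 * gn M x (φ.f x)) :=
        ((M.cs φ.mem φ.mem).integrable.re).const_mul _
      refine tendsto_integral_filter_of_dominated_convergence _ ?_ ?_ hint ?_
      · filter_upwards [hR] with z hz
        have h2 := FB.app_mem_A0 hz.1 φ.mem
        have h3 := (M.cs h2 h2).integrable.re
        exact (h3.const_mul _).aestronglyMeasurable
      · filter_upwards [hR] with z hz
        refine Eventually.of_forall fun x => ?_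
        by_cases hx : x ∈ X
        · have h2 := (bd_iff.mp hz.2.1).2 x hx (φ.f x)
          have h3 := gn_nonneg (M := M) hx (R z x (φ.f x))
          rw [Real.norm_of_nonneg (by positivity)]
          by_cases h0 : z - z0 = 0
          · rw [h0, norm_zero, inv_zero]
            have := gn_nonneg (M := M) hx (φ.f x)
            rw [zero_pow two_ne_zero, zero_mul]
            positivity
          · have h5 : 0 < ‖z - z0‖ := norm_pos_iff.mpr h0
            calc ‖z - z0‖⁻¹ ^ 2 * gn M x (R z x (φ.f x))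
                ≤ ‖z - z0‖⁻¹ ^ 2 * ((K * ‖z - z0‖) ^ 2 * gn M x (φ.f x)) :=
                  mul_le_mul_of_nonneg_left h2 (sq_nonneg _)
              _ = K ^ 2 * gn M x (φ.f x) := by
                  field_simp
        · obtain ⟨K', hK', -, h0⟩ := φ.mem.2
          have : φ.f x = 0 := h0 x (fun h => hx (hK' h))
          rw [this, map_zero, gn_zero]
          simp
      · refine Eventually.of_forall fun x => ?_
        by_cases hx : x ∈ X
        · have h2 := hasFDerivAt_iff_tendsto.mp (h.diff x hx).hasFDerivAt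
          have h3 : Tendsto (fun z => ‖M.G x‖ * (‖z - z0‖⁻¹ * ‖R z x‖ * ‖φ.f x‖) ^ 2) (𝓝 z0)
              (𝓝 0) := by
            have h4 := ((h2.mul_const ‖φ.f x‖).pow 2).const_mul ‖M.G x‖
            rw [zero_mul, zero_pow two_ne_zero, mul_zero] at h4
            exact h4
          refine squeeze_zero (fun z => ?_) (fun z => ?_) h3
          · have := gn_nonneg (M := M) hx (R z x (φ.f x))
            positivity
          · have h4 := gn_le (M := M) x (R z x (φ.f x))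
            have h5 : ‖R z x (φ.f x)‖ ≤ ‖R z x‖ * ‖φ.f x‖ := (R z x).le_opNorm _
            have h6 : ‖R z x (φ.f x)‖ ^ 2 ≤ (‖R z x‖ * ‖φ.f x‖) ^ 2 :=
              pow_le_pow_left₀ (norm_nonneg _) h5 2
            calc ‖z - z0‖⁻¹ ^ 2 * gn M x (R z x (φ.f x))
                ≤ ‖z - z0‖⁻¹ ^ 2 * (‖M.G x‖ * ‖R z x (φ.f x)‖ ^ 2) :=
                  mul_le_mul_of_nonneg_left h4 (sq_nonneg _)
              _ ≤ ‖z - z0‖⁻¹ ^ 2 * (‖M.G x‖ * (‖R z x‖ * ‖φ.f x‖) ^ 2) := by gcongr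
              _ = ‖M.G x‖ * (‖z - z0‖⁻¹ * ‖R z x‖ * ‖φ.f x‖) ^ 2 := by ring
        · obtain ⟨K', hK', -, h0⟩ := φ.mem.2
          have : φ.f x = 0 := h0 x (fun h => hx (hK' h))
          rw [this]
          simp only [map_zero, gn_zero, mul_zero]
          exact tendsto_const_nhds
    rw [integral_zero] at h1
    have h2 : Tendsto (fun z => Real.sqrt (∫ x, ‖z - z0‖⁻¹ ^ 2 * gn M x (R z x (φ.f x))))
        (𝓝 z0) (𝓝 0) := by
      have := h1.sqrt
      simpa using this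
    refine h2.congr' ?_
    filter_upwards [hR] with z hz
    have h3 : ‖M.opL (R z) (φ : M.L2)‖ ^ 2 = ∫ x, gn M x (R z x (φ.f x)) := by
      rw [M.op_coe ⟨hz.1, _, hz.2.1⟩, Completion.norm_coe, M.norm_sq_H0]
      rfl
    rw [integral_const_mul, ← h3, ← mul_pow, Real.sqrt_sq (by positivity)]
  -- general `u`
  rw [hasFDerivAt_iff_tendsto, Metric.tendsto_nhds]
  intro ε hε
  obtain ⟨φ, hφ⟩ : ∃ φ : M.H0, ‖u - (φ : M.L2)‖ * (|K| + 1) < ε / 2 := by
    have hd : DenseRange ((↑) : M.H0 → M.L2) := Completion.denseRange_coe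
    obtain ⟨φ, hφ⟩ := hd.exists_dist_lt u (show (0 : ℝ) < ε / 2 / (|K| + 1) by positivity)
    refine ⟨φ, ?_⟩
    rw [dist_eq_norm] at hφ
    rwa [lt_div_iff₀ (by positivity)] at hφ
  have h1 := (Metric.tendsto_nhds.mp (key φ)) (ε / 2) (by positivity)
  filter_upwards [h1, hR] with z hz1 hz
  rw [dist_zero_right] at hz1 ⊢
  rw [Real.norm_of_nonneg (by positivity)] at hz1 ⊢
  have h2 : M.opL (T z) u - M.opL (T z0) u - DL T z0 h u (z - z0) = M.opL (R z) u := hz.2.2 u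
  rw [h2]
  have h3 : M.opL (R z) u = M.opL (R z) (φ : M.L2) + M.opL (R z) (u - (φ : M.L2)) := by
    rw [← map_add]
    congr 1
    abel
  have h4 : ‖M.opL (R z) (u - (φ : M.L2))‖ ≤ K * ‖z - z0‖ * ‖u - (φ : M.L2)‖ :=
    M.norm_op_le hz.1 hz.2.1 _
  have h5 : ‖z - z0‖⁻¹ * ‖M.opL (R z) (u - (φ : M.L2))‖ ≤ |K| * ‖u - (φ : M.L2)‖ := by
    by_cases h0 : z - z0 = 0
    · rw [h0, norm_zero, inv_zero, zero_mul]
      positivity
    · have h6 : 0 < ‖z - z0‖ := norm_pos_iff.mpr h0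
      rw [inv_mul_le_iff₀ h6]
      have h7 : K * ‖z - z0‖ * ‖u - (φ : M.L2)‖ ≤ |K| * ‖z - z0‖ * ‖u - (φ : M.L2)‖ := by
        gcongr
        exact le_abs_self K
      linarith
  calc ‖z - z0‖⁻¹ * ‖M.opL (R z) u‖
      ≤ ‖z - z0‖⁻¹ * (‖M.opL (R z) (φ : M.L2)‖ + ‖M.opL (R z) (u - (φ : M.L2))‖) := by
        rw [h3]
        gcongr
        exact norm_add_le _ _
    _ = ‖z - z0‖⁻¹ * ‖M.opL (R z) (φ : M.L2)‖ +
        ‖z - z0‖⁻¹ * ‖M.opL (R z) (u - (φ : M.L2))‖ := by ring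
    _ < ε := by
        have h8 : |K| * ‖u - (φ : M.L2)‖ ≤ ‖u - (φ : M.L2)‖ * (|K| + 1) := by
          nlinarith [norm_nonneg (u - (φ : M.L2))]
        linarith

end Crest.Agent.R276.K4_817
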