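import Mathlib
import Crest.Agent.R276.Nat2_591
import Crest.Agent.R276.K4_817

/-!
# R276, IPC: representation calculus in the completion model of `IpcL2_975` (helper201)

`Rep M u φ` : the element `u : M.L2` is represented by the smooth section `φ`, i.e.
`⟪ζ, u⟫ = ∫ G(ζ, φ)` for all smooth compactly supported `ζ`.
-/

set_option autoImplicit false
set_option linter.unusedSectionVars false

open Set Filter Topology MeasureTheory UniformSpace
open scoped ContDiff ComplexConjugate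

namespace Crest.Agent.R276.RepC_201

open Crest.Agent.R276.IpcG1_975 Crest.Agent.R276.K4_817 Crest.Agent.R276.Nat_591

/-! ## cut-off functions -/

theorem exists_cut {X K : Set ℂ} (hX : IsOpen X) (hK : IsCompact K) (hKX : K ⊆ X) :
    ∃ χ : ℂ → ℝ, ContDiff ℝ ∞ χ ∧ (∀ x, 0 ≤ χ x) ∧ (∀ x, χ x ≤ 1) ∧ (∀ x ∈ K, χ x = 1) ∧
      ∃ L ⊆ X, IsCompact L ∧ ∀ x ∉ L, χ x = 0 := by
  obtain ⟨L, hL, hKL, hLX⟩ := exists_compact_between hK hX hKX
  obtain ⟨f, h1, h0, hf⟩ := exists_contMDiffMap_one_nhds_of_subset_interior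
    (modelWithCornersSelf ℝ ℂ) (n := ⊤) hK.isClosed hKL
  refine ⟨f, f.contMDiff.contDiff, fun x => (hf x).1, fun x => (hf x).2,
    fun x hx => h1.self_of_nhdsSet x hx, L, hLX, hL, h0⟩

/-- a real cut-off as an element of `CS` -/
structure Cut (X : Set ℂ) (χ : ℂ → ℝ) : Prop where
  sm : ContDiff ℝ ∞ χ
  nn : ∀ x, 0 ≤ χ x
  le : ∀ x, χ x ≤ 1
  cp : ∃ L ⊆ X, IsCompact L ∧ ∀ x ∉ L, χ x = 0

theorem Cut.cs {X : Set ℂ} {χ : ℂ → ℝ} (h : Cut X χ) : CS X (fun x => (χ x : ℂ)) := by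
  refine ⟨fun z _ => (Complex.ofRealCLM.contDiff.comp h.sm).contDiffAt, ?_⟩
  obtain ⟨L, hL, hLc, h0⟩ := h.cp
  exact ⟨L, hL, hLc, fun x hx => by rw [h0 x hx, Complex.ofReal_zero]⟩

theorem Cut.abs_le {X : Set ℂ} {χ : ℂ → ℝ} (h : Cut X χ) (x : ℂ) : ‖(χ x : ℂ)‖ ≤ 1 := by
  rw [Complex.norm_real, Real.norm_eq_abs, abs_of_nonneg (h.nn x)]
  exact h.le x

/-- cut-off equal to one on a compact set -/
theorem exists_cut' {X K : Set ℂ} (hX : IsOpen X) (hK : IsCompact K) (hKX : K ⊆ X) :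
    ∃ χ : ℂ → ℝ, Cut X χ ∧ ∀ x ∈ K, χ x = 1 := by
  obtain ⟨χ, h1, h2, h3, h4, h5⟩ := exists_cut hX hK hKX
  exact ⟨χ, ⟨h1, h2, h3, h5⟩, h4⟩

/-- exhausting sequence of cut-offs -/
theorem exists_cuts {X : Set ℂ} (hX : IsOpen X) :
    ∃ χ : ℕ → ℂ → ℝ, (∀ n, Cut X (χ n)) ∧
      ∀ K ⊆ X, IsCompact K → ∀ᶠ n in atTop, ∀ x ∈ K, χ n x = 1 := by
  have : LocallyCompactSpace X := hX.locallyCompactSpace
  let E : CompactExhaustion X := CompactExhaustion.choice X
  have hc : ∀ n, IsCompact ((↑) '' (E n) : Set ℂ) := fun n =>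
    (E.isCompact n).image continuous_subtype_val
  have hs : ∀ n, ((↑) '' (E n) : Set ℂ) ⊆ X := by
    rintro n _ ⟨x, -, rfl⟩
    exact x.2
  choose χ h1 h2 using fun n => exists_cut' hX (hc n) (hs n)
  refine ⟨χ, h1, fun K hK hKc => ?_⟩
  have hK' : IsCompact ((↑) ⁻¹' K : Set X) := by
    rw [Subtype.isCompact_iff, Subtype.image_preimage_coe, inter_eq_right.2 hK]
    exact hKc
  obtain ⟨N, hN⟩ := E.exists_superset_of_isCompact hK'
  filter_upwards [eventually_ge_atTop N] with n hn x hx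
  refine h2 n x ⟨⟨x, hK hx⟩, E.subset hn (hN hx), rfl⟩

variable {V V' : Type*} [NormedAddCommGroup V] [NormedSpace ℂ V] [NormedAddCommGroup V']
  [NormedSpace ℂ V'] {X X' : Set ℂ} {M : MB V X} {M' : MB V' X'}

/-! ## scalar fields -/

/-- scalar field of operators -/
noncomputable def sc (χ : ℂ → ℂ) (x : ℂ) : V →L[ℂ] V := χ x • (1 : V →L[ℂ] V)

@[simp] theorem sc_apply (χ : ℂ → ℂ) (x : ℂ) (v : V) : sc χ x v = χ x • v := rfl

theorem smO_sc (F : FB V X) {χ : ℂ → ℂ} (h : ∀ z ∈ X, ContDiffAt ℝ ∞ χ z) : F.SmO (sc χ) := by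
  intro z hz
  obtain ⟨U, hU⟩ := F.exists_nb hz
  have e : F.trO z (sc χ) =ᶠ[𝓝 z] fun y => χ y • (1 : V →L[ℂ] V) := by
    filter_upwards [hU.op.mem_nhds hU.mem] with y hy
    unfold FB.trO sc
    rw [mul_smul_comm, smul_mul_assoc, mul_one, hU.inv hU.mem hy]
  exact ((h z hz).smul contDiffAt_const).congr_of_eventuallyEq e

theorem G_smul_smul (x : ℂ) (c : ℂ) (u : V) :
    (M.G x (c • u) (c • u)).re = ‖c‖ ^ 2 * (M.G x u u).re := gn_smul (M := M) x c u

theorem ok_sc {χ : ℂ → ℂ} (h : ∀ z ∈ X, ContDiffAt ℝ ∞ χ z) {C : ℝ}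
    (hC : ∀ x ∈ X, ‖χ x‖ ≤ C) : M.Ok (sc χ) := by
  refine ⟨smO_sc _ h, max C 0, le_max_right _ _, fun x hx u => ?_⟩
  rw [sc_apply, G_smul_smul]
  refine mul_le_mul_of_nonneg_right ?_ (M.G_nonneg hx u)
  exact pow_le_pow_left₀ (norm_nonneg _) ((hC x hx).trans (le_max_left _ _)) 2

theorem CS.exists_bd {χ : ℂ → ℂ} (h : CS X χ) : ∃ C, ∀ x, ‖χ x‖ ≤ C :=
  h.hasCompactSupport.exists_bound_of_continuous h.continuous

theorem CS.ok {χ : ℂ → ℂ} (h : CS X χ) : M.Ok (sc χ) := by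
  obtain ⟨C, hC⟩ := CS.exists_bd h
  exact ok_sc h.sm fun x _ => hC x

theorem CS.star {χ : ℂ → ℂ} (h : CS X χ) : CS X (fun x => conj (χ x)) := by
  refine ⟨fun z hz => Complex.conjCLE.contDiff.contDiffAt.comp z (h.sm z hz), ?_⟩
  obtain ⟨K, hK, hKc, h0⟩ := h.cp
  exact ⟨K, hK, hKc, fun x hx => by rw [h0 x hx, map_zero]⟩

theorem ok_star {χ : ℂ → ℂ} (h : ∀ z ∈ X, ContDiffAt ℝ ∞ χ z) {C : ℝ}
    (hC : ∀ x ∈ X, ‖χ x‖ ≤ C) : M.Ok (sc (fun x => conj (χ x))) :=
  ok_sc (fun z hz => Complex.conjCLE.contDiff.contDiffAt.comp z (h z hz)) (C := C)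
    (fun x hx => by rw [RCLike.norm_conj]; exact hC x hx)

/-- adjoint of a scalar field -/
theorem inner_sc {χ : ℂ → ℂ} (h : M.Ok (sc χ)) (h' : M.Ok (sc (fun x => conj (χ x))))
    (u v : M.L2) : inner ℂ (M.opL (sc (fun x => conj (χ x))) u) v = inner ℂ u (M.opL (sc χ) v) := by
  refine M.op_adj h' h (fun x hx a b => ?_) u v
  rw [sc_apply, sc_apply, ContinuousLinearMap.map_smulₛₗ, smul_apply, map_smul,
    starRingEnd_self_apply]

/-- two elements with the same products with `H0` are equal -/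
theorem ext_H0 {u v : M.L2} (h : ∀ ζ : M.H0, inner ℂ (ζ : M.L2) u = inner ℂ (ζ : M.L2) v) :
    u = v := by
  refine ext_inner_left ℂ fun w => ?_
  exact M.dense_ext (f := fun w => inner ℂ w u) (g := fun w => inner ℂ w v) (by fun_prop)
    (by fun_prop) h w

/-! ## representation by smooth sections -/

/-- `u` is represented by the smooth section `φ` -/
def Rep (M : MB V X) (u : M.L2) (φ : ℂ → V) : Prop :=
  M.Sm φ ∧ ∀ ζ : M.H0, inner ℂ (ζ : M.L2) u = ∫ x, M.G x (ζ.f x) (φ x)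

theorem integrable_left (ζ : M.H0) {φ : ℂ → V} (hφ : M.Sm φ) :
    Integrable (fun x => M.G x (ζ.f x) (φ x)) := (M.cs_left ζ.mem hφ).integrable

theorem Rep.coe (φ : M.H0) : Rep M (φ : M.L2) φ.f := by
  refine ⟨φ.mem.1, fun ζ => ?_⟩
  rw [Completion.inner_coe, MB.inner_H0]

theorem Rep.zero : Rep M (0 : M.L2) (fun _ => 0) := by
  have := Rep.coe (M := M) 0
  rwa [Completion.coe_zero, MB.zero_f] at this

theorem Rep.add {u v : M.L2} {φ ψ : ℂ → V} (h : Rep M u φ) (h' : Rep M v ψ) :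
    Rep M (u + v) (fun x => φ x + ψ x) := by
  refine ⟨h.1.add h'.1, fun ζ => ?_⟩
  rw [inner_add_right, h.2, h'.2, ← integral_add (integrable_left ζ h.1) (integrable_left ζ h'.1)]
  refine integral_congr_ae (Eventually.of_forall fun x => ?_)
  simp

theorem Rep.smul {u : M.L2} {φ : ℂ → V} (h : Rep M u φ) (c : ℂ) :
    Rep M (c • u) (fun x => c • φ x) := by
  refine ⟨h.1.const_smul c, fun ζ => ?_⟩
  rw [inner_smul_right, h.2, ← integral_const_mul]
  refine integral_congr_ae (Eventually.of_forall fun x => ?_)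
  simp

theorem Rep.sub {u v : M.L2} {φ ψ : ℂ → V} (h : Rep M u φ) (h' : Rep M v ψ) :
    Rep M (u - v) (fun x => φ x - ψ x) := by
  refine ⟨h.1.sub h'.1, fun ζ => ?_⟩
  rw [inner_sub_right, h.2, h'.2, ← integral_sub (integrable_left ζ h.1) (integrable_left ζ h'.1)]
  refine integral_congr_ae (Eventually.of_forall fun x => ?_)
  simp

/-- (r1) a section represents at most one element -/
theorem Rep.unique {u v : M.L2} {φ : ℂ → V} (h : Rep M u φ) (h' : Rep M v φ) : u = v :=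
  ext_H0 fun ζ => by rw [h.2, h'.2]

theorem Rep.congr {u : M.L2} {φ ψ : ℂ → V} (h : Rep M u φ) (e : ∀ x ∈ X, φ x = ψ x) :
    Rep M u ψ := by
  refine ⟨fun z hz => ?_, fun ζ => ?_⟩
  · refine (h.1 z hz).congr_of_eventuallyEq ?_
    filter_upwards [M.op.mem_nhds hz] with y hy
    unfold FB.tr
    rw [e y hy]
  · rw [h.2]
    refine integral_congr_ae (Eventually.of_forall fun x => ?_)
    by_cases hx : x ∈ X
    · simp only [e x hx]
    · obtain ⟨K, hK, -, h0⟩ := ζ.mem.2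
      have : ζ.f x = 0 := h0 x (fun hh => hx (hK hh))
      simp [this]

/-- (r2) cutting off -/
theorem Rep.cut {u : M.L2} {φ : ℂ → V} (h : Rep M u φ) {χ : ℂ → ℂ} (hχ : CS X χ) :
    M.opL (sc χ) u = (M.s0 (fun z => χ z • φ z) (FB.smul_mem_A0 h.1 hχ) : M.H0) := by
  refine ext_H0 fun ζ => ?_
  rw [← inner_sc (CS.ok hχ) (CS.ok (CS.star hχ)), M.op_coe (CS.ok (CS.star hχ)), h.2,
    Completion.inner_coe, MB.inner_H0]
  refine integral_congr_ae (Eventually.of_forall fun x => ?_)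
  simp only [MB.s0_f, sc_apply, ContinuousLinearMap.map_smulₛₗ, smul_apply, map_smul,
    starRingEnd_self_apply]

/-- an element of `H0` is not changed by a cut-off equal to one on its support -/
theorem opL_sc_coe {χ : ℂ → ℂ} (h : M.Ok (sc χ)) (φ : M.H0) (h1 : ∀ x, φ.f x ≠ 0 → χ x = 1) :
    M.opL (sc χ) (φ : M.L2) = φ := by
  rw [M.op_coe h]
  congr 1
  refine MB.H0.ext ?_
  funext x
  rw [MB.s0_f, sc_apply]
  by_cases hx : φ.f x = 0
  · rw [hx, smul_zero]
  · rw [h1 x hx, one_smul]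

/-- cut-off equal to one on the support of an element of `H0` -/
theorem exists_cut_H0 (M : MB V X) (ζ : M.H0) :
    ∃ χ : ℂ → ℝ, Cut X χ ∧ ∀ x, ζ.f x ≠ 0 → χ x = 1 := by
  obtain ⟨K, hK, hKc, h0⟩ := ζ.mem.2
  obtain ⟨χ, hχ, h1⟩ := exists_cut' M.op hKc hK
  refine ⟨χ, hχ, fun x hx => h1 x ?_⟩
  by_contra hcon
  exact hx (h0 x hcon)

/-- (r1) an element is represented by at most one section on `X` -/
theorem Rep.eqOn {u : M.L2} {φ ψ : ℂ → V} (h : Rep M u φ) (h' : Rep M u ψ) {x : ℂ} (hx : x ∈ X) :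
    φ x = ψ x := by
  have h3 := h.sub h'
  rw [sub_self] at h3
  set θ : ℂ → V := fun x => φ x - ψ x with hθ
  obtain ⟨χ, hχ, h1⟩ := exists_cut' M.op (isCompact_singleton (x := x)) (singleton_subset_iff.2 hx)
  have h4 := h3.cut hχ.cs
  rw [map_zero] at h4
  have h5 := h3.2 (M.s0 (fun z => (χ z : ℂ) • θ z) (FB.smul_mem_A0 h3.1 hχ.cs))
  rw [inner_zero_right] at h5
  simp only [MB.s0_f, ContinuousLinearMap.map_smulₛₗ, smul_apply, Complex.conj_ofReal] at h5
  have h6 : ∫ y, χ y * (M.G y (θ y) (θ y)).re = 0 := by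
    have e := congrArg Complex.re h5
    rw [Complex.zero_re] at e
    have e2 : (∫ y, (χ y : ℂ) • M.G y (θ y) (θ y)).re = ∫ y, ((χ y : ℂ) • M.G y (θ y) (θ y)).re := by
      have hi : Integrable (fun y => (χ y : ℂ) • M.G y (θ y) (θ y)) := by
        have := integrable_left (M.s0 (fun z => (χ z : ℂ) • θ z) (FB.smul_mem_A0 h3.1 hχ.cs)) h3.1
        simpa only [MB.s0_f, ContinuousLinearMap.map_smulₛₗ, smul_apply, Complex.conj_ofReal]
          using this
      exact (integral_re hi).symm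
    rw [e2] at e
    rw [e]
    refine integral_congr_ae (Eventually.of_forall fun y => ?_)
    simp
  have hcs : CS X (fun y => M.G y ((fun z => (χ z : ℂ) • θ z) y) (θ y)) :=
    M.cs_left (FB.smul_mem_A0 h3.1 hχ.cs) h3.1
  have hcont : Continuous (fun y => χ y * (M.G y (θ y) (θ y)).re) := by
    have := Complex.continuous_re.comp hcs.continuous
    refine this.congr fun y => ?_
    simp only [Function.comp_apply, ContinuousLinearMap.map_smulₛₗ, smul_apply,
      Complex.conj_ofReal, smul_eq_mul, Complex.re_ofReal_mul]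
  have hnn : ∀ y, 0 ≤ χ y * (M.G y (θ y) (θ y)).re := by
    intro y
    by_cases hy : y ∈ X
    · exact mul_nonneg (hχ.nn y) (M.G_nonneg hy _)
    · obtain ⟨L, hL, -, h0⟩ := hχ.cp
      rw [h0 y (fun hh => hy (hL hh)), zero_mul]
  have hint : Integrable (fun y => χ y * (M.G y (θ y) (θ y)).re) := by
    have := hcs.integrable.re
    refine this.congr (Eventually.of_forall fun y => ?_)
    simp only [ContinuousLinearMap.map_smulₛₗ, smul_apply,
      Complex.conj_ofReal, smul_eq_mul]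
    exact Complex.re_ofReal_mul _ _
  have h7 := (integral_eq_zero_iff_of_nonneg hnn hint).1 h6
  have h8 : (fun y => χ y * (M.G y (θ y) (θ y)).re) = fun _ => 0 :=
    (Continuous.ae_eq_iff_eq volume hcont continuous_const).1 h7
  have h9 := congrFun h8 x
  simp only [h1 x (mem_singleton x), one_mul] at h9
  obtain ⟨C, hC, hb⟩ := M.bd x hx
  have h10 := (hb.self_of_nhds (θ x)).1
  rw [h9, mul_zero, M.one x hx] at h10
  have h11 : ‖θ x‖ = 0 := by
    have : ‖θ x‖ ^ 2 ≤ 0 := h10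
    nlinarith [norm_nonneg (θ x)]
  exact sub_eq_zero.1 (norm_eq_zero.1 h11)

/-- characterisation by cut-offs: local nature of `Rep` -/
theorem rep_of_cut {u : M.L2} {φ : ℂ → V} (hφ : M.Sm φ)
    (h : ∀ χ : ℂ → ℝ, (hχ : Cut X χ) → M.opL (sc (fun x => (χ x : ℂ))) u =
      (M.s0 (fun z => (χ z : ℂ) • φ z) (FB.smul_mem_A0 hφ hχ.cs) : M.H0)) : Rep M u φ := by
  refine ⟨hφ, fun ζ => ?_⟩
  obtain ⟨χ, hχ, h1⟩ := exists_cut_H0 M ζ
  have hs : M.opL (sc (fun x => conj (χ x : ℂ))) (ζ : M.L2) = ζ := by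
    refine opL_sc_coe (CS.ok (CS.star hχ.cs)) ζ fun x hx => ?_
    rw [h1 x hx]
    simp
  rw [← hs, inner_sc (CS.ok hχ.cs) (CS.ok (CS.star hχ.cs)), h χ hχ, Completion.inner_coe,
    MB.inner_H0]
  refine integral_congr_ae (Eventually.of_forall fun x => ?_)
  simp only [MB.s0_f, map_smul]
  by_cases hx : ζ.f x = 0
  · simp [hx]
  · rw [h1 x hx, Complex.ofReal_one, one_smul]

/-- scalar fields commute with fields of operators -/
theorem opL_sc_comm {χ : ℂ → ℂ} {A : ℂ → (V →L[ℂ] V)} (h : M.Ok (sc χ)) (hA : M.Ok A) (u : M.L2) :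
    M.opL (sc χ) (M.opL A u) = M.opL A (M.opL (sc χ) u) := by
  refine M.dense_ext (f := fun u => M.opL (sc χ) (M.opL A u))
    (g := fun u => M.opL A (M.opL (sc χ) u)) ((M.opL _).continuous.comp (M.opL A).continuous)
    ((M.opL A).continuous.comp (M.opL _).continuous) (fun φ => ?_) u
  rw [M.op_coe hA, M.op_coe h, M.op_coe h, M.op_coe hA]
  congr 1
  refine MB.H0.ext ?_
  funext x
  simp only [MB.s0_f, sc_apply, map_smul]

/-- (r5) fields of operators -/
theorem Rep.opL {u : M.L2} {φ : ℂ → V} (h : Rep M u φ) {A : ℂ → (V →L[ℂ] V)} (hA : M.Ok A) :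
    Rep M (M.opL A u) (fun x => A x (φ x)) := by
  refine rep_of_cut (FB.Sm.app hA.1 h.1) fun χ hχ => ?_
  rw [opL_sc_comm (CS.ok hχ.cs) hA, h.cut hχ.cs, M.op_coe hA]
  congr 1
  refine MB.H0.ext ?_
  funext x
  simp only [MB.s0_f, map_smul]

/-- a scalar field, not necessarily with compact support -/
theorem Rep.sc {u : M.L2} {φ : ℂ → V} (h : Rep M u φ) {χ : ℂ → ℂ} (hχ : M.Ok (sc χ)) :
    Rep M (M.opL (RepC_201.sc χ) u) (fun x => χ x • φ x) := h.opL hχ

/-- the composition of a smooth function with compact support with a bundle map -/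
theorem Mor.cs_comp {F : FB V X} {F' : FB V' X'} {Ψ : ℂ → ℂ} {K : ℂ → (V →L[ℂ] V')}
    (h : Mor F F' Ψ K) {χ : ℂ → ℂ} (hχ : CS X χ) : CS X' (fun x => χ (Ψ x)) := by
  refine ⟨fun z hz => (hχ.sm (Ψ z) (h.maps z hz)).comp z (h.smΨ z hz), ?_⟩
  obtain ⟨K₀, hK, hKc, h0⟩ := hχ.cp
  obtain ⟨K₁, hK₁, hKc₁, h1⟩ := h.prop K₀ hK hKc
  exact ⟨K₁, hK₁, hKc₁, fun x hx => h0 _ (h1 x hx)⟩

/-- (r3) bundle maps -/
theorem Rep.T {Ψ : ℂ → ℂ} {K : ℂ → (V →L[ℂ] V')} {J : ℂ → ℝ} {C : ℝ} (h : MMor M M' Ψ K J C)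
    {u : M.L2} {φ : ℂ → V} (hu : Rep M u φ) : Rep M' (h.T u) (pb K Ψ φ) := by
  refine ⟨h.toMor.sm hu.1, fun ζ => ?_⟩
  obtain ⟨L', hL', hLc', h0'⟩ := ζ.mem.2
  have hcomp : IsCompact (Ψ '' L') :=
    hLc'.image_of_continuousOn fun x hx => ((h.smΨ x (hL' hx)).continuousAt).continuousWithinAt
  have hsub : Ψ '' L' ⊆ X := by
    rintro _ ⟨x, hx, rfl⟩
    exact h.maps x (hL' hx)
  obtain ⟨χ, hχ, h1⟩ := exists_cut' M.op hcomp hsub
  have hone : ∀ x, ζ.f x ≠ 0 → χ (Ψ x) = 1 := by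
    intro x hx
    refine h1 _ ⟨x, ?_, rfl⟩
    by_contra hcon
    exact hx (h0' x hcon)
  have hcs := Mor.cs_comp h.toMor hχ.cs
  have hok : M'.Ok (RepC_201.sc (fun x => ((χ (Ψ x) : ℝ) : ℂ))) := CS.ok hcs
  have hok' : M'.Ok (RepC_201.sc (fun x => conj ((χ (Ψ x) : ℝ) : ℂ))) := CS.ok (CS.star hcs)
  have hs : M'.opL (RepC_201.sc (fun x => conj ((χ (Ψ x) : ℝ) : ℂ))) (ζ : M'.L2) = ζ := by
    refine opL_sc_coe hok' ζ fun x hx => ?_
    rw [hone x hx]
    simp
  have hT : M'.opL (RepC_201.sc (fun x => ((χ (Ψ x) : ℝ) : ℂ))) (h.T u) =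
      h.T (M.opL (RepC_201.sc (fun x => ((χ x : ℝ) : ℂ))) u) := by
    rw [h.T_op (CS.ok hχ.cs) hok fun x hx v => by simp only [sc_apply, map_smul]]
  rw [← hs, inner_sc hok hok', hT, hu.cut hχ.cs, h.T_coe, Completion.inner_coe, MB.inner_H0]
  refine integral_congr_ae (Eventually.of_forall fun x => ?_)
  simp only [MB.s0_f, pb, map_smul]
  by_cases hx : ζ.f x = 0
  · simp [hx]
  · rw [hone x hx, Complex.ofReal_one, one_smul]

/-! ## square integrable smooth sections -/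

theorem integrableOn_cut {φ : ℂ → V} (hφ : M.Sm φ) {χ : ℂ → ℝ} (hχ : Cut X χ) :
    Integrable (fun x => χ x ^ 2 * (M.G x (φ x) (φ x)).re) := by
  have h1 := (M.cs (FB.smul_mem_A0 hφ hχ.cs) (FB.smul_mem_A0 hφ hχ.cs)).integrable.re
  refine h1.congr (Eventually.of_forall fun x => ?_)
  have := G_smul_smul (M := M) x (χ x : ℂ) (φ x)
  rw [Complex.norm_real, Real.norm_eq_abs, sq_abs] at this
  exact this

theorem norm_sq_cut {φ : ℂ → V} (hφ : M.Sm φ) {χ : ℂ → ℝ} (hχ : Cut X χ) :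
    ‖M.s0 (fun z => (χ z : ℂ) • φ z) (FB.smul_mem_A0 hφ hχ.cs)‖ ^ 2 =
      ∫ x, χ x ^ 2 * (M.G x (φ x) (φ x)).re := by
  rw [MB.norm_sq_H0]
  refine integral_congr_ae (Eventually.of_forall fun x => ?_)
  have := G_smul_smul (M := M) x (χ x : ℂ) (φ x)
  rw [Complex.norm_real, Real.norm_eq_abs, sq_abs] at this
  exact this

theorem cut_zero_off {χ : ℂ → ℝ} (hχ : Cut X χ) {x : ℂ} (hx : x ∉ X) : χ x = 0 := by
  obtain ⟨L, hL, -, h0⟩ := hχ.cp
  exact h0 x (fun hh => hx (hL hh))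

theorem norm_sq_cut' {φ : ℂ → V} (hφ : M.Sm φ) {χ : ℂ → ℝ} (hχ : Cut X χ) :
    ‖M.s0 (fun z => (χ z : ℂ) • φ z) (FB.smul_mem_A0 hφ hχ.cs)‖ ^ 2 =
      ∫ x in X, χ x ^ 2 * (M.G x (φ x) (φ x)).re := by
  rw [norm_sq_cut hφ hχ]
  refine (setIntegral_eq_integral_of_forall_compl_eq_zero fun x hx => ?_).symm
  rw [cut_zero_off hχ hx]
  simp

theorem norm_sq_cut_le {φ : ℂ → V} (hφ : M.Sm φ)
    (hi : IntegrableOn (fun x => (M.G x (φ x) (φ x)).re) X) {χ : ℂ → ℝ} (hχ : Cut X χ) :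
    ‖M.s0 (fun z => (χ z : ℂ) • φ z) (FB.smul_mem_A0 hφ hχ.cs)‖ ^ 2 ≤
      ∫ x in X, (M.G x (φ x) (φ x)).re := by
  rw [norm_sq_cut' hφ hχ]
  refine setIntegral_mono_on (integrableOn_cut hφ hχ).integrableOn hi M.op.measurableSet
    fun x hx => ?_
  have h1 : χ x ^ 2 ≤ 1 := pow_le_one₀ (hχ.nn x) (hχ.le x)
  have h2 := M.G_nonneg hx (φ x)
  nlinarith

/-- (r4) existence -/
theorem exists_rep {φ : ℂ → V} (hφ : M.Sm φ)
    (hi : IntegrableOn (fun x => (M.G x (φ x) (φ x)).re) X) : ∃ u : M.L2, Rep M u φ := by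
  set I : ℝ := ∫ x in X, (M.G x (φ x) (φ x)).re with hI
  have hI0 : 0 ≤ I := setIntegral_nonneg M.op.measurableSet fun x hx => M.G_nonneg hx _
  -- the antilinear functional `ζ ↦ ∫ G(φ, ζ)`
  have hint : ∀ ζ : M.H0, Integrable (fun x => M.G x (φ x) (ζ.f x)) := by
    intro ζ
    have h1 := (integrable_left ζ hφ)
    have h2 : Integrable (fun x => conj (M.G x (ζ.f x) (φ x))) :=
      (Complex.conjLIE.toContinuousLinearEquiv.toContinuousLinearMap).integrable_comp h1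
    refine h2.congr (Eventually.of_forall fun x => ?_)
    by_cases hx : x ∈ X
    · exact M.herm x hx _ _
    · obtain ⟨K, hK, -, h0⟩ := ζ.mem.2
      have : ζ.f x = 0 := h0 x (fun hh => hx (hK hh))
      simp [this]
  have hconj : ∀ ζ : M.H0, conj (∫ x, M.G x (φ x) (ζ.f x)) = ∫ x, M.G x (ζ.f x) (φ x) := by
    intro ζ
    rw [← integral_conj]
    refine integral_congr_ae (Eventually.of_forall fun x => ?_)
    by_cases hx : x ∈ X
    · exact M.herm x hx _ _
    · obtain ⟨K, hK, -, h0⟩ := ζ.mem.2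
      have : ζ.f x = 0 := h0 x (fun hh => hx (hK hh))
      simp [this]
  have hbd : ∀ ζ : M.H0, ‖∫ x, M.G x (φ x) (ζ.f x)‖ ≤ Real.sqrt I * ‖ζ‖ := by
    intro ζ
    obtain ⟨χ, hχ, h1⟩ := exists_cut_H0 M ζ
    have e : ∫ x, M.G x (φ x) (ζ.f x) =
        inner ℂ (M.s0 (fun z => (χ z : ℂ) • φ z) (FB.smul_mem_A0 hφ hχ.cs)) ζ := by
      rw [MB.inner_H0]
      refine integral_congr_ae (Eventually.of_forall fun x => ?_)
      simp only [MB.s0_f, ContinuousLinearMap.map_smulₛₗ, smul_apply, Complex.conj_ofReal]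
      by_cases hx : ζ.f x = 0
      · simp [hx]
      · rw [h1 x hx, Complex.ofReal_one, one_smul]
    rw [e]
    refine (norm_inner_le_norm _ _).trans (mul_le_mul_of_nonneg_right ?_ (norm_nonneg _))
    exact Real.le_sqrt_of_sq_le (norm_sq_cut_le hφ hi hχ)
  let f : M.H0 →L[ℂ] ℂ := LinearMap.mkContinuous
    { toFun := fun ζ => ∫ x, M.G x (φ x) (ζ.f x)
      map_add' := fun ζ ξ => by
        rw [← integral_add (hint ζ) (hint ξ)]
        refine integral_congr_ae (Eventually.of_forall fun x => ?_)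
        simp
      map_smul' := fun c ζ => by
        rw [RingHom.id_apply, smul_eq_mul, ← integral_const_mul]
        refine integral_congr_ae (Eventually.of_forall fun x => ?_)
        simp } (Real.sqrt I) hbd
  have hdense : DenseRange (Completion.toComplL (𝕜 := ℂ) (E := M.H0)) := Completion.denseRange_coe
  have hind : IsUniformInducing (Completion.toComplL (𝕜 := ℂ) (E := M.H0)) :=
    Completion.isUniformInducing_coe _
  let g : M.L2 →L[ℂ] ℂ := f.extend (Completion.toComplL (𝕜 := ℂ) (E := M.H0))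
  have hg : ∀ ζ : M.H0, g (ζ : M.L2) = ∫ x, M.G x (φ x) (ζ.f x) := by
    intro ζ
    exact ContinuousLinearMap.extend_eq f hdense hind ζ
  refine ⟨(InnerProductSpace.toDual ℂ M.L2).symm g, hφ, fun ζ => ?_⟩
  rw [← inner_conj_symm, InnerProductSpace.toDual_symm_apply, hg, hconj]

/-- strong convergence of cut-offs to the identity -/
theorem tendsto_cuts {χ : ℕ → ℂ → ℝ} (h1 : ∀ n, Cut X (χ n))
    (h2 : ∀ K ⊆ X, IsCompact K → ∀ᶠ n in atTop, ∀ x ∈ K, χ n x = 1) (u : M.L2) :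
    Tendsto (fun n => M.opL (sc (fun x => (χ n x : ℂ))) u) atTop (𝓝 u) := by
  have hn : ∀ n (w : M.L2), ‖M.opL (sc (fun x => (χ n x : ℂ))) w‖ ≤ 1 * ‖w‖ := by
    intro n w
    refine M.norm_op_le (CS.ok (h1 n).cs).1 ⟨zero_le_one, fun x hx a => ?_⟩ w
    rw [sc_apply, G_smul_smul]
    refine mul_le_mul_of_nonneg_right ?_ (M.G_nonneg hx a)
    exact pow_le_pow_left₀ (norm_nonneg _) ((h1 n).abs_le x) 2
  rw [Metric.tendsto_atTop]
  intro ε hε
  obtain ⟨φ, hφ⟩ : ∃ φ : M.H0, ‖u - (φ : M.L2)‖ < ε / 2 := by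
    have := Completion.denseRange_coe (α := M.H0) |>.exists_dist_lt u (half_pos hε)
    obtain ⟨φ, hφ⟩ := this
    exact ⟨φ, by rwa [dist_eq_norm] at hφ⟩
  obtain ⟨K, hK, hKc, h0⟩ := φ.mem.2
  obtain ⟨N, hN⟩ := eventually_atTop.1 (h2 K hK hKc)
  refine ⟨N, fun n hnN => ?_⟩
  have e : M.opL (sc (fun x => (χ n x : ℂ))) (φ : M.L2) = φ := by
    refine opL_sc_coe (CS.ok (h1 n).cs) φ fun x hx => ?_
    have : x ∈ K := by
      by_contra hcon
      exact hx (h0 x hcon)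
    rw [hN n hnN x this, Complex.ofReal_one]
  rw [dist_eq_norm]
  have e2 : M.opL (sc (fun x => (χ n x : ℂ))) u - u =
      M.opL (sc (fun x => (χ n x : ℂ))) (u - φ) - (u - φ) := by
    rw [map_sub, e]
    abel
  rw [e2]
  calc ‖_ - _‖ ≤ ‖M.opL (sc (fun x => (χ n x : ℂ))) (u - φ)‖ + ‖u - φ‖ := norm_sub_le _ _
    _ ≤ 1 * ‖u - φ‖ + ‖u - φ‖ := by gcongr; exact hn n _
    _ < ε := by linarith

/-- pointwise Cauchy-Schwarz for the metric -/
theorem G_cs {x : ℂ} (hx : x ∈ X) (a b : V) :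
    ‖M.G x a b‖ ≤ (M.G x a a).re + (M.G x b b).re := by
  by_cases h0 : M.G x a b = 0
  · rw [h0, norm_zero]
    exact add_nonneg (M.G_nonneg hx a) (M.G_nonneg hx b)
  set g := M.G x a b with hg
  set c : ℂ := conj g / ‖g‖ with hc
  have hgn : (‖g‖ : ℂ) ≠ 0 := by exact_mod_cast norm_ne_zero_iff.2 h0
  have hcn : ‖c‖ = 1 := by
    rw [hc, norm_div, RCLike.norm_conj, Complex.norm_real, norm_norm]
    exact div_self (norm_ne_zero_iff.2 h0)
  have h1 := M.G_nonneg hx (a - c • b)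
  have e1 : M.G x (a - c • b) (a - c • b) =
      M.G x a a - c * g - conj (c * g) + M.G x (c • b) (c • b) := by
    have h3 : M.G x b a = conj g := (M.herm x hx a b).symm
    simp only [map_sub, sub_apply, ContinuousLinearMap.map_smulₛₗ, smul_apply, smul_eq_mul,
      RingHom.id_apply, h3, map_mul, ← hg]
    ring
  have h2 : c * g = ‖g‖ := by
    rw [hc, div_mul_eq_mul_div, Complex.conj_mul', pow_two]
    field_simp
  rw [e1, h2, Complex.conj_ofReal] at h1
  have h3 : (M.G x (c • b) (c • b)).re = (M.G x b b).re := by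
    rw [G_smul_smul, hcn]
    simp
  simp only [Complex.add_re, Complex.sub_re, Complex.ofReal_re, h3] at h1
  have h4 := norm_nonneg g
  have h5 := M.G_nonneg hx a
  have h6 := M.G_nonneg hx b
  nlinarith

/-- a represented element has a square integrable representative -/
theorem Rep.integrableOn {u : M.L2} {φ : ℂ → V} (h : Rep M u φ) :
    IntegrableOn (fun x => (M.G x (φ x) (φ x)).re) X := by
  obtain ⟨χ, h1, h2⟩ := exists_cuts M.op
  have hmeas : AEStronglyMeasurable (fun x => (M.G x (φ x) (φ x)).re) (volume.restrict X) := by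
    refine ContinuousOn.aestronglyMeasurable (fun x hx => ?_) M.op.measurableSet
    exact (Complex.continuous_re.continuousAt.comp
      (M.smG φ φ h.1 h.1 x hx).continuousAt).continuousWithinAt
  have hb : ∀ n, ∫ x in X, χ n x ^ 2 * (M.G x (φ x) (φ x)).re ≤ ‖u‖ ^ 2 := by
    intro n
    rw [← norm_sq_cut' h.1 (h1 n), ← Completion.norm_coe, ← h.cut (h1 n).cs]
    refine pow_le_pow_left₀ (norm_nonneg _) ?_ 2
    have := M.norm_op_le (CS.ok (M := M) (h1 n).cs).1 (C := 1) ⟨zero_le_one, fun x hx a => by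
      rw [sc_apply, G_smul_smul]
      refine mul_le_mul_of_nonneg_right ?_ (M.G_nonneg hx a)
      exact pow_le_pow_left₀ (norm_nonneg _) ((h1 n).abs_le x) 2⟩ u
    rwa [one_mul] at this
  refine ⟨hmeas, ?_⟩
  have hfin : ∫⁻ x in X, ‖(M.G x (φ x) (φ x)).re‖ₑ ≤ ENNReal.ofReal (‖u‖ ^ 2) := by
    have hlim : ∀ x ∈ X, Tendsto (fun n => ENNReal.ofReal (χ n x ^ 2 * (M.G x (φ x) (φ x)).re))
        atTop (𝓝 ‖(M.G x (φ x) (φ x)).re‖ₑ) := by
      intro x hx
      refine tendsto_const_nhds.congr' ?_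
      filter_upwards [h2 {x} (singleton_subset_iff.2 hx) isCompact_singleton] with n hn
      rw [hn x (mem_singleton x), one_pow, one_mul,
        Real.enorm_of_nonneg (M.G_nonneg hx _)]
    have hle : ∀ n, ∫⁻ x in X, ENNReal.ofReal (χ n x ^ 2 * (M.G x (φ x) (φ x)).re) ≤
        ENNReal.ofReal (‖u‖ ^ 2) := by
      intro n
      rw [← ofReal_integral_eq_lintegral_ofReal (integrableOn_cut h.1 (h1 n)).integrableOn]
      · exact ENNReal.ofReal_le_ofReal (hb n)
      · filter_upwards [ae_restrict_mem M.op.measurableSet] with x hx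
        exact mul_nonneg (sq_nonneg _) (M.G_nonneg hx _)
    calc ∫⁻ x in X, ‖(M.G x (φ x) (φ x)).re‖ₑ
        = ∫⁻ x in X, liminf (fun n => ENNReal.ofReal (χ n x ^ 2 * (M.G x (φ x) (φ x)).re)) atTop := by
          refine setLIntegral_congr_fun M.op.measurableSet fun x hx => ?_
          exact (hlim x hx).liminf_eq.symm
      _ ≤ liminf (fun n => ∫⁻ x in X, ENNReal.ofReal (χ n x ^ 2 * (M.G x (φ x) (φ x)).re)) atTop := by
          refine lintegral_liminf_le' fun n => ?_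
          exact (integrableOn_cut h.1 (h1 n)).1.aemeasurable.ennreal_ofReal.restrict
      _ ≤ ENNReal.ofReal (‖u‖ ^ 2) := by
          refine liminf_le_of_frequently_le' ?_
          exact Frequently.of_forall hle
  exact hfin.trans_lt ENNReal.ofReal_lt_top

/-- the product of two represented elements -/
theorem Rep.inner_eq {u v : M.L2} {φ ψ : ℂ → V} (h : Rep M u φ) (h' : Rep M v ψ) :
    inner ℂ u v = ∫ x in X, M.G x (φ x) (ψ x) := by
  obtain ⟨χ, h1, h2⟩ := exists_cuts M.op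
  have hl : Tendsto (fun n => inner ℂ (M.opL (RepC_201.sc (fun x => (χ n x : ℂ))) u) v) atTop
      (𝓝 (inner ℂ u v)) := (tendsto_cuts h1 h2 u).inner tendsto_const_nhds
  have e : ∀ n, inner ℂ (M.opL (RepC_201.sc (fun x => (χ n x : ℂ))) u) v =
      ∫ x in X, (χ n x : ℂ) * M.G x (φ x) (ψ x) := by
    intro n
    rw [h.cut (h1 n).cs, h'.2]
    have e2 : ∀ x, M.G x ((M.s0 (fun z => (χ n z : ℂ) • φ z) (FB.smul_mem_A0 h.1 (h1 n).cs)).f x)
        (ψ x) = (χ n x : ℂ) * M.G x (φ x) (ψ x) := by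
      intro x
      simp only [MB.s0_f, ContinuousLinearMap.map_smulₛₗ, smul_apply,
        Complex.conj_ofReal, smul_eq_mul]
    rw [← setIntegral_eq_integral_of_forall_compl_eq_zero (s := X) fun x hx => by
      rw [e2, cut_zero_off (h1 n) hx]; simp]
    exact setIntegral_congr_fun M.op.measurableSet fun x _ => e2 x
  have hr : Tendsto (fun n => ∫ x in X, (χ n x : ℂ) * M.G x (φ x) (ψ x)) atTop
      (𝓝 (∫ x in X, M.G x (φ x) (ψ x))) := by
    have hcont : ContinuousOn (fun x => M.G x (φ x) (ψ x)) X := fun x hx =>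
      ((M.smG φ ψ h.1 h'.1 x hx).continuousAt).continuousWithinAt
    refine tendsto_integral_of_dominated_convergence
      (fun x => (M.G x (φ x) (φ x)).re + (M.G x (ψ x) (ψ x)).re) (fun n => ?_)
      (h.integrableOn.add h'.integrableOn) (fun n => ?_) ?_
    · refine ContinuousOn.aestronglyMeasurable ?_ M.op.measurableSet
      exact ((h1 n).cs.continuous.continuousOn).mul hcont
    · filter_upwards [ae_restrict_mem M.op.measurableSet] with x hx
      rw [norm_mul]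
      have h3 := (h1 n).abs_le x
      have h4 := G_cs (M := M) hx (φ x) (ψ x)
      calc ‖(χ n x : ℂ)‖ * ‖M.G x (φ x) (ψ x)‖ ≤ 1 * ‖M.G x (φ x) (ψ x)‖ := by gcongr
        _ ≤ _ := by rw [one_mul]; exact h4
    · filter_upwards [ae_restrict_mem M.op.measurableSet] with x hx
      refine tendsto_const_nhds.congr' ?_
      filter_upwards [h2 {x} (singleton_subset_iff.2 hx) isCompact_singleton] with n hn
      rw [hn x (mem_singleton x), Complex.ofReal_one, one_mul]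
  simp_rw [e] at hl
  exact tendsto_nhds_unique hl hr

theorem Rep.norm_sq {u : M.L2} {φ : ℂ → V} (h : Rep M u φ) :
    ‖u‖ ^ 2 = ∫ x in X, (M.G x (φ x) (φ x)).re := by
  have h1 : ‖u‖ ^ 2 = (inner ℂ u u).re := norm_sq_eq_re_inner (𝕜 := ℂ) u
  rw [h1, h.inner_eq h]
  have hi : IntegrableOn (fun x => M.G x (φ x) (φ x)) X := by
    have h2 : IntegrableOn (fun x => (((M.G x (φ x) (φ x)).re : ℝ) : ℂ)) X :=
      h.integrableOn.ofReal
    refine h2.congr_fun (fun x hx => ?_) M.op.measurableSet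
    apply Complex.ext
    · simp
    · simp [M.G_im hx]
  exact (integral_re hi).symm

/-- (r4) -/
theorem exists_rep_norm {φ : ℂ → V} (hφ : M.Sm φ)
    (hi : IntegrableOn (fun x => (M.G x (φ x) (φ x)).re) X) :
    ∃ u : M.L2, Rep M u φ ∧ ‖u‖ ^ 2 = ∫ x in X, (M.G x (φ x) (φ x)).re := by
  obtain ⟨u, hu⟩ := exists_rep hφ hi
  exact ⟨u, hu, hu.norm_sq⟩

/-- the same with a `lintegral` condition -/
theorem exists_rep_of_lintegral {φ : ℂ → V} (hφ : M.Sm φ)
    (hi : ∫⁻ x in X, ENNReal.ofReal (M.G x (φ x) (φ x)).re < ⊤) :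
    ∃ u : M.L2, Rep M u φ ∧ ‖u‖ ^ 2 = ∫ x in X, (M.G x (φ x) (φ x)).re := by
  refine exists_rep_norm hφ ⟨?_, ?_⟩
  · refine ContinuousOn.aestronglyMeasurable (fun x hx => ?_) M.op.measurableSet
    exact (Complex.continuous_re.continuousAt.comp
      (M.smG φ φ hφ hφ x hx).continuousAt).continuousWithinAt
  · refine lt_of_le_of_lt (le_of_eq ?_) hi
    refine setLIntegral_congr_fun M.op.measurableSet fun x hx => ?_
    exact Real.enorm_of_nonneg (M.G_nonneg hx _)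

end Crest.Agent.R276.RepC_201
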