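import Crest.Agent.R276.Nat8_591
import Crest.Agent.R276.RepC_201
import Crest.Agent.R276.PvO_175
import Crest.Agent.R276.Res_735

/-!
# R276, IPC-LOC (helper591): the action of the automorphisms on the `L²` spaces (request of helper454)

* `IsAut M K K'` : flat isometric automorphism of a polarised variation commuting with `E`;
* `actK ρ g s x` : the matrix of `g` at `(s, x)`;
* `actU ρ g s : (pvOf (V.res s)).L →L[ℂ] (pvOf (V.res s)).L`, with `actU_form`, `actU_ex`, `actU_zc`,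
  `actU_ty`, `actU_rep`, `actU_coe`.
-/

set_option autoImplicit false
set_option linter.unusedSectionVars false

noncomputable section

open Set Filter Topology MeasureTheory Matrix Metric UniformSpace
open scoped ContDiff ComplexConjugate

namespace Crest.Agent.R276.Nat_591

open VCalc_442 IpcGr_975 IpcG1_975 Psi_563 HsB_817 Crest.Agent.R271.Ho51 Ipc735 PvO_175

/-- no bumps -/
def B0 : Bumps 0 where
  a := Fin.elim0
  ρ := 1
  χ := Fin.elim0
  ρ_pos := one_pos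
  smooth i := i.elim0
  nonneg i := i.elim0
  le_one i := i.elim0
  compact i := i.elim0
  one i := i.elim0
  disj i := i.elim0

section gen

variable {V : Type*} [NormedAddCommGroup V] [NormedSpace ℂ V] {X : Set ℂ} {w : ℕ}

/-- flat isometric automorphism commuting with the Hodge grading -/
structure IsAut (M : PV V X w) (K K' : ℂ → (V →L[ℂ] V)) : Prop where
  flat : ∀ z ∈ X, ∀ᶠ y in 𝓝 z, (M.P z y).comp (K y) = (K z).comp (M.P z y)
  left : ∀ x ∈ X, ∀ v, K' x (K x v) = v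
  right : ∀ x ∈ X, ∀ v, K x (K' x v) = v
  iso : ∀ x ∈ X, ∀ u v, M.S x (K x u) (K x v) = M.S x u v
  comm : ∀ x ∈ X, K x * M.E x = M.E x * K x

namespace IsAut

variable {M : PV V X w} {K K' : ℂ → (V →L[ℂ] V)}

theorem comm_aeval (h : IsAut M K K') {x : ℂ} (hx : x ∈ X) (f : Polynomial ℂ) :
    K x * Polynomial.aeval (M.E x) f = Polynomial.aeval (M.E x) f * K x := by
  have hpow : ∀ n : ℕ, K x * M.E x ^ n = M.E x ^ n * K x := fun n =>
    (Commute.pow_right (h.comm x hx) n)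
  induction f using Polynomial.induction_on' with
  | add f g hf hg => rw [map_add, mul_add, add_mul, hf, hg]
  | monomial n a =>
    rw [Polynomial.aeval_monomial, ← Algebra.smul_def, mul_smul_comm, smul_mul_assoc, hpow]

theorem comm_Pf (h : IsAut M K K') {x : ℂ} (hx : x ∈ X) (p : ℕ) (v : V) :
    K x (M.Pf p x v) = M.Pf p x (K x v) :=
  congrArg (fun T : V →L[ℂ] V => T v) (h.comm_aeval hx _)

theorem comm_Pm (h : IsAut M K K') {x : ℂ} (hx : x ∈ X) (p : ℕ) (v : V) :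
    K x (M.Pm p x v) = M.Pm p x (K x v) := by
  cases p with
  | zero => rw [M.Pm_zero]; simp
  | succ p => rw [M.Pm_succ]; exact h.comm_Pf hx p v

theorem comm_Jf (h : IsAut M K K') {x : ℂ} (hx : x ∈ X) (v : V) :
    K x (M.Jf x v) = M.Jf x (K x v) := by
  rw [M.Jf_eq]
  exact congrArg (fun T : V →L[ℂ] V => T v) (h.comm_aeval hx _)

theorem Gf (h : IsAut M K K') {x : ℂ} (hx : x ∈ X) (u v : V) :
    M.Gf x (K x u) (K x v) = M.Gf x u v := by
  rw [PV.Gf_apply, PV.Gf_apply, ← h.comm_Jf hx, h.iso x hx]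

/-- **the transport data of an automorphism** -/
theorem psiP (h : IsAut M K K') : PsiP B0 0 M M K K' 1 where
  hb := by rw [norm_zero]; exact B0.δ_pos
  mem x := by rw [B0.psi_zero]
  flat z hz := by
    simp only [B0.psi_zero]
    exact h.flat z hz
  left := h.left
  right := h.right
  iso x hx u v := by rw [B0.psi_zero]; exact h.iso x hx u v
  c0 := one_pos
  le x hx v := by rw [B0.psi_zero, h.Gf hx]; simp
  ge x hx v := by rw [B0.psi_zero, h.Gf hx]; simp

theorem Kf_eq (_h : IsAut M K K') (x : ℂ) (u : V × V) :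
    Kf (B0.psi 0) K x u = (K x u.1, K x u.2) := by
  rw [Kf_apply, PsiM.dW_psi, PsiM.dB_psi, B0.P_zero, B0.Q_zero, pull_one_zero]

theorem pb_eq (h : IsAut M K K') (φ : ℂ → V × V) :
    pb (Kf (B0.psi 0) K) (B0.psi 0) φ = fun x => (K x (φ x).1, K x (φ x).2) := by
  funext x
  show Kf (B0.psi 0) K x (φ (B0.psi 0 x)) = _
  rw [h.Kf_eq, B0.psi_zero]

variable [FiniteDimensional ℂ V]

/-- **the isomorphism** -/
def UE (h : IsAut M K K') : M.L ≃L[ℂ] M.L := h.psiP.TE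

theorem UE_form (h : IsAut M K K') (u v : M.L) :
    inner ℂ (M.be (h.UE u)) (h.UE v) = inner ℂ (M.be u) v := h.psiP.form u v

theorem UE_ex (h : IsAut M K K') (u : M.L) : h.UE u ∈ M.Ex ↔ u ∈ M.Ex := h.psiP.ex u

theorem UE_zc (h : IsAut M K K') (u : M.L) : h.UE u ∈ M.Zc ↔ u ∈ M.Zc := h.psiP.zc u

theorem UE_ty (h : IsAut M K K') (P : ℕ) (u : M.L) : M.Ty P (h.UE u) = h.UE (M.Ty P u) := by
  refine (h.psiP.TE_Ty' (M.ok_ty P) (fun x hx v => ?_) u).symm
  rw [h.Kf_eq, h.Kf_eq, B0.psi_zero]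
  show (M.Pm P x (K x v.1), M.Pf P x (K x v.2)) = (K x (M.Pm P x v.1), K x (M.Pf P x v.2))
  rw [h.comm_Pm hx, h.comm_Pf hx]

theorem UE_rep (h : IsAut M K K') {u : M.L} {α : ℂ → V × V} (hu : M.Rep u α) :
    M.Rep (h.UE u) (fun x => (K x (α x).1, K x (α x).2)) := by
  have h1 : RepC_201.Rep M.mb.dbl u α := ⟨hu.1, hu.2⟩
  have h2 := RepC_201.Rep.T h.psiP.psiM.mmor h1
  rw [h.pb_eq] at h2
  exact ⟨h2.1, h2.2⟩

theorem norm_UE (h : IsAut M K K') (u : M.L) : ‖h.UE u‖ ≤ 2 * 1 * ‖u‖ := h.psiP.norm_TE_le u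

end IsAut

end gen

/-! ### the action over the fibres -/

section act

variable {m : ℕ} {S : Type*} [TopologicalSpace S] [RDom m S] {k N w : ℕ} {Q : Punc S k}
  {V : Ipc735.VHS (m + 1) (Tot Q) N w} {Γ : Type} [Group Γ] (ρ : Act V Γ)

/-- the matrix of `g` at `(s, x)` -/
def actK (g : Γ) (s : S) (x : ℂ) : Matrix (Fin N) (Fin N) ℂ :=
  rM Q (fun q => cm (ρ.ρ g q)) s x

theorem actK_of (g : Γ) {s : S} {x : ℂ} (hx : x ∉ Q.A s) :
    actK ρ g s x = cm (ρ.ρ g (Tot.mk Q s x hx)) := rM_of _ hx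

theorem actK_mul_inv (g : Γ) {s : S} {x : ℂ} (hx : x ∉ Q.A s) :
    actK ρ g s x * actK ρ g⁻¹ s x = 1 := by
  rw [actK_of ρ g hx, actK_of ρ g⁻¹ hx, ← cm_mul, ← ρ.mul, mul_inv_cancel]
  have h := ρ.mul 1 1 (Tot.mk Q s x hx)
  rw [one_mul] at h
  rw [left_eq_mul.1 h, cm_one]

theorem actK_inv_mul (g : Γ) {s : S} {x : ℂ} (hx : x ∉ Q.A s) :
    actK ρ g⁻¹ s x * actK ρ g s x = 1 := by
  have := actK_mul_inv ρ g⁻¹ hx
  rwa [inv_inv] at this

/-- `g` gives an automorphism of the variation over the fibre -/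
theorem isAut (g : Γ) (s : S) : IsAut (pvOf (V.res s)) (fun x => mc (actK ρ g s x))
    (fun x => mc (actK ρ g⁻¹ s x)) where
  flat z hz := by
    have hz' : z ∉ Q.A s := by simpa using hz
    filter_upwards [(continuousAt_fib_tendsto hz').eventually (ρ.flat g (Tot.mk Q s z hz')),
      eventually_notMem _ hz'] with y hy hyA
    rw [fib_of hz' hyA] at hy
    refine ContinuousLinearMap.ext fun v => ?_
    show cm ((V.res s).P z y) *ᵥ (actK ρ g s y *ᵥ v) = actK ρ g s z *ᵥ (cm ((V.res s).P z y) *ᵥ v)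
    rw [actK_of ρ g hz', actK_of ρ g hyA, (V.isRes s).P, rP_of V.P hz' hyA, mulVec_mulVec,
      mulVec_mulVec, ← cm_mul, ← cm_mul, hy]
  left x hx v := by
    show actK ρ g⁻¹ s x *ᵥ (actK ρ g s x *ᵥ v) = v
    rw [mulVec_mulVec, actK_inv_mul ρ g (by simpa using hx), one_mulVec]
  right x hx v := by
    show actK ρ g s x *ᵥ (actK ρ g⁻¹ s x *ᵥ v) = v
    rw [mulVec_mulVec, actK_mul_inv ρ g (by simpa using hx), one_mulVec]
  iso x hx u v := by
    have hx' : x ∉ Q.A s := by simpa using hx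
    rw [pvOf_S, pvOf_S, mc_apply, mc_apply, cm_star_dot, actK_of ρ g hx', (V.isRes s).S,
      rM_of V.S hx', ρ.presS]
  comm x hx := by
    have hx' : x ∉ Q.A s := by simpa using hx
    show mc (actK ρ g s x) * mc ((V.res s).E x) = mc ((V.res s).E x) * mc (actK ρ g s x)
    rw [← mc_mul, ← mc_mul, actK_of ρ g hx', (V.isRes s).E, rM_of V.E hx', ρ.commE]

/-- **the action on the `L²` forms** -/
def actU (g : Γ) (s : S) : (pvOf (V.res s)).L →L[ℂ] (pvOf (V.res s)).L :=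
  ((isAut ρ g s).UE : (pvOf (V.res s)).L →L[ℂ] (pvOf (V.res s)).L)

theorem actU_bij (g : Γ) (s : S) : Function.Bijective (actU ρ g s) := (isAut ρ g s).UE.bijective

/-- (form) -/
theorem actU_form (g : Γ) (s : S) (u v : (pvOf (V.res s)).L) :
    inner ℂ ((pvOf (V.res s)).be (actU ρ g s u)) (actU ρ g s v) =
      inner ℂ ((pvOf (V.res s)).be u) v := (isAut ρ g s).UE_form u v

/-- (ex) -/
theorem actU_ex (g : Γ) (s : S) (u : (pvOf (V.res s)).L) :
    actU ρ g s u ∈ (pvOf (V.res s)).Ex ↔ u ∈ (pvOf (V.res s)).Ex := (isAut ρ g s).UE_ex u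

/-- (zc) -/
theorem actU_zc (g : Γ) (s : S) (u : (pvOf (V.res s)).L) :
    actU ρ g s u ∈ (pvOf (V.res s)).Zc ↔ u ∈ (pvOf (V.res s)).Zc := (isAut ρ g s).UE_zc u

/-- (ty) -/
theorem actU_ty (g : Γ) (s : S) (P : ℕ) (u : (pvOf (V.res s)).L) :
    (pvOf (V.res s)).Ty P (actU ρ g s u) = actU ρ g s ((pvOf (V.res s)).Ty P u) :=
  (isAut ρ g s).UE_ty P u

/-- (rep) -/
theorem actU_rep (g : Γ) (s : S) {u : (pvOf (V.res s)).L} {α : ℂ → (Fin N → ℂ) × (Fin N → ℂ)}
    (hu : (pvOf (V.res s)).Rep u α) :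
    (pvOf (V.res s)).Rep (actU ρ g s u)
      (fun x => (actK ρ g s x *ᵥ (α x).1, actK ρ g s x *ᵥ (α x).2)) := (isAut ρ g s).UE_rep hu

end act

end Crest.Agent.R276.Nat_591
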