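import Crest.Agent.R271.H3_51

/-!
# R276, leaf COUNT (helper857): the interface of the counting argument

`PCov n M`   : the Riemann domain `M` over `ℂⁿ` is a finite covering of `{h ≠ 0}`, `h` a polynomial.
`DChart M E` : `E` = a divisor of `M` at the boundary (smooth part, finite covering of `{h₀ ≠ 0}` in
               `ℂ^d`, `d = dim M - 1`), with punctured polydisc charts `σ y` of polynomial radius
               `r y` around every point `y` of `E`.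
`Gen`, `Full`: what is needed of the weights `φ` (of the canonical bundle) and `ψ` (of the line
               bundle `L`) at such a divisor.
-/

set_option autoImplicit false

noncomputable section

open Set Filter Topology MeasureTheory Metric

namespace Crest.Agent.R276.CntDefs_857

open Crest.Agent.R271.Ho51

/-- finite covering of `{h ≠ 0}`: evenly covered over every polydisc contained in `{h ≠ 0}` -/
structure PCov (n : ℕ) (M : Type*) [TopologicalSpace M] [RDom n M] where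
  /-- the equation of the branch divisor -/
  h : MvPolynomial (Fin n) ℂ
  /-- the degree -/
  k : ℕ
  hk : 0 < k
  h0 : h ≠ 0
  hne : ∀ x : M, MvPolynomial.eval (cp x) h ≠ 0
  ev : ∀ (z : Fin n → ℂ) (r : ℝ), 0 < r →
    (∀ w ∈ ball z r, MvPolynomial.eval w h ≠ 0) →
    ∃ s : Fin k → OpenPartialHomeomorph M (Fin n → ℂ),
      (∀ i, IsCh (s i) ∧ (s i).target = ball z r) ∧
      (∀ i j, i ≠ j → Disjoint (s i).source (s j).source) ∧
      (cp ⁻¹' ball z r : Set M) = ⋃ i, (s i).source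

/-- punctured polydisc `{q | q₀ ≠ 0, |q_i| < r}` -/
def PS (d : ℕ) (r : ℝ) : Set (Fin (d + 1) → ℂ) := {q | q 0 ≠ 0 ∧ ∀ i, ‖q i‖ < r}

/-- the shell `{r/4 < |q₀| < 3r/4, |q_i| < r/2 (i ≥ 1)}` -/
def Sh (d : ℕ) (r : ℝ) : Set (Fin (d + 1) → ℂ) :=
  {q | r / 4 < ‖q 0‖ ∧ ‖q 0‖ < 3 * r / 4 ∧ ∀ i : Fin d, ‖q i.succ‖ < r / 2}

/-- the radius function `c (min 1 |h z| / (1 + |z|))^κ` -/
def radf {d : ℕ} (h : MvPolynomial (Fin d) ℂ) (c : ℝ) (κ : ℕ) (z : Fin d → ℂ) : ℝ :=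
  c * (min 1 ‖MvPolynomial.eval z h‖ / (1 + ‖z‖)) ^ κ

/-- boundary charts of `M` along the divisor `E`; `σ y` maps the punctured polydisc of radius
`r y` around `y` to `M`, holomorphic, locally biholomorphic, of bounded multiplicity. -/
structure DChart {d : ℕ} (M E : Type*) [TopologicalSpace M] [RDom (d + 1) M]
    [MeasurableSpace M] (μ : Measure M) [TopologicalSpace E] [RDom d E] where
  cov : PCov d E
  c : ℝ
  hc0 : 0 < c
  hc1 : c ≤ 1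
  κ : ℕ
  hball : ∀ y : E, ∀ w ∈ ball (cp y) (radf cov.h c κ (cp y)), MvPolynomial.eval w cov.h ≠ 0
  conn : IsPreconnected (univ : Set E)
  σ : E → (Fin (d + 1) → ℂ) → M
  cont : ∀ y : E, ContinuousOn (σ y) (PS d (radf cov.h c κ (cp y)))
  hol : ∀ y : E, DifferentiableOn ℂ (fun q => (cp (σ y q) : Fin (d + 1) → ℂ))
    (PS d (radf cov.h c κ (cp y)))
  jac : ∀ y : E, ∀ q ∈ PS d (radf cov.h c κ (cp y)),
    (fderiv ℂ (fun q => (cp (σ y q) : Fin (d + 1) → ℂ)) q).det ≠ 0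
  N : ℕ
  mult : ∀ y : E, ∀ f : M → ENNReal, Measurable f →
    ∫⁻ q in PS d (radf cov.h c κ (cp y)), f (σ y q) * ENNReal.ofReal
      (‖(fderiv ℂ (fun q => (cp (σ y q) : Fin (d + 1) → ℂ)) q).det‖ ^ 2) ≤ N * ∫⁻ x, f x ∂μ
  compat : ∀ (y : E) (e : OpenPartialHomeomorph E (Fin d → ℂ)), IsCh e → y ∈ e.source →
    e.target = ball (cp y) (radf cov.h c κ (cp y)) → ∀ y' ∈ e.source,
    ∀ q ∈ PS d (radf cov.h c κ (cp y')),
      q + Fin.cons 0 (cp y' - cp y) ∈ PS d (radf cov.h c κ (cp y)) →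
      σ y' q = σ y (q + Fin.cons 0 (cp y' - cp y))

section

variable {d : ℕ} {M E : Type*} [TopologicalSpace M] [RDom (d + 1) M] [MeasurableSpace M]
    {μ : Measure M} [TopologicalSpace E] [RDom d E]

/-- the radius at `y` -/
def DChart.r (D : DChart M E μ) (y : E) : ℝ := radf D.cov.h D.c D.κ (cp y)

/-- the jacobian of the chart at `y` -/
def DChart.J (D : DChart M E μ) (y : E) (q : Fin (d + 1) → ℂ) : ℂ :=
  (fderiv ℂ (fun q => (cp (D.σ y q) : Fin (d + 1) → ℂ)) q).det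

/-- the weight of `K` in the coordinates of the chart -/
def DChart.phW (D : DChart M E μ) (φ : M → ℝ) (y : E) (q : Fin (d + 1) → ℂ) : ℝ :=
  φ (D.σ y q) + Real.log (‖D.J y q‖ ^ 2)

/-- the weight of `L` in the frame multiplied by `x^{-k}` -/
def DChart.psI (D : DChart M E μ) (ψ : M → ℝ) (k : ℤ) (y : E) (q : Fin (d + 1) → ℂ) : ℝ :=
  ψ (D.σ y q) + k * Real.log (‖q 0‖ ^ 2)

/-- the section `F` of `nK + ntL` in the chart -/
def DChart.fI (D : DChart M E μ) (n t : ℕ) (k : ℤ) (F : M → ℂ) (y : E) (q : Fin (d + 1) → ℂ) : ℂ :=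
  F (D.σ y q) * D.J y q ^ n * (q 0) ^ (n * t * k : ℤ)

/-- bounds near general points of `E`: pole order of `L²` sections of `nK + ntL` is `≤ p (n-1)` -/
def Gen (D : DChart M E μ) (φ ψ : M → ℝ) (k : ℤ) (p : ℕ) : Prop :=
  ∃ O : Set E, IsOpen O ∧ O.Nonempty ∧ ∀ y ∈ O, ∃ ε C : ℝ, 0 < ε ∧ ∀ q ∈ PS d ε,
    D.phW φ y q ≤ C - p * Real.log (‖q 0‖ ^ 2) ∧ D.psI ψ k y q ≤ C

/-- the full data at a divisor along which sections may have poles -/
structure Full (D : DChart M E μ) (φ ψ : M → ℝ) (k : ℤ) (ρ : ℕ) where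
  C : ℝ
  hC : 1 ≤ C
  τ : E → ℝ
  ψ' : E → ℝ
  g1 : ∀ y, ∀ q ∈ Sh d (D.r y), D.phW φ y q ≤ C * (1 + Real.log (1 / D.r y))
  g2 : ∀ y, ∀ q ∈ Sh d (D.r y), D.psI ψ k y q ≤ C * (1 + Real.log (1 / D.r y))
  Lam : ∀ y, ∃ Λ : (Fin (d + 1) → ℂ) → ℂ, DifferentiableOn ℂ Λ (ball 0 (D.r y)) ∧
    (∀ q ∈ Sh d (D.r y), ‖Λ q‖ ^ 2 ≤ C * Real.exp (-D.psI ψ k y q)) ∧
    Real.exp (-τ y) ≤ C * ‖Λ 0‖ ^ 2
  lam : ∀ y, ∃ l : (Fin d → ℂ) → ℂ, DifferentiableOn ℂ l (ball 0 (D.r y)) ∧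
    (∀ e : OpenPartialHomeomorph E (Fin d → ℂ), IsCh e → y ∈ e.source →
      e.target = ball (cp y) (D.r y) → ∀ y' ∈ e.source, ‖cp y' - cp y‖ < D.r y / 2 →
      ‖l (cp y' - cp y)‖ ^ 2 ≤ C * Real.exp (-τ y')) ∧
    Real.exp (-τ y) ≤ C * ‖l 0‖ ^ 2
  sm : Sm ψ'
  psh : ∀ y w, 0 ≤ Levi ψ' y w
  rank : ∀ y : E, ∃ S : Submodule ℂ (Fin d → ℂ), d ≤ Module.finrank ℂ S + ρ ∧
    ∀ w ∈ S, Levi ψ' y w = 0
  tau_le : ∀ y, τ y ≤ ψ' y + C

/-- the good point: `Levi φ ≥ c |w|²`, `Levi ψ ≥ c Σ |∂_w b_i|²` near `x₀`, where `b_1..b_ν` are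
holomorphic with independent differentials -/
structure Good {m : ℕ} {M : Type*} [TopologicalSpace M] [RDom m M] (φ ψ : M → ℝ) (ν : ℕ) where
  x₀ : M
  U : Set M
  hU : U ∈ 𝓝 x₀
  c : ℝ
  hc : 0 < c
  b : Fin ν → M → ℂ
  smb : ∀ i, ∀ x ∈ U, ContDiffAt ℝ (⊤ : ℕ∞) (b i ∘ (ch x).symm) (cp x)
  holb : ∀ i j, ∀ x ∈ U, db j (b i) x = 0
  ind : LinearIndependent ℂ (fun i : Fin ν => fun j : Fin m => dz j (b i) x₀)
  posφ : ∀ x ∈ U, ∀ w, c * nsq w ≤ Levi φ x w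
  posψ : ∀ x ∈ U, ∀ w, c * ∑ i, ‖∑ j, dz j (b i) x * w j‖ ^ 2 ≤ Levi ψ x w

end

end Crest.Agent.R276.CntDefs_857
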