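import Crest.Agent.R276.LevB_442
import Crest.Agent.R276.CntDefs_857

/-!
# R276, leaf GOODLOC (helper442): the good point of the counting argument

`exists_good` : near a point where the period map is immersive, `Levi (log det g) ≥ c |w|²` (C2) and
`Levi (-log |σ|²) ≥ c ∑ |∂_w b_i|²` (C4) for `ν` holomorphic functions `b_i` with independent
differentials, if `Levi (-log |σ|²)` has rank `≥ ν` at that point.
-/

set_option autoImplicit false
set_option linter.unusedSectionVars false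

noncomputable section

open Set Filter Topology Matrix
open Crest.Agent.R271.Ho51
open Crest.Agent.R276.VCalc_442
open Crest.Agent.R276.LevB_442
open scoped ContDiff ComplexConjugate ComplexOrder

namespace Crest.Agent.R276.GoodLoc_442

/-! ### lower bounds for families of positive definite forms -/

section lower

variable {κ : Type*} [Fintype κ]

lemma continuous_sf : Continuous fun p : Matrix κ κ ℂ × (κ → ℂ) => (sf p.1 p.2 p.2).re := by
  unfold sf
  fun_prop

lemma sf_smul_smul (H : Matrix κ κ ℂ) (c : ℂ) (v : κ → ℂ) :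
    (sf H (c • v) (c • v)).re = ‖c‖ ^ 2 * (sf H v v).re := by
  unfold sf
  rw [star_smul, smul_dotProduct, Matrix.mulVec_smul, dotProduct_smul, smul_smul, smul_eq_mul,
    Complex.star_def, Complex.conj_mul']
  rw [← Complex.ofReal_pow, Complex.re_ofReal_mul]

lemma exists_lower {H₀ : Matrix κ κ ℂ} (h0 : ∀ v : κ → ℂ, v ≠ 0 → 0 < (sf H₀ v v).re) :
    ∃ c : ℝ, 0 < c ∧ ∀ᶠ H in 𝓝 H₀, ∀ v : κ → ℂ, c * n2 v ≤ (sf H v v).re := by
  rcases (Metric.sphere (0 : κ → ℂ) 1).eq_empty_or_nonempty with he | hne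
  · refine ⟨1, one_pos, Filter.Eventually.of_forall fun H v => ?_⟩
    have hv : v = 0 := by
      by_contra hv
      have hn : 0 < ‖v‖ := norm_pos_iff.2 hv
      have : ((‖v‖⁻¹ : ℝ) : ℂ) • v ∈ Metric.sphere (0 : κ → ℂ) 1 := by
        rw [mem_sphere_zero_iff_norm, norm_smul, Complex.norm_real, norm_inv, norm_norm,
          inv_mul_cancel₀ hn.ne']
      rw [he] at this
      exact this
    subst hv
    simp [n2, sf]
  · have hK : IsCompact (Metric.sphere (0 : κ → ℂ) 1) := isCompact_sphere _ _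
    have hcont : Continuous fun v : κ → ℂ => (sf H₀ v v).re :=
      continuous_sf.comp (continuous_const.prodMk continuous_id)
    obtain ⟨v₀, hv₀, hmin⟩ := hK.exists_isMinOn hne hcont.continuousOn
    have hv0 : v₀ ≠ 0 := by
      rintro rfl
      simp at hv₀
    have hpos := h0 v₀ hv0
    set c0 := (sf H₀ v₀ v₀).re with hc0
    have hcard : (0 : ℝ) < Fintype.card κ + 1 := by positivity
    refine ⟨c0 / 2 / (Fintype.card κ + 1), by positivity, ?_⟩
    have h1 : ∀ᶠ H in 𝓝 H₀, ∀ v ∈ Metric.sphere (0 : κ → ℂ) 1, c0 / 2 < (sf H v v).re := by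
      refine hK.eventually_forall_of_forall_eventually fun v hv => ?_
      have h2 : c0 / 2 < (sf H₀ v v).re := by
        have := hmin hv
        simp only [Set.mem_ofPred_eq] at this
        linarith
      exact (continuous_sf.continuousAt (x := (H₀, v))).eventually_const_lt h2
    filter_upwards [h1] with H hH v
    by_cases hv : v = 0
    · subst hv; simp [n2, sf]
    · have hn : 0 < ‖v‖ := norm_pos_iff.2 hv
      have h3 := hH (((‖v‖⁻¹ : ℝ) : ℂ) • v) (by
        rw [mem_sphere_zero_iff_norm, norm_smul, Complex.norm_real, norm_inv, norm_norm,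
          inv_mul_cancel₀ hn.ne'])
      rw [sf_smul_smul, Complex.norm_real, norm_inv, norm_norm, inv_pow, inv_mul_eq_div,
        lt_div_iff₀ (by positivity)] at h3
      have h4 : n2 v ≤ Fintype.card κ * ‖v‖ ^ 2 := by
        unfold n2
        calc ∑ i, ‖v i‖ ^ 2 ≤ ∑ _i : κ, ‖v‖ ^ 2 :=
              Finset.sum_le_sum fun i _ => pow_le_pow_left₀ (norm_nonneg _) (norm_le_pi_norm v i) 2
          _ = Fintype.card κ * ‖v‖ ^ 2 := by simp
      have h5 : n2 v ≤ (Fintype.card κ + 1) * ‖v‖ ^ 2 := by nlinarith [sq_nonneg ‖v‖]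
      calc c0 / 2 / (Fintype.card κ + 1) * n2 v
          ≤ c0 / 2 / (Fintype.card κ + 1) * ((Fintype.card κ + 1) * ‖v‖ ^ 2) :=
            mul_le_mul_of_nonneg_left h5 (by positivity)
        _ = c0 / 2 * ‖v‖ ^ 2 := by field_simp
        _ ≤ _ := h3.le

end lower

/-! ### the Hessian -/

section hess

variable {X : Type*} [NormedAddCommGroup X] [NormedSpace ℂ X]

/-- the complex Hessian `∂̄_v ∂_v F` of a real function -/
def hess (F : X → ℝ) (v x : X) : ℝ := (dB (dW (cx F) v) v x).re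

lemma hess_congr {F G : X → ℝ} {x : X} (h : F =ᶠ[𝓝 x] G) (v : X) : hess F v x = hess G v x := by
  have h1 : cx F =ᶠ[𝓝 x] cx G := by
    filter_upwards [h] with z hz
    unfold cx
    rw [hz]
  have h2 : dW (cx F) v =ᶠ[𝓝 x] dW (cx G) v := by
    filter_upwards [h1.eventually_nhds] with z hz
    exact dW_congr hz v
  unfold hess
  rw [dB_congr h2 v]

lemma diff_dW {A : Type*} [NormedAddCommGroup A] [NormedSpace ℂ A] {F : X → A} {x : X}
    (hF : ContDiffAt ℝ 2 F x) (v : X) : DifferentiableAt ℝ (dW F v) x := by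
  have h : DifferentiableAt ℝ (fderiv ℝ F) x :=
    (hF.fderiv_right (m := 1) (by norm_num)).differentiableAt (by simp)
  have h2 : ∀ u : X, DifferentiableAt ℝ (fun y => fderiv ℝ F y u) x :=
    fun u => h.clm_apply (differentiableAt_const u)
  exact ((h2 _).sub ((h2 _).const_smul Complex.I)).const_smul (1 / 2 : ℂ)

lemma hess_comb {F G : X → ℝ} {x : X} (hF : ContDiffAt ℝ 2 F x) (hG : ContDiffAt ℝ 2 G x)
    (a b : ℝ) (v : X) :
    hess (fun y => a * F y + b * G y) v x = a * hess F v x + b * hess G v x := by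
  have hF' := contDiffAt_cx hF
  have hG' := contDiffAt_cx hG
  have e1 : ∀ᶠ y in 𝓝 x, dW (cx fun y => a * F y + b * G y) v y =
      (a : ℂ) • dW (cx F) v y + (b : ℂ) • dW (cx G) v y := by
    filter_upwards [hF'.eventually (by simp), hG'.eventually (by simp)] with y h1 h2
    have d1 := h1.differentiableAt (by simp)
    have d2 := h2.differentiableAt (by simp)
    have : cx (fun y => a * F y + b * G y) = fun y => (a : ℂ) • cx F y + (b : ℂ) • cx G y := by
      funext y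
      simp [cx]
    rw [this, dW_add (f := fun y => (a : ℂ) • cx F y) (g := fun y => (b : ℂ) • cx G y)
      (d1.const_smul (a : ℂ)) (d2.const_smul (b : ℂ)), dW_const_smul _ d1, dW_const_smul _ d2]
  unfold hess
  rw [dB_congr e1 v, dB_add (f := fun y => (a : ℂ) • dW (cx F) v y)
    (g := fun y => (b : ℂ) • dW (cx G) v y) ((diff_dW hF' v).const_smul (a : ℂ))
    ((diff_dW hG' v).const_smul (b : ℂ)), dB_const_smul _ (diff_dW hF' v),
    dB_const_smul _ (diff_dW hG' v)]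
  simp

/-- `log |g|²` is pluriharmonic -/
lemma hess_log_norm {g : X → ℂ} {x : X} (hg : ContDiffAt ℂ 2 g x) (g0 : g x ≠ 0) (v : X) :
    hess (fun y => Real.log (‖g y‖ ^ 2)) v x = 0 := by
  have hgR : ContDiffAt ℝ 2 g x := hg.restrict_scalars ℝ
  have hf : ContDiffAt ℝ 2 (fun y => ‖g y‖ ^ 2) x := hgR.norm_sq ℂ
  have hpos : (‖g x‖ ^ 2 : ℝ) ≠ 0 := pow_ne_zero _ (norm_ne_zero_iff.2 g0)
  have h1 : hess (fun y => Real.log (‖g y‖ ^ 2)) v x = _ :=
    dB_dW_log (f := fun y => ‖g y‖ ^ 2) hf hpos v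
  rw [h1]
  have hev : ∀ᶠ y in 𝓝 x, DifferentiableAt ℂ g y := by
    filter_upwards [hg.eventually (by simp)] with y hy
    exact hy.differentiableAt (by simp)
  have ecx : cx (fun y => ‖g y‖ ^ 2) = fun y => star (g y) * g y := by
    funext y
    unfold cx
    rw [Complex.star_def, Complex.conj_mul']
    push_cast
    rfl
  have hd : ∀ y, DifferentiableAt ℂ g y → DifferentiableAt ℝ g y :=
    fun y hy => hy.restrictScalars ℝ
  have e1 : ∀ᶠ y in 𝓝 x, dW (cx fun y => ‖g y‖ ^ 2) v y = star (g y) * dW g v y := by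
    filter_upwards [hev] with y hy
    rw [ecx, dW_mul (diff_star (hd y hy)) (hd y hy), dW_star (hd y hy), dB_of_diff hy]
    simp
  have hx := hev.self_of_nhds
  have e2 : dB (dW g v) v x = 0 := by
    rw [← dW_dB hgR]
    have h4 : dB g v =ᶠ[𝓝 x] fun _ => 0 := by
      filter_upwards [hev] with y hy
      exact dB_of_diff hy v
    rw [dW_congr h4 v, dW_const]
  have e3 : dB (dW (cx fun y => ‖g y‖ ^ 2) v) v x = star (dW g v x) * dW g v x := by
    rw [dB_congr e1 v, dB_mul (diff_star (hd x hx)) (diff_dW hgR v), dB_star (hd x hx), e2]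
    simp
  rw [e3, e1.self_of_nhds, norm_mul, norm_star]
  have e4 : (star (dW g v x) * dW g v x).re = ‖dW g v x‖ ^ 2 := by
    rw [Complex.star_def, Complex.conj_mul']
    rw [← Complex.ofReal_pow, Complex.ofReal_re]
  rw [e4]
  have : ‖g x‖ ^ 2 * ‖dW g v x‖ ^ 2 - (‖g x‖ * ‖dW g v x‖) ^ 2 = 0 := by ring
  rw [this, zero_div]

end hess

/-! ### the metric `log det g` -/

section vhs

attribute [local instance] Matrix.linftyOpNormedRing Matrix.linftyOpNormedAlgebra

variable {m : ℕ} {ι : Type*} [Fintype ι] [DecidableEq ι] {w : ℕ} {U : Set (Fin m → ℂ)}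
  {S : Matrix ι ι ℂ} {P : ℕ → (Fin m → ℂ) → Matrix ι ι ℂ} {x : Fin m → ℂ}

/-- the standard frame -/
def fr (m : ℕ) (i : Fin m) : Fin m → ℂ := Pi.single i 1

lemma sum_fr (v : Fin m → ℂ) : ∑ i, v i • fr m i = v := (pi_eq_sum_univ' v).symm

lemma n2_star (v : Fin m → ℂ) : n2 (star v) = n2 v := by
  unfold n2
  exact Finset.sum_congr rfl fun i _ => by rw [Pi.star_apply, norm_star]

lemma gden_eq (h : VHS w U S P) (hx : x ∈ U) (v : Fin m → ℂ) :
    gden w P v x = (sf (gm w P (fr m) x) (star v) (star v)).re := by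
  have hq : star (star v) ⬝ᵥ (gm w P (fr m) x *ᵥ (star v)) =
      ((gden w P (∑ i, star ((star v) i) • fr m i) x : ℝ) : ℂ) := by
    set a : Fin m → ℂ := star v
    rw [← h.gg_self hx]
    have h1 : gg w P (∑ i, star (a i) • fr m i) (∑ i, star (a i) • fr m i) x =
        (dW (grOp w P) (∑ i, star (a i) • fr m i) x *
          tb (grOp w P) (∑ i, star (a i) • fr m i) x).trace := h.gg_eq hx _ _
    have t2 : tb (grOp w P) (∑ i, star (a i) • fr m i) x =
        ∑ l, a l • tb (grOp w P) (fr m l) x := by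
      unfold tb
      rw [VCalc_442.dB_sum_dir, ← Finset.sum_neg_distrib]
      exact Finset.sum_congr rfl fun i _ => by rw [star_star, smul_neg]
    have h0 : ∀ k l, gm w P (fr m) x k l =
        (dW (grOp w P) (fr m k) x * tb (grOp w P) (fr m l) x).trace :=
      fun k l => h.gg_eq hx (fr m k) (fr m l)
    rw [h1, VCalc_442.dW_sum_dir, t2, Finset.sum_mul_sum]
    simp only [smul_mul_assoc, mul_smul_comm, Matrix.trace_sum, Matrix.trace_smul, smul_eq_mul,
      ← h0]
    unfold dotProduct mulVec dotProduct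
    refine Finset.sum_congr rfl fun i _ => ?_
    rw [Finset.mul_sum]
    refine Finset.sum_congr rfl fun j _ => ?_
    simp only [Pi.star_apply]
    ring
  unfold sf
  rw [hq, Complex.ofReal_re]
  congr 1
  have : (∑ i, star ((star v) i) • fr m i) = ∑ i, v i • fr m i :=
    Finset.sum_congr rfl fun i _ => by rw [Pi.star_apply, star_star]
  rw [this, sum_fr]

lemma cont_gm (h : VHS w U S P) (hx : x ∈ U) : ContinuousAt (gm w P (fr m)) x := by
  refine continuousAt_pi.2 fun i => continuousAt_pi.2 fun j => ?_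
  exact ((h.sm_gg (fr m i) (fr m j)).continuousOn).continuousAt (h.op.mem_nhds hx)

lemma gm_pos (h : VHS w U S P) (hx : x ∈ U) (himm : ∀ v, th w P v x = 0 → v = 0) :
    (gm w P (fr m) x).PosDef := by
  refine h.gm_posDef hx _ ?_
  rw [Fintype.linearIndependent_iff]
  intro g hg i
  have h1 : th w P (∑ i, g i • fr m i) x = 0 := by
    rw [h.th_eq hx, VCalc_442.dW_sum_dir]
    simp only [h.th_eq hx] at hg
    exact hg
  have h2 := himm _ h1
  rw [sum_fr] at h2
  exact congrFun h2 i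

/-- near an immersive point `|θ_v|² ≥ c |v|²` and the metric is positive definite -/
lemma gden_lower (h : VHS w U S P) (hx : x ∈ U) (himm : ∀ v, th w P v x = 0 → v = 0) :
    ∃ c : ℝ, 0 < c ∧ ∀ᶠ y in 𝓝 x, y ∈ U ∧ (gm w P (fr m) y).PosDef ∧
      ∀ v : Fin m → ℂ, c * nsq v ≤ gden w P v y := by
  have hp := gm_pos h hx himm
  obtain ⟨c, hc, hev⟩ := exists_lower (H₀ := gm w P (fr m) x) (fun v hv => sf_pos hp hv)
  refine ⟨c, hc, ?_⟩
  filter_upwards [(cont_gm h hx).eventually hev, h.op.mem_nhds hx] with y hy hyU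
  have hlow : ∀ v : Fin m → ℂ, c * nsq v ≤ gden w P v y := by
    intro v
    rw [gden_eq h hyU]
    have h1 := hy (star v)
    rw [n2_star] at h1
    exact h1
  refine ⟨hyU, ?_, hlow⟩
  refine gm_pos h hyU fun v hv => ?_
  have h1 : gden w P v y = 0 := by
    unfold gden gg
    rw [hv]
    simp
  have h2 := hlow v
  rw [h1] at h2
  have h3 : nsq v ≤ 0 := by
    by_contra h4
    push Not at h4
    have := mul_pos hc h4
    linarith
  have h4 : n2 v = 0 := le_antisymm h3 (n2_nonneg v)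
  exact n2_eq_zero h4

/-- the weight `log det g` -/
def ld (w : ℕ) (P : ℕ → (Fin m → ℂ) → Matrix ι ι ℂ) (y : Fin m → ℂ) : ℝ :=
  Real.log (gm w P (fr m) y).det.re

lemma det_re_pos (hp : (gm w P (fr m) x).PosDef) : 0 < (gm w P (fr m) x).det.re :=
  (Complex.pos_iff.1 hp.det_pos).1

lemma sm_det_re (h : VHS w U S P) (hx : x ∈ U) :
    ContDiffAt ℝ ∞ (fun y => (gm w P (fr m) y).det.re) x :=
  Complex.reCLM.contDiff.contDiffAt.comp x ((h.sm_det (fr m)).contDiffAt (h.op.mem_nhds hx))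

/-- **(C2)** `∂∂̄ log det g ≥ c |v|²` near an immersive point -/
theorem hess_ld (h : VHS w U S P) (hx : x ∈ U) (himm : ∀ v, th w P v x = 0 → v = 0) :
    ∃ c : ℝ, 0 < c ∧ ∀ᶠ y in 𝓝 x, ContDiffAt ℝ ∞ (ld w P) y ∧
      ∀ v : Fin m → ℂ, c * nsq v ≤ hess (ld w P) v y := by
  obtain ⟨c1, hc1, hev⟩ := gden_lower h hx himm
  obtain ⟨c, hc, hcn⟩ := nil_bound_adj ι
  refine ⟨c * c1, by positivity, ?_⟩
  filter_upwards [hev] with y hy
  obtain ⟨hyU, hpos, hlow⟩ := hy
  have hD := det_re_pos hpos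
  have hsm := sm_det_re h hyU
  refine ⟨hsm.log hD.ne', fun v => ?_⟩
  have h1 : hess (ld w P) v y = _ :=
    dB_dW_log (f := fun y => (gm w P (fr m) y).det.re) (hsm.of_le ENat.LEInfty.out) hD.ne' v
  rw [h1, le_div_iff₀ (by positivity)]
  have hv : v ∈ Submodule.span ℂ (Set.range (fr m)) := by
    rw [← sum_fr v]
    exact Submodule.sum_mem _ fun i _ => Submodule.smul_mem _ _ (Submodule.subset_span ⟨i, rfl⟩)
  have h2 := h.curv_det_span hcn hyU (fr m) hpos hv
  have e2 : dW (cx fun y => (gm w P (fr m) y).det.re) v =ᶠ[𝓝 y]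
      dW (fun y => (gm w P (fr m) y).det) v := by
    filter_upwards [(h.cx_det_ev hyU (fr m)).eventually_nhds] with z hz
    exact dW_congr hz v
  rw [dB_congr e2 v, e2.self_of_nhds]
  have h3 := mul_le_mul_of_nonneg_left (hlow v) (by positivity :
    0 ≤ (gm w P (fr m) y).det.re ^ 2 * c)
  nlinarith [h2, h3]

/-! ### the weight `-log |σ|²` -/

variable {σ : (Fin m → ℂ) → ι → ℂ}

lemma sm_bn (h : VHS w U S P) (hb : Bot w U P σ) (hx : x ∈ U) :
    ContDiffAt ℝ ∞ (bn w S σ) x := by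
  have h1 : ∀ i, ContDiffAt ℝ ∞ (fun y => σ y i) x := fun i =>
    contDiffAt_pi.1 (hb.sm.contDiffAt (h.op.mem_nhds hx)) i
  have h2 : ContDiffAt ℝ ∞ (fun y => ((-1 : ℂ) ^ w) * sf S (σ y) (σ y)) x := by
    simp only [sf_eq_sum]
    refine contDiffAt_const.mul (ContDiffAt.sum fun i _ => ContDiffAt.sum fun j _ => ?_)
    exact ((Complex.conjCLE : ℂ →L[ℝ] ℂ).contDiff.contDiffAt.comp x (h1 i)).mul
      (contDiffAt_const.mul (h1 j))
  exact Complex.reCLM.contDiff.contDiffAt.comp x h2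

/-- **(C4)** `∂∂̄ (-log |σ|²) = |θ_v σ|² / |σ|²` -/
theorem hess_bot (h : VHS w U S P) (hb : Bot w U P σ) (hx : x ∈ U) (h0 : σ x ≠ 0)
    {v : Fin m → ℂ} {l : ℂ} (hl : P w x *ᵥ dW σ v x = l • σ x) :
    - hess (fun y => Real.log (bn w S σ y)) v x =
      (sf (hm w S P x) (th w P v x *ᵥ σ x) (th w P v x *ᵥ σ x)).re / bn w S σ x := by
  have hpos := h.bn_pos hb hx h0
  have h1 : hess (fun y => Real.log (bn w S σ y)) v x = _ :=
    dB_dW_log ((sm_bn h hb hx).of_le ENat.LEInfty.out) hpos.ne' v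
  rw [h1, h.curv_bot hb hx v hl, h.th_eq hx]
  field_simp

/-- the affine period coordinates -/
def af (σ : (Fin m → ℂ) → ι → ℂ) (k i : ι) (y : Fin m → ℂ) : ℂ := σ y i / σ y k

lemma af_diff (h : VHS w U S P) (hb : Bot w U P σ) (hx : x ∈ U) {k : ι} (hk : σ x k ≠ 0)
    (i : ι) : DifferentiableAt ℂ (af σ k i) x := by
  have h1 := differentiableAt_pi.1 (h.bot_dC hb hx)
  have h2 : af σ k i = fun y => σ y i * (σ y k)⁻¹ := by
    funext y
    exact div_eq_mul_inv _ _
  rw [h2]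
  exact (h1 i).fun_mul ((h1 k).fun_inv hk)

/-- `∂_v (σ_i/σ_k)` in terms of `θ_v σ` -/
lemma dW_af (h : VHS w U S P) (hb : Bot w U P σ) (hx : x ∈ U) {k : ι} (hk : σ x k ≠ 0) (i : ι)
    {v : Fin m → ℂ} {l : ℂ} (hl : P w x *ᵥ dW σ v x = l • σ x) :
    dW (af σ k i) v x =
      ((th w P v x *ᵥ σ x) i - af σ k i x * (th w P v x *ᵥ σ x) k) / σ x k := by
  have hd := h.bot_d hb hx
  have hdi := differentiableAt_pi.1 hd
  have haf : DifferentiableAt ℝ (af σ k i) x := (af_diff h hb hx hk i).restrictScalars ℝ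
  have hev : (fun y => af σ k i y * σ y k) =ᶠ[𝓝 x] fun y => σ y i := by
    have h1 : ContinuousAt (fun y => σ y k) x := (hdi k).continuousAt
    filter_upwards [h1.eventually_ne hk] with y hy
    unfold af
    field_simp
  have h2 := dW_congr hev v
  rw [dW_mul haf (hdi k), dW_apply hd v k, dW_apply hd v i] at h2
  have h3 := h.dW_bot hb hx v
  rw [hl] at h3
  have h3i := congrFun h3 i
  have h3k := congrFun h3 k
  simp only [Pi.add_apply, Pi.smul_apply, smul_eq_mul] at h3i h3k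
  rw [h3i, h3k, ← h.th_eq hx] at h2
  rw [eq_div_iff hk]
  have h4 : af σ k i x * σ x k = σ x i := by
    unfold af
    field_simp
  linear_combination h2 - l * h4

/-- the affine period coordinates vary at most as fast as the Hodge norm of `θ_v σ` -/
theorem af_bound (h : VHS w U S P) (hb : Bot w U P σ) (hx : x ∈ U) {k : ι} (hk : σ x k ≠ 0)
    (hl : ∀ z ∈ U, ∀ v, ∃ l : ℂ, P w z *ᵥ dW σ v z = l • σ z) :
    ∃ C : ℝ, 0 < C ∧ ∀ᶠ y in 𝓝 x, ∀ (v : Fin m → ℂ) (i : ι),
      ‖dW (af σ k i) v y‖ ^ 2 ≤ C * n2 (th w P v y *ᵥ σ y) := by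
  have hdi := differentiableAt_pi.1 (h.bot_d hb hx)
  have hck : ContinuousAt (fun y => σ y k) x := (hdi k).continuousAt
  set B : (Fin m → ℂ) → ℝ := fun y => (∑ i, (1 + ‖af σ k i y‖ ^ 2)) * 2 / ‖σ y k‖ ^ 2 with hB
  have hBc : ContinuousAt B x := by
    have h1 : ∀ i, ContinuousAt (af σ k i) x := fun i => (af_diff h hb hx hk i).continuousAt
    have h2 : ContinuousAt (fun y => (∑ i, (1 + ‖af σ k i y‖ ^ 2)) * 2) x := by
      refine ContinuousAt.mul ?_ continuousAt_const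
      exact tendsto_finsetSum _ fun i _ => tendsto_const_nhds.add ((h1 i).norm.pow 2)
    exact h2.div (hck.norm.pow 2) (pow_ne_zero _ (norm_ne_zero_iff.2 hk))
  have hB0 : 0 ≤ B x := by
    rw [hB]
    have : 0 ≤ ∑ i, (1 + ‖af σ k i x‖ ^ 2) := Finset.sum_nonneg fun i _ => by positivity
    positivity
  refine ⟨B x + 1, by linarith, ?_⟩
  filter_upwards [hBc.eventually_lt_const (lt_add_one _), hck.eventually_ne hk,
    h.op.mem_nhds hx] with y hy1 hy2 hyU v i
  obtain ⟨l, hl'⟩ := hl y hyU v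
  rw [dW_af h hb hyU hy2 i hl', norm_div, div_pow]
  set u := th w P v y *ᵥ σ y with hu
  have hui : ∀ j, ‖u j‖ ^ 2 ≤ n2 u := fun j =>
    Finset.single_le_sum (f := fun j => ‖u j‖ ^ 2) (fun j _ => by positivity) (Finset.mem_univ j)
  have hn := n2_nonneg u
  have h1 : ‖u i - af σ k i y * u k‖ ^ 2 ≤ (1 + ‖af σ k i y‖ ^ 2) * 2 * n2 u := by
    have h2 : ‖u i - af σ k i y * u k‖ ≤ ‖u i‖ + ‖af σ k i y‖ * ‖u k‖ := by
      rw [← norm_mul]; exact norm_sub_le _ _
    have h3 : ‖u i - af σ k i y * u k‖ ^ 2 ≤ (‖u i‖ + ‖af σ k i y‖ * ‖u k‖) ^ 2 :=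
      pow_le_pow_left₀ (norm_nonneg _) h2 2
    have h4 := hui i
    have h5 := mul_le_mul_of_nonneg_left (hui k) (sq_nonneg ‖af σ k i y‖)
    nlinarith [sq_nonneg (‖u i‖ - ‖af σ k i y‖ * ‖u k‖)]
  have h2 : (1 + ‖af σ k i y‖ ^ 2) ≤ ∑ i, (1 + ‖af σ k i y‖ ^ 2) :=
    Finset.single_le_sum (f := fun i => (1 + ‖af σ k i y‖ ^ 2)) (fun j _ => by positivity)
      (Finset.mem_univ i)
  have hpos : 0 < ‖σ y k‖ ^ 2 := by
    have := norm_pos_iff.2 hy2
    positivity
  calc ‖u i - af σ k i y * u k‖ ^ 2 / ‖σ y k‖ ^ 2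
      ≤ ((∑ i, (1 + ‖af σ k i y‖ ^ 2)) * 2 * n2 u) / ‖σ y k‖ ^ 2 := by
        apply div_le_div_of_nonneg_right _ hpos.le
        refine h1.trans ?_
        exact mul_le_mul_of_nonneg_right (mul_le_mul_of_nonneg_right h2 (by norm_num)) hn
    _ = B y * n2 u := by rw [hB]; ring
    _ ≤ (B x + 1) * n2 u := mul_le_mul_of_nonneg_right hy1.le hn

/-- the differential of the affine period coordinates has the kernel of `v ↦ θ_v σ` -/
theorem af_ker (h : VHS w U S P) (hb : Bot w U P σ) (hx : x ∈ U) {k : ι} (hk : σ x k ≠ 0)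
    {v : Fin m → ℂ} {l : ℂ} (hl : P w x *ᵥ dW σ v x = l • σ x)
    (h0 : ∀ i, dW (af σ k i) v x = 0) : th w P v x *ᵥ σ x = 0 := by
  set u := th w P v x *ᵥ σ x with hu
  have h1 : u = (u k / σ x k) • σ x := by
    funext i
    have h2 := h0 i
    rw [dW_af h hb hx hk i hl, div_eq_zero_iff] at h2
    rcases h2 with h2 | h2
    · have h3 : u i = af σ k i x * u k := sub_eq_zero.1 h2
      rw [h3, Pi.smul_apply, smul_eq_mul]
      unfold af
      ring
    · exact absurd h2 hk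
  have h2 : P w x *ᵥ u = 0 := by
    rw [hu, h.th_eq hx]
    exact h.bot_orth hb hx v
  rw [h1, Matrix.mulVec_smul, hb.mem x hx] at h2
  have h3 : u k / σ x k = 0 := by
    have h4 := congrFun h2 k
    simp only [Pi.smul_apply, smul_eq_mul, Pi.zero_apply, mul_eq_zero] at h4
    exact h4.resolve_right hk
  rw [h1, h3, zero_smul]

lemma af_sm (h : VHS w U S P) (hb : Bot w U P σ) (hx : x ∈ U) {k : ι} (hk : σ x k ≠ 0)
    (i : ι) : ContDiffAt ℝ ∞ (af σ k i) x := by
  have h1 : ∀ i, ContDiffAt ℝ ∞ (fun y => σ y i) x := fun i =>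
    contDiffAt_pi.1 (hb.sm.contDiffAt (h.op.mem_nhds hx)) i
  have h2 : af σ k i = fun y => σ y i * (σ y k)⁻¹ := by
    funext y
    exact div_eq_mul_inv _ _
  rw [h2]
  exact (h1 i).mul ((h1 k).inv hk)

/-- the directions of flatness of the line `ℂ σ` -/
def kerσ (w : ℕ) (P : ℕ → (Fin m → ℂ) → Matrix ι ι ℂ) (σ : (Fin m → ℂ) → ι → ℂ)
    (x : Fin m → ℂ) : Submodule ℂ (Fin m → ℂ) where
  carrier := {v | dW (grOp w P) v x *ᵥ σ x = 0}
  add_mem' := by
    intro a b ha hb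
    have ha' : dW (grOp w P) a x *ᵥ σ x = 0 := ha
    have hb' : dW (grOp w P) b x *ᵥ σ x = 0 := hb
    show dW (grOp w P) (a + b) x *ᵥ σ x = 0
    rw [dW_add_dir, Matrix.add_mulVec, ha', hb', add_zero]
  zero_mem' := by
    show dW (grOp w P) 0 x *ᵥ σ x = 0
    have : dW (grOp w P) (0 : Fin m → ℂ) x = 0 := by
      have := dW_smul_dir (grOp w P) x 0 (0 : Fin m → ℂ)
      simpa using this
    rw [this, Matrix.zero_mulVec]
  smul_mem' := by
    intro c a ha
    have ha' : dW (grOp w P) a x *ᵥ σ x = 0 := ha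
    show dW (grOp w P) (c • a) x *ᵥ σ x = 0
    rw [dW_smul_dir, Matrix.smul_mulVec, ha', smul_zero]

/-- the matrix of the differential of the affine period coordinates -/
def afM (σ : (Fin m → ℂ) → ι → ℂ) (k : ι) (x : Fin m → ℂ) : Matrix ι (Fin m) ℂ :=
  Matrix.of fun i j => dW (af σ k i) (fr m j) x

lemma afM_mulVec (k : ι) (v : Fin m → ℂ) (i : ι) :
    (afM σ k x *ᵥ v) i = dW (af σ k i) v x := by
  conv_rhs => rw [← sum_fr v]
  rw [VCalc_442.dW_sum_dir]
  unfold afM mulVec dotProduct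
  refine Finset.sum_congr rfl fun j _ => ?_
  simp only [Matrix.of_apply, smul_eq_mul]
  ring

/-- `ν` affine coordinates with independent differentials -/
theorem exists_ind (h : VHS w U S P) (hb : Bot w U P σ) (hx : x ∈ U) {k : ι} (hk : σ x k ≠ 0)
    (hl : ∀ z ∈ U, ∀ v, ∃ l : ℂ, P w z *ᵥ dW σ v z = l • σ z) {ν : ℕ}
    (hν : ν + Module.finrank ℂ (kerσ w P σ x) ≤ m) :
    ∃ f : Fin ν → ι, LinearIndependent ℂ fun (i : Fin ν) (j : Fin m) =>
      dW (af σ k (f i)) (fr m j) x := by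
  have h1 : LinearMap.ker (afM σ k x).mulVecLin ≤ kerσ w P σ x := by
    intro v hv
    obtain ⟨l, hl'⟩ := hl x hx v
    have h2 := af_ker h hb hx hk hl' (fun i => by
      rw [← afM_mulVec (x := x) k v i]
      have : afM σ k x *ᵥ v = 0 := hv
      rw [this]
      rfl)
    rw [h.th_eq hx] at h2
    exact h2
  have h2 := Submodule.finrank_mono h1
  have h3 := LinearMap.finrank_range_add_finrank_ker (afM σ k x).mulVecLin
  rw [Module.finrank_pi, Fintype.card_fin] at h3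
  have h4 : ν ≤ (afM σ k x).rank := by
    unfold Matrix.rank
    omega
  rw [Matrix.rank_eq_finrank_span_row] at h4
  obtain ⟨g, hg1, hg2, hg3⟩ := Submodule.exists_fun_fin_finrank_span_eq ℂ
    (Set.range (afM σ k x).row)
  choose f hf using hg1
  refine ⟨fun i => f (Fin.castLE h4 i), ?_⟩
  have h5 := hg3.comp (Fin.castLE h4) (Fin.castLE_injective h4)
  have e : (fun (i : Fin ν) (j : Fin m) => dW (af σ k (f (Fin.castLE h4 i))) (fr m j) x) =
      g ∘ Fin.castLE h4 := by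
    funext i
    rw [Function.comp_apply, ← hf]
    rfl
  rw [e]
  exact h5

end vhs

section final

attribute [local instance] Matrix.linftyOpNormedRing Matrix.linftyOpNormedAlgebra

variable {m : ℕ} {ι : Type*} [Fintype ι] [DecidableEq ι] {w : ℕ} {U : Set (Fin m → ℂ)}
  {S : Matrix ι ι ℂ} {P : ℕ → (Fin m → ℂ) → Matrix ι ι ℂ} {σ : (Fin m → ℂ) → ι → ℂ}
  {M : Type*} [TopologicalSpace M] [RDom m M]

/-- **GOODLOC**: the good point of the counting argument.  Near the point `x₀` of the Riemann domain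
`M` the weights are `φ = log det g` and `ψ = -a log |σ|² + r log |g|²` for a polarised VHS on an open
set `U` of `ℂᵐ` which is immersive at `x₀`, with a holomorphic section `σ` of the top piece such that
the line `ℂ σ` is parallel; `ν` is at most the rank of `Levi ψ` at `x₀`. -/
theorem exists_good {φ ψ : M → ℝ} {x₀ : M} {e : OpenPartialHomeomorph M (Fin m → ℂ)}
    (he : IsCh e) (hx₀ : x₀ ∈ e.source) (h : VHS w U S P) (h0 : cp x₀ ∈ U) (hb : Bot w U P σ)
    (hσ : σ (cp x₀) ≠ 0) (hl : ∀ z ∈ U, ∀ v, ∃ l : ℂ, P w z *ᵥ dW σ v z = l • σ z)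
    (himm : ∀ v, th w P v (cp x₀) = 0 → v = 0) {a : ℝ} (ha : 0 < a) {g : (Fin m → ℂ) → ℂ}
    (hg : AnalyticAt ℂ g (cp x₀)) (g0 : g (cp x₀) ≠ 0) (r : ℝ)
    (hφ : ∀ᶠ z in 𝓝 (cp x₀), φ (e.symm z) = Real.log (gm w P (fr m) z).det.re)
    (hψ : ∀ᶠ z in 𝓝 (cp x₀), ψ (e.symm z) =
      - (a * Real.log (bn w S σ z)) + r * Real.log (‖g z‖ ^ 2))
    {ν : ℕ} (hν : ∀ K : Submodule ℂ (Fin m → ℂ), (∀ v ∈ K, Levi ψ x₀ v = 0) →
      ν + Module.finrank ℂ K ≤ m) : Nonempty (CntDefs_857.Good φ ψ ν) := by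
  classical
  -- a nonvanishing coordinate
  obtain ⟨k, hk⟩ : ∃ k, σ (cp x₀) k ≠ 0 := by
    by_contra hcon
    push Not at hcon
    exact hσ (funext hcon)
  -- the good neighbourhood
  obtain ⟨c1, hc1, hev1⟩ := hess_ld h h0 himm
  obtain ⟨C2, hC2, hev2⟩ := af_bound h hb h0 hk hl
  have hKc : ContinuousAt (hm w S P) (cp x₀) := by
    have h1 : ContDiffOn ℝ ∞ (fun y => S * sgOp w P y) U := contDiffOn_const.mul h.smC
    exact h1.continuousOn.continuousAt (h.op.mem_nhds h0)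
  obtain ⟨c3, hc3, hev3⟩ := exists_lower (H₀ := hm w S P (cp x₀))
    (fun v hv => sf_pos (h.hmPos h0) hv)
  have hbn0 : 0 < bn w S σ (cp x₀) := h.bn_pos hb h0 hσ
  have hbnc : ContinuousAt (bn w S σ) (cp x₀) := (sm_bn h hb h0).continuousAt
  have hev4 : ∀ᶠ z in 𝓝 (cp x₀), bn w S σ z < 2 * bn w S σ (cp x₀) :=
    hbnc.eventually_lt_const (by linarith)
  have hdi := differentiableAt_pi.1 (h.bot_d hb h0)
  have hev5 : ∀ᶠ z in 𝓝 (cp x₀), σ z k ≠ 0 := (hdi k).continuousAt.eventually_ne hk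
  have hev6 : ∀ᶠ z in 𝓝 (cp x₀), ContDiffAt ℂ 2 g z ∧ g z ≠ 0 := by
    filter_upwards [hg.eventually_analyticAt, hg.continuousAt.eventually_ne g0] with z h1 h2
    exact ⟨h1.contDiffAt, h2⟩
  -- the formula for the Hessian of `ψ`
  have hψh : ∀ z, z ∈ U → σ z k ≠ 0 → ContDiffAt ℂ 2 g z → g z ≠ 0 →
      (∀ᶠ y in 𝓝 z, ψ (e.symm y) = - (a * Real.log (bn w S σ y)) + r * Real.log (‖g y‖ ^ 2)) →
      ContDiffAt ℝ 2 (ψ ∘ e.symm) z ∧ ∀ v, hess (ψ ∘ e.symm) v z =
        a * ((sf (hm w S P z) (th w P v z *ᵥ σ z) (th w P v z *ᵥ σ z)).re / bn w S σ z) := by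
    intro z hz hzk hgz gz0 hev
    have hσz : σ z ≠ 0 := fun h => hzk (by rw [h]; rfl)
    have hbz := h.bn_pos hb hz hσz
    have hs1 : ContDiffAt ℝ 2 (fun y => Real.log (bn w S σ y)) z :=
      ((sm_bn h hb hz).of_le ENat.LEInfty.out).log hbz.ne'
    have hs2 : ContDiffAt ℝ 2 (fun y => Real.log (‖g y‖ ^ 2)) z :=
      ((hgz.restrict_scalars ℝ).norm_sq ℂ).log (pow_ne_zero _ (norm_ne_zero_iff.2 gz0))
    have hev' : (ψ ∘ e.symm) =ᶠ[𝓝 z] fun y =>
        (-a) * Real.log (bn w S σ y) + r * Real.log (‖g y‖ ^ 2) := by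
      filter_upwards [hev] with y hy
      rw [Function.comp_apply, hy]
      ring
    refine ⟨((contDiffAt_const.mul hs1).add (contDiffAt_const.mul hs2)).congr_of_eventuallyEq
      hev', fun v => ?_⟩
    obtain ⟨l, hl'⟩ := hl z hz v
    rw [hess_congr hev' v, hess_comb hs1 hs2, hess_log_norm hgz gz0, mul_zero, add_zero,
      ← hess_bot h hb hz hσz hl']
    ring
  -- the neighbourhood in `ℂᵐ`
  have hall : ∀ᶠ z in 𝓝 (cp x₀), z ∈ U ∧ (ContDiffAt ℝ ∞ (ld w P) z ∧
      ∀ v : Fin m → ℂ, c1 * nsq v ≤ hess (ld w P) v z) ∧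
      (∀ (v : Fin m → ℂ) (i : ι), ‖dW (af σ k i) v z‖ ^ 2 ≤ C2 * n2 (th w P v z *ᵥ σ z)) ∧
      (∀ v : ι → ℂ, c3 * n2 v ≤ (sf (hm w S P z) v v).re) ∧
      bn w S σ z < 2 * bn w S σ (cp x₀) ∧ σ z k ≠ 0 ∧ (ContDiffAt ℂ 2 g z ∧ g z ≠ 0) ∧
      (∀ᶠ y in 𝓝 z, φ (e.symm y) = Real.log (gm w P (fr m) y).det.re) ∧
      (∀ᶠ y in 𝓝 z, ψ (e.symm y) = - (a * Real.log (bn w S σ y)) + r * Real.log (‖g y‖ ^ 2)) :=
    (h.op.eventually_mem h0).and (hev1.and (hev2.and ((hKc.eventually hev3).and (hev4.and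
      (hev5.and (hev6.and (hφ.eventually_nhds.and hψ.eventually_nhds)))))))
  -- the rank
  have hker : ν + Module.finrank ℂ (kerσ w P σ (cp x₀)) ≤ m := by
    refine hν _ fun v hv => ?_
    have hv' : dW (grOp w P) v (cp x₀) *ᵥ σ (cp x₀) = 0 := hv
    obtain ⟨h1, -, -, -, -, h2, h3, -, h4⟩ := hall.self_of_nhds
    obtain ⟨h5, h6⟩ := hψh _ h1 h2 h3.1 h3.2 h4
    rw [levi_eq he hx₀ h5]
    have h7 := h6 v
    rw [h.th_eq h0, hv'] at h7
    rw [show (dB (dW (cx (ψ ∘ e.symm)) v) v (cp x₀)).re = hess (ψ ∘ e.symm) v (cp x₀) from rfl, h7]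
    simp
  obtain ⟨f, hf⟩ := exists_ind h hb h0 hk hl hker
  have hU := (e.open_source.eventually_mem hx₀).and
    ((cp_cont (M := M)).continuousAt.eventually hall)
  refine ⟨{
    x₀ := x₀
    U := _
    hU := hU
    c := min c1 (a * c3 / (2 * bn w S σ (cp x₀) * (C2 * (ν + 1))))
    hc := by positivity
    b := fun i y => af σ k (f i) (cp y)
    smb := ?_
    holb := ?_
    ind := ?_
    posφ := ?_
    posψ := ?_ }⟩
  · intro i x hx
    obtain ⟨hxe, hz⟩ := hx
    have h1 := af_sm h hb hz.1 hz.2.2.2.2.2.1 (f i)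
    refine h1.congr_of_eventuallyEq ?_
    have h2 : ∀ᶠ z in 𝓝 (cp x), z ∈ (ch x).target :=
      (ch x).open_target.mem_nhds ((isCh_ch x).cp_mem (mem_ch x))
    filter_upwards [h2] with z hz
    simp only [Function.comp_apply, (isCh_ch x).cp_symm hz]
  · intro i j x hx
    obtain ⟨hxe, hz⟩ := hx
    rw [Ipc735.db_eq_dB j _ he hxe]
    have h2 : (fun y : M => af σ k (f i) (cp y)) ∘ e.symm =ᶠ[𝓝 (cp x)] af σ k (f i) := by
      filter_upwards [e.open_target.mem_nhds (he.cp_mem hxe)] with z hz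
      simp only [Function.comp_apply, he.cp_symm hz]
    rw [dB_congr h2]
    exact dB_of_diff (af_diff h hb hz.1 hz.2.2.2.2.2.1 (f i)) _
  · have h2 : (fun (i : Fin ν) (j : Fin m) => dz j (fun y : M => af σ k (f i) (cp y)) x₀) =
        fun i j => dW (af σ k (f i)) (fr m j) (cp x₀) := by
      funext i j
      rw [Ipc735.dz_eq_dW j _ he hx₀]
      refine dW_congr ?_ _
      filter_upwards [e.open_target.mem_nhds (he.cp_mem hx₀)] with z hz
      simp only [Function.comp_apply, he.cp_symm hz]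
    rw [h2]
    exact hf
  · intro x hx v
    obtain ⟨hxe, hz⟩ := hx
    obtain ⟨h1, ⟨h2, h3⟩, -, -, -, -, -, h4, -⟩ := hz
    have h5 : (φ ∘ e.symm) =ᶠ[𝓝 (cp x)] ld w P := h4
    have h6 : ContDiffAt ℝ 2 (φ ∘ e.symm) (cp x) :=
      (h2.of_le ENat.LEInfty.out).congr_of_eventuallyEq h5
    rw [levi_eq he hxe h6]
    have h7 : hess (φ ∘ e.symm) v (cp x) = hess (ld w P) v (cp x) := hess_congr h5 v
    have h8 := h3 v
    rw [← h7] at h8
    refine le_trans ?_ h8
    exact mul_le_mul_of_nonneg_right (min_le_left _ _) (nsq_nonneg v)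
  · intro x hx v
    obtain ⟨hxe, hz⟩ := hx
    obtain ⟨h1, -, h2, h3, h4, h5, h6, -, h7⟩ := hz
    obtain ⟨h8, h9⟩ := hψh _ h1 h5 h6.1 h6.2 h7
    rw [levi_eq he hxe h8]
    have h10 : hess (ψ ∘ e.symm) v (cp x) = _ := h9 v
    rw [show (dB (dW (cx (ψ ∘ e.symm)) v) v (cp x)).re = hess (ψ ∘ e.symm) v (cp x) from rfl, h10]
    set u := th w P v (cp x) *ᵥ σ (cp x) with hu
    have hn := n2_nonneg u
    have hσz : σ (cp x) ≠ 0 := fun h => h5 (by rw [h]; rfl)
    have hbz := h.bn_pos hb h1 hσz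
    -- the left hand side
    have e1 : ∑ i, ‖∑ j, dz j (fun y : M => af σ k (f i) (cp y)) x * v j‖ ^ 2 ≤
        ν * (C2 * n2 u) := by
      calc ∑ i, ‖∑ j, dz j (fun y : M => af σ k (f i) (cp y)) x * v j‖ ^ 2
          ≤ ∑ _i : Fin ν, C2 * n2 u := by
            refine Finset.sum_le_sum fun i _ => ?_
            rw [sum_dz he hxe]
            have h11 : (fun y : M => af σ k (f i) (cp y)) ∘ e.symm =ᶠ[𝓝 (cp x)] af σ k (f i) := by
              filter_upwards [e.open_target.mem_nhds (he.cp_mem hxe)] with z hz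
              simp only [Function.comp_apply, he.cp_symm hz]
            rw [dW_congr h11]
            exact h2 v (f i)
        _ = ν * (C2 * n2 u) := by simp
    have e2 : a * c3 / (2 * bn w S σ (cp x₀)) * n2 u ≤
        a * ((sf (hm w S P (cp x)) u u).re / bn w S σ (cp x)) := by
      have h12 := h3 u
      have h13 : c3 * n2 u / (2 * bn w S σ (cp x₀)) ≤
          (sf (hm w S P (cp x)) u u).re / bn w S σ (cp x) := by
        rw [div_le_div_iff₀ (by positivity) hbz]
        have h14 : 0 ≤ c3 * n2 u := mul_nonneg hc3.le hn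
        calc c3 * n2 u * bn w S σ (cp x) ≤ c3 * n2 u * (2 * bn w S σ (cp x₀)) :=
              mul_le_mul_of_nonneg_left h4.le h14
          _ ≤ _ := mul_le_mul_of_nonneg_right h12 (by positivity)
      calc a * c3 / (2 * bn w S σ (cp x₀)) * n2 u = a * (c3 * n2 u / (2 * bn w S σ (cp x₀))) := by
            ring
        _ ≤ _ := mul_le_mul_of_nonneg_left h13 ha.le
    refine le_trans ?_ e2
    have e3 : 0 ≤ ∑ i, ‖∑ j, dz j (fun y : M => af σ k (f i) (cp y)) x * v j‖ ^ 2 :=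
      Finset.sum_nonneg fun i _ => by positivity
    calc min c1 (a * c3 / (2 * bn w S σ (cp x₀) * (C2 * (ν + 1)))) *
          ∑ i, ‖∑ j, dz j (fun y : M => af σ k (f i) (cp y)) x * v j‖ ^ 2
        ≤ a * c3 / (2 * bn w S σ (cp x₀) * (C2 * (ν + 1))) * (ν * (C2 * n2 u)) :=
          mul_le_mul (min_le_right _ _) e1 e3 (by positivity)
      _ = a * c3 / (2 * bn w S σ (cp x₀)) * n2 u * (ν / (ν + 1)) := by field_simp
      _ ≤ a * c3 / (2 * bn w S σ (cp x₀)) * n2 u * 1 := by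
          apply mul_le_mul_of_nonneg_left
          · rw [div_le_one (by positivity)]; linarith
          · positivity
      _ = _ := mul_one _

end final

end Crest.Agent.R276.GoodLoc_442
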