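import Mathlib

/-!
# R276, leaf DESC (helper327), part 2: chains along the fibres of an open map

`P : X → X → G` is a cocycle on the open sets `V` of a family `𝒱` covering `X` (`Sys`).
`Ch P f 𝒱 x z g`: there is a chain `x = x_0, …, x_r = z` in one fibre of `f`, consecutive points in a member of
`𝒱`, and `g = P x_0 x_1 ⋯ P x_{r-1} x_r`.
-/

set_option autoImplicit false
set_option linter.unusedSectionVars false

open Set Filter Topology

namespace Crest.Agent.R276.DescB_327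

variable {X T G : Type*} [TopologicalSpace X] [TopologicalSpace T] [Group G]

/-- a covering of `X` by open sets on which `P` is a cocycle -/
structure Sys (P : X → X → G) (𝒱 : Set (Set X)) : Prop where
  op : ∀ V ∈ 𝒱, IsOpen V
  cov : ∀ x, ∃ V ∈ 𝒱, x ∈ V
  coc : ∀ V ∈ 𝒱, ∀ a ∈ V, ∀ b ∈ V, ∀ c ∈ V, P a b * P b c = P a c

namespace Sys

variable {P : X → X → G} {𝒱 : Set (Set X)} (h : Sys P 𝒱)

include h

theorem self (x : X) : P x x = 1 := by
  obtain ⟨V, hV, hx⟩ := h.cov x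
  have := h.coc V hV x hx x hx x hx
  simpa using this

theorem inv {V : Set X} (hV : V ∈ 𝒱) {a b : X} (ha : a ∈ V) (hb : b ∈ V) : P b a = (P a b)⁻¹ := by
  have h1 := h.coc V hV a ha b hb a ha
  rw [h.self a] at h1
  exact (inv_eq_of_mul_eq_one_right h1).symm

end Sys

/-- chains along the fibres of `f` -/
inductive Ch (P : X → X → G) (f : X → T) (𝒱 : Set (Set X)) : X → X → G → Prop
  | refl (x : X) : Ch P f 𝒱 x x 1
  | step {x y z : X} {g : G} (V : Set X) : Ch P f 𝒱 x y g → V ∈ 𝒱 → y ∈ V → z ∈ V → f y = f z →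
      Ch P f 𝒱 x z (g * P y z)

namespace Ch

variable {P : X → X → G} {f : X → T} {𝒱 : Set (Set X)}

theorem fib {x z : X} {g : G} (h : Ch P f 𝒱 x z g) : f x = f z := by
  induction h with
  | refl => rfl
  | step V _ _ _ _ hf ih => rw [ih, hf]

theorem single {x z : X} {V : Set X} (hV : V ∈ 𝒱) (hx : x ∈ V) (hz : z ∈ V) (hf : f x = f z) :
    Ch P f 𝒱 x z (P x z) := by
  have h := Ch.step (P := P) (f := f) (𝒱 := 𝒱) V (Ch.refl x) hV hx hz hf
  rwa [one_mul] at h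

theorem trans {x y z : X} {g g' : G} (h : Ch P f 𝒱 x y g) (h' : Ch P f 𝒱 y z g') :
    Ch P f 𝒱 x z (g * g') := by
  induction h' with
  | refl => simpa using h
  | step V _ hV hy hz hf ih =>
    rw [← mul_assoc]
    exact Ch.step V ih hV hy hz hf

theorem symm (hs : Sys P 𝒱) {x z : X} {g : G} (h : Ch P f 𝒱 x z g) : Ch P f 𝒱 z x g⁻¹ := by
  induction h with
  | refl => simpa using Ch.refl _
  | step V _ hV hy hz hf ih =>
    rw [mul_inv_rev, ← hs.inv hV hy hz]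
    exact (single hV hz hy hf.symm).trans ih

/-- a relation that is compositional and holds on small pairs holds along chains -/
theorem induct {Q : X → X → G → Prop} (h1 : ∀ x, Q x x 1)
    (h2 : ∀ x y z g g', Q x y g → Q y z g' → Q x z (g * g'))
    (h3 : ∀ V ∈ 𝒱, ∀ x ∈ V, ∀ y ∈ V, f x = f y → Q x y (P x y))
    {x z : X} {g : G} (h : Ch P f 𝒱 x z g) : Q x z g := by
  induction h with
  | refl => exact h1 _
  | step V _ hV hy hz hf ih => exact h2 _ _ _ _ _ ih (h3 V hV _ hy _ hz hf)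

/-- chains move to nearby fibres -/
theorem openness (hs : Sys P 𝒱) (hf : IsOpenMap f) (hfc : Continuous f) {x z : X} {g : G}
    (h : Ch P f 𝒱 x z g) : ∃ A ∈ 𝓝 x, ∃ B ∈ 𝓝 z, ∀ x' ∈ A, ∀ z' ∈ B, f x' = f z' →
      Ch P f 𝒱 x' z' (P x' x * g * P z z') := by
  induction h with
  | refl =>
    obtain ⟨V, hV, hx⟩ := hs.cov x
    refine ⟨V, (hs.op V hV).mem_nhds hx, V, (hs.op V hV).mem_nhds hx, fun x' hx' z' hz' hff => ?_⟩
    rw [mul_one, hs.coc V hV x' hx' x hx z' hz']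
    exact single hV hx' hz' hff
  | @step y z g V h hV hy hz hyz ih =>
    obtain ⟨A, hA, B, hB, hAB⟩ := ih
    have hB' : B ∩ V ∈ 𝓝 y := inter_mem hB ((hs.op V hV).mem_nhds hy)
    have hfB : f '' (B ∩ V) ∈ 𝓝 (f z) := by
      rw [← hyz]
      exact hf.image_mem_nhds hB'
    refine ⟨A, hA, V ∩ f ⁻¹' (f '' (B ∩ V)), inter_mem ((hs.op V hV).mem_nhds hz)
      (hfc.continuousAt.preimage_mem_nhds hfB), ?_⟩
    rintro x' hx' z' ⟨hz'V, y', ⟨hy'B, hy'V⟩, hy'z'⟩ hff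
    have h1 := hAB x' hx' y' hy'B (hff.trans hy'z'.symm)
    have h2 := h1.trans (single (P := P) (f := f) hV hy'V hz'V hy'z')
    have h3 : P x' x * g * P y y' * P y' z' = P x' x * (g * P y z) * P z z' := by
      rw [mul_assoc, hs.coc V hV y hy y' hy'V z' hz'V, ← hs.coc V hV y hy z hz z' hz'V]
      group
    rwa [h3] at h2

/-- all points of a preconnected fibre are joined by chains -/
theorem exists_chain (hs : Sys P 𝒱) {x z : X} (hc : IsPreconnected (f ⁻¹' {f x})) (hxz : f x = f z) :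
    ∃ g, Ch P f 𝒱 x z g := by
  by_contra hcon
  let A : Set X := {y | ∃ V ∈ 𝒱, y ∈ V ∧ ∃ w ∈ V, ∃ g, Ch P f 𝒱 x w g}
  -- open sets: union of the members of `𝒱` meeting / not meeting the reachable set
  let U : Set X := ⋃₀ {V | V ∈ 𝒱 ∧ ∃ w ∈ V, f w = f x ∧ ∃ g, Ch P f 𝒱 x w g}
  let W : Set X := ⋃₀ {V | V ∈ 𝒱 ∧ ∃ w ∈ V, f w = f x ∧ ¬ ∃ g, Ch P f 𝒱 x w g}
  have hreach : ∀ V ∈ 𝒱, ∀ w ∈ V, f w = f x → (∃ g, Ch P f 𝒱 x w g) → ∀ w' ∈ V, f w' = f x →
      ∃ g, Ch P f 𝒱 x w' g := by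
    rintro V hV w hw hfw ⟨g, hg⟩ w' hw' hfw'
    exact ⟨_, hg.trans (single hV hw hw' (hfw.trans hfw'.symm))⟩
  have hU : IsOpen U := isOpen_sUnion fun V hV => hs.op V hV.1
  have hW : IsOpen W := isOpen_sUnion fun V hV => hs.op V hV.1
  have hcov : f ⁻¹' {f x} ⊆ U ∪ W := by
    intro w hw
    obtain ⟨V, hV, hwV⟩ := hs.cov w
    by_cases h : ∃ g, Ch P f 𝒱 x w g
    · exact Or.inl ⟨V, ⟨hV, w, hwV, hw, h⟩, hwV⟩
    · exact Or.inr ⟨V, ⟨hV, w, hwV, hw, h⟩, hwV⟩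
  obtain ⟨Vx, hVx, hxV⟩ := hs.cov x
  obtain ⟨Vz, hVz, hzV⟩ := hs.cov z
  obtain ⟨w, hw, ⟨V, ⟨hV, a, ha, hfa, hga⟩, hwV⟩, ⟨V', ⟨hV', b, hb, hfb, hgb⟩, hwV'⟩⟩ :=
    hc U W hU hW hcov ⟨x, rfl, Vx, ⟨hVx, x, hxV, rfl, 1, Ch.refl x⟩, hxV⟩
      ⟨z, hxz.symm, Vz, ⟨hVz, z, hzV, hxz.symm, hcon⟩, hzV⟩
  have h1 := hreach V hV a ha hfa hga w hwV hw
  exact hgb (hreach V' hV' w hwV' hw h1 b hb hfb)

end Ch

/-! ### functions constant on the fibres -/

/-- `u` is locally constant along the fibres of `f` -/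
def LocConstFib {A : Type*} (f : X → T) (u : X → A) : Prop :=
  ∀ z, ∃ U ∈ 𝓝 z, ∀ x ∈ U, ∀ y ∈ U, f x = f y → u x = u y

theorem LocConstFib.const {A : Type*} {f : X → T} {u : X → A} (h : LocConstFib f u)
    (hc : ∀ x, IsPreconnected (f ⁻¹' {f x})) {x y : X} (hxy : f x = f y) : u x = u y := by
  let 𝒱 : Set (Set X) := {V | IsOpen V ∧ ∀ x ∈ V, ∀ y ∈ V, f x = f y → u x = u y}
  let P : X → X → Unit := fun _ _ => ()
  let P' : X → X → Multiplicative ℤ := fun _ _ => 1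
  have hs : Sys P' 𝒱 := by
    refine ⟨fun V hV => hV.1, fun x => ?_, fun V _ a _ b _ c _ => by simp [P']⟩
    obtain ⟨U, hU, hU'⟩ := h x
    obtain ⟨V, hVU, hV, hx⟩ := mem_nhds_iff.1 hU
    exact ⟨V, ⟨hV, fun a ha b hb => hU' a (hVU ha) b (hVU hb)⟩, hx⟩
  obtain ⟨g, hg⟩ := Ch.exists_chain (f := f) hs (hc x) hxy
  exact hg.induct (Q := fun x y _ => u x = u y) (fun _ => rfl) (fun _ _ _ _ _ h h' => h.trans h')
    (fun V hV x hx y hy hf => hV.2 x hx y hy hf)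

end Crest.Agent.R276.DescB_327
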