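import Mathlib

/-!
# R276, leaf KRO (helper25): Kronecker

An endomorphism with integral characteristic polynomial and nonzero eigenvalues of modulus `≤ 1` has a power
that is unipotent.
-/

set_option autoImplicit false

open Polynomial

namespace Crest.Agent.R276.Kro_25

/-- **Kronecker**: roots of a monic integral polynomial all of whose complex roots have modulus `≤ 1` are
`0` or roots of unity. -/
theorem pow_eq_one_of_roots {p : ℤ[X]} (hp : p.Monic)
    (h : ∀ z ∈ (p.map (Int.castRingHom ℂ)).roots, ‖z‖ ≤ 1) {z : ℂ}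
    (hz : z ∈ (p.map (Int.castRingHom ℂ)).roots) (hz0 : z ≠ 0) : ∃ n, 0 < n ∧ z ^ n = 1 := by
  have hM : (p.map (Int.castRingHom ℂ)).mahlerMeasure = 1 := by
    rw [mahlerMeasure_eq_leadingCoeff_mul_prod_roots, (hp.map _).leadingCoeff]
    simp only [norm_one, one_mul]
    have : (Multiset.map (fun a : ℂ => max 1 ‖a‖) (map (Int.castRingHom ℂ) p).roots) =
        Multiset.map (fun _ => (1 : ℝ)) (map (Int.castRingHom ℂ) p).roots :=
      Multiset.map_congr rfl (fun a ha => max_eq_left (h a ha))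
    rw [this]
    simp
  have hz' : z ∈ p.aroots ℂ := by simpa [aroots, algebraMap_int_eq] using hz
  exact pow_eq_one_of_mahlerMeasure_eq_one hM hz0 hz'

/-- a common exponent -/
theorem exists_common {s : Multiset ℂ} (h : ∀ z ∈ s, ∃ n, 0 < n ∧ z ^ n = 1) :
    ∃ e, 0 < e ∧ ∀ z ∈ s, z ^ e = 1 := by
  induction s using Multiset.induction_on with
  | empty => exact ⟨1, one_pos, by simp⟩
  | cons a s ih =>
    obtain ⟨e, he, he'⟩ := ih (fun z hz => h z (Multiset.mem_cons_of_mem hz))
    obtain ⟨n, hn, hn'⟩ := h a (Multiset.mem_cons_self a s)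
    refine ⟨n * e, Nat.mul_pos hn he, ?_⟩
    intro z hz
    rcases Multiset.mem_cons.1 hz with rfl | hz
    · rw [pow_mul, hn', one_pow]
    · rw [mul_comm, pow_mul, he' z hz, one_pow]

/-- **Kronecker for endomorphisms** -/
theorem exists_isNilpotent {V : Type*} [AddCommGroup V] [Module ℂ V] [FiniteDimensional ℂ V]
    (T : V →ₗ[ℂ] V) (p : ℤ[X]) (hp : T.charpoly = p.map (Int.castRingHom ℂ)) (hpm : p.Monic)
    (hT : ∀ μ : ℂ, Module.End.HasEigenvalue T μ → ‖μ‖ ≤ 1) (hinj : Function.Injective T) :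
    ∃ e, 0 < e ∧ IsNilpotent (T ^ e - 1) := by
  have hroot : ∀ z, z ∈ (p.map (Int.castRingHom ℂ)).roots → Module.End.HasEigenvalue T z := by
    intro z hz
    rw [← hp] at hz
    rw [Module.End.hasEigenvalue_iff_isRoot_charpoly]
    exact (mem_roots'.1 hz).2
  have h1 : ∀ z ∈ (p.map (Int.castRingHom ℂ)).roots, ∃ n, 0 < n ∧ z ^ n = 1 := by
    intro z hz
    refine pow_eq_one_of_roots hpm (fun y hy => hT y (hroot y hy)) hz ?_
    rintro rfl
    obtain ⟨v, hv⟩ := (hroot 0 hz).exists_hasEigenvector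
    have h2 := hv.apply_eq_smul
    rw [zero_smul] at h2
    exact hv.2 (hinj (by rw [h2, map_zero]))
  obtain ⟨e, he, he'⟩ := exists_common h1
  refine ⟨e, he, Multiset.card (T.charpoly).roots, ?_⟩
  have hsplit : T.charpoly = (T.charpoly.roots.map (fun a => X - C a)).prod :=
    (IsAlgClosed.splits _).eq_prod_roots_of_monic T.charpoly_monic
  have hdvd : T.charpoly ∣ (X ^ e - 1 : ℂ[X]) ^ (Multiset.card T.charpoly.roots) := by
    have h3 : ∀ s : Multiset ℂ, (∀ z ∈ s, z ^ e = 1) →
        (s.map (fun a => X - C a)).prod ∣ (X ^ e - 1 : ℂ[X]) ^ (Multiset.card s) := by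
      intro s
      induction s using Multiset.induction_on with
      | empty => simp
      | cons a s ih =>
        intro hs
        rw [Multiset.map_cons, Multiset.prod_cons, Multiset.card_cons, pow_succ, mul_comm]
        refine mul_dvd_mul (ih (fun z hz => hs z (Multiset.mem_cons_of_mem hz))) ?_
        rw [dvd_iff_isRoot]
        simp [hs a (Multiset.mem_cons_self a s)]
    have h4 := h3 T.charpoly.roots (by rw [hp]; exact he')
    rwa [← hsplit] at h4
  obtain ⟨q, hq⟩ := hdvd
  have h5 : aeval T ((X ^ e - 1 : ℂ[X]) ^ (Multiset.card T.charpoly.roots)) = 0 := by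
    rw [hq, map_mul, LinearMap.aeval_self_charpoly, zero_mul]
  simpa using h5

/-- matrix version: `A ∈ M_n(ℤ)` with `det A ≠ 0` whose complex eigenvalues have modulus `≤ 1` has a
unipotent power -/
theorem exists_isNilpotent_matrix {n : Type*} [Fintype n] [DecidableEq n] (A : Matrix n n ℤ)
    (hA : A.det ≠ 0) (h : ∀ z ∈ (A.charpoly.map (Int.castRingHom ℂ)).roots, ‖z‖ ≤ 1) :
    ∃ e, 0 < e ∧ IsNilpotent (A ^ e - 1) := by
  set B : Matrix n n ℂ := A.map (Int.castRingHom ℂ) with hB
  have hcp : B.charpoly = A.charpoly.map (Int.castRingHom ℂ) := Matrix.charpoly_map A _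
  have hBdet : B.det ≠ 0 := by
    have : B.det = (Int.castRingHom ℂ) A.det := ((Int.castRingHom ℂ).map_det A).symm
    rw [this]
    simpa using hA
  obtain ⟨e, he, N, hN⟩ := exists_isNilpotent (Matrix.toLin' B) A.charpoly
    (by rw [LinearMap.charpoly, ← hcp]; simp [Matrix.charpoly_toLin']) A.charpoly_monic
    (by
      intro μ hμ
      rw [Module.End.hasEigenvalue_iff_isRoot_charpoly] at hμ
      have h1 : (Matrix.toLin' B).charpoly = A.charpoly.map (Int.castRingHom ℂ) := by
        rw [← hcp]; simp [Matrix.charpoly_toLin']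
      rw [h1] at hμ
      exact h μ (by rw [mem_roots']; exact ⟨(A.charpoly_monic.map _).ne_zero, hμ⟩))
    (by
      rw [← LinearMap.ker_eq_bot, LinearMap.ker_eq_bot', ]
      intro v hv
      rw [Matrix.toLin'_apply] at hv
      by_contra hv0
      exact hBdet (Matrix.exists_mulVec_eq_zero_iff.1 ⟨v, hv0, hv⟩))
  refine ⟨e, he, N, ?_⟩
  have h2 : (B ^ e - 1) ^ N = 0 := by
    apply (Matrix.toLinAlgEquiv' (R := ℂ) (n := n)).injective
    have h3 : (Matrix.toLinAlgEquiv' (R := ℂ) (n := n)) B = Matrix.toLin' B := rfl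
    rw [map_pow, map_sub, map_pow, map_one, map_zero, h3]
    exact hN
  have h4 : ((A ^ e - 1) ^ N).map (Int.castRingHom ℂ) = 0 := by
    have h5 : (Int.castRingHom ℂ).mapMatrix ((A ^ e - 1) ^ N) = 0 := by
      rw [map_pow, map_sub, map_pow, map_one]
      exact h2
    exact h5
  ext i j
  have h6 := congrFun (congrFun h4 i) j
  simpa using h6

end Crest.Agent.R276.Kro_25
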