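import Mathlib
import Crest.Agent.R276.IpcDefs_735
import Crest.Agent.R276.Kro_25

/-!
# R276, leaf DESC (helper327), part 1: uniform exponent, chains along the fibres of a submersion

* `exists_exp N`: an exponent `k` such that `μ ^ k = 1` for every eigenvalue `μ` of an integral matrix of size
  `N` preserving a positive definite Hermitian form.
* `Ch`: products of a near-diagonal cocycle along chains inside the fibres of `f`.
-/

set_option autoImplicit false

open Polynomial Matrix Set Filter Topology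
open Crest.Agent.R276.Ipc735

namespace Crest.Agent.R276.Desc_327

/-! ### uniform exponent -/

/-- a common exponent over a finite set of polynomials -/
theorem exists_common_finset (s : Finset ℤ[X])
    (h : ∀ p ∈ s, ∃ e, 0 < e ∧ ∀ z ∈ (p.map (Int.castRingHom ℂ)).roots, z ≠ 0 →
      (∀ y ∈ (p.map (Int.castRingHom ℂ)).roots, ‖y‖ ≤ 1) → p.Monic → z ^ e = 1) :
    ∃ e, 0 < e ∧ ∀ p ∈ s, ∀ z ∈ (p.map (Int.castRingHom ℂ)).roots, z ≠ 0 →
      (∀ y ∈ (p.map (Int.castRingHom ℂ)).roots, ‖y‖ ≤ 1) → p.Monic → z ^ e = 1 := by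
  classical
  induction s using Finset.induction_on with
  | empty => exact ⟨1, one_pos, by simp⟩
  | insert a s _ ih =>
    obtain ⟨e, he, he'⟩ := ih (fun p hp => h p (Finset.mem_insert_of_mem hp))
    obtain ⟨n, hn, hn'⟩ := h a (Finset.mem_insert_self a s)
    refine ⟨n * e, Nat.mul_pos hn he, ?_⟩
    intro p hp z hz hz0 hy hm
    rcases Finset.mem_insert.1 hp with rfl | hp
    · rw [pow_mul, hn' z hz hz0 hy hm, one_pow]
    · rw [mul_comm, pow_mul, he' p hp z hz hz0 hy hm, one_pow]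

/-- uniform Kronecker: a common exponent for all monic integral polynomials of degree `≤ N` with roots in
the closed unit disc -/
theorem exists_exp_poly (N : ℕ) : ∃ e, 0 < e ∧ ∀ p : ℤ[X], p.Monic → p.natDegree ≤ N →
    (∀ y ∈ (p.map (Int.castRingHom ℂ)).roots, ‖y‖ ≤ 1) →
    ∀ z ∈ (p.map (Int.castRingHom ℂ)).roots, z ≠ 0 → z ^ e = 1 := by
  have hfin := Polynomial.finite_mahlerMeasure_le N 1
  obtain ⟨e, he, he'⟩ := exists_common_finset hfin.toFinset (by
    intro p _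
    by_cases h : (∀ y ∈ (p.map (Int.castRingHom ℂ)).roots, ‖y‖ ≤ 1) ∧ p.Monic
    · obtain ⟨e, he, he'⟩ := Kro_25.exists_common
        (s := (p.map (Int.castRingHom ℂ)).roots.filter (fun z => z ≠ 0)) (by
          intro z hz
          rw [Multiset.mem_filter] at hz
          exact Kro_25.pow_eq_one_of_roots h.2 h.1 hz.1 hz.2)
      exact ⟨e, he, fun z hz hz0 _ _ => he' z (Multiset.mem_filter.2 ⟨hz, hz0⟩)⟩
    · exact ⟨1, one_pos, fun z _ _ h1 h2 => absurd ⟨h1, h2⟩ h⟩)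
  refine ⟨e, he, fun p hp hdeg hy z hz hz0 => he' p ?_ z hz hz0 hy hp⟩
  rw [Set.Finite.mem_toFinset]
  refine ⟨hdeg, ?_⟩
  have hM : (p.map (Int.castRingHom ℂ)).mahlerMeasure = 1 := by
    rw [mahlerMeasure_eq_leadingCoeff_mul_prod_roots, (hp.map _).leadingCoeff]
    simp only [norm_one, one_mul]
    have : (Multiset.map (fun a : ℂ => max 1 ‖a‖) (map (Int.castRingHom ℂ) p).roots) =
        Multiset.map (fun _ => (1 : ℝ)) (map (Int.castRingHom ℂ) p).roots :=
      Multiset.map_congr rfl (fun a ha => max_eq_left (hy a ha))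
    rw [this]
    simp
  rw [hM]
  simp

/-- `re (v^* h v)` -/
noncomputable def qf {N : ℕ} (h : Matrix (Fin N) (Fin N) ℂ) (v : Fin N → ℂ) : ℝ :=
  (star v ⬝ᵥ h *ᵥ v).re

theorem qf_smul {N : ℕ} (h : Matrix (Fin N) (Fin N) ℂ) (c : ℂ) (v : Fin N → ℂ) :
    qf h (c • v) = ‖c‖ ^ 2 * qf h v := by
  unfold qf
  rw [mulVec_smul, star_smul, smul_dotProduct, dotProduct_smul, smul_eq_mul, smul_eq_mul,
    ← mul_assoc, Complex.star_def, ← Complex.normSq_eq_conj_mul_self, Complex.re_ofReal_mul,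
    Complex.normSq_eq_norm_sq]

theorem qf_isom {N : ℕ} {h h' g : Matrix (Fin N) (Fin N) ℂ} (hg : gᴴ * h * g = h')
    (v : Fin N → ℂ) : qf h (g *ᵥ v) = qf h' v := by
  unfold qf
  rw [← hg, star_mulVec, ← dotProduct_mulVec, mulVec_mulVec, mulVec_mulVec, Matrix.mul_assoc]

/-- positive definite (as a real quadratic form) -/
def Pos {N : ℕ} (h : Matrix (Fin N) (Fin N) ℂ) : Prop := ∀ v : Fin N → ℂ, v ≠ 0 → 0 < qf h v

/-- **uniform exponent** -/
theorem exists_exp (N : ℕ) : ∃ k : ℕ, 0 < k ∧ ∀ (A : Matrix (Fin N) (Fin N) ℤ)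
    (h : Matrix (Fin N) (Fin N) ℂ), Pos h →
    (A.map (fun a : ℤ => (a : ℂ)))ᴴ * h * (A.map (fun a : ℤ => (a : ℂ))) = h →
    ∀ (v : Fin N → ℂ) (μ : ℂ), v ≠ 0 → (A.map (fun a : ℤ => (a : ℂ))) *ᵥ v = μ • v → μ ^ k = 1 := by
  obtain ⟨k, hk, hk'⟩ := exists_exp_poly N
  refine ⟨k, hk, fun A h hh hA v μ hv hμ => ?_⟩
  set B : Matrix (Fin N) (Fin N) ℂ := A.map (Int.castRingHom ℂ) with hB
  have hBA : A.map (fun a : ℤ => (a : ℂ)) = B := rfl
  rw [hBA] at hA hμ
  have hnorm : ∀ (w : Fin N → ℂ) (ν : ℂ), w ≠ 0 → B *ᵥ w = ν • w → ‖ν‖ = 1 := by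
    intro w ν hw hν
    have h1 := qf_isom hA w
    rw [hν, qf_smul] at h1
    have h2 := hh w hw
    have h3 : ‖ν‖ ^ 2 = 1 := by
      have : (‖ν‖ ^ 2 - 1) * qf h w = 0 := by linarith
      rcases mul_eq_zero.1 this with h | h
      · linarith
      · linarith
    have h4 : (‖ν‖ - 1) * (‖ν‖ + 1) = 0 := by linarith [h3]
    rcases mul_eq_zero.1 h4 with h | h
    · linarith
    · have := norm_nonneg ν
      linarith
  have hcp : B.charpoly = A.charpoly.map (Int.castRingHom ℂ) := Matrix.charpoly_map A _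
  have heig : ∀ ν : ℂ, ν ∈ (A.charpoly.map (Int.castRingHom ℂ)).roots ↔
      ∃ w : Fin N → ℂ, w ≠ 0 ∧ B *ᵥ w = ν • w := by
    intro ν
    rw [← hcp, mem_roots (charpoly_monic B).ne_zero]
    have h1 : Module.End.HasEigenvalue (Matrix.toLin' B) ν ↔ B.charpoly.IsRoot ν := by
      rw [Module.End.hasEigenvalue_iff_isRoot_charpoly, Matrix.charpoly_toLin']
    rw [← h1]
    constructor
    · intro h
      obtain ⟨w, hw⟩ := h.exists_hasEigenvector
      exact ⟨w, hw.2, by simpa using hw.apply_eq_smul⟩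
    · rintro ⟨w, hw, hw'⟩
      exact Module.End.hasEigenvalue_of_hasEigenvector
        (x := w) ⟨Module.End.mem_eigenspace_iff.2 (by simpa using hw'), hw⟩
  refine hk' A.charpoly A.charpoly_monic ?_ ?_ μ ((heig μ).2 ⟨v, hv, hμ⟩) ?_
  · rw [Matrix.charpoly_natDegree_eq_dim]
    simp
  · intro y hy
    obtain ⟨w, hw, hw'⟩ := (heig y).1 hy
    exact (hnorm w y hw hw').le
  · rintro rfl
    have := hnorm v 0 hv hμ
    simp at this

end Crest.Agent.R276.Desc_327
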