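import Mathlib
import Crest.Agent.R276.IpcDefs_735
import Crest.Agent.R276.Desc_327
import Crest.Agent.R276.DescB_327

/-!
# R276, leaf DESC (helper327), part 3: coordinate projections of Riemann domains

`Prj ι f`: `f : X → T` is a continuous map of Riemann domains given in the canonical coordinates by forgetting
the coordinates not in the range of `ι`.
-/

set_option autoImplicit false
set_option linter.unusedSectionVars false

open Set Filter Topology
open Crest.Agent.R271.Ho51 Crest.Agent.R276.Ipc735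

namespace Crest.Agent.R276.DescC_327

/-- replace the coordinates `ι` of `a` by `b` -/
noncomputable def upd {m r : ℕ} (ι : Fin r → Fin m) (a : Fin m → ℂ) (b : Fin r → ℂ) : Fin m → ℂ :=
  open Classical in fun j => if h : ∃ i, ι i = j then b h.choose else a j

section upd

variable {m r : ℕ} {ι : Fin r → Fin m}

theorem upd_ι (hι : Function.Injective ι) (a : Fin m → ℂ) (b : Fin r → ℂ) (i : Fin r) :
    upd ι a b (ι i) = b i := by
  classical
  have h : ∃ i', ι i' = ι i := ⟨i, rfl⟩
  unfold upd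
  rw [dif_pos h]
  exact congrArg b (hι h.choose_spec)

theorem upd_of_notMem (a : Fin m → ℂ) (b : Fin r → ℂ) {j : Fin m} (hj : ∀ i, ι i ≠ j) :
    upd ι a b j = a j := by
  classical
  unfold upd
  rw [dif_neg]
  rintro ⟨i, hi⟩
  exact hj i hi

theorem upd_comp (hι : Function.Injective ι) (a : Fin m → ℂ) (b : Fin r → ℂ) :
    (fun i => upd ι a b (ι i)) = b := funext fun i => upd_ι hι a b i

theorem upd_self (a : Fin m → ℂ) : upd ι a (fun i => a (ι i)) = a := by
  classical
  funext j
  unfold upd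
  split_ifs with h
  · show a (ι h.choose) = a j
    rw [h.choose_spec]
  · rfl

theorem upd_analytic (a : Fin m → ℂ) (b : Fin r → ℂ) : AnalyticAt ℂ (upd ι a) b := by
  classical
  rw [analyticAt_pi_iff]
  intro j
  by_cases h : ∃ i, ι i = j
  · have : (fun b : Fin r → ℂ => upd ι a b j) = fun b => b h.choose := by
      funext b
      unfold upd
      rw [dif_pos h]
    rw [this]
    exact (ContinuousLinearMap.proj (R := ℂ) (φ := fun _ : Fin r => ℂ) h.choose).analyticAt b
  · have : (fun b : Fin r → ℂ => upd ι a b j) = fun _ => a j := by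
      funext b
      unfold upd
      rw [dif_neg h]
    rw [this]
    exact analyticAt_const

/-- forgetting coordinates -/
noncomputable def fg (ι : Fin r → Fin m) : (Fin m → ℂ) →L[ℂ] (Fin r → ℂ) :=
  ContinuousLinearMap.pi fun i => ContinuousLinearMap.proj (ι i)

@[simp] theorem fg_apply (a : Fin m → ℂ) : fg ι a = fun i => a (ι i) := rfl

theorem fg_upd (hι : Function.Injective ι) (a : Fin m → ℂ) (b : Fin r → ℂ) :
    fg ι (upd ι a b) = b := upd_comp hι a b

theorem fg_surj (hι : Function.Injective ι) : Function.Surjective (fg ι) := fun b =>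
  ⟨upd ι 0 b, fg_upd hι 0 b⟩

end upd

/-- `f` is the projection onto the coordinates `ι` -/
structure Prj {m r : ℕ} {X T : Type*} [TopologicalSpace X] [RDom m X] [TopologicalSpace T]
    [RDom r T] (ι : Fin r → Fin m) (f : X → T) : Prop where
  inj : Function.Injective ι
  cont : Continuous f
  cpf : ∀ x i, cp (f x) i = cp x (ι i)

namespace Prj

variable {m r : ℕ} {X T : Type*} [TopologicalSpace X] [RDom m X] [TopologicalSpace T]
    [RDom r T] {ι : Fin r → Fin m} {f : X → T} (hf : Prj ι f)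

include hf

theorem cp_eq (x : X) : cp (f x) = fg ι (cp x) := funext fun i => hf.cpf x i

/-- the map in charts -/
theorem ev_eq (x : X) : ∀ᶠ y in 𝓝 x, f y = (ch (f x)).symm (fg ι (cp y)) := by
  have h1 : ∀ᶠ y in 𝓝 x, f y ∈ (ch (f x)).source :=
    hf.cont.continuousAt.preimage_mem_nhds ((ch (f x)).open_source.mem_nhds (mem_ch (f x)))
  filter_upwards [h1] with y hy
  rw [← hf.cp_eq y, (isCh_ch (f x)).symm_cp hy]

theorem isOpenMap : IsOpenMap f := by
  rw [isOpenMap_iff_nhds_le]
  intro x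
  have h1 := hf.ev_eq x
  have h2 : Filter.map f (𝓝 x) = Filter.map (fun y => (ch (f x)).symm (fg ι (cp y))) (𝓝 x) :=
    Filter.map_congr h1
  rw [h2]
  have h3 : (fun y : X => (ch (f x)).symm (fg ι (cp y))) =
      (ch (f x)).symm ∘ (fg ι) ∘ (cp : X → (Fin m → ℂ)) := rfl
  rw [h3, ← Filter.map_map, ← Filter.map_map]
  have h4 : Filter.map (cp : X → (Fin m → ℂ)) (𝓝 x) = 𝓝 (cp x) := by
    exact (cp_lh (M := X)).map_nhds_eq x
  have h5 : Filter.map (fg ι) (𝓝 (cp x)) = 𝓝 (fg ι (cp x)) :=
    ((fg ι).isOpenMap (fg_surj hf.inj)).map_nhds_eq (fg ι).continuous.continuousAt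
  have h6 : cp (f x) ∈ (ch (f x)).target := (isCh_ch (f x)).cp_mem (mem_ch (f x))
  have h7 : Filter.map (ch (f x)).symm (𝓝 (cp (f x))) = 𝓝 (f x) := by
    have := (ch (f x)).symm.map_nhds_eq (x := cp (f x)) (by simpa using h6)
    rwa [symm_cp] at this
  rw [h4, h5, ← hf.cp_eq x, h7]

/-- pull back of a holomorphic function -/
theorem holAt_comp {G : Type*} [NormedAddCommGroup G] [NormedSpace ℂ G] {g : T → G} {x : X}
    (hg : HolAt g (f x)) : HolAt (fun y => g (f y)) x := by
  unfold HolAt at hg ⊢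
  have h1 : AnalyticAt ℂ (fun w => (g ∘ (ch (f x)).symm) (fg ι w)) (cp x) := by
    refine AnalyticAt.fun_comp (g := g ∘ (ch (f x)).symm) ?_ ((fg ι).analyticAt (cp x))
    rw [← hf.cp_eq x]
    exact hg
  refine h1.congr ?_
  have h2 : cp x ∈ (ch x).target := (isCh_ch x).cp_mem (mem_ch x)
  have h3 : Tendsto (ch x).symm (𝓝 (cp x)) (𝓝 x) := by
    have := (ch x).symm.continuousAt (x := cp x) (by simpa using h2)
    rwa [ContinuousAt, symm_cp] at this
  filter_upwards [h3.eventually (hf.ev_eq x), (ch x).open_target.mem_nhds h2] with w hw hwt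
  show (g ∘ (ch (f x)).symm) (fg ι w) = g (f ((ch x).symm w))
  rw [hw, (isCh_ch x).cp_symm hwt]
  rfl

theorem smAt_comp {G : Type*} [NormedAddCommGroup G] [NormedSpace ℝ G] {g : T → G} {x : X}
    (hg : SmAt g (f x)) : SmAt (fun y => g (f y)) x := by
  unfold SmAt at hg ⊢
  have h1 : ContDiffAt ℝ (⊤ : ℕ∞) (fun w => (g ∘ (ch (f x)).symm) (fg ι w)) (cp x) := by
    refine ContDiffAt.comp (g := g ∘ (ch (f x)).symm) (cp x) ?_
      ((fg ι).restrictScalars ℝ).contDiff.contDiffAt
    rw [← hf.cp_eq x] 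
    exact hg
  refine h1.congr_of_eventuallyEq ?_
  have h2 : cp x ∈ (ch x).target := (isCh_ch x).cp_mem (mem_ch x)
  have h3 : Tendsto (ch x).symm (𝓝 (cp x)) (𝓝 x) := by
    have := (ch x).symm.continuousAt (x := cp x) (by simpa using h2)
    rwa [ContinuousAt, symm_cp] at this
  filter_upwards [h3.eventually (hf.ev_eq x), (ch x).open_target.mem_nhds h2] with w hw hwt
  show g (f ((ch x).symm w)) = (g ∘ (ch (f x)).symm) (fg ι w)
  rw [hw, (isCh_ch x).cp_symm hwt]
  rfl

end Prj

/-- the local section of `f` through `x` with constant coordinates outside `ι` -/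
noncomputable def lsec {m r : ℕ} {X T : Type*} [TopologicalSpace X] [RDom m X] [TopologicalSpace T]
    [RDom r T] (ι : Fin r → Fin m) (x : X) (τ : T) : X := (ch x).symm (upd ι (cp x) (cp τ))

namespace Prj

variable {m r : ℕ} {X T : Type*} [TopologicalSpace X] [RDom m X] [TopologicalSpace T]
    [RDom r T] {ι : Fin r → Fin m} {f : X → T} (hf : Prj ι f)

include hf

theorem upd_base (x : X) : upd ι (cp x) (cp (f x)) = cp x := by
  rw [hf.cp_eq x, fg_apply, upd_self]

theorem lsec_self (x : X) : lsec ι x (f x) = x := by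
  unfold lsec
  rw [hf.upd_base, symm_cp]

theorem upd_mem (x : X) : ∀ᶠ τ in 𝓝 (f x), upd ι (cp x) (cp τ) ∈ (ch x).target := by
  have h1 : ContinuousAt (fun τ : T => upd ι (cp x) (cp τ)) (f x) :=
    ContinuousAt.comp (g := upd ι (cp x)) (upd_analytic (cp x) _).continuousAt
      cp_cont.continuousAt
  refine h1.eventually_mem ?_
  rw [hf.upd_base]
  exact (ch x).open_target.mem_nhds ((isCh_ch x).cp_mem (mem_ch x))

theorem cp_lsec (x : X) : ∀ᶠ τ in 𝓝 (f x), cp (lsec ι x τ) = upd ι (cp x) (cp τ) := by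
  filter_upwards [hf.upd_mem x] with τ hτ
  exact (isCh_ch x).cp_symm hτ

theorem tendsto_lsec (x : X) : Tendsto (lsec ι x) (𝓝 (f x)) (𝓝 x) := by
  have h1 : ContinuousAt (fun τ : T => upd ι (cp x) (cp τ)) (f x) :=
    ContinuousAt.comp (g := upd ι (cp x)) (upd_analytic (cp x) _).continuousAt
      cp_cont.continuousAt
  have h2 : cp x ∈ (ch x).target := (isCh_ch x).cp_mem (mem_ch x)
  have h3 : ContinuousAt (ch x).symm (upd ι (cp x) (cp (f x))) := by
    rw [hf.upd_base]
    exact (ch x).symm.continuousAt (by simpa using h2)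
  have h4 : ContinuousAt (lsec ι x) (f x) :=
    ContinuousAt.comp (f := fun τ : T => upd ι (cp x) (cp τ)) (g := (ch x).symm) h3 h1
  rw [ContinuousAt, hf.lsec_self] at h4
  exact h4

theorem f_lsec (x : X) : ∀ᶠ τ in 𝓝 (f x), f (lsec ι x τ) = τ := by
  have h1 : ∀ᶠ τ in 𝓝 (f x), τ ∈ (ch (f x)).source :=
    (ch (f x)).open_source.mem_nhds (mem_ch (f x))
  filter_upwards [h1, hf.cp_lsec x, (hf.tendsto_lsec x).eventually (hf.ev_eq x)] with τ h1 h2 h3
  rw [h3, h2, fg_upd hf.inj, (isCh_ch (f x)).symm_cp h1]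

/-- restriction of a holomorphic function to a section -/
theorem holAt_lsec {G : Type*} [NormedAddCommGroup G] [NormedSpace ℂ G] {g : X → G} {x : X}
    (hg : HolAt g x) : HolAt (fun τ => g (lsec ι x τ)) (f x) := by
  unfold HolAt at hg ⊢
  have h1 : AnalyticAt ℂ (fun b => (g ∘ (ch x).symm) (upd ι (cp x) b)) (cp (f x)) := by
    refine AnalyticAt.fun_comp (g := g ∘ (ch x).symm) ?_ (upd_analytic (cp x) _)
    rw [hf.upd_base]
    exact hg
  refine h1.congr ?_
  have h2 : cp (f x) ∈ (ch (f x)).target := (isCh_ch (f x)).cp_mem (mem_ch (f x))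
  filter_upwards [(ch (f x)).open_target.mem_nhds h2] with w hwt
  show (g ∘ (ch x).symm) (upd ι (cp x) w) = g (lsec ι x ((ch (f x)).symm w))
  unfold lsec
  rw [(isCh_ch (f x)).cp_symm hwt]
  rfl

theorem smAt_lsec {G : Type*} [NormedAddCommGroup G] [NormedSpace ℝ G] {g : X → G} {x : X}
    (hg : SmAt g x) : SmAt (fun τ => g (lsec ι x τ)) (f x) := by
  unfold SmAt at hg ⊢
  have h1 : ContDiffAt ℝ (⊤ : ℕ∞) (fun b => (g ∘ (ch x).symm) (upd ι (cp x) b)) (cp (f x)) := by
    refine ContDiffAt.comp (g := g ∘ (ch x).symm) (cp (f x)) ?_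
      ((upd_analytic (cp x) _).contDiffAt.restrict_scalars ℝ)
    rw [hf.upd_base]
    exact hg
  refine h1.congr_of_eventuallyEq ?_
  have h2 : cp (f x) ∈ (ch (f x)).target := (isCh_ch (f x)).cp_mem (mem_ch (f x))
  filter_upwards [(ch (f x)).open_target.mem_nhds h2] with w hwt
  show g (lsec ι x ((ch (f x)).symm w)) = (g ∘ (ch x).symm) (upd ι (cp x) w)
  unfold lsec
  rw [(isCh_ch (f x)).cp_symm hwt]
  rfl

end Prj

end Crest.Agent.R276.DescC_327
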