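import Mathlib
import Crest.Agent.R276.IpcDefs_735
import Crest.Agent.R276.Desc_327
import Crest.Agent.R276.DescB_327
import Crest.Agent.R276.DescC_327

/-!
# R276, leaf DESC (helper327), part 4: the single valued function `E` on the fibre product

`V : VHS m X N w`, `f : X → T` with connected fibres along which `V` is isotrivial (`V.E` flat), `ω` a nowhere
zero section with `P x y ω y ∈ ℂ ω x` for `x`, `y` close to each other in the same fibre. `k` is a uniform exponent.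
`EE x z = c ^ k` where `g ω z = c • ω x` for the transport `g` along some chain from `z` to `x` in the fibre.
-/

set_option autoImplicit false
set_option linter.unusedSectionVars false

open Set Filter Topology Matrix
open Crest.Agent.R271.Ho51 Crest.Agent.R276.Ipc735 Crest.Agent.R276.Desc_327
open Crest.Agent.R276.DescB_327 Crest.Agent.R276.DescC_327

namespace Crest.Agent.R276.DescD_327

/-! ### integral matrices -/

theorem cm_mul {N : ℕ} (g h : GL (Fin N) ℤ) : cm (g * h) = cm g * cm h := by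
  unfold cm
  have : ((g * h : GL (Fin N) ℤ) : Matrix (Fin N) (Fin N) ℤ) =
      (g : Matrix (Fin N) (Fin N) ℤ) * (h : Matrix (Fin N) (Fin N) ℤ) := rfl
  rw [this]
  exact Matrix.map_mul (f := Int.castRingHom ℂ)

theorem cm_one {N : ℕ} : cm (1 : GL (Fin N) ℤ) = 1 := by
  unfold cm
  have : ((1 : GL (Fin N) ℤ) : Matrix (Fin N) (Fin N) ℤ) = 1 := rfl
  rw [this]
  exact Matrix.map_one (fun a : ℤ => (a : ℂ)) (by simp) (by simp)

theorem cm_mul_inv {N : ℕ} (g : GL (Fin N) ℤ) : cm g * cm g⁻¹ = 1 := by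
  rw [← cm_mul, mul_inv_cancel, cm_one]

theorem cm_inv_mul {N : ℕ} (g : GL (Fin N) ℤ) : cm g⁻¹ * cm g = 1 := by
  rw [← cm_mul, inv_mul_cancel, cm_one]

theorem cm_mulVec_ne {N : ℕ} (g : GL (Fin N) ℤ) {v : Fin N → ℂ} (hv : v ≠ 0) : cm g *ᵥ v ≠ 0 := by
  intro h
  apply hv
  have := congrArg (fun u => cm g⁻¹ *ᵥ u) h
  simpa [mulVec_mulVec, cm_inv_mul] using this

/-! ### the relation along chains -/

/-- `g` transports the structure at `y` to the structure at `x` -/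
structure Tr {X : Type*} {N : ℕ} (H : X → Matrix (Fin N) (Fin N) ℂ) (ω : X → Fin N → ℂ)
    (x y : X) (g : GL (Fin N) ℤ) : Prop where
  isom : (cm g)ᴴ * H x * cm g = H y
  line : ∃ c : ℂ, cm g *ᵥ ω y = c • ω x

namespace Tr

variable {X : Type*} {N : ℕ} {H : X → Matrix (Fin N) (Fin N) ℂ} {ω : X → Fin N → ℂ}

theorem refl (x : X) : Tr H ω x x 1 :=
  ⟨by rw [cm_one]; simp, ⟨1, by rw [cm_one]; simp⟩⟩

theorem trans {x y z : X} {g g' : GL (Fin N) ℤ} (h : Tr H ω x y g) (h' : Tr H ω y z g') :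
    Tr H ω x z (g * g') := by
  obtain ⟨h1, c, h2⟩ := h
  obtain ⟨h1', c', h2'⟩ := h'
  refine ⟨?_, c' * c, ?_⟩
  · rw [cm_mul, conjTranspose_mul, ← h1', ← h1]
    simp only [Matrix.mul_assoc]
  · rw [cm_mul, ← mulVec_mulVec, h2', mulVec_smul, h2, smul_smul]

end Tr

/-- the data -/
structure Dat {X T : Type*} [TopologicalSpace X] [TopologicalSpace T] {N : ℕ}
    (P : X → X → GL (Fin N) ℤ) (H : X → Matrix (Fin N) (Fin N) ℂ) (ω : X → Fin N → ℂ)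
    (f : X → T) : Prop where
  ndc : NDC P
  pos : ∀ x, Pos (H x)
  ne : ∀ x, ω x ≠ 0
  fib : ∀ z, ∃ U ∈ 𝓝 z, ∀ x ∈ U, ∀ y ∈ U, f x = f y → Tr H ω x y (P x y)
  conn : ∀ x, IsPreconnected (f ⁻¹' {f x})

namespace Dat

variable {X T : Type*} [TopologicalSpace X] [TopologicalSpace T] {N : ℕ}
    {P : X → X → GL (Fin N) ℤ} {H : X → Matrix (Fin N) (Fin N) ℂ} {ω : X → Fin N → ℂ}
    {f : X → T}

/-- the good open sets -/
def 𝒱 (P : X → X → GL (Fin N) ℤ) (H : X → Matrix (Fin N) (Fin N) ℂ) (ω : X → Fin N → ℂ)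
    (f : X → T) : Set (Set X) :=
  {V | IsOpen V ∧ (∀ a ∈ V, ∀ b ∈ V, ∀ c ∈ V, P a b * P b c = P a c) ∧
    ∀ x ∈ V, ∀ y ∈ V, f x = f y → Tr H ω x y (P x y)}

variable (D : Dat P H ω f)

include D

theorem sys : Sys P (𝒱 P H ω f) := by
  refine ⟨fun V hV => hV.1, fun x => ?_, fun V hV => hV.2.1⟩
  obtain ⟨U, hU, hU'⟩ := D.ndc x
  obtain ⟨U2, hU2, hU2'⟩ := D.fib x
  obtain ⟨W, hWU, hW, hx⟩ := mem_nhds_iff.1 (inter_mem hU hU2)
  refine ⟨W, ⟨hW, fun a ha b hb c hc => ?_, fun a ha b hb h => hU2' a (hWU ha).2 b (hWU hb).2 h⟩, hx⟩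
  exact hU' a (hWU ha).1 b (hWU hb).1 c (hWU hc).1

theorem tr {x z : X} {g : GL (Fin N) ℤ} (h : Ch P f (𝒱 P H ω f) x z g) : Tr H ω x z g :=
  h.induct Tr.refl (fun _ _ _ _ _ h h' => h.trans h') (fun V hV x hx y hy hf => hV.2.2 x hx y hy hf)

theorem exists_chain {x z : X} (hxz : f x = f z) : ∃ g, Ch P f (𝒱 P H ω f) x z g :=
  Ch.exists_chain D.sys (D.conn x) hxz

/-- two transports differ by a root of unity -/
theorem pow_eq {k : ℕ} (hk : ∀ (A : Matrix (Fin N) (Fin N) ℤ)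
    (h : Matrix (Fin N) (Fin N) ℂ), Pos h →
    (A.map (fun a : ℤ => (a : ℂ)))ᴴ * h * (A.map (fun a : ℤ => (a : ℂ))) = h →
    ∀ (v : Fin N → ℂ) (μ : ℂ), v ≠ 0 → (A.map (fun a : ℤ => (a : ℂ))) *ᵥ v = μ • v → μ ^ k = 1)
    {x z : X} {g g' : GL (Fin N) ℤ} (h : Ch P f (𝒱 P H ω f) x z g)
    (h' : Ch P f (𝒱 P H ω f) x z g') {c c' : ℂ} (hc : cm g *ᵥ ω z = c • ω x)
    (hc' : cm g' *ᵥ ω z = c' • ω x) : c ^ k = c' ^ k := by
  have h1 : Ch P f (𝒱 P H ω f) x x (g * g'⁻¹) := h.trans (h'.symm D.sys)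
  have h2 := (D.tr h1).isom
  have hc0 : c' ≠ 0 := by
    rintro rfl
    rw [zero_smul] at hc'
    exact cm_mulVec_ne g' (D.ne z) hc'
  have h3 : cm g'⁻¹ *ᵥ ω x = c'⁻¹ • ω z := by
    have := congrArg (fun u => cm g'⁻¹ *ᵥ u) hc'
    simp only [mulVec_mulVec, cm_inv_mul, one_mulVec, mulVec_smul] at this
    rw [this, smul_smul, inv_mul_cancel₀ hc0, one_smul]
  have h4 : cm (g * g'⁻¹) *ᵥ ω x = (c'⁻¹ * c) • ω x := by
    rw [cm_mul, ← mulVec_mulVec, h3, mulVec_smul, hc, smul_smul]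
  have h5 := hk _ (H x) (D.pos x) h2 (ω x) (c'⁻¹ * c) (D.ne x) h4
  rw [mul_pow, inv_pow] at h5
  field_simp at h5
  rw [h5]

open Classical in
/-- the function `E` on the fibre product -/
noncomputable def EE (_ : Dat P H ω f) (k : ℕ) (x z : X) : ℂ :=
  if h : ∃ c : ℂ, ∃ g, Ch P f (𝒱 P H ω f) x z g ∧ cm g *ᵥ ω z = c • ω x then h.choose ^ k else 1

/-- uniform exponent (property) -/
def UE (N k : ℕ) : Prop := ∀ (A : Matrix (Fin N) (Fin N) ℤ)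
    (h : Matrix (Fin N) (Fin N) ℂ), Pos h →
    (A.map (fun a : ℤ => (a : ℂ)))ᴴ * h * (A.map (fun a : ℤ => (a : ℂ))) = h →
    ∀ (v : Fin N → ℂ) (μ : ℂ), v ≠ 0 → (A.map (fun a : ℤ => (a : ℂ))) *ᵥ v = μ • v → μ ^ k = 1

variable {k : ℕ} (hk : UE N k)

include hk

theorem EE_eq {x z : X} {g : GL (Fin N) ℤ} (h : Ch P f (𝒱 P H ω f) x z g) {c : ℂ}
    (hc : cm g *ᵥ ω z = c • ω x) : D.EE k x z = c ^ k := by
  have hex : ∃ c : ℂ, ∃ g, Ch P f (𝒱 P H ω f) x z g ∧ cm g *ᵥ ω z = c • ω x := ⟨c, g, h, hc⟩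
  unfold EE
  rw [dif_pos hex]
  obtain ⟨g', hg', hc'⟩ := hex.choose_spec
  exact D.pow_eq hk hg' h hc' hc

theorem EE_exists {x z : X} (hxz : f x = f z) : ∃ g, Ch P f (𝒱 P H ω f) x z g ∧ ∃ c : ℂ,
    c ≠ 0 ∧ cm g *ᵥ ω z = c • ω x ∧ D.EE k x z = c ^ k := by
  obtain ⟨g, hg⟩ := D.exists_chain hxz
  obtain ⟨c, hc⟩ := (D.tr hg).line
  refine ⟨g, hg, c, ?_, hc, D.EE_eq hk hg hc⟩
  rintro rfl
  rw [zero_smul] at hc
  exact cm_mulVec_ne g (D.ne z) hc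

theorem EE_ne {x z : X} (hxz : f x = f z) : D.EE k x z ≠ 0 := by
  obtain ⟨g, _, c, hc0, _, hE⟩ := D.EE_exists hk hxz
  rw [hE]
  exact pow_ne_zero _ hc0

theorem EE_self (x : X) : D.EE k x x = 1 := by
  rw [D.EE_eq hk (Ch.refl x) (c := 1) (by rw [cm_one]; simp), one_pow]

theorem EE_mul {x y z : X} (hxy : f x = f y) (hyz : f y = f z) :
    D.EE k x y * D.EE k y z = D.EE k x z := by
  obtain ⟨g, hg, c, _, hc, hE⟩ := D.EE_exists hk hxy
  obtain ⟨g', hg', c', _, hc', hE'⟩ := D.EE_exists hk hyz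
  rw [hE, hE', D.EE_eq hk (hg.trans hg') (c := c' * c), mul_pow, mul_comm]
  rw [cm_mul, ← mulVec_mulVec, hc', mulVec_smul, hc, smul_smul]

/-- norm of `E` -/
theorem EE_norm {x z : X} (hxz : f x = f z) :
    ‖D.EE k x z‖ ^ 2 * qf (H x) (ω x) ^ k = qf (H z) (ω z) ^ k := by
  obtain ⟨g, hg, c, _, hc, hE⟩ := D.EE_exists hk hxz
  have h1 := qf_isom (D.tr hg).isom (ω z)
  rw [hc, qf_smul] at h1
  rw [hE, ← h1, norm_pow, mul_pow, ← pow_mul, ← pow_mul, mul_comm k 2]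

/-- **local formula**: near `(x, z)` the transport is along `P x' x * g * P z z'` for one fixed `g` -/
theorem EE_local (hop : IsOpenMap f) (hfc : Continuous f) {x z : X} (hxz : f x = f z) :
    ∃ g, (∃ c : ℂ, c ≠ 0 ∧ cm g *ᵥ ω z = c • ω x ∧ D.EE k x z = c ^ k) ∧
      ∃ A ∈ 𝓝 x, ∃ B ∈ 𝓝 z, ∀ x' ∈ A, ∀ z' ∈ B, f x' = f z' →
      ∃ c : ℂ, c ≠ 0 ∧ cm g *ᵥ lV P ω z z' = c • lV P ω x x' ∧ D.EE k x' z' = c ^ k := by
  obtain ⟨g, hg, c, hc0, hc, hE⟩ := D.EE_exists hk hxz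
  obtain ⟨A, hA, B, hB, hAB⟩ := hg.openness D.sys hop hfc
  obtain ⟨V, hV, hxV⟩ := D.sys.cov x
  refine ⟨g, ⟨c, hc0, hc, hE⟩, A ∩ V, inter_mem hA ((D.sys.op V hV).mem_nhds hxV), B, hB, ?_⟩
  rintro x' ⟨hx'A, hx'V⟩ z' hz' hxz'
  have h1 := hAB x' hx'A z' hz' hxz'
  obtain ⟨c', hc'⟩ := (D.tr h1).line
  refine ⟨c', ?_, ?_, D.EE_eq hk h1 hc'⟩
  · rintro rfl
    rw [zero_smul] at hc'
    exact cm_mulVec_ne _ (D.ne z') hc'
  · have h2 : P x x' = (P x' x)⁻¹ := D.sys.inv hV hx'V hxV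
    have h3 := congrArg (fun u => cm (P x x') *ᵥ u) hc'
    simp only [mulVec_smul, mulVec_mulVec] at h3
    rw [← cm_mul, h2, ← mul_assoc, ← mul_assoc, inv_mul_cancel, one_mul, ← h2] at h3
    unfold lV
    rw [mulVec_mulVec, ← cm_mul, h3]

end Dat

end Crest.Agent.R276.DescD_327
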