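import Mathlib
import Crest.Agent.R276.DescD_327

/-!
# R276, leaf DESC (helper327), part 5: the function `u` and the weight `psiT`

`S : T → Finset X` a finite slice (all points of `{y = c}` over `τ`, `d` of them). `uu z = ∏_{s ∈ S (f z)} EE z s` is
holomorphic, nowhere zero and `‖uu z‖² = exp (k d (psi z - psiT (f z)))`.
-/

set_option autoImplicit false
set_option linter.unusedSectionVars false

noncomputable section

open Set Filter Topology Matrix
open Crest.Agent.R271.Ho51 Crest.Agent.R276.Ipc735 Crest.Agent.R276.Desc_327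
open Crest.Agent.R276.DescB_327 Crest.Agent.R276.DescC_327 Crest.Agent.R276.DescD_327

namespace Crest.Agent.R276.DescE_327

/-! ### algebra of `HolAt` -/

section holat

variable {m : ℕ} {X : Type*} [TopologicalSpace X] [RDom m X] {x : X}

theorem HolAt.mul {f g : X → ℂ} (hf : HolAt f x) (hg : HolAt g x) :
    HolAt (fun y => f y * g y) x := AnalyticAt.mul hf hg

theorem HolAt.div {f g : X → ℂ} (hf : HolAt f x) (hg : HolAt g x) (h : g x ≠ 0) :
    HolAt (fun y => f y / g y) x := by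
  refine AnalyticAt.div (f := f ∘ (ch x).symm) (g := g ∘ (ch x).symm) hf hg ?_
  show g ((ch x).symm (cp x)) ≠ 0
  rwa [symm_cp]

theorem HolAt.pow {f : X → ℂ} (hf : HolAt f x) (n : ℕ) : HolAt (fun y => f y ^ n) x :=
  AnalyticAt.pow hf n

theorem HolAt.prod {ι : Type*} (s : Finset ι) {f : ι → X → ℂ} (h : ∀ i ∈ s, HolAt (f i) x) :
    HolAt (fun y => ∏ i ∈ s, f i y) x := by
  have h1 : (fun y => ∏ i ∈ s, f i y) ∘ (ch x).symm =
      fun z => ∏ i ∈ s, (f i ∘ (ch x).symm) z := rfl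
  unfold HolAt at h ⊢
  rw [h1]
  exact Finset.analyticAt_fun_prod s h

theorem HolAt.const (c : ℂ) : HolAt (fun _ : X => c) x := by
  unfold HolAt
  exact analyticAt_const

theorem HolAt.comp_pi {N : ℕ} {f : X → Fin N → ℂ} (hf : HolAt f x) (i : Fin N) :
    HolAt (fun y => f y i) x := by
  unfold HolAt at hf ⊢
  exact (analyticAt_pi_iff.1 hf) i

theorem HolAt.mulVec {N : ℕ} {f : X → Fin N → ℂ} (hf : HolAt f x)
    (A : Matrix (Fin N) (Fin N) ℂ) : HolAt (fun y => A *ᵥ f y) x := by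
  unfold HolAt at hf ⊢
  rw [analyticAt_pi_iff] at hf ⊢
  intro i
  have h1 : (fun z => ((fun y => A *ᵥ f y) ∘ (ch x).symm) z i) =
      fun z => ∑ j, A i j * (f ∘ (ch x).symm) z j := rfl
  rw [h1]
  exact Finset.analyticAt_fun_sum _ fun j _ => analyticAt_const.mul (hf j)

theorem HolAt.congr {G : Type*} [NormedAddCommGroup G] [NormedSpace ℂ G] {f g : X → G}
    (hf : HolAt f x) (h : f =ᶠ[𝓝 x] g) : HolAt g x := by
  unfold HolAt at hf ⊢
  refine AnalyticAt.congr hf ?_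
  have h2 : cp x ∈ (ch x).target := (isCh_ch x).cp_mem (mem_ch x)
  have h3 : Tendsto (ch x).symm (𝓝 (cp x)) (𝓝 x) := by
    have := (ch x).symm.continuousAt (x := cp x) (by simpa using h2)
    rwa [ContinuousAt, symm_cp] at this
  exact h3.eventually h

theorem SmAt.congr {G : Type*} [NormedAddCommGroup G] [NormedSpace ℝ G] {f g : X → G}
    (hf : SmAt f x) (h : f =ᶠ[𝓝 x] g) : SmAt g x := by
  unfold SmAt at hf ⊢
  refine ContDiffAt.congr_of_eventuallyEq hf ?_
  have h2 : cp x ∈ (ch x).target := (isCh_ch x).cp_mem (mem_ch x)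
  have h3 : Tendsto (ch x).symm (𝓝 (cp x)) (𝓝 x) := by
    have := (ch x).symm.continuousAt (x := cp x) (by simpa using h2)
    rwa [ContinuousAt, symm_cp] at this
  exact (h3.eventually h).mono fun z hz => hz.symm

end holat

/-! ### slices -/

/-- a finite slice: `S τ` is the set of the points over `τ` with the coordinates outside `ι` equal to `c` -/
structure Slice {m r : ℕ} {X T : Type*} [TopologicalSpace X] [RDom m X]
    (ι : Fin r → Fin m) (f : X → T) (c : Fin m → ℂ) (d : ℕ) (S : T → Finset X) : Prop where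
  mem : ∀ τ x, x ∈ S τ ↔ f x = τ ∧ ∀ j, (∀ i, ι i ≠ j) → cp x j = c j
  card : ∀ τ, (S τ).card = d

namespace Slice

variable {m r : ℕ} {X T : Type*} [TopologicalSpace X] [RDom m X] [TopologicalSpace T] [RDom r T]
  {ι : Fin r → Fin m} {f : X → T} {c : Fin m → ℂ} {d : ℕ} {S : T → Finset X}

/-- the sheets of a slice near a point -/
theorem sheets [T2Space X] (hf : Prj ι f) (hS : Slice ι f c d S) (τ₀ : T) :
    ∀ᶠ τ in 𝓝 τ₀, InjOn (fun s : X => lsec ι s τ) (S τ₀ : Set X) ∧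
      S τ = open Classical in (S τ₀).image (fun s => lsec ι s τ) := by
  classical
  obtain ⟨U, hU, hUd⟩ := (S τ₀ : Set X).toFinite.t2_separation
  have h1 : ∀ s ∈ S τ₀, ∀ᶠ τ in 𝓝 τ₀, lsec ι s τ ∈ U s ∧ f (lsec ι s τ) = τ ∧
      cp (lsec ι s τ) = upd ι (cp s) (cp τ) := by
    intro s hs
    have hfs : f s = τ₀ := ((hS.mem τ₀ s).1 hs).1
    rw [← hfs]
    exact ((hf.tendsto_lsec s).eventually ((hU s).2.mem_nhds (hU s).1)).and
      ((hf.f_lsec s).and (hf.cp_lsec s))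
  have h2 : ∀ᶠ τ in 𝓝 τ₀, ∀ s ∈ S τ₀, lsec ι s τ ∈ U s ∧ f (lsec ι s τ) = τ ∧
      cp (lsec ι s τ) = upd ι (cp s) (cp τ) :=
    (Filter.eventually_all_finset (S τ₀)).2 h1
  filter_upwards [h2] with τ hτ
  have hinj : InjOn (fun s : X => lsec ι s τ) (S τ₀ : Set X) := by
    intro s hs s' hs' h
    by_contra hne
    have hd := hUd hs hs' hne
    exact Set.disjoint_left.1 hd (hτ s hs).1 (by
      have h' : lsec ι s τ = lsec ι s' τ := h
      rw [h']
      exact (hτ s' hs').1)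
  refine ⟨hinj, ?_⟩
  symm
  apply Finset.eq_of_subset_of_card_le
  · intro x hx
    obtain ⟨s, hs, rfl⟩ := Finset.mem_image.1 hx
    rw [hS.mem]
    refine ⟨(hτ s hs).2.1, fun j hj => ?_⟩
    rw [(hτ s hs).2.2, upd_of_notMem _ _ hj]
    exact ((hS.mem τ₀ s).1 hs).2 j hj
  · rw [Finset.card_image_of_injOn hinj, hS.card, hS.card]

theorem prod_eq [T2Space X] (hf : Prj ι f) (hS : Slice ι f c d S) (τ₀ : T) {A : Type*}
    [CommMonoid A] : ∀ᶠ τ in 𝓝 τ₀, ∀ g : X → A, ∏ s ∈ S τ, g s = ∏ s ∈ S τ₀, g (lsec ι s τ) := by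
  classical
  filter_upwards [hS.sheets hf τ₀] with τ hτ g
  rw [hτ.2, Finset.prod_image hτ.1]

theorem sum_eq [T2Space X] (hf : Prj ι f) (hS : Slice ι f c d S) (τ₀ : T) {A : Type*}
    [AddCommMonoid A] : ∀ᶠ τ in 𝓝 τ₀, ∀ g : X → A, ∑ s ∈ S τ, g s = ∑ s ∈ S τ₀, g (lsec ι s τ) := by
  classical
  filter_upwards [hS.sheets hf τ₀] with τ hτ g
  rw [hτ.2, Finset.sum_image hτ.1]

end Slice

/-! ### the function `u` -/

section uu

variable {m r : ℕ} {X T : Type*} [TopologicalSpace X] [RDom m X] [TopologicalSpace T] [RDom r T]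
  {ι : Fin r → Fin m} {f : X → T} {c : Fin m → ℂ} {d : ℕ} {S : T → Finset X}
  {N : ℕ} {P : X → X → GL (Fin N) ℤ} {H : X → Matrix (Fin N) (Fin N) ℂ} {ω : X → Fin N → ℂ}

/-- the function `u` -/
def uu (D : Dat P H ω f) (k : ℕ) (S : T → Finset X) (z : X) : ℂ := ∏ s ∈ S (f z), D.EE k z s

/-- `psi = - log |ω|²` -/
def psi (H : X → Matrix (Fin N) (Fin N) ℂ) (ω : X → Fin N → ℂ) (x : X) : ℝ :=
  - Real.log (qf (H x) (ω x))

/-- the average of `psi` over the slice -/
def psiT (H : X → Matrix (Fin N) (Fin N) ℂ) (ω : X → Fin N → ℂ) (S : T → Finset X) (d : ℕ)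
    (τ : T) : ℝ := (1 / (d : ℝ)) * ∑ s ∈ S τ, psi H ω s

variable (D : Dat P H ω f) {k : ℕ} (hk : Dat.UE N k)

include hk

/-- `EE` is holomorphic along local sections -/
theorem EE_hol (hf : Prj ι f) (hω : ∀ z, HolAt (lV P ω z) z) {z s : X} (hzs : f z = f s) :
    HolAt (fun z' => D.EE k z' (lsec ι s (f z'))) z := by
  obtain ⟨g, ⟨c₀, hc₀, hcg, hE⟩, A, hA, B, hB, hAB⟩ := D.EE_local hk hf.isOpenMap hf.cont hzs
  -- a nonzero component of `ω z`
  obtain ⟨i, hi⟩ : ∃ i, ω z i ≠ 0 := by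
    by_contra hcon
    push Not at hcon
    exact D.ne z (funext hcon)
  have hPz : P z z = 1 := D.sys.self z
  have hlz : lV P ω z z = ω z := by
    unfold lV
    rw [hPz, cm_one, one_mulVec]
  have h1 : HolAt (fun z' => (cm g *ᵥ lV P ω s (lsec ι s (f z'))) i) z := by
    refine HolAt.comp_pi (f := fun z' => cm g *ᵥ lV P ω s (lsec ι s (f z'))) ?_ i
    refine HolAt.mulVec (f := fun z' => lV P ω s (lsec ι s (f z'))) ?_ (cm g)
    refine hf.holAt_comp (g := fun τ => lV P ω s (lsec ι s τ)) ?_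
    rw [hzs]
    exact hf.holAt_lsec (hω s)
  have h2 : HolAt (fun z' => lV P ω z z' i) z := HolAt.comp_pi (f := fun z' => lV P ω z z') (hω z) i
  have h3 : HolAt (fun z' => ((cm g *ᵥ lV P ω s (lsec ι s (f z'))) i / lV P ω z z' i) ^ k) z :=
    HolAt.pow (HolAt.div h1 h2 (by rw [hlz]; exact hi)) k
  refine HolAt.congr h3 ?_
  have h4 : ∀ᶠ z' in 𝓝 z, lsec ι s (f z') ∈ B := by
    have h5 : Tendsto (fun z' => lsec ι s (f z')) (𝓝 z) (𝓝 s) := by
      refine (hf.tendsto_lsec s).comp ?_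
      rw [← hzs]
      exact hf.cont.continuousAt
    exact h5.eventually hB
  have h5 : ∀ᶠ z' in 𝓝 z, f (lsec ι s (f z')) = f z' := by
    have h6 : Tendsto f (𝓝 z) (𝓝 (f s)) := by
      rw [← hzs]
      exact hf.cont.continuousAt
    exact h6.eventually (hf.f_lsec s)
  have h6 : ∀ᶠ z' in 𝓝 z, lV P ω z z' i ≠ 0 := by
    have h7 : ContinuousAt (fun z' => lV P ω z z' i) z := HolAt.continuousAt h2
    refine h7.eventually_ne ?_
    rw [hlz]
    exact hi
  filter_upwards [hA, h4, h5, h6] with z' hzA hzB hfz hne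
  obtain ⟨c', _, hc', hE'⟩ := hAB z' hzA _ hzB hfz.symm
  rw [hE', hc']
  simp only [Pi.smul_apply, smul_eq_mul]
  rw [mul_div_assoc, div_self hne, mul_one]

/-- **`u` is holomorphic** -/
theorem uu_hol [T2Space X] (hf : Prj ι f) (hω : ∀ z, HolAt (lV P ω z) z)
    (hS : Slice ι f c d S) (z : X) : HolAt (uu D k S) z := by
  have h1 : HolAt (fun z' => ∏ s ∈ S (f z), D.EE k z' (lsec ι s (f z'))) z := by
    refine HolAt.prod _ fun s hs => EE_hol D hk hf hω ?_
    exact (((hS.mem (f z) s).1 hs).1).symm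
  refine HolAt.congr h1 ?_
  have h2 := (hf.cont.continuousAt (x := z)).eventually (hS.prod_eq hf (f z) (A := ℂ))
  filter_upwards [h2] with z' hz'
  exact (hz' (fun s => D.EE k z' s)).symm

theorem uu_ne (hS : Slice ι f c d S) (z : X) : uu D k S z ≠ 0 := by
  refine Finset.prod_ne_zero_iff.2 fun s hs => ?_
  exact D.EE_ne hk ((hS.mem (f z) s).1 hs).1.symm

/-- the multiplicative formula -/
theorem uu_mul (hS : Slice ι f c d S) {z z' : X} (hzz : f z = f z') :
    uu D k S z = D.EE k z z' ^ d * uu D k S z' := by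
  unfold uu
  rw [hzz, ← hS.card (f z'), ← Finset.prod_const, ← Finset.prod_mul_distrib]
  refine Finset.prod_congr rfl fun s hs => ?_
  exact (D.EE_mul hk hzz ((hS.mem (f z') s).1 hs).1.symm).symm

theorem norm_EE {x z : X} (hxz : f x = f z) :
    Real.log (‖D.EE k x z‖ ^ 2) = k * (psi H ω x - psi H ω z) := by
  have h1 := D.EE_norm hk hxz
  have hx := D.pos x _ (D.ne x)
  have hz := D.pos z _ (D.ne z)
  have h2 : ‖D.EE k x z‖ ^ 2 = qf (H z) (ω z) ^ k / qf (H x) (ω x) ^ k := by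
    rw [eq_div_iff (pow_ne_zero _ hx.ne'), h1]
  rw [h2, Real.log_div (pow_ne_zero _ hz.ne') (pow_ne_zero _ hx.ne'), Real.log_pow, Real.log_pow]
  unfold psi
  ring

/-- **the norm of `u`** -/
theorem log_uu (hS : Slice ι f c d S) (hd : 0 < d) (z : X) :
    Real.log (‖uu D k S z‖ ^ 2) = k * d * (psi H ω z - psiT H ω S d (f z)) := by
  have h1 : ‖uu D k S z‖ ^ 2 = ∏ s ∈ S (f z), ‖D.EE k z s‖ ^ 2 := by
    unfold uu
    rw [norm_prod, Finset.prod_pow]
  rw [h1, Real.log_prod]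
  · have h2 : ∑ s ∈ S (f z), Real.log (‖D.EE k z s‖ ^ 2) =
        ∑ s ∈ S (f z), (k : ℝ) * (psi H ω z - psi H ω s) :=
      Finset.sum_congr rfl fun s hs => norm_EE D hk ((hS.mem (f z) s).1 hs).1.symm
    rw [h2, ← Finset.mul_sum, Finset.sum_sub_distrib, Finset.sum_const, hS.card, nsmul_eq_mul]
    unfold psiT
    have : (d : ℝ) ≠ 0 := by exact_mod_cast hd.ne'
    field_simp
  · intro s hs
    exact pow_ne_zero _ (norm_ne_zero_iff.2 (D.EE_ne hk ((hS.mem (f z) s).1 hs).1.symm))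

theorem norm_uu (hS : Slice ι f c d S) (hd : 0 < d) (z : X) :
    ‖uu D k S z‖ ^ 2 = Real.exp (k * d * (psi H ω z - psiT H ω S d (f z))) := by
  rw [← log_uu D hk hS hd z, Real.exp_log]
  exact pow_pos (norm_pos_iff.2 (uu_ne D hk hS z)) 2

end uu

/-! ### smoothness of `psiT` -/

section psi

variable {m r : ℕ} {X T : Type*} [TopologicalSpace X] [RDom m X] [TopologicalSpace T] [RDom r T]
  {ι : Fin r → Fin m} {f : X → T} {c : Fin m → ℂ} {d : ℕ} {S : T → Finset X}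
  {N : ℕ} {H : X → Matrix (Fin N) (Fin N) ℂ} {ω : X → Fin N → ℂ}

theorem psiT_ev [T2Space X] (hf : Prj ι f) (hS : Slice ι f c d S) (τ₀ : T) :
    ∀ᶠ τ in 𝓝 τ₀, psiT H ω S d τ = (1 / (d : ℝ)) * ∑ s ∈ S τ₀, psi H ω (lsec ι s τ) := by
  filter_upwards [hS.sum_eq hf τ₀ (A := ℝ)] with τ hτ
  unfold psiT
  rw [hτ]

/-- the average is smooth -/
theorem psiT_smooth [T2Space X] (hf : Prj ι f) (hS : Slice ι f c d S)
    (hψ : ∀ x, SmAt (psi H ω) x) (τ₀ : T) : SmAt (psiT H ω S d) τ₀ := by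
  have h1 : SmAt (fun τ => (1 / (d : ℝ)) * ∑ s ∈ S τ₀, psi H ω (lsec ι s τ)) τ₀ := by
    have h2 : ∀ s ∈ S τ₀, SmAt (fun τ => psi H ω (lsec ι s τ)) τ₀ := by
      intro s hs
      have hfs : f s = τ₀ := ((hS.mem τ₀ s).1 hs).1
      have := hf.smAt_lsec (hψ s)
      rwa [hfs] at this
    unfold SmAt at h2 ⊢
    exact contDiffAt_const.mul (ContDiffAt.sum h2)
  exact SmAt.congr h1 ((psiT_ev hf hS τ₀).mono fun τ hτ => hτ.symm)

end psi

end Crest.Agent.R276.DescE_327
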