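import Crest.Agent.R276.Nil_840

/-!
# R276, leaf VCalc (helper442): adjoints for a positive definite Hermitian matrix `K`

`Adj K a a'` : `a'` is the `K`-adjoint of `a` (i.e. `aᴴ K = K a'`).  Then `tr (a b')` is the
Hilbert-Schmidt inner product.
-/

set_option autoImplicit false

open Matrix Finset
open scoped ComplexOrder MatrixOrder

namespace Crest.Agent.R276.VCalc_442

variable {ι : Type*} [Fintype ι] [DecidableEq ι]

/-- `a'` is the adjoint of `a` for the Hermitian form `K` -/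
def Adj (K a a' : Matrix ι ι ℂ) : Prop := aᴴ * K = K * a'

theorem exists_sqrt {K : Matrix ι ι ℂ} (hK : K.PosDef) :
    ∃ B : Matrix ι ι ℂ, IsUnit B ∧ K = Bᴴ * B := by
  obtain ⟨B, hB⟩ := CStarAlgebra.nonneg_iff_eq_star_mul_self.mp hK.posSemidef.nonneg
  refine ⟨B, ?_, hB⟩
  have h1 : IsUnit K := hK.isUnit
  rw [hB, Matrix.isUnit_iff_isUnit_det] at h1
  rw [Matrix.isUnit_iff_isUnit_det]
  rw [Matrix.det_mul] at h1
  exact isUnit_of_mul_isUnit_right h1

/-- squared Hilbert-Schmidt norm for a general finite index type -/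
noncomputable def hs (A : Matrix ι ι ℂ) : ℝ := ∑ i, ∑ j, ‖A i j‖ ^ 2

omit [DecidableEq ι] in
theorem hs_nonneg (A : Matrix ι ι ℂ) : 0 ≤ hs A :=
  Finset.sum_nonneg fun _ _ => Finset.sum_nonneg fun _ _ => by positivity

omit [DecidableEq ι] in
theorem hs_eq_zero {A : Matrix ι ι ℂ} (h : hs A = 0) : A = 0 := by
  ext i j
  have h1 := (Finset.sum_eq_zero_iff_of_nonneg (fun i _ =>
    Finset.sum_nonneg fun j _ => by positivity)).1 h i (Finset.mem_univ i)
  have h2 := (Finset.sum_eq_zero_iff_of_nonneg (fun j _ => by positivity)).1 h1 j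
    (Finset.mem_univ j)
  simpa using h2

omit [DecidableEq ι] in
theorem trace_mul_conjTranspose (A B : Matrix ι ι ℂ) :
    (A * Bᴴ).trace = ∑ i, ∑ j, A i j * star (B i j) := by
  simp only [Matrix.trace, Matrix.diag, Matrix.mul_apply, Matrix.conjTranspose_apply]

omit [DecidableEq ι] in
theorem trace_mul_conjTranspose_self (A : Matrix ι ι ℂ) : (A * Aᴴ).trace = (hs A : ℂ) := by
  rw [trace_mul_conjTranspose, hs]
  push_cast
  refine Finset.sum_congr rfl fun i _ => Finset.sum_congr rfl fun j _ => ?_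
  rw [Complex.star_def, Complex.mul_conj, Complex.normSq_eq_norm_sq]
  push_cast
  ring

omit [DecidableEq ι] in
theorem norm_trace_mul_le (A B : Matrix ι ι ℂ) :
    ‖(A * Bᴴ).trace‖ ^ 2 ≤ hs A * hs B := by
  rw [trace_mul_conjTranspose]
  have h1 : ‖∑ i, ∑ j, A i j * star (B i j)‖ ≤ ∑ p : ι × ι, ‖A p.1 p.2‖ * ‖B p.1 p.2‖ := by
    rw [Fintype.sum_prod_type]
    refine (norm_sum_le _ _).trans (Finset.sum_le_sum fun i _ => ?_)
    refine (norm_sum_le _ _).trans (Finset.sum_le_sum fun j _ => ?_)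
    simp
  have h2 : (∑ p : ι × ι, ‖A p.1 p.2‖ * ‖B p.1 p.2‖) ^ 2 ≤
      (∑ p : ι × ι, ‖A p.1 p.2‖ ^ 2) * ∑ p : ι × ι, ‖B p.1 p.2‖ ^ 2 :=
    Finset.sum_mul_sq_le_sq_mul_sq _ _ _
  rw [Fintype.sum_prod_type, Fintype.sum_prod_type, Fintype.sum_prod_type] at h2
  rw [Fintype.sum_prod_type] at h1
  exact (pow_le_pow_left₀ (norm_nonneg _) h1 2).trans h2

/-- conjugation by `B` -/
theorem adj_conj {K B : Matrix ι ι ℂ} (hB : IsUnit B) (hK : K = Bᴴ * B) {a a' : Matrix ι ι ℂ}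
    (h : Adj K a a') : B * a' * B⁻¹ = (B * a * B⁻¹)ᴴ := by
  have hd : IsUnit B.det := (Matrix.isUnit_iff_isUnit_det B).1 hB
  have hBB : B * B⁻¹ = 1 := Matrix.mul_nonsing_inv B hd
  have hBB' : B⁻¹ * B = 1 := Matrix.nonsing_inv_mul B hd
  have hBH : (B⁻¹)ᴴ * Bᴴ = 1 := by
    rw [← Matrix.conjTranspose_mul, hBB, Matrix.conjTranspose_one]
  unfold Adj at h
  rw [hK] at h
  rw [Matrix.conjTranspose_mul, Matrix.conjTranspose_mul]
  calc B * a' * B⁻¹ = ((B⁻¹)ᴴ * Bᴴ) * (B * a' * B⁻¹) := by rw [hBH, one_mul]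
    _ = (B⁻¹)ᴴ * (Bᴴ * B * a') * B⁻¹ := by simp only [mul_assoc]
    _ = (B⁻¹)ᴴ * (aᴴ * (Bᴴ * B)) * B⁻¹ := by rw [← h]
    _ = (B⁻¹)ᴴ * (aᴴ * Bᴴ) * (B * B⁻¹) := by simp only [mul_assoc]
    _ = (B⁻¹)ᴴ * (aᴴ * Bᴴ) := by rw [hBB, mul_one]

theorem trace_conj {B : Matrix ι ι ℂ} (hB : IsUnit B) (a : Matrix ι ι ℂ) :
    (B * a * B⁻¹).trace = a.trace := by
  have hd : IsUnit B.det := (Matrix.isUnit_iff_isUnit_det B).1 hB
  rw [Matrix.trace_mul_comm, ← mul_assoc, Matrix.nonsing_inv_mul B hd, one_mul]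

theorem mul_conj {B : Matrix ι ι ℂ} (hB : IsUnit B) (a b : Matrix ι ι ℂ) :
    B * (a * b) * B⁻¹ = (B * a * B⁻¹) * (B * b * B⁻¹) := by
  have hd : IsUnit B.det := (Matrix.isUnit_iff_isUnit_det B).1 hB
  calc B * (a * b) * B⁻¹ = B * a * 1 * b * B⁻¹ := by simp only [mul_assoc, one_mul]
    _ = B * a * (B⁻¹ * B) * b * B⁻¹ := by rw [Matrix.nonsing_inv_mul B hd]
    _ = _ := by simp only [mul_assoc]

omit [DecidableEq ι] in
theorem ct_mul_ct (M N : Matrix ι ι ℂ) : (M * Nᴴ)ᴴ = N * Mᴴ := by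
  rw [Matrix.conjTranspose_mul, Matrix.conjTranspose_conjTranspose]

omit [DecidableEq ι] in
theorem ct_comm (A : Matrix ι ι ℂ) : (Aᴴ * A - A * Aᴴ)ᴴ = Aᴴ * A - A * Aᴴ := by
  rw [Matrix.conjTranspose_sub, Matrix.conjTranspose_mul, Matrix.conjTranspose_mul,
    Matrix.conjTranspose_conjTranspose]

namespace Adj

variable {K a a' b b' : Matrix ι ι ℂ}

omit [DecidableEq ι] in
theorem add (h : Adj K a a') (h2 : Adj K b b') : Adj K (a + b) (a' + b') := by
  unfold Adj at *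
  rw [Matrix.conjTranspose_add, add_mul, mul_add, h, h2]

omit [DecidableEq ι] in
theorem sub (h : Adj K a a') (h2 : Adj K b b') : Adj K (a - b) (a' - b') := by
  unfold Adj at *
  rw [Matrix.conjTranspose_sub, sub_mul, mul_sub, h, h2]

omit [DecidableEq ι] in
theorem neg (h : Adj K a a') : Adj K (-a) (-a') := by
  unfold Adj at *
  rw [Matrix.conjTranspose_neg, neg_mul, mul_neg, h]

omit [DecidableEq ι] in
theorem mul (h : Adj K a a') (h2 : Adj K b b') : Adj K (a * b) (b' * a') := by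
  unfold Adj at *
  rw [Matrix.conjTranspose_mul, mul_assoc, h, ← mul_assoc, h2, mul_assoc]

omit [DecidableEq ι] in
theorem smul (c : ℂ) (h : Adj K a a') : Adj K (c • a) (star c • a') := by
  unfold Adj at *
  rw [Matrix.conjTranspose_smul, smul_mul_assoc, mul_smul_comm, h]

omit [DecidableEq ι] in
theorem sum {κ : Type*} (s : Finset κ) {f f' : κ → Matrix ι ι ℂ}
    (h : ∀ k ∈ s, Adj K (f k) (f' k)) : Adj K (∑ k ∈ s, f k) (∑ k ∈ s, f' k) := by
  unfold Adj at *
  rw [Matrix.conjTranspose_sum, Finset.sum_mul, Finset.mul_sum]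
  exact Finset.sum_congr rfl h

omit [DecidableEq ι] in
theorem symm (hK : Kᴴ = K) (h : Adj K a a') : Adj K a' a := by
  unfold Adj at *
  have := congrArg Matrix.conjTranspose h
  rw [Matrix.conjTranspose_mul, Matrix.conjTranspose_mul, Matrix.conjTranspose_conjTranspose,
    hK] at this
  exact this.symm

theorem trace_nonneg (hK : K.PosDef) (h : Adj K a a') : ∃ r : ℝ, 0 ≤ r ∧ (a * a').trace = r ∧
    (r = 0 → a = 0) := by
  obtain ⟨B, hB, hKB⟩ := exists_sqrt hK
  refine ⟨hs (B * a * B⁻¹), hs_nonneg _, ?_, ?_⟩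
  · rw [← trace_conj hB, mul_conj hB, adj_conj hB hKB h, trace_mul_conjTranspose_self]
  · intro h0
    have h1 := hs_eq_zero h0
    have hd : IsUnit B.det := (Matrix.isUnit_iff_isUnit_det B).1 hB
    calc a = (B⁻¹ * B) * a * (B⁻¹ * B) := by rw [Matrix.nonsing_inv_mul B hd, one_mul, mul_one]
      _ = B⁻¹ * (B * a * B⁻¹) * B := by simp only [mul_assoc]
      _ = 0 := by rw [h1, mul_zero, zero_mul]

theorem trace_re_nonneg (hK : K.PosDef) (h : Adj K a a') : 0 ≤ (a * a').trace.re := by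
  obtain ⟨r, h1, h2, -⟩ := h.trace_nonneg hK
  rw [h2]; simpa using h1

theorem trace_im (hK : K.PosDef) (h : Adj K a a') : (a * a').trace.im = 0 := by
  obtain ⟨r, h1, h2, -⟩ := h.trace_nonneg hK
  rw [h2]; simp

theorem eq_zero_of_trace (hK : K.PosDef) (h : Adj K a a') (h0 : (a * a').trace.re = 0) :
    a = 0 := by
  obtain ⟨r, h1, h2, h3⟩ := h.trace_nonneg hK
  apply h3
  rw [h2] at h0
  simpa using h0

/-- Cauchy-Schwarz -/
theorem cauchy (hK : K.PosDef) (h : Adj K a a') (h2 : Adj K b b') :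
    ‖(a * b').trace‖ ^ 2 ≤ (a * a').trace.re * (b * b').trace.re := by
  obtain ⟨B, hB, hKB⟩ := exists_sqrt hK
  have e1 : (a * a').trace.re = hs (B * a * B⁻¹) := by
    rw [← trace_conj hB, mul_conj hB, adj_conj hB hKB h, trace_mul_conjTranspose_self]
    simp
  have e2 : (b * b').trace.re = hs (B * b * B⁻¹) := by
    rw [← trace_conj hB, mul_conj hB, adj_conj hB hKB h2, trace_mul_conjTranspose_self]
    simp
  rw [e1, e2, ← trace_conj hB, mul_conj hB, adj_conj hB hKB h2]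
  exact norm_trace_mul_le _ _

/-- `tr (a b')` and `tr (b a')` are conjugate -/
theorem trace_swap (hK : K.PosDef) (h : Adj K a a') (h2 : Adj K b b') :
    (b * a').trace = star (a * b').trace := by
  obtain ⟨B, hB, hKB⟩ := exists_sqrt hK
  rw [← trace_conj hB, mul_conj hB, adj_conj hB hKB h, ← trace_conj hB (a * b'), mul_conj hB,
    adj_conj hB hKB h2, ← Matrix.trace_conjTranspose, ct_mul_ct]

end Adj

/-- reindexing to `Fin n` -/
theorem nil_bound (ι : Type*) [Fintype ι] [DecidableEq ι] :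
    ∃ c : ℝ, 0 < c ∧ ∀ A : Matrix ι ι ℂ,
      IsNilpotent A → c * hs A ^ 2 ≤ hs (Aᴴ * A - A * Aᴴ) := by
  obtain ⟨c, hc, h⟩ := Nil_840.exists_nil_bound (Fintype.card ι)
  refine ⟨c, hc, fun A hA => ?_⟩
  set e := Fintype.equivFin ι
  have hsr : ∀ M : Matrix ι ι ℂ, Nil_840.fr (Matrix.reindex e e M) = hs M := by
    intro M
    unfold Nil_840.fr hs
    rw [← e.sum_comp]
    refine Finset.sum_congr rfl fun i _ => ?_
    rw [← e.sum_comp]
    refine Finset.sum_congr rfl fun j _ => ?_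
    simp
  have hmul : ∀ M N : Matrix ι ι ℂ, Matrix.reindex e e (M * N) =
      Matrix.reindex e e M * Matrix.reindex e e N := by
    intro M N
    simp only [Matrix.reindex_apply]
    rw [Matrix.submatrix_mul_equiv]
  have hnil : IsNilpotent (Matrix.reindex e e A) := by
    obtain ⟨k, hk⟩ := hA
    refine ⟨k, ?_⟩
    have hp : ∀ k, Matrix.reindex e e A ^ k = Matrix.reindex e e (A ^ k) := by
      intro k
      induction k with
      | zero => simp
      | succ k ih => rw [pow_succ, pow_succ, ih, hmul]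
    rw [hp, hk]
    simp
  have h1 := h _ hnil
  rw [hsr] at h1
  have h2 : (Matrix.reindex e e A)ᴴ * Matrix.reindex e e A - Matrix.reindex e e A *
      (Matrix.reindex e e A)ᴴ = Matrix.reindex e e (Aᴴ * A - A * Aᴴ) := by
    have h3 : (Matrix.reindex e e A)ᴴ = Matrix.reindex e e Aᴴ := by
      simp [Matrix.conjTranspose_submatrix]
    rw [h3, ← hmul, ← hmul]
    rfl
  rw [h2, hsr] at h1
  exact h1

/-- **NIL** for the adjoint with respect to an arbitrary positive definite form -/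
theorem nil_bound_adj (ι : Type*) [Fintype ι] [DecidableEq ι] :
    ∃ c : ℝ, 0 < c ∧ ∀ K a a' : Matrix ι ι ℂ, K.PosDef → Adj K a a' → IsNilpotent a →
      c * (a * a').trace.re ^ 2 ≤ ((a' * a - a * a') * (a' * a - a * a')).trace.re := by
  obtain ⟨c, hc, h⟩ := nil_bound ι
  refine ⟨c, hc, fun K a a' hK had hn => ?_⟩
  obtain ⟨B, hB, hKB⟩ := exists_sqrt hK
  have e0 := adj_conj hB hKB had
  set A := B * a * B⁻¹ with hA
  have e1 : (a * a').trace.re = hs A := by
    rw [← trace_conj hB, mul_conj hB, e0, trace_mul_conjTranspose_self]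
    exact Complex.ofReal_re _
  have hAn : IsNilpotent A := by
    obtain ⟨k, hk⟩ := hn
    refine ⟨k, ?_⟩
    have hp : ∀ k, A ^ k = B * a ^ k * B⁻¹ := by
      intro k
      induction k with
      | zero =>
        have hd : IsUnit B.det := (Matrix.isUnit_iff_isUnit_det B).1 hB
        rw [pow_zero, pow_zero, mul_one, Matrix.mul_nonsing_inv B hd]
      | succ k ih => rw [pow_succ, pow_succ, ih, hA, ← mul_conj hB]
    rw [hp, hk, mul_zero, zero_mul]
  have e2 : B * (a' * a - a * a') * B⁻¹ = Aᴴ * A - A * Aᴴ := by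
    rw [mul_sub, sub_mul, mul_conj hB, mul_conj hB, e0]
  have e3 : ((a' * a - a * a') * (a' * a - a * a')).trace.re = hs (Aᴴ * A - A * Aᴴ) := by
    rw [← trace_conj hB, mul_conj hB, e2]
    nth_rewrite 2 [← ct_comm A]
    rw [trace_mul_conjTranspose_self]
    exact Complex.ofReal_re _
  rw [e1, e3]
  exact h A hAn

end Crest.Agent.R276.VCalc_442
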