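import Crest.Agent.R276.VCalcA_442
import Crest.Agent.R276.VCalcB_442

/-!
# R276, leaf VCalc (helper442): polarised VHS in a flat frame

`VHS w U S P` : on the open set `U` of the complex normed space `X`, `P p x` (`0 ≤ p ≤ w`) are the
Hodge projectors of a polarised complex variation of Hodge structure on the constant bundle
`ℂ^ι` with flat Hermitian form `S`.  Everything is expressed through the grading operator
`E = ∑ p P_p`:  `[E, ∂_v E] = -∂_v E`.
-/

set_option autoImplicit false
set_option linter.unusedSectionVars false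

open Set Filter Topology Matrix Finset
open scoped ContDiff ComplexConjugate ComplexOrder

namespace Crest.Agent.R276.VCalc_442

variable {X : Type*} [NormedAddCommGroup X] [NormedSpace ℂ X]
variable {ι : Type*} [Fintype ι] [DecidableEq ι]
variable {κ : Type*}

/-- entrywise `∂_v` of a matrix valued function -/
noncomputable def mW (F : X → Matrix ι κ ℂ) (v x : X) : Matrix ι κ ℂ :=
  Matrix.of fun i j => dW (fun y => F y i j) v x

/-- entrywise `∂̄_v` of a matrix valued function -/
noncomputable def mB (F : X → Matrix ι κ ℂ) (v x : X) : Matrix ι κ ℂ :=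
  Matrix.of fun i j => dB (fun y => F y i j) v x

/-- the grading operator `E = ∑ p P_p` -/
noncomputable def grOp (w : ℕ) (P : ℕ → X → Matrix ι ι ℂ) (x : X) : Matrix ι ι ℂ :=
  ∑ p ∈ Finset.range (w + 1), (p : ℂ) • P p x

/-- the sign operator `C = ∑ (-1)^p P_p` -/
noncomputable def sgOp (w : ℕ) (P : ℕ → X → Matrix ι ι ℂ) (x : X) : Matrix ι ι ℂ :=
  ∑ p ∈ Finset.range (w + 1), ((-1 : ℂ) ^ p) • P p x

/-- polarised complex VHS in a flat frame -/
structure VHS (w : ℕ) (U : Set X) (S : Matrix ι ι ℂ) (P : ℕ → X → Matrix ι ι ℂ) : Prop where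
  op : IsOpen U
  sm : ∀ p i j, ContDiffOn ℝ ∞ (fun x => P p x i j) U
  idem : ∀ x ∈ U, ∀ p, P p x * P p x = P p x
  orth : ∀ x ∈ U, ∀ p q, p ≠ q → P p x * P q x = 0
  top : ∀ x ∈ U, ∀ p, w < p → P p x = 0
  sum : ∀ x ∈ U, ∑ p ∈ Finset.range (w + 1), P p x = 1
  herm : Sᴴ = S
  adj : ∀ x ∈ U, ∀ p, (P p x)ᴴ * S = S * P p x
  pos : ∀ x ∈ U, (S * sgOp w P x).PosDef
  hor : ∀ x ∈ U, ∀ v, grOp w P x * mW (grOp w P) v x - mW (grOp w P) v x * grOp w P x =
    - mW (grOp w P) v x

/-- the Higgs field `θ_v` -/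
noncomputable def th (w : ℕ) (P : ℕ → X → Matrix ι ι ℂ) (v x : X) : Matrix ι ι ℂ :=
  mW (grOp w P) v x

/-- its adjoint `θ̄_v` -/
noncomputable def thb (w : ℕ) (P : ℕ → X → Matrix ι ι ℂ) (v x : X) : Matrix ι ι ℂ :=
  - mB (grOp w P) v x

/-- the Hodge metric as a positive definite matrix -/
noncomputable def hm (w : ℕ) (S : Matrix ι ι ℂ) (P : ℕ → X → Matrix ι ι ℂ) (x : X) :
    Matrix ι ι ℂ := S * sgOp w P x

section nm

attribute [local instance] Matrix.linftyOpNormedRing Matrix.linftyOpNormedAlgebra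

/-- linear functionals on a finite dimensional normed algebra are continuous -/
noncomputable def mkL {R : Type*} [NormedRing R] [NormedAlgebra ℂ R] [FiniteDimensional ℂ R]
    (f : R →ₗ[ℂ] ℂ) : R →L[ℂ] ℂ := LinearMap.toContinuousLinearMap f

/-- entries -/
noncomputable def ent (i j : ι) := mkL (R := Matrix ι ι ℂ) (Matrix.entryLinearMap ℂ ℂ i j)

theorem ent_apply (i j : ι) (M : Matrix ι ι ℂ) : ent i j M = M i j := rfl

/-- the trace as a continuous linear map -/
noncomputable def trL := mkL (R := Matrix ι ι ℂ) (Matrix.traceLinearMap ι ℂ ℂ)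

theorem trL_apply (M : Matrix ι ι ℂ) : trL M = M.trace := rfl

theorem trL_comm (a b : Matrix ι ι ℂ) : trL (a * b) = trL (b * a) := Matrix.trace_mul_comm a b

theorem contDiffOn_matrix {U : Set X} {F : X → Matrix ι ι ℂ} :
    ContDiffOn ℝ ∞ F U ↔ ∀ i j, ContDiffOn ℝ ∞ (fun x => F x i j) U := by
  constructor
  · intro h i j
    exact ((ent i j).restrictScalars ℝ).contDiff.comp_contDiffOn h
  · intro h
    have e : F = fun x => ∑ i, ∑ j, (F x i j) • Matrix.single i j (1 : ℂ) := by
      funext x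
      conv_lhs => rw [Matrix.matrix_eq_sum_single (F x)]
      simp only [Matrix.smul_single, smul_eq_mul, mul_one]
    rw [e]
    exact ContDiffOn.sum fun i _ => ContDiffOn.sum fun j _ => (h i j).smul contDiffOn_const

theorem mW_eq_dW {F : X → Matrix ι ι ℂ} {x : X} (hF : DifferentiableAt ℝ F x) (v : X) :
    mW F v x = dW F v x := by
  ext i j
  exact dW_clm (ent i j) hF v

theorem mB_eq_dB {F : X → Matrix ι ι ℂ} {x : X} (hF : DifferentiableAt ℝ F x) (v : X) :
    mB F v x = dB F v x := by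
  ext i j
  exact dB_clm (ent i j) hF v

theorem differentiableAt_matrix {F : X → Matrix ι ι ℂ} {x : X} :
    DifferentiableAt ℝ F x ↔ ∀ i j, DifferentiableAt ℝ (fun y => F y i j) x := by
  constructor
  · intro h i j
    exact (((ent i j).restrictScalars ℝ).differentiableAt (x := F x)).comp x h
  · intro h
    have e : F = fun x => ∑ i, ∑ j, (F x i j) • Matrix.single i j (1 : ℂ) := by
      funext x
      conv_lhs => rw [Matrix.matrix_eq_sum_single (F x)]
      simp only [Matrix.smul_single, smul_eq_mul, mul_one]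
    rw [e]
    exact DifferentiableAt.fun_sum fun i _ => DifferentiableAt.fun_sum fun j _ =>
      (h i j).smul (differentiableAt_const _)

theorem conj_smul' (c : ℂ) (a : ℂ) :
    (Complex.conjCLE : ℂ →L[ℝ] ℂ) (c • a) = (conj c) • (Complex.conjCLE : ℂ →L[ℝ] ℂ) a := by
  simp

theorem dB_star {f : X → ℂ} {x : X} (hf : DifferentiableAt ℝ f x) (v : X) :
    dB (fun y => star (f y)) v x = star (dW f v x) :=
  dB_conj (Complex.conjCLE : ℂ →L[ℝ] ℂ) conj_smul' hf v

theorem dW_star {f : X → ℂ} {x : X} (hf : DifferentiableAt ℝ f x) (v : X) :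
    dW (fun y => star (f y)) v x = star (dB f v x) :=
  dW_conj (Complex.conjCLE : ℂ →L[ℝ] ℂ) conj_smul' hf v

theorem diff_star {f : X → ℂ} {x : X} (hf : DifferentiableAt ℝ f x) :
    DifferentiableAt ℝ (fun y => star (f y)) x :=
  ((Complex.conjCLE : ℂ →L[ℝ] ℂ).differentiableAt (x := f x)).comp x hf

theorem diff_ct {F : X → Matrix ι ι ℂ} {x : X} (hF : DifferentiableAt ℝ F x) :
    DifferentiableAt ℝ (fun y => (F y)ᴴ) x := by
  rw [differentiableAt_matrix] at hF ⊢
  intro i j
  exact diff_star (hF j i)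

theorem dB_ct {F : X → Matrix ι ι ℂ} {x : X} (hF : DifferentiableAt ℝ F x) (v : X) :
    dB (fun y => (F y)ᴴ) v x = (dW F v x)ᴴ := by
  refine Matrix.ext fun i j => ?_
  have h1 := dB_clm (ent i j) (diff_ct hF) v
  have h2 := dW_clm (ent j i) hF v
  have h3 := dB_star ((differentiableAt_matrix.1 hF) j i) v
  exact h1.symm.trans (h3.trans (congrArg star h2))

theorem dW_ct {F : X → Matrix ι ι ℂ} {x : X} (hF : DifferentiableAt ℝ F x) (v : X) :
    dW (fun y => (F y)ᴴ) v x = (dB F v x)ᴴ := by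
  refine Matrix.ext fun i j => ?_
  have h1 := dW_clm (ent i j) (diff_ct hF) v
  have h2 := dB_clm (ent j i) hF v
  have h3 := dW_star ((differentiableAt_matrix.1 hF) j i) v
  exact h1.symm.trans (h3.trans (congrArg star h2))

namespace VHS

variable {w : ℕ} {U : Set X} {S : Matrix ι ι ℂ} {P : ℕ → X → Matrix ι ι ℂ} {x : X}

theorem smP (h : VHS w U S P) (p : ℕ) : ContDiffOn ℝ ∞ (P p) U :=
  contDiffOn_matrix.2 (h.sm p)

theorem dP (h : VHS w U S P) (p : ℕ) (hx : x ∈ U) : DifferentiableAt ℝ (P p) x :=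
  diffAt h.op (h.smP p) hx

theorem smE (h : VHS w U S P) : ContDiffOn ℝ ∞ (grOp w P) U := by
  unfold grOp
  exact ContDiffOn.sum fun p _ => (h.smP p).const_smul (p : ℂ)

theorem smC (h : VHS w U S P) : ContDiffOn ℝ ∞ (sgOp w P) U := by
  unfold sgOp
  exact ContDiffOn.sum fun p _ => (h.smP p).const_smul ((-1 : ℂ) ^ p)

theorem dE (h : VHS w U S P) (hx : x ∈ U) : DifferentiableAt ℝ (grOp w P) x :=
  diffAt h.op h.smE hx

theorem dC (h : VHS w U S P) (hx : x ∈ U) : DifferentiableAt ℝ (sgOp w P) x :=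
  diffAt h.op h.smC hx

theorem th_eq (h : VHS w U S P) (hx : x ∈ U) (v : X) : th w P v x = dW (grOp w P) v x :=
  mW_eq_dW (h.dE hx) v

theorem thb_eq (h : VHS w U S P) (hx : x ∈ U) (v : X) : thb w P v x = tb (grOp w P) v x := by
  unfold thb tb
  rw [mB_eq_dB (h.dE hx) v]

theorem adjE (h : VHS w U S P) (hx : x ∈ U) : (grOp w P x)ᴴ * S = S * grOp w P x := by
  unfold grOp
  rw [Matrix.conjTranspose_sum, Finset.sum_mul, Finset.mul_sum]
  refine Finset.sum_congr rfl fun p _ => ?_
  rw [Matrix.conjTranspose_smul, smul_mul_assoc, mul_smul_comm, h.adj x hx]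
  simp

theorem adjC (h : VHS w U S P) (hx : x ∈ U) : (sgOp w P x)ᴴ * S = S * sgOp w P x := by
  unfold sgOp
  rw [Matrix.conjTranspose_sum, Finset.sum_mul, Finset.mul_sum]
  refine Finset.sum_congr rfl fun p _ => ?_
  rw [Matrix.conjTranspose_smul, smul_mul_assoc, mul_smul_comm, h.adj x hx]
  simp

theorem hmPos (h : VHS w U S P) (hx : x ∈ U) : (hm w S P x).PosDef := h.pos x hx

theorem S_unit (h : VHS w U S P) (hx : x ∈ U) : IsUnit S := by
  have h1 := (h.pos x hx).isUnit
  rw [Matrix.isUnit_iff_isUnit_det, Matrix.det_mul] at h1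
  rw [Matrix.isUnit_iff_isUnit_det]
  exact isUnit_of_mul_isUnit_left h1

theorem S_cancel (h : VHS w U S P) (hx : x ∈ U) {a b : Matrix ι ι ℂ} (hab : S * a = S * b) :
    a = b := (h.S_unit hx).mul_left_cancel hab

/-- `(∂_v F)ᴴ S = S ∂̄_v F'` if `Fᴴ S = S F'` on `U` -/
theorem adj_dW (h : VHS w U S P) {F F' : X → Matrix ι ι ℂ} (hF : ContDiffOn ℝ ∞ F U)
    (hF' : ContDiffOn ℝ ∞ F' U) (had : ∀ y ∈ U, (F y)ᴴ * S = S * F' y) (hx : x ∈ U) (v : X) :
    (dW F v x)ᴴ * S = S * dB F' v x := by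
  have d1 := diffAt h.op hF hx
  have d2 := diffAt h.op hF' hx
  have h1 : (fun y => (F y)ᴴ * S) =ᶠ[𝓝 x] fun y => S * F' y :=
    Filter.eventually_of_mem (h.op.mem_nhds hx) had
  have h2 := dB_congr h1 v
  have d3 : DifferentiableAt ℝ (fun y => (F y)ᴴ) x := diff_ct d1
  rw [dB_mul d3 (differentiableAt_const S), dB_mul (differentiableAt_const S) d2, dB_ct d1] at h2
  simpa using h2

theorem adj_dB (h : VHS w U S P) {F F' : X → Matrix ι ι ℂ} (hF : ContDiffOn ℝ ∞ F U)
    (hF' : ContDiffOn ℝ ∞ F' U) (had : ∀ y ∈ U, (F y)ᴴ * S = S * F' y) (hx : x ∈ U) (v : X) :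
    (dB F v x)ᴴ * S = S * dW F' v x := by
  have d1 := diffAt h.op hF hx
  have d2 := diffAt h.op hF' hx
  have h1 : (fun y => (F y)ᴴ * S) =ᶠ[𝓝 x] fun y => S * F' y :=
    Filter.eventually_of_mem (h.op.mem_nhds hx) had
  have h2 := dW_congr h1 v
  have d3 : DifferentiableAt ℝ (fun y => (F y)ᴴ) x := diff_ct d1
  rw [dW_mul d3 (differentiableAt_const S), dW_mul (differentiableAt_const S) d2, dW_ct d1] at h2
  simpa using h2

theorem adj_th (h : VHS w U S P) (hx : x ∈ U) (v : X) :
    (dW (grOp w P) v x)ᴴ * S = S * dB (grOp w P) v x :=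
  h.adj_dW h.smE h.smE (fun _ hy => h.adjE hy) hx v

/-- the grading operator equation in the normed algebra of matrices -/
theorem gr (h : VHS w U S P) : Gr U (grOp w P) where
  op := h.op
  sm := h.smE
  hW := by
    intro x hx v
    have := h.hor x hx v
    rwa [mW_eq_dW (h.dE hx) v] at this
  hB := by
    intro x hx v
    have h1 := h.hor x hx v
    rw [mW_eq_dW (h.dE hx) v] at h1
    have h2 := congrArg (fun M => Mᴴ * S) h1
    simp only [Matrix.conjTranspose_sub, Matrix.conjTranspose_mul, Matrix.conjTranspose_neg,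
      sub_mul, neg_mul] at h2
    rw [mul_assoc, mul_assoc, h.adjE hx, h.adj_th hx v, ← mul_assoc, h.adj_th hx v, ← mul_assoc,
      h.adjE hx, mul_assoc, mul_assoc, ← mul_sub, ← mul_neg] at h2
    have h3 := h.S_cancel hx h2
    rw [← neg_sub, h3, neg_neg]

theorem E_mul_P (h : VHS w U S P) (hx : x ∈ U) (p : ℕ) : grOp w P x * P p x = (p : ℂ) • P p x := by
  by_cases hp : w < p
  · rw [h.top x hx p hp, mul_zero, smul_zero]
  · unfold grOp
    rw [Finset.sum_mul, Finset.sum_eq_single p]
    · rw [smul_mul_assoc, h.idem x hx]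
    · intro q _ hq
      rw [smul_mul_assoc, h.orth x hx q p hq, smul_zero]
    · intro hp'
      exact absurd (Finset.mem_range.2 (by omega)) hp'

theorem P_mul_E (h : VHS w U S P) (hx : x ∈ U) (p : ℕ) : P p x * grOp w P x = (p : ℂ) • P p x := by
  by_cases hp : w < p
  · rw [h.top x hx p hp, zero_mul, smul_zero]
  · unfold grOp
    rw [Finset.mul_sum, Finset.sum_eq_single p]
    · rw [mul_smul_comm, h.idem x hx]
    · intro q _ hq
      rw [mul_smul_comm, h.orth x hx p q (Ne.symm hq), smul_zero]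
    · intro hp'
      exact absurd (Finset.mem_range.2 (by omega)) hp'

theorem C_mul_P (h : VHS w U S P) (hx : x ∈ U) (p : ℕ) :
    sgOp w P x * P p x = ((-1 : ℂ) ^ p) • P p x := by
  by_cases hp : w < p
  · rw [h.top x hx p hp, mul_zero, smul_zero]
  · unfold sgOp
    rw [Finset.sum_mul, Finset.sum_eq_single p]
    · rw [smul_mul_assoc, h.idem x hx]
    · intro q _ hq
      rw [smul_mul_assoc, h.orth x hx q p hq, smul_zero]
    · intro hp'
      exact absurd (Finset.mem_range.2 (by omega)) hp'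

theorem P_mul_C (h : VHS w U S P) (hx : x ∈ U) (p : ℕ) :
    P p x * sgOp w P x = ((-1 : ℂ) ^ p) • P p x := by
  by_cases hp : w < p
  · rw [h.top x hx p hp, zero_mul, smul_zero]
  · unfold sgOp
    rw [Finset.mul_sum, Finset.sum_eq_single p]
    · rw [mul_smul_comm, h.idem x hx]
    · intro q _ hq
      rw [mul_smul_comm, h.orth x hx p q (Ne.symm hq), smul_zero]
    · intro hp'
      exact absurd (Finset.mem_range.2 (by omega)) hp'

theorem C_mul_C (h : VHS w U S P) (hx : x ∈ U) : sgOp w P x * sgOp w P x = 1 := by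
  rw [← h.sum x hx]
  conv_lhs => rw [show sgOp w P x * sgOp w P x = sgOp w P x *
    ∑ p ∈ Finset.range (w + 1), ((-1 : ℂ) ^ p) • P p x from rfl]
  rw [Finset.mul_sum]
  refine Finset.sum_congr rfl fun p _ => ?_
  rw [mul_smul_comm, h.C_mul_P hx, smul_smul, ← pow_add, ← two_mul, pow_mul]
  simp

/-- the elements of degree `-1` -/
def Low (w : ℕ) (P : ℕ → X → Matrix ι ι ℂ) (x : X) (a : Matrix ι ι ℂ) : Prop :=
  grOp w P x * a - a * grOp w P x = -a

/-- the elements of degree `1` -/
def Up (w : ℕ) (P : ℕ → X → Matrix ι ι ℂ) (x : X) (a : Matrix ι ι ℂ) : Prop :=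
  grOp w P x * a - a * grOp w P x = a

theorem low_block (h : VHS w U S P) (hx : x ∈ U) {a : Matrix ι ι ℂ} (ha : Low w P x a)
    {p q : ℕ} (hpq : q + 1 ≠ p) : P q x * a * P p x = 0 := by
  have h1 : P q x * (grOp w P x * a - a * grOp w P x) * P p x = P q x * (-a) * P p x := by
    rw [ha]
  have e1 : P q x * (grOp w P x * a - a * grOp w P x) * P p x =
      (P q x * grOp w P x) * a * P p x - P q x * a * (grOp w P x * P p x) := by noncomm_ring
  have e2 : P q x * (-a) * P p x = - (P q x * a * P p x) := by noncomm_ring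
  rw [e1, e2, h.P_mul_E hx, h.E_mul_P hx, smul_mul_assoc, smul_mul_assoc, mul_smul_comm,
    ← sub_smul, ← sub_eq_zero, sub_neg_eq_add, ← one_smul ℂ (P q x * a * P p x), smul_smul,
    mul_one, ← add_smul] at h1
  rcases smul_eq_zero.1 h1 with h2 | h2
  · exfalso
    apply hpq
    have h3 : ((q + 1 : ℕ) : ℂ) = (p : ℂ) := by push_cast; linear_combination h2
    exact_mod_cast h3
  · exact h2

theorem up_block (h : VHS w U S P) (hx : x ∈ U) {a : Matrix ι ι ℂ} (ha : Up w P x a)
    {p q : ℕ} (hpq : q ≠ p + 1) : P q x * a * P p x = 0 := by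
  have h1 : P q x * (grOp w P x * a - a * grOp w P x) * P p x = P q x * a * P p x := by
    rw [ha]
  have e1 : P q x * (grOp w P x * a - a * grOp w P x) * P p x =
      (P q x * grOp w P x) * a * P p x - P q x * a * (grOp w P x * P p x) := by noncomm_ring
  rw [e1, h.P_mul_E hx, h.E_mul_P hx, smul_mul_assoc, smul_mul_assoc, mul_smul_comm,
    ← sub_smul, ← sub_eq_zero, ← one_smul ℂ (P q x * a * P p x), smul_smul,
    mul_one, ← sub_smul] at h1
  rcases smul_eq_zero.1 h1 with h2 | h2
  · exfalso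
    apply hpq
    have h3 : (q : ℂ) = ((p + 1 : ℕ) : ℂ) := by push_cast; linear_combination h2
    exact_mod_cast h3
  · exact h2

theorem expand_left (h : VHS w U S P) (hx : x ∈ U) (a : Matrix ι ι ℂ) :
    a = ∑ p ∈ Finset.range (w + 1), P p x * a := by
  rw [← Finset.sum_mul, h.sum x hx, one_mul]

theorem expand_right (h : VHS w U S P) (hx : x ∈ U) (a : Matrix ι ι ℂ) :
    a = ∑ p ∈ Finset.range (w + 1), a * P p x := by
  rw [← Finset.mul_sum, h.sum x hx, mul_one]

/-- `P_q a = a P_{q+1}` for `a` of degree `-1` -/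
theorem low_P (h : VHS w U S P) (hx : x ∈ U) {a : Matrix ι ι ℂ} (ha : Low w P x a) (q : ℕ) :
    P q x * a = a * P (q + 1) x := by
  have h1 : P q x * a = P q x * a * P (q + 1) x := by
    by_cases hq : w < q + 1
    · rw [h.expand_right hx (P q x * a), h.top x hx (q + 1) hq, mul_zero]
      refine Finset.sum_eq_zero fun p hp => h.low_block hx ha ?_
      have := Finset.mem_range.1 hp
      omega
    · conv_lhs => rw [h.expand_right hx (P q x * a)]
      rw [Finset.sum_eq_single (q + 1)]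
      · intro p _ hp
        exact h.low_block hx ha (Ne.symm hp)
      · intro hp
        exact absurd (Finset.mem_range.2 (by omega)) hp
  have h2 : a * P (q + 1) x = P q x * a * P (q + 1) x := by
    by_cases hq : w < q
    · rw [h.top x hx (q + 1) (by omega)]; simp
    · conv_lhs => rw [h.expand_left hx (a * P (q + 1) x)]
      rw [Finset.sum_eq_single q]
      · rw [mul_assoc]
      · intro p _ hp
        rw [← mul_assoc]
        exact h.low_block hx ha (by omega)
      · intro hp
        exact absurd (Finset.mem_range.2 (by omega)) hp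
  rw [h1, ← h2]

/-- `a P_0 = 0` for `a` of degree `-1` -/
theorem low_P_zero (h : VHS w U S P) (hx : x ∈ U) {a : Matrix ι ι ℂ} (ha : Low w P x a) :
    a * P 0 x = 0 := by
  rw [h.expand_left hx (a * P 0 x)]
  refine Finset.sum_eq_zero fun p _ => ?_
  rw [← mul_assoc]
  exact h.low_block hx ha (by omega)

/-- `P_{q+1} b = b P_q` for `b` of degree `1` -/
theorem up_P (h : VHS w U S P) (hx : x ∈ U) {b : Matrix ι ι ℂ} (hb : Up w P x b) (q : ℕ) :
    P (q + 1) x * b = b * P q x := by
  have h1 : P (q + 1) x * b = P (q + 1) x * b * P q x := by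
    by_cases hq : w < q
    · rw [h.top x hx (q + 1) (by omega)]; simp
    · conv_lhs => rw [h.expand_right hx (P (q + 1) x * b)]
      rw [Finset.sum_eq_single q]
      · intro p _ hp
        exact h.up_block hx hb (by omega)
      · intro hp
        exact absurd (Finset.mem_range.2 (by omega)) hp
  have h2 : b * P q x = P (q + 1) x * b * P q x := by
    by_cases hq : w < q + 1
    · rw [h.expand_left hx (b * P q x), h.top x hx (q + 1) hq, zero_mul, zero_mul]
      refine Finset.sum_eq_zero fun p hp => ?_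
      rw [← mul_assoc]
      have := Finset.mem_range.1 hp
      exact h.up_block hx hb (by omega)
    · conv_lhs => rw [h.expand_left hx (b * P q x)]
      rw [Finset.sum_eq_single (q + 1)]
      · rw [mul_assoc]
      · intro p _ hp
        rw [← mul_assoc]
        exact h.up_block hx hb (by omega)
      · intro hp
        exact absurd (Finset.mem_range.2 (by omega)) hp
  rw [h1, ← h2]

/-- `P_0 b = 0` for `b` of degree `1` -/
theorem up_P_zero (h : VHS w U S P) (hx : x ∈ U) {b : Matrix ι ι ℂ} (hb : Up w P x b) :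
    P 0 x * b = 0 := by
  rw [h.expand_right hx (P 0 x * b)]
  exact Finset.sum_eq_zero fun p _ => h.up_block hx hb (by omega)

/-- `C a = - a C` for `a` of degree `-1` -/
theorem low_C (h : VHS w U S P) (hx : x ∈ U) {a : Matrix ι ι ℂ} (ha : Low w P x a) :
    sgOp w P x * a = - (a * sgOp w P x) := by
  have h1 : sgOp w P x * a = ∑ p ∈ Finset.range (w + 1), ((-1 : ℂ) ^ p) • (a * P (p + 1) x) := by
    unfold sgOp
    rw [Finset.sum_mul]
    exact Finset.sum_congr rfl fun p _ => by rw [smul_mul_assoc, h.low_P hx ha]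
  have h2 : a * sgOp w P x = ∑ p ∈ Finset.range (w + 1), ((-1 : ℂ) ^ p) • (a * P p x) := by
    unfold sgOp
    rw [Finset.mul_sum]
    exact Finset.sum_congr rfl fun p _ => by rw [mul_smul_comm]
  have h3 : a * sgOp w P x = ∑ p ∈ Finset.range (w + 2), ((-1 : ℂ) ^ p) • (a * P p x) := by
    rw [h2, Finset.sum_range_succ _ (w + 1), h.top x hx (w + 1) (by omega)]
    simp
  rw [h3, Finset.sum_range_succ', h.low_P_zero hx ha, smul_zero, add_zero, h1, ← Finset.sum_neg_distrib]
  refine Finset.sum_congr rfl fun p _ => ?_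
  rw [pow_succ, mul_neg_one, neg_smul, neg_neg]

/-- `C b = - b C` for `b` of degree `1` -/
theorem up_C (h : VHS w U S P) (hx : x ∈ U) {b : Matrix ι ι ℂ} (hb : Up w P x b) :
    sgOp w P x * b = - (b * sgOp w P x) := by
  have h1 : b * sgOp w P x = ∑ p ∈ Finset.range (w + 1), ((-1 : ℂ) ^ p) • (P (p + 1) x * b) := by
    unfold sgOp
    rw [Finset.mul_sum]
    exact Finset.sum_congr rfl fun p _ => by rw [mul_smul_comm, h.up_P hx hb]
  have h2 : sgOp w P x * b = ∑ p ∈ Finset.range (w + 1), ((-1 : ℂ) ^ p) • (P p x * b) := by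
    unfold sgOp
    rw [Finset.sum_mul]
    exact Finset.sum_congr rfl fun p _ => by rw [smul_mul_assoc]
  have h3 : sgOp w P x * b = ∑ p ∈ Finset.range (w + 2), ((-1 : ℂ) ^ p) • (P p x * b) := by
    rw [h2, Finset.sum_range_succ _ (w + 1), h.top x hx (w + 1) (by omega)]
    simp
  rw [h3, Finset.sum_range_succ', h.up_P_zero hx hb, smul_zero, add_zero, h1,
    ← Finset.sum_neg_distrib]
  refine Finset.sum_congr rfl fun p _ => ?_
  rw [pow_succ, mul_neg_one, neg_smul]

/-- an element of degree `-1` is nilpotent -/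
theorem low_nilpotent (h : VHS w U S P) (hx : x ∈ U) {a : Matrix ι ι ℂ} (ha : Low w P x a) :
    IsNilpotent a := by
  refine ⟨w + 1, ?_⟩
  have h1 : ∀ k q, P q x * a ^ k = a ^ k * P (q + k) x := by
    intro k
    induction k with
    | zero => intro q; simp
    | succ k ih =>
      intro q
      rw [pow_succ, ← mul_assoc, ih, mul_assoc, h.low_P hx ha, ← mul_assoc]
      rfl
  rw [h.expand_left hx (a ^ (w + 1))]
  refine Finset.sum_eq_zero fun p _ => ?_
  rw [h1, h.top x hx _ (by omega), mul_zero]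

/-- adjoint for the Hodge metric of an element of degree `-1` -/
theorem adj_of_low (h : VHS w U S P) (hx : x ∈ U) {a b : Matrix ι ι ℂ} (hb : Up w P x b)
    (hab : aᴴ * S = S * (-b)) : Adj (hm w S P x) a b := by
  unfold Adj hm
  rw [← mul_assoc, hab, mul_assoc, mul_assoc, neg_mul, ← h.up_C hx hb]

theorem low_th (h : VHS w U S P) (hx : x ∈ U) (v : X) : Low w P x (dW (grOp w P) v x) :=
  h.gr.hW x hx v

theorem up_tb (h : VHS w U S P) (hx : x ∈ U) (v : X) : Up w P x (tb (grOp w P) v x) :=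
  h.gr.deg_tb hx v

/-- `θ̄_v` is the adjoint of `θ_v` for the Hodge metric -/
theorem adj_th_tb (h : VHS w U S P) (hx : x ∈ U) (v : X) :
    Adj (hm w S P x) (dW (grOp w P) v x) (tb (grOp w P) v x) := by
  refine h.adj_of_low hx (h.up_tb hx v) ?_
  rw [h.adj_th hx v]
  simp [tb]

theorem up_dtb (h : VHS w U S P) (hx : x ∈ U) (v u : X) :
    Up w P x (dB (tb (grOp w P) v) u x) := by
  have h1 := h.gr.rel1b hx v u
  have h2 := h.gr.dB_comm hx u v
  have h3 : dB (tb (grOp w P) v) u x = - dB (dB (grOp w P) v) u x := dB_neg _ _ _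
  unfold Up
  rw [h3]
  rw [h2] at h1
  rw [mul_neg, neg_mul]
  nth_rewrite 3 [← h1]
  abel

/-- `∂̄_u θ̄_v` is the adjoint of `∂_u θ_v` -/
theorem adj_dth (h : VHS w U S P) (hx : x ∈ U) (v u : X) :
    Adj (hm w S P x) (dW (dW (grOp w P) v) u x) (dB (tb (grOp w P) v) u x) := by
  refine h.adj_of_low hx (h.up_dtb hx v u) ?_
  have h3 : dB (tb (grOp w P) v) u x = - dB (dB (grOp w P) v) u x := dB_neg _ _ _
  rw [h3, neg_neg]
  exact h.adj_dW (h.gr.sm_th v) (h.gr.sm_dB v) (fun y hy => h.adj_th hy v) hx u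

end VHS

end nm

end Crest.Agent.R276.VCalc_442
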