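import Mathlib

/-!
# (TOP1) Near-diagonal cocycles and homotopies

`NDC c` : `c : X → X → G` satisfies `c x y * c y w = c x w` near every point of the diagonal.
`NEq A c c'` : `c' x y = A x * c x y * (A y)⁻¹` near every point of the diagonal.

Main results:
* `exists_homotopy` : for a near-diagonal cocycle `c` on `X × [0,1]` there is
  `A : X × I → G`, `A (x,0) = 1`, with
  `c (x,t) (y,s) = A (x,t) * c (x,0) (y,0) * (A (y,s))⁻¹` near the diagonal;
* `pull_homotopic` : pull-backs along homotopic maps are equivalent;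
* `trivial_of_contractible`, `trivial_of_starConvex`, `trivial_on_starConvex`,
  `trivial_on_convex` : cocycles on contractible / star-shaped / convex sets are trivial;
* `NEq.unique` : on a preconnected space trivialisations are unique up to a constant.
-/

open Set Filter Topology unitInterval

namespace Crest.Agent.R276.Top1_358

variable {X Y Z : Type*} [TopologicalSpace X] [TopologicalSpace Y] [TopologicalSpace Z]
  {G H : Type*} [Group G] [Group H]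

/-- near-diagonal cocycle -/
def NDC (c : X → X → G) : Prop :=
  ∀ z, ∃ U ∈ 𝓝 z, ∀ x ∈ U, ∀ y ∈ U, ∀ w ∈ U, c x y * c y w = c x w

/-- equivalence (gauge transformation `A`) near the diagonal -/
def NEq (A : X → G) (c c' : X → X → G) : Prop :=
  ∀ z, ∃ U ∈ 𝓝 z, ∀ x ∈ U, ∀ y ∈ U, c' x y = A x * c x y * (A y)⁻¹

/-- the trivial cocycle -/
def one (X : Type*) (G : Type*) [Group G] : X → X → G := fun _ _ => 1

lemma NDC.diag {c : X → X → G} (hc : NDC c) (x : X) : c x x = 1 := by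
  obtain ⟨U, hU, h⟩ := hc x
  have hx := mem_of_mem_nhds hU
  have := h x hx x hx x hx
  simpa using this

lemma NDC.symm {c : X → X → G} (hc : NDC c) (z : X) :
    ∃ U ∈ 𝓝 z, ∀ x ∈ U, ∀ y ∈ U, c y x = (c x y)⁻¹ := by
  obtain ⟨U, hU, h⟩ := hc z
  refine ⟨U, hU, fun x hx y hy => ?_⟩
  have h1 := h y hy x hx y hy
  rw [hc.diag] at h1
  exact eq_inv_of_mul_eq_one_left h1

lemma NDC.comap {c : Y → Y → G} (hc : NDC c) {f : X → Y} (hf : Continuous f) :
    NDC (fun x y => c (f x) (f y)) := by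
  intro z
  obtain ⟨U, hU, h⟩ := hc (f z)
  exact ⟨f ⁻¹' U, hf.continuousAt hU, fun x hx y hy w hw => h _ hx _ hy _ hw⟩

lemma NDC.map {c : X → X → G} (hc : NDC c) (f : G →* H) : NDC (fun x y => f (c x y)) := by
  intro z
  obtain ⟨U, hU, h⟩ := hc z
  exact ⟨U, hU, fun x hx y hy w hw => by rw [← map_mul, h x hx y hy w hw]⟩

lemma NEq.refl (c : X → X → G) : NEq (fun _ => 1) c c :=
  fun z => ⟨univ, univ_mem, fun x _ y _ => by simp⟩

lemma NEq.symm {A : X → G} {c c' : X → X → G} (h : NEq A c c') :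
    NEq (fun x => (A x)⁻¹) c' c := by
  intro z
  obtain ⟨U, hU, h⟩ := h z
  refine ⟨U, hU, fun x hx y hy => ?_⟩
  rw [h x hx y hy]; group

lemma NEq.trans {A B : X → G} {c c' c'' : X → X → G} (h : NEq A c c') (h' : NEq B c' c'') :
    NEq (fun x => B x * A x) c c'' := by
  intro z
  obtain ⟨U, hU, h⟩ := h z
  obtain ⟨V, hV, h'⟩ := h' z
  refine ⟨U ∩ V, inter_mem hU hV, fun x hx y hy => ?_⟩
  rw [h' x hx.2 y hy.2, h x hx.1 y hy.1]; group

lemma NEq.comap {A : Y → G} {c c' : Y → Y → G} (h : NEq A c c') {f : X → Y}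
    (hf : Continuous f) :
    NEq (fun x => A (f x)) (fun x y => c (f x) (f y)) (fun x y => c' (f x) (f y)) := by
  intro z
  obtain ⟨U, hU, h⟩ := h (f z)
  exact ⟨f ⁻¹' U, hf.continuousAt hU, fun x hx y hy => h _ hx _ hy⟩

lemma NEq.map {A : X → G} {c c' : X → X → G} (h : NEq A c c') (f : G →* H) :
    NEq (fun x => f (A x)) (fun x y => f (c x y)) (fun x y => f (c' x y)) := by
  intro z
  obtain ⟨U, hU, h⟩ := h z
  exact ⟨U, hU, fun x hx y hy => by simp [h x hx y hy]⟩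

lemma NEq.ndc {A : X → G} {c c' : X → X → G} (h : NEq A c c') (hc : NDC c) : NDC c' := by
  intro z
  obtain ⟨U, hU, h⟩ := h z
  obtain ⟨V, hV, hc⟩ := hc z
  refine ⟨U ∩ V, inter_mem hU hV, fun x hx y hy w hw => ?_⟩
  rw [h x hx.1 y hy.1, h y hy.1 w hw.1, h x hx.1 w hw.1, ← hc x hx.2 y hy.2 w hw.2]; group

/-- A locally constant property on a preconnected space. -/
lemma prop_of_preconnected [PreconnectedSpace X] {P : X → Prop}
    (h : ∀ x, ∃ U ∈ 𝓝 x, ∀ y ∈ U, (P x ↔ P y)) {x : X} (hx : P x) (y : X) : P y := by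
  have hcl : IsClopen {z | P z} := by
    constructor
    · rw [← isOpen_compl_iff, isOpen_iff_mem_nhds]
      intro z hz
      obtain ⟨U, hU, h⟩ := h z
      exact mem_of_superset hU fun y hy hp => hz ((h y hy).2 hp)
    · rw [isOpen_iff_mem_nhds]
      intro z hz
      obtain ⟨U, hU, h⟩ := h z
      exact mem_of_superset hU fun y hy => (h y hy).1 hz
  have : {z | P z} = univ := hcl.eq_univ ⟨x, hx⟩
  exact (this ▸ mem_univ y : y ∈ {z | P z})

/-- Same on a preconnected set. -/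
lemma prop_of_isPreconnected {S : Set X} (hS : IsPreconnected S) {P : X → Prop}
    (h : ∀ x ∈ S, ∃ U ∈ 𝓝[S] x, ∀ y ∈ U, (P x ↔ P y)) {x y : X} (hxS : x ∈ S) (hx : P x)
    (hyS : y ∈ S) : P y := by
  have : PreconnectedSpace S := isPreconnected_iff_preconnectedSpace.1 hS
  refine prop_of_preconnected (X := S) (P := fun z => P z.1) ?_ (x := ⟨x, hxS⟩) hx ⟨y, hyS⟩
  intro z
  obtain ⟨U, hU, h⟩ := h z.1 z.2
  exact ⟨Subtype.val ⁻¹' U, mem_nhds_subtype_iff_nhdsWithin.2 (by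
    rw [Subtype.image_preimage_coe]
    exact inter_mem self_mem_nhdsWithin hU), fun y hy => h _ hy⟩

/-- two trivialisations differ by a constant -/
theorem NEq.unique [PreconnectedSpace X] {A B : X → G} {c : X → X → G}
    (hA : NEq A (one X G) c) (hB : NEq B (one X G) c) (x y : X) :
    (A x)⁻¹ * B x = (A y)⁻¹ * B y := by
  refine prop_of_preconnected (P := fun y => (A x)⁻¹ * B x = (A y)⁻¹ * B y) ?_ (x := x) rfl y
  intro z
  obtain ⟨U, hU, hA⟩ := hA z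
  obtain ⟨V, hV, hB⟩ := hB z
  refine ⟨U ∩ V, inter_mem hU hV, fun w hw => ?_⟩
  have h1 := hA z (mem_of_mem_nhds hU) w hw.1
  have h2 := hB z (mem_of_mem_nhds hV) w hw.2
  simp only [one, mul_one] at h1 h2
  have h3 : (A z)⁻¹ * B z = (A w)⁻¹ * B w := by
    have h4 : A z * (A w)⁻¹ = B z * (B w)⁻¹ := by rw [← h1, ← h2]
    have h5 : A z = B z * (B w)⁻¹ * A w := by rw [← h4]; group
    rw [h5]; group
  rw [h3]

/-- small preconnected order-connected neighbourhoods in `[0,1]` -/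
lemma nhds_I {t : I} {U : Set I} (hU : U ∈ 𝓝 t) :
    ∃ J : Set I, IsOpen J ∧ t ∈ J ∧ J ⊆ U ∧ IsPreconnected J ∧ J.OrdConnected := by
  obtain ⟨ε, hε, h⟩ := Metric.mem_nhds_iff.1 hU
  have hJ : (Subtype.val ⁻¹' Ioo ((t : ℝ) - ε) (t + ε) : Set I) = Metric.ball t ε := by
    ext s
    simp [Metric.mem_ball, Subtype.dist_eq, Real.dist_eq, abs_lt]
    constructor
    · rintro ⟨h1, h2⟩; constructor <;> linarith
    · rintro ⟨h1, h2⟩; constructor <;> linarith
  refine ⟨Subtype.val ⁻¹' Ioo ((t : ℝ) - ε) (t + ε), ?_, ?_, ?_, ?_, ?_⟩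
  · rw [hJ]; exact Metric.isOpen_ball
  · rw [hJ]; exact Metric.mem_ball_self hε
  · rw [hJ]; exact h
  · rw [← Topology.IsInducing.subtypeVal.isPreconnected_image, Subtype.image_preimage_coe]
    exact ((convex_Icc (0:ℝ) 1).inter (convex_Ioo _ _)).isPreconnected
  · constructor
    intro x hx y hy z hz
    exact ⟨lt_of_lt_of_le hx.1 hz.1, lt_of_le_of_lt hz.2 hy.2⟩

/-- existence on the interval -/
theorem trivial_I {c : I → I → G} (hc : NDC c) :
    ∃ a : I → G, a 0 = 1 ∧ NEq a (one I G) c := by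
  let P : I → Prop := fun s => ∃ a : I → G, a 0 = 1 ∧ ∀ z ≤ s, ∃ U ∈ 𝓝 z,
    ∀ x ∈ U, ∀ y ∈ U, x ≤ s → y ≤ s → c x y = a x * (a y)⁻¹
  have h0 : P 0 := by
    refine ⟨fun _ => 1, rfl, fun z hz => ⟨univ, univ_mem, fun x _ y _ hx hy => ?_⟩⟩
    have hx0 : x = 0 := le_antisymm hx x.2.1
    have hy0 : y = 0 := le_antisymm hy y.2.1
    rw [hx0, hy0, hc.diag]; simp
  have key : ∀ s₀ : I, ∃ J ∈ 𝓝 s₀, ∀ s₁ ∈ J, ∀ s ∈ J, P s₁ → P s := by
    intro s₀
    obtain ⟨U, hU, hUc⟩ := hc s₀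
    obtain ⟨J, hJo, hJm, hJU, -, hJc⟩ := nhds_I hU
    have hc3 : ∀ x ∈ J, ∀ y ∈ J, ∀ w ∈ J, c x y * c y w = c x w := fun x hx y hy w hw =>
      hUc x (hJU hx) y (hJU hy) w (hJU hw)
    have hc2 : ∀ x ∈ J, ∀ y ∈ J, c x y = (c y x)⁻¹ := fun x hx y hy =>
      eq_inv_of_mul_eq_one_left (by rw [hc3 x hx y hy x hx, hc.diag])
    refine ⟨J, hJo.mem_nhds hJm, fun s₁ hs₁ s hs => ?_⟩
    rintro ⟨a, ha0, ha⟩
    rcases le_or_gt s s₁ with hss | hss
    · refine ⟨a, ha0, fun z hz => ?_⟩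
      obtain ⟨V, hV, h⟩ := ha z (hz.trans hss)
      exact ⟨V, hV, fun x hx y hy hxs hys => h x hx y hy (hxs.trans hss) (hys.trans hss)⟩
    · refine ⟨fun t => if t ≤ s₁ then a t else c t s₁ * a s₁, ?_, fun z hz => ?_⟩
      · simp [ha0]
      rcases lt_trichotomy z s₁ with hz1 | hz1 | hz1
      · obtain ⟨V, hV, h⟩ := ha z hz1.le
        refine ⟨V ∩ Iio s₁, inter_mem hV (Iio_mem_nhds hz1), fun x hx y hy _ _ => ?_⟩
        have hx1 : x ≤ s₁ := le_of_lt hx.2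
        have hy1 : y ≤ s₁ := le_of_lt hy.2
        simp only [if_pos hx1, if_pos hy1]
        exact h x hx.1 y hy.1 hx1 hy1
      · subst hz1
        obtain ⟨V, hV, h⟩ := ha z le_rfl
        have hzV := mem_of_mem_nhds hV
        refine ⟨V ∩ J, inter_mem hV (hJo.mem_nhds hs₁), fun x hx y hy _ _ => ?_⟩
        by_cases hx1 : x ≤ z <;> by_cases hy1 : y ≤ z
        · simp only [if_pos hx1, if_pos hy1]
          exact h x hx.1 y hy.1 hx1 hy1
        · simp only [if_pos hx1, if_neg hy1]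
          rw [← hc3 x hx.2 z hs₁ y hy.2, h x hx.1 z hzV hx1 le_rfl, hc2 z hs₁ y hy.2]
          group
        · simp only [if_neg hx1, if_pos hy1]
          rw [← hc3 x hx.2 z hs₁ y hy.2, h z hzV y hy.1 le_rfl hy1]
          group
        · simp only [if_neg hx1, if_neg hy1]
          rw [← hc3 x hx.2 z hs₁ y hy.2, hc2 z hs₁ y hy.2]
          group
      · have hzJ : z ∈ J := hJc.out hs₁ hs ⟨hz1.le, hz⟩
        refine ⟨J ∩ Ioi s₁, inter_mem (hJo.mem_nhds hzJ) (Ioi_mem_nhds hz1),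
          fun x hx y hy _ _ => ?_⟩
        have hx1 : ¬ x ≤ s₁ := not_le.2 hx.2
        have hy1 : ¬ y ≤ s₁ := not_le.2 hy.2
        simp only [if_neg hx1, if_neg hy1]
        rw [← hc3 x hx.1 s₁ hs₁ y hy.1, hc2 s₁ hs₁ y hy.1]
        group
  have h1 : P 1 := prop_of_preconnected (P := P) (fun x => by
    obtain ⟨J, hJ, h⟩ := key x
    exact ⟨J, hJ, fun y hy => ⟨h x (mem_of_mem_nhds hJ) y hy, h y hy x (mem_of_mem_nhds hJ)⟩⟩) h0 1
  obtain ⟨a, ha, h⟩ := h1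
  refine ⟨a, ha, fun z => ?_⟩
  obtain ⟨U, hU, h⟩ := h z z.2.2
  exact ⟨U, hU, fun x hx y hy => by simpa [one] using h x hx y hy x.2.2 y.2.2⟩

/-- **Homotopy theorem** for near-diagonal cocycles. -/
theorem exists_homotopy {c : X × I → X × I → G} (hc : NDC c) :
    ∃ A : X × I → G, (∀ x, A (x, 0) = 1) ∧
      ∀ z, ∃ U ∈ 𝓝 z, ∀ p ∈ U, ∀ q ∈ U,
        c p q = A p * c (p.1, 0) (q.1, 0) * (A q)⁻¹ := by
  have hex : ∀ x : X, ∃ a : I → G, a 0 = 1 ∧ NEq a (one I G) (fun s t => c (x, s) (x, t)) :=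
    fun x => trivial_I (hc.comap (f := fun t : I => (x, t)) (by fun_prop))
  choose a ha0 ha using hex
  have ha' : ∀ (x : X) (J : Set I), IsPreconnected J → ∀ W : Set (X × I),
      (∀ p ∈ W, ∀ q ∈ W, ∀ r ∈ W, c p q * c q r = c p r) → (∀ t ∈ J, (x, t) ∈ W) →
      ∀ s ∈ J, ∀ t ∈ J, c (x, s) (x, t) = a x s * (a x t)⁻¹ := by
    intro x J hJ W hW hxW s hs t ht
    have h := prop_of_isPreconnected hJ
      (P := fun s => (a x s)⁻¹ * c (x, s) (x, t) = (a x t)⁻¹ * c (x, t) (x, t))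
      (x := t) (y := s) ?_ ht rfl hs
    · rw [hc.diag, mul_one] at h
      rw [← h]; group
    · intro r hr
      obtain ⟨V, hV, hVa⟩ := ha x r
      refine ⟨V ∩ J, inter_mem (mem_nhdsWithin_of_mem_nhds hV) self_mem_nhdsWithin,
        fun y hy => ?_⟩
      have h1 := hVa r (mem_of_mem_nhds hV) y hy.1
      simp only [one, mul_one] at h1
      have h2 := hW _ (hxW r hr) _ (hxW y hy.2) _ (hxW t ht)
      rw [← h2, h1]
      have : (a x r)⁻¹ * (a x r * (a x y)⁻¹ * c (x, y) (x, t)) = (a x y)⁻¹ * c (x, y) (x, t) := by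
        group
      rw [this]
  -- formula (b) for fixed `t`
  have hb : ∀ (x₀ : X) (t : I), ∃ V ∈ 𝓝 x₀, ∀ x ∈ V, ∀ y ∈ V,
      c (x, t) (y, t) = a x t * c (x, 0) (y, 0) * (a y t)⁻¹ := by
    intro x₀
    refine prop_of_preconnected (X := I) (P := fun t => ∃ V ∈ 𝓝 x₀, ∀ x ∈ V, ∀ y ∈ V,
      c (x, t) (y, t) = a x t * c (x, 0) (y, 0) * (a y t)⁻¹) ?_ (x := 0)
      ⟨univ, univ_mem, fun x _ y _ => by simp [ha0]⟩
    intro t₀
    obtain ⟨W, hW, hWc⟩ := hc (x₀, t₀)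
    obtain ⟨W₁, hW₁, W₂, hW₂, hWW⟩ := mem_nhds_prod_iff.1 hW
    obtain ⟨J, hJo, hJm, hJU, hJp, -⟩ := nhds_I hW₂
    have key : ∀ t ∈ J, ∀ s ∈ J, (∃ V ∈ 𝓝 x₀, ∀ x ∈ V, ∀ y ∈ V,
      c (x, t) (y, t) = a x t * c (x, 0) (y, 0) * (a y t)⁻¹) → (∃ V ∈ 𝓝 x₀, ∀ x ∈ V, ∀ y ∈ V,
      c (x, s) (y, s) = a x s * c (x, 0) (y, 0) * (a y s)⁻¹) := by
      rintro t ht s hs ⟨V, hV, h⟩
      refine ⟨V ∩ W₁, inter_mem hV hW₁, fun x hx y hy => ?_⟩
      have hm : ∀ x ∈ W₁, ∀ t ∈ J, (x, t) ∈ W := fun x hx t ht => hWW ⟨hx, hJU ht⟩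
      have e1 := ha' x J hJp W hWc (fun t ht => hm x hx.2 t ht) s hs t ht
      have e2 := ha' y J hJp W hWc (fun t ht => hm y hy.2 t ht) t ht s hs
      have e3 := hWc _ (hm x hx.2 s hs) _ (hm x hx.2 t ht) _ (hm y hy.2 t ht)
      have e4 := hWc _ (hm x hx.2 s hs) _ (hm y hy.2 t ht) _ (hm y hy.2 s hs)
      rw [← e4, ← e3, e1, e2, h x hx.1 y hy.1]
      group
    exact ⟨J, hJo.mem_nhds hJm, fun s hs => ⟨key _ hJm _ hs, key _ hs _ hJm⟩⟩
  refine ⟨fun p => a p.1 p.2, fun x => ha0 x, ?_⟩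
  rintro ⟨x₀, t₀⟩
  obtain ⟨W, hW, hWc⟩ := hc (x₀, t₀)
  obtain ⟨W₁, hW₁, W₂, hW₂, hWW⟩ := mem_nhds_prod_iff.1 hW
  obtain ⟨J, hJo, hJm, hJU, hJp, -⟩ := nhds_I hW₂
  obtain ⟨V, hV, hVb⟩ := hb x₀ t₀
  refine ⟨(W₁ ∩ V) ×ˢ J, prod_mem_nhds (inter_mem hW₁ hV) (hJo.mem_nhds hJm), ?_⟩
  rintro ⟨x, s⟩ ⟨hx, hs⟩ ⟨y, t⟩ ⟨hy, ht⟩
  have hm : ∀ x ∈ W₁, ∀ t ∈ J, (x, t) ∈ W := fun x hx t ht => hWW ⟨hx, hJU ht⟩
  have e1 := ha' x J hJp W hWc (fun t ht => hm x hx.1 t ht) s hs t₀ hJm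
  have e2 := ha' y J hJp W hWc (fun t ht => hm y hy.1 t ht) t₀ hJm t ht
  have e3 := hWc _ (hm x hx.1 s hs) _ (hm x hx.1 t₀ hJm) _ (hm y hy.1 t₀ hJm)
  have e4 := hWc _ (hm x hx.1 s hs) _ (hm y hy.1 t₀ hJm) _ (hm y hy.1 t ht)
  have e5 := hVb x hx.2 y hy.2
  show c (x, s) (y, t) = a x s * c (x, 0) (y, 0) * (a y t)⁻¹
  rw [← e4, ← e3, e1, e2, e5]
  group

/-- homotopic maps have equivalent pull-backs -/
theorem pull_homotopic {c : Y → Y → G} (hc : NDC c) (F : X × I → Y) (hF : Continuous F) :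
    ∃ A : X → G, NEq A (fun x y => c (F (x, 0)) (F (y, 0))) (fun x y => c (F (x, 1)) (F (y, 1))) := by
  obtain ⟨A, hA0, hA⟩ := exists_homotopy (hc.comap hF)
  refine ⟨fun x => A (x, 1), fun z => ?_⟩
  obtain ⟨U, hU, h⟩ := hA (z, 1)
  refine ⟨(fun x : X => (x, (1 : I))) ⁻¹' U, ?_, fun x hx y hy => h _ hx _ hy⟩
  exact (Continuous.prodMk_left (1 : I)).continuousAt.preimage_mem_nhds hU

theorem pull_homotopy {c : Y → Y → G} (hc : NDC c) {f g : C(X, Y)} (h : f.Homotopic g) :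
    ∃ A : X → G, NEq A (fun x y => c (f x) (f y)) (fun x y => c (g x) (g y)) := by
  obtain ⟨F⟩ := h
  have := pull_homotopic hc (fun p : X × I => F (p.2, p.1)) (by fun_prop)
  simpa using this

/-- cocycles on contractible spaces are trivial -/
theorem trivial_of_contractible [ContractibleSpace X] {c : X → X → G} (hc : NDC c) :
    ∃ A : X → G, NEq A (one X G) c := by
  obtain ⟨x₀, h⟩ := id_nullhomotopic X
  obtain ⟨A, hA⟩ := pull_homotopy hc h.symm
  refine ⟨A, fun z => ?_⟩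
  obtain ⟨U, hU, h⟩ := hA z
  refine ⟨U, hU, fun x hx y hy => ?_⟩
  have := h x hx y hy
  simp only [ContinuousMap.const_apply, ContinuousMap.id_apply, hc.diag] at this
  simpa [one] using this

/-- normalisation at a point -/
theorem NEq.normalise {c : X → X → G} {A : X → G} (h : NEq A (one X G) c) (x₀ : X) :
    NEq (fun x => A x * (A x₀)⁻¹) (one X G) c := by
  intro z
  obtain ⟨U, hU, h⟩ := h z
  refine ⟨U, hU, fun x hx y hy => ?_⟩
  rw [h x hx y hy]; simp [one]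

theorem trivial_of_contractible' [ContractibleSpace X] {c : X → X → G} (hc : NDC c) (x₀ : X) :
    ∃ A : X → G, A x₀ = 1 ∧ NEq A (one X G) c := by
  obtain ⟨A, hA⟩ := trivial_of_contractible hc
  exact ⟨_, by simp, hA.normalise x₀⟩

section vector

variable {E : Type*} [AddCommGroup E] [Module ℝ E] [TopologicalSpace E]
  [ContinuousAdd E] [ContinuousSMul ℝ E]

theorem trivial_of_starConvex {S : Set E} {p : E} (hS : StarConvex ℝ p S) (hne : S.Nonempty)
    {c : S → S → G} (hc : NDC c) : ∃ A : S → G, NEq A (one S G) c := by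
  have : ContractibleSpace S := hS.contractibleSpace hne
  exact trivial_of_contractible hc

theorem trivial_of_convex {S : Set E} (hS : Convex ℝ S)
    {c : S → S → G} (hc : NDC c) : ∃ A : S → G, NEq A (one S G) c := by
  rcases S.eq_empty_or_nonempty with h | h
  · exact ⟨fun _ => 1, fun z => absurd z.2 (by simp [h])⟩
  · exact trivial_of_starConvex (hS.starConvex h.some_mem) h hc

/-- version for cocycles `c : X → X → G` that are cocycles near the points of `S` only -/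
theorem trivial_on_starConvex {S : Set E} {p : E} (hS : StarConvex ℝ p S) (hp : p ∈ S)
    {c : E → E → G}
    (hc : ∀ z ∈ S, ∃ U ∈ 𝓝 z, ∀ x ∈ U, ∀ y ∈ U, ∀ w ∈ U, x ∈ S → y ∈ S → w ∈ S →
      c x y * c y w = c x w) :
    ∃ A : E → G, A p = 1 ∧
      ∀ z ∈ S, ∃ U ∈ 𝓝 z, ∀ x ∈ U, ∀ y ∈ U, x ∈ S → y ∈ S → c x y = A x * (A y)⁻¹ := by
  classical
  have hc' : NDC (fun x y : S => c x y) := by
    intro z
    obtain ⟨U, hU, h⟩ := hc z.1 z.2
    exact ⟨Subtype.val ⁻¹' U, continuous_subtype_val.continuousAt hU,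
      fun x hx y hy w hw => h _ hx _ hy _ hw x.2 y.2 w.2⟩
  have : ContractibleSpace S := hS.contractibleSpace ⟨p, hp⟩
  obtain ⟨A, hA1, hA⟩ := trivial_of_contractible' hc' ⟨p, hp⟩
  refine ⟨fun x => if hx : x ∈ S then A ⟨x, hx⟩ else 1, by simp [hp, hA1], fun z hz => ?_⟩
  obtain ⟨U, hU, h⟩ := hA ⟨z, hz⟩
  rw [mem_nhds_subtype] at hU
  obtain ⟨V, hV, hVU⟩ := hU
  refine ⟨V, hV, fun x hx y hy hxS hyS => ?_⟩
  have := h ⟨x, hxS⟩ (hVU hx) ⟨y, hyS⟩ (hVU hy)
  simpa [one, hxS, hyS] using this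

theorem trivial_on_convex {S : Set E} (hS : Convex ℝ S) {c : E → E → G}
    (hc : ∀ z ∈ S, ∃ U ∈ 𝓝 z, ∀ x ∈ U, ∀ y ∈ U, ∀ w ∈ U, x ∈ S → y ∈ S → w ∈ S →
      c x y * c y w = c x w) :
    ∃ A : E → G,
      ∀ z ∈ S, ∃ U ∈ 𝓝 z, ∀ x ∈ U, ∀ y ∈ U, x ∈ S → y ∈ S → c x y = A x * (A y)⁻¹ := by
  rcases S.eq_empty_or_nonempty with h | ⟨p, hp⟩
  · exact ⟨fun _ => 1, fun z hz => absurd hz (by simp [h])⟩
  · obtain ⟨A, -, h⟩ := trivial_on_starConvex (hS.starConvex hp) hp hc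
    exact ⟨A, h⟩

/-- global form on a star-convex open set on which the cocycle identity holds everywhere
in small convex sets: `c` is then *equal* to `A x * (A y)⁻¹` on every convex subset on which it
is a genuine cocycle. -/
theorem eq_of_preconnected_cocycle {S : Set X} (hS : IsPreconnected S) {c : X → X → G}
    {A : X → G} (hc : ∀ x ∈ S, ∀ y ∈ S, ∀ w ∈ S, c x y * c y w = c x w)
    (hA : ∀ z ∈ S, ∃ U ∈ 𝓝[S] z, ∀ x ∈ U, ∀ y ∈ U, c x y = A x * (A y)⁻¹) :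
    ∀ x ∈ S, ∀ y ∈ S, c x y = A x * (A y)⁻¹ := by
  intro x hx y hy
  have hyy : c y y = 1 := by
    have := hc y hy y hy y hy
    simpa using this
  have h := prop_of_isPreconnected hS (P := fun s => (A s)⁻¹ * c s y = (A y)⁻¹ * c y y)
    (x := y) (y := x) ?_ hy rfl hx
  · rw [hyy, mul_one] at h
    rw [← h]; group
  · intro z hz
    obtain ⟨U, hU, h⟩ := hA z hz
    refine ⟨U ∩ S, inter_mem hU self_mem_nhdsWithin, fun w hw => ?_⟩
    have h1 := h z (mem_of_mem_nhdsWithin hz hU) w hw.1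
    rw [← hc z hz w hw.2 y hy, h1]
    have : (A z)⁻¹ * (A z * (A w)⁻¹ * c w y) = (A w)⁻¹ * c w y := by group
    rw [this]

end vector

/-! ### Flat sections -/

section flat

variable {V : Type*} [MulAction G V]

/-- flat sections of a near-diagonal cocycle -/
def Flat (c : X → X → G) (v : X → V) : Prop :=
  ∀ z, ∃ U ∈ 𝓝 z, ∀ x ∈ U, ∀ y ∈ U, v x = c x y • v y

lemma Flat.gauge {A : X → G} {c c' : X → X → G} (h : NEq A c c') {v : X → V} (hv : Flat c v) :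
    Flat c' (fun x => A x • v x) := by
  intro z
  obtain ⟨U, hU, h⟩ := h z
  obtain ⟨W, hW, hv⟩ := hv z
  refine ⟨U ∩ W, inter_mem hU hW, fun x hx y hy => ?_⟩
  simp only
  rw [h x hx.1 y hy.1, hv x hx.2 y hy.2]
  simp [mul_smul]

lemma flat_of_trivial {A : X → G} {c : X → X → G} (h : NEq A (one X G) c) (v₀ : V) :
    Flat c (fun x => A x • v₀) := by
  intro z
  obtain ⟨U, hU, h⟩ := h z
  refine ⟨U, hU, fun x hx y hy => ?_⟩
  simp only
  rw [h x hx y hy]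
  simp [one, mul_smul]

/-- a flat section of a trivialised cocycle on a preconnected space is `A x • v₀` -/
theorem flat_iff [PreconnectedSpace X] [Nonempty X] {A : X → G} {c : X → X → G}
    (h : NEq A (one X G) c) {v : X → V} : Flat c v ↔ ∃ v₀ : V, ∀ x, v x = A x • v₀ := by
  constructor
  · intro hv
    obtain ⟨x₀⟩ := ‹Nonempty X›
    refine ⟨(A x₀)⁻¹ • v x₀, fun x => ?_⟩
    have key : (A x)⁻¹ • v x = (A x₀)⁻¹ • v x₀ := by
      refine prop_of_preconnected (P := fun y => (A y)⁻¹ • v y = (A x₀)⁻¹ • v x₀) ?_ (x := x₀)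
        rfl x
      intro z
      obtain ⟨U, hU, h⟩ := h z
      obtain ⟨W, hW, hv⟩ := hv z
      refine ⟨U ∩ W, inter_mem hU hW, fun w hw => ?_⟩
      have h1 := h z (mem_of_mem_nhds hU) w hw.1
      have h2 := hv z (mem_of_mem_nhds hW) w hw.2
      simp only [one, mul_one] at h1
      have h3 : (A z)⁻¹ • v z = (A w)⁻¹ • v w := by
        rw [h2, h1, ← mul_smul]
        congr 1
        group
      rw [h3]
    rw [← key, smul_inv_smul]
  · rintro ⟨v₀, hv⟩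
    have : v = fun x => A x • v₀ := funext hv
    rw [this]
    exact flat_of_trivial h v₀

/-- two flat sections that agree at one point agree (preconnected base) -/
theorem Flat.eq_of_eq [PreconnectedSpace X] {c : X → X → G} {v w : X → V}
    (hv : Flat c v) (hw : Flat c w) {x₀ : X} (h : v x₀ = w x₀) (x : X) : v x = w x := by
  refine prop_of_preconnected (P := fun y => v y = w y) ?_ (x := x₀) h x
  intro z
  obtain ⟨U, hU, hv⟩ := hv z
  obtain ⟨W, hW, hw⟩ := hw z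
  refine ⟨U ∩ W, inter_mem hU hW, fun y hy => ?_⟩
  have h1 := hv z (mem_of_mem_nhds hU) y hy.1
  have h2 := hw z (mem_of_mem_nhds hW) y hy.2
  rw [h1, h2, smul_left_cancel_iff]

end flat

end Crest.Agent.R276.Top1_358
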