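import Mathlib
import Crest.Agent.R276.IpcBasic_735
import Crest.Agent.R276.Top1_358

/-!
# Row 276, IPC: local form of the frozen definitions (helper735)

* change of centre of `lM`, `lV`;
* a `PVHS` near a point, a `VHS` near a point and an `EndNF` are polarised VHS in the sense of
  `VCalc_442`.
-/

set_option autoImplicit false
set_option linter.unusedSectionVars false

noncomputable section

open Set Filter Topology MeasureTheory Matrix
open Crest.Agent.R271.Ho51
open scoped ContDiff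

namespace Crest.Agent.R276.Ipc735

/-- Hodge projectors with value `0` above the weight -/
def hq {N : ℕ} (w : ℕ) (E : Matrix (Fin N) (Fin N) ℂ) (p : ℕ) : Matrix (Fin N) (Fin N) ℂ :=
  if p ≤ w then hpr w p E else 0

section bridge

variable {N w : ℕ} {X : Type*} [NormedAddCommGroup X] [NormedSpace ℂ X]

lemma hq_of_le {E : Matrix (Fin N) (Fin N) ℂ} {p : ℕ} (hp : p ≤ w) : hq w E p = hpr w p E := by
  unfold hq; rw [if_pos hp]

lemma sum_hq {F : Type*} [AddCommMonoid F] (c : ℕ → Matrix (Fin N) (Fin N) ℂ → F)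
    (E : Matrix (Fin N) (Fin N) ℂ) :
    ∑ p ∈ Finset.range (w + 1), c p (hq w E p) = ∑ p ∈ Finset.range (w + 1), c p (hpr w p E) :=
  Finset.sum_congr rfl fun p hp => by
    rw [hq_of_le (by have := Finset.mem_range.mp hp; omega)]

lemma grOp_hq {S : Matrix (Fin N) (Fin N) ℂ} {E : X → Matrix (Fin N) (Fin N) ℂ} {x : X}
    (h : IsHS w S (E x)) : VCalc_442.grOp w (fun p x => hq w (E x) p) x = E x := by
  unfold VCalc_442.grOp
  rw [sum_hq (fun p M => (p : ℂ) • M), h.sum_smul_hpr]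

lemma sgOp_hq (E : X → Matrix (Fin N) (Fin N) ℂ) (x : X) :
    VCalc_442.sgOp w (fun p x => hq w (E x) p) x = weil w (E x) := by
  unfold VCalc_442.sgOp
  rw [sum_hq (fun p M => (-1 : ℂ) ^ p • M)]
  rfl

lemma contDiffOn_aeval {U : Set X} {E : X → Matrix (Fin N) (Fin N) ℂ}
    (hE : ∀ i j, ContDiffOn ℝ ∞ (fun x => E x i j) U) (f : Polynomial ℂ) (i j : Fin N) :
    ContDiffOn ℝ ∞ (fun x => Polynomial.aeval (E x) f i j) U := by
  have hpow : ∀ (n : ℕ) (i j : Fin N), ContDiffOn ℝ ∞ (fun x => (E x ^ n) i j) U := by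
    intro n
    induction n with
    | zero =>
      intro i j
      simp only [pow_zero]
      exact contDiffOn_const
    | succ n ih =>
      intro i j
      simp only [pow_succ, Matrix.mul_apply]
      exact ContDiffOn.sum fun l _ => (ih i l).mul (hE l j)
  induction f using Polynomial.induction_on' with
  | add f g hf hg =>
    simp only [map_add, Matrix.add_apply]
    exact hf.add hg
  | monomial n a =>
    simp only [Polynomial.aeval_monomial, Algebra.algebraMap_eq_smul_one, smul_mul_assoc, one_mul,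
      Matrix.smul_apply, smul_eq_mul]
    exact contDiffOn_const.mul (hpow n i j)

/-- a smooth family of Hodge structures with horizontality is a VHS in the sense of `VCalc_442` -/
theorem toVCalc {U : Set X} (hU : IsOpen U) {S : Matrix (Fin N) (Fin N) ℂ}
    {E : X → Matrix (Fin N) (Fin N) ℂ} (hs : ∀ x ∈ U, IsHS w S (E x))
    (sm : ∀ i j, ContDiffOn ℝ ∞ (fun x => E x i j) U)
    (hor : ∀ x ∈ U, ∀ v, E x * VCalc_442.mW E v x - VCalc_442.mW E v x * E x =
      - VCalc_442.mW E v x) (hS : Sᴴ = S) :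
    VCalc_442.VHS w U S (fun p x => hq w (E x) p) where
  op := hU
  sm := by
    intro p i j
    by_cases hp : p ≤ w
    · simp only [hq_of_le hp, hpr_eq]
      exact contDiffOn_aeval sm _ i j
    · simp only [hq, if_neg hp, Matrix.zero_apply]
      exact contDiffOn_const
  idem := by
    intro x hx p
    by_cases hp : p ≤ w
    · simp only [hq_of_le hp]; exact (hs x hx).hpr_mul_self hp
    · simp only [hq, if_neg hp, mul_zero]
  orth := by
    intro x hx p q hpq
    by_cases hp : p ≤ w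
    · by_cases hq' : q ≤ w
      · simp only [hq_of_le hp, hq_of_le hq']; exact (hs x hx).hpr_mul_of_ne hp hq' hpq
      · simp only [hq, if_neg hq', mul_zero]
    · simp only [hq, if_neg hp, zero_mul]
  top := by
    intro x _ p hp
    simp only [hq, if_neg (not_le.mpr hp)]
  sum := by
    intro x _
    rw [sum_hq (fun _ M => M), sum_hpr]
  herm := hS
  adj := by
    intro x hx p
    by_cases hp : p ≤ w
    · simp only [hq_of_le hp]; exact ((hs x hx).S_hpr p).symm
    · simp only [hq, if_neg hp, Matrix.conjTranspose_zero, mul_zero, zero_mul]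
  pos := by
    intro x hx
    rw [sgOp_hq]
    exact (hs x hx).hodge_posDef
  hor := by
    intro x hx v
    have h1 : VCalc_442.mW (VCalc_442.grOp w (fun p x => hq w (E x) p)) v x =
        VCalc_442.mW E v x := by
      ext i j
      simp only [VCalc_442.mW, Matrix.of_apply]
      refine VCalc_442.dW_congr ?_ v
      filter_upwards [hU.mem_nhds hx] with y hy
      rw [grOp_hq (hs y hy)]
    rw [h1, grOp_hq (hs x hx)]
    exact hor x hx v

end bridge

/-! ### one complex variable -/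

section one

variable {N w : ℕ}

lemma dW_one (f : ℂ → ℂ) (x : ℂ) : VCalc_442.dW f 1 x = wz f x := by
  unfold VCalc_442.dW wz
  simp

lemma dW_eq_wz (f : ℂ → ℂ) (v x : ℂ) : VCalc_442.dW f v x = v * wz f x := by
  have := VCalc_442.dW_smul_dir f x v 1
  rw [smul_eq_mul, mul_one, smul_eq_mul, dW_one] at this
  exact this

lemma mW_eq_wE (E : ℂ → Matrix (Fin N) (Fin N) ℂ) (v x : ℂ) :
    VCalc_442.mW E v x = v • wE E x := by
  ext i j
  simp only [VCalc_442.mW, wE, Matrix.of_apply, Matrix.smul_apply, smul_eq_mul]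
  exact dW_eq_wz _ v x

/-- version of `toVCalc` in one variable -/
theorem toVCalc_one {U : Set ℂ} (hU : IsOpen U) {S : Matrix (Fin N) (Fin N) ℂ}
    {E : ℂ → Matrix (Fin N) (Fin N) ℂ} (hs : ∀ x ∈ U, IsHS w S (E x))
    (sm : ∀ x ∈ U, ∀ i j, ContDiffAt ℝ (⊤ : ℕ∞) (fun x => E x i j) x)
    (hor : ∀ x ∈ U, E x * wE E x - wE E x * E x = - wE E x) (hS : Sᴴ = S) :
    VCalc_442.VHS w U S (fun p x => hq w (E x) p) := by
  refine toVCalc hU hs (fun i j x hx => (sm x hx i j).contDiffWithinAt) (fun x hx v => ?_) hS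
  rw [mW_eq_wE, mul_smul_comm, smul_mul_assoc, ← smul_sub, hor x hx, smul_neg]

/-- the normal form near an end is a polarised VHS -/
theorem EndNF.toVCalc {s0 : ℝ} (n : EndNF N w s0) :
    VCalc_442.VHS w {u : ℂ | u.re < -s0} n.S (fun p u => hq w (n.E u) p) := by
  have hU : IsOpen {u : ℂ | u.re < -s0} := isOpen_lt Complex.continuous_re continuous_const
  refine toVCalc_one hU (fun u hu => n.hs u hu) (fun u hu => n.smE u hu) (fun u hu => n.tr u hu) ?_
  have h1 : ((-s0 - 1 : ℝ) : ℂ).re < -s0 := by simp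
  exact (n.hs _ h1).herm

end one

/-! ### change of centre -/

section center

variable {X : Type*} [TopologicalSpace X] {N : ℕ}

lemma NDC.on {P : X → X → GL (Fin N) ℤ} (h : NDC P) (s : Set X) : NDCOn s P := fun z _ => h z

lemma NDCOn.diag {s : Set X} {P : X → X → GL (Fin N) ℤ} (h : NDCOn s P) {x : X} (hx : x ∈ s) :
    P x x = 1 := by
  obtain ⟨U, hU, h⟩ := h x hx
  have hx := mem_of_mem_nhds hU
  have := h x hx x hx x hx
  simpa using this

lemma lM_center {s : Set X} {P : X → X → GL (Fin N) ℤ} (h : NDCOn s P)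
    (A : X → Matrix (Fin N) (Fin N) ℂ) {z : X} (hz : z ∈ s) :
    ∃ U, IsOpen U ∧ z ∈ U ∧ ∀ y ∈ U, ∀ x ∈ U,
      lM P A z x = cm (P z y) * lM P A y x * cm (P z y)⁻¹ := by
  obtain ⟨U, hU, h⟩ := h z hz
  obtain ⟨V, hVU, hV, hzV⟩ := mem_nhds_iff.mp hU
  refine ⟨V, hV, hzV, fun y hy x hx => ?_⟩
  unfold lM
  rw [← h z (hVU hzV) y (hVU hy) x (hVU hx), cm_mul, _root_.mul_inv_rev, cm_mul]
  noncomm_ring

lemma lV_center {s : Set X} {P : X → X → GL (Fin N) ℤ} (h : NDCOn s P)
    (φ : X → Fin N → ℂ) {z : X} (hz : z ∈ s) :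
    ∃ U, IsOpen U ∧ z ∈ U ∧ ∀ y ∈ U, ∀ x ∈ U,
      lV P φ z x = cm (P z y) *ᵥ lV P φ y x := by
  obtain ⟨U, hU, h⟩ := h z hz
  obtain ⟨V, hVU, hV, hzV⟩ := mem_nhds_iff.mp hU
  refine ⟨V, hV, hzV, fun y hy x hx => ?_⟩
  unfold lV
  rw [← h z (hVU hzV) y (hVU hy) x (hVU hx), cm_mul, Matrix.mulVec_mulVec]

lemma lM_self {s : Set X} {P : X → X → GL (Fin N) ℤ} (h : NDCOn s P)
    (A : X → Matrix (Fin N) (Fin N) ℂ) {z : X} (hz : z ∈ s) : lM P A z z = A z := by
  unfold lM
  rw [h.diag hz]; simp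

lemma lV_self {s : Set X} {P : X → X → GL (Fin N) ℤ} (h : NDCOn s P)
    (φ : X → Fin N → ℂ) {z : X} (hz : z ∈ s) : lV P φ z z = φ z := by
  unfold lV
  rw [h.diag hz]; simp

lemma IsHS.lM {w : ℕ} {S E : X → Matrix (Fin N) (Fin N) ℂ} {P : X → X → GL (Fin N) ℤ} {z y : X}
    (h : IsHS w (S y) (E y)) (hS : S y = (cm (P z y))ᴴ * S z * cm (P z y)) :
    IsHS w (S z) (lM P E z y) := by
  have h1 := h.conj (cm_mul_cm_inv (P z y)) (cm_inv_mul_cm (P z y))
  have h2 : (cm (P z y)⁻¹)ᴴ * S y * cm (P z y)⁻¹ = S z := by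
    have h3 : (cm (P z y)⁻¹)ᴴ * (cm (P z y))ᴴ = 1 := by
      rw [← Matrix.conjTranspose_mul, cm_mul_cm_inv, Matrix.conjTranspose_one]
    rw [hS]
    calc (cm (P z y)⁻¹)ᴴ * ((cm (P z y))ᴴ * S z * cm (P z y)) * cm (P z y)⁻¹
        = ((cm (P z y)⁻¹)ᴴ * (cm (P z y))ᴴ) * S z * (cm (P z y) * cm (P z y)⁻¹) := by
          noncomm_ring
      _ = S z := by rw [h3, cm_mul_cm_inv]; simp
  rw [h2] at h1
  exact h1

/-- Hodge norm in the frame at `z` -/
lemma hodge_lM {w : ℕ} {S E : X → Matrix (Fin N) (Fin N) ℂ} {P : X → X → GL (Fin N) ℤ} {z y : X}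
    (hS : S y = (cm (P z y))ᴴ * S z * cm (P z y)) (φ : X → Fin N → ℂ) :
    star (lV P φ z y) ⬝ᵥ hodge w (S z) (Ipc735.lM P E z y) *ᵥ lV P φ z y =
      star (φ y) ⬝ᵥ hodge w (S y) (E y) *ᵥ φ y := by
  have h2 : (cm (P z y)⁻¹)ᴴ * S y * cm (P z y)⁻¹ = S z := by
    have h3 : (cm (P z y)⁻¹)ᴴ * (cm (P z y))ᴴ = 1 := by
      rw [← Matrix.conjTranspose_mul, cm_mul_cm_inv, Matrix.conjTranspose_one]
    rw [hS]
    calc (cm (P z y)⁻¹)ᴴ * ((cm (P z y))ᴴ * S z * cm (P z y)) * cm (P z y)⁻¹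
        = ((cm (P z y)⁻¹)ᴴ * (cm (P z y))ᴴ) * S z * (cm (P z y) * cm (P z y)⁻¹) := by
          noncomm_ring
      _ = S z := by rw [h3, cm_mul_cm_inv]; simp
  have h4 := hodge_conj_apply (cm_mul_cm_inv (P z y)) (cm_inv_mul_cm (P z y)) w (S y) (E y)
    (lV P φ z y)
  rw [h2] at h4
  unfold Ipc735.lM
  rw [h4]
  unfold lV
  rw [cm_inv_mulVec]

end center

/-! ### a `PVHS` near a point -/

section pvhs

variable {A : Finset ℂ} {N w : ℕ} (V : PVHS A N w)

lemma wz_mulVec_entry (M M' : Matrix (Fin N) (Fin N) ℂ) {F : ℂ → Matrix (Fin N) (Fin N) ℂ} {z : ℂ}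
    (hF : ∀ i j, DifferentiableAt ℝ (fun y => F y i j) z) :
    wE (fun y => M * F y * M') z = M * wE F z * M' := by
  have h1 : ∀ v : ℂ, ∀ i j, fderiv ℝ (fun y => (M * F y * M') i j) z v =
      ∑ l, ∑ k, M i k * fderiv ℝ (fun y => F y k l) z v * M' l j := by
    intro v i j
    have h2 : (fun y => (M * F y * M') i j) = fun y => ∑ l, ∑ k, M i k * F y k l * M' l j := by
      funext y
      simp only [Matrix.mul_apply, Finset.sum_mul]
    rw [h2, fderiv_fun_sum (fun l _ => DifferentiableAt.fun_sum fun k _ =>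
      ((hF k l).const_mul _).mul_const _)]
    rw [_root_.sum_apply]
    refine Finset.sum_congr rfl fun l _ => ?_
    rw [fderiv_fun_sum (fun k _ => ((hF k l).const_mul _).mul_const _),
      _root_.sum_apply]
    refine Finset.sum_congr rfl fun k _ => ?_
    rw [fderiv_mul_const ((hF k l).const_mul _), fderiv_const_mul (hF k l)]
    simp only [_root_.smul_apply, smul_eq_mul]
    ring
  ext i j
  have h3 : wE (fun y => M * F y * M') z i j = (1 / 2 : ℂ) •
      (fderiv ℝ (fun y => (M * F y * M') i j) z 1 -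
        Complex.I • fderiv ℝ (fun y => (M * F y * M') i j) z Complex.I) := rfl
  rw [h3, h1, h1]
  simp only [wE, wz, Matrix.of_apply, Matrix.mul_apply, smul_eq_mul]
  rw [Finset.mul_sum, ← Finset.sum_sub_distrib, Finset.mul_sum]
  refine Finset.sum_congr rfl fun l _ => ?_
  rw [Finset.mul_sum, ← Finset.sum_sub_distrib, Finset.mul_sum, Finset.sum_mul]
  refine Finset.sum_congr rfl fun k _ => ?_
  ring

/-- A `PVHS` near a point `z`, in the frame at `z`, is a polarised VHS in the sense of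
`VCalc_442`. -/
theorem PVHS.local {z : ℂ} (hz : z ∉ A) :
    ∃ U, IsOpen U ∧ z ∈ U ∧ (∀ x ∈ U, x ∉ A) ∧
      (∀ y ∈ U, ∀ x ∈ U, V.P z y * V.P y x = V.P z x) ∧
      (∀ y ∈ U, V.S y = (cm (V.P z y))ᴴ * V.S z * cm (V.P z y)) ∧
      VCalc_442.VHS w U (V.S z) (fun p x => hq w (lM V.P V.E z x) p) := by
  obtain ⟨U, hU, h⟩ := V.ndc z (by simpa using hz)
  have hA : IsOpen ((A : Set ℂ)ᶜ) := A.finite_toSet.isClosed.isOpen_compl
  obtain ⟨W, hWU, hW, hzW⟩ := mem_nhds_iff.mp (Filter.inter_mem hU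
    (Filter.inter_mem (V.flatS z hz) (hA.mem_nhds (by simpa using hz))))
  have hxA : ∀ x ∈ W, x ∉ A := fun x hx => by simpa using (hWU hx).2.2
  have hS : ∀ y ∈ W, V.S y = (cm (V.P z y))ᴴ * V.S z * cm (V.P z y) := fun y hy => (hWU hy).2.1
  have hP : ∀ y ∈ W, ∀ x ∈ W, V.P z y * V.P y x = V.P z x := fun y hy x hx =>
    h z (hWU hzW).1 y (hWU hy).1 x (hWU hx).1
  have hM : ∀ y ∈ W, ∀ x ∈ W, lM V.P V.E z x =
      cm (V.P z y) * lM V.P V.E y x * cm (V.P z y)⁻¹ := by
    intro y hy x hx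
    unfold lM
    rw [← hP y hy x hx, cm_mul, _root_.mul_inv_rev, cm_mul]
    noncomm_ring
  have hMev : ∀ y ∈ W, lM V.P V.E z =ᶠ[𝓝 y]
      fun x => cm (V.P z y) * lM V.P V.E y x * cm (V.P z y)⁻¹ := fun y hy => by
    filter_upwards [hW.mem_nhds hy] with x hx
    exact hM y hy x hx
  refine ⟨W, hW, hzW, hxA, hP, hS, ?_⟩
  refine toVCalc_one hW (fun x hx => (V.hs x (hxA x hx)).lM (hS x hx)) ?_ ?_ (V.hs z hz).herm
  · intro y hy i j
    have h1 : (fun x => lM V.P V.E z x i j) =ᶠ[𝓝 y]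
        fun x => ∑ l, (∑ k, cm (V.P z y) i k * lM V.P V.E y x k l) * cm (V.P z y)⁻¹ l j := by
      filter_upwards [hMev y hy] with x hx
      rw [hx]
      simp only [Matrix.mul_apply]
    refine ContDiffAt.congr_of_eventuallyEq ?_ h1
    refine ContDiffAt.sum fun l _ => (ContDiffAt.sum fun k _ => ?_).mul contDiffAt_const
    exact contDiffAt_const.mul (V.smE y (hxA y hy) k l)
  · intro y hy
    have h1 : wE (lM V.P V.E z) y = cm (V.P z y) * wM V.P V.E y * cm (V.P z y)⁻¹ := by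
      have h2 : wE (lM V.P V.E z) y =
          wE (fun x => cm (V.P z y) * lM V.P V.E y x * cm (V.P z y)⁻¹) y := by
        ext i j
        simp only [wE, wz, Matrix.of_apply]
        have h3 : (fun x => lM V.P V.E z x i j) =ᶠ[𝓝 y]
            fun x => (cm (V.P z y) * lM V.P V.E y x * cm (V.P z y)⁻¹) i j := by
          filter_upwards [hMev y hy] with x hx
          rw [hx]
        rw [h3.fderiv_eq]
      rw [h2, wz_mulVec_entry _ _ fun i j => (V.smE y (hxA y hy) i j).differentiableAt (by simp)]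
      rfl
    have h2 : lM V.P V.E z y = cm (V.P z y) * V.E y * cm (V.P z y)⁻¹ := rfl
    rw [h1, h2]
    have h3 := V.tr y (hxA y hy)
    have h4 : cm (V.P z y)⁻¹ * cm (V.P z y) = 1 := cm_inv_mul_cm _
    calc cm (V.P z y) * V.E y * cm (V.P z y)⁻¹ * (cm (V.P z y) * wM V.P V.E y * cm (V.P z y)⁻¹) -
          cm (V.P z y) * wM V.P V.E y * cm (V.P z y)⁻¹ * (cm (V.P z y) * V.E y * cm (V.P z y)⁻¹)
        = cm (V.P z y) * (V.E y * (cm (V.P z y)⁻¹ * cm (V.P z y)) * wM V.P V.E y -
            wM V.P V.E y * (cm (V.P z y)⁻¹ * cm (V.P z y)) * V.E y) * cm (V.P z y)⁻¹ := by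
          noncomm_ring
      _ = cm (V.P z y) * (V.E y * wM V.P V.E y - wM V.P V.E y * V.E y) * cm (V.P z y)⁻¹ := by
          rw [h4]; simp only [mul_one]
      _ = _ := by rw [h3]; noncomm_ring

end pvhs

/-! ### a `VHS` over a Riemann domain near a point -/

section mdim

variable {N w : ℕ}

lemma mW_conj {Y : Type*} [NormedAddCommGroup Y] [NormedSpace ℂ Y]
    (M M' : Matrix (Fin N) (Fin N) ℂ) {F : Y → Matrix (Fin N) (Fin N) ℂ} {z : Y}
    (hF : ∀ i j, DifferentiableAt ℝ (fun y => F y i j) z) (u : Y) :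
    VCalc_442.mW (fun y => M * F y * M') u z = M * VCalc_442.mW F u z * M' := by
  have h1 : ∀ v : Y, ∀ i j, fderiv ℝ (fun y => (M * F y * M') i j) z v =
      ∑ l, ∑ k, M i k * fderiv ℝ (fun y => F y k l) z v * M' l j := by
    intro v i j
    have h2 : (fun y => (M * F y * M') i j) = fun y => ∑ l, ∑ k, M i k * F y k l * M' l j := by
      funext y
      simp only [Matrix.mul_apply, Finset.sum_mul]
    rw [h2, fderiv_fun_sum (fun l _ => DifferentiableAt.fun_sum fun k _ =>
      ((hF k l).const_mul _).mul_const _)]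
    rw [_root_.sum_apply]
    refine Finset.sum_congr rfl fun l _ => ?_
    rw [fderiv_fun_sum (fun k _ => ((hF k l).const_mul _).mul_const _),
      _root_.sum_apply]
    refine Finset.sum_congr rfl fun k _ => ?_
    rw [fderiv_mul_const ((hF k l).const_mul _), fderiv_const_mul (hF k l)]
    simp only [_root_.smul_apply, smul_eq_mul]
    ring
  ext i j
  have h3 : VCalc_442.mW (fun y => M * F y * M') u z i j = (1 / 2 : ℂ) •
      (fderiv ℝ (fun y => (M * F y * M') i j) z u -
        Complex.I • fderiv ℝ (fun y => (M * F y * M') i j) z (Complex.I • u)) := rfl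
  rw [h3, h1, h1]
  simp only [VCalc_442.mW, VCalc_442.dW, Matrix.of_apply, Matrix.mul_apply, smul_eq_mul]
  rw [Finset.mul_sum, ← Finset.sum_sub_distrib, Finset.mul_sum]
  refine Finset.sum_congr rfl fun l _ => ?_
  rw [Finset.mul_sum, ← Finset.sum_sub_distrib, Finset.mul_sum, Finset.sum_mul]
  refine Finset.sum_congr rfl fun k _ => ?_
  ring

variable {m : ℕ} {X : Type*} [TopologicalSpace X] [RDom m X]

lemma dW_sum_dir {f : (Fin m → ℂ) → ℂ} (v x : Fin m → ℂ) :
    VCalc_442.dW f v x = ∑ j, v j * VCalc_442.dW f (Pi.single j 1) x := by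
  have h1 : v = ∑ j, v j • (Pi.single j (1 : ℂ) : Fin m → ℂ) := by
    rw [← pi_eq_sum_univ' v]
  have h2 : ∀ s : Finset (Fin m), VCalc_442.dW f (∑ j ∈ s, v j • (Pi.single j (1 : ℂ) : Fin m → ℂ)) x
      = ∑ j ∈ s, v j * VCalc_442.dW f (Pi.single j 1) x := by
    intro s
    induction s using Finset.induction_on with
    | empty =>
      simp only [Finset.sum_empty]
      have := VCalc_442.dW_smul_dir f x 0 0
      simpa using this
    | insert j s hj ih =>
      rw [Finset.sum_insert hj, Finset.sum_insert hj, VCalc_442.dW_add_dir, ih,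
        VCalc_442.dW_smul_dir, smul_eq_mul]
  conv_lhs => rw [h1]
  exact h2 _

lemma dz_eq_dW (j : Fin m) (f : X → ℂ) {e : OpenPartialHomeomorph X (Fin m → ℂ)} (he : IsCh e)
    {x : X} (hx : x ∈ e.source) :
    dz j f x = VCalc_442.dW (f ∘ e.symm) (Pi.single j 1) (cp x) := by
  rw [dz_eq, D_eq he hx]
  unfold VCalc_442.dW
  have h1 : (Complex.I • (Pi.single j (1 : ℂ)) : Fin m → ℂ) = Pi.single j Complex.I := by
    rw [← Pi.single_smul', smul_eq_mul, mul_one]
  rw [h1]
  simp only [smul_eq_mul]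

lemma db_eq_dB (j : Fin m) (f : X → ℂ) {e : OpenPartialHomeomorph X (Fin m → ℂ)} (he : IsCh e)
    {x : X} (hx : x ∈ e.source) :
    db j f x = VCalc_442.dB (f ∘ e.symm) (Pi.single j 1) (cp x) := by
  rw [db_eq, D_eq he hx]
  unfold VCalc_442.dB
  have h1 : (Complex.I • (Pi.single j (1 : ℂ)) : Fin m → ℂ) = Pi.single j Complex.I := by
    rw [← Pi.single_smul', smul_eq_mul, mul_one]
  rw [h1]
  simp only [smul_eq_mul]

/-- smoothness at a point in another chart -/
lemma SmAt.congr_chart {G : Type*} [NormedAddCommGroup G] [NormedSpace ℝ G] {f : X → G} {z : X}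
    (h : SmAt f z) {e : OpenPartialHomeomorph X (Fin m → ℂ)} (he : IsCh e) (hz : z ∈ e.source) :
    ContDiffAt ℝ (⊤ : ℕ∞) (f ∘ e.symm) (cp z) :=
  ContDiffAt.congr_of_eventuallyEq h (comp_germ he (isCh_ch z) hz (mem_ch z) f)

lemma HolAt.congr_chart {G : Type*} [NormedAddCommGroup G] [NormedSpace ℂ G] {f : X → G} {z : X}
    (h : HolAt f z) {e : OpenPartialHomeomorph X (Fin m → ℂ)} (he : IsCh e) (hz : z ∈ e.source) :
    AnalyticAt ℂ (f ∘ e.symm) (cp z) :=
  AnalyticAt.congr h (by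
    filter_upwards [(isCh_ch z).germ he (mem_ch z) hz] with c hc
    simp only [Function.comp_apply, hc])

lemma SmAt.congr {G : Type*} [NormedAddCommGroup G] [NormedSpace ℝ G] {f g : X → G} {z : X}
    (h : SmAt f z) (hfg : f =ᶠ[𝓝 z] g) : SmAt g z := by
  refine ContDiffAt.congr_of_eventuallyEq h ?_
  have h1 : Tendsto (ch z).symm (𝓝 (cp z)) (𝓝 z) := by
    have := (ch z).symm.continuousAt (x := cp z) (by simpa using (isCh_ch z).cp_mem (mem_ch z))
    rwa [ContinuousAt, (isCh_ch z).symm_cp (mem_ch z)] at this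
  filter_upwards [h1.eventually hfg] with c hc
  simpa using hc.symm

lemma HolAt.congr {G : Type*} [NormedAddCommGroup G] [NormedSpace ℂ G] {f g : X → G} {z : X}
    (h : HolAt f z) (hfg : f =ᶠ[𝓝 z] g) : HolAt g z := by
  refine AnalyticAt.congr h ?_
  have h1 : Tendsto (ch z).symm (𝓝 (cp z)) (𝓝 z) := by
    have := (ch z).symm.continuousAt (x := cp z) (by simpa using (isCh_ch z).cp_mem (mem_ch z))
    rwa [ContinuousAt, (isCh_ch z).symm_cp (mem_ch z)] at this
  filter_upwards [h1.eventually hfg] with c hc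
  simpa using hc

/-- entries of a conjugated field -/
lemma mul_mul_entry (M F M' : Matrix (Fin N) (Fin N) ℂ) (i j : Fin N) :
    (M * F * M') i j = ∑ l, (∑ k, M i k * F k l) * M' l j := by
  simp only [Matrix.mul_apply]

/-- A `VHS` near a point `z`, in the frame at `z` and the chart at `z`, is a polarised VHS in the
sense of `VCalc_442`. -/
theorem VHS.local (V : VHS m X N w) (z : X) :
    ∃ U : Set (Fin m → ℂ), IsOpen U ∧ cp z ∈ U ∧ U ⊆ (ch z).target ∧
      (∀ c ∈ U, ∀ d ∈ U, V.P z ((ch z).symm c) * V.P ((ch z).symm c) ((ch z).symm d) =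
        V.P z ((ch z).symm d)) ∧
      (∀ c ∈ U, V.S ((ch z).symm c) =
        (cm (V.P z ((ch z).symm c)))ᴴ * V.S z * cm (V.P z ((ch z).symm c))) ∧
      VCalc_442.VHS w U (V.S z) (fun p c => hq w (lM V.P V.E z ((ch z).symm c)) p) := by
  set e := ch z with he_def
  have he : IsCh e := isCh_ch z
  have hze : z ∈ e.source := mem_ch z
  have ht : Tendsto e.symm (𝓝 (cp z)) (𝓝 z) := by
    have := e.symm.continuousAt (x := cp z) (by simpa using he.cp_mem hze)
    rwa [ContinuousAt, he.symm_cp hze] at this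
  obtain ⟨U, hU, h⟩ := V.ndc z
  obtain ⟨W, hWU, hW, hzW⟩ := mem_nhds_iff.mp (Filter.inter_mem (ht.eventually_mem hU)
    (Filter.inter_mem (ht.eventually (V.flatS z)) (e.open_target.mem_nhds (he.cp_mem hze))))
  have hW1 : ∀ c ∈ W, e.symm c ∈ U := fun c hc => (hWU hc).1
  have hWt : ∀ c ∈ W, c ∈ e.target := fun c hc => (hWU hc).2.2
  have hS : ∀ c ∈ W, V.S (e.symm c) =
      (cm (V.P z (e.symm c)))ᴴ * V.S z * cm (V.P z (e.symm c)) := fun c hc => (hWU hc).2.1
  have hzU : z ∈ U := mem_of_mem_nhds hU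
  have hP : ∀ c ∈ W, ∀ d ∈ W, V.P z (e.symm c) * V.P (e.symm c) (e.symm d) = V.P z (e.symm d) :=
    fun c hc d hd => h z hzU _ (hW1 c hc) _ (hW1 d hd)
  refine ⟨W, hW, hzW, hWt, hP, hS, ?_⟩
  have hM : ∀ c ∈ W, ∀ d ∈ W, lM V.P V.E z (e.symm d) =
      cm (V.P z (e.symm c)) * lM V.P V.E (e.symm c) (e.symm d) * cm (V.P z (e.symm c))⁻¹ := by
    intro c hc d hd
    unfold lM
    rw [← hP c hc d hd, cm_mul, _root_.mul_inv_rev, cm_mul]
    noncomm_ring
  have hsm : ∀ c ∈ W, ∀ i j,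
      ContDiffAt ℝ (⊤ : ℕ∞) (fun d => lM V.P V.E (e.symm c) (e.symm d) i j) c := by
    intro c hc i j
    have h1 := (V.smE (e.symm c) i j).congr_chart he (e.map_target (hWt c hc))
    rw [he.cp_symm (hWt c hc)] at h1
    exact h1
  refine toVCalc hW (fun c hc => (V.hs _).lM (hS c hc)) (fun i j c hc => ?_) ?_ (V.hs z).herm
  · have h1 : (fun d => lM V.P V.E z (e.symm d) i j) =ᶠ[𝓝 c]
        fun d => ∑ l, (∑ k, cm (V.P z (e.symm c)) i k * lM V.P V.E (e.symm c) (e.symm d) k l) *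
          cm (V.P z (e.symm c))⁻¹ l j := by
      filter_upwards [hW.mem_nhds hc] with d hd
      rw [hM c hc d hd, mul_mul_entry]
    refine (ContDiffAt.congr_of_eventuallyEq ?_ h1).contDiffWithinAt
    refine ContDiffAt.sum fun l _ => (ContDiffAt.sum fun k _ => ?_).mul contDiffAt_const
    exact contDiffAt_const.mul (hsm c hc k l)
  · intro c hc v
    have hW' : VCalc_442.mW (fun d => lM V.P V.E z (e.symm d)) v c =
        cm (V.P z (e.symm c)) * (∑ j, v j • dM V.P V.E j (e.symm c)) *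
          cm (V.P z (e.symm c))⁻¹ := by
      have h2 : VCalc_442.mW (fun d => lM V.P V.E z (e.symm d)) v c =
          VCalc_442.mW (fun d => cm (V.P z (e.symm c)) * lM V.P V.E (e.symm c) (e.symm d) *
            cm (V.P z (e.symm c))⁻¹) v c := by
        ext i j
        simp only [VCalc_442.mW, Matrix.of_apply]
        refine VCalc_442.dW_congr ?_ v
        filter_upwards [hW.mem_nhds hc] with d hd
        rw [hM c hc d hd]
      rw [h2, mW_conj _ _ fun i j => (hsm c hc i j).differentiableAt (by simp)]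
      congr 2
      ext i k
      simp only [VCalc_442.mW, Matrix.of_apply, Matrix.sum_apply, Matrix.smul_apply, dM,
        smul_eq_mul]
      rw [dW_sum_dir]
      refine Finset.sum_congr rfl fun j _ => ?_
      rw [dz_eq_dW j _ he (e.map_target (hWt c hc)), he.cp_symm (hWt c hc)]
      rfl
    have h2 : lM V.P V.E z (e.symm c) =
      cm (V.P z (e.symm c)) * V.E (e.symm c) * cm (V.P z (e.symm c))⁻¹ := rfl
    rw [hW', h2]
    set g := cm (V.P z (e.symm c)) with hg
    set g' := cm (V.P z (e.symm c))⁻¹ with hg'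
    set B := ∑ j, v j • dM V.P V.E j (e.symm c) with hB
    have h4 : g' * g = 1 := cm_inv_mul_cm _
    have h3 : V.E (e.symm c) * B - B * V.E (e.symm c) = - B := by
      rw [hB, Finset.mul_sum, Finset.sum_mul, ← Finset.sum_sub_distrib, ← Finset.sum_neg_distrib]
      refine Finset.sum_congr rfl fun j _ => ?_
      rw [mul_smul_comm, smul_mul_assoc, ← smul_sub, V.tr, smul_neg]
    calc g * V.E (e.symm c) * g' * (g * B * g') - g * B * g' * (g * V.E (e.symm c) * g')
        = g * (V.E (e.symm c) * (g' * g) * B - B * (g' * g) * V.E (e.symm c)) * g' := by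
          noncomm_ring
      _ = g * (V.E (e.symm c) * B - B * V.E (e.symm c)) * g' := by
          rw [h4]; simp only [mul_one]
      _ = _ := by rw [h3]; noncomm_ring

end mdim

end Crest.Agent.R276.Ipc735
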