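import Crest.Agent.R276.VCalcJ_442

/-!
# R276, leaf VCalc (helper442): (C2) the determinant of the Hodge metric

`gm w P e x` is the Gram matrix `tr (θ_{e_i} θ̄_{e_j})`.

* `VHS.gm_posSemidef`, `VHS.gm_posDef` (`θ_{e_i}` independent), `VHS.det_le` (Hadamard);
* `VHS.curv_det` : `0 ≤ F ∂̄∂F - |∂F|²`, `F = det gm`;
* `VHS.curv_det_span` : `c g_v F² ≤ F ∂̄∂F - |∂F|²` for `v` in the span of the frame;
* `exists_neg_det` : `c g_v ≤ Δ log det gm` along complex lines.
-/

set_option autoImplicit false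
set_option linter.unusedSectionVars false

open Set Filter Topology Matrix Finset InnerProductSpace Laplacian
open scoped ContDiff ComplexConjugate ComplexOrder

namespace Crest.Agent.R276.VCalc_442

variable {X : Type*} [NormedAddCommGroup X] [NormedSpace ℂ X]
variable {ι : Type*} [Fintype ι] [DecidableEq ι]
variable {κ : Type*} [Fintype κ] [DecidableEq κ]

section dir

variable {A : Type*} [NormedAddCommGroup A] [NormedSpace ℂ A]

theorem dW_sum_dir (f : X → A) (x : X) (s : Finset κ) (c : κ → ℂ) (e : κ → X) :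
    dW f (∑ k ∈ s, c k • e k) x = ∑ k ∈ s, c k • dW f (e k) x := by
  induction s using Finset.induction_on with
  | empty => simp [dW]
  | insert a s ha ih =>
    rw [Finset.sum_insert ha, Finset.sum_insert ha, dW_add_dir, dW_smul_dir, ih]

theorem dB_sum_dir (f : X → A) (x : X) (s : Finset κ) (c : κ → ℂ) (e : κ → X) :
    dB f (∑ k ∈ s, c k • e k) x = ∑ k ∈ s, star (c k) • dB f (e k) x := by
  induction s using Finset.induction_on with
  | empty => simp [dB]
  | insert a s ha ih =>
    rw [Finset.sum_insert ha, Finset.sum_insert ha, dB_add_dir, dB_smul_dir, ih]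
    rfl

end dir

/-- the Gram matrix of the Hodge metric in the frame `e` -/
noncomputable def gm (w : ℕ) (P : ℕ → X → Matrix ι ι ℂ) (e : κ → X) (x : X) : Matrix κ κ ℂ :=
  Matrix.of fun i j => gg w P (e i) (e j) x

section nm

attribute [local instance] Matrix.linftyOpNormedRing Matrix.linftyOpNormedAlgebra

namespace VHS

variable {w : ℕ} {U : Set X} {S : Matrix ι ι ℂ} {P : ℕ → X → Matrix ι ι ℂ} {x : X}

/-- the elements `[θ̄_v, θ_i]` -/
noncomputable def bb (w : ℕ) (P : ℕ → X → Matrix ι ι ℂ) (e v x : X) : Matrix ι ι ℂ :=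
  tb (grOp w P) v x * dW (grOp w P) e x - dW (grOp w P) e x * tb (grOp w P) v x

/-- their adjoints `[θ̄_i, θ_v]` -/
noncomputable def bc (w : ℕ) (P : ℕ → X → Matrix ι ι ℂ) (e v x : X) : Matrix ι ι ℂ :=
  tb (grOp w P) e x * dW (grOp w P) v x - dW (grOp w P) v x * tb (grOp w P) e x

theorem adj_bb (h : VHS w U S P) (hx : x ∈ U) (e v : X) :
    Adj (hm w S P x) (bb w P e v x) (bc w P e v x) := by
  have h1 := h.adj_th_tb hx e
  have h2 := (h.adj_th_tb hx v).symm (h.hmPos hx).1
  exact (h2.mul h1).sub (h1.mul h2)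

theorem curv_det_one (h : VHS w U S P) (hx : x ∈ U) (e : κ → X) (h1 : gm w P e x = 1) (v : X) :
    ∑ i, (bb w P (e i) v x * bc w P (e i) v x).trace.re ≤
      (dB (dW (fun y => (gm w P e y).det) v) v x).re -
        ‖dW (fun y => (gm w P e y).det) v x‖ ^ 2 := by
  have hK := h.hmPos hx
  have hA : ∀ i j, ContDiffOn ℝ ∞ (fun y => gm w P e y i j) U := fun i j => h.sm_gg (e i) (e j)
  have hAd : ∀ i j, DifferentiableAt ℝ (fun y => gm w P e y i j) x :=
    fun i j => diffAt h.op (hA i j) hx
  rw [dB_dW_det_one h.op hx hA h1 v, dW_det_one hAd h1 v]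
  set p : κ → κ → ℂ := fun i j => (dW (dW (grOp w P) (e i)) v x * tb (grOp w P) (e j) x).trace
    with hp
  have e1 : ∀ i j, dW (fun y => gm w P e y i j) v x = p i j := fun i j => h.dW_gg hx (e i) (e j) v
  have e2 : ∀ i j, dB (fun y => gm w P e y i j) v x = star (p j i) := fun i j =>
    (h.dB_gg hx (e i) (e j) v).trans
      ((h.adj_dth hx (e j) v).trace_swap hK (h.adj_th_tb hx (e i)))
  have e3 : ∀ i, dB (dW (fun y => gm w P e y i i) v) v x =
      (bb w P (e i) v x * bc w P (e i) v x).trace +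
        (dW (dW (grOp w P) (e i)) v x * dB (tb (grOp w P) (e i)) v x).trace :=
    fun i => h.dB_dW_gg hx (e i) (e i) v
  simp only [e1, e2, e3]
  have hon : ∀ i j, (dW (grOp w P) (e i) x * tb (grOp w P) (e j) x).trace =
      if i = j then 1 else 0 := by
    intro i j
    have := congrFun (congrFun h1 i) j
    rw [Matrix.one_apply] at this
    rw [← this]
    exact (h.gg_eq hx (e i) (e j)).symm
  have hbes : ∀ j, ∑ i, ‖p j i‖ ^ 2 ≤
      (dW (dW (grOp w P) (e j)) v x * dB (tb (grOp w P) (e j)) v x).trace.re := fun j =>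
    Adj.bessel hK (t := fun i => dW (grOp w P) (e i) x) (t' := fun i => tb (grOp w P) (e i) x)
      (fun i => h.adj_th_tb hx (e i)) hon (h.adj_dth hx (e j) v)
  have r1 : ((∑ i, star (p i i)) * ∑ i, p i i).re = ‖∑ i, p i i‖ ^ 2 := by
    rw [← star_sum, Complex.star_def, mul_comm, Complex.mul_conj, Complex.normSq_eq_norm_sq,
      Complex.ofReal_re]
  have r2 : (∑ i, ∑ j, star (p j i) * p j i).re = ∑ j, ∑ i, ‖p j i‖ ^ 2 := by
    rw [Finset.sum_comm]
    simp only [Complex.re_sum]
    refine Finset.sum_congr rfl fun i _ => Finset.sum_congr rfl fun j _ => ?_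
    rw [Complex.star_def, mul_comm, Complex.mul_conj, Complex.normSq_eq_norm_sq,
      Complex.ofReal_re]
  rw [Complex.add_re, Complex.sub_re, r1, r2, Finset.sum_add_distrib, Complex.add_re,
    Complex.re_sum, Complex.re_sum]
  have h5 := Finset.sum_le_sum fun j (_ : j ∈ Finset.univ) => hbes j
  linarith

theorem bb_span_one (h : VHS w U S P) {c : ℝ} (hc : ∀ K a a' : Matrix ι ι ℂ, K.PosDef →
    Adj K a a' → IsNilpotent a →
    c * (a * a').trace.re ^ 2 ≤ ((a' * a - a * a') * (a' * a - a * a')).trace.re)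
    (hx : x ∈ U) (e : κ → X) (h1 : gm w P e x = 1) (a : κ → ℂ) :
    c * gden w P (∑ i, a i • e i) x ≤
      ∑ i, (bb w P (e i) (∑ i, a i • e i) x * bc w P (e i) (∑ i, a i • e i) x).trace.re := by
  set v := ∑ i, a i • e i with hv
  have hK := h.hmPos hx
  have h2 := h.nil hc hx v
  have hadj : ∀ i, Adj (hm w S P x) (bb w P (e i) v x) (bc w P (e i) v x) :=
    fun i => h.adj_bb hx (e i) v
  have h3 := Adj.sum_cs hK hadj a
  have hon : ∀ i j, (dW (grOp w P) (e i) x * tb (grOp w P) (e j) x).trace =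
      if i = j then 1 else 0 := by
    intro i j
    have := congrFun (congrFun h1 i) j
    rw [Matrix.one_apply] at this
    rw [← this]
    exact (h.gg_eq hx (e i) (e j)).symm
  have t1 : dW (grOp w P) v x = ∑ i, a i • dW (grOp w P) (e i) x := dW_sum_dir _ _ _ _ _
  have t2 : tb (grOp w P) v x = ∑ i, star (a i) • tb (grOp w P) (e i) x := by
    unfold tb
    rw [hv, dB_sum_dir, ← Finset.sum_neg_distrib]
    exact Finset.sum_congr rfl fun i _ => by rw [smul_neg]
  have hb : ∑ i, a i • bb w P (e i) v x = bb w P v v x := by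
    unfold bb
    conv_rhs => rw [t1]
    rw [Finset.mul_sum, Finset.sum_mul, ← Finset.sum_sub_distrib]
    refine Finset.sum_congr rfl fun i _ => ?_
    rw [smul_sub, mul_smul_comm, smul_mul_assoc]
  have hb' : ∑ i, star (a i) • bc w P (e i) v x = bb w P v v x := by
    unfold bb bc
    conv_rhs => rw [t2]
    rw [Finset.mul_sum, Finset.sum_mul, ← Finset.sum_sub_distrib]
    refine Finset.sum_congr rfl fun i _ => ?_
    rw [smul_sub, mul_smul_comm, smul_mul_assoc]
  have hg : gden w P v x = ∑ i, ‖a i‖ ^ 2 := by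
    unfold gden
    rw [h.gg_eq hx]
    change (dW (grOp w P) v x * tb (grOp w P) v x).trace.re = _
    rw [t1, t2, Finset.sum_mul_sum]
    simp only [smul_mul_assoc, mul_smul_comm, Matrix.trace_sum, Matrix.trace_smul, smul_eq_mul,
      hon]
    simp only [mul_ite, mul_one, mul_zero, Finset.sum_ite_eq, Finset.mem_univ, if_true,
      Complex.re_sum]
    refine Finset.sum_congr rfl fun i _ => ?_
    rw [Complex.star_def, mul_comm, Complex.mul_conj, Complex.normSq_eq_norm_sq,
      Complex.ofReal_re]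
  rw [hb, hb', ← hg] at h3
  have h4 : c * gden w P v x ^ 2 ≤ gden w P v x *
      ∑ i, (bb w P (e i) v x * bc w P (e i) v x).trace.re := h2.trans h3
  have h5 := h.gden_nonneg hx v
  rcases h5.eq_or_lt with h6 | h6
  · rw [← h6, mul_zero]
    exact Finset.sum_nonneg fun i _ => (hadj i).trace_re_nonneg hK
  · have h7 : gden w P v x * (c * gden w P v x) ≤ gden w P v x *
      ∑ i, (bb w P (e i) v x * bc w P (e i) v x).trace.re := by nlinarith [h4]
    exact le_of_mul_le_mul_left h7 h6

/-- change of frame -/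
theorem gm_change (h : VHS w U S P) (hx : x ∈ U) (T : Matrix κ κ ℂ) (e : κ → X) :
    gm w P (fun i => ∑ j, T i j • e j) x = T * gm w P e x * Tᴴ := by
  ext i j
  have h0 : ∀ k l, gm w P e x k l = (dW (grOp w P) (e k) x * tb (grOp w P) (e l) x).trace :=
    fun k l => h.gg_eq hx (e k) (e l)
  have h1 : gm w P (fun i => ∑ j, T i j • e j) x i j =
      (dW (grOp w P) (∑ k, T i k • e k) x * tb (grOp w P) (∑ l, T j l • e l) x).trace :=
    h.gg_eq hx _ _
  have t2 : tb (grOp w P) (∑ l, T j l • e l) x =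
      ∑ l, star (T j l) • tb (grOp w P) (e l) x := by
    unfold tb
    rw [dB_sum_dir, ← Finset.sum_neg_distrib]
    exact Finset.sum_congr rfl fun i _ => by rw [smul_neg]
  rw [h1, dW_sum_dir, t2, Finset.sum_mul_sum]
  simp only [smul_mul_assoc, mul_smul_comm, Matrix.trace_sum, Matrix.trace_smul, smul_eq_mul,
    ← h0]
  rw [Matrix.mul_apply]
  simp only [Matrix.mul_apply, Matrix.conjTranspose_apply, Finset.sum_mul]
  rw [Finset.sum_comm]
  refine Finset.sum_congr rfl fun l _ => Finset.sum_congr rfl fun k _ => ?_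
  ring

theorem gm_posSemidef (h : VHS w U S P) (hx : x ∈ U) (e : κ → X) : (gm w P e x).PosSemidef := by
  have hK := h.hmPos hx
  have hq : ∀ a : κ → ℂ, star a ⬝ᵥ (gm w P e x *ᵥ a) =
      ((gden w P (∑ i, star (a i) • e i) x : ℝ) : ℂ) := by
    intro a
    rw [← h.gg_self hx]
    have h1 : gg w P (∑ i, star (a i) • e i) (∑ i, star (a i) • e i) x =
        (dW (grOp w P) (∑ i, star (a i) • e i) x *
          tb (grOp w P) (∑ i, star (a i) • e i) x).trace := h.gg_eq hx _ _
    have t2 : tb (grOp w P) (∑ i, star (a i) • e i) x =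
        ∑ l, a l • tb (grOp w P) (e l) x := by
      unfold tb
      rw [dB_sum_dir, ← Finset.sum_neg_distrib]
      exact Finset.sum_congr rfl fun i _ => by rw [star_star, smul_neg]
    have h0 : ∀ k l, gm w P e x k l = (dW (grOp w P) (e k) x * tb (grOp w P) (e l) x).trace :=
      fun k l => h.gg_eq hx (e k) (e l)
    rw [h1, dW_sum_dir, t2, Finset.sum_mul_sum]
    simp only [smul_mul_assoc, mul_smul_comm, Matrix.trace_sum, Matrix.trace_smul, smul_eq_mul,
      ← h0]
    unfold dotProduct mulVec dotProduct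
    refine Finset.sum_congr rfl fun i _ => ?_
    rw [Finset.mul_sum]
    refine Finset.sum_congr rfl fun j _ => ?_
    simp only [Pi.star_apply]
    ring
  refine Matrix.PosSemidef.of_dotProduct_mulVec_nonneg ?_ ?_
  · ext i j
    rw [Matrix.conjTranspose_apply]
    exact (h.gg_swap hx (e j) (e i)).symm
  · intro a
    rw [hq a]
    exact_mod_cast h.gden_nonneg hx _

/-- the Gram matrix is positive definite iff the `θ_{e_i}` are independent -/
theorem gm_posDef (h : VHS w U S P) (hx : x ∈ U) (e : κ → X)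
    (hli : LinearIndependent ℂ fun i => th w P (e i) x) : (gm w P e x).PosDef := by
  have hps := h.gm_posSemidef hx e
  refine Matrix.PosDef.of_dotProduct_mulVec_pos hps.1 ?_
  intro a ha
  have h0 := hps.dotProduct_mulVec_nonneg a
  refine lt_of_le_of_ne h0 fun hne => ha ?_
  have hq : star a ⬝ᵥ (gm w P e x *ᵥ a) =
      ((gden w P (∑ i, star (a i) • e i) x : ℝ) : ℂ) := by
    rw [← h.gg_self hx]
    have h1 : gg w P (∑ i, star (a i) • e i) (∑ i, star (a i) • e i) x =
        (dW (grOp w P) (∑ i, star (a i) • e i) x *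
          tb (grOp w P) (∑ i, star (a i) • e i) x).trace := h.gg_eq hx _ _
    have t2 : tb (grOp w P) (∑ i, star (a i) • e i) x =
        ∑ l, a l • tb (grOp w P) (e l) x := by
      unfold tb
      rw [dB_sum_dir, ← Finset.sum_neg_distrib]
      exact Finset.sum_congr rfl fun i _ => by rw [star_star, smul_neg]
    have h0 : ∀ k l, gm w P e x k l = (dW (grOp w P) (e k) x * tb (grOp w P) (e l) x).trace :=
      fun k l => h.gg_eq hx (e k) (e l)
    rw [h1, dW_sum_dir, t2, Finset.sum_mul_sum]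
    simp only [smul_mul_assoc, mul_smul_comm, Matrix.trace_sum, Matrix.trace_smul, smul_eq_mul,
      ← h0]
    unfold dotProduct mulVec dotProduct
    refine Finset.sum_congr rfl fun i _ => ?_
    rw [Finset.mul_sum]
    refine Finset.sum_congr rfl fun j _ => ?_
    simp only [Pi.star_apply]
    ring
  have h2 : gden w P (∑ i, star (a i) • e i) x = 0 := by
    have h3 := hne.symm.trans rfl
    rw [hq] at h3
    exact_mod_cast h3
  have h4 := h.gden_eq_zero hx h2
  rw [h.th_eq hx, dW_sum_dir] at h4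
  have h5 := Fintype.linearIndependent_iff.1 hli (fun i => star (a i)) (by
    simp only [h.th_eq hx]
    exact h4)
  funext i
  have h6 := h5 i
  simpa using congrArg star h6

/-- Hadamard's inequality -/
theorem det_le {m : ℕ} (h : VHS w U S P) (hx : x ∈ U) (e : Fin m → X) :
    (gm w P e x).det.re ≤ ∏ i, gden w P (e i) x :=
  Nil_840.det_le_prod_diag (h.gm_posSemidef hx e)

theorem sm_det (h : VHS w U S P) (e : κ → X) : ContDiffOn ℝ ∞ (fun y => (gm w P e y).det) U :=
  contDiffOn_det fun i j => h.sm_gg (e i) (e j)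

theorem det_real (h : VHS w U S P) (hx : x ∈ U) (e : κ → X) :
    (gm w P e x).det = ((gm w P e x).det.re : ℂ) := by
  have h1 : star (gm w P e x).det = (gm w P e x).det := by
    rw [← Matrix.det_conjTranspose, (h.gm_posSemidef hx e).1]
  exact (Complex.conj_eq_iff_re.1 h1).symm

theorem cx_det_ev (h : VHS w U S P) (hx : x ∈ U) (e : κ → X) :
    cx (fun y => (gm w P e y).det.re) =ᶠ[𝓝 x] fun y => (gm w P e y).det :=
  Filter.eventually_of_mem (h.op.mem_nhds hx) fun _ hy => (h.det_real hy e).symm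

/-- the general curvature inequality for `F = det gm`, `V = ∑ β_i` for a normalised frame -/
theorem curv_det_aux (h : VHS w U S P) (hx : x ∈ U) (e : κ → X) (hpos : (gm w P e x).PosDef)
    (v : X) : ∃ T : Matrix κ κ ℂ, IsUnit T ∧
      gm w P (fun i => ∑ j, T i j • e j) x = 1 ∧
      (gm w P e x).det.re ^ 2 *
        ∑ i, (bb w P (∑ j, T i j • e j) v x * bc w P (∑ j, T i j • e j) v x).trace.re ≤
      (gm w P e x).det.re * (dB (dW (fun y => (gm w P e y).det) v) v x).re -
        ‖dW (fun y => (gm w P e y).det) v x‖ ^ 2 := by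
  obtain ⟨B, hB, hGB⟩ := exists_sqrt hpos
  have hd : IsUnit B.det := (Matrix.isUnit_iff_isUnit_det B).1 hB
  set T : Matrix κ κ ℂ := (B⁻¹)ᴴ with hT
  have hTu : IsUnit T := by
    rw [Matrix.isUnit_iff_isUnit_det, hT, Matrix.det_conjTranspose]
    have h1 : IsUnit (B⁻¹).det := by
      rw [Matrix.det_nonsing_inv]
      exact hd.ringInverse
    exact h1.star
  have hone : gm w P (fun i => ∑ j, T i j • e j) x = 1 := by
    rw [h.gm_change hx, hGB, hT, Matrix.conjTranspose_conjTranspose]
    calc (B⁻¹)ᴴ * (Bᴴ * B) * B⁻¹ = ((B⁻¹)ᴴ * Bᴴ) * (B * B⁻¹) := by simp only [mul_assoc]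
      _ = 1 := by
        rw [← Matrix.conjTranspose_mul, Matrix.mul_nonsing_inv B hd, Matrix.conjTranspose_one,
          one_mul]
  refine ⟨T, hTu, hone, ?_⟩
  have h1 := h.curv_det_one hx (fun i => ∑ j, T i j • e j) hone v
  set t : ℝ := ‖T.det‖ ^ 2 with ht
  have htpos : 0 < t := by
    have : T.det ≠ 0 := ((Matrix.isUnit_iff_isUnit_det T).1 hTu).ne_zero
    positivity
  have hdet : ∀ y ∈ U, (gm w P (fun i => ∑ j, T i j • e j) y).det =
      (t : ℂ) • (gm w P e y).det := by
    intro y hy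
    have hT2 : (Tᴴ).det = star T.det := Matrix.det_conjTranspose T
    rw [h.gm_change hy, Matrix.det_mul, Matrix.det_mul, hT2, smul_eq_mul, ht]
    push_cast
    rw [← Complex.ofReal_pow, ← Complex.normSq_eq_norm_sq, ← Complex.mul_conj, Complex.star_def]
    ring
  have hF : ContDiffOn ℝ ∞ (fun y => (gm w P e y).det) U := h.sm_det e
  have hFx : DifferentiableAt ℝ (fun y => (gm w P e y).det) x := diffAt h.op hF hx
  have e1 : ∀ y ∈ U, dW (fun y => (gm w P (fun i => ∑ j, T i j • e j) y).det) v y =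
      (t : ℂ) • dW (fun y => (gm w P e y).det) v y := by
    intro y hy
    rw [dW_congr (Filter.eventually_of_mem (h.op.mem_nhds hy) hdet) v,
      dW_const_smul _ (diffAt h.op hF hy)]
  have e2 : dB (dW (fun y => (gm w P (fun i => ∑ j, T i j • e j) y).det) v) v x =
      (t : ℂ) • dB (dW (fun y => (gm w P e y).det) v) v x := by
    rw [dB_congr (Filter.eventually_of_mem (h.op.mem_nhds hx) e1) v]
    exact dB_const_smul _ (diffAt h.op (contDiffOn_dW h.op hF v) hx) v
  have e3 : t * (gm w P e x).det.re = 1 := by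
    have h2 := hdet x hx
    rw [hone, Matrix.det_one, h.det_real hx e, smul_eq_mul, ← Complex.ofReal_mul] at h2
    exact_mod_cast h2.symm
  rw [e1 x hx, e2, smul_eq_mul, smul_eq_mul, Complex.re_ofReal_mul, norm_mul, Complex.norm_real,
    Real.norm_eq_abs, abs_of_pos htpos] at h1
  set D := (gm w P e x).det.re
  have hD : 0 < D := by
    have : 0 < t * D := by rw [e3]; exact one_pos
    exact (pos_iff_pos_of_mul_pos this).1 htpos
  have h3 := mul_le_mul_of_nonneg_left h1 (sq_nonneg D)
  refine h3.trans (le_of_eq ?_)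
  have e4 : D ^ 2 * (t * (dB (dW (fun y => (gm w P e y).det) v) v x).re -
      (t * ‖dW (fun y => (gm w P e y).det) v x‖) ^ 2) =
      (t * D) * D * (dB (dW (fun y => (gm w P e y).det) v) v x).re -
        (t * D) ^ 2 * ‖dW (fun y => (gm w P e y).det) v x‖ ^ 2 := by ring
  rw [e4, e3]
  ring

/-- (C2) `log det gm` is psh where `gm` is positive definite -/
theorem curv_det (h : VHS w U S P) (hx : x ∈ U) (e : κ → X) (hpos : (gm w P e x).PosDef)
    (v : X) : ‖dW (fun y => (gm w P e y).det) v x‖ ^ 2 ≤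
      (gm w P e x).det.re * (dB (dW (fun y => (gm w P e y).det) v) v x).re := by
  obtain ⟨T, -, -, h2⟩ := h.curv_det_aux hx e hpos v
  have h3 : 0 ≤ ∑ i, (bb w P (∑ j, T i j • e j) v x * bc w P (∑ j, T i j • e j) v x).trace.re :=
    Finset.sum_nonneg fun i _ => (h.adj_bb hx _ v).trace_re_nonneg (h.hmPos hx)
  have h4 := mul_nonneg (sq_nonneg (gm w P e x).det.re) h3
  linarith

/-- (C2) with the lower bound in the directions of the frame -/
theorem curv_det_span (h : VHS w U S P) {c : ℝ} (hc : ∀ K a a' : Matrix ι ι ℂ, K.PosDef →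
    Adj K a a' → IsNilpotent a →
    c * (a * a').trace.re ^ 2 ≤ ((a' * a - a * a') * (a' * a - a * a')).trace.re)
    (hx : x ∈ U) (e : κ → X) (hpos : (gm w P e x).PosDef) {v : X}
    (hv : v ∈ Submodule.span ℂ (Set.range e)) :
    (gm w P e x).det.re ^ 2 * (c * gden w P v x) ≤
      (gm w P e x).det.re * (dB (dW (fun y => (gm w P e y).det) v) v x).re -
        ‖dW (fun y => (gm w P e y).det) v x‖ ^ 2 := by
  obtain ⟨T, hT, hone, h2⟩ := h.curv_det_aux hx e hpos v
  refine le_trans (mul_le_mul_of_nonneg_left ?_ (sq_nonneg _)) h2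
  obtain ⟨a, ha⟩ := (Submodule.mem_span_range_iff_exists_fun ℂ).1 hv
  -- `v = ∑ a_j e_j = ∑ (a T⁻¹)_i e'_i`
  have hTd : IsUnit T.det := (Matrix.isUnit_iff_isUnit_det T).1 hT
  have hv' : v = ∑ i, (a ᵥ* T⁻¹) i • ∑ j, T i j • e j := by
    have e1 : ∑ i, (a ᵥ* T⁻¹) i • ∑ j, T i j • e j = ∑ j, ((a ᵥ* T⁻¹) ᵥ* T) j • e j := by
      simp only [Finset.smul_sum, smul_smul]
      rw [Finset.sum_comm]
      refine Finset.sum_congr rfl fun j _ => ?_
      rw [← Finset.sum_smul]
      rfl
    rw [e1, Matrix.vecMul_vecMul, Matrix.nonsing_inv_mul T hTd, Matrix.vecMul_one, ha]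
  have h3 := h.bb_span_one hc hx (fun i => ∑ j, T i j • e j) hone (a ᵥ* T⁻¹)
  rw [← hv'] at h3
  exact h3

end VHS

end nm

/-- **(C2)** `Δ log det gm ≥ c g_v` along complex lines in directions of the frame -/
theorem exists_neg_det (ι : Type*) [Fintype ι] [DecidableEq ι] : ∃ c : ℝ, 0 < c ∧
    ∀ (X : Type*) [NormedAddCommGroup X] [NormedSpace ℂ X] (κ : Type*) [Fintype κ]
      [DecidableEq κ] (w : ℕ) (U : Set X) (S : Matrix ι ι ℂ) (P : ℕ → X → Matrix ι ι ℂ),
      VHS w U S P → ∀ (e : κ → X) (z v : X) (ζ : ℂ), z + ζ • v ∈ U →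
      (gm w P e (z + ζ • v)).PosDef → v ∈ Submodule.span ℂ (Set.range e) →
      c * gden w P v (z + ζ • v) ≤
        (Δ (fun ξ : ℂ => Real.log (gm w P e (z + ξ • v)).det.re)) ζ := by
  obtain ⟨c, hc, hcn⟩ := nil_bound_adj ι
  refine ⟨4 * c, by positivity, ?_⟩
  intro X _ _ κ _ _ w U S P h e z v ζ hζ hpos hv
  have hC2 : ContDiffAt ℝ 2 (fun y => (gm w P e y).det.re) (z + ζ • v) := by
    have := (h.sm_det e).contDiffAt (h.op.mem_nhds hζ)
    exact (Complex.reCLM.contDiff.contDiffAt.comp _ this).of_le ENat.LEInfty.out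
  have hDpos : 0 < (gm w P e (z + ζ • v)).det.re := (Complex.pos_iff.1 hpos.det_pos).1
  have h0 := lap_log_line (f := fun y => (gm w P e y).det.re) hC2 hDpos.ne'
  rw [h0]
  have h1 := h.curv_det_span hcn hζ e hpos hv
  have hev := h.cx_det_ev hζ e
  have e1 : dW (cx fun y => (gm w P e y).det.re) v (z + ζ • v) =
      dW (fun y => (gm w P e y).det) v (z + ζ • v) := dW_congr hev v
  have e2 : dB (dW (cx fun y => (gm w P e y).det.re) v) v (z + ζ • v) =
      dB (dW (fun y => (gm w P e y).det) v) v (z + ζ • v) := by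
    refine dB_congr ?_ v
    filter_upwards [hev.eventually_nhds] with y hy
    exact dW_congr hy v
  rw [e1, e2, le_div_iff₀ (by positivity)]
  nlinarith [h1]

end Crest.Agent.R276.VCalc_442
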