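import Mathlib
import Crest.Agent.R276.IpcDefs_735

/-!
# R276, tool VPULL (helper327): pull back along holomorphic maps of Riemann domains

* `HMAt φ y`, `HMap φ`: holomorphic maps of Riemann domains.
* `HMAt.holAt`, `HMAt.smAt`: composition; `HMAt.dz_comp`, `HMAt.db_comp`: chain rule.
* `VHS.pull`: the pull back of a variation of Hodge structure, `dM_pull`.
-/

set_option autoImplicit false
set_option linter.unusedSectionVars false

noncomputable section

open Set Filter Topology Matrix ComplexConjugate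
open Crest.Agent.R271.Ho51 Crest.Agent.R276.Ipc735

namespace Crest.Agent.R276.VPull_327

variable {r m : ℕ} {Y X : Type*} [TopologicalSpace Y] [RDom r Y] [TopologicalSpace X] [RDom m X]

/-- the charts are local inverses -/
theorem tendsto_symm (x : X) : Tendsto (ch x).symm (𝓝 (cp x)) (𝓝 x) := by
  have h2 : cp x ∈ (ch x).target := (isCh_ch x).cp_mem (mem_ch x)
  have := (ch x).symm.continuousAt (x := cp x) (by simpa using h2)
  rwa [ContinuousAt, symm_cp] at this

/-- holomorphic at a point -/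
structure HMAt (φ : Y → X) (y : Y) : Prop where
  cont : ContinuousAt φ y
  hol : HolAt (fun y' => cp (φ y')) y

/-- holomorphic map of Riemann domains -/
def HMap (φ : Y → X) : Prop := ∀ y, HMAt φ y

/-- the Jacobian -/
def jac (φ : Y → X) (y : Y) : (Fin r → ℂ) →L[ℂ] (Fin m → ℂ) :=
  fderiv ℂ ((fun y' => cp (φ y')) ∘ (ch y).symm) (cp y)

/-- the Jacobian in coordinates -/
def J (φ : Y → X) (y : Y) (i : Fin r) (j : Fin m) : ℂ := jac φ y (Pi.single i 1) j

theorem HMap.continuous {φ : Y → X} (h : HMap φ) : Continuous φ :=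
  continuous_iff_continuousAt.2 fun y => (h y).cont

namespace HMAt

variable {φ : Y → X} {y : Y} (h : HMAt φ y)

include h

theorem cont' : Tendsto (fun z => φ ((ch y).symm z)) (𝓝 (cp y)) (𝓝 (φ y)) :=
  h.cont.tendsto.comp (tendsto_symm y)

/-- the composition in charts -/
theorem germ {G : Type*} (g : X → G) : (fun y' => g (φ y')) ∘ (ch y).symm =ᶠ[𝓝 (cp y)]
    fun z => (g ∘ (ch (φ y)).symm) (((fun y' => cp (φ y')) ∘ (ch y).symm) z) := by
  filter_upwards [h.cont'.eventually ((ch (φ y)).open_source.mem_nhds (mem_ch (φ y)))] with z hz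
  show g (φ ((ch y).symm z)) = g ((ch (φ y)).symm (cp (φ ((ch y).symm z))))
  rw [(isCh_ch (φ y)).symm_cp hz]

theorem val : ((fun y' => cp (φ y')) ∘ (ch y).symm) (cp y) = cp (φ y) := by
  show cp (φ ((ch y).symm (cp y))) = cp (φ y)
  rw [symm_cp]

theorem holAt {G : Type*} [NormedAddCommGroup G] [NormedSpace ℂ G] {g : X → G}
    (hg : HolAt g (φ y)) : HolAt (fun y' => g (φ y')) y := by
  unfold HolAt at hg ⊢
  refine AnalyticAt.congr ?_ (h.germ g).symm
  refine AnalyticAt.fun_comp (g := g ∘ (ch (φ y)).symm) ?_ h.hol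
  rw [h.val]
  exact hg

theorem smAt {G : Type*} [NormedAddCommGroup G] [NormedSpace ℝ G] {g : X → G}
    (hg : SmAt g (φ y)) : SmAt (fun y' => g (φ y')) y := by
  unfold SmAt at hg ⊢
  refine ContDiffAt.congr_of_eventuallyEq ?_ (h.germ g)
  refine ContDiffAt.comp (g := g ∘ (ch (φ y)).symm) (cp y) ?_
    ((AnalyticAt.contDiffAt h.hol).restrict_scalars ℝ)
  rw [h.val]
  exact hg

theorem D_comp {G : Type*} [NormedAddCommGroup G] [NormedSpace ℝ G] {g : X → G}
    (hg : DifferentiableAt ℝ (g ∘ (ch (φ y)).symm) (cp (φ y))) (v : Fin r → ℂ) :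
    D (fun y' => g (φ y')) y v = D g (φ y) (jac φ y v) := by
  unfold D
  rw [(h.germ g).fderiv_eq]
  have h1 : DifferentiableAt ℂ ((fun y' => cp (φ y')) ∘ (ch y).symm) (cp y) :=
    AnalyticAt.differentiableAt h.hol
  have h2 : fderiv ℝ ((fun y' => cp (φ y')) ∘ (ch y).symm) (cp y) =
      (jac φ y).restrictScalars ℝ := (h1.hasFDerivAt.restrictScalars ℝ).fderiv
  have h3 : DifferentiableAt ℝ ((fun y' => cp (φ y')) ∘ (ch y).symm) (cp y) :=
    h1.restrictScalars ℝ
  have h4 := fderiv_comp (𝕜 := ℝ) (g := g ∘ (ch (φ y)).symm)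
    (f := (fun y' => cp (φ y')) ∘ (ch y).symm) (cp y) (by rw [h.val]; exact hg) h3
  have h5 : (fun z => (g ∘ (ch (φ y)).symm) (((fun y' => cp (φ y')) ∘ (ch y).symm) z)) =
      (g ∘ (ch (φ y)).symm) ∘ ((fun y' => cp (φ y')) ∘ (ch y).symm) := rfl
  rw [h5, h4, h.val, h2]
  rfl

end HMAt

/-- decomposition of a vector -/
theorem sum_single_smul (a : Fin m → ℂ) :
    a = ∑ j, ((a j).re • (Pi.single j 1 : Fin m → ℂ) +
      (a j).im • (Pi.single j Complex.I : Fin m → ℂ)) := by
  funext i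
  rw [Finset.sum_apply]
  simp only [Pi.add_apply, Pi.smul_apply, Pi.single_apply]
  rw [Finset.sum_eq_single i]
  · simp only [if_true, Complex.real_smul, mul_one]
    exact (Complex.re_add_im (a i)).symm
  · intro j _ hj
    simp [hj.symm]
  · simp

theorem A_sum (A : (Fin m → ℂ) →L[ℝ] ℂ) (b : Fin m → ℂ) :
    A b = ∑ j, (((b j).re : ℂ) * A (Pi.single j 1) +
      ((b j).im : ℂ) * A (Pi.single j Complex.I)) := by
  conv_lhs => rw [sum_single_smul b]
  rw [map_sum]
  refine Finset.sum_congr rfl fun j _ => ?_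
  rw [map_add, map_smul, map_smul, Complex.real_smul, Complex.real_smul]

theorem wz_sum (A : (Fin m → ℂ) →L[ℝ] ℂ) (a : Fin m → ℂ) :
    (1 / 2 : ℂ) * (A a - Complex.I * A (Complex.I • a)) =
      ∑ j, a j * Crest.Agent.R271.Ho51.wz j A := by
  rw [A_sum A a, A_sum A (Complex.I • a), Finset.mul_sum, ← Finset.sum_sub_distrib,
    Finset.mul_sum]
  refine Finset.sum_congr rfl fun j _ => ?_
  unfold Crest.Agent.R271.Ho51.wz
  have h2 : a j = ((a j).re : ℂ) + (a j).im * Complex.I := (Complex.re_add_im _).symm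
  have hI : Complex.I * Complex.I = -1 := Complex.I_mul_I
  simp only [Pi.smul_apply, smul_eq_mul, Complex.mul_re, Complex.mul_im, Complex.I_re,
    Complex.I_im, zero_mul, one_mul, zero_sub, zero_add]
  conv_rhs => rw [h2]
  push_cast
  linear_combination ((1/2 : ℂ) * (a j).im * A (Pi.single j Complex.I)) * hI

theorem wb_sum (A : (Fin m → ℂ) →L[ℝ] ℂ) (a : Fin m → ℂ) :
    (1 / 2 : ℂ) * (A a + Complex.I * A (Complex.I • a)) =
      ∑ j, conj (a j) * Crest.Agent.R271.Ho51.wb j A := by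
  rw [A_sum A a, A_sum A (Complex.I • a), Finset.mul_sum, ← Finset.sum_add_distrib,
    Finset.mul_sum]
  refine Finset.sum_congr rfl fun j _ => ?_
  unfold Crest.Agent.R271.Ho51.wb
  have h2 : conj (a j) = ((a j).re : ℂ) - (a j).im * Complex.I := by
    apply Complex.ext <;> simp
  have hI : Complex.I * Complex.I = -1 := Complex.I_mul_I
  simp only [Pi.smul_apply, smul_eq_mul, Complex.mul_re, Complex.mul_im, Complex.I_re,
    Complex.I_im, zero_mul, one_mul, zero_sub, zero_add]
  conv_rhs => rw [h2]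
  push_cast
  linear_combination ((1/2 : ℂ) * (a j).im * A (Pi.single j Complex.I)) * hI

theorem jac_I (φ : Y → X) (y : Y) (i : Fin r) :
    jac φ y (Pi.single i Complex.I) = Complex.I • jac φ y (Pi.single i 1) := by
  rw [← map_smul]
  congr 1
  funext j
  simp [Pi.single_apply]

namespace HMAt

variable {φ : Y → X} {y : Y} (h : HMAt φ y)

include h

/-- chain rule -/
theorem dz_comp {g : X → ℂ} (hg : DifferentiableAt ℝ (g ∘ (ch (φ y)).symm) (cp (φ y)))
    (i : Fin r) : dz i (fun y' => g (φ y')) y = ∑ j, J φ y i j * dz j g (φ y) := by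
  have h1 := wz_sum (D g (φ y)) (jac φ y (Pi.single i 1))
  unfold J dz
  rw [← h1]
  unfold Crest.Agent.R271.Ho51.wz
  rw [h.D_comp hg, h.D_comp hg, jac_I]

theorem db_comp {g : X → ℂ} (hg : DifferentiableAt ℝ (g ∘ (ch (φ y)).symm) (cp (φ y)))
    (i : Fin r) : db i (fun y' => g (φ y')) y = ∑ j, conj (J φ y i j) * db j g (φ y) := by
  have h1 := wb_sum (D g (φ y)) (jac φ y (Pi.single i 1))
  unfold J db
  rw [← h1]
  unfold Crest.Agent.R271.Ho51.wb
  rw [h.D_comp hg, h.D_comp hg, jac_I]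

end HMAt

theorem SmAt.differentiableAt {G : Type*} [NormedAddCommGroup G] [NormedSpace ℝ G] {g : X → G}
    {x : X} (hg : SmAt g x) : DifferentiableAt ℝ (g ∘ (ch x).symm) (cp x) :=
  ContDiffAt.differentiableAt hg (by simp)

/-! ### composition -/

theorem HMAt.comp {q : ℕ} {W : Type*} [TopologicalSpace W] [RDom q W] {φ : Y → X} {χ : W → Y}
    {w : W} (h : HMAt φ (χ w)) (h' : HMAt χ w) : HMAt (fun w => φ (χ w)) w :=
  ⟨ContinuousAt.comp (g := φ) h.cont h'.cont, h'.holAt h.hol⟩

theorem HMAt.id (x : X) : HMAt (fun x : X => x) x := by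
  refine ⟨continuousAt_id, ?_⟩
  unfold HolAt
  refine AnalyticAt.congr (f := fun z => z) analyticAt_id ?_
  filter_upwards [(ch x).open_target.mem_nhds ((isCh_ch x).cp_mem (mem_ch x))] with z hz
  exact ((isCh_ch x).cp_symm hz).symm

/-- a continuous map between Riemann domains which is holomorphic in the coordinates -/
theorem HMap.of_cp {φ : Y → X} (hc : Continuous φ) {g : (Fin r → ℂ) → (Fin m → ℂ)}
    (hg : ∀ y : Y, AnalyticAt ℂ g (cp y)) (h : ∀ y : Y, cp (φ y) = g (cp y)) : HMap φ := by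
  intro y
  refine ⟨hc.continuousAt, ?_⟩
  unfold HolAt
  refine AnalyticAt.congr (hg y) ?_
  filter_upwards [(ch y).open_target.mem_nhds ((isCh_ch y).cp_mem (mem_ch y))] with z hz
  show g z = cp (φ ((ch y).symm z))
  rw [h, (isCh_ch y).cp_symm hz]

/-- the Jacobian of a map given in coordinates -/
theorem jac_of_cp {φ : Y → X} {g : (Fin r → ℂ) → (Fin m → ℂ)}
    {y : Y} (h : ∀ᶠ y' in 𝓝 y, cp (φ y') = g (cp y')) : jac φ y = fderiv ℂ g (cp y) := by
  unfold jac
  apply Filter.EventuallyEq.fderiv_eq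
  filter_upwards [(ch y).open_target.mem_nhds ((isCh_ch y).cp_mem (mem_ch y)),
    (tendsto_symm y).eventually h] with z hz h'
  show cp (φ ((ch y).symm z)) = g z
  rw [h', (isCh_ch y).cp_symm hz]

/-! ### pull back of a VHS -/

/-- **pull back** -/
def pull {N w : ℕ} (V : VHS m X N w) {φ : Y → X} (hφ : HMap φ) : VHS r Y N w where
  P := fun a b => V.P (φ a) (φ b)
  S := fun y => V.S (φ y)
  E := fun y => V.E (φ y)
  ndc := by
    intro z
    obtain ⟨U, hU, h⟩ := V.ndc (φ z)
    exact ⟨φ ⁻¹' U, (hφ z).cont.preimage_mem_nhds hU, fun x hx y hy w hw => h _ hx _ hy _ hw⟩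
  hs := fun y => V.hs (φ y)
  flatS := fun z => (hφ z).cont.eventually (V.flatS (φ z))
  smE := fun z i k => (hφ z).smAt (V.smE (φ z) i k)
  tr := by
    intro z j
    have h1 : dM (fun a b => V.P (φ a) (φ b)) (fun y => V.E (φ y)) j z =
        ∑ l, J φ z j l • dM V.P V.E l (φ z) := by
      ext i k
      rw [Matrix.sum_apply]
      exact (hφ z).dz_comp (SmAt.differentiableAt (V.smE (φ z) i k)) j
    rw [h1, Finset.mul_sum, Finset.sum_mul, ← Finset.sum_sub_distrib, ← Finset.sum_neg_distrib]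
    refine Finset.sum_congr rfl fun l _ => ?_
    rw [Matrix.mul_smul, Matrix.smul_mul, ← smul_sub, V.tr (φ z) l, smul_neg]

section pull

variable {N w : ℕ} (V : VHS m X N w) {φ : Y → X} (hφ : HMap φ)

@[simp] theorem pull_P (a b : Y) : (pull V hφ).P a b = V.P (φ a) (φ b) := rfl
@[simp] theorem pull_S (a : Y) : (pull V hφ).S a = V.S (φ a) := rfl
@[simp] theorem pull_E (a : Y) : (pull V hφ).E a = V.E (φ a) := rfl

theorem lM_pull (A : X → Matrix (Fin N) (Fin N) ℂ) (z y : Y) :
    lM (pull V hφ).P (fun y => A (φ y)) z y = lM V.P A (φ z) (φ y) := rfl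

theorem lV_pull (s : X → Fin N → ℂ) (z y : Y) :
    lV (pull V hφ).P (fun y => s (φ y)) z y = lV V.P s (φ z) (φ y) := rfl

/-- the derivative of the pull back of an endomorphism field -/
theorem dM_pull {A : X → Matrix (Fin N) (Fin N) ℂ} {z : Y}
    (hA : ∀ i k, SmAt (fun y => lM V.P A (φ z) y i k) (φ z)) (j : Fin r) :
    dM (pull V hφ).P (fun y => A (φ y)) j z = ∑ l, J φ z j l • dM V.P A l (φ z) := by
  ext i k
  rw [Matrix.sum_apply]
  exact (hφ z).dz_comp (SmAt.differentiableAt (hA i k)) j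

theorem dM_pull_E (z : Y) (j : Fin r) :
    dM (pull V hφ).P (pull V hφ).E j z = ∑ l, J φ z j l • dM V.P V.E l (φ z) :=
  dM_pull V hφ (fun i k => V.smE (φ z) i k) j

/-- pull back of a holomorphic section -/
theorem holAt_pull {s : X → Fin N → ℂ} {z : Y} (hs : HolAt (lV V.P s (φ z)) (φ z)) :
    HolAt (lV (pull V hφ).P (fun y => s (φ y)) z) z := (hφ z).holAt hs

/-- pull back of an action -/
def pullAct {Γ : Type} [Group Γ] (A : Act V Γ) : Act (pull V hφ) Γ where
  ρ := fun g y => A.ρ g (φ y)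
  mul := fun g h y => A.mul g h (φ y)
  flat := fun g z => (hφ z).cont.eventually (A.flat g (φ z))
  commE := fun g y => A.commE g (φ y)
  presS := fun g y => A.presS g (φ y)

end pull

end Crest.Agent.R276.VPull_327
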