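import Mathlib
import Crest.Agent.R276.VPull_327

/-!
# R276, tool VPULL (helper327), part 2: chain rule for the Levi form

`HMAt.Levi_comp`: `Levi (g ∘ φ) y w = Levi g (φ y) (jac φ y w)`.
-/

set_option autoImplicit false
set_option linter.unusedSectionVars false

noncomputable section

open Set Filter Topology Matrix ComplexConjugate
open Crest.Agent.R271.Ho51 Crest.Agent.R276.Ipc735

namespace Crest.Agent.R276.VPull_327

variable {r m : ℕ} {Y X : Type*} [TopologicalSpace Y] [RDom r Y] [TopologicalSpace X] [RDom m X]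

/-- eventually in the space from eventually in the chart -/
theorem ev_of_chart {x : X} {p : X → Prop} (h : ∀ᶠ z in 𝓝 (cp x), p ((ch x).symm z)) :
    ∀ᶠ y in 𝓝 x, p y := by
  have h1 : ∀ᶠ y in 𝓝 x, p ((ch x).symm (cp y)) :=
    cp_cont.continuousAt.eventually h
  filter_upwards [h1, (ch x).open_source.mem_nhds (mem_ch x)] with y hy hys
  rwa [(isCh_ch x).symm_cp hys] at hy

/-- the value of a function near `x` in the chart at `x` -/
theorem chart_ev {G : Type*} (f : X → G) (x : X) :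
    ∀ᶠ y in 𝓝 x, f y = (f ∘ (ch x).symm) (cp y) := by
  filter_upwards [(ch x).open_source.mem_nhds (mem_ch x)] with y hy
  simp only [Function.comp_apply, (isCh_ch x).symm_cp hy]

/-- charts at nearby points have the same germ -/
theorem germ_near (x : X) : ∀ᶠ y in 𝓝 x,
    ((ch y).symm : (Fin m → ℂ) → X) =ᶠ[𝓝 (cp y)] (ch x).symm := by
  filter_upwards [(ch x).open_source.mem_nhds (mem_ch x)] with y hy
  exact (isCh_ch y).germ (isCh_ch x) (mem_ch y) hy

theorem HolAt.eventually {G : Type*} [NormedAddCommGroup G] [NormedSpace ℂ G] [CompleteSpace G]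
    {f : X → G} {x : X} (h : HolAt f x) : ∀ᶠ y in 𝓝 x, HolAt f y := by
  have h1 : ∀ᶠ z in 𝓝 (cp x), AnalyticAt ℂ (f ∘ (ch x).symm) z := h.eventually_analyticAt
  have h2 : ∀ᶠ y in 𝓝 x, AnalyticAt ℂ (f ∘ (ch x).symm) (cp y) :=
    cp_cont.continuousAt.eventually h1
  filter_upwards [h2, germ_near x] with y hy hg
  refine AnalyticAt.congr hy ?_
  filter_upwards [hg] with z hz
  simp only [Function.comp_apply, hz]

/-- a holomorphic function has `∂̄ = 0` -/
theorem HolAt.db {f : X → ℂ} {x : X} (h : HolAt f x) (j : Fin m) : db j f x = 0 := by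
  have h1 : DifferentiableAt ℂ (f ∘ (ch x).symm) (cp x) := AnalyticAt.differentiableAt h
  have h2 : D f x = (fderiv ℂ (f ∘ (ch x).symm) (cp x)).restrictScalars ℝ :=
    (h1.hasFDerivAt.restrictScalars ℝ).fderiv
  rw [db_eq, h2]
  have h3 : (Pi.single j Complex.I : Fin m → ℂ) = Complex.I • Pi.single j 1 := by
    funext i
    simp [Pi.single_apply]
  have h4 : ((fderiv ℂ (f ∘ (ch x).symm) (cp x)).restrictScalars ℝ) (Pi.single j Complex.I) =
      Complex.I * (fderiv ℂ (f ∘ (ch x).symm) (cp x)) (Pi.single j 1) := by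
    rw [h3]
    exact (fderiv ℂ (f ∘ (ch x).symm) (cp x)).map_smul Complex.I (Pi.single j 1)
  rw [h4, ← mul_assoc, Complex.I_mul_I]
  simp

theorem HolAt.smAt {G : Type*} [NormedAddCommGroup G] [NormedSpace ℂ G] [CompleteSpace G] {f : X → G} {x : X}
    (h : HolAt f x) : SmAt f x := (AnalyticAt.contDiffAt h).restrict_scalars ℝ

/-- pointwise versions of the rules for `dz`, `db` -/
theorem dz_mul_at {f g : X → ℂ} {x : X} (hf : SmAt f x) (hg : SmAt g x) (j : Fin m) :
    dz j (fun y => f y * g y) x = dz j f x * g x + f x * dz j g x := by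
  have hf' := SmAt.differentiableAt hf
  have hg' := SmAt.differentiableAt hg
  have h1 : D (fun y => f y * g y) x = f x • D g x + g x • D f x := by
    unfold D
    have h2 : (fun y => f y * g y) ∘ (ch x).symm =
        fun z => (f ∘ (ch x).symm) z * (g ∘ (ch x).symm) z := rfl
    rw [h2, fderiv_fun_mul hf' hg']
    simp only [Function.comp_apply, symm_cp]
  rw [dz_eq, dz_eq, dz_eq, h1]
  simp only [_root_.add_apply, _root_.smul_apply, smul_eq_mul]
  ring

theorem dz_sum_at {κ : Type*} (s : Finset κ) {f : κ → X → ℂ} {x : X}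
    (hf : ∀ i ∈ s, SmAt (f i) x) (j : Fin m) :
    dz j (fun y => ∑ i ∈ s, f i y) x = ∑ i ∈ s, dz j (f i) x := by
  have h1 : D (fun y => ∑ i ∈ s, f i y) x = ∑ i ∈ s, D (f i) x := by
    unfold D
    have h2 : (fun y => ∑ i ∈ s, f i y) ∘ (ch x).symm =
        fun z => ∑ i ∈ s, (f i ∘ (ch x).symm) z := rfl
    rw [h2, fderiv_fun_sum fun i hi => SmAt.differentiableAt (hf i hi)]
  simp only [dz_eq, h1, _root_.sum_apply]
  rw [Finset.mul_sum, ← Finset.sum_sub_distrib, Finset.mul_sum]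

theorem SmAt.conj {f : X → ℂ} {x : X} (hf : SmAt f x) : SmAt (fun y => conj (f y)) x :=
  (Complex.conjCLE.contDiff.contDiffAt).comp _ hf

theorem SmAt.mul {f g : X → ℂ} {x : X} (hf : SmAt f x) (hg : SmAt g x) :
    SmAt (fun y => f y * g y) x := ContDiffAt.mul hf hg

theorem SmAt.ofReal {f : X → ℝ} {x : X} (hf : SmAt f x) : SmAt (fun y => (f y : ℂ)) x :=
  (Complex.ofRealCLM.contDiff.contDiffAt).comp _ hf

theorem D_conj_at {f : X → ℂ} {x : X} (hf : SmAt f x) (v : Fin m → ℂ) :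
    D (fun y => conj (f y)) x v = conj (D f x v) := by
  have hf' := SmAt.differentiableAt hf
  have h1 : D (fun y => conj (f y)) x =
      (Complex.conjCLE : ℂ ≃L[ℝ] ℂ).toContinuousLinearMap.comp (D f x) := by
    unfold D
    exact ((Complex.conjCLE : ℂ ≃L[ℝ] ℂ).hasFDerivAt.comp (cp x) hf'.hasFDerivAt).fderiv
  rw [h1]
  rfl

theorem dz_conj_at {f : X → ℂ} {x : X} (hf : SmAt f x) (j : Fin m) :
    dz j (fun y => conj (f y)) x = conj (db j f x) := by
  rw [dz_eq, db_eq, D_conj_at hf, D_conj_at hf, map_mul, map_add, map_mul, Complex.conj_I]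
  have : conj (1 / 2 : ℂ) = 1 / 2 := by
    rw [map_div₀, map_one]
    congr 1
    exact Complex.conj_ofNat 2
  rw [this]
  ring

theorem dz_conj_hol {f : X → ℂ} {x : X} (hf : HolAt f x) (j : Fin m) :
    dz j (fun y => conj (f y)) x = 0 := by
  rw [dz_conj_at (HolAt.smAt hf), HolAt.db hf, map_zero]

theorem SmAt.D' {G : Type*} [NormedAddCommGroup G] [NormedSpace ℝ G] {f : X → G} {x : X}
    (hf : SmAt f x) : SmAt (D f) x := by
  unfold SmAt at hf ⊢
  have h1 : ContDiffAt ℝ (⊤ : ℕ∞) (fderiv ℝ (f ∘ (ch x).symm)) (cp x) :=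
    ContDiffAt.fderiv_right hf (by simp)
  refine ContDiffAt.congr_of_eventuallyEq h1 ?_
  filter_upwards [(ch x).open_target.mem_nhds ((isCh_ch x).cp_mem (mem_ch x))] with z hz
  exact D_symm (isCh_ch x) hz f

theorem SmAt.apply {f : X → (Fin m → ℂ) →L[ℝ] ℂ} {x : X} (hf : SmAt f x) (v : Fin m → ℂ) :
    SmAt (fun y => f y v) x := ContDiffAt.clm_apply hf contDiffAt_const

theorem SmAt.const (c : ℂ) {x : X} : SmAt (fun _ : X => c) x := contDiffAt_const

theorem SmAt.dz {f : X → ℂ} {x : X} (hf : SmAt f x) (j : Fin m) : SmAt (dz j f) x := by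
  have h1 := SmAt.apply (SmAt.D' hf) (Pi.single j 1)
  have h2 := SmAt.apply (SmAt.D' hf) (Pi.single j Complex.I)
  exact SmAt.mul (SmAt.const _) (ContDiffAt.sub h1 (SmAt.mul (SmAt.const _) h2))

theorem SmAt.db {f : X → ℂ} {x : X} (hf : SmAt f x) (j : Fin m) : SmAt (db j f) x := by
  have h1 := SmAt.apply (SmAt.D' hf) (Pi.single j 1)
  have h2 := SmAt.apply (SmAt.D' hf) (Pi.single j Complex.I)
  exact SmAt.mul (SmAt.const _) (ContDiffAt.add h1 (SmAt.mul (SmAt.const _) h2))

/-- the Jacobian is holomorphic -/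
theorem HMAt.holAt_J {φ : Y → X} {y : Y} (h : HMAt φ y) (i : Fin r) (j : Fin m) :
    HolAt (fun y' => J φ y' i j) y := by
  unfold HolAt
  set F : (Fin r → ℂ) → (Fin m → ℂ) := (fun y' => cp (φ y')) ∘ (ch y).symm with hF
  have hFa : AnalyticAt ℂ F (cp y) := h.hol
  have h1 : AnalyticAt ℂ (fun z => fderiv ℂ F z (Pi.single i 1) j) (cp y) := by
    have h2 : AnalyticAt ℂ (fderiv ℂ F) (cp y) := hFa.fderiv
    have h3 : AnalyticAt ℂ (fun z => fderiv ℂ F z (Pi.single i 1)) (cp y) :=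
      AnalyticAt.fun_comp ((ContinuousLinearMap.apply ℂ (Fin m → ℂ)
        (Pi.single i 1 : Fin r → ℂ)).analyticAt _) h2
    exact (analyticAt_pi_iff.1 h3) j
  refine h1.congr ?_
  have h4 : ∀ᶠ z in 𝓝 (cp y), ((ch ((ch y).symm z)).symm : (Fin r → ℂ) → Y) =ᶠ[𝓝 z]
      (ch y).symm := by
    filter_upwards [(tendsto_symm y).eventually (germ_near y),
      (ch y).open_target.mem_nhds ((isCh_ch y).cp_mem (mem_ch y))] with z hz hzt
    rwa [(isCh_ch y).cp_symm hzt] at hz
  filter_upwards [h4, (ch y).open_target.mem_nhds ((isCh_ch y).cp_mem (mem_ch y))] with z hz hzt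
  show fderiv ℂ F z (Pi.single i 1) j = J φ ((ch y).symm z) i j
  unfold J jac
  rw [(isCh_ch y).cp_symm hzt]
  have h5 : ((fun y' => cp (φ y')) ∘ (ch ((ch y).symm z)).symm) =ᶠ[𝓝 z] F := by
    filter_upwards [hz] with z' hz'
    simp only [Function.comp_apply, hz', hF]
  rw [h5.fderiv_eq]

/-- **chain rule for the Levi matrix** -/
theorem Lv_comp {φ : Y → X} {y : Y} (h : ∀ᶠ y' in 𝓝 y, HMAt φ y') {g : X → ℝ}
    (hg : ∀ᶠ x in 𝓝 (φ y), SmAt g x) (j k : Fin r) :
    Lv (fun y' => g (φ y')) y j k = ∑ p, ∑ l, J φ y j p * conj (J φ y k l) * Lv g (φ y) p l := by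
  have hy : HMAt φ y := h.self_of_nhds
  have hgc' : ∀ᶠ x in 𝓝 (φ y), SmAt (fun x => (g x : ℂ)) x := hg.mono fun x hx => SmAt.ofReal hx
  have hgc : SmAt (fun x => (g x : ℂ)) (φ y) := hgc'.self_of_nhds
  have h1 : (db k fun y' => ((g (φ y') : ℝ) : ℂ)) =ᶠ[𝓝 y] fun y' =>
      ∑ l, conj (J φ y' k l) * db l (fun x => (g x : ℂ)) (φ y') := by
    filter_upwards [h, hy.cont.eventually hgc'] with y' hy' hgy
    exact hy'.db_comp (SmAt.differentiableAt hgy) k
  unfold Lv
  rw [dz_congr h1, dz_sum_at]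
  · have h2 : ∀ l : Fin m, dz j (fun y' => conj (J φ y' k l) *
        db l (fun x => (g x : ℂ)) (φ y')) y =
        ∑ p, J φ y j p * conj (J φ y k l) * dz p (db l fun x => (g x : ℂ)) (φ y) := by
      intro l
      have h3 : SmAt (db l fun x => (g x : ℂ)) (φ y) := SmAt.db hgc l
      rw [dz_mul_at (SmAt.conj (HolAt.smAt (hy.holAt_J k l))) (hy.smAt h3),
        dz_conj_hol (hy.holAt_J k l), zero_mul, zero_add,
        hy.dz_comp (SmAt.differentiableAt h3), Finset.mul_sum]
      refine Finset.sum_congr rfl fun p _ => ?_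
      ring
    rw [Finset.sum_congr rfl fun l _ => h2 l, Finset.sum_comm]
  · intro l _
    exact SmAt.mul (SmAt.conj (HolAt.smAt (hy.holAt_J k l))) (hy.smAt (SmAt.db hgc l))

/-- the Jacobian applied to a vector -/
theorem jac_apply (φ : Y → X) (y : Y) (w : Fin r → ℂ) (l : Fin m) :
    jac φ y w l = ∑ i, w i * J φ y i l := by
  have h1 : w = ∑ i, w i • (Pi.single i 1 : Fin r → ℂ) := by
    funext a
    simp [Finset.sum_apply, Pi.single_apply]
  conv_lhs => rw [h1]
  rw [map_sum, Finset.sum_apply]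
  refine Finset.sum_congr rfl fun i _ => ?_
  rw [map_smul]
  rfl

/-- **chain rule for the Levi form** -/
theorem Levi_comp {φ : Y → X} {y : Y} (h : ∀ᶠ y' in 𝓝 y, HMAt φ y') {g : X → ℝ}
    (hg : ∀ᶠ x in 𝓝 (φ y), SmAt g x) (w : Fin r → ℂ) :
    Levi (fun y' => g (φ y')) y w = Levi g (φ y) (jac φ y w) := by
  unfold Levi
  congr 1
  simp only [Lv_comp h hg, jac_apply, map_sum, map_mul]
  simp only [Finset.sum_mul, Finset.mul_sum]
  -- both sides are sums over `j k p l`
  calc ∑ j, ∑ k, ∑ p, ∑ l, J φ y j p * conj (J φ y k l) * Lv g (φ y) p l * w j * conj (w k)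
      = ∑ p, ∑ l, ∑ j, ∑ k,
        J φ y j p * conj (J φ y k l) * Lv g (φ y) p l * w j * conj (w k) := by
        rw [Finset.sum_congr rfl fun j _ => Finset.sum_comm]
        rw [Finset.sum_comm]
        refine Finset.sum_congr rfl fun p _ => ?_
        rw [Finset.sum_congr rfl fun j _ => Finset.sum_comm]
        rw [Finset.sum_comm]
    _ = _ := by
        refine Finset.sum_congr rfl fun p _ => Finset.sum_congr rfl fun l _ => ?_
        rw [Finset.sum_comm]
        refine Finset.sum_congr rfl fun k _ => Finset.sum_congr rfl fun j _ => ?_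
        ring

end Crest.Agent.R276.VPull_327
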