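import Mathlib
import Crest.Agent.R276.IpcLoc_735
import Crest.Agent.R276.VCalcI_442
import Crest.Agent.R276.VCalcK_442
import Crest.Agent.R276.VPull2_327

/-!
# R276, tool VLEVI (helper327): Levi forms for a `VHS` over a Riemann domain

* `Levi_eq`, `Levi_log`: `Levi u z w = (∂̄_w ∂_w F).re`, `F = u` in the chart.
* `gV V i j x = tr (θ_i θ_j^*)`, `gV_local`: equality with `VCalc_442.gg`.
* `gdet V ι x = det (gV (ι i) (ι j))`: smooth, `≥ 0`, `Levi (log gdet) ≥ 0`.
-/

set_option autoImplicit false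
set_option linter.unusedSectionVars false

noncomputable section

open Set Filter Topology Matrix ComplexConjugate
open scoped ContDiff
open Crest.Agent.R271.Ho51 Crest.Agent.R276.Ipc735 Crest.Agent.R276.VPull_327

namespace Crest.Agent.R276.VLevi_327

open VCalc_442 (dW dB mW mB cx gg gm gden th thb grOp)

/-! ### the Levi form in a chart -/

section levi

variable {m : ℕ} {X : Type*} [TopologicalSpace X] [RDom m X]

lemma dB_sum_dir {f : (Fin m → ℂ) → ℂ} (v x : Fin m → ℂ) :
    dB f v x = ∑ j, conj (v j) * dB f (Pi.single j 1) x := by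
  have h1 : v = ∑ j, v j • (Pi.single j (1 : ℂ) : Fin m → ℂ) := by
    rw [← pi_eq_sum_univ' v]
  have h2 : ∀ s : Finset (Fin m), dB f (∑ j ∈ s, v j • (Pi.single j (1 : ℂ) : Fin m → ℂ)) x
      = ∑ j ∈ s, conj (v j) * dB f (Pi.single j 1) x := by
    intro s
    induction s using Finset.induction_on with
    | empty =>
      simp only [Finset.sum_empty]
      have := VCalc_442.dB_smul_dir f x 0 0
      simpa using this
    | insert j s hj ih =>
      rw [Finset.sum_insert hj, Finset.sum_insert hj, VCalc_442.dB_add_dir, ih,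
        VCalc_442.dB_smul_dir, smul_eq_mul]
  conv_lhs => rw [h1]
  exact h2 _

theorem Lv_eq {u : X → ℝ} {z : X}
    (hu : ContDiffAt ℝ 2 (u ∘ (ch z).symm) (cp z)) (j k : Fin m) :
    Lv u z j k = dB (dW (cx (u ∘ (ch z).symm)) (Pi.single j 1)) (Pi.single k 1) (cp z) := by
  unfold Lv
  rw [dz_eq_dW j _ (isCh_ch z) (mem_ch z)]
  have h1 : (db k fun y => ((u y : ℝ) : ℂ)) ∘ (ch z).symm =ᶠ[𝓝 (cp z)]
      dB (cx (u ∘ (ch z).symm)) (Pi.single k 1) := by
    filter_upwards [(ch z).open_target.mem_nhds ((isCh_ch z).cp_mem (mem_ch z))] with c hc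
    have h2 := db_eq_dB k (fun y => ((u y : ℝ) : ℂ)) (isCh_ch z) ((ch z).map_target hc)
    rw [(isCh_ch z).cp_symm hc] at h2
    exact h2
  rw [VCalc_442.dW_congr h1, VCalc_442.dW_dB (VCalc_442.contDiffAt_cx hu)]

theorem Levi_eq {u : X → ℝ} {z : X} (hu : ContDiffAt ℝ 2 (u ∘ (ch z).symm) (cp z))
    (w : Fin m → ℂ) :
    Levi u z w = (dB (dW (cx (u ∘ (ch z).symm)) w) w (cp z)).re := by
  set F := cx (u ∘ (ch z).symm) with hF
  have hFc : ContDiffAt ℝ 2 F (cp z) := VCalc_442.contDiffAt_cx hu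
  have h1 : dW F w = fun x => ∑ j, w j * dW F (Pi.single j 1) x := by
    funext x
    exact Ipc735.dW_sum_dir w x
  have hd : ∀ j : Fin m, DifferentiableAt ℝ (dW F (Pi.single j 1)) (cp z) := by
    intro j
    have h : DifferentiableAt ℝ (fderiv ℝ F) (cp z) :=
      (hFc.fderiv_right (m := 1) (by norm_num)).differentiableAt (by simp)
    have h1 : ∀ u, DifferentiableAt ℝ (fun y => fderiv ℝ F y u) (cp z) :=
      fun u => h.clm_apply (differentiableAt_const u)
    exact ((h1 _).sub ((h1 _).const_smul Complex.I)).const_smul (1 / 2 : ℂ)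
  have h2 : ∀ v, dB (dW F w) v (cp z) = ∑ j, w j * dB (dW F (Pi.single j 1)) v (cp z) := by
    intro v
    rw [h1]
    have h3 : ∀ v, fderiv ℝ (fun x => ∑ j, w j * dW F (Pi.single j 1) x) (cp z) v =
        ∑ j, w j * fderiv ℝ (dW F (Pi.single j 1)) (cp z) v := by
      intro v
      rw [fderiv_fun_sum fun j _ => (hd j).const_mul _, _root_.sum_apply]
      refine Finset.sum_congr rfl fun j _ => ?_
      rw [fderiv_const_mul (hd j)]
      rfl
    unfold VCalc_442.dB
    rw [h3, h3]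
    simp only [smul_eq_mul]
    rw [Finset.mul_sum, ← Finset.sum_add_distrib, Finset.mul_sum]
    refine Finset.sum_congr rfl fun j _ => ?_
    ring
  rw [h2]
  unfold Levi
  congr 1
  refine Finset.sum_congr rfl fun j _ => ?_
  rw [dB_sum_dir, Finset.mul_sum]
  refine Finset.sum_congr rfl fun k _ => ?_
  rw [Lv_eq hu]
  ring

/-- the Levi form of a logarithm -/
theorem Levi_log {u : X → ℝ} {z : X} (hu : ContDiffAt ℝ 2 (u ∘ (ch z).symm) (cp z))
    (hpos : 0 < u z) (w : Fin m → ℂ) :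
    Levi (fun x => Real.log (u x)) z w = (u z * Levi u z w -
      ‖dW (cx (u ∘ (ch z).symm)) w (cp z)‖ ^ 2) / u z ^ 2 := by
  set F := u ∘ (ch z).symm with hF
  have hFz : F (cp z) = u z := by simp [hF, symm_cp]
  have e0 : cp z + (0 : ℂ) • w = cp z := by simp
  have hlog : ContDiffAt ℝ 2 ((fun x => Real.log (u x)) ∘ (ch z).symm) (cp z) := by
    have : ContDiffAt ℝ 2 (fun c => Real.log (F c)) (cp z) := hu.log (by rw [hFz]; exact hpos.ne')
    exact this
  rw [Levi_eq hlog, Levi_eq hu]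
  have h1 := VCalc_442.lap_line (f := (fun x => Real.log (u x)) ∘ (ch z).symm) (z := cp z)
    (v := w) (ζ := 0) (by rw [e0]; exact hlog)
  have h2 := VCalc_442.lap_log_line (f := F) (z := cp z) (v := w) (ζ := 0)
    (by rw [e0]; exact hu) (by rw [e0, hFz]; exact hpos.ne')
  rw [e0] at h1 h2
  have h3 : (fun ξ : ℂ => ((fun x => Real.log (u x)) ∘ (ch z).symm) (cp z + ξ • w)) =
      fun ξ : ℂ => Real.log (F (cp z + ξ • w)) := rfl
  rw [h3, h2, hFz] at h1
  have hu0 : u z ≠ 0 := hpos.ne'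
  field_simp at h1 ⊢
  linarith

end levi

/-! ### the Hodge metric -/

section gV

variable {m N w : ℕ} {X : Type*} [TopologicalSpace X] [RDom m X]

/-- `∂/∂\bar z_j` at `z` of the endomorphism field `A`, in the frame at `z` -/
def dMb (P : X → X → GL (Fin N) ℤ) (A : X → Matrix (Fin N) (Fin N) ℂ) (j : Fin m) (z : X) :
    Matrix (Fin N) (Fin N) ℂ := Matrix.of fun i k => db j (fun y => lM P A z y i k) z

/-- `tr (θ_i θ_j^*)` -/
def gV (V : VHS m X N w) (i j : Fin m) (x : X) : ℂ :=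
  (dM V.P V.E i x * -(dMb V.P V.E j x)).trace

/-- the Gram determinant of the Hodge metric for the coordinates `ι` -/
def gdet {r : ℕ} (V : VHS m X N w) (ι : Fin r → Fin m) (x : X) : ℝ :=
  (Matrix.of fun i j => gV V (ι i) (ι j) x).det.re

lemma mB_conj {Y : Type*} [NormedAddCommGroup Y] [NormedSpace ℂ Y]
    (M M' : Matrix (Fin N) (Fin N) ℂ) {F : Y → Matrix (Fin N) (Fin N) ℂ} {z : Y}
    (hF : ∀ i j, DifferentiableAt ℝ (fun y => F y i j) z) (u : Y) :
    mB (fun y => M * F y * M') u z = M * mB F u z * M' := by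
  have h1 : ∀ v : Y, ∀ i j, fderiv ℝ (fun y => (M * F y * M') i j) z v =
      ∑ l, ∑ k, M i k * fderiv ℝ (fun y => F y k l) z v * M' l j := by
    intro v i j
    have h2 : (fun y => (M * F y * M') i j) = fun y => ∑ l, ∑ k, M i k * F y k l * M' l j := by
      funext y
      simp only [Matrix.mul_apply, Finset.sum_mul]
    rw [h2, fderiv_fun_sum (fun l _ => DifferentiableAt.fun_sum fun k _ =>
      ((hF k l).const_mul _).mul_const _)]
    rw [_root_.sum_apply]
    refine Finset.sum_congr rfl fun l _ => ?_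
    rw [fderiv_fun_sum (fun k _ => ((hF k l).const_mul _).mul_const _),
      _root_.sum_apply]
    refine Finset.sum_congr rfl fun k _ => ?_
    rw [fderiv_mul_const ((hF k l).const_mul _), fderiv_const_mul (hF k l)]
    simp only [_root_.smul_apply, smul_eq_mul]
    ring
  ext i j
  have h3 : mB (fun y => M * F y * M') u z i j = (1 / 2 : ℂ) •
      (fderiv ℝ (fun y => (M * F y * M') i j) z u +
        Complex.I • fderiv ℝ (fun y => (M * F y * M') i j) z (Complex.I • u)) := rfl
  rw [h3, h1, h1]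
  simp only [VCalc_442.mB, VCalc_442.dB, Matrix.of_apply, Matrix.mul_apply, smul_eq_mul]
  rw [Finset.mul_sum, ← Finset.sum_add_distrib, Finset.mul_sum]
  refine Finset.sum_congr rfl fun l _ => ?_
  rw [Finset.mul_sum, ← Finset.sum_add_distrib, Finset.mul_sum, Finset.sum_mul]
  refine Finset.sum_congr rfl fun k _ => ?_
  ring

/-- local description of a `VHS` and of its Hodge metric -/
theorem gV_local (V : VHS m X N w) (z : X) :
    ∃ (U : Set (Fin m → ℂ)) (P' : ℕ → (Fin m → ℂ) → Matrix (Fin N) (Fin N) ℂ),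
      IsOpen U ∧ cp z ∈ U ∧ U ⊆ (ch z).target ∧
      (∀ c ∈ U, ∀ d ∈ U, V.P z ((ch z).symm c) * V.P ((ch z).symm c) ((ch z).symm d) =
        V.P z ((ch z).symm d)) ∧
      (∀ c ∈ U, V.S ((ch z).symm c) =
        (cm (V.P z ((ch z).symm c)))ᴴ * V.S z * cm (V.P z ((ch z).symm c))) ∧
      (P' = fun p c => hq w (lM V.P V.E z ((ch z).symm c)) p) ∧
      VCalc_442.VHS w U (V.S z) P' ∧
      (∀ c ∈ U, grOp w P' c = lM V.P V.E z ((ch z).symm c)) ∧
      (∀ c ∈ U, ∀ j, th w P' (Pi.single j 1) c = cm (V.P z ((ch z).symm c)) *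
        dM V.P V.E j ((ch z).symm c) * cm (V.P z ((ch z).symm c))⁻¹) ∧
      (∀ c ∈ U, ∀ j, thb w P' (Pi.single j 1) c = cm (V.P z ((ch z).symm c)) *
        (-(dMb V.P V.E j ((ch z).symm c))) * cm (V.P z ((ch z).symm c))⁻¹) ∧
      (∀ c ∈ U, ∀ i j, gg w P' (Pi.single i 1) (Pi.single j 1) c = gV V i j ((ch z).symm c)) := by
  obtain ⟨U, hU, hzU, hUt, hP, hS, hV⟩ := V.local z
  set P' : ℕ → (Fin m → ℂ) → Matrix (Fin N) (Fin N) ℂ :=
    fun p c => hq w (lM V.P V.E z ((ch z).symm c)) p with hP'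
  have he := isCh_ch z
  have hgr : ∀ c ∈ U, grOp w P' c = lM V.P V.E z ((ch z).symm c) := by
    intro c hc
    exact grOp_hq (S := V.S z) ((V.hs _).lM (hS c hc))
  have hM : ∀ c ∈ U, ∀ d ∈ U, lM V.P V.E z ((ch z).symm d) =
      cm (V.P z ((ch z).symm c)) * lM V.P V.E ((ch z).symm c) ((ch z).symm d) *
        cm (V.P z ((ch z).symm c))⁻¹ := by
    intro c hc d hd
    unfold lM
    rw [← hP c hc d hd, cm_mul, _root_.mul_inv_rev, cm_mul]
    noncomm_ring
  have hsm : ∀ c ∈ U, ∀ i j, DifferentiableAt ℝ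
      (fun d => lM V.P V.E ((ch z).symm c) ((ch z).symm d) i j) c := by
    intro c hc i j
    have h1 := (V.smE ((ch z).symm c) i j).congr_chart he ((ch z).map_target (hUt hc))
    rw [he.cp_symm (hUt hc)] at h1
    exact ContDiffAt.differentiableAt h1 (by simp)
  have hth : ∀ c ∈ U, ∀ j, th w P' (Pi.single j 1) c = cm (V.P z ((ch z).symm c)) *
        dM V.P V.E j ((ch z).symm c) * cm (V.P z ((ch z).symm c))⁻¹ := by
    intro c hc j
    have h2 : th w P' (Pi.single j 1) c =
        mW (fun d => cm (V.P z ((ch z).symm c)) * lM V.P V.E ((ch z).symm c) ((ch z).symm d) *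
          cm (V.P z ((ch z).symm c))⁻¹) (Pi.single j 1) c := by
      unfold VCalc_442.th
      ext i k
      simp only [VCalc_442.mW, Matrix.of_apply]
      refine VCalc_442.dW_congr ?_ _
      filter_upwards [hU.mem_nhds hc] with d hd
      rw [hgr d hd, hM c hc d hd]
    rw [h2, mW_conj _ _ (hsm c hc)]
    congr 2
    ext i k
    simp only [VCalc_442.mW, Matrix.of_apply, dM]
    rw [dz_eq_dW j _ he ((ch z).map_target (hUt hc)), he.cp_symm (hUt hc)]
    rfl
  have hthb : ∀ c ∈ U, ∀ j, thb w P' (Pi.single j 1) c = cm (V.P z ((ch z).symm c)) *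
        (-(dMb V.P V.E j ((ch z).symm c))) * cm (V.P z ((ch z).symm c))⁻¹ := by
    intro c hc j
    have h2 : thb w P' (Pi.single j 1) c =
        - mB (fun d => cm (V.P z ((ch z).symm c)) * lM V.P V.E ((ch z).symm c) ((ch z).symm d) *
          cm (V.P z ((ch z).symm c))⁻¹) (Pi.single j 1) c := by
      unfold VCalc_442.thb
      congr 1
      ext i k
      simp only [VCalc_442.mB, Matrix.of_apply]
      refine VCalc_442.dB_congr ?_ _
      filter_upwards [hU.mem_nhds hc] with d hd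
      rw [hgr d hd, hM c hc d hd]
    rw [h2, mB_conj _ _ (hsm c hc)]
    have h3 : mB (fun d => lM V.P V.E ((ch z).symm c) ((ch z).symm d)) (Pi.single j 1) c =
        dMb V.P V.E j ((ch z).symm c) := by
      ext i k
      simp only [VCalc_442.mB, Matrix.of_apply, dMb]
      rw [db_eq_dB j _ he ((ch z).map_target (hUt hc)), he.cp_symm (hUt hc)]
      rfl
    rw [h3]
    noncomm_ring
  refine ⟨U, P', hU, hzU, hUt, hP, hS, rfl, hV, hgr, hth, hthb, ?_⟩
  intro c hc i j
  unfold VCalc_442.gg gV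
  rw [hth c hc, hthb c hc]
  have h4 : cm (V.P z ((ch z).symm c))⁻¹ * cm (V.P z ((ch z).symm c)) = 1 := cm_inv_mul_cm _
  calc (cm (V.P z ((ch z).symm c)) * dM V.P V.E i ((ch z).symm c) *
        cm (V.P z ((ch z).symm c))⁻¹ * (cm (V.P z ((ch z).symm c)) *
        -(dMb V.P V.E j ((ch z).symm c)) * cm (V.P z ((ch z).symm c))⁻¹)).trace
      = (cm (V.P z ((ch z).symm c)) * (dM V.P V.E i ((ch z).symm c) *
        (cm (V.P z ((ch z).symm c))⁻¹ * cm (V.P z ((ch z).symm c))) *
        -(dMb V.P V.E j ((ch z).symm c))) * cm (V.P z ((ch z).symm c))⁻¹).trace := by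
        congr 1
        noncomm_ring
    _ = _ := by
        rw [h4, Matrix.mul_one, Matrix.trace_mul_comm, ← Matrix.mul_assoc, h4, Matrix.one_mul]

end gV

end Crest.Agent.R276.VLevi_327
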