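import Mathlib
import Crest.Agent.R276.VLevi_327
import Crest.Agent.R276.Desc_327

/-!
# R276, tool VLEVI (helper327), part 2: psh weights of a `VHS` over a Riemann domain

* `gdet V ι` is smooth, `≥ 0`; `Levi (log gdet) ≥ 0` where `gdet > 0`, `≥ c |v|²_g` in the directions `ι`;
* `CYL V om`: `om` holomorphic generator of a line of the top piece with `D_j om ∈ θ_j om + ℂ om`;
  `psi = - log |om|²` is smooth, `Levi psi v = |θ_v om|² / |om|²`.
-/

set_option autoImplicit false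
set_option linter.unusedSectionVars false

noncomputable section

open Set Filter Topology Matrix ComplexConjugate
open scoped ContDiff ComplexOrder
open Crest.Agent.R271.Ho51 Crest.Agent.R276.Ipc735 Crest.Agent.R276.VPull_327
open Crest.Agent.R276.Desc_327

namespace Crest.Agent.R276.VLevi_327

open VCalc_442 (dW dB mW mB cx gg gm gden th thb grOp hm sf bn)

attribute [local instance] Matrix.linftyOpNormedRing Matrix.linftyOpNormedAlgebra

variable {m r N w : ℕ} {X : Type*} [TopologicalSpace X] [RDom m X]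

section gdet

variable (V : VHS m X N w) (ι : Fin r → Fin m)

/-- the frame of the coordinate directions `ι` -/
def fr (ι : Fin r → Fin m) (i : Fin r) : Fin m → ℂ := Pi.single (ι i) 1

theorem gdet_local (z : X) : ∃ (U : Set (Fin m → ℂ))
    (P' : ℕ → (Fin m → ℂ) → Matrix (Fin N) (Fin N) ℂ), IsOpen U ∧ cp z ∈ U ∧
      U ⊆ (ch z).target ∧ VCalc_442.VHS w U (V.S z) P' ∧
      (∀ c ∈ U, Matrix.of (fun i j => gV V (ι i) (ι j) ((ch z).symm c)) =
        gm w P' (fr ι) c) ∧
      (∀ c ∈ U, gdet V ι ((ch z).symm c) = (gm w P' (fr ι) c).det.re) := by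
  obtain ⟨U, P', hU, hzU, hUt, -, -, -, hV, -, -, -, hg⟩ := gV_local V z
  have h1 : ∀ c ∈ U, Matrix.of (fun i j => gV V (ι i) (ι j) ((ch z).symm c)) =
        gm w P' (fr ι) c := by
    intro c hc
    ext i j
    exact (hg c hc (ι i) (ι j)).symm
  exact ⟨U, P', hU, hzU, hUt, hV, h1, fun c hc => by rw [← h1 c hc]; rfl⟩

theorem gdet_smooth (z : X) : SmAt (gdet V ι) z := by
  obtain ⟨U, P', hU, hzU, hUt, hV, -, hd⟩ := gdet_local V ι z
  have h1 : ContDiffAt ℝ ∞ (fun c => (gm w P' (fr ι) c).det.re) (cp z) :=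
    (Complex.reCLM.contDiff.contDiffAt).comp (cp z)
      ((hV.sm_det (fr ι)).contDiffAt (hU.mem_nhds hzU))
  refine ContDiffAt.congr_of_eventuallyEq h1 ?_
  filter_upwards [hU.mem_nhds hzU] with c hc
  exact hd c hc

theorem gdet_Sm : Sm (gdet V ι) := fun z => gdet_smooth V ι z

/-- the Gram matrix is positive semidefinite -/
theorem gV_psd (z : X) : (Matrix.of fun i j => gV V (ι i) (ι j) z).PosSemidef := by
  obtain ⟨U, P', hU, hzU, hUt, hV, hm, -⟩ := gdet_local V ι z
  have h1 := hm (cp z) hzU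
  rw [symm_cp] at h1
  rw [h1]
  exact hV.gm_posSemidef hzU (fr ι)

theorem gdet_nonneg (z : X) : 0 ≤ gdet V ι z :=
  (Complex.nonneg_iff.1 (gV_psd V ι z).det_nonneg).1

theorem gV_pd {z : X} (h : 0 < gdet V ι z) :
    (Matrix.of fun i j => gV V (ι i) (ι j) z).PosDef := by
  refine (gV_psd V ι z).posDef_iff_isUnit.2 ?_
  rw [Matrix.isUnit_iff_isUnit_det, isUnit_iff_ne_zero]
  intro h0
  unfold gdet at h
  rw [h0] at h
  simp at h

/-- `|v|²_g` -/
def gq (v : Fin m → ℂ) (z : X) : ℝ := (∑ i, ∑ j, v i * conj (v j) * gV V i j z).re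

/-- the density in a direction -/
theorem gq_local (z : X) : ∃ (U : Set (Fin m → ℂ))
    (P' : ℕ → (Fin m → ℂ) → Matrix (Fin N) (Fin N) ℂ), IsOpen U ∧ cp z ∈ U ∧
      U ⊆ (ch z).target ∧ VCalc_442.VHS w U (V.S z) P' ∧
      (∀ c ∈ U, Matrix.of (fun i j => gV V (ι i) (ι j) ((ch z).symm c)) =
        gm w P' (fr ι) c) ∧
      (∀ c ∈ U, gdet V ι ((ch z).symm c) = (gm w P' (fr ι) c).det.re) ∧
      (∀ c ∈ U, ∀ v, gden w P' v c = gq V v ((ch z).symm c)) := by
  obtain ⟨U, P', hU, hzU, hUt, -, -, -, hV, -, -, -, hg⟩ := gV_local V z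
  have h1 : ∀ c ∈ U, Matrix.of (fun i j => gV V (ι i) (ι j) ((ch z).symm c)) =
        gm w P' (fr ι) c := by
    intro c hc
    ext i j
    exact (hg c hc (ι i) (ι j)).symm
  refine ⟨U, P', hU, hzU, hUt, hV, h1, fun c hc => by rw [← h1 c hc]; rfl, fun c hc v => ?_⟩
  unfold gden gq
  congr 1
  have hv : v = ∑ i, v i • (Pi.single i (1 : ℂ) : Fin m → ℂ) := by
    rw [← pi_eq_sum_univ' v]
  have hth : ∀ v : Fin m → ℂ, th w P' v c = ∑ i, v i • th w P' (Pi.single i 1) c := by
    intro v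
    rw [hV.th_eq hc]
    conv_lhs => rw [pi_eq_sum_univ' v]
    rw [VCalc_442.dW_sum_dir]
    exact Finset.sum_congr rfl fun i _ => by rw [hV.th_eq hc]
  have hthb : ∀ v : Fin m → ℂ, thb w P' v c = ∑ i, conj (v i) • thb w P' (Pi.single i 1) c := by
    intro v
    rw [hV.thb_eq hc]
    unfold VCalc_442.tb
    conv_lhs => rw [pi_eq_sum_univ' v]
    rw [VCalc_442.dB_sum_dir, ← Finset.sum_neg_distrib]
    refine Finset.sum_congr rfl fun i _ => ?_
    rw [hV.thb_eq hc]
    unfold VCalc_442.tb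
    rw [smul_neg]
    rfl
  unfold gg
  rw [hth, hthb, Finset.sum_mul, Matrix.trace_sum]
  refine Finset.sum_congr rfl fun i _ => ?_
  rw [Finset.mul_sum, Matrix.trace_sum]
  refine Finset.sum_congr rfl fun j _ => ?_
  rw [← hg c hc i j, smul_mul_assoc, mul_smul_comm, smul_smul, Matrix.trace_smul, smul_eq_mul]
  rfl

theorem cx_ev {z : X} {U : Set (Fin m → ℂ)} {P' : ℕ → (Fin m → ℂ) → Matrix (Fin N) (Fin N) ℂ}
    (hU : IsOpen U) (hzU : cp z ∈ U) (hV : VCalc_442.VHS w U (V.S z) P')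
    (hd : ∀ c ∈ U, gdet V ι ((ch z).symm c) = (gm w P' (fr ι) c).det.re) :
    cx (gdet V ι ∘ (ch z).symm) =ᶠ[𝓝 (cp z)] fun c => (gm w P' (fr ι) c).det := by
  filter_upwards [hU.mem_nhds hzU] with c hc
  show ((gdet V ι ((ch z).symm c) : ℝ) : ℂ) = _
  rw [hd c hc, hV.det_real hc]
  simp

/-- `log gdet` is psh where `gdet > 0` -/
theorem Levi_log_gdet_nonneg {z : X} (hpos : 0 < gdet V ι z) (v : Fin m → ℂ) :
    0 ≤ Levi (fun x => Real.log (gdet V ι x)) z v := by
  obtain ⟨U, P', hU, hzU, hUt, hV, hm, hd⟩ := gdet_local V ι z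
  have hsm : ContDiffAt ℝ 2 (gdet V ι ∘ (ch z).symm) (cp z) :=
    ContDiffAt.of_le (gdet_smooth V ι z) two_le_top'
  rw [Levi_log hsm hpos]
  refine div_nonneg ?_ (sq_nonneg _)
  have hpd : (gm w P' (fr ι) (cp z)).PosDef := by
    have h1 := hm (cp z) hzU
    rw [symm_cp] at h1
    rw [← h1]
    exact gV_pd V ι hpos
  have hcv := hV.curv_det hzU (fr ι) hpd v
  have hev := cx_ev V ι hU hzU hV hd
  rw [Levi_eq hsm]
  have e1 : dW (cx (gdet V ι ∘ (ch z).symm)) v (cp z) =
      dW (fun c => (gm w P' (fr ι) c).det) v (cp z) := VCalc_442.dW_congr hev v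
  have e2 : dB (dW (cx (gdet V ι ∘ (ch z).symm)) v) v (cp z) =
      dB (dW (fun c => (gm w P' (fr ι) c).det) v) v (cp z) := by
    refine VCalc_442.dB_congr ?_ v
    filter_upwards [hev.eventually_nhds] with y hy
    exact VCalc_442.dW_congr hy v
  have e3 : (gm w P' (fr ι) (cp z)).det.re = gdet V ι z := by
    rw [← hd (cp z) hzU, symm_cp]
  rw [e1, e2]
  rw [e3] at hcv
  linarith

end gdet

/-- the curvature constant -/
theorem exists_cN (N : ℕ) : ∃ c : ℝ, 0 < c ∧ ∀ (K a a' : Matrix (Fin N) (Fin N) ℂ), K.PosDef →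
    VCalc_442.Adj K a a' → IsNilpotent a →
    c * (a * a').trace.re ^ 2 ≤ ((a' * a - a * a') * (a' * a - a * a')).trace.re :=
  VCalc_442.nil_bound_adj (Fin N)

/-- lower bound for `Levi (log gdet)` in the directions of the frame -/
theorem Levi_log_gdet_ge {c : ℝ} (hc : ∀ (K a a' : Matrix (Fin N) (Fin N) ℂ), K.PosDef →
    VCalc_442.Adj K a a' → IsNilpotent a →
    c * (a * a').trace.re ^ 2 ≤ ((a' * a - a * a') * (a' * a - a * a')).trace.re)
    (V : VHS m X N w) (ι : Fin r → Fin m) {z : X} (hpos : 0 < gdet V ι z) {v : Fin m → ℂ}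
    (hv : v ∈ Submodule.span ℂ (Set.range (fr ι))) :
    c * gq V v z ≤ Levi (fun x => Real.log (gdet V ι x)) z v := by
  obtain ⟨U, P', hU, hzU, hUt, hV, hm, hd, hgq⟩ := gq_local V ι z
  have hsm : ContDiffAt ℝ 2 (gdet V ι ∘ (ch z).symm) (cp z) :=
    ContDiffAt.of_le (gdet_smooth V ι z) two_le_top'
  rw [Levi_log hsm hpos, le_div_iff₀ (by positivity)]
  have hpd : (gm w P' (fr ι) (cp z)).PosDef := by
    have h1 := hm (cp z) hzU
    rw [symm_cp] at h1
    rw [← h1]
    exact gV_pd V ι hpos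
  have hcv := hV.curv_det_span hc hzU (fr ι) hpd hv
  have hev := cx_ev V ι hU hzU hV hd
  rw [Levi_eq hsm]
  have e1 : dW (cx (gdet V ι ∘ (ch z).symm)) v (cp z) =
      dW (fun c => (gm w P' (fr ι) c).det) v (cp z) := VCalc_442.dW_congr hev v
  have e2 : dB (dW (cx (gdet V ι ∘ (ch z).symm)) v) v (cp z) =
      dB (dW (fun c => (gm w P' (fr ι) c).det) v) v (cp z) := by
    refine VCalc_442.dB_congr ?_ v
    filter_upwards [hev.eventually_nhds] with y hy
    exact VCalc_442.dW_congr hy v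
  have e3 : (gm w P' (fr ι) (cp z)).det.re = gdet V ι z := by
    rw [← hd (cp z) hzU, symm_cp]
  have e4 := hgq (cp z) hzU v
  rw [symm_cp] at e4
  rw [e1, e2]
  rw [e3, e4] at hcv
  linarith

/-! ### the line -/

/-- a holomorphic generator of a line in the top piece, parallel in the top piece -/
structure CYL (V : VHS m X N w) (om : X → Fin N → ℂ) : Prop where
  hol : ∀ z, HolAt (lV V.P om z) z
  eig : ∀ z, V.E z *ᵥ om z = (w : ℂ) • om z
  ne : ∀ z, om z ≠ 0
  par : ∀ z j, ∃ c : ℂ, (fun i => dz j (fun y => lV V.P om z y i) z) =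
    dM V.P V.E j z *ᵥ om z + c • om z

/-- `|v|²` at `z` -/
def hn (V : VHS m X N w) (z : X) (v : Fin N → ℂ) : ℝ := qf (hodge w (V.S z) (V.E z)) v

theorem hn_pos (V : VHS m X N w) (z : X) {v : Fin N → ℂ} (hv : v ≠ 0) : 0 < hn V z v :=
  (V.hs z).hodge_pos hv

theorem hn_nonneg (V : VHS m X N w) (z : X) (v : Fin N → ℂ) : 0 ≤ hn V z v :=
  (V.hs z).hodge_nonneg v

/-- the weight `- log |om|²` -/
def psi (V : VHS m X N w) (om : X → Fin N → ℂ) (z : X) : ℝ := - Real.log (hn V z (om z))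

namespace CYL

variable {V : VHS m X N w} {om : X → Fin N → ℂ} (h : CYL V om)

include h

/-- local form: everything in the flat frame at `z` -/
theorem local' (z : X) : ∃ (U : Set (Fin m → ℂ))
    (P' : ℕ → (Fin m → ℂ) → Matrix (Fin N) (Fin N) ℂ), IsOpen U ∧ cp z ∈ U ∧
      U ⊆ (ch z).target ∧ VCalc_442.VHS w U (V.S z) P' ∧
      VCalc_442.Bot w U P' (lV V.P om z ∘ (ch z).symm) ∧
      (∀ c ∈ U, hn V ((ch z).symm c) (om ((ch z).symm c)) =
        bn w (V.S z) (lV V.P om z ∘ (ch z).symm) c) ∧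
      (∀ c ∈ U, ∀ j, th w P' (Pi.single j 1) c = cm (V.P z ((ch z).symm c)) *
        dM V.P V.E j ((ch z).symm c) * cm (V.P z ((ch z).symm c))⁻¹) ∧
      (hm w (V.S z) P' (cp z) = hodge w (V.S z) (V.E z)) ∧
      (∀ c ∈ U, grOp w P' c = lM V.P V.E z ((ch z).symm c)) := by
  obtain ⟨U, P', hU, hzU, hUt, hP, hS, hP', hV, hgr, hth, -, -⟩ := gV_local V z
  have han : ∀ᶠ c in 𝓝 (cp z), AnalyticAt ℂ (lV V.P om z ∘ (ch z).symm) c :=
    (h.hol z : AnalyticAt ℂ _ _).eventually_analyticAt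
  obtain ⟨W, hWs, hW, hzW⟩ := mem_nhds_iff.1 han
  have hVW : VCalc_442.VHS w (U ∩ W) (V.S z) P' :=
    { op := hU.inter hW
      sm := fun p i j => (hV.sm p i j).mono inter_subset_left
      idem := fun x hx => hV.idem x hx.1
      orth := fun x hx => hV.orth x hx.1
      top := fun x hx => hV.top x hx.1
      sum := fun x hx => hV.sum x hx.1
      herm := hV.herm
      adj := fun x hx => hV.adj x hx.1
      pos := fun x hx => hV.pos x hx.1
      hor := fun x hx => hV.hor x hx.1 }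
  have htop : ∀ c ∈ U, lM V.P V.E z ((ch z).symm c) *ᵥ (lV V.P om z ((ch z).symm c)) =
      (w : ℂ) • lV V.P om z ((ch z).symm c) := by
    intro c _
    unfold lM lV
    rw [← Matrix.mulVec_mulVec, cm_inv_mulVec, ← Matrix.mulVec_mulVec, h.eig, mulVec_smul]
  have hHS : ∀ c ∈ U, IsHS w (V.S z) (lM V.P V.E z ((ch z).symm c)) := fun c hc =>
    (V.hs _).lM (hS c hc)
  refine ⟨U ∩ W, P', hU.inter hW, ⟨hzU, hzW⟩, inter_subset_left.trans hUt, hVW, ?_, ?_, ?_, ?_, ?_⟩
  · refine ⟨fun c hc => (hWs hc.2).differentiableAt.differentiableWithinAt, fun c hc => ?_,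
      fun c hc => ?_⟩
    · exact ((AnalyticAt.contDiffAt (hWs hc.2)).restrict_scalars ℝ).contDiffWithinAt
    · show P' w c *ᵥ (lV V.P om z ((ch z).symm c)) = lV V.P om z ((ch z).symm c)
      rw [hP']
      show hq w (lM V.P V.E z ((ch z).symm c)) w *ᵥ _ = _
      rw [hq_of_le le_rfl, (hHS c hc.1).hpr_mulVec_of_eig le_rfl (htop c hc.1) le_rfl, if_pos rfl]
  · intro c hc
    have h1 := hodge_lM (w := w) (E := V.E) (hS c hc.1) om
    unfold hn qf
    rw [← h1, (hHS c hc.1).hodge_mulVec_of_eig le_rfl (htop c hc.1), dotProduct_smul]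
    rfl
  · exact fun c hc j => hth c hc.1 j
  · unfold VCalc_442.hm
    rw [hP', sgOp_hq, symm_cp, lM_self (V.ndc.on univ) V.E (mem_univ z)]
    rfl
  · exact fun c hc => hgr c hc.1

theorem psi_smooth (z : X) : SmAt (psi V om) z := by
  obtain ⟨U, P', hU, hzU, hUt, hV, hb, hbn, -, -, -⟩ := h.local' z
  have h1 : ContDiffAt ℝ ∞ (bn w (V.S z) (lV V.P om z ∘ (ch z).symm)) (cp z) := by
    have hσ : ContDiffAt ℝ ∞ (lV V.P om z ∘ (ch z).symm) (cp z) :=
      hb.sm.contDiffAt (hU.mem_nhds hzU)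
    have h2 : bn w (V.S z) (lV V.P om z ∘ (ch z).symm) = fun c => (((-1 : ℂ) ^ w) * ∑ i, ∑ j,
        conj ((lV V.P om z ∘ (ch z).symm) c i) * (V.S z i j *
          (lV V.P om z ∘ (ch z).symm) c j)).re := by
      funext c
      unfold VCalc_442.bn VCalc_442.sf
      congr 2
      simp only [dotProduct, mulVec, Finset.mul_sum, Pi.star_apply]
      rfl
    rw [h2]
    have hi : ∀ i, ContDiffAt ℝ ∞ (fun c => (lV V.P om z ∘ (ch z).symm) c i) (cp z) :=
      fun i => (contDiffAt_pi.1 hσ) i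
    have h5 : ContDiffAt ℝ ∞ (fun c => ((-1 : ℂ) ^ w) * ∑ i, ∑ j,
        conj ((lV V.P om z ∘ (ch z).symm) c i) * (V.S z i j *
          (lV V.P om z ∘ (ch z).symm) c j)) (cp z) := by
      refine contDiffAt_const.mul (ContDiffAt.sum fun i _ => ContDiffAt.sum fun j _ => ?_)
      exact ((Complex.conjCLE.contDiff.contDiffAt).comp (cp z) (hi i)).mul
        (contDiffAt_const.mul (hi j))
    exact (Complex.reCLM.contDiff.contDiffAt).comp (cp z) h5
  have h3 : 0 < bn w (V.S z) (lV V.P om z ∘ (ch z).symm) (cp z) := by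
    rw [← hbn (cp z) hzU, symm_cp]
    exact hn_pos V z (h.ne z)
  have h4 : ContDiffAt ℝ ∞ (fun c => - Real.log (bn w (V.S z) (lV V.P om z ∘ (ch z).symm) c))
      (cp z) := (h1.log h3.ne').neg
  refine ContDiffAt.congr_of_eventuallyEq h4 ?_
  filter_upwards [hU.mem_nhds hzU] with c hc
  show psi V om ((ch z).symm c) = _
  unfold psi
  rw [hbn c hc]

theorem psi_Sm : Sm (psi V om) := fun z => h.psi_smooth z

/-- `θ_v` at `z` -/
def _root_.Crest.Agent.R276.VLevi_327.thV (V : VHS m X N w) (z : X) (v : Fin m → ℂ) :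
    Matrix (Fin N) (Fin N) ℂ := ∑ j, v j • dM V.P V.E j z

/-- **the curvature of the line**: `Levi psi v = |θ_v om|² / |om|²` -/
theorem Levi_psi (z : X) (v : Fin m → ℂ) :
    Levi (psi V om) z v = hn V z (thV V z v *ᵥ om z) / hn V z (om z) := by
  obtain ⟨U, P', hU, hzU, hUt, hV, hb, hbn, hth, hhm, hgr⟩ := h.local' z
  have hPz : V.P z z = 1 := (V.ndc.on univ).diag (mem_univ z)
  set σ := lV V.P om z ∘ (ch z).symm with hσ
  have hσz : σ (cp z) = om z := by
    show lV V.P om z ((ch z).symm (cp z)) = om z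
    rw [symm_cp, lV_self (V.ndc.on univ) om (mem_univ z)]
  have hpos : 0 < hn V z (om z) := hn_pos V z (h.ne z)
  have hbz : bn w (V.S z) σ (cp z) = hn V z (om z) := by rw [← hbn (cp z) hzU, symm_cp]
  -- `u = hn V · (om ·)` as a function
  set u : X → ℝ := fun x => hn V x (om x) with hu
  have hev : u ∘ (ch z).symm =ᶠ[𝓝 (cp z)] bn w (V.S z) σ := by
    filter_upwards [hU.mem_nhds hzU] with c hc
    exact hbn c hc
  have hsm : ContDiffAt ℝ 2 (u ∘ (ch z).symm) (cp z) := by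
    have h1 := h.psi_smooth z
    have h2 : u = fun x => Real.exp (- psi V om x) := by
      funext x
      rw [hu]
      unfold psi
      rw [neg_neg, Real.exp_log (hn_pos V x (h.ne x))]
    rw [h2]
    have h3 : ContDiffAt ℝ 2 (psi V om ∘ (ch z).symm) (cp z) := ContDiffAt.of_le h1 two_le_top'
    exact (Real.contDiff_exp.contDiffAt).comp (cp z) h3.neg
  have hLneg : Levi (psi V om) z v = - Levi (fun x => Real.log (u x)) z v := by
    have h1 : psi V om = fun x => - Real.log (u x) := rfl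
    have hlog : ContDiffAt ℝ 2 ((fun x => Real.log (u x)) ∘ (ch z).symm) (cp z) := by
      have : ContDiffAt ℝ 2 (fun c => Real.log ((u ∘ (ch z).symm) c)) (cp z) :=
        hsm.log (by show u ((ch z).symm (cp z)) ≠ 0; rw [symm_cp]; exact hpos.ne')
      exact this
    rw [h1, Levi_eq hlog]
    have h2 : ContDiffAt ℝ 2 ((fun x => - Real.log (u x)) ∘ (ch z).symm) (cp z) := hlog.neg
    rw [Levi_eq h2]
    have h3 : cx ((fun x => - Real.log (u x)) ∘ (ch z).symm) =
        fun c => (-1 : ℂ) • cx ((fun x => Real.log (u x)) ∘ (ch z).symm) c := by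
      funext c
      simp [cx]
    have hd1 : ∀ᶠ c in 𝓝 (cp z), DifferentiableAt ℝ
        (cx ((fun x => Real.log (u x)) ∘ (ch z).symm)) c := by
      filter_upwards [(VCalc_442.contDiffAt_cx hlog).eventually (by simp)] with c hc
      exact hc.differentiableAt (by simp)
    have h4 : dW (cx ((fun x => - Real.log (u x)) ∘ (ch z).symm)) v =ᶠ[𝓝 (cp z)]
        fun c => (-1 : ℂ) • dW (cx ((fun x => Real.log (u x)) ∘ (ch z).symm)) v c := by
      rw [h3]
      filter_upwards [hd1] with c hc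
      exact VCalc_442.dW_const_smul _ hc v
    rw [VCalc_442.dB_congr h4 v, VCalc_442.dB_const_smul]
    · simp
    · have hF := VCalc_442.contDiffAt_cx hlog
      have h : DifferentiableAt ℝ (fderiv ℝ (cx ((fun x => Real.log (u x)) ∘ (ch z).symm)))
          (cp z) := (hF.fderiv_right (m := 1) (by norm_num)).differentiableAt (by simp)
      have h1 : ∀ u', DifferentiableAt ℝ (fun y => fderiv ℝ
          (cx ((fun x => Real.log (u x)) ∘ (ch z).symm)) y u') (cp z) :=
        fun u' => h.clm_apply (differentiableAt_const u')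
      exact ((h1 _).sub ((h1 _).const_smul Complex.I)).const_smul (1 / 2 : ℂ)
  rw [hLneg, Levi_log hsm (by exact hpos), Levi_eq hsm]
  have hevc : cx (u ∘ (ch z).symm) =ᶠ[𝓝 (cp z)] cx (bn w (V.S z) σ) := by
    filter_upwards [hev] with c hc
    show (((u ∘ (ch z).symm) c : ℝ) : ℂ) = ((bn w (V.S z) σ c : ℝ) : ℂ)
    rw [hc]
  have e1 : dW (cx (u ∘ (ch z).symm)) v (cp z) = dW (cx (bn w (V.S z) σ)) v (cp z) :=
    VCalc_442.dW_congr hevc v
  have e2 : dB (dW (cx (u ∘ (ch z).symm)) v) v (cp z) =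
      dB (dW (cx (bn w (V.S z) σ)) v) v (cp z) := by
    refine VCalc_442.dB_congr ?_ v
    filter_upwards [hevc.eventually_nhds] with y hy
    exact VCalc_442.dW_congr hy v
  -- the line condition
  have hthv : dW (grOp w P') v (cp z) = thV V z v := by
    have h1 : ∀ j, dW (grOp w P') (Pi.single j 1) (cp z) = dM V.P V.E j z := by
      intro j
      rw [← hV.th_eq hzU, hth (cp z) hzU j, symm_cp, hPz]
      simp
    conv_lhs => rw [pi_eq_sum_univ' v]
    rw [VCalc_442.dW_sum_dir]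
    exact Finset.sum_congr rfl fun j _ => by rw [h1 j]
  obtain ⟨cj, hcj⟩ : ∃ cj : Fin m → ℂ, ∀ j, (fun i => dz j (fun y => lV V.P om z y i) z) =
      dM V.P V.E j z *ᵥ om z + cj j • om z := ⟨fun j => (h.par z j).choose, fun j =>
        (h.par z j).choose_spec⟩
  have hDσ : dW σ v (cp z) = thV V z v *ᵥ om z + (∑ j, v j * cj j) • om z := by
    have h1 : ∀ j, dW σ (Pi.single j 1) (cp z) = fun i => dz j (fun y => lV V.P om z y i) z := by
      intro j
      funext i
      have hd := hb.sm.contDiffAt (hU.mem_nhds hzU)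
      rw [← VCalc_442.dW_apply (hd.differentiableAt (by simp))]
      rw [dz_eq_dW j _ (isCh_ch z) (mem_ch z)]
      rfl
    conv_lhs => rw [pi_eq_sum_univ' v]
    rw [VCalc_442.dW_sum_dir]
    have h2 : ∑ j, v j • dW σ (Pi.single j 1) (cp z) =
        ∑ j, (v j • (dM V.P V.E j z *ᵥ om z) + (v j * cj j) • om z) := by
      refine Finset.sum_congr rfl fun j _ => ?_
      rw [h1 j, hcj j, smul_add, smul_smul]
    rw [h2, Finset.sum_add_distrib, ← Finset.sum_smul]
    congr 1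
    unfold thV
    rw [Matrix.sum_mulVec]
    exact Finset.sum_congr rfl fun j _ => by rw [Matrix.smul_mulVec]
  have hl : P' w (cp z) *ᵥ dW σ v (cp z) = (∑ j, v j * cj j) • σ (cp z) := by
    rw [hDσ, mulVec_add, mulVec_smul, ← hσz, hb.mem (cp z) hzU, ← hthv,
      hV.bot_orth hb hzU v, zero_add]
  have hcv := hV.curv_bot hb hzU v hl
  rw [hthv, hσz, hbz, hhm] at hcv
  have hfin : hn V z (thV V z v *ᵥ om z) = (sf (hodge w (V.S z) (V.E z)) (thV V z v *ᵥ om z)
      (thV V z v *ᵥ om z)).re := rfl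
  rw [e1, e2, hfin]
  show -((hn V z (om z) * _ - _) / hn V z (om z) ^ 2) = _
  rw [hcv]
  field_simp

theorem Levi_psi_nonneg (z : X) (v : Fin m → ℂ) : 0 ≤ Levi (psi V om) z v := by
  rw [h.Levi_psi]
  exact div_nonneg (hn_nonneg V z _) (hn_nonneg V z _)

end CYL

end Crest.Agent.R276.VLevi_327
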