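import Mathlib
import Crest.Agent.R276.DescE_327
import Crest.Agent.R276.VLevi2_327

/-!
# R276, leaf DESC (helper327), part 6: from a `VHS` which is flat along the fibres to the data `Dat`

`Fl V ι`: `θ_j = 0` for the coordinates `j` not in the range of `ι`.
-/

set_option autoImplicit false
set_option linter.unusedSectionVars false

noncomputable section

open Set Filter Topology Matrix
open scoped ContDiff ComplexOrder
open Crest.Agent.R271.Ho51 Crest.Agent.R276.Ipc735 Crest.Agent.R276.Desc_327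
open Crest.Agent.R276.DescB_327 Crest.Agent.R276.DescC_327 Crest.Agent.R276.DescD_327
open Crest.Agent.R276.DescE_327 Crest.Agent.R276.VLevi_327 Crest.Agent.R276.VPull_327

namespace Crest.Agent.R276.DescF_327

open VCalc_442 (dW dB mW mB cx gg gm gden th thb grOp hm sf bn)

attribute [local instance] Matrix.linftyOpNormedRing Matrix.linftyOpNormedAlgebra

/-- a function with zero derivative in the direction `b - a` along the segment -/
theorem eq_of_seg {E F : Type*} [NormedAddCommGroup E] [NormedSpace ℝ E] [NormedAddCommGroup F]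
    [NormedSpace ℝ F] {f : E → F} {s : Set E} (hs : Convex ℝ s) {a b : E} (ha : a ∈ s)
    (hb : b ∈ s) (hd : ∀ x ∈ s, DifferentiableAt ℝ f x) (h0 : ∀ x ∈ s, fderiv ℝ f x (b - a) = 0) :
    f b = f a := by
  have hmem : ∀ t ∈ Icc (0 : ℝ) 1, a + t • (b - a) ∈ s := fun t ht =>
    hs.add_smul_sub_mem ha hb ht
  have h1 : ∀ t ∈ Icc (0 : ℝ) 1, HasDerivWithinAt (fun t : ℝ => f (a + t • (b - a))) 0
      (Icc (0 : ℝ) 1) t := by
    intro t ht
    have h2 : HasDerivAt (fun t : ℝ => a + t • (b - a)) (b - a) t := by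
      have := ((hasDerivAt_id t).smul_const (b - a)).const_add a
      simpa using this
    have h3 := (hd _ (hmem t ht)).hasFDerivAt.comp_hasDerivAt t h2
    rw [h0 _ (hmem t ht)] at h3
    exact h3.hasDerivWithinAt
  have h2 := Convex.norm_image_sub_le_of_norm_hasDerivWithin_le (C := 0) h1
    (fun _ _ => by simp) (convex_Icc 0 1) (left_mem_Icc.2 zero_le_one)
    (right_mem_Icc.2 zero_le_one)
  simp only [one_smul, zero_smul, add_zero, zero_mul] at h2
  have h3 : f (a + (b - a)) = f a := by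
    rw [← sub_eq_zero, ← norm_eq_zero]
    exact le_antisymm h2 (norm_nonneg _)
  rwa [add_sub_cancel] at h3

variable {m r N w : ℕ} {X T : Type*} [TopologicalSpace X] [RDom m X] [TopologicalSpace T]
  [RDom r T] {ι : Fin r → Fin m} {f : X → T}

/-- the `VHS` is flat in the directions of the coordinates outside `ι` -/
def Fl (V : VHS m X N w) (ι : Fin r → Fin m) : Prop :=
  ∀ x j, (∀ i, ι i ≠ j) → dM V.P V.E j x = 0

/-- two points in one fibre have equal coordinates `ι` -/
theorem Prj.cp_ι (hf : Prj ι f) {x y : X} (h : f x = f y) (i : Fin r) :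
    cp x (ι i) = cp y (ι i) := by
  rw [← hf.cpf x i, ← hf.cpf y i, h]

variable {V : VHS m X N w} {om : X → Fin N → ℂ}

/-- the local data at `z` on a product neighbourhood -/
theorem exists_nbhd (hL : CYL V om) (hfl : Fl V ι) (hf : Prj ι f) (z : X) :
    ∃ W ∈ 𝓝 z, ∀ x ∈ W, ∀ y ∈ W, f x = f y →
      (V.P z x * V.P x y = V.P z y) ∧
      (V.S x = (cm (V.P z x))ᴴ * V.S z * cm (V.P z x)) ∧
      (V.S y = (cm (V.P z y))ᴴ * V.S z * cm (V.P z y)) ∧
      lM V.P V.E z x = lM V.P V.E z y ∧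
      ∃ k : ℂ, lV V.P om z y = k • lV V.P om z x := by
  obtain ⟨U0, P0, hU0, hzU0, hU0t, hP0, hS0, hP0', hV0, hgr0, hth0, -, -⟩ := gV_local V z
  obtain ⟨U1, P1, hU1, hzU1, -, -, hb, -, -, -, -⟩ := hL.local' z
  set σ := lV V.P om z ∘ (ch z).symm with hσ
  have hσz : σ (cp z) = om z := by
    show lV V.P om z ((ch z).symm (cp z)) = om z
    rw [symm_cp, Ipc735.lV_self (V.ndc.on univ) om (mem_univ z)]
  obtain ⟨i₀, hi₀⟩ : ∃ i, om z i ≠ 0 := by
    by_contra hcon
    push Not at hcon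
    exact hL.ne z (funext hcon)
  have hne : ∀ᶠ c in 𝓝 (cp z), σ c i₀ ≠ 0 := by
    have h1 : ContinuousAt σ (cp z) := (hb.sm.contDiffAt (hU1.mem_nhds hzU1)).continuousAt
    have h2 : ContinuousAt (fun c => σ c i₀) (cp z) := (continuousAt_pi.1 h1) i₀
    exact h2.eventually_ne (by rw [hσz]; exact hi₀)
  obtain ⟨ε, hε, hball⟩ := Metric.mem_nhds_iff.1
    (inter_mem (inter_mem (hU0.mem_nhds hzU0) (hU1.mem_nhds hzU1)) hne)
  set B := Metric.ball (cp z) ε with hB
  have hBc : Convex ℝ B := convex_ball _ _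
  refine ⟨(ch z).source ∩ cp ⁻¹' B, inter_mem ((ch z).open_source.mem_nhds (mem_ch z))
    (cp_cont.continuousAt.preimage_mem_nhds (Metric.ball_mem_nhds _ hε)), ?_⟩
  rintro x ⟨hxs, hxB⟩ y ⟨hys, hyB⟩ hxy
  have hxe : (ch z).symm (cp x) = x := (isCh_ch z).symm_cp hxs
  have hye : (ch z).symm (cp y) = y := (isCh_ch z).symm_cp hys
  have hxU : cp x ∈ U0 := (hball hxB).1.1
  have hyU : cp y ∈ U0 := (hball hyB).1.1
  have hv : ∀ i, (cp y - cp x) (ι i) = 0 := by
    intro i
    rw [Pi.sub_apply, Prj.cp_ι hf hxy i, sub_self]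
  -- `θ_v = 0`
  have hth : ∀ c ∈ B, th w P0 (cp y - cp x) c = 0 := by
    intro c hc
    have hcU : c ∈ U0 := (hball hc).1.1
    rw [hV0.th_eq hcU, pi_eq_sum_univ' (cp y - cp x), VCalc_442.dW_sum_dir]
    refine Finset.sum_eq_zero fun j _ => ?_
    by_cases hj : ∃ i, ι i = j
    · obtain ⟨i, rfl⟩ := hj
      rw [hv i, zero_smul]
    · have hj' : ∀ i, ι i ≠ j := fun i hi => hj ⟨i, hi⟩
      rw [← hV0.th_eq hcU, hth0 c hcU j, hfl _ j hj']
      simp
  have hL0 : ∀ c ∈ B, fderiv ℝ (grOp w P0) c (cp y - cp x) = 0 := by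
    intro c hc
    have hcU : c ∈ U0 := (hball hc).1.1
    have h1 := hth c hc
    rw [hV0.th_eq hcU] at h1
    have h2 := hV0.adj_th_tb hcU (cp y - cp x)
    rw [h1] at h2
    unfold VCalc_442.Adj at h2
    rw [Matrix.conjTranspose_zero, Matrix.zero_mul] at h2
    have hu := (hV0.hmPos hcU).isUnit
    have h3 : VCalc_442.tb (grOp w P0) (cp y - cp x) c = 0 := by
      obtain ⟨K, hK⟩ := hu
      have h4 := congrArg (fun M => (↑K⁻¹ : Matrix (Fin N) (Fin N) ℂ) * M) h2
      simp only [Matrix.mul_zero, ← Matrix.mul_assoc] at h4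
      rw [← hK, Units.inv_mul, Matrix.one_mul] at h4
      exact h4.symm
    have h5 : dW (grOp w P0) (cp y - cp x) c = 0 := h1
    have h6 : dB (grOp w P0) (cp y - cp x) c = 0 := by
      unfold VCalc_442.tb at h3
      exact neg_eq_zero.1 h3
    have h7 := VCalc_442.fderiv_eq (grOp w P0) (cp y - cp x) c
    rw [h5, h6, add_zero] at h7
    exact h7
  have hconstE : grOp w P0 (cp y) = grOp w P0 (cp x) :=
    eq_of_seg hBc hxB hyB (fun c hc => hV0.dE (hball hc).1.1) hL0
  rw [hgr0 _ hyU, hgr0 _ hxU, hxe, hye] at hconstE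
  -- the line
  have hσd : ∀ c ∈ B, DifferentiableAt ℝ σ c := fun c hc =>
    (hb.sm.contDiffAt (hU1.mem_nhds (hball hc).1.2)).differentiableAt (by simp)
  have hσC : ∀ c ∈ B, DifferentiableAt ℂ σ c := fun c hc =>
    hb.hol.differentiableAt (hU1.mem_nhds (hball hc).1.2)
  have hDσ : ∀ c ∈ B, ∃ l : ℂ, fderiv ℝ σ c (cp y - cp x) = l • σ c := by
    intro c hc
    have hcU : c ∈ U0 := (hball hc).1.1
    have hct := hU0t hcU
    set x' := (ch z).symm c with hx'
    have hcpx' : cp x' = c := (isCh_ch z).cp_symm hct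
    rw [VCalc_442.fderiv_eq, VCalc_442.dB_of_diff (hσC c hc), add_zero]
    -- `dW σ e_j c = P(z,x') (D_j om)(x')`
    have h1 : ∀ j, dW σ (Pi.single j 1) c = cm (V.P z x') *ᵥ
        fun i => dz j (fun y => lV V.P om x' y i) x' := by
      intro j
      have h2 : σ =ᶠ[𝓝 c] fun d => cm (V.P z x') *ᵥ (lV V.P om x' ((ch z).symm d)) := by
        filter_upwards [hU0.mem_nhds hcU] with d hd
        show cm (V.P z ((ch z).symm d)) *ᵥ om ((ch z).symm d) = _
        unfold lV
        rw [mulVec_mulVec, ← Ipc735.cm_mul, hP0 c hcU d hd]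
      have hdl : ∀ i, DifferentiableAt ℝ (fun d => lV V.P om x' ((ch z).symm d) i) c := by
        intro i
        have h3 : AnalyticAt ℂ (lV V.P om x' ∘ (ch z).symm) (cp x') :=
          (hL.hol x').congr_chart (isCh_ch z) ((ch z).map_target hct)
        rw [hcpx'] at h3
        have h4 := (analyticAt_pi_iff.1 h3) i
        exact h4.differentiableAt.restrictScalars ℝ
      rw [VCalc_442.dW_congr h2]
      funext i
      have h5 : ∀ v : Fin m → ℂ, fderiv ℝ (fun d => cm (V.P z x') *ᵥ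
          (lV V.P om x' ((ch z).symm d))) c v i = ∑ k, cm (V.P z x') i k *
          fderiv ℝ (fun d => lV V.P om x' ((ch z).symm d) k) c v := by
        intro v
        have h6 : DifferentiableAt ℝ (fun d => cm (V.P z x') *ᵥ
            (lV V.P om x' ((ch z).symm d))) c := by
          rw [differentiableAt_pi]
          intro i
          have : (fun d => (cm (V.P z x') *ᵥ (lV V.P om x' ((ch z).symm d))) i) =
              fun d => ∑ k, cm (V.P z x') i k * lV V.P om x' ((ch z).symm d) k := rfl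
          rw [this]
          exact DifferentiableAt.fun_sum fun k _ => (hdl k).const_mul _
        have h7 : fderiv ℝ (fun d => cm (V.P z x') *ᵥ (lV V.P om x' ((ch z).symm d))) c v i =
            fderiv ℝ (fun d => (cm (V.P z x') *ᵥ (lV V.P om x' ((ch z).symm d))) i) c v := by
          rw [fderiv_pi (fun i => (differentiableAt_pi.1 h6) i)]
          rfl
        rw [h7]
        have h8 : (fun d => (cm (V.P z x') *ᵥ (lV V.P om x' ((ch z).symm d))) i) =
              fun d => ∑ k, cm (V.P z x') i k * lV V.P om x' ((ch z).symm d) k := rfl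
        rw [h8, fderiv_fun_sum fun k _ => (hdl k).const_mul _, _root_.sum_apply]
        refine Finset.sum_congr rfl fun k _ => ?_
        rw [fderiv_const_mul (hdl k)]
        rfl
      have h9 : dW (fun d => cm (V.P z x') *ᵥ (lV V.P om x' ((ch z).symm d)))
          (Pi.single j 1) c i = (1 / 2 : ℂ) * (∑ k, cm (V.P z x') i k *
          fderiv ℝ (fun d => lV V.P om x' ((ch z).symm d) k) c (Pi.single j 1) -
          Complex.I * ∑ k, cm (V.P z x') i k *
          fderiv ℝ (fun d => lV V.P om x' ((ch z).symm d) k) c (Complex.I • Pi.single j 1)) := by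
        rw [← h5, ← h5]
        rfl
      rw [h9]
      show _ = ∑ k, cm (V.P z x') i k * dz j (fun y => lV V.P om x' y k) x'
      rw [Finset.mul_sum, ← Finset.sum_sub_distrib, Finset.mul_sum]
      refine Finset.sum_congr rfl fun k _ => ?_
      rw [dz_eq_dW j _ (isCh_ch z) ((ch z).map_target hct), hcpx']
      show _ = cm (V.P z x') i k * ((1 / 2 : ℂ) * (fderiv ℝ
        (fun d => lV V.P om x' ((ch z).symm d) k) c (Pi.single j 1) -
        Complex.I * fderiv ℝ (fun d => lV V.P om x' ((ch z).symm d) k) c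
          (Complex.I • Pi.single j 1)))
      ring
    obtain ⟨cj, hcj⟩ : ∃ cj : Fin m → ℂ, ∀ j, (fun i => dz j (fun y => lV V.P om x' y i) x') =
        dM V.P V.E j x' *ᵥ om x' + cj j • om x' := ⟨fun j => (hL.par x' j).choose, fun j =>
          (hL.par x' j).choose_spec⟩
    refine ⟨∑ j, (cp y - cp x) j * cj j, ?_⟩
    conv_lhs => rw [pi_eq_sum_univ' (cp y - cp x)]
    rw [VCalc_442.dW_sum_dir, Finset.sum_smul]
    refine Finset.sum_congr rfl fun j _ => ?_
    by_cases hj : ∃ i, ι i = j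
    · obtain ⟨i, rfl⟩ := hj
      rw [hv i, zero_smul, zero_mul, zero_smul]
    · have hj' : ∀ i, ι i ≠ j := fun i hi => hj ⟨i, hi⟩
      rw [h1 j, hcj j, hfl _ j hj', zero_mulVec, zero_add, mulVec_smul, smul_smul]
      rfl
  have hratio : ∀ l, σ (cp y) l / σ (cp y) i₀ = σ (cp x) l / σ (cp x) i₀ := by
    intro l
    have hd1 : ∀ c ∈ B, ∀ l, DifferentiableAt ℝ (fun c => σ c l) c := fun c hc l =>
      (differentiableAt_pi.1 (hσd c hc)) l
    have hdiv : ∀ c ∈ B, DifferentiableAt ℝ (fun c => σ c l / σ c i₀) c := by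
      intro c hc
      have h0 : DifferentiableAt ℝ (fun c => (σ c i₀)⁻¹) c :=
        ((hasDerivAt_inv (hball hc).2).hasFDerivAt.restrictScalars ℝ).differentiableAt.comp c
          (hd1 c hc i₀)
      simp only [div_eq_mul_inv]
      exact (hd1 c hc l).mul h0
    refine eq_of_seg (f := fun c => σ c l / σ c i₀) hBc hxB hyB hdiv (fun c hc => ?_)
    obtain ⟨k, hk⟩ := hDσ c hc
    have h1 : ∀ l, fderiv ℝ (fun c => σ c l) c (cp y - cp x) = k * σ c l := by
      intro l
      have h2 : fderiv ℝ σ c (cp y - cp x) l = fderiv ℝ (fun c => σ c l) c (cp y - cp x) := by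
        have : fderiv ℝ σ c = ContinuousLinearMap.pi fun l => fderiv ℝ (fun c => σ c l) c :=
          fderiv_pi (fun l => hd1 c hc l)
        rw [this]
        rfl
      rw [← h2, hk]
      rfl
    have h3 : (fun c => σ c l / σ c i₀) = fun c => σ c l * (σ c i₀)⁻¹ := by
      funext c; rw [div_eq_mul_inv]
    have h4 : HasFDerivAt (fun c => (σ c i₀)⁻¹) (-(σ c i₀ ^ 2)⁻¹ • fderiv ℝ (fun c => σ c i₀) c)
        c := by
      have h5 : HasDerivAt (fun t : ℂ => t⁻¹) (-(σ c i₀ ^ 2)⁻¹) (σ c i₀) :=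
        hasDerivAt_inv (hball hc).2
      have h6 := (h5.hasFDerivAt.restrictScalars ℝ).comp c (hd1 c hc i₀).hasFDerivAt
      refine h6.congr_fderiv ?_
      ext v
      simp [mul_comm]
    have h7 : HasFDerivAt (fun c => σ c l * (σ c i₀)⁻¹) _ c :=
      (hd1 c hc l).hasFDerivAt.mul h4
    rw [h3, h7.fderiv]
    simp only [_root_.add_apply, _root_.smul_apply, smul_eq_mul]
    rw [h1, h1]
    have hne' := (hball hc).2
    simp only [Set.mem_ofPred_eq] at hne'
    field_simp
    ring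
  refine ⟨?_, ?_, ?_, hconstE.symm, σ (cp y) i₀ / σ (cp x) i₀, ?_⟩
  · have := hP0 _ hxU _ hyU
    rwa [hxe, hye] at this
  · have := hS0 _ hxU
    rwa [hxe] at this
  · have := hS0 _ hyU
    rwa [hye] at this
  · have hx0 : σ (cp x) i₀ ≠ 0 := (hball hxB).2
    have hy0 : σ (cp y) i₀ ≠ 0 := (hball hyB).2
    have e1 : σ (cp x) = lV V.P om z x := by
      show lV V.P om z ((ch z).symm (cp x)) = _
      rw [hxe]
    have e2 : σ (cp y) = lV V.P om z y := by
      show lV V.P om z ((ch z).symm (cp y)) = _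
      rw [hye]
    rw [← e1, ← e2]
    funext l
    have := hratio l
    rw [div_eq_div_iff hy0 hx0] at this
    rw [Pi.smul_apply, smul_eq_mul]
    field_simp
    linear_combination this

/-- **the data `Dat`** -/
theorem dat (hL : CYL V om) (hfl : Fl V ι) (hf : Prj ι f)
    (hconn : ∀ x, IsPreconnected (f ⁻¹' {f x})) :
    Dat V.P (fun x => hodge w (V.S x) (V.E x)) om f where
  ndc := V.ndc
  pos := fun x _ hv => (V.hs x).hodge_pos hv
  ne := hL.ne
  conn := hconn
  fib := by
    intro z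
    obtain ⟨W, hW, h⟩ := exists_nbhd hL hfl hf z
    refine ⟨W, hW, fun x hx y hy hxy => ?_⟩
    obtain ⟨hP, hSx, hSy, hE, k, hk⟩ := h x hx y hy hxy
    have e1 : cm (V.P z y) = cm (V.P z x) * cm (V.P x y) := by rw [← Ipc735.cm_mul, hP]
    have e2 : V.P x y = (V.P z x)⁻¹ * V.P z y := by rw [← hP]; group
    -- `E y = g⁻¹ E x g`, `S y = gᴴ S x g`, `g = cm (P x y)`
    have hEy : V.E y = cm (V.P x y)⁻¹ * V.E x * cm (V.P x y) := by
      unfold lM at hE
      have h1 : V.E y = cm (V.P z y)⁻¹ * (cm (V.P z y) * V.E y * cm (V.P z y)⁻¹) *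
          cm (V.P z y) := by
        calc V.E y = (cm (V.P z y)⁻¹ * cm (V.P z y)) * V.E y *
              (cm (V.P z y)⁻¹ * cm (V.P z y)) := by simp
          _ = _ := by noncomm_ring
      have h2 : (V.P x y)⁻¹ = (V.P z y)⁻¹ * V.P z x := by rw [e2]; group
      rw [h1, ← hE, h2, e2, Ipc735.cm_mul, Ipc735.cm_mul]
      noncomm_ring
    have hSy' : V.S y = (cm (V.P x y))ᴴ * V.S x * cm (V.P x y) := by
      rw [hSy, e1, Matrix.conjTranspose_mul, hSx]
      noncomm_ring
    refine ⟨?_, k, ?_⟩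
    · have h1 := hodge_conj (Ipc735.cm_inv_mul_cm (V.P x y)) (Ipc735.cm_mul_cm_inv (V.P x y)) w
        (V.S x) (V.E x)
      show (cm (V.P x y))ᴴ * hodge w (V.S x) (V.E x) * cm (V.P x y) = hodge w (V.S y) (V.E y)
      rw [← h1, ← hSy', ← hEy]
    · unfold lV at hk
      have h1 := congrArg (fun v => cm (V.P z x)⁻¹ *ᵥ v) hk
      simp only [mulVec_smul, cm_inv_mulVec] at h1
      rw [mulVec_mulVec, ← Ipc735.cm_mul, ← e2] at h1
      exact h1

end Crest.Agent.R276.DescF_327
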