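import Mathlib
import Crest.Agent.R276.DescF_327
import Crest.Agent.R276.CntDefs_857

/-!
# R276, leaf DESC (helper327): interface DESC -> COUNT-GR (606, 217) -> COUNT (857) -> C4 (804)

`X` = model of `L` (carries the `VHS` and `om`), `M` = model of the period field `T`, `f : X → M` the
projection (connected fibres, `V` flat along the fibres), `u` the descending unit:
`exp (-ψ (f x)) = hn (om x) * |u x|^{2/M0}`, i.e. the frame `e' = u^{1/M0} om` has norm `exp (-ψ)`.
`LD` : boundary charts of `M` along a divisor together with lifts to `X`.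
-/

set_option autoImplicit false

noncomputable section

open Set Filter Topology Metric MeasureTheory
open Crest.Agent.R271.Ho51 Crest.Agent.R276.Ipc735 Crest.Agent.R276.CntDefs_857
open Crest.Agent.R276.DescC_327 (Prj)
open Crest.Agent.R276.DescF_327 (Fl)
open Crest.Agent.R276.VLevi_327 (gdet)

namespace Crest.Agent.R276.LftDefs_327

open Crest.Agent.R276.VLevi_327 (CYL psi hn)

/-- the weights on `M` which descend from `X` -/
structure WD {n m N w : ℕ} {M X : Type*} [TopologicalSpace M] [RDom n M] [TopologicalSpace X]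
    [RDom m X] (V : VHS m X N w) (om : X → Fin N → ℂ) (u : X → ℂ) (M0 : ℕ) (f : X → M)
    (ι : Fin n → Fin m) (φ ψ : M → ℝ) : Prop where
  cyl : CYL V om
  prj : Prj ι f
  fl : Fl V ι
  conn : ∀ x, IsPreconnected (f ⁻¹' {f x})
  surj : Function.Surjective f
  /-- the period map is immersive in the directions `ι` -/
  pos : ∀ x, 0 < gdet V ι x
  hM : 0 < M0
  uhol : ∀ x, HolAt u x
  une : ∀ x, u x ≠ 0
  hφ : ∀ x, φ (f x) = Real.log (gdet V ι x)
  hψ : ∀ x, ψ (f x) = psi V om x - 1 / M0 * Real.log (‖u x‖ ^ 2)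

/-- lifts to `X` of the boundary charts `D` of `M`, with growth of `|om|` and of the unit `u` -/
structure LD {d m N w : ℕ} {M E X : Type*} [TopologicalSpace M] [RDom (d + 1) M]
    [MeasurableSpace M] {μ : Measure M} [TopologicalSpace E] [RDom d E] [TopologicalSpace X]
    [RDom m X] (D : DChart M E μ) (V : VHS m X N w) (om : X → Fin N → ℂ) (u : X → ℂ)
    (f : X → M) where
  s : E → (Fin (d + 1) → ℂ) → X
  cont : ∀ y, ContinuousOn (s y) (PS d (D.r y))
  hol : ∀ y, DifferentiableOn ℂ (fun q => (cp (s y q) : Fin m → ℂ)) (PS d (D.r y))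
  fs : ∀ y, ∀ q ∈ PS d (D.r y), f (s y q) = D.σ y q
  compat : ∀ (y : E) (e : OpenPartialHomeomorph E (Fin d → ℂ)), IsCh e → y ∈ e.source →
    e.target = ball (cp y) (D.r y) → ∀ y' ∈ e.source, ∀ q ∈ PS d (D.r y'),
      q + Fin.cons 0 (cp y' - cp y) ∈ PS d (D.r y) →
      s y' q = s y (q + Fin.cons 0 (cp y' - cp y))
  C : ℝ
  hC : 1 ≤ C
  /-- growth of the norm of `om` -/
  psi_le : ∀ y, ∀ q ∈ PS d (D.r y),
    |psi V om (s y q)| ≤ C * (1 + Real.log (1 / D.r y) + Real.log (1 / ‖q 0‖))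
  /-- the order of `u` -/
  ku : ℤ
  /-- `u = x^ku G`, `G` holomorphic and zero free on the whole polydisc -/
  unit : ∀ y, ∃ G : (Fin (d + 1) → ℂ) → ℂ, DifferentiableOn ℂ G (ball 0 (D.r y)) ∧
    (∀ q ∈ ball (0 : Fin (d + 1) → ℂ) (D.r y), G q ≠ 0 ∧
      |Real.log ‖G q‖| ≤ C * (1 + Real.log (1 / D.r y))) ∧
    ∀ q ∈ PS d (D.r y), u (s y q) = q 0 ^ ku * G q
  /-- the order of the Jacobian -/
  kJ : ℤ
  jac : ∀ y, ∃ G : (Fin (d + 1) → ℂ) → ℂ, DifferentiableOn ℂ G (ball 0 (D.r y)) ∧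
    (∀ q ∈ ball (0 : Fin (d + 1) → ℂ) (D.r y), G q ≠ 0 ∧
      |Real.log ‖G q‖| ≤ C * (1 + Real.log (1 / D.r y))) ∧
    ∀ q ∈ PS d (D.r y), D.J y q = q 0 ^ kJ * G q

end Crest.Agent.R276.LftDefs_327
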