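import Mathlib
import Crest.Agent.R276.LftDefs_327
import Crest.Agent.R276.GoodLoc_442

/-!
# R276, leaf DESC (helper327), part 7: the weights which descend from `X` to `M`

`gdet V ι` is constant along the fibres of `f`; `phT`; Levi forms of descended functions.
-/

set_option autoImplicit false
set_option linter.unusedSectionVars false

noncomputable section

open Set Filter Topology Matrix
open scoped ContDiff ComplexOrder
open Crest.Agent.R271.Ho51 Crest.Agent.R276.Ipc735 Crest.Agent.R276.Desc_327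
open Crest.Agent.R276.DescB_327 Crest.Agent.R276.DescC_327 Crest.Agent.R276.DescD_327
open Crest.Agent.R276.DescE_327 (HolAt.mul HolAt.div HolAt.pow HolAt.prod HolAt.const HolAt.congr
  SmAt.congr Slice)
open Crest.Agent.R276.VLevi_327 Crest.Agent.R276.VPull_327
open Crest.Agent.R276.DescF_327 Crest.Agent.R276.LftDefs_327

namespace Crest.Agent.R276.DescG_327

open VCalc_442 (dW dB mW mB cx gg gm gden th thb grOp hm sf bn)

attribute [local instance] Matrix.linftyOpNormedRing Matrix.linftyOpNormedAlgebra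

section translate

variable {m N w : ℕ} {F : (Fin m → ℂ) → Matrix (Fin N) (Fin N) ℂ} {h c : Fin m → ℂ}

theorem fd_translate (hinv : ∀ᶠ c' in 𝓝 c, F (c' + h) = F c') (i j : Fin N) :
    fderiv ℝ (fun y => F y i j) (c + h) = fderiv ℝ (fun y => F y i j) c := by
  have h1 : (fun y => F (y + h) i j) =ᶠ[𝓝 c] fun y => F y i j := hinv.mono fun y hy => by
    show F (y + h) i j = F y i j
    rw [hy]
  rw [← fderiv_comp_add_right (f := fun y => F y i j) h]
  exact h1.fderiv_eq

theorem mW_translate (hinv : ∀ᶠ c' in 𝓝 c, F (c' + h) = F c') (v : Fin m → ℂ) :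
    mW F v (c + h) = mW F v c := by
  ext i j
  show dW (fun y => F y i j) v (c + h) = dW (fun y => F y i j) v c
  unfold dW
  rw [fd_translate hinv]

theorem mB_translate (hinv : ∀ᶠ c' in 𝓝 c, F (c' + h) = F c') (v : Fin m → ℂ) :
    mB F v (c + h) = mB F v c := by
  ext i j
  show dB (fun y => F y i j) v (c + h) = dB (fun y => F y i j) v c
  unfold dB
  rw [fd_translate hinv]

theorem gg_translate {P : ℕ → (Fin m → ℂ) → Matrix (Fin N) (Fin N) ℂ}
    (hinv : ∀ᶠ c' in 𝓝 c, grOp w P (c' + h) = grOp w P c') (u v : Fin m → ℂ) :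
    gg w P u v (c + h) = gg w P u v c := by
  unfold gg th thb
  rw [mW_translate hinv, mB_translate hinv]

end translate

variable {m r N w : ℕ} {X T : Type*} [TopologicalSpace X] [RDom m X] [TopologicalSpace T]
  [RDom r T] {ι : Fin r → Fin m} {f : X → T} {V : VHS m X N w} {om : X → Fin N → ℂ}

/-- the grading operator in a flat frame is constant in the directions outside `ι` -/
theorem exists_inv (hfl : Fl V ι) (z : X) : ∃ (ε : ℝ)
    (P' : ℕ → (Fin m → ℂ) → Matrix (Fin N) (Fin N) ℂ), 0 < ε ∧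
      Metric.ball (cp z) ε ⊆ (ch z).target ∧
      (∀ c ∈ Metric.ball (cp z) ε, ∀ i j,
        gg w P' (Pi.single i 1) (Pi.single j 1) c = gV V i j ((ch z).symm c)) ∧
      ∀ c ∈ Metric.ball (cp z) ε, ∀ c' ∈ Metric.ball (cp z) ε, (∀ i, c (ι i) = c' (ι i)) →
        grOp w P' c' = grOp w P' c := by
  obtain ⟨U0, P0, hU0, hzU0, hU0t, hP0, hS0, hP0', hV0, hgr0, hth0, -, hgg⟩ := gV_local V z
  obtain ⟨ε, hε, hball⟩ := Metric.mem_nhds_iff.1 (hU0.mem_nhds hzU0)
  set B := Metric.ball (cp z) ε with hB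
  have hBc : Convex ℝ B := convex_ball _ _
  refine ⟨ε, P0, hε, fun c hc => hU0t (hball hc), fun c hc => hgg c (hball hc), ?_⟩
  intro c hc c' hc' hcc
  have hv : ∀ i, (c' - c) (ι i) = 0 := fun i => by rw [Pi.sub_apply, hcc i, sub_self]
  have hth : ∀ b ∈ B, th w P0 (c' - c) b = 0 := by
    intro b hb
    have hcU : b ∈ U0 := hball hb
    rw [hV0.th_eq hcU, pi_eq_sum_univ' (c' - c), VCalc_442.dW_sum_dir]
    refine Finset.sum_eq_zero fun j _ => ?_
    by_cases hj : ∃ i, ι i = j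
    · obtain ⟨i, rfl⟩ := hj
      rw [hv i, zero_smul]
    · have hj' : ∀ i, ι i ≠ j := fun i hi => hj ⟨i, hi⟩
      rw [← hV0.th_eq hcU, hth0 b hcU j, hfl _ j hj']
      simp
  have hL0 : ∀ b ∈ B, fderiv ℝ (grOp w P0) b (c' - c) = 0 := by
    intro b hb
    have hcU : b ∈ U0 := hball hb
    have h1 := hth b hb
    rw [hV0.th_eq hcU] at h1
    have h2 := hV0.adj_th_tb hcU (c' - c)
    rw [h1] at h2
    unfold VCalc_442.Adj at h2
    rw [Matrix.conjTranspose_zero, Matrix.zero_mul] at h2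
    have hu := (hV0.hmPos hcU).isUnit
    have h3 : VCalc_442.tb (grOp w P0) (c' - c) b = 0 := by
      obtain ⟨K, hK⟩ := hu
      have h4 := congrArg (fun M => (↑K⁻¹ : Matrix (Fin N) (Fin N) ℂ) * M) h2
      simp only [Matrix.mul_zero, ← Matrix.mul_assoc] at h4
      rw [← hK, Units.inv_mul, Matrix.one_mul] at h4
      exact h4.symm
    have h5 : dW (grOp w P0) (c' - c) b = 0 := h1
    have h6 : dB (grOp w P0) (c' - c) b = 0 := by
      unfold VCalc_442.tb at h3
      exact neg_eq_zero.1 h3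
    have h7 := VCalc_442.fderiv_eq (grOp w P0) (c' - c) b
    rw [h5, h6, add_zero] at h7
    exact h7
  exact eq_of_seg hBc hc hc' (fun b hb => hV0.dE (hball hb)) hL0

/-- `gV` is locally constant along the fibres -/
theorem gV_locConst (hfl : Fl V ι) (hf : Prj ι f) (i j : Fin m) :
    LocConstFib f (gV V i j) := by
  intro z
  obtain ⟨ε, P', hε, hbt, hgg, hinv⟩ := exists_inv hfl z
  refine ⟨(ch z).source ∩ cp ⁻¹' (Metric.ball (cp z) ε), inter_mem
    ((ch z).open_source.mem_nhds (mem_ch z))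
    (cp_cont.continuousAt.preimage_mem_nhds (Metric.ball_mem_nhds _ hε)), ?_⟩
  rintro x ⟨hxs, hxB⟩ y ⟨hys, hyB⟩ hxy
  have hxe : (ch z).symm (cp x) = x := (isCh_ch z).symm_cp hxs
  have hye : (ch z).symm (cp y) = y := (isCh_ch z).symm_cp hys
  have h1 := hgg _ hxB i j
  have h2 := hgg _ hyB i j
  rw [hxe] at h1
  rw [hye] at h2
  rw [← h1, ← h2]
  have h3 : cp y = cp x + (cp y - cp x) := by abel
  have h4 : ∀ᶠ c' in 𝓝 (cp x), grOp w P' (c' + (cp y - cp x)) = grOp w P' c' := by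
    have h5 : ∀ᶠ c' in 𝓝 (cp x), c' + (cp y - cp x) ∈ Metric.ball (cp z) ε := by
      have h6 : ContinuousAt (fun c' : Fin m → ℂ => c' + (cp y - cp x)) (cp x) := by fun_prop
      refine h6.eventually_mem ?_
      rw [← h3]
      exact Metric.isOpen_ball.mem_nhds hyB
    filter_upwards [h5, Metric.isOpen_ball.mem_nhds hxB] with c' h6 h7
    refine hinv c' h7 _ h6 fun k => ?_
    rw [Pi.add_apply, Pi.sub_apply, Prj.cp_ι hf hxy k, sub_self, add_zero]
  conv_rhs => rw [h3]
  exact (gg_translate h4 _ _).symm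

/-- `gV` is constant along the fibres -/
theorem gV_fib (hfl : Fl V ι) (hf : Prj ι f) (hc : ∀ x, IsPreconnected (f ⁻¹' {f x})) {x y : X}
    (h : f x = f y) (i j : Fin m) : gV V i j x = gV V i j y :=
  (gV_locConst hfl hf i j).const hc h

/-- `gdet` is constant along the fibres -/
theorem gdet_fib (hfl : Fl V ι) (hf : Prj ι f) (hc : ∀ x, IsPreconnected (f ⁻¹' {f x})) {x y : X}
    (h : f x = f y) : gdet V ι x = gdet V ι y := by
  have h1 : (Matrix.of fun i j : Fin r => gV V (ι i) (ι j) x) =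
      Matrix.of fun i j : Fin r => gV V (ι i) (ι j) y := by
    refine congrArg Matrix.of ?_
    funext i j
    exact gV_fib hfl hf hc h _ _
  have h2 : gdet V ι x = (Matrix.of fun i j : Fin r => gV V (ι i) (ι j) x).det.re := rfl
  have h3 : gdet V ι y = (Matrix.of fun i j : Fin r => gV V (ι i) (ι j) y).det.re := rfl
  rw [h2, h3, h1]

/-! ### descent of functions -/

section descend

/-- a function on `T` with prescribed pull back -/
def dsc {A : Type*} (f : X → T) (hs : Function.Surjective f) (G : X → A) (τ : T) : A :=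
  G (Function.surjInv hs τ)

theorem dsc_apply {A : Type*} (hs : Function.Surjective f) {G : X → A}
    (hG : ∀ x y, f x = f y → G x = G y) (x : X) : dsc f hs G (f x) = G x :=
  hG _ _ (Function.surjInv_eq hs (f x))

/-- a function whose pull back is smooth is smooth -/
theorem smAt_of_comp (hf : Prj ι f) {E : Type*} [NormedAddCommGroup E] [NormedSpace ℝ E]
    {g : T → E} {x : X} (h : SmAt (fun x => g (f x)) x) : SmAt g (f x) := by
  refine Ipc735.SmAt.congr (hf.smAt_lsec h) ?_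
  filter_upwards [hf.f_lsec x] with τ hτ
  rw [hτ]

/-- a function whose pull back is holomorphic is holomorphic -/
theorem holAt_of_comp (hf : Prj ι f) {E : Type*} [NormedAddCommGroup E] [NormedSpace ℂ E]
    {g : T → E} {x : X} (h : HolAt (fun x => g (f x)) x) : HolAt g (f x) := by
  refine Ipc735.HolAt.congr (hf.holAt_lsec h) ?_
  filter_upwards [hf.f_lsec x] with τ hτ
  rw [hτ]

theorem Prj.hmap (hf : Prj ι f) : HMap f :=
  HMap.of_cp hf.cont (g := fg ι) (fun _ => (fg ι).analyticAt _) fun y => hf.cp_eq y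

theorem Prj.jac_eq (hf : Prj ι f) (x : X) : jac f x = fg ι := by
  rw [jac_of_cp (Eventually.of_forall fun y => hf.cp_eq y)]
  exact (fg ι).fderiv

/-- **Levi form of the pull back** -/
theorem Levi_pull (hf : Prj ι f) {g : T → ℝ} (hg : Sm g) (x : X) (v : Fin m → ℂ) :
    Levi (fun x => g (f x)) x v = Levi g (f x) (fg ι v) := by
  rw [Levi_comp (Eventually.of_forall fun y => Prj.hmap hf y) (Eventually.of_forall fun y => hg y),
    Prj.jac_eq hf]

end descend

/-! ### Levi calculus -/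

section levi

variable {F G : X → ℝ} {u : X → ℂ} {x : X}

theorem SmAt.two {F : X → ℝ} (h : SmAt F x) : ContDiffAt ℝ 2 (F ∘ (ch x).symm) (cp x) :=
  ContDiffAt.of_le (n := ((⊤ : ℕ∞) : WithTop ℕ∞)) h (by
    have : ((2 : ℕ∞) : WithTop ℕ∞) ≤ ((⊤ : ℕ∞) : WithTop ℕ∞) := WithTop.coe_le_coe.2 le_top
    exact this)

theorem Levi_hess (hF : SmAt F x) (v : Fin m → ℂ) :
    Levi F x v = GoodLoc_442.hess (F ∘ (ch x).symm) v (cp x) :=
  LevB_442.levi_eq (isCh_ch x) (mem_ch x) (SmAt.two hF) v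

theorem Levi_comb (hF : SmAt F x) (hG : SmAt G x) (a b : ℝ) (v : Fin m → ℂ) :
    Levi (fun y => a * F y + b * G y) x v = a * Levi F x v + b * Levi G x v := by
  have hS : SmAt (fun y => a * F y + b * G y) x :=
    (contDiffAt_const.mul hF).add (contDiffAt_const.mul hG)
  rw [Levi_hess hS, Levi_hess hF, Levi_hess hG]
  exact GoodLoc_442.hess_comb (SmAt.two hF) (SmAt.two hG) a b v

theorem sm_log_norm (hu : HolAt u x) (h0 : u x ≠ 0) :
    SmAt (fun y => Real.log (‖u y‖ ^ 2)) x := by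
  have h1 : ContDiffAt ℝ ∞ (u ∘ (ch x).symm) (cp x) := hu.contDiffAt.restrict_scalars ℝ
  have h2 : ContDiffAt ℝ ∞ (fun y => ‖(u ∘ (ch x).symm) y‖ ^ 2) (cp x) := h1.norm_sq ℂ
  refine ContDiffAt.log (f := fun y => ‖(u ∘ (ch x).symm) y‖ ^ 2) h2 ?_
  rw [Function.comp_apply, symm_cp]
  exact pow_ne_zero _ (norm_ne_zero_iff.2 h0)

/-- `log |u|²` is pluriharmonic -/
theorem Levi_log_norm (hu : HolAt u x) (h0 : u x ≠ 0) (v : Fin m → ℂ) :
    Levi (fun y => Real.log (‖u y‖ ^ 2)) x v = 0 := by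
  rw [Levi_hess (sm_log_norm hu h0)]
  have h1 : ContDiffAt ℂ 2 (u ∘ (ch x).symm) (cp x) := hu.contDiffAt
  refine GoodLoc_442.hess_log_norm h1 ?_ v
  rw [Function.comp_apply, symm_cp]
  exact h0

end levi

/-! ### the weights -/

section WD

variable {u : X → ℂ} {M0 : ℕ} {φ ψ : T → ℝ} (h : WD V om u M0 f ι φ ψ)

include h

theorem WD.phi_Sm : Sm φ := by
  intro τ
  obtain ⟨x, rfl⟩ := h.surj τ
  refine smAt_of_comp h.prj ?_
  have h1 : (fun x => φ (f x)) = fun x => Real.log (gdet V ι x) := funext h.hφ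
  rw [h1]
  exact ContDiffAt.log (gdet_smooth V ι x) (by
    show gdet V ι ((ch x).symm (cp x)) ≠ 0
    rw [symm_cp]
    exact (h.pos x).ne')

theorem WD.psi_comp : (fun x => ψ (f x)) = fun x => 1 * VLevi_327.psi V om x +
    (-(1 / (M0 : ℝ))) * Real.log (‖u x‖ ^ 2) := by
  funext x
  rw [h.hψ x]
  ring

theorem WD.psi_Sm : Sm ψ := by
  intro τ
  obtain ⟨x, rfl⟩ := h.surj τ
  refine smAt_of_comp h.prj ?_
  rw [WD.psi_comp h]
  exact (contDiffAt_const.mul (h.cyl.psi_smooth x)).add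
    (contDiffAt_const.mul (sm_log_norm (h.uhol x) (h.une x)))

theorem WD.Levi_phi (x : X) (v : Fin m → ℂ) :
    Levi φ (f x) (fg ι v) = Levi (fun y => Real.log (gdet V ι y)) x v := by
  rw [← Levi_pull h.prj (WD.phi_Sm h) x v]
  have h1 : (fun x => φ (f x)) = fun x => Real.log (gdet V ι x) := funext h.hφ
  rw [h1]

theorem WD.Levi_psi (x : X) (v : Fin m → ℂ) :
    Levi ψ (f x) (fg ι v) = Levi (VLevi_327.psi V om) x v := by
  rw [← Levi_pull h.prj (WD.psi_Sm h) x v, WD.psi_comp h,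
    Levi_comb (h.cyl.psi_smooth x) (sm_log_norm (h.uhol x) (h.une x)),
    Levi_log_norm (h.uhol x) (h.une x)]
  ring

theorem WD.phi_psh (τ : T) (v : Fin r → ℂ) : 0 ≤ Levi φ τ v := by
  obtain ⟨x, rfl⟩ := h.surj τ
  obtain ⟨v', rfl⟩ := fg_surj h.prj.inj v
  rw [WD.Levi_phi h]
  exact Levi_log_gdet_nonneg V ι (h.pos x) v'

theorem WD.psi_psh (τ : T) (v : Fin r → ℂ) : 0 ≤ Levi ψ τ v := by
  obtain ⟨x, rfl⟩ := h.surj τ
  obtain ⟨v', rfl⟩ := fg_surj h.prj.inj v
  rw [WD.Levi_psi h]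
  exact h.cyl.Levi_psi_nonneg x v'

end WD

end Crest.Agent.R276.DescG_327
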