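import Mathlib
import Crest.Agent.R276.DescG_327

/-!
# R276, leaf DESC (helper327), part 8: the good point on `M`

Local data of the `VHS` and of the line restricted to a local section of `f`; `Good`.
-/

set_option autoImplicit false
set_option linter.unusedSectionVars false

noncomputable section

open Set Filter Topology Matrix
open scoped ContDiff ComplexOrder
open Crest.Agent.R271.Ho51 Crest.Agent.R276.Ipc735 Crest.Agent.R276.Desc_327
open Crest.Agent.R276.DescB_327 Crest.Agent.R276.DescC_327 Crest.Agent.R276.DescD_327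
open Crest.Agent.R276.VLevi_327 Crest.Agent.R276.VPull_327
open Crest.Agent.R276.DescF_327 Crest.Agent.R276.LftDefs_327 Crest.Agent.R276.DescG_327

namespace Crest.Agent.R276.DescH_327

open VCalc_442 (dW dB mW mB cx gg gm gden th thb grOp hm sf bn)

attribute [local instance] Matrix.linftyOpNormedRing Matrix.linftyOpNormedAlgebra

/-! ### restriction of a `VCalc_442.VHS` -/

section comp

variable {m r N w : ℕ} {A : (Fin r → ℂ) → (Fin m → ℂ)} {A' : (Fin r → ℂ) →L[ℂ] (Fin m → ℂ)}
  {U : Set (Fin m → ℂ)} {S : Matrix (Fin N) (Fin N) ℂ}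
  {P : ℕ → (Fin m → ℂ) → Matrix (Fin N) (Fin N) ℂ} {σ : (Fin m → ℂ) → Fin N → ℂ}

theorem mW_comp {F : (Fin m → ℂ) → Matrix (Fin N) (Fin N) ℂ} {b : Fin r → ℂ}
    (hF : ∀ i j, DifferentiableAt ℝ (fun y => F y i j) (A b)) (hA : HasFDerivAt A A' b)
    (v : Fin r → ℂ) : mW (fun b => F (A b)) v b = mW F (A' v) (A b) := by
  ext i j
  exact VCalc_442.dW_comp (hF i j) hA v

theorem mB_comp {F : (Fin m → ℂ) → Matrix (Fin N) (Fin N) ℂ} {b : Fin r → ℂ}
    (hF : ∀ i j, DifferentiableAt ℝ (fun y => F y i j) (A b)) (hA : HasFDerivAt A A' b)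
    (v : Fin r → ℂ) : mB (fun b => F (A b)) v b = mB F (A' v) (A b) := by
  ext i j
  exact VCalc_442.dB_comp (hF i j) hA v

theorem diff_grOp (h : VCalc_442.VHS w U S P) {c : Fin m → ℂ} (hc : c ∈ U) (i j : Fin N) :
    DifferentiableAt ℝ (fun y => grOp w P y i j) c := by
  have h1 : ∀ p, DifferentiableAt ℝ (fun y => P p y i j) c := fun p =>
    ((h.sm p i j).contDiffAt (h.op.mem_nhds hc)).differentiableAt (by simp)
  have h2 : (fun y => grOp w P y i j) = fun y => ∑ p ∈ Finset.range (w + 1), (p : ℂ) * P p y i j := by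
    funext y
    unfold VCalc_442.grOp
    rw [Matrix.sum_apply]
    rfl
  rw [h2]
  exact DifferentiableAt.fun_sum fun p _ => (h1 p).const_mul _

theorem th_comp (h : VCalc_442.VHS w U S P) {b : Fin r → ℂ} (hb : A b ∈ U)
    (hA : HasFDerivAt A A' b) (v : Fin r → ℂ) :
    th w (fun p b => P p (A b)) v b = th w P (A' v) (A b) :=
  mW_comp (F := grOp w P) (diff_grOp h hb) hA v

theorem thb_comp (h : VCalc_442.VHS w U S P) {b : Fin r → ℂ} (hb : A b ∈ U)
    (hA : HasFDerivAt A A' b) (v : Fin r → ℂ) :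
    thb w (fun p b => P p (A b)) v b = thb w P (A' v) (A b) :=
  congrArg Neg.neg (mB_comp (F := grOp w P) (diff_grOp h hb) hA v)

theorem gg_comp (h : VCalc_442.VHS w U S P) {b : Fin r → ℂ} (hb : A b ∈ U)
    (hA : HasFDerivAt A A' b) (u v : Fin r → ℂ) :
    gg w (fun p b => P p (A b)) u v b = gg w P (A' u) (A' v) (A b) := by
  unfold VCalc_442.gg
  rw [th_comp h hb hA, thb_comp h hb hA]

/-- **restriction along a holomorphic map** -/
theorem vhs_comp (h : VCalc_442.VHS w U S P) (hA : ∀ b, HasFDerivAt A A' b)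
    (hAs : ContDiff ℝ ∞ A) : VCalc_442.VHS w (A ⁻¹' U) S (fun p b => P p (A b)) where
  op := h.op.preimage hAs.continuous
  sm := fun p i j => (h.sm p i j).comp hAs.contDiffOn fun _ hb => hb
  idem := fun b hb => h.idem _ hb
  orth := fun b hb => h.orth _ hb
  top := fun b hb => h.top _ hb
  sum := fun b hb => h.sum _ hb
  herm := h.herm
  adj := fun _ hb => h.adj _ hb
  pos := fun _ hb => h.pos _ hb
  hor := fun b hb v => by
    have h1 : mW (grOp w fun p b => P p (A b)) v b = mW (grOp w P) (A' v) (A b) :=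
      mW_comp (F := grOp w P) (diff_grOp h hb) (hA b) v
    rw [h1]
    exact h.hor _ hb _

theorem bot_comp (h : VCalc_442.Bot w U P σ) (hA : ∀ b, HasFDerivAt A A' b)
    (hAs : ContDiff ℝ ∞ A) :
    VCalc_442.Bot w (A ⁻¹' U) (fun p b => P p (A b)) (fun b => σ (A b)) where
  hol := h.hol.comp (fun b _ => (hA b).differentiableAt.differentiableWithinAt) fun _ hb => hb
  sm := h.sm.comp hAs.contDiffOn fun _ hb => hb
  mem := fun _ hb => h.mem _ hb

end comp

/-! ### the affine embedding -/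

section emb

variable {m r : ℕ} {ι : Fin r → Fin m}

/-- the linear part of `upd ι a` -/
def inc (ι : Fin r → Fin m) : (Fin r → ℂ) →L[ℂ] (Fin m → ℂ) :=
  open Classical in ContinuousLinearMap.pi fun j =>
    if h : ∃ i, ι i = j then ContinuousLinearMap.proj h.choose else 0

theorem inc_apply (v : Fin r → ℂ) : inc ι v = upd ι 0 v := by
  classical
  funext j
  show (if h : ∃ i, ι i = j then ContinuousLinearMap.proj h.choose else 0 :
    (Fin r → ℂ) →L[ℂ] ℂ) v = _
  unfold upd
  by_cases h : ∃ i, ι i = j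
  · rw [dif_pos h, dif_pos h]
    rfl
  · rw [dif_neg h, dif_neg h]
    rfl

theorem upd_eq (a : Fin m → ℂ) (b : Fin r → ℂ) : upd ι a b = upd ι a 0 + inc ι b := by
  classical
  rw [inc_apply]
  funext j
  rw [Pi.add_apply]
  unfold upd
  split_ifs with h <;> simp

theorem hasFDerivAt_upd (a : Fin m → ℂ) (b : Fin r → ℂ) : HasFDerivAt (upd ι a) (inc ι) b := by
  have h1 : upd ι a = fun b => upd ι a 0 + inc ι b := funext fun b => upd_eq a b
  rw [h1]
  exact (inc ι).hasFDerivAt.const_add _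

theorem contDiff_upd (a : Fin m → ℂ) : ContDiff ℝ ∞ (upd ι a) := by
  have h1 : upd ι a = fun b => upd ι a 0 + inc ι b := funext fun b => upd_eq a b
  rw [h1]
  exact contDiff_const.add (((inc ι).restrictScalars ℝ).contDiff)

theorem inc_single (hι : Function.Injective ι) (i : Fin r) :
    inc ι (Pi.single i 1) = (Pi.single (ι i) 1 : Fin m → ℂ) := by
  classical
  rw [inc_apply]
  funext j
  by_cases hj : ∃ i', ι i' = j
  · obtain ⟨i', rfl⟩ := hj
    rw [upd_ι hι]
    by_cases hi : i' = i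
    · subst hi
      simp
    · rw [Pi.single_eq_of_ne hi, Pi.single_eq_of_ne (fun h => hi (hι h))]
  · push Not at hj
    rw [upd_of_notMem _ _ hj, Pi.zero_apply, Pi.single_eq_of_ne (fun h => hj i h.symm)]

end emb

/-! ### local data with the line -/

section loc

variable {m r N w : ℕ} {X T : Type*} [TopologicalSpace X] [RDom m X] [TopologicalSpace T]
  [RDom r T] {ι : Fin r → Fin m} {f : X → T} {V : VHS m X N w} {om : X → Fin N → ℂ}

/-- local form: everything in the flat frame at `z` -/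
theorem exists_loc (h : CYL V om) (z : X) : ∃ (U : Set (Fin m → ℂ))
    (P' : ℕ → (Fin m → ℂ) → Matrix (Fin N) (Fin N) ℂ), IsOpen U ∧ cp z ∈ U ∧
      U ⊆ (ch z).target ∧ VCalc_442.VHS w U (V.S z) P' ∧
      VCalc_442.Bot w U P' (lV V.P om z ∘ (ch z).symm) ∧
      (∀ c ∈ U, hn V ((ch z).symm c) (om ((ch z).symm c)) =
        bn w (V.S z) (lV V.P om z ∘ (ch z).symm) c) ∧
      (∀ c ∈ U, ∀ i j, gg w P' (Pi.single i 1) (Pi.single j 1) c = gV V i j ((ch z).symm c)) ∧
      (∀ c ∈ U, ∀ v, ∃ l : ℂ, P' w c *ᵥ dW (lV V.P om z ∘ (ch z).symm) v c =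
        l • (lV V.P om z ∘ (ch z).symm) c) := by
  obtain ⟨U, P', hU, hzU, hUt, hP, hS, hP', hV, hgr, hth, -, hgg⟩ := gV_local V z
  have han : ∀ᶠ c in 𝓝 (cp z), AnalyticAt ℂ (lV V.P om z ∘ (ch z).symm) c :=
    (h.hol z : AnalyticAt ℂ _ _).eventually_analyticAt
  obtain ⟨W, hWs, hW, hzW⟩ := mem_nhds_iff.1 han
  have hVW : VCalc_442.VHS w (U ∩ W) (V.S z) P' :=
    { op := hU.inter hW
      sm := fun p i j => (hV.sm p i j).mono inter_subset_left
      idem := fun x hx => hV.idem x hx.1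
      orth := fun x hx => hV.orth x hx.1
      top := fun x hx => hV.top x hx.1
      sum := fun x hx => hV.sum x hx.1
      herm := hV.herm
      adj := fun x hx => hV.adj x hx.1
      pos := fun x hx => hV.pos x hx.1
      hor := fun x hx => hV.hor x hx.1 }
  have htop : ∀ c ∈ U, lM V.P V.E z ((ch z).symm c) *ᵥ (lV V.P om z ((ch z).symm c)) =
      (w : ℂ) • lV V.P om z ((ch z).symm c) := by
    intro c _
    unfold lM lV
    rw [← Matrix.mulVec_mulVec, cm_inv_mulVec, ← Matrix.mulVec_mulVec, h.eig, mulVec_smul]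
  have hHS : ∀ c ∈ U, IsHS w (V.S z) (lM V.P V.E z ((ch z).symm c)) := fun c hc =>
    (V.hs _).lM (hS c hc)
  have hb : VCalc_442.Bot w (U ∩ W) P' (lV V.P om z ∘ (ch z).symm) := by
    refine ⟨fun c hc => (hWs hc.2).differentiableAt.differentiableWithinAt, fun c hc => ?_,
      fun c hc => ?_⟩
    · exact ((AnalyticAt.contDiffAt (hWs hc.2)).restrict_scalars ℝ).contDiffWithinAt
    · show P' w c *ᵥ (lV V.P om z ((ch z).symm c)) = lV V.P om z ((ch z).symm c)
      rw [hP']
      show hq w (lM V.P V.E z ((ch z).symm c)) w *ᵥ _ = _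
      rw [hq_of_le le_rfl, (hHS c hc.1).hpr_mulVec_of_eig le_rfl (htop c hc.1) le_rfl, if_pos rfl]
  refine ⟨U ∩ W, P', hU.inter hW, ⟨hzU, hzW⟩, inter_subset_left.trans hUt, hVW, hb, ?_, ?_, ?_⟩
  · intro c hc
    have h1 := hodge_lM (w := w) (E := V.E) (hS c hc.1) om
    unfold hn qf
    rw [← h1, (hHS c hc.1).hodge_mulVec_of_eig le_rfl (htop c hc.1), dotProduct_smul]
    rfl
  · exact fun c hc i j => hgg c hc.1 i j
  · intro c hc v
    set σ := lV V.P om z ∘ (ch z).symm with hσ
    have hcU := hc.1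
    have hct := hUt hcU
    set x' := (ch z).symm c with hx'
    have hcpx' : cp x' = c := (isCh_ch z).cp_symm hct
    have h1 : ∀ j, dW σ (Pi.single j 1) c = cm (V.P z x') *ᵥ
        fun i => dz j (fun y => lV V.P om x' y i) x' := by
      intro j
      have h2 : σ =ᶠ[𝓝 c] fun d => cm (V.P z x') *ᵥ (lV V.P om x' ((ch z).symm d)) := by
        filter_upwards [hU.mem_nhds hcU] with d hd
        show cm (V.P z ((ch z).symm d)) *ᵥ om ((ch z).symm d) = _
        unfold lV
        rw [mulVec_mulVec, ← Ipc735.cm_mul, hP c hcU d hd]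
      have hdl : ∀ i, DifferentiableAt ℝ (fun d => lV V.P om x' ((ch z).symm d) i) c := by
        intro i
        have h3 : AnalyticAt ℂ (lV V.P om x' ∘ (ch z).symm) (cp x') :=
          (h.hol x').congr_chart (isCh_ch z) ((ch z).map_target hct)
        rw [hcpx'] at h3
        have h4 := (analyticAt_pi_iff.1 h3) i
        exact h4.differentiableAt.restrictScalars ℝ
      rw [VCalc_442.dW_congr h2]
      funext i
      have h6 : DifferentiableAt ℝ (fun d => cm (V.P z x') *ᵥ
          (lV V.P om x' ((ch z).symm d))) c := by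
        rw [differentiableAt_pi]
        intro i
        have : (fun d => (cm (V.P z x') *ᵥ (lV V.P om x' ((ch z).symm d))) i) =
            fun d => ∑ k, cm (V.P z x') i k * lV V.P om x' ((ch z).symm d) k := rfl
        rw [this]
        exact DifferentiableAt.fun_sum fun k _ => (hdl k).const_mul _
      have h5 : ∀ v : Fin m → ℂ, fderiv ℝ (fun d => cm (V.P z x') *ᵥ
          (lV V.P om x' ((ch z).symm d))) c v i = ∑ k, cm (V.P z x') i k *
          fderiv ℝ (fun d => lV V.P om x' ((ch z).symm d) k) c v := by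
        intro v
        have h7 : fderiv ℝ (fun d => cm (V.P z x') *ᵥ (lV V.P om x' ((ch z).symm d))) c v i =
            fderiv ℝ (fun d => (cm (V.P z x') *ᵥ (lV V.P om x' ((ch z).symm d))) i) c v := by
          rw [fderiv_pi (fun i => (differentiableAt_pi.1 h6) i)]
          rfl
        rw [h7]
        have h8 : (fun d => (cm (V.P z x') *ᵥ (lV V.P om x' ((ch z).symm d))) i) =
              fun d => ∑ k, cm (V.P z x') i k * lV V.P om x' ((ch z).symm d) k := rfl
        rw [h8, fderiv_fun_sum fun k _ => (hdl k).const_mul _, _root_.sum_apply]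
        refine Finset.sum_congr rfl fun k _ => ?_
        rw [fderiv_const_mul (hdl k)]
        rfl
      have h9 : dW (fun d => cm (V.P z x') *ᵥ (lV V.P om x' ((ch z).symm d)))
          (Pi.single j 1) c i = (1 / 2 : ℂ) * (∑ k, cm (V.P z x') i k *
          fderiv ℝ (fun d => lV V.P om x' ((ch z).symm d) k) c (Pi.single j 1) -
          Complex.I * ∑ k, cm (V.P z x') i k *
          fderiv ℝ (fun d => lV V.P om x' ((ch z).symm d) k) c (Complex.I • Pi.single j 1)) := by
        rw [← h5, ← h5]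
        rfl
      rw [h9]
      show _ = ∑ k, cm (V.P z x') i k * dz j (fun y => lV V.P om x' y k) x'
      rw [Finset.mul_sum, ← Finset.sum_sub_distrib, Finset.mul_sum]
      refine Finset.sum_congr rfl fun k _ => ?_
      rw [dz_eq_dW j _ (isCh_ch z) ((ch z).map_target hct), hcpx']
      show _ = cm (V.P z x') i k * ((1 / 2 : ℂ) * (fderiv ℝ
        (fun d => lV V.P om x' ((ch z).symm d) k) c (Pi.single j 1) -
        Complex.I * fderiv ℝ (fun d => lV V.P om x' ((ch z).symm d) k) c
          (Complex.I • Pi.single j 1)))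
      ring
    obtain ⟨cj, hcj⟩ : ∃ cj : Fin m → ℂ, ∀ j, (fun i => dz j (fun y => lV V.P om x' y i) x') =
        dM V.P V.E j x' *ᵥ om x' + cj j • om x' := ⟨fun j => (h.par x' j).choose, fun j =>
          (h.par x' j).choose_spec⟩
    have h10 : ∀ j, dW σ (Pi.single j 1) c = dW (grOp w P') (Pi.single j 1) c *ᵥ σ c +
        cj j • σ c := by
      intro j
      rw [h1 j, hcj j, ← hV.th_eq hcU, hth c hcU j, mulVec_add, mulVec_smul]
      congr 1
      show cm (V.P z x') *ᵥ (dM V.P V.E j x' *ᵥ om x') =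
        (cm (V.P z x') * dM V.P V.E j x' * cm (V.P z x')⁻¹) *ᵥ (cm (V.P z x') *ᵥ om x')
      rw [← Matrix.mulVec_mulVec, cm_inv_mulVec, Matrix.mulVec_mulVec]
    refine ⟨∑ j, v j * cj j, ?_⟩
    have h11 : dW σ v c = dW (grOp w P') v c *ᵥ σ c + (∑ j, v j * cj j) • σ c := by
      have h12 : dW (grOp w P') v c = ∑ j, v j • dW (grOp w P') (Pi.single j 1) c := by
        conv_lhs => rw [pi_eq_sum_univ' v]
        rw [VCalc_442.dW_sum_dir]
      rw [h12]
      conv_lhs => rw [pi_eq_sum_univ' v]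
      rw [VCalc_442.dW_sum_dir]
      have h2 : ∑ j, v j • dW σ (Pi.single j 1) c =
          ∑ j, (v j • (dW (grOp w P') (Pi.single j 1) c *ᵥ σ c) + (v j * cj j) • σ c) := by
        refine Finset.sum_congr rfl fun j _ => ?_
        rw [h10 j, smul_add, smul_smul]
      rw [h2, Finset.sum_add_distrib, ← Finset.sum_smul, Matrix.sum_mulVec]
      congr 1
      exact Finset.sum_congr rfl fun j _ => by rw [Matrix.smul_mulVec]
    rw [h11, mulVec_add, mulVec_smul, hVW.bot_orth hb hc v, zero_add, hb.mem c hc]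

/-- **the good point**: `ν` is at most the rank of `Levi ψ` at `f x` -/
theorem good {u : X → ℂ} {M0 : ℕ} {φ ψ : T → ℝ} (h : WD V om u M0 f ι φ ψ) (x : X) {a : ℝ}
    (ha : 0 < a) {ν : ℕ} (hν : ∀ K : Submodule ℂ (Fin r → ℂ),
      (∀ v ∈ K, Levi ψ (f x) v = 0) → ν + Module.finrank ℂ K ≤ r) :
    Nonempty (CntDefs_857.Good φ (fun τ => a * ψ τ) ν) := by
  obtain ⟨U, P', hU, hzU, hUt, hV, hbot, hbn, hgg, hl⟩ := exists_loc h.cyl x
  have hA : ∀ b, HasFDerivAt (upd ι (cp x)) (inc ι) b := fun b => hasFDerivAt_upd (cp x) b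
  have hAs : ContDiff ℝ ∞ (upd ι (cp x)) := contDiff_upd (cp x)
  have hV' := vhs_comp hV hA hAs
  have hb' := bot_comp hbot hA hAs
  set σ := lV V.P om x ∘ (ch x).symm with hσ
  have hbase : upd ι (cp x) (cp (f x)) = cp x := h.prj.upd_base x
  have hmem : cp (f x) ∈ upd ι (cp x) ⁻¹' U := by
    rw [mem_preimage, hbase]
    exact hzU
  have hσx : σ (cp x) = om x := by
    show lV V.P om x ((ch x).symm (cp x)) = om x
    rw [symm_cp, lV_self (V.ndc.on univ) om (mem_univ x)]
  -- the Gram matrix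
  have hgm : ∀ b ∈ upd ι (cp x) ⁻¹' U, gm w (fun p b => P' p (upd ι (cp x) b))
      (GoodLoc_442.fr r) b = Matrix.of fun i j => gV V (ι i) (ι j)
        ((ch x).symm (upd ι (cp x) b)) := by
    intro b hb
    ext i j
    show gg w (fun p b => P' p (upd ι (cp x) b)) (Pi.single i 1) (Pi.single j 1) b =
      gV V (ι i) (ι j) ((ch x).symm (upd ι (cp x) b))
    rw [gg_comp hV hb (hA b), inc_single h.prj.inj, inc_single h.prj.inj, hgg _ hb]
  have hpd : (gm w (fun p b => P' p (upd ι (cp x) b)) (GoodLoc_442.fr r) (cp (f x))).PosDef := by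
    rw [hgm _ hmem, hbase, symm_cp]
    exact gV_pd V ι (h.pos x)
  have himm : ∀ v, th w (fun p b => P' p (upd ι (cp x) b)) v (cp (f x)) = 0 → v = 0 := by
    intro v hv
    have h1 := GoodLoc_442.gden_eq hV' hmem v
    have h2 : gden w (fun p b => P' p (upd ι (cp x) b)) v (cp (f x)) = 0 := by
      unfold VCalc_442.gden VCalc_442.gg
      rw [hv]
      simp
    rw [h2] at h1
    by_contra hne
    have h3 : star v ≠ 0 := fun h0 => hne (by simpa using congrArg star h0)
    have h4 : 0 < (sf (gm w (fun p b => P' p (upd ι (cp x) b)) (GoodLoc_442.fr r)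
      (cp (f x))) (star v) (star v)).re := VCalc_442.sf_pos hpd h3
    rw [← h1] at h4
    exact lt_irrefl _ h4
  have hlsec : ∀ᶠ b in 𝓝 (cp (f x)), b ∈ (ch (f x)).target ∧
      f (lsec ι x ((ch (f x)).symm b)) = (ch (f x)).symm b := by
    have h1 : cp (f x) ∈ (ch (f x)).target := (isCh_ch (f x)).cp_mem (mem_ch (f x))
    filter_upwards [(ch (f x)).open_target.mem_nhds h1,
      (tendsto_symm (f x)).eventually (h.prj.f_lsec x)] with b hb hb2
    exact ⟨hb, hb2⟩
  have hls : ∀ b ∈ (ch (f x)).target, lsec ι x ((ch (f x)).symm b) =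
      (ch x).symm (upd ι (cp x) b) := by
    intro b hb
    unfold lsec
    rw [(isCh_ch (f x)).cp_symm hb]
  have hUb : ∀ᶠ b in 𝓝 (cp (f x)), b ∈ upd ι (cp x) ⁻¹' U := hV'.op.mem_nhds hmem
  refine GoodLoc_442.exists_good (isCh_ch (f x)) (mem_ch (f x)) hV' hmem hb' ?_ ?_ himm ha
    (g := fun b => u ((ch x).symm (upd ι (cp x) b))) ?_ ?_ (r := -(a / M0)) ?_ ?_ ?_
  · show σ (upd ι (cp x) (cp (f x))) ≠ 0
    rw [hbase, hσx]
    exact h.cyl.ne x
  · intro b hb v
    obtain ⟨l, hl'⟩ := hl _ hb (inc ι v)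
    refine ⟨l, ?_⟩
    have h1 : DifferentiableAt ℝ σ (upd ι (cp x) b) := hV.bot_d hbot hb
    rw [show dW (fun b => σ (upd ι (cp x) b)) v b = dW σ (inc ι v) (upd ι (cp x) b) from
      VCalc_442.dW_comp h1 (hA b) v]
    exact hl'
  · have h1 : AnalyticAt ℂ (u ∘ (ch x).symm) (upd ι (cp x) (cp (f x))) := by
      rw [hbase]
      exact h.uhol x
    exact AnalyticAt.fun_comp (g := u ∘ (ch x).symm) h1 (upd_analytic (cp x) _)
  · show u ((ch x).symm (upd ι (cp x) (cp (f x)))) ≠ 0
    exact h.une _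
  · filter_upwards [hlsec, hUb] with b hb hbU
    rw [← hb.2, h.hφ, hls b hb.1, hgm b hbU]
    rfl
  · filter_upwards [hlsec, hUb] with b hb hbU
    show a * ψ ((ch (f x)).symm b) = _
    rw [← hb.2, h.hψ, hls b hb.1]
    have h1 : bn w (V.S x) (fun b => σ (upd ι (cp x) b)) b =
        hn V ((ch x).symm (upd ι (cp x) b)) (om ((ch x).symm (upd ι (cp x) b))) :=
      (hbn _ hbU).symm
    rw [h1]
    unfold psi
    ring
  · intro K hK
    refine hν K fun v hv => ?_
    have h1 := hK v hv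
    have h2 : (fun τ => a * ψ τ) = fun τ => a * ψ τ + 0 * ψ τ := by
      funext τ
      ring
    rw [h2, Levi_comb (WD.psi_Sm h (f x)) (WD.psi_Sm h (f x))] at h1
    have h3 : a * Levi ψ (f x) v = 0 := by linarith
    exact (mul_eq_zero.1 h3).resolve_left ha.ne'

end loc

end Crest.Agent.R276.DescH_327
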