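import Mathlib
import Crest.Agent.R276.DescH_327

/-!
# R276, leaf DESC (helper327), part 9: existence of `WD` from a slice, restriction of `WD`
-/

set_option autoImplicit false
set_option linter.unusedSectionVars false

noncomputable section

open Set Filter Topology Matrix
open scoped ContDiff ComplexOrder ComplexConjugate
open Crest.Agent.R271.Ho51 Crest.Agent.R276.Ipc735 Crest.Agent.R276.Desc_327
open Crest.Agent.R276.DescB_327 Crest.Agent.R276.DescC_327 Crest.Agent.R276.DescD_327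
open Crest.Agent.R276.DescE_327 (Slice uu uu_hol uu_ne log_uu)
open Crest.Agent.R276.VLevi_327 Crest.Agent.R276.VPull_327
open Crest.Agent.R276.DescF_327 Crest.Agent.R276.LftDefs_327 Crest.Agent.R276.DescG_327
open Crest.Agent.R276.DescH_327

namespace Crest.Agent.R276.DescW_327

variable {m r N w : ℕ} {X T : Type*} [TopologicalSpace X] [RDom m X] [TopologicalSpace T]
  [RDom r T] {ι : Fin r → Fin m} {f : X → T} {V : VHS m X N w} {om : X → Fin N → ℂ}

/-- **existence of the descended weights** -/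
theorem exists_wd [T2Space X] (hL : CYL V om) (hfl : Fl V ι) (hf : Prj ι f)
    (hc : ∀ x, IsPreconnected (f ⁻¹' {f x})) (hs : Function.Surjective f)
    (hpos : ∀ x, 0 < gdet V ι x) {c : Fin m → ℂ} {d : ℕ} {S : T → Finset X}
    (hS : Slice ι f c d S) (hd : 0 < d) :
    ∃ (M0 : ℕ) (u : X → ℂ) (φ ψ : T → ℝ), WD V om u M0 f ι φ ψ ∧
      ∀ τ, ψ τ = 1 / (d : ℝ) * ∑ s ∈ S τ, psi V om s := by
  obtain ⟨k, hk0, hk⟩ := exists_exp N
  have hk' : Dat.UE N k := hk
  set D := dat hL hfl hf hc with hD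
  have hψ : ∀ x, SmAt (DescE_327.psi (fun x => hodge w (V.S x) (V.E x)) om) x := fun x =>
    hL.psi_smooth x
  refine ⟨k * d, uu D k S, dsc f hs fun x => Real.log (gdet V ι x),
    DescE_327.psiT (fun x => hodge w (V.S x) (V.E x)) om S d, ?_, fun τ => rfl⟩
  exact
    { cyl := hL
      prj := hf
      fl := hfl
      conn := hc
      surj := hs
      pos := hpos
      hM := Nat.mul_pos hk0 hd
      uhol := fun x => uu_hol D hk' hf hL.hol hS x
      une := fun x => uu_ne D hk' hS x
      hφ := fun x => dsc_apply hs (G := fun x => Real.log (gdet V ι x)) (fun a b hab => by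
        show Real.log (gdet V ι a) = Real.log (gdet V ι b)
        rw [gdet_fib hfl hf hc hab]) x
      hψ := fun x => by
        have h1 := log_uu D hk' hS hd x
        rw [h1]
        have h2 : DescE_327.psi (fun x => hodge w (V.S x) (V.E x)) om x = psi V om x := rfl
        rw [h2]
        have h3 : (k : ℝ) ≠ 0 := by exact_mod_cast hk0.ne'
        have h4 : (d : ℝ) ≠ 0 := by exact_mod_cast hd.ne'
        push_cast
        field_simp
        ring }

/-! ### pull back of the line -/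

section pull

variable {m' : ℕ} {X' : Type*} [TopologicalSpace X'] [RDom m' X']

/-- pull back of a parallel line -/
theorem CYL.pull (hL : CYL V om) {ρ : X' → X} (hρ : HMap ρ) :
    CYL (VPull_327.pull V hρ) (fun x => om (ρ x)) where
  hol := fun z => holAt_pull V hρ (hL.hol (ρ z))
  eig := fun z => hL.eig (ρ z)
  ne := fun z => hL.ne (ρ z)
  par := by
    intro z j
    obtain ⟨cj, hcj⟩ : ∃ cj : Fin m → ℂ, ∀ j, (fun i => dz j (fun y => lV V.P om (ρ z) y i) (ρ z)) =
        dM V.P V.E j (ρ z) *ᵥ om (ρ z) + cj j • om (ρ z) := ⟨fun j => (hL.par (ρ z) j).choose,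
          fun j => (hL.par (ρ z) j).choose_spec⟩
    refine ⟨∑ l, VPull_327.J ρ z j l * cj l, ?_⟩
    have hd : ∀ i, DifferentiableAt ℝ ((fun y => lV V.P om (ρ z) y i) ∘ (ch (ρ z)).symm)
        (cp (ρ z)) := by
      intro i
      have h3 : AnalyticAt ℂ (lV V.P om (ρ z) ∘ (ch (ρ z)).symm) (cp (ρ z)) := hL.hol (ρ z)
      exact ((analyticAt_pi_iff.1 h3) i).differentiableAt.restrictScalars ℝ
    have h1 : (fun i => dz j (fun y => lV (VPull_327.pull V hρ).P (fun x => om (ρ x)) z y i) z) =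
        fun i => ∑ l, VPull_327.J ρ z j l * dz l (fun y => lV V.P om (ρ z) y i) (ρ z) := by
      funext i
      exact (hρ z).dz_comp (hd i) j
    rw [h1, dM_pull_E]
    funext i
    have h2 : ∀ l, dz l (fun y => lV V.P om (ρ z) y i) (ρ z) =
        (dM V.P V.E l (ρ z) *ᵥ om (ρ z)) i + cj l * om (ρ z) i := fun l => congrFun (hcj l) i
    simp only [h2]
    rw [Matrix.sum_mulVec, Pi.add_apply, Finset.sum_apply, Pi.smul_apply, smul_eq_mul,
      Finset.sum_mul, ← Finset.sum_add_distrib]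
    refine Finset.sum_congr rfl fun l _ => ?_
    rw [Matrix.smul_mulVec, Pi.smul_apply, smul_eq_mul]
    ring

theorem hn_pull {ρ : X' → X} (hρ : HMap ρ) (z : X') (v : Fin N → ℂ) :
    hn (VPull_327.pull V hρ) z v = hn V (ρ z) v := rfl

theorem psi_pull {ρ : X' → X} (hρ : HMap ρ) (z : X') :
    psi (VPull_327.pull V hρ) (fun x => om (ρ x)) z = psi V om (ρ z) := rfl

end pull

/-! ### maps which preserve the coordinates -/

section same

variable {X' T' : Type*} [TopologicalSpace X'] [RDom m X'] [TopologicalSpace T'] [RDom r T']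

theorem hmap_of_cp_eq {ρ : X' → X} (hc : Continuous ρ) (h : ∀ x, cp (ρ x) = (cp x : Fin m → ℂ)) :
    HMap ρ := HMap.of_cp hc (g := fun z => z) (fun _ => analyticAt_id) h

theorem J_of_cp_eq {ρ : X' → X} (h : ∀ x, cp (ρ x) = (cp x : Fin m → ℂ)) (y : X') (i j : Fin m) :
    VPull_327.J ρ y i j = if i = j then 1 else 0 := by
  have h1 : jac ρ y = ContinuousLinearMap.id ℂ (Fin m → ℂ) := by
    rw [jac_of_cp (g := fun z => z) (Eventually.of_forall fun y => h y)]
    exact fderiv_fun_id
  unfold VPull_327.J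
  rw [h1, ContinuousLinearMap.id_apply, Pi.single_apply]
  simp only [eq_comm]

theorem dM_same {ρ : X' → X} (hρ : HMap ρ) (h : ∀ x, cp (ρ x) = (cp x : Fin m → ℂ)) (y : X')
    (j : Fin m) : dM (VPull_327.pull V hρ).P (VPull_327.pull V hρ).E j y =
      dM V.P V.E j (ρ y) := by
  rw [dM_pull_E]
  simp only [J_of_cp_eq h, ite_smul, one_smul, zero_smul, Finset.sum_ite_eq, Finset.mem_univ,
    if_true]

theorem dMb_same {ρ : X' → X} (hρ : HMap ρ) (h : ∀ x, cp (ρ x) = (cp x : Fin m → ℂ)) (y : X')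
    (j : Fin m) : dMb (VPull_327.pull V hρ).P (VPull_327.pull V hρ).E j y =
      dMb V.P V.E j (ρ y) := by
  ext i k
  have h1 := (hρ y).db_comp (SmAt.differentiableAt (V.smE (ρ y) i k)) j
  have h2 : dMb (VPull_327.pull V hρ).P (VPull_327.pull V hρ).E j y i k =
      db j (fun y' => lM V.P V.E (ρ y) (ρ y') i k) y := rfl
  rw [h2, h1]
  simp only [J_of_cp_eq h]
  have h3 : ∀ l, conj (if j = l then (1 : ℂ) else 0) *
      db l (fun y' => lM V.P V.E (ρ y) y' i k) (ρ y) =
      if j = l then db l (fun y' => lM V.P V.E (ρ y) y' i k) (ρ y) else 0 := by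
    intro l
    split_ifs <;> simp
  rw [Finset.sum_congr rfl fun l _ => h3 l, Finset.sum_ite_eq, if_pos (Finset.mem_univ j)]
  rfl

theorem gV_same {ρ : X' → X} (hρ : HMap ρ) (h : ∀ x, cp (ρ x) = (cp x : Fin m → ℂ)) (y : X')
    (i j : Fin m) : gV (VPull_327.pull V hρ) i j y = gV V i j (ρ y) := by
  unfold gV
  rw [dM_same hρ h, dMb_same hρ h]

theorem gdet_same {ρ : X' → X} (hρ : HMap ρ) (h : ∀ x, cp (ρ x) = (cp x : Fin m → ℂ)) (y : X') :
    gdet (VPull_327.pull V hρ) ι y = gdet V ι (ρ y) := by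
  have h2 : gdet (VPull_327.pull V hρ) ι y =
    (Matrix.of fun i j : Fin r => gV (VPull_327.pull V hρ) (ι i) (ι j) y).det.re := rfl
  have h3 : gdet V ι (ρ y) =
    (Matrix.of fun i j : Fin r => gV V (ι i) (ι j) (ρ y)).det.re := rfl
  have h1 : (Matrix.of fun i j : Fin r => gV (VPull_327.pull V hρ) (ι i) (ι j) y) =
      Matrix.of fun i j : Fin r => gV V (ι i) (ι j) (ρ y) := by
    refine congrArg Matrix.of ?_
    funext i j
    exact gV_same hρ h y _ _
  rw [h2, h3, h1]

theorem fl_same (hfl : Fl V ι) {ρ : X' → X} (hρ : HMap ρ)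
    (h : ∀ x, cp (ρ x) = (cp x : Fin m → ℂ)) : Fl (VPull_327.pull V hρ) ι := fun x j hj => by
  rw [dM_same hρ h, hfl _ j hj]

/-- **restriction of `WD`** along maps which preserve the coordinates -/
theorem WD.restrict {u : X → ℂ} {M0 : ℕ} {φ ψ : T → ℝ} (h : WD V om u M0 f ι φ ψ) {rX : X' → X}
    (hX : HMap rX) (hXc : ∀ x, cp (rX x) = (cp x : Fin m → ℂ)) {rT : T' → T} {f' : X' → T'}
    (hf' : Prj ι f') (hcomm : ∀ x, rT (f' x) = f (rX x)) (hs' : Function.Surjective f')
    (hc' : ∀ x, IsPreconnected (f' ⁻¹' {f' x})) :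
    WD (VPull_327.pull V hX) (fun x => om (rX x)) (fun x => u (rX x)) M0 f' ι
      (fun τ => φ (rT τ)) (fun τ => ψ (rT τ)) where
  cyl := CYL.pull h.cyl hX
  prj := hf'
  fl := fl_same h.fl hX hXc
  conn := hc'
  surj := hs'
  pos := fun x => by
    rw [gdet_same hX hXc]
    exact h.pos _
  hM := h.hM
  uhol := fun x => (hX x).holAt (h.uhol (rX x))
  une := fun x => h.une _
  hφ := fun x => by
    show φ (rT (f' x)) = _
    rw [hcomm, h.hφ, gdet_same hX hXc]
  hψ := fun x => by
    show ψ (rT (f' x)) = _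
    rw [hcomm, h.hψ, psi_pull]

end same

end Crest.Agent.R276.DescW_327
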