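import Mathlib
import Crest.Agent.R276.Mod3_987
import Crest.Agent.R276.AB2_590
import Crest.Agent.R271.G3b_792

/-!
Row 276 (S0419), MOD (helper987), part 4: exhaustion, measure, canonical description of `B`.
-/

set_option autoImplicit false

open Polynomial Topology Filter MeasureTheory
open scoped ENNReal

noncomputable section

namespace Crest.Agent.R276.Mod1_987

open Crest.Agent.R271.Defs710 Crest.Agent.R271.Alg255 Crest.Agent.R271.Rd692
open Crest.Agent.R271.AlgB956 Crest.Agent.R271.Ho51 Crest.Agent.R271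
open Crest.Agent.R276.AB2_590

/-! ### integral elements -/

section integral

variable {R K : Type} [CommRing R] [IsDomain R] [IsIntegrallyClosed R] [CharZero R] [Field K]
  [Algebra R K] [FaithfulSMul R K]

/-- if the discriminant of `θ` divides a power of `g`, integral elements are in `R[1/g][θ]` -/
theorem int_mem {θ : K} {μ : R[X]} {g : R} (hm : μ.Monic) (h0 : aeval θ μ = 0)
    (hb : ∃ a b : R[X], a * μ + b * derivative μ = C g)
    (hmin : ∀ q : R[X], aeval θ q = 0 → μ ∣ q)
    (hgen : ∀ a : K, ∃ r : R, r ≠ 0 ∧ ∃ q : R[X], algebraMap R K r * a = aeval θ q)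
    {x : K} (hx : IsIntegral R x) :
    ∃ (k : ℕ) (q : R[X]), algebraMap R K (g ^ k) * x = aeval θ q := by
  let F := FractionRing R
  let _ : Algebra F K := FractionRing.liftAlgebra R K
  have : IsScalarTower R F K := FractionRing.isScalarTower_liftAlgebra R K
  have hinj : Function.Injective (algebraMap R K) := FaithfulSMul.algebraMap_injective R K
  have hθ : IsIntegral R θ := ⟨μ, hm, h0⟩
  have hθF : IsIntegral F θ := hθ.tower_top
  have hμ : minpoly R θ = μ := by
    apply eq_of_monic_of_associated (minpoly.monic hθ) hm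
    exact associated_of_dvd_dvd (minpoly.isIntegrallyClosed_dvd hθ h0)
      (hmin _ (minpoly.aeval R θ))
  have hμF : minpoly F θ = μ.map (algebraMap R F) := by
    rw [← hμ]
    exact minpoly.isIntegrallyClosed_eq_field_fractions F K hθ
  have htop : Algebra.adjoin F {θ} = ⊤ := by
    rw [eq_top_iff]
    rintro a -
    obtain ⟨r, hr, q, hq⟩ := hgen a
    have hr' : algebraMap R K r ≠ 0 := by
      rw [Ne, map_eq_zero_iff _ hinj]; exact hr
    have h1 : a = algebraMap F K ((algebraMap R F r)⁻¹) * aeval θ (q.map (algebraMap R F)) := by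
      rw [aeval_map_algebraMap, ← hq, map_inv₀, ← IsScalarTower.algebraMap_apply,
        inv_mul_cancel_left₀ hr']
    rw [h1]
    exact mul_mem (Subalgebra.algebraMap_mem _ _) (by
      rw [Algebra.adjoin_singleton_eq_range_aeval]
      exact ⟨_, rfl⟩)
  let pb : PowerBasis F K := PowerBasis.ofAdjoinEqTop hθF htop
  have hgenpb : pb.gen = θ := PowerBasis.ofAdjoinEqTop_gen hθF htop
  have : FiniteDimensional F K := pb.finite
  have : CharZero F := inferInstance
  have : Algebra.IsSeparable F K := inferInstance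
  have h1 := Algebra.discr_mul_isIntegral_mem_adjoin F (B := pb) (by rw [hgenpb]; exact hθ) hx
  rw [hgenpb, Algebra.adjoin_singleton_eq_range_aeval] at h1
  obtain ⟨q, hq⟩ := h1
  have hq' : aeval θ q = Algebra.discr F pb.basis • x := hq
  obtain ⟨a, b, hab⟩ := hb
  have h2 : aeval θ b * aeval θ (derivative μ) = algebraMap R K g := by
    have := congrArg (aeval θ) hab
    rw [map_add, map_mul, map_mul, h0, mul_zero, zero_add, aeval_C] at this
    exact this
  have h3 := Algebra.discr_powerBasis_eq_norm F pb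
  rw [hgenpb, hμF, derivative_map, aeval_map_algebraMap] at h3
  have h4 : IsIntegral R (aeval θ b) := by
    have : aeval θ b ∈ Algebra.adjoin R {θ} := by
      rw [Algebra.adjoin_singleton_eq_range_aeval]; exact ⟨b, rfl⟩
    exact adjoin_le_integralClosure hθ this
  obtain ⟨c, hc⟩ := IsIntegrallyClosed.isIntegral_iff.1 (Algebra.isIntegral_norm F h4)
  set d := Module.finrank F K with hd
  have h5 : algebraMap R F c * Algebra.norm F (aeval θ (derivative μ)) =
      algebraMap R F (g ^ d) := by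
    rw [hc, ← map_mul, h2, IsScalarTower.algebraMap_apply R F K, Algebra.norm_algebraMap, map_pow]
  set ε : R := (-1) ^ (d * (d - 1) / 2) with hε
  have hεε : ε * ε = 1 := by
    rw [hε, ← mul_pow]; simp
  have h6 : algebraMap R F (g ^ d) = algebraMap R F (ε * c) * Algebra.discr F pb.basis := by
    have h7 : Algebra.norm F (aeval θ (derivative μ)) =
        algebraMap R F ε * Algebra.discr F pb.basis := by
      rw [h3, ← mul_assoc, hε, map_pow, map_neg, map_one, ← mul_pow, neg_mul_neg, one_mul,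
        one_pow, one_mul]
    rw [← h5, h7, map_mul]
    ring
  refine ⟨d, C (ε * c) * q, ?_⟩
  rw [map_mul, aeval_C, hq', Algebra.smul_def, ← mul_assoc, IsScalarTower.algebraMap_apply R F K,
    IsScalarTower.algebraMap_apply R F K, ← map_mul, ← h6]

end integral

namespace Mdl

variable {K : Type} [Field K] [Algebra ℂ K] {n : ℕ} (M : Mdl K n)

lemma hol792_ev (b : M.B) : W792.Hol (M := (M.B →ₐ[ℂ] ℂ)) (fun y => y b) :=
  AB2_590.hol792_ev M.hch b

lemma hol51_ev (b : M.B) : Ho51.Hol (M := (M.B →ₐ[ℂ] ℂ)) (fun y => y b) :=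
  AB2_590.hol51_ev M.hch b

/-- a smooth strictly plurisubharmonic exhaustion -/
theorem exists_rho : ∃ ρ : M.Pts → ℝ, Sm ρ ∧ (∀ c : ℝ, IsCompact {x | ρ x ≤ c}) ∧
    (∀ x w, nsq w ≤ Levi ρ x w) := by
  obtain ⟨N, a, ha0⟩ := exists_gens M.ft
  have ha := isCompact_sublevel a ha0
  set f : Fin N ⊕ Fin n → M.Pts → ℂ := Sum.elim (fun i y => y (a i)) (fun i y => y (M.z i))
    with hf
  have hH : ∀ i, W792.Hol (f i) := by
    rintro (i | i)
    · exact M.hol792_ev (a i)
    · exact M.hol792_ev (M.z i)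
  have hs : Sm (W792.nS f) := W792.sm_nS fun i => (hH i).sm
  have hsplit : ∀ y, W792.nS f y = (∑ i, ‖y (a i)‖ ^ 2) + ∑ i, ‖y (M.z i)‖ ^ 2 := by
    intro y
    unfold W792.nS
    rw [Fintype.sum_sum_type]
    rfl
  refine ⟨W792.nS f, hs, ?_, ?_⟩
  · intro c
    refine (ha c).of_isClosed_subset (isClosed_le hs.continuous continuous_const) ?_
    intro y hy
    have h1 : W792.nS f y ≤ c := hy
    rw [hsplit] at h1
    have h2 : 0 ≤ ∑ i, ‖y (M.z i)‖ ^ 2 := Finset.sum_nonneg fun _ _ => by positivity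
    have h3 : ∑ i, ‖y (a i)‖ ^ 2 ≤ c := by linarith
    exact h3
  · intro y w
    rw [W792.Levi_eq_lev hs, W792.lev_nS hH]
    unfold W792.nT nsq
    rw [Fintype.sum_sum_type]
    have h1 : ∀ i : Fin n, D (f (Sum.inr i)) y w = w i := by
      intro i
      exact G792.D_coord (M := M.Pts) i y w
    simp only [h1]
    have h2 : 0 ≤ ∑ i : Fin N, ‖D (f (Sum.inl i)) y w‖ ^ 2 :=
      Finset.sum_nonneg fun _ _ => by positivity
    linarith

/-- the Lebesgue measure of the model -/
theorem exists_leb : ∃ μ : Measure (M.B →ₐ[ℂ] ℂ), IsLeb μ := Ho51.exists_leb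

theorem lintM_eq {μ : Measure (M.B →ₐ[ℂ] ℂ)} (hμ : IsLeb μ) {g : M.Pts → ℝ≥0∞}
    (hg : Measurable g) : lintM M.z g = ∫⁻ y, g y ∂μ :=
  lintM_eq' M.ft M.z M.hch hμ hg

/-- the coordinates as elements of `K` -/
abbrev zK (i : Fin n) : K := (M.z i : K)

/-- the ring map `ℂ[z] → K` -/
abbrev aK : MvPolynomial (Fin n) ℂ →+* K :=
  ((MvPolynomial.aeval M.zK : MvPolynomial (Fin n) ℂ →ₐ[ℂ] K) : MvPolynomial (Fin n) ℂ →+* K)

lemma aK_eq (p : MvPolynomial (Fin n) ℂ) : M.aK p = ((az M.z p : M.B) : K) := (az_val M.z p).symm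

lemma aK_injective : Function.Injective M.aK := by
  intro p q h
  apply M.az_injective
  apply Subtype.ext
  rw [← M.aK_eq, ← M.aK_eq, h]

lemma gen_frac (a : K) : ∃ r : MvPolynomial (Fin n) ℂ, r ≠ 0 ∧
    ∃ q : Polynomial (MvPolynomial (Fin n) ℂ), M.aK r * a = ev2 M.zK M.θ q := by
  obtain ⟨b, c, hc, h⟩ := M.frac a
  obtain ⟨p, hp, c', hc'⟩ := exists_poly_dvd M.het hc
  obtain ⟨k, q, hq⟩ := M.gen (b * c')
  refine ⟨M.h ^ k * p, mul_ne_zero (pow_ne_zero _ M.h_ne) hp, q, ?_⟩
  have h1 := congrArg Subtype.val hq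
  rw [eval₂_az_val] at h1
  have h2 : ((c : K) * c') = M.aK p := by
    rw [M.aK_eq]
    exact congrArg Subtype.val hc'.symm
  have hc0 : (c : K) ≠ 0 := fun h0 => hc (Subtype.ext h0)
  have h3 : M.aK (M.h ^ k * p) * a = ((az M.z (M.h ^ k) * (b * c') : M.B) : K) := by
    rw [map_mul, ← h2, h, M.aK_eq]
    push_cast
    field_simp
  rw [h3]
  exact h1

/-- **canonical description of `B`**: the elements `b` of `K` such that `h^k b` is integral over
`ℂ[z]` for some `k` -/
theorem mem_B_iff (b : K) : b ∈ M.B ↔ ∃ k : ℕ, M.aK.IsIntegralElem (M.aK M.h ^ k * b) := by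
  let _ : Algebra (MvPolynomial (Fin n) ℂ) K := M.aK.toAlgebra
  have hθ : IsIntegral (MvPolynomial (Fin n) ℂ) (M.θ : K) := by
    refine ⟨M.μ, M.monic, ?_⟩
    have h1 := congrArg Subtype.val M.root
    rw [eval₂_az_val] at h1
    exact h1
  constructor
  · intro hb
    obtain ⟨k, q, hq⟩ := M.gen ⟨b, hb⟩
    refine ⟨k, ?_⟩
    have h1 := congrArg Subtype.val hq
    rw [eval₂_az_val] at h1
    have h2 : M.aK M.h ^ k * b = aeval (M.θ : K) q := by
      rw [← map_pow, M.aK_eq]
      exact h1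
    have h3 : IsIntegral (MvPolynomial (Fin n) ℂ) (aeval (M.θ : K) q) := by
      apply adjoin_le_integralClosure hθ
      rw [Algebra.adjoin_singleton_eq_range_aeval]
      exact ⟨q, rfl⟩
    rw [h2]
    exact h3
  · rintro ⟨k, hk⟩
    have hf : FaithfulSMul (MvPolynomial (Fin n) ℂ) K :=
      (faithfulSMul_iff_algebraMap_injective _ _).mpr M.aK_injective
    obtain ⟨l, q, hq⟩ := int_mem (R := MvPolynomial (Fin n) ℂ) (K := K) (θ := (M.θ : K))
      (μ := M.μ) (g := M.h) M.monic
      (by
        have h1 := congrArg Subtype.val M.root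
        rw [eval₂_az_val] at h1
        exact h1) M.bez
      (by
        intro q hq
        apply M.dvd
        apply Subtype.ext
        rw [eval₂_az_val]
        exact hq) M.gen_frac hk
    obtain ⟨u, hu⟩ := M.h_unit
    have h1 : ((az M.z (M.h ^ (l + k)) : M.B) : K) * b =
        ((Polynomial.eval₂ (az M.z) M.θ q : M.B) : K) := by
      rw [eval₂_az_val, ← M.aK_eq, pow_add, map_mul, mul_assoc, map_pow M.aK M.h k]
      exact hq
    have h2 : b = (((u⁻¹ ^ (l + k) : M.Bˣ) : M.B) : K) *
        ((Polynomial.eval₂ (az M.z) M.θ q : M.B) : K) := by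
      rw [← h1, ← mul_assoc, ← MulMemClass.coe_mul]
      have h3 : ((u⁻¹ ^ (l + k) : M.Bˣ) : M.B) * az M.z (M.h ^ (l + k)) = 1 := by
        rw [map_pow, ← hu, ← Units.val_pow_eq_pow_val, ← Units.val_mul, ← mul_pow]
        simp
      rw [h3]
      simp
    rw [h2]
    exact mul_mem (Subtype.property _) (Subtype.property _)

end Mdl

end Crest.Agent.R276.Mod1_987
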