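import Mathlib
import Crest.Agent.R276.Mod5_987
import Crest.Agent.R271.Bd3_741

/-!
Row 276 (S0419), PF-DER (helper676): derivations of a model `M : Mdl K m` (helper987).

* `dB M j : Derivation ℂ M.B M.B`, `dK M j : Derivation ℂ K K` : the partial derivatives with respect to
  the étale coordinates; `dB_z`, `dK_coe`, `dK_z`, uniqueness `derB_ext`, `derK_ext`, `dK_comm`, `dB_comm`;
* `Df M f = ∑ j, f j • dK M j`, `DfB M f = ∑ j, f j • dB M j`; `eq_Df`, `Df_mem`, `Df_mem_loc`, `lie_Df`;
* `D_ev`, `dz_ev`, `db_ev` : `dz j (fun y => y b) y = y (dB M j b)`;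
* `comm_of_span` : a frame `X i` with `X i (u k) = δ_ik` whose span is closed under brackets commutes.
-/

set_option autoImplicit false

open Topology Filter
open scoped TensorProduct

noncomputable section

namespace Crest.Agent.R276.PfDer_676

open Crest.Agent.R271.Defs710 Crest.Agent.R271.Rd692 Crest.Agent.R271.Ho51 Crest.Agent.R271.Bd741
open Crest.Agent.R271
open Crest.Agent.R276.Mod1_987

/-! ### derivations of a fraction field -/

/-- extension of a derivation to the fraction field -/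
theorem exists_der_frac {A K : Type} [CommRing A] [IsDomain A] [Algebra ℂ A] [Field K]
    [Algebra A K] [Algebra ℂ K] [IsScalarTower ℂ A K] [IsFractionRing A K]
    (D : Derivation ℂ A A) :
    ∃ D' : Derivation ℂ K K, ∀ a : A, D' (algebraMap A K a) = algebraMap A K (D a) := by
  have : Algebra.FormallyEtale A K := Algebra.FormallyEtale.of_isLocalization (nonZeroDivisors A)
  let e := KaehlerDifferential.tensorKaehlerEquivOfFormallyEtale ℂ A K
  let D1 : Derivation ℂ A K := (Algebra.linearMap A K).compDer D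
  let l : Ω[A⁄ℂ] →ₗ[A] K := D1.liftKaehlerDifferential
  let L : K ⊗[A] Ω[A⁄ℂ] →ₗ[K] K := LinearMap.liftBaseChange K l
  let M : Ω[K⁄ℂ] →ₗ[K] K := L ∘ₗ e.symm.toLinearMap
  refine ⟨M.compDer (KaehlerDifferential.D ℂ K), fun a => ?_⟩
  change L (e.symm (KaehlerDifferential.D ℂ K (algebraMap A K a))) = _
  rw [KaehlerDifferential.tensorKaehlerEquivOfFormallyEtale_symm_D_algebraMap]
  simp [L, l, D1]

/-! ### frames of derivations -/

section frame

variable {k K : Type*} [CommRing k] [Field K] [Algebra k K] {a : Type*} [Fintype a]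

/-- coefficients of an element of the span of a frame `X i` with `X i (u j) = δ_ij` -/
theorem eq_sum_of_mem_span [DecidableEq a] {X : a → Derivation k K K} {u : a → K}
    (hX : ∀ i j, X i (u j) = if i = j then 1 else 0) {D : Derivation k K K}
    (hD : D ∈ Submodule.span K (Set.range X)) : D = ∑ i, D (u i) • X i := by
  rw [Submodule.mem_span_range_iff_exists_fun] at hD
  obtain ⟨c, rfl⟩ := hD
  apply Finset.sum_congr rfl
  intro i _
  congr 1
  have h1 : (∑ l, c l • X l) (u i) = ∑ l, c l * X l (u i) := by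
    rw [← Derivation.coeFnAddMonoidHom_apply, map_sum, Finset.sum_apply]
    rfl
  rw [h1]
  simp [hX]

theorem mem_span_iff [DecidableEq a] {X : a → Derivation k K K} {u : a → K}
    (hX : ∀ i j, X i (u j) = if i = j then 1 else 0) (D : Derivation k K K) :
    D ∈ Submodule.span K (Set.range X) ↔ D = ∑ i, D (u i) • X i := by
  refine ⟨eq_sum_of_mem_span hX, fun h => ?_⟩
  rw [h]
  exact Submodule.sum_mem _ fun i _ => Submodule.smul_mem _ _ (Submodule.subset_span ⟨i, rfl⟩)

/-- the span of the frame meets `{D (u i) = 0}` in `0` -/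
theorem eq_zero_of_mem_span [DecidableEq a] {X : a → Derivation k K K} {u : a → K}
    (hX : ∀ i j, X i (u j) = if i = j then 1 else 0) {D : Derivation k K K}
    (hD : D ∈ Submodule.span K (Set.range X)) (h0 : ∀ i, D (u i) = 0) : D = 0 := by
  rw [eq_sum_of_mem_span hX hD]
  simp [h0]

/-- **commuting frames** -/
theorem comm_of_span [DecidableEq a] {X : a → Derivation k K K} {u : a → K}
    (hX : ∀ i j, X i (u j) = if i = j then 1 else 0)
    (hbr : ∀ i j, ⁅X i, X j⁆ ∈ Submodule.span K (Set.range X)) (i j : a) : ⁅X i, X j⁆ = 0 := by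
  apply eq_zero_of_mem_span hX (hbr i j)
  intro l
  rw [Derivation.commutator_apply, hX, hX]
  have h1 : ∀ (D : Derivation k K K) (p : Prop) [Decidable p], D (if p then 1 else 0) = 0 := by
    intro D p _
    split_ifs
    · exact D.map_one_eq_zero
    · exact map_zero D
  rw [h1, h1, sub_zero]

theorem comm_apply {X Y : Derivation k K K} (h : ⁅X, Y⁆ = 0) (x : K) : X (Y x) = Y (X x) := by
  have h1 := congrArg (fun D : Derivation k K K => D x) h
  simp only [Derivation.commutator_apply] at h1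
  exact sub_eq_zero.mp h1

end frame

/-! ### derivations of a model -/

variable {K : Type} [Field K] [Algebra ℂ K] {m : ℕ} (M : Mdl K m)

/-- the partial derivative `∂/∂z_j` on `B` -/
def dB (j : Fin m) : Derivation ℂ M.B M.B := (exists_coord_deriv M.z M.het).choose j

lemma dB_z (i j : Fin m) : dB M j (M.z i) = if i = j then 1 else 0 :=
  (exists_coord_deriv M.z M.het).choose_spec i j

/-- the partial derivative `∂/∂z_j` on `K` -/
def dK (j : Fin m) : Derivation ℂ K K := (exists_der_frac (K := K) (dB M j)).choose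

lemma dK_coe (j : Fin m) (b : M.B) : dK M j (b : K) = (dB M j b : K) :=
  (exists_der_frac (K := K) (dB M j)).choose_spec b

lemma dK_mem (j : Fin m) {x : K} (hx : x ∈ M.B) : dK M j x ∈ M.B := by
  have h := dK_coe M j ⟨x, hx⟩
  have h' : dK M j x = (dB M j ⟨x, hx⟩ : K) := h
  rw [h']
  exact Subtype.property _

lemma dK_z (i j : Fin m) : dK M j (M.zK i) = if i = j then 1 else 0 := by
  change dK M j (M.z i : K) = _
  rw [dK_coe, dB_z]
  split_ifs <;> rfl

/-- derivations `B → N` are determined by their values on the coordinates -/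
theorem derB_ext {N : Type*} [AddCommGroup N] [Module M.B N] [Module ℂ N] [IsScalarTower ℂ M.B N]
    {D D' : Derivation ℂ M.B N} (h : ∀ i, D (M.z i) = D' (M.z i)) : D = D' := by
  have h1 : D - D' = 0 := deriv_unique M.z M.het (D - D') (fun i => by
    rw [Derivation.sub_apply, h i, sub_self])
  exact sub_eq_zero.mp h1

/-- derivations of `K` are determined by their values on the coordinates -/
theorem derK_ext {D D' : Derivation ℂ K K} (h : ∀ i, D (M.zK i) = D' (M.zK i)) : D = D' := by
  have h1 : D.compAlgebraMap M.B = D'.compAlgebraMap M.B := derB_ext M h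
  have h2 : ∀ b : M.B, D (b : K) = D' (b : K) := fun b =>
    congrArg (fun d : Derivation ℂ M.B K => d b) h1
  ext x
  obtain ⟨b, c, hc, rfl⟩ := M.frac x
  rw [Derivation.leibniz_div, Derivation.leibniz_div, h2, h2]

/-- the derivation `∑ f_j ∂/∂z_j` of `K` -/
def Df (f : Fin m → K) : Derivation ℂ K K := ∑ j, f j • dK M j

/-- the derivation `∑ f_j ∂/∂z_j` of `B` -/
def DfB (f : Fin m → M.B) : Derivation ℂ M.B M.B := ∑ j, f j • dB M j

lemma Df_apply (f : Fin m → K) (x : K) : Df M f x = ∑ j, f j * dK M j x := by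
  unfold Df
  rw [← Derivation.coeFnAddMonoidHom_apply, map_sum, Finset.sum_apply]
  rfl

lemma DfB_apply (f : Fin m → M.B) (b : M.B) : DfB M f b = ∑ j, f j * dB M j b := by
  unfold DfB
  rw [← Derivation.coeFnAddMonoidHom_apply, map_sum, Finset.sum_apply]
  rfl

@[simp] lemma Df_z (f : Fin m → K) (i : Fin m) : Df M f (M.zK i) = f i := by
  rw [Df_apply]
  simp [dK_z]

@[simp] lemma DfB_z (f : Fin m → M.B) (i : Fin m) : DfB M f (M.z i) = f i := by
  rw [DfB_apply]
  simp [dB_z]

/-- every derivation of `K` is `∑ D(z_j) ∂/∂z_j` -/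
theorem eq_Df (D : Derivation ℂ K K) : D = Df M (fun j => D (M.zK j)) :=
  derK_ext M fun i => (Df_z M (fun j => D (M.zK j)) i).symm

/-- every derivation of `B` is `∑ D(z_j) ∂/∂z_j` -/
theorem eq_DfB (D : Derivation ℂ M.B M.B) : D = DfB M (fun j => D (M.z j)) :=
  derB_ext M fun i => (DfB_z M (fun j => D (M.z j)) i).symm

lemma Df_inj {f g : Fin m → K} : Df M f = Df M g ↔ f = g := by
  refine ⟨fun h => ?_, fun h => by rw [h]⟩
  funext i
  rw [← Df_z M f i, h, Df_z]

lemma Df_zero_iff {f : Fin m → K} : Df M f = 0 ↔ f = 0 := by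
  have h0 : Df M 0 = 0 := by
    unfold Df
    simp
  rw [← h0, Df_inj]

lemma Df_coe (f : Fin m → M.B) (b : M.B) : Df M (fun j => (f j : K)) (b : K) = (DfB M f b : K) := by
  rw [Df_apply, DfB_apply]
  push_cast
  simp only [dK_coe]

lemma Df_mem {f : Fin m → K} (hf : ∀ j, f j ∈ M.B) {x : K} (hx : x ∈ M.B) : Df M f x ∈ M.B := by
  rw [Df_apply]
  exact Subalgebra.sum_mem _ fun j _ => mul_mem (hf j) (dK_mem M j hx)

/-- iterates -/
lemma Df_iterate_coe (f : Fin m → M.B) (k : ℕ) (b : M.B) :
    (⇑(Df M (fun j => (f j : K))))^[k] (b : K) = (((⇑(DfB M f))^[k] b : M.B) : K) := by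
  induction k with
  | zero => rfl
  | succ k ih => rw [Function.iterate_succ_apply', Function.iterate_succ_apply', ih, Df_coe]

/-- the bracket of two vector fields -/
theorem lie_Df (f g : Fin m → K) :
    ⁅Df M f, Df M g⁆ = Df M (fun k => Df M f (g k) - Df M g (f k)) := by
  apply derK_ext M
  intro i
  rw [Derivation.commutator_apply, Df_z, Df_z, Df_z]

theorem dK_eq_Df (j : Fin m) : dK M j = Df M (fun i => if i = j then 1 else 0) := by
  apply derK_ext M
  intro i
  rw [Df_z, dK_z]

theorem lie_dK (i j : Fin m) : ⁅dK M i, dK M j⁆ = 0 := by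
  apply derK_ext M
  intro l
  rw [Derivation.commutator_apply, dK_z, dK_z]
  have h1 : ∀ (D : Derivation ℂ K K) (p : Prop) [Decidable p], D (if p then 1 else 0) = 0 := by
    intro D p _
    split_ifs
    · exact D.map_one_eq_zero
    · exact map_zero D
  rw [h1, h1, sub_zero]
  rfl

/-- the partial derivatives commute -/
theorem dK_comm (i j : Fin m) (x : K) : dK M i (dK M j x) = dK M j (dK M i x) :=
  comm_apply (lie_dK M i j) x

theorem dB_comm (i j : Fin m) (b : M.B) : dB M i (dB M j b) = dB M j (dB M i b) := by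
  apply Subtype.ext
  rw [← dK_coe, ← dK_coe, dK_comm, dK_coe, dK_coe]

/-! ### dependence on the model -/

section change

variable {M} {M' : Mdl K m}

theorem dK_congr (hz : M.zK = M'.zK) (j : Fin m) : dK M j = dK M' j := by
  apply derK_ext M
  intro i
  rw [dK_z]
  have h : M.zK i = M'.zK i := congrFun hz i
  rw [h, dK_z]

theorem Df_congr (hz : M.zK = M'.zK) (f : Fin m → K) : Df M f = Df M' f := by
  unfold Df
  exact Finset.sum_congr rfl fun j _ => by rw [dK_congr hz]

theorem dB_congr (hz : M.zK = M'.zK) (h : M.B ≤ M'.B) (j : Fin m) (b : M.B) :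
    ((dB M' j ⟨b, h b.2⟩ : M'.B) : K) = dB M j b := by
  rw [← dK_coe, ← dK_coe, dK_congr hz]

theorem DfB_congr (hz : M.zK = M'.zK) (h : M.B ≤ M'.B) (f : Fin m → M.B) (b : M.B) :
    ((DfB M' (fun j => ⟨f j, h (f j).2⟩) ⟨b, h b.2⟩ : M'.B) : K) = DfB M f b := by
  rw [← Df_coe, ← Df_coe, Df_congr hz]

end change

theorem dK_loc (p : MvPolynomial (Fin m) ℂ) (hp : p ≠ 0) (j : Fin m) :
    dK (M.loc p hp) j = dK M j := dK_congr (Mdl.loc_zK M p hp) j

theorem Df_loc (p : MvPolynomial (Fin m) ℂ) (hp : p ≠ 0) (f : Fin m → K) :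
    Df (M.loc p hp) f = Df M f := Df_congr (Mdl.loc_zK M p hp) f

theorem Df_mem_loc (p : MvPolynomial (Fin m) ℂ) (hp : p ≠ 0) {f : Fin m → K}
    (hf : ∀ j, f j ∈ (M.loc p hp).B) {x : K} (hx : x ∈ (M.loc p hp).B) :
    Df M f x ∈ (M.loc p hp).B := by
  rw [← Df_loc M p hp]
  exact Df_mem _ hf hx

theorem dK_mem_loc (p : MvPolynomial (Fin m) ℂ) (hp : p ≠ 0) (j : Fin m) {x : K}
    (hx : x ∈ (M.loc p hp).B) : dK M j x ∈ (M.loc p hp).B := by
  rw [← dK_loc M p hp]
  exact dK_mem _ j hx

theorem dB_loc (p : MvPolynomial (Fin m) ℂ) (hp : p ≠ 0) (j : Fin m) (b : M.B) :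
    ((dB (M.loc p hp) j ⟨b, M.le_loc p hp b.2⟩ : (M.loc p hp).B) : K) = dB M j b :=
  dB_congr (Mdl.loc_zK M p hp).symm (M.le_loc p hp) j b

/-! ### algebraic vector fields as analytic vector fields -/

/-- complex derivative of a regular function -/
theorem hasFDerivAt_ev (b : M.B) (y : M.Pts) :
    HasFDerivAt ((fun x : M.Pts => x b) ∘ (ch y).symm)
      (∑ j, y (dB M j b) • (ContinuousLinearMap.proj j : (Fin m → ℂ) →L[ℂ] ℂ)) (cp y) := by
  obtain ⟨C⟩ := M.hch y
  have hgerm : (((ch y).symm : (Fin m → ℂ) → (M.B →ₐ[ℂ] ℂ))) =ᶠ[𝓝 (cp y)]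
      fun w => C.s (w - pr M.z y) := by
    have he : IsCh (chartHomeo M.hch C) := rfl
    exact (isCh_ch y).germ he (mem_ch y) (self_mem_sheet C)
  have han : AnalyticAt ℂ (fun ζ => C.s ζ b) 0 := C.anal b 0 (Metric.mem_ball_self C.r_pos)
  have h2 : HasFDerivAt (fun ζ => C.s ζ b)
      (∑ j, y (dB M j b) • (ContinuousLinearMap.proj j : (Fin m → ℂ) →L[ℂ] ℂ))
      ((fun w : Fin m → ℂ => w - pr M.z y) (cp y)) := by
    have h3 : (fun w : Fin m → ℂ => w - pr M.z y) (cp y) = 0 := sub_self _
    rw [h3]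
    have h4 : fderiv ℂ (fun ζ => C.s ζ b) 0 =
        ∑ j, y (dB M j b) • (ContinuousLinearMap.proj j : (Fin m → ℂ) →L[ℂ] ℂ) := by
      apply ContinuousLinearMap.coe_injective
      apply LinearMap.pi_ext'
      intro j
      apply LinearMap.ext_ring
      have h5 := chart_deriv M.z M.het (dB M) (dB_z M) C 0 (Metric.mem_ball_self C.r_pos) j b
      rw [C.s_zero] at h5
      simp only [LinearMap.coe_comp, Function.comp_apply, LinearMap.coe_single,
        ContinuousLinearMap.coe_coe]
      rw [h5]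
      simp [Pi.single_apply]
    rw [← h4]
    exact han.differentiableAt.hasFDerivAt
  have h6 : HasFDerivAt (fun w : Fin m → ℂ => w - pr M.z y)
      (ContinuousLinearMap.id ℂ (Fin m → ℂ)) (cp y) := (hasFDerivAt_id (cp y)).sub_const _
  have h7 := HasFDerivAt.comp (g := fun ζ => C.s ζ b) (f := fun w => w - pr M.z y) (cp y) h2 h6
  rw [ContinuousLinearMap.comp_id] at h7
  refine h7.congr_of_eventuallyEq ?_
  filter_upwards [hgerm] with w hw
  simp only [Function.comp_apply, hw]

theorem D_ev (b : M.B) (y : M.Pts) (w : Fin m → ℂ) :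
    D (fun x : M.Pts => x b) y w = ∑ j, w j * y (dB M j b) := by
  have h1 := ((hasFDerivAt_ev M b y).restrictScalars ℝ).fderiv
  unfold D
  rw [h1]
  simp [mul_comm]

theorem dz_ev (j : Fin m) (b : M.B) (y : M.Pts) :
    dz j (fun x : M.Pts => x b) y = y (dB M j b) := by
  rw [dz_eq, D_ev, D_ev]
  simp only [Pi.single_apply, ite_mul, one_mul, zero_mul, Finset.sum_ite_eq', Finset.mem_univ,
    if_true]
  rw [← mul_assoc, Complex.I_mul_I]
  ring

theorem db_ev (j : Fin m) (b : M.B) (y : M.Pts) : db j (fun x : M.Pts => x b) y = 0 := by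
  rw [db_eq, D_ev, D_ev]
  simp only [Pi.single_apply, ite_mul, one_mul, zero_mul, Finset.sum_ite_eq', Finset.mem_univ,
    if_true]
  rw [← mul_assoc, Complex.I_mul_I]
  ring

/-- `D_f` is the derivative along the vector field `(y (f_j))_j` -/
theorem D_ev_field (f : Fin m → M.B) (b : M.B) (y : M.Pts) :
    D (fun x : M.Pts => x b) y (fun j => y (f j)) = y (DfB M f b) := by
  rw [D_ev, DfB_apply, map_sum]
  exact Finset.sum_congr rfl fun j _ => by rw [map_mul]

theorem D_ev_smul_field (f : Fin m → M.B) (b : M.B) (y : M.Pts) (c : ℂ) :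
    D (fun x : M.Pts => x b) y (c • fun j => y (f j)) = c * y (DfB M f b) := by
  rw [D_ev, DfB_apply, map_sum, Finset.mul_sum]
  refine Finset.sum_congr rfl fun j _ => ?_
  rw [map_mul, Pi.smul_apply, smul_eq_mul]
  ring

end Crest.Agent.R276.PfDer_676
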