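import Mathlib
import Crest.Agent.R276.IpcDefs_735

/-!
# R276, leaf PD (helper571): proper discontinuity for variations of Hodge structure with a lattice

* `act g (E, S)`: action of `GL_N(ℤ)` on pairs (grading operator, form).
* `hodge_act`, `hodge_posDef`, `continuous_hodge`.
* `finite_gl`: the integral matrices which carry a Hodge structure near `e₁` to one near `e₂`.
-/

set_option autoImplicit false

noncomputable section

open Set Filter Topology Matrix
open scoped ComplexOrder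
open Crest.Agent.R271.Ho51
open Crest.Agent.R276.Ipc735

namespace Crest.Agent.R276.Pd571

/-- complex `N × N` matrices -/
abbrev Mt (N : ℕ) := Matrix (Fin N) (Fin N) ℂ

variable {N : ℕ}

/-! ### integral matrices -/

lemma cm_mul (g h : GL (Fin N) ℤ) : cm (g * h) = cm g * cm h := by
  unfold cm
  rw [Units.val_mul]
  exact Matrix.map_mul (f := Int.castRingHom ℂ)

lemma cm_one : cm (1 : GL (Fin N) ℤ) = 1 := by
  unfold cm
  rw [Units.val_one]
  exact Matrix.map_one (Int.castRingHom ℂ) (map_zero _) (map_one _)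

lemma cm_mul_inv (g : GL (Fin N) ℤ) : cm g * cm g⁻¹ = 1 := by
  rw [← cm_mul, mul_inv_cancel, cm_one]

lemma cm_inv_mul (g : GL (Fin N) ℤ) : cm g⁻¹ * cm g = 1 := by
  rw [← cm_mul, inv_mul_cancel, cm_one]

lemma cm_inj {g h : GL (Fin N) ℤ} (e : cm g = cm h) : g = h := by
  apply Units.ext
  ext i j
  have h1 : (cm g) i j = (cm h) i j := by rw [e]
  simpa [cm] using h1

lemma finite_bdd (C : ℝ) :
    {g : GL (Fin N) ℤ | ∀ i j, ‖(cm g) i j‖ ≤ C}.Finite := by
  have h1 : {A : Matrix (Fin N) (Fin N) ℤ | ∀ i j, A i j ∈ Set.Icc (-⌈C⌉) ⌈C⌉}.Finite := by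
    have h2 : (Set.pi Set.univ fun _ : Fin N => Set.pi Set.univ fun _ : Fin N =>
        Set.Icc (-⌈C⌉) ⌈C⌉).Finite :=
      Set.Finite.pi fun _ => Set.Finite.pi fun _ => Set.finite_Icc _ _
    refine h2.subset ?_
    intro A hA i _ j _
    exact hA i j
  refine Set.Finite.preimage (f := fun g : GL (Fin N) ℤ => (g : Matrix (Fin N) (Fin N) ℤ))
    (fun a _ b _ e => Units.ext e) h1 |>.subset ?_
  intro g hg i j
  have h3 : ‖(cm g) i j‖ ≤ C := hg i j
  have h4 : ‖(cm g) i j‖ = |(((g : Matrix (Fin N) (Fin N) ℤ) i j : ℤ) : ℝ)| := by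
    simp [cm]
  rw [h4, abs_le] at h3
  constructor
  · have : -((⌈C⌉ : ℤ) : ℝ) ≤ (((g : Matrix (Fin N) (Fin N) ℤ) i j : ℤ) : ℝ) := by
      have := Int.le_ceil C
      linarith [h3.1]
    exact_mod_cast this
  · have : (((g : Matrix (Fin N) (Fin N) ℤ) i j : ℤ) : ℝ) ≤ ((⌈C⌉ : ℤ) : ℝ) :=
      h3.2.trans (Int.le_ceil C)
    exact_mod_cast this

/-! ### the action -/

/-- action of `GL_N(ℤ)` on pairs (grading operator, form) -/
def act (g : GL (Fin N) ℤ) (e : Mt N × Mt N) : Mt N × Mt N :=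
  (cm g * e.1 * cm g⁻¹, (cm g⁻¹)ᴴ * e.2 * cm g⁻¹)

lemma act_mul (g h : GL (Fin N) ℤ) (e : Mt N × Mt N) : act (g * h) e = act g (act h e) := by
  unfold act
  rw [_root_.mul_inv_rev, cm_mul, cm_mul]
  simp only [Matrix.conjTranspose_mul, Matrix.mul_assoc]

lemma act_one (e : Mt N × Mt N) : act 1 e = e := by
  unfold act
  rw [inv_one, cm_one]
  simp

lemma act_inv_act (g : GL (Fin N) ℤ) (e : Mt N × Mt N) : act g⁻¹ (act g e) = e := by
  rw [← act_mul, inv_mul_cancel, act_one]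

lemma act_act_inv (g : GL (Fin N) ℤ) (e : Mt N × Mt N) : act g (act g⁻¹ e) = e := by
  rw [← act_mul, mul_inv_cancel, act_one]

lemma act_injective (g : GL (Fin N) ℤ) : Function.Injective (act g) := fun a b h => by
  rw [← act_inv_act g a, h, act_inv_act]

lemma continuous_act (g : GL (Fin N) ℤ) : Continuous (act g) := by
  unfold act
  fun_prop

lemma hpr_conj (w p : ℕ) (g : GL (Fin N) ℤ) (E : Mt N) :
    hpr w p (cm g * E * cm g⁻¹) = cm g * hpr w p E * cm g⁻¹ := by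
  unfold hpr
  have key : ∀ q : Polynomial ℂ, Polynomial.aeval (cm g * E * cm g⁻¹) q =
      cm g * Polynomial.aeval E q * cm g⁻¹ := by
    intro q
    have e : ∀ A : Mt N, cm g * A * cm g⁻¹ =
        ((MulSemiringAction.toAlgHom ℂ (Mt N) (ConjAct.toConjAct
          (⟨cm g, cm g⁻¹, cm_mul_inv g, cm_inv_mul g⟩ : (Mt N)ˣ)) :
          Mt N →ₐ[ℂ] Mt N)) A := by
      intro A
      rfl
    rw [e, e, Polynomial.aeval_algHom_apply]
  exact key _

lemma weil_conj (w : ℕ) (g : GL (Fin N) ℤ) (E : Mt N) :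
    weil w (cm g * E * cm g⁻¹) = cm g * weil w E * cm g⁻¹ := by
  unfold weil
  rw [Finset.mul_sum, Finset.sum_mul]
  refine Finset.sum_congr rfl fun p _ => ?_
  rw [hpr_conj, mul_smul_comm, smul_mul_assoc]

lemma hodge_act (w : ℕ) (g : GL (Fin N) ℤ) (e : Mt N × Mt N) :
    hodge w (act g e).2 (act g e).1 = (cm g⁻¹)ᴴ * hodge w e.2 e.1 * cm g⁻¹ := by
  unfold hodge act
  simp only
  rw [weil_conj]
  calc (cm g⁻¹)ᴴ * e.2 * cm g⁻¹ * (cm g * weil w e.1 * cm g⁻¹)
      = (cm g⁻¹)ᴴ * e.2 * (cm g⁻¹ * cm g) * (weil w e.1 * cm g⁻¹) := by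
        simp only [Matrix.mul_assoc]
    _ = _ := by rw [cm_inv_mul]; simp only [Matrix.mul_assoc, Matrix.one_mul]

lemma hodge_act' (w : ℕ) (g : GL (Fin N) ℤ) (e : Mt N × Mt N) :
    hodge w e.2 e.1 = (cm g)ᴴ * hodge w (act g e).2 (act g e).1 * cm g := by
  rw [hodge_act]
  calc hodge w e.2 e.1 = 1 * hodge w e.2 e.1 * 1 := by simp
    _ = (cm g⁻¹ * cm g)ᴴ * hodge w e.2 e.1 * (cm g⁻¹ * cm g) := by
        rw [cm_inv_mul]; simp
    _ = _ := by simp only [Matrix.conjTranspose_mul, Matrix.mul_assoc]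

lemma continuous_hodge (w : ℕ) : Continuous fun e : Mt N × Mt N => hodge w e.2 e.1 := by
  have h1 : ∀ q : Polynomial ℂ, Continuous fun E : Mt N => Polynomial.aeval E q :=
    fun q => Polynomial.continuous_aeval q
  have h2 : Continuous fun E : Mt N => weil w E := by
    unfold weil hpr
    exact continuous_finsetSum _ fun p _ => Continuous.const_smul (h1 _) ((-1 : ℂ) ^ p)
  unfold hodge
  exact continuous_snd.mul (h2.comp continuous_fst)

/-! ### positivity of the Hodge form -/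

section pos

variable {w : ℕ} {S E : Mt N}

lemma cast_injOn (w : ℕ) : Set.InjOn (fun q : ℕ => (q : ℂ)) (Finset.range (w + 1)) :=
  fun a _ b _ h => by
    have h' : (a : ℂ) = (b : ℂ) := h
    exact_mod_cast h'

lemma sum_hpr (w : ℕ) (E : Mt N) : ∑ p ∈ Finset.range (w + 1), hpr w p E = 1 := by
  unfold hpr
  rw [← map_sum, Lagrange.sum_basis (cast_injOn w) ⟨0, by simp⟩, map_one]

lemma E_mul_hpr (h : IsHS w S E) {p : ℕ} (hp : p ∈ Finset.range (w + 1)) :
    E * hpr w p E = (p : ℂ) • hpr w p E := by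
  have h1 : (Polynomial.X - Polynomial.C (p : ℂ)) *
      Lagrange.basis (Finset.range (w + 1)) (fun q : ℕ => (q : ℂ)) p =
      (∏ q ∈ (Finset.range (w + 1)).erase p, Polynomial.C ((p : ℂ) - (q : ℂ))⁻¹) *
        ∏ q ∈ Finset.range (w + 1), (Polynomial.X - Polynomial.C (q : ℂ)) := by
    rw [← Finset.mul_prod_erase (Finset.range (w + 1))
      (fun q => Polynomial.X - Polynomial.C (q : ℂ)) hp]
    unfold Lagrange.basis Lagrange.basisDivisor
    rw [Finset.prod_mul_distrib]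
    ring
  have h5 := congrArg (Polynomial.aeval E) h1
  rw [map_mul, map_mul, h.eig, mul_zero, map_sub, Polynomial.aeval_X, Polynomial.aeval_C,
    sub_mul, sub_eq_zero, Algebra.algebraMap_eq_smul_one, smul_mul_assoc, one_mul] at h5
  exact h5

lemma E_mulVec (h : IsHS w S E) {p : ℕ} (hp : p ∈ Finset.range (w + 1)) (v : Fin N → ℂ) :
    E *ᵥ (hpr w p E *ᵥ v) = (p : ℂ) • (hpr w p E *ᵥ v) := by
  rw [Matrix.mulVec_mulVec, E_mul_hpr h hp, Matrix.smul_mulVec]

lemma orth (h : IsHS w S E) {p q : ℕ} (hpq : p ≠ q) {u v : Fin N → ℂ}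
    (hu : E *ᵥ u = (p : ℂ) • u) (hv : E *ᵥ v = (q : ℂ) • v) : star u ⬝ᵥ S *ᵥ v = 0 := by
  have h1 : star u ⬝ᵥ (S * E) *ᵥ v = (q : ℂ) * (star u ⬝ᵥ S *ᵥ v) := by
    rw [← Matrix.mulVec_mulVec, hv, Matrix.mulVec_smul, dotProduct_smul, smul_eq_mul]
  have h2 : star u ⬝ᵥ (Eᴴ * S) *ᵥ v = (p : ℂ) * (star u ⬝ᵥ S *ᵥ v) := by
    rw [← Matrix.mulVec_mulVec, Matrix.dotProduct_mulVec (star u) Eᴴ, ← Matrix.star_mulVec, hu,
      star_smul, smul_dotProduct, smul_eq_mul]
    simp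
  rw [h.adj, h2] at h1
  have h3 : ((p : ℂ) - q) * (star u ⬝ᵥ S *ᵥ v) = 0 := by rw [sub_mul, h1, sub_self]
  rcases mul_eq_zero.1 h3 with h4 | h4
  · exact absurd (by exact_mod_cast sub_eq_zero.1 h4) hpq
  · exact h4

lemma expand (w : ℕ) (E : Mt N) (v : Fin N → ℂ) :
    v = ∑ p ∈ Finset.range (w + 1), hpr w p E *ᵥ v := by
  rw [← Matrix.sum_mulVec, sum_hpr, Matrix.one_mulVec]

lemma quad (h : IsHS w S E) (v : Fin N → ℂ) :
    star v ⬝ᵥ hodge w S E *ᵥ v = ∑ p ∈ Finset.range (w + 1),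
      (-1 : ℂ) ^ p * (star (hpr w p E *ᵥ v) ⬝ᵥ S *ᵥ (hpr w p E *ᵥ v)) := by
  have h1 : hodge w S E *ᵥ v =
      ∑ p ∈ Finset.range (w + 1), (-1 : ℂ) ^ p • (S *ᵥ (hpr w p E *ᵥ v)) := by
    unfold hodge weil
    rw [← Matrix.mulVec_mulVec, Matrix.sum_mulVec, Matrix.mulVec_sum]
    refine Finset.sum_congr rfl fun p _ => ?_
    rw [Matrix.smul_mulVec, Matrix.mulVec_smul]
  rw [h1, dotProduct_sum]
  refine Finset.sum_congr rfl fun p hp => ?_
  rw [dotProduct_smul, smul_eq_mul]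
  congr 1
  conv_lhs => rw [expand w E v, star_sum, sum_dotProduct]
  rw [Finset.sum_eq_single p]
  · rw [← expand w E v]
  · intro q hq hqp
    rw [← expand w E v]
    exact orth h hqp (E_mulVec h hq v) (E_mulVec h hp v)
  · intro hp'; exact absurd hp hp'

lemma quad_pos (h : IsHS w S E) {v : Fin N → ℂ} (hv : v ≠ 0) :
    0 < (star v ⬝ᵥ hodge w S E *ᵥ v).re := by
  rw [quad h v, Complex.re_sum]
  have key : ∀ p ∈ Finset.range (w + 1), hpr w p E *ᵥ v ≠ 0 →
      0 < ((-1 : ℂ) ^ p * (star (hpr w p E *ᵥ v) ⬝ᵥ S *ᵥ (hpr w p E *ᵥ v))).re := by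
    intro p hp hne
    have h1 := h.pos p _ (by have := Finset.mem_range.1 hp; omega) hne (E_mulVec h hp v)
    have h2 : (-1 : ℂ) ^ p = (((-1 : ℝ) ^ p : ℝ) : ℂ) := by push_cast; rfl
    rw [h2, Complex.re_ofReal_mul]
    exact h1
  obtain ⟨p, hp, hne⟩ : ∃ p ∈ Finset.range (w + 1), hpr w p E *ᵥ v ≠ 0 := by
    by_contra hc
    push Not at hc
    exact hv (by rw [expand w E v]; exact Finset.sum_eq_zero hc)
  refine Finset.sum_pos' (fun q hq => ?_) ⟨p, hp, key p hp hne⟩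
  by_cases h0 : hpr w q E *ᵥ v = 0
  · rw [h0]; simp
  · exact (key q hq h0).le

end pos

/-! ### the finiteness -/

/-- real part of the Hermitian form -/
def qf (H : Mt N) (v : Fin N → ℂ) : ℝ := (star v ⬝ᵥ H *ᵥ v).re

lemma continuous_qf : Continuous fun p : Mt N × (Fin N → ℂ) => qf p.1 p.2 := by
  unfold qf
  fun_prop

lemma qf_smul (H : Mt N) (c : ℂ) (v : Fin N → ℂ) : qf H (c • v) = ‖c‖ ^ 2 * qf H v := by
  unfold qf
  rw [star_smul, smul_dotProduct, Matrix.mulVec_smul, dotProduct_smul, smul_smul, smul_eq_mul,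
    Complex.star_def, Complex.conj_mul']
  rw [← Complex.ofReal_pow, Complex.re_ofReal_mul]

lemma exists_lower {H₀ : Mt N} (h0 : ∀ v : Fin N → ℂ, v ≠ 0 → 0 < qf H₀ v) :
    ∃ c : ℝ, 0 < c ∧ ∀ᶠ H in 𝓝 H₀, ∀ (v : Fin N → ℂ) (i : Fin N), c * ‖v i‖ ^ 2 ≤ qf H v := by
  rcases (Metric.sphere (0 : Fin N → ℂ) 1).eq_empty_or_nonempty with he | hne
  · refine ⟨1, one_pos, Filter.Eventually.of_forall fun H v i => ?_⟩
    exfalso
    have : (Pi.single i 1 : Fin N → ℂ) ∈ Metric.sphere (0 : Fin N → ℂ) 1 := by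
      rw [mem_sphere_zero_iff_norm, Pi.norm_single, norm_one]
    rw [he] at this
    exact this
  · have hK : IsCompact (Metric.sphere (0 : Fin N → ℂ) 1) := isCompact_sphere _ _
    have hcont : Continuous fun v : Fin N → ℂ => qf H₀ v :=
      continuous_qf.comp (continuous_const.prodMk continuous_id)
    obtain ⟨v₀, hv₀, hmin⟩ := hK.exists_isMinOn hne hcont.continuousOn
    have hv0 : v₀ ≠ 0 := by
      rintro rfl
      simp at hv₀
    have hpos := h0 v₀ hv0
    refine ⟨qf H₀ v₀ / 2, by positivity, ?_⟩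
    have h1 : ∀ᶠ H in 𝓝 H₀, ∀ v ∈ Metric.sphere (0 : Fin N → ℂ) 1, qf H₀ v₀ / 2 < qf H v := by
      refine hK.eventually_forall_of_forall_eventually fun v hv => ?_
      have h2 : qf H₀ v₀ / 2 < qf H₀ v := by
        have := hmin hv
        simp only [Set.mem_ofPred_eq] at this
        linarith
      exact (continuous_qf.continuousAt (x := (H₀, v))).eventually_const_lt h2
    filter_upwards [h1] with H hH v i
    by_cases hv : v = 0
    · subst hv; simp [qf]
    · have hn : 0 < ‖v‖ := norm_pos_iff.2 hv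
      have h3 := hH (((‖v‖⁻¹ : ℝ) : ℂ) • v) (by
        rw [mem_sphere_zero_iff_norm, norm_smul, Complex.norm_real, norm_inv, norm_norm,
          inv_mul_cancel₀ hn.ne'])
      rw [qf_smul, Complex.norm_real, norm_inv, norm_norm, inv_pow, inv_mul_eq_div,
        lt_div_iff₀ (by positivity)] at h3
      have h4 : ‖v i‖ ^ 2 ≤ ‖v‖ ^ 2 := pow_le_pow_left₀ (norm_nonneg _) (norm_le_pi_norm v i) 2
      nlinarith

/-- the integral matrices which carry a pair near `e₁` to a Hodge structure near `e₂`: finitely many -/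
lemma finite_gl {w : ℕ} (e₁ : Mt N × Mt N) {e₂ : Mt N × Mt N} (h₂ : IsHS w e₂.2 e₂.1) :
    ∃ U ∈ 𝓝 e₁, ∃ W ∈ 𝓝 e₂, {g : GL (Fin N) ℤ | ∃ a ∈ U, ∃ b ∈ W, act g a = b}.Finite := by
  obtain ⟨c, hc, hlow⟩ := exists_lower (H₀ := hodge w e₂.2 e₂.1) fun v hv => quad_pos h₂ hv
  have hup : ∀ᶠ a in 𝓝 e₁, ∀ j : Fin N, (hodge w a.2 a.1 j j).re <
      ∑ j : Fin N, |(hodge w e₁.2 e₁.1 j j).re| + 1 := by
    rw [Filter.eventually_all]
    intro j
    have h1 : Continuous fun a : Mt N × Mt N => (hodge w a.2 a.1 j j).re :=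
      Complex.continuous_re.comp ((continuous_hodge w).matrix_elem j j)
    refine (h1.continuousAt (x := e₁)).eventually_lt_const ?_
    have h2 : |(hodge w e₁.2 e₁.1 j j).re| ≤ ∑ j : Fin N, |(hodge w e₁.2 e₁.1 j j).re| :=
      Finset.single_le_sum (f := fun j => |(hodge w e₁.2 e₁.1 j j).re|)
        (fun i _ => abs_nonneg _) (Finset.mem_univ j)
    have h3 := le_abs_self (hodge w e₁.2 e₁.1 j j).re
    linarith
  set C : ℝ := ∑ j : Fin N, |(hodge w e₁.2 e₁.1 j j).re| + 1 with hC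
  refine ⟨_, hup, _, (continuous_hodge w).continuousAt.eventually hlow, ?_⟩
  refine (finite_bdd (N := N) (C / c + 1)).subset ?_
  rintro g ⟨a, ha, b, hb, hab⟩ i j
  have ha' : (hodge w a.2 a.1 j j).re < C := ha j
  have hb' : c * ‖(cm g *ᵥ Pi.single j 1) i‖ ^ 2 ≤ qf (hodge w b.2 b.1) (cm g *ᵥ Pi.single j 1) :=
    hb _ i
  have e1 : (cm g *ᵥ Pi.single j 1) i = cm g i j := by simp
  have e2 : qf (hodge w b.2 b.1) (cm g *ᵥ Pi.single j 1) = (hodge w a.2 a.1 j j).re := by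
    unfold qf
    rw [hodge_act' w g a, hab, Matrix.star_mulVec, ← Matrix.dotProduct_mulVec,
      Matrix.mulVec_mulVec, Matrix.mulVec_mulVec]
    rw [show star (Pi.single j (1 : ℂ) : Fin N → ℂ) = Pi.single j 1 by
      ext k; by_cases h : k = j
      · subst h; simp
      · simp [h]]
    rw [Matrix.mulVec_single_one, single_one_dotProduct]
    rfl
  rw [e1, e2] at hb'
  have h5 : c * ‖cm g i j‖ ^ 2 < C := hb'.trans_lt ha'
  have h6 : ‖cm g i j‖ ^ 2 < C / c := by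
    rw [lt_div_iff₀ hc]; linarith
  nlinarith [norm_nonneg (cm g i j), sq_nonneg (‖cm g i j‖ - 1)]

end Crest.Agent.R276.Pd571
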