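import Mathlib
import Crest.Agent.R276.PdA_571

/-!
# R276, leaf PD (helper571): classes of isomorphic Hodge structures of a VHS are closed

`V : VHS m X N w` (735).  `ev V x = (E x, S x)`, `FF V z y = P(z,y)·e(y)`, `Sim V p q` : the polarised
integral Hodge structures at `p` and `q` are isomorphic.

* `PD` : proper discontinuity;
* `isClosed_sim` : `{q | Sim V p q}` is closed;
* `loc` : near `q ∈ S_p` the set `S_p` is `{y | FF V q y = ev V q}`.
-/

set_option autoImplicit false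

noncomputable section

open Set Filter Topology Matrix
open scoped ComplexOrder
open Crest.Agent.R271.Ho51
open Crest.Agent.R276.Ipc735

namespace Crest.Agent.R276.Pd571

variable {m N w : ℕ} {X : Type*} [TopologicalSpace X] [RDom m X]

/-! ### near-diagonal cocycles -/

section ndc

variable {G : Type*} [Group G] {c : X → X → G}

lemma ndc_self (h : NDC c) (z : X) : c z z = 1 := by
  obtain ⟨U, hU, h1⟩ := h z
  have hz := mem_of_mem_nhds hU
  have h2 := h1 z hz z hz z hz
  exact mul_eq_left.1 h2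

lemma ndc_inv (h : NDC c) (z : X) : ∃ U ∈ 𝓝 z, ∀ x ∈ U, ∀ y ∈ U, c y x = (c x y)⁻¹ := by
  obtain ⟨U, hU, h1⟩ := h z
  refine ⟨U, hU, fun x hx y hy => ?_⟩
  have h2 := h1 x hx y hy x hx
  rw [ndc_self h x] at h2
  exact (inv_eq_of_mul_eq_one_right h2).symm

end ndc

/-- the pair (grading operator, form) at `x` -/
def ev (V : VHS m X N w) (x : X) : Mt N × Mt N := (V.E x, V.S x)

/-- the pair at `y` transported to the frame at `z` -/
def FF (V : VHS m X N w) (z y : X) : Mt N × Mt N := act (V.P z y) (ev V y)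

/-- the polarised integral Hodge structures at `p` and `q` are isomorphic -/
def Sim (V : VHS m X N w) (p q : X) : Prop := ∃ g : GL (Fin N) ℤ, ev V q = act g (ev V p)

variable (V : VHS m X N w)

lemma FF_fst (z y : X) : (FF V z y).1 = lM V.P V.E z y := rfl

lemma FF_self (z : X) : FF V z z = ev V z := by
  unfold FF
  rw [ndc_self V.ndc, act_one]

lemma FF_snd (z : X) : ∀ᶠ y in 𝓝 z, (FF V z y).2 = V.S z := by
  filter_upwards [V.flatS z] with y hy
  show (cm (V.P z y)⁻¹)ᴴ * V.S y * cm (V.P z y)⁻¹ = V.S z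
  rw [hy]
  calc (cm (V.P z y)⁻¹)ᴴ * ((cm (V.P z y))ᴴ * V.S z * cm (V.P z y)) * cm (V.P z y)⁻¹
      = (cm (V.P z y) * cm (V.P z y)⁻¹)ᴴ * V.S z * (cm (V.P z y) * cm (V.P z y)⁻¹) := by
        simp only [Matrix.conjTranspose_mul, Matrix.mul_assoc]
    _ = V.S z := by rw [cm_mul_inv]; simp

/-- change of frame -/
lemma FF_change (z : X) : ∃ U ∈ 𝓝 z, ∀ x ∈ U, ∀ x' ∈ U, ∀ y ∈ U,
    FF V x y = act (V.P x x') (FF V x' y) := by
  obtain ⟨U, hU, h⟩ := V.ndc z
  refine ⟨U, hU, fun x hx x' hx' y hy => ?_⟩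
  unfold FF
  rw [← act_mul, h x hx x' hx' y hy]

lemma continuousAt_mt {Y : Type*} [TopologicalSpace Y] {f : Y → Mt N} {z : Y}
    (h : ∀ i j, ContinuousAt (fun a => f a i j) z) : ContinuousAt f z :=
  continuousAt_pi.2 fun _ => continuousAt_pi.2 fun _ => h _ _

lemma lM_continuousAt (z : X) : ContinuousAt (fun y => lM V.P V.E z y) z := by
  refine continuousAt_mt fun i k => ?_
  have h1 := (V.smE z i k).continuousAt
  have h2 : ContinuousAt (fun y => ((fun y => lM V.P V.E z y i k) ∘ (ch z).symm) (cp y)) z :=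
    ContinuousAt.comp (g := (fun y => lM V.P V.E z y i k) ∘ (ch z).symm) h1 cp_cont.continuousAt
  exact h2.congr (eventually_eq_comp (isCh_ch z) (mem_ch z) _).symm

lemma FF_continuousAt (z : X) : ContinuousAt (FF V z) z := by
  have h1 : ContinuousAt (fun y => (lM V.P V.E z y, V.S z)) z :=
    (lM_continuousAt V z).prodMk continuousAt_const
  refine h1.congr ?_
  filter_upwards [FF_snd V z] with y hy
  exact Prod.ext rfl hy.symm

/-- continuity of the transported pair at all points near the centre -/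
lemma FF_continuousAt_near (z : X) : ∀ᶠ x in 𝓝 z, ContinuousAt (FF V z) x := by
  obtain ⟨U, hU, h⟩ := FF_change V z
  have hz := mem_of_mem_nhds hU
  filter_upwards [eventually_mem_nhds_iff.2 hU] with x hx
  have hx' := mem_of_mem_nhds hx
  have h1 : ContinuousAt (fun y => act (V.P z x) (FF V x y)) x :=
    (continuous_act _).continuousAt.comp (FF_continuousAt V x)
  refine h1.congr ?_
  filter_upwards [hx] with y hy
  exact (h z hz x hx' y hy).symm

variable {V}

lemma isHS (x : X) : IsHS w (ev V x).2 (ev V x).1 := V.hs x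

/-! ### isomorphism classes -/

lemma Sim.refl (p : X) : Sim V p p := ⟨1, (act_one _).symm⟩

lemma Sim.symm {p q : X} (h : Sim V p q) : Sim V q p := by
  obtain ⟨g, hg⟩ := h
  exact ⟨g⁻¹, by rw [hg, act_inv_act]⟩

lemma Sim.trans {p q r : X} (h : Sim V p q) (h' : Sim V q r) : Sim V p r := by
  obtain ⟨g, hg⟩ := h
  obtain ⟨g', hg'⟩ := h'
  exact ⟨g' * g, by rw [hg', hg, act_mul]⟩

lemma sim_iff (p q y : X) : Sim V p y ↔ ∃ g : GL (Fin N) ℤ, act g (ev V p) = FF V q y := by
  constructor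
  · rintro ⟨g, hg⟩
    exact ⟨V.P q y * g, by rw [act_mul, ← hg]; rfl⟩
  · rintro ⟨g, hg⟩
    refine ⟨(V.P q y)⁻¹ * g, ?_⟩
    rw [act_mul, hg]
    unfold FF
    rw [act_inv_act]

variable (V)

/-- **proper discontinuity** -/
theorem PD (p q : X) : ∃ U ∈ 𝓝 p, ∃ W ∈ 𝓝 q,
    {g : GL (Fin N) ℤ | ∃ x ∈ U, ∃ y ∈ W, act g (FF V p x) = FF V q y}.Finite := by
  obtain ⟨U, hU, W, hW, hf⟩ := finite_gl (w := w) (ev V p) (e₂ := ev V q) (V.hs q)
  refine ⟨FF V p ⁻¹' U, ?_, FF V q ⁻¹' W, ?_, hf.subset ?_⟩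
  · have := FF_continuousAt V p
    unfold ContinuousAt at this
    rw [FF_self] at this
    exact this hU
  · have := FF_continuousAt V q
    unfold ContinuousAt at this
    rw [FF_self] at this
    exact this hW
  · rintro g ⟨x, hx, y, hy, hg⟩
    exact ⟨_, hx, _, hy, hg⟩

variable {V}

/-- near `q` the class of `p` is given by finitely many equations `FF V q y = act g (ev V p)` -/
lemma exists_fin (p q : X) : ∃ Φ : Set (GL (Fin N) ℤ), Φ.Finite ∧ ∀ᶠ y in 𝓝 q,
    (Sim V p y ↔ FF V q y ∈ (fun g => act g (ev V p)) '' Φ) := by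
  obtain ⟨U, hU, W, hW, hf⟩ := PD V p q
  refine ⟨_, hf, ?_⟩
  filter_upwards [hW] with y hy
  rw [sim_iff p q y]
  constructor
  · rintro ⟨g, hg⟩
    exact ⟨g, ⟨p, mem_of_mem_nhds hU, y, hy, by rw [FF_self, hg]⟩, hg⟩
  · rintro ⟨g, _, hg⟩
    exact ⟨g, hg⟩

/-- the class of `p` is closed -/
theorem isClosed_sim (p : X) : IsClosed {q | Sim V p q} := by
  rw [← isOpen_compl_iff, isOpen_iff_mem_nhds]
  intro q hq
  obtain ⟨Φ, hΦ, h⟩ := exists_fin (V := V) p q
  have h1 : IsClosed ((fun g => act g (ev V p)) '' Φ) := (hΦ.image _).isClosed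
  have h2 : FF V q q ∉ (fun g => act g (ev V p)) '' Φ := by
    rw [← h.self_of_nhds]
    exact hq
  have h3 : ∀ᶠ y in 𝓝 q, FF V q y ∉ (fun g => act g (ev V p)) '' Φ :=
    (FF_continuousAt V q).eventually (h1.isOpen_compl.mem_nhds h2)
  filter_upwards [h, h3] with y hy hy'
  show ¬ Sim V p y
  rw [hy]
  exact hy'

/-- **(LOC)** near a point `q` of the class of `p` the class is the level set of `FF V q` -/
theorem loc {p q : X} (hpq : Sim V p q) : ∀ᶠ y in 𝓝 q, (Sim V p y ↔ FF V q y = ev V q) := by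
  obtain ⟨Φ, hΦ, h⟩ := exists_fin (V := V) p q
  have h1 : IsClosed (((fun g => act g (ev V p)) '' Φ) \ {ev V q}) :=
    ((hΦ.image _).subset Set.sdiff_subset).isClosed
  have h2 : FF V q q ∉ ((fun g => act g (ev V p)) '' Φ) \ {ev V q} := by
    rw [FF_self]
    simp
  have h3 : ∀ᶠ y in 𝓝 q, FF V q y ∉ ((fun g => act g (ev V p)) '' Φ) \ {ev V q} :=
    (FF_continuousAt V q).eventually (h1.isOpen_compl.mem_nhds h2)
  filter_upwards [h, h3] with y hy hy'
  constructor
  · intro hs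
    rw [hy] at hs
    by_contra hne
    exact hy' ⟨hs, hne⟩
  · intro he
    rw [hy, he]
    have h4 : Sim V p q := hpq
    rw [h.self_of_nhds, FF_self] at h4
    exact h4

/-- (LOC) seen from a nearby frame: for `z` near `q` and `y` near `z` -/
theorem loc' {p q z : X} (hpq : Sim V p q) (U : Set X) (hU : U ∈ 𝓝 q) (hzU : z ∈ U)
    (hch : ∀ x ∈ U, ∀ x' ∈ U, ∀ y ∈ U, FF V x y = act (V.P x x') (FF V x' y)) :
    ∀ᶠ y in 𝓝 q, (Sim V p y ↔ FF V z y = FF V z q) := by
  have hq := mem_of_mem_nhds hU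
  filter_upwards [loc hpq, hU] with y hy hyU
  rw [hy, hch z hzU q hq y hyU, hch z hzU q hq q hq, FF_self]
  exact ⟨fun e => by rw [e], fun e => act_injective _ e⟩

end Crest.Agent.R276.Pd571
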