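import Mathlib

/-!
# R276, leaf PD (helper571): real changes of variables and Hermitian Gram determinants

* `bf G u v = Re (uᴴ G v)`.
* `det_hermitian`: if `Re (Bv)ᴴ G₁ (Bv) = Re vᴴ G₂ v` for a real-linear endomorphism `B` of `ℂ^n`
  (`G₁`, `G₂` Hermitian) then `|det_ℝ B| ‖det G₁‖ = ‖det G₂‖`.
* `det_slice`: the same for an endomorphism `L` of the slice `ℂ^n` which fixes the coordinates in `A`,
  with the Gram matrices of the other coordinates.
-/

set_option autoImplicit false
set_option linter.unusedSectionVars false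

noncomputable section

open Matrix

namespace Crest.Agent.R276.PdL571

variable {n : Type*} [Fintype n]

/-- the real bilinear form `Re (uᴴ G v)` -/
def bf (G : Matrix n n ℂ) : LinearMap.BilinForm ℝ (n → ℂ) :=
  LinearMap.mk₂ ℝ (fun u v => (star u ⬝ᵥ G *ᵥ v).re)
    (fun u u' v => by rw [star_add, add_dotProduct, Complex.add_re])
    (fun c u v => by
      rw [show c • u = (c : ℂ) • u from (Complex.coe_smul c u).symm ▸ rfl, star_smul,
        smul_dotProduct]
      simp)
    (fun u v v' => by rw [Matrix.mulVec_add, dotProduct_add, Complex.add_re])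
    (fun c u v => by
      rw [show c • v = (c : ℂ) • v from (Complex.coe_smul c v).symm ▸ rfl, Matrix.mulVec_smul,
        dotProduct_smul]
      simp)

lemma bf_apply (G : Matrix n n ℂ) (u v : n → ℂ) : bf G u v = (star u ⬝ᵥ G *ᵥ v).re := rfl

lemma bf_symm {G : Matrix n n ℂ} (hG : G.IsHermitian) (u v : n → ℂ) : bf G u v = bf G v u := by
  rw [bf_apply, bf_apply]
  have h : star (star u ⬝ᵥ G *ᵥ v) = star v ⬝ᵥ G *ᵥ u := by
    rw [← Matrix.star_dotProduct_star, star_star, Matrix.star_mulVec, hG.eq,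
      ← Matrix.dotProduct_mulVec]
  rw [← h]
  simp

lemma bf_polar {G₁ G₂ : Matrix n n ℂ} (h₁ : G₁.IsHermitian) (h₂ : G₂.IsHermitian)
    (B : (n → ℂ) →ₗ[ℝ] (n → ℂ)) (h : ∀ v, bf G₁ (B v) (B v) = bf G₂ v v) (u v : n → ℂ) :
    bf G₁ (B u) (B v) = bf G₂ u v := by
  have h3 := h (u + v)
  simp only [map_add, LinearMap.add_apply] at h3
  rw [h u, h v, bf_symm h₁ (B v) (B u), bf_symm h₂ v u] at h3
  linarith

variable [DecidableEq n]

/-- the operator of `G`, real-linear -/
def ro (G : Matrix n n ℂ) : (n → ℂ) →ₗ[ℝ] (n → ℂ) := (Matrix.toLin' G).restrictScalars ℝ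

lemma det_ro (G : Matrix n n ℂ) : LinearMap.det (ro G) = ‖G.det‖ ^ 2 := by
  unfold ro
  rw [LinearMap.det_restrictScalars, LinearMap.det_toLin', Algebra.norm_complex_apply,
    Complex.normSq_eq_norm_sq]

/-- the real basis of `ℂ^n` -/
def rb (n : Type*) [Fintype n] : Module.Basis (Σ _ : n, Fin 2) ℝ (n → ℂ) :=
  Pi.basis fun _ => Complex.basisOneI

lemma toMatrix_bf (G : Matrix n n ℂ) : LinearMap.BilinForm.toMatrix (rb n) (bf G) =
    LinearMap.BilinForm.toMatrix (rb n) (bf (1 : Matrix n n ℂ)) *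
      LinearMap.toMatrix (rb n) (rb n) (ro G) := by
  have h1 : bf G = LinearMap.BilinForm.compRight (bf (1 : Matrix n n ℂ)) (ro G) := by
    ext u v
    simp [bf_apply, ro, LinearMap.BilinForm.compRight_apply]
  rw [h1, LinearMap.BilinForm.toMatrix_compRight]

lemma toMatrix_bf_one : LinearMap.BilinForm.toMatrix (rb n) (bf (1 : Matrix n n ℂ)) = 1 := by
  ext ⟨i, a⟩ ⟨j, b⟩
  rw [LinearMap.BilinForm.toMatrix_apply, bf_apply, Matrix.one_mulVec]
  unfold rb
  rw [Pi.basis_apply, Pi.basis_apply]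
  by_cases hij : i = j
  · subst hij
    fin_cases a <;> fin_cases b <;> simp
  · rw [Matrix.one_apply_ne (by simp [hij])]
    simp [dotProduct_single, Pi.single_eq_of_ne (Ne.symm hij)]

lemma det_toMatrix_bf (G : Matrix n n ℂ) :
    (LinearMap.BilinForm.toMatrix (rb n) (bf G)).det = ‖G.det‖ ^ 2 := by
  rw [toMatrix_bf, toMatrix_bf_one, one_mul, LinearMap.det_toMatrix, det_ro]

/-- real-linear change of variables between two Hermitian forms -/
theorem det_hermitian {G₁ G₂ : Matrix n n ℂ} (h₁ : G₁.IsHermitian) (h₂ : G₂.IsHermitian)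
    (B : (n → ℂ) →ₗ[ℝ] (n → ℂ)) (h : ∀ v, bf G₁ (B v) (B v) = bf G₂ v v) :
    |LinearMap.det B| * ‖G₁.det‖ = ‖G₂.det‖ := by
  have h3 : bf G₂ = LinearMap.BilinForm.comp (bf G₁) B B := by
    exact LinearMap.ext₂ fun u v => (bf_polar h₁ h₂ B h u v).symm
  have h4 := congrArg (fun F => (LinearMap.BilinForm.toMatrix (rb n) F).det) h3
  beta_reduce at h4
  rw [LinearMap.BilinForm.toMatrix_comp (rb n) (rb n), Matrix.det_mul, Matrix.det_mul,
    Matrix.det_transpose, LinearMap.det_toMatrix, det_toMatrix_bf, det_toMatrix_bf] at h4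
  have h5 : (|LinearMap.det B| * ‖G₁.det‖) ^ 2 = ‖G₂.det‖ ^ 2 := by
    rw [mul_pow, sq_abs, h4]; ring
  exact (pow_left_inj₀ (by positivity) (norm_nonneg _) two_ne_zero).1 h5

/-! ### slices -/

section slice

variable (A : Finset n)

/-- the coordinates not in `A` -/
abbrev Cm (A : Finset n) := {i : n // i ∉ A}

/-- extension by zero -/
def inc : (Cm A → ℂ) →ₗ[ℝ] (n → ℂ) where
  toFun v := fun i => if h : i ∉ A then v ⟨i, h⟩ else 0
  map_add' u v := by
    funext i
    by_cases h : i ∈ A <;> simp [h]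
  map_smul' c v := by
    funext i
    by_cases h : i ∈ A <;> simp [h]

/-- restriction -/
def pr : (n → ℂ) →ₗ[ℝ] (Cm A → ℂ) where
  toFun v := fun i => v i
  map_add' _ _ := rfl
  map_smul' _ _ := rfl

lemma inc_of {v : Cm A → ℂ} {i : n} (h : i ∉ A) : inc A v i = v ⟨i, h⟩ := by
  simp [inc, h]

lemma inc_mem {v : Cm A → ℂ} {i : n} (h : i ∈ A) : inc A v i = 0 := by
  simp [inc, h]

lemma inc_pr {v : n → ℂ} (h : ∀ i ∈ A, v i = 0) : inc A (pr A v) = v := by
  funext i
  by_cases hi : i ∈ A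
  · rw [inc_mem A hi, h i hi]
  · rw [inc_of A hi]; rfl

/-- the principal submatrix of the coordinates not in `A` -/
def sub (G : Matrix n n ℂ) : Matrix (Cm A) (Cm A) ℂ := G.submatrix Subtype.val Subtype.val

lemma sub_herm {G : Matrix n n ℂ} (h : G.IsHermitian) : (sub A G).IsHermitian :=
  h.submatrix _

lemma bf_inc (G : Matrix n n ℂ) (u v : Cm A → ℂ) :
    bf G (inc A u) (inc A v) = bf (sub A G) u v := by
  rw [bf_apply, bf_apply]
  congr 1
  simp only [dotProduct, Matrix.mulVec, Pi.star_apply]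
  have key : ∀ f : n → ℂ, (∀ i ∈ A, f i = 0) → ∑ i, f i = ∑ i : Cm A, f i := by
    intro f hf
    rw [← Finset.sum_subtype (Finset.univ.filter (· ∉ A)) (by simp) f]
    exact (Finset.sum_filter_of_ne (p := fun i => i ∉ A)
      fun i _ (h : f i ≠ 0) (hi : i ∈ A) => h (hf i hi)).symm
  rw [key _ fun i hi => by rw [inc_mem A hi]; simp]
  refine Finset.sum_congr rfl fun i _ => ?_
  rw [inc_of A i.2, key _ fun j hj => by rw [inc_mem A hj, mul_zero]]
  congr 1
  refine Finset.sum_congr rfl fun j _ => ?_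
  rw [inc_of A j.2]
  rfl

/-- index equivalence -/
def ixe : {x : (Σ _ : n, Fin 2) // x.1 ∉ A} ≃ (Σ _ : Cm A, Fin 2) where
  toFun x := ⟨⟨x.1.1, x.2⟩, x.1.2⟩
  invFun y := ⟨⟨y.1.1, y.2⟩, y.1.2⟩
  left_inv _ := rfl
  right_inv _ := rfl

lemma rb_apply (x : Σ _ : n, Fin 2) : rb n x = Pi.single x.1 (Complex.basisOneI x.2) := by
  unfold rb
  rw [Pi.basis_apply]

lemma rb_repr (v : n → ℂ) (x : Σ _ : n, Fin 2) :
    (rb n).repr v x = Complex.basisOneI.repr (v x.1) x.2 := by
  unfold rb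
  rw [Pi.basis_repr]

lemma inc_rb (x : Σ _ : Cm A, Fin 2) : inc A (rb (Cm A) x) = rb n ⟨x.1, x.2⟩ := by
  rw [rb_apply, rb_apply]
  funext i
  by_cases hi : i ∈ A
  · rw [inc_mem A hi, Pi.single_eq_of_ne]
    rintro rfl
    exact x.1.2 hi
  · rw [inc_of A hi]
    by_cases h : i = x.1
    · have : (⟨i, hi⟩ : Cm A) = x.1 := Subtype.ext h
      rw [this, Pi.single_eq_same, h]
      simp
    · rw [Pi.single_eq_of_ne, Pi.single_eq_of_ne h]
      intro h'
      exact h (congrArg Subtype.val h')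

/-- a real endomorphism which fixes the coordinates in `A` has the determinant of the other block -/
lemma det_block (L : (n → ℂ) →ₗ[ℝ] (n → ℂ)) (hL : ∀ v, ∀ i ∈ A, L v i = v i) :
    LinearMap.det L = LinearMap.det (pr A ∘ₗ L ∘ₗ inc A) := by
  rw [← LinearMap.det_toMatrix (rb n), ← LinearMap.det_toMatrix (rb (Cm A))]
  rw [Matrix.twoBlockTriangular_det _ (fun x : Σ _ : n, Fin 2 => x.1 ∉ A)]
  · have h1 : (Matrix.toSquareBlockProp (LinearMap.toMatrix (rb n) (rb n) L)
        fun x : Σ _ : n, Fin 2 => ¬ x.1 ∉ A) = 1 := by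
      ext x y
      rw [Matrix.toSquareBlockProp_def, Matrix.of_apply, LinearMap.toMatrix_apply, rb_repr,
        hL _ _ (not_not.1 x.2), rb_apply]
      by_cases h : x = y
      · subst h
        rw [Pi.single_eq_same, Module.Basis.repr_self, Finsupp.single_eq_same,
          Matrix.one_apply_eq]
      · rw [Matrix.one_apply_ne h]
        by_cases h' : x.1.1 = y.1.1
        · rw [h', Pi.single_eq_same, Module.Basis.repr_self, Finsupp.single_eq_of_ne]
          intro h''
          exact h (Subtype.ext (Sigma.ext h' (heq_of_eq h'')))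
        · rw [Pi.single_eq_of_ne h']
          simp
    rw [h1, Matrix.det_one, mul_one]
    rw [← Matrix.det_reindex_self (ixe A)]
    congr 1
    ext x y
    rw [Matrix.reindex_apply, Matrix.submatrix_apply, Matrix.toSquareBlockProp_def,
      Matrix.of_apply, LinearMap.toMatrix_apply, LinearMap.toMatrix_apply, rb_repr, rb_repr]
    simp only [LinearMap.comp_apply]
    rw [inc_rb]
    rfl
  · intro x hx y hy
    rw [LinearMap.toMatrix_apply, rb_repr, hL _ _ (not_not.1 hx), rb_apply,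
      Pi.single_eq_of_ne]
    · simp
    · rintro h
      exact hx (h ▸ hy)

/-- **slices**: `L` fixes the coordinates in `A`; the Gram matrices of the other coordinates change
by `|det L|`. -/
theorem det_slice {G₁ G₂ : Matrix n n ℂ} (h₁ : G₁.IsHermitian) (h₂ : G₂.IsHermitian)
    (L : (n → ℂ) →ₗ[ℝ] (n → ℂ)) (hL : ∀ v, ∀ i ∈ A, L v i = v i)
    (h : ∀ v, (∀ i ∈ A, v i = 0) → bf G₁ (L v) (L v) = bf G₂ v v) :
    |LinearMap.det L| * ‖(sub A G₁).det‖ = ‖(sub A G₂).det‖ := by
  rw [det_block A L hL]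
  refine det_hermitian (sub_herm A h₁) (sub_herm A h₂) _ fun v => ?_
  have h0 : ∀ i ∈ A, inc A v i = 0 := fun i hi => inc_mem A hi
  have h3 : inc A (pr A (L (inc A v))) = L (inc A v) :=
    inc_pr A fun i hi => by rw [hL _ _ hi, h0 i hi]
  rw [← bf_inc, ← bf_inc, LinearMap.comp_apply, LinearMap.comp_apply, h3]
  exact h _ h0

end slice

end Crest.Agent.R276.PdL571
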