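import Crest.Agent.R276.VCalcD_442

/-!
# R276, leaf VCalc (helper442): negative curvature of the Hodge metric

* `VHS.dB_dW_gg` : the second derivative of `g_{ij} = tr (θ_i θ̄_j)`;
* `exists_neg` (C1): the density `g_v = tr (θ_v θ̄_v)` satisfies `Δ log g ≥ c g` along complex lines.
-/

set_option autoImplicit false
set_option linter.unusedSectionVars false

open Set Filter Topology Matrix Finset InnerProductSpace Laplacian
open scoped ContDiff ComplexConjugate ComplexOrder

namespace Crest.Agent.R276.VCalc_442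

variable {X : Type*} [NormedAddCommGroup X] [NormedSpace ℂ X]
variable {ι : Type*} [Fintype ι] [DecidableEq ι]

/-- `g_{uv} = tr (θ_u θ̄_v)` -/
noncomputable def gg (w : ℕ) (P : ℕ → X → Matrix ι ι ℂ) (u v x : X) : ℂ :=
  (th w P u x * thb w P v x).trace

/-- the density `g_v = tr (θ_v θ̄_v) = |θ_v|²` of the Hodge metric in the direction `v` -/
noncomputable def gden (w : ℕ) (P : ℕ → X → Matrix ι ι ℂ) (v x : X) : ℝ := (gg w P v v x).re

section nm

attribute [local instance] Matrix.linftyOpNormedRing Matrix.linftyOpNormedAlgebra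

namespace VHS

variable {w : ℕ} {U : Set X} {S : Matrix ι ι ℂ} {P : ℕ → X → Matrix ι ι ℂ} {x : X}

theorem gg_eq (h : VHS w U S P) (hx : x ∈ U) (u v : X) :
    gg w P u v x = trL (dW (grOp w P) u x * tb (grOp w P) v x) := by
  unfold gg
  rw [h.th_eq hx, h.thb_eq hx]
  rfl

theorem gg_ev (h : VHS w U S P) (hx : x ∈ U) (u v : X) :
    gg w P u v =ᶠ[𝓝 x] fun y => trL (dW (grOp w P) u y * tb (grOp w P) v y) :=
  Filter.eventually_of_mem (h.op.mem_nhds hx) fun _ hy => h.gg_eq hy u v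

theorem sm_gg (h : VHS w U S P) (u v : X) : ContDiffOn ℝ ∞ (gg w P u v) U := by
  have h1 : ContDiffOn ℝ ∞ (fun y => trL (dW (grOp w P) u y * tb (grOp w P) v y)) U :=
    ((trL (ι := ι)).restrictScalars ℝ).contDiff.comp_contDiffOn
      ((h.gr.sm_th u).mul (h.gr.sm_tb v))
  exact h1.congr fun y hy => h.gg_eq hy u v

theorem sm_gden (h : VHS w U S P) (v : X) : ContDiffOn ℝ ∞ (gden w P v) U :=
  Complex.reCLM.contDiff.comp_contDiffOn (h.sm_gg v v)

theorem gg_self (h : VHS w U S P) (hx : x ∈ U) (v : X) : gg w P v v x = (gden w P v x : ℂ) := by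
  have h1 := (h.adj_th_tb hx v).trace_im (h.hmPos hx)
  apply Complex.ext
  · rfl
  · rw [h.gg_eq hx]
    exact h1

theorem gden_nonneg (h : VHS w U S P) (hx : x ∈ U) (v : X) : 0 ≤ gden w P v x := by
  have h1 := (h.adj_th_tb hx v).trace_re_nonneg (h.hmPos hx)
  unfold gden
  rw [h.gg_eq hx]
  exact h1

theorem gden_eq_zero (h : VHS w U S P) (hx : x ∈ U) {v : X} (h0 : gden w P v x = 0) :
    th w P v x = 0 := by
  rw [h.th_eq hx]
  refine (h.adj_th_tb hx v).eq_zero_of_trace (h.hmPos hx) ?_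
  unfold gden at h0
  rw [h.gg_eq hx] at h0
  exact h0

theorem gg_swap (h : VHS w U S P) (hx : x ∈ U) (u v : X) :
    gg w P v u x = star (gg w P u v x) := by
  rw [h.gg_eq hx, h.gg_eq hx]
  exact (h.adj_th_tb hx u).trace_swap (h.hmPos hx) (h.adj_th_tb hx v)

theorem cx_gden_ev (h : VHS w U S P) (hx : x ∈ U) (v : X) :
    cx (gden w P v) =ᶠ[𝓝 x] gg w P v v :=
  Filter.eventually_of_mem (h.op.mem_nhds hx) fun _ hy => (h.gg_self hy v).symm

theorem dW_gg (h : VHS w U S P) (hx : x ∈ U) (i j v : X) :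
    dW (gg w P i j) v x = trL (dW (dW (grOp w P) i) v x * tb (grOp w P) j x) := by
  exact (dW_congr (h.gg_ev hx i j) v).trans (h.gr.dW_G trL trL_comm hx i j v)

theorem dB_gg (h : VHS w U S P) (hx : x ∈ U) (i j v : X) :
    dB (gg w P i j) v x = trL (dW (grOp w P) i x * dB (tb (grOp w P) j) v x) := by
  exact (dB_congr (h.gg_ev hx i j) v).trans (h.gr.dB_G trL trL_comm hx i j v)

theorem dB_dW_gg (h : VHS w U S P) (hx : x ∈ U) (i j v : X) :
    dB (dW (gg w P i j) v) v x =
      trL ((tb (grOp w P) v x * dW (grOp w P) i x - dW (grOp w P) i x * tb (grOp w P) v x) *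
        (tb (grOp w P) j x * dW (grOp w P) v x - dW (grOp w P) v x * tb (grOp w P) j x)) +
      trL (dW (dW (grOp w P) i) v x * dB (tb (grOp w P) j) v x) := by
  have h1 : dW (gg w P i j) v =ᶠ[𝓝 x]
      dW (fun y => trL (dW (grOp w P) i y * tb (grOp w P) j y)) v := by
    have h2 := (h.gg_ev hx i j).eventually_nhds
    filter_upwards [h2] with y hy
    exact dW_congr hy v
  exact (dB_congr h1 v).trans (h.gr.dB_dW_G trL trL_comm hx i j v)

/-- the commutator `[θ̄_v, θ_v]` controls `g_v` -/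
theorem nil (h : VHS w U S P) {c : ℝ} (hc : ∀ K a a' : Matrix ι ι ℂ, K.PosDef → Adj K a a' →
    IsNilpotent a → c * (a * a').trace.re ^ 2 ≤ ((a' * a - a * a') * (a' * a - a * a')).trace.re)
    (hx : x ∈ U) (v : X) :
    c * gden w P v x ^ 2 ≤
      (trL ((tb (grOp w P) v x * dW (grOp w P) v x - dW (grOp w P) v x * tb (grOp w P) v x) *
        (tb (grOp w P) v x * dW (grOp w P) v x - dW (grOp w P) v x * tb (grOp w P) v x))).re := by
  have h1 := hc _ _ _ (h.hmPos hx) (h.adj_th_tb hx v) (h.low_nilpotent hx (h.low_th hx v))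
  unfold gden
  rw [h.gg_eq hx]
  exact h1

/-- the pointwise curvature inequality (C1) -/
theorem curv_gden (h : VHS w U S P) {c : ℝ} (hc : ∀ K a a' : Matrix ι ι ℂ, K.PosDef →
    Adj K a a' → IsNilpotent a →
    c * (a * a').trace.re ^ 2 ≤ ((a' * a - a * a') * (a' * a - a * a')).trace.re)
    (hx : x ∈ U) (v : X) :
    c * gden w P v x ^ 3 ≤ gden w P v x * (dB (dW (cx (gden w P v)) v) v x).re -
      ‖dW (cx (gden w P v)) v x‖ ^ 2 := by
  have hev := h.cx_gden_ev hx v
  have e1 : dW (cx (gden w P v)) v x = dW (gg w P v v) v x := dW_congr hev v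
  have e2 : dB (dW (cx (gden w P v)) v) v x = dB (dW (gg w P v v) v) v x := by
    refine dB_congr ?_ v
    filter_upwards [hev.eventually_nhds] with y hy
    exact dW_congr hy v
  rw [e1, e2, h.dW_gg hx, h.dB_dW_gg hx, Complex.add_re]
  have h1 := h.nil hc hx v
  have h2 := (h.adj_dth hx v v).cauchy (h.hmPos hx) (h.adj_th_tb hx v)
  have h3 : (dW (grOp w P) v x * tb (grOp w P) v x).trace.re = gden w P v x := by
    unfold gden
    rw [h.gg_eq hx]
    rfl
  have h4 := h.gden_nonneg hx v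
  rw [h3] at h2
  have h5 : ‖(trL (dW (dW (grOp w P) v) v x * tb (grOp w P) v x))‖ ^ 2 ≤
      (trL (dW (dW (grOp w P) v) v x * dB (tb (grOp w P) v) v x)).re * gden w P v x := h2
  have h6 := mul_le_mul_of_nonneg_left h1 h4
  nlinarith [h5, h6]

end VHS

end nm

/-- **(C1)** the Hodge metric has negative curvature: the constant depends on the rank only -/
theorem exists_neg (ι : Type*) [Fintype ι] [DecidableEq ι] : ∃ c : ℝ, 0 < c ∧
    ∀ (X : Type*) [NormedAddCommGroup X] [NormedSpace ℂ X] (w : ℕ) (U : Set X)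
      (S : Matrix ι ι ℂ) (P : ℕ → X → Matrix ι ι ℂ), VHS w U S P → ∀ z v : X,
      Ahl_25.Neg c (fun ζ : ℂ => gden w P v (z + ζ • v)) {ζ | z + ζ • v ∈ U} := by
  obtain ⟨c, hc, hcn⟩ := nil_bound_adj ι
  refine ⟨4 * c, by positivity, ?_⟩
  intro X _ _ w U S P h z v ζ hζ hne
  have hζ' : z + ζ • v ∈ U := hζ
  have hC2 : ContDiffAt ℝ 2 (gden w P v) (z + ζ • v) :=
    ((h.sm_gden v).contDiffAt (h.op.mem_nhds hζ')).of_le ENat.LEInfty.out
  rw [lap_log_line hC2 hne]
  have h1 := h.curv_gden hcn hζ' v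
  have h2 := h.gden_nonneg hζ' v
  have h3 : 0 < gden w P v (z + ζ • v) := lt_of_le_of_ne h2 (Ne.symm hne)
  rw [le_div_iff₀ (by positivity)]
  nlinarith [h1]

end Crest.Agent.R276.VCalc_442
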