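import Mathlib
import Crest.Agent.R276.PdB_571
import Crest.Agent.R276.PdL_571
import Crest.Agent.R276.VCalcE_442
import Crest.Agent.R276.IpcLoc_735

/-!
# R276, leaf PD (helper571): the Gram matrix of the period metric

* 442 level: `trace_dd`: `tr (D_u E · D_v E) = -2 Re g(u,v)`, `gg_expand`.
* 735 level: `gP V x` (Gram matrix of the period metric in the coordinate directions), `TE V x v` (real
  derivative of the grading operator in the frame at `x`), `bf_gP`: `Re (uᴴ gPᵀ v) = -½ Re tr (D_u E · D_v E)`.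
-/

set_option autoImplicit false
set_option linter.unusedSectionVars false

noncomputable section

open Set Filter Topology Matrix
open scoped ContDiff ComplexConjugate ComplexOrder
open Crest.Agent.R271.Ho51
open Crest.Agent.R276.Ipc735
open Crest.Agent.R276.PdL571

namespace Crest.Agent.R276.Pd571

/-! ### formulas in the formalism of `VCalc_442` -/

section level442

open VCalc_442

variable {Y : Type*} [NormedAddCommGroup Y] [NormedSpace ℂ Y]
variable {ι : Type*} [Fintype ι] [DecidableEq ι]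
variable {w : ℕ} {U : Set Y} {S : Matrix ι ι ℂ} {P : ℕ → Y → Matrix ι ι ℂ} {x : Y}

/-- real derivative, entrywise -/
def Df (F : Y → Matrix ι ι ℂ) (x v : Y) : Matrix ι ι ℂ :=
  Matrix.of fun i j => fderiv ℝ (fun y => F y i j) x v

lemma Df_eq (F : Y → Matrix ι ι ℂ) (x v : Y) : Df F x v = mW F v x + mB F v x := by
  ext i j
  simp only [Df, mW, mB, Matrix.of_apply, Matrix.add_apply]
  exact fderiv_eq _ _ _

lemma trace_low_low {E a b : Matrix ι ι ℂ} {s : ℂ} (hs : s ≠ 0) (ha : E * a - a * E = s • a)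
    (hb : E * b - b * E = s • b) : (a * b).trace = 0 := by
  have h1 : (E * (a * b) - (a * b) * E).trace = 0 := by
    rw [Matrix.trace_sub, Matrix.trace_mul_comm, sub_self]
  have h2 : E * (a * b) - (a * b) * E = (E * a - a * E) * b + a * (E * b - b * E) := by
    noncomm_ring
  rw [h2, ha, hb, smul_mul_assoc, mul_smul_comm, ← two_nsmul, Matrix.trace_smul,
    Matrix.trace_smul] at h1
  simpa [hs] using h1

attribute [local instance] Matrix.linftyOpNormedRing Matrix.linftyOpNormedAlgebra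

lemma mW_low (h : VCalc_442.VHS w U S P) (hx : x ∈ U) (v : Y) :
    grOp w P x * mW (grOp w P) v x - mW (grOp w P) v x * grOp w P x =
      (-1 : ℂ) • mW (grOp w P) v x := by
  rw [h.hor x hx v, neg_one_smul]

lemma mB_up (h : VCalc_442.VHS w U S P) (hx : x ∈ U) (v : Y) :
    grOp w P x * mB (grOp w P) v x - mB (grOp w P) v x * grOp w P x =
      (1 : ℂ) • mB (grOp w P) v x := by
  have h1 := h.gr.hB x hx v
  rw [← mB_eq_dB (h.dE hx)] at h1
  rw [h1, one_smul]

/-- `tr (D_u E · D_v E) = - (g(u,v) + g(v,u))` -/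
theorem trace_dd (h : VCalc_442.VHS w U S P) (hx : x ∈ U) (u v : Y) :
    (Df (grOp w P) x u * Df (grOp w P) x v).trace = - (gg w P u v x + gg w P v u x) := by
  rw [Df_eq, Df_eq, Matrix.add_mul, Matrix.mul_add, Matrix.mul_add]
  simp only [Matrix.trace_add]
  rw [trace_low_low (by norm_num) (mW_low h hx u) (mW_low h hx v),
    trace_low_low one_ne_zero (mB_up h hx u) (mB_up h hx v)]
  unfold gg th thb
  rw [Matrix.mul_neg, Matrix.mul_neg, Matrix.trace_neg, Matrix.trace_neg,
    Matrix.trace_mul_comm (mB (grOp w P) u x) (mW (grOp w P) v x)]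
  ring

theorem trace_dd_re (h : VCalc_442.VHS w U S P) (hx : x ∈ U) (u v : Y) :
    (Df (grOp w P) x u * Df (grOp w P) x v).trace.re = - 2 * (gg w P u v x).re := by
  rw [trace_dd h hx, h.gg_swap hx u v, Complex.neg_re, Complex.add_re]
  simp only [Complex.star_def, Complex.conj_re]
  ring

end level442

section coord

open VCalc_442

variable {m : ℕ} {ι : Type*} [Fintype ι] [DecidableEq ι]

lemma dB_sum_dir {f : (Fin m → ℂ) → ℂ} (v x : Fin m → ℂ) :
    VCalc_442.dB f v x = ∑ j, conj (v j) * VCalc_442.dB f (Pi.single j 1) x := by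
  have h1 : v = ∑ j, v j • (Pi.single j (1 : ℂ) : Fin m → ℂ) := by
    rw [← pi_eq_sum_univ' v]
  have h2 : ∀ s : Finset (Fin m), VCalc_442.dB f (∑ j ∈ s, v j • (Pi.single j (1 : ℂ) : Fin m → ℂ)) x
      = ∑ j ∈ s, conj (v j) * VCalc_442.dB f (Pi.single j 1) x := by
    intro s
    induction s using Finset.induction_on with
    | empty =>
      simp only [Finset.sum_empty]
      have := VCalc_442.dB_smul_dir f x 0 0
      simpa using this
    | insert j s hj ih =>
      rw [Finset.sum_insert hj, Finset.sum_insert hj, VCalc_442.dB_add_dir, ih,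
        VCalc_442.dB_smul_dir, smul_eq_mul]
  conv_lhs => rw [h1]
  exact h2 _

lemma mW_sum_dir (F : (Fin m → ℂ) → Matrix ι ι ℂ) (v x : Fin m → ℂ) :
    mW F v x = ∑ j, v j • mW F (Pi.single j 1) x := by
  ext i k
  simp only [mW, Matrix.of_apply, Matrix.sum_apply, Matrix.smul_apply, smul_eq_mul]
  exact dW_sum_dir v x

lemma mB_sum_dir (F : (Fin m → ℂ) → Matrix ι ι ℂ) (v x : Fin m → ℂ) :
    mB F v x = ∑ j, conj (v j) • mB F (Pi.single j 1) x := by
  ext i k
  simp only [mB, Matrix.of_apply, Matrix.sum_apply, Matrix.smul_apply, smul_eq_mul]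
  exact dB_sum_dir v x

/-- expansion of the period form in the coordinate directions -/
lemma gg_expand (w : ℕ) (P : ℕ → (Fin m → ℂ) → Matrix ι ι ℂ) (u v x : Fin m → ℂ) :
    gg w P u v x = ∑ k, conj (v k) * ∑ j, gg w P (Pi.single j 1) (Pi.single k 1) x * u j := by
  unfold gg th thb
  rw [mW_sum_dir _ u, mB_sum_dir _ v, ← Finset.sum_neg_distrib, Finset.mul_sum,
    Matrix.trace_sum]
  refine Finset.sum_congr rfl fun k _ => ?_
  rw [← smul_neg, mul_smul_comm, Matrix.trace_smul, smul_eq_mul, Finset.sum_mul,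
    Matrix.trace_sum]
  congr 1
  refine Finset.sum_congr rfl fun j _ => ?_
  rw [smul_mul_assoc, Matrix.trace_smul, smul_eq_mul, mul_comm]

end coord

/-! ### the frozen definitions -/

lemma Df_conj {Y : Type*} [NormedAddCommGroup Y] [NormedSpace ℂ Y] {N : ℕ}
    (M M' : Matrix (Fin N) (Fin N) ℂ) {F : Y → Matrix (Fin N) (Fin N) ℂ} {z : Y}
    (hF : ∀ i j, DifferentiableAt ℝ (fun y => F y i j) z) (u : Y) :
    Df (fun y => M * F y * M') z u = M * Df F z u * M' := by
  ext i j
  have h2 : (fun y => (M * F y * M') i j) = fun y => ∑ l, ∑ k, M i k * F y k l * M' l j := by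
    funext y
    simp only [Matrix.mul_apply, Finset.sum_mul]
  simp only [Df, Matrix.of_apply]
  rw [h2, fderiv_fun_sum (fun l _ => DifferentiableAt.fun_sum fun k _ =>
    ((hF k l).const_mul _).mul_const _)]
  rw [_root_.sum_apply]
  simp only [Matrix.mul_apply, Finset.sum_mul, Matrix.of_apply]
  refine Finset.sum_congr rfl fun l _ => ?_
  rw [fderiv_fun_sum (fun k _ => ((hF k l).const_mul _).mul_const _), _root_.sum_apply]
  refine Finset.sum_congr rfl fun k _ => ?_
  rw [fderiv_mul_const ((hF k l).const_mul _), fderiv_const_mul (hF k l)]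
  simp only [_root_.smul_apply, smul_eq_mul]
  ring

lemma Df_congr {Y : Type*} [NormedAddCommGroup Y] [NormedSpace ℂ Y] {N : ℕ}
    {F F' : Y → Matrix (Fin N) (Fin N) ℂ} {z : Y} (h : F =ᶠ[𝓝 z] F') (u : Y) :
    Df F z u = Df F' z u := by
  ext i j
  simp only [Df, Matrix.of_apply]
  have h1 : (fun y => F y i j) =ᶠ[𝓝 z] fun y => F' y i j := by
    filter_upwards [h] with y hy
    rw [hy]
  rw [h1.fderiv_eq]

lemma mW_congr {Y : Type*} [NormedAddCommGroup Y] [NormedSpace ℂ Y] {N : ℕ}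
    {F F' : Y → Matrix (Fin N) (Fin N) ℂ} {z : Y} (h : F =ᶠ[𝓝 z] F') (u : Y) :
    VCalc_442.mW F u z = VCalc_442.mW F' u z := by
  ext i j
  simp only [VCalc_442.mW, Matrix.of_apply]
  refine VCalc_442.dW_congr ?_ u
  filter_upwards [h] with y hy
  rw [hy]

lemma mB_congr {Y : Type*} [NormedAddCommGroup Y] [NormedSpace ℂ Y] {N : ℕ}
    {F F' : Y → Matrix (Fin N) (Fin N) ℂ} {z : Y} (h : F =ᶠ[𝓝 z] F') (u : Y) :
    VCalc_442.mB F u z = VCalc_442.mB F' u z := by
  ext i j
  simp only [VCalc_442.mB, Matrix.of_apply]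
  refine VCalc_442.dB_congr ?_ u
  filter_upwards [h] with y hy
  rw [hy]

section level735

variable {m N w : ℕ} {X : Type*} [TopologicalSpace X] [RDom m X]

/-- `∂/∂\bar z_j` at `z` of the endomorphism field `A`, in the frame at `z` -/
def dMb {N : ℕ} (P : X → X → GL (Fin N) ℤ) (A : X → Matrix (Fin N) (Fin N) ℂ) (j : Fin m) (z : X) :
    Matrix (Fin N) (Fin N) ℂ := Matrix.of fun i k => db j (fun y => lM P A z y i k) z

variable (V : Ipc735.VHS m X N w)

/-- real derivative at `x` of the grading operator in the frame at `x` -/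
def TE (x : X) (v : Fin m → ℂ) : Mt N := Matrix.of fun i k => D (fun y => lM V.P V.E x y i k) x v

/-- Gram matrix `g_{jk} = tr (θ_j θ̄_k) = - tr (∂_j E · ∂̄_k E)` of the period metric -/
def gP (x : X) : Matrix (Fin m) (Fin m) ℂ :=
  Matrix.of fun j k => - (dM V.P V.E j x * dMb V.P V.E k x).trace

/-- the grading operator in the frame and in the chart at `z` -/
def EL (z : X) (c : Fin m → ℂ) : Mt N := lM V.P V.E z ((ch z).symm c)

/-- the local projectors -/
def PL (z : X) (p : ℕ) (c : Fin m → ℂ) : Mt N := hq w (EL V z c) p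

lemma TE_eq (x : X) (v : Fin m → ℂ) : TE V x v = Df (EL V x) (cp x) v := rfl

lemma dM_eq (x : X) (j : Fin m) :
    dM V.P V.E j x = VCalc_442.mW (EL V x) (Pi.single j 1) (cp x) := by
  ext i k
  simp only [dM, VCalc_442.mW, Matrix.of_apply]
  rw [dz_eq_dW j _ (isCh_ch x) (mem_ch x)]
  rfl

lemma dMb_eq (x : X) (j : Fin m) :
    dMb V.P V.E j x = VCalc_442.mB (EL V x) (Pi.single j 1) (cp x) := by
  ext i k
  simp only [dMb, VCalc_442.mB, Matrix.of_apply]
  rw [db_eq_dB j _ (isCh_ch x) (mem_ch x)]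
  rfl

/-- a good neighbourhood of `cp z` in the chart at `z` -/
structure Nb (z : X) (U : Set (Fin m → ℂ)) : Prop where
  op : IsOpen U
  sub : U ⊆ (ch z).target
  coc : ∀ c ∈ U, ∀ d ∈ U, V.P z ((ch z).symm c) * V.P ((ch z).symm c) ((ch z).symm d) =
    V.P z ((ch z).symm d)
  trS : ∀ c ∈ U, V.S ((ch z).symm c) =
    (cm (V.P z ((ch z).symm c)))ᴴ * V.S z * cm (V.P z ((ch z).symm c))
  loc : VCalc_442.VHS w U (V.S z) (PL V z)

lemma exists_Nb (z : X) : ∃ U, cp z ∈ U ∧ Nb V z U := by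
  obtain ⟨U, h1, h2, h3, h4, h5, h6⟩ := VHS.local V z
  exact ⟨U, h2, h1, h3, h4, h5, h6⟩

variable {V}

namespace Nb

variable {z : X} {U : Set (Fin m → ℂ)}

lemma gr (h : Nb V z U) {c : Fin m → ℂ} (hc : c ∈ U) :
    VCalc_442.grOp w (PL V z) c = EL V z c :=
  grOp_hq ((V.hs _).lM (h.trS c hc))

lemma gr_ev (h : Nb V z U) {c : Fin m → ℂ} (hc : c ∈ U) :
    VCalc_442.grOp w (PL V z) =ᶠ[𝓝 c] EL V z := by
  filter_upwards [h.op.mem_nhds hc] with d hd
  exact h.gr hd

lemma FF_eq (h : Nb V z U) {c : Fin m → ℂ} (hc : c ∈ U) :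
    FF V z ((ch z).symm c) = (EL V z c, V.S z) := by
  refine Prod.ext rfl ?_
  show (cm (V.P z _)⁻¹)ᴴ * V.S ((ch z).symm c) * cm (V.P z _)⁻¹ = V.S z
  rw [h.trS c hc]
  calc (cm (V.P z ((ch z).symm c))⁻¹)ᴴ * ((cm (V.P z ((ch z).symm c)))ᴴ * V.S z *
        cm (V.P z ((ch z).symm c))) * cm (V.P z ((ch z).symm c))⁻¹
      = (cm (V.P z ((ch z).symm c)) * cm (V.P z ((ch z).symm c))⁻¹)ᴴ * V.S z *
        (cm (V.P z ((ch z).symm c)) * cm (V.P z ((ch z).symm c))⁻¹) := by
        simp only [Matrix.conjTranspose_mul, Matrix.mul_assoc]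
    _ = V.S z := by rw [Pd571.cm_mul_inv]; simp

lemma smEL (h : Nb V z U) (i j : Fin N) : ContDiffOn ℝ ∞ (fun c => EL V z c i j) U := by
  have h1 := h.loc.smE
  rw [VCalc_442.contDiffOn_matrix] at h1
  exact (h1 i j).congr fun c hc => by rw [h.gr hc]

lemma diffEL (h : Nb V z U) {c : Fin m → ℂ} (hc : c ∈ U) (i j : Fin N) :
    DifferentiableAt ℝ (fun c => EL V z c i j) c :=
  ((h.smEL i j).contDiffAt (h.op.mem_nhds hc)).differentiableAt (by simp)

/-- the field in the frame at `z` in terms of the frame at a nearby point -/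
lemma EL_change (h : Nb V z U) {c : Fin m → ℂ} (hc : c ∈ U) :
    EL V z =ᶠ[𝓝 c] fun d => cm (V.P z ((ch z).symm c)) * EL V ((ch z).symm c) d *
      cm (V.P z ((ch z).symm c))⁻¹ := by
  set x := (ch z).symm c with hx
  have hxs : x ∈ (ch z).source := (ch z).map_target (h.sub hc)
  have hcx : cp x = c := (isCh_ch z).cp_symm (h.sub hc)
  have h1 : ∀ᶠ d in 𝓝 c, (ch z).symm d = (ch x).symm d := by
    have := (isCh_ch z).germ (isCh_ch x) hxs (mem_ch x)
    rwa [hcx] at this
  filter_upwards [h.op.mem_nhds hc, h1] with d hd hd1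
  unfold EL lM
  rw [← hd1, ← h.coc c hc d hd, Pd571.cm_mul, _root_.mul_inv_rev, Pd571.cm_mul]
  simp only [Matrix.mul_assoc]
  rfl

lemma diff_x (h : Nb V z U) {c : Fin m → ℂ} (hc : c ∈ U) (i j : Fin N) :
    DifferentiableAt ℝ (fun d => EL V ((ch z).symm c) d i j) c := by
  obtain ⟨W, hW, hN⟩ := exists_Nb V ((ch z).symm c)
  rw [(isCh_ch z).cp_symm (h.sub hc)] at hW
  exact hN.diffEL hW i j

/-- real derivative in the frame at `z` at a nearby point -/
lemma Df_EL (h : Nb V z U) {c : Fin m → ℂ} (hc : c ∈ U) (v : Fin m → ℂ) :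
    Df (EL V z) c v = cm (V.P z ((ch z).symm c)) * TE V ((ch z).symm c) v *
      cm (V.P z ((ch z).symm c))⁻¹ := by
  rw [Df_congr (h.EL_change hc), Df_conj _ _ (h.diff_x hc), TE_eq,
    (isCh_ch z).cp_symm (h.sub hc)]

lemma mW_EL (h : Nb V z U) {c : Fin m → ℂ} (hc : c ∈ U) (j : Fin m) :
    VCalc_442.mW (EL V z) (Pi.single j 1) c = cm (V.P z ((ch z).symm c)) *
      dM V.P V.E j ((ch z).symm c) * cm (V.P z ((ch z).symm c))⁻¹ := by
  rw [mW_congr (h.EL_change hc), Ipc735.mW_conj _ _ (h.diff_x hc), dM_eq,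
    (isCh_ch z).cp_symm (h.sub hc)]

lemma mB_EL (h : Nb V z U) {c : Fin m → ℂ} (hc : c ∈ U) (j : Fin m) :
    VCalc_442.mB (EL V z) (Pi.single j 1) c = cm (V.P z ((ch z).symm c)) *
      dMb V.P V.E j ((ch z).symm c) * cm (V.P z ((ch z).symm c))⁻¹ := by
  have h1 := h.Df_EL hc (Pi.single j 1)
  have h2 := h.mW_EL hc j
  rw [Df_eq, h2] at h1
  have h3 : TE V ((ch z).symm c) (Pi.single j 1) = dM V.P V.E j ((ch z).symm c) +
      dMb V.P V.E j ((ch z).symm c) := by
    rw [TE_eq, Df_eq, dM_eq, dMb_eq]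
  rw [h3, Matrix.mul_add, Matrix.add_mul] at h1
  exact add_left_cancel h1

/-- the Gram matrix in the local frame -/
lemma gg_eq (h : Nb V z U) {c : Fin m → ℂ} (hc : c ∈ U) (j k : Fin m) :
    VCalc_442.gg w (PL V z) (Pi.single j 1) (Pi.single k 1) c = gP V ((ch z).symm c) j k := by
  unfold VCalc_442.gg VCalc_442.th VCalc_442.thb
  rw [mW_congr (h.gr_ev hc), mB_congr (h.gr_ev hc), h.mW_EL hc, h.mB_EL hc]
  simp only [gP, Matrix.of_apply]
  rw [Matrix.mul_neg, Matrix.trace_neg]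
  congr 1
  set g := cm (V.P z ((ch z).symm c))
  set g' := cm (V.P z ((ch z).symm c))⁻¹
  set A := dM V.P V.E j ((ch z).symm c)
  set B := dMb V.P V.E k ((ch z).symm c)
  have h4 : g' * g = 1 := Pd571.cm_inv_mul _
  have h5 : g * A * g' * (g * B * g') = g * (A * B) * g' := by
    calc g * A * g' * (g * B * g') = g * A * (g' * g) * B * g' := by noncomm_ring
      _ = _ := by rw [h4]; noncomm_ring
  rw [h5, Matrix.trace_mul_comm, ← Matrix.mul_assoc, h4, Matrix.one_mul]

end Nb

variable (V)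

/-- the coefficients of the Gram matrix as periods of the 442 form at the centre -/
lemma gP_eq (x : X) {U : Set (Fin m → ℂ)} (h : Nb V x U) (hx : cp x ∈ U) (j k : Fin m) :
    gP V x j k = VCalc_442.gg w (PL V x) (Pi.single j 1) (Pi.single k 1) (cp x) := by
  rw [h.gg_eq hx, symm_cp]

lemma gP_herm (x : X) : (gP V x).IsHermitian := by
  obtain ⟨U, hx, h⟩ := exists_Nb V x
  ext j k
  rw [Matrix.conjTranspose_apply, gP_eq V x h hx, gP_eq V x h hx, ← h.loc.gg_swap hx]

lemma gg_quad (x : X) {U : Set (Fin m → ℂ)} (h : Nb V x U) (hx : cp x ∈ U) (u v : Fin m → ℂ) :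
    VCalc_442.gg w (PL V x) u v (cp x) = star v ⬝ᵥ (gP V x)ᵀ *ᵥ u := by
  rw [gg_expand]
  simp only [dotProduct, Matrix.mulVec, Pi.star_apply, Matrix.transpose_apply]
  refine Finset.sum_congr rfl fun k _ => ?_
  rw [Complex.star_def]
  congr 1
  refine Finset.sum_congr rfl fun j _ => ?_
  rw [gP_eq V x h hx]

lemma Df_gr (x : X) {U : Set (Fin m → ℂ)} (h : Nb V x U) (hx : cp x ∈ U) (v : Fin m → ℂ) :
    Df (VCalc_442.grOp w (PL V x)) (cp x) v = TE V x v := by
  rw [Df_congr (h.gr_ev hx)]; rfl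

/-- **the period form through the real derivative**: `Re (uᴴ gᵀ v) = -½ Re tr (D_u E · D_v E)` -/
theorem bf_gP (x : X) (u v : Fin m → ℂ) :
    bf (gP V x)ᵀ u v = -(1 / 2) * (TE V x u * TE V x v).trace.re := by
  obtain ⟨U, hx, h⟩ := exists_Nb V x
  have h1 := trace_dd_re h.loc hx v u
  rw [Df_gr V x h hx, Df_gr V x h hx, gg_quad V x h hx] at h1
  rw [bf_apply, Matrix.trace_mul_comm, h1]
  ring

lemma gP_transpose_posSemidef (x : X) : ((gP V x)ᵀ).PosSemidef := by
  obtain ⟨U, hx, h⟩ := exists_Nb V x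
  refine Matrix.PosSemidef.of_dotProduct_mulVec_nonneg (gP_herm V x).transpose fun v => ?_
  rw [← gg_quad V x h hx, h.loc.gg_self hx]
  exact_mod_cast h.loc.gden_nonneg hx v

lemma gP_posSemidef (x : X) : (gP V x).PosSemidef := by
  have := (gP_transpose_posSemidef V x).transpose
  rwa [Matrix.transpose_transpose] at this

section nrm

attribute [local instance] Matrix.linftyOpNormedRing Matrix.linftyOpNormedAlgebra

lemma TE_eq_zero_iff (x : X) (v : Fin m → ℂ) : TE V x v = 0 ↔ bf (gP V x)ᵀ v v = 0 := by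
  constructor
  · intro h0
    rw [bf_gP, h0]; simp
  · intro h0
    obtain ⟨U, hx, h⟩ := exists_Nb V x
    rw [bf_apply, ← gg_quad V x h hx] at h0
    have h1 := h.loc.gden_eq_zero hx (v := v) h0
    have h2 : VCalc_442.mB (VCalc_442.grOp w (PL V x)) v (cp x) = 0 := by
      have h3 := h.loc.adj_th hx v
      rw [← h.loc.th_eq hx, h1, Matrix.conjTranspose_zero, Matrix.zero_mul] at h3
      have h4 := h.loc.S_cancel hx (a := 0) (b := VCalc_442.dB (VCalc_442.grOp w (PL V x)) v (cp x))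
        (by rw [Matrix.mul_zero]; exact h3)
      rw [VCalc_442.mB_eq_dB (h.loc.dE hx)]
      exact h4.symm
    rw [← Df_gr V x h hx, Df_eq, h2, add_zero]
    exact h1

end nrm

end level735

end Crest.Agent.R276.Pd571
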