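import Mathlib
import Crest.Agent.R276.CmpB_595
import Crest.Agent.R276.PdC_571

/-!
Row 276 (S0419), VERT (helper595): the vertical vectors of `M_L → M_T` are the kernel of the period
metric, in the coordinates `(t, z'')` of the tower.

Input (output of the period field theorem, helper409): the old model `M` of `L`, the VHS `V` on it,
fields `f i` (`i ∈ α`) with `f i (e.symm (inl j)) = δ_ij`, killed by `gP`, `det gP_ββ ≠ 0`; the new
coordinates `z' = (t, z'')` with `D_{f i} t_k = 0`.
-/

set_option autoImplicit false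
set_option linter.unusedSectionVars false

open Topology Filter Set Matrix ComplexConjugate
open scoped ComplexOrder

noncomputable section

namespace Crest.Agent.R276.Vert_595

open Crest.Agent.R271.Defs710 Crest.Agent.R271.Alg255 Crest.Agent.R271.Rd692
open Crest.Agent.R271.Ho51 Crest.Agent.R276.Ipc735
open Crest.Agent.R276.AB2_590 Crest.Agent.R276.Mod1_987 Crest.Agent.R276.PfDer_676
open Crest.Agent.R276.VPull_327 Crest.Agent.R276.Cmp_595

/-! ### the period metric of a pull back -/

section gP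

variable {r m N w : ℕ} {Y X : Type*} [TopologicalSpace Y] [RDom r Y] [TopologicalSpace X]
  [RDom m X] (V : VHS m X N w) {φ : Y → X} (hφ : HMap φ)

theorem dMb_pull_E (z : Y) (j : Fin r) :
    Pd571.dMb (pull V hφ).P (pull V hφ).E j z =
      ∑ l, conj (J φ z j l) • Pd571.dMb V.P V.E l (φ z) := by
  ext i k
  rw [Matrix.sum_apply]
  exact (hφ z).db_comp (SmAt.differentiableAt (V.smE (φ z) i k)) j

/-- **transformation of the period metric** -/
theorem gP_pull (z : Y) (j k : Fin r) :
    Pd571.gP (pull V hφ) z j k =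
      ∑ p, ∑ q, J φ z j p * conj (J φ z k q) * Pd571.gP V (φ z) p q := by
  simp only [Pd571.gP, Matrix.of_apply]
  rw [dM_pull_E, dMb_pull_E, Finset.sum_mul, Matrix.trace_sum, ← Finset.sum_neg_distrib]
  refine Finset.sum_congr rfl fun p _ => ?_
  rw [Finset.mul_sum, Matrix.trace_sum, ← Finset.sum_neg_distrib]
  refine Finset.sum_congr rfl fun q _ => ?_
  rw [Matrix.smul_mul, Matrix.mul_smul, Matrix.trace_smul, Matrix.trace_smul, smul_eq_mul,
    smul_eq_mul]
  ring

/-- the row `∑_j w_j g_{jk}` of the pull back -/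
theorem row_pull (z : Y) (w' : Fin r → ℂ) (k : Fin r) :
    ∑ j, w' j * Pd571.gP (pull V hφ) z j k =
      ∑ q, conj (J φ z k q) * ∑ p, jac φ z w' p * Pd571.gP V (φ z) p q := by
  simp only [gP_pull, jac_apply, Finset.mul_sum, Finset.sum_mul]
  rw [Finset.sum_comm]
  calc ∑ p, ∑ j, ∑ q, w' j * (J φ z j p * conj (J φ z k q) * Pd571.gP V (φ z) p q)
      = ∑ p, ∑ q, ∑ j, w' j * (J φ z j p * conj (J φ z k q) * Pd571.gP V (φ z) p q) :=
        Finset.sum_congr rfl fun p _ => Finset.sum_comm
    _ = ∑ q, ∑ p, ∑ j, w' j * (J φ z j p * conj (J φ z k q) * Pd571.gP V (φ z) p q) :=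
        Finset.sum_comm
    _ = _ := by
        refine Finset.sum_congr rfl fun q _ => Finset.sum_congr rfl fun p _ =>
          Finset.sum_congr rfl fun j _ => ?_
        ring

end gP

/-! ### linear algebra at a point -/

section lin

variable {ρ a : ℕ} {α β : Type} [Fintype α] [Fintype β]

/-- vectors of the left kernel of a matrix `g` are combinations of the rows `F i`, if
`F i (e.symm (inl j)) = δ_ij` and the block `g_ββ` is invertible -/
theorem left_ker {m : ℕ} [DecidableEq α] [DecidableEq β] (e : Fin m ≃ α ⊕ β)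
    (g : Matrix (Fin m) (Fin m) ℂ) (F : α → Fin m → ℂ)
    (hF1 : ∀ i j, F i (e.symm (Sum.inl j)) = if i = j then 1 else 0)
    (hF0 : ∀ i k, ∑ j, F i j * g j k = 0)
    (hdet : (g.submatrix (e.symm ∘ Sum.inr) (e.symm ∘ Sum.inr)).det ≠ 0) (u : Fin m → ℂ) :
    (∀ k, ∑ j, u j * g j k = 0) ↔ u = ∑ i, u (e.symm (Sum.inl i)) • F i := by
  constructor
  · intro hu
    set u' : Fin m → ℂ := u - ∑ i, u (e.symm (Sum.inl i)) • F i with hu'
    have h1 : ∀ j : α, u' (e.symm (Sum.inl j)) = 0 := by
      intro j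
      rw [hu', Pi.sub_apply, Finset.sum_apply]
      simp [hF1]
    have h2 : ∀ k, ∑ j, u' j * g j k = 0 := by
      intro k
      have h3 : ∀ j, u' j * g j k = u j * g j k -
          ∑ i, u (e.symm (Sum.inl i)) * (F i j * g j k) := by
        intro j
        rw [hu', Pi.sub_apply, Finset.sum_apply, sub_mul, Finset.sum_mul]
        congr 1
        refine Finset.sum_congr rfl fun i _ => ?_
        rw [Pi.smul_apply, smul_eq_mul]
        ring
      simp only [h3]
      rw [Finset.sum_sub_distrib, hu k, Finset.sum_comm, zero_sub, neg_eq_zero]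
      refine Finset.sum_eq_zero fun i _ => ?_
      rw [← Finset.mul_sum, hF0, mul_zero]
    have h4 : (fun b : β => u' (e.symm (Sum.inr b))) ᵥ*
        (g.submatrix (e.symm ∘ Sum.inr) (e.symm ∘ Sum.inr)) = 0 := by
      funext k
      rw [Matrix.vecMul, dotProduct]
      have h5 := h2 (e.symm (Sum.inr k))
      rw [← e.symm.sum_comp, Fintype.sum_sum_type] at h5
      simp only [h1, zero_mul, Finset.sum_const_zero, zero_add] at h5
      exact h5
    have h6 : (fun b : β => u' (e.symm (Sum.inr b))) = 0 := by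
      by_contra hne
      exact hdet (Matrix.exists_vecMul_eq_zero_iff.mp ⟨_, hne, h4⟩)
    have h7 : u' = 0 := by
      funext j
      obtain ⟨s, rfl⟩ := e.symm.surjective j
      rcases s with s | s
      · exact h1 s
      · exact congrFun h6 s
    exact sub_eq_zero.mp h7
  · intro hu k
    rw [hu]
    simp only [Finset.sum_apply, Pi.smul_apply, smul_eq_mul, Finset.sum_mul]
    rw [Finset.sum_comm]
    refine Finset.sum_eq_zero fun i _ => ?_
    have : ∀ j, u (e.symm (Sum.inl i)) * F i j * g j k =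
        u (e.symm (Sum.inl i)) * (F i j * g j k) := fun j => by ring
    simp only [this]
    rw [← Finset.mul_sum, hF0, mul_zero]

/-- `a` vectors `G i` with zero `t`-part, whose images under an injective linear map are
independent, span the vertical space -/
theorem vertical_span (A : (Fin (ρ + a) → ℂ) →ₗ[ℂ] (Fin (ρ + a) → ℂ)) (hA : Function.Injective A)
    (G F : α → Fin (ρ + a) → ℂ) (hGF : ∀ i, A (G i) = F i) (hcard : Fintype.card α = a)
    (hG : ∀ i k, G i (Fin.castAdd a k) = 0) (hF : LinearIndependent ℂ F) (w : Fin (ρ + a) → ℂ) :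
    (∀ k, w (Fin.castAdd a k) = 0) ↔ ∃ c : α → ℂ, A w = ∑ i, c i • F i := by
  have key : ∀ c : α → ℂ, A (∑ i, c i • G i) = ∑ i, c i • F i := by
    intro c
    rw [map_sum]
    exact Finset.sum_congr rfl fun i _ => by rw [map_smul, hGF]
  constructor
  · intro hw
    let Φ : (α → ℂ) →ₗ[ℂ] (Fin a → ℂ) :=
      { toFun := fun c k => (∑ i, c i • G i) (Fin.natAdd ρ k)
        map_add' := by
          intro c c'
          funext k
          simp [Finset.sum_apply, add_mul, Finset.sum_add_distrib]
        map_smul' := by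
          intro x c
          funext k
          simp [Finset.sum_apply, Finset.mul_sum, mul_assoc] }
    have hΦ : Function.Injective Φ := by
      rw [injective_iff_map_eq_zero]
      intro c hc
      have h1 : ∑ i, c i • G i = 0 := by
        funext j
        refine Fin.addCases (fun k => ?_) (fun k => ?_) j
        · rw [Finset.sum_apply]
          exact Finset.sum_eq_zero fun i _ => by rw [Pi.smul_apply, hG, smul_zero]
        · exact congrFun hc k
      have h2 : ∑ i, c i • F i = 0 := by rw [← key, h1, map_zero]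
      funext i
      exact Fintype.linearIndependent_iff.mp hF c h2 i
    have hsurj : Function.Surjective Φ :=
      (LinearMap.injective_iff_surjective_of_finrank_eq_finrank (by
        simp [hcard])).mp hΦ
    obtain ⟨c, hc⟩ := hsurj fun k => w (Fin.natAdd ρ k)
    refine ⟨c, ?_⟩
    rw [← key]
    congr 1
    funext j
    refine Fin.addCases (fun k => ?_) (fun k => ?_) j
    · rw [hw, Finset.sum_apply]
      exact (Finset.sum_eq_zero fun i _ => by rw [Pi.smul_apply, hG, smul_zero]).symm
    · exact (congrFun hc k).symm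
  · rintro ⟨c, hc⟩ k
    rw [← key] at hc
    rw [hA hc, Finset.sum_apply]
    exact Finset.sum_eq_zero fun i _ => by rw [Pi.smul_apply, hG, smul_zero]

end lin

/-! ### the models -/

section main

variable {L : Type} [Field L] [Algebra ℂ L] {ρ a N w : ℕ} {M M' : Mdl L (ρ + a)}
  {α β : Type} [Fintype α] [Fintype β] [DecidableEq α] [DecidableEq β]

/-- a derivation of `L` in the two coordinate systems -/
theorem sum_Jm (h : IsLoc M.B M'.B) (f : Fin (ρ + a) → M.B) (z : M'.Pts) :
    ∃ G : Fin (ρ + a) → ℂ,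
      (∀ j, ∃ g : M'.B, (g : L) = Df M (fun l => (f l : L)) (M'.zK j) ∧ G j = z g) ∧
      ∀ k, jac (rs h : M'.Pts → M.Pts) z G k = rs h z (f k) := by
  have hmem : ∀ j, Df M (fun l => (f l : L)) (M'.zK j) ∈ M'.B := by
    intro j
    rw [Df_apply]
    exact Subalgebra.sum_mem _ fun l _ => mul_mem (h.le (f l).2) (dK_mem' h l (M'.z j).2)
  refine ⟨fun j => z ⟨_, hmem j⟩, fun j => ⟨⟨_, hmem j⟩, rfl, rfl⟩, fun k => ?_⟩
  rw [jac_rs, rs_apply]
  have h1 : (⟨f k, h.le (f k).2⟩ : M'.B) = ∑ j, ⟨_, hmem j⟩ * Jm h j k := by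
    apply Subtype.ext
    have h2 := congrArg (fun D : Derivation ℂ L L => D (M.zK k))
      (eq_Df M' (Df M (fun l => (f l : L))))
    simp only [Df_z] at h2
    rw [Df_apply] at h2
    change (f k : L) = _
    rw [h2]
    push_cast
    refine Finset.sum_congr rfl fun j _ => ?_
    congr 1
    exact dK_coe M' j ⟨M.z k, h.le (M.z k).2⟩
  rw [h1, map_sum]
  exact Finset.sum_congr rfl fun j _ => by rw [map_mul]

/-- **vertical vectors, algebraic form** -/
theorem vertical_iff (h : IsLoc M.B M'.B) (e : Fin (ρ + a) ≃ α ⊕ β) (f : α → Fin (ρ + a) → M.B)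
    (hcard : Fintype.card α = a)
    (hf1 : ∀ i j, f i (e.symm (Sum.inl j)) = if i = j then 1 else 0)
    (ht : ∀ i k, Df M (fun l => (f i l : L)) (M'.zK (Fin.castAdd a k)) = 0)
    (z : M'.Pts) (v : Fin (ρ + a) → ℂ) :
    (∀ k, v (Fin.castAdd a k) = 0) ↔ ∃ c : α → ℂ, ∀ k,
      jac (rs h : M'.Pts → M.Pts) z v k = ∑ i, c i * rs h z (f i k) := by
  choose G hG1 hG2 using fun i : α => sum_Jm h (f i) z
  let F : α → Fin (ρ + a) → ℂ := fun i k => rs h z (f i k)
  have hF1 : ∀ i j, F i (e.symm (Sum.inl j)) = if i = j then 1 else 0 := by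
    intro i j
    simp only [F, hf1]
    split_ifs
    · exact map_one _
    · exact map_zero _
  have hF : LinearIndependent ℂ F := by
    rw [Fintype.linearIndependent_iff]
    intro c hc j
    have h1 := congrFun hc (e.symm (Sum.inl j))
    rw [Finset.sum_apply] at h1
    simpa [hF1] using h1
  have hA : Function.Injective (jac (rs h : M'.Pts → M.Pts) z :
      (Fin (ρ + a) → ℂ) →ₗ[ℂ] (Fin (ρ + a) → ℂ)) := (jacEquiv h z).injective
  have h1 := vertical_span (ρ := ρ) (a := a) _ hA G F (fun i => funext fun k => hG2 i k) hcard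
    (fun i k => by
      obtain ⟨g, hg, hgz⟩ := hG1 i (Fin.castAdd a k)
      rw [hgz]
      have : g = 0 := Subtype.ext (hg.trans (ht i k))
      rw [this, map_zero]) hF v
  rw [h1]
  constructor
  · rintro ⟨c, hc⟩
    refine ⟨c, fun k => ?_⟩
    have h2 := congrFun hc k
    rw [Finset.sum_apply] at h2
    exact h2
  · rintro ⟨c, hc⟩
    refine ⟨c, funext fun k => ?_⟩
    rw [Finset.sum_apply]
    exact hc k

variable (V : VHS (ρ + a) M.Pts N w)

/-- **VERT**: the vertical vectors of `M_L → M_T` are the kernel of the period map -/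
theorem vertical_iff_gP (h : IsLoc M.B M'.B) (e : Fin (ρ + a) ≃ α ⊕ β)
    (f : α → Fin (ρ + a) → M.B) (hcard : Fintype.card α = a)
    (hf1 : ∀ i j, f i (e.symm (Sum.inl j)) = if i = j then 1 else 0)
    (hf0 : ∀ (y : M.Pts) i k, ∑ j, y (f i j) * Pd571.gP V y j k = 0)
    (hdet : ∀ y : M.Pts,
      ((Pd571.gP V y).submatrix (e.symm ∘ Sum.inr) (e.symm ∘ Sum.inr)).det ≠ 0)
    (ht : ∀ i k, Df M (fun l => (f i l : L)) (M'.zK (Fin.castAdd a k)) = 0)
    (z : M'.Pts) (v : Fin (ρ + a) → ℂ) :
    (∀ k, v (Fin.castAdd a k) = 0) ↔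
      ∀ k, ∑ j, jac (rs h : M'.Pts → M.Pts) z v j * Pd571.gP V (rs h z) j k = 0 := by
  have hf1' : ∀ i j, rs h z (f i (e.symm (Sum.inl j))) = if i = j then 1 else 0 := by
    intro i j
    rw [hf1]
    split_ifs
    · exact map_one _
    · exact map_zero _
  rw [vertical_iff h e f hcard hf1 ht z v,
    left_ker e (Pd571.gP V (rs h z)) (fun i k => rs h z (f i k)) hf1'
      (fun i k => hf0 (rs h z) i k) (hdet (rs h z)) (jac (rs h : M'.Pts → M.Pts) z v)]
  constructor
  · rintro ⟨c, hc⟩
    have h1 : ∀ i, jac (rs h : M'.Pts → M.Pts) z v (e.symm (Sum.inl i)) = c i := by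
      intro i
      rw [hc]
      simp only [hf1']
      simp
    funext k
    rw [Finset.sum_apply, hc k]
    refine Finset.sum_congr rfl fun i _ => ?_
    rw [h1, Pi.smul_apply, smul_eq_mul]
  · intro hc
    refine ⟨fun i => jac (rs h : M'.Pts → M.Pts) z v (e.symm (Sum.inl i)), fun k => ?_⟩
    have h1 := congrFun hc k
    rw [Finset.sum_apply] at h1
    exact h1

/-- the same for the pull back of `V` to the new model -/
theorem vertical_iff_pull (h : IsLoc M.B M'.B) (e : Fin (ρ + a) ≃ α ⊕ β)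
    (f : α → Fin (ρ + a) → M.B) (hcard : Fintype.card α = a)
    (hf1 : ∀ i j, f i (e.symm (Sum.inl j)) = if i = j then 1 else 0)
    (hf0 : ∀ (y : M.Pts) i k, ∑ j, y (f i j) * Pd571.gP V y j k = 0)
    (hdet : ∀ y : M.Pts,
      ((Pd571.gP V y).submatrix (e.symm ∘ Sum.inr) (e.symm ∘ Sum.inr)).det ≠ 0)
    (ht : ∀ i k, Df M (fun l => (f i l : L)) (M'.zK (Fin.castAdd a k)) = 0)
    (z : M'.Pts) (v : Fin (ρ + a) → ℂ) :
    (∀ k, v (Fin.castAdd a k) = 0) ↔
      ∀ k, ∑ j, v j * Pd571.gP (pull V (hMap_rs h)) z j k = 0 := by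
  rw [vertical_iff_gP V h e f hcard hf1 hf0 hdet ht z v]
  set x : Fin (ρ + a) → ℂ := fun q => ∑ p, jac (rs h : M'.Pts → M.Pts) z v p *
    Pd571.gP V (rs h z) p q with hx
  have hrow : ∀ k, ∑ j, v j * Pd571.gP (pull V (hMap_rs h)) z j k =
      ∑ q, conj (z (Jm h k q)) * x q := by
    intro k
    rw [row_pull]
    refine Finset.sum_congr rfl fun q _ => ?_
    rw [J_rs]
  constructor
  · intro h0 k
    rw [hrow]
    exact Finset.sum_eq_zero fun q _ => by rw [hx]; simp only; rw [h0 q, mul_zero]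
  · intro h0 q
    have h1 : (Matrix.of fun k q => conj (z (Jm h k q))) *ᵥ x = 0 := by
      funext k
      rw [Matrix.mulVec, dotProduct, Pi.zero_apply, ← h0 k, hrow]
      rfl
    have h2 : (Matrix.of fun k q => conj (z (Jm h k q))).det ≠ 0 := by
      have h3 : (Matrix.of fun k q => conj (z (Jm h k q))) =
          ((Jm h).map (z : M'.B →+* ℂ)).map (starRingEnd ℂ) := rfl
      rw [h3, ← RingHom.mapMatrix_apply, ← RingHom.map_det, ← RingHom.mapMatrix_apply,
        ← RingHom.map_det]
      intro h4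
      rw [map_eq_zero] at h4
      exact det_Jm_ne h z h4
    by_contra hne
    exact h2 (Matrix.exists_mulVec_eq_zero_iff.mp ⟨x, fun h5 => hne (congrFun h5 q), h1⟩)

/-- the `t`-block of the period metric is positive definite -/
theorem posDef_block (h : IsLoc M.B M'.B) (e : Fin (ρ + a) ≃ α ⊕ β)
    (f : α → Fin (ρ + a) → M.B) (hcard : Fintype.card α = a)
    (hf1 : ∀ i j, f i (e.symm (Sum.inl j)) = if i = j then 1 else 0)
    (hf0 : ∀ (y : M.Pts) i k, ∑ j, y (f i j) * Pd571.gP V y j k = 0)
    (hdet : ∀ y : M.Pts,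
      ((Pd571.gP V y).submatrix (e.symm ∘ Sum.inr) (e.symm ∘ Sum.inr)).det ≠ 0)
    (ht : ∀ i k, Df M (fun l => (f i l : L)) (M'.zK (Fin.castAdd a k)) = 0)
    (z : M'.Pts) :
    ((Pd571.gP (pull V (hMap_rs h)) z).submatrix (Fin.castAdd a : Fin ρ → Fin (ρ + a))
      (Fin.castAdd a)).PosDef := by
  set g := Pd571.gP (pull V (hMap_rs h)) z with hg
  have hps : g.PosSemidef := Pd571.gP_posSemidef _ z
  refine Matrix.PosDef.of_dotProduct_mulVec_pos (hps.1.submatrix _) ?_
  intro x hx
  set v : Fin (ρ + a) → ℂ := Fin.append x 0 with hv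
  have h1 : star x ⬝ᵥ (g.submatrix (Fin.castAdd a : Fin ρ → Fin (ρ + a)) (Fin.castAdd a)) *ᵥ x =
      star v ⬝ᵥ g *ᵥ v := by
    simp only [dotProduct, Matrix.mulVec, Fin.sum_univ_add, Pi.star_apply, hv, Fin.append_left,
      Fin.append_right, Pi.zero_apply, star_zero, zero_mul, mul_zero, Finset.sum_const_zero,
      add_zero, Matrix.submatrix_apply]
  have h2 := hps.dotProduct_mulVec_nonneg v
  rw [h1]
  refine lt_of_le_of_ne h2 fun h0 => hx ?_
  have h3 : g *ᵥ v = 0 := (hps.dotProduct_mulVec_zero_iff v).mp h0.symm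
  have h4 : ∀ k, ∑ j, conj (v j) * g j k = 0 := by
    intro k
    have h5 := congrArg conj (congrFun h3 k)
    rw [Matrix.mulVec, dotProduct, map_sum, Pi.zero_apply, map_zero] at h5
    rw [← h5]
    refine Finset.sum_congr rfl fun j _ => ?_
    rw [map_mul, mul_comm]
    congr 1
    have h6 := congrFun (congrFun hps.1 j) k
    rw [Matrix.conjTranspose_apply] at h6
    exact h6.symm
  have h5 := (vertical_iff_pull V h e f hcard hf1 hf0 hdet ht z (fun j => conj (v j))).mpr h4
  funext k
  have h6 := h5 k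
  rw [map_eq_zero, hv, Fin.append_left] at h6
  exact h6

end main

end Crest.Agent.R276.Vert_595
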