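import Mathlib
import Crest.Agent.R276.DescW_327
import Crest.Agent.R276.Vert_595

/-!
# R276, leaf DESC (helper327), part 10: glue with the period field theorem (409, 595)

`gV = gP`; `Fl` and `0 < gdet` from 595's `vertical_iff_pull`, `posDef_block`.
-/

set_option autoImplicit false
set_option linter.unusedSectionVars false

noncomputable section

open Set Filter Topology Matrix
open scoped ContDiff ComplexOrder ComplexConjugate
open Crest.Agent.R271.Ho51 Crest.Agent.R276.Ipc735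
open Crest.Agent.R276.VLevi_327 Crest.Agent.R276.VPull_327
open Crest.Agent.R276.DescF_327 Crest.Agent.R276.Cmp_595 Crest.Agent.R276.Mod1_987
open Crest.Agent.R276.PfDer_676 (Df)

namespace Crest.Agent.R276.DescV_327

attribute [local instance] Matrix.linftyOpNormedRing Matrix.linftyOpNormedAlgebra

section gen

variable {m r N w : ℕ} {X : Type*} [TopologicalSpace X] [RDom m X] {ι : Fin r → Fin m}
  {V : VHS m X N w}

theorem gV_eq_gP (x : X) (i j : Fin m) : gV V i j x = Pd571.gP V x i j := by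
  unfold gV Pd571.gP
  rw [Matrix.of_apply, Matrix.mul_neg, Matrix.trace_neg]
  rfl

theorem gdet_pos_of {x : X} (h : ((Pd571.gP V x).submatrix ι ι).PosDef) : 0 < gdet V ι x := by
  have h1 : (Matrix.of fun i j : Fin r => gV V (ι i) (ι j) x) = (Pd571.gP V x).submatrix ι ι := by
    ext i j
    rw [Matrix.of_apply, Matrix.submatrix_apply, gV_eq_gP]
  have h2 : gdet V ι x = (Matrix.of fun i j : Fin r => gV V (ι i) (ι j) x).det.re := rfl
  rw [h2, h1]
  exact (Complex.pos_iff.1 h.det_pos).1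

theorem dM_eq_zero_of {x : X} {j : Fin m} (h : Pd571.gP V x j j = 0) : dM V.P V.E j x = 0 := by
  obtain ⟨U, P', hU, hxU, hUt, -, -, -, hV, -, hth, -, hgg⟩ := gV_local V x
  have h1 : VCalc_442.gg w P' (Pi.single j 1) (Pi.single j 1) (cp x) = 0 := by
    rw [hgg (cp x) hxU, symm_cp, gV_eq_gP, h]
  have h2 : VCalc_442.gden w P' (Pi.single j 1) (cp x) = 0 := by
    unfold VCalc_442.gden
    rw [h1, Complex.zero_re]
  have h3 : VCalc_442.th w P' (Pi.single j 1) (cp x) = 0 := by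
    exact hV.gden_eq_zero hxU h2
  have h4 := hth (cp x) hxU j
  rw [h3, symm_cp, (V.ndc.on univ).diag (mem_univ x)] at h4
  simpa using h4.symm

theorem fl_of (h : ∀ (x : X) (j : Fin m), (∀ i, ι i ≠ j) → Pd571.gP V x j j = 0) : Fl V ι :=
  fun x j hj => dM_eq_zero_of (h x j hj)

end gen

section vert

variable {L : Type} [Field L] [Algebra ℂ L] {ρ a N w : ℕ} {α β : Type} [Fintype α] [Fintype β]
  [DecidableEq α] [DecidableEq β] {M M' : Mdl L (ρ + a)} (V : VHS (ρ + a) M.Pts N w)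

theorem fl_vert (h : IsLoc M.B M'.B) (e : Fin (ρ + a) ≃ α ⊕ β)
    (f : α → Fin (ρ + a) → M.B) (hcard : Fintype.card α = a)
    (hf1 : ∀ i j, f i (e.symm (Sum.inl j)) = if i = j then 1 else 0)
    (hf0 : ∀ (y : M.Pts) i k, ∑ j, y (f i j) * Pd571.gP V y j k = 0)
    (hdet : ∀ y : M.Pts,
      ((Pd571.gP V y).submatrix (e.symm ∘ Sum.inr) (e.symm ∘ Sum.inr)).det ≠ 0)
    (ht : ∀ i k, Df M (fun l => (f i l : L)) (M'.zK (Fin.castAdd a k)) = 0) :
    Fl (pull V (hMap_rs h)) (Fin.castAdd a : Fin ρ → Fin (ρ + a)) := by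
  refine fl_of fun z j hj => ?_
  have h1 := (Vert_595.vertical_iff_pull V h e f hcard hf1 hf0 hdet ht z (Pi.single j 1)).1
    (fun k => Pi.single_eq_of_ne (hj k) _) j
  simpa [Pi.single_apply] using h1

theorem gdet_vert (h : IsLoc M.B M'.B) (e : Fin (ρ + a) ≃ α ⊕ β)
    (f : α → Fin (ρ + a) → M.B) (hcard : Fintype.card α = a)
    (hf1 : ∀ i j, f i (e.symm (Sum.inl j)) = if i = j then 1 else 0)
    (hf0 : ∀ (y : M.Pts) i k, ∑ j, y (f i j) * Pd571.gP V y j k = 0)
    (hdet : ∀ y : M.Pts,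
      ((Pd571.gP V y).submatrix (e.symm ∘ Sum.inr) (e.symm ∘ Sum.inr)).det ≠ 0)
    (ht : ∀ i k, Df M (fun l => (f i l : L)) (M'.zK (Fin.castAdd a k)) = 0) (z : M'.Pts) :
    0 < gdet (pull V (hMap_rs h)) (Fin.castAdd a : Fin ρ → Fin (ρ + a)) z :=
  gdet_pos_of (Vert_595.posDef_block V h e f hcard hf1 hf0 hdet ht z)

end vert

end Crest.Agent.R276.DescV_327
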