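import Mathlib

/-!
# Row 276, END-ALG (helper870): independence of `τ_i^α w_j^β` on the fibre

* `hz` : homogenised polynomial in a ring.
* `ind_union` : if `w_j/w₀` are independent over `ℂ` on `G` and `τ_i/τ₀` are independent on `X` over
  a ring of functions on `G` containing the `w`, then the union is independent over `ℂ`.
* `ind_pow` : powers.
* `ind_prod` : the functions `τ₀^α w₀^β`, `τ_i^α w₀^β`, `τ₀^α w_j^β`.
* `ind_of_algInd` : independence over the field `L` gives independence over a ring of functions.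
-/

set_option autoImplicit false

open MvPolynomial

noncomputable section

namespace Crest.Agent.R276.EndInd_870

section hz

variable {ι A S S' : Type*} [CommRing A] [CommRing S] [CommRing S']

/-- `t₀^N P(t/t₀)` -/
def hz (f : A →+* S) (N : ℕ) (t0 : S) (t : ι → S) (P : MvPolynomial ι A) : S :=
  ∑ ν ∈ P.support, f (P.coeff ν) * ((∏ i ∈ ν.support, t i ^ ν i) * t0 ^ (N - ∑ i ∈ ν.support, ν i))

lemma map_hz (φ : S →+* S') (f : A →+* S) (N : ℕ) (t0 : S) (t : ι → S) (P : MvPolynomial ι A) :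
    φ (hz f N t0 t P) = hz (φ.comp f) N (φ t0) (fun i => φ (t i)) P := by
  simp only [hz, map_sum, map_mul, map_prod, map_pow, RingHom.comp_apply]

lemma sum_le_totalDegree {P : MvPolynomial ι A} {ν : ι →₀ ℕ} (hν : ν ∈ P.support) :
    ∑ i ∈ ν.support, ν i ≤ P.totalDegree := le_totalDegree hν

lemma hz_eq {k : Type*} [Field k] (f : A →+* k) {N : ℕ} {t0 : k} (h0 : t0 ≠ 0) (t : ι → k)
    {P : MvPolynomial ι A} (hN : P.totalDegree ≤ N) :
    hz f N t0 t P = t0 ^ N * eval₂ f (fun i => t i / t0) P := by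
  rw [hz, eval₂_eq, Finset.mul_sum]
  refine Finset.sum_congr rfl fun ν hν => ?_
  have h1 : ∑ i ∈ ν.support, ν i ≤ N := (sum_le_totalDegree hν).trans hN
  have h2 : ∏ i ∈ ν.support, (t i / t0) ^ ν i =
      (∏ i ∈ ν.support, t i ^ ν i) / t0 ^ (∑ i ∈ ν.support, ν i) := by
    rw [← Finset.prod_pow_eq_pow_sum, ← Finset.prod_div_distrib]
    exact Finset.prod_congr rfl fun i _ => div_pow _ _ _
  rw [h2]
  have h3 : t0 ^ N = t0 ^ (N - ∑ i ∈ ν.support, ν i) * t0 ^ (∑ i ∈ ν.support, ν i) := by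
    rw [← pow_add, Nat.sub_add_cancel h1]
  rw [h3]
  field_simp

lemma hz_zero (f : A →+* S) {N : ℕ} (t : ι → S) {P : MvPolynomial ι A} (hN : P.totalDegree < N) :
    hz f N 0 t P = 0 := by
  refine Finset.sum_eq_zero fun ν hν => ?_
  have h1 : ∑ i ∈ ν.support, ν i < N := (sum_le_totalDegree hν).trans_lt hN
  rw [zero_pow (by omega), mul_zero, mul_zero]

end hz

lemma eval_sum {ι κ : Type*} (a : ι → ℂ) (b : κ → ℂ) (Q : MvPolynomial (ι ⊕ κ) ℂ) :
    eval₂ (eval b) a (sumAlgEquiv ℂ ι κ Q) = eval (Sum.elim a b) Q := by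
  induction Q using MvPolynomial.induction_on with
  | C c => simp
  | add p q hp hq => simp only [map_add, eval₂_add, hp, hq]
  | mul_X p i hp =>
    rw [map_mul, map_mul, eval₂_mul, hp]
    congr 1
    rcases i with i | j <;> simp

section union

variable {Y G : Type*}

/-- evaluation of an element of a ring of functions -/
def evA (A : Subalgebra ℂ (G → ℂ)) (z : G) : A →+* ℂ :=
  ((Pi.evalRingHom (fun _ : G => ℂ) z).comp (A.val : A →+* (G → ℂ)))

@[simp] lemma evA_apply (A : Subalgebra ℂ (G → ℂ)) (z : G) (a : A) : evA A z a = (a : G → ℂ) z := rfl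

/-- **union** -/
theorem ind_union (q : Y → G) (A : Subalgebra ℂ (G → ℂ)) {ι κ : Type} (τ0 : Y → ℂ)
    (τ : ι → Y → ℂ) (w0 : G → ℂ) (w : κ → G → ℂ) (hw0 : w0 ∈ A) (hw : ∀ j, w j ∈ A)
    (h1 : ∀ P : MvPolynomial ι A, P ≠ 0 → ∃ x, τ0 x ≠ 0 ∧
      eval₂ (evA A (q x)) (fun i => τ i x / τ0 x) P ≠ 0)
    (h2 : ∀ Q : MvPolynomial κ ℂ, Q ≠ 0 → ∃ z, w0 z ≠ 0 ∧ eval (fun j => w j z / w0 z) Q ≠ 0)
    (Q : MvPolynomial (ι ⊕ κ) ℂ) (hQ : Q ≠ 0) :
    ∃ x, τ0 x ≠ 0 ∧ w0 (q x) ≠ 0 ∧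
      eval (Sum.elim (fun i => τ i x / τ0 x) (fun j => w j (q x) / w0 (q x))) Q ≠ 0 := by
  classical
  let P : MvPolynomial ι (MvPolynomial κ ℂ) := sumAlgEquiv ℂ ι κ Q
  have hP : P ≠ 0 := fun h => hQ ((map_eq_zero_iff _ (sumAlgEquiv ℂ ι κ).injective).1 h)
  let N : ℕ := (P.support.sup fun ν => (P.coeff ν).totalDegree) + 1
  have hN : ∀ ν ∈ P.support, (P.coeff ν).totalDegree < N := fun ν hν =>
    Nat.lt_succ_of_le (Finset.le_sup (f := fun ν => (P.coeff ν).totalDegree) hν)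
  let a : (ι →₀ ℕ) → A := fun ν => hz (algebraMap ℂ A) N ⟨w0, hw0⟩ (fun j => ⟨w j, hw j⟩) (P.coeff ν)
  have ha : ∀ ν z, evA A z (a ν) = hz (RingHom.id ℂ) N (w0 z) (fun j => w j z) (P.coeff ν) := by
    intro ν z
    simp only [a]
    rw [map_hz]
    congr 1
  let PA : MvPolynomial ι A := ∑ ν ∈ P.support, monomial ν (a ν)
  have hcoeff : ∀ ν ∈ P.support, PA.coeff ν = a ν := by
    intro ν hν
    simp only [PA, coeff_sum, coeff_monomial]
    rw [Finset.sum_ite_eq' P.support ν]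
    simp only [hν, if_true]
  have hPA : PA ≠ 0 := by
    obtain ⟨ν, hν⟩ := MvPolynomial.ne_zero_iff.1 hP
    obtain ⟨z, hz0, hz1⟩ := h2 (P.coeff ν) hν
    intro h0
    have e1 : a ν = 0 := by rw [← hcoeff ν (mem_support_iff.2 hν), h0, coeff_zero]
    have e2 := ha ν z
    rw [e1, map_zero, hz_eq (RingHom.id ℂ) hz0 _ (hN ν (mem_support_iff.2 hν)).le] at e2
    exact mul_ne_zero (pow_ne_zero N hz0) hz1 e2.symm
  obtain ⟨x, hx0, hx1⟩ := h1 PA hPA
  have e3 : eval₂ (evA A (q x)) (fun i => τ i x / τ0 x) PA =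
      ∑ ν ∈ P.support, evA A (q x) (a ν) * ∏ i ∈ ν.support, (τ i x / τ0 x) ^ ν i := by
    simp only [PA]
    rw [eval₂_sum]
    refine Finset.sum_congr rfl fun ν _ => ?_
    rw [eval₂_monomial]
    rfl
  have hwx : w0 (q x) ≠ 0 := by
    intro h0
    apply hx1
    rw [e3]
    refine Finset.sum_eq_zero fun ν hν => ?_
    rw [ha, h0, hz_zero _ _ (hN ν hν), zero_mul]
  refine ⟨x, hx0, hwx, fun h0 => hx1 ?_⟩
  rw [e3]
  have e4 : ∀ ν ∈ P.support, evA A (q x) (a ν) * ∏ i ∈ ν.support, (τ i x / τ0 x) ^ ν i =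
      w0 (q x) ^ N * (eval (fun j => w j (q x) / w0 (q x)) (P.coeff ν) *
        ∏ i ∈ ν.support, (τ i x / τ0 x) ^ ν i) := by
    intro ν hν
    rw [ha, hz_eq (RingHom.id ℂ) hwx _ (hN ν hν).le, mul_assoc]
    rfl
  rw [Finset.sum_congr rfl e4, ← Finset.mul_sum, ← eval₂_eq]
  have e5 : eval₂ (eval fun j => w j (q x) / w0 (q x)) (fun i => τ i x / τ0 x) P =
      eval (Sum.elim (fun i => τ i x / τ0 x) (fun j => w j (q x) / w0 (q x))) Q := by
    exact eval_sum _ _ Q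
  rw [e5, h0, mul_zero]

/-- **powers** -/
theorem ind_pow {κ : Type} (t : Y → κ → ℂ) (ok : Y → Prop) (γ : κ → ℕ) (hγ : ∀ k, 0 < γ k)
    (h : ∀ Q : MvPolynomial κ ℂ, Q ≠ 0 → ∃ x, ok x ∧ eval (t x) Q ≠ 0)
    (Q : MvPolynomial κ ℂ) (hQ : Q ≠ 0) : ∃ x, ok x ∧ eval (fun k => t x k ^ γ k) Q ≠ 0 := by
  have h1 : AlgebraicIndependent ℂ (fun k : κ => (X k : MvPolynomial κ ℂ) ^ γ k) := by
    have h2 := (MvPolynomial.algebraicIndependent_X κ ℂ).polynomial_aeval_of_transcendental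
      (f := fun k => (Polynomial.X : Polynomial ℂ) ^ γ k) (fun k => by
        have := (Polynomial.transcendental_X ℂ).pow (hγ k)
        exact this)
    simpa using h2
  have h2 : aeval (fun k : κ => (X k : MvPolynomial κ ℂ) ^ γ k) Q ≠ 0 := fun h0 =>
    hQ ((map_eq_zero_iff _ h1).1 h0)
  obtain ⟨x, hx, hx'⟩ := h _ h2
  refine ⟨x, hx, fun h0 => hx' ?_⟩
  rw [← h0]
  have h3 : eval (t x) (aeval (fun k : κ => (X k : MvPolynomial κ ℂ) ^ γ k) Q) =
      aeval (fun k => eval (t x) ((X k : MvPolynomial κ ℂ) ^ γ k)) Q := by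
    have := MvPolynomial.comp_aeval_apply (fun k : κ => (X k : MvPolynomial κ ℂ) ^ γ k)
      (MvPolynomial.aeval (t x) : MvPolynomial κ ℂ →ₐ[ℂ] ℂ) Q
    simpa [MvPolynomial.aeval_eq_eval] using this
  rw [h3]
  simp [MvPolynomial.aeval_eq_eval]

/-- **products**: `U₀ = τ₀^α w₀^β`, `U_i = τ_i^α w₀^β`, `U_j = τ₀^α w_j^β` -/
theorem ind_prod (q : Y → G) (A : Subalgebra ℂ (G → ℂ)) {ι κ : Type} (τ0 : Y → ℂ)
    (τ : ι → Y → ℂ) (w0 : G → ℂ) (w : κ → G → ℂ) (hw0 : w0 ∈ A) (hw : ∀ j, w j ∈ A)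
    (h1 : ∀ P : MvPolynomial ι A, P ≠ 0 → ∃ x, τ0 x ≠ 0 ∧
      eval₂ (evA A (q x)) (fun i => τ i x / τ0 x) P ≠ 0)
    (h2 : ∀ Q : MvPolynomial κ ℂ, Q ≠ 0 → ∃ z, w0 z ≠ 0 ∧ eval (fun j => w j z / w0 z) Q ≠ 0)
    {α β : ℕ} (hα : 0 < α) (hβ : 0 < β) (Q : MvPolynomial (ι ⊕ κ) ℂ) (hQ : Q ≠ 0) :
    ∃ x, τ0 x ^ α * w0 (q x) ^ β ≠ 0 ∧
      eval (fun k => Sum.elim (fun i => τ i x ^ α * w0 (q x) ^ β)
        (fun j => τ0 x ^ α * w j (q x) ^ β) k / (τ0 x ^ α * w0 (q x) ^ β)) Q ≠ 0 := by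
  obtain ⟨x, ⟨hx0, hx1⟩, hx2⟩ := ind_pow (Y := Y)
    (fun x => Sum.elim (fun i => τ i x / τ0 x) (fun j => w j (q x) / w0 (q x)))
    (fun x => τ0 x ≠ 0 ∧ w0 (q x) ≠ 0) (Sum.elim (fun _ : ι => α) (fun _ : κ => β))
    (by rintro (i | j) <;> simpa) (fun Q hQ => by
      obtain ⟨x, h0, h0', h⟩ := ind_union q A τ0 τ w0 w hw0 hw h1 h2 Q hQ
      exact ⟨x, ⟨h0, h0'⟩, h⟩) Q hQ
  refine ⟨x, mul_ne_zero (pow_ne_zero _ hx0) (pow_ne_zero _ hx1), ?_⟩
  have h3 : (fun k => Sum.elim (fun i => τ i x ^ α * w0 (q x) ^ β)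
        (fun j => τ0 x ^ α * w j (q x) ^ β) k / (τ0 x ^ α * w0 (q x) ^ β)) =
      fun k => (Sum.elim (fun i => τ i x / τ0 x) (fun j => w j (q x) / w0 (q x))) k ^
        (Sum.elim (fun _ : ι => α) (fun _ : κ => β)) k := by
    funext k
    have ha : τ0 x ^ α ≠ 0 := pow_ne_zero _ hx0
    have hb : w0 (q x) ^ β ≠ 0 := pow_ne_zero _ hx1
    rcases k with i | j
    · simp only [Sum.elim_inl, div_pow]
      rw [mul_div_mul_right _ _ hb]
    · simp only [Sum.elim_inr, div_pow]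
      rw [mul_div_mul_left _ _ ha]
  rw [h3]
  exact hx2

end union

section field

variable {L K : Type*} [Field L] [Field K] [Algebra L K]

/-- independence over the field `L` ⟹ the homogenised element is not zero -/
theorem hz_ne_zero {B C : Type*} [CommRing B] [CommRing C] (iB : B →+* L) (iC : C →+* K)
    (hB : Function.Injective iB) (j : B →+* C) (hj : ∀ b, iC (j b) = algebraMap L K (iB b))
    {ι : Type*} (τ0 : C) (τ : ι → C) (h0 : iC τ0 ≠ 0)
    (hind : AlgebraicIndependent L (fun i => iC (τ i) / iC τ0)) (P : MvPolynomial ι B) (hP : P ≠ 0)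
    {N : ℕ} (hN : P.totalDegree ≤ N) : hz j N τ0 τ P ≠ 0 := by
  intro h
  have h1 := congrArg iC h
  rw [map_zero, map_hz, hz_eq _ h0 _ hN] at h1
  have h2 : eval₂ (iC.comp j) (fun i => iC (τ i) / iC τ0) P =
      aeval (fun i => iC (τ i) / iC τ0) (map iB P) := by
    rw [aeval_def, eval₂_map]
    congr 1
    exact RingHom.ext hj
  rw [h2] at h1
  have h3 : aeval (fun i => iC (τ i) / iC τ0) (map iB P) = 0 :=
    (mul_eq_zero.1 h1).resolve_left (pow_ne_zero _ h0)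
  have h4 : map iB P = 0 := (map_eq_zero_iff _ hind).1 h3
  exact hP (map_injective iB hB (by rw [h4, map_zero]))

/-- **from fields to functions**: `C` a domain of finite type over `ℂ` with `Hom(C,ℂ)` separating,
`j : B → C`; if the `τ_i/τ₀` are algebraically independent over the field `L ⊇ B`, then no nonzero
polynomial over `B` vanishes at all of them on the points of `C` where `τ₀ ≠ 0`. -/
theorem ind_of_algInd {B C : Type*} [CommRing B] [CommRing C] [Algebra ℂ C]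
    (hpts : ∀ c : C, c ≠ 0 → ∃ x : C →ₐ[ℂ] ℂ, x c ≠ 0)
    (iB : B →+* L) (iC : C →+* K) (hC : Function.Injective iC)
    (hB : Function.Injective iB) (j : B →+* C) (hj : ∀ b, iC (j b) = algebraMap L K (iB b))
    {ι : Type*} (τ0 : C) (τ : ι → C) (h0 : τ0 ≠ 0)
    (hind : AlgebraicIndependent L (fun i => iC (τ i) / iC τ0)) (P : MvPolynomial ι B)
    (hP : P ≠ 0) : ∃ x : C →ₐ[ℂ] ℂ, x τ0 ≠ 0 ∧
      eval₂ ((x : C →+* ℂ).comp j) (fun i => x (τ i) / x τ0) P ≠ 0 := by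
  have hC0 : iC τ0 ≠ 0 := fun h => h0 (hC (by rw [h, map_zero]))
  have h1 := hz_ne_zero iB iC hB j hj τ0 τ hC0 hind P hP (Nat.le_succ P.totalDegree)
  obtain ⟨x, hx⟩ := hpts _ h1
  have e1 : x (hz j (P.totalDegree + 1) τ0 τ P) =
      hz ((x : C →+* ℂ).comp j) (P.totalDegree + 1) (x τ0) (fun i => x (τ i)) P :=
    map_hz (x : C →+* ℂ) j _ τ0 τ P
  rw [Nat.succ_eq_add_one, e1] at hx
  have hx0 : x τ0 ≠ 0 := by
    intro h
    rw [h] at hx
    exact hx (hz_zero _ _ (Nat.lt_succ_self _))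
  refine ⟨x, hx0, fun h => hx ?_⟩
  rw [hz_eq _ hx0 _ (Nat.le_succ _), h, mul_zero]

end field

end Crest.Agent.R276.EndInd_870
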