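import Mathlib
import Crest.Agent.R276.FK1_779
import Crest.Agent.R276.Mod5_987
import Crest.Agent.R276.BC2_986

/-!
# Row 276, END-ALG (helper870): functions independent on the general slice

`rest` : `M` a model of `L/ℂ`, `w₀ ≠ 0`, `w_j ∈ M.B` (`j : E`), `w_j/w₀` algebraically independent
over `ℂ`, `s` a set of coordinates.  There are `r` indices with `card E ≤ r + |s|` and `h ≠ 0` such
that near every point `x` with `h(x) ≠ 0`, on the slice `{z_i = z_i(x), i ∈ s}`, the `r` functions
`w_j/w₀` satisfy no polynomial relation.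
-/

set_option autoImplicit false

open Topology Filter Set Module

noncomputable section

namespace Crest.Agent.R276.EndRest_870

open Crest.Agent.R271.Defs710 Crest.Agent.R271.Bd741 Crest.Agent.R271.Rd692
open Crest.Agent.R276.Mod1_987

section linalg

variable {L : Type*} [Field L]

/-- a family of independent vectors has a nonzero maximal minor -/
theorem exists_minor_full {r : ℕ} {c : Type*} [Fintype c] (u : Fin r → c → L)
    (hu : LinearIndependent L u) :
    ∃ κ : Fin r → c, Function.Injective κ ∧ (Matrix.of fun i j => u i (κ j)).det ≠ 0 := by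
  classical
  let A : Matrix (Fin r) c L := Matrix.of u
  have hr : A.rank = r := by
    have h1 : LinearIndependent L A.row := hu
    rw [h1.rank_matrix, Fintype.card_fin]
  obtain ⟨T, a, ha, hspan, hli⟩ := exists_linearIndependent' L A.col
  have hfin : Finite T := Finite.of_injective a ha
  have _ : Fintype T := Fintype.ofFinite T
  have hcard : Fintype.card T = r := by
    rw [← finrank_span_eq_card hli, hspan, ← Matrix.rank_eq_finrank_span_cols, hr]
  let e : Fin r ≃ T := (Fintype.equivFinOfCardEq hcard).symm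
  refine ⟨fun j => a (e j), ha.comp e.injective, ?_⟩
  have h2 : LinearIndependent L (Matrix.of fun i j => u i (a (e j)) : Matrix (Fin r) (Fin r) L).col :=
    hli.comp e e.injective
  rw [Matrix.linearIndependent_cols_iff_isUnit, Matrix.isUnit_iff_isUnit_det] at h2
  exact h2.ne_zero

/-- independent vectors in `L^m`, `s ⊆ m` : a nonzero minor with columns outside `s` of size at least
the number of vectors minus `|s|` -/
theorem exists_minor {E m : Type*} [Fintype E] [Fintype m] [DecidableEq m] (v : E → m → L)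
    (hv : LinearIndependent L v) (s : Finset m) :
    ∃ (r : ℕ) (a : Fin r → E) (κ : Fin r → m), Function.Injective a ∧ Function.Injective κ ∧
      (∀ j, κ j ∉ s) ∧ (Matrix.of fun i j => v (a i) (κ j)).det ≠ 0 ∧
      Fintype.card E ≤ r + s.card := by
  classical
  let π : (m → L) →ₗ[L] ({k // k ∉ s} → L) := LinearMap.funLeft L L Subtype.val
  let π' : (m → L) →ₗ[L] (s → L) := LinearMap.funLeft L L Subtype.val
  let V0 := Submodule.span L (range v)
  have h0 : finrank L V0 = Fintype.card E := finrank_span_eq_card hv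
  have h1 := LinearMap.finrank_range_add_finrank_ker (π.domRestrict V0)
  have h2 : finrank L (LinearMap.ker (π.domRestrict V0)) ≤ s.card := by
    have hinj : Function.Injective ((π'.domRestrict V0).domRestrict
        (LinearMap.ker (π.domRestrict V0))) := by
      rw [injective_iff_map_eq_zero]
      intro x hx
      have e1 : π x.1.1 = 0 := x.2
      have e2 : π' x.1.1 = 0 := hx
      apply Subtype.ext
      apply Subtype.ext
      funext k
      by_cases hk : k ∈ s
      · exact congrFun e2 ⟨k, hk⟩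
      · exact congrFun e1 ⟨k, hk⟩
    have h3 := LinearMap.finrank_le_finrank_of_injective hinj
    simpa using h3
  have h3 : LinearMap.range (π.domRestrict V0) = Submodule.span L (range (π ∘ v)) := by
    rw [range_comp, ← Submodule.map_span]
    ext y
    constructor
    · rintro ⟨x, rfl⟩
      exact ⟨x.1, x.2, rfl⟩
    · rintro ⟨x, hx, rfl⟩
      exact ⟨⟨x, hx⟩, rfl⟩
  obtain ⟨T, a, ha, hspan, hli⟩ := exists_linearIndependent' L (π ∘ v)
  have hfin : Finite T := Finite.of_injective a ha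
  have _ : Fintype T := Fintype.ofFinite T
  have hcard : Fintype.card T = finrank L (LinearMap.range (π.domRestrict V0)) := by
    rw [h3, ← hspan, finrank_span_eq_card hli]
  let e : Fin (Fintype.card T) ≃ T := (Fintype.equivFin T).symm
  obtain ⟨κ, hκ, hdet⟩ := exists_minor_full (fun i => ((π ∘ v) ∘ a) (e i))
    (hli.comp e e.injective)
  refine ⟨Fintype.card T, fun i => a (e i), fun j => (κ j).1, ha.comp e.injective,
    Subtype.val_injective.comp hκ, fun j => (κ j).2, hdet, ?_⟩
  omega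

end linalg

section diff

variable {k L : Type*} [Field k] [Field L] [Algebra k L] [CharZero k]

/-- differentials of algebraically independent elements are linearly independent -/
theorem linearIndependent_D {E : Type*} (g : E → L) (hg : AlgebraicIndependent k g) :
    LinearIndependent L (fun j => KaehlerDifferential.D k L (g j)) := by
  have h1 : AlgebraicIndepOn k id (range g) := hg.to_subtype_range
  obtain ⟨t, hst, ht⟩ := exists_isTranscendenceBasis_superset h1
  obtain ⟨b, hb⟩ := FK1_779.exists_basis_of_transc (fun x : t => (x : L)) ht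
  let f : E → t := fun j => ⟨g j, hst ⟨j, rfl⟩⟩
  have hf : Function.Injective f := fun i j hij => hg.injective (congrArg Subtype.val hij)
  have h2 := b.linearIndependent.comp f hf
  have h3 : (b ∘ f) = fun j => KaehlerDifferential.D k L (g j) := funext fun j => hb (f j)
  rwa [h3] at h2

end diff

section main

variable {L : Type} [Field L] [Algebra ℂ L] {m : ℕ}

/-- a nonzero polynomial does not vanish near a point -/
lemma exists_eval_ne {r : ℕ} {p : Fin r → ℂ} {U : Set (Fin r → ℂ)} (hU : U ∈ 𝓝 p)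
    {Q : MvPolynomial (Fin r) ℂ} (hQ : Q ≠ 0) : ∃ x ∈ U, MvPolynomial.eval x Q ≠ 0 := by
  obtain ⟨ε, hε, hball⟩ := Metric.mem_nhds_iff.1 hU
  by_contra hcon
  push Not at hcon
  apply hQ
  refine MvPolynomial.funext_set (fun i => Metric.ball (p i) ε) (fun i => ?_) fun x hx => ?_
  · exact infinite_of_mem_nhds (p i) (Metric.ball_mem_nhds _ hε)
  · rw [map_zero]
    refine hcon x (hball ?_)
    rw [Metric.mem_ball, dist_pi_lt_iff hε]
    exact fun i => hx i (mem_univ i)

/-- **REST** -/
theorem rest (M : Mdl L m) {E : Type} [Fintype E] (w0 : M.B) (w : E → M.B) (hw0 : w0 ≠ 0)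
    (hind : AlgebraicIndependent ℂ (fun j => (w j : L) / (w0 : L))) (s : Finset (Fin m)) :
    ∃ (r : ℕ) (a : Fin r → E), Function.Injective a ∧ Fintype.card E ≤ r + s.card ∧
      ∃ h : M.B, h ≠ 0 ∧ ∀ x : M.Pts, x h ≠ 0 → ∀ Q : MvPolynomial (Fin r) ℂ, Q ≠ 0 →
        ∀ U ∈ 𝓝 x, ∃ y ∈ U, (∀ i ∈ s, y (M.z i) = x (M.z i)) ∧ y w0 ≠ 0 ∧
          MvPolynomial.eval (fun j => y (w (a j)) / y w0) Q ≠ 0 := by
  classical
  obtain ⟨Δ, hΔ⟩ := exists_coord_deriv M.z M.het
  obtain ⟨b, hb⟩ := FK1_779.exists_basis_of_formallyEtale (k := ℂ) (S := L) M.zK (by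
    have h1 := (Crest.Agent.R271.Bs960.ECoord.fe (w := M.z) M.het)
    exact h1.loc (S := M.B) (T := L) (nonZeroDivisors M.B))
  have hw0L : (w0 : L) ≠ 0 := fun h => hw0 (Subtype.ext h)
  -- coordinates of `d (w_j/w₀)`
  let P : E → Fin m → M.B := fun j k => Δ k (w j) * w0 - w j * Δ k w0
  have hD : ∀ c : M.B, KaehlerDifferential.D ℂ L (c : L) = ∑ k, ((Δ k c : M.B) : L) • b k := by
    intro c
    have h1 := D_K (K := L) M.z M.het Δ hΔ c
    refine h1.trans (Finset.sum_congr rfl fun k _ => ?_)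
    rw [hb k]
    rfl
  have hrep : ∀ (c : M.B) (k : Fin m), b.repr (KaehlerDifferential.D ℂ L (c : L)) k = (Δ k c : L) := by
    intro c k
    rw [hD c, Module.Basis.repr_sum_self]
  have hrepq : ∀ j k, b.repr (KaehlerDifferential.D ℂ L ((w j : L) / w0)) k =
      (P j k : L) / (w0 : L) ^ 2 := by
    intro j k
    have e0 : (w j : L) / w0 * w0 = w j := div_mul_cancel₀ _ hw0L
    have e1 := congrArg (KaehlerDifferential.D ℂ L) e0
    rw [Derivation.leibniz] at e1
    have e2 := congrArg (fun x => b.repr x k) e1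
    simp only [map_add, map_smul, Finsupp.add_apply, Finsupp.smul_apply, smul_eq_mul, hrep] at e2
    have e3 : (P j k : L) = (Δ k (w j) : L) * w0 - w j * (Δ k w0 : L) := rfl
    rw [e3, ← e2]
    field_simp
    ring
  have hli := linearIndependent_D _ hind
  have hli2 : LinearIndependent L (fun j k => (P j k : L) / (w0 : L) ^ 2) := by
    have h1 := hli.map' (b.equivFun : (Ω[L⁄ℂ]) →ₗ[L] (Fin m → L)) b.equivFun.ker
    have h2 : (⇑(b.equivFun : (Ω[L⁄ℂ]) →ₗ[L] (Fin m → L)) ∘
        fun j => KaehlerDifferential.D ℂ L ((w j : L) / w0)) =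
        fun j k => (P j k : L) / (w0 : L) ^ 2 := by
      funext j k
      exact hrepq j k
    rwa [h2] at h1
  obtain ⟨r, a, κ, ha, hκ, hκs, hdet, hcard⟩ := exists_minor _ hli2 s
  refine ⟨r, a, ha, hcard, w0 * (Matrix.of fun i j => P (a i) (κ j)).det, ?_, ?_⟩
  · refine mul_ne_zero hw0 fun h0 => hdet ?_
    have h1 : (Matrix.of fun i j => (P (a i) (κ j) : L) / (w0 : L) ^ 2) =
        ((w0 : L) ^ 2)⁻¹ • (Matrix.of fun i j => P (a i) (κ j)).map M.B.val := by
      ext i j
      simp [div_eq_inv_mul]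
    have h2 : ((Matrix.of fun i j => P (a i) (κ j)).map M.B.val).det = 0 := by
      have h3 := (AlgHom.map_det M.B.val (Matrix.of fun i j => P (a i) (κ j))).symm
      rw [h0, map_zero] at h3
      exact h3
    rw [h1, Matrix.det_smul, h2, mul_zero]
  · intro x hx Q hQ U hU
    rw [map_mul] at hx
    have hx0 : x w0 ≠ 0 := left_ne_zero_of_mul hx
    have hxd : x (Matrix.of fun i j => P (a i) (κ j)).det ≠ 0 := right_ne_zero_of_mul hx
    obtain ⟨C⟩ := M.hch x
    -- the linear map `ξ ↦ Σ ξ_j e_{κ j}`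
    let ℓ : (Fin r → ℂ) →L[ℂ] Cn m := ∑ j, (ContinuousLinearMap.proj j).smulRight (Pi.single (κ j) 1)
    have hℓ : ∀ (ξ : Fin r → ℂ) (i : Fin m), i ∈ s → ℓ ξ i = 0 := by
      intro ξ i hi
      simp only [ℓ, FunLike.coe_sum, Finset.sum_apply,
        ContinuousLinearMap.smulRight_apply, ContinuousLinearMap.proj_apply, Pi.smul_apply,
        smul_eq_mul]
      refine Finset.sum_eq_zero fun j _ => ?_
      rw [Pi.single_eq_of_ne (fun h => hκs j (by rw [← h]; exact hi)), mul_zero]
    have hℓs : ∀ j, ℓ (Pi.single j 1) = Pi.single (κ j) 1 := by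
      intro j
      simp only [ℓ, FunLike.coe_sum, Finset.sum_apply,
        ContinuousLinearMap.smulRight_apply, ContinuousLinearMap.proj_apply]
      rw [Finset.sum_eq_single j]
      · simp
      · intro i _ hi
        rw [Pi.single_eq_of_ne hi, zero_smul]
      · simp
    have h00 : (0 : Cn m) ∈ Metric.ball (0 : Cn m) C.r := Metric.mem_ball_self C.r_pos
    -- the quotients in the chart
    let g : Fin r → Cn m → ℂ := fun i ζ => C.s ζ (w (a i)) / C.s ζ w0
    have hC0 : C.s 0 w0 ≠ 0 := by rw [C.s_zero]; exact hx0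
    have hg : ∀ i, HasStrictFDerivAt (g i) (fderiv ℂ (g i) 0) 0 := fun i =>
      ((C.anal (w (a i)) 0 h00).div (C.anal w0 0 h00) hC0).hasStrictFDerivAt
    have hg' : ∀ i k, fderiv ℂ (g i) 0 (Pi.single k 1) = x (P (a i) k) / (x w0) ^ 2 := by
      intro i k
      have d1 := chart_deriv M.z M.het Δ hΔ C 0 h00 k (w (a i))
      have d2 := chart_deriv M.z M.het Δ hΔ C 0 h00 k w0
      have e1 : DifferentiableAt ℂ (fun ζ => C.s ζ (w (a i))) 0 :=
        (C.anal (w (a i)) 0 h00).differentiableAt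
      have e2 : DifferentiableAt ℂ (fun ζ => C.s ζ w0) 0 := (C.anal w0 0 h00).differentiableAt
      have hgu : (fun ζ' => C.s ζ' (w (a i))) =ᶠ[𝓝 0] fun ζ' => g i ζ' * C.s ζ' w0 := by
        filter_upwards [(C.anal w0 0 h00).continuousAt.eventually_ne hC0] with ζ' hζ'
        exact (div_mul_cancel₀ _ hζ').symm
      rw [hgu.fderiv_eq, fderiv_fun_mul (hg i).hasFDerivAt.differentiableAt e2] at d1
      simp only [_root_.add_apply, _root_.smul_apply, smul_eq_mul, d2] at d1
      have e3 : fderiv ℂ (g i) 0 (Pi.single k 1) =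
          (C.s 0 w0 * C.s 0 (Δ k (w (a i))) - C.s 0 (w (a i)) * C.s 0 (Δ k w0)) /
            (C.s 0 w0) ^ 2 := by
        rw [← d1]
        simp only [g]
        field_simp
        ring
      rw [e3, C.s_zero]
      simp only [P, map_sub, map_mul]
      ring
    let Φ : (Fin r → ℂ) → (Fin r → ℂ) := fun ξ i => g i (ℓ ξ)
    let Φ' : (Fin r → ℂ) →L[ℂ] (Fin r → ℂ) :=
      ContinuousLinearMap.pi fun i => (fderiv ℂ (g i) 0).comp ℓ
    have hΦ : HasStrictFDerivAt Φ Φ' 0 := by
      rw [hasStrictFDerivAt_pi']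
      intro i
      have h5 : HasStrictFDerivAt (fun ξ => g i (ℓ ξ)) ((fderiv ℂ (g i) 0).comp ℓ) 0 := by
        refine HasStrictFDerivAt.comp (0 : Fin r → ℂ) (g := g i) (f := ℓ) ?_ ℓ.hasStrictFDerivAt
        rw [map_zero]
        exact hg i
      exact h5
    have hmat : ∀ i j, Φ' (Pi.single j 1) i = x (P (a i) (κ j)) / (x w0) ^ 2 := by
      intro i j
      change (fderiv ℂ (g i) 0) (ℓ (Pi.single j 1)) = _
      rw [hℓs, hg']
    have hsurj : (Φ' : (Fin r → ℂ) →ₗ[ℂ] (Fin r → ℂ)).range = ⊤ := by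
      have h6 : LinearMap.toMatrix' (Φ' : (Fin r → ℂ) →ₗ[ℂ] (Fin r → ℂ)) =
          ((x w0) ^ 2)⁻¹ • ((Matrix.of fun i j => P (a i) (κ j)).map x) := by
        ext i j
        rw [LinearMap.toMatrix'_apply]
        simp only [Matrix.smul_apply, Matrix.map_apply, Matrix.of_apply, smul_eq_mul]
        have h7 := hmat i j
        rw [div_eq_inv_mul] at h7
        rw [← h7]
        congr 2
      have h8 : IsUnit (LinearMap.det (Φ' : (Fin r → ℂ) →ₗ[ℂ] (Fin r → ℂ))) := by
        rw [← LinearMap.det_toMatrix', h6, Matrix.det_smul, isUnit_iff_ne_zero]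
        refine mul_ne_zero (pow_ne_zero _ (inv_ne_zero (pow_ne_zero _ hx0))) ?_
        have h9 := AlgHom.map_det x (Matrix.of fun i j => P (a i) (κ j))
        intro h10
        apply hxd
        rw [h9]
        exact h10
      have h11 := (LinearMap.equivOfDetNeZero (Φ' : (Fin r → ℂ) →ₗ[ℂ] (Fin r → ℂ))
        h8.ne_zero).range
      exact h11
    have hopen := hΦ.map_nhds_eq_of_surj hsurj
    -- the neighbourhood
    have hcont : ContinuousAt (fun ζ => (C.s ζ : Pt M.B)) 0 :=
      chart_continuousAt C h00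
    have hU1 : ∀ᶠ ζ : Cn m in 𝓝 0, C.s ζ ∈ U := by
      apply hcont.eventually_mem
      change U ∈ 𝓝 (C.s 0)
      rw [C.s_zero]
      exact hU
    have hU2 : ∀ᶠ ζ : Cn m in 𝓝 0, C.s ζ w0 ≠ 0 :=
      (C.anal w0 0 h00).continuousAt.eventually_ne hC0
    have hU3 : ∀ᶠ ζ : Cn m in 𝓝 0, ζ ∈ Metric.ball (0 : Cn m) C.r :=
      Metric.ball_mem_nhds _ C.r_pos
    have hℓ0 : Tendsto ℓ (𝓝 0) (𝓝 0) := by
      have := ℓ.continuous.tendsto 0
      rwa [map_zero] at this
    have hV : {ξ : Fin r → ℂ | C.s (ℓ ξ) ∈ U ∧ C.s (ℓ ξ) w0 ≠ 0 ∧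
        ℓ ξ ∈ Metric.ball (0 : Cn m) C.r} ∈ 𝓝 (0 : Fin r → ℂ) :=
      hℓ0.eventually (hU1.and (hU2.and hU3))
    have hW : Φ '' {ξ : Fin r → ℂ | C.s (ℓ ξ) ∈ U ∧ C.s (ℓ ξ) w0 ≠ 0 ∧
        ℓ ξ ∈ Metric.ball (0 : Cn m) C.r} ∈ 𝓝 (Φ 0) := by
      rw [← hopen]
      exact image_mem_map hV
    obtain ⟨_, ⟨ξ, ⟨h1, h2, h3⟩, rfl⟩, hne⟩ := exists_eval_ne hW hQ
    refine ⟨C.s (ℓ ξ), h1, fun i hi => ?_, h2, hne⟩
    rw [C.s_z _ h3, hℓ ξ i hi, add_zero]

end main

end Crest.Agent.R276.EndRest_870
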