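import Mathlib
import Crest.Agent.R271.Rd5_692

/-!
# Row 276 (S0419), leaf TOW4 (helper244): finite coverings

* `sheets`: a local homeomorphism which is a closed map with finite fibres, over a preconnected base, has
  a constant number `N` of sheets and `N` local sections near every point.
* `compact_preimage_of_integral`: `Hom(B,ℂ) → Hom(C,ℂ)` is proper if `B` is integral over `C`.
-/

set_option autoImplicit false

noncomputable section

open Set Filter Topology

namespace Crest.Agent.R276.Tow4_244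

section top

variable {Y X : Type*} [TopologicalSpace Y] [TopologicalSpace X]

/-- local structure of a finite covering -/
theorem local_sheets [T2Space Y] {f : Y → X} (hf : IsLocalHomeomorph f) (hcl : IsClosedMap f)
    (hfin : ∀ x, (f ⁻¹' {x}).Finite) (x₀ : X) :
    ∃ (N : ℕ) (U : Set X) (σ : Fin N → X → Y), IsOpen U ∧ x₀ ∈ U ∧ (∀ i, ContinuousOn (σ i) U) ∧
      (∀ i, ∀ u ∈ U, f (σ i u) = u) ∧ (∀ u ∈ U, Function.Injective fun i => σ i u) ∧
      ∀ u ∈ U, ∀ y, f y = u → ∃ i, σ i u = y := by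
  classical
  -- enumerate the fibre
  have hfin₀ := hfin x₀
  let F : Finset Y := hfin₀.toFinset
  let e : Fin F.card ≃ F := F.equivFin.symm
  let y : Fin F.card → Y := fun i => (e i : Y)
  have hy : ∀ i, f (y i) = x₀ := by
    intro i
    have h : (e i : Y) ∈ hfin₀.toFinset := (e i).2
    exact hfin₀.mem_toFinset.mp h
  have hyinj : Function.Injective y := fun i j h => e.injective (Subtype.ext h)
  -- local inverses
  choose φ hφ1 hφ2 using fun i => hf (y i)
  -- disjoint neighbourhoods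
  obtain ⟨V, hV1, hV2⟩ := (Set.toFinite (Set.range y)).t2_separation
  have hV : ∀ i, IsOpen (V (y i)) ∧ y i ∈ V (y i) := fun i => ⟨(hV1 (y i)).2, (hV1 (y i)).1⟩
  let W : Fin F.card → Set Y := fun i => V (y i) ∩ (φ i).source
  have hW : ∀ i, IsOpen (W i) := fun i => (hV i).1.inter (φ i).open_source
  have hyW : ∀ i, y i ∈ W i := fun i => ⟨(hV i).2, hφ1 i⟩
  have hdisj : ∀ i j, i ≠ j → Disjoint (W i) (W j) := by
    intro i j hij
    have := hV2 (mem_range_self i) (mem_range_self j) (hyinj.ne hij)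
    exact this.mono inter_subset_left inter_subset_left
  -- the neighbourhood of `x₀`
  let Z : Set Y := (⋃ i, W i)ᶜ
  have hZ : IsClosed Z := (isOpen_iUnion hW).isClosed_compl
  have hfZ : IsClosed (f '' Z) := hcl _ hZ
  have hx₀ : x₀ ∉ f '' Z := by
    rintro ⟨y', hy', hfy'⟩
    have h1 : y' ∈ F := by simpa [F] using hfy'
    obtain ⟨i, hi⟩ := e.surjective ⟨y', h1⟩
    have h2 : y i = y' := congrArg Subtype.val hi
    exact hy' (mem_iUnion.mpr ⟨i, h2 ▸ hyW i⟩)
  let U : Set X := (f '' Z)ᶜ ∩ ⋂ i, f '' (W i)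
  have hUo : IsOpen U := by
    refine hfZ.isOpen_compl.inter (isOpen_iInter_of_finite fun i => ?_)
    exact hf.isOpenMap _ (hW i)
  have hxU : x₀ ∈ U := ⟨hx₀, mem_iInter.mpr fun i => ⟨y i, hyW i, hy i⟩⟩
  -- sections
  have hsec : ∀ i, ∀ u ∈ U, (φ i).symm u ∈ W i ∧ f ((φ i).symm u) = u := by
    intro i u hu
    obtain ⟨y', hy', rfl⟩ := mem_iInter.mp hu.2 i
    have h1 : f y' = φ i y' := by rw [hφ2 i]
    rw [h1, (φ i).left_inv hy'.2]
    exact ⟨hy', by rw [hφ2 i]⟩
  refine ⟨F.card, U, fun i u => (φ i).symm u, hUo, hxU, ?_, fun i u hu => (hsec i u hu).2, ?_, ?_⟩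
  · intro i
    refine (φ i).symm.continuousOn.mono ?_
    intro u hu
    obtain ⟨y', hy', rfl⟩ := mem_iInter.mp hu.2 i
    have h1 : f y' = φ i y' := by rw [hφ2 i]
    rw [h1]
    exact (φ i).map_source hy'.2
  · intro u hu i j hij
    by_contra hne
    have h1 := (hsec i u hu).1
    have h2 := (hsec j u hu).1
    have hij' : (φ i).symm u = (φ j).symm u := hij
    rw [← hij'] at h2
    exact (Set.disjoint_left.mp (hdisj i j hne)) h1 h2
  · intro u hu y' hy'
    have h1 : y' ∉ Z := fun h => hu.1 ⟨y', h, hy'⟩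
    have h2 : y' ∈ ⋃ i, W i := by
      by_contra h
      exact h1 h
    obtain ⟨i, hi⟩ := mem_iUnion.mp h2
    refine ⟨i, ?_⟩
    have h3 : f y' = φ i y' := by rw [hφ2 i]
    change (φ i).symm u = y'
    rw [← hy', h3, (φ i).left_inv hi.2]

/-- constant number of sheets -/
theorem sheets [T2Space Y] [PreconnectedSpace X] {f : Y → X} (hf : IsLocalHomeomorph f)
    (hcl : IsClosedMap f) (hfin : ∀ x, (f ⁻¹' {x}).Finite) :
    ∃ N : ℕ, (∀ x, Nat.card (f ⁻¹' {x}) = N) ∧ ∀ x₀ : X,
    ∃ (U : Set X) (σ : Fin N → X → Y), IsOpen U ∧ x₀ ∈ U ∧ (∀ i, ContinuousOn (σ i) U) ∧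
      (∀ i, ∀ u ∈ U, f (σ i u) = u) ∧ (∀ u ∈ U, Function.Injective fun i => σ i u) ∧
      ∀ u ∈ U, ∀ y, f y = u → ∃ i, σ i u = y := by
  classical
  have hcard : ∀ x₀ : X, ∃ (N : ℕ), (∀ᶠ u in 𝓝 x₀, Nat.card (f ⁻¹' {u}) = N) ∧
      ∃ (U : Set X) (σ : Fin N → X → Y), IsOpen U ∧ x₀ ∈ U ∧ (∀ i, ContinuousOn (σ i) U) ∧
      (∀ i, ∀ u ∈ U, f (σ i u) = u) ∧ (∀ u ∈ U, Function.Injective fun i => σ i u) ∧
      ∀ u ∈ U, ∀ y, f y = u → ∃ i, σ i u = y := by
    intro x₀
    obtain ⟨N, U, σ, h1, h2, h3, h4, h5, h6⟩ := local_sheets hf hcl hfin x₀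
    refine ⟨N, ?_, U, σ, h1, h2, h3, h4, h5, h6⟩
    filter_upwards [h1.mem_nhds h2] with u hu
    let g : Fin N → f ⁻¹' {u} := fun i => ⟨σ i u, h4 i u hu⟩
    have hg : Function.Bijective g := by
      constructor
      · intro i j hij
        exact h5 u hu (congrArg Subtype.val hij)
      · rintro ⟨y, hy⟩
        obtain ⟨i, hi⟩ := h6 u hu y hy
        exact ⟨i, Subtype.ext hi⟩
    rw [← Nat.card_congr (Equiv.ofBijective g hg), Nat.card_fin]
  choose n hn1 hn2 using hcard
  have hcon : ∀ x₀, Nat.card (f ⁻¹' {x₀}) = n x₀ := fun x₀ => (hn1 x₀).self_of_nhds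
  have hlc : IsLocallyConstant (fun x => Nat.card (f ⁻¹' {x})) := by
    rw [IsLocallyConstant.iff_eventually_eq]
    intro x
    filter_upwards [hn1 x] with u hu
    rw [hu, hcon x]
  rcases isEmpty_or_nonempty X with hX | ⟨⟨x₁⟩⟩
  · exact ⟨0, fun x => (hX.false x).elim, fun x => (hX.false x).elim⟩
  · refine ⟨n x₁, fun x => ?_, fun x => ?_⟩
    · rw [hlc.apply_eq_of_preconnectedSpace x x₁, hcon]
    · have h : n x = n x₁ := by
        rw [← hcon x, hlc.apply_eq_of_preconnectedSpace x x₁, hcon]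
      rw [← h]
      exact hn2 x

/-- a continuous map to a locally compact Hausdorff space with compact preimages of compact sets, which
is a local homeomorphism, is closed with finite fibres -/
theorem closed_finite_of_compact [T2Space X] [WeaklyLocallyCompactSpace X] {f : Y → X}
    (hf : IsLocalHomeomorph f) (hK : ∀ K : Set X, IsCompact K → IsCompact (f ⁻¹' K)) :
    IsClosedMap f ∧ ∀ x, (f ⁻¹' {x}).Finite := by
  have hp : IsProperMap f := by
    rw [isProperMap_iff_isCompact_preimage]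
    exact ⟨hf.continuous, fun K hK' => hK K hK'⟩
  refine ⟨hp.isClosedMap, fun x => ?_⟩
  have h1 : IsCompact (f ⁻¹' {x}) := hK {x} isCompact_singleton
  refine h1.finite ?_
  refine IsDiscrete.of_openPartialHomeomorph f (x := x) subset_rfl fun e _ => ?_
  obtain ⟨φ, h1, h2⟩ := hf e
  exact ⟨φ, h1, h2.symm⟩

end top

section integral

open Crest.Agent.R271.Rd692

variable {B C : Type} [CommRing B] [Algebra ℂ B] [CommRing C] [Algebra ℂ C] [Algebra C B]
  [IsScalarTower ℂ C B]

/-- restriction of points -/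
def res (y : Pt B) : Pt C := y.comp (IsScalarTower.toAlgHom ℂ C B)

lemma res_apply (y : Pt B) (c : C) : res y c = y (algebraMap C B c) := rfl

lemma continuous_res : Continuous (res : Pt B → Pt C) := by
  rw [continuous_iff_ev]
  intro c
  exact continuous_ev (algebraMap C B c)

/-- elementary root bound -/
lemma root_bound {n : ℕ} {a : ℕ → ℂ} {t : ℂ} {R : ℝ} (hR : 0 ≤ R) (ha : ∀ i < n, ‖a i‖ ≤ R)
    (h : t ^ n + ∑ i ∈ Finset.range n, a i * t ^ i = 0) : ‖t‖ ≤ n * R + 1 := by
  by_contra hlt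
  push Not at hlt
  have hn : 0 ≤ (n : ℝ) * R := by positivity
  have h1 : 1 ≤ ‖t‖ := by linarith
  rcases Nat.eq_zero_or_pos n with hn0 | hn0
  · subst hn0
    simp at h
  · have h2 : ‖t ^ n‖ ≤ ∑ i ∈ Finset.range n, R * ‖t‖ ^ (n - 1) := by
      have h3 : t ^ n = - ∑ i ∈ Finset.range n, a i * t ^ i := eq_neg_of_add_eq_zero_left h
      rw [h3, norm_neg]
      refine (norm_sum_le _ _).trans (Finset.sum_le_sum fun i hi => ?_)
      have hi' := Finset.mem_range.mp hi
      rw [norm_mul, norm_pow]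
      refine mul_le_mul (ha i hi') (pow_le_pow_right₀ h1 (by omega)) (by positivity) hR
    rw [Finset.sum_const, Finset.card_range, nsmul_eq_mul, norm_pow] at h2
    have h4 : ‖t‖ ^ n = ‖t‖ ^ (n - 1) * ‖t‖ := by
      rw [← pow_succ]; congr 1; omega
    have h5 : 0 < ‖t‖ ^ (n - 1) := by positivity
    rw [h4] at h2
    have h6 : ‖t‖ ^ (n - 1) * ‖t‖ ≤ ‖t‖ ^ (n - 1) * (n * R) := by linarith [h2]
    have h7 : ‖t‖ ≤ n * R := le_of_mul_le_mul_left h6 h5
    linarith

/-- an integral element is bounded on the preimage of a compact set -/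
lemma bounded_of_integral {b : B} (hb : IsIntegral C b) {K : Set (Pt C)} (hK : IsCompact K) :
    ∃ R : ℝ, ∀ y : Pt B, res y ∈ K → ‖y b‖ ≤ R := by
  obtain ⟨p, hp, hpb⟩ := hb
  set n := p.natDegree with hn
  have hbd : ∀ i : ℕ, ∃ R : ℝ, 0 ≤ R ∧ ∀ y ∈ K, ‖(y : Pt C) (p.coeff i)‖ ≤ R := by
    intro i
    obtain ⟨R, hR⟩ := hK.exists_bound_of_continuousOn
      (f := fun y : Pt C => y (p.coeff i)) (continuous_ev (p.coeff i)).continuousOn
    exact ⟨max R 0, le_max_right _ _, fun y hy => (hR y hy).trans (le_max_left _ _)⟩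
  choose R hR0 hR using hbd
  refine ⟨n * (∑ i ∈ Finset.range n, R i) + 1, fun y hy => ?_⟩
  refine root_bound (a := fun i => (res y : Pt C) (p.coeff i))
    (Finset.sum_nonneg fun i _ => hR0 i) ?_ ?_
  · intro i hi
    refine (hR i _ hy).trans ?_
    exact Finset.single_le_sum (f := R) (fun j _ => hR0 j) (Finset.mem_range.mpr hi)
  · have h1 := congrArg y hpb
    rw [map_zero, Polynomial.eval₂_eq_sum_range, map_sum, Finset.sum_range_succ] at h1
    rw [← hn] at h1
    have h2 : p.coeff n = 1 := hp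
    rw [h2] at h1
    simp only [map_mul, map_pow, map_one, one_mul] at h1
    rw [add_comm] at h1
    exact h1

/-- **properness of integral extensions** -/
theorem compact_preimage_of_integral (hft : Algebra.FiniteType ℂ B) (hint : ∀ b : B, IsIntegral C b)
    {K : Set (Pt C)} (hK : IsCompact K) : IsCompact (res ⁻¹' K : Set (Pt B)) := by
  obtain ⟨N, a, ha⟩ := exists_gens hft
  choose R hR using fun i => bounded_of_integral (hint (a i)) hK
  have h1 : IsCompact {y : Pt B | ∑ i, ‖y (a i)‖ ^ 2 ≤ ∑ i, (max (R i) 0) ^ 2} :=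
    isCompact_sublevel a ha _
  refine h1.of_isClosed_subset (hK.isClosed.preimage continuous_res) ?_
  intro y hy
  change ∑ i, ‖y (a i)‖ ^ 2 ≤ ∑ i, (max (R i) 0) ^ 2
  refine Finset.sum_le_sum fun i _ => ?_
  exact pow_le_pow_left₀ (norm_nonneg _) ((hR i y hy).trans (le_max_left _ _)) 2

/-- properness of a map which factors the restriction map -/
theorem compact_preimage_of_factor {X : Type*} [TopologicalSpace X] [T2Space X]
    (hft : Algebra.FiniteType ℂ B) (hint : ∀ b : B, IsIntegral C b) {π : Pt B → X}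
    (hπ : Continuous π) {e : X → Pt C} (he : Continuous e) (h : ∀ y, e (π y) = res y)
    {K : Set X} (hK : IsCompact K) : IsCompact (π ⁻¹' K) := by
  have h1 : IsCompact (res ⁻¹' (e '' K) : Set (Pt B)) :=
    compact_preimage_of_integral hft hint (hK.image he)
  refine h1.of_isClosed_subset (hK.isClosed.preimage hπ) ?_
  intro y hy
  exact ⟨π y, hy, h y⟩

end integral

end Crest.Agent.R276.Tow4_244
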