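import Mathlib
import Crest.Agent.R276.Mod5_987
import Crest.Agent.R276.Tow4_244

/-!
Row 276 (S0419), MOD (helper987), part 6: relative models.

`RMdl L K m r` : a model `ML` of `L` over `ℂ^m` (coordinates `z`) and a model `MK` of `K` over
`ℂ^{m+r}` (coordinates `(z, x)`, base coordinates first) with `B_L → B_K`.
* `q : MK.Pts → ML.Pts`, `x : MK.Pts → ℂ^r`, `φ = (q, x)` local homeomorphism;
* `UR ⊆ ML.Pts × ℂ^r`, `{h_K ≠ 0}`; `φ : MK.Pts → UR` proper, a covering with a constant number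
  of sheets, surjective (`UR` is connected);
* `q` is surjective iff `h_K(z(w), ·) ≠ 0` for all `w`;
* `exists_rmdl`: existence.
-/

set_option autoImplicit false

open Polynomial Topology Filter MeasureTheory
open scoped ENNReal

noncomputable section

namespace Crest.Agent.R276.Mod1_987

open Crest.Agent.R271.Defs710 Crest.Agent.R271.Alg255 Crest.Agent.R271.Rd692
open Crest.Agent.R271.AlgB956 Crest.Agent.R271.Ho51 Crest.Agent.R271
open Crest.Agent.R276.AB2_590

/-! ### connectedness of complements of hypersurfaces -/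

/-- `{p ≠ 0} ⊆ ℂ^r` is connected -/
theorem isPreconnected_eval_ne {r : ℕ} (p : MvPolynomial (Fin r) ℂ) :
    IsPreconnected {ξ : Cn r | MvPolynomial.eval ξ p ≠ 0} := by
  apply isPreconnected_of_forall_pair
  intro a ha b hb
  let P : Polynomial ℂ := MvPolynomial.aeval (fun i => C (a i) + X * C (b i - a i)) p
  have hP : ∀ t : ℂ, P.eval t = MvPolynomial.eval (fun i => a i + t * (b i - a i)) p := by
    intro t
    have h1 := MvPolynomial.comp_aeval_apply
      (fun i => (C (a i) + X * C (b i - a i) : Polynomial ℂ)) (Polynomial.aeval t) p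
    rw [Polynomial.aeval_def, Polynomial.eval₂_eq_eval_map] at h1
    have h2 : P.eval t = (Polynomial.map (algebraMap ℂ ℂ) P).eval t := by
      rw [Algebra.algebraMap_self, Polynomial.map_id]
    have h3 : (fun i => (Polynomial.aeval t) (C (a i) + X * C (b i - a i) : Polynomial ℂ)) =
        fun i => a i + t * (b i - a i) := by
      funext i
      simp
    rw [h2, h1, h3, ← MvPolynomial.coe_aeval_eq_eval]
    rfl
  have hP0 : P ≠ 0 := by
    intro h0
    have h1 := hP 0
    rw [h0, Polynomial.eval_zero] at h1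
    apply ha
    rw [h1]
    congr 2
    funext i
    ring
  have hT : IsPreconnected ({t : ℂ | P.eval t = 0}ᶜ) := by
    have hfin : {t : ℂ | P.eval t = 0}.Finite := by
      have h1 : {t : ℂ | P.eval t = 0} = P.rootSet ℂ := by
        ext t
        rw [Polynomial.mem_rootSet]
        simp [hP0]
      rw [h1]
      exact P.rootSet_finite ℂ
    refine (hfin.countable.isConnected_compl_of_one_lt_rank ?_).isPreconnected
    rw [Complex.rank_real_complex]
    exact_mod_cast one_lt_two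
  have hcont : Continuous (fun t : ℂ => (fun i => a i + t * (b i - a i) : Cn r)) := by fun_prop
  refine ⟨(fun t : ℂ => (fun i => a i + t * (b i - a i) : Cn r)) '' {t : ℂ | P.eval t = 0}ᶜ,
    ?_, ⟨0, ?_, ?_⟩, ⟨1, ?_, ?_⟩, hT.image _ hcont.continuousOn⟩
  · rintro _ ⟨t, ht, rfl⟩
    change MvPolynomial.eval _ p ≠ 0
    rw [← hP]
    exact ht
  · change ¬ P.eval 0 = 0
    rw [hP]
    convert! ha using 3
    simp
  · simp
  · change ¬ P.eval 1 = 0
    rw [hP]
    convert! hb using 3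
    simp
  · simp

/-- an open surjective map with preconnected fibres onto a preconnected space -/
theorem preconnectedSpace_of_fibres {X Y : Type*} [TopologicalSpace X] [TopologicalSpace Y]
    [PreconnectedSpace X] {f : Y → X} (ho : IsOpenMap f) (hs : Function.Surjective f)
    (hf : ∀ x, IsPreconnected (f ⁻¹' {x})) : PreconnectedSpace Y := by
  rw [preconnectedSpace_iff_clopen]
  intro s hc
  have h1 : ∀ y ∈ s, ∀ y', f y' = f y → y' ∈ s := by
    intro y hy y' hy'
    exact ((hf (f y)).subset_isClopen hc ⟨y, rfl, hy⟩) hy'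
  have h2 : IsClopen (f '' s) := by
    refine ⟨?_, ho s hc.isOpen⟩
    rw [← isOpen_compl_iff]
    have h3 : (f '' s)ᶜ = f '' sᶜ := by
      ext x
      constructor
      · intro hx
        obtain ⟨y, rfl⟩ := hs x
        exact ⟨y, fun hy => hx ⟨y, hy, rfl⟩, rfl⟩
      · rintro ⟨y, hy, rfl⟩ ⟨y', hy', h⟩
        exact hy (h1 y' hy' y h.symm)
    rw [h3]
    exact ho _ hc.compl.isOpen
  rcases isClopen_iff.mp h2 with h | h
  · left
    exact Set.image_eq_empty.mp h
  · right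
    ext y
    simp only [Set.mem_univ, iff_true]
    have : f y ∈ f '' s := by rw [h]; trivial
    obtain ⟨y', hy', h3⟩ := this
    exact h1 y' hy' y h3.symm

namespace Mdl

variable {K : Type} [Field K] [Algebra ℂ K] {n : ℕ} (M : Mdl K n)

instance : LocallyCompactSpace (M.B →ₐ[ℂ] ℂ) := by
  obtain ⟨N, a, ha⟩ := exists_gens M.ft
  exact (evN_closedEmbedding a ha).locallyCompactSpace

/-- the complement of the zero set of a polynomial in the coordinates is connected -/
theorem isPreconnected_ne (p : MvPolynomial (Fin n) ℂ) :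
    IsPreconnected {w : M.Pts | MvPolynomial.eval (M.pz w) p ≠ 0} := by
  rcases eq_or_ne p 0 with rfl | hp
  · have : {w : M.Pts | MvPolynomial.eval (M.pz w) (0 : MvPolynomial (Fin n) ℂ) ≠ 0} = ∅ := by
      ext w; simp
    rw [this]
    exact isPreconnected_empty
  · have h1 := range_resB (M := M) (M' := M.loc p hp) rfl (M.le_loc p hp)
    have h2 : {w : M.Pts | MvPolynomial.eval (M.pz w) p ≠ 0} =
        Set.range (resB (M.le_loc p hp) : (M.loc p hp).Pts → M.Pts) := by
      rw [h1]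
      ext w
      rw [Set.mem_ofPred_eq, Set.mem_ofPred_eq, loc_h, map_mul]
      have := M.eval_h_ne w
      simp [this]
    rw [h2]
    exact isPreconnected_range (continuous_resB _)

lemma exists_eval_ne {p : MvPolynomial (Fin n) ℂ} (hp : p ≠ 0) :
    ∃ w : M.Pts, MvPolynomial.eval (M.pz w) p ≠ 0 := by
  have h1 : ∃ ζ : Cn n, MvPolynomial.eval ζ (M.h * p) ≠ 0 := by
    by_contra h
    push Not at h
    exact mul_ne_zero M.h_ne hp (MvPolynomial.funext fun ζ => by rw [h ζ, map_zero])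
  obtain ⟨ζ, hζ⟩ := h1
  rw [map_mul] at hζ
  obtain ⟨y, hy⟩ := M.surj (left_ne_zero_of_mul hζ)
  exact ⟨y, by rw [hy]; exact right_ne_zero_of_mul hζ⟩

end Mdl

/-- specialisation of the first variables -/
def specL {m r : ℕ} (a : Cn m) : MvPolynomial (Fin (m + r)) ℂ →ₐ[ℂ] MvPolynomial (Fin r) ℂ :=
  MvPolynomial.aeval (Fin.append (fun i => MvPolynomial.C (a i)) MvPolynomial.X)

/-- specialisation of the last variables -/
def specR {m r : ℕ} (ξ : Cn r) : MvPolynomial (Fin (m + r)) ℂ →ₐ[ℂ] MvPolynomial (Fin m) ℂ :=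
  MvPolynomial.aeval (Fin.append MvPolynomial.X (fun j => MvPolynomial.C (ξ j)))

lemma eval_specL {m r : ℕ} (a : Cn m) (ξ : Cn r) (p : MvPolynomial (Fin (m + r)) ℂ) :
    MvPolynomial.eval ξ (specL a p) = MvPolynomial.eval (Fin.append a ξ) p := by
  have h1 := MvPolynomial.comp_aeval_apply
    (Fin.append (fun i => MvPolynomial.C (a i)) MvPolynomial.X :
      Fin (m + r) → MvPolynomial (Fin r) ℂ) (MvPolynomial.aeval ξ) p
  have h2 : (fun i => (MvPolynomial.aeval ξ) ((Fin.append (fun i => MvPolynomial.C (a i))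
      MvPolynomial.X : Fin (m + r) → MvPolynomial (Fin r) ℂ) i)) = Fin.append a ξ := by
    funext i
    refine Fin.addCases (fun i => ?_) (fun j => ?_) i <;> simp
  rw [h2] at h1
  exact h1

lemma eval_specR {m r : ℕ} (a : Cn m) (ξ : Cn r) (p : MvPolynomial (Fin (m + r)) ℂ) :
    MvPolynomial.eval a (specR ξ p) = MvPolynomial.eval (Fin.append a ξ) p := by
  have h1 := MvPolynomial.comp_aeval_apply
    (Fin.append MvPolynomial.X (fun j => MvPolynomial.C (ξ j)) :
      Fin (m + r) → MvPolynomial (Fin m) ℂ) (MvPolynomial.aeval a) p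
  have h2 : (fun i => (MvPolynomial.aeval a) ((Fin.append MvPolynomial.X
      (fun j => MvPolynomial.C (ξ j)) : Fin (m + r) → MvPolynomial (Fin m) ℂ) i)) =
      Fin.append a ξ := by
    funext i
    refine Fin.addCases (fun i => ?_) (fun j => ?_) i <;> simp
  rw [h2] at h1
  exact h1

/-! ### relative models -/

/-- A relative model of `K / L`: base coordinates first. -/
structure RMdl (L K : Type) [Field L] [Field K] [Algebra ℂ L] [Algebra ℂ K] [Algebra L K]
    [IsScalarTower ℂ L K] (m r : ℕ) where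
  /-- the base -/
  ML : Mdl L m
  /-- the total space -/
  MK : Mdl K (m + r)
  z_eq : ∀ i, MK.zK (Fin.castAdd r i) = algebraMap L K (ML.zK i)
  incl_mem : ∀ b : ML.B, algebraMap L K b ∈ MK.B

namespace RMdl

variable {L K : Type} [Field L] [Field K] [Algebra ℂ L] [Algebra ℂ K] [Algebra L K]
  [IsScalarTower ℂ L K] {m r : ℕ} (R : RMdl L K m r)

/-- the inclusion of coordinate rings -/
def incl : R.ML.B →ₐ[ℂ] R.MK.B :=
  ((IsScalarTower.toAlgHom ℂ L K).comp R.ML.B.val).codRestrict R.MK.B R.incl_mem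

@[simp] lemma incl_coe (b : R.ML.B) : (R.incl b : K) = algebraMap L K b := rfl

/-- the projection `MK → ML` -/
def q (y : R.MK.Pts) : R.ML.Pts := y.comp R.incl

lemma q_apply (y : R.MK.Pts) (b : R.ML.B) : R.q y b = y (R.incl b) := rfl

/-- the fibre coordinates -/
def x (y : R.MK.Pts) : Cn r := fun j => R.MK.pz y (Fin.natAdd m j)

lemma x_apply (y : R.MK.Pts) (j : Fin r) : R.x y j = y (R.MK.z (Fin.natAdd m j)) := rfl

lemma pz_q (y : R.MK.Pts) (i : Fin m) : R.ML.pz (R.q y) i = R.MK.pz y (Fin.castAdd r i) := by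
  change y (R.incl (R.ML.z i)) = y (R.MK.z (Fin.castAdd r i))
  congr 1
  exact Subtype.ext (R.z_eq i).symm

lemma append_eq (y : R.MK.Pts) : Fin.append (R.ML.pz (R.q y)) (R.x y) = R.MK.pz y := by
  funext i
  refine Fin.addCases (fun i => ?_) (fun j => ?_) i
  · rw [Fin.append_left, R.pz_q]
  · rw [Fin.append_right]
    rfl

lemma continuous_q : Continuous R.q := by
  rw [continuous_iff_ev]
  intro b
  exact continuous_ev _

lemma continuous_x : Continuous R.x := continuous_pi fun _ => continuous_ev _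

/-- `(q, x)` -/
def φ (y : R.MK.Pts) : R.ML.Pts × Cn r := (R.q y, R.x y)

lemma continuous_φ : Continuous R.φ := R.continuous_q.prodMk R.continuous_x

/-- coordinates on `ML × ℂ^r` -/
def pL (w : R.ML.Pts × Cn r) : Cn (m + r) := Fin.append (R.ML.pz w.1) w.2

lemma pL_eq : R.pL = (Fin.appendHomeomorph (X := ℂ) m r) ∘ (Prod.map R.ML.pz id) := rfl

lemma continuous_pL : Continuous R.pL := by
  rw [pL_eq]
  exact (Fin.appendHomeomorph (X := ℂ) m r).continuous.comp
    ((continuous_pr R.ML.z).prodMap continuous_id)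

lemma pL_φ (y : R.MK.Pts) : R.pL (R.φ y) = R.MK.pz y := R.append_eq y

lemma isLocalHomeomorph_pL : IsLocalHomeomorph R.pL := by
  rw [pL_eq]
  apply (Fin.appendHomeomorph (X := ℂ) m r).isLocalHomeomorph.comp
  intro w
  obtain ⟨e, he, he'⟩ := isLocalHomeomorph_pr R.ML.hch w.1
  refine ⟨e.prod (OpenPartialHomeomorph.refl _), ⟨he, trivial⟩, ?_⟩
  change Prod.map (pr R.ML.z) id = Prod.map e id
  rw [he']

theorem isLocalHomeomorph_φ : IsLocalHomeomorph R.φ := by
  refine IsLocalHomeomorph.of_comp (g := R.pL) (f := R.φ) ?_ R.isLocalHomeomorph_pL R.continuous_φ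
  have h1 : R.pL ∘ R.φ = R.MK.pz := funext R.pL_φ
  rw [h1]
  exact isLocalHomeomorph_pr R.MK.hch

theorem isOpenMap_q : IsOpenMap R.q :=
  isOpenMap_fst.comp R.isLocalHomeomorph_φ.isOpenMap

/-- `{h_K ≠ 0}` in `ML × ℂ^r` -/
abbrev UR : Set (R.ML.Pts × Cn r) := {w | MvPolynomial.eval (R.pL w) R.MK.h ≠ 0}

lemma isOpen_UR : IsOpen R.UR :=
  isOpen_ne_fun ((MvPolynomial.continuous_eval R.MK.h).comp R.continuous_pL) continuous_const

lemma φ_mem (y : R.MK.Pts) : R.φ y ∈ R.UR := by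
  change MvPolynomial.eval (R.pL (R.φ y)) R.MK.h ≠ 0
  rw [R.pL_φ]
  exact R.MK.eval_h_ne y

/-- `(q, x) : MK → {h_K ≠ 0}` -/
def φU (y : R.MK.Pts) : R.UR := ⟨R.φ y, R.φ_mem y⟩

lemma continuous_φU : Continuous R.φU := R.continuous_φ.subtype_mk _

theorem isLocalHomeomorph_φU : IsLocalHomeomorph R.φU :=
  IsLocalHomeomorph.of_comp (g := (Subtype.val : R.UR → R.ML.Pts × Cn r)) (f := R.φU)
    R.isLocalHomeomorph_φ R.isOpen_UR.isOpenEmbedding_subtypeVal.isLocalHomeomorph
    R.continuous_φU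

/-- `MK → {h_K ≠ 0}` is proper -/
theorem isCompact_preimage {S : Set (R.ML.Pts × Cn r)} (hS : IsCompact S) (hh : S ⊆ R.UR) :
    IsCompact (R.φ ⁻¹' S) := by
  have h1 : IsCompact (R.pL '' S) := hS.image R.continuous_pL
  have h2 := R.MK.isCompact_preimage h1 (by rintro _ ⟨w, hw, rfl⟩; exact hh hw)
  refine h2.of_isClosed_subset (hS.isClosed.preimage R.continuous_φ) ?_
  intro y hy
  exact ⟨R.φ y, hy, R.pL_φ y⟩

theorem isCompact_preimage_φU {S : Set R.UR} (hS : IsCompact S) : IsCompact (R.φU ⁻¹' S) := by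
  have h1 : IsCompact (Subtype.val '' S : Set (R.ML.Pts × Cn r)) :=
    hS.image continuous_subtype_val
  have h2 := R.isCompact_preimage h1 (by rintro _ ⟨w, _, rfl⟩; exact w.2)
  convert! h2 using 1
  ext y
  constructor
  · intro hy
    exact ⟨_, hy, rfl⟩
  · rintro ⟨w, hw, h⟩
    have : w = R.φU y := Subtype.ext h
    rw [this] at hw
    exact hw

/-! ### shrinking -/

lemma aK_rename (p : MvPolynomial (Fin m) ℂ) :
    R.MK.aK (MvPolynomial.rename (Fin.castAdd r) p) = algebraMap L K (R.ML.aK p) := by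
  change MvPolynomial.aeval R.MK.zK (MvPolynomial.rename (Fin.castAdd r) p) =
    algebraMap L K (MvPolynomial.aeval R.ML.zK p)
  rw [MvPolynomial.aeval_rename]
  have h1 := MvPolynomial.comp_aeval_apply R.ML.zK (IsScalarTower.toAlgHom ℂ L K) p
  have h2 : (fun i => (IsScalarTower.toAlgHom ℂ L K) (R.ML.zK i)) =
      R.MK.zK ∘ Fin.castAdd r := by
    funext i
    exact (R.z_eq i).symm
  rw [h2] at h1
  exact h1.symm

/-- shrink the base by `p` and the total space by `p` and `s` -/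
def shrink (p : MvPolynomial (Fin m) ℂ) (hp : p ≠ 0) (s : MvPolynomial (Fin (m + r)) ℂ)
    (hs : s ≠ 0) : RMdl L K m r where
  ML := R.ML.loc p hp
  MK := R.MK.loc (MvPolynomial.rename (Fin.castAdd r) p * s)
    (mul_ne_zero (by
      rw [Ne, map_eq_zero_iff _ (MvPolynomial.rename_injective _ (Fin.castAdd_injective m r))]
      exact hp) hs)
  z_eq := R.z_eq
  incl_mem := by
    rintro ⟨b, k, hk⟩
    refine ⟨k, ?_⟩
    have h1 : algebraMap L K (R.ML.aK p ^ k * b) ∈ R.MK.B := R.incl_mem ⟨_, hk⟩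
    change (R.MK.aK (MvPolynomial.rename (Fin.castAdd r) p * s)) ^ k * algebraMap L K b ∈ R.MK.B
    rw [map_mul, mul_pow, R.aK_rename]
    rw [map_mul, map_pow] at h1
    have h2 : R.MK.aK s ^ k ∈ R.MK.B := pow_mem (R.MK.aK_mem s) k
    have h3 : (algebraMap L K (R.ML.aK p)) ^ k * R.MK.aK s ^ k * algebraMap L K b =
        R.MK.aK s ^ k * ((algebraMap L K (R.ML.aK p)) ^ k * algebraMap L K b) := by ring
    rw [h3]
    exact mul_mem h2 h1

section exist

omit R

variable (L K)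

/-- **existence of relative models** over a given model of the base -/
theorem exists_rmdl [Algebra.EssFiniteType ℂ K] (ML : Mdl L m) (x : Fin r → K)
    (hx : IsTranscendenceBasis ℂ (Fin.append (fun i => algebraMap L K (ML.zK i)) x))
    (S : Finset K) :
    ∃ g : MvPolynomial (Fin (m + r)) ℂ, g ≠ 0 ∧ ∀ h : MvPolynomial (Fin (m + r)) ℂ, h ≠ 0 →
      g ∣ h → ∃ R : RMdl L K m r, R.ML = ML ∧ R.MK.h = h ∧
        R.MK.zK = Fin.append (fun i => algebraMap L K (ML.zK i)) x ∧
        ∀ s ∈ S, s ∈ R.MK.B ∧ s⁻¹ ∈ R.MK.B := by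
  classical
  obtain ⟨G, hG⟩ := (Subalgebra.fg_iff_finiteType ML.B).mpr ML.ft
  obtain ⟨g, hg, hM⟩ := exists_mdl _ hx (S ∪ G.image (algebraMap L K))
  refine ⟨g, hg, fun h h0 hgh => ?_⟩
  obtain ⟨M, hMh, hMz, hMS⟩ := hM h h0 hgh
  have hincl : ∀ b : ML.B, algebraMap L K b ∈ M.B := by
    have h1 : ML.B.map (IsScalarTower.toAlgHom ℂ L K) ≤ M.B := by
      rw [← hG, AlgHom.map_adjoin, Algebra.adjoin_le_iff]
      rintro _ ⟨a, ha, rfl⟩
      exact (hMS _ (Finset.mem_union_right _ (Finset.mem_image_of_mem _ ha))).1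
    intro b
    exact h1 ⟨b, b.2, rfl⟩
  refine ⟨⟨ML, M, ?_, hincl⟩, rfl, hMh, funext hMz, fun s hs => hMS s
    (Finset.mem_union_left _ hs)⟩
  intro i
  change (M.z (Fin.castAdd r i) : K) = _
  rw [hMz, Fin.append_left]

end exist

/-- the base points over which the fibre is not empty -/
def A : Set R.ML.Pts := {w | ∃ ξ : Cn r, MvPolynomial.eval (R.pL (w, ξ)) R.MK.h ≠ 0}

lemma isPreconnected_A : IsPreconnected R.A := by
  have hset : ∀ ξ : Cn r, {w : R.ML.Pts | MvPolynomial.eval (R.pL (w, ξ)) R.MK.h ≠ 0} =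
      {w : R.ML.Pts | MvPolynomial.eval (R.ML.pz w) (specR ξ R.MK.h) ≠ 0} := by
    intro ξ
    ext w
    rw [Set.mem_ofPred_eq, Set.mem_ofPred_eq, eval_specR]
    rfl
  apply isPreconnected_of_forall_pair
  rintro w₁ ⟨ξ₁, h₁⟩ w₂ ⟨ξ₂, h₂⟩
  set A₁ : Set R.ML.Pts := {w | MvPolynomial.eval (R.pL (w, ξ₁)) R.MK.h ≠ 0} with hA₁
  set A₂ : Set R.ML.Pts := {w | MvPolynomial.eval (R.pL (w, ξ₂)) R.MK.h ≠ 0} with hA₂
  have hne : ∀ ξ : Cn r, ∀ w : R.ML.Pts, MvPolynomial.eval (R.pL (w, ξ)) R.MK.h ≠ 0 →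
      specR ξ R.MK.h ≠ 0 := by
    intro ξ w h h0
    have h3 := eval_specR (R.ML.pz w) ξ R.MK.h
    rw [h0, map_zero] at h3
    exact h h3.symm
  obtain ⟨w₀, hw₀⟩ := R.ML.exists_eval_ne (mul_ne_zero (hne ξ₁ w₁ h₁) (hne ξ₂ w₂ h₂))
  rw [map_mul] at hw₀
  have c₁ : IsPreconnected A₁ := by
    rw [hA₁, hset]; exact R.ML.isPreconnected_ne _
  have c₂ : IsPreconnected A₂ := by
    rw [hA₂, hset]; exact R.ML.isPreconnected_ne _
  have hw₁ : w₀ ∈ A₁ := by
    rw [hA₁, hset]; exact left_ne_zero_of_mul hw₀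
  have hw₂ : w₀ ∈ A₂ := by
    rw [hA₂, hset]; exact right_ne_zero_of_mul hw₀
  refine ⟨A₁ ∪ A₂, ?_, Or.inl h₁, Or.inr h₂, c₁.union w₀ hw₁ hw₂ c₂⟩
  rintro w (h | h)
  · exact ⟨ξ₁, h⟩
  · exact ⟨ξ₂, h⟩

/-- `{h_K ≠ 0} ⊆ ML × ℂ^r` is connected -/
instance : PreconnectedSpace R.UR := by
  let f : R.UR → R.A := fun w => ⟨w.1.1, w.1.2, w.2⟩
  have hA : PreconnectedSpace R.A := isPreconnected_iff_preconnectedSpace.mp R.isPreconnected_A
  refine preconnectedSpace_of_fibres (X := R.A) (f := f) ?_ ?_ ?_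
  · intro s hs
    have h1 : IsOpen (Prod.fst '' (Subtype.val '' s : Set (R.ML.Pts × Cn r))) :=
      isOpenMap_fst _ (R.isOpen_UR.isOpenEmbedding_subtypeVal.isOpenMap s hs)
    have h2 : f '' s = Subtype.val ⁻¹' (Prod.fst '' (Subtype.val '' s :
        Set (R.ML.Pts × Cn r))) := by
      ext w
      constructor
      · rintro ⟨u, hu, rfl⟩
        exact ⟨u.1, ⟨u, hu, rfl⟩, rfl⟩
      · rintro ⟨_, ⟨u, hu, rfl⟩, h⟩
        exact ⟨u, hu, Subtype.ext h⟩
    rw [h2]
    exact h1.preimage continuous_subtype_val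
  · rintro ⟨w, ξ, hw⟩
    exact ⟨⟨(w, ξ), hw⟩, rfl⟩
  · rintro ⟨w, hw⟩
    have h1 := isPreconnected_eval_ne (specL (R.ML.pz w) R.MK.h)
    let g : {ξ : Cn r | MvPolynomial.eval ξ (specL (R.ML.pz w) R.MK.h) ≠ 0} → R.UR :=
      fun ξ => ⟨(w, ξ.1), by
        have := ξ.2
        rw [Set.mem_ofPred_eq, eval_specL] at this
        exact this⟩
    have hg : Continuous g := by
      apply Continuous.subtype_mk
      exact continuous_const.prodMk continuous_subtype_val
    have h2 : f ⁻¹' {⟨w, hw⟩} = Set.range g := by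
      ext u
      constructor
      · intro hu
        have hu1 : u.1.1 = w := congrArg Subtype.val hu
        have hu2 := u.2
        have hmem : u.1.2 ∈ {ξ : Cn r | MvPolynomial.eval ξ (specL (R.ML.pz w) R.MK.h) ≠ 0} := by
          rw [Set.mem_ofPred_eq, eval_specL, ← hu1]
          exact hu2
        exact ⟨⟨u.1.2, hmem⟩, Subtype.ext (Prod.ext hu1.symm rfl)⟩
      · rintro ⟨ξ, rfl⟩
        rfl
    rw [h2]
    have : PreconnectedSpace {ξ : Cn r | MvPolynomial.eval ξ (specL (R.ML.pz w) R.MK.h) ≠ 0} :=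
      isPreconnected_iff_preconnectedSpace.mp h1
    exact isPreconnected_range hg

instance : LocallyCompactSpace R.UR := R.isOpen_UR.locallyCompactSpace

/-- finite fibres, closed map -/
theorem closed_finite : IsClosedMap R.φU ∧ ∀ w, (R.φU ⁻¹' {w}).Finite :=
  Tow4_244.closed_finite_of_compact R.isLocalHomeomorph_φU fun _ h => R.isCompact_preimage_φU h

theorem isProperMap_φU : IsProperMap R.φU := by
  have : CompactlyCoherentSpace R.UR := CompactlyCoherentSpace.of_weaklyLocallyCompactSpace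
  rw [isProperMap_iff_isCompact_preimage]
  exact ⟨R.continuous_φU, fun _ h => R.isCompact_preimage_φU h⟩

/-- `(q, x) : MK → {h_K ≠ 0}` is a covering map -/
theorem isCoveringMap_φU : IsCoveringMap R.φU := by
  rw [isCoveringMap_iff_isCoveringMapOn_univ]
  apply IsClosedMap.isCoveringMapOn_of_isLocalHomeomorphOn R.closed_finite.1
  · intro w _
    exact R.closed_finite.2 w
  · exact R.isLocalHomeomorph_φU.isLocalHomeomorphOn

/-- constant number of sheets -/
theorem exists_sheets : ∃ N : ℕ, 0 < N ∧ (∀ w, Nat.card (R.φU ⁻¹' {w}) = N) ∧ ∀ w₀ : R.UR,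
    ∃ (U : Set R.UR) (σ : Fin N → R.UR → R.MK.Pts), IsOpen U ∧ w₀ ∈ U ∧
      (∀ i, ContinuousOn (σ i) U) ∧ (∀ i, ∀ u ∈ U, R.φU (σ i u) = u) ∧
      (∀ u ∈ U, Function.Injective fun i => σ i u) ∧
      ∀ u ∈ U, ∀ y, R.φU y = u → ∃ i, σ i u = y := by
  obtain ⟨N, h1, h2⟩ := Tow4_244.sheets R.isLocalHomeomorph_φU R.closed_finite.1
    R.closed_finite.2
  refine ⟨N, ?_, h1, h2⟩
  obtain ⟨y⟩ : Nonempty R.MK.Pts := inferInstance
  rw [← h1 (R.φU y)]
  have : Finite (R.φU ⁻¹' {R.φU y}) := R.closed_finite.2 _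
  have : Nonempty (R.φU ⁻¹' {R.φU y}) := ⟨⟨y, rfl⟩⟩
  exact Nat.card_pos

theorem surjective_φU : Function.Surjective R.φU := by
  obtain ⟨N, h0, h1, -⟩ := R.exists_sheets
  intro w
  have h2 := h1 w
  have : Nonempty (R.φU ⁻¹' {w}) := by
    by_contra h
    rw [not_nonempty_iff] at h
    rw [Nat.card_of_isEmpty] at h2
    omega
  obtain ⟨y, hy⟩ := this
  exact ⟨y, hy⟩

theorem range_φ : Set.range R.φ = R.UR := by
  ext w
  constructor
  · rintro ⟨y, rfl⟩
    exact R.φ_mem y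
  · intro hw
    obtain ⟨y, hy⟩ := R.surjective_φU ⟨w, hw⟩
    exact ⟨y, congrArg Subtype.val hy⟩

theorem range_q : Set.range R.q = R.A := by
  ext w
  constructor
  · rintro ⟨y, rfl⟩
    exact ⟨R.x y, R.φ_mem y⟩
  · rintro ⟨ξ, hξ⟩
    obtain ⟨y, hy⟩ := R.surjective_φU ⟨(w, ξ), hξ⟩
    exact ⟨y, congrArg (fun u : R.UR => u.1.1) hy⟩

lemma exists_specR_ne {s : MvPolynomial (Fin (m + r)) ℂ} (hs : s ≠ 0) :
    ∃ ξ : Cn r, specR ξ s ≠ 0 := by
  obtain ⟨ζ, hζ⟩ : ∃ ζ : Cn (m + r), MvPolynomial.eval ζ s ≠ 0 := by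
    by_contra h
    push Not at h
    exact hs (MvPolynomial.funext fun ζ => by rw [h ζ, map_zero])
  refine ⟨fun j => ζ (Fin.natAdd m j), fun h0 => hζ ?_⟩
  have h1 := eval_specR (fun i => ζ (Fin.castAdd r i)) (fun j => ζ (Fin.natAdd m j)) s
  rw [h0, map_zero] at h1
  rw [h1]
  congr 2
  funext i
  refine Fin.addCases (fun i => ?_) (fun j => ?_) i <;> simp

/-- after shrinking the base, `q` is surjective; this remains true for all further shrinkings of
the base -/
theorem exists_surj (s : MvPolynomial (Fin (m + r)) ℂ) (hs : s ≠ 0) :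
    ∃ p : MvPolynomial (Fin m) ℂ, p ≠ 0 ∧ ∀ (p' : MvPolynomial (Fin m) ℂ) (hp' : p' ≠ 0), p ∣ p' →
      Function.Surjective (R.shrink p' hp' s hs).q := by
  obtain ⟨ξ, hξ⟩ := exists_specR_ne (mul_ne_zero R.MK.h_ne hs)
  refine ⟨_, hξ, fun p' hp' hd => ?_⟩
  rw [← Set.range_eq_univ, range_q, Set.eq_univ_iff_forall]
  intro w
  refine ⟨ξ, ?_⟩
  have h1 : MvPolynomial.eval ((R.ML.loc p' hp').pz w) p' ≠ 0 := by
    have := (R.ML.loc p' hp').eval_h_ne w
    rw [Mdl.loc_h, map_mul] at this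
    exact right_ne_zero_of_mul this
  have h2 : MvPolynomial.eval ((R.ML.loc p' hp').pz w) (specR ξ (R.MK.h * s)) ≠ 0 := by
    obtain ⟨e, he⟩ := hd
    have h4 := congrArg (MvPolynomial.eval ((R.ML.loc p' hp').pz w)) he
    rw [h4, map_mul] at h1
    exact left_ne_zero_of_mul h1
  rw [eval_specR, map_mul] at h2
  change MvPolynomial.eval (Fin.append ((R.ML.loc p' hp').pz w) ξ)
    (R.MK.h * (MvPolynomial.rename (Fin.castAdd r) p' * s)) ≠ 0
  rw [map_mul, map_mul, MvPolynomial.eval_rename]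
  have h3 : Fin.append ((R.ML.loc p' hp').pz w) ξ ∘ Fin.castAdd r =
      (R.ML.loc p' hp').pz w := by
    funext i
    simp
  rw [h3]
  exact mul_ne_zero (left_ne_zero_of_mul h2) (mul_ne_zero h1 (right_ne_zero_of_mul h2))

end RMdl

end Crest.Agent.R276.Mod1_987
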