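import Crest.Agent.R276.PVb_159
import Crest.Agent.R271.Rd8_692

/-!
# Row 276, part D1 (helper159): fibre integrals and Fubini
-/

set_option autoImplicit false
set_option linter.unusedSectionVars false

noncomputable section

open Set Filter Topology Complex MeasureTheory
open scoped ENNReal

namespace Crest.Agent.R276.PV_159

open Crest.Agent.R271 Crest.Agent.R271.Ho51 Crest.Agent.R271.W792

/-! ### measure preserving maps -/

/-- `(x, y) ↦ append x y` as a measurable equivalence -/
def eApp (a b : ℕ) : ((Fin a → ℂ) × (Fin b → ℂ)) ≃ᵐ (Fin (a + b) → ℂ) :=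
  (MeasurableEquiv.sumPiEquivProdPi (fun _ : Fin a ⊕ Fin b => ℂ)).symm.trans
    (MeasurableEquiv.piCongrLeft (fun _ : Fin (a + b) => ℂ) finSumFinEquiv)

lemma eApp_apply (a b : ℕ) (p : (Fin a → ℂ) × (Fin b → ℂ)) :
    eApp a b p = Fin.append p.1 p.2 := by
  funext i
  refine Fin.addCases (fun j => ?_) (fun j => ?_) i
  · rw [Fin.append_left]
    have h := Equiv.piCongrLeft_apply_apply (fun _ : Fin (a + b) => ℂ) finSumFinEquiv
      ((MeasurableEquiv.sumPiEquivProdPi (fun _ : Fin a ⊕ Fin b => ℂ)).symm p) (Sum.inl j)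
    exact h
  · rw [Fin.append_right]
    have h := Equiv.piCongrLeft_apply_apply (fun _ : Fin (a + b) => ℂ) finSumFinEquiv
      ((MeasurableEquiv.sumPiEquivProdPi (fun _ : Fin a ⊕ Fin b => ℂ)).symm p) (Sum.inr j)
    exact h

lemma eApp_mp (a b : ℕ) : MeasurePreserving (eApp a b) volume volume :=
  (volume_measurePreserving_sumPiEquivProdPi_symm (fun _ : Fin a ⊕ Fin b => ℂ)).trans
    (volume_measurePreserving_piCongrLeft (fun _ : Fin (a + b) => ℂ) finSumFinEquiv)

lemma lintegral_append {a b : ℕ} {g : (Fin (a + b) → ℂ) → ℝ≥0∞} (hg : Measurable g) :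
    ∫⁻ z, g z = ∫⁻ x : Fin a → ℂ, ∫⁻ y : Fin b → ℂ, g (Fin.append x y) := by
  rw [← (eApp_mp a b).lintegral_comp hg, Measure.volume_eq_prod, lintegral_prod]
  · simp only [eApp_apply]
  · exact (hg.comp (eApp a b).measurable).aemeasurable

lemma measurable_append {a b : ℕ} {g : (Fin (a + b) → ℂ) → ℝ≥0∞} (hg : Measurable g) :
    Measurable fun p : (Fin a → ℂ) × (Fin b → ℂ) => g (Fin.append p.1 p.2) := by
  have h : (fun p : (Fin a → ℂ) × (Fin b → ℂ) => g (Fin.append p.1 p.2)) = g ∘ eApp a b := by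
    funext p
    simp only [Function.comp_apply, eApp_apply]
  rw [h]
  exact hg.comp (eApp a b).measurable

lemma eCons_apply {a : ℕ} (p : ℂ × (Fin a → ℂ)) :
    (MeasurableEquiv.piFinSuccAbove (fun _ : Fin (a + 1) => ℂ) 0).symm p =
      (Fin.cons p.1 p.2 : Fin (a + 1) → ℂ) := by
  show (Fin.insertNth 0 p.1 p.2 : Fin (a + 1) → ℂ) = Fin.cons p.1 p.2
  exact Fin.insertNth_zero' p.1 p.2

lemma lintegral_cons {a : ℕ} {g : (Fin (a + 1) → ℂ) → ℝ≥0∞} (hg : Measurable g) :
    ∫⁻ z, g z = ∫⁻ t : ℂ, ∫⁻ x : Fin a → ℂ, g (Fin.cons t x) := by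
  have h := (volume_preserving_piFinSuccAbove (fun _ : Fin (a + 1) => ℂ) 0).symm
  rw [← h.lintegral_comp hg, Measure.volume_eq_prod, lintegral_prod]
  · simp only [eCons_apply]
  · exact (hg.comp (MeasurableEquiv.measurable _)).aemeasurable

lemma measurable_cons {a : ℕ} {g : (Fin (a + 1) → ℂ) → ℝ≥0∞} (hg : Measurable g) :
    Measurable fun p : ℂ × (Fin a → ℂ) => g (Fin.cons p.1 p.2) := by
  have h : (fun p : ℂ × (Fin a → ℂ) => g (Fin.cons p.1 p.2)) =
      g ∘ (MeasurableEquiv.piFinSuccAbove (fun _ : Fin (a + 1) => ℂ) 0).symm := by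
    funext p
    simp only [Function.comp_apply, eCons_apply]
  rw [h]
  exact hg.comp (MeasurableEquiv.measurable _)

/-! ### fibre integrals -/

section fi

variable {a : ℕ} {M : Type} [TopologicalSpace M] [RDom (a + 1) M]

/-- fibre sum -/
def fsum (g : M → ℝ≥0∞) (ζ : Fin (a + 1) → ℂ) : ℝ≥0∞ := ∑' y : {y : M // cp y = ζ}, g y.1

/-- integral over the fibre `M_t` -/
def fi (g : M → ℝ≥0∞) (t : ℂ) : ℝ≥0∞ := ∫⁻ x : Fin a → ℂ, fsum g (Fin.cons t x)

lemma fsum_mono {g h : M → ℝ≥0∞} {ζ : Fin (a + 1) → ℂ} (H : ∀ y, cp y = ζ → g y ≤ h y) :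
    fsum g ζ ≤ fsum h ζ := ENNReal.tsum_le_tsum fun y => H y.1 y.2

lemma fsum_congr {g h : M → ℝ≥0∞} {ζ : Fin (a + 1) → ℂ} (H : ∀ y, cp y = ζ → g y = h y) :
    fsum g ζ = fsum h ζ := tsum_congr fun y => H y.1 y.2

lemma fi_mono {g h : M → ℝ≥0∞} {t : ℂ} (H : ∀ y : M, (cp y : Fin (a + 1) → ℂ) 0 = t → g y ≤ h y) :
    fi g t ≤ fi h t :=
  lintegral_mono fun x => fsum_mono fun y hy => H y (by rw [hy]; rfl)

lemma fi_congr {g h : M → ℝ≥0∞} {t : ℂ}
    (H : ∀ y : M, (cp y : Fin (a + 1) → ℂ) 0 = t → g y = h y) : fi g t = fi h t :=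
  lintegral_congr fun x => fsum_congr fun y hy => H y (by rw [hy]; rfl)

lemma fi_const_mul {g : M → ℝ≥0∞} {t : ℂ} {k : ℝ≥0∞} (hk : k ≠ ∞) :
    fi (fun y => k * g y) t = k * fi g t := by
  unfold fi fsum
  rw [← lintegral_const_mul' k _ hk]
  refine lintegral_congr fun x => ?_
  rw [ENNReal.tsum_mul_left]

variable [MeasurableSpace M] [BorelSpace M] [SecondCountableTopology M]

lemma measurable_fsum {g : M → ℝ≥0∞} (hg : Measurable g) :
    Measurable (fsum g : (Fin (a + 1) → ℂ) → ℝ≥0∞) := Rd692.measurable_fibre hg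

lemma measurable_fi {g : M → ℝ≥0∞} (hg : Measurable g) : Measurable (fi g) :=
  (measurable_cons (measurable_fsum hg)).lintegral_prod_right'

theorem lintegral_eq_fi {μ : Measure M} (hμ : IsLeb μ) {g : M → ℝ≥0∞} (hg : Measurable g) :
    ∫⁻ y, g y ∂μ = ∫⁻ t : ℂ, fi g t := by
  rw [Rd692.lintegral_eq_fibre hμ hg]
  exact lintegral_cons (measurable_fsum hg)

lemma fi_add {g h : M → ℝ≥0∞} (hg : Measurable g) (t : ℂ) :
    fi (fun y => g y + h y) t = fi g t + fi h t := by
  have hm : Measurable fun x : Fin a → ℂ => fsum g (Fin.cons t x) :=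
    (measurable_cons (measurable_fsum hg)).comp (measurable_const.prodMk measurable_id)
  unfold fi
  rw [← lintegral_add_left hm]
  refine lintegral_congr fun x => ?_
  exact ENNReal.tsum_add

end fi

/-! ### fibres are countable -/

section count

variable {n : ℕ} {M : Type} [TopologicalSpace M] [RDom n M] [SecondCountableTopology M]

instance fibre_countable (ζ : Fin n → ℂ) : Countable {y : M // cp y = ζ} := by
  rcases isEmpty_or_nonempty M with hM | hM
  · infer_instance
  obtain ⟨S, hSc, hSu⟩ := TopologicalSpace.countable_cover_nhds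
    (f := fun x : M => (ch x).source) (fun x => (ch x).open_source.mem_nhds (mem_ch x))
  have h1 : ∀ y : {y : M // cp y = ζ}, ∃ x : S, y.1 ∈ (ch x.1).source := by
    intro y
    have : y.1 ∈ ⋃ x ∈ S, (ch x).source := by rw [hSu]; trivial
    simp only [mem_iUnion] at this
    obtain ⟨x, hx, hy⟩ := this
    exact ⟨⟨x, hx⟩, hy⟩
  choose f hf using h1
  have : Countable S := hSc
  refine Function.Injective.countable (f := f) ?_
  intro y y' h
  have h2 := hf y
  have h3 := hf y'
  rw [← h] at h3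
  apply Subtype.ext
  exact (isCh_ch (f y).1).injOn h2 h3 (by rw [y.2, y'.2])

end count

/-! ### Fubini for the fibre product -/

section fub

variable {a b : ℕ} {M N : Type} [TopologicalSpace M] [TopologicalSpace N]
  [RDom (a + 1) M] [RDom (b + 1) N]

open Classical in
/-- a function on the fibre product as a function of two variables -/
def ext2 {E : Type*} [Zero E] (G : FP M N → E) (x : M) (y : N) : E :=
  if h : (cp x : Fin (a + 1) → ℂ) 0 = (cp y : Fin (b + 1) → ℂ) 0 then G (FP.mk' x y h) else 0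

lemma ext2_of {E : Type*} [Zero E] (G : FP M N → E) {x : M} {y : N}
    (h : (cp x : Fin (a + 1) → ℂ) 0 = (cp y : Fin (b + 1) → ℂ) 0) :
    ext2 G x y = G (FP.mk' x y h) := dif_pos h

/-- the fibre of the fibre product -/
def fibEquiv (t : ℂ) (x : Fin a → ℂ) (y : Fin b → ℂ) :
    {p : FP M N // cp p = (Fin.cons t (Fin.append x y) : Fin (a + b + 1) → ℂ)} ≃
      {m : M // cp m = (Fin.cons t x : Fin (a + 1) → ℂ)} ×
        {n : N // cp n = (Fin.cons t y : Fin (b + 1) → ℂ)} where
  toFun p := (⟨p.1.fst, by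
      have h : L1 a b (cp p.1) = cp p.1.fst := FP.L1_crd p.1
      rw [← h, p.2]
      funext i
      refine Fin.cases rfl (fun j => ?_) i
      simp⟩, ⟨p.1.snd, by
      have h : L2 a b (cp p.1) = cp p.1.snd := FP.L2_crd p.1
      rw [← h, p.2]
      funext i
      refine Fin.cases rfl (fun j => ?_) i
      simp⟩)
  invFun q := ⟨FP.mk' q.1.1 q.2.1 (by rw [q.1.2, q.2.2]; rfl), by
      show glue (cp q.1.1) (cp q.2.1) = _
      rw [q.1.2, q.2.2]
      rfl⟩
  left_inv p := rfl
  right_inv q := rfl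

lemma fsum_FP (G : FP M N → ℝ≥0∞) (t : ℂ) (x : Fin a → ℂ) (y : Fin b → ℂ) :
    fsum G (Fin.cons t (Fin.append x y)) =
      fsum (fun m => fsum (fun n => ext2 G m n) (Fin.cons t y)) (Fin.cons t x) := by
  unfold fsum
  rw [← (fibEquiv (M := M) (N := N) t x y).symm.tsum_eq, ENNReal.tsum_prod']
  refine tsum_congr fun m => tsum_congr fun n => ?_
  show _ = ext2 G m.1 n.1
  rw [ext2_of G (x := m.1) (y := n.1) (by rw [m.2, n.2]; rfl)]
  rfl

variable [SecondCountableTopology M] [SecondCountableTopology N]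
  [MeasurableSpace M] [BorelSpace M] [MeasurableSpace N] [BorelSpace N]
  [MeasurableSpace (FP M N)] [BorelSpace (FP M N)]

lemma measurable_ext2 [T2Space N] {G : FP M N → ℝ≥0∞} (hG : Measurable G) (m : M) :
    Measurable (ext2 G m) := by
  classical
  set C : Set N := {n | (cp m : Fin (a + 1) → ℂ) 0 = (cp n : Fin (b + 1) → ℂ) 0} with hC
  have hCc : IsClosed C := by
    refine isClosed_eq continuous_const ?_
    exact (continuous_apply 0).comp cp_cont
  apply measurable_of_restrict_of_restrict_compl hCc.measurableSet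
  · have h1 : C.domRestrict (ext2 G m) = G ∘ (fun n : C => FP.mk' m n.1 n.2) := by
      funext n
      exact ext2_of G n.2
    rw [h1]
    refine hG.comp (Continuous.measurable ?_)
    exact Continuous.subtype_mk (continuous_const.prodMk continuous_subtype_val) _
  · have h1 : (Cᶜ).domRestrict (ext2 G m) = fun _ => 0 := by
      funext n
      exact dif_neg n.2
    rw [h1]
    exact measurable_const

/-- **Fubini** for the fibre product -/
theorem fi_FP [T2Space N] {G : FP M N → ℝ≥0∞} (hG : Measurable G) (t : ℂ) :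
    fi G t = fi (fun m => fi (fun n => ext2 G m n) t) t := by
  have h0 : Measurable fun z : Fin (a + b) → ℂ => fsum G (Fin.cons t z : Fin (a + b + 1) → ℂ) :=
    (measurable_cons (measurable_fsum hG)).comp (measurable_const.prodMk measurable_id)
  unfold fi
  rw [lintegral_append h0]
  refine lintegral_congr fun x => ?_
  simp_rw [fsum_FP]
  unfold fsum
  rw [lintegral_tsum]
  intro m
  refine Measurable.aemeasurable ?_
  exact (measurable_cons (measurable_fsum (measurable_ext2 hG m.1))).comp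
    (measurable_const.prodMk measurable_id)

end fub

end Crest.Agent.R276.PV_159
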