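import Mathlib
import Crest.Agent.R276.Mod6_987
import Crest.Agent.R276.PVc_159

/-!
Row 276 (S0419), MOD (helper987), part 7: fibres of relative models, Fubini.

* `RMdl.Fib w` : the fibre over `w`, a Riemann domain over `ℂ^r` (coordinates `x`);
* `RMdl.fint w g = ∫_{ℂ^r} ∑_{y : q y = w, x y = ξ} g y`, equal to the integral over `Fib w` for
  its Lebesgue measure (`fint_eq`);
* `RMdl.lintM_fubini` : `∫_{MK} g = ∫_{ML} (∫_{fibre} g)`.
-/

set_option autoImplicit false

open Polynomial Topology Filter MeasureTheory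
open scoped ENNReal

noncomputable section

namespace Crest.Agent.R276.Mod1_987

open Crest.Agent.R271.Defs710 Crest.Agent.R271.Alg255 Crest.Agent.R271.Rd692
open Crest.Agent.R271.AlgB956 Crest.Agent.R271.Ho51 Crest.Agent.R271
open Crest.Agent.R276.AB2_590

/-- the fibres of the first component of a local homeomorphism to a product -/
theorem isLocalHomeomorph_fib {Y X E : Type*} [TopologicalSpace Y] [TopologicalSpace X]
    [TopologicalSpace E] {q : Y → X} {x : Y → E} (hf : IsLocalHomeomorph fun y => (q y, x y))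
    (w : X) : IsLocalHomeomorph (fun y : {y : Y // q y = w} => x y.1) := by
  classical
  apply IsLocalHomeomorph.mk
  rintro ⟨y₀, hy₀⟩
  obtain ⟨e, he, hfe⟩ := hf y₀
  have hq : ∀ y, q y = (e y).1 := fun y => congrArg (fun g : Y → X × E => (g y).1) hfe
  have hx : ∀ y, x y = (e y).2 := fun y => congrArg (fun g : Y → X × E => (g y).2) hfe
  have hinv : ∀ ξ, (w, ξ) ∈ e.target → q (e.symm (w, ξ)) = w := by
    intro ξ hξ
    rw [hq, e.right_inv hξ]
  let inv : E → {y : Y // q y = w} := fun ξ =>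
    if h : (w, ξ) ∈ e.target then ⟨e.symm (w, ξ), hinv ξ h⟩ else ⟨y₀, hy₀⟩
  have hinv' : ∀ ξ (h : (w, ξ) ∈ e.target), inv ξ = ⟨e.symm (w, ξ), hinv ξ h⟩ :=
    fun ξ h => dif_pos h
  have hwx : ∀ y : {y : Y // q y = w}, (w, x y.1) = e y.1 := by
    intro y
    refine Prod.ext ?_ (hx y.1)
    rw [← hq, y.2]
  refine ⟨{
    toFun := fun y => x y.1
    invFun := inv
    source := {y | y.1 ∈ e.source}
    target := {ξ | (w, ξ) ∈ e.target}
    map_source' := ?_
    map_target' := ?_
    left_inv' := ?_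
    right_inv' := ?_
    open_source := e.open_source.preimage continuous_subtype_val
    open_target := e.open_target.preimage (Continuous.prodMk continuous_const continuous_id)
    continuousOn_toFun := ?_
    continuousOn_invFun := ?_ }, he, fun _ _ => rfl⟩
  · intro y hy
    change (w, x y.1) ∈ e.target
    rw [hwx]
    exact e.map_source hy
  · intro ξ hξ
    change (inv ξ).1 ∈ e.source
    rw [hinv' ξ hξ]
    exact e.map_target hξ
  · intro y hy
    have h1 : (w, x y.1) ∈ e.target := by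
      rw [hwx]
      exact e.map_source hy
    rw [hinv' _ h1]
    apply Subtype.ext
    change e.symm (w, x y.1) = y.1
    rw [hwx]
    exact e.left_inv hy
  · intro ξ hξ
    rw [hinv' ξ hξ]
    change x (e.symm (w, ξ)) = ξ
    rw [hx, e.right_inv hξ]
  · have h1 : Continuous fun y : Y => (q y, x y) := hf.continuous
    exact ((continuous_snd.comp h1).comp continuous_subtype_val).continuousOn
  · have h1 : ContinuousOn (fun ξ : E => e.symm (w, ξ)) {ξ | (w, ξ) ∈ e.target} :=
      e.continuousOn_symm.comp (Continuous.prodMk continuous_const continuous_id).continuousOn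
        (fun ξ hξ => hξ)
    rw [continuousOn_iff_continuous_domRestrict] at h1 ⊢
    refine (Topology.IsInducing.continuous_iff (g := (Subtype.val : {y : Y // q y = w} → Y))
      ⟨rfl⟩).mpr ?_
    convert! h1 using 1
    funext ξ
    change (inv ξ.1).1 = e.symm (w, ξ.1)
    rw [hinv' ξ.1 ξ.2]

namespace RMdl

variable {L K : Type} [Field L] [Field K] [Algebra ℂ L] [Algebra ℂ K] [Algebra L K]
  [IsScalarTower ℂ L K] {m r : ℕ} (R : RMdl L K m r)

/-- the fibre of `MK → ML` -/
def Fib (w : R.ML.Pts) : Type := {y : R.MK.Pts // R.q y = w}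

/-- the inclusion of a fibre -/
def Fib.val {w : R.ML.Pts} (y : R.Fib w) : R.MK.Pts := Subtype.val y

instance (w : R.ML.Pts) : TopologicalSpace (R.Fib w) :=
  inferInstanceAs (TopologicalSpace {y : R.MK.Pts // R.q y = w})

instance (w : R.ML.Pts) : T2Space (R.Fib w) :=
  inferInstanceAs (T2Space {y : R.MK.Pts // R.q y = w})

instance (w : R.ML.Pts) : SecondCountableTopology (R.Fib w) :=
  (Topology.IsInducing.mk rfl : Topology.IsInducing
    (Subtype.val : {y : R.MK.Pts // R.q y = w} → R.MK.Pts)).secondCountableTopology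

instance (w : R.ML.Pts) : MeasurableSpace (R.Fib w) := borel _

instance (w : R.ML.Pts) : BorelSpace (R.Fib w) := ⟨rfl⟩

/-- the fibre is a Riemann domain over `ℂ^r` -/
instance (w : R.ML.Pts) : RDom r (R.Fib w) :=
  ⟨fun y => R.x y.val, isLocalHomeomorph_fib (q := R.q) (x := R.x) R.isLocalHomeomorph_φ w⟩

variable {R}

lemma Fib.cp_eq {w : R.ML.Pts} (y : R.Fib w) : cp y = R.x y.val := rfl

lemma Fib.q_eq {w : R.ML.Pts} (y : R.Fib w) : R.q y.val = w := Subtype.property y

lemma Fib.ext {w : R.ML.Pts} {y y' : R.Fib w} (h : y.val = y'.val) : y = y' := Subtype.ext h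

lemma Fib.continuous_val (w : R.ML.Pts) : Continuous (Fib.val (w := w) : R.Fib w → R.MK.Pts) :=
  continuous_subtype_val

variable (R)

/-- fibre sum over `(w, ξ)` -/
def fsumR (g : R.MK.Pts → ℝ≥0∞) (w : R.ML.Pts) (ξ : Cn r) : ℝ≥0∞ :=
  ∑' y : {y : R.MK.Pts // R.q y = w ∧ R.x y = ξ}, g y.1

/-- integral over the fibre `q⁻¹ w` -/
def fint (w : R.ML.Pts) (g : R.MK.Pts → ℝ≥0∞) : ℝ≥0∞ := ∫⁻ ξ : Cn r, R.fsumR g w ξ

lemma fsumR_eq (g : R.MK.Pts → ℝ≥0∞) (w : R.ML.Pts) (ξ : Cn r) :
    R.fsumR g w ξ = ∑' y : {y : R.Fib w // cp y = ξ}, g y.1.val := by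
  let e : {y : R.MK.Pts // R.q y = w ∧ R.x y = ξ} ≃ {y : R.Fib w // cp y = ξ} :=
    { toFun := fun y => ⟨⟨y.1, y.2.1⟩, y.2.2⟩
      invFun := fun y => ⟨y.1.val, y.1.q_eq, y.2⟩
      left_inv := fun _ => rfl
      right_inv := fun _ => rfl }
  exact (e.tsum_eq (fun y : {y : R.Fib w // cp y = ξ} => g y.1.val))

lemma measurable_fsumR {g : R.MK.Pts → ℝ≥0∞} (hg : Measurable g) (w : R.ML.Pts) :
    Measurable (R.fsumR g w) := by
  have h1 : R.fsumR g w = fun ξ => ∑' y : {y : R.Fib w // cp y = ξ}, g y.1.val :=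
    funext fun ξ => R.fsumR_eq g w ξ
  rw [h1]
  exact measurable_fibre (hg.comp (Fib.continuous_val w).measurable)

/-- the fibre integral is the integral against the Lebesgue measure of the fibre -/
theorem fint_eq {w : R.ML.Pts} {μ : Measure (R.Fib w)} (hμ : IsLeb μ) {g : R.MK.Pts → ℝ≥0∞}
    (hg : Measurable g) : R.fint w g = ∫⁻ y, g y.val ∂μ := by
  have h1 := lintegral_eq_fibre hμ (g := fun y : R.Fib w => g y.val)
    (hg.comp (Fib.continuous_val w).measurable)
  rw [h1]
  unfold fint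
  exact lintegral_congr fun ξ => R.fsumR_eq g w ξ

lemma tsum_split (g : R.MK.Pts → ℝ≥0∞) (a : Cn m) (ξ : Cn r) :
    ∑' y : {y : R.MK.Pts // ∀ i, y (R.MK.z i) = Fin.append a ξ i}, g y.1 =
      ∑' w : {w : R.ML.Pts // ∀ i, w (R.ML.z i) = a i}, R.fsumR g w.1 ξ := by
  let e : {y : R.MK.Pts // ∀ i, y (R.MK.z i) = Fin.append a ξ i} ≃
      Σ w : {w : R.ML.Pts // ∀ i, w (R.ML.z i) = a i},
        {y : R.MK.Pts // R.q y = w.1 ∧ R.x y = ξ} :=
    { toFun := fun y => ⟨⟨R.q y.1, fun i => by
          have h1 := R.pz_q y.1 i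
          have h2 := y.2 (Fin.castAdd r i)
          rw [Fin.append_left] at h2
          exact h1.trans h2⟩, ⟨y.1, rfl, by
          funext j
          have h2 := y.2 (Fin.natAdd m j)
          rw [Fin.append_right] at h2
          exact h2⟩⟩
      invFun := fun s => ⟨s.2.1, fun i => by
        have h1 := congrFun (R.append_eq s.2.1) i
        rw [s.2.2.1, s.2.2.2] at h1
        have h2 : R.ML.pz s.1.1 = a := funext s.1.2
        rw [h2] at h1
        exact h1.symm⟩
      left_inv := fun _ => rfl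
      right_inv := by
        rintro ⟨⟨w, hw⟩, ⟨y, hy1, hy2⟩⟩
        change R.q y = w at hy1
        subst hy1
        rfl }
  have h1 := e.tsum_eq (fun s : Σ w : {w : R.ML.Pts // ∀ i, w (R.ML.z i) = a i},
        {y : R.MK.Pts // R.q y = w.1 ∧ R.x y = ξ} => g s.2.1)
  have h2 := ENNReal.tsum_sigma (fun (w : {w : R.ML.Pts // ∀ i, w (R.ML.z i) = a i})
        (y : {y : R.MK.Pts // R.q y = w.1 ∧ R.x y = ξ}) => g y.1)
  exact h1.trans h2

/-- **Fubini** -/
theorem lintM_fubini {g : R.MK.Pts → ℝ≥0∞} (hg : Measurable g) :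
    lintM R.MK.z g = lintM R.ML.z (fun w => R.fint w g) := by
  have hmeas : Measurable fun ζ : Cn (m + r) =>
      ∑' y : {y : R.MK.Pts // ∀ i, y (R.MK.z i) = ζ i}, g y.1 := by
    have h1 : (fun ζ : Cn (m + r) => ∑' y : {y : R.MK.Pts // ∀ i, y (R.MK.z i) = ζ i}, g y.1) =
        fun ζ : Fin (m + r) → ℂ => ∑' y : {y : R.MK.Pts // cp y = ζ}, g y.1 := by
      funext ζ
      let e : {y : R.MK.Pts // ∀ i, y (R.MK.z i) = ζ i} ≃ {y : R.MK.Pts // cp y = ζ} :=
        Equiv.subtypeEquivRight fun y => ⟨fun h => funext h, fun h i => congrFun h i⟩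
      exact e.tsum_eq (fun y : {y : R.MK.Pts // cp y = ζ} => g y.1)
    rw [h1]
    exact measurable_fibre hg
  unfold lintM
  rw [PV_159.lintegral_append hmeas]
  refine lintegral_congr fun a => ?_
  simp_rw [R.tsum_split g a]
  have hcount : Countable {w : R.ML.Pts // ∀ i, w (R.ML.z i) = a i} := by
    by_cases ha : MvPolynomial.eval a R.ML.h = 0
    · have : IsEmpty {w : R.ML.Pts // ∀ i, w (R.ML.z i) = a i} := by
        refine ⟨fun w => R.ML.eval_h_ne w.1 ?_⟩
        have h1 : R.ML.pz w.1 = a := funext w.2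
        rw [h1]
        exact ha
      infer_instance
    · have := (natCard_fib R.ML.fd ha).2
      exact Finite.to_countable
  exact lintegral_tsum (f := fun (w : {w : R.ML.Pts // ∀ i, w (R.ML.z i) = a i}) (ξ : Cn r) =>
    R.fsumR g w.1 ξ) fun w => (R.measurable_fsumR hg w.1).aemeasurable

end RMdl

end Crest.Agent.R276.Mod1_987
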