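import Mathlib
import Crest.Agent.R276.EndRest_870
import Crest.Agent.R276.EndInd_870
import Crest.Agent.R276.AB2_590
import Crest.Agent.R276.Mod7_987

/-!
# Row 276, END-ALG (helper870): functions on the general fibre of a relative model

* `exists_base_poly` : a nonzero element of `MK.B` does not vanish identically on the fibre over
  `y` as soon as `p (z (y)) ≠ 0`, `p ≠ 0` a polynomial.
* `gen_fib` : `w₀ ≠ 0`, `w_j ∈ MK.B`, `w_j/w₀` algebraically independent over `ℂ`: at least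
  `card E - m` of the quotients stay independent on every fibre over `{p ≠ 0}` (`m = dim ML`).
* `ind_fib` : the same in the tower `K₀ ⊆ L ⊆ K`: together with `τ_i/τ₀ ∈ K` independent over `L`.
-/

set_option autoImplicit false

open Topology Filter Set

noncomputable section

namespace Crest.Agent.R276.EndFib_870

open Crest.Agent.R271.Defs710 Crest.Agent.R271.Rd692
open Crest.Agent.R276.Mod1_987 Crest.Agent.R276.AB2_590

variable {L K : Type} [Field L] [Field K] [Algebra ℂ L] [Algebra ℂ K] [Algebra L K]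
  [IsScalarTower ℂ L K] {m r : ℕ} (R : RMdl L K m r)

theorem exists_base_poly {h : R.MK.B} (hh : h ≠ 0) : ∃ p : MvPolynomial (Fin m) ℂ, p ≠ 0 ∧
    ∀ y : R.ML.Pts, MvPolynomial.eval (R.ML.pz y) p ≠ 0 → ∃ x : R.MK.Pts, R.q x = y ∧ x h ≠ 0 := by
  obtain ⟨P, hP, b, hb⟩ := exists_poly_dvd (z := R.MK.z) R.MK.het hh
  obtain ⟨ξ, hξ⟩ := RMdl.exists_specR_ne (mul_ne_zero hP R.MK.h_ne)
  refine ⟨specR ξ (P * R.MK.h), hξ, fun y hy => ?_⟩
  rw [eval_specR, map_mul] at hy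
  have h1 : (y, ξ) ∈ R.UR := right_ne_zero_of_mul hy
  rw [← R.range_φ] at h1
  obtain ⟨x, hx⟩ := h1
  have hq : R.q x = y := congrArg Prod.fst hx
  have hp : R.MK.pz x = Fin.append (R.ML.pz y) ξ := by
    rw [← R.pL_φ x, hx]
    rfl
  refine ⟨x, hq, fun h0 => left_ne_zero_of_mul hy ?_⟩
  rw [← hp, ← R.MK.apply_az']
  change x (MvPolynomial.aeval R.MK.z P) = 0
  rw [hb, map_mul, h0, zero_mul]

/-- **general fibre** -/
theorem gen_fib {E : Type} [Fintype E] (w0 : R.MK.B) (w : E → R.MK.B) (hw0 : w0 ≠ 0)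
    (hind : AlgebraicIndependent ℂ (fun j => (w j : K) / (w0 : K))) :
    ∃ (ν : ℕ) (a : Fin ν → E), Function.Injective a ∧ Fintype.card E ≤ ν + m ∧
      ∃ p : MvPolynomial (Fin m) ℂ, p ≠ 0 ∧ ∀ y : R.ML.Pts,
        MvPolynomial.eval (R.ML.pz y) p ≠ 0 → ∀ Q : MvPolynomial (Fin ν) ℂ, Q ≠ 0 →
          ∃ x : R.MK.Pts, R.q x = y ∧ x w0 ≠ 0 ∧
            MvPolynomial.eval (fun j => x (w (a j)) / x w0) Q ≠ 0 := by
  classical
  obtain ⟨ν, a, ha, hcard, h, hh, hr⟩ := EndRest_870.rest R.MK w0 w hw0 hind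
    (Finset.univ.map (Fin.castAddEmb r))
  obtain ⟨p, hp, hpx⟩ := exists_base_poly R hh
  refine ⟨ν, a, ha, by simpa using hcard, p, hp, fun y hy Q hQ => ?_⟩
  obtain ⟨x, hxy, hx⟩ := hpx y hy
  obtain ⟨e, he, he'⟩ := isLocalHomeomorph_pr R.ML.hch (R.q x)
  have hU : R.q ⁻¹' e.source ∈ 𝓝 x :=
    R.continuous_q.continuousAt.preimage_mem_nhds (e.open_source.mem_nhds he)
  obtain ⟨x', hx'U, hx's, hx'0, hx'Q⟩ := hr x hx Q hQ _ hU
  refine ⟨x', ?_, hx'0, hx'Q⟩
  rw [← hxy]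
  apply e.injOn hx'U he
  rw [← he']
  funext i
  change R.ML.pz (R.q x') i = R.ML.pz (R.q x) i
  rw [R.pz_q, R.pz_q]
  exact hx's (Fin.castAdd r i) (by simp)

end Crest.Agent.R276.EndFib_870
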