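import Mathlib
import Crest.Agent.R276.SkelDefs_220
import Crest.Agent.R276.EndFib_870

/-!
# Row 276 (helper870): the two small leaves `CInd`, `CNz` of `SkelDefs_220`
-/

set_option autoImplicit false

open Topology Filter Set MeasureTheory

noncomputable section

namespace Crest.Agent.R276.CInd_870

open Crest.Agent.R271 Crest.Agent.R271.Defs710 Crest.Agent.R271.Rd692
open Crest.Agent.R276.Mod1_987 Crest.Agent.R276.SkelDefs_220

section hom

variable {q : ℕ}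

lemma eval_smul_hom {σ : Type*} {Q : MvPolynomial σ ℂ} {Δ : ℕ} (hQ : Q.IsHomogeneous Δ)
    (c : ℂ) (x : σ → ℂ) :
    MvPolynomial.eval (fun i => c * x i) Q = c ^ Δ * MvPolynomial.eval x Q := by
  rw [MvPolynomial.eval_eq, MvPolynomial.eval_eq, Finset.mul_sum]
  refine Finset.sum_congr rfl fun μ hμ => ?_
  have h1 : ∑ i ∈ μ.support, μ i = Δ := (hQ.degree_eq_sum_deg_support hμ).symm
  simp only [mul_pow]
  rw [Finset.prod_mul_distrib, Finset.prod_pow_eq_pow_sum, h1]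
  ring

/-- dehomogenisation -/
def deh (Q : MvPolynomial (Fin (q + 1)) ℂ) : MvPolynomial (Fin q) ℂ :=
  MvPolynomial.aeval (Fin.cons 1 MvPolynomial.X) Q

lemma eval_deh (Q : MvPolynomial (Fin (q + 1)) ℂ) (x : Fin q → ℂ) :
    MvPolynomial.eval x (deh Q) = MvPolynomial.eval (Fin.cons 1 x) Q := by
  have h1 := MvPolynomial.comp_aeval_apply (Fin.cons 1 MvPolynomial.X : Fin (q + 1) →
    MvPolynomial (Fin q) ℂ) (MvPolynomial.aeval x : MvPolynomial (Fin q) ℂ →ₐ[ℂ] ℂ) Q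
  rw [deh, ← MvPolynomial.aeval_eq_eval, ← MvPolynomial.aeval_eq_eval, h1]
  congr 2
  funext i
  refine Fin.cases ?_ (fun i => ?_) i <;> simp

lemma eval_hom {Q : MvPolynomial (Fin (q + 1)) ℂ} {Δ : ℕ} (hQ : Q.IsHomogeneous Δ) {y : Fin (q + 1) → ℂ}
    (h0 : y 0 ≠ 0) : MvPolynomial.eval y Q =
      y 0 ^ Δ * MvPolynomial.eval (fun j : Fin q => y j.succ / y 0) (deh Q) := by
  rw [eval_deh, ← eval_smul_hom hQ]
  congr 2
  funext i
  refine Fin.cases ?_ (fun i => ?_) i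
  · simp
  · simp only [Fin.cons_succ]
    field_simp

lemma deh_ne_zero {Q : MvPolynomial (Fin (q + 1)) ℂ} {Δ : ℕ} (hQ : Q.IsHomogeneous Δ) (h : Q ≠ 0) :
    deh Q ≠ 0 := by
  intro h0
  apply h
  have h1 : MvPolynomial.X 0 * Q = 0 := by
    refine MvPolynomial.funext fun y => ?_
    rw [map_mul, MvPolynomial.eval_X, map_zero]
    rcases eq_or_ne (y 0) 0 with hy | hy
    · rw [hy, zero_mul]
    · rw [eval_hom hQ hy, h0, map_zero, mul_zero, mul_zero]
  exact (mul_eq_zero.1 h1).resolve_left (MvPolynomial.X_ne_zero 0)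

/-- from the inhomogeneous form to the homogeneous form of independence -/
theorem hom_of_ind {Y : Type*} (t : Y → Fin (q + 1) → ℂ)
    (h : ∀ Q : MvPolynomial (Fin q) ℂ, Q ≠ 0 → ∃ y, t y 0 ≠ 0 ∧
      MvPolynomial.eval (fun j : Fin q => t y j.succ / t y 0) Q ≠ 0)
    (Δ : ℕ) (Q : MvPolynomial (Fin (q + 1)) ℂ) (hQ : Q.IsHomogeneous Δ)
    (h0 : ∀ y, MvPolynomial.eval (t y) Q = 0) : Q = 0 := by
  by_contra hne
  obtain ⟨y, hy, hy'⟩ := h _ (deh_ne_zero hQ hne)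
  have h1 := h0 y
  rw [eval_hom hQ hy] at h1
  exact mul_ne_zero (pow_ne_zero _ hy) hy' h1

end hom

section rel

variable {T L : Type} [Field T] [Field L] [Algebra ℂ T] [Algebra ℂ L] [Algebra T L]
  [IsScalarTower ℂ T L] {ρ a : ℕ} {MT : Mdl T ρ} {ML : Mdl L (ρ + a)}

/-- 220's relative model as 987's -/
abbrev rm (H : Rel MT ML) : RMdl T L ρ a where
  ML := MT
  MK := ML
  z_eq := H.coord
  incl_mem := H.mem

lemma rm_q (H : Rel MT ML) (y : ML.Pts) : (rm H).q y = H.f y := by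
  apply AlgHom.ext
  intro b
  rfl

end rel

section main

variable {T L K : Type} [Field T] [Field L] [Field K] [Algebra ℂ T] [Algebra ℂ L] [Algebra ℂ K]
  [Algebra T L] [Algebra L K] [IsScalarTower ℂ T L] [IsScalarTower ℂ L K] {ρ a r : ℕ}
  {MT : Mdl T ρ} {ML : Mdl L (ρ + a)}

/-- **CNz** -/
theorem cNz (H₁ : Rel MT ML) : CNz H₁ := by
  intro σ hσ
  obtain ⟨p, hp, h⟩ := EndFib_870.exists_base_poly (rm H₁) (h := σ) hσ
  filter_upwards [Null956.ae_eval_ne hp] with c hc y hy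
  obtain ⟨x, hx, hx'⟩ := h y (by
    have : (rm H₁).ML.pz y = c := hy
    rw [this]; exact hc)
  exact ⟨x, (rm_q H₁ x).symm.trans hx, hx'⟩

/-- **CInd** -/
theorem cInd (H₁ : Rel MT ML) {e : ℕ} (w : Fin (e + 1) → ML.B) (hw0 : w 0 ≠ 0)
    (hind : AlgebraicIndependent ℂ (fun i : Fin e => (w i.succ : L) / (w 0 : L))) : CInd H₁ w := by
  obtain ⟨ν, α, hα, hcard, p, hp, h⟩ := EndFib_870.gen_fib (rm H₁) (E := Fin e) (w 0)
    (fun i => w i.succ) hw0 hind
  refine ⟨ν, Fin.cons 0 fun j => (α j).succ, by simpa using hcard, ?_⟩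
  filter_upwards [Null956.ae_eval_ne hp] with c hc y hy Δ Q hQ hQ0
  have hyp : MvPolynomial.eval ((rm H₁).ML.pz y) p ≠ 0 := by
    have : (rm H₁).ML.pz y = c := hy
    rw [this]; exact hc
  refine hom_of_ind (Y := {z : ML.Pts // H₁.f z = y})
    (fun z i => z.1 (w ((Fin.cons 0 fun j => (α j).succ : Fin (ν + 1) → Fin (e + 1)) i)))
    (fun P hP => ?_) Δ Q hQ (fun z => hQ0 z.1 z.2)
  obtain ⟨x, hx, hx0, hx'⟩ := h y hyp P hP
  refine ⟨⟨x, (rm_q H₁ x).symm.trans hx⟩, hx0, ?_⟩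
  exact hx'

end main

end Crest.Agent.R276.CInd_870
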