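import Mathlib
import Crest.Agent.R276.Mod7_987

/-!
Row 276 (S0419), MODPACK (B4), part 0 (helper652): normality of models.

* `IC B` : every root in `K` of a monic polynomial with coefficients in `B` belongs to `B`;
* `ic_loc` : stable under localisation;
* `Mdl.ic` : the coordinate ring of a model is normal.
-/

set_option autoImplicit false

open Polynomial Topology Filter MeasureTheory
open scoped ENNReal

noncomputable section

namespace Crest.Agent.R276.CmpR_652

open Crest.Agent.R271.Defs710 Crest.Agent.R271.Alg255 Crest.Agent.R271.Rd692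
open Crest.Agent.R276.Mod1_987

section ic

variable {K : Type} [Field K]

/-- every root in `K` of a monic polynomial with coefficients in `B` belongs to `B` -/
def IC (B : Set K) : Prop :=
  ∀ P : Polynomial K, P.Monic → (∀ i, P.coeff i ∈ B) → ∀ a : K, P.eval a = 0 → a ∈ B

/-- localisations of normal rings are normal -/
theorem ic_loc {B : Subring K} (hB : IC (B : Set K)) {c : K} (hc : c ∈ B) {B' : Set K}
    (hB' : ∀ b : K, b ∈ B' ↔ ∃ k : ℕ, c ^ k * b ∈ B) : IC B' := by
  classical
  intro P hP hco a ha
  choose k hk using fun i => (hB' _).1 (hco i)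
  let l : ℕ := ∑ i ∈ Finset.range (P.natDegree + 1), k i
  have hl : ∀ i, c ^ l * P.coeff i ∈ B := by
    intro i
    rcases le_or_gt i P.natDegree with hi | hi
    · have h1 : k i ≤ l := Finset.single_le_sum (f := k) (fun _ _ => Nat.zero_le _)
        (Finset.mem_range.2 (Nat.lt_succ_of_le hi))
      obtain ⟨e, he⟩ := Nat.exists_eq_add_of_le h1
      rw [he, pow_add, mul_comm (c ^ k i), mul_assoc]
      exact mul_mem (pow_mem hc e) (hk i)
    · rw [Polynomial.coeff_eq_zero_of_natDegree_lt hi, mul_zero]
      exact zero_mem _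
  rw [hB']
  refine ⟨l, hB (P.scaleRoots (c ^ l)) ?_ ?_ _ ?_⟩
  · exact (Polynomial.monic_scaleRoots_iff (c ^ l)).2 hP
  · intro i
    rw [Polynomial.coeff_scaleRoots]
    rcases lt_trichotomy i P.natDegree with hi | hi | hi
    · obtain ⟨e, he⟩ : ∃ e, P.natDegree - i = e + 1 := ⟨P.natDegree - i - 1, by omega⟩
      rw [he, pow_succ]
      have h1 : P.coeff i * ((c ^ l) ^ e * c ^ l) = (c ^ l) ^ e * (c ^ l * P.coeff i) := by ring
      rw [h1]
      exact mul_mem (pow_mem (pow_mem hc _) _) (hl i)
    · subst hi
      rw [Nat.sub_self, pow_zero, mul_one, hP.coeff_natDegree]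
      exact one_mem _
    · rw [Polynomial.coeff_eq_zero_of_natDegree_lt hi, zero_mul]
      exact zero_mem _
  · have h1 := Polynomial.scaleRoots_eval₂_mul (p := P) (f := RingHom.id K) (c ^ l) (r := a)
    rw [Polynomial.eval₂_id, RingHom.id_apply, Polynomial.eval₂_id, ha, mul_zero] at h1
    exact h1

/-- integral closures are normal -/
theorem ic_integralClosure (R : Type) [CommRing R] [Algebra R K] :
    IC ((integralClosure R K : Subalgebra R K) : Set K) := by
  intro P hP hco a ha
  have h1 : ∃ Q : Polynomial (integralClosure R K), Q.map (algebraMap (integralClosure R K) K) = P ∧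
      Q.Monic := by
    have h2 : P ∈ Polynomial.lifts (algebraMap (integralClosure R K) K) := by
      rw [Polynomial.lifts_iff_coeff_lifts]
      intro i
      exact ⟨⟨_, hco i⟩, rfl⟩
    obtain ⟨Q, hQ, -, hQm⟩ := Polynomial.lifts_and_natDegree_eq_and_monic h2 hP
    exact ⟨Q, hQ, hQm⟩
  obtain ⟨Q, hQ, hQm⟩ := h1
  have h3 : IsIntegral (integralClosure R K) a := by
    refine ⟨Q, hQm, ?_⟩
    rw [← Polynomial.eval_map, hQ]
    exact ha
  exact isIntegral_trans a h3

end ic

section mdl

variable {K : Type} [Field K] [Algebra ℂ K] {n : ℕ} (M : Mdl K n)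

/-- the coordinate ring of a model is normal -/
theorem ic_mdl : IC (M.B : Set K) := by
  let _ : Algebra (MvPolynomial (Fin n) ℂ) K := M.aK.toAlgebra
  have h1 : IC (((integralClosure (MvPolynomial (Fin n) ℂ) K).toSubring : Subring K) : Set K) :=
    ic_integralClosure (MvPolynomial (Fin n) ℂ)
  refine ic_loc h1 (c := M.aK M.h) ?_ ?_
  · exact (isIntegral_algebraMap : IsIntegral (MvPolynomial (Fin n) ℂ)
      (algebraMap (MvPolynomial (Fin n) ℂ) K M.h))
  · intro b
    exact M.mem_B_iff b

theorem ic_locSub {B : Subalgebra ℂ K} (hB : IC (B : Set K)) {c : K} (hc : c ∈ B) :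
    IC (locSub B c hc : Set K) :=
  ic_loc (B := B.toSubring) hB hc fun _ => mem_locSub

end mdl

end Crest.Agent.R276.CmpR_652
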