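import Mathlib
import Crest.Agent.R276.CmpR0_652

/-!
Row 276 (S0419), MODPACK (B4) (helper652): comparison of two relative models of `K / L` with the
same fibre coordinates.

`Cmp R₀ R` : `R` is obtained from `R₀` by shrinking and by a change of the coordinates of the base.
* `rL`, `rK` : the restriction maps, `R₀.q ∘ rK = rL ∘ R.q`, `R₀.x ∘ rK = R.x`;
* `exists_lift` : a point of the `R₀`-fibre over `rL w` at which `h_K` (in the new coordinates) does
  not vanish comes from the `R`-fibre over `w`;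
* `fK w : R.Fib w → R₀.Fib (rL w)` : open embedding preserving the coordinates, the complement of
  the range is the zero set of one nonzero polynomial in the fibre coordinates; hence dense and
  conull for EVERY `w` with nonempty fibre;
* `fint_eq` : the fibre integrals agree for every function; `fintS_eq` : `s`-fold version.
-/

set_option autoImplicit false

open Polynomial Topology Filter MeasureTheory
open scoped ENNReal

noncomputable section

namespace Crest.Agent.R276.CmpR_652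

open Crest.Agent.R271.Defs710 Crest.Agent.R271.Alg255 Crest.Agent.R271.Rd692
open Crest.Agent.R271.AlgB956 Crest.Agent.R271.Ho51 Crest.Agent.R271
open Crest.Agent.R276.Mod1_987

variable {L K : Type} [Field L] [Field K] [Algebra ℂ L] [Algebra ℂ K] [Algebra L K]
  [IsScalarTower ℂ L K] {m r : ℕ}

/-- `R` is obtained from `R₀` by shrinking and changing the coordinates of the base; the fibre
coordinates are the same -/
structure Cmp (R₀ R : RMdl L K m r) : Prop where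
  x_eq : ∀ j, R.MK.zK (Fin.natAdd m j) = R₀.MK.zK (Fin.natAdd m j)
  leL : R₀.ML.B ≤ R.ML.B
  leK : R₀.MK.B ≤ R.MK.B
  loc : ∃ (c : L) (hc : c ∈ R₀.ML.B), c ≠ 0 ∧ R.ML.B = locSub R₀.ML.B c hc

namespace Cmp

variable {R₀ R : RMdl L K m r} (h : Cmp R₀ R)

/-- the restriction map of the bases -/
def rL (h : Cmp R₀ R) : R.ML.Pts → R₀.ML.Pts := Mdl.resB h.leL

/-- the restriction map of the total spaces -/
def rK (h : Cmp R₀ R) : R.MK.Pts → R₀.MK.Pts := Mdl.resB h.leK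

lemma rL_apply (w : R.ML.Pts) (b : R₀.ML.B) : h.rL w b = w ⟨b, h.leL b.2⟩ := rfl

lemma rK_apply (y : R.MK.Pts) (b : R₀.MK.B) : h.rK y b = y ⟨b, h.leK b.2⟩ := rfl

lemma continuous_rL : Continuous h.rL := Mdl.continuous_resB h.leL

lemma continuous_rK : Continuous h.rK := Mdl.continuous_resB h.leK

theorem q_rK (y : R.MK.Pts) : R₀.q (h.rK y) = h.rL (R.q y) := by
  ext b
  rfl

theorem x_rK (y : R.MK.Pts) : R₀.x (h.rK y) = R.x y := by
  funext j
  rw [RMdl.x_apply, RMdl.x_apply, rK_apply]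
  congr 1
  exact Subtype.ext (h.x_eq j).symm

include h in
/-- the denominator of the base -/
theorem exists_c : ∃ c ∈ R₀.ML.B, c ≠ 0 ∧ c⁻¹ ∈ R.ML.B ∧ ∀ b ∈ R.ML.B, ∃ k : ℕ,
    c ^ k * b ∈ R₀.ML.B := by
  obtain ⟨c, hc, h0, hB⟩ := h.loc
  refine ⟨c, hc, h0, ?_, ?_⟩
  · rw [hB]
    exact inv_mem_locSub h0
  · intro b hb
    rw [hB] at hb
    exact hb

theorem rL_injective : Function.Injective h.rL := by
  obtain ⟨c, hc, h0, hinv, hB⟩ := h.exists_c
  intro w w' hw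
  ext b
  obtain ⟨k, hk⟩ := hB b b.2
  have key : ∀ v : R.ML.Pts, v ⟨c, h.leL hc⟩ ≠ 0 := by
    intro v hv
    have h1 : (⟨c, h.leL hc⟩ : R.ML.B) * ⟨c⁻¹, hinv⟩ = 1 := Subtype.ext (mul_inv_cancel₀ h0)
    have h2 := congrArg v h1
    rw [map_mul, hv, zero_mul, map_one] at h2
    exact zero_ne_one h2
  have h3 : ∀ v : R.ML.Pts, v ⟨c, h.leL hc⟩ ^ k * v b = h.rL v ⟨c ^ k * b, hk⟩ := by
    intro v
    rw [rL_apply, ← map_pow, ← map_mul]
    rfl
  have h4 := h3 w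
  rw [hw, ← h3 w'] at h4
  have h5 : w ⟨c, h.leL hc⟩ = w' ⟨c, h.leL hc⟩ := congrArg (fun v : R₀.ML.Pts => v ⟨c, hc⟩) hw
  rw [h5] at h4
  exact mul_left_cancel₀ (pow_ne_zero k (key w')) h4

/-- the image of the denominator of the base belongs to the coordinate ring of `K` -/
lemma alg_mem {c : L} (hc : c ∈ R₀.ML.B) : algebraMap L K c ∈ R₀.MK.B := R₀.incl_mem ⟨c, hc⟩

include h in
lemma zK_mem {c : L} (hc : c ∈ R₀.ML.B) (hB : ∀ b ∈ R.ML.B, ∃ k : ℕ, c ^ k * b ∈ R₀.ML.B)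
    (i : Fin (m + r)) : R.MK.zK i ∈ locSub R₀.MK.B (algebraMap L K c) (alg_mem hc) := by
  refine Fin.addCases (fun i => ?_) (fun j => ?_) i
  · rw [R.z_eq]
    obtain ⟨k, hk⟩ := hB _ (R.ML.z i).2
    refine ⟨k, ?_⟩
    have h1 := alg_mem (R₀ := R₀) hk
    rw [map_mul, map_pow] at h1
    exact h1
  · rw [h.x_eq]
    exact le_locSub (hH := alg_mem hc) (R₀.MK.z (Fin.natAdd m j)).2

include h in
/-- elements of the new coordinate ring, in terms of the old one -/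
theorem key {c : L} (hc : c ∈ R₀.ML.B) (hB : ∀ b ∈ R.ML.B, ∃ k : ℕ, c ^ k * b ∈ R₀.ML.B)
    {b : K} (hb : b ∈ R.MK.B) : ∃ k : ℕ, R.MK.aK R.MK.h ^ k * b ∈
      locSub R₀.MK.B (algebraMap L K c) (alg_mem hc) := by
  obtain ⟨k, P, hP, hP0⟩ := (R.MK.mem_B_iff b).1 hb
  refine ⟨k, ?_⟩
  refine ic_locSub (ic_mdl R₀.MK) (alg_mem hc) (P.map R.MK.aK) (hP.map _) ?_ _ ?_
  · intro i
    rw [Polynomial.coeff_map]
    exact aeval_mem (h.zK_mem hc hB) _
  · rw [Polynomial.eval_map]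
    exact hP0

/-- **lifting of points** -/
theorem exists_lift {y₀ : R₀.MK.Pts} {w : R.ML.Pts} (hq : R₀.q y₀ = h.rL w)
    (hne : MvPolynomial.eval (Fin.append (R.ML.pz w) (R₀.x y₀)) R.MK.h ≠ 0) :
    ∃ y : R.MK.Pts, h.rK y = y₀ ∧ R.q y = w := by
  obtain ⟨c, hc, h0, hinv, hB⟩ := h.exists_c
  have hcK : algebraMap L K c ∈ R₀.MK.B := alg_mem hc
  have hwc : w ⟨c, h.leL hc⟩ ≠ 0 := by
    intro hv
    have h1 : (⟨c, h.leL hc⟩ : R.ML.B) * ⟨c⁻¹, hinv⟩ = 1 := Subtype.ext (mul_inv_cancel₀ h0)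
    have h2 := congrArg w h1
    rw [map_mul, hv, zero_mul, map_one] at h2
    exact zero_ne_one h2
  have hyq : ∀ b : R₀.ML.B, y₀ ⟨algebraMap L K b, alg_mem b.2⟩ = w ⟨b, h.leL b.2⟩ := by
    intro b
    exact congrArg (fun v : R₀.ML.Pts => v b) hq
  have hyc : y₀ ⟨algebraMap L K c, hcK⟩ = w ⟨c, h.leL hc⟩ := hyq ⟨c, hc⟩
  obtain ⟨y₁, hy₁⟩ := exists_ext_loc hcK y₀ (by rw [hyc]; exact hwc)
  -- `y₁` extends `w`
  have hA : ∀ b : R.ML.B, algebraMap L K b ∈ locSub R₀.MK.B (algebraMap L K c) hcK := by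
    intro b
    obtain ⟨k, hk⟩ := hB b b.2
    refine ⟨k, ?_⟩
    have h1 := alg_mem (R₀ := R₀) hk
    rw [map_mul, map_pow] at h1
    exact h1
  have hy₁w : ∀ b : R.ML.B, y₁ ⟨algebraMap L K b, hA b⟩ = w b := by
    intro b
    obtain ⟨k, hk⟩ := hB b b.2
    have h1 : y₁ ⟨algebraMap L K c, le_locSub hcK⟩ ^ k * y₁ ⟨algebraMap L K b, hA b⟩ =
        y₀ ⟨algebraMap L K (c ^ k * b), alg_mem hk⟩ := by
      rw [← hy₁, ← map_pow, ← map_mul]
      congr 1
      apply Subtype.ext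
      change algebraMap L K c ^ k * algebraMap L K b = algebraMap L K (c ^ k * b)
      rw [map_mul, map_pow]
    rw [hyq ⟨c ^ k * b, hk⟩, hy₁ ⟨_, hcK⟩, hyc] at h1
    have h2 : w ⟨c ^ k * (b : L), h.leL hk⟩ = w ⟨c, h.leL hc⟩ ^ k * w b := by
      rw [← map_pow, ← map_mul]
      rfl
    rw [h2] at h1
    exact mul_left_cancel₀ (pow_ne_zero k hwc) h1
  -- `h_K` belongs to `A`
  let zA : Fin (m + r) → locSub R₀.MK.B (algebraMap L K c) hcK :=
    fun i => ⟨R.MK.zK i, h.zK_mem hc hB i⟩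
  have hzA : (fun i => y₁ (zA i)) = Fin.append (R.ML.pz w) (R₀.x y₀) := by
    funext i
    refine Fin.addCases (fun i => ?_) (fun j => ?_) i
    · rw [Fin.append_left]
      have h1 : zA (Fin.castAdd r i) = ⟨algebraMap L K (R.ML.z i : L), hA _⟩ :=
        Subtype.ext (R.z_eq i)
      rw [h1, hy₁w]
      rfl
    · rw [Fin.append_right]
      have h1 : zA (Fin.natAdd m j) = ⟨(R₀.MK.z (Fin.natAdd m j) : K),
          le_locSub (R₀.MK.z (Fin.natAdd m j)).2⟩ := Subtype.ext (h.x_eq j)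
      rw [h1, hy₁]
      rfl
  have hHA : R.MK.aK R.MK.h ∈ locSub R₀.MK.B (algebraMap L K c) hcK :=
    aeval_mem (h.zK_mem hc hB) _
  have hH : y₁ ⟨R.MK.aK R.MK.h, hHA⟩ =
      MvPolynomial.eval (Fin.append (R.ML.pz w) (R₀.x y₀)) R.MK.h := by
    have h1 : (⟨R.MK.aK R.MK.h, hHA⟩ : locSub R₀.MK.B (algebraMap L K c) hcK) =
        az zA R.MK.h := by
      apply Subtype.ext
      rw [az_val]
      rfl
    have h2 := MvPolynomial.comp_aeval_apply zA y₁ R.MK.h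
    rw [h1]
    change y₁ (MvPolynomial.aeval zA R.MK.h) = _
    rw [h2, hzA, ← MvPolynomial.coe_aeval_eq_eval]
    rfl
  obtain ⟨y₂, hy₂⟩ := exists_ext_loc hHA y₁ (by rw [hH]; exact hne)
  have hle : R.MK.B ≤ locSub (locSub R₀.MK.B (algebraMap L K c) hcK) (R.MK.aK R.MK.h) hHA :=
    fun b hb => h.key hc hB hb
  refine ⟨y₂.comp (Subalgebra.inclusion hle), ?_, ?_⟩
  · ext b
    have h1 := hy₂ ⟨b, le_locSub b.2⟩
    rw [hy₁] at h1
    exact h1
  · ext b
    have h1 := hy₂ ⟨algebraMap L K b, hA b⟩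
    rw [hy₁w] at h1
    exact h1

/-- necessary condition -/
theorem eval_ne {y : R.MK.Pts} {w : R.ML.Pts} (hq : R.q y = w) :
    MvPolynomial.eval (Fin.append (R.ML.pz w) (R₀.x (h.rK y))) R.MK.h ≠ 0 := by
  rw [h.x_rK, ← hq, R.append_eq]
  exact R.MK.eval_h_ne y

theorem rK_injective : Function.Injective h.rK := by
  intro y y' hy
  have hq : R.q y = R.q y' := by
    apply h.rL_injective
    rw [← h.q_rK, ← h.q_rK, hy]
  have hx : R.x y = R.x y' := by
    rw [← h.x_rK, ← h.x_rK, hy]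
  obtain ⟨c, hc, h0, hinv, hB⟩ := h.exists_c
  have hz : R.MK.pz y = R.MK.pz y' := by
    rw [← R.append_eq, ← R.append_eq, hq, hx]
  ext b
  obtain ⟨k, l, hl⟩ := h.key hc hB b.2
  have hcy : ∀ v : R.MK.Pts, v ⟨algebraMap L K c, h.leK (alg_mem hc)⟩ ≠ 0 := by
    intro v hv
    have h1 : (⟨algebraMap L K c, h.leK (alg_mem hc)⟩ : R.MK.B) * R.incl ⟨c⁻¹, hinv⟩ = 1 := by
      apply Subtype.ext
      push_cast
      rw [RMdl.incl_coe, ← map_mul, mul_inv_cancel₀ h0, map_one]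
    have h2 := congrArg v h1
    rw [map_mul, hv, zero_mul, map_one] at h2
    exact zero_ne_one h2
  have hH : ∀ v : R.MK.Pts, v ⟨R.MK.aK R.MK.h, R.MK.aK_mem _⟩ =
      MvPolynomial.eval (R.MK.pz v) R.MK.h := by
    intro v
    rw [← R.MK.apply_az']
    congr 1
    exact Subtype.ext (R.MK.aK_eq _)
  have h3 : ∀ v : R.MK.Pts, v ⟨algebraMap L K c, h.leK (alg_mem hc)⟩ ^ l *
      (v ⟨R.MK.aK R.MK.h, R.MK.aK_mem _⟩ ^ k * v b) = h.rK v ⟨_, hl⟩ := by
    intro v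
    rw [rK_apply, ← map_pow, ← map_pow, ← map_mul, ← map_mul]
    rfl
  have h4 := h3 y
  rw [hy, ← h3 y', hH, hH, hz] at h4
  have h5 : y ⟨algebraMap L K c, h.leK (alg_mem hc)⟩ =
      y' ⟨algebraMap L K c, h.leK (alg_mem hc)⟩ :=
    congrArg (fun v : R₀.MK.Pts => v ⟨algebraMap L K c, alg_mem hc⟩) hy
  rw [h5] at h4
  have h6 := mul_left_cancel₀ (pow_ne_zero l (hcy y')) h4
  exact mul_left_cancel₀ (pow_ne_zero k (R.MK.eval_h_ne y')) h6

end Cmp

end Crest.Agent.R276.CmpR_652
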