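import Mathlib
import Crest.Agent.R276.CmpR_652

/-!
Row 276 (S0419), MODPACK (B4), part 2 (helper652): the fibres under change of model.

For `h : Cmp R₀ R` and `w : R.ML.Pts` with nonempty fibre:
* `h.fK w : R.Fib w → R₀.Fib (h.rL w)` : open embedding, `cp` kept;
* the complement of its range is `{gP = 0}`, `gP w y₀ = P_w (x y₀)`, `P_w ≠ 0` a polynomial;
* `dense_range_fK`, `null_compl`, `lintegral_fK`, `map_fK`;
* `fint_eq`, `fintS_eq`.
-/

set_option autoImplicit false

open Polynomial Topology Filter MeasureTheory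
open scoped ENNReal

noncomputable section

namespace Crest.Agent.R276.CmpR_652

open Crest.Agent.R271.Defs710 Crest.Agent.R271.Alg255 Crest.Agent.R271.Rd692
open Crest.Agent.R271.AlgB956 Crest.Agent.R271.Ho51 Crest.Agent.R271
open Crest.Agent.R276.Mod1_987

/-! ### generalities -/

section gen

variable {N : ℕ} {X Y : Type*} [TopologicalSpace X] [TopologicalSpace Y] [RDom N X] [RDom N Y]
  {e : X → Y}

lemma isLocalHomeomorph_of_cp (he : Continuous e) (hcp : ∀ x, cp (e x) = cp x) :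
    IsLocalHomeomorph e := by
  refine IsLocalHomeomorph.of_comp (g := (cp : Y → (Fin N → ℂ))) ?_ cp_lh he
  have h : (cp : Y → (Fin N → ℂ)) ∘ e = cp := funext hcp
  rw [h]
  exact cp_lh

/-- the zero set of a nonzero polynomial in the coordinates is nowhere dense -/
theorem dense_poly {P : MvPolynomial (Fin N) ℂ} (hP : P ≠ 0) :
    Dense {y : Y | MvPolynomial.eval (cp y) P ≠ 0} := by
  have h1 : Dense {ζ : Fin N → ℂ | MvPolynomial.eval ζ P ≠ 0} :=
    Measure.dense_of_ae (Null956.ae_eval_ne hP)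
  exact h1.preimage (cp_lh (M := Y)).isOpenMap

/-- the zero set of a nonzero polynomial in the coordinates is a null set -/
theorem null_poly [SecondCountableTopology Y] [MeasurableSpace Y] [BorelSpace Y] {μ : Measure Y}
    (hμ : IsLeb μ) {P : MvPolynomial (Fin N) ℂ} (hP : P ≠ 0) :
    μ {y : Y | MvPolynomial.eval (cp y) P = 0} = 0 := by
  have hm : MeasurableSet {y : Y | MvPolynomial.eval (cp y) P = 0} :=
    (isClosed_eq ((MvPolynomial.continuous_eval P).comp cp_cont) continuous_const).measurableSet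
  rw [← lintegral_indicator_one hm, lintegral_eq_fibre hμ (measurable_one.indicator hm)]
  rw [lintegral_eq_zero_iff' ]
  · filter_upwards [Null956.ae_eval_ne hP] with ζ hζ
    rw [Pi.zero_apply, ENNReal.tsum_eq_zero]
    rintro ⟨y, hy⟩
    apply Set.indicator_of_notMem
    intro h0
    have h1 : MvPolynomial.eval (cp y) P = 0 := h0
    rw [hy] at h1
    exact hζ h1
  · exact (measurable_fibre (measurable_one.indicator hm)).aemeasurable

end gen

variable {L K : Type} [Field L] [Field K] [Algebra ℂ L] [Algebra ℂ K] [Algebra L K]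
  [IsScalarTower ℂ L K] {m r : ℕ}

/-- `h_K` on the fibre over `w`, a polynomial in the fibre coordinates -/
def hP (R : RMdl L K m r) (w : R.ML.Pts) : MvPolynomial (Fin r) ℂ := specL (R.ML.pz w) R.MK.h

lemma eval_hP (R : RMdl L K m r) (w : R.ML.Pts) (ξ : Cn r) :
    MvPolynomial.eval ξ (hP R w) = MvPolynomial.eval (Fin.append (R.ML.pz w) ξ) R.MK.h :=
  eval_specL _ _ _

lemma hP_ne (R : RMdl L K m r) {w : R.ML.Pts} (hw : Nonempty (R.Fib w)) : hP R w ≠ 0 := by
  obtain ⟨y⟩ := hw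
  intro h0
  have h1 := eval_hP R w (R.x y.val)
  have h2 := R.append_eq y.val
  rw [y.q_eq] at h2
  rw [h0, map_zero, h2] at h1
  exact R.MK.eval_h_ne y.val h1.symm

lemma nonempty_fib {R : RMdl L K m r} (hs : Function.Surjective R.q) (w : R.ML.Pts) :
    Nonempty (R.Fib w) := by
  obtain ⟨y, hy⟩ := hs w
  exact ⟨⟨y, hy⟩⟩

/-- integral over the `s`-fold product of the fibre over `w` -/
def fintS (R : RMdl L K m r) (s : ℕ) (w : R.ML.Pts) (g : (Fin s → R.MK.Pts) → ℝ≥0∞) : ℝ≥0∞ :=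
  ∫⁻ x : Fin s → Cn r,
    ∑' y : {y : Fin s → R.MK.Pts // (∀ i, R.q (y i) = w) ∧ ∀ i, R.x (y i) = x i}, g y.1

namespace Cmp

variable {R₀ R : RMdl L K m r} (h : Cmp R₀ R)

/-- the map of the fibres -/
def fK (w : R.ML.Pts) (y : R.Fib w) : R₀.Fib (h.rL w) :=
  ⟨h.rK y.val, by rw [h.q_rK, y.q_eq]⟩

@[simp] lemma fK_val (w : R.ML.Pts) (y : R.Fib w) : (h.fK w y).val = h.rK y.val := rfl

theorem cp_fK (w : R.ML.Pts) (y : R.Fib w) : cp (h.fK w y) = cp y := h.x_rK y.val

theorem continuous_fK (w : R.ML.Pts) : Continuous (h.fK w) :=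
  (h.continuous_rK.comp (RMdl.Fib.continuous_val w)).subtype_mk _

theorem isLocalHomeomorph_fK (w : R.ML.Pts) : IsLocalHomeomorph (h.fK w) :=
  isLocalHomeomorph_of_cp (h.continuous_fK w) (h.cp_fK w)

theorem fK_injective (w : R.ML.Pts) : Function.Injective (h.fK w) := by
  intro y y' hy
  apply RMdl.Fib.ext
  exact h.rK_injective (congrArg (fun v : R₀.Fib (h.rL w) => v.val) hy)

/-- **the fibre maps are open embeddings** -/
theorem isOpenEmbedding_fK (w : R.ML.Pts) : IsOpenEmbedding (h.fK w) :=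
  (h.isLocalHomeomorph_fK w).isOpenEmbedding_of_injective (h.fK_injective w)

/-- **the image of the fibre map** -/
theorem range_fK (w : R.ML.Pts) :
    Set.range (h.fK w) = {y₀ : R₀.Fib (h.rL w) | MvPolynomial.eval (cp y₀) (hP R w) ≠ 0} := by
  ext y₀
  constructor
  · rintro ⟨y, rfl⟩
    change MvPolynomial.eval (cp (h.fK w y)) (hP R w) ≠ 0
    rw [eval_hP]
    exact h.eval_ne y.q_eq
  · intro hy₀
    have h1 : MvPolynomial.eval (cp y₀) (hP R w) ≠ 0 := hy₀
    rw [eval_hP] at h1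
    obtain ⟨y, hy, hq⟩ := h.exists_lift y₀.q_eq h1
    exact ⟨⟨y, hq⟩, RMdl.Fib.ext hy⟩

theorem compl_range_fK (w : R.ML.Pts) :
    (Set.range (h.fK w))ᶜ = {y₀ : R₀.Fib (h.rL w) | MvPolynomial.eval (cp y₀) (hP R w) = 0} := by
  rw [h.range_fK]
  ext y₀
  simp

theorem dense_range_fK {w : R.ML.Pts} (hw : Nonempty (R.Fib w)) :
    Dense (Set.range (h.fK w)) := by
  rw [h.range_fK]
  exact dense_poly (hP_ne R hw)

theorem null_compl {w : R.ML.Pts} (hw : Nonempty (R.Fib w)) {μ : Measure (R₀.Fib (h.rL w))}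
    (hμ : IsLeb μ) : μ (Set.range (h.fK w))ᶜ = 0 := by
  rw [h.compl_range_fK]
  exact null_poly hμ (hP_ne R hw)

/-- fibres over points: bijection outside the zero set of `hP` -/
theorem fsumR_eq (w : R.ML.Pts) (g : R₀.MK.Pts → ℝ≥0∞) {ξ : Cn r}
    (hξ : MvPolynomial.eval ξ (hP R w) ≠ 0) :
    R.fsumR (fun y => g (h.rK y)) w ξ = R₀.fsumR g (h.rL w) ξ := by
  unfold RMdl.fsumR
  let i : {y : R.MK.Pts // R.q y = w ∧ R.x y = ξ} →
      {y : R₀.MK.Pts // R₀.q y = h.rL w ∧ R₀.x y = ξ} :=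
    fun y => ⟨h.rK y.1, by rw [h.q_rK, y.2.1], by rw [h.x_rK, y.2.2]⟩
  have hi : Function.Bijective i := by
    constructor
    · intro y y' hy
      exact Subtype.ext (h.rK_injective (congrArg Subtype.val hy))
    · rintro ⟨y₀, hq, hx⟩
      obtain ⟨y, hy, hqy⟩ := h.exists_lift hq (by rw [← eval_hP, hx]; exact hξ)
      refine ⟨⟨y, hqy, ?_⟩, Subtype.ext hy⟩
      rw [← h.x_rK, hy, hx]
  exact (Equiv.ofBijective i hi).tsum_eq (fun y => g y.1)

/-- **the fibre integrals agree** (no measurability needed) -/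
theorem fint_eq {w : R.ML.Pts} (hw : Nonempty (R.Fib w)) (g : R₀.MK.Pts → ℝ≥0∞) :
    R.fint w (fun y => g (h.rK y)) = R₀.fint (h.rL w) g := by
  unfold RMdl.fint
  refine lintegral_congr_ae ?_
  filter_upwards [Null956.ae_eval_ne (hP_ne R hw)] with ξ hξ
  exact h.fsumR_eq w g hξ

/-- **the `s`-fold fibre integrals agree** -/
theorem fintS_eq {w : R.ML.Pts} (hw : Nonempty (R.Fib w)) (s : ℕ)
    (g : (Fin s → R₀.MK.Pts) → ℝ≥0∞) :
    fintS R s w (fun y => g (fun i => h.rK (y i))) = fintS R₀ s (h.rL w) g := by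
  unfold fintS
  refine lintegral_congr_ae ?_
  have h1 : ∀ᵐ x : Fin s → Cn r, ∀ i, MvPolynomial.eval (x i) (hP R w) ≠ 0 := by
    rw [ae_all_iff]
    intro i
    exact (Measure.quasiMeasurePreserving_eval (fun _ : Fin s => (volume : Measure (Cn r)))
      i).ae (Null956.ae_eval_ne (hP_ne R hw))
  filter_upwards [h1] with x hx
  let i : {y : Fin s → R.MK.Pts // (∀ i, R.q (y i) = w) ∧ ∀ i, R.x (y i) = x i} →
      {y : Fin s → R₀.MK.Pts // (∀ i, R₀.q (y i) = h.rL w) ∧ ∀ i, R₀.x (y i) = x i} :=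
    fun y => ⟨fun j => h.rK (y.1 j), fun j => by rw [h.q_rK, y.2.1], fun j => by
      rw [h.x_rK, y.2.2]⟩
  have hi : Function.Bijective i := by
    constructor
    · intro y y' hy
      apply Subtype.ext
      funext j
      exact h.rK_injective (congrFun (congrArg Subtype.val hy) j)
    · rintro ⟨y₀, hq, hxy⟩
      choose y hy hqy using fun j => h.exists_lift (hq j) (by rw [← eval_hP, hxy]; exact hx j)
      refine ⟨⟨y, hqy, fun j => ?_⟩, Subtype.ext (funext hy)⟩
      rw [← h.x_rK, hy, hxy]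
  exact (Equiv.ofBijective i hi).tsum_eq (fun y => g y.1)

/-- integrals against Lebesgue measures of the fibres -/
theorem lintegral_fK {w : R.ML.Pts} (hw : Nonempty (R.Fib w)) {ν : Measure (R.Fib w)}
    (hν : IsLeb ν) {μ : Measure (R₀.Fib (h.rL w))} (hμ : IsLeb μ) {g : R₀.Fib (h.rL w) → ℝ≥0∞}
    (hg : Measurable g) : ∫⁻ y, g (h.fK w y) ∂ν = ∫⁻ y₀, g y₀ ∂μ := by
  rw [lintegral_eq_fibre hμ hg, lintegral_eq_fibre (g := fun y => g (h.fK w y)) hν
    (hg.comp (h.continuous_fK w).measurable)]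
  refine lintegral_congr_ae ?_
  filter_upwards [Null956.ae_eval_ne (hP_ne R hw)] with ξ hξ
  let i : {y : R.Fib w // cp y = ξ} → {y : R₀.Fib (h.rL w) // cp y = ξ} :=
    fun y => ⟨h.fK w y.1, by rw [h.cp_fK, y.2]⟩
  have hi : Function.Bijective i := by
    constructor
    · intro y y' hy
      exact Subtype.ext (h.fK_injective w (congrArg Subtype.val hy))
    · rintro ⟨y₀, hy₀⟩
      have h1 : y₀ ∈ Set.range (h.fK w) := by
        rw [h.range_fK]
        change MvPolynomial.eval (cp y₀) (hP R w) ≠ 0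
        rw [hy₀]
        exact hξ
      obtain ⟨y, rfl⟩ := h1
      exact ⟨⟨y, by rw [← h.cp_fK, hy₀]⟩, rfl⟩
  exact (Equiv.ofBijective i hi).tsum_eq (fun y => g y.1)

theorem map_fK {w : R.ML.Pts} (hw : Nonempty (R.Fib w)) {ν : Measure (R.Fib w)}
    (hν : IsLeb ν) {μ : Measure (R₀.Fib (h.rL w))} (hμ : IsLeb μ) : ν.map (h.fK w) = μ := by
  ext s hs
  rw [Measure.map_apply (h.continuous_fK w).measurable hs]
  have h1 := h.lintegral_fK hw hν hμ (g := s.indicator 1) (measurable_one.indicator hs)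
  rw [lintegral_indicator_one hs] at h1
  rw [← h1, ← lintegral_indicator_one ((h.continuous_fK w).measurable hs)]
  rfl

end Cmp

end Crest.Agent.R276.CmpR_652
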