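import Mathlib
import Crest.Agent.R276.CmpR2_652
import Crest.Agent.R276.CmpA_595
import Crest.Agent.R276.TowA_849

/-!
Row 276 (S0419), MODPACK (B4), part 3 (helper652): calculus and existence of comparisons.

* `Cmp.refl`, `Cmp.trans`, `Cmp.shrink`, `Cmp.locK`;
* `Cmp.hol_g` : the function cutting out the complement of the fibre map is holomorphic;
* `isTB` : `append x' x` is a transcendence basis of `K`;
* `cmp_univ` : every relative model with the new coordinates and sufficiently divisible `h_L`, `h_K`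
  is comparable; `exists_R` : existence with prescribed elements; `ev2_cmp`.
-/

set_option autoImplicit false

open Polynomial Topology Filter MeasureTheory
open scoped ENNReal

noncomputable section

namespace Crest.Agent.R276.CmpR_652

open Crest.Agent.R271.Defs710 Crest.Agent.R271.Alg255 Crest.Agent.R271.Rd692
open Crest.Agent.R271.AlgB956 Crest.Agent.R271.Ho51 Crest.Agent.R271
open Crest.Agent.R276.Mod1_987 Crest.Agent.R276.Cmp_595 Crest.Agent.R276.TowA_849

variable {L K : Type} [Field L] [Field K] [Algebra ℂ L] [Algebra ℂ K] [Algebra L K]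
  [IsScalarTower ℂ L K] {m r : ℕ}

/-- polynomials in the coordinates are holomorphic -/
theorem hol_poly {N : ℕ} {Y : Type*} [TopologicalSpace Y] [RDom N Y]
    (P : MvPolynomial (Fin N) ℂ) : Hol (fun y : Y => MvPolynomial.eval (cp y) P) := by
  intro e he
  have h1 : Set.EqOn ((fun y : Y => MvPolynomial.eval (cp y) P) ∘ e.symm)
      (fun ζ => MvPolynomial.eval ζ P) e.target := by
    intro ζ hζ
    simp only [Function.comp_apply]
    rw [he.cp_symm hζ]
  refine DifferentiableOn.congr ?_ h1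
  exact (AnalyticOnNhd.eval_mvPolynomial P).differentiableOn.mono (Set.subset_univ _)

namespace Cmp

theorem refl (R : RMdl L K m r) : Cmp R R := ⟨fun _ => rfl, le_rfl, le_rfl, IsLoc.refl _⟩

theorem locL {R₀ R : RMdl L K m r} (h : Cmp R₀ R) : IsLoc R₀.ML.B R.ML.B := h.loc

theorem trans {R₀ R₁ R₂ : RMdl L K m r} (h : Cmp R₀ R₁) (h' : Cmp R₁ R₂) : Cmp R₀ R₂ :=
  ⟨fun j => (h'.x_eq j).trans (h.x_eq j), h.leL.trans h'.leL, h.leK.trans h'.leK,
    IsLoc.trans h.locL h'.locL⟩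

theorem shrink_self (R : RMdl L K m r) (p : MvPolynomial (Fin m) ℂ) (hp : p ≠ 0)
    (s : MvPolynomial (Fin (m + r)) ℂ) (hs : s ≠ 0) : Cmp R (R.shrink p hp s hs) :=
  ⟨fun _ => rfl, R.ML.le_loc p hp,
    (le_locSub : R.MK.B ≤ locSub R.MK.B (R.MK.aK (MvPolynomial.rename (Fin.castAdd r) p * s))
      (R.MK.aK_mem _)),
    isLoc_of_zK_eq (M := R.ML) (M' := R.ML.loc p hp) rfl (R.ML.le_loc p hp)⟩

/-- comparisons are stable under shrinking -/
theorem shrink {R₀ R : RMdl L K m r} (h : Cmp R₀ R) (p : MvPolynomial (Fin m) ℂ) (hp : p ≠ 0)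
    (s : MvPolynomial (Fin (m + r)) ℂ) (hs : s ≠ 0) : Cmp R₀ (R.shrink p hp s hs) :=
  h.trans (shrink_self R p hp s hs)

variable {R₀ R : RMdl L K m r} (h : Cmp R₀ R)

include h in
/-- the coordinate ring of the total space is a localisation, too -/
theorem locK : IsLoc R₀.MK.B R.MK.B := by
  obtain ⟨c, hc, h0, hinv, hB⟩ := h.exists_c
  have hcK : algebraMap L K c ∈ R₀.MK.B := alg_mem hc
  have hc0 : algebraMap L K c ≠ 0 := by
    rw [Ne, map_eq_zero_iff _ (algebraMap L K).injective]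
    exact h0
  have h1 : IsLoc R₀.MK.B (locSub R₀.MK.B (algebraMap L K c) hcK) := ⟨_, hcK, hc0, rfl⟩
  have hHA : R.MK.aK R.MK.h ∈ locSub R₀.MK.B (algebraMap L K c) hcK :=
    aeval_mem (h.zK_mem hc hB) _
  have h2 : IsLoc (locSub R₀.MK.B (algebraMap L K c) hcK) R.MK.B := by
    refine ⟨_, hHA, aK_ne R.MK R.MK.h_ne, le_antisymm (fun b hb => h.key hc hB hb) ?_⟩
    refine locSub_le (locSub_le h.leK hc0 ?_) (aK_ne R.MK R.MK.h_ne) (aK_inv_mem R.MK)
    have := R.incl_mem ⟨c⁻¹, hinv⟩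
    rwa [map_inv₀] at this
  exact h1.trans h2

/-- the function cutting out the complement of the range of `fK` -/
theorem exists_g {w : R.ML.Pts} (hw : Nonempty (R.Fib w)) : ∃ g : R₀.Fib (h.rL w) → ℂ,
    Hol g ∧ (∃ y, g y ≠ 0) ∧ Dense {y | g y ≠ 0} ∧ Set.range (h.fK w) = {y | g y ≠ 0} := by
  refine ⟨fun y => MvPolynomial.eval (cp y) (hP R w), hol_poly _, ?_, dense_poly (hP_ne R hw),
    h.range_fK w⟩
  obtain ⟨y⟩ := hw
  have h1 : h.fK w y ∈ Set.range (h.fK w) := ⟨y, rfl⟩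
  rw [h.range_fK] at h1
  exact ⟨_, h1⟩

end Cmp

/-! ### existence -/

/-- **change of the transcendence basis of the base** -/
theorem isTB (R₀ : RMdl L K m r) {x' : Fin m → L} (hx : IsTranscendenceBasis ℂ x') :
    IsTranscendenceBasis ℂ (Fin.append (fun i => algebraMap L K (x' i))
      (fun j => R₀.MK.zK (Fin.natAdd m j))) := by
  have hT := Cmp_595.isTranscendenceBasis R₀.MK
  set x'' : Fin (m + r) → K := Fin.append (fun i => algebraMap L K (x' i))
      (fun j => R₀.MK.zK (Fin.natAdd m j)) with hx''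
  let A := Algebra.adjoin ℂ (Set.range x'')
  let C : Subalgebra A K := Subalgebra.algebraicClosure A K
  have hL : ∀ b : L, algebraMap L K b ∈ C := by
    intro b
    change IsAlgebraic A (algebraMap L K b)
    have h1 : IsAlgebraic (Algebra.adjoin ℂ (Set.range x')) b := hx.isAlgebraic.isAlgebraic b
    have hmem : ∀ a ∈ Algebra.adjoin ℂ (Set.range x'), algebraMap L K a ∈ A := by
      intro a ha
      have h2 : (Algebra.adjoin ℂ (Set.range x')).map (IsScalarTower.toAlgHom ℂ L K) ≤ A := by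
        rw [AlgHom.map_adjoin]
        apply Algebra.adjoin_mono
        rintro _ ⟨_, ⟨i, rfl⟩, rfl⟩
        exact ⟨Fin.castAdd r i, by rw [hx'', Fin.append_left]; rfl⟩
      exact h2 ⟨a, ha, rfl⟩
    let f : Algebra.adjoin ℂ (Set.range x') →+* A :=
      ((algebraMap L K).comp (Algebra.adjoin ℂ (Set.range x')).val.toRingHom).codRestrict A
        (fun a => hmem a a.2)
    refine h1.ringHom_of_comp_eq f (algebraMap L K) ?_ rfl
    intro a a' haa
    have h3 : algebraMap L K a = algebraMap L K a' := congrArg Subtype.val haa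
    exact Subtype.ext ((algebraMap L K).injective h3)
  have hz : ∀ i, R₀.MK.zK i ∈ C := by
    intro i
    refine Fin.addCases (fun i => ?_) (fun j => ?_) i
    · rw [R₀.z_eq]
      exact hL _
    · have h1 : R₀.MK.zK (Fin.natAdd m j) ∈ A :=
        Algebra.subset_adjoin ⟨Fin.natAdd m j, by rw [hx'', Fin.append_right]⟩
      exact isAlgebraic_algebraMap (R := A) (A := K) ⟨_, h1⟩
  have hBC : ∀ a ∈ Algebra.adjoin ℂ (Set.range R₀.MK.zK), a ∈ C := by
    intro a ha
    have h1 : Algebra.adjoin ℂ (Set.range R₀.MK.zK) ≤ C.restrictScalars ℂ := by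
      rw [Algebra.adjoin_le_iff]
      rintro _ ⟨i, rfl⟩
      exact hz i
    exact h1 ha
  have halg : Algebra.IsAlgebraic A K := by
    constructor
    intro a
    have h1 : IsAlgebraic (Algebra.adjoin ℂ (Set.range R₀.MK.zK)) a :=
      hT.isAlgebraic.isAlgebraic a
    let f : Algebra.adjoin ℂ (Set.range R₀.MK.zK) →+* C :=
      ((Algebra.adjoin ℂ (Set.range R₀.MK.zK)).val.toRingHom).codRestrict C
        (fun a => hBC a a.2)
    have h2 : IsAlgebraic C a := by
      refine h1.ringHom_of_comp_eq f (RingHom.id K) ?_ rfl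
      intro a a' haa
      have h3 : ((f a : C) : K) = ((f a' : C) : K) := by rw [haa]
      exact Subtype.ext h3
    exact h2.restrictScalars A
  have := halg
  exact Algebra.IsAlgebraic.isTranscendenceBasis_of_le_trdeg_of_finite ℂ x''
    (by rw [← hT.cardinalMk_eq_trdeg])

/-- **(B4), universal form**: every relative model with base coordinates `x'`, the same fibre
coordinates and sufficiently divisible `h_L`, `h_K` is comparable with `R₀` -/
theorem cmp_univ (R₀ : RMdl L K m r) {x' : Fin m → L} (hx : IsTranscendenceBasis ℂ x') :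
    ∃ gL : MvPolynomial (Fin m) ℂ, gL ≠ 0 ∧ ∃ gK : MvPolynomial (Fin (m + r)) ℂ, gK ≠ 0 ∧
      ∀ R : RMdl L K m r, R.ML.zK = x' →
        (∀ j, R.MK.zK (Fin.natAdd m j) = R₀.MK.zK (Fin.natAdd m j)) →
        gL ∣ R.ML.h → gK ∣ R.MK.h → Cmp R₀ R := by
  obtain ⟨gL, h1, h2⟩ := Cmp_595.exists_cmp R₀.ML hx
  obtain ⟨gK, h3, h4⟩ := Cmp_595.exists_cmp R₀.MK (isTB R₀ hx)
  refine ⟨gL, h1, gK, h3, fun R hz hxx hdL hdK => ⟨hxx, (h2 R.ML hz hdL).le, ?_, h2 R.ML hz hdL⟩⟩
  refine (h4 R.MK ?_ hdK).le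
  funext i
  refine Fin.addCases (fun i => ?_) (fun j => ?_) i
  · rw [Fin.append_left, R.z_eq, hz]
  · rw [Fin.append_right, hxx]

/-- **(B4), `Ev2` form**: `R₁` any relative model with the same fibre coordinates as `R₀` (the base
coordinates are arbitrary): every sufficiently small shrinking of `R₁` is comparable with `R₀` and
all its fibres are nonempty -/
theorem ev2_cmp (R₀ R₁ : RMdl L K m r)
    (hxx : ∀ j, R₁.MK.zK (Fin.natAdd m j) = R₀.MK.zK (Fin.natAdd m j)) :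
    Ev2 R₁ fun R => Cmp R₀ R ∧ ∀ w, Nonempty (R.Fib w) := by
  obtain ⟨gL, h1, gK, h2, h3⟩ := cmp_univ R₀ (Cmp_595.isTranscendenceBasis R₁.ML)
  have h4 : Ev2 R₁ fun R => Cmp R₀ R := by
    refine ⟨gK, h2, fun s hs hd => ⟨gL, h1, fun p hp hd' => h3 _ rfl hxx ?_ ?_⟩⟩
    · exact hd'.trans (Dvd.intro_left _ rfl)
    · exact (hd.trans (Dvd.intro_left _ rfl)).trans (Dvd.intro_left _ rfl)
  exact (h4.and (Ev2.surj R₁)).mono fun R h => ⟨h.1, nonempty_fib h.2⟩

/-- the same for towers: `R₀` with old base coordinates, `W` a tower with new base coordinates -/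
theorem ev_cmp {T : Type} [Field T] [Algebra ℂ T] [Algebra T L] [IsScalarTower ℂ T L] {ρ a : ℕ}
    (W : Tow T L K ρ a r) (R₀ : RMdl L K (ρ + a) r)
    (hxx : ∀ j, W.MK.zK (Fin.natAdd (ρ + a) j) = R₀.MK.zK (Fin.natAdd (ρ + a) j)) :
    Ev W fun W => Cmp R₀ W.LK ∧ ∀ w, Nonempty (W.LK.Fib w) :=
  Ev.of_LK (ev2_cmp R₀ W.LK hxx)

/-- **(B4), existence** with prescribed base coordinates `x'` and prescribed units -/
theorem exists_R (R₀ : RMdl L K m r) {x' : Fin m → L} (hx : IsTranscendenceBasis ℂ x')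
    (SL : Finset L) (SK : Finset K) :
    ∃ R : RMdl L K m r, R.ML.zK = x' ∧
      (∀ j, R.MK.zK (Fin.natAdd m j) = R₀.MK.zK (Fin.natAdd m j)) ∧ Cmp R₀ R ∧
      (∀ w, Nonempty (R.Fib w)) ∧
      (∀ s ∈ SL, s ∈ R.ML.B ∧ s⁻¹ ∈ R.ML.B) ∧ ∀ s ∈ SK, s ∈ R.MK.B ∧ s⁻¹ ∈ R.MK.B := by
  have := essFiniteType R₀.ML
  have := essFiniteType R₀.MK
  obtain ⟨g, hg, h⟩ := exists_mdl x' hx SL
  obtain ⟨ML, -, hz, hS⟩ := h g hg dvd_rfl
  have hz' : ML.zK = x' := funext hz
  have hTB := isTB R₀ hx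
  rw [← hz'] at hTB
  obtain ⟨g', hg', h'⟩ := RMdl.exists_rmdl L K ML (fun j => R₀.MK.zK (Fin.natAdd m j)) hTB SK
  obtain ⟨R₁, hR₁, -, hR₁z, hR₁S⟩ := h' g' hg' dvd_rfl
  have hxx : ∀ j, R₁.MK.zK (Fin.natAdd m j) = R₀.MK.zK (Fin.natAdd m j) := by
    intro j
    rw [hR₁z, Fin.append_right]
  obtain ⟨s, hs, p, hp, hc, hne⟩ := (ev2_cmp R₀ R₁ hxx).exists
  refine ⟨R₁.shrink p hp s hs, ?_, hxx, hc, hne, ?_, ?_⟩
  · change R₁.ML.zK = x'
    rw [hR₁, hz']
  · refine mem_mono (M := R₁.ML) (R₁.ML.le_loc p hp) ?_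
    rw [hR₁]
    exact hS
  · refine mem_mono (M := R₁.MK) (R₁.MK.le_loc _ ?_) hR₁S
    exact cp2_ne hp hs

end Crest.Agent.R276.CmpR_652
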