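import Crest.Agent.R276.BN_143

/-!
# Row 276, MOD-BN (helper143): irreducibility of the specialised minimal polynomial
(the form used by 987's fibre models).
-/

set_option autoImplicit false

noncomputable section

namespace Crest.Agent.R276.BN4_143

open Polynomial
open Crest.Agent.R276.BN1_143 (AC)
open Crest.Agent.R276.BN3_143

universe u v

variable {ι : Type*} [Finite ι] {A : Type*} [CommRing A] [IsDomain A] [CharZero A]

/-- `A` a domain of characteristic `0`, `L = Frac A` algebraically closed in `K`,
`g : A[x] → K` an `A`-algebra map, `P ∈ A[x][T]`, `P ≠ 0`, `P(θ) = 0`, `P` divides every polynomial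
over `A[x]` killing `θ`.  Then `P^z` is irreducible in `k[x][T]` for all `z : A → k` with
`z a ≠ 0`. -/
theorem irreducible_fiber (L : Type*) (K : Type v) [Field L] [Field K] [Algebra A L]
    [IsFractionRing A L] [Algebra L K] (hac : AC L K) (g : MvPolynomial ι A →+* K)
    (hg : ∀ a : A, g (MvPolynomial.C a) = algebraMap L K (algebraMap A L a)) (θ : K)
    (P : (MvPolynomial ι A)[X]) (hP0 : P ≠ 0) (hroot : P.eval₂ g θ = 0)
    (hdvd : ∀ Q : (MvPolynomial ι A)[X], Q.eval₂ g θ = 0 → P ∣ Q) :
    ∃ a : A, a ≠ 0 ∧ ∀ (k : Type u) [Field k] (z : A →+* k), z a ≠ 0 →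
      Irreducible (P.map (MvPolynomial.map z)) := by
  classical
  have : CharZero L := charZero_of_injective_algebraMap (IsFractionRing.injective A L)
  let P' : MvPolynomial (Option ι) A := (MvPolynomial.optionEquivLeft A ι).symm P
  have hP' : MvPolynomial.optionEquivLeft A ι P' = P := AlgEquiv.apply_symm_apply _ _
  let xK : ι → K := fun i => g (MvPolynomial.X i)
  let φ : MvPolynomial (Option ι) L →ₐ[L] K :=
    MvPolynomial.aeval (fun o : Option ι => o.elim θ xK)
  -- evaluation of polynomials over `A`
  have hev : ∀ F : MvPolynomial (Option ι) A, φ (MvPolynomial.map (algebraMap A L) F) =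
      (MvPolynomial.optionEquivLeft A ι F).eval₂ g θ := by
    intro F
    have h : ((φ : MvPolynomial (Option ι) L →+* K).comp (MvPolynomial.map (algebraMap A L))) =
        (Polynomial.eval₂RingHom g θ).comp
          ((MvPolynomial.optionEquivLeft A ι).toRingEquiv.toRingHom) := by
      apply MvPolynomial.ringHom_ext
      · intro a
        show φ (MvPolynomial.map (algebraMap A L) (MvPolynomial.C a)) =
          (MvPolynomial.optionEquivLeft A ι (MvPolynomial.C a)).eval₂ g θ
        rw [MvPolynomial.map_C, MvPolynomial.aeval_C, MvPolynomial.optionEquivLeft_C,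
          Polynomial.eval₂_C, hg]
      · intro o
        show φ (MvPolynomial.map (algebraMap A L) (MvPolynomial.X o)) =
          (MvPolynomial.optionEquivLeft A ι (MvPolynomial.X o)).eval₂ g θ
        rw [MvPolynomial.map_X, MvPolynomial.aeval_X]
        cases o with
        | none => rw [MvPolynomial.optionEquivLeft_X_none, Polynomial.eval₂_X]; rfl
        | some i => rw [MvPolynomial.optionEquivLeft_X_some, Polynomial.eval₂_C]; rfl
    exact congrArg (fun f : MvPolynomial (Option ι) A →+* K => f F) h
  let _ : Algebra (MvPolynomial (Option ι) A) (MvPolynomial (Option ι) L) :=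
    MvPolynomial.algebraMvPolynomial
  have hloc : IsLocalization ((nonZeroDivisors A).map
      (MvPolynomial.C : A →+* MvPolynomial (Option ι) A)) (MvPolynomial (Option ι) L) :=
    MvPolynomial.isLocalization (nonZeroDivisors A) L
  have hker : ∀ F : MvPolynomial (Option ι) L, φ F = 0 ↔
      MvPolynomial.map (algebraMap A L) P' ∣ F := by
    intro F
    constructor
    · intro hF
      obtain ⟨⟨F', ⟨y, a, ha, rfl⟩⟩, hFa⟩ := IsLocalization.surj
        ((nonZeroDivisors A).map (MvPolynomial.C : A →+* MvPolynomial (Option ι) A)) F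
      have hF1 : F * MvPolynomial.C (algebraMap A L a) = MvPolynomial.map (algebraMap A L) F' := by
        have h2 : algebraMap (MvPolynomial (Option ι) A) (MvPolynomial (Option ι) L)
            (MvPolynomial.C a) = MvPolynomial.C (algebraMap A L a) := MvPolynomial.map_C _ _
        rw [← h2]
        exact hFa
      have ha0 : algebraMap A L a ≠ 0 :=
        (map_ne_zero_iff _ (IsFractionRing.injective A L)).2 (nonZeroDivisors.ne_zero ha)
      have hunit : IsUnit (MvPolynomial.C (algebraMap A L a) : MvPolynomial (Option ι) L) :=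
        (isUnit_iff_ne_zero.2 ha0).map MvPolynomial.C
      have h3 : (MvPolynomial.optionEquivLeft A ι F').eval₂ g θ = 0 := by
        rw [← hev, ← hF1, map_mul, hF, zero_mul]
      obtain ⟨G, hG⟩ := hdvd _ h3
      rw [← hunit.dvd_mul_right, hF1]
      refine map_dvd _ ⟨(MvPolynomial.optionEquivLeft A ι).symm G, ?_⟩
      apply (MvPolynomial.optionEquivLeft A ι).injective
      rw [map_mul, hP', AlgEquiv.apply_symm_apply, hG]
    · rintro ⟨G, rfl⟩
      rw [map_mul, hev, hP', hroot, zero_mul]
  have hP'0 : MvPolynomial.map (algebraMap A L) P' ≠ 0 := by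
    intro h0
    have h1 : P' = 0 := by
      apply MvPolynomial.map_injective _ (IsFractionRing.injective A L)
      rw [h0, map_zero]
    apply hP0
    rw [← hP', h1, map_zero]
  have habs := BN1_143.abs_irreducible hac (MvPolynomial.map (algebraMap A L) P') hP'0 φ hker
    (AlgebraicClosure L)
  rw [MvPolynomial.map_map] at habs
  obtain ⟨a, ha, h⟩ := BN0_143.irreducible_spread.{u} L (AlgebraicClosure L) P' habs
  refine ⟨a, ha, fun k _ z hz => ?_⟩
  have h1 := h k z hz
  rw [← MulEquiv.irreducible_iff (MvPolynomial.optionEquivLeft k ι), opt_map, hP'] at h1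
  exact h1

end Crest.Agent.R276.BN4_143
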