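import Mathlib
import Crest.Agent.R276.Mod7_987

/-!
Row 276 (S0419), MOD (helper987), part 8: normality, relative primitive elements.
-/

set_option autoImplicit false

open Polynomial Topology Filter MeasureTheory
open scoped ENNReal

noncomputable section

namespace Crest.Agent.R276.Mod1_987

open Crest.Agent.R271.Defs710 Crest.Agent.R271.Alg255 Crest.Agent.R271.Rd692
open Crest.Agent.R271.AlgB956 Crest.Agent.R271.Ho51 Crest.Agent.R271
open Crest.Agent.R276.AB2_590

/-- polynomial rings over normal domains are normal -/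
theorem isIntegrallyClosed_mv (A : Type) [CommRing A] [IsDomain A] [IsIntegrallyClosed A] :
    ∀ r : ℕ, IsIntegrallyClosed (MvPolynomial (Fin r) A)
  | 0 => IsIntegrallyClosed.of_equiv
      (MvPolynomial.isEmptyAlgEquiv A (Fin 0)).symm.toRingEquiv
  | r + 1 => by
    have := isIntegrallyClosed_mv A r
    exact IsIntegrallyClosed.of_equiv (MvPolynomial.finSuccEquiv A r).symm.toRingEquiv

namespace Mdl

variable {K : Type} [Field K] [Algebra ℂ K] {n : ℕ} (M : Mdl K n)

/-- the coordinate ring of a model is normal -/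
instance : IsIntegrallyClosed M.B := by
  rw [isIntegrallyClosed_iff K]
  rintro a ⟨p, hp, hpa⟩
  let _ : Algebra (MvPolynomial (Fin n) ℂ) K := M.aK.toAlgebra
  have hc : ∀ i, ∃ k : ℕ, M.aK.IsIntegralElem (M.aK M.h ^ k * (p.coeff i : K)) :=
    fun i => (M.mem_B_iff _).mp (p.coeff i).2
  choose k hk using hc
  set N := ∑ i ∈ Finset.range p.natDegree, k i with hN
  set s : M.B := az M.z (M.h ^ N) with hs
  have hsK : (s : K) = M.aK M.h ^ N := by rw [hs, ← M.aK_eq, map_pow]
  have hd : p.natDegree ≠ 0 := by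
    intro h0
    rw [hp.natDegree_eq_zero.mp h0, Polynomial.eval₂_one] at hpa
    exact one_ne_zero hpa
  have hmem : (s : K) * a ∈ M.B := by
    rw [M.mem_B_iff]
    refine ⟨0, ?_⟩
    rw [pow_zero, one_mul]
    change IsIntegral (MvPolynomial (Fin n) ℂ) ((s : K) * a)
    have hmon : ((scaleRoots p s).map (algebraMap M.B K)).Monic :=
      ((monic_scaleRoots_iff s).mpr hp).map _
    refine IsIntegral.of_aeval_monic_of_isIntegral_coeff (p := (scaleRoots p s).map
      (algebraMap M.B K)) hmon ?_ ?_ ?_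
    · rw [((monic_scaleRoots_iff s).mpr hp).natDegree_map, natDegree_scaleRoots]
      exact hd
    · have h1 := scaleRoots_eval₂_eq_zero (algebraMap M.B K) (s := s) hpa
      rw [eval_map]
      have h2 : algebraMap M.B K s = s := rfl
      rw [h2] at h1
      rw [h1]
      exact isIntegral_zero
    · intro i
      rw [coeff_map, coeff_scaleRoots, map_mul]
      rcases lt_trichotomy i p.natDegree with hi | hi | hi
      · have h1 : algebraMap M.B K (p.coeff i) * algebraMap M.B K (s ^ (p.natDegree - i)) =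
            M.aK M.h ^ (N * (p.natDegree - i) - k i) * (M.aK M.h ^ k i * (p.coeff i : K)) := by
          have h2 : k i ≤ N * (p.natDegree - i) := by
            have h3 : k i ≤ N := Finset.single_le_sum (f := k) (fun _ _ => Nat.zero_le _)
              (Finset.mem_range.mpr hi)
            calc k i ≤ N * 1 := by omega
              _ ≤ N * (p.natDegree - i) := Nat.mul_le_mul_left _ (by omega)
          have h4 : algebraMap M.B K (s ^ (p.natDegree - i)) =
              M.aK M.h ^ (N * (p.natDegree - i)) := by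
            rw [map_pow, pow_mul, ← hsK]
            rfl
          rw [h4, ← mul_assoc, ← pow_add, Nat.sub_add_cancel h2, mul_comm]
          rfl
        rw [h1]
        have h5 : IsIntegral (MvPolynomial (Fin n) ℂ) (M.aK M.h) := isIntegral_algebraMap
        have h6 : IsIntegral (MvPolynomial (Fin n) ℂ) (M.aK M.h ^ k i * (p.coeff i : K)) := hk i
        exact (h5.pow _).mul h6
      · rw [hi, hp.coeff_natDegree, Nat.sub_self, pow_zero, map_one, mul_one]
        exact isIntegral_one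
      · rw [coeff_eq_zero_of_natDegree_lt hi, map_zero, zero_mul]
        exact isIntegral_zero
  obtain ⟨u, hu⟩ := M.h_unit.pow N
  have h7 : ((u⁻¹ : M.Bˣ) : M.B) * s = 1 := by
    rw [hs, map_pow, ← hu]
    simp
  refine ⟨((u⁻¹ : M.Bˣ) : M.B) * ⟨(s : K) * a, hmem⟩, ?_⟩
  have h8 : (((u⁻¹ : M.Bˣ) : M.B) : K) * (s : K) = 1 := by
    rw [← MulMemClass.coe_mul, h7]; rfl
  change (((u⁻¹ : M.Bˣ) : M.B) : K) * ((s : K) * a) = a
  rw [← mul_assoc, h8, one_mul]

end Mdl

namespace RMdl

variable {L K : Type} [Field L] [Field K] [Algebra ℂ L] [Algebra ℂ K] [Algebra L K]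
  [IsScalarTower ℂ L K] {m r : ℕ} (R : RMdl L K m r)

/-- `B_L[x]` -/
abbrev RX : Type := MvPolynomial (Fin r) R.ML.B

/-- the ring map `B_L[x] → B_K` -/
def ax : R.RX →+* R.MK.B :=
  MvPolynomial.eval₂Hom (R.incl : R.ML.B →+* R.MK.B) (fun j => R.MK.z (Fin.natAdd m j))

@[simp] lemma ax_C (b : R.ML.B) : R.ax (MvPolynomial.C b) = R.incl b := by
  rw [ax, MvPolynomial.coe_eval₂Hom, MvPolynomial.eval₂_C]
  rfl

@[simp] lemma ax_X (j : Fin r) : R.ax (MvPolynomial.X j) = R.MK.z (Fin.natAdd m j) := by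
  rw [ax, MvPolynomial.coe_eval₂Hom, MvPolynomial.eval₂_X]

/-- values: `P(w, ξ)` -/
lemma apply_ax (y : R.MK.Pts) (P : R.RX) :
    y (R.ax P) = MvPolynomial.eval (R.x y) (MvPolynomial.map (R.q y : R.ML.B →+* ℂ) P) := by
  have h1 : (y : R.MK.B →+* ℂ).comp R.ax =
      (MvPolynomial.eval (R.x y)).comp (MvPolynomial.map (R.q y : R.ML.B →+* ℂ)) := by
    apply MvPolynomial.ringHom_ext
    · intro b
      simp only [RingHom.comp_apply, ax_C, MvPolynomial.map_C, MvPolynomial.eval_C]
      rfl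
    · intro j
      simp only [RingHom.comp_apply, ax_X, MvPolynomial.map_X, MvPolynomial.eval_X]
      rfl
  exact congrArg (fun f : R.RX →+* ℂ => f P) h1

/-- `ℂ[z, x] → B_L[x]` -/
def toRX : MvPolynomial (Fin (m + r)) ℂ →+* R.RX :=
  MvPolynomial.eval₂Hom (algebraMap ℂ R.RX)
    (Fin.append (fun i => MvPolynomial.C (R.ML.z i)) MvPolynomial.X)

lemma ax_toRX (p : MvPolynomial (Fin (m + r)) ℂ) : R.ax (R.toRX p) = az R.MK.z p := by
  have h1 : R.ax.comp R.toRX = az R.MK.z := by
    apply MvPolynomial.ringHom_ext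
    · intro c
      simp only [RingHom.comp_apply, toRX, MvPolynomial.coe_eval₂Hom, MvPolynomial.eval₂_C]
      have h2 : az R.MK.z (MvPolynomial.C c) = algebraMap ℂ R.MK.B c :=
        MvPolynomial.aeval_C R.MK.z c
      rw [h2, MvPolynomial.algebraMap_apply, ax_C]
      exact R.incl.commutes c
    · intro i
      have h2 : az R.MK.z (MvPolynomial.X i) = R.MK.z i := MvPolynomial.aeval_X R.MK.z i
      simp only [RingHom.comp_apply, toRX, MvPolynomial.coe_eval₂Hom, MvPolynomial.eval₂_X]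
      rw [h2]
      refine Fin.addCases (fun i => ?_) (fun j => ?_) i
      · rw [Fin.append_left, ax_C]
        exact Subtype.ext (R.z_eq i).symm
      · rw [Fin.append_right, ax_X]
  exact congrArg (fun f : MvPolynomial (Fin (m + r)) ℂ →+* R.MK.B => f p) h1

lemma toRX_injective : Function.Injective R.toRX := by
  intro p q h
  apply R.MK.az_injective
  rw [← R.ax_toRX, ← R.ax_toRX, h]

/-- a nonzero element of `B_L` and a nonzero polynomial do not vanish simultaneously -/
lemma exists_base_pt {c : R.ML.B} (hc : c ≠ 0) {p : MvPolynomial (Fin m) ℂ} (hp : p ≠ 0) :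
    ∃ w : R.ML.Pts, w c ≠ 0 ∧ MvPolynomial.eval (R.ML.pz w) p ≠ 0 := by
  have h1 : c * az R.ML.z p ≠ 0 := mul_ne_zero hc (by
    rw [Ne, map_eq_zero_iff _ R.ML.az_injective]; exact hp)
  by_contra h
  push Not at h
  apply h1
  apply R.ML.ext_of_pts
  intro w
  rw [map_mul, map_zero, R.ML.apply_az']
  rcases eq_or_ne (w c) 0 with h2 | h2
  · rw [h2, zero_mul]
  · rw [h w h2, mul_zero]

lemma ax_injective : Function.Injective R.ax := by
  rw [injective_iff_map_eq_zero]
  intro P hP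
  by_contra hP0
  obtain ⟨d, hd⟩ := MvPolynomial.ne_zero_iff.mp hP0
  obtain ⟨ξ₀, hξ₀⟩ := exists_specR_ne R.MK.h_ne
  obtain ⟨w, hw1, hw2⟩ := R.exists_base_pt hd hξ₀
  have h1 : MvPolynomial.map (w : R.ML.B →+* ℂ) P ≠ 0 := by
    rw [MvPolynomial.ne_zero_iff]
    exact ⟨d, by rw [MvPolynomial.coeff_map]; exact hw1⟩
  have h2 : specL (R.ML.pz w) R.MK.h ≠ 0 := by
    intro h0
    rw [eval_specR] at hw2
    apply hw2
    rw [← eval_specL, h0, map_zero]
  obtain ⟨ξ, hξ⟩ : ∃ ξ : Cn r, MvPolynomial.eval ξ (MvPolynomial.map (w : R.ML.B →+* ℂ) P *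
      specL (R.ML.pz w) R.MK.h) ≠ 0 := by
    by_contra h
    push Not at h
    exact mul_ne_zero h1 h2 (MvPolynomial.funext fun ξ => by rw [h ξ, map_zero])
  rw [map_mul, eval_specL] at hξ
  obtain ⟨y, hy⟩ := R.surjective_φU ⟨(w, ξ), right_ne_zero_of_mul hξ⟩
  have hq : R.q y = w := congrArg (fun u : R.UR => u.1.1) hy
  have hx : R.x y = ξ := congrArg (fun u : R.UR => u.1.2) hy
  have h3 := R.apply_ax y P
  rw [hP, map_zero, hx, hq] at h3
  exact left_ne_zero_of_mul hξ h3.symm

/-- a relative primitive element -/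
structure RPrim where
  /-- a unit of `B_K` -/
  g : R.RX
  /-- the primitive element -/
  θ : R.MK.B
  /-- its minimal polynomial -/
  P : Polynomial R.RX
  monic : P.Monic
  root : Polynomial.eval₂ R.ax θ P = 0
  bez : ∃ a b : Polynomial R.RX, a * P + b * derivative P = C g
  dvd : ∀ q : Polynomial R.RX, Polynomial.eval₂ R.ax θ q = 0 → P ∣ q
  gen : ∀ b : R.MK.B, ∃ (k : ℕ) (q : Polynomial R.RX),
    R.ax (g ^ k) * b = Polynomial.eval₂ R.ax θ q
  unit : IsUnit (R.ax g)

set_option synthInstance.maxHeartbeats 400000 in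
/-- the data of a relative primitive element, without the unit condition -/
theorem exists_rprim_aux : ∃ (g : R.RX) (θ : R.MK.B) (P : Polynomial R.RX), g ≠ 0 ∧ P.Monic ∧
    Polynomial.eval₂ R.ax θ P = 0 ∧ (∃ a b : Polynomial R.RX, a * P + b * derivative P = C g) ∧
    (∀ q : Polynomial R.RX, Polynomial.eval₂ R.ax θ q = 0 → P ∣ q) ∧
    ∀ b : R.MK.B, ∃ (k : ℕ) (q : Polynomial R.RX),
      R.ax (g ^ k) * b = Polynomial.eval₂ R.ax θ q := by
  let _ : Algebra R.RX R.MK.B := R.ax.toAlgebra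
  have hmap : algebraMap R.RX R.MK.B = R.ax := rfl
  have : IsIntegrallyClosed R.RX := isIntegrallyClosed_mv _ r
  have : IsScalarTower ℂ R.RX R.MK.B := by
    refine IsScalarTower.of_algebraMap_eq fun c => ?_
    rw [hmap, MvPolynomial.algebraMap_apply, ax_C]
    exact (R.incl.commutes c).symm
  have : FaithfulSMul R.RX R.MK.B :=
    (faithfulSMul_iff_algebraMap_injective _ _).mpr R.ax_injective
  have : Module.IsTorsionFree R.RX R.MK.B := inferInstance
  have : CharZero R.RX := charZero_of_injective_algebraMap (R := ℂ) (algebraMap ℂ R.RX).injective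
  have : Algebra.FiniteType R.RX R.MK.B := Algebra.FiniteType.of_restrictScalars_finiteType ℂ _ _
  have : Algebra.IsAlgebraic R.RX R.MK.B := by
    refine ⟨fun b => ?_⟩
    let _ : Algebra (MvPolynomial (Fin (m + r)) ℂ) R.MK.B := (az R.MK.z).toAlgebra
    have hE : Algebra.Etale (MvPolynomial (Fin (m + r)) ℂ) R.MK.B := R.MK.het
    have h1 := (KT661.injective_and_isAlgebraic_of_etale
      (R := MvPolynomial (Fin (m + r)) ℂ) (S := R.MK.B)).2
    obtain ⟨p, hp, hp0⟩ := h1.isAlgebraic b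
    refine ⟨p.map R.toRX, ?_, ?_⟩
    · rw [Ne, Polynomial.map_eq_zero_iff R.toRX_injective]
      exact hp
    · rw [Polynomial.aeval_def, Polynomial.eval₂_map]
      have h2 : (algebraMap R.RX R.MK.B).comp R.toRX = az R.MK.z :=
        RingHom.ext fun p => R.ax_toRX p
      rw [h2]
      exact hp0
  obtain ⟨θ, g, hg, hθ, hder, hab, hgen⟩ := exists_theta R.RX R.MK.B
  exact ⟨g, θ, minpoly R.RX θ, hg, minpoly.monic hθ, minpoly.aeval R.RX θ, hab,
    fun q hq => minpoly.isIntegrallyClosed_dvd hθ hq, hgen⟩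

/-- shrink the total space only -/
abbrev shK (s : MvPolynomial (Fin (m + r)) ℂ) (hs : s ≠ 0) : RMdl L K m r where
  ML := R.ML
  MK := R.MK.loc s hs
  z_eq := R.z_eq
  incl_mem := fun b => R.MK.le_loc s hs (R.incl_mem b)

lemma shK_ML (s : MvPolynomial (Fin (m + r)) ℂ) (hs : s ≠ 0) : (R.shK s hs).ML = R.ML := rfl

lemma shK_ax (s : MvPolynomial (Fin (m + r)) ℂ) (hs : s ≠ 0) (P : R.RX) :
    ((R.shK s hs).ax P : K) = (R.ax P : K) := by
  have h1 : (Subalgebra.inclusion (R.MK.le_loc s hs) : R.MK.B →+* (R.MK.loc s hs).B).comp R.ax =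
      (R.shK s hs).ax := by
    apply MvPolynomial.ringHom_ext
    · intro b
      rw [RingHom.comp_apply, ax_C]
      exact ((R.shK s hs).ax_C b).symm
    · intro j
      rw [RingHom.comp_apply, ax_X]
      exact ((R.shK s hs).ax_X j).symm
  rw [← h1]
  rfl

lemma shK_eval₂ (s : MvPolynomial (Fin (m + r)) ℂ) (hs : s ≠ 0) (θ : R.MK.B)
    (q : Polynomial R.RX) :
    ((Polynomial.eval₂ (R.shK s hs).ax ⟨θ, R.MK.le_loc s hs θ.2⟩ q : (R.MK.loc s hs).B) : K) =
      ((Polynomial.eval₂ R.ax θ q : R.MK.B) : K) := by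
  have h1 := Polynomial.hom_eval₂ q (R.shK s hs).ax ((R.MK.loc s hs).B.val : _ →+* K)
    ⟨θ, R.MK.le_loc s hs θ.2⟩
  have h2 := Polynomial.hom_eval₂ q R.ax (R.MK.B.val : _ →+* K) θ
  have h3 : ((R.MK.loc s hs).B.val : _ →+* K).comp (R.shK s hs).ax =
      (R.MK.B.val : _ →+* K).comp R.ax := RingHom.ext fun P => R.shK_ax s hs P
  rw [h3] at h1
  exact h1.trans h2.symm

/-- relative primitive elements exist after shrinking the total space -/
theorem exists_rprim : ∃ s : MvPolynomial (Fin (m + r)) ℂ, s ≠ 0 ∧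
    ∀ (s' : MvPolynomial (Fin (m + r)) ℂ) (hs' : s' ≠ 0), s ∣ s' →
      Nonempty (R.shK s' hs').RPrim := by
  obtain ⟨g, θ, P, hg, hm, h0, ⟨a, b, hab⟩, hd, hgen⟩ := R.exists_rprim_aux
  have hg' : R.ax g ≠ 0 := by
    rw [Ne, map_eq_zero_iff _ R.ax_injective]; exact hg
  obtain ⟨s, hs, c, hc⟩ := exists_poly_dvd R.MK.het hg'
  refine ⟨s, hs, fun s' hs' hd' => ?_⟩
  obtain ⟨e, he⟩ := hd'
  have hunit : IsUnit ((R.shK s' hs').ax (g * R.toRX s') : (R.MK.loc s' hs').B) := by
    have hs'u : IsUnit (az (R.MK.loc s' hs').z s') := by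
      have h1 := (R.MK.loc s' hs').h_unit
      rw [Mdl.loc_h, map_mul] at h1
      exact isUnit_of_mul_isUnit_right h1
    let ce : R.MK.B := c * az R.MK.z e
    have h3 : (az (R.MK.loc s' hs').z s' : K) = R.MK.aK s' := az_val _ _
    have h4 : ((R.ax g : R.MK.B) : K) * ((c : R.MK.B) : K) = R.MK.aK s := by
      rw [R.MK.aK_eq]
      exact congrArg Subtype.val hc.symm
    have h5 : R.MK.aK s' = R.MK.aK s * R.MK.aK e := by rw [he, map_mul]
    have hce : (ce : K) = (c : K) * R.MK.aK e := by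
      rw [R.MK.aK_eq]; rfl
    have hX : ((R.ax (g * R.toRX s') : R.MK.B) : K) = (R.ax g : K) * R.MK.aK s' := by
      rw [map_mul, R.ax_toRX, R.MK.aK_eq]; rfl
    have key : ((R.ax (g * R.toRX s') : R.MK.B) : K) * (ce : K) =
        R.MK.aK s' * R.MK.aK s' := by
      rw [hX, hce]
      calc (R.ax g : K) * R.MK.aK s' * ((c : K) * R.MK.aK e)
          = R.MK.aK s' * (((R.ax g : R.MK.B) : K) * ((c : R.MK.B) : K) * R.MK.aK e) := by ring
        _ = R.MK.aK s' * R.MK.aK s' := by rw [h4, ← h5]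
    have h2 : ((R.shK s' hs').ax (g * R.toRX s') : (R.MK.loc s' hs').B) *
        (⟨ce, R.MK.le_loc s' hs' ce.2⟩ : (R.MK.loc s' hs').B) =
        az (R.MK.loc s' hs').z s' * az (R.MK.loc s' hs').z s' := by
      apply Subtype.ext
      have h8 := R.shK_ax s' hs' (g * R.toRX s')
      calc (((R.shK s' hs').ax (g * R.toRX s') : (R.MK.loc s' hs').B) : K) * (ce : K)
          = ((R.ax (g * R.toRX s') : R.MK.B) : K) * (ce : K) := by rw [← h8]
        _ = R.MK.aK s' * R.MK.aK s' := key
        _ = _ := by rw [← h3]; rfl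
    have h6 : IsUnit (az (R.MK.loc s' hs').z s' * az (R.MK.loc s' hs').z s') := hs'u.mul hs'u
    rw [← h2] at h6
    exact isUnit_of_mul_isUnit_left h6
  refine ⟨{ g := g * R.toRX s', θ := ⟨θ, R.MK.le_loc s' hs' θ.2⟩, P := P, monic := hm, root := ?_,
            bez := ⟨C (R.toRX s') * a, C (R.toRX s') * b, ?_⟩, dvd := ?_, gen := ?_,
            unit := hunit }⟩
  · apply Subtype.ext
    have h1 := R.shK_eval₂ s' hs' θ P
    exact h1.trans (congrArg Subtype.val h0)
  · calc C (R.toRX s') * a * P + C (R.toRX s') * b * derivative P =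
        C (R.toRX s') * (a * P + b * derivative P) := by ring
      _ = _ := by rw [hab, ← C_mul, mul_comm]
  · intro q hq
    apply hd
    apply Subtype.ext
    have h1 := R.shK_eval₂ s' hs' θ q
    exact h1.symm.trans (congrArg Subtype.val hq)
  · rintro ⟨b', k, hk⟩
    obtain ⟨l, q, hq⟩ := hgen ⟨_, hk⟩
    refine ⟨k + l, C (g ^ k * R.toRX s' ^ l) * q, ?_⟩
    apply Subtype.ext
    have h1 := R.shK_eval₂ s' hs' θ (C (g ^ k * R.toRX s' ^ l) * q)
    refine Eq.trans ?_ h1.symm
    rw [MulMemClass.coe_mul, R.shK_ax, Polynomial.eval₂_mul, Polynomial.eval₂_C, ← hq]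
    simp only [map_mul, map_pow, MulMemClass.coe_mul, SubmonoidClass.coe_pow, R.ax_toRX,
      ← R.MK.aK_eq]
    ring

end RMdl

end Crest.Agent.R276.Mod1_987
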