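import Mathlib
import Crest.Agent.R276.Mod8_987

/-!
Row 276 (S0419), MOD (helper987), part 9: models of the fibres.

`RMdl.exists_fibMdl`: if `R` has a relative primitive element `Q`, `w ∈ R.A` and
`P_w = Q.P.map w` is irreducible in `ℂ[x][T]`, then the fibre `q⁻¹ w` is (homeomorphic to) the
space of points of a model `Mw` of a field, and `B_K → Mw.B` is surjective.
-/

set_option autoImplicit false

open Polynomial Topology Filter MeasureTheory
open scoped ENNReal

noncomputable section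

namespace Crest.Agent.R276.Mod1_987

open Crest.Agent.R271.Defs710 Crest.Agent.R271.Alg255 Crest.Agent.R271.Rd692
open Crest.Agent.R271.AlgB956 Crest.Agent.R271.Ho51 Crest.Agent.R271
open Crest.Agent.R276.AB2_590

/-- the function field of `μ = 0` -/
theorem exists_field {r : ℕ} {μ : Polynomial (MvPolynomial (Fin r) ℂ)} (hm : μ.Monic)
    (hp : Prime μ) : ∃ (F : Type) (_ : Field F) (_ : Algebra ℂ F) (x : Fin r → F) (θ : F),
      AlgebraicIndependent ℂ x ∧ ev2 x θ μ = 0 ∧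
      (∀ q : Polynomial (MvPolynomial (Fin r) ℂ), ev2 x θ q = 0 → μ ∣ q) ∧
      ∀ a : F, ∃ q₁ q₂ : Polynomial (MvPolynomial (Fin r) ℂ), ev2 x θ q₂ ≠ 0 ∧
        a = ev2 x θ q₁ / ev2 x θ q₂ := by
  have hdom : IsDomain (AdjoinRoot μ) := AdjoinRoot.isDomain_of_prime hp
  let F := FractionRing (AdjoinRoot μ)
  let x : Fin r → F := fun j => algebraMap (AdjoinRoot μ) F (AdjoinRoot.of μ (MvPolynomial.X j))
  let θ : F := algebraMap (AdjoinRoot μ) F (AdjoinRoot.root μ)
  have hinj : Function.Injective (algebraMap (AdjoinRoot μ) F) := IsFractionRing.injective _ _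
  have hax : ((MvPolynomial.aeval x : MvPolynomial (Fin r) ℂ →ₐ[ℂ] F) :
      MvPolynomial (Fin r) ℂ →+* F) = (algebraMap (AdjoinRoot μ) F).comp (AdjoinRoot.of μ) := by
    apply MvPolynomial.ringHom_ext
    · intro c
      have h1 : MvPolynomial.aeval x (MvPolynomial.C c) = algebraMap ℂ F c :=
        MvPolynomial.aeval_C x c
      refine h1.trans ?_
      rw [IsScalarTower.algebraMap_apply ℂ (AdjoinRoot μ) F]
      rfl
    · intro j
      exact MvPolynomial.aeval_X x j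
  have hev : ∀ q : Polynomial (MvPolynomial (Fin r) ℂ),
      ev2 x θ q = algebraMap (AdjoinRoot μ) F (AdjoinRoot.mk μ q) := by
    intro q
    have h1 : ev2 x θ q = Polynomial.eval₂ ((algebraMap (AdjoinRoot μ) F).comp
        (AdjoinRoot.of μ)) (algebraMap (AdjoinRoot μ) F (AdjoinRoot.root μ)) q := by
      unfold ev2
      rw [hax]
    rw [h1, ← Polynomial.hom_eval₂]
    congr 1
    exact AdjoinRoot.aeval_eq q
  have hev0 : ∀ q : Polynomial (MvPolynomial (Fin r) ℂ), ev2 x θ q = 0 ↔ μ ∣ q := by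
    intro q
    rw [hev, map_eq_zero_iff _ hinj, AdjoinRoot.mk_eq_zero]
  refine ⟨F, inferInstance, inferInstance, x, θ, ?_, (hev0 μ).mpr dvd_rfl,
    fun q h => (hev0 q).mp h, ?_⟩
  · change Function.Injective _
    rw [injective_iff_map_eq_zero]
    intro p hp0
    have h1 : ev2 x θ (C p) = 0 := by
      rw [ev2, Polynomial.eval₂_C]; exact hp0
    obtain ⟨c, hc⟩ := (hev0 _).mp h1
    by_contra hp1
    have hc0 : c ≠ 0 := by
      rintro rfl
      rw [mul_zero, C_eq_zero] at hc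
      exact hp1 hc
    have h2 : (μ * c).natDegree = 0 := by rw [← hc]; exact natDegree_C p
    rw [hm.natDegree_mul' hc0] at h2
    have h3 : μ = 1 := hm.natDegree_eq_zero.mp (by omega)
    exact hp.not_isUnit (by rw [h3]; exact isUnit_one)
  · intro a
    obtain ⟨b, c, hc, h⟩ := IsFractionRing.div_surjective (A := AdjoinRoot μ) a
    obtain ⟨q₁, rfl⟩ := AdjoinRoot.mk_surjective b
    obtain ⟨q₂, rfl⟩ := AdjoinRoot.mk_surjective c
    refine ⟨q₁, q₂, ?_, by rw [hev, hev]; exact h.symm⟩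
    rw [hev, Ne, map_eq_zero_iff _ hinj]
    exact nonZeroDivisors.ne_zero hc

/-- a model from a prime polynomial with discriminant dividing `h` -/
theorem exists_mdl_of_prime {r : ℕ} {μ : Polynomial (MvPolynomial (Fin r) ℂ)} (hm : μ.Monic)
    (hp : Prime μ) {g h : MvPolynomial (Fin r) ℂ} (hg : g ≠ 0) (hh : h ≠ 0) (hgh : g ∣ h)
    (hb : ∃ a b : Polynomial (MvPolynomial (Fin r) ℂ), a * μ + b * derivative μ = C g) :
    ∃ (F : Type) (_ : Field F) (_ : Algebra ℂ F) (M : Mdl F r), M.h = h ∧ M.μ = μ := by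
  obtain ⟨F, _, _, x, θ, hx, h0, hd, hfr⟩ := exists_field hm hp
  have hmem : ∀ q : Polynomial (MvPolynomial (Fin r) ℂ), ev2 x θ q ∈
      Algebra.adjoin ℂ (Set.range x ∪ {θ}) := by
    intro q
    have hxm : ∀ i, x i ∈ Algebra.adjoin ℂ (Set.range x ∪ {θ}) :=
      fun i => Algebra.subset_adjoin (Or.inl ⟨i, rfl⟩)
    have hθm : θ ∈ Algebra.adjoin ℂ (Set.range x ∪ {θ}) :=
      Algebra.subset_adjoin (Or.inr rfl)
    rw [ev2, Polynomial.eval₂_eq_sum_range]
    exact Subalgebra.sum_mem _ fun i _ => mul_mem (aeval_mem hxm _) (pow_mem hθm i)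
  have hmem' : ∀ b ∈ Algebra.adjoin ℂ (Set.range x ∪ {θ}),
      ∃ q : Polynomial (MvPolynomial (Fin r) ℂ), b = ev2 x θ q := by
    intro b hb
    induction hb using Algebra.adjoin_induction with
    | mem y hy =>
      rcases hy with ⟨i, rfl⟩ | hy
      · refine ⟨C (MvPolynomial.X i), ?_⟩
        rw [ev2, Polynomial.eval₂_C]
        exact (MvPolynomial.aeval_X x i).symm
      · rw [Set.mem_singleton_iff] at hy
        exact ⟨X, by rw [ev2, Polynomial.eval₂_X, hy]⟩
    | algebraMap c =>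
      refine ⟨C (MvPolynomial.C c), ?_⟩
      rw [ev2, Polynomial.eval₂_C]
      exact (MvPolynomial.aeval_C x c).symm
    | add a b _ _ ha hb =>
      obtain ⟨q, rfl⟩ := ha
      obtain ⟨q', rfl⟩ := hb
      exact ⟨q + q', by rw [ev2, ev2, ev2, Polynomial.eval₂_add]⟩
    | mul a b _ _ ha hb =>
      obtain ⟨q, rfl⟩ := ha
      obtain ⟨q', rfl⟩ := hb
      exact ⟨q * q', by rw [ev2, ev2, ev2, Polynomial.eval₂_mul]⟩
  have hfg : (Algebra.adjoin ℂ (Set.range x ∪ {θ})).FG := by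
    refine Subalgebra.fg_def.mpr ⟨Set.range x ∪ {θ}, ?_, rfl⟩
    exact (Set.finite_range x).union (Set.finite_singleton θ)
  let P : Prim (Algebra.adjoin ℂ (Set.range x ∪ {θ})) x :=
    { g := g, θ := θ, μ := μ, g_ne := hg, θ_mem := Algebra.subset_adjoin (Or.inr rfl),
      monic := hm, root := h0, bez := hb, dvd := hd,
      gen := fun b hb => by
        obtain ⟨q, rfl⟩ := hmem' b hb
        exact ⟨0, q, by simp⟩ }
  have hfrac : ∀ a : F, ∃ b ∈ Algebra.adjoin ℂ (Set.range x ∪ {θ}),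
      ∃ c ∈ Algebra.adjoin ℂ (Set.range x ∪ {θ}), c ≠ 0 ∧ a = b / c := by
    intro a
    obtain ⟨q₁, q₂, h2, ha⟩ := hfr a
    exact ⟨_, hmem q₁, _, hmem q₂, h2, ha⟩
  exact ⟨F, inferInstance, inferInstance, mkMdl hfg hfrac
    (fun i => Algebra.subset_adjoin (Or.inl ⟨i, rfl⟩)) hx P h hh hgh, rfl, rfl⟩

namespace RMdl

variable {L K : Type} [Field L] [Field K] [Algebra ℂ L] [Algebra ℂ K] [Algebra L K]
  [IsScalarTower ℂ L K] {m r : ℕ} (R : RMdl L K m r)

/-- specialisation at a point of the base -/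
abbrev sp (w : R.ML.Pts) : R.RX →+* MvPolynomial (Fin r) ℂ :=
  MvPolynomial.map (w : R.ML.B →+* ℂ)

lemma sp_toRX (w : R.ML.Pts) (p : MvPolynomial (Fin (m + r)) ℂ) :
    R.sp w (R.toRX p) = specL (R.ML.pz w) p := by
  have h1 : (R.sp w).comp R.toRX = (specL (R.ML.pz w) : _ →ₐ[ℂ] _).toRingHom := by
    apply MvPolynomial.ringHom_ext
    · intro c
      rw [RingHom.comp_apply, toRX, MvPolynomial.coe_eval₂Hom, MvPolynomial.eval₂_C]
      have h2 : specL (R.ML.pz w) (MvPolynomial.C c : MvPolynomial (Fin (m + r)) ℂ) =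
          MvPolynomial.C c := MvPolynomial.aeval_C _ c
      refine Eq.trans ?_ h2.symm
      rw [MvPolynomial.algebraMap_apply, MvPolynomial.map_C]
      congr 1
      exact w.commutes c
    · intro i
      rw [RingHom.comp_apply, toRX, MvPolynomial.coe_eval₂Hom, MvPolynomial.eval₂_X]
      have h2 : specL (R.ML.pz w) (MvPolynomial.X i : MvPolynomial (Fin (m + r)) ℂ) =
          Fin.append (fun i => MvPolynomial.C (R.ML.pz w i)) MvPolynomial.X i :=
        MvPolynomial.aeval_X _ i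
      refine Eq.trans ?_ h2.symm
      refine Fin.addCases (fun i => ?_) (fun j => ?_) i
      · rw [Fin.append_left, Fin.append_left, MvPolynomial.map_C]
        rfl
      · rw [Fin.append_right, Fin.append_right, MvPolynomial.map_X]
  exact congrArg (fun f : MvPolynomial (Fin (m + r)) ℂ →+* MvPolynomial (Fin r) ℂ => f p) h1

variable {R}

namespace RPrim

variable (Q : R.RPrim)

/-- the standard étale presentation of `B_K` over `B_L[x]` -/
def pres : @StandardEtalePresentation R.RX R.MK.B _ _ R.ax.toAlgebra :=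
  letI : Algebra R.RX R.MK.B := R.ax.toAlgebra
  presOf Q.P Q.θ Q.g Q.monic Q.root Q.unit Q.bez Q.dvd Q.gen

/-- homomorphisms from `B_K` -/
theorem exists_hom {B : Type} [CommRing B] (f : R.RX →+* B) (θ' : B)
    (h0 : Polynomial.eval₂ f θ' Q.P = 0) (hg : IsUnit (f Q.g)) :
    ∃ ρ : R.MK.B →+* B, (∀ p, ρ (R.ax p) = f p) ∧ ρ Q.θ = θ' := by
  let _ : Algebra R.RX R.MK.B := R.ax.toAlgebra
  let _ : Algebra R.RX B := f.toAlgebra
  have hm : Q.pres.P.HasMap θ' := by
    refine ⟨h0, ?_⟩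
    change IsUnit (Polynomial.eval₂ f θ' (C Q.g))
    rw [Polynomial.eval₂_C]
    exact hg
  let φ : R.MK.B →ₐ[R.RX] B := (Q.pres.P.lift θ' hm).comp Q.pres.equivRing.toAlgHom
  refine ⟨φ.toRingHom, fun p => φ.commutes p, ?_⟩
  change Q.pres.P.lift θ' hm (Q.pres.equivRing Q.pres.x) = θ'
  rw [StandardEtalePresentation.equivRing_x, StandardEtalePair.lift_X]

/-- two homomorphisms which agree on `B_L[x]` and `θ` agree -/
theorem hom_ext {B : Type} [CommRing B] {ρ ρ' : R.MK.B →+* B}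
    (h1 : ∀ p, ρ (R.ax p) = ρ' (R.ax p)) (h2 : ρ Q.θ = ρ' Q.θ) : ρ = ρ' := by
  let _ : Algebra R.RX R.MK.B := R.ax.toAlgebra
  let _ : Algebra R.RX B := (ρ.comp R.ax).toAlgebra
  let φ : R.MK.B →ₐ[R.RX] B := { ρ with commutes' := fun _ => rfl }
  let φ' : R.MK.B →ₐ[R.RX] B := { ρ' with commutes' := fun p => (h1 p).symm }
  have h3 : φ = φ' := Q.pres.hom_ext h2
  ext b
  exact congrArg (fun f : R.MK.B →ₐ[R.RX] B => f b) h3

/-- the specialised polynomial -/
def Pw (w : R.ML.Pts) : Polynomial (MvPolynomial (Fin r) ℂ) := Q.P.map (R.sp w)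

lemma monic_Pw (w : R.ML.Pts) : (Q.Pw w).Monic := Q.monic.map _

lemma bez_Pw (w : R.ML.Pts) : ∃ a b : Polynomial (MvPolynomial (Fin r) ℂ),
    a * Q.Pw w + b * derivative (Q.Pw w) = C (R.sp w Q.g) := by
  obtain ⟨a, b, hab⟩ := Q.bez
  refine ⟨a.map (R.sp w), b.map (R.sp w), ?_⟩
  have h1 := congrArg (Polynomial.map (R.sp w)) hab
  rw [Polynomial.map_add, Polynomial.map_mul, Polynomial.map_mul, Polynomial.map_C,
    ← Polynomial.derivative_map] at h1
  exact h1

lemma root_Pw {w : R.ML.Pts} (u : R.Fib w) :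
    ((Q.Pw w).map (MvPolynomial.eval (R.x u.val))).eval (Fib.val R u Q.θ) = 0 := by
  have h1 := Polynomial.hom_eval₂ Q.P R.ax (u.val : R.MK.B →+* ℂ) Q.θ
  rw [Q.root, map_zero] at h1
  have h2 : (u.val : R.MK.B →+* ℂ).comp R.ax = (MvPolynomial.eval (R.x u.val)).comp (R.sp w) := by
    refine RingHom.ext fun p => ?_
    have h3 := R.apply_ax u.val p
    rw [u.q_eq] at h3
    exact h3
  rw [h2, ← Polynomial.eval₂_map, ← Polynomial.eval_map] at h1
  exact h1.symm

/-- **models of the fibres** -/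
theorem exists_fibMdl (w : R.ML.Pts) (hw : w ∈ R.A) (hirr : Irreducible (Q.Pw w)) :
    ∃ (F : Type) (_ : Field F) (_ : Algebra ℂ F) (Mw : Mdl F r) (ρ : R.MK.B →ₐ[ℂ] Mw.B)
      (Φ : Mw.Pts ≃ₜ R.Fib w), Function.Surjective ρ ∧
      (∀ (y : Mw.Pts) (b : R.MK.B), Fib.val R (Φ y) b = y (ρ b)) ∧
      (∀ y : Mw.Pts, cp (Φ y) = Mw.pz y) ∧
      (∀ p : R.RX, ρ (R.ax p) = az Mw.z (R.sp w p)) ∧ ρ Q.θ = Mw.θ ∧
      Mw.h = specL (R.ML.pz w) R.MK.h * R.sp w Q.g ∧ Mw.μ = Q.Pw w := by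
  -- a point of the fibre
  obtain ⟨y₀, hy₀⟩ : ∃ y, R.q y = w := by
    have : w ∈ Set.range R.q := by rw [R.range_q]; exact hw
    exact this
  have hval : ∀ (u : R.Fib w) (p : R.RX), Fib.val R u (R.ax p) =
      MvPolynomial.eval (R.x u.val) (R.sp w p) := by
    intro u p
    have h3 := R.apply_ax u.val p
    rw [u.q_eq] at h3
    exact h3
  have hgne : ∀ u : R.Fib w, MvPolynomial.eval (R.x u.val) (R.sp w Q.g) ≠ 0 := by
    intro u
    rw [← hval]
    exact (Q.unit.map (u.val : R.MK.B →+* ℂ)).ne_zero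
  have hhne : ∀ u : R.Fib w, MvPolynomial.eval (R.x u.val) (specL (R.ML.pz w) R.MK.h) ≠ 0 := by
    intro u
    rw [eval_specL]
    have h1 := R.append_eq u.val
    rw [u.q_eq] at h1
    rw [h1]
    exact R.MK.eval_h_ne _
  let u₀ : R.Fib w := ⟨y₀, hy₀⟩
  have hg0 : R.sp w Q.g ≠ 0 := fun h0 => hgne u₀ (by rw [h0, map_zero])
  have hh0 : specL (R.ML.pz w) R.MK.h ≠ 0 := fun h0 => hhne u₀ (by rw [h0, map_zero])
  obtain ⟨F, _, _, Mw, hMh, hMμ⟩ := exists_mdl_of_prime (Q.monic_Pw w) hirr.prime hg0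
    (mul_ne_zero hh0 hg0) (dvd_mul_left _ _) (Q.bez_Pw w)
  -- the homomorphism
  have hroot : Polynomial.eval₂ ((az Mw.z).comp (R.sp w)) Mw.θ Q.P = 0 := by
    rw [← Polynomial.eval₂_map]
    have h1 := Mw.root
    rw [hMμ] at h1
    exact h1
  have hgu : IsUnit (((az Mw.z).comp (R.sp w)) Q.g) := by
    have h1 := Mw.h_unit
    rw [hMh, map_mul] at h1
    exact isUnit_of_mul_isUnit_right h1
  obtain ⟨ρ₀, hρ1, hρ2⟩ := Q.exists_hom ((az Mw.z).comp (R.sp w)) Mw.θ hroot hgu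
  have hρC : ∀ b : R.ML.B, ρ₀ (R.incl b) = algebraMap ℂ Mw.B (w b) := by
    intro b
    rw [← ax_C, hρ1, RingHom.comp_apply, MvPolynomial.map_C]
    exact MvPolynomial.aeval_C Mw.z _
  let ρ : R.MK.B →ₐ[ℂ] Mw.B := { ρ₀ with
    commutes' := fun c => by
      have h1 : algebraMap ℂ R.MK.B c = R.incl (algebraMap ℂ R.ML.B c) :=
        (R.incl.commutes c).symm
      change ρ₀ (algebraMap ℂ R.MK.B c) = _
      rw [h1, hρC]
      congr 1
      exact w.commutes c }
  have hρρ : ∀ b, ρ b = ρ₀ b := fun _ => rfl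
  have hρX : ∀ j, ρ (R.MK.z (Fin.natAdd m j)) = Mw.z j := by
    intro j
    rw [hρρ, ← ax_X, hρ1, RingHom.comp_apply, MvPolynomial.map_X]
    exact MvPolynomial.aeval_X Mw.z j
  -- surjectivity
  have hlift : ∀ p : MvPolynomial (Fin r) ℂ, ρ₀ (R.ax (MvPolynomial.map (algebraMap ℂ R.ML.B) p)) =
      az Mw.z p := by
    intro p
    rw [hρ1, RingHom.comp_apply, MvPolynomial.map_map]
    have h1 : (w : R.ML.B →+* ℂ).comp (algebraMap ℂ R.ML.B) = RingHom.id ℂ :=
      RingHom.ext fun c => w.commutes c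
    rw [h1, MvPolynomial.map_id]
  have hsurj : Function.Surjective ρ := by
    intro b
    obtain ⟨k, q, hq⟩ := Mw.gen b
    -- lift of `q`
    have h1 : ρ₀ (Polynomial.eval₂ R.ax Q.θ
        (q.map (MvPolynomial.map (algebraMap ℂ R.ML.B)))) = Polynomial.eval₂ (az Mw.z) Mw.θ q := by
      rw [Polynomial.hom_eval₂, hρ2, Polynomial.eval₂_map]
      congr 1
      exact RingHom.ext fun p => hlift p
    -- the inverse of `h`
    have h2 : IsUnit (az R.MK.z R.MK.h * R.ax Q.g) := R.MK.h_unit.mul Q.unit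
    obtain ⟨v, hv⟩ := h2
    have h3 : ρ₀ (az R.MK.z R.MK.h * R.ax Q.g) = az Mw.z Mw.h := by
      rw [map_mul, hρ1, ← R.ax_toRX, hρ1, RingHom.comp_apply, RingHom.comp_apply, R.sp_toRX,
        hMh, map_mul]
    refine ⟨(((v⁻¹) ^ k : R.MK.Bˣ) : R.MK.B) * Polynomial.eval₂ R.ax Q.θ
        (q.map (MvPolynomial.map (algebraMap ℂ R.ML.B))), ?_⟩
    rw [hρρ, map_mul, h1, ← hq, ← mul_assoc, map_pow, ← h3, ← map_pow, ← map_mul, ← hv,
      ← Units.val_pow_eq_pow_val, ← Units.val_mul, ← mul_pow]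
    simp
  -- the map on points
  have hq : ∀ y : Mw.Pts, R.q (y.comp ρ) = w := by
    intro y
    ext b
    change y (ρ₀ (R.incl b)) = w b
    rw [hρC, AlgHom.commutes]
    rfl
  let f : Mw.Pts → R.Fib w := fun y => ⟨y.comp ρ, hq y⟩
  have hfval : ∀ y b, Fib.val R (f y) b = y (ρ b) := fun _ _ => rfl
  have hcp : ∀ y : Mw.Pts, cp (f y) = Mw.pz y := by
    intro y
    funext j
    change y (ρ (R.MK.z (Fin.natAdd m j))) = y (Mw.z j)
    rw [hρX]
  have hcont : Continuous f := by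
    refine Continuous.subtype_mk ?_ _
    rw [continuous_iff_ev]
    intro b
    exact continuous_ev (ρ b)
  have hloc : IsLocalHomeomorph f := by
    refine IsLocalHomeomorph.of_comp (g := (cp : R.Fib w → Cn r)) (f := f) ?_ cp_lh hcont
    have h1 : (cp : R.Fib w → Cn r) ∘ f = Mw.pz := funext hcp
    rw [h1]
    exact isLocalHomeomorph_pr Mw.hch
  have hbij : Function.Bijective f := by
    constructor
    · intro y y' h
      ext b
      obtain ⟨b', rfl⟩ := hsurj b
      rw [← hfval, ← hfval, h]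
    · intro u
      have ht := Q.root_Pw u
      rw [← hMμ] at ht
      obtain ⟨y, hy1, hy2⟩ := Mw.exists_pt (ζ := R.x u.val) (by
        rw [hMh, map_mul]
        exact mul_ne_zero (hhne u) (hgne u)) ht
      refine ⟨y, Fib.ext ?_⟩
      have h1 : ((f y).val : R.MK.B →+* ℂ) = (u.val : R.MK.B →+* ℂ) := by
        apply Q.hom_ext
        · intro p
          change y (ρ₀ (R.ax p)) = Fib.val R u (R.ax p)
          rw [hρ1, hval, RingHom.comp_apply, Mw.apply_az']
          congr 2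
          exact funext hy1
        · change y (ρ₀ Q.θ) = Fib.val R u Q.θ
          rw [hρ2, hy2]
      ext b
      exact congrArg (fun g : R.MK.B →+* ℂ => g b) h1
  exact ⟨F, inferInstance, inferInstance, Mw, ρ, hloc.toHomeomorphOfBijective hbij, hsurj,
    hfval, hcp, hρ1, hρ2, hMh, hMμ⟩

end RPrim

end RMdl

end Crest.Agent.R276.Mod1_987
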