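import Mathlib
import Crest.Agent.R276.Mod9_987
import Crest.Agent.R276.BN4_143
import Crest.Agent.R276.TowA_849

/-!
# Row 276, models (helper987), part 10: the fibres of `M_K → M_L` are connected over a dense open
set, if `L` is algebraically closed in `K`

* `resF`, `isOpenEmbedding_resF`, `range_resF` : restriction of fibres to smaller models;
* `dense_fib`, `null_fib`;
* `exists_conn` : for every relative model;
* `ev2_conn`, `ev_conn` : "after every sufficient shrinking", in the form of `TowA_849`.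
-/

set_option autoImplicit false
set_option linter.unusedSectionVars false

open Polynomial Topology Filter MeasureTheory

noncomputable section

namespace Crest.Agent.R276.Mod1_987

open Crest.Agent.R271.Defs710 Crest.Agent.R271.Alg255 Crest.Agent.R271.Rd692
open Crest.Agent.R271.AlgB956 Crest.Agent.R271.Ho51 Crest.Agent.R271
open Crest.Agent.R276.AB2_590
open scoped ENNReal

namespace RMdl

variable {L K : Type} [Field L] [Field K] [Algebra ℂ L] [Algebra ℂ K] [Algebra L K]
  [IsScalarTower ℂ L K] {m r : ℕ}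

/-! ### restriction to smaller models -/

section res

variable {R R' : RMdl L K m r} (hL : R.ML.B ≤ R'.ML.B) (hK : R.MK.B ≤ R'.MK.B)

/-- the projections commute with the restrictions -/
lemma q_resB (y : R'.MK.Pts) : R.q (Mdl.resB hK y) = Mdl.resB hL (R'.q y) := by
  apply AlgHom.ext
  intro b
  change y _ = y _
  congr 1

/-- restriction of the fibres -/
def resF (w : R'.ML.Pts) (y : R'.Fib w) : R.Fib (Mdl.resB hL w) :=
  ⟨Mdl.resB hK (Fib.val R' y), by rw [q_resB hL hK, y.q_eq]⟩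

@[simp] lemma resF_val (w : R'.ML.Pts) (y : R'.Fib w) :
    Fib.val R (resF hL hK w y) = Mdl.resB hK (Fib.val R' y) := rfl

variable (hzK : R.MK.zK = R'.MK.zK)

include hzK in
lemma x_resB (y : R'.MK.Pts) : R.x (Mdl.resB hK y) = R'.x y := by
  funext j
  exact congrFun (Mdl.pz_resB hzK hK y) (Fin.natAdd m j)

include hzK in
lemma cp_resF (w : R'.ML.Pts) (y : R'.Fib w) :
    cp (resF hL hK w y) = (cp y : Cn r) := x_resB hK hzK (Fib.val R' y)

lemma continuous_resF (w : R'.ML.Pts) : Continuous (resF hL hK w : R'.Fib w → _) := by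
  refine continuous_induced_rng.2 ?_
  change Continuous fun y : R'.Fib w => Mdl.resB hK (Fib.val R' y)
  exact (Mdl.continuous_resB hK).comp (Fib.continuous_val w)

include hzK in
lemma resF_injective (w : R'.ML.Pts) : Function.Injective (resF hL hK w : R'.Fib w → _) := by
  intro y y' h
  exact Fib.ext (Mdl.resB_injective hzK hK (congrArg (Fib.val R) h))

include hzK in
theorem isOpenEmbedding_resF (w : R'.ML.Pts) :
    IsOpenEmbedding (resF hL hK w : R'.Fib w → R.Fib (Mdl.resB hL w)) := by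
  refine IsLocalHomeomorph.isOpenEmbedding_of_injective ?_ (resF_injective hL hK hzK w)
  refine IsLocalHomeomorph.of_comp (g := (cp : R.Fib (Mdl.resB hL w) → Cn r))
    (f := (resF hL hK w : R'.Fib w → R.Fib (Mdl.resB hL w))) ?_ cp_lh (continuous_resF hL hK w)
  have h1 : (cp : R.Fib (Mdl.resB hL w) → Cn r) ∘ (resF hL hK w : R'.Fib w → _) =
      (cp : R'.Fib w → Cn r) := funext fun y => cp_resF hL hK hzK w y
  rw [h1]
  exact cp_lh

include hzK in
theorem range_resF (hzL : R.ML.zK = R'.ML.zK) (w : R'.ML.Pts) :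
    Set.range (resF hL hK w : R'.Fib w → R.Fib (Mdl.resB hL w)) =
      {y | MvPolynomial.eval (R.MK.pz (Fib.val R y)) R'.MK.h ≠ 0} := by
  ext y
  constructor
  · rintro ⟨y', rfl⟩
    have h1 : Mdl.resB hK (Fib.val R' y') ∈
        {y : R.MK.Pts | MvPolynomial.eval (R.MK.pz y) R'.MK.h ≠ 0} := by
      rw [← Mdl.range_resB hzK hK]
      exact ⟨_, rfl⟩
    exact h1
  · intro hy
    have h1 : Fib.val R y ∈ Set.range (Mdl.resB hK : R'.MK.Pts → R.MK.Pts) := by
      rw [Mdl.range_resB hzK hK]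
      exact hy
    obtain ⟨u, hu⟩ := h1
    have hq : R'.q u = w := by
      apply Mdl.resB_injective hzL hL
      rw [← q_resB hL hK, hu]
      exact y.q_eq
    exact ⟨⟨u, hq⟩, Fib.ext hu⟩

end res

/-! ### density on the fibres -/

lemma dense_eval_ne {n : ℕ} {p : MvPolynomial (Fin n) ℂ} (hp : p ≠ 0) :
    Dense {ξ : Cn n | MvPolynomial.eval ξ p ≠ 0} :=
  MeasureTheory.Measure.dense_of_ae (Null956.ae_eval_ne hp)

variable (R : RMdl L K m r)

lemma pL_fib {w : R.ML.Pts} (y : R.Fib w) :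
    R.MK.pz (Fib.val R y) = Fin.append (R.ML.pz w) (cp y) := by
  have h := R.append_eq (Fib.val R y)
  rw [y.q_eq] at h
  exact h.symm

/-- the complement of the zero set of a nonzero polynomial is dense in every fibre -/
theorem dense_fib (w : R.ML.Pts) {p : MvPolynomial (Fin r) ℂ} (hp : p ≠ 0) :
    Dense {y : R.Fib w | MvPolynomial.eval (cp y) p ≠ 0} :=
  (dense_eval_ne hp).preimage (cp_lh (M := R.Fib w)).isOpenMap

/-- zero sets of nonzero polynomials are null in every fibre -/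
theorem null_fib {w : R.ML.Pts} {μ : Measure (R.Fib w)} (hμ : IsLeb μ)
    {p : MvPolynomial (Fin r) ℂ} (hp : p ≠ 0) :
    ∀ᵐ y ∂μ, MvPolynomial.eval (cp y) p ≠ 0 := by
  have hcont : Continuous fun y : R.Fib w => MvPolynomial.eval (cp y) p :=
    (MvPolynomial.continuous_eval p).comp cp_cont
  have hS : MeasurableSet {y : R.Fib w | MvPolynomial.eval (cp y) p = 0} :=
    (isClosed_eq hcont continuous_const).measurableSet
  rw [ae_iff]
  simp only [not_not]
  rw [← lintegral_indicator_one hS]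
  have h1 := lintegral_eq_fibre hμ
    (g := Set.indicator {y : R.Fib w | MvPolynomial.eval (cp y) p = 0} 1)
    (measurable_one.indicator hS)
  rw [h1]
  refine lintegral_eq_zero_of_ae_eq_zero ?_
  filter_upwards [Null956.ae_eval_ne hp] with ξ hξ
  refine ENNReal.tsum_eq_zero.2 fun y => ?_
  refine Set.indicator_of_notMem ?_ _
  intro h
  apply hξ
  have h2 : MvPolynomial.eval (cp y.1) p = 0 := h
  rw [y.2] at h2
  exact h2

/-- nonvanishing of a specialisation over a dense open set of the base -/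
lemma exists_specL_ne {s : MvPolynomial (Fin (m + r)) ℂ} (hs : s ≠ 0) :
    ∃ p : MvPolynomial (Fin m) ℂ, p ≠ 0 ∧ ∀ ζ : Cn m, MvPolynomial.eval ζ p ≠ 0 →
      specL ζ s ≠ 0 := by
  obtain ⟨ξ, hξ⟩ := exists_specR_ne hs
  refine ⟨specR ξ s, hξ, fun ζ hζ h0 => hζ ?_⟩
  rw [eval_specR, ← eval_specL, h0, map_zero]

/-- a nonzero element of `B` divides a nonzero polynomial in the coordinates -/
lemma exists_dvd_poly {K' : Type} [Field K'] [Algebra ℂ K'] {n : ℕ} (M : Mdl K' n) {b : M.B}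
    (hb : b ≠ 0) : ∃ (s : MvPolynomial (Fin n) ℂ), s ≠ 0 ∧ ∀ y : M.Pts,
      MvPolynomial.eval (M.pz y) s ≠ 0 → y b ≠ 0 := by
  obtain ⟨s, hs, c, hc⟩ := exists_poly_dvd M.het hb
  refine ⟨s, hs, fun y hy h0 => hy ?_⟩
  have hc' : az M.z s = b * c := hc
  rw [← M.apply_az', hc', map_mul, h0, zero_mul]

/-- for `0 ≠ b ∈ B_K`: over a dense open set of the base, `b` does not vanish at a dense set of
points of the fibre (and at almost every point) -/
theorem exists_fib_ne {b : R.MK.B} (hb : b ≠ 0) : ∃ p : MvPolynomial (Fin m) ℂ, p ≠ 0 ∧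
    ∀ w : R.ML.Pts, MvPolynomial.eval (R.ML.pz w) p ≠ 0 →
      Dense {y : R.Fib w | Fib.val R y b ≠ 0} ∧
      ∀ μ : Measure (R.Fib w), IsLeb μ → ∀ᵐ y ∂μ, Fib.val R y b ≠ 0 := by
  obtain ⟨s, hs, h1⟩ := exists_dvd_poly R.MK hb
  obtain ⟨p, hp, h2⟩ := exists_specL_ne hs
  refine ⟨p, hp, fun w hw => ?_⟩
  have h3 := h2 _ hw
  have h4 : ∀ y : R.Fib w, MvPolynomial.eval (cp y) (specL (R.ML.pz w) s) ≠ 0 →
      Fib.val R y b ≠ 0 := by
    intro y hy
    apply h1
    rw [R.pL_fib, ← eval_specL]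
    exact hy
  refine ⟨(R.dense_fib w h3).mono h4, fun μ hμ => ?_⟩
  filter_upwards [R.null_fib hμ h3] with y hy
  exact h4 y hy

/-! ### Bertini–Noether -/

variable {R}

/-- the specialised polynomials are irreducible over a dense open set of the base -/
theorem RPrim.exists_irreducible (Q : R.RPrim) (hac : BN1_143.AC L K) :
    ∃ a : R.ML.B, a ≠ 0 ∧ ∀ w : R.ML.Pts, w a ≠ 0 → Irreducible (Q.Pw w) := by
  have hfr : IsFractionRing R.ML.B L := IsFractionRing.of_field _ _ fun z => by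
    obtain ⟨b, c, -, h⟩ := R.ML.frac z
    exact ⟨b, c, h⟩
  have hch : CharZero R.ML.B := charZero_of_injective_algebraMap (R := ℂ)
    (algebraMap ℂ R.ML.B).injective
  have hv : Function.Injective (R.MK.B.val : R.MK.B →+* K) := Subtype.val_injective
  have key : ∀ q : Polynomial R.RX,
      q.eval₂ ((R.MK.B.val : R.MK.B →+* K).comp R.ax) (Q.θ : K) =
        (R.MK.B.val : R.MK.B →+* K) (q.eval₂ R.ax Q.θ) := fun q =>
    (Polynomial.hom_eval₂ q R.ax (R.MK.B.val : R.MK.B →+* K) Q.θ).symm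
  obtain ⟨a, ha, h⟩ := BN4_143.irreducible_fiber.{0} (A := R.ML.B) L K hac
    ((R.MK.B.val : R.MK.B →+* K).comp R.ax) (by
      intro b
      rw [RingHom.comp_apply, ax_C]
      rfl) (Q.θ : K) Q.P Q.monic.ne_zero (by rw [key, Q.root, map_zero]) (by
      intro q hq
      apply Q.dvd
      apply hv
      rw [map_zero, ← key, hq])
  exact ⟨a, ha, fun w hw => h ℂ (w : R.ML.B →+* ℂ) hw⟩

variable (R)

/-- **the fibres are connected over a dense open set**, for every relative model -/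
theorem exists_conn (hac : BN1_143.AC L K) : ∃ p : MvPolynomial (Fin m) ℂ, p ≠ 0 ∧
    ∀ w : R.ML.Pts, MvPolynomial.eval (R.ML.pz w) p ≠ 0 → ConnectedSpace (R.Fib w) := by
  obtain ⟨s, hs, h1⟩ := R.exists_rprim
  obtain ⟨Q⟩ := h1 s hs dvd_rfl
  obtain ⟨a, ha, h2⟩ := Q.exists_irreducible hac
  let R' : RMdl L K m r := R.shK s hs
  obtain ⟨c, hc, h3⟩ := exists_dvd_poly R.ML ha
  obtain ⟨ξ, hξ⟩ := exists_specR_ne (mul_ne_zero R.MK.h_ne hs)
  refine ⟨c * specR ξ (R.MK.h * s), mul_ne_zero hc hξ, fun w hw => ?_⟩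
  rw [map_mul] at hw
  have hw1 := left_ne_zero_of_mul hw
  have hw2 := right_ne_zero_of_mul hw
  rw [eval_specR] at hw2
  have hA : w ∈ R'.A := ⟨ξ, hw2⟩
  obtain ⟨F, _, _, Mw, ρ, Φ, -⟩ := Q.exists_fibMdl w hA (h2 w (h3 w hw1))
  have hcs : ConnectedSpace (R'.Fib w) := Φ.surjective.connectedSpace Φ.continuous
  have hle : R.MK.B ≤ R'.MK.B := R.MK.le_loc s hs
  let j : R'.Fib w → R.Fib w := resF (R := R) (R' := R') le_rfl hle w
  have hj : Continuous j := continuous_resF (R := R) (R' := R') le_rfl hle w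
  have hrange : Set.range j = {y | MvPolynomial.eval (R.MK.pz (Fib.val R y)) R'.MK.h ≠ 0} :=
    range_resF (R := R) (R' := R') le_rfl hle rfl rfl w
  have hsp : specL (R.ML.pz w) (R.MK.h * s) ≠ 0 := by
    intro h0
    apply hw2
    rw [← eval_specL, h0, map_zero]
  have hd : DenseRange j := by
    have h4 := R.dense_fib w hsp
    refine h4.mono ?_
    intro y hy
    rw [hrange]
    change MvPolynomial.eval (R.MK.pz (Fib.val R y)) (R.MK.h * s) ≠ 0
    rw [R.pL_fib, ← eval_specL]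
    exact hy
  have hpc : PreconnectedSpace (R.Fib w) := hd.preconnectedSpace hj
  have hne : Nonempty (R.Fib w) := ⟨j (Classical.arbitrary _)⟩
  exact { toPreconnectedSpace := hpc, toNonempty := hne }

section shrink

variable (p : MvPolynomial (Fin m) ℂ) (hp : p ≠ 0) (s : MvPolynomial (Fin (m + r)) ℂ) (hs : s ≠ 0)

lemma shK_le_shrink : (R.shK s hs).MK.B ≤ (R.shrink p hp s hs).MK.B := by
  refine Mdl.B_le (M := R.MK.loc s hs) (j := 1) rfl ?_
  rw [pow_one]
  exact ⟨MvPolynomial.rename (Fin.castAdd r) p, by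
    change R.MK.h * (MvPolynomial.rename (Fin.castAdd r) p * s) = R.MK.h * s * _
    ring⟩

lemma surjective_resF_shrink (w : (R.shrink p hp s hs).ML.Pts) : Function.Surjective
    (resF (R := R.shK s hs) (R' := R.shrink p hp s hs) (R.ML.le_loc p hp)
      (R.shK_le_shrink p hp s hs) w) := by
  rw [← Set.range_eq_univ, range_resF (R := R.shK s hs) (R' := R.shrink p hp s hs) _ _ rfl rfl]
  rw [Set.eq_univ_iff_forall]
  intro y
  change MvPolynomial.eval ((R.shK s hs).MK.pz (Fib.val (R.shK s hs) y))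
    (R.MK.h * (MvPolynomial.rename (Fin.castAdd r) p * s)) ≠ 0
  have h1 : MvPolynomial.eval ((R.shK s hs).MK.pz (Fib.val (R.shK s hs) y)) (R.MK.h * s) ≠ 0 :=
    (R.MK.loc s hs).eval_h_ne (Fib.val (R.shK s hs) y)
  have h2 : MvPolynomial.eval ((R.shK s hs).MK.pz (Fib.val (R.shK s hs) y))
      (MvPolynomial.rename (Fin.castAdd r) p) = MvPolynomial.eval ((R.ML.loc p hp).pz w) p := by
    rw [MvPolynomial.eval_rename]
    congr 2
    funext i
    change (R.shK s hs).MK.pz (Fib.val (R.shK s hs) y) (Fin.castAdd r i) = _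
    rw [← (R.shK s hs).pz_q, y.q_eq]
    exact congrFun (Mdl.pz_resB (M := R.ML) (M' := R.ML.loc p hp) rfl (R.ML.le_loc p hp) w) i
  have h3 : MvPolynomial.eval ((R.ML.loc p hp).pz w) p ≠ 0 := TowA_849.loc_unit _ _ _ _
  rw [map_mul] at h1
  rw [map_mul, map_mul, h2]
  exact mul_ne_zero (left_ne_zero_of_mul h1) (mul_ne_zero h3 (right_ne_zero_of_mul h1))

/-- the fibres do not change if only the base is shrunk -/
def shrinkFib (w : (R.shrink p hp s hs).ML.Pts) : (R.shrink p hp s hs).Fib w ≃ₜ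
    (R.shK s hs).Fib (Mdl.resB (R.ML.le_loc p hp) w) :=
  (isOpenEmbedding_resF (R := R.shK s hs) (R' := R.shrink p hp s hs) (R.ML.le_loc p hp)
      (R.shK_le_shrink p hp s hs) rfl w).toHomeomorphOfSurjective
    (R.surjective_resF_shrink p hp s hs w)

end shrink

open Crest.Agent.R276.TowA_849 in
/-- **connected fibres** after every sufficient shrinking -/
theorem ev2_conn (hac : BN1_143.AC L K) :
    Ev2 R fun R' => ∀ w : R'.ML.Pts, ConnectedSpace (R'.Fib w) := by
  refine ⟨1, one_ne_zero, fun s hs _ => ?_⟩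
  obtain ⟨p₀, hp₀, h⟩ := (R.shK s hs).exists_conn hac
  refine ⟨p₀, hp₀, fun p hp hd w => ?_⟩
  have h1 : MvPolynomial.eval ((R.ML.loc p hp).pz w) p ≠ 0 := loc_unit _ _ _ _
  have h2 : MvPolynomial.eval ((R.ML.loc p hp).pz w) p₀ ≠ 0 := by
    obtain ⟨c, hc⟩ := hd
    intro h0
    apply h1
    refine (congrArg (MvPolynomial.eval ((R.ML.loc p hp).pz w)) hc).trans ?_
    rw [map_mul, h0, zero_mul]
  have h3 := h (Mdl.resB (R.ML.le_loc p hp) w) (by
    have h4 := Mdl.pz_resB (M := R.ML) (M' := R.ML.loc p hp) rfl (R.ML.le_loc p hp) w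
    change MvPolynomial.eval (R.ML.pz (Mdl.resB (R.ML.le_loc p hp) w)) p₀ ≠ 0
    rw [h4]
    exact h2)
  exact (R.shrinkFib p hp s hs w).symm.surjective.connectedSpace
    (R.shrinkFib p hp s hs w).symm.continuous

end RMdl

/-! ### towers -/

open Crest.Agent.R276.TowA_849

section tower

variable {T L K : Type} [Field T] [Field L] [Field K] [Algebra ℂ T] [Algebra ℂ L] [Algebra ℂ K]
  [Algebra T L] [Algebra L K] [Algebra T K] [IsScalarTower ℂ T L] [IsScalarTower ℂ L K]
  [IsScalarTower T L K] [IsScalarTower ℂ T K] {ρ a r : ℕ}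

/-- a composition of two relative models with connected fibres has connected fibres -/
theorem conn_TK (W : Tow T L K ρ a r) (h1 : ∀ v : W.TL.ML.Pts, ConnectedSpace (W.TL.Fib v))
    (h2 : ∀ w : W.LK.ML.Pts, ConnectedSpace (W.LK.Fib w)) (v : W.TK.ML.Pts) :
    ConnectedSpace (W.TK.Fib v) := by
  let f : W.TK.Fib v → W.TL.Fib v := fun y => ⟨W.LK.q (RMdl.Fib.val W.TK y), by
    rw [← W.q_TK]
    exact y.q_eq⟩
  have hfs : Function.Surjective f := by
    intro w
    obtain ⟨y⟩ := (h2 (RMdl.Fib.val W.TL w)).toNonempty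
    refine ⟨⟨RMdl.Fib.val W.LK y, ?_⟩, ?_⟩
    · have h3 := W.q_TK (RMdl.Fib.val W.LK y)
      rw [y.q_eq] at h3
      exact h3.trans w.q_eq
    · exact RMdl.Fib.ext y.q_eq
  have hfo : IsOpenMap f := by
    have h3 : IsOpenMap W.LK.q := W.LK.isOpenMap_q
    intro U hU
    obtain ⟨V, hV, rfl⟩ := isOpen_induced_iff.mp hU
    refine isOpen_induced_iff.mpr ⟨W.LK.q '' V, h3 V hV, ?_⟩
    ext w
    constructor
    · rintro ⟨u, hu, hw⟩
      have h4 : W.TK.q (show W.TK.MK.Pts from u) = v := by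
        rw [W.q_TK, hw]
        exact w.q_eq
      exact ⟨⟨u, h4⟩, hu, RMdl.Fib.ext hw⟩
    · rintro ⟨y, hy, rfl⟩
      exact ⟨RMdl.Fib.val W.TK y, hy, rfl⟩
  have hfc : ∀ w, IsPreconnected (f ⁻¹' {w}) := by
    intro w
    have h3 := h2 (RMdl.Fib.val W.TL w)
    let g : W.LK.Fib (RMdl.Fib.val W.TL w) → W.TK.Fib v := fun y => ⟨RMdl.Fib.val W.LK y, by
      have h4 := W.q_TK (RMdl.Fib.val W.LK y)
      rw [y.q_eq] at h4
      exact h4.trans w.q_eq⟩
    have hg : Continuous g := continuous_induced_rng.2 (RMdl.Fib.continuous_val _)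
    have h5 : f ⁻¹' {w} = Set.range g := by
      ext y
      constructor
      · intro hy
        have h6 : f y = w := hy
        exact ⟨⟨RMdl.Fib.val W.TK y, congrArg (RMdl.Fib.val W.TL) h6⟩, RMdl.Fib.ext rfl⟩
      · rintro ⟨y, rfl⟩
        exact RMdl.Fib.ext y.q_eq
    rw [h5]
    exact isPreconnected_range hg
  have h6 := h1 v
  have h7 : PreconnectedSpace (W.TK.Fib v) := preconnectedSpace_of_fibres hfo hfs hfc
  obtain ⟨y, -⟩ := hfs (Classical.arbitrary _)
  exact { toPreconnectedSpace := h7, toNonempty := ⟨y⟩ }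

/-- **all fibres of a tower are connected** after every sufficient shrinking -/
theorem ev_conn (W : Tow T L K ρ a r) (h1 : BN1_143.AC T L) (h2 : BN1_143.AC L K) :
    Ev W fun W => (∀ v : W.TL.ML.Pts, ConnectedSpace (W.TL.Fib v)) ∧
      (∀ w : W.LK.ML.Pts, ConnectedSpace (W.LK.Fib w)) ∧
      ∀ v : W.TK.ML.Pts, ConnectedSpace (W.TK.Fib v) :=
  ((Ev.of_TL (W.TL.ev2_conn h1)).and (Ev.of_LK (W.LK.ev2_conn h2))).mono
    fun W h => ⟨h.1, h.2, conn_TK W h.1 h.2⟩

end tower

end Crest.Agent.R276.Mod1_987
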