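import Crest.Agent.R276.BN3_143

/-!
# Row 276, MOD-BN (helper143): main theorem.
For `A`, `B` domains, `B` étale over `A[x]`, `Frac A` algebraically closed in `Frac B`:
there is `a ≠ 0` in `A` such that `k ⊗[A] B` is a domain for every field `k` over `A` in which
`a ≠ 0`.
-/

set_option autoImplicit false

noncomputable section

namespace Crest.Agent.R276.BN_143

open Polynomial TensorProduct
open Crest.Agent.R276.BN1_143 (AC)
open Crest.Agent.R276.BN3_143

universe u

section

variable {ι : Type} [Finite ι] {A B : Type u} [CommRing A] [IsDomain A] [CharZero A]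
  [CommRing B] [IsDomain B] [Algebra A B]

/-- algebraic independence passes to the fraction field -/
theorem aeval_injective {L K : Type*} [Field L] [Field K] [Algebra A L] [IsFractionRing A L]
    [Algebra B K] [IsFractionRing B K] [Algebra L K] [Algebra A K] [IsScalarTower A L K]
    [IsScalarTower A B K] (x : ι → B)
    (hx : Function.Injective (MvPolynomial.aeval x : MvPolynomial ι A →ₐ[A] B)) :
    Function.Injective (MvPolynomial.aeval (fun i => algebraMap B K (x i)) :
      MvPolynomial ι L →ₐ[L] K) := by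
  rw [injective_iff_map_eq_zero]
  intro q hq
  let _ : Algebra (MvPolynomial ι A) (MvPolynomial ι L) := MvPolynomial.algebraMvPolynomial
  have hloc : IsLocalization ((nonZeroDivisors A).map (MvPolynomial.C : A →+* MvPolynomial ι A))
      (MvPolynomial ι L) := MvPolynomial.isLocalization (nonZeroDivisors A) L
  obtain ⟨⟨q', ⟨y, a, ha, rfl⟩⟩, hqa⟩ := IsLocalization.surj
    ((nonZeroDivisors A).map (MvPolynomial.C : A →+* MvPolynomial ι A)) q
  have h1 : q * MvPolynomial.C (algebraMap A L a) = MvPolynomial.map (algebraMap A L) q' := by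
    have h2 : algebraMap (MvPolynomial ι A) (MvPolynomial ι L) (MvPolynomial.C a) =
      MvPolynomial.C (algebraMap A L a) := MvPolynomial.map_C _ _
    rw [← h2]
    exact hqa
  have h3 := congrArg (MvPolynomial.aeval (fun i => algebraMap B K (x i))) h1
  have h30 : MvPolynomial.aeval (fun i => algebraMap B K (x i)) q' =
      algebraMap B K (MvPolynomial.aeval x q') := MvPolynomial.aeval_algebraMap_apply K x q'
  rw [map_mul, hq, zero_mul, MvPolynomial.aeval_map_algebraMap, h30] at h3
  have h4 : MvPolynomial.aeval x q' = 0 := IsFractionRing.injective B K (by rw [← h3, map_zero])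
  have h5 : q' = 0 := hx (by rw [h4, map_zero])
  rw [h5, map_zero] at h1
  have h6 : (MvPolynomial.C (algebraMap A L a) : MvPolynomial ι L) ≠ 0 := by
    rw [Ne, MvPolynomial.C_eq_zero]
    exact (map_ne_zero_iff _ (IsFractionRing.injective A L)).2 (nonZeroDivisors.ne_zero ha)
  exact (mul_eq_zero.1 h1).resolve_right h6

/-- The absolutely irreducible polynomial of a primitive element. -/
theorem exists_poly (L K : Type u) [Field L] [Field K] [Algebra A L] [IsFractionRing A L]
    [Algebra B K] [IsFractionRing B K] [Algebra L K] [Algebra A K] [IsScalarTower A L K]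
    [IsScalarTower A B K] (hac : AC L K) (x : ι → B)
    (hx : Function.Injective (MvPolynomial.aeval x : MvPolynomial ι A →ₐ[A] B))
    (θ : B) (hθ : ∃ G : (MvPolynomial ι A)[X], G ≠ 0 ∧
      Polynomial.eval₂ (MvPolynomial.aeval x : MvPolynomial ι A →ₐ[A] B).toRingHom θ G = 0) :
    ∃ P : MvPolynomial (Option ι) A,
      Irreducible (MvPolynomial.map ((algebraMap L (AlgebraicClosure L)).comp (algebraMap A L)) P) ∧
      (MvPolynomial.optionEquivLeft A ι P).natDegree ≠ 0 ∧
      MvPolynomial.aeval (fun o : Option ι => o.elim θ x) P = 0 := by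
  classical
  have : CharZero L := charZero_of_injective_algebraMap (IsFractionRing.injective A L)
  have hxL := aeval_injective (L := L) (K := K) x hx
  let xK : ι → K := fun i => algebraMap B K (x i)
  let θK : K := algebraMap B K θ
  let _ : Algebra (MvPolynomial ι L) K := (MvPolynomial.aeval xK : MvPolynomial ι L →ₐ[L] K).toAlgebra
  have hal : ∀ q : MvPolynomial ι L, algebraMap (MvPolynomial ι L) K q =
    MvPolynomial.aeval xK q := fun q => rfl
  have : IsScalarTower L (MvPolynomial ι L) K := IsScalarTower.of_algebraMap_eq fun c => by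
    rw [hal]
    exact (MvPolynomial.aeval_C _ _).symm
  have hxK : ∀ i, algebraMap (MvPolynomial ι L) K (MvPolynomial.X i) = xK i := fun i => by
    rw [hal, MvPolynomial.aeval_X]
  have hinj : Function.Injective (algebraMap (MvPolynomial ι L) K) := hxL
  -- a nonzero polynomial over `L[x]` killing `θ`
  obtain ⟨G, hG0, hG⟩ := hθ
  have hGL0 : G.map (MvPolynomial.map (algebraMap A L)) ≠ 0 := by
    rw [Ne, Polynomial.map_eq_zero_iff (MvPolynomial.map_injective _ (IsFractionRing.injective A L))]
    exact hG0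
  have hcomp : (algebraMap (MvPolynomial ι L) K).comp (MvPolynomial.map (algebraMap A L)) =
      (algebraMap B K).comp (MvPolynomial.aeval x : MvPolynomial ι A →ₐ[A] B).toRingHom := by
    apply MvPolynomial.ringHom_ext
    · intro a
      show MvPolynomial.aeval xK (MvPolynomial.map (algebraMap A L) (MvPolynomial.C a)) =
        algebraMap B K (MvPolynomial.aeval x (MvPolynomial.C a))
      rw [MvPolynomial.map_C, MvPolynomial.aeval_C, MvPolynomial.aeval_C,
        ← IsScalarTower.algebraMap_apply, ← IsScalarTower.algebraMap_apply]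
    · intro i
      show MvPolynomial.aeval xK (MvPolynomial.map (algebraMap A L) (MvPolynomial.X i)) =
        algebraMap B K (MvPolynomial.aeval x (MvPolynomial.X i))
      rw [MvPolynomial.map_X, MvPolynomial.aeval_X, MvPolynomial.aeval_X]
  have hGL : (aeval θK : (MvPolynomial ι L)[X] →ₐ[MvPolynomial ι L] K).toRingHom
      (G.map (MvPolynomial.map (algebraMap A L))) = 0 := by
    show aeval θK (G.map (MvPolynomial.map (algebraMap A L))) = 0
    rw [aeval_def, Polynomial.eval₂_map, hcomp, ← Polynomial.hom_eval₂, hG, map_zero]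
  obtain ⟨PL, hPLp, hPL0⟩ := exists_prime_factor _ hGL0 hGL
  have hPL0' : aeval θK PL = 0 := hPL0
  have hdeg : PL.natDegree ≠ 0 := by
    intro h0
    rw [Polynomial.natDegree_eq_zero] at h0
    obtain ⟨q, rfl⟩ := h0
    rw [aeval_C] at hPL0'
    have : q = 0 := hinj (by rw [hPL0', map_zero])
    rw [this, map_zero] at hPLp
    exact hPLp.ne_zero rfl
  -- clear denominators
  let P1 : MvPolynomial (Option ι) L := (MvPolynomial.optionEquivLeft L ι).symm PL
  let _ : Algebra (MvPolynomial (Option ι) A) (MvPolynomial (Option ι) L) :=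
    MvPolynomial.algebraMvPolynomial
  have hloc : IsLocalization ((nonZeroDivisors A).map
      (MvPolynomial.C : A →+* MvPolynomial (Option ι) A)) (MvPolynomial (Option ι) L) :=
    MvPolynomial.isLocalization (nonZeroDivisors A) L
  obtain ⟨⟨P, ⟨y, a, ha, rfl⟩⟩, hPa⟩ := IsLocalization.surj
    ((nonZeroDivisors A).map (MvPolynomial.C : A →+* MvPolynomial (Option ι) A)) P1
  have hP1 : P1 * MvPolynomial.C (algebraMap A L a) = MvPolynomial.map (algebraMap A L) P := by
    have h2 : algebraMap (MvPolynomial (Option ι) A) (MvPolynomial (Option ι) L)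
        (MvPolynomial.C a) = MvPolynomial.C (algebraMap A L a) := MvPolynomial.map_C _ _
    rw [← h2]
    exact hPa
  have ha0 : algebraMap A L a ≠ 0 :=
    (map_ne_zero_iff _ (IsFractionRing.injective A L)).2 (nonZeroDivisors.ne_zero ha)
  have hunit : IsUnit (MvPolynomial.C (algebraMap A L a) : MvPolynomial (Option ι) L) :=
    (isUnit_iff_ne_zero.2 ha0).map MvPolynomial.C
  have hass : Associated P1 (MvPolynomial.map (algebraMap A L) P) := by
    rw [← hP1]
    exact (associated_mul_unit_right P1 _ hunit)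
  have hker : ∀ F : MvPolynomial (Option ι) L,
      MvPolynomial.aeval (fun o : Option ι => o.elim θK xK) F = 0 ↔
        MvPolynomial.map (algebraMap A L) P ∣ F := by
    intro F
    rw [← opt_aeval xK hxK θK F, BN2_143.ker_iff hinj PL hPLp.irreducible hdeg θK hPL0',
      ← hass.dvd_iff_dvd_left]
    constructor
    · intro h
      have := map_dvd (MvPolynomial.optionEquivLeft L ι).symm h
      rwa [AlgEquiv.symm_apply_apply] at this
    · intro h
      have := map_dvd (MvPolynomial.optionEquivLeft L ι) h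
      rwa [AlgEquiv.apply_symm_apply] at this
  have hP0 : MvPolynomial.map (algebraMap A L) P ≠ 0 := by
    intro h0
    rw [h0] at hass
    apply hPLp.ne_zero
    apply (MvPolynomial.optionEquivLeft L ι).symm.injective
    rw [map_zero]
    exact (associated_zero_iff_eq_zero P1).1 hass
  refine ⟨P, ?_, ?_, ?_⟩
  · have h1 := BN1_143.abs_irreducible hac (MvPolynomial.map (algebraMap A L) P) hP0
      (MvPolynomial.aeval (fun o : Option ι => o.elim θK xK)) hker (AlgebraicClosure L)
    rwa [MvPolynomial.map_map] at h1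
  · intro h0
    apply hdeg
    have h1 : (MvPolynomial.optionEquivLeft L ι (MvPolynomial.map (algebraMap A L) P)).natDegree
        = 0 := by
      rw [opt_map]
      have := Polynomial.natDegree_map_le (f := MvPolynomial.map (algebraMap A L))
        (p := MvPolynomial.optionEquivLeft A ι P)
      omega
    have h2 : Associated PL (MvPolynomial.optionEquivLeft L ι (MvPolynomial.map (algebraMap A L) P)) := by
      have := hass.map (MvPolynomial.optionEquivLeft L ι)
      rwa [AlgEquiv.apply_symm_apply] at this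
    rw [Polynomial.natDegree_eq_of_degree_eq (Polynomial.degree_eq_degree_of_associated h2), h1]
  · have h1 := (hker _).2 (dvd_refl (MvPolynomial.map (algebraMap A L) P))
    rw [MvPolynomial.aeval_map_algebraMap] at h1
    apply IsFractionRing.injective B K
    rw [map_zero, ← h1]
    have h2 : (fun o : Option ι => o.elim θK xK) = fun o => algebraMap B K (o.elim θ x) := by
      funext o
      cases o <;> rfl
    rw [h2]
    exact (MvPolynomial.aeval_algebraMap_apply K _ P).symm

/-- BERTINI–NOETHER for étale algebras: the fibres over a dense open set are domains. -/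
theorem fiber_isDomain (L K : Type u) [Field L] [Field K] [Algebra A L] [IsFractionRing A L]
    [Algebra B K] [IsFractionRing B K] [Algebra L K] [Algebra A K] [IsScalarTower A L K]
    [IsScalarTower A B K] (hac : AC L K) (x : ι → B)
    (het : RingHom.Etale ((MvPolynomial.aeval x : MvPolynomial ι A →ₐ[A] B) :
      MvPolynomial ι A →+* B)) :
    ∃ a : A, a ≠ 0 ∧ ∀ (k : Type u) [Field k] [Algebra A k], algebraMap A k a ≠ 0 →
      IsDomain (k ⊗[A] B) := by
  classical
  let _ : Algebra (MvPolynomial ι A) B :=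
    ((MvPolynomial.aeval x : MvPolynomial ι A →ₐ[A] B) : MvPolynomial ι A →+* B).toAlgebra
  have hal : ∀ q, algebraMap (MvPolynomial ι A) B q = MvPolynomial.aeval x q := fun q => rfl
  have : IsScalarTower A (MvPolynomial ι A) B := IsScalarTower.of_algebraMap_eq fun c => by
    rw [hal]
    exact (MvPolynomial.aeval_C _ _).symm
  have hxB : ∀ i, algebraMap (MvPolynomial ι A) B (MvPolynomial.X i) = x i := fun i => by
    rw [hal, MvPolynomial.aeval_X]
  have hE : Algebra.Etale (MvPolynomial ι A) B := het
  have hflat : Module.Flat (MvPolynomial ι A) B := inferInstance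
  have hfp : Algebra.FinitePresentation A B :=
    Algebra.FinitePresentation.trans A (MvPolynomial ι A) B
  have hflatA : Module.Flat A B := Module.Flat.trans A (MvPolynomial ι A) B
  have hinjB : Function.Injective (algebraMap (MvPolynomial ι A) B) := by
    rw [injective_iff_map_eq_zero]
    intro r hr
    by_contra hne
    have h1 : r • (1 : B) = 0 := by rw [Algebra.smul_def, hr, zero_mul]
    rcases smul_eq_zero.1 h1 with h2 | h2
    · exact hne h2
    · exact one_ne_zero h2
  have hinjA : Function.Injective (algebraMap A B) := by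
    rw [IsScalarTower.algebraMap_eq A (MvPolynomial ι A) B]
    exact hinjB.comp (MvPolynomial.C_injective ι A)
  obtain ⟨θ, hθalg, hθ⟩ := exists_theta (ι := ι) (A := A) (B := B)
  obtain ⟨P, hPirr, hPdeg, hP0⟩ := exists_poly L K hac x hinjB θ (hθalg θ)
  obtain ⟨G, hG⟩ := (Algebra.FiniteType.out : (⊤ : Subalgebra A B).FG)
  obtain ⟨c, hc0, hc⟩ := gen_of_generators θ G hG (fun b _ => hθ b)
  have hc' : ∀ b : B, ∃ (N : ℕ) (Q : MvPolynomial (Option ι) A),
      MvPolynomial.aeval x c ^ N * b = MvPolynomial.aeval (fun o : Option ι => o.elim θ x) Q := by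
    intro b
    obtain ⟨N, Q, hQ⟩ := hc b
    refine ⟨N, (MvPolynomial.optionEquivLeft A ι).symm Q, ?_⟩
    rw [← opt_aeval x hxB, AlgEquiv.apply_symm_apply]
    exact hQ
  obtain ⟨a1, ha1, h1⟩ := BN0_143.irreducible_spread.{u} L (AlgebraicClosure L) P hPirr
  obtain ⟨a4, ha4, h4⟩ := nontrivial_spread.{u} (A := A) (B := B) hinjA
  obtain ⟨β, hβ⟩ := MvPolynomial.ne_zero_iff.1 hc0
  have hlead : (MvPolynomial.optionEquivLeft A ι P).leadingCoeff ≠ 0 := by
    rw [Ne, Polynomial.leadingCoeff_eq_zero]
    intro h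
    rw [h] at hPdeg
    exact hPdeg Polynomial.natDegree_zero
  obtain ⟨γ, hγ⟩ := MvPolynomial.ne_zero_iff.1 hlead
  refine ⟨a1 * a4 * c.coeff β * (MvPolynomial.optionEquivLeft A ι P).leadingCoeff.coeff γ,
    mul_ne_zero (mul_ne_zero (mul_ne_zero ha1 ha4) hβ) hγ, ?_⟩
  intro k _ _ hk
  rw [map_mul, map_mul, map_mul, mul_ne_zero_iff, mul_ne_zero_iff, mul_ne_zero_iff] at hk
  obtain ⟨⟨⟨hk1, hk4⟩, hkc⟩, hkγ⟩ := hk
  have hnt : Nontrivial (k ⊗[A] B) := h4 k hk4
  let xk : ι → k ⊗[A] B := fun i => (1 : k) ⊗ₜ[A] x i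
  let θk : k ⊗[A] B := (1 : k) ⊗ₜ[A] θ
  let _ : Algebra (MvPolynomial ι k) (k ⊗[A] B) :=
    (MvPolynomial.aeval xk : MvPolynomial ι k →ₐ[k] k ⊗[A] B).toRingHom.toAlgebra
  have halk : ∀ q : MvPolynomial ι k, algebraMap (MvPolynomial ι k) (k ⊗[A] B) q =
    MvPolynomial.aeval xk q := fun q => rfl
  have : IsScalarTower k (MvPolynomial ι k) (k ⊗[A] B) := IsScalarTower.of_algebraMap_eq fun c => by
    rw [halk]
    exact (MvPolynomial.aeval_C _ _).symm
  have hxk : ∀ i, algebraMap (MvPolynomial ι k) (k ⊗[A] B) (MvPolynomial.X i) = xk i := fun i => by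
    rw [halk, MvPolynomial.aeval_X]
  have hpair : (fun o : Option ι => o.elim θk xk) = fun o => (1 : k) ⊗ₜ[A] (o.elim θ x) := by
    funext o
    cases o <;> rfl
  have hck : MvPolynomial.map (algebraMap A k) c ≠ 0 := by
    rw [MvPolynomial.ne_zero_iff]
    exact ⟨β, by rw [MvPolynomial.coeff_map]; exact hkc⟩
  refine isDomain_of (R := MvPolynomial ι k) ?_
    (MvPolynomial.optionEquivLeft k ι (MvPolynomial.map (algebraMap A k) P)) ?_ ?_ θk ?_
    (MvPolynomial.map (algebraMap A k) c) hck ?_
  · intro r u hr hru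
    rw [Algebra.smul_def, halk] at hru
    exact torsionFree x hxB r hr u hru
  · exact (MulEquiv.irreducible_iff (MvPolynomial.optionEquivLeft k ι)).2 (h1 k _ hk1)
  · rw [opt_map]
    intro h0
    apply hPdeg
    have h5 : ((MvPolynomial.optionEquivLeft A ι P).map (MvPolynomial.map (algebraMap A k))).coeff
        (MvPolynomial.optionEquivLeft A ι P).natDegree ≠ 0 := by
      rw [Polynomial.coeff_map]
      intro h6
      apply hkγ
      have h7 := congrArg (MvPolynomial.coeff γ) h6
      rw [MvPolynomial.coeff_map, MvPolynomial.coeff_zero] at h7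
      exact h7
    have h8 := Polynomial.le_natDegree_of_ne_zero h5
    omega
  · rw [opt_aeval xk hxk θk, hpair, ev_map, hP0, tmul_zero]
  · intro u
    obtain ⟨N, Q, hQ⟩ := gen_baseChange (k := k) x θ c hc' u
    refine ⟨N, MvPolynomial.optionEquivLeft k ι Q, ?_⟩
    rw [opt_aeval xk hxk θk, Algebra.smul_def, map_pow, halk]
    exact hQ

/-- a nonzero element of `B` stays nonzero in the fibres over a dense open set. -/
theorem fiber_ne_zero (x : ι → B)
    (het : RingHom.Etale ((MvPolynomial.aeval x : MvPolynomial ι A →ₐ[A] B) :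
      MvPolynomial ι A →+* B)) (b : B) (hb : b ≠ 0) :
    ∃ a : A, a ≠ 0 ∧ ∀ (k : Type u) [Field k] [Algebra A k], algebraMap A k a ≠ 0 →
      ∀ u : k ⊗[A] B, ((1 : k) ⊗ₜ[A] b) * u = 0 → u = 0 := by
  classical
  let _ : Algebra (MvPolynomial ι A) B :=
    ((MvPolynomial.aeval x : MvPolynomial ι A →ₐ[A] B) : MvPolynomial ι A →+* B).toAlgebra
  have hal : ∀ q, algebraMap (MvPolynomial ι A) B q = MvPolynomial.aeval x q := fun q => rfl
  have : IsScalarTower A (MvPolynomial ι A) B := IsScalarTower.of_algebraMap_eq fun c => by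
    rw [hal]
    exact (MvPolynomial.aeval_C _ _).symm
  have hxB : ∀ i, algebraMap (MvPolynomial ι A) B (MvPolynomial.X i) = x i := fun i => by
    rw [hal, MvPolynomial.aeval_X]
  have hE : Algebra.Etale (MvPolynomial ι A) B := het
  have hflat : Module.Flat (MvPolynomial ι A) B := inferInstance
  obtain ⟨θ, hθalg, hθ⟩ := exists_theta (ι := ι) (A := A) (B := B)
  obtain ⟨c, hc, t, ht⟩ := (hθalg b).exists_nonzero_dvd (mem_nonZeroDivisors_of_ne_zero hb)
  obtain ⟨β, hβ⟩ := MvPolynomial.ne_zero_iff.1 hc
  refine ⟨c.coeff β, hβ, ?_⟩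
  intro k _ _ hk u hu
  have hck : MvPolynomial.map (algebraMap A k) c ≠ 0 := by
    rw [MvPolynomial.ne_zero_iff]
    exact ⟨β, by rw [MvPolynomial.coeff_map]; exact hk⟩
  apply torsionFree x hxB _ hck u
  rw [ev_map, ← hal, ht]
  have h1 : (1 : k) ⊗ₜ[A] (b * t) = ((1 : k) ⊗ₜ[A] t) * ((1 : k) ⊗ₜ[A] b) := by
    rw [Algebra.TensorProduct.tmul_mul_tmul, one_mul, mul_comm]
  rw [h1, mul_assoc, hu, mul_zero]

end

end Crest.Agent.R276.BN_143
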