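import Mathlib
import Crest.Agent.R276.TowA_849
import Crest.Agent.R276.BN_143
import Crest.Agent.R276.FibM_793

/-!
# Row 276, MODPACK (helper849), part B: connected fibres

`ev2_conn`: if `L` is algebraically closed in `K`, then after every sufficient shrinking all fibres
of `M_K → M_L` are connected (Bertini–Noether, helper143).
-/

set_option autoImplicit false
set_option linter.unusedSectionVars false

open Polynomial Topology Filter

noncomputable section

namespace Crest.Agent.R276.TowB_849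

open Crest.Agent.R271.Defs710 Crest.Agent.R271.Alg255 Crest.Agent.R271.Rd692
open Crest.Agent.R271.AlgB956 Crest.Agent.R271.Ho51
open Crest.Agent.R276.Mod1_987 Crest.Agent.R276.TowA_849
open scoped TensorProduct

/-! ### `A[x]` is formally unramified over `ℂ[z, x]` -/

section unram

variable {A : Type} [CommRing A] [Algebra ℂ A] {m r : ℕ}

lemma az_C' {B : Type} [CommRing B] [Algebra ℂ B] {n : ℕ} (z : Fin n → B) (c : ℂ) :
    az z (MvPolynomial.C c) = algebraMap ℂ B c := MvPolynomial.aeval_C _ _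

lemma az_X' {B : Type} [CommRing B] [Algebra ℂ B] {n : ℕ} (z : Fin n → B) (i : Fin n) :
    az z (MvPolynomial.X i) = z i := MvPolynomial.aeval_X _ _

/-- the coordinates `(z, x)` in `A[x]` -/
def zx (z : Fin m → A) : Fin (m + r) → MvPolynomial (Fin r) A :=
  Fin.append (fun i => MvPolynomial.C (z i)) MvPolynomial.X

lemma az_zx_rename (z : Fin m → A) (p : MvPolynomial (Fin m) ℂ) :
    az (zx (r := r) z) (MvPolynomial.rename (Fin.castAdd r) p) = MvPolynomial.C (az z p) := by
  change MvPolynomial.aeval _ _ = MvPolynomial.C (MvPolynomial.aeval z p)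
  rw [MvPolynomial.aeval_rename]
  have h1 : (zx (r := r) z) ∘ Fin.castAdd r =
      fun i => (IsScalarTower.toAlgHom ℂ A (MvPolynomial (Fin r) A)) (z i) := by
    funext i
    simp only [Function.comp, zx, Fin.append_left]
    rfl
  rw [h1]
  exact (MvPolynomial.comp_aeval_apply z
    (IsScalarTower.toAlgHom ℂ A (MvPolynomial (Fin r) A)) p).symm

theorem unram_poly (z : Fin m → A)
    (h : letI := (az z).toAlgebra; Algebra.FormallyUnramified (MvPolynomial (Fin m) ℂ) A) :
    letI := (az (zx (r := r) z)).toAlgebra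
    Algebra.FormallyUnramified (MvPolynomial (Fin (m + r)) ℂ) (MvPolynomial (Fin r) A) := by
  let a1 : Algebra (MvPolynomial (Fin m) ℂ) A := (az z).toAlgebra
  let a2 : Algebra (MvPolynomial (Fin (m + r)) ℂ) (MvPolynomial (Fin r) A) :=
    (az (zx (r := r) z)).toAlgebra
  have h' : Algebra.FormallyUnramified (MvPolynomial (Fin m) ℂ) A := h
  rw [Algebra.FormallyUnramified.iff_comp_injective]
  intro B _ _ I hI f g hfg
  let a3 : Algebra (MvPolynomial (Fin m) ℂ) B :=
    ((algebraMap (MvPolynomial (Fin (m + r)) ℂ) B).comp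
      ((MvPolynomial.rename (Fin.castAdd r) : MvPolynomial (Fin m) ℂ →ₐ[ℂ] _) :
        MvPolynomial (Fin m) ℂ →+* MvPolynomial (Fin (m + r)) ℂ)).toAlgebra
  have key : ∀ (f : MvPolynomial (Fin r) A →ₐ[MvPolynomial (Fin (m + r)) ℂ] B)
      (p : MvPolynomial (Fin m) ℂ), f (MvPolynomial.C (az z p)) =
        algebraMap (MvPolynomial (Fin m) ℂ) B p := by
    intro f p
    have h1 := f.commutes (MvPolynomial.rename (Fin.castAdd r) p)
    rw [← az_zx_rename]
    exact h1
  let F : (MvPolynomial (Fin r) A →ₐ[MvPolynomial (Fin (m + r)) ℂ] B) →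
      (A →ₐ[MvPolynomial (Fin m) ℂ] B) := fun f =>
    { toRingHom := (f : MvPolynomial (Fin r) A →+* B).comp MvPolynomial.C
      commutes' := fun p => key f p }
  have h2 : F f = F g := by
    apply Algebra.FormallyUnramified.comp_injective I hI
    apply AlgHom.ext
    intro b
    exact DFunLike.congr_fun hfg (MvPolynomial.C b)
  apply AlgHom.coe_ringHom_injective
  apply MvPolynomial.ringHom_ext
  · intro b
    exact DFunLike.congr_fun h2 b
  · intro j
    have h3 : (MvPolynomial.X j : MvPolynomial (Fin r) A) =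
        algebraMap (MvPolynomial (Fin (m + r)) ℂ) (MvPolynomial (Fin r) A)
          (MvPolynomial.X (Fin.natAdd m j)) := by
      change _ = MvPolynomial.aeval _ _
      rw [MvPolynomial.aeval_X]
      simp [zx]
    change f (MvPolynomial.X j) = g (MvPolynomial.X j)
    rw [h3, f.commutes, g.commutes]

end unram

/-! ### the relative algebra is étale over `A[x]` -/

section rel

variable {L K : Type} [Field L] [Field K] [Algebra ℂ L] [Algebra ℂ K] [Algebra L K]
  [IsScalarTower ℂ L K] {m r : ℕ} (R : RMdl L K m r)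

/-- `B_L → B_K` as an algebra structure -/
@[reducible] def algR : Algebra R.ML.B R.MK.B := (R.incl : R.ML.B →+* R.MK.B).toAlgebra

theorem het_rel : letI := algR R
    RingHom.Etale ((MvPolynomial.aeval (fun j => R.MK.z (Fin.natAdd m j)) :
      MvPolynomial (Fin r) R.ML.B →ₐ[R.ML.B] R.MK.B) : MvPolynomial (Fin r) R.ML.B →+* R.MK.B) := by
  let a0 : Algebra R.ML.B R.MK.B := algR R
  let a1 : Algebra (MvPolynomial (Fin m) ℂ) R.ML.B := (az R.ML.z).toAlgebra
  let a2 : Algebra (MvPolynomial (Fin (m + r)) ℂ) (MvPolynomial (Fin r) R.ML.B) :=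
    (az (zx (r := r) R.ML.z)).toAlgebra
  let a3 : Algebra (MvPolynomial (Fin (m + r)) ℂ) R.MK.B := (az R.MK.z).toAlgebra
  let E : MvPolynomial (Fin r) R.ML.B →ₐ[R.ML.B] R.MK.B :=
    MvPolynomial.aeval (fun j => R.MK.z (Fin.natAdd m j))
  let a4 : Algebra (MvPolynomial (Fin r) R.ML.B) R.MK.B :=
    (E : MvPolynomial (Fin r) R.ML.B →+* R.MK.B).toAlgebra
  have hE1 : Algebra.Etale (MvPolynomial (Fin m) ℂ) R.ML.B := R.ML.het
  have hE2 : Algebra.Etale (MvPolynomial (Fin (m + r)) ℂ) R.MK.B := R.MK.het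
  have hU : Algebra.FormallyUnramified (MvPolynomial (Fin (m + r)) ℂ)
      (MvPolynomial (Fin r) R.ML.B) := unram_poly R.ML.z inferInstance
  have htow : IsScalarTower (MvPolynomial (Fin (m + r)) ℂ) (MvPolynomial (Fin r) R.ML.B)
      R.MK.B := by
    apply IsScalarTower.of_algebraMap_eq'
    apply MvPolynomial.ringHom_ext
    · intro c
      change az R.MK.z (MvPolynomial.C c) = E (az (zx (r := r) R.ML.z) (MvPolynomial.C c))
      rw [az_C', az_C']
      change _ = E (MvPolynomial.C (algebraMap ℂ R.ML.B c))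
      have h1 := MvPolynomial.aeval_C (R := R.ML.B) (fun j => R.MK.z (Fin.natAdd m j))
        (algebraMap ℂ R.ML.B c)
      rw [show E (MvPolynomial.C (algebraMap ℂ R.ML.B c)) = _ from h1]
      exact (R.incl.commutes c).symm
    · intro i
      change az R.MK.z (MvPolynomial.X i) = E (az (zx (r := r) R.ML.z) (MvPolynomial.X i))
      rw [az_X', az_X']
      refine Fin.addCases (fun i => ?_) (fun j => ?_) i
      · have h1 := MvPolynomial.aeval_C (R := R.ML.B) (fun j => R.MK.z (Fin.natAdd m j))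
          (R.ML.z i)
        simp only [zx, Fin.append_left]
        rw [show E (MvPolynomial.C (R.ML.z i)) = _ from h1]
        exact Subtype.ext (R.z_eq i)
      · have h1 := MvPolynomial.aeval_X (R := R.ML.B) (fun j => R.MK.z (Fin.natAdd m j)) j
        simp only [zx, Fin.append_right]
        exact h1.symm
  have hfe : Algebra.FormallyEtale (MvPolynomial (Fin r) R.ML.B) R.MK.B :=
    Algebra.FormallyEtale.of_restrictScalars (R := MvPolynomial (Fin (m + r)) ℂ)
  have hnoe : IsNoetherianRing R.ML.B := Algebra.FiniteType.isNoetherianRing ℂ R.ML.B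
  have htow2 : IsScalarTower ℂ (MvPolynomial (Fin r) R.ML.B) R.MK.B := by
    apply IsScalarTower.of_algebraMap_eq
    intro c
    change _ = E (MvPolynomial.C (algebraMap ℂ R.ML.B c))
    have h1 := MvPolynomial.aeval_C (R := R.ML.B) (fun j => R.MK.z (Fin.natAdd m j))
        (algebraMap ℂ R.ML.B c)
    rw [show E (MvPolynomial.C (algebraMap ℂ R.ML.B c)) = _ from h1]
    exact (R.incl.commutes c).symm
  have hft : Algebra.FiniteType (MvPolynomial (Fin r) R.ML.B) R.MK.B :=
    Algebra.FiniteType.of_restrictScalars_finiteType ℂ _ _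
  have hfp : Algebra.FinitePresentation (MvPolynomial (Fin r) R.ML.B) R.MK.B :=
    Algebra.FinitePresentation.of_finiteType.mp hft
  have : Algebra.Etale (MvPolynomial (Fin r) R.ML.B) R.MK.B := ⟨hfe, hfp⟩
  exact this


/-- descent of a homomorphism along a surjection -/
lemma exists_desc {B C : Type} [CommRing B] [CommRing C] [Algebra ℂ B] [Algebra ℂ C]
    (f : B →ₐ[ℂ] C) (hf : Function.Surjective f) (g : B →ₐ[ℂ] ℂ) (h : ∀ b, f b = 0 → g b = 0) :
    ∃ g' : C →ₐ[ℂ] ℂ, ∀ b, g' (f b) = g b :=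
  ⟨AlgHom.liftOfSurjective f hf g h, fun b => AlgHom.liftOfSurjective_apply f hf g h b⟩

/-- the ring of the fibre over a point of `A` -/
theorem exists_fibre_ring {A B : Type} [CommRing A] [CommRing B] [Algebra ℂ A] [Algebra ℂ B]
    [Algebra A B] [IsScalarTower ℂ A B] [Algebra A ℂ]
    (hA : ∀ c : ℂ, algebraMap A ℂ (algebraMap ℂ A c) = c) {r : ℕ} (x : Fin r → B)
    (het : RingHom.Etale ((MvPolynomial.aeval x : MvPolynomial (Fin r) A →ₐ[A] B) :
      MvPolynomial (Fin r) A →+* B)) (hD : IsDomain (ℂ ⊗[A] B)) :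
    ∃ (D : Type) (_ : CommRing D) (_ : IsDomain D) (_ : Algebra ℂ D) (j : B →ₐ[ℂ] D),
      Function.Surjective j ∧
      (∀ a : A, j (algebraMap A B a) = algebraMap ℂ D (algebraMap A ℂ a)) ∧
      AlgebraicIndependent ℂ (fun i => j (x i)) ∧
      ∀ y : B →ₐ[ℂ] ℂ, (∀ a : A, y (algebraMap A B a) = algebraMap A ℂ a) →
        ∀ b, j b = 0 → y b = 0 := by
  have hincl : ∀ a : A, (1 : ℂ) ⊗ₜ[A] (algebraMap A B a) = (algebraMap A ℂ a) ⊗ₜ[A] (1 : B) :=
    fun a => (Algebra.TensorProduct.tmul_one_eq_one_tmul (A := ℂ) (B := B) a).symm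
  let j0 : B →+* ℂ ⊗[A] B :=
    (Algebra.TensorProduct.includeRight : B →ₐ[A] ℂ ⊗[A] B).toRingHom
  have hj : ∀ b, j0 b = (1 : ℂ) ⊗ₜ[A] b := fun b => rfl
  have hjc : ∀ c : ℂ, j0 (algebraMap ℂ B c) = algebraMap ℂ (ℂ ⊗[A] B) c := by
    intro c
    rw [hj, IsScalarTower.algebraMap_apply ℂ A B c, hincl, hA]
    rfl
  have hjs : Function.Surjective j0 := by
    intro d
    induction d using TensorProduct.induction_on with
    | zero => exact ⟨0, map_zero _⟩
    | add u v hu hv =>
      obtain ⟨b, hb⟩ := hu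
      obtain ⟨c, hc⟩ := hv
      exact ⟨b + c, by rw [map_add, hb, hc]⟩
    | tmul c b =>
      refine ⟨algebraMap ℂ B c * b, ?_⟩
      rw [map_mul, hjc, hj]
      change (c ⊗ₜ[A] (1 : B)) * _ = _
      rw [Algebra.TensorProduct.tmul_mul_tmul, mul_one, one_mul]
  refine ⟨ℂ ⊗[A] B, inferInstance, hD, inferInstance,
    { toRingHom := j0, commutes' := hjc }, hjs, ?_, ?_, ?_⟩
  · intro a
    exact hincl a
  · let a4 : Algebra (MvPolynomial (Fin r) A) B :=
      ((MvPolynomial.aeval x : MvPolynomial (Fin r) A →ₐ[A] B) :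
        MvPolynomial (Fin r) A →+* B).toAlgebra
    have hE : Algebra.Etale (MvPolynomial (Fin r) A) B := het
    have htow : IsScalarTower A (MvPolynomial (Fin r) A) B :=
      IsScalarTower.of_algebraMap_eq fun c => (MvPolynomial.aeval_C x c).symm
    have hflat : Module.Flat (MvPolynomial (Fin r) A) B := inferInstance
    have h3 : Function.Injective
        (MvPolynomial.aeval (fun i => (1 : ℂ) ⊗ₜ[A] x i) :
          MvPolynomial (Fin r) ℂ →ₐ[ℂ] ℂ ⊗[A] B) := by
      rw [injective_iff_map_eq_zero]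
      intro p hp
      by_contra hp0
      have h6 := BN3_143.torsionFree (k := ℂ) x
        (fun i => MvPolynomial.aeval_X _ i) p hp0 1 (by
          rw [mul_one]
          exact hp)
      exact hD.toNontrivial.exists_pair_ne.elim fun a h => h.elim fun b hab => hab (by
        rw [← mul_one a, ← mul_one b, h6, mul_zero, mul_zero])
    exact h3
  · intro y hy b hb
    let g : B →ₐ[A] ℂ :=
      { toRingHom := (y : B →+* ℂ)
        commutes' := hy }
    have hψ : Algebra.TensorProduct.productMap (AlgHom.id A ℂ) g (j0 b) = y b := by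
      rw [hj, Algebra.TensorProduct.productMap_apply_tmul]
      exact one_mul _
    have hb' : j0 b = 0 := hb
    rw [← hψ, hb', map_zero]

/-- the fibre over `w` is connected if its ring is a domain (abstract version) -/
theorem isConnected_of_ring (w : R.ML.Pts) {D : Type} [CommRing D] [IsDomain D] [Algebra ℂ D]
    (j : R.MK.B →ₐ[ℂ] D) (hjs : Function.Surjective j)
    (hw : ∀ a : R.ML.B, j (R.incl a) = algebraMap ℂ D (w a))
    (hai : AlgebraicIndependent ℂ (fun i => j (R.MK.z (Fin.natAdd m i))))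
    (hker : ∀ y : R.MK.Pts, R.q y = w → ∀ b, j b = 0 → y b = 0) :
    IsConnected (R.q ⁻¹' {w}) := by
  let K' : Type := FractionRing D
  let π : R.MK.B →ₐ[ℂ] K' := (IsScalarTower.toAlgHom ℂ D K').comp j
  have hπ : ∀ b, π b = algebraMap D K' (j b) := fun b => rfl
  have hinj : Function.Injective (algebraMap D K') := IsFractionRing.injective D K'
  have h1 : ∀ i, π (R.MK.z (finSumFinEquiv (Sum.inl i))) = algebraMap ℂ K' (R.ML.pz w i) := by
    intro i
    have h2 : R.MK.z (finSumFinEquiv (Sum.inl i)) = R.incl (R.ML.z i) :=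
      Subtype.ext (R.z_eq i)
    rw [hπ, h2, hw]
    exact (IsScalarTower.algebraMap_apply ℂ D K' _).symm
  have h2 : AlgebraicIndependent ℂ (fun j' => π (R.MK.z (finSumFinEquiv (Sum.inr j')))) :=
    hai.map' (f := IsScalarTower.toAlgHom ℂ D K') hinj
  have h3 : ∀ a : K', ∃ b d : R.MK.B, π d ≠ 0 ∧ a = π b / π d := by
    intro a
    obtain ⟨u, v, hv, huv⟩ := IsFractionRing.div_surjective (A := D) a
    obtain ⟨b, rfl⟩ := hjs u
    obtain ⟨d, rfl⟩ := hjs v
    refine ⟨b, d, ?_, huv.symm⟩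
    rw [hπ, Ne, map_eq_zero_iff _ hinj]
    exact nonZeroDivisors.ne_zero hv
  let M' := FibM_793.spec (M := R.MK) (e := finSumFinEquiv) (c := R.ML.pz w) (π := π) h1 h2 h3
  let Φ : M'.Pts → R.MK.Pts := fun y' => AlgHom.comp (A := R.MK.B) y' π.rangeRestrict
  have hΦ : Continuous Φ := by
    rw [continuous_iff_ev]
    intro b
    exact continuous_ev _
  have hr : Set.range Φ = R.q ⁻¹' {w} := by
    apply Set.Subset.antisymm
    · rintro _ ⟨y', rfl⟩
      apply AlgHom.ext
      intro a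
      have h4 : π.rangeRestrict (R.incl a) = algebraMap ℂ π.range (w a) := by
        apply Subtype.ext
        change π (R.incl a) = algebraMap ℂ K' (w a)
        rw [hπ, hw]
        exact (IsScalarTower.algebraMap_apply ℂ D K' _).symm
      change y' (π.rangeRestrict (R.incl a)) = w a
      rw [h4]
      exact y'.commutes _
    · intro y hy
      obtain ⟨y', hy'⟩ := exists_desc π.rangeRestrict π.rangeRestrict_surjective y (by
        intro b hb
        have h4 : π b = 0 := congrArg Subtype.val hb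
        rw [hπ, map_eq_zero_iff _ hinj] at h4
        exact hker y hy b h4)
      exact ⟨y', AlgHom.ext hy'⟩
  rw [← hr]
  exact isConnected_range hΦ

/-- the fibres over a dense Zariski open set are connected -/
theorem exists_conn (hac : BN1_143.AC L K) : ∃ a : R.ML.B, a ≠ 0 ∧
    ∀ w : R.ML.Pts, w a ≠ 0 → IsConnected (R.q ⁻¹' {w}) := by
  let a0 : Algebra R.ML.B R.MK.B := algR R
  have t2 : IsScalarTower R.ML.B R.MK.B K := IsScalarTower.of_algebraMap_eq fun _ => rfl
  have t3 : IsScalarTower ℂ R.ML.B R.MK.B :=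
    IsScalarTower.of_algebraMap_eq fun c => (R.incl.commutes c).symm
  have c0 : CharZero R.ML.B := charZero_of_injective_algebraMap
    (algebraMap ℂ R.ML.B).injective
  obtain ⟨a, ha, h⟩ := BN_143.fiber_isDomain (A := R.ML.B) (B := R.MK.B) L K hac
    (fun j => R.MK.z (Fin.natAdd m j)) (het_rel R)
  refine ⟨a, ha, fun w hw => ?_⟩
  let a2 : Algebra R.ML.B ℂ := (w : R.ML.B →+* ℂ).toAlgebra
  obtain ⟨D, _, _, _, j, h1, h2, h3, h4⟩ := exists_fibre_ring (A := R.ML.B) (B := R.MK.B)
    (fun c => w.commutes c) (fun j => R.MK.z (Fin.natAdd m j)) (het_rel R) (h ℂ hw)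
  exact isConnected_of_ring R w j h1 h2 h3 fun y hy => h4 y fun a => DFunLike.congr_fun hy a

end rel

/-! ### comparison of relative models with the same coordinates -/

section le

variable {L K : Type} [Field L] [Field K] [Algebra ℂ L] [Algebra ℂ K] [Algebra L K]
  [IsScalarTower ℂ L K] {m r : ℕ}

/-- `R'` is a shrinking of `R` (same coordinates, larger rings) -/
structure Le (R R' : RMdl L K m r) : Prop where
  zL : R.ML.zK = R'.ML.zK
  zK : R.MK.zK = R'.MK.zK
  bL : R.ML.B ≤ R'.ML.B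
  bK : R.MK.B ≤ R'.MK.B

theorem Le.refl (R : RMdl L K m r) : Le R R := ⟨rfl, rfl, le_rfl, le_rfl⟩

theorem Le.trans {R R' R'' : RMdl L K m r} (h : Le R R') (h' : Le R' R'') : Le R R'' :=
  ⟨h.zL.trans h'.zL, h.zK.trans h'.zK, h.bL.trans h'.bL, h.bK.trans h'.bK⟩

theorem le_shrink (R : RMdl L K m r) {p : MvPolynomial (Fin m) ℂ} (hp : p ≠ 0)
    {s : MvPolynomial (Fin (m + r)) ℂ} (hs : s ≠ 0) : Le R (R.shrink p hp s hs) :=
  ⟨rfl, rfl, R.ML.le_loc p hp, R.MK.le_loc (cp2 p s) (cp2_ne hp hs)⟩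

lemma loc_le_loc {n : ℕ} (M : Mdl K n) {p p' : MvPolynomial (Fin n) ℂ} (hp : p ≠ 0) (hp' : p' ≠ 0)
    (hpd : p ∣ p') : (M.loc p hp).B ≤ (M.loc p' hp').B := by
  have h1 : (M.loc p hp).zK = (M.loc p' hp').zK := (M.loc_zK p hp).trans (M.loc_zK p' hp').symm
  refine Mdl.B_le (j := 1) h1 ?_
  rw [pow_one, Mdl.loc_h, Mdl.loc_h]
  exact mul_dvd_mul_left _ hpd

theorem shrink_le_shrink (R : RMdl L K m r) {p p' : MvPolynomial (Fin m) ℂ} (hp : p ≠ 0)
    (hp' : p' ≠ 0) (hpd : p ∣ p') {s s' : MvPolynomial (Fin (m + r)) ℂ} (hs : s ≠ 0)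
    (hs' : s' ≠ 0) (hsd : s ∣ s') : Le (R.shrink p hp s hs) (R.shrink p' hp' s' hs') :=
  ⟨(le_shrink R hp hs).zL.symm.trans (le_shrink R hp' hs').zL,
    (le_shrink R hp hs).zK.symm.trans (le_shrink R hp' hs').zK, loc_le_loc R.ML hp hp' hpd,
    loc_le_loc R.MK (cp2_ne hp hs) (cp2_ne hp' hs') (mul_dvd_mul (map_dvd _ hpd) hsd)⟩

variable {R R' : RMdl L K m r} (h : Le R R')

/-- the open embedding of the base -/
def Le.resL (y : R'.ML.Pts) : R.ML.Pts := Mdl.resB h.bL y

/-- the open embedding of the total space -/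
def Le.resK (y : R'.MK.Pts) : R.MK.Pts := Mdl.resB h.bK y

theorem Le.isOpenEmbedding_resL : IsOpenEmbedding h.resL := Mdl.isOpenEmbedding_resB h.zL h.bL

theorem Le.isOpenEmbedding_resK : IsOpenEmbedding h.resK := Mdl.isOpenEmbedding_resB h.zK h.bK

theorem Le.range_resL : Set.range h.resL = {y | MvPolynomial.eval (R.ML.pz y) R'.ML.h ≠ 0} :=
  Mdl.range_resB h.zL h.bL

theorem Le.range_resK : Set.range h.resK = {y | MvPolynomial.eval (R.MK.pz y) R'.MK.h ≠ 0} :=
  Mdl.range_resB h.zK h.bK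

lemma Le.pz_resL (y : R'.ML.Pts) : R.ML.pz (h.resL y) = R'.ML.pz y := Mdl.pz_resB h.zL h.bL y

lemma Le.pz_resK (y : R'.MK.Pts) : R.MK.pz (h.resK y) = R'.MK.pz y := Mdl.pz_resB h.zK h.bK y

lemma Le.x_resK (y : R'.MK.Pts) : R.x (h.resK y) = R'.x y := by
  funext j
  change R.MK.pz (h.resK y) _ = R'.MK.pz y _
  rw [h.pz_resK]

theorem Le.q_resK (y : R'.MK.Pts) : R.q (h.resK y) = h.resL (R'.q y) := by
  apply AlgHom.ext
  intro b
  change y _ = y _
  congr 1

/-- the image of a fibre -/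
theorem Le.image_fibre (w : R'.ML.Pts) : h.resK '' (R'.q ⁻¹' {w}) =
    {y | R.q y = h.resL w ∧ MvPolynomial.eval (R.MK.pz y) R'.MK.h ≠ 0} := by
  ext y
  constructor
  · rintro ⟨y', hy', rfl⟩
    refine ⟨?_, ?_⟩
    · rw [h.q_resK, show R'.q y' = w from hy']
    · rw [h.pz_resK]
      exact R'.MK.eval_h_ne y'
  · rintro ⟨h1, h2⟩
    have h3 : y ∈ Set.range h.resK := by rw [h.range_resK]; exact h2
    obtain ⟨y', rfl⟩ := h3
    refine ⟨y', ?_, rfl⟩
    rw [h.q_resK] at h1
    exact h.isOpenEmbedding_resL.injective h1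

/-- the fibres do not change if only the base is shrunk -/
theorem Le.image_fibre_eq {j : ℕ}
    (hd : R'.MK.h ∣ (R.MK.h * MvPolynomial.rename (Fin.castAdd r) R'.ML.h) ^ j)
    (w : R'.ML.Pts) : h.resK '' (R'.q ⁻¹' {w}) = R.q ⁻¹' {h.resL w} := by
  rw [h.image_fibre]
  ext y
  constructor
  · intro hy
    exact hy.1
  · intro hy
    refine ⟨hy, fun h0 => ?_⟩
    have hy' : R.q y = h.resL w := hy
    have h1 : MvPolynomial.eval (R.MK.pz y)
        ((R.MK.h * MvPolynomial.rename (Fin.castAdd r) R'.ML.h) ^ j) = 0 := by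
      obtain ⟨c, hc⟩ := hd
      rw [hc, map_mul, h0, zero_mul]
    have h2 : MvPolynomial.eval (R.MK.pz y) (MvPolynomial.rename (Fin.castAdd r) R'.ML.h) =
        MvPolynomial.eval (R'.ML.pz w) R'.ML.h := by
      rw [MvPolynomial.eval_rename]
      congr 2
      funext i
      rw [← h.pz_resL, ← hy', R.pz_q]
      rfl
    rw [map_pow, map_mul, h2] at h1
    rcases mul_eq_zero.mp (eq_zero_of_pow_eq_zero h1) with h4 | h4
    · exact R.MK.eval_h_ne y h4
    · exact R'.ML.eval_h_ne w h4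

theorem isConnected_of_image {X Y : Type*} [TopologicalSpace X] [TopologicalSpace Y] {f : X → Y}
    (hf : IsOpenEmbedding f) {S : Set X} (hS : IsConnected (f '' S)) : IsConnected S :=
  ⟨Set.Nonempty.of_image hS.1, (hf.isInducing.isPreconnected_image).mp hS.2⟩

end le

/-! ### `Ev2`: connected fibres -/

section ev2

variable {L K : Type} [Field L] [Field K] [Algebra ℂ L] [Algebra ℂ K] [Algebra L K]
  [IsScalarTower ℂ L K] {m r : ℕ}

/-- all fibres are connected (hence nonempty) -/
def Conn (R : RMdl L K m r) : Prop := ∀ w : R.ML.Pts, IsConnected (R.q ⁻¹' {w})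

theorem Conn.surj {R : RMdl L K m r} (h : Conn R) : Function.Surjective R.q := fun w => by
  obtain ⟨y, hy⟩ := (h w).1
  exact ⟨y, hy⟩

theorem Conn.preconnectedSpace {R : RMdl L K m r} (h : Conn R) (w : R.ML.Pts) :
    PreconnectedSpace (R.Fib w) :=
  isPreconnected_iff_preconnectedSpace.mp (h w).2

/-- for every shrinking of the total space there is a shrinking of the base such that all fibres
are connected -/
theorem exists_conn_shrink (hac : BN1_143.AC L K) (R : RMdl L K m r)
    (s : MvPolynomial (Fin (m + r)) ℂ) (hs : s ≠ 0) :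
    ∃ p₀ : MvPolynomial (Fin m) ℂ, p₀ ≠ 0 ∧
      ∀ (p : MvPolynomial (Fin m) ℂ) (hp : p ≠ 0), p₀ ∣ p → Conn (R.shrink p hp s hs) := by
  obtain ⟨a, ha, hconn⟩ := exists_conn (R.shrink 1 one_ne_zero s hs) hac
  obtain ⟨p₀, hp₀, c, hc⟩ := AB2_590.exists_poly_dvd (R.shrink 1 one_ne_zero s hs).ML.het ha
  refine ⟨p₀, hp₀, fun p hp hd w => ?_⟩
  have hle : Le (R.shrink 1 one_ne_zero s hs) (R.shrink p hp s hs) :=
    shrink_le_shrink R one_ne_zero hp (one_dvd _) hs hs dvd_rfl
  have h1 : (hle.resL w) a ≠ 0 := by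
    intro h0
    have h2 : hle.resL w (MvPolynomial.aeval (R.shrink 1 one_ne_zero s hs).ML.z p₀) = 0 := by
      rw [hc, map_mul, h0, zero_mul]
    have h3 : hle.resL w (MvPolynomial.aeval (R.shrink 1 one_ne_zero s hs).ML.z p₀) =
        MvPolynomial.eval ((R.shrink 1 one_ne_zero s hs).ML.pz (hle.resL w)) p₀ :=
      (R.shrink 1 one_ne_zero s hs).ML.apply_az' (hle.resL w) p₀
    rw [h3, hle.pz_resL] at h2
    obtain ⟨e, he⟩ := hd
    have h4 : MvPolynomial.eval ((R.shrink p hp s hs).ML.pz w) p = 0 := by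
      have h5 := congrArg (MvPolynomial.eval ((R.shrink p hp s hs).ML.pz w)) he
      rw [map_mul, h2, zero_mul] at h5
      exact h5
    exact loc_unit R.ML p hp w h4
  refine isConnected_of_image hle.isOpenEmbedding_resK ?_
  rw [hle.image_fibre_eq (j := 1)]
  · exact hconn _ h1
  · rw [pow_one]
    change R.MK.h * (MvPolynomial.rename (Fin.castAdd r) p * s) ∣
      R.MK.h * (MvPolynomial.rename (Fin.castAdd r) 1 * s) *
        MvPolynomial.rename (Fin.castAdd r) (R.ML.h * p)
    refine ⟨MvPolynomial.rename (Fin.castAdd r) R.ML.h, ?_⟩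
    rw [map_mul, map_one]
    ring

theorem Ev2.conn (hac : BN1_143.AC L K) (R : RMdl L K m r) : Ev2 R Conn :=
  ⟨1, one_ne_zero, fun s hs _ => exists_conn_shrink hac R s hs⟩

end ev2

end Crest.Agent.R276.TowB_849
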