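import Mathlib
import Crest.Agent.R276.TowB_849
import Crest.Agent.R276.Mod10_987
import Crest.Agent.R276.CmpR3_652
import Crest.Agent.R276.FGSub_595
import Crest.Agent.R276.CInd_870

/-!
# Row 276, MODPACK (helper849): the package

* `exists_coords` : coordinates `(t, z)` of `L` adapted to `T ⊆ L`;
* `Dv W` : `h_T ∣ h_L ∣ h_K` (stable under shrinking); `TLe W W'` : shrinking of towers;
* `exists_tow` : existence of towers with prescribed coordinates;
* `Good W` : `Dv`, all fibres of `M_K → M_L → M_T` connected; `Good.relTL`, `Good.relLK` : relative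
  models in the sense of `SkelDefs_220`;
* `modpack` : existence of a tower all whose sufficiently small shrinkings are good and comparable
  with the given relative model;
* `exists_R0` : existence of relative models.
-/

set_option autoImplicit false
set_option linter.unusedSectionVars false

open Polynomial Topology Filter

noncomputable section

namespace Crest.Agent.R276.ModPack_849

open Crest.Agent.R271.Defs710 Crest.Agent.R271.Alg255 Crest.Agent.R271.Rd692
open Crest.Agent.R271.AlgB956 Crest.Agent.R271.Ho51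
open Crest.Agent.R276.Mod1_987 Crest.Agent.R276.TowA_849 Crest.Agent.R276.TowB_849

/-! ### transcendence bases -/

section field

/-- the transcendence basis `(z, x)` of a tower -/
theorem isTB_append {k L K : Type*} [Field k] [Field L] [Field K] [Algebra k L] [Algebra k K]
    [Algebra L K] [IsScalarTower k L K] {m r : ℕ} {z : Fin m → L} {x : Fin r → K}
    (hz : IsTranscendenceBasis k z) (hx : IsTranscendenceBasis L x) :
    IsTranscendenceBasis k (Fin.append (fun i => algebraMap L K (z i)) x) := by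
  have h1 := hz.sumElim_comp hx
  let e : Fin (m + r) ≃ Fin r ⊕ Fin m := finSumFinEquiv.symm.trans (Equiv.sumComm _ _)
  have h2 : Fin.append (fun i => algebraMap L K (z i)) x =
      (Sum.elim x (algebraMap L K ∘ z)) ∘ e := by
    funext i
    refine Fin.addCases (fun i => ?_) (fun j => ?_) i
    · simp [e]
    · simp [e]
  rw [h2]
  exact (isTranscendenceBasis_equiv e).mpr h1

/-- a finite transcendence basis indexed by `Fin` -/
theorem exists_finTB {F L : Type*} [Field F] [Field L] [Algebra F L]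
    (hfin : Algebra.trdeg F L < Cardinal.aleph0) :
    ∃ (a : ℕ) (z : Fin a → L), IsTranscendenceBasis F z := by
  obtain ⟨s, hs⟩ := exists_isTranscendenceBasis F L
  have h1 : Cardinal.mk s < Cardinal.aleph0 := by rwa [hs.cardinalMk_eq_trdeg]
  have : Finite s := Cardinal.lt_aleph0_iff_finite.mp h1
  obtain ⟨a, ⟨e⟩⟩ := Finite.exists_equiv_fin s
  exact ⟨a, _, (isTranscendenceBasis_equiv e.symm).mpr hs⟩

/-- **adapted coordinates** -/
theorem exists_coords (T : Type) {L : Type} [Field T] [Field L] [Algebra ℂ T] [Algebra ℂ L]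
    [Algebra T L] [IsScalarTower ℂ T L] {m : ℕ} {x : Fin m → L}
    (hx : IsTranscendenceBasis ℂ x) :
    ∃ (ρ a : ℕ) (t : Fin ρ → T) (z : Fin a → L), m = ρ + a ∧ IsTranscendenceBasis ℂ t ∧
      IsTranscendenceBasis T z ∧
      IsTranscendenceBasis ℂ (Fin.append (fun i => algebraMap T L (t i)) z) := by
  have h0 : Algebra.trdeg ℂ T + Algebra.trdeg T L = Algebra.trdeg ℂ L :=
    _root_.trdeg_add_eq ℂ T
  have h1 : Algebra.trdeg ℂ L = m := by
    rw [← hx.cardinalMk_eq_trdeg]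
    simp
  have h2 : Algebra.trdeg ℂ L < Cardinal.aleph0 := by
    rw [h1]
    exact Cardinal.natCast_lt_aleph0
  obtain ⟨ρ, t, ht⟩ := exists_finTB (F := ℂ) (L := T)
    (lt_of_le_of_lt (by rw [← h0]; exact le_self_add) h2)
  obtain ⟨a, z, hz⟩ := exists_finTB (F := T) (L := L)
    (lt_of_le_of_lt (by rw [← h0]; exact le_add_self) h2)
  refine ⟨ρ, a, t, z, ?_, ht, hz, isTB_append ht hz⟩
  have h3 := (isTB_append ht hz).cardinalMk_eq_trdeg
  rw [h1] at h3
  have h4 : ((ρ + a : ℕ) : Cardinal) = (m : Cardinal) := by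
    rw [← h3]
    simp
  exact (Nat.cast_injective h4).symm

end field

/-! ### towers -/

section tow

variable {T L K : Type} [Field T] [Field L] [Field K] [Algebra ℂ T] [Algebra ℂ L] [Algebra ℂ K]
  [Algebra T L] [Algebra L K] [IsScalarTower ℂ T L] [IsScalarTower ℂ L K]
  {ρ a r : ℕ}

/-- `h_T ∣ h_L ∣ h_K` -/
structure Dv (W : Tow T L K ρ a r) : Prop where
  TL : MvPolynomial.rename (Fin.castAdd a) W.MT.h ∣ W.ML.h
  LK : MvPolynomial.rename (Fin.castAdd r) W.ML.h ∣ W.MK.h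

/-- `W'` is a shrinking of `W` (same coordinates, larger rings) -/
structure TLe (W W' : Tow T L K ρ a r) : Prop where
  zT : W.MT.zK = W'.MT.zK
  zL : W.ML.zK = W'.ML.zK
  zK : W.MK.zK = W'.MK.zK
  bT : W.MT.B ≤ W'.MT.B
  bL : W.ML.B ≤ W'.ML.B
  bK : W.MK.B ≤ W'.MK.B

theorem TLe.refl (W : Tow T L K ρ a r) : TLe W W := ⟨rfl, rfl, rfl, le_rfl, le_rfl, le_rfl⟩

theorem TLe.trans {W W' W'' : Tow T L K ρ a r} (h : TLe W W') (h' : TLe W' W'') : TLe W W'' :=
  ⟨h.zT.trans h'.zT, h.zL.trans h'.zL, h.zK.trans h'.zK, h.bT.trans h'.bT, h.bL.trans h'.bL,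
    h.bK.trans h'.bK⟩

theorem TLe.TL {W W' : Tow T L K ρ a r} (h : TLe W W') : Le W.TL W'.TL := ⟨h.zT, h.zL, h.bT, h.bL⟩

theorem TLe.LK {W W' : Tow T L K ρ a r} (h : TLe W W') : Le W.LK W'.LK := ⟨h.zL, h.zK, h.bL, h.bK⟩

variable (W : Tow T L K ρ a r) {c : MvPolynomial (Fin ρ) ℂ} (hc : c ≠ 0)
    {p : MvPolynomial (Fin (ρ + a)) ℂ} (hp : p ≠ 0)
    {s : MvPolynomial (Fin (ρ + a + r)) ℂ} (hs : s ≠ 0)

theorem tle_shrink : TLe W (W.shrink c hc p hp s hs) :=
  ⟨rfl, rfl, rfl, W.le_MT hc hp hs, W.le_ML hc hp hs, W.le_MK hc hp hs⟩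

variable {W}

theorem Dv.shrink (h : Dv W) : Dv (W.shrink c hc p hp s hs) := by
  constructor
  · change MvPolynomial.rename (Fin.castAdd a) (W.MT.h * c) ∣ W.ML.h * cp2 c p
    rw [map_mul]
    exact mul_dvd_mul h.TL (Dvd.intro _ rfl)
  · change MvPolynomial.rename (Fin.castAdd r) (W.ML.h * cp2 c p) ∣ W.MK.h * cp2 (cp2 c p) s
    rw [map_mul]
    exact mul_dvd_mul h.LK (Dvd.intro _ rfl)

theorem ev_dv (h : Dv W) : Ev W Dv :=
  ⟨1, one_ne_zero, fun _ hs _ => ⟨1, one_ne_zero, fun _ hp _ => ⟨1, one_ne_zero, fun _ hc _ =>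
    h.shrink hc hp hs⟩⟩⟩

theorem ev_tle (W : Tow T L K ρ a r) : Ev W (TLe W) :=
  ⟨1, one_ne_zero, fun _ hs _ => ⟨1, one_ne_zero, fun _ hp _ => ⟨1, one_ne_zero, fun _ hc _ =>
    tle_shrink W hc hp hs⟩⟩⟩

/-- **existence of towers** with prescribed coordinates -/
theorem exists_tow [Algebra.EssFiniteType ℂ T] [Algebra.EssFiniteType ℂ L]
    [Algebra.EssFiniteType ℂ K] {t : Fin ρ → T} (ht : IsTranscendenceBasis ℂ t) {z : Fin a → L}
    (hz : IsTranscendenceBasis ℂ (Fin.append (fun i => algebraMap T L (t i)) z)) {x : Fin r → K}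
    (hx : IsTranscendenceBasis ℂ (Fin.append
      (fun i => algebraMap L K (Fin.append (fun i => algebraMap T L (t i)) z i)) x)) :
    ∃ W : Tow T L K ρ a r, W.MT.zK = t ∧
      W.ML.zK = Fin.append (fun i => algebraMap T L (t i)) z ∧
      W.MK.zK = Fin.append
        (fun i => algebraMap L K (Fin.append (fun i => algebraMap T L (t i)) z i)) x ∧ Dv W := by
  obtain ⟨g₁, hg₁, h₁⟩ := exists_mdl t ht ∅
  obtain ⟨MT, -, hMTz, -⟩ := h₁ g₁ hg₁ dvd_rfl
  have hMTz' : MT.zK = t := funext hMTz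
  have hr1 : MvPolynomial.rename (Fin.castAdd a) MT.h ≠ 0 := by
    rw [Ne, map_eq_zero_iff _ (MvPolynomial.rename_injective _ (Fin.castAdd_injective ρ a))]
    exact MT.h_ne
  obtain ⟨g₂, hg₂, h₂⟩ := RMdl.exists_rmdl T L MT z (by rw [hMTz']; exact hz) ∅
  obtain ⟨R₁, hR₁, hR₁h, hR₁z, -⟩ := h₂ (MvPolynomial.rename (Fin.castAdd a) MT.h * g₂)
    (mul_ne_zero hr1 hg₂) (Dvd.intro_left _ rfl)
  rw [hMTz'] at hR₁z
  have hr2 : MvPolynomial.rename (Fin.castAdd r) R₁.MK.h ≠ 0 := by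
    rw [Ne, map_eq_zero_iff _ (MvPolynomial.rename_injective _ (Fin.castAdd_injective (ρ + a) r))]
    exact R₁.MK.h_ne
  obtain ⟨g₃, hg₃, h₃⟩ := RMdl.exists_rmdl L K R₁.MK x (by rw [hR₁z]; exact hx) ∅
  obtain ⟨R₂, hR₂, hR₂h, hR₂z, -⟩ := h₃ (MvPolynomial.rename (Fin.castAdd r) R₁.MK.h * g₃)
    (mul_ne_zero hr2 hg₃) (Dvd.intro_left _ rfl)
  rw [hR₁z] at hR₂z
  refine ⟨⟨R₁.ML, R₁.MK, R₂.MK, R₁.z_eq, ?_, R₁.incl_mem, ?_⟩, ?_, hR₁z, hR₂z, ?_, ?_⟩
  · intro i
    rw [R₂.z_eq, hR₂]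
  · intro b
    have h4 := R₂.incl_mem ⟨b, by rw [hR₂]; exact b.2⟩
    exact h4
  · change R₁.ML.zK = t
    rw [hR₁, hMTz']
  · change MvPolynomial.rename (Fin.castAdd a) R₁.ML.h ∣ R₁.MK.h
    rw [hR₁h, hR₁]
    exact Dvd.intro _ rfl
  · change MvPolynomial.rename (Fin.castAdd r) R₁.MK.h ∣ R₂.MK.h
    rw [hR₂h]
    exact Dvd.intro _ rfl

end tow

/-! ### prescribed units -/

section units

theorem ev1_units {K : Type} [Field K] [Algebra ℂ K] {n : ℕ} (M : Mdl K n) (S : Finset K) :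
    Ev1 M fun M => ∀ s ∈ S, s ∈ M.B ∧ s⁻¹ ∈ M.B := by
  have := Cmp_595.essFiniteType M
  exact Ev1.units M (Cmp_595.isTranscendenceBasis M) S

variable {T L K : Type} [Field T] [Field L] [Field K] [Algebra ℂ T] [Algebra ℂ L] [Algebra ℂ K]
  [Algebra T L] [Algebra L K] [IsScalarTower ℂ T L] [IsScalarTower ℂ L K]
  {ρ a r : ℕ}

/-- **prescribed elements and inverses** -/
theorem ev_units (W : Tow T L K ρ a r) (ST : Finset T) (SL : Finset L) (SK : Finset K) :
    Ev W fun W => (∀ s ∈ ST, s ∈ W.MT.B ∧ s⁻¹ ∈ W.MT.B) ∧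
      (∀ s ∈ SL, s ∈ W.ML.B ∧ s⁻¹ ∈ W.ML.B) ∧ (∀ s ∈ SK, s ∈ W.MK.B ∧ s⁻¹ ∈ W.MK.B) :=
  (Ev.of_MT (ev1_units W.MT ST)).and
    ((Ev.of_ML (ev1_units W.ML SL)).and (Ev.of_MK (ev1_units W.MK SK)))

end units

/-! ### good towers -/

section good

variable {T L K : Type} [Field T] [Field L] [Field K] [Algebra ℂ T] [Algebra ℂ L] [Algebra ℂ K]
  [Algebra T L] [Algebra L K] [Algebra T K] [IsScalarTower ℂ T L] [IsScalarTower ℂ L K]
  [IsScalarTower T L K] [IsScalarTower ℂ T K] {ρ a r : ℕ}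

theorem conn_of_fib {L K : Type} [Field L] [Field K] [Algebra ℂ L] [Algebra ℂ K] [Algebra L K]
    [IsScalarTower ℂ L K] {m r : ℕ} {R : RMdl L K m r} (h : ∀ w, ConnectedSpace (R.Fib w)) :
    Conn R := fun w =>
  isConnected_iff_connectedSpace.mpr (h w)

theorem fib_of_conn {L K : Type} [Field L] [Field K] [Algebra ℂ L] [Algebra ℂ K] [Algebra L K]
    [IsScalarTower ℂ L K] {m r : ℕ} {R : RMdl L K m r} (h : Conn R) (w : R.ML.Pts) :
    ConnectedSpace (R.Fib w) :=
  isConnected_iff_connectedSpace.mp (h w)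

/-- good towers: `h_T ∣ h_L ∣ h_K` and all fibres are connected (in particular nonempty) -/
structure Good (W : Tow T L K ρ a r) : Prop where
  dv : Dv W
  connTL : Conn W.TL
  connLK : Conn W.LK
  connTK : Conn W.TK

variable {W : Tow T L K ρ a r}

theorem Good.surjTL (h : Good W) : Function.Surjective W.TL.q := h.connTL.surj
theorem Good.surjLK (h : Good W) : Function.Surjective W.LK.q := h.connLK.surj
theorem Good.surjTK (h : Good W) : Function.Surjective W.TK.q := h.connTK.surj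

theorem ev_good (W : Tow T L K ρ a r) (hdv : Dv W) (h1 : BN1_143.AC T L)
    (h2 : BN1_143.AC L K) : Ev W Good :=
  ((ev_dv hdv).and (ev_conn W h1 h2)).mono fun _ h =>
    ⟨h.1, conn_of_fib h.2.1, conn_of_fib h.2.2.1, conn_of_fib h.2.2.2⟩

/-! #### relative models in the sense of `SkelDefs_220` -/

/-- 987's relative model as 220's -/
theorem toRel {L K : Type} [Field L] [Field K] [Algebra ℂ L] [Algebra ℂ K] [Algebra L K]
    [IsScalarTower ℂ L K] {m r : ℕ} (R : RMdl L K m r)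
    (hd : MvPolynomial.rename (Fin.castAdd r) R.ML.h ∣ R.MK.h)
    (hs : Function.Surjective R.q) : SkelDefs_220.Rel R.ML R.MK where
  mem := R.incl_mem
  coord := R.z_eq
  dvd := hd
  surj := fun z => by
    obtain ⟨y, hy⟩ := hs z
    refine ⟨y, fun b b' hb => ?_⟩
    rw [← hy]
    change y b' = y (R.incl b)
    congr 1
    exact Subtype.ext hb

theorem Good.relTL (h : Good W) : SkelDefs_220.Rel W.MT W.ML := toRel W.TL h.dv.TL h.surjTL

theorem Good.relLK (h : Good W) : SkelDefs_220.Rel W.ML W.MK := toRel W.LK h.dv.LK h.surjLK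

theorem Good.rm_TL (h : Good W) : CInd_870.rm h.relTL = W.TL := rfl

theorem Good.rm_LK (h : Good W) : CInd_870.rm h.relLK = W.LK := rfl

theorem Good.f_TL (h : Good W) : h.relTL.f = W.TL.q := rfl

theorem Good.f_LK (h : Good W) : h.relLK.f = W.LK.q := rfl

theorem Good.conn_relTL (h : Good W) : h.relTL.Conn := fun z => h.connTL z

theorem Good.conn_relLK (h : Good W) : h.relLK.Conn := fun z => h.connLK z

end good

/-! ### the package -/

section main

variable {T L K : Type} [Field T] [Field L] [Field K] [Algebra ℂ T] [Algebra ℂ L] [Algebra ℂ K]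
  [Algebra T L] [Algebra L K] [Algebra T K] [IsScalarTower ℂ T L] [IsScalarTower ℂ L K]
  [IsScalarTower T L K] [IsScalarTower ℂ T K] {ρ a r : ℕ}

/-- **MODPACK.** `R₀` : any relative model of `L ⊆ K` (old coordinates of `L`, fibre coordinates
`x`), `T ⊆ L` algebraically closed in `L`, `L` algebraically closed in `K`, `(t, z)` coordinates of
`L` with `t` in `T` (`exists_coords`).  There is a tower with coordinates `t`, `(t, z)`,
`(t, z, x)`; every sufficiently small shrinking is good and comparable with `R₀`. -/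
theorem modpack (hTL : BN1_143.AC T L) (hLK : BN1_143.AC L K) (R₀ : RMdl L K (ρ + a) r)
    {t : Fin ρ → T} (ht : IsTranscendenceBasis ℂ t) {z : Fin a → L}
    (hz : IsTranscendenceBasis ℂ (Fin.append (fun i => algebraMap T L (t i)) z)) :
    ∃ W : Tow T L K ρ a r, W.MT.zK = t ∧
      W.ML.zK = Fin.append (fun i => algebraMap T L (t i)) z ∧
      (∀ j, W.MK.zK (Fin.natAdd (ρ + a) j) = R₀.MK.zK (Fin.natAdd (ρ + a) j)) ∧ Dv W ∧
      Ev W fun W' => TLe W W' ∧ Good W' ∧ CmpR_652.Cmp R₀ W'.LK := by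
  have e1 : Algebra.EssFiniteType ℂ K := Cmp_595.essFiniteType R₀.MK
  have e2 : Algebra.EssFiniteType ℂ L := Cmp_595.essFiniteType R₀.ML
  have e3 : Algebra.EssFiniteType ℂ T := FGSub_595.essFiniteType_of_tower ℂ T L
  obtain ⟨W, h1, h2, h3, h4⟩ := exists_tow ht hz (CmpR_652.isTB R₀ hz)
  have hxx : ∀ j, W.MK.zK (Fin.natAdd (ρ + a) j) = R₀.MK.zK (Fin.natAdd (ρ + a) j) := by
    intro j
    rw [h3, Fin.append_right]
  refine ⟨W, h1, h2, hxx, h4, ?_⟩
  exact ((ev_tle W).and ((ev_good W h4 hTL hLK).and (CmpR_652.ev_cmp W R₀ hxx))).mono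
    fun _ h => ⟨h.1, h.2.1, h.2.2.1⟩

end main

/-! ### relative models -/

section exists_R0

variable {L K : Type} [Field L] [Field K] [Algebra ℂ L] [Algebra ℂ K] [Algebra L K]
  [IsScalarTower ℂ L K] {m r : ℕ}

/-- **existence of relative models** with prescribed coordinates, prescribed units, `h_L ∣ h_K` and
connected fibres -/
theorem exists_R0 [Algebra.EssFiniteType ℂ K] (hac : BN1_143.AC L K) {z : Fin m → L}
    (hz : IsTranscendenceBasis ℂ z) {x : Fin r → K} (hx : IsTranscendenceBasis L x)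
    (SL : Finset L) (SK : Finset K) :
    ∃ R : RMdl L K m r, R.ML.zK = z ∧ (∀ j, R.MK.zK (Fin.natAdd m j) = x j) ∧
      MvPolynomial.rename (Fin.castAdd r) R.ML.h ∣ R.MK.h ∧ Conn R ∧
      (∀ s ∈ SL, s ∈ R.ML.B ∧ s⁻¹ ∈ R.ML.B) ∧ (∀ s ∈ SK, s ∈ R.MK.B ∧ s⁻¹ ∈ R.MK.B) := by
  have e2 : Algebra.EssFiniteType ℂ L := FGSub_595.essFiniteType_of_tower ℂ L K
  obtain ⟨g, hg, h⟩ := exists_mdl z hz ∅
  obtain ⟨ML, -, hMz, -⟩ := h g hg dvd_rfl
  have hMz' : ML.zK = z := funext hMz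
  have hr1 : MvPolynomial.rename (Fin.castAdd r) ML.h ≠ 0 := by
    rw [Ne, map_eq_zero_iff _ (MvPolynomial.rename_injective _ (Fin.castAdd_injective m r))]
    exact ML.h_ne
  obtain ⟨g', hg', h'⟩ := RMdl.exists_rmdl L K ML x (by rw [hMz']; exact isTB_append hz hx) ∅
  obtain ⟨R, hR, hRh, hRz, -⟩ := h' (MvPolynomial.rename (Fin.castAdd r) ML.h * g')
    (mul_ne_zero hr1 hg') (Dvd.intro_left _ rfl)
  have hev : Ev2 R fun R' => Conn R' ∧ (∀ s ∈ SL, s ∈ R'.ML.B ∧ s⁻¹ ∈ R'.ML.B) ∧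
      (∀ s ∈ SK, s ∈ R'.MK.B ∧ s⁻¹ ∈ R'.MK.B) :=
    (Ev2.conn hac R).and ((Ev2.of_base (ev1_units R.ML SL)).and
      (Ev2.of_total (ev1_units R.MK SK)))
  obtain ⟨s, hs, p, hp, hc, h1, h2⟩ := hev.exists
  refine ⟨R.shrink p hp s hs, ?_, ?_, ?_, hc, h1, h2⟩
  · exact (le_shrink R hp hs).zL.symm.trans (by rw [hR, hMz'])
  · intro j
    have h3 : (R.shrink p hp s hs).MK.zK = R.MK.zK := (le_shrink R hp hs).zK.symm
    rw [h3, hRz, Fin.append_right]
  · change MvPolynomial.rename (Fin.castAdd r) (R.ML.h * p) ∣ R.MK.h * cp2 p s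
    rw [map_mul, hRh, hR]
    exact mul_dvd_mul (Dvd.intro _ rfl) (Dvd.intro _ rfl)

end exists_R0

/-! ### intermediate fields -/

section IF

theorem ac_of_mem {F E : Type*} [Field F] [Field E] [Algebra F E] (L : IntermediateField F E)
    (h : ∀ a : E, IsAlgebraic L a → a ∈ L) : BN1_143.AC L E :=
  fun a ha => ⟨⟨a, h a ha⟩, rfl⟩

example (K : Type) [Field K] [Algebra ℂ K] (L : IntermediateField ℂ K)
    (T : IntermediateField ℂ L) : IsScalarTower ℂ T L ∧ IsScalarTower ℂ L K ∧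
      IsScalarTower T L K ∧ IsScalarTower ℂ T K := ⟨inferInstance, inferInstance, inferInstance, inferInstance⟩

end IF

end Crest.Agent.R276.ModPack_849
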