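import Mathlib

/-!
# Row 276, leaf DISC (helper651): Minkowski's lemma

An integral matrix of finite order which is `≡ 1 mod 3` is `1`; hence elements of finite order of `GL_N(ℤ)`
have order dividing `card GL_N(ZMod 3)`.
-/

set_option autoImplicit false

noncomputable section

open Matrix

namespace Crest.Agent.R276.DiscM_651

variable {N : ℕ}

/-- entrywise divisibility is divisibility in the matrix ring -/
lemma dvd_of_entries (n : ℤ) (A : Matrix (Fin N) (Fin N) ℤ) (h : ∀ i j, n ∣ A i j) :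
    ∃ B, A = n • B := by
  choose B hB using h
  exact ⟨Matrix.of B, by ext i j; simp [hB i j]⟩

lemma smul_cancel {n : ℤ} (hn : n ≠ 0) {A : Matrix (Fin N) (Fin N) ℤ} (h : n • A = 0) : A = 0 := by
  ext i j
  have := congrFun (congrFun h i) j
  simpa [hn] using this

/-- `ℓ` prime, `g^ℓ = 1`, `g = 1 + 3 h` ⇒ `3 ∣ h` and so on: one step of the descent -/
lemma step {l : ℕ} (hl : l.Prime) {g : Matrix (Fin N) (Fin N) ℤ} (hg : g ^ l = 1) {a : ℕ}
    (ha : 1 ≤ a) {h : Matrix (Fin N) (Fin N) ℤ} (e : g = 1 + (3 ^ a : ℤ) • h) :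
    ∃ h', h = (3 : ℤ) • h' := by
  have h3 : (3 : ℤ) ^ a ≠ 0 := by positivity
  -- `h * (1 + g + ... + g^(l-1)) = 0`
  have hgeom : h * ∑ i ∈ Finset.range l, g ^ i = 0 := by
    apply smul_cancel h3
    have h1 : (g - 1) * ∑ i ∈ Finset.range l, g ^ i = 0 := by
      rw [mul_geom_sum, hg, sub_self]
    have h2 : g - 1 = (3 ^ a : ℤ) • h := by rw [e]; abel
    rw [h2, smul_mul_assoc] at h1
    exact h1
  by_cases hl3 : l = 3
  · subst hl3
    -- `1 + g + g² = 3 (1 + 3^a h + 3^(2a-1) h²)`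
    obtain ⟨b, rfl⟩ : ∃ b, a = b + 1 := ⟨a - 1, by omega⟩
    have hs : ∑ i ∈ Finset.range 3, g ^ i =
        (3 : ℤ) • (1 + (3 : ℤ) • ((3 ^ b : ℤ) • h + (3 ^ (2 * b) : ℤ) • (h * h))) := by
      rw [Finset.sum_range_succ, Finset.sum_range_succ, Finset.sum_range_succ,
        Finset.sum_range_zero, zero_add, pow_zero, pow_one, pow_two, e]
      have h5 : (3 ^ (b + 1) : ℤ) • h * (3 ^ (b + 1) : ℤ) • h =
          ((3 ^ (b + 1)) * (3 ^ (b + 1)) : ℤ) • (h * h) := by
        rw [smul_mul_smul_comm]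
      rw [add_mul, one_mul, mul_add, mul_one, h5]
      module
    rw [hs, mul_smul_comm] at hgeom
    have h6 := smul_cancel (by norm_num) hgeom
    refine ⟨-(h * ((3 ^ b : ℤ) • h + (3 ^ (2 * b) : ℤ) • (h * h))), ?_⟩
    rw [mul_add, mul_one, mul_smul_comm] at h6
    rw [smul_neg]
    exact eq_neg_of_add_eq_zero_left h6
  · -- `∑ g^i = l + 3 k`
    have hmod : ∀ i : ℕ, ∃ k, g ^ i = 1 + (3 : ℤ) • k := by
      intro i
      induction i with
      | zero => exact ⟨0, by simp⟩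
      | succ i ih =>
        obtain ⟨k, hk⟩ := ih
        obtain ⟨b, rfl⟩ : ∃ b, a = b + 1 := ⟨a - 1, by omega⟩
        refine ⟨k + g ^ i * ((3 ^ b : ℤ) • h), ?_⟩
        rw [pow_succ]
        nth_rewrite 2 [e]
        rw [mul_add, mul_one, mul_smul_comm, mul_smul_comm]
        nth_rewrite 1 [hk]
        rw [pow_succ]
        module
    choose k hk using hmod
    have hs : ∑ i ∈ Finset.range l, g ^ i =
        (l : ℤ) • 1 + (3 : ℤ) • ∑ i ∈ Finset.range l, k i := by
      rw [Finset.sum_congr rfl fun i _ => hk i, Finset.sum_add_distrib, Finset.sum_const,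
        Finset.card_range, Finset.smul_sum]
      simp
    rw [hs, mul_add, mul_smul_comm, mul_one, mul_smul_comm] at hgeom
    -- `l h + 3 h k = 0`, `l` prime to `3`
    have hco : IsCoprime (l : ℤ) 3 := by
      have : Nat.Coprime l 3 := (Nat.coprime_primes hl Nat.prime_three).mpr hl3
      exact_mod_cast Nat.isCoprime_iff_coprime.mpr this
    obtain ⟨u, v, huv⟩ := hco
    refine ⟨v • h - u • (h * ∑ i ∈ Finset.range l, k i), ?_⟩
    have h7 : (l : ℤ) • h = -((3 : ℤ) • (h * ∑ i ∈ Finset.range l, k i)) :=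
      eq_neg_of_add_eq_zero_left hgeom
    calc h = (u * l + v * 3) • h := by rw [huv, one_smul]
      _ = u • ((l : ℤ) • h) + (v * 3) • h := by rw [add_smul, mul_smul]
      _ = _ := by rw [h7]; module

lemma eq_one_of_prime {l : ℕ} (hl : l.Prime) {g : Matrix (Fin N) (Fin N) ℤ} (hg : g ^ l = 1)
    (h3 : ∀ i j, (3 : ℤ) ∣ (g - 1) i j) : g = 1 := by
  have key : ∀ a : ℕ, ∃ h, g = 1 + (3 ^ (a + 1) : ℤ) • h := by
    intro a
    induction a with
    | zero =>
      obtain ⟨h, hh⟩ := dvd_of_entries 3 (g - 1) h3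
      refine ⟨h, ?_⟩
      rw [zero_add, pow_one, ← hh]; abel
    | succ a ih =>
      obtain ⟨h, hh⟩ := ih
      obtain ⟨h', rfl⟩ := step hl hg (by omega) hh
      refine ⟨h', ?_⟩
      rw [hh, smul_smul]
      congr 2
  have h0 : g - 1 = 0 := by
    ext i j
    by_contra hne
    have hdv : ∀ a : ℕ, (3 : ℤ) ^ (a + 1) ∣ (g - 1) i j := by
      intro a
      obtain ⟨h, hh⟩ := key a
      have : g - 1 = (3 ^ (a + 1) : ℤ) • h := by
        nth_rewrite 1 [hh]; abel
      rw [this]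
      exact ⟨h i j, by simp⟩
    obtain ⟨n, hn⟩ := exists_nat_gt (((g - 1) i j).natAbs)
    have h1 := Int.natAbs_dvd_natAbs.mpr (hdv n)
    have hne' : (g - 1) i j ≠ 0 := hne
    have h2 := Nat.le_of_dvd (Int.natAbs_pos.mpr hne') h1
    rw [Int.natAbs_pow] at h2
    have h3' : n < 3 ^ (n + 1) := lt_trans (Nat.lt_succ_self n) (Nat.lt_pow_self (by norm_num))
    have h4 : Int.natAbs 3 = 3 := rfl
    rw [h4] at h2
    have h5 : (((g - 1) i j).natAbs : ℕ) < n := by exact_mod_cast hn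
    omega
  exact sub_eq_zero.mp h0

/-- **Minkowski.** An integral matrix of finite order, `≡ 1` modulo `3`, is the identity. -/
theorem eq_one_of_finite_order {g : GL (Fin N) ℤ} {n : ℕ} (hn : 0 < n) (hg : g ^ n = 1)
    (h3 : ∀ i j, (3 : ℤ) ∣ ((g : Matrix (Fin N) (Fin N) ℤ) - 1) i j) : g = 1 := by
  by_contra hne
  have hfin : IsOfFinOrder g := isOfFinOrder_iff_pow_eq_one.mpr ⟨n, hn, hg⟩
  have ho : orderOf g ≠ 1 := fun h => hne (orderOf_eq_one_iff.mp h)
  obtain ⟨l, hl, hdvd⟩ := Nat.exists_prime_and_dvd ho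
  obtain ⟨k, hk⟩ := hdvd
  have hpos : 0 < orderOf g := hfin.orderOf_pos
  have hk0 : k ≠ 0 := by rintro rfl; rw [mul_zero] at hk; omega
  have h1 : (g ^ k) ^ l = 1 := by rw [← pow_mul, mul_comm, ← hk, pow_orderOf_eq_one]
  have h2 : g ^ k ≠ 1 := by
    intro h
    have := orderOf_dvd_of_pow_eq_one h
    rw [hk] at this
    have h3 := Nat.le_of_dvd (Nat.pos_of_ne_zero hk0) this
    have h4 := hl.two_le
    nlinarith [Nat.pos_of_ne_zero hk0]
  apply h2
  apply Units.ext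
  rw [Units.val_pow_eq_pow_val, Units.val_one]
  apply eq_one_of_prime hl
  · have := congrArg (fun u : GL (Fin N) ℤ => (u : Matrix (Fin N) (Fin N) ℤ)) h1
    simpa [Units.val_pow_eq_pow_val] using this
  · obtain ⟨h, hh⟩ := dvd_of_entries 3 _ h3
    have h5 : ∃ c, (g : Matrix (Fin N) (Fin N) ℤ) ^ k - 1 = (3 : ℤ) • c := by
      refine ⟨h * ∑ i ∈ Finset.range k, (g : Matrix (Fin N) (Fin N) ℤ) ^ i, ?_⟩
      rw [← mul_geom_sum, hh, smul_mul_assoc]
    obtain ⟨c, hc⟩ := h5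
    intro i j
    rw [hc]
    exact ⟨c i j, by simp⟩

/-- reduction modulo `3` -/
def red3 : GL (Fin N) ℤ →* GL (Fin N) (ZMod 3) :=
  Matrix.GeneralLinearGroup.map (Int.castRingHom (ZMod 3))

/-- the universal exponent of the torsion of `GL_N(ℤ)` -/
def expo (N : ℕ) : ℕ := Nat.card (GL (Fin N) (ZMod 3))

lemma expo_pos (N : ℕ) : 0 < expo N := Nat.card_pos

theorem pow_expo {g : GL (Fin N) ℤ} (hg : IsOfFinOrder g) : g ^ expo N = 1 := by
  obtain ⟨n, hn, h⟩ := isOfFinOrder_iff_pow_eq_one.mp hg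
  refine eq_one_of_finite_order (g := g ^ expo N) hn (by rw [← pow_mul, mul_comm, pow_mul, h, one_pow]) ?_
  have h1 : red3 (g ^ expo N) = 1 := by rw [map_pow]; exact pow_card_eq_one'
  intro i j
  have h2 := congrArg (fun u : GL (Fin N) (ZMod 3) => (u : Matrix (Fin N) (Fin N) (ZMod 3)) i j) h1
  have h3 : (((((g ^ expo N : GL (Fin N) ℤ) : Matrix (Fin N) (Fin N) ℤ) i j : ℤ)) : ZMod 3) =
      ((1 : Matrix (Fin N) (Fin N) ℤ) i j : ZMod 3) := by
    have h4 : ((1 : Matrix (Fin N) (Fin N) ℤ) i j : ZMod 3) =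
        (1 : Matrix (Fin N) (Fin N) (ZMod 3)) i j := by
      rw [Matrix.one_apply, Matrix.one_apply]
      split_ifs
      · exact Int.cast_one
      · exact Int.cast_zero
    rw [h4]
    exact h2
  have h5 : ((((((g ^ expo N : GL (Fin N) ℤ) : Matrix (Fin N) (Fin N) ℤ) - 1) i j : ℤ)) : ZMod 3) = 0 := by
    rw [Matrix.sub_apply, Int.cast_sub, h3, sub_self]
  exact (ZMod.intCast_zmod_eq_zero_iff_dvd _ 3).mp h5

/-- the torsion elements of a subgroup of finite order -/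
theorem pow_expo_of_finite (H : Subgroup (GL (Fin N) ℤ)) [Finite H] {g : GL (Fin N) ℤ} (hg : g ∈ H) :
    g ^ expo N = 1 := by
  apply pow_expo
  have : IsOfFinOrder (⟨g, hg⟩ : H) := isOfFinOrder_of_finite _
  exact (Submonoid.isOfFinOrder_coe (H := H.toSubmonoid) (x := ⟨g, hg⟩)).mpr this

end Crest.Agent.R276.DiscM_651
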