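import Crest.Agent.R276.IpcLoc_735
import Crest.Agent.R276.Top1_358
import Crest.Agent.R276.DiscA_651
import Crest.Agent.R276.DiscM_651

/-!
# Row 276, leaf DISC (helper651), part B : isomorphisms between the fibres of variations with lattice

* `Iso V V' x y g` : `g ∈ GL_N(ℤ)` is an isomorphism from the fibre of `V'` at `y` onto the fibre of `V` at `x`.
* `iso_near` : every isomorphism at a point near `(z₀,z₁)` is transported from one at `(z₀,z₁)`.
* `isClosed_eqv`, `eqv_local`, `eqv_near`, `const_along`, `stab`.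
-/

set_option autoImplicit false

noncomputable section

open Set Filter Topology Matrix
open Crest.Agent.R271.Ho51
open Crest.Agent.R276.Ipc735

namespace Crest.Agent.R276.DiscB_651

open DiscA_651 (hq hq_conj exists_bounds finite_isom)

variable {N w : ℕ}
variable {m : ℕ} {X : Type*} [TopologicalSpace X] [RDom m X]
variable {m' : ℕ} {X' : Type*} [TopologicalSpace X'] [RDom m' X']
variable {m'' : ℕ} {X'' : Type*} [TopologicalSpace X''] [RDom m'' X'']

/-! ### isomorphisms -/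

/-- `g` is an isomorphism from the fibre of `V'` at `y` to the fibre of `V` at `x` (lattices, forms,
Hodge structures) -/
structure Iso (V : VHS m X N w) (V' : VHS m' X' N w) (x : X) (y : X') (g : GL (Fin N) ℤ) :
    Prop where
  E : cm g * V'.E y = V.E x * cm g
  S : (cm g)ᴴ * V.S x * cm g = V'.S y

variable (V : VHS m X N w) (V' : VHS m' X' N w) (V'' : VHS m'' X'' N w)

lemma Iso.refl (x : X) : Iso V V x x 1 := ⟨by simp, by simp⟩

variable {V V' V''}

lemma Iso.symm {x : X} {y : X'} {g : GL (Fin N) ℤ} (h : Iso V V' x y g) : Iso V' V y x g⁻¹ := by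
  constructor
  · calc cm g⁻¹ * V.E x = cm g⁻¹ * (V.E x * cm g) * cm g⁻¹ := by
          rw [Matrix.mul_assoc, Matrix.mul_assoc, cm_mul_cm_inv, Matrix.mul_one]
      _ = V'.E y * cm g⁻¹ := by
          rw [← h.E, ← Matrix.mul_assoc, cm_inv_mul_cm, Matrix.one_mul]
  · rw [← h.S]
    have h3 : (cm g⁻¹)ᴴ * (cm g)ᴴ = 1 := by
      rw [← Matrix.conjTranspose_mul, cm_mul_cm_inv, Matrix.conjTranspose_one]
    calc (cm g⁻¹)ᴴ * ((cm g)ᴴ * V.S x * cm g) * cm g⁻¹
        = ((cm g⁻¹)ᴴ * (cm g)ᴴ) * V.S x * (cm g * cm g⁻¹) := by noncomm_ring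
      _ = V.S x := by rw [h3, cm_mul_cm_inv]; simp

lemma Iso.trans {x : X} {y : X'} {z : X''} {g h : GL (Fin N) ℤ} (hg : Iso V V' x y g)
    (hh : Iso V' V'' y z h) : Iso V V'' x z (g * h) := by
  constructor
  · rw [cm_mul, Matrix.mul_assoc, hh.E, ← Matrix.mul_assoc, hg.E, Matrix.mul_assoc]
  · rw [cm_mul, Matrix.conjTranspose_mul, ← hh.S, ← hg.S]
    noncomm_ring

/-- the same relation for arbitrary matrices and the pictures of the fibres in other frames -/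
lemma iso_iff_aux {A B : GL (Fin N) ℤ} {g : GL (Fin N) ℤ} {E E' S S' S0 S0' : Matrix (Fin N) (Fin N) ℂ}
    (hS : S = (cm A)ᴴ * S0 * cm A) (hS' : S' = (cm B)ᴴ * S0' * cm B) :
    (cm g * E' = E * cm g ∧ (cm g)ᴴ * S * cm g = S') ↔
      (cm (A * g * B⁻¹) * (cm B * E' * cm B⁻¹) = (cm A * E * cm A⁻¹) * cm (A * g * B⁻¹) ∧
        (cm (A * g * B⁻¹))ᴴ * S0 * cm (A * g * B⁻¹) = S0') := by
  have hA : cm A⁻¹ * cm A = 1 := cm_inv_mul_cm A
  have hA' : cm A * cm A⁻¹ = 1 := cm_mul_cm_inv A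
  have hB : cm B⁻¹ * cm B = 1 := cm_inv_mul_cm B
  have hB' : cm B * cm B⁻¹ = 1 := cm_mul_cm_inv B
  have hBH : (cm B⁻¹)ᴴ * (cm B)ᴴ = 1 := by
    rw [← Matrix.conjTranspose_mul, hB', Matrix.conjTranspose_one]
  have hBH' : (cm B)ᴴ * (cm B⁻¹)ᴴ = 1 := by
    rw [← Matrix.conjTranspose_mul, hB, Matrix.conjTranspose_one]
  have e1 : cm (A * g * B⁻¹) * (cm B * E' * cm B⁻¹) = cm A * (cm g * E') * cm B⁻¹ := by
    rw [cm_mul, cm_mul]
    calc cm A * cm g * cm B⁻¹ * (cm B * E' * cm B⁻¹)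
        = cm A * cm g * (cm B⁻¹ * cm B) * E' * cm B⁻¹ := by noncomm_ring
      _ = _ := by rw [hB]; noncomm_ring
  have e2 : (cm A * E * cm A⁻¹) * cm (A * g * B⁻¹) = cm A * (E * cm g) * cm B⁻¹ := by
    rw [cm_mul, cm_mul]
    calc cm A * E * cm A⁻¹ * (cm A * cm g * cm B⁻¹)
        = cm A * E * (cm A⁻¹ * cm A) * cm g * cm B⁻¹ := by noncomm_ring
      _ = _ := by rw [hA]; noncomm_ring
  have e3 : (cm (A * g * B⁻¹))ᴴ * S0 * cm (A * g * B⁻¹) =
      (cm B⁻¹)ᴴ * ((cm g)ᴴ * S * cm g) * cm B⁻¹ := by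
    rw [cm_mul, cm_mul, Matrix.conjTranspose_mul, Matrix.conjTranspose_mul, hS]
    noncomm_ring
  rw [e1, e2, e3]
  constructor
  · rintro ⟨h1, h2⟩
    refine ⟨by rw [h1], ?_⟩
    rw [h2, hS']
    calc (cm B⁻¹)ᴴ * ((cm B)ᴴ * S0' * cm B) * cm B⁻¹
        = ((cm B⁻¹)ᴴ * (cm B)ᴴ) * S0' * (cm B * cm B⁻¹) := by noncomm_ring
      _ = S0' := by rw [hBH, hB']; simp
  · rintro ⟨h1, h2⟩
    constructor
    · have h3 : cm A⁻¹ * (cm A * (cm g * E') * cm B⁻¹) * cm B =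
          cm A⁻¹ * (cm A * (E * cm g) * cm B⁻¹) * cm B := by rw [h1]
      have e4 : ∀ M : Matrix (Fin N) (Fin N) ℂ, cm A⁻¹ * (cm A * M * cm B⁻¹) * cm B = M := by
        intro M
        calc cm A⁻¹ * (cm A * M * cm B⁻¹) * cm B = (cm A⁻¹ * cm A) * M * (cm B⁻¹ * cm B) := by
              noncomm_ring
          _ = M := by rw [hA, hB]; simp
      rwa [e4, e4] at h3
    · rw [hS', ← h2]
      calc (cm g)ᴴ * S * cm g
          = ((cm B)ᴴ * (cm B⁻¹)ᴴ) * ((cm g)ᴴ * S * cm g) * (cm B⁻¹ * cm B) := by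
            rw [hBH', hB]; simp
        _ = _ := by noncomm_ring

variable (V V')

/-- the picture at `(z₀, z₁)` of an isomorphism at `(x, y)` -/
def IsoAt (z0 : X) (z1 : X') (x : X) (y : X') (g : GL (Fin N) ℤ) : Prop :=
  cm g * lM V'.P V'.E z1 y = lM V.P V.E z0 x * cm g ∧ (cm g)ᴴ * V.S z0 * cm g = V'.S z1

lemma iso_iff_isoAt (z0 : X) (z1 : X') : ∀ᶠ p : X × X' in 𝓝 (z0, z1), ∀ g : GL (Fin N) ℤ,
    Iso V V' p.1 p.2 g ↔ IsoAt V V' z0 z1 p.1 p.2 (V.P z0 p.1 * g * (V'.P z1 p.2)⁻¹) := by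
  have h1 := (continuous_fst.tendsto (z0, z1)).eventually (V.flatS z0)
  have h2 := (continuous_snd.tendsto (z0, z1)).eventually (V'.flatS z1)
  filter_upwards [h1, h2] with p hp1 hp2 g
  have h3 := iso_iff_aux (A := V.P z0 p.1) (B := V'.P z1 p.2) (g := g) (E := V.E p.1)
    (E' := V'.E p.2) hp1 hp2
  exact ⟨fun h => h3.mp ⟨h.E, h.S⟩, fun h => ⟨(h3.mpr h).1, (h3.mpr h).2⟩⟩

/-! ### continuity of the period map -/

lemma SmAt.continuousAt' {G : Type*} [NormedAddCommGroup G] [NormedSpace ℝ G] {f : X → G} {z : X}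
    (h : SmAt f z) : ContinuousAt f z := by
  have h1 : ContinuousAt (f ∘ (ch z).symm) (cp z) := ContDiffAt.continuousAt h
  have h2 : ContinuousAt (fun y => (f ∘ (ch z).symm) (cp y)) z :=
    ContinuousAt.comp (g := f ∘ (ch z).symm) h1 cp_cont.continuousAt
  exact h2.congr (eventually_eq_comp (isCh_ch z) (mem_ch z) f).symm

lemma lM_self' (z : X) : lM V.P V.E z z = V.E z :=
  lM_self (V.ndc.on univ) V.E (mem_univ z)

lemma continuousAt_lM_self (z : X) : ContinuousAt (fun y => lM V.P V.E z y) z := by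
  refine continuousAt_pi.mpr fun i => continuousAt_pi.mpr fun j => ?_
  exact SmAt.continuousAt' (V.smE z i j)

lemma continuousAt_lM (z : X) : ∀ᶠ x in 𝓝 z, ContinuousAt (fun y => lM V.P V.E z y) x := by
  obtain ⟨U, hU, hz, h⟩ := lM_center (V.ndc.on univ) V.E (mem_univ z)
  filter_upwards [hU.mem_nhds hz] with x hx
  have h1 : (fun y => lM V.P V.E z y) =ᶠ[𝓝 x]
      fun y => cm (V.P z x) * lM V.P V.E x y * cm (V.P z x)⁻¹ := by
    filter_upwards [hU.mem_nhds hx] with y hy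
    exact h x hx y hy
  refine ContinuousAt.congr ?_ h1.symm
  exact ((continuousAt_const.mul (continuousAt_lM_self V x)).mul continuousAt_const)

lemma continuousAt_lM_fst (z0 : X) (z1 : X') :
    ContinuousAt (fun p : X × X' => lM V.P V.E z0 p.1) (z0, z1) := by
  have h1 : ContinuousAt (fun y => lM V.P V.E z0 y) ((fun p : X × X' => p.1) (z0, z1)) :=
    continuousAt_lM_self V z0
  exact ContinuousAt.comp (f := fun p : X × X' => p.1) h1 continuousAt_fst

lemma continuousAt_lM_snd (z0 : X) (z1 : X') :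
    ContinuousAt (fun p : X × X' => lM V'.P V'.E z1 p.2) (z0, z1) := by
  have h1 : ContinuousAt (fun y => lM V'.P V'.E z1 y) ((fun p : X × X' => p.2) (z0, z1)) :=
    continuousAt_lM_self V' z1
  exact ContinuousAt.comp (f := fun p : X × X' => p.2) h1 continuousAt_snd

/-! ### finiteness and discreteness -/

/-- the isomorphisms between two fibres form a finite set -/
theorem finite_iso (x : X) (y : X') : {g : GL (Fin N) ℤ | Iso V V' x y g}.Finite := by
  obtain ⟨c, hc, C, hC, h⟩ := exists_bounds (V.hs x)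
  obtain ⟨c', hc', C', hC', h'⟩ := exists_bounds (V'.hs y)
  refine (finite_isom w c C' hc).subset ?_
  intro g hg
  exact ⟨V.S x, V.E x, V'.S y, V'.E y, h.self_of_nhds.1, h'.self_of_nhds.2, hg.E, hg.S⟩

/-- near `(z₀, z₁)` the pictures of the isomorphisms lie in a fixed finite set -/
theorem isoAt_finite (z0 : X) (z1 : X') : ∃ F : Finset (GL (Fin N) ℤ),
    ∀ᶠ p : X × X' in 𝓝 (z0, z1), ∀ g, IsoAt V V' z0 z1 p.1 p.2 g → g ∈ F := by
  obtain ⟨c, hc, C, hC, h⟩ := exists_bounds (V.hs z0)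
  obtain ⟨c', hc', C', hC', h'⟩ := exists_bounds (V'.hs z1)
  refine ⟨(finite_isom (N := N) w c C' hc).toFinset, ?_⟩
  have t0 : Tendsto (fun p : X × X' => (V.S z0, lM V.P V.E z0 p.1)) (𝓝 (z0, z1))
      (𝓝 (V.S z0, V.E z0)) := by
    refine tendsto_const_nhds.prodMk_nhds ?_
    have h1 : Tendsto (fun y => lM V.P V.E z0 y) (𝓝 z0) (𝓝 (V.E z0)) := by
      have := continuousAt_lM_self V z0
      rwa [ContinuousAt, lM_self'] at this
    exact h1.comp (continuous_fst.tendsto (z0, z1))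
  have t1 : Tendsto (fun p : X × X' => (V'.S z1, lM V'.P V'.E z1 p.2)) (𝓝 (z0, z1))
      (𝓝 (V'.S z1, V'.E z1)) := by
    refine tendsto_const_nhds.prodMk_nhds ?_
    have h1 : Tendsto (fun y => lM V'.P V'.E z1 y) (𝓝 z1) (𝓝 (V'.E z1)) := by
      have := continuousAt_lM_self V' z1
      rwa [ContinuousAt, lM_self'] at this
    exact h1.comp (continuous_snd.tendsto (z0, z1))
  filter_upwards [t0.eventually h, t1.eventually h'] with p hp hp' g hg
  rw [Set.Finite.mem_toFinset]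
  exact ⟨V.S z0, lM V.P V.E z0 p.1, V'.S z1, lM V'.P V'.E z1 p.2, hp.1, hp'.2, hg.1, hg.2⟩

/-- near `(z₀, z₁)` every isomorphism in the pictures is an isomorphism at `(z₀, z₁)` -/
theorem isoAt_near (z0 : X) (z1 : X') : ∀ᶠ p : X × X' in 𝓝 (z0, z1), ∀ g,
    IsoAt V V' z0 z1 p.1 p.2 g → Iso V V' z0 z1 g := by
  obtain ⟨F, hF⟩ := isoAt_finite V V' z0 z1
  have key : ∀ g ∈ F, ∀ᶠ p : X × X' in 𝓝 (z0, z1), IsoAt V V' z0 z1 p.1 p.2 g → Iso V V' z0 z1 g := by
    intro g _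
    by_cases hg : Iso V V' z0 z1 g
    · exact Filter.Eventually.of_forall fun p _ => hg
    · by_cases hS : (cm g)ᴴ * V.S z0 * cm g = V'.S z1
      · have hne : cm g * V'.E z1 ≠ V.E z0 * cm g := fun h => hg ⟨h, hS⟩
        have hne' : cm g * lM V'.P V'.E z1 z1 - lM V.P V.E z0 z0 * cm g ≠ 0 := by
          rw [lM_self', lM_self']; exact sub_ne_zero.mpr hne
        have hc : ContinuousAt (fun p : X × X' =>
            cm g * lM V'.P V'.E z1 p.2 - lM V.P V.E z0 p.1 * cm g) (z0, z1) :=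
          (continuousAt_const.mul (continuousAt_lM_snd V' z0 z1)).sub
            ((continuousAt_lM_fst V z0 z1).mul continuousAt_const)
        filter_upwards [hc.eventually_ne hne'] with p hp h
        exact absurd (sub_eq_zero.mpr h.1) hp
      · exact Filter.Eventually.of_forall fun p h => absurd h.2 hS
  have h2 := (Filter.eventually_all_finset F).mpr key
  filter_upwards [hF, h2] with p h1 h2 g hg
  exact h2 g (h1 g hg) hg

/-- **Discreteness.** Every isomorphism between fibres near `(z₀, z₁)` is transported from one of the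
finitely many isomorphisms at `(z₀, z₁)`. -/
theorem iso_near (z0 : X) (z1 : X') : ∀ᶠ p : X × X' in 𝓝 (z0, z1), ∀ g,
    Iso V V' p.1 p.2 g → Iso V V' z0 z1 (V.P z0 p.1 * g * (V'.P z1 p.2)⁻¹) := by
  filter_upwards [iso_iff_isoAt V V' z0 z1, isoAt_near V V' z0 z1] with p h1 h2 g hg
  exact h2 _ ((h1 g).mp hg)

/-- the fibres are isomorphic -/
def Eqv (x : X) (y : X') : Prop := ∃ g, Iso V V' x y g

lemma Eqv.refl (x : X) : Eqv V V x x := ⟨1, Iso.refl V x⟩

lemma Eqv.symm {V : VHS m X N w} {V' : VHS m' X' N w} {x : X} {y : X'} (h : Eqv V V' x y) : Eqv V' V y x := by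
  obtain ⟨g, hg⟩ := h
  exact ⟨_, hg.symm⟩

lemma Eqv.trans {V : VHS m X N w} {V' : VHS m' X' N w} {V'' : VHS m'' X'' N w} {x : X} {y : X'} {z : X''} (h : Eqv V V' x y) (h' : Eqv V' V'' y z) :
    Eqv V V'' x z := by
  obtain ⟨g, hg⟩ := h
  obtain ⟨g', hg'⟩ := h'
  exact ⟨_, hg.trans hg'⟩

/-- local form of the relation -/
theorem eqv_local (z0 : X) (z1 : X') : ∀ᶠ p : X × X' in 𝓝 (z0, z1),
    (Eqv V V' p.1 p.2 ↔ ∃ g, Iso V V' z0 z1 g ∧
      cm g * lM V'.P V'.E z1 p.2 = lM V.P V.E z0 p.1 * cm g) := by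
  filter_upwards [iso_iff_isoAt V V' z0 z1, isoAt_near V V' z0 z1] with p h1 h2
  constructor
  · rintro ⟨g, hg⟩
    have h3 := (h1 g).mp hg
    exact ⟨_, h2 _ h3, h3.1⟩
  · rintro ⟨g, hg, hE⟩
    refine ⟨(V.P z0 p.1)⁻¹ * g * V'.P z1 p.2, (h1 _).mpr ?_⟩
    have h4 : V.P z0 p.1 * ((V.P z0 p.1)⁻¹ * g * V'.P z1 p.2) * (V'.P z1 p.2)⁻¹ = g := by group
    rw [h4]
    exact ⟨hE, hg.S⟩

/-- the relation is closed -/
theorem isClosed_eqv : IsClosed {p : X × X' | Eqv V V' p.1 p.2} := by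
  rw [← isOpen_compl_iff, isOpen_iff_mem_nhds]
  rintro ⟨z0, z1⟩ hz
  filter_upwards [iso_near V V' z0 z1] with p hp
  rintro ⟨g, hg⟩
  exact hz ⟨_, hp g hg⟩

/-- near `z₀ ∼ y` the class of `y` is the fibre of the period map -/
theorem eqv_fibre {z0 : X} {y : X'} (h : Eqv V V' z0 y) :
    ∀ᶠ x in 𝓝 z0, (Eqv V V' x y ↔ lM V.P V.E z0 x = V.E z0) := by
  have h1 : Tendsto (fun x : X => (x, y)) (𝓝 z0) (𝓝 (z0, y)) :=
    (Continuous.prodMk_left y).tendsto z0
  filter_upwards [h1.eventually (eqv_local V V' z0 y)] with x hx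
  rw [hx]
  simp only [lM_self']
  constructor
  · rintro ⟨g, hg, hE⟩
    have h2 : V.E z0 * cm g = lM V.P V.E z0 x * cm g := by rw [← hg.E, hE]
    have h3 := congrArg (fun M => M * cm g⁻¹) h2
    simp only [Matrix.mul_assoc, cm_mul_cm_inv, Matrix.mul_one] at h3
    exact h3.symm
  · intro hE
    obtain ⟨g, hg⟩ := h
    exact ⟨g, hg, by rw [hE, hg.E]⟩

theorem eqv_near (x0 : X) : ∀ᶠ x in 𝓝 x0, (Eqv V V x x0 ↔ lM V.P V.E x0 x = V.E x0) :=
  eqv_fibre V V (Eqv.refl V x0)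

/-! ### the stabiliser -/

/-- the automorphism group of a fibre -/
def stab (x : X) : Subgroup (GL (Fin N) ℤ) where
  carrier := {g | Iso V V x x g}
  mul_mem' := fun h h' => h.trans h'
  one_mem' := Iso.refl V x
  inv_mem' := fun h => h.symm

lemma mem_stab {x : X} {g : GL (Fin N) ℤ} : g ∈ stab V x ↔ Iso V V x x g := Iff.rfl

instance (x : X) : Finite (stab V x) := (finite_iso V V x x).to_subtype

/-- universal exponent of the automorphism groups -/
theorem stab_pow {x : X} {g : GL (Fin N) ℤ} (hg : g ∈ stab V x) : g ^ DiscM_651.expo N = 1 :=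
  DiscM_651.pow_expo_of_finite _ hg

/-- the stabiliser at a nearby point is contained in the stabiliser at the centre -/
theorem stab_near (x0 : X) : ∀ᶠ x in 𝓝 x0, ∀ g ∈ stab V x,
    V.P x0 x * g * (V.P x0 x)⁻¹ ∈ stab V x0 := by
  have h1 : Tendsto (fun x : X => (x, x)) (𝓝 x0) (𝓝 (x0, x0)) :=
    (Continuous.prodMk continuous_id continuous_id).tendsto x0
  filter_upwards [h1.eventually (iso_near V V x0 x0)] with x hx g hg
  exact hx g hg

/-! ### fields constant along a set -/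

section along

variable {T : Type*} [TopologicalSpace T] {γ : T → X}

lemma iso_of_const {x y : X} (hE : lM V.P V.E x y = V.E x)
    (hS : V.S y = (cm (V.P x y))ᴴ * V.S x * cm (V.P x y)) : Iso V V x y (V.P x y) := by
  constructor
  · rw [← hE]
    unfold lM
    rw [Matrix.mul_assoc, Matrix.mul_assoc, cm_inv_mul_cm, Matrix.mul_one]
  · exact hS.symm

/-- along a map for which the grading is locally constant in flat frames, the transports are
isomorphisms near the diagonal -/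
lemma iso_nearDiag (hγ : Continuous γ)
    (h : ∀ t, ∀ᶠ t' in 𝓝 t, lM V.P V.E (γ t) (γ t') = V.E (γ t)) (t : T) :
    ∃ U ∈ 𝓝 t, ∀ s ∈ U, ∀ s' ∈ U, Iso V V (γ s) (γ s') (V.P (γ s) (γ s')) := by
  obtain ⟨U, hU, hUz, hc⟩ : ∃ U, IsOpen U ∧ γ t ∈ U ∧ ∀ x ∈ U, ∀ y ∈ U, ∀ z ∈ U,
      V.P x y * V.P y z = V.P x z := by
    obtain ⟨U, hU, h⟩ := V.ndc (γ t)
    obtain ⟨W, hWU, hW, hz⟩ := mem_nhds_iff.mp hU
    exact ⟨W, hW, hz, fun x hx y hy z hz' => h x (hWU hx) y (hWU hy) z (hWU hz')⟩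
  have h1 : ∀ᶠ s in 𝓝 t, γ s ∈ U := (hγ.tendsto t).eventually (hU.mem_nhds hUz)
  have h2 : ∀ᶠ s in 𝓝 t, V.S (γ s) = (cm (V.P (γ t) (γ s)))ᴴ * V.S (γ t) * cm (V.P (γ t) (γ s)) :=
    (hγ.tendsto t).eventually (V.flatS (γ t))
  have h3 : ∀ᶠ s in 𝓝 t, γ s ∈ U ∧ Iso V V (γ t) (γ s) (V.P (γ t) (γ s)) := by
    filter_upwards [h1, h2, h t] with s hs1 hs2 hs3
    exact ⟨hs1, iso_of_const V hs3 hs2⟩
  obtain ⟨W, hW, hWt⟩ : ∃ W ∈ 𝓝 t, ∀ s ∈ W, γ s ∈ U ∧ Iso V V (γ t) (γ s) (V.P (γ t) (γ s)) :=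
    ⟨_, h3, fun s hs => hs⟩
  refine ⟨W, hW, fun s hs s' hs' => ?_⟩
  have h4 := (hWt s hs).2.symm.trans (hWt s' hs').2
  have h5 : (V.P (γ t) (γ s))⁻¹ * V.P (γ t) (γ s') = V.P (γ s) (γ s') := by
    rw [← hc _ hUz _ (hWt s hs).1 _ (hWt s' hs').1]; group
  rwa [h5] at h4

/-- along a preconnected family all fibres are isomorphic -/
theorem const_along [PreconnectedSpace T] (hγ : Continuous γ)
    (h : ∀ t, ∀ᶠ t' in 𝓝 t, lM V.P V.E (γ t) (γ t') = V.E (γ t)) (t t' : T) :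
    Eqv V V (γ t) (γ t') := by
  refine Top1_358.prop_of_preconnected (X := T) (P := fun s => Eqv V V (γ t) (γ s)) ?_
    (x := t) (Eqv.refl V _) t'
  intro s
  obtain ⟨U, hU, hc⟩ := iso_nearDiag V hγ h s
  refine ⟨U, hU, fun s' hs' => ⟨fun h1 => h1.trans ?_, fun h1 => h1.trans ?_⟩⟩
  · exact ⟨_, hc s (mem_of_mem_nhds hU) s' hs'⟩
  · exact ⟨_, hc s' hs' s (mem_of_mem_nhds hU)⟩

/-- the transports themselves are isomorphisms: `A` is a trivialisation of the pulled back cocycle -/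
theorem const_along_transport [PreconnectedSpace T] (hγ : Continuous γ)
    (h : ∀ t, ∀ᶠ t' in 𝓝 t, lM V.P V.E (γ t) (γ t') = V.E (γ t)) {A : T → GL (Fin N) ℤ}
    (hA : ∀ z, ∃ U ∈ 𝓝 z, ∀ x ∈ U, ∀ y ∈ U, V.P (γ x) (γ y) = A x * (A y)⁻¹) (t t' : T) :
    Iso V V (γ t) (γ t') (A t * (A t')⁻¹) := by
  refine Top1_358.prop_of_preconnected (X := T)
    (P := fun s => Iso V V (γ t) (γ s) (A t * (A s)⁻¹)) ?_
    (x := t) (by rw [mul_inv_cancel]; exact Iso.refl V _) t'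
  intro s
  obtain ⟨U, hU, hc⟩ := iso_nearDiag V hγ h s
  obtain ⟨W, hW, hcW⟩ := hA s
  refine ⟨U ∩ W, inter_mem hU hW, fun s' hs' => ⟨fun h1 => ?_, fun h1 => ?_⟩⟩
  · have h2 := h1.trans (hc s (mem_of_mem_nhds hU) s' hs'.1)
    rw [hcW s (mem_of_mem_nhds hW) s' hs'.2] at h2
    have h3 : A t * (A s)⁻¹ * (A s * (A s')⁻¹) = A t * (A s')⁻¹ := by group
    rwa [h3] at h2
  · have h2 := h1.trans (hc s' hs'.1 s (mem_of_mem_nhds hU))
    rw [hcW s' hs'.2 s (mem_of_mem_nhds hW)] at h2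
    have h3 : A t * (A s')⁻¹ * (A s' * (A s)⁻¹) = A t * (A s)⁻¹ := by group
    rwa [h3] at h2

/-- paths: the transport `A 0 * (A 1)⁻¹` along a path is an isomorphism -/
theorem path_transport (γ : unitInterval → X) (hγ : Continuous γ)
    (h : ∀ t, ∀ᶠ t' in 𝓝 t, lM V.P V.E (γ t) (γ t') = V.E (γ t)) :
    ∃ A : unitInterval → GL (Fin N) ℤ, A 0 = 1 ∧
      (∀ z, ∃ U ∈ 𝓝 z, ∀ x ∈ U, ∀ y ∈ U, V.P (γ x) (γ y) = A x * (A y)⁻¹) ∧
      ∀ t t', Iso V V (γ t) (γ t') (A t * (A t')⁻¹) := by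
  have hc : Top1_358.NDC (fun x y => V.P (γ x) (γ y)) :=
    Top1_358.NDC.comap (c := V.P) V.ndc hγ
  obtain ⟨A, hA0, hA⟩ := Top1_358.trivial_I hc
  have hA' : ∀ z, ∃ U ∈ 𝓝 z, ∀ x ∈ U, ∀ y ∈ U, V.P (γ x) (γ y) = A x * (A y)⁻¹ := by
    intro z
    obtain ⟨U, hU, h⟩ := hA z
    refine ⟨U, hU, fun x hx y hy => ?_⟩
    have := h x hx y hy
    simpa [Top1_358.one] using this
  exact ⟨A, hA0, hA', const_along_transport V hγ h hA'⟩

end along

/-! ### derivative criterion -/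

/-- if the period map has zero derivative along a map from an open set of a normed space, it is locally
constant along it -/
theorem locConst_of_fderiv {W : Type*} [NormedAddCommGroup W] [NormedSpace ℝ W] {Ω : Set W}
    (hΩ : IsOpen Ω) {γ : W → X} (hγ : ContinuousOn γ Ω)
    (hd : ∀ t ∈ Ω, ∀ i j, HasFDerivAt (fun t' => lM V.P V.E (γ t) (γ t') i j) (0 : W →L[ℝ] ℂ) t) :
    ∀ t ∈ Ω, ∀ᶠ t' in 𝓝 t, lM V.P V.E (γ t) (γ t') = V.E (γ t) := by
  intro t ht
  obtain ⟨U, hU, hz, h⟩ := lM_center (V.ndc.on univ) V.E (mem_univ (γ t))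
  have h1 : ∀ᶠ s in 𝓝 t, γ s ∈ U ∧ s ∈ Ω :=
    ((hγ.continuousAt (hΩ.mem_nhds ht)).eventually (hU.mem_nhds hz)).and (hΩ.mem_nhds ht)
  obtain ⟨r, hr, hball⟩ := Metric.mem_nhds_iff.mp h1
  have hder : ∀ s ∈ Metric.ball t r, ∀ i j, HasFDerivAt (fun t' => lM V.P V.E (γ t) (γ t') i j)
      (0 : W →L[ℝ] ℂ) s := by
    intro s hs i j
    have hs' := hball hs
    have h2 : (fun t' => lM V.P V.E (γ t) (γ t') i j) =ᶠ[𝓝 s]
        fun t' => ∑ l, (∑ k, cm (V.P (γ t) (γ s)) i k * lM V.P V.E (γ s) (γ t') k l) *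
          cm (V.P (γ t) (γ s))⁻¹ l j := by
      filter_upwards [Metric.isOpen_ball.mem_nhds hs] with s' hs2
      rw [h _ hs'.1 _ (hball hs2).1, mul_mul_entry]
    refine HasFDerivAt.congr_of_eventuallyEq ?_ h2
    have h4 : ∀ l ∈ (Finset.univ : Finset (Fin N)), HasFDerivAt (fun t' =>
        (∑ k, cm (V.P (γ t) (γ s)) i k * lM V.P V.E (γ s) (γ t') k l) *
          cm (V.P (γ t) (γ s))⁻¹ l j) (0 : W →L[ℝ] ℂ) s := by
      intro l _
      have h5 : HasFDerivAt (fun t' => ∑ k, cm (V.P (γ t) (γ s)) i k *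
          lM V.P V.E (γ s) (γ t') k l)
          (∑ k, (cm (V.P (γ t) (γ s)) i k) • (0 : W →L[ℝ] ℂ)) s :=
        HasFDerivAt.fun_sum fun k _ => (hd s hs'.2 k l).const_mul (cm (V.P (γ t) (γ s)) i k)
      have h6 := h5.mul_const (cm (V.P (γ t) (γ s))⁻¹ l j)
      have h7 : (cm (V.P (γ t) (γ s))⁻¹ l j) •
          ∑ k : Fin N, (cm (V.P (γ t) (γ s)) i k) • (0 : W →L[ℝ] ℂ) = 0 := by
        rw [Finset.sum_eq_zero fun k _ => smul_zero _, smul_zero]
      rwa [h7] at h6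
    have h3 := HasFDerivAt.fun_sum h4
    rwa [Finset.sum_const_zero] at h3
  filter_upwards [Metric.ball_mem_nhds t hr] with s hs
  have h5 : lM V.P V.E (γ t) (γ s) = lM V.P V.E (γ t) (γ t) := by
    ext i j
    exact (convex_ball t r).is_const_of_fderivWithin_eq_zero (𝕜 := ℝ)
      (f := fun t' => lM V.P V.E (γ t) (γ t') i j)
      (fun x hx => (hder x hx i j).differentiableAt.differentiableWithinAt)
      (fun x hx => by
        rw [fderivWithin_of_isOpen Metric.isOpen_ball hx]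
        exact (hder x hx i j).fderiv) hs (Metric.mem_ball_self hr)
  rw [h5, lM_self']

end Crest.Agent.R276.DiscB_651
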