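import Mathlib

/-!
# R276, leaf AHL (helper25): the Ahlfors-Schwarz lemma on the disc and the punctured disc

`Δ` is Mathlib's Laplacian on `ℂ` (`= 4 ∂∂̄`).
-/

set_option autoImplicit false

open Set Filter Topology Metric InnerProductSpace Laplacian
open scoped ContDiff

namespace Crest.Agent.R276.Ahl_25

/-! ### second derivatives along lines -/

section line

variable {E : Type*} [NormedAddCommGroup E] [NormedSpace ℝ E]

theorem hasDerivAt_line (z v : E) (t : ℝ) : HasDerivAt (fun s : ℝ => z + s • v) v t := by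
  simpa using ((hasDerivAt_id t).smul_const v).const_add z

theorem tendsto_line (z v : E) : Tendsto (fun s : ℝ => z + s • v) (𝓝 0) (𝓝 z) := by
  have := (hasDerivAt_line z v 0).continuousAt.tendsto
  simpa using this

theorem deriv_line {u : E → ℝ} {z v : E} (hu : ContDiffAt ℝ 2 u z) :
    deriv (fun t : ℝ => u (z + t • v)) =ᶠ[𝓝 0] fun t => fderiv ℝ u (z + t • v) v := by
  have hev : ∀ᶠ w in 𝓝 z, ContDiffAt ℝ 2 u w := hu.eventually (by simp)
  filter_upwards [(tendsto_line z v).eventually hev] with t ht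
  exact ((ht.differentiableAt (by norm_num)).hasFDerivAt.comp_hasDerivAt t
    (hasDerivAt_line z v t)).deriv

theorem hasDerivAt_line2 {u : E → ℝ} {z v : E} (hu : ContDiffAt ℝ 2 u z) :
    HasDerivAt (fun t : ℝ => fderiv ℝ u (z + t • v) v) (fderiv ℝ (fderiv ℝ u) z v v) 0 := by
  have h1 : ContDiffAt ℝ 1 (fderiv ℝ u) z := hu.fderiv_right (by norm_num)
  have h3 : HasFDerivAt (fderiv ℝ u) (fderiv ℝ (fderiv ℝ u) z) (z + (0 : ℝ) • v) := by
    simpa using (h1.differentiableAt (by norm_num)).hasFDerivAt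
  have h4 := h3.comp_hasDerivAt (0 : ℝ) (hasDerivAt_line z v 0)
  simpa using HasDerivAt.clm_apply h4 (hasDerivAt_const (0 : ℝ) v)

/-- second derivative along a line -/
theorem deriv2_line {u : E → ℝ} {z v : E} (hu : ContDiffAt ℝ 2 u z) :
    deriv (deriv (fun t : ℝ => u (z + t • v))) 0 = fderiv ℝ (fderiv ℝ u) z v v := by
  rw [(deriv_line hu).deriv_eq]
  exact (hasDerivAt_line2 hu).deriv

theorem snd_nonpos_of_isLocalMax {u : E → ℝ} {z : E} (hu : ContDiffAt ℝ 2 u z)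
    (hm : IsLocalMax u z) (v : E) : fderiv ℝ (fderiv ℝ u) z v v ≤ 0 := by
  by_contra hcon
  push Not at hcon
  set g : ℝ → ℝ := fun t => u (z + t • v) with hg
  have hmax : IsLocalMax g 0 := by
    have h6 := (tendsto_line z v).eventually hm
    filter_upwards [h6] with t ht
    simpa [hg] using ht
  have hd0 : deriv g 0 = 0 := hmax.deriv_eq_zero
  have hgc : ContinuousAt g 0 := by
    have h7 : ContinuousAt u (z + (0 : ℝ) • v) := by simpa using hu.continuousAt
    exact ContinuousAt.comp (f := fun s : ℝ => z + s • v) (g := u) h7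
      (hasDerivAt_line z v 0).continuousAt
  have hmin : IsLocalMin g 0 := by
    refine isLocalMin_of_deriv_deriv_pos ?_ hd0 hgc
    rw [deriv2_line hu]; exact hcon
  have hconst : g =ᶠ[𝓝 0] fun _ => g 0 := by
    filter_upwards [hmax, hmin] with t h8 h9
    exact le_antisymm h8 h9
  have h10 : deriv (deriv g) 0 = 0 := by
    have h11 : deriv g =ᶠ[𝓝 0] fun _ => (0 : ℝ) := by
      have := hconst.deriv
      filter_upwards [this] with t ht
      rw [ht]; simp
    rw [h11.deriv_eq]; simp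
  rw [deriv2_line hu] at h10
  linarith

end line

/-! ### the Laplacian on `ℂ` -/

theorem lap_eq (u : ℂ → ℝ) (z : ℂ) :
    (Δ u) z = fderiv ℝ (fderiv ℝ u) z 1 1 + fderiv ℝ (fderiv ℝ u) z Complex.I Complex.I := by
  rw [laplacian_eq_iteratedFDeriv_complexPlane]
  simp [iteratedFDeriv_two_apply]

theorem lap_nonpos_of_isLocalMax {u : ℂ → ℝ} {z : ℂ} (hu : ContDiffAt ℝ 2 u z)
    (hm : IsLocalMax u z) : (Δ u) z ≤ 0 := by
  rw [lap_eq]
  have h1 := snd_nonpos_of_isLocalMax hu hm 1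
  have h2 := snd_nonpos_of_isLocalMax hu hm Complex.I
  linarith

/-- the Laplacian along a holomorphic map -/
theorem lap_comp {f : ℂ → ℝ} {h : ℂ → ℂ} {z : ℂ} (hf : ContDiffAt ℝ 2 f (h z))
    (hh : AnalyticAt ℂ h z) :
    (Δ (fun w => f (h w))) z = ‖deriv h z‖ ^ 2 * (Δ f) (h z) := by
  have hh2 : ContDiffAt ℝ 2 h z := (hh.contDiffAt (n := 2)).restrict_scalars ℝ
  have hev1 : ∀ᶠ w in 𝓝 z, AnalyticAt ℂ h w := hh.eventually_analyticAt
  have hev2 : ∀ᶠ w in 𝓝 z, ContDiffAt ℝ 2 f (h w) :=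
    hh.continuousAt.eventually (hf.eventually (by simp))
  have hfd : ∀ᶠ w in 𝓝 z, fderiv ℝ (fun w => f (h w)) w =
      (fderiv ℝ f (h w)).comp (((deriv h w) • (ContinuousLinearMap.id ℝ ℂ) : ℂ →L[ℝ] ℂ)) := by
    filter_upwards [hev1, hev2] with w h1 h2
    have h3 : HasFDerivAt h ((deriv h w) • (ContinuousLinearMap.id ℝ ℂ) : ℂ →L[ℝ] ℂ) w := by
      have := h1.differentiableAt.hasDerivAt.hasFDerivAt.restrictScalars ℝ
      refine this.congr_fderiv ?_
      (ext; simp [mul_comm])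
    exact ((h2.differentiableAt (by norm_num)).hasFDerivAt.comp w h3).fderiv
  have key : ∀ v : ℂ, fderiv ℝ (fderiv ℝ (fun w => f (h w))) z v v =
      fderiv ℝ (fderiv ℝ f) (h z) (deriv h z * v) (deriv h z * v) +
      fderiv ℝ f (h z) (deriv (deriv h) z * (v * v)) := by
    intro v
    have e1 : fderiv ℝ (fderiv ℝ (fun w => f (h w))) z v v =
        fderiv ℝ (fun w => fderiv ℝ (fun w => f (h w)) w v) z v := by
      have hc : ContDiffAt ℝ 2 (fun w => f (h w)) z := hf.comp z hh2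
      have h1 : ContDiffAt ℝ 1 (fderiv ℝ (fun w => f (h w))) z := hc.fderiv_right (by norm_num)
      rw [fderiv_clm_apply (h1.differentiableAt (by norm_num)) (differentiableAt_const _)]
      simp
    have e2 : (fun w => fderiv ℝ (fun w => f (h w)) w v) =ᶠ[𝓝 z]
        fun w => fderiv ℝ f (h w) (deriv h w * v) := by
      filter_upwards [hfd] with w hw
      rw [hw]; simp
    rw [e1, e2.fderiv_eq]
    have h1 : ContDiffAt ℝ 1 (fderiv ℝ f) (h z) := hf.fderiv_right (by norm_num)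
    have h2 : HasFDerivAt (fun w => fderiv ℝ f (h w))
        ((fderiv ℝ (fderiv ℝ f) (h z)).comp
          ((deriv h z) • (ContinuousLinearMap.id ℝ ℂ) : ℂ →L[ℝ] ℂ)) z := by
      refine ((h1.differentiableAt (by norm_num)).hasFDerivAt).comp z ?_
      have := hh.differentiableAt.hasDerivAt.hasFDerivAt.restrictScalars ℝ
      refine this.congr_fderiv ?_
      (ext; simp [mul_comm])
    have h3 : HasFDerivAt (fun w => deriv h w * v)
        (((deriv (deriv h) z) * v) • (ContinuousLinearMap.id ℝ ℂ) : ℂ →L[ℝ] ℂ) z := by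
      have h4 := (hh.deriv.differentiableAt.hasDerivAt.mul_const v).hasFDerivAt.restrictScalars ℝ
      refine h4.congr_fderiv ?_
      (ext; simp [mul_comm])
    have h5 := h2.clm_apply h3
    rw [h5.fderiv]
    simp
    ring_nf
  rw [lap_eq, lap_eq, key, key]
  have e3 : deriv (deriv h) z * ((1 : ℂ) * 1) = deriv (deriv h) z := by ring
  have e4 : deriv (deriv h) z * (Complex.I * Complex.I) = - deriv (deriv h) z := by
    rw [Complex.I_mul_I]; ring
  rw [e3, e4, map_neg]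
  set B := fderiv ℝ (fderiv ℝ f) (h z) with hB
  set a := (deriv h z).re with ha
  set b := (deriv h z).im with hb
  have e5 : deriv h z * 1 = a • (1 : ℂ) + b • Complex.I := by
    rw [mul_one, Complex.real_smul, Complex.real_smul, mul_one, ha, hb, Complex.re_add_im]
  have e6 : deriv h z * Complex.I = (-b) • (1 : ℂ) + a • Complex.I := by
    apply Complex.ext <;> simp [ha, hb]
  have e7 : ‖deriv h z‖ ^ 2 = a ^ 2 + b ^ 2 := by
    rw [← Complex.normSq_eq_norm_sq, Complex.normSq_apply]; ring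
  rw [e5, e6, e7]
  simp only [map_add, map_smul, add_apply, smul_apply,
    smul_eq_mul]
  ring

/-- `Δ log (r² - |z|²) = - 4 r² / (r² - |z|²)²` -/
theorem lap_log_sub {r : ℝ} {z : ℂ} (hz : ‖z‖ ^ 2 < r ^ 2) :
    (Δ (fun w : ℂ => Real.log (r ^ 2 - ‖w‖ ^ 2))) z = - 4 * r ^ 2 / (r ^ 2 - ‖z‖ ^ 2) ^ 2 := by
  have hc : ContDiffAt ℝ 2 (fun w : ℂ => Real.log (r ^ 2 - ‖w‖ ^ 2)) z := by
    refine ContDiffAt.log ?_ (by linarith)
    exact contDiffAt_const.sub (contDiff_norm_sq ℝ).contDiffAt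
  have key : ∀ v : ℂ, ‖v‖ = 1 → fderiv ℝ (fderiv ℝ (fun w : ℂ => Real.log (r ^ 2 - ‖w‖ ^ 2))) z v v =
      - 2 / (r ^ 2 - ‖z‖ ^ 2) - 4 * (z.re * v.re + z.im * v.im) ^ 2 / (r ^ 2 - ‖z‖ ^ 2) ^ 2 := by
    intro v hv
    rw [← deriv2_line hc]
    set a := r ^ 2 - ‖z‖ ^ 2 with ha
    have ha0 : 0 < a := by linarith
    set b := z.re * v.re + z.im * v.im with hb
    have hv2 : v.re ^ 2 + v.im ^ 2 = 1 := by
      have := Complex.normSq_eq_norm_sq v
      rw [hv, Complex.normSq_apply] at this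
      linarith
    have e1 : (fun t : ℝ => Real.log (r ^ 2 - ‖z + t • v‖ ^ 2)) =
        fun t => Real.log (a - 2 * b * t - t ^ 2) := by
      funext t
      congr 1
      have e2 : ‖z + t • v‖ ^ 2 = ‖z‖ ^ 2 + 2 * b * t + t ^ 2 := by
        rw [← Complex.normSq_eq_norm_sq, ← Complex.normSq_eq_norm_sq, Complex.normSq_apply,
          Complex.normSq_apply, hb]
        simp only [Complex.add_re, Complex.add_im, Complex.real_smul, Complex.mul_re,
          Complex.mul_im, Complex.ofReal_re, Complex.ofReal_im, zero_mul, sub_zero, add_zero]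
        linear_combination t ^ 2 * hv2
      rw [e2, ha]; ring
    rw [e1]
    have hpos : ∀ᶠ t in 𝓝 (0 : ℝ), 0 < a - 2 * b * t - t ^ 2 := by
      have : ContinuousAt (fun t : ℝ => a - 2 * b * t - t ^ 2) 0 := by fun_prop
      refine this.eventually (lt_mem_nhds ?_)
      simpa using ha0
    have hq : ∀ t : ℝ, HasDerivAt (fun t : ℝ => a - 2 * b * t - t ^ 2) (- 2 * b - 2 * t) t := by
      intro t
      have := (((hasDerivAt_id t).const_mul (2 * b)).const_sub a).sub ((hasDerivAt_id t).pow 2)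
      refine this.congr_deriv ?_
      simp
    have hd : deriv (fun t : ℝ => Real.log (a - 2 * b * t - t ^ 2)) =ᶠ[𝓝 0]
        fun t => (- 2 * b - 2 * t) / (a - 2 * b * t - t ^ 2) := by
      filter_upwards [hpos] with t ht
      exact ((hq t).log ht.ne').deriv
    rw [hd.deriv_eq]
    have hn : HasDerivAt (fun t : ℝ => - 2 * b - 2 * t) (-2) 0 := by
      have := ((hasDerivAt_id (0 : ℝ)).const_mul 2).const_sub (- 2 * b)
      simpa using this
    have h' := hn.fun_div (hq 0) (by simpa using ha0.ne')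
    rw [h'.deriv]
    simp only [mul_zero, sub_zero, ne_eq, OfNat.ofNat_ne_zero, not_false_eq_true, zero_pow]
    field_simp
    ring
  rw [lap_eq, key 1 (by simp), key Complex.I (by simp)]
  have ha0 : r ^ 2 - ‖z‖ ^ 2 ≠ 0 := by
    have : 0 < r ^ 2 - ‖z‖ ^ 2 := by linarith
    exact this.ne'
  have e7 : ‖z‖ ^ 2 = z.re ^ 2 + z.im ^ 2 := by
    rw [← Complex.normSq_eq_norm_sq, Complex.normSq_apply]; ring
  rw [e7] at ha0 ⊢
  simp only [Complex.one_re, Complex.one_im, Complex.I_re, Complex.I_im]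
  field_simp
  ring

/-! ### Ahlfors-Schwarz -/

/-- the hypothesis `Δ log g ≥ c g` where `g ≠ 0` -/
def Neg (c : ℝ) (g : ℂ → ℝ) (U : Set ℂ) : Prop :=
  ∀ z ∈ U, g z ≠ 0 → c * g z ≤ (Δ (fun w => Real.log (g w))) z

theorem ahlfors_lt {c r : ℝ} (hc : 0 < c) {g : ℂ → ℝ} (hr : 0 < r)
    (hcont : ContinuousOn g (closedBall 0 r)) (hC2 : ∀ z ∈ ball (0 : ℂ) r, ContDiffAt ℝ 2 g z)
    (h0 : ∀ z ∈ ball (0 : ℂ) r, 0 ≤ g z) (hneg : Neg c g (ball 0 r)) :
    ∀ z ∈ ball (0 : ℂ) r, g z * (r ^ 2 - ‖z‖ ^ 2) ^ 2 ≤ 8 * r ^ 2 / c := by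
  set F : ℂ → ℝ := fun z => g z * (r ^ 2 - ‖z‖ ^ 2) ^ 2 with hF
  have hFc : ContinuousOn F (closedBall 0 r) := by
    refine hcont.mul ?_
    fun_prop
  obtain ⟨z0, hz0, hmax⟩ := (isCompact_closedBall (0 : ℂ) r).exists_isMaxOn
    ⟨0, by simp [hr.le]⟩ hFc
  intro z hz
  have hle : F z ≤ F z0 := hmax (ball_subset_closedBall hz)
  refine hle.trans ?_
  by_cases hpos : F z0 ≤ 0
  · exact hpos.trans (by positivity)
  push Not at hpos
  have hz0b : z0 ∈ ball (0 : ℂ) r := by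
    rw [mem_ball_zero_iff]
    rw [mem_closedBall_zero_iff] at hz0
    rcases hz0.lt_or_eq with h | h
    · exact h
    · exfalso
      simp [hF, h] at hpos
  have hz0n : ‖z0‖ < r := by rwa [mem_ball_zero_iff] at hz0b
  have ha : 0 < r ^ 2 - ‖z0‖ ^ 2 := by nlinarith [norm_nonneg z0]
  have hg0 : 0 < g z0 := by
    rcases (h0 z0 hz0b).lt_or_eq with h | h
    · exact h
    · exfalso
      rw [hF] at hpos
      simp [← h] at hpos
  -- local max of `log g + 2 log (r² - |z|²)`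
  set P : ℂ → ℝ := fun w => Real.log (g w) with hP
  set Q : ℂ → ℝ := fun w => Real.log (r ^ 2 - ‖w‖ ^ 2) with hQ
  have hPc : ContDiffAt ℝ 2 P z0 := (hC2 z0 hz0b).log hg0.ne'
  have hQc : ContDiffAt ℝ 2 Q z0 := by
    refine ContDiffAt.log ?_ ha.ne'
    exact contDiffAt_const.sub (contDiff_norm_sq ℝ).contDiffAt
  have hloc : IsLocalMax (fun w => P w + (2 : ℝ) • Q w) z0 := by
    have h1 : ∀ᶠ w in 𝓝 z0, 0 < g w := (hC2 z0 hz0b).continuousAt.eventually (lt_mem_nhds hg0)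
    have h2 : ∀ᶠ w in 𝓝 z0, w ∈ ball (0 : ℂ) r := isOpen_ball.mem_nhds hz0b
    filter_upwards [h1, h2] with w hw1 hw2
    have hwn : ‖w‖ < r := by rwa [mem_ball_zero_iff] at hw2
    have haw : 0 < r ^ 2 - ‖w‖ ^ 2 := by nlinarith [norm_nonneg w]
    have h3 : F w ≤ F z0 := hmax (ball_subset_closedBall hw2)
    have h4 : ∀ x : ℂ, 0 < g x → 0 < r ^ 2 - ‖x‖ ^ 2 → P x + (2 : ℝ) • Q x = Real.log (F x) := by
      intro x hx1 hx2
      rw [hF]
      simp only [hP, hQ, smul_eq_mul]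
      rw [Real.log_mul hx1.ne' (by positivity), Real.log_pow]
      norm_num
    rw [h4 w hw1 haw, h4 z0 hg0 ha]
    exact Real.log_le_log (mul_pos hw1 (by positivity)) h3
  have hsum : (Δ (fun w => P w + (2 : ℝ) • Q w)) z0 = (Δ P) z0 + 2 * (Δ Q) z0 := by
    have h1 := hPc.laplacian_add (hQc.const_smul (2 : ℝ))
    have h2 : (Δ ((2 : ℝ) • Q)) z0 = (2 : ℝ) • (Δ Q) z0 := laplacian_smul (2 : ℝ) hQc
    have h3 : (fun w => P w + (2 : ℝ) • Q w) = P + (2 : ℝ) • Q := rfl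
    rw [h3]
    have h4 : (Δ (P + (2 : ℝ) • Q)) z0 = (Δ P) z0 + (Δ ((2 : ℝ) • Q)) z0 := h1
    rw [h4, h2, smul_eq_mul]
  have hle0 := lap_nonpos_of_isLocalMax (hPc.add (hQc.const_smul (2 : ℝ))) hloc
  rw [hsum, lap_log_sub (by linarith : ‖z0‖ ^ 2 < r ^ 2)] at hle0
  have hn := hneg z0 hz0b hg0.ne'
  have h5 : c * g z0 ≤ 8 * r ^ 2 / (r ^ 2 - ‖z0‖ ^ 2) ^ 2 := by
    have h6 : (8 * r ^ 2 / (r ^ 2 - ‖z0‖ ^ 2) ^ 2) = - (2 * (- 4 * r ^ 2 / (r ^ 2 - ‖z0‖ ^ 2) ^ 2)) := by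
      ring
    rw [h6]
    linarith
  rw [le_div_iff₀ (by positivity)] at h5
  rw [le_div_iff₀ hc, hF]
  linarith

/-- **Ahlfors-Schwarz on the disc of radius `R`** -/
theorem ahlfors {c R : ℝ} (hc : 0 < c) (hR : 0 < R) {g : ℂ → ℝ} {a : ℂ}
    (hC2 : ∀ z ∈ ball a R, ContDiffAt ℝ 2 g z)
    (h0 : ∀ z ∈ ball a R, 0 ≤ g z) (hneg : Neg c g (ball a R)) {z : ℂ} (hz : z ∈ ball a R) :
    g z ≤ 8 * R ^ 2 / (c * (R ^ 2 - ‖z - a‖ ^ 2) ^ 2) := by
  -- translate to `a = 0`
  set G : ℂ → ℝ := fun w => g (a + w) with hG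
  have hmem : ∀ w, w ∈ ball (0 : ℂ) R ↔ a + w ∈ ball a R := by
    intro w; simp
  have hGC2 : ∀ w ∈ ball (0 : ℂ) R, ContDiffAt ℝ 2 G w := by
    intro w hw
    have := hC2 _ ((hmem w).1 hw)
    exact this.comp w (contDiffAt_const.add contDiffAt_id)
  have hGneg : Neg c G (ball 0 R) := by
    intro w hw hgw
    have h1 := hneg _ ((hmem w).1 hw) hgw
    have hlog : ContDiffAt ℝ 2 (fun x => Real.log (g x)) (a + w) :=
      (hC2 _ ((hmem w).1 hw)).log hgw
    have h2 : (Δ (fun x => Real.log (G x))) w = (Δ (fun x => Real.log (g x))) (a + w) := by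
      have h3 := lap_comp (f := fun x => Real.log (g x)) (h := fun x => a + x) (z := w) hlog
        (analyticAt_const.add analyticAt_id)
      have h4 : deriv (fun x : ℂ => a + x) w = 1 := by simp
      rw [h4] at h3
      simpa using h3
    rw [h2]
    exact h1
  set w0 : ℂ := z - a with hw0
  have hzw : z = a + w0 := by rw [hw0]; ring
  have hw0b : w0 ∈ ball (0 : ℂ) R := by rw [hmem, ← hzw]; exact hz
  have hw0n : ‖w0‖ < R := by rwa [mem_ball_zero_iff] at hw0b
  have hmain : ∀ r : ℝ, ‖w0‖ < r → r < R → G w0 * (r ^ 2 - ‖w0‖ ^ 2) ^ 2 ≤ 8 * r ^ 2 / c := by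
    intro r hr1 hr2
    have hr0 : 0 < r := (norm_nonneg _).trans_lt hr1
    have hsub : closedBall (0 : ℂ) r ⊆ ball 0 R := closedBall_subset_ball hr2
    refine ahlfors_lt hc hr0 (fun w hw => (hGC2 w (hsub hw)).continuousAt.continuousWithinAt)
      (fun w hw => hGC2 w (hsub (ball_subset_closedBall hw)))
      (fun w hw => h0 _ ((hmem w).1 (hsub (ball_subset_closedBall hw))))
      (fun w hw => hGneg w (hsub (ball_subset_closedBall hw))) w0 (by rwa [mem_ball_zero_iff])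
  have hlim1 : Tendsto (fun r : ℝ => G w0 * (r ^ 2 - ‖w0‖ ^ 2) ^ 2) (𝓝[<] R)
      (𝓝 (G w0 * (R ^ 2 - ‖w0‖ ^ 2) ^ 2)) := by
    have : Continuous (fun r : ℝ => G w0 * (r ^ 2 - ‖w0‖ ^ 2) ^ 2) := by fun_prop
    exact (this.tendsto R).mono_left nhdsWithin_le_nhds
  have hlim2 : Tendsto (fun r : ℝ => 8 * r ^ 2 / c) (𝓝[<] R) (𝓝 (8 * R ^ 2 / c)) := by
    have : Continuous (fun r : ℝ => 8 * r ^ 2 / c) := by fun_prop
    exact (this.tendsto R).mono_left nhdsWithin_le_nhds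
  have hfin : G w0 * (R ^ 2 - ‖w0‖ ^ 2) ^ 2 ≤ 8 * R ^ 2 / c := by
    refine le_of_tendsto_of_tendsto hlim1 hlim2 ?_
    have : Ioo ‖w0‖ R ∈ 𝓝[<] R := Ioo_mem_nhdsLT hw0n
    filter_upwards [this] with r hr
    exact hmain r hr.1 hr.2
  have ha : 0 < R ^ 2 - ‖w0‖ ^ 2 := by nlinarith [norm_nonneg w0]
  have hGz : G w0 = g z := by rw [hG, hzw]
  rw [hGz] at hfin
  rw [le_div_iff₀ (by positivity)]
  rw [le_div_iff₀ hc] at hfin
  linarith

/-- the bound at the centre -/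
theorem ahlfors_center {c R : ℝ} (hc : 0 < c) (hR : 0 < R) {g : ℂ → ℝ} {a : ℂ}
    (hC2 : ∀ z ∈ ball a R, ContDiffAt ℝ 2 g z)
    (h0 : ∀ z ∈ ball a R, 0 ≤ g z) (hneg : Neg c g (ball a R)) :
    g a ≤ 8 / (c * R ^ 2) := by
  have := ahlfors hc hR hC2 h0 hneg (mem_ball_self hR)
  refine this.trans (le_of_eq ?_)
  simp only [sub_self, norm_zero, ne_eq, OfNat.ofNat_ne_zero, not_false_eq_true, zero_pow, sub_zero]
  field_simp

/-- half plane version -/
theorem ahlfors_halfplane {c : ℝ} (hc : 0 < c) {g : ℂ → ℝ} {A : ℝ}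
    (hC2 : ∀ z : ℂ, z.re < A → ContDiffAt ℝ 2 g z)
    (h0 : ∀ z : ℂ, z.re < A → 0 ≤ g z) (hneg : Neg c g {z | z.re < A}) {w : ℂ} (hw : w.re < A) :
    g w ≤ 8 / (c * (A - w.re) ^ 2) := by
  have hsub : ∀ z ∈ ball w (A - w.re), z.re < A := by
    intro z hz
    rw [mem_ball_iff_norm] at hz
    have h1 := (Complex.abs_re_le_norm (z - w)).trans_lt hz
    rw [Complex.sub_re] at h1
    have := (abs_lt.1 h1).2
    linarith
  exact ahlfors_center hc (by linarith) (fun z hz => hC2 z (hsub z hz))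
    (fun z hz => h0 z (hsub z hz)) (fun z hz => hneg z (hsub z hz))

/-- **Ahlfors-Schwarz on the punctured disc** of radius `R` -/
theorem ahlfors_punctured {c R : ℝ} (hc : 0 < c) (hR : 0 < R) {g : ℂ → ℝ}
    (hC2 : ∀ z ∈ ball (0 : ℂ) R \ {0}, ContDiffAt ℝ 2 g z)
    (h0 : ∀ z ∈ ball (0 : ℂ) R \ {0}, 0 ≤ g z) (hneg : Neg c g (ball 0 R \ {0})) {z : ℂ}
    (hz : z ∈ ball (0 : ℂ) R \ {0}) :
    g z ≤ 8 / (c * ‖z‖ ^ 2 * (Real.log (R / ‖z‖)) ^ 2) := by
  set G : ℂ → ℝ := fun w => g (Complex.exp w) * Real.exp (2 * w.re) with hG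
  have hmem : ∀ w : ℂ, w.re < Real.log R → Complex.exp w ∈ ball (0 : ℂ) R \ {0} := by
    intro w hw
    refine ⟨?_, by simp [Complex.exp_ne_zero]⟩
    rw [mem_ball_zero_iff, Complex.norm_exp]
    calc Real.exp w.re < Real.exp (Real.log R) := Real.exp_lt_exp.2 hw
      _ = R := Real.exp_log hR
  have hexp : ∀ w : ℂ, AnalyticAt ℂ Complex.exp w := fun w => analyticAt_cexp
  have hexp2 : ∀ w : ℂ, ContDiffAt ℝ 2 Complex.exp w := fun w =>
    ((hexp w).contDiffAt (n := 2)).restrict_scalars ℝ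
  have hre2 : ∀ w : ℂ, ContDiffAt ℝ 2 (fun w : ℂ => Real.exp (2 * w.re)) w := by
    intro w
    refine ContDiffAt.exp (contDiffAt_const.mul ?_)
    exact Complex.reCLM.contDiff.contDiffAt
  have hGC2 : ∀ w : ℂ, w.re < Real.log R → ContDiffAt ℝ 2 G w := by
    intro w hw
    exact ((hC2 _ (hmem w hw)).comp w (hexp2 w)).mul (hre2 w)
  have hG0 : ∀ w : ℂ, w.re < Real.log R → 0 ≤ G w := by
    intro w hw
    exact mul_nonneg (h0 _ (hmem w hw)) (Real.exp_pos _).le
  have hGneg : Neg c G {w | w.re < Real.log R} := by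
    intro w hw hgw
    rw [mem_ofPred_eq] at hw
    have hgw' : g (Complex.exp w) ≠ 0 := fun h => hgw (by simp [hG, h])
    have hlog : ContDiffAt ℝ 2 (fun x => Real.log (g x)) (Complex.exp w) :=
      (hC2 _ (hmem w hw)).log hgw'
    have hev : (fun x => Real.log (G x)) =ᶠ[𝓝 w]
        (fun x => Real.log (g (Complex.exp x))) + (2 : ℝ) • (fun x : ℂ => x.re) := by
      have h1 : ∀ᶠ x in 𝓝 w, g (Complex.exp x) ≠ 0 := by
        have : ContinuousAt (fun x => g (Complex.exp x)) w :=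
          ((hC2 _ (hmem w hw)).comp w (hexp2 w)).continuousAt
        exact this.eventually_ne hgw'
      filter_upwards [h1] with x hx
      simp only [hG, Pi.add_apply, Pi.smul_apply, smul_eq_mul]
      rw [Real.log_mul hx (Real.exp_pos _).ne', Real.log_exp]
    rw [laplacian_congr_nhds hev |>.self_of_nhds]
    have hre : ContDiffAt ℝ 2 (fun x : ℂ => x.re) w := Complex.reCLM.contDiff.contDiffAt
    have h2 : (Δ ((fun x => Real.log (g (Complex.exp x))) + (2 : ℝ) • (fun x : ℂ => x.re))) w =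
        (Δ (fun x => Real.log (g (Complex.exp x)))) w + (Δ ((2 : ℝ) • (fun x : ℂ => x.re))) w :=
      ContDiffAt.laplacian_add (hlog.comp w (hexp2 w)) (hre.const_smul (2 : ℝ))
    have h3 : (Δ ((2 : ℝ) • (fun x : ℂ => x.re))) w = (2 : ℝ) • (Δ (fun x : ℂ => x.re)) w :=
      laplacian_smul (2 : ℝ) hre
    have h4 : (Δ (fun x : ℂ => x.re)) w = 0 := by
      rw [lap_eq]
      have h5 : fderiv ℝ (fun x : ℂ => x.re) = fun _ => Complex.reCLM := by
        funext x
        exact Complex.reCLM.hasFDerivAt.fderiv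
      rw [h5]
      simp
    have h6 := lap_comp (f := fun x => Real.log (g x)) (h := Complex.exp) (z := w) hlog (hexp w)
    rw [h2, h3, h4, smul_zero, add_zero, h6, Complex.deriv_exp]
    have h7 := hneg _ (hmem w hw) hgw'
    have h8 : ‖Complex.exp w‖ ^ 2 = Real.exp (2 * w.re) := by
      rw [Complex.norm_exp, ← Real.exp_nat_mul]; norm_num
    rw [h8]
    have h9 : c * G w = Real.exp (2 * w.re) * (c * g (Complex.exp w)) := by rw [hG]; ring
    rw [h9]
    exact mul_le_mul_of_nonneg_left h7 (Real.exp_pos _).le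
  have hz0 : z ≠ 0 := hz.2
  have hzn : ‖z‖ < R := by
    have := hz.1
    rwa [mem_ball_zero_iff] at this
  have hzp : 0 < ‖z‖ := norm_pos_iff.2 hz0
  have hwre : (Complex.log z).re < Real.log R := by
    rw [Complex.log_re]
    exact Real.log_lt_log hzp hzn
  have hfin := ahlfors_halfplane hc hGC2 hG0 hGneg hwre
  have hGz : G (Complex.log z) = g z * ‖z‖ ^ 2 := by
    simp only [hG]
    rw [Complex.exp_log hz0, Complex.log_re]
    congr 1
    rw [show 2 * Real.log ‖z‖ = Real.log (‖z‖ ^ 2) by rw [Real.log_pow]; norm_num]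
    exact Real.exp_log (by positivity)
  rw [hGz, Complex.log_re, ← Real.log_div hR.ne' hzp.ne'] at hfin
  have hlogpos : 0 < Real.log (R / ‖z‖) := Real.log_pos (by rwa [one_lt_div hzp])
  rw [le_div_iff₀ (by positivity)] at hfin ⊢
  linarith

end Crest.Agent.R276.Ahl_25
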