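import Crest.Agent.R276.VCalcC_442
import Crest.Agent.R276.Ahl_25

/-!
# R276, leaf AHL2 (helper659): the Higgs field of a polarised VHS is bounded by the Poincaré metric

`gg w P v x = tr (θ_v θ̄_v) (x) = |θ_v|²`.

* `dW_comp`, `VHS.pull` : pull-back of a VHS along a holomorphic map;
* `c1` : `c g³ ≤ g ∂∂̄g - |∂g|²` in one variable, and `neg`: `Δ log g ≥ 4 c g`;
* `gg_le_disc`, `gg_le_halfplane`, `gg_le_map` : the Ahlfors-Schwarz bounds.
-/

set_option autoImplicit false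
set_option linter.unusedSectionVars false

open Set Filter Topology Matrix Finset InnerProductSpace Laplacian
open scoped ContDiff ComplexConjugate ComplexOrder

namespace Crest.Agent.R276.EndTh_659

open Crest.Agent.R276.VCalc_442 Crest.Agent.R276.Ahl_25

section comp

variable {X Y A : Type*} [NormedAddCommGroup X] [NormedSpace ℂ X]
  [NormedAddCommGroup Y] [NormedSpace ℂ Y] [NormedAddCommGroup A] [NormedSpace ℂ A]

theorem fderiv_comp_holo {F : X → A} {f : Y → X} {y : Y} (hF : DifferentiableAt ℝ F (f y))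
    (hf : DifferentiableAt ℂ f y) (v : Y) :
    fderiv ℝ (fun y => F (f y)) y v = fderiv ℝ F (f y) (fderiv ℂ f y v) := by
  have h1 : HasFDerivAt f ((fderiv ℂ f y).restrictScalars ℝ) y :=
    hf.hasFDerivAt.restrictScalars ℝ
  have h2 := (hF.hasFDerivAt.comp y h1).fderiv
  have h3 : fderiv ℝ (fun y => F (f y)) y = (fderiv ℝ F (f y)).comp
      ((fderiv ℂ f y).restrictScalars ℝ) := h2
  rw [h3]
  rfl

theorem dW_comp {F : X → A} {f : Y → X} {y : Y} (hF : DifferentiableAt ℝ F (f y))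
    (hf : DifferentiableAt ℂ f y) (v : Y) :
    dW (fun y => F (f y)) v y = dW F (fderiv ℂ f y v) (f y) := by
  unfold dW
  rw [fderiv_comp_holo hF hf, fderiv_comp_holo hF hf, map_smul]

theorem dB_comp {F : X → A} {f : Y → X} {y : Y} (hF : DifferentiableAt ℝ F (f y))
    (hf : DifferentiableAt ℂ f y) (v : Y) :
    dB (fun y => F (f y)) v y = dB F (fderiv ℂ f y v) (f y) := by
  unfold dB
  rw [fderiv_comp_holo hF hf, fderiv_comp_holo hF hf, map_smul]

end comp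

section lap

/-- the Laplacian as `4 ∂∂̄` -/
theorem lap_dB_dW {u : ℂ → ℝ} {z : ℂ} (hu : ContDiffAt ℝ 2 u z) :
    dB (dW (fun y => (u y : ℂ)) 1) 1 z = (((Δ u) z / 4 : ℝ) : ℂ) := by
  set f : ℂ → ℂ := fun y => (u y : ℂ) with hf
  have hfc : ContDiffAt ℝ 2 f z := Complex.ofRealCLM.contDiff.contDiffAt.comp z hu
  have h1 : DifferentiableAt ℝ (fderiv ℝ f) z :=
    (hfc.fderiv_right (m := 1) (by norm_num)).differentiableAt (by simp)
  have h2 : ∀ v : ℂ, DifferentiableAt ℝ (fun y => fderiv ℝ f y v) z :=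
    fun v => h1.clm_apply (differentiableAt_const v)
  -- second derivatives of `f` in terms of those of `u`
  have hev : ∀ᶠ y in 𝓝 z, ∀ v, fderiv ℝ f y v = ((fderiv ℝ u y v : ℝ) : ℂ) := by
    have h3 : ∀ᶠ y in 𝓝 z, ContDiffAt ℝ 2 u y := hu.eventually (by simp)
    filter_upwards [h3] with y hy v
    have h4 := (Complex.ofRealCLM.hasFDerivAt.comp y
      (hy.differentiableAt (by norm_num)).hasFDerivAt).fderiv
    have h5 : fderiv ℝ f y = Complex.ofRealCLM.comp (fderiv ℝ u y) := h4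
    rw [h5]
    rfl
  have h6 : DifferentiableAt ℝ (fderiv ℝ u) z :=
    (hu.fderiv_right (m := 1) (by norm_num)).differentiableAt (by simp)
  have hsec : ∀ v w : ℂ, fderiv ℝ (fun y => fderiv ℝ f y v) z w =
      ((fderiv ℝ (fderiv ℝ u) z w v : ℝ) : ℂ) := by
    intro v w
    have h7 : (fun y => fderiv ℝ f y v) =ᶠ[𝓝 z] fun y => ((fderiv ℝ u y v : ℝ) : ℂ) := by
      filter_upwards [hev] with y hy using hy v
    have h8 : HasFDerivAt (fun y => fderiv ℝ u y v)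
        ((ContinuousLinearMap.apply ℝ ℝ v).comp (fderiv ℝ (fderiv ℝ u) z)) z :=
      (ContinuousLinearMap.apply ℝ ℝ v).hasFDerivAt.comp z h6.hasFDerivAt
    have h9 := (Complex.ofRealCLM.hasFDerivAt.comp z h8).fderiv
    have h10 : fderiv ℝ (fun y => ((fderiv ℝ u y v : ℝ) : ℂ)) z = Complex.ofRealCLM.comp
        ((ContinuousLinearMap.apply ℝ ℝ v).comp (fderiv ℝ (fderiv ℝ u) z)) := h9
    rw [h7.fderiv_eq, h10]
    rfl
  have e : fderiv ℝ (dW f 1) z = (1 / 2 : ℂ) • (fderiv ℝ (fun y => fderiv ℝ f y 1) z -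
      Complex.I • fderiv ℝ (fun y => fderiv ℝ f y (Complex.I • 1)) z) :=
    (((h2 1).hasFDerivAt.sub ((h2 (Complex.I • 1)).hasFDerivAt.const_smul
      Complex.I)).const_smul (1 / 2 : ℂ)).fderiv
  have hsym : fderiv ℝ (fderiv ℝ u) z 1 Complex.I = fderiv ℝ (fderiv ℝ u) z Complex.I 1 :=
    (hu.isSymmSndFDerivAt (by simp)) _ _
  unfold dB
  rw [e, lap_eq]
  simp only [_root_.smul_apply, _root_.sub_apply, hsec, smul_eq_mul, mul_one, hsym]
  push_cast
  linear_combination (-(1 / 4 : ℂ)) * ((fderiv ℝ (fderiv ℝ u) z Complex.I Complex.I : ℝ) : ℂ) *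
    Complex.I_mul_I

/-- `4 |∂u|² = |∇u|²` -/
theorem norm_dW_sq {u : ℂ → ℝ} {z : ℂ} (hu : DifferentiableAt ℝ u z) :
    4 * ‖dW (fun y => (u y : ℂ)) 1 z‖ ^ 2 = (fderiv ℝ u z 1) ^ 2 + (fderiv ℝ u z Complex.I) ^ 2 := by
  have h4 := (Complex.ofRealCLM.hasFDerivAt.comp z hu.hasFDerivAt).fderiv
  have h5 : fderiv ℝ (fun y => (u y : ℂ)) z = Complex.ofRealCLM.comp (fderiv ℝ u z) := h4
  unfold dW
  rw [h5]
  simp only [ContinuousLinearMap.comp_apply, Complex.ofRealCLM_apply, smul_eq_mul, mul_one]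
  rw [← Complex.normSq_eq_norm_sq, Complex.normSq_apply]
  simp
  ring

/-- the second derivative of `log u` -/
theorem lap_log {u : ℂ → ℝ} {z : ℂ} (hu : ContDiffAt ℝ 2 u z) (h0 : 0 < u z) :
    (Δ (fun w => Real.log (u w))) z =
      ((Δ u) z * u z - 4 * ‖dW (fun y => (u y : ℂ)) 1 z‖ ^ 2) / (u z) ^ 2 := by
  have hc : ContDiffAt ℝ 2 (fun w => Real.log (u w)) z := hu.log h0.ne'
  have key : ∀ v : ℂ, fderiv ℝ (fderiv ℝ (fun w => Real.log (u w))) z v v =
      (fderiv ℝ (fderiv ℝ u) z v v * u z - (fderiv ℝ u z v) ^ 2) / (u z) ^ 2 := by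
    intro v
    rw [← deriv2_line hc]
    set f : ℝ → ℝ := fun t => u (z + t • v) with hf
    have hf0 : f 0 = u z := by simp [hf]
    have hd1 : ∀ᶠ t in 𝓝 (0:ℝ), HasDerivAt f (fderiv ℝ u (z + t • v) v) t := by
      have hev : ∀ᶠ w in 𝓝 z, ContDiffAt ℝ 2 u w := hu.eventually (by simp)
      filter_upwards [(tendsto_line z v).eventually hev] with t ht
      exact (ht.differentiableAt (by norm_num)).hasFDerivAt.comp_hasDerivAt t
        (hasDerivAt_line z v t)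
    have hpos : ∀ᶠ t in 𝓝 (0:ℝ), 0 < f t := by
      have hcont : ContinuousAt f 0 := (hd1.self_of_nhds).continuousAt
      exact hcont.eventually (lt_mem_nhds (by rw [hf0]; exact h0))
    have hd : deriv (fun t : ℝ => Real.log (f t)) =ᶠ[𝓝 0]
        fun t => fderiv ℝ u (z + t • v) v / f t := by
      filter_upwards [hpos, hd1] with t ht ht1
      exact (ht1.log ht.ne').deriv
    have hd' : deriv (fun t : ℝ => Real.log (u (z + t • v))) =ᶠ[𝓝 0]
        fun t => fderiv ℝ u (z + t • v) v / f t := hd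
    rw [hd'.deriv_eq]
    have h2 := hasDerivAt_line2 (v := v) hu
    have h3 := h2.fun_div (hd1.self_of_nhds) (by rw [hf0]; exact h0.ne')
    rw [h3.deriv, hf0]
    simp only [zero_smul, add_zero]
    ring
  rw [lap_eq, key, key, norm_dW_sq (hu.differentiableAt (by norm_num)), lap_eq]
  ring

end lap

section gen

variable {R : Type*} [NormedRing R] [NormedAlgebra ℂ R]
variable {X : Type*} [NormedAddCommGroup X] [NormedSpace ℂ X]
variable (tr : R →L[ℂ] ℂ)

theorem gr_smooth {U : Set X} {E : X → R} (h : Gr U E) (v : X) {u : X → ℝ}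
    (hu : ∀ y ∈ U, ((u y : ℝ) : ℂ) = tr (dW E v y * tb E v y)) : ContDiffOn ℝ ∞ u U := by
  have h1 : ContDiffOn ℝ ∞ (fun x => dW E v x * tb E v x) U := (h.sm_th v).mul (h.sm_tb v)
  have h2 : ContDiffOn ℝ ∞ (fun x => (tr.restrictScalars ℝ) (dW E v x * tb E v x)) U :=
    (tr.restrictScalars ℝ).contDiff.comp_contDiffOn h1
  have h3 : ContDiffOn ℝ ∞ (fun x => Complex.reCLM
      ((tr.restrictScalars ℝ) (dW E v x * tb E v x))) U :=
    Complex.reCLM.contDiff.comp_contDiffOn h2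
  refine h3.congr fun y hy => ?_
  exact congrArg Complex.re (hu y hy)

theorem gr_dW {U : Set ℂ} {E : ℂ → R} (h : Gr U E) (htr : ∀ a b, tr (a * b) = tr (b * a))
    {u : ℂ → ℝ} (hu : ∀ y ∈ U, ((u y : ℝ) : ℂ) = tr (dW E 1 y * tb E 1 y)) {z : ℂ} (hz : z ∈ U) :
    dW (fun y => ((u y : ℝ) : ℂ)) 1 z = tr (dW (dW E 1) 1 z * tb E 1 z) := by
  have hev : (fun y => ((u y : ℝ) : ℂ)) =ᶠ[𝓝 z] fun y => tr (dW E 1 y * tb E 1 y) :=
    Filter.eventually_of_mem (h.op.mem_nhds hz) hu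
  rw [dW_congr hev 1, h.dW_G tr htr hz]

theorem gr_lap {U : Set ℂ} {E : ℂ → R} (h : Gr U E) (htr : ∀ a b, tr (a * b) = tr (b * a))
    {u : ℂ → ℝ} (hu : ∀ y ∈ U, ((u y : ℝ) : ℂ) = tr (dW E 1 y * tb E 1 y)) {z : ℂ} (hz : z ∈ U) :
    (((Δ u) z / 4 : ℝ) : ℂ) = tr ((tb E 1 z * dW E 1 z - dW E 1 z * tb E 1 z) *
        (tb E 1 z * dW E 1 z - dW E 1 z * tb E 1 z)) +
      tr (dW (dW E 1) 1 z * dB (tb E 1) 1 z) := by
  have hC2 : ContDiffAt ℝ 2 u z :=
    ((gr_smooth tr h 1 hu).contDiffAt (h.op.mem_nhds hz)).of_le ENat.LEInfty.out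
  have hev2 : dW (fun y => ((u y : ℝ) : ℂ)) 1 =ᶠ[𝓝 z] dW (fun y => tr (dW E 1 y * tb E 1 y)) 1 :=
    Filter.eventually_of_mem (h.op.mem_nhds hz) fun y hy => dW_congr
      (Filter.eventually_of_mem (h.op.mem_nhds hy) hu) 1
  rw [← lap_dB_dW hC2, dB_congr hev2, h.dB_dW_G tr htr hz]

end gen

section vhs

variable {X : Type*} [NormedAddCommGroup X] [NormedSpace ℂ X]
variable {Y : Type*} [NormedAddCommGroup Y] [NormedSpace ℂ Y]
variable {ι : Type*} [Fintype ι] [DecidableEq ι]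

/-- `|θ_v|²` -/
noncomputable def gg (w : ℕ) (P : ℕ → X → Matrix ι ι ℂ) (v x : X) : ℝ :=
  (th w P v x * thb w P v x).trace.re

attribute [local instance] Matrix.linftyOpNormedRing Matrix.linftyOpNormedAlgebra

variable {w : ℕ} {U : Set X} {S : Matrix ι ι ℂ} {P : ℕ → X → Matrix ι ι ℂ} {x : X}

/-- pull-back of a VHS along a holomorphic map -/
theorem pull (h : VHS w U S P) {V : Set Y} (hV : IsOpen V) {f : Y → X}
    (hf : ContDiffOn ℂ ∞ f V) (hm : MapsTo f V U) : VHS w V S (fun p y => P p (f y)) where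
  op := hV
  sm := by
    intro p i j
    exact (h.sm p i j).comp (hf.restrict_scalars ℝ) hm
  idem := fun y hy p => h.idem _ (hm hy) p
  orth := fun y hy p q hpq => h.orth _ (hm hy) p q hpq
  top := fun y hy p hp => h.top _ (hm hy) p hp
  sum := fun y hy => h.sum _ (hm hy)
  herm := h.herm
  adj := fun y hy p => h.adj _ (hm hy) p
  pos := fun y hy => h.pos _ (hm hy)
  hor := by
    intro y hy v
    have hd : DifferentiableAt ℂ f y :=
      (hf.contDiffAt (hV.mem_nhds hy)).differentiableAt (by simp)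
    have e : mW (grOp w fun p y => P p (f y)) v y = mW (grOp w P) (fderiv ℂ f y v) (f y) := by
      ext i j
      exact dW_comp (F := fun x => grOp w P x i j)
        ((differentiableAt_matrix.1 (h.dE (hm hy))) i j) hd v
    rw [e]
    exact h.hor _ (hm hy) _

/-- the Higgs field of the pull-back -/
theorem th_pull (h : VHS w U S P) {f : Y → X} {y : Y} (hy : f y ∈ U)
    (hd : DifferentiableAt ℂ f y) (v : Y) :
    th w (fun p y => P p (f y)) v y = th w P (fderiv ℂ f y v) (f y) := by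
  ext i j
  exact dW_comp (F := fun x => grOp w P x i j)
    ((differentiableAt_matrix.1 (h.dE hy)) i j) hd v

theorem thb_pull (h : VHS w U S P) {f : Y → X} {y : Y} (hy : f y ∈ U)
    (hd : DifferentiableAt ℂ f y) (v : Y) :
    thb w (fun p y => P p (f y)) v y = thb w P (fderiv ℂ f y v) (f y) := by
  unfold thb
  congr 1
  ext i j
  exact dB_comp (F := fun x => grOp w P x i j)
    ((differentiableAt_matrix.1 (h.dE hy)) i j) hd v

theorem gg_pull (h : VHS w U S P) {f : Y → X} {y : Y} (hy : f y ∈ U)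
    (hd : DifferentiableAt ℂ f y) (v : Y) :
    gg w (fun p y => P p (f y)) v y = gg w P (fderiv ℂ f y v) (f y) := by
  unfold gg
  rw [th_pull h hy hd, thb_pull h hy hd]

theorem gg_eq (h : VHS w U S P) (hx : x ∈ U) (v : X) :
    ((gg w P v x : ℝ) : ℂ) = (dW (grOp w P) v x * tb (grOp w P) v x).trace := by
  have h1 := (h.adj_th_tb hx v).trace_im (h.hmPos hx)
  unfold gg
  rw [h.th_eq hx, h.thb_eq hx]
  apply Complex.ext
  · simp
  · rw [h1]; simp

theorem gg_nonneg (h : VHS w U S P) (hx : x ∈ U) (v : X) : 0 ≤ gg w P v x := by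
  unfold gg
  rw [h.th_eq hx, h.thb_eq hx]
  exact (h.adj_th_tb hx v).trace_re_nonneg (h.hmPos hx)

theorem sm_gg (h : VHS w U S P) (v : X) : ContDiffOn ℝ ∞ (fun x => gg w P v x) U :=
  gr_smooth trL h.gr v (fun _ hy => gg_eq h hy v)

/-- **(C1) in one variable** -/
theorem c1 (ι : Type*) [Fintype ι] [DecidableEq ι] : ∃ c : ℝ, 0 < c ∧
    ∀ (w : ℕ) (U : Set ℂ) (S : Matrix ι ι ℂ) (P : ℕ → ℂ → Matrix ι ι ℂ), VHS w U S P →
      ∀ z ∈ U, c * (gg w P 1 z) ^ 3 + 4 * ‖dW (fun y => ((gg w P 1 y : ℝ) : ℂ)) 1 z‖ ^ 2 ≤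
        (Δ (fun y => gg w P 1 y)) z * gg w P 1 z := by
  obtain ⟨c, hc, hnil⟩ := nil_bound_adj ι
  refine ⟨4 * c, by positivity, fun w U S P h z hz => ?_⟩
  have hK := h.hmPos hz
  have hadj := h.adj_th_tb hz 1
  have hadj2 := h.adj_dth hz 1 1
  have hg : gg w P 1 z = (dW (grOp w P) 1 z * tb (grOp w P) 1 z).trace.re := by
    unfold gg
    rw [h.th_eq hz, h.thb_eq hz]
  have hlap := gr_lap trL h.gr trL_comm (u := fun y => gg w P 1 y) (fun _ hy => gg_eq h hy 1) hz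
  have hd := gr_dW trL h.gr trL_comm (u := fun y => gg w P 1 y) (fun _ hy => gg_eq h hy 1) hz
  set t := dW (grOp w P) 1 z with ht
  set s := tb (grOp w P) 1 z with hs
  set e := dW (dW (grOp w P) 1) 1 z with he
  set e' := dB (tb (grOp w P) 1) 1 z with he'
  have hnilp : IsNilpotent t := h.low_nilpotent hz (h.low_th hz 1)
  have h1 := hnil _ t s hK hadj hnilp
  have h2 := hadj2.cauchy hK hadj
  have hd' : dW (fun y => ((gg w P 1 y : ℝ) : ℂ)) 1 z = (e * s).trace := hd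
  have hlap' : (((Δ (fun y => gg w P 1 y)) z / 4 : ℝ) : ℂ) =
      ((s * t - t * s) * (s * t - t * s)).trace + (e * e').trace := hlap
  have h3 : (Δ (fun y => gg w P 1 y)) z = 4 * (((s * t - t * s) * (s * t - t * s)).trace.re +
      (e * e').trace.re) := by
    have h4 := congrArg Complex.re hlap'
    rw [Complex.ofReal_re, Complex.add_re] at h4
    linarith
  have hg0 : 0 ≤ gg w P 1 z := gg_nonneg h hz 1
  rw [← hg] at h1 h2
  rw [h3, hd']
  have h6 := mul_le_mul_of_nonneg_right h1 hg0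
  nlinarith [h2, h6]

/-- `Δ log g ≥ c g` -/
theorem neg (ι : Type*) [Fintype ι] [DecidableEq ι] : ∃ c : ℝ, 0 < c ∧
    ∀ (w : ℕ) (U : Set ℂ) (S : Matrix ι ι ℂ) (P : ℕ → ℂ → Matrix ι ι ℂ), VHS w U S P →
      Neg c (fun y => gg w P 1 y) U := by
  obtain ⟨c, hc, h1⟩ := c1 ι
  refine ⟨c, hc, fun w U S P h z hz h0 => ?_⟩
  have hpos : 0 < gg w P 1 z := lt_of_le_of_ne (gg_nonneg h hz 1) (Ne.symm h0)
  have hC2 : ContDiffAt ℝ 2 (fun y => gg w P 1 y) z :=
    ((sm_gg h 1).contDiffAt (h.op.mem_nhds hz)).of_le ENat.LEInfty.out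
  rw [lap_log hC2 hpos, le_div_iff₀ (by positivity)]
  have := h1 w U S P h z hz
  nlinarith

/-- the constant of the Ahlfors-Schwarz estimates -/
noncomputable def cst (ι : Type*) [Fintype ι] [DecidableEq ι] : ℝ := 8 / Classical.choose (neg ι)

theorem cst_pos (ι : Type*) [Fintype ι] [DecidableEq ι] : 0 < cst ι :=
  div_pos (by norm_num) (Classical.choose_spec (neg ι)).1

/-- **AHL2 on a half plane** -/
theorem gg_le_halfplane {A : ℝ} {P : ℕ → ℂ → Matrix ι ι ℂ} (h : VHS w {z : ℂ | z.re < A} S P)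
    {z : ℂ} (hz : z.re < A) : gg w P 1 z ≤ cst ι / (A - z.re) ^ 2 := by
  obtain ⟨hc, hneg⟩ := Classical.choose_spec (neg ι)
  have h1 := ahlfors_halfplane hc (g := fun y => gg w P 1 y) (A := A)
    (fun z hz => ((sm_gg h 1).contDiffAt (h.op.mem_nhds hz)).of_le ENat.LEInfty.out)
    (fun z hz => gg_nonneg h hz 1) (hneg w _ S P h) hz
  refine h1.trans (le_of_eq ?_)
  rw [cst]
  field_simp

/-- **AHL2 on a disc** -/
theorem gg_le_disc {a : ℂ} {R : ℝ} (hR : 0 < R) {P : ℕ → ℂ → Matrix ι ι ℂ}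
    (h : VHS w (Metric.ball a R) S P) : gg w P 1 a ≤ cst ι / R ^ 2 := by
  obtain ⟨hc, hneg⟩ := Classical.choose_spec (neg ι)
  have h1 := ahlfors_center hc hR (g := fun y => gg w P 1 y) (a := a)
    (fun z hz => ((sm_gg h 1).contDiffAt (h.op.mem_nhds hz)).of_le ENat.LEInfty.out)
    (fun z hz => gg_nonneg h hz 1) (hneg w _ S P h)
  refine h1.trans (le_of_eq ?_)
  rw [cst]
  field_simp

/-- **AHL2 along a holomorphic disc** `f : ball a R → U` -/
theorem gg_le_map (h : VHS w U S P) {a : ℂ} {R : ℝ} {f : ℂ → X} (hR : 0 < R)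
    (hf : ContDiffOn ℂ ∞ f (Metric.ball a R)) (hm : MapsTo f (Metric.ball a R) U) :
    gg w P (fderiv ℂ f a 1) (f a) ≤ cst ι / R ^ 2 := by
  have h2 := gg_le_disc hR (pull h Metric.isOpen_ball hf hm)
  have hd : DifferentiableAt ℂ f a :=
    (hf.contDiffAt (Metric.ball_mem_nhds a hR)).differentiableAt (by simp)
  rwa [gg_pull h (hm (Metric.mem_ball_self hR)) hd] at h2

/-- **AHL2 along a complex line** -/
theorem gg_le_line (h : VHS w U S P) {x v : X} {R : ℝ} (hR : 0 < R)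
    (hm : ∀ t : ℂ, ‖t‖ < R → x + t • v ∈ U) : gg w P v x ≤ cst ι / R ^ 2 := by
  have hf : ContDiff ℂ ∞ (fun t : ℂ => x + t • v) := by fun_prop
  have h1 := gg_le_map h (a := 0) (f := fun t : ℂ => x + t • v) hR hf.contDiffOn
    (fun t ht => hm t (mem_ball_zero_iff.1 ht))
  have h2 : HasFDerivAt (fun t : ℂ => x + t • v)
      ((ContinuousLinearMap.id ℂ ℂ).smulRight v) 0 :=
    (((ContinuousLinearMap.id ℂ ℂ).smulRight v).hasFDerivAt).const_add x
  rw [h2.fderiv] at h1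
  simpa using h1

end vhs

/-! ### operator norm -/

section opn

variable {ι : Type*} [Fintype ι] [DecidableEq ι]

/-- the real quadratic form of the matrix `K` -/
noncomputable def nq (K : Matrix ι ι ℂ) (u : ι → ℂ) : ℝ := (star u ⬝ᵥ (K *ᵥ u)).re

theorem dot_self (u : ι → ℂ) : star u ⬝ᵥ u = ((∑ i, ‖u i‖ ^ 2 : ℝ) : ℂ) := by
  simp only [dotProduct, Pi.star_apply, Complex.ofReal_sum]
  refine Finset.sum_congr rfl fun i _ => ?_
  rw [Complex.star_def, mul_comm, Complex.mul_conj, Complex.normSq_eq_norm_sq]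

theorem nq_eq {K B : Matrix ι ι ℂ} (hK : K = Bᴴ * B) (u : ι → ℂ) :
    nq K u = ∑ i, ‖(B *ᵥ u) i‖ ^ 2 := by
  have h1 : star u ⬝ᵥ (K *ᵥ u) = star (B *ᵥ u) ⬝ᵥ (B *ᵥ u) := by
    rw [hK, Matrix.star_mulVec, ← Matrix.mulVec_mulVec, Matrix.dotProduct_mulVec]
  rw [nq, h1, dot_self, Complex.ofReal_re]

theorem nq_nonneg {K : Matrix ι ι ℂ} (hK : K.PosDef) (u : ι → ℂ) : 0 ≤ nq K u := by
  obtain ⟨B, -, hB⟩ := exists_sqrt hK
  rw [nq_eq hB]
  positivity

/-- `|A u|² ≤ |A|²_HS |u|²` -/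
theorem sum_mulVec_le (A : Matrix ι ι ℂ) (u : ι → ℂ) :
    ∑ i, ‖(A *ᵥ u) i‖ ^ 2 ≤ hs A * ∑ j, ‖u j‖ ^ 2 := by
  unfold hs
  rw [Finset.sum_mul]
  refine Finset.sum_le_sum fun i _ => ?_
  have h1 : ‖(A *ᵥ u) i‖ ≤ ∑ j, ‖A i j‖ * ‖u j‖ := by
    rw [Matrix.mulVec, dotProduct]
    refine (norm_sum_le _ _).trans (Finset.sum_le_sum fun j _ => ?_)
    rw [norm_mul]
  exact (pow_le_pow_left₀ (norm_nonneg _) h1 2).trans (Finset.sum_mul_sq_le_sq_mul_sq _ _ _)

/-- `|a u|²_K ≤ tr (a a*) |u|²_K` -/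
theorem nq_mulVec_le {K a a' : Matrix ι ι ℂ} (hK : K.PosDef) (h : Adj K a a') (u : ι → ℂ) :
    nq K (a *ᵥ u) ≤ (a * a').trace.re * nq K u := by
  obtain ⟨B, hB, hKB⟩ := exists_sqrt hK
  have hd : IsUnit B.det := (Matrix.isUnit_iff_isUnit_det B).1 hB
  have e1 : (a * a').trace.re = hs (B * a * B⁻¹) := by
    rw [← VCalc_442.trace_conj hB, mul_conj hB, adj_conj hB hKB h,
      trace_mul_conjTranspose_self]
    simp
  have e2 : B *ᵥ (a *ᵥ u) = (B * a * B⁻¹) *ᵥ (B *ᵥ u) := by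
    rw [Matrix.mulVec_mulVec, Matrix.mulVec_mulVec, mul_assoc (B * a), Matrix.nonsing_inv_mul B hd,
      mul_one]
  rw [nq_eq hKB, nq_eq hKB, e1, e2]
  exact sum_mulVec_le _ _

/-- `|a' u|²_K ≤ tr (a a*) |u|²_K` -/
theorem nq_mulVec_le' {K a a' : Matrix ι ι ℂ} (hK : K.PosDef) (h : Adj K a a') (u : ι → ℂ) :
    nq K (a' *ᵥ u) ≤ (a * a').trace.re * nq K u := by
  have h2 : Adj K a' a := h.symm hK.1
  have h3 := nq_mulVec_le hK h2 u
  rwa [Matrix.trace_mul_comm] at h3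

end opn

section vhs2

variable {X : Type*} [NormedAddCommGroup X] [NormedSpace ℂ X]
variable {ι : Type*} [Fintype ι] [DecidableEq ι]
variable {w : ℕ} {U : Set X} {S : Matrix ι ι ℂ} {P : ℕ → X → Matrix ι ι ℂ} {x : X}

theorem nq_th_le (h : VHS w U S P) (hx : x ∈ U) (v : X) (u : ι → ℂ) :
    nq (hm w S P x) (th w P v x *ᵥ u) ≤ gg w P v x * nq (hm w S P x) u := by
  unfold gg
  rw [h.th_eq hx, h.thb_eq hx]
  exact nq_mulVec_le (h.hmPos hx) (h.adj_th_tb hx v) u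

theorem nq_thb_le (h : VHS w U S P) (hx : x ∈ U) (v : X) (u : ι → ℂ) :
    nq (hm w S P x) (thb w P v x *ᵥ u) ≤ gg w P v x * nq (hm w S P x) u := by
  unfold gg
  rw [h.th_eq hx, h.thb_eq hx]
  exact nq_mulVec_le' (h.hmPos hx) (h.adj_th_tb hx v) u

end vhs2

end Crest.Agent.R276.EndTh_659
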