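import Crest.Agent.R276.VCalcE_442

/-!
# R276, leaf IPC-BND (helper563): uniform bounds for a polarised VHS on a ball

`h : VHS w U S P` (structure of helper442), `K x = hm w S P x` the Hodge metric,
`hn (K x) u = |u|²_x`.

* `gden_le` : `|θ_v|² ≤ C ‖v‖² / r²` if `ball x r ⊆ U` (Ahlfors-Schwarz), `C` depends on `ι` only;
* `fderiv_P` : the derivative of the projector `P p` in the real direction `v` is
  `[θ_v + θ̄_v, P p]`;
* `hn_deriv_le`, `hn_comparable` : Hodge norms at points of `ball s₀ (r/2)` are comparable;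
* `var_pt` : everything in the form needed for the variation of parabolic cohomology.
-/

set_option autoImplicit false
set_option linter.unusedSectionVars false

open Set Filter Topology Matrix Finset Metric
open scoped ContDiff ComplexConjugate ComplexOrder

namespace Crest.Agent.R276.BndA_563

open Crest.Agent.R276.VCalc_442

variable {X : Type*} [NormedAddCommGroup X] [NormedSpace ℂ X]
variable {ι : Type*} [Fintype ι] [DecidableEq ι]

/-! ### Hermitian norms -/

/-- `|u|²_K = Re (uᴴ K u)` -/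
noncomputable def hn (K : Matrix ι ι ℂ) (u : ι → ℂ) : ℝ := (star u ⬝ᵥ K *ᵥ u).re

/-- euclidean square norm -/
noncomputable def en (u : ι → ℂ) : ℝ := ∑ i, ‖u i‖ ^ 2

omit [DecidableEq ι] in
theorem en_nonneg (u : ι → ℂ) : 0 ≤ en u := Finset.sum_nonneg fun _ _ => by positivity

omit [DecidableEq ι] in
theorem star_dot_self (u : ι → ℂ) : star u ⬝ᵥ u = (en u : ℂ) := by
  simp only [dotProduct, en, Pi.star_apply]
  push_cast
  refine Finset.sum_congr rfl fun i _ => ?_
  rw [Complex.star_def, mul_comm, Complex.mul_conj, Complex.normSq_eq_norm_sq]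
  push_cast; ring

theorem dot_of_factor {K B : Matrix ι ι ℂ} (hK : K = Bᴴ * B) (u v : ι → ℂ) :
    star u ⬝ᵥ K *ᵥ v = star (B *ᵥ u) ⬝ᵥ (B *ᵥ v) := by
  rw [hK, ← Matrix.mulVec_mulVec, Matrix.star_mulVec, ← Matrix.dotProduct_mulVec]

theorem hn_of_factor {K B : Matrix ι ι ℂ} (hK : K = Bᴴ * B) (u : ι → ℂ) :
    hn K u = en (B *ᵥ u) := by
  unfold hn
  rw [dot_of_factor hK, star_dot_self]
  exact Complex.ofReal_re _

theorem hn_nonneg {K : Matrix ι ι ℂ} (hK : K.PosDef) (u : ι → ℂ) : 0 ≤ hn K u := by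
  obtain ⟨B, -, hKB⟩ := VCalc_442.exists_sqrt hK
  rw [hn_of_factor hKB]
  exact en_nonneg _

theorem hn_pos {K : Matrix ι ι ℂ} (hK : K.PosDef) {u : ι → ℂ} (hu : u ≠ 0) : 0 < hn K u := by
  have h := hK.dotProduct_mulVec_pos hu
  exact (Complex.pos_iff.1 h).1

theorem hn_zero (K : Matrix ι ι ℂ) : hn K 0 = 0 := by simp [hn]

theorem hn_smul (K : Matrix ι ι ℂ) (c : ℂ) (u : ι → ℂ) : hn K (c • u) = ‖c‖ ^ 2 * hn K u := by
  unfold hn
  rw [Matrix.mulVec_smul, dotProduct_smul, star_smul, smul_dotProduct, smul_eq_mul, smul_eq_mul,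
    ← mul_assoc, Complex.star_def, Complex.mul_conj, Complex.normSq_eq_norm_sq, Complex.re_ofReal_mul]

/-- euclidean Cauchy-Schwarz -/
theorem norm_dot_le (u v : ι → ℂ) : ‖star u ⬝ᵥ v‖ ^ 2 ≤ en u * en v := by
  have h1 : ‖star u ⬝ᵥ v‖ ≤ ∑ i, ‖u i‖ * ‖v i‖ := by
    refine (norm_sum_le _ _).trans (Finset.sum_le_sum fun i _ => ?_)
    simp
  refine (pow_le_pow_left₀ (norm_nonneg _) h1 2).trans ?_
  exact Finset.sum_mul_sq_le_sq_mul_sq _ _ _

theorem norm_dot_K_le {K : Matrix ι ι ℂ} (hK : K.PosDef) (u v : ι → ℂ) :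
    ‖star u ⬝ᵥ K *ᵥ v‖ ^ 2 ≤ hn K u * hn K v := by
  obtain ⟨B, -, hKB⟩ := VCalc_442.exists_sqrt hK
  rw [dot_of_factor hKB, hn_of_factor hKB, hn_of_factor hKB]
  exact norm_dot_le _ _

omit [DecidableEq ι] in
theorem en_mulVec_le (A : Matrix ι ι ℂ) (u : ι → ℂ) : en (A *ᵥ u) ≤ hs A * en u := by
  unfold en hs
  rw [Finset.sum_mul]
  refine Finset.sum_le_sum fun i _ => ?_
  have h1 : ‖(A *ᵥ u) i‖ ≤ ∑ j, ‖A i j‖ * ‖u j‖ := by
    refine (norm_sum_le _ _).trans (Finset.sum_le_sum fun j _ => ?_)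
    rw [norm_mul]
  exact (pow_le_pow_left₀ (norm_nonneg _) h1 2).trans (Finset.sum_mul_sq_le_sq_mul_sq _ _ _)

/-- the operator norm is at most the Hilbert-Schmidt norm -/
theorem hn_mulVec_le {K a a' : Matrix ι ι ℂ} (hK : K.PosDef) (h : Adj K a a') (u : ι → ℂ) :
    hn K (a *ᵥ u) ≤ (a * a').trace.re * hn K u := by
  obtain ⟨B, hB, hKB⟩ := VCalc_442.exists_sqrt hK
  have hd : IsUnit B.det := (Matrix.isUnit_iff_isUnit_det B).1 hB
  have e1 : (a * a').trace.re = hs (B * a * B⁻¹) := by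
    rw [← VCalc_442.trace_conj hB, mul_conj hB, adj_conj hB hKB h, trace_mul_conjTranspose_self]
    simp
  have e2 : B *ᵥ (a *ᵥ u) = (B * a * B⁻¹) *ᵥ (B *ᵥ u) := by
    rw [Matrix.mulVec_mulVec, Matrix.mulVec_mulVec, mul_assoc (B * a), Matrix.nonsing_inv_mul B hd,
      mul_one]
  rw [hn_of_factor hKB, hn_of_factor hKB, e1, e2]
  exact en_mulVec_le _ _

theorem sqrt_en_add (u v : ι → ℂ) : Real.sqrt (en (u + v)) ≤ Real.sqrt (en u) + Real.sqrt (en v) := by
  have h : ∀ u : ι → ℂ, Real.sqrt (en u) = ‖(WithLp.toLp 2 u : EuclideanSpace ℂ ι)‖ := by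
    intro u; rw [EuclideanSpace.norm_eq]; rfl
  rw [h, h, h, WithLp.toLp_add]
  exact norm_add_le _ _

theorem sqrt_hn_add {K : Matrix ι ι ℂ} (hK : K.PosDef) (u v : ι → ℂ) :
    Real.sqrt (hn K (u + v)) ≤ Real.sqrt (hn K u) + Real.sqrt (hn K v) := by
  obtain ⟨B, -, hKB⟩ := VCalc_442.exists_sqrt hK
  rw [hn_of_factor hKB, hn_of_factor hKB, hn_of_factor hKB, Matrix.mulVec_add]
  exact sqrt_en_add _ _

theorem hn_neg (K : Matrix ι ι ℂ) (u : ι → ℂ) : hn K (-u) = hn K u := by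
  unfold hn
  rw [Matrix.mulVec_neg, star_neg, neg_dotProduct_neg]

theorem hn_add_le {K : Matrix ι ι ℂ} (hK : K.PosDef) (u v : ι → ℂ) :
    hn K (u + v) ≤ 2 * (hn K u + hn K v) := by
  have h1 := sqrt_hn_add hK u v
  have hu := hn_nonneg hK u
  have hv := hn_nonneg hK v
  have huv := hn_nonneg hK (u + v)
  have h2 : hn K (u + v) = Real.sqrt (hn K (u + v)) ^ 2 := (Real.sq_sqrt huv).symm
  rw [h2]
  have h3 := Real.sqrt_nonneg (hn K (u + v))
  have h4 := Real.sqrt_nonneg (hn K u)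
  have h5 := Real.sqrt_nonneg (hn K v)
  have h6 : Real.sqrt (hn K (u + v)) ^ 2 ≤ (Real.sqrt (hn K u) + Real.sqrt (hn K v)) ^ 2 := by
    gcongr
  nlinarith [Real.sq_sqrt hu, Real.sq_sqrt hv, sq_nonneg (Real.sqrt (hn K u) - Real.sqrt (hn K v))]

theorem hn_sub_le {K : Matrix ι ι ℂ} (hK : K.PosDef) (u v : ι → ℂ) :
    hn K (u - v) ≤ 2 * (hn K u + hn K v) := by
  rw [sub_eq_add_neg]
  refine (hn_add_le hK u (-v)).trans ?_
  rw [hn_neg]

section nm

attribute [local instance] Matrix.linftyOpNormedRing Matrix.linftyOpNormedAlgebra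

variable {w : ℕ} {U : Set X} {S : Matrix ι ι ℂ} {P : ℕ → X → Matrix ι ι ℂ} {x : X}

/-! ### the projectors and the Hodge metric -/

theorem hm_ct (h : VHS w U S P) (hx : x ∈ U) : (hm w S P x)ᴴ = hm w S P x := (h.hmPos hx).isHermitian

theorem adj_P (h : VHS w U S P) (hx : x ∈ U) (p : ℕ) : Adj (hm w S P x) (P p x) (P p x) := by
  unfold Adj hm
  rw [← mul_assoc, h.adj x hx, mul_assoc, mul_assoc, h.P_mul_C hx, h.C_mul_P hx]

theorem hn_P_le (h : VHS w U S P) (hx : x ∈ U) (p : ℕ) (u : ι → ℂ) :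
    hn (hm w S P x) (P p x *ᵥ u) ≤ hn (hm w S P x) u := by
  set K := hm w S P x with hKd
  have hK : K.PosDef := h.hmPos hx
  have hadj : (P p x)ᴴ * K = K * P p x := adj_P h hx p
  -- `⟨P u, P u⟩ = ⟨u, P u⟩`
  have h1 : star (P p x *ᵥ u) ⬝ᵥ K *ᵥ (P p x *ᵥ u) = star u ⬝ᵥ K *ᵥ (P p x *ᵥ u) := by
    rw [Matrix.star_mulVec, ← Matrix.dotProduct_mulVec, Matrix.mulVec_mulVec, hadj,
      ← Matrix.mulVec_mulVec, Matrix.mulVec_mulVec _ (P p x) (P p x), h.idem x hx]
  have h2 := norm_dot_K_le hK u (P p x *ᵥ u)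
  rw [← h1] at h2
  have h3 : hn K (P p x *ᵥ u) ≤ ‖star (P p x *ᵥ u) ⬝ᵥ K *ᵥ (P p x *ᵥ u)‖ := Complex.re_le_norm _
  have h4 := hn_nonneg hK (P p x *ᵥ u)
  have h5 := hn_nonneg hK u
  have h6 : hn K (P p x *ᵥ u) ^ 2 ≤ hn K u * hn K (P p x *ᵥ u) :=
    (pow_le_pow_left₀ h4 h3 2).trans h2
  rcases h4.eq_or_lt with h7 | h7
  · rw [← h7]; exact h5
  · nlinarith

/-- the derivative of the projectors: `∂_v P_p = [θ_v, P_p]` -/
theorem dW_P (h : VHS w U S P) (hx : x ∈ U) (p : ℕ) (v : X) :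
    dW (P p) v x = dW (grOp w P) v x * P p x - P p x * dW (grOp w P) v x := by
  set θ := dW (grOp w P) v x with hθ
  set A := dW (P p) v x with hA
  have dPp := h.dP p hx
  have dEx := h.dE hx
  have hlow := h.low_th hx v
  -- derivatives of `E P = p P` and `P E = p P`
  have e1 : grOp w P x * A + θ * P p x = (p : ℂ) • A := by
    have hev : (fun y => grOp w P y * P p y) =ᶠ[𝓝 x] fun y => (p : ℂ) • P p y :=
      Filter.eventually_of_mem (h.op.mem_nhds hx) fun y hy => h.E_mul_P hy p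
    have h1 := dW_congr hev v
    rw [dW_mul dEx dPp, dW_const_smul (p : ℂ) dPp] at h1
    rw [← h1, add_comm]
  have e2 : P p x * θ + A * grOp w P x = (p : ℂ) • A := by
    have hev : (fun y => P p y * grOp w P y) =ᶠ[𝓝 x] fun y => (p : ℂ) • P p y :=
      Filter.eventually_of_mem (h.op.mem_nhds hx) fun y hy => h.P_mul_E hy p
    have h1 := dW_congr hev v
    rw [dW_mul dPp dEx, dW_const_smul (p : ℂ) dPp] at h1
    rw [← h1, add_comm]
  have e3 : P p x * A + A * P p x = A := by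
    have hev : (fun y => P p y * P p y) =ᶠ[𝓝 x] fun y => P p y :=
      Filter.eventually_of_mem (h.op.mem_nhds hx) fun y hy => h.idem y hy p
    have h1 := dW_congr hev v
    rw [dW_mul dPp dPp] at h1
    rw [← hA] at h1
    first
      | exact h1
      | (rw [add_comm]; exact h1)
  -- left components
  have hleft : ∀ q, q ≠ p → P q x * A = P q x * (θ * P p x) := by
    intro q hq
    have h1 : (q : ℂ) • (P q x * A) + P q x * (θ * P p x) = (p : ℂ) • (P q x * A) := by
      have := congrArg (fun M => P q x * M) e1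
      simp only [mul_add, mul_smul_comm] at this
      rw [← mul_assoc (P q x) (grOp w P x) A, h.P_mul_E hx, smul_mul_assoc] at this
      exact this
    by_cases hq1 : q + 1 = p
    · have h2 : (p : ℂ) = (q : ℂ) + 1 := by rw [← hq1]; push_cast; ring
      rw [h2, add_smul, one_smul] at h1
      exact (add_left_cancel h1).symm
    · have h2 : P q x * (θ * P p x) = 0 := by
        rw [← mul_assoc]; exact h.low_block hx hlow hq1
      rw [h2, add_zero, ← sub_eq_zero, ← sub_smul] at h1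
      rw [h2]
      rcases smul_eq_zero.1 h1 with h3 | h3
      · exfalso; apply hq
        exact_mod_cast sub_eq_zero.1 h3
      · exact h3
  have hright : ∀ r, r ≠ p → A * P r x = - (P p x * θ * P r x) := by
    intro r hr
    have h1 : P p x * θ * P r x + (r : ℂ) • (A * P r x) = (p : ℂ) • (A * P r x) := by
      have := congrArg (fun M => M * P r x) e2
      simp only [add_mul, smul_mul_assoc] at this
      rw [mul_assoc A, h.E_mul_P hx, mul_smul_comm] at this
      exact this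
    by_cases hr1 : p + 1 = r
    · have h2 : (r : ℂ) = (p : ℂ) + 1 := by rw [← hr1]; push_cast; ring
      rw [h2, add_smul, one_smul] at h1
      have h3 : P p x * θ * P r x + A * P r x = 0 := by
        have h4 := h1
        rw [← sub_eq_zero] at h4
        rw [← h4]; abel
      exact eq_neg_of_add_eq_zero_right h3
    · have h2 : P p x * θ * P r x = 0 := h.low_block hx hlow hr1
      rw [h2, zero_add, ← sub_eq_zero, ← sub_smul] at h1
      rw [h2, neg_zero]
      rcases smul_eq_zero.1 h1 with h3 | h3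
      · exfalso; apply hr
        exact_mod_cast sub_eq_zero.1 h3
      · exact h3
  have hPAP : P p x * A * P p x = 0 := by
    have h1 := congrArg (fun M => P p x * M * P p x) e3
    simp only [mul_add, add_mul] at h1
    have h2 : P p x * (P p x * A) * P p x = P p x * A * P p x := by
      rw [← mul_assoc, h.idem x hx]
    have h3 : P p x * (A * P p x) * P p x = P p x * A * P p x := by
      rw [← mul_assoc, mul_assoc _ (P p x) (P p x), h.idem x hx]
    rw [h2, h3] at h1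
    exact add_eq_left.1 h1
  have hPth : P p x * θ * P p x = 0 := h.low_block hx hlow (by omega)
  have hPA : P p x * A = - (P p x * θ) := by
    by_cases hp : w < p
    · rw [h.top x hx p hp]; simp
    rw [h.expand_right hx (P p x * A), h.expand_right hx (P p x * θ), ← Finset.sum_neg_distrib]
    refine Finset.sum_congr rfl fun r _ => ?_
    by_cases hr : r = p
    · rw [hr, hPAP, hPth, neg_zero]
    · rw [mul_assoc, hright r hr, mul_neg, ← mul_assoc, ← mul_assoc, h.idem x hx]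
  by_cases hp : w < p
  · -- `P p` vanishes near `x`
    have hev : P p =ᶠ[𝓝 x] fun _ => (0 : Matrix ι ι ℂ) :=
      Filter.eventually_of_mem (h.op.mem_nhds hx) fun y hy => h.top y hy p hp
    have h1 : A = 0 := by
      rw [hA, dW_congr hev v, dW_const]
    rw [h1, h.top x hx p hp]; simp
  calc A = ∑ q ∈ Finset.range (w + 1), P q x * A := h.expand_left hx A
    _ = ∑ q ∈ Finset.range (w + 1), P q x * (θ * P p x - P p x * θ) := by
        refine Finset.sum_congr rfl fun q _ => ?_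
        by_cases hq : q = p
        · rw [hq, hPA, mul_sub, ← mul_assoc, ← mul_assoc, hPth, h.idem x hx, zero_sub]
        · rw [hleft q hq, mul_sub, ← mul_assoc (P q x) (P p x) θ, h.orth x hx q p hq, zero_mul,
            sub_zero]
    _ = θ * P p x - P p x * θ := (h.expand_left hx _).symm

/-- `∂̄_v P_p = [θ̄_v, P_p]` -/
theorem dB_P (h : VHS w U S P) (hx : x ∈ U) (p : ℕ) (v : X) :
    dB (P p) v x = tb (grOp w P) v x * P p x - P p x * tb (grOp w P) v x := by
  have h1 := h.adj_dW (h.smP p) (h.smP p) (fun y hy => h.adj y hy p) hx v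
  have h2 := h.adj_th hx v
  have h3 := h.adj x hx p
  rw [dW_P h hx, Matrix.conjTranspose_sub, Matrix.conjTranspose_mul, Matrix.conjTranspose_mul,
    sub_mul, mul_assoc, mul_assoc, h2, h3, ← mul_assoc, ← mul_assoc, h3, h2, mul_assoc, mul_assoc,
    ← mul_sub] at h1
  have h4 := h.S_cancel hx h1
  rw [← h4]
  unfold tb
  noncomm_ring

/-- `M ↦ M *ᵥ u` -/
noncomputable def vecL (u : ι → ℂ) : Matrix ι ι ℂ →L[ℂ] (ι → ℂ) :=
  LinearMap.toContinuousLinearMap
    { toFun := fun M => M *ᵥ u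
      map_add' := fun A B => Matrix.add_mulVec A B u
      map_smul' := fun c A => Matrix.smul_mulVec c A u }

theorem vecL_apply (u : ι → ℂ) (M : Matrix ι ι ℂ) : vecL u M = M *ᵥ u := rfl

theorem diff_vec {F : X → Matrix ι ι ℂ} (hF : DifferentiableAt ℝ F x) (u : ι → ℂ) :
    DifferentiableAt ℝ (fun y => F y *ᵥ u) x :=
  (((vecL u).restrictScalars ℝ).differentiableAt (x := F x)).comp x hF

theorem dW_vec {F : X → Matrix ι ι ℂ} (hF : DifferentiableAt ℝ F x) (u : ι → ℂ) (v : X) :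
    dW (fun y => F y *ᵥ u) v x = dW F v x *ᵥ u :=
  dW_clm (vecL u) hF v

theorem dB_vec {F : X → Matrix ι ι ℂ} (hF : DifferentiableAt ℝ F x) (u : ι → ℂ) (v : X) :
    dB (fun y => F y *ᵥ u) v x = dB F v x *ᵥ u :=
  dB_clm (vecL u) hF v

theorem diff_P (h : VHS w U S P) (hx : x ∈ U) (p : ℕ) (u : ι → ℂ) :
    DifferentiableAt ℝ (fun y => P p y *ᵥ u) x := diff_vec (h.dP p hx) u

/-- `T_v = θ_v + θ̄_v` -/
noncomputable def TT (w : ℕ) (P : ℕ → X → Matrix ι ι ℂ) (v x : X) : Matrix ι ι ℂ :=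
  th w P v x + thb w P v x

theorem TT_eq (h : VHS w U S P) (hx : x ∈ U) (v : X) :
    TT w P v x = dW (grOp w P) v x + tb (grOp w P) v x := by
  rw [TT, h.th_eq hx, h.thb_eq hx]

/-- the real derivative of the projectors -/
theorem fderiv_P (h : VHS w U S P) (hx : x ∈ U) (p : ℕ) (u : ι → ℂ) (v : X) :
    fderiv ℝ (fun y => P p y *ᵥ u) x v = (TT w P v x * P p x - P p x * TT w P v x) *ᵥ u := by
  rw [VCalc_442.fderiv_eq, dW_vec (h.dP p hx), dB_vec (h.dP p hx), dW_P h hx, dB_P h hx,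
    TT_eq h hx, ← Matrix.add_mulVec]
  congr 1
  noncomm_ring

/-! ### estimates -/

theorem gden_eq (h : VHS w U S P) (hx : x ∈ U) (v : X) :
    (dW (grOp w P) v x * tb (grOp w P) v x).trace.re = gden w P v x := by
  unfold gden
  rw [h.gg_eq hx]
  rfl

theorem hn_th_le (h : VHS w U S P) (hx : x ∈ U) (v : X) (u : ι → ℂ) :
    hn (hm w S P x) (th w P v x *ᵥ u) ≤ gden w P v x * hn (hm w S P x) u := by
  rw [h.th_eq hx, ← gden_eq h hx]
  exact hn_mulVec_le (h.hmPos hx) (h.adj_th_tb hx v) u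

theorem hn_thb_le (h : VHS w U S P) (hx : x ∈ U) (v : X) (u : ι → ℂ) :
    hn (hm w S P x) (thb w P v x *ᵥ u) ≤ gden w P v x * hn (hm w S P x) u := by
  rw [h.thb_eq hx, ← gden_eq h hx, Matrix.trace_mul_comm]
  exact hn_mulVec_le (h.hmPos hx) ((h.adj_th_tb hx v).symm (hm_ct h hx)) u

theorem hn_TT_le (h : VHS w U S P) (hx : x ∈ U) (v : X) (u : ι → ℂ) :
    hn (hm w S P x) (TT w P v x *ᵥ u) ≤ 4 * gden w P v x * hn (hm w S P x) u := by
  rw [TT, Matrix.add_mulVec]
  have h1 := hn_add_le (h.hmPos hx) (th w P v x *ᵥ u) (thb w P v x *ᵥ u)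
  have h2 := hn_th_le h hx v u
  have h3 := hn_thb_le h hx v u
  linarith

/-- the derivative of the projectors is bounded -/
theorem hn_fderiv_P_le (h : VHS w U S P) (hx : x ∈ U) (p : ℕ) (u : ι → ℂ) (v : X) :
    hn (hm w S P x) (fderiv ℝ (fun y => P p y *ᵥ u) x v) ≤
      16 * gden w P v x * hn (hm w S P x) u := by
  have hK := h.hmPos hx
  rw [fderiv_P h hx, Matrix.sub_mulVec]
  have h1 := hn_sub_le hK ((TT w P v x * P p x) *ᵥ u) ((P p x * TT w P v x) *ᵥ u)
  rw [← Matrix.mulVec_mulVec, ← Matrix.mulVec_mulVec] at h1 ⊢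
  have h2 := hn_TT_le h hx v (P p x *ᵥ u)
  have h3 := hn_P_le h hx p (TT w P v x *ᵥ u)
  have h4 := hn_TT_le h hx v u
  have h5 := hn_P_le h hx p u
  have h6 := h.gden_nonneg hx v
  have h7 : 4 * gden w P v x * hn (hm w S P x) (P p x *ᵥ u) ≤
      4 * gden w P v x * hn (hm w S P x) u := by gcongr
  linarith

/-! ### the Hodge metric -/

theorem dC_eq (h : VHS w U S P) (hx : x ∈ U) (v : X) :
    dW (sgOp w P) v x = - (sgOp w P x * dW (grOp w P) v x) -
      sgOp w P x * dW (grOp w P) v x := by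
  have h1 : dW (sgOp w P) v x = ∑ p ∈ Finset.range (w + 1), ((-1 : ℂ) ^ p) • dW (P p) v x := by
    have : ∀ s : Finset ℕ, DifferentiableAt ℝ (fun y => ∑ p ∈ s, ((-1 : ℂ) ^ p) • P p y) x ∧
        dW (fun y => ∑ p ∈ s, ((-1 : ℂ) ^ p) • P p y) v x =
          ∑ p ∈ s, ((-1 : ℂ) ^ p) • dW (P p) v x := by
      intro s
      induction s using Finset.induction_on with
      | empty => simp [dW_const]
      | insert a s ha ih =>
        have d1 : DifferentiableAt ℝ (fun y => ((-1 : ℂ) ^ a) • P a y) x :=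
          (h.dP a hx).const_smul ((-1 : ℂ) ^ a)
        refine ⟨?_, ?_⟩
        · simp only [Finset.sum_insert ha]
          exact d1.add ih.1
        · simp only [Finset.sum_insert ha]
          rw [dW_add d1 ih.1, ih.2, dW_const_smul _ (h.dP a hx)]
    exact (this _).2
  have h2 : dW (sgOp w P) v x =
      dW (grOp w P) v x * sgOp w P x - sgOp w P x * dW (grOp w P) v x := by
    rw [h1]
    unfold sgOp
    rw [Finset.mul_sum, Finset.sum_mul, ← Finset.sum_sub_distrib]
    refine Finset.sum_congr rfl fun p _ => ?_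
    rw [dW_P h hx, smul_sub, mul_smul_comm, smul_mul_assoc]
  rw [h2]
  have h3 := h.low_C hx (h.low_th hx v)
  rw [h3]
  abel

theorem dBC_eq (h : VHS w U S P) (hx : x ∈ U) (v : X) :
    dB (sgOp w P) v x = - (sgOp w P x * tb (grOp w P) v x) -
      sgOp w P x * tb (grOp w P) v x := by
  have h1 : dB (sgOp w P) v x = ∑ p ∈ Finset.range (w + 1), ((-1 : ℂ) ^ p) • dB (P p) v x := by
    have : ∀ s : Finset ℕ, DifferentiableAt ℝ (fun y => ∑ p ∈ s, ((-1 : ℂ) ^ p) • P p y) x ∧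
        dB (fun y => ∑ p ∈ s, ((-1 : ℂ) ^ p) • P p y) v x =
          ∑ p ∈ s, ((-1 : ℂ) ^ p) • dB (P p) v x := by
      intro s
      induction s using Finset.induction_on with
      | empty => simp [dB_const]
      | insert a s ha ih =>
        have d1 : DifferentiableAt ℝ (fun y => ((-1 : ℂ) ^ a) • P a y) x :=
          (h.dP a hx).const_smul ((-1 : ℂ) ^ a)
        refine ⟨?_, ?_⟩
        · simp only [Finset.sum_insert ha]
          exact d1.add ih.1
        · simp only [Finset.sum_insert ha]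
          rw [dB_add d1 ih.1, ih.2, dB_const_smul _ (h.dP a hx)]
    exact (this _).2
  have h2 : dB (sgOp w P) v x =
      tb (grOp w P) v x * sgOp w P x - sgOp w P x * tb (grOp w P) v x := by
    rw [h1]
    unfold sgOp
    rw [Finset.mul_sum, Finset.sum_mul, ← Finset.sum_sub_distrib]
    refine Finset.sum_congr rfl fun p _ => ?_
    rw [dB_P h hx, smul_sub, mul_smul_comm, smul_mul_assoc]
  rw [h2]
  have h3 := h.up_C hx (h.up_tb hx v)
  rw [h3]
  abel

/-- `D_v (K u) = -2 K (θ_v + θ̄_v) u` -/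
theorem fderiv_hm (h : VHS w U S P) (hx : x ∈ U) (u : ι → ℂ) (v : X) :
    DifferentiableAt ℝ (fun y => hm w S P y *ᵥ u) x ∧
    fderiv ℝ (fun y => hm w S P y *ᵥ u) x v =
      - ((2 : ℂ) • (hm w S P x *ᵥ (TT w P v x *ᵥ u))) := by
  have d0 : DifferentiableAt ℝ (fun y => hm w S P y) x := by
    unfold hm
    exact (differentiableAt_const S).mul (h.dC hx)
  refine ⟨diff_vec d0 u, ?_⟩
  have e1 : dW (fun y => hm w S P y) v x = S * dW (sgOp w P) v x := by
    have := dW_mul (differentiableAt_const S) (h.dC hx) v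
    unfold hm
    rw [this]
    simp
  have e2 : dB (fun y => hm w S P y) v x = S * dB (sgOp w P) v x := by
    have := dB_mul (differentiableAt_const S) (h.dC hx) v
    unfold hm
    rw [this]
    simp
  rw [VCalc_442.fderiv_eq, dW_vec d0, dB_vec d0, e1, e2, dC_eq h hx, dBC_eq h hx, TT_eq h hx,
    Matrix.mulVec_mulVec, ← Matrix.add_mulVec, ← Matrix.smul_mulVec, ← Matrix.neg_mulVec]
  congr 1
  unfold hm
  rw [two_smul]
  noncomm_ring

/-- `|D_v |u|²| ≤ 4 |θ_v| |u|²` (stated through squares) -/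
theorem fderiv_hn (h : VHS w U S P) (hx : x ∈ U) (u : ι → ℂ) (v : X) :
    DifferentiableAt ℝ (fun y => hn (hm w S P y) u) x ∧
    |fderiv ℝ (fun y => hn (hm w S P y) u) x v| ≤
      4 * Real.sqrt (gden w P v x) * hn (hm w S P x) u := by
  obtain ⟨d1, e1⟩ := fderiv_hm h hx u v
  let L : (ι → ℂ) →L[ℝ] ℝ :=
    Complex.reCLM.comp ((LinearMap.toContinuousLinearMap
      ({ toFun := fun a => star u ⬝ᵥ a
         map_add' := fun a b => dotProduct_add _ a b
         map_smul' := fun c a => dotProduct_smul c _ a } : (ι → ℂ) →ₗ[ℂ] ℂ)).restrictScalars ℝ)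
  have hL : ∀ a, L a = (star u ⬝ᵥ a).re := fun a => rfl
  have hf : (fun y => hn (hm w S P y) u) = fun y => L (hm w S P y *ᵥ u) := rfl
  have hd : HasFDerivAt (fun y => hn (hm w S P y) u)
      (L.comp (fderiv ℝ (fun y => hm w S P y *ᵥ u) x)) x := by
    rw [hf]
    exact L.hasFDerivAt.comp x d1.hasFDerivAt
  refine ⟨hd.differentiableAt, ?_⟩
  rw [hd.fderiv, ContinuousLinearMap.comp_apply, e1, hL, dotProduct_neg, dotProduct_smul,
    smul_eq_mul, Complex.neg_re, abs_neg]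
  have hK := h.hmPos hx
  have hg := h.gden_nonneg hx v
  have hu := hn_nonneg hK u
  have h2 : ((2 : ℂ) * (star u ⬝ᵥ hm w S P x *ᵥ TT w P v x *ᵥ u)).re =
      2 * (star u ⬝ᵥ hm w S P x *ᵥ TT w P v x *ᵥ u).re := by
    simp [Complex.mul_re]
  rw [h2, abs_mul, abs_of_pos (by norm_num : (0 : ℝ) < 2)]
  have h3 := norm_dot_K_le hK u (TT w P v x *ᵥ u)
  have h4 := hn_TT_le h hx v u
  have h5 : |(star u ⬝ᵥ hm w S P x *ᵥ TT w P v x *ᵥ u).re| ≤
      2 * Real.sqrt (gden w P v x) * hn (hm w S P x) u := by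
    have h6 := Complex.abs_re_le_norm (star u ⬝ᵥ hm w S P x *ᵥ TT w P v x *ᵥ u)
    refine h6.trans ?_
    refine abs_le_of_sq_le_sq' ?_ (by positivity) |>.2
    calc ‖star u ⬝ᵥ hm w S P x *ᵥ TT w P v x *ᵥ u‖ ^ 2
        ≤ hn (hm w S P x) u * hn (hm w S P x) (TT w P v x *ᵥ u) := h3
      _ ≤ hn (hm w S P x) u * (4 * gden w P v x * hn (hm w S P x) u) := by gcongr
      _ = (2 * Real.sqrt (gden w P v x) * hn (hm w S P x) u) ^ 2 := by
          rw [mul_pow, mul_pow, Real.sq_sqrt hg]; ring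
  linarith

end nm

/-! ### Ahlfors-Schwarz -/

/-- the constant of the nilpotent commutator bound -/
noncomputable def cN (ι : Type*) [Fintype ι] [DecidableEq ι] : ℝ := (nil_bound_adj ι).choose

theorem cN_pos (ι : Type*) [Fintype ι] [DecidableEq ι] : 0 < cN ι := (nil_bound_adj ι).choose_spec.1

variable {w : ℕ} {U : Set X} {S : Matrix ι ι ℂ} {P : ℕ → X → Matrix ι ι ℂ} {x : X}

theorem neg_gden (h : VHS w U S P) (z v : X) :
    Ahl_25.Neg (4 * cN ι) (fun ζ : ℂ => gden w P v (z + ζ • v)) {ζ | z + ζ • v ∈ U} := by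
  intro ζ hζ hne
  have hζ' : z + ζ • v ∈ U := hζ
  have hC2 : ContDiffAt ℝ 2 (gden w P v) (z + ζ • v) :=
    ((h.sm_gden v).contDiffAt (h.op.mem_nhds hζ')).of_le ENat.LEInfty.out
  rw [lap_log_line hC2 hne]
  have h1 := h.curv_gden (nil_bound_adj ι).choose_spec.2 hζ' v
  have h2 := h.gden_nonneg hζ' v
  have h3 : 0 < gden w P v (z + ζ • v) := lt_of_le_of_ne h2 (Ne.symm hne)
  rw [le_div_iff₀ (by positivity)]
  have h4 : cN ι = (nil_bound_adj ι).choose := rfl
  rw [← h4] at h1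
  nlinarith [h1]

/-- the Ahlfors-Schwarz constant for the rank `card ι` -/
noncomputable def CA (ι : Type*) [Fintype ι] [DecidableEq ι] : ℝ := 2 / cN ι

theorem CA_pos (ι : Type*) [Fintype ι] [DecidableEq ι] : 0 < CA ι := by
  have := cN_pos ι
  unfold CA; positivity

/-- **Ahlfors-Schwarz** for the Higgs field on a ball -/
theorem gden_le (h : VHS w U S P) (x v : X) {r : ℝ} (hr : 0 < r) (hsub : ball x r ⊆ U) :
    gden w P v x ≤ CA ι * ‖v‖ ^ 2 / r ^ 2 := by
  have hc := cN_pos ι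
  have hCA := CA_pos ι
  have hxU : x ∈ U := hsub (mem_ball_self hr)
  by_cases hv : v = 0
  · -- `θ_0 = 0`
    have h1 : th w P v x = 0 := by
      ext i j
      show dW (fun y => grOp w P y i j) v x = 0
      rw [hv]
      simp [dW]
    have h2 : gden w P v x = 0 := by
      unfold gden gg
      rw [h1]; simp
    rw [h2]; positivity
  have hv' : 0 < ‖v‖ := norm_pos_iff.2 hv
  set R : ℝ := r / ‖v‖ with hR
  have hR0 : 0 < R := by positivity
  have hmem : ∀ ζ ∈ ball (0 : ℂ) R, x + ζ • v ∈ U := by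
    intro ζ hζ
    apply hsub
    rw [mem_ball_iff_norm, add_sub_cancel_left, norm_smul]
    rw [mem_ball_zero_iff] at hζ
    calc ‖ζ‖ * ‖v‖ < R * ‖v‖ := by gcongr
      _ = r := by rw [hR]; field_simp
  have hC2 : ∀ ζ ∈ ball (0 : ℂ) R, ContDiffAt ℝ 2 (fun ζ : ℂ => gden w P v (x + ζ • v)) ζ := by
    intro ζ hζ
    have h2 : ContDiffAt ℝ 2 (gden w P v) (x + ζ • v) :=
      ((h.sm_gden v).contDiffAt (h.op.mem_nhds (hmem ζ hζ))).of_le ENat.LEInfty.out
    have h3 : ContDiffAt ℝ 2 (fun ζ : ℂ => x + ζ • v) ζ :=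
      contDiffAt_const.add (contDiffAt_id.smul contDiffAt_const)
    have h4 : ContDiffAt ℝ 2 (gden w P v ∘ (fun ζ : ℂ => x + ζ • v)) ζ :=
      ContDiffAt.comp ζ (by exact h2) h3
    exact h4
  have h1 := Ahl_25.ahlfors_center (g := fun ζ : ℂ => gden w P v (x + ζ • v)) (a := 0)
    (by positivity : 0 < 4 * cN ι) hR0 hC2
    (fun ζ hζ => h.gden_nonneg (hmem ζ hζ) v)
    (fun ζ hζ => neg_gden h x v ζ (hmem ζ hζ))
  simp only [zero_smul, add_zero] at h1
  refine h1.trans (le_of_eq ?_)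
  rw [hR, CA]
  field_simp
  norm_num

/-- `|θ_v| ≤ √C ‖v‖ / r` -/
theorem sqrt_gden_le (h : VHS w U S P) (x v : X) {r : ℝ} (hr : 0 < r) (hsub : ball x r ⊆ U) :
    Real.sqrt (gden w P v x) ≤ Real.sqrt (CA ι) * ‖v‖ / r := by
  have h1 := gden_le h x v hr hsub
  have hCA := CA_pos ι
  calc Real.sqrt (gden w P v x) ≤ Real.sqrt (CA ι * ‖v‖ ^ 2 / r ^ 2) := Real.sqrt_le_sqrt h1
    _ = Real.sqrt (CA ι) * ‖v‖ / r := by
        rw [Real.sqrt_div (by positivity), Real.sqrt_mul hCA.le, Real.sqrt_sq (norm_nonneg v),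
          Real.sqrt_sq hr.le]

/-- comparison constant -/
noncomputable def C0 (ι : Type*) [Fintype ι] [DecidableEq ι] : ℝ := 8 * Real.sqrt (CA ι)

theorem C0_nonneg (ι : Type*) [Fintype ι] [DecidableEq ι] : 0 ≤ C0 ι := by
  unfold C0; positivity

section nm2

attribute [local instance] Matrix.linftyOpNormedRing Matrix.linftyOpNormedAlgebra

/-- the logarithm of the Hodge norm of a flat vector is Lipschitz -/
theorem log_hn_lip (h : VHS w U S P) {s₀ : X} {r : ℝ} (hr : 0 < r) (hsub : ball s₀ r ⊆ U)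
    {u : ι → ℂ} (hu : u ≠ 0) {y z : X} (hy : y ∈ ball s₀ (r / 2)) (hz : z ∈ ball s₀ (r / 2)) :
    |Real.log (hn (hm w S P y) u) - Real.log (hn (hm w S P z) u)| ≤ C0 ι / r * ‖y - z‖ := by
  have hball : ∀ x ∈ ball s₀ (r / 2), ball x (r / 2) ⊆ U := by
    intro x hx
    refine Subset.trans ?_ hsub
    intro t ht
    rw [mem_ball] at ht hx ⊢
    calc dist t s₀ ≤ dist t x + dist x s₀ := dist_triangle _ _ _
      _ < r := by linarith
  have hU : ∀ x ∈ ball s₀ (r / 2), x ∈ U := fun x hx =>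
    hball x hx (mem_ball_self (by positivity))
  have hconv : Convex ℝ (ball s₀ (r / 2)) := convex_ball _ _
  have key : ∀ x ∈ ball s₀ (r / 2), DifferentiableAt ℝ (fun y => Real.log (hn (hm w S P y) u)) x ∧
      ‖fderiv ℝ (fun y => Real.log (hn (hm w S P y) u)) x‖ ≤ C0 ι / r := by
    intro x hx
    have hpos : 0 < hn (hm w S P x) u := hn_pos (h.hmPos (hU x hx)) hu
    obtain ⟨d1, -⟩ := fderiv_hn h (hU x hx) u 0
    have d2 : DifferentiableAt ℝ (fun y => Real.log (hn (hm w S P y) u)) x := d1.log hpos.ne'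
    refine ⟨d2, ?_⟩
    refine ContinuousLinearMap.opNorm_le_bound _ (by have := C0_nonneg ι; positivity) fun v => ?_
    have e1 : fderiv ℝ (fun y => Real.log (hn (hm w S P y) u)) x v =
        (hn (hm w S P x) u)⁻¹ * fderiv ℝ (fun y => hn (hm w S P y) u) x v := by
      have := (d1.hasFDerivAt.log hpos.ne').fderiv
      rw [this]; rfl
    rw [e1, norm_mul, norm_inv, Real.norm_of_nonneg hpos.le, Real.norm_eq_abs]
    have h2 := (fderiv_hn h (hU x hx) u v).2
    have h3 := sqrt_gden_le h x v (by positivity : 0 < r / 2) (hball x hx)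
    calc (hn (hm w S P x) u)⁻¹ * |fderiv ℝ (fun y => hn (hm w S P y) u) x v|
        ≤ (hn (hm w S P x) u)⁻¹ * (4 * Real.sqrt (gden w P v x) * hn (hm w S P x) u) := by gcongr
      _ = 4 * Real.sqrt (gden w P v x) := by field_simp
      _ ≤ 4 * (Real.sqrt (CA ι) * ‖v‖ / (r / 2)) := by gcongr
      _ = C0 ι / r * ‖v‖ := by unfold C0; field_simp; ring
  have := hconv.norm_image_sub_le_of_norm_fderiv_le (𝕜 := ℝ) (fun x hx => (key x hx).1)
    (fun x hx => (key x hx).2) hz hy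
  rwa [Real.norm_eq_abs] at this

/-- Hodge norms at points of the half ball are comparable -/
theorem hn_le (h : VHS w U S P) {s₀ : X} {r : ℝ} (hr : 0 < r) (hsub : ball s₀ r ⊆ U)
    (u : ι → ℂ) {y z : X} (hy : y ∈ ball s₀ (r / 2)) (hz : z ∈ ball s₀ (r / 2)) :
    hn (hm w S P y) u ≤ Real.exp (C0 ι) * hn (hm w S P z) u := by
  by_cases hu : u = 0
  · rw [hu, hn_zero, hn_zero, mul_zero]
  have hU : ∀ x ∈ ball s₀ (r / 2), x ∈ U := fun x hx =>
    hsub (ball_subset_ball (by linarith) hx)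
  have hy0 := hn_pos (h.hmPos (hU y hy)) hu
  have hz0 := hn_pos (h.hmPos (hU z hz)) hu
  have h1 := log_hn_lip h hr hsub hu hy hz
  have h2 : ‖y - z‖ ≤ r := by
    rw [← dist_eq_norm]
    rw [mem_ball] at hy hz
    have := dist_triangle_right y z s₀
    linarith
  have h3 : C0 ι / r * ‖y - z‖ ≤ C0 ι := by
    have := C0_nonneg ι
    calc C0 ι / r * ‖y - z‖ ≤ C0 ι / r * r := by gcongr
      _ = C0 ι := by field_simp
  have h4 : Real.log (hn (hm w S P y) u) ≤ C0 ι + Real.log (hn (hm w S P z) u) := by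
    have := (abs_le.1 h1).2
    linarith
  calc hn (hm w S P y) u = Real.exp (Real.log (hn (hm w S P y) u)) := (Real.exp_log hy0).symm
    _ ≤ Real.exp (C0 ι + Real.log (hn (hm w S P z) u)) := Real.exp_le_exp.2 h4
    _ = _ := by rw [Real.exp_add, Real.exp_log hz0]

/-- the derivative of the projectors is bounded in the Hodge norm at any other point of the half
ball -/
theorem hn_fderiv_P_le' (h : VHS w U S P) {s₀ : X} {r : ℝ} (hr : 0 < r) (hsub : ball s₀ r ⊆ U)
    (p : ℕ) (u : ι → ℂ) (v : X) {y z : X} (hy : y ∈ ball s₀ (r / 2)) (hz : z ∈ ball s₀ (r / 2)) :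
    hn (hm w S P z) (fderiv ℝ (fun y => P p y *ᵥ u) y v) ≤
      Real.exp (C0 ι) ^ 2 * C0 ι ^ 2 * (‖v‖ / r) ^ 2 * hn (hm w S P z) u := by
  have hyU : y ∈ U := hsub (ball_subset_ball (by linarith) hy)
  have hzU : z ∈ U := hsub (ball_subset_ball (by linarith) hz)
  have hball : ball y (r / 2) ⊆ U := by
    refine Subset.trans ?_ hsub
    intro t ht
    rw [mem_ball] at ht hy ⊢
    calc dist t s₀ ≤ dist t y + dist y s₀ := dist_triangle _ _ _
      _ < r := by linarith
  have h1 := hn_le h hr hsub (fderiv ℝ (fun y => P p y *ᵥ u) y v) hz hy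
  have h2 := hn_fderiv_P_le h hyU p u v
  have h3 := gden_le h y v (by positivity : 0 < r / 2) hball
  have h4 := hn_le h hr hsub u hy hz
  have hCA := CA_pos ι
  have h5 := hn_nonneg (h.hmPos hyU) u
  have h6 := hn_nonneg (h.hmPos hzU) u
  have h7 := h.gden_nonneg hyU v
  calc hn (hm w S P z) (fderiv ℝ (fun y => P p y *ᵥ u) y v)
      ≤ Real.exp (C0 ι) * hn (hm w S P y) (fderiv ℝ (fun y => P p y *ᵥ u) y v) := h1
    _ ≤ Real.exp (C0 ι) * (16 * gden w P v y * hn (hm w S P y) u) := by gcongr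
    _ ≤ Real.exp (C0 ι) * (16 * (CA ι * ‖v‖ ^ 2 / (r / 2) ^ 2) *
        (Real.exp (C0 ι) * hn (hm w S P z) u)) := by gcongr
    _ = Real.exp (C0 ι) ^ 2 * C0 ι ^ 2 * (‖v‖ / r) ^ 2 * hn (hm w S P z) u := by
        unfold C0
        rw [mul_pow (8 : ℝ), Real.sq_sqrt hCA.le]
        field_simp
        ring

/-- projectors are bounded in the Hodge norm at any other point of the half ball -/
theorem hn_P_le' (h : VHS w U S P) {s₀ : X} {r : ℝ} (hr : 0 < r) (hsub : ball s₀ r ⊆ U)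
    (p : ℕ) (u : ι → ℂ) {y z : X} (hy : y ∈ ball s₀ (r / 2)) (hz : z ∈ ball s₀ (r / 2)) :
    hn (hm w S P z) (P p y *ᵥ u) ≤ Real.exp (C0 ι) ^ 2 * hn (hm w S P z) u := by
  have hyU : y ∈ U := hsub (ball_subset_ball (by linarith) hy)
  have h1 := hn_le h hr hsub (P p y *ᵥ u) hz hy
  have h2 := hn_P_le h hyU p u
  have h4 := hn_le h hr hsub u hy hz
  calc hn (hm w S P z) (P p y *ᵥ u) ≤ Real.exp (C0 ι) * hn (hm w S P y) (P p y *ᵥ u) := h1
    _ ≤ Real.exp (C0 ι) * hn (hm w S P y) u := by gcongr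
    _ ≤ Real.exp (C0 ι) * (Real.exp (C0 ι) * hn (hm w S P z) u) := by gcongr
    _ = _ := by ring

/-! ### holomorphy and transversality of the Hodge filtration -/

/-- `q_p = ∑_{p ≤ q ≤ w} P_q`, the projector on `F^p` -/
noncomputable def Fp (w : ℕ) (P : ℕ → X → Matrix ι ι ℂ) (p : ℕ) (x : X) : Matrix ι ι ℂ :=
  ∑ q ∈ Finset.Icc p w, P q x

theorem Fp_mul_P (h : VHS w U S P) (hx : x ∈ U) (p q : ℕ) :
    Fp w P p x * P q x = if p ≤ q then P q x else 0 := by
  unfold Fp
  rw [Finset.sum_mul]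
  by_cases hq : w < q
  · rw [h.top x hx q hq]; simp
  split_ifs with hpq
  · rw [Finset.sum_eq_single q]
    · exact h.idem x hx q
    · intro b _ hb
      exact h.orth x hx b q hb
    · intro hq'
      exact absurd (Finset.mem_Icc.2 ⟨hpq, by omega⟩) hq'
  · refine Finset.sum_eq_zero fun b hb => ?_
    have := (Finset.mem_Icc.1 hb).1
    exact h.orth x hx b q (by omega)

theorem P_mul_Fp (h : VHS w U S P) (hx : x ∈ U) (p q : ℕ) :
    P q x * Fp w P p x = if p ≤ q then P q x else 0 := by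
  unfold Fp
  rw [Finset.mul_sum]
  by_cases hq : w < q
  · rw [h.top x hx q hq]; simp
  split_ifs with hpq
  · rw [Finset.sum_eq_single q]
    · exact h.idem x hx q
    · intro b _ hb
      exact h.orth x hx q b (Ne.symm hb)
    · intro hq'
      exact absurd (Finset.mem_Icc.2 ⟨hpq, by omega⟩) hq'
  · refine Finset.sum_eq_zero fun b hb => ?_
    have := (Finset.mem_Icc.1 hb).1
    exact h.orth x hx q b (by omega)

theorem Fp_mul_Fp (h : VHS w U S P) (hx : x ∈ U) {p q : ℕ} (hpq : p ≤ q) :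
    Fp w P p x * Fp w P q x = Fp w P q x := by
  conv_lhs => rw [show Fp w P q x = ∑ r ∈ Finset.Icc q w, P r x from rfl]
  rw [Finset.mul_sum]
  unfold Fp
  refine Finset.sum_congr rfl fun r hr => ?_
  have h1 := Fp_mul_P h hx p r
  rw [if_pos (hpq.trans (Finset.mem_Icc.1 hr).1)] at h1
  exact h1

/-- `θ F^p ⊆ F^{p-1}` -/
theorem Fp_th_Fp (h : VHS w U S P) (hx : x ∈ U) (v : X) (p : ℕ) :
    Fp w P (p - 1) x * (dW (grOp w P) v x * Fp w P p x) = dW (grOp w P) v x * Fp w P p x := by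
  have hlow := h.low_th hx v
  have key : ∀ q, p ≤ q → Fp w P (p - 1) x * (dW (grOp w P) v x * P q x) =
      dW (grOp w P) v x * P q x := by
    intro q hq
    rcases Nat.eq_zero_or_pos q with h0 | h0
    · subst h0
      rw [h.low_P_zero hx hlow, mul_zero]
    · obtain ⟨q', rfl⟩ : ∃ q', q = q' + 1 := ⟨q - 1, by omega⟩
      rw [← h.low_P hx hlow, ← mul_assoc, Fp_mul_P h hx, if_pos (by omega)]
  conv_lhs => rw [show Fp w P p x = ∑ r ∈ Finset.Icc p w, P r x from rfl]
  conv_rhs => rw [show Fp w P p x = ∑ r ∈ Finset.Icc p w, P r x from rfl]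
  rw [Finset.mul_sum, Finset.mul_sum]
  exact Finset.sum_congr rfl fun r hr => key r (Finset.mem_Icc.1 hr).1

/-- `θ̄ F^p ⊆ F^p` -/
theorem Fp_tb_Fp (h : VHS w U S P) (hx : x ∈ U) (v : X) (p : ℕ) :
    Fp w P p x * (tb (grOp w P) v x * Fp w P p x) = tb (grOp w P) v x * Fp w P p x := by
  have hup := h.up_tb hx v
  have key : ∀ q, p ≤ q → Fp w P p x * (tb (grOp w P) v x * P q x) =
      tb (grOp w P) v x * P q x := by
    intro q hq
    rw [← h.up_P hx hup, ← mul_assoc, Fp_mul_P h hx, if_pos (by omega)]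
  conv_lhs => rw [show tb (grOp w P) v x * Fp w P p x =
    tb (grOp w P) v x * ∑ r ∈ Finset.Icc p w, P r x from rfl]
  conv_rhs => rw [show Fp w P p x = ∑ r ∈ Finset.Icc p w, P r x from rfl]
  rw [Finset.mul_sum, Finset.mul_sum]
  exact Finset.sum_congr rfl fun r hr => key r (Finset.mem_Icc.1 hr).1

theorem diff_Fp (h : VHS w U S P) (hx : x ∈ U) (p : ℕ) : DifferentiableAt ℝ (Fp w P p) x := by
  unfold Fp
  exact DifferentiableAt.fun_sum fun q _ => h.dP q hx

theorem dW_Fp (h : VHS w U S P) (hx : x ∈ U) (p : ℕ) (v : X) :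
    dW (Fp w P p) v x = dW (grOp w P) v x * Fp w P p x - Fp w P p x * dW (grOp w P) v x := by
  have : ∀ s : Finset ℕ, DifferentiableAt ℝ (fun y => ∑ q ∈ s, P q y) x ∧
      dW (fun y => ∑ q ∈ s, P q y) v x = ∑ q ∈ s, dW (P q) v x := by
    intro s
    induction s using Finset.induction_on with
    | empty => simp [dW_const]
    | insert a s ha ih =>
      simp only [Finset.sum_insert ha]
      refine ⟨(h.dP a hx).add ih.1, ?_⟩
      rw [dW_add (h.dP a hx) ih.1, ih.2]
  have h1 : dW (Fp w P p) v x = ∑ q ∈ Finset.Icc p w, dW (P q) v x := (this _).2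
  rw [h1]
  unfold Fp
  rw [Finset.mul_sum, Finset.sum_mul, ← Finset.sum_sub_distrib]
  exact Finset.sum_congr rfl fun q _ => dW_P h hx q v

theorem dB_Fp (h : VHS w U S P) (hx : x ∈ U) (p : ℕ) (v : X) :
    dB (Fp w P p) v x = tb (grOp w P) v x * Fp w P p x - Fp w P p x * tb (grOp w P) v x := by
  have : ∀ s : Finset ℕ, DifferentiableAt ℝ (fun y => ∑ q ∈ s, P q y) x ∧
      dB (fun y => ∑ q ∈ s, P q y) v x = ∑ q ∈ s, dB (P q) v x := by
    intro s
    induction s using Finset.induction_on with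
    | empty => simp [dB_const]
    | insert a s ha ih =>
      simp only [Finset.sum_insert ha]
      refine ⟨(h.dP a hx).add ih.1, ?_⟩
      rw [dB_add (h.dP a hx) ih.1, ih.2]
  have h1 : dB (Fp w P p) v x = ∑ q ∈ Finset.Icc p w, dB (P q) v x := (this _).2
  rw [h1]
  unfold Fp
  rw [Finset.mul_sum, Finset.sum_mul, ← Finset.sum_sub_distrib]
  exact Finset.sum_congr rfl fun q _ => dB_P h hx q v

/-- at a point where `u ∈ F^p` the derivative of the projection of `u` on `F^p` is complex linear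
and lies in `F^{p-1}` -/
theorem fderiv_Fp (h : VHS w U S P) (hx : x ∈ U) (p : ℕ) {u : ι → ℂ} (hu : Fp w P p x *ᵥ u = u) :
    (∀ v, fderiv ℝ (fun y => Fp w P p y *ᵥ u) x (Complex.I • v) =
      Complex.I • fderiv ℝ (fun y => Fp w P p y *ᵥ u) x v) ∧
    (∀ v, Fp w P (p - 1) x *ᵥ (fderiv ℝ (fun y => Fp w P p y *ᵥ u) x v) =
      fderiv ℝ (fun y => Fp w P p y *ᵥ u) x v) := by
  have hd := diff_Fp h hx p
  have hB : ∀ v, dB (fun y => Fp w P p y *ᵥ u) v x = 0 := by
    intro v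
    rw [dB_vec hd, dB_Fp h hx]
    have h1 := congrArg (fun M => M *ᵥ u) (Fp_tb_Fp h hx v p)
    simp only [← Matrix.mulVec_mulVec, hu] at h1
    rw [Matrix.sub_mulVec, ← Matrix.mulVec_mulVec, ← Matrix.mulVec_mulVec, hu, h1, sub_self]
  have hW : ∀ v, fderiv ℝ (fun y => Fp w P p y *ᵥ u) x v = dW (fun y => Fp w P p y *ᵥ u) v x := by
    intro v
    rw [VCalc_442.fderiv_eq, hB, add_zero]
  refine ⟨fun v => ?_, fun v => ?_⟩
  · rw [hW, hW, dW_smul_dir]
  · rw [hW, dW_vec hd, dW_Fp h hx]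
    have h1 := congrArg (fun M => M *ᵥ u) (Fp_th_Fp h hx v p)
    simp only [← Matrix.mulVec_mulVec, hu] at h1
    rw [Matrix.sub_mulVec, ← Matrix.mulVec_mulVec, ← Matrix.mulVec_mulVec, hu, Matrix.mulVec_sub, h1]
    congr 1
    rw [Matrix.mulVec_mulVec, Fp_mul_Fp h hx (Nat.sub_le p 1)]

end nm2

end Crest.Agent.R276.BndA_563
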