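import Mathlib
import Crest.Agent.R276.PdC_571

/-!
# R276, leaf PD (helper571): invariance of the period metric density on slices

`X` a Riemann domain over `ℂ^(n+1)`; coordinate `0` is the curve coordinate, slices are `y : Fin n → ℂ`
(points `Fin.cons ζ y`); `A : Finset (Fin n)` are the slice coordinates which belong to `z_2..z_a`.

* `Vt N A`: target space; `rho`: linear action of `GL_N(ℤ)`; `Fs V z A ζ y`: the invariant on the slice.
* `contDiffOn_Fs`, `fderiv_Fs`.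
* `wt V A x = det (g_yy) · ∏_{i ∈ A} (1+|z_i|²)^{-2}`.
* `inv_cv`: `wt x * |det L| = wt x'` (hypothesis of `CV_412.change_of_variables`).
-/

set_option autoImplicit false
set_option linter.unusedSectionVars false

noncomputable section

open Set Filter Topology Matrix
open scoped ContDiff ComplexConjugate ComplexOrder
open Crest.Agent.R271.Ho51
open Crest.Agent.R276.Ipc735
open Crest.Agent.R276.PdL571

namespace Crest.Agent.R276.Pd571

/-! ### the target space -/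

/-- target space of the invariants -/
abbrev Vt (N : ℕ) (K : Type*) := (Fin N → Fin N → ℂ) × (Fin N → Fin N → ℂ) × (K → ℂ)

variable {N : ℕ} {K : Type*} [Fintype K]

/-- the point of the target space given by a pair and coordinates -/
def vt (e : Mt N × Mt N) (a : K → ℂ) : Vt N K := (fun i j => e.1 i j, fun i j => e.2 i j, a)

lemma vt_inj {e e' : Mt N × Mt N} {a a' : K → ℂ} (h : vt e a = vt e' a') : e = e' ∧ a = a' := by
  have h1 := congrArg (fun q : Vt N K => q.1) h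
  have h2 := congrArg (fun q : Vt N K => q.2.1) h
  have h3 := congrArg (fun q : Vt N K => q.2.2) h
  exact ⟨Prod.ext h1 h2, h3⟩

/-- linear action of `GL_N(ℤ)` -/
def rhoL (g : GL (Fin N) ℤ) : Vt N K →ₗ[ℝ] Vt N K where
  toFun v := (fun i j => (cm g * (Matrix.of v.1) * cm g⁻¹) i j,
    fun i j => ((cm g⁻¹)ᴴ * (Matrix.of v.2.1) * cm g⁻¹) i j, v.2.2)
  map_add' u v := by
    have h : ∀ a b : Fin N → Fin N → ℂ, Matrix.of (a + b) = Matrix.of a + Matrix.of b :=
      fun _ _ => rfl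
    refine Prod.ext ?_ (Prod.ext ?_ rfl)
    · funext i j
      simp only [Prod.fst_add, h, Matrix.mul_add, Matrix.add_mul, Matrix.add_apply, Pi.add_apply]
    · funext i j
      simp only [Prod.fst_add, Prod.snd_add, h, Matrix.mul_add, Matrix.add_mul, Matrix.add_apply,
        Pi.add_apply]
  map_smul' c v := by
    have h : ∀ a : Fin N → Fin N → ℂ, Matrix.of (c • a) = c • Matrix.of a := fun _ => rfl
    refine Prod.ext ?_ (Prod.ext ?_ rfl)
    · funext i j
      simp only [Prod.smul_fst, h, Matrix.mul_smul, Matrix.smul_mul, Matrix.smul_apply,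
        Pi.smul_apply, RingHom.id_apply]
    · funext i j
      simp only [Prod.smul_fst, Prod.smul_snd, h, Matrix.mul_smul, Matrix.smul_mul,
        Matrix.smul_apply, Pi.smul_apply, RingHom.id_apply]

lemma rhoL_vt (g : GL (Fin N) ℤ) (e : Mt N × Mt N) (a : K → ℂ) :
    rhoL g (vt e a) = vt (act g e) a := rfl

/-- continuous linear action of `GL_N(ℤ)` -/
def rho : GL (Fin N) ℤ →* (Vt N K →L[ℝ] Vt N K) where
  toFun g := LinearMap.toContinuousLinearMap (rhoL g)
  map_one' := by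
    ext v <;> simp [rhoL]
  map_mul' g h := by
    have key : ∀ v : Vt N K, rhoL (g * h) v = rhoL g (rhoL h v) := by
      intro v
      have e : v = vt (Matrix.of v.1, Matrix.of v.2.1) v.2.2 := rfl
      rw [e, rhoL_vt, rhoL_vt, rhoL_vt, act_mul]
    refine ContinuousLinearMap.ext fun v => ?_
    exact key v

lemma rho_vt (g : GL (Fin N) ℤ) (e : Mt N × Mt N) (a : K → ℂ) :
    rho g (vt e a) = vt (act g e) a := rfl

lemma rho_fst (g : GL (Fin N) ℤ) (v : Vt N K) :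
    Matrix.of (rho g v).1 = cm g * Matrix.of v.1 * cm g⁻¹ := rfl

lemma rho_snd (g : GL (Fin N) ℤ) (v : Vt N K) : (rho g v).2.2 = v.2.2 := rfl

/-! ### slices -/

variable {n w : ℕ} {X : Type*} [TopologicalSpace X] [RDom (n + 1) X]
variable (V : Ipc735.VHS (n + 1) X N w) (A : Finset (Fin n))

/-- the invariant in the frame at `z` -/
def FV (z y : X) : Vt N A := vt (FF V z y) fun i => cp y i.1.succ

/-- the invariant of a point -/
def eV (x : X) : Vt N A := vt (ev V x) fun i => cp x i.1.succ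

/-- the invariant in the frame and in the chart at `z`, on the slice with first coordinate `ζ` -/
def Fs (z : X) (ζ : ℂ) (y : Fin n → ℂ) : Vt N A :=
  vt (FF V z ((ch z).symm (Fin.cons ζ y))) fun i => y i.1

variable {V A}

lemma Fs_eq {z : X} {ζ : ℂ} {y : Fin n → ℂ} (h : (Fin.cons ζ y : Fin (n + 1) → ℂ) ∈ (ch z).target) :
    Fs V A z ζ y = FV V A z ((ch z).symm (Fin.cons ζ y)) := by
  unfold Fs FV
  rw [(isCh_ch z).cp_symm h]
  rfl

lemma hasFDerivAt_cons (ζ : ℂ) (y : Fin n → ℂ) : HasFDerivAt (𝕜 := ℝ)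
    (fun y : Fin n → ℂ => (Fin.cons ζ y : Fin (n + 1) → ℂ))
    (ContinuousLinearMap.pi fun i : Fin (n + 1) =>
      (Fin.cases (0 : (Fin n → ℂ) →L[ℝ] ℂ) (fun j => ContinuousLinearMap.proj j) i)) y := by
  rw [hasFDerivAt_pi']
  intro i
  refine Fin.cases ?_ (fun j => ?_) i
  · exact hasFDerivAt_const ζ y
  · exact hasFDerivAt_apply (𝕜 := ℝ) j y

lemma contDiff_cons (ζ : ℂ) : ContDiff ℝ ∞ (fun y : Fin n → ℂ => (Fin.cons ζ y : Fin (n + 1) → ℂ)) := by
  rw [contDiff_pi]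
  intro i
  refine Fin.cases ?_ (fun j => ?_) i
  · exact contDiff_const
  · exact contDiff_apply ℝ ℂ j

lemma pi_cons_apply (v : Fin n → ℂ) : (ContinuousLinearMap.pi fun i : Fin (n + 1) =>
      (Fin.cases (0 : (Fin n → ℂ) →L[ℝ] ℂ) (fun j => ContinuousLinearMap.proj j) i)) v =
    (Fin.cons 0 v : Fin (n + 1) → ℂ) := by
  funext i
  refine Fin.cases ?_ (fun j => ?_) i
  · rfl
  · rfl

namespace Nb

variable {z : X} {U : Set (Fin (n + 1) → ℂ)}

/-- near a point of the slice `Fs` is given by the local field and a constant form -/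
lemma Fs_ev (h : Nb V z U) {ζ : ℂ} {y : Fin n → ℂ} (hy : (Fin.cons ζ y : Fin (n + 1) → ℂ) ∈ U) :
    Fs V A z ζ =ᶠ[𝓝 y] fun y => (fun i j => EL V z (Fin.cons ζ y) i j, fun i j => V.S z i j,
      fun i => y i.1) := by
  have h1 : ∀ᶠ y' in 𝓝 y, (Fin.cons ζ y' : Fin (n + 1) → ℂ) ∈ U :=
    (contDiff_cons ζ).continuous.continuousAt.eventually (h.op.mem_nhds hy)
  filter_upwards [h1] with y' hy'
  unfold Fs
  rw [h.FF_eq hy']
  rfl

lemma contDiffOn_Fs (h : Nb V z U) (ζ : ℂ) :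
    ContDiffOn ℝ ∞ (Fs V A z ζ) {y | (Fin.cons ζ y : Fin (n + 1) → ℂ) ∈ U} := by
  intro y hy
  have hy' : (Fin.cons ζ y : Fin (n + 1) → ℂ) ∈ U := hy
  refine (ContDiffAt.congr_of_eventuallyEq ?_ (h.Fs_ev hy')).contDiffWithinAt
  refine ContDiffAt.prodMk ?_ (ContDiffAt.prodMk contDiffAt_const ?_)
  · rw [contDiffAt_pi]
    intro i
    rw [contDiffAt_pi]
    intro j
    exact ((h.smEL i j).contDiffAt (h.op.mem_nhds hy')).comp y (contDiff_cons ζ).contDiffAt
  · rw [contDiffAt_pi]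
    intro i
    exact (contDiff_apply ℝ ℂ i.1).contDiffAt

/-- the derivative of the invariant on the slice -/
lemma fderiv_Fs (h : Nb V z U) {ζ : ℂ} {y : Fin n → ℂ} (hy : (Fin.cons ζ y : Fin (n + 1) → ℂ) ∈ U)
    (v : Fin n → ℂ) : fderiv ℝ (Fs V A z ζ) y v =
      (fun i j => Df (EL V z) (Fin.cons ζ y) (Fin.cons 0 v) i j, 0, fun i => v i.1) := by
  rw [(h.Fs_ev hy).fderiv_eq]
  have h1 : ∀ i j : Fin N, HasFDerivAt (𝕜 := ℝ) (fun y => EL V z (Fin.cons ζ y) i j)
      ((fderiv ℝ (fun c => EL V z c i j) (Fin.cons ζ y)).comp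
        (ContinuousLinearMap.pi fun i : Fin (n + 1) =>
          (Fin.cases (0 : (Fin n → ℂ) →L[ℝ] ℂ) (fun j => ContinuousLinearMap.proj j) i))) y :=
    fun i j => (h.diffEL hy i j).hasFDerivAt.comp y (hasFDerivAt_cons ζ y)
  have h2 : HasFDerivAt (𝕜 := ℝ) (fun y : Fin n → ℂ => fun i : A => y i.1)
      (ContinuousLinearMap.pi fun i : A => ContinuousLinearMap.proj i.1) y :=
    hasFDerivAt_pi' |>.2 fun i => hasFDerivAt_apply (𝕜 := ℝ) i.1 y
  have h3 : HasFDerivAt (𝕜 := ℝ) (fun y => fun i j => EL V z (Fin.cons ζ y) i j)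
      (ContinuousLinearMap.pi fun i => ContinuousLinearMap.pi fun j =>
        ((fderiv ℝ (fun c => EL V z c i j) (Fin.cons ζ y)).comp
        (ContinuousLinearMap.pi fun i : Fin (n + 1) =>
          (Fin.cases (0 : (Fin n → ℂ) →L[ℝ] ℂ) (fun j => ContinuousLinearMap.proj j) i)))) y :=
    hasFDerivAt_pi' |>.2 fun i => hasFDerivAt_pi' |>.2 fun j => h1 i j
  have h4 := h3.prodMk ((hasFDerivAt_const (𝕜 := ℝ) (fun i j => V.S z i j : Fin N → Fin N → ℂ)
    y).prodMk h2)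
  rw [h4.fderiv]
  refine Prod.ext ?_ (Prod.ext rfl rfl)
  funext i j
  exact congrArg (fun q => fderiv ℝ (fun c => EL V z c i j) (Fin.cons ζ y) q) (pi_cons_apply v)

end Nb

variable (V A)

/-- the Gram matrix on the slice -/
def gs (x : X) : Matrix (Fin n) (Fin n) ℂ := (gP V x).submatrix Fin.succ Fin.succ

/-- the density `det (g_yy) · ∏_{i ∈ A} (1+|z_i|²)^{-2}` -/
def wt (x : X) : ℝ :=
  (sub A (gs V x)).det.re * ∏ i ∈ A, ((1 + ‖cp x i.succ‖ ^ 2) ^ 2)⁻¹

lemma gs_herm (x : X) : (gs V x).IsHermitian := (gP_herm V x).submatrix _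

lemma sub_gs_posSemidef (x : X) : (sub A (gs V x)).PosSemidef :=
  ((gP_posSemidef V x).submatrix _).submatrix _

lemma norm_det_gs (x : X) : ‖(sub A (gs V x)).det‖ = (sub A (gs V x)).det.re := by
  have h := (sub_gs_posSemidef V A x).det_nonneg
  exact (Complex.re_eq_norm.2 h).symm

lemma wt_nonneg (x : X) : 0 ≤ wt V A x := by
  unfold wt
  rw [← norm_det_gs]
  exact mul_nonneg (norm_nonneg _) (Finset.prod_nonneg fun i _ => by positivity)

lemma bf_cons (x : X) (u v : Fin n → ℂ) :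
    bf (gs V x)ᵀ u v = bf (gP V x)ᵀ (Fin.cons 0 u) (Fin.cons 0 v) := by
  rw [bf_apply, bf_apply]
  congr 1
  simp only [dotProduct, Matrix.mulVec, Pi.star_apply, Matrix.transpose_apply, Fin.sum_univ_succ,
    Fin.cons_zero, Fin.cons_succ, star_zero, zero_mul, mul_zero, zero_add]
  rfl

variable {V A}

lemma trace_conj_sq {g g' T : Mt N} (h : g' * g = 1) :
    ((g * T * g') * (g * T * g')).trace = (T * T).trace := by
  have h5 : g * T * g' * (g * T * g') = g * (T * T) * g' := by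
    calc g * T * g' * (g * T * g') = g * T * (g' * g) * T * g' := by noncomm_ring
      _ = _ := by rw [h]; noncomm_ring
  rw [h5, Matrix.trace_mul_comm, ← Matrix.mul_assoc, h, Matrix.one_mul]

/-- **(INV)** invariance of the density under the coincidences `F = γ G` -/
theorem inv_cv {z z' : X} {U U' : Set (Fin (n + 1) → ℂ)} (h : Nb V z U) (h' : Nb V z' U')
    {ζ ζ' : ℂ} {y t : Fin n → ℂ} (hy : (Fin.cons ζ y : Fin (n + 1) → ℂ) ∈ U)
    (ht : (Fin.cons ζ' t : Fin (n + 1) → ℂ) ∈ U') (g : GL (Fin N) ℤ)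
    (L : (Fin n → ℂ) →L[ℝ] (Fin n → ℂ)) (hF : Fs V A z ζ y = rho g (Fs V A z' ζ' t))
    (hD : (fderiv ℝ (Fs V A z ζ) y).comp L = (rho g).comp (fderiv ℝ (Fs V A z' ζ') t)) :
    |L.det| * wt V A ((ch z).symm (Fin.cons ζ y)) = wt V A ((ch z').symm (Fin.cons ζ' t)) := by
  set x := (ch z).symm (Fin.cons ζ y) with hx
  set x' := (ch z').symm (Fin.cons ζ' t) with hx'
  have hcx : (cp x : Fin (n + 1) → ℂ) = Fin.cons ζ y := (isCh_ch z).cp_symm (h.sub hy)
  have hcx' : (cp x' : Fin (n + 1) → ℂ) = Fin.cons ζ' t := (isCh_ch z').cp_symm (h'.sub ht)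
  have hv : ∀ v : Fin n → ℂ, fderiv ℝ (Fs V A z ζ) y (L v) =
      rho g (fderiv ℝ (Fs V A z' ζ') t v) := fun v =>
    congrArg (fun M : (Fin n → ℂ) →L[ℝ] Vt N A => M v) hD
  have hL : ∀ v : Fin n → ℂ, ∀ i ∈ A, (L : (Fin n → ℂ) →ₗ[ℝ] (Fin n → ℂ)) v i = v i := by
    intro v i hi
    have e1 : (fderiv ℝ (Fs V A z ζ) y (L v)).2.2 ⟨i, hi⟩ = L v i := by rw [h.fderiv_Fs hy]
    have e2 : (rho g (fderiv ℝ (Fs V A z' ζ') t v)).2.2 ⟨i, hi⟩ = v i := by
      rw [rho_snd, h'.fderiv_Fs ht]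
    exact e1.symm.trans ((congrArg (fun q : Vt N A => q.2.2 ⟨i, hi⟩) (hv v)).trans e2)
  have hT : ∀ v : Fin n → ℂ, (TE V x (Fin.cons 0 (L v)) * TE V x (Fin.cons 0 (L v))).trace =
      (TE V x' (Fin.cons 0 v) * TE V x' (Fin.cons 0 v)).trace := by
    intro v
    have e1 : Matrix.of (fderiv ℝ (Fs V A z ζ) y (L v)).1 =
        Df (EL V z) (Fin.cons ζ y) (Fin.cons 0 (L v)) := by rw [h.fderiv_Fs hy]; rfl
    have e2 : Matrix.of (rho g (fderiv ℝ (Fs V A z' ζ') t v)).1 =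
        cm g * Df (EL V z') (Fin.cons ζ' t) (Fin.cons 0 v) * cm g⁻¹ := by
      rw [rho_fst, h'.fderiv_Fs ht]; rfl
    have h2 : Df (EL V z) (Fin.cons ζ y) (Fin.cons 0 (L v)) =
        cm g * Df (EL V z') (Fin.cons ζ' t) (Fin.cons 0 v) * cm g⁻¹ :=
      e1.symm.trans ((congrArg (fun q : Vt N A => Matrix.of q.1) (hv v)).trans e2)
    rw [h.Df_EL hy, h'.Df_EL ht] at h2
    have h3 := trace_conj_sq (T := TE V x (Fin.cons 0 (L v))) (Pd571.cm_inv_mul (V.P z x))
    have h4 := trace_conj_sq (T := TE V x' (Fin.cons 0 v)) (Pd571.cm_inv_mul (V.P z' x'))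
    have h5 := trace_conj_sq (T := cm (V.P z' x') * TE V x' (Fin.cons 0 v) * cm (V.P z' x')⁻¹)
      (Pd571.cm_inv_mul g)
    rw [← h3, ← h4, ← h5]
    exact congrArg (fun M : Mt N => (M * M).trace) h2
  have hq : ∀ v : Fin n → ℂ, bf (gs V x)ᵀ (L v) (L v) = bf (gs V x')ᵀ v v := by
    intro v
    have h1 := bf_gP V x (Fin.cons 0 (L v)) (Fin.cons 0 (L v))
    have h2 := bf_gP V x' (Fin.cons 0 v) (Fin.cons 0 v)
    rw [bf_cons, bf_cons, h1, h2, hT v]
  have hdet := det_slice A (gs_herm V x).transpose (gs_herm V x').transpose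
    (L : (Fin n → ℂ) →ₗ[ℝ] (Fin n → ℂ)) hL fun v _ => hq v
  have ht1 : ∀ G : Matrix (Fin n) (Fin n) ℂ, (sub A Gᵀ).det = (sub A G).det := fun G => by
    rw [← Matrix.det_transpose]; rfl
  rw [ht1, ht1, norm_det_gs, norm_det_gs] at hdet
  have hA : ∀ i ∈ A, y i = t i := by
    intro i hi
    have e2 : (rho g (Fs V A z' ζ' t)).2.2 ⟨i, hi⟩ = t i := by rw [rho_snd]; rfl
    exact (congrArg (fun q : Vt N A => q.2.2 ⟨i, hi⟩) hF).trans e2
  have hprod : ∏ i ∈ A, ((1 + ‖(cp x : Fin (n + 1) → ℂ) i.succ‖ ^ 2) ^ 2)⁻¹ =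
      ∏ i ∈ A, ((1 + ‖(cp x' : Fin (n + 1) → ℂ) i.succ‖ ^ 2) ^ 2)⁻¹ := by
    refine Finset.prod_congr rfl fun i hi => ?_
    rw [hcx, hcx', Fin.cons_succ, Fin.cons_succ, hA i hi]
  unfold wt
  rw [hprod, ← mul_assoc, ← hdet]

end Crest.Agent.R276.Pd571
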