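import Mathlib
import Crest.Agent.R276.PdD_571

/-!
# R276, leaf PD (helper571): the invariant density, general curve coordinate `i₀`

`X` a Riemann domain over `ℂ^(n+1)`, `i₀ : Fin (n+1)`, `A : Finset (Fin n)` (slice coordinates of the
transcendence basis of the constants; coordinate number `i` of the slice is `i₀.succAbove i`).

* `sm_gP` the Gram matrix is smooth on `X`; `levi`-calculus through `Nb.gg_eq`.
* `gS V i₀ x` the Gram matrix of the slice; `wS V i₀ A x` the density, `sm_wS`, `wS_nonneg`.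
* `inv_pt` pointwise invariance `wS p = |det L| wS q`.
* `imm_iff` the invariant is immersive on `{v i₀ = 0}` iff `0 < wS`.
-/

set_option autoImplicit false
set_option linter.unusedSectionVars false

noncomputable section

open Set Filter Topology Matrix
open scoped ContDiff ComplexConjugate ComplexOrder
open Crest.Agent.R271.Ho51
open Crest.Agent.R276.Ipc735
open Crest.Agent.R276.PdL571

namespace Crest.Agent.R276.Pd571

section sm

variable {m N w : ℕ} {X : Type*} [TopologicalSpace X] [RDom m X]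
variable (V : Ipc735.VHS m X N w)

/-- the Gram matrix of the period metric is smooth -/
theorem sm_gP (j k : Fin m) : Sm (fun x : X => gP V x j k) := by
  intro x
  obtain ⟨U, hx, h⟩ := exists_Nb V x
  have h1 := (h.loc.sm_gg (Pi.single j 1) (Pi.single k 1)).contDiffAt (h.op.mem_nhds hx)
  refine h1.congr_of_eventuallyEq ?_
  filter_upwards [h.op.mem_nhds hx] with c hc
  exact (h.gg_eq hc j k).symm

/-- products of smooth functions -/
lemma sm_prod {ι : Type*} {s : Finset ι} {f : ι → X → ℂ} (hf : ∀ i ∈ s, Sm (f i)) :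
    Sm (fun x => ∏ i ∈ s, f i x) := by
  classical
  revert hf
  refine Finset.induction_on s ?_ ?_
  · intro _
    simp only [Finset.prod_empty]
    exact Sm.const 1
  · intro i s hi ih hf
    simp only [Finset.prod_insert hi]
    exact (hf i (Finset.mem_insert_self _ _)).mul
      (ih fun j hj => hf j (Finset.mem_insert_of_mem hj))

lemma sm_prodR {ι : Type*} {s : Finset ι} {f : ι → X → ℝ} (hf : ∀ i ∈ s, Sm (f i)) :
    Sm (fun x => ∏ i ∈ s, f i x) := by
  classical
  revert hf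
  refine Finset.induction_on s ?_ ?_
  · intro _
    simp only [Finset.prod_empty]
    exact Sm.const 1
  · intro i s hi ih hf
    simp only [Finset.prod_insert hi]
    exact (hf i (Finset.mem_insert_self _ _)).mulR
      (ih fun j hj => hf j (Finset.mem_insert_of_mem hj))

lemma sm_det {κ : Type*} [Fintype κ] [DecidableEq κ] {G : X → Matrix κ κ ℂ}
    (hG : ∀ j k, Sm (fun x => G x j k)) : Sm (fun x => (G x).det) := by
  simp only [Matrix.det_apply']
  exact Sm.sum fun τ _ => (Sm.const _).mul (sm_prod fun i _ => hG _ _)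

end sm

variable {n N w : ℕ} {X : Type*} [TopologicalSpace X] [RDom (n + 1) X]
variable (V : Ipc735.VHS (n + 1) X N w) (i₀ : Fin (n + 1)) (A : Finset (Fin n))

/-- the Gram matrix of the slice `{z_{i₀} = const}` -/
def gS (x : X) : Matrix (Fin n) (Fin n) ℂ := (gP V x).submatrix i₀.succAbove i₀.succAbove

/-- the density `det (g_β) · ∏_{i ∈ A} (1+|z_i|²)^{-2}` -/
def wS (x : X) : ℝ :=
  (sub A (gS V i₀ x)).det.re * ∏ i ∈ A, ((1 + ‖cp x (i₀.succAbove i)‖ ^ 2) ^ 2)⁻¹

lemma gS_herm (x : X) : (gS V i₀ x).IsHermitian := (gP_herm V x).submatrix _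

lemma sub_gS_posSemidef (x : X) : (sub A (gS V i₀ x)).PosSemidef :=
  ((gP_posSemidef V x).submatrix _).submatrix _

lemma norm_det_gS (x : X) : ‖(sub A (gS V i₀ x)).det‖ = (sub A (gS V i₀ x)).det.re := by
  have h := (sub_gS_posSemidef V i₀ A x).det_nonneg
  exact (Complex.re_eq_norm.2 h).symm

lemma det_gS_nonneg (x : X) : 0 ≤ (sub A (gS V i₀ x)).det.re := by
  rw [← norm_det_gS]; exact norm_nonneg _

lemma wS_prod_pos (x : X) : 0 < ∏ i ∈ A, ((1 + ‖(cp x : Fin (n + 1) → ℂ) (i₀.succAbove i)‖ ^ 2) ^ 2)⁻¹ :=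
  Finset.prod_pos fun i _ => by positivity

lemma wS_nonneg (x : X) : 0 ≤ wS V i₀ A x :=
  mul_nonneg (det_gS_nonneg V i₀ A x) (wS_prod_pos i₀ A x).le

lemma wS_pos_iff (x : X) : 0 < wS V i₀ A x ↔ 0 < (sub A (gS V i₀ x)).det.re := by
  unfold wS
  exact mul_pos_iff_of_pos_right (wS_prod_pos i₀ A x)

theorem sm_det_gS : Sm (fun x : X => (sub A (gS V i₀ x)).det.re) :=
  (sm_det (G := fun x : X => sub A (gS V i₀ x)) fun j k => sm_gP V _ _).clm Complex.reCLM

theorem sm_wS : Sm (wS V i₀ A) := by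
  refine (sm_det_gS V i₀ A).mulR (sm_prodR fun i _ => ?_)
  have h1 : ContDiff ℝ (⊤ : ℕ∞) fun c : Fin (n + 1) → ℂ => ((1 + ‖c (i₀.succAbove i)‖ ^ 2) ^ 2)⁻¹ := by
    have h2 : ContDiff ℝ (⊤ : ℕ∞) fun c : Fin (n + 1) → ℂ => (1 + ‖c (i₀.succAbove i)‖ ^ 2) ^ 2 :=
      (contDiff_const.add ((contDiff_apply ℝ ℂ (i₀.succAbove i)).norm_sq ℝ)).pow 2
    exact h2.inv fun c => by positivity
  exact Sm.of_coord h1

lemma bf_insert (x : X) (u v : Fin n → ℂ) :
    bf (gS V i₀ x)ᵀ u v = bf (gP V x)ᵀ (i₀.insertNth 0 u) (i₀.insertNth 0 v) := by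
  rw [bf_apply, bf_apply]
  congr 1
  simp only [dotProduct, Matrix.mulVec, Pi.star_apply, Matrix.transpose_apply]
  rw [Fin.sum_univ_succAbove _ i₀]
  simp only [Fin.insertNth_apply_same, star_zero, zero_mul, zero_add, Fin.insertNth_apply_succAbove]
  refine Finset.sum_congr rfl fun k _ => ?_
  congr 1
  rw [Fin.sum_univ_succAbove _ i₀]
  simp only [Fin.insertNth_apply_same, mul_zero, zero_add, Fin.insertNth_apply_succAbove]
  rfl

variable {V i₀ A}

/-- **(INV), pointwise** -/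
theorem inv_pt {p q : X} (g : GL (Fin N) ℤ)
    (hA : ∀ i ∈ A, (cp q : Fin (n + 1) → ℂ) (i₀.succAbove i) = (cp p : Fin (n + 1) → ℂ) (i₀.succAbove i))
    (L : (Fin n → ℂ) →L[ℝ] (Fin n → ℂ))
    (hT : ∀ v, TE V q (i₀.insertNth 0 (L v)) = cm g * TE V p (i₀.insertNth 0 v) * cm g⁻¹)
    (hL : ∀ v, ∀ i ∈ A, L v i = v i) :
    |L.det| * wS V i₀ A q = wS V i₀ A p := by
  have hq : ∀ v : Fin n → ℂ, bf (gS V i₀ q)ᵀ (L v) (L v) = bf (gS V i₀ p)ᵀ v v := by
    intro v
    have h1 := bf_gP V q (i₀.insertNth 0 (L v)) (i₀.insertNth 0 (L v))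
    have h2 := bf_gP V p (i₀.insertNth 0 v) (i₀.insertNth 0 v)
    rw [bf_insert, bf_insert, h1, h2, hT v, trace_conj_sq (Pd571.cm_inv_mul g)]
  have hdet := det_slice A (gS_herm V i₀ q).transpose (gS_herm V i₀ p).transpose
    (L : (Fin n → ℂ) →ₗ[ℝ] (Fin n → ℂ)) hL fun v _ => hq v
  have ht1 : ∀ G : Matrix (Fin n) (Fin n) ℂ, (sub A Gᵀ).det = (sub A G).det := fun G => by
    rw [← Matrix.det_transpose]; rfl
  rw [ht1, ht1, norm_det_gS, norm_det_gS] at hdet
  have hprod : ∏ i ∈ A, ((1 + ‖(cp q : Fin (n + 1) → ℂ) (i₀.succAbove i)‖ ^ 2) ^ 2)⁻¹ =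
      ∏ i ∈ A, ((1 + ‖(cp p : Fin (n + 1) → ℂ) (i₀.succAbove i)‖ ^ 2) ^ 2)⁻¹ :=
    Finset.prod_congr rfl fun i hi => by rw [hA i hi]
  unfold wS
  rw [hprod, ← mul_assoc, ← hdet]

variable (V i₀ A)

/-- a positive semidefinite Hermitian form: the quadratic form through the determinant -/
lemma posdef_iff {κ : Type*} [Fintype κ] [DecidableEq κ] {G : Matrix κ κ ℂ} (hG : G.PosSemidef) :
    (∀ v : κ → ℂ, bf Gᵀ v v = 0 → v = 0) ↔ 0 < G.det.re := by
  have hGt : (Gᵀ).PosSemidef := hG.transpose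
  have hd : 0 ≤ G.det.re := by
    have := hG.det_nonneg
    exact (Complex.le_def.1 this).1
  have hdim : G.det.im = 0 := ((Complex.le_def.1 hG.det_nonneg).2).symm
  have hpos : ∀ v : κ → ℂ, bf Gᵀ v v = 0 ↔ Gᵀ *ᵥ v = 0 := by
    intro v
    rw [← hGt.dotProduct_mulVec_zero_iff, bf_apply]
    constructor
    · intro h
      have h2 := hGt.dotProduct_mulVec_nonneg v
      exact Complex.ext h ((Complex.le_def.1 h2).2).symm
    · intro h
      rw [h]; rfl
  constructor
  · intro h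
    rcases hd.lt_or_eq with h1 | h1
    · exact h1
    · exfalso
      have h0 : (Gᵀ).det = 0 := by
        rw [Matrix.det_transpose]
        exact Complex.ext h1.symm hdim
      obtain ⟨v, hv, hv'⟩ := Matrix.exists_mulVec_eq_zero_iff.2 h0
      exact hv (h v ((hpos v).2 hv'))
  · intro h v hv
    by_contra hne
    have h0 : (Gᵀ).det = 0 := Matrix.exists_mulVec_eq_zero_iff.1 ⟨v, hne, (hpos v).1 hv⟩
    rw [Matrix.det_transpose] at h0
    rw [h0] at h
    simp at h

/-- immersivity on `{v i₀ = 0}` -/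
theorem imm_iff (x : X) :
    (∀ v : Fin (n + 1) → ℂ, v i₀ = 0 → (∀ i ∈ A, v (i₀.succAbove i) = 0) → TE V x v = 0 → v = 0) ↔
      0 < (sub A (gS V i₀ x)).det.re := by
  rw [← posdef_iff (sub_gS_posSemidef V i₀ A x)]
  have key : ∀ u : Cm A → ℂ, bf (sub A (gS V i₀ x))ᵀ u u =
      bf (gP V x)ᵀ (i₀.insertNth 0 (inc A u)) (i₀.insertNth 0 (inc A u)) := by
    intro u
    rw [← bf_insert, bf_inc]
    rfl
  constructor
  · intro h u hu
    rw [key, ← TE_eq_zero_iff] at hu
    have h1 := h _ (Fin.insertNth_apply_same _ _ _)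
      (fun i hi => by rw [Fin.insertNth_apply_succAbove, inc_mem A hi]) hu
    funext i
    have h2 := congrFun h1 (i₀.succAbove i.1)
    rw [Fin.insertNth_apply_succAbove, inc_of A i.2] at h2
    exact h2
  · intro h v h0 hA hT
    have h1 : v = i₀.insertNth 0 (inc A (pr A fun i => v (i₀.succAbove i))) := by
      rw [inc_pr A (v := fun i => v (i₀.succAbove i)) hA]
      funext k
      rcases Fin.eq_self_or_eq_succAbove i₀ k with rfl | ⟨k, rfl⟩
      · rw [Fin.insertNth_apply_same, h0]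
      · rw [Fin.insertNth_apply_succAbove]
    rw [TE_eq_zero_iff] at hT
    have h2 := h (pr A fun i => v (i₀.succAbove i)) (by rw [key, ← h1]; exact hT)
    rw [h1, h2, map_zero]
    funext k
    rcases Fin.eq_self_or_eq_succAbove i₀ k with rfl | ⟨k, rfl⟩
    · rw [Fin.insertNth_apply_same]; rfl
    · rw [Fin.insertNth_apply_succAbove]; rfl

end Crest.Agent.R276.Pd571
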