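import Mathlib
import Crest.Agent.R276.Ahl_25

/-!
# R276, leaf MAXP (helper25): maximum principles for `C²` plurisubharmonic functions

`lev u z v = D²u(z)(v,v) + D²u(z)(iv,iv)` (same formula as `R273.Defs_333.lev`, any complex normed space).
-/

set_option autoImplicit false

open Set Filter Topology Metric InnerProductSpace Laplacian
open scoped ContDiff

namespace Crest.Agent.R276.MaxP_25

open Crest.Agent.R276.Ahl_25

/-! ### the Levi form and the Laplacian on complex lines -/

section lev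

variable {E : Type*} [NormedAddCommGroup E] [NormedSpace ℝ E] [NormedSpace ℂ E]

/-- `D²u(z)(v,v) + D²u(z)(iv,iv)` -/
noncomputable def lev (u : E → ℝ) (z v : E) : ℝ :=
  iteratedFDeriv ℝ 2 u z ![v, v] + iteratedFDeriv ℝ 2 u z ![Complex.I • v, Complex.I • v]

theorem lev_eq (u : E → ℝ) (z v : E) :
    lev u z v = fderiv ℝ (fderiv ℝ u) z v v +
      fderiv ℝ (fderiv ℝ u) z (Complex.I • v) (Complex.I • v) := by
  simp [lev, iteratedFDeriv_two_apply]

theorem lev_add {u w : E → ℝ} {z : E} (hu : ContDiffAt ℝ 2 u z) (hw : ContDiffAt ℝ 2 w z) (v : E) :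
    lev (fun x => u x + w x) z v = lev u z v + lev w z v := by
  have h : iteratedFDeriv ℝ 2 (fun x => u x + w x) z =
      iteratedFDeriv ℝ 2 u z + iteratedFDeriv ℝ 2 w z := by
    exact iteratedFDeriv_add_apply hu hw
  simp only [lev, h, add_apply]
  ring

theorem lev_const_mul {u : E → ℝ} {z : E} (hu : ContDiffAt ℝ 2 u z) (c : ℝ) (v : E) :
    lev (fun x => c * u x) z v = c * lev u z v := by
  have h : iteratedFDeriv ℝ 2 (fun x => c * u x) z = c • iteratedFDeriv ℝ 2 u z := by
    exact iteratedFDeriv_const_smul_apply (a := c) hu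
  simp only [lev, h, smul_apply, smul_eq_mul]
  ring

theorem lev_neg {u : E → ℝ} {z : E} (hu : ContDiffAt ℝ 2 u z) (v : E) :
    lev (fun x => - u x) z v = - lev u z v := by
  have := lev_const_mul hu (-1) v
  simpa using this

theorem lev_sub {u w : E → ℝ} {z : E} (hu : ContDiffAt ℝ 2 u z) (hw : ContDiffAt ℝ 2 w z) (v : E) :
    lev (fun x => u x - w x) z v = lev u z v - lev w z v := by
  have h1 := lev_add hu hw.neg v
  rw [lev_neg hw] at h1
  simpa [sub_eq_add_neg] using h1

theorem lev_nonpos_of_isLocalMax {u : E → ℝ} {z : E} (hu : ContDiffAt ℝ 2 u z)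
    (hm : IsLocalMax u z) (v : E) : lev u z v ≤ 0 := by
  rw [lev_eq]
  have h1 := snd_nonpos_of_isLocalMax hu hm v
  have h2 := snd_nonpos_of_isLocalMax hu hm (Complex.I • v)
  linarith

/-- at a local maximum of `ψ - φ` the Levi form of `φ` dominates that of `ψ` -/
theorem lev_le_of_isLocalMax {ψ φ : E → ℝ} {z : E} (hψ : ContDiffAt ℝ 2 ψ z)
    (hφ : ContDiffAt ℝ 2 φ z) (hm : IsLocalMax (fun x => ψ x - φ x) z) (v : E) :
    lev ψ z v ≤ lev φ z v := by
  have h1 := lev_nonpos_of_isLocalMax (hψ.sub hφ) hm v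
  rw [lev_sub hψ hφ] at h1
  linarith

variable [IsScalarTower ℝ ℂ E]

theorem hasFDerivAt_cline (z v : E) (t : ℂ) :
    HasFDerivAt (fun s : ℂ => z + s • v) ((ContinuousLinearMap.id ℝ ℂ).smulRight v) t := by
  have h := (((hasFDerivAt_id (𝕜 := ℂ) t).smul_const v).const_add z).restrictScalars ℝ
  refine h.congr_fderiv ?_
  (ext; simp)

theorem contDiff_cline (z v : E) : ContDiff ℝ 2 (fun s : ℂ => z + s • v) := by
  have : ContDiff ℝ 2 (fun s : ℂ => z + ((ContinuousLinearMap.id ℝ ℂ).smulRight v) s) :=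
    contDiff_const.add (ContinuousLinearMap.contDiff _)
  exact this

theorem lap_cline {u : E → ℝ} {z v : E} {t : ℂ} (hu : ContDiffAt ℝ 2 u (z + t • v)) :
    (Δ (fun s : ℂ => u (z + s • v))) t = lev u (z + t • v) v := by
  have hg : ContDiffAt ℝ 2 (fun s : ℂ => u (z + s • v)) t :=
    hu.comp t (contDiff_cline z v).contDiffAt
  rw [lap_eq, lev_eq, ← deriv2_line hg, ← deriv2_line hg, ← deriv2_line hu, ← deriv2_line hu]
  have e1 : (fun s : ℝ => u (z + (t + s • (1 : ℂ)) • v)) = fun s : ℝ => u (z + t • v + s • v) := by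
    funext s
    congr 1
    rw [add_smul, smul_assoc, one_smul, add_assoc]
  have e2 : (fun s : ℝ => u (z + (t + s • Complex.I) • v)) =
      fun s : ℝ => u (z + t • v + s • (Complex.I • v)) := by
    funext s
    congr 1
    rw [add_smul, smul_assoc, add_assoc]
  rw [e1, e2]

end lev

/-! ### weak maximum principle in one variable -/

theorem lap_normSq (z : ℂ) : (Δ (fun w : ℂ => ‖w‖ ^ 2)) z = 4 := by
  have hc : ContDiffAt ℝ 2 (fun w : ℂ => ‖w‖ ^ 2) z := (contDiff_norm_sq ℝ).contDiffAt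
  have key : ∀ v : ℂ, ‖v‖ = 1 → fderiv ℝ (fderiv ℝ (fun w : ℂ => ‖w‖ ^ 2)) z v v = 2 := by
    intro v hv
    rw [← deriv2_line hc]
    set b := z.re * v.re + z.im * v.im with hb
    have hv2 : v.re ^ 2 + v.im ^ 2 = 1 := by
      have := Complex.normSq_eq_norm_sq v
      rw [hv, Complex.normSq_apply] at this
      linarith
    have e1 : (fun t : ℝ => ‖z + t • v‖ ^ 2) = fun t => ‖z‖ ^ 2 + 2 * b * t + t ^ 2 := by
      funext t
      rw [← Complex.normSq_eq_norm_sq, ← Complex.normSq_eq_norm_sq, Complex.normSq_apply,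
        Complex.normSq_apply, hb]
      simp only [Complex.add_re, Complex.add_im, Complex.real_smul, Complex.mul_re,
        Complex.mul_im, Complex.ofReal_re, Complex.ofReal_im, zero_mul, sub_zero, add_zero]
      linear_combination t ^ 2 * hv2
    rw [e1]
    have hd : deriv (fun t : ℝ => ‖z‖ ^ 2 + 2 * b * t + t ^ 2) = fun t => 2 * b + 2 * t := by
      funext t
      have h1 : HasDerivAt (fun t : ℝ => ‖z‖ ^ 2 + 2 * b * t + t ^ 2) (2 * b + 2 * t) t := by
        have := (((hasDerivAt_id t).const_mul (2 * b)).const_add (‖z‖ ^ 2)).add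
          ((hasDerivAt_id t).pow 2)
        refine this.congr_deriv ?_
        simp
      exact h1.deriv
    rw [hd]
    have h2 : HasDerivAt (fun t : ℝ => 2 * b + 2 * t) 2 0 := by
      have := ((hasDerivAt_id (0 : ℝ)).const_mul 2).const_add (2 * b)
      simpa using this
    exact h2.deriv
  rw [lap_eq, key 1 (by simp), key Complex.I (by simp)]
  norm_num

/-- **weak maximum principle**: `F ⊆ W`, `u ≤ M` on `(K ∩ W) \ F`; at the other points of `K` either `u ≤ M`
or `z` is an interior point where `u` is `C²` with `Δ u ≥ 0`. -/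
theorem wmp {K W F : Set ℂ} (hK : IsCompact K) (hW : IsOpen W) (hF : IsClosed F) (hFW : F ⊆ W)
    {u : ℂ → ℝ} {M : ℝ} (hc : ContinuousOn u (K \ W)) (hWM : ∀ z ∈ K, z ∈ W → z ∉ F → u z ≤ M)
    (hB : ∀ z ∈ K, z ∉ W → u z ≤ M ∨ (K ∈ 𝓝 z ∧ ContDiffAt ℝ 2 u z ∧ 0 ≤ (Δ u) z)) :
    ∀ z ∈ K, z ∉ F → u z ≤ M := by
  intro z0 hz0 hz0F
  by_contra hcon
  push Not at hcon
  have hz0W : z0 ∉ W := fun h => absurd (hWM z0 hz0 h hz0F) (not_le.2 hcon)
  obtain ⟨R, hR⟩ := hK.isBounded.exists_norm_le
  set ε : ℝ := (u z0 - M) / (2 * (R ^ 2 + 1)) with hε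
  have hε0 : 0 < ε := div_pos (by linarith) (by positivity)
  have hεR : ε * R ^ 2 < u z0 - M := by
    have : ε * (2 * (R ^ 2 + 1)) = u z0 - M := by rw [hε]; field_simp
    nlinarith
  set v : ℂ → ℝ := fun z => u z + ε * ‖z‖ ^ 2 with hv
  have hvc : ContinuousOn v (K \ W) := hc.add (by fun_prop)
  obtain ⟨p, hp, hmax⟩ := (hK.diff hW).exists_isMaxOn ⟨z0, hz0, hz0W⟩ hvc
  have hp0 : v z0 ≤ v p := hmax ⟨hz0, hz0W⟩
  have hnn : ∀ z ∈ K, ε * ‖z‖ ^ 2 ≤ ε * R ^ 2 := by
    intro z hz
    have := hR z hz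
    have h2 : ‖z‖ ^ 2 ≤ R ^ 2 := by
      have := norm_nonneg z
      nlinarith [hR z hz]
    exact mul_le_mul_of_nonneg_left h2 hε0.le
  have hvp : M + ε * R ^ 2 < v p := by
    have h1 : u z0 ≤ v z0 := by simp only [hv]; nlinarith [sq_nonneg ‖z0‖]
    linarith
  rcases hB p hp.1 hp.2 with h | ⟨hKp, hC, hlap⟩
  · have := hnn p hp.1
    simp only [hv] at hvp
    linarith
  · have hFc : Fᶜ ∈ 𝓝 p := hF.isOpen_compl.mem_nhds (fun h => hp.2 (hFW h))
    have hloc : IsLocalMax v p := by
      filter_upwards [hKp, hFc] with z hz hzF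
      by_cases hzW : z ∈ W
      · have h1 := hWM z hz hzW hzF
        have h2 := hnn z hz
        simp only [hv] at hvp ⊢
        linarith
      · exact hmax ⟨hz, hzW⟩
    have hCn : ContDiffAt ℝ 2 (fun z : ℂ => ‖z‖ ^ 2) p := (contDiff_norm_sq ℝ).contDiffAt
    have h1 := lap_nonpos_of_isLocalMax (hC.add (hCn.const_smul ε)) hloc
    have h2 : (Δ v) p = (Δ u) p + ε * 4 := by
      have h3 : v = u + ε • (fun z : ℂ => ‖z‖ ^ 2) := rfl
      rw [h3]
      have h4 : (Δ (u + ε • (fun z : ℂ => ‖z‖ ^ 2))) p =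
          (Δ u) p + (Δ (ε • (fun z : ℂ => ‖z‖ ^ 2))) p := hC.laplacian_add (hCn.const_smul ε)
      have h5 : (Δ (ε • (fun z : ℂ => ‖z‖ ^ 2))) p = ε • (Δ (fun z : ℂ => ‖z‖ ^ 2)) p :=
        laplacian_smul ε hCn
      rw [h4, h5, lap_normSq, smul_eq_mul]
    have h6 : (Δ v) p ≤ 0 := h1
    rw [h2] at h6
    linarith

/-- harmonic sum of logarithms -/
theorem harmonicAt_logsum (F : Finset ℂ) (c : ℝ) {z : ℂ} (hz : z ∉ F) :
    HarmonicAt (fun w => ∑ f ∈ F, (Real.log ‖w - f‖ - c)) z := by
  induction F using Finset.induction_on with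
  | empty => simp
  | insert f F hf ih =>
    have h1 : z ≠ f := fun h => hz (by simp [h])
    have h2 : z ∉ F := fun h => hz (Finset.mem_insert_of_mem h)
    have h3 : HarmonicAt (fun w : ℂ => Real.log ‖w - f‖) z :=
      AnalyticAt.harmonicAt_log_norm (by fun_prop) (sub_ne_zero.2 h1)
    have h4 : HarmonicAt (fun w : ℂ => Real.log ‖w - f‖ - c) z := h3.sub (harmonicAt_const c)
    have h5 := h4.add (ih h2)
    refine (harmonicAt_congr_nhds (Eventually.of_forall fun w => ?_)).2 h5
    rw [Finset.sum_insert hf]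
    rfl

/-- **removable logarithmic singularities**: `u` is `C²`, subharmonic on `|z| < r` minus the finite set `F`,
continuous up to `|z| = r` and `≤ o(log 1/|z - f|)` at the points `f ∈ F`; then `u` is bounded by its
maximum on the circle. -/
theorem finite_le {r : ℝ} {F : Finset ℂ} (hFr : ∀ f ∈ F, ‖f‖ < r) {u : ℂ → ℝ}
    (hC : ∀ z : ℂ, ‖z‖ < r → z ∉ F → ContDiffAt ℝ 2 u z ∧ 0 ≤ (Δ u) z)
    (hc : ContinuousOn u (closedBall 0 r \ F))
    (hg : ∀ f ∈ F, ∀ ε : ℝ, 0 < ε → ∀ᶠ z in 𝓝[≠] f, u z ≤ ε * Real.log (1 / ‖z - f‖)) {M : ℝ}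
    (hM : ∀ z : ℂ, ‖z‖ = r → u z ≤ M) : ∀ z : ℂ, ‖z‖ ≤ r → z ∉ F → u z ≤ M := by
  intro z0 hz0 hz0F
  rcases hz0.lt_or_eq with hlt | heq
  swap
  · exact hM z0 heq
  have hr : 0 < r := (norm_nonneg _).trans_lt hlt
  set c : ℝ := Real.log (2 * r) with hcdef
  set H : ℂ → ℝ := fun w => ∑ f ∈ F, (Real.log ‖w - f‖ - c) with hH
  have hdist : ∀ w : ℂ, ‖w‖ ≤ r → ∀ f ∈ F, ‖w - f‖ ≤ 2 * r := by
    intro w hw f hf
    have := norm_sub_le w f
    linarith [hFr f hf]
  have hterm : ∀ w : ℂ, ‖w‖ ≤ r → ∀ f ∈ F, w ≠ f → Real.log ‖w - f‖ - c ≤ 0 := by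
    intro w hw f hf hwf
    have h1 : 0 < ‖w - f‖ := norm_pos_iff.2 (sub_ne_zero.2 hwf)
    have := Real.log_le_log h1 (hdist w hw f hf)
    linarith
  have hHle : ∀ w : ℂ, ‖w‖ ≤ r → w ∉ F → H w ≤ 0 := by
    intro w hw hwF
    exact Finset.sum_nonpos (fun f hf => hterm w hw f hf (fun h => hwF (h ▸ hf)))
  have key : ∀ ε : ℝ, 0 < ε → u z0 + 2 * ε * H z0 ≤ M := by
    intro ε hε
    set v : ℂ → ℝ := fun w => u w + (2 * ε) * H w with hv
    set W : Set ℂ := interior {z | z ∉ F → v z ≤ M} with hWdef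
    have hFW : (F : Set ℂ) ⊆ W := by
      intro f hf
      rw [hWdef, mem_interior_iff_mem_nhds]
      have h1 := hg f hf ε hε
      have h2 : Tendsto (fun z : ℂ => ‖z - f‖) (𝓝[≠] f) (𝓝[>] 0) := by
        rw [tendsto_nhdsWithin_iff]
        constructor
        · have : Continuous (fun z : ℂ => ‖z - f‖) := by fun_prop
          have h3 := this.tendsto f
          simp only [sub_self, norm_zero] at h3
          exact h3.mono_left nhdsWithin_le_nhds
        · filter_upwards [self_mem_nhdsWithin] with z hz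
          exact norm_pos_iff.2 (sub_ne_zero.2 hz)
      have h3 : Tendsto (fun z : ℂ => ε * Real.log ‖z - f‖ - 2 * ε * c) (𝓝[≠] f) atBot := by
        have h4 := (Real.tendsto_log_nhdsGT_zero.comp h2).const_mul_atBot hε
        exact tendsto_atBot_add_const_right _ _ h4
      have h5 : ∀ᶠ z in 𝓝[≠] f, ‖z‖ ≤ r := by
        refine nhdsWithin_le_nhds ?_
        have : ContinuousAt (fun z : ℂ => ‖z‖) f := by fun_prop
        exact (this.eventually (gt_mem_nhds (hFr f hf))).mono fun z hz => le_of_lt hz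
      have h6 : ∀ᶠ z in 𝓝[≠] f, z ∉ F → v z ≤ M := by
        filter_upwards [h1, h3.eventually_le_atBot M, h5, self_mem_nhdsWithin] with z hz1 hz3 hz5 hz6
        intro hzF
        have h7 : H z ≤ Real.log ‖z - f‖ - c := by
          have h8 : H z = (Real.log ‖z - f‖ - c) + ∑ g ∈ F.erase f, (Real.log ‖z - g‖ - c) := by
            simp only [hH]
            rw [Finset.add_sum_erase F (fun g => Real.log ‖z - g‖ - c) hf]
          have h9 : ∑ g ∈ F.erase f, (Real.log ‖z - g‖ - c) ≤ 0 :=
            Finset.sum_nonpos (fun g hg => hterm z hz5 g (Finset.mem_of_mem_erase hg)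
              (fun h => hzF (h ▸ (Finset.mem_of_mem_erase hg))))
          linarith
        have h10 : u z ≤ - (ε * Real.log ‖z - f‖) := by
          rw [one_div, Real.log_inv] at hz1
          linarith
        have h11 : (2 * ε) * H z ≤ (2 * ε) * (Real.log ‖z - f‖ - c) :=
          mul_le_mul_of_nonneg_left h7 (by linarith)
        simp only [hv]
        linarith
      rw [eventually_nhdsWithin_iff] at h6
      filter_upwards [h6] with z hz hzF
      rcases eq_or_ne z f with rfl | hne
      · exact absurd hf hzF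
      · exact hz hne hzF
    have hHc : ContinuousOn H (closedBall 0 r \ (F : Set ℂ)) := by
      intro w hw
      exact (harmonicAt_logsum F c hw.2).1.continuousAt.continuousWithinAt
    have hvc : ContinuousOn v (closedBall 0 r \ W) := by
      have hsub : closedBall 0 r \ W ⊆ closedBall 0 r \ (F : Set ℂ) := fun z hz =>
        ⟨hz.1, fun h => hz.2 (hFW h)⟩
      exact (hc.mono hsub).add (continuousOn_const.mul (hHc.mono hsub))
    have := wmp (K := closedBall 0 r) (W := W) (F := (F : Set ℂ)) (u := v) (M := M)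
      (isCompact_closedBall 0 r) isOpen_interior F.finite_toSet.isClosed hFW hvc
      (fun z _ hzW hzF => by
        have := interior_subset hzW
        exact this hzF)
      (fun z hz hzW => by
        have hzF : z ∉ F := fun h => hzW (hFW h)
        rw [mem_closedBall_zero_iff] at hz
        rcases hz.lt_or_eq with h | h
        · right
          refine ⟨?_, ?_, ?_⟩
          · exact mem_of_superset (isOpen_ball.mem_nhds (by rwa [mem_ball_zero_iff]))
              ball_subset_closedBall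
          · exact (hC z h hzF).1.add ((harmonicAt_logsum F c hzF).1.const_smul (2 * ε))
          · have h1 := (hC z h hzF)
            have h2 := harmonicAt_logsum F c hzF
            have h3 : v = u + (2 * ε) • H := rfl
            have h4 : (Δ (u + (2 * ε) • H)) z = (Δ u) z + (Δ ((2 * ε) • H)) z :=
              h1.1.laplacian_add (h2.1.const_smul (2 * ε))
            have h5 : (Δ ((2 * ε) • H)) z = (2 * ε) • (Δ H) z := laplacian_smul (2 * ε) h2.1
            have h6 : (Δ H) z = 0 := h2.2.self_of_nhds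
            rw [h3, h4, h5, h6, smul_zero, add_zero]
            exact h1.2
        · left
          have h1 := hM z h
          have h2 := hHle z h.le hzF
          simp only [hv]
          nlinarith) z0 (by rwa [mem_closedBall_zero_iff]) hz0F
    exact this
  by_contra hcon
  push Not at hcon
  set s := - H z0 with hs
  have hs0 : 0 ≤ s := by rw [hs]; linarith [hHle z0 hz0 hz0F]
  have := key ((u z0 - M) / (2 * (s + 1)) / 2) (by
    refine div_pos (div_pos (by linarith) (by linarith)) (by norm_num))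
  have h2 : 2 * ((u z0 - M) / (2 * (s + 1)) / 2) * H z0 = - ((u z0 - M) * (s / (2 * (s + 1)))) := by
    rw [show H z0 = - s by rw [hs]; ring]
    field_simp
  rw [h2] at this
  have h3 : s / (2 * (s + 1)) < 1 := by
    rw [div_lt_one (by linarith)]; linarith
  have h4 : (u z0 - M) * (s / (2 * (s + 1))) < (u z0 - M) * 1 :=
    mul_lt_mul_of_pos_left h3 (by linarith)
  linarith

/-- the same with "attained on the circle" -/
theorem finite_exists {r : ℝ} (hr : 0 < r) {F : Finset ℂ} (hFr : ∀ f ∈ F, ‖f‖ < r) {u : ℂ → ℝ}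
    (hC : ∀ z : ℂ, ‖z‖ < r → z ∉ F → ContDiffAt ℝ 2 u z ∧ 0 ≤ (Δ u) z)
    (hc : ContinuousOn u (closedBall 0 r \ F))
    (hg : ∀ f ∈ F, ∀ ε : ℝ, 0 < ε → ∀ᶠ z in 𝓝[≠] f, u z ≤ ε * Real.log (1 / ‖z - f‖)) :
    ∃ y : ℂ, ‖y‖ = r ∧ ∀ z : ℂ, ‖z‖ ≤ r → z ∉ F → u z ≤ u y := by
  have hsub : sphere (0 : ℂ) r ⊆ closedBall 0 r \ (F : Set ℂ) := by
    intro z hz
    rw [mem_sphere_zero_iff_norm] at hz
    exact ⟨by rw [mem_closedBall_zero_iff]; exact hz.le, fun h => absurd hz (hFr z h).ne⟩
  obtain ⟨y, hy, hmax⟩ := (isCompact_sphere (0 : ℂ) r).exists_isMaxOn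
    ((NormedSpace.sphere_nonempty).2 hr.le) (hc.mono hsub)
  refine ⟨y, by rwa [mem_sphere_zero_iff_norm] at hy, ?_⟩
  exact finite_le hFr hC hc hg (fun z hz => hmax (by rwa [mem_sphere_zero_iff_norm]))

/-! ### strong maximum principle -/

theorem strong {R : ℝ} {u : ℂ → ℝ} (hC : ∀ z ∈ ball (0 : ℂ) R, ContDiffAt ℝ 2 u z ∧ 0 ≤ (Δ u) z)
    (h0 : ∀ z ∈ ball (0 : ℂ) R, u z ≤ u 0) : ∀ z ∈ ball (0 : ℂ) R, u z = u 0 := by
  intro z1 hz1
  have hR : 0 < R := (norm_nonneg _).trans_lt (by rwa [mem_ball_zero_iff] at hz1)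
  set M := u 0 with hMdef
  set S : Set ℂ := {z | u z = M} with hS
  -- openness of `S` inside the ball
  have hopen : ∀ p ∈ ball (0 : ℂ) R, u p = M → ∀ᶠ z in 𝓝 p, u z = M := by
    intro p hp hpM
    by_contra hcon
    have hcon2 : ∃ᶠ z in 𝓝 p, u z ≠ M := by
      intro h
      exact hcon (h.mono fun z hz => by simpa using hz)
    have hball : ball p ((R - ‖p‖) / 2) ∈ 𝓝 p := ball_mem_nhds p (by
      rw [mem_ball_zero_iff] at hp; linarith)
    obtain ⟨q, hqM, hq⟩ := (hcon2.and_eventually hball).exists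
    set d := dist p q with hd
    have hd1 : d < (R - ‖p‖) / 2 := by rw [hd, dist_comm]; exact hq
    have hKR : closedBall q d ⊆ ball (0 : ℂ) R := by
      intro z hz
      rw [mem_ball_zero_iff]
      rw [mem_closedBall] at hz
      have h1 : ‖z‖ ≤ dist z q + dist q p + ‖p‖ := by
        calc ‖z‖ = ‖(z - q) + (q - p) + p‖ := by congr 1; ring
          _ ≤ ‖z - q‖ + ‖q - p‖ + ‖p‖ := norm_add₃_le
          _ = _ := by rw [dist_eq_norm, dist_eq_norm]
      rw [dist_comm q p] at h1
      linarith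
    have huK : ContinuousOn u (closedBall q d) := fun z hz =>
      (hC z (hKR hz)).1.continuousAt.continuousWithinAt
    have hAc : IsCompact (closedBall q d ∩ u ⁻¹' {M}) := by
      refine (isCompact_closedBall q d).of_isClosed_subset ?_ inter_subset_left
      exact huK.preimage_isClosed_of_isClosed isClosed_closedBall isClosed_singleton
    have hAne : (closedBall q d ∩ u ⁻¹' {M}).Nonempty := ⟨p, by simp [hd], by simpa using hpM⟩
    obtain ⟨z2, hz2, hmin⟩ := hAc.exists_isMinOn hAne
      (continuous_id.dist (continuous_const (y := q))).continuousOn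
    set ρ := dist z2 q with hρ
    have hρ0 : 0 < ρ := by
      rw [hρ, dist_pos]
      rintro rfl
      exact hqM (by simpa using hz2.2)
    have hρd : ρ ≤ d := hz2.1
    have hlt : ∀ z, dist z q < ρ → u z < M := by
      intro z hz
      have hzK : z ∈ closedBall q d := by rw [mem_closedBall]; linarith
      refine lt_of_le_of_ne (h0 z (hKR hzK)) ?_
      intro h
      have := hmin (show z ∈ closedBall q d ∩ u ⁻¹' {M} from ⟨hzK, h⟩)
      simp only [id] at this
      exact absurd hz (not_lt.2 this)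
    -- inner circle
    have hsph : sphere q (ρ / 2) ⊆ closedBall q d := fun z hz => by
      rw [mem_sphere] at hz; rw [mem_closedBall]; linarith
    obtain ⟨y, hy, hymax⟩ := (isCompact_sphere q (ρ / 2)).exists_isMaxOn
      ((NormedSpace.sphere_nonempty).2 (by linarith)) (huK.mono hsph)
    have hyM : u y < M := hlt y (by rw [mem_sphere] at hy; rw [hy]; linarith)
    set δ := M - u y with hδ
    have hδ0 : 0 < δ := by rw [hδ]; linarith
    have hlog2 : 0 < Real.log 2 := Real.log_pos (by norm_num)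
    set ε := δ / Real.log 2 with hε
    have hε0 : 0 < ε := div_pos hδ0 hlog2
    set v : ℂ → ℝ := fun z => u z + (-ε) * (∑ f ∈ ({q} : Finset ℂ), (Real.log ‖z - f‖ - Real.log ρ))
      with hv
    have hv1 : ∀ z, v z = u z + (-ε) * (Real.log ‖z - q‖ - Real.log ρ) := by
      intro z; simp [hv]
    have hann : ∀ z, ρ / 2 ≤ dist z q → dist z q ≤ ρ → v z ≤ M := by
      have hKc : IsCompact (closedBall q ρ \ ball q (ρ / 2)) :=
        (isCompact_closedBall q ρ).diff isOpen_ball
      have hKne : ∀ z ∈ closedBall q ρ \ ball q (ρ / 2), z ∉ ({q} : Finset ℂ) := by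
        intro z hz hzq
        rw [Finset.mem_singleton] at hzq
        apply hz.2
        rw [hzq]; exact mem_ball_self (by linarith)
      have hKsub : closedBall q ρ \ ball q (ρ / 2) ⊆ closedBall q d := fun z hz =>
        closedBall_subset_closedBall hρd hz.1
      have := wmp (K := closedBall q ρ \ ball q (ρ / 2)) (W := ∅) (F := ∅) (u := v) (M := M) hKc
        isOpen_empty isClosed_empty (Subset.refl _)
        (by
          rw [sdiff_empty]
          refine (huK.mono hKsub).add (continuousOn_const.mul ?_)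
          intro z hz
          exact (harmonicAt_logsum {q} (Real.log ρ) (hKne z hz)).1.continuousAt.continuousWithinAt)
        (fun z _ h => absurd h (notMem_empty z))
        (fun z hz _ => by
          rcases (show dist z q ≤ ρ from hz.1).lt_or_eq with h1 | h1
          · have h2 : ρ / 2 ≤ dist z q := not_lt.1 hz.2
            rcases h2.lt_or_eq with h3 | h3
            · right
              refine ⟨?_, ?_, ?_⟩
              · have h4 : ball q ρ ∩ (closedBall q (ρ / 2))ᶜ ∈ 𝓝 z :=
                  (isOpen_ball.inter isClosed_closedBall.isOpen_compl).mem_nhds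
                    ⟨h1, by rw [mem_compl_iff, mem_closedBall, not_le]; exact h3⟩
                refine mem_of_superset h4 ?_
                intro x hx
                exact ⟨ball_subset_closedBall hx.1, fun h => hx.2 (ball_subset_closedBall h)⟩
              · exact (hC z (hKR (hKsub hz))).1.add
                  ((harmonicAt_logsum {q} (Real.log ρ) (hKne z hz)).1.const_smul (-ε))
              · have e1 := hC z (hKR (hKsub hz))
                have e2 := harmonicAt_logsum {q} (Real.log ρ) (hKne z hz)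
                have e3 : v = u + (-ε) • (fun w => ∑ f ∈ ({q} : Finset ℂ),
                  (Real.log ‖w - f‖ - Real.log ρ)) := rfl
                have e4 : (Δ (u + (-ε) • (fun w => ∑ f ∈ ({q} : Finset ℂ),
                  (Real.log ‖w - f‖ - Real.log ρ)))) z = (Δ u) z + (Δ ((-ε) • (fun w =>
                  ∑ f ∈ ({q} : Finset ℂ), (Real.log ‖w - f‖ - Real.log ρ)))) z :=
                  e1.1.laplacian_add (e2.1.const_smul (-ε))
                have e5 : (Δ ((-ε) • (fun w => ∑ f ∈ ({q} : Finset ℂ),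
                  (Real.log ‖w - f‖ - Real.log ρ)))) z = (-ε) • (Δ (fun w => ∑ f ∈ ({q} : Finset ℂ),
                  (Real.log ‖w - f‖ - Real.log ρ))) z := laplacian_smul (-ε) e2.1
                have e6 : (Δ (fun w => ∑ f ∈ ({q} : Finset ℂ),
                  (Real.log ‖w - f‖ - Real.log ρ))) z = 0 := e2.2.self_of_nhds
                rw [e3]
                rw [e4, e5, e6, smul_zero, add_zero]
                exact e1.2
            · left
              have h4 : u z ≤ u y := hymax (by rw [mem_sphere]; exact h3.symm)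
              have h5 : ‖z - q‖ = ρ / 2 := by rw [← dist_eq_norm]; exact h3.symm
              rw [hv1, h5, Real.log_div hρ0.ne' (by norm_num)]
              have h6 : -ε * (Real.log ρ - Real.log 2 - Real.log ρ) = δ := by
                rw [hε]; field_simp; ring
              rw [h6, hδ]
              linarith
          · left
            have h5 : ‖z - q‖ = ρ := by rw [← dist_eq_norm]; exact h1
            rw [hv1, h5, sub_self, mul_zero, add_zero]
            exact h0 z (hKR (hKsub hz)))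
      intro z hz1 hz2
      exact this z ⟨hz2, not_lt.2 hz1⟩ (notMem_empty z)
    -- the derivative at `z2`
    have hz2R : z2 ∈ ball (0 : ℂ) R := hKR hz2.1
    have hz2M : u z2 = M := hz2.2
    have hlm : IsLocalMax u z2 := by
      filter_upwards [isOpen_ball.mem_nhds hz2R] with z hz
      rw [hz2M]; exact h0 z hz
    have hfd : fderiv ℝ u z2 = 0 := hlm.fderiv_eq_zero
    have hder : HasDerivAt (fun t : ℝ => u (z2 + t • (q - z2))) 0 0 := by
      have h1 : HasFDerivAt u (0 : ℂ →L[ℝ] ℝ) (z2 + (0 : ℝ) • (q - z2)) := by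
        rw [zero_smul, add_zero, ← hfd]
        exact ((hC z2 hz2R).1.differentiableAt (by norm_num)).hasFDerivAt
      exact (h1.comp_hasDerivAt (0 : ℝ) (hasDerivAt_line z2 (q - z2) 0)).congr_deriv (by simp)
    have hbound : ∀ t : ℝ, 0 < t → t ≤ 1 / 2 → u (z2 + t • (q - z2)) ≤ M - ε * t := by
      intro t ht1 ht2
      have h1 : z2 + t • (q - z2) - q = (1 - t) • (z2 - q) := by
        simp only [Complex.real_smul]; push_cast; ring
      have h2 : ‖z2 + t • (q - z2) - q‖ = (1 - t) * ρ := by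
        rw [h1, norm_smul, Real.norm_eq_abs, abs_of_pos (by linarith), hρ, dist_eq_norm]
      have h3 := hann (z2 + t • (q - z2)) (by rw [dist_eq_norm, h2]; nlinarith)
        (by rw [dist_eq_norm, h2]; nlinarith)
      rw [hv1, h2, Real.log_mul (by linarith) hρ0.ne'] at h3
      have h4 : Real.log (1 - t) ≤ - t := by
        have := Real.log_le_sub_one_of_pos (show 0 < 1 - t by linarith)
        linarith
      nlinarith
    have hslope := hasDerivWithinAt_iff_tendsto_slope.1
      (hder.hasDerivWithinAt (s := Ioi (0 : ℝ)))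
    have h5 : ∀ᶠ t in 𝓝[Ioi (0 : ℝ) \ {0}] (0 : ℝ),
        slope (fun t : ℝ => u (z2 + t • (q - z2))) 0 t ≤ - ε := by
      have h6 : Iio (1 / 2 : ℝ) ∈ 𝓝 (0 : ℝ) := Iio_mem_nhds (by norm_num)
      filter_upwards [self_mem_nhdsWithin, mem_nhdsWithin_of_mem_nhds h6] with t ht1 ht2
      have ht0 : 0 < t := ht1.1
      rw [slope_def_field, zero_smul, add_zero, hz2M, sub_zero, div_le_iff₀ ht0]
      have := hbound t ht0 (le_of_lt ht2)
      linarith
    have hne : (𝓝[Ioi (0 : ℝ) \ {0}] (0 : ℝ)).NeBot := by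
      have : Ioi (0 : ℝ) \ {0} = Ioi 0 := by
        ext x; simp only [Set.mem_sdiff, mem_Ioi, mem_singleton_iff]
        exact ⟨fun h => h.1, fun h => ⟨h, h.ne'⟩⟩
      rw [this]; infer_instance
    have h7 := le_of_tendsto hslope h5
    linarith
  -- connectedness
  have hpre : IsPreconnected (ball (0 : ℂ) R) := (convex_ball 0 R).isPreconnected
  by_contra hne
  have hU1 : IsOpen {z | z ∈ ball (0 : ℂ) R ∧ u z = M} := by
    rw [isOpen_iff_mem_nhds]
    intro z hz
    filter_upwards [isOpen_ball.mem_nhds hz.1, hopen z hz.1 hz.2] with w hw1 hw2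
    exact ⟨hw1, hw2⟩
  have hU2 : IsOpen {z | z ∈ ball (0 : ℂ) R ∧ u z ≠ M} := by
    rw [isOpen_iff_mem_nhds]
    intro z hz
    filter_upwards [isOpen_ball.mem_nhds hz.1,
      (hC z hz.1).1.continuousAt.eventually_ne hz.2] with w hw1 hw2
    exact ⟨hw1, hw2⟩
  obtain ⟨x, hx, hx1, hx2⟩ := hpre _ _ hU1 hU2
    (fun z hz => by
      by_cases h : u z = M
      · exact Or.inl ⟨hz, h⟩
      · exact Or.inr ⟨hz, h⟩)
    ⟨0, mem_ball_self hR, mem_ball_self hR, rfl⟩ ⟨z1, hz1, hz1, hne⟩
  exact hx2.2 hx1.2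

section several

variable {E : Type*} [NormedAddCommGroup E] [NormedSpace ℝ E] [NormedSpace ℂ E]
  [IsScalarTower ℝ ℂ E]

/-- **strong maximum principle** for `C²` psh functions (local form) -/
theorem strong_psh {u : E → ℝ} {p : E} {V : Set E} (hV : V ∈ 𝓝 p)
    (hC : ∀ z ∈ V, ContDiffAt ℝ 2 u z ∧ ∀ v, 0 ≤ lev u z v) (hmax : ∀ z ∈ V, u z ≤ u p) :
    ∀ᶠ z in 𝓝 p, u z = u p := by
  obtain ⟨R, hR, hRV⟩ := Metric.mem_nhds_iff.1 hV
  filter_upwards [ball_mem_nhds p hR] with z hz
  rcases eq_or_ne z p with rfl | hne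
  · rfl
  set v := z - p with hv
  have hv0 : 0 < ‖v‖ := norm_pos_iff.2 (sub_ne_zero.2 hne)
  have hmem : ∀ t ∈ ball (0 : ℂ) (R / ‖v‖), p + t • v ∈ V := by
    intro t ht
    apply hRV
    rw [mem_ball_iff_norm, add_sub_cancel_left, norm_smul]
    rw [mem_ball_zero_iff, lt_div_iff₀ hv0] at ht
    exact ht
  have h1 := strong (u := fun t : ℂ => u (p + t • v)) (R := R / ‖v‖)
    (fun t ht => by
      have h2 := hC _ (hmem t ht)
      refine ⟨h2.1.comp t (contDiff_cline p v).contDiffAt, ?_⟩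
      rw [lap_cline h2.1]
      exact h2.2 v)
    (fun t ht => by
      simp only [zero_smul, add_zero]
      exact hmax _ (hmem t ht)) 1 (by
        rw [mem_ball_zero_iff, norm_one, one_lt_div hv0, hv, ← mem_ball_iff_norm]
        exact hz)
  simpa [hv] using h1

/-- **Hartogs figure** form of the extension/maximum principle along a complex disc `t ↦ p + t v` -/
theorem disc_exists {u : E → ℝ} {p v : E} {r : ℝ} (hr : 0 < r) {F : Finset ℂ}
    (hFr : ∀ f ∈ F, ‖f‖ < r)
    (hC : ∀ t : ℂ, ‖t‖ ≤ r → t ∉ F → ContDiffAt ℝ 2 u (p + t • v) ∧ 0 ≤ lev u (p + t • v) v)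
    (hg : ∀ f ∈ F, ∀ ε : ℝ, 0 < ε → ∀ᶠ t : ℂ in 𝓝[≠] f,
      u (p + t • v) ≤ ε * Real.log (1 / ‖t - f‖)) :
    ∃ y : ℂ, ‖y‖ = r ∧ ∀ t : ℂ, ‖t‖ ≤ r → t ∉ F → u (p + t • v) ≤ u (p + y • v) := by
  refine finite_exists (u := fun t : ℂ => u (p + t • v)) hr hFr ?_ ?_ hg
  · intro t ht htF
    have h2 := hC t ht.le htF
    refine ⟨h2.1.comp t (contDiff_cline p v).contDiffAt, ?_⟩
    rw [lap_cline h2.1]
    exact h2.2
  · intro t ht
    have h2 := hC t (by have := ht.1; rwa [mem_closedBall_zero_iff] at this) ht.2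
    exact (h2.1.comp t (contDiff_cline p v).contDiffAt).continuousAt.continuousWithinAt

end several

end Crest.Agent.R276.MaxP_25
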