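import Mathlib
import Crest.Agent.R271.H3_51
import Crest.Agent.R266.SCV
import Crest.Agent.R276.MaxP_25

/-!
# R276, leaf CNT-UP (slice lemma), part A (helper217)

Holomorphic functions on a space `E` with a local homeomorphism `p : E → ℂᵈ`, and division by
`p x i - c` of a holomorphic function vanishing on `{p x i = c}`.
-/

set_option autoImplicit false

open Set Filter Topology Metric

namespace Crest.Agent.R276.SliA_217

variable {d : ℕ} {E : Type*} [TopologicalSpace E]

/-- holomorphic functions with respect to the local homeomorphism `p` (for `p = cp` this is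
`R271.Ho51.Hol`) -/
def HolP (p : E → (Fin d → ℂ)) (f : E → ℂ) : Prop :=
  ∀ e : OpenPartialHomeomorph E (Fin d → ℂ), (⇑e : E → (Fin d → ℂ)) = p →
    DifferentiableOn ℂ (f ∘ e.symm) e.target

theorem holP_cp {M : Type*} [TopologicalSpace M] [R271.Ho51.RDom d M] {f : M → ℂ} :
    HolP (R271.Ho51.cp : M → (Fin d → ℂ)) f ↔ R271.Ho51.Hol f := Iff.rfl

variable {p : E → (Fin d → ℂ)}

/-- two charts given by `p` have the same inverse near `p x` -/
theorem germ {e e' : OpenPartialHomeomorph E (Fin d → ℂ)} (he : (⇑e : E → (Fin d → ℂ)) = p)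
    (he' : (⇑e' : E → (Fin d → ℂ)) = p) {x : E} (hx : x ∈ e.source) (hx' : x ∈ e'.source) :
    (e.symm : (Fin d → ℂ) → E) =ᶠ[𝓝 (p x)] e'.symm := by
  have hpx : p x ∈ e.target := by rw [← he]; exact e.map_source hx
  have hsx : e.symm (p x) = x := by rw [← he]; exact e.left_inv hx
  have h1 : ContinuousAt e.symm (p x) := e.symm.continuousAt (by simpa using hpx)
  have h2 : ∀ᶠ z in 𝓝 (p x), e.symm z ∈ e'.source := by
    apply h1.eventually_mem
    rw [hsx]
    exact e'.open_source.mem_nhds hx'
  have h3 : ∀ᶠ z in 𝓝 (p x), z ∈ e.target := e.open_target.mem_nhds hpx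
  filter_upwards [h2, h3] with z hz1 hz2
  have h4 : e'.symm (e' (e.symm z)) = e.symm z := e'.left_inv hz1
  have h5 : e' (e.symm z) = z := by
    rw [he', ← he]; exact e.right_inv hz2
  rw [h5] at h4
  exact h4.symm

theorem exists_ch (hp : IsLocalHomeomorph p) (x : E) :
    ∃ e : OpenPartialHomeomorph E (Fin d → ℂ), x ∈ e.source ∧ (⇑e : E → (Fin d → ℂ)) = p := by
  obtain ⟨e, hx, he⟩ := hp x
  exact ⟨e, hx, he.symm⟩

theorem symm_p {e : OpenPartialHomeomorph E (Fin d → ℂ)} (he : (⇑e : E → (Fin d → ℂ)) = p)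
    {x : E} (hx : x ∈ e.source) : e.symm (p x) = x := by
  rw [← he]; exact e.left_inv hx

theorem p_symm {e : OpenPartialHomeomorph E (Fin d → ℂ)} (he : (⇑e : E → (Fin d → ℂ)) = p)
    {z : Fin d → ℂ} (hz : z ∈ e.target) : p (e.symm z) = z := by
  rw [← he]; exact e.right_inv hz

theorem p_mem {e : OpenPartialHomeomorph E (Fin d → ℂ)} (he : (⇑e : E → (Fin d → ℂ)) = p)
    {x : E} (hx : x ∈ e.source) : p x ∈ e.target := by
  rw [← he]; exact e.map_source hx

/-- holomorphy can be checked in one chart at every point -/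
theorem HolP.of_local {f : E → ℂ}
    (h : ∀ x : E, ∃ e : OpenPartialHomeomorph E (Fin d → ℂ), x ∈ e.source ∧
      (⇑e : E → (Fin d → ℂ)) = p ∧ DifferentiableAt ℂ (f ∘ e.symm) (p x)) : HolP p f := by
  intro e he z hz
  have hx : e.symm z ∈ e.source := e.map_target hz
  obtain ⟨e', hx', he', hd⟩ := h (e.symm z)
  have h1 := germ he he' hx hx'
  rw [p_symm he hz] at h1 hd
  refine (hd.congr_of_eventuallyEq ?_).differentiableWithinAt
  filter_upwards [h1] with w hw
  simp [hw]

theorem HolP.diffAt {f : E → ℂ} (hf : HolP p f) {e : OpenPartialHomeomorph E (Fin d → ℂ)}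
    (he : (⇑e : E → (Fin d → ℂ)) = p) {z : Fin d → ℂ} (hz : z ∈ e.target) :
    DifferentiableAt ℂ (f ∘ e.symm) z := (hf e he z hz).differentiableAt (e.open_target.mem_nhds hz)

theorem HolP.continuous (hp : IsLocalHomeomorph p) {f : E → ℂ} (hf : HolP p f) :
    Continuous f := by
  rw [continuous_iff_continuousAt]
  intro x
  obtain ⟨e, hx, he⟩ := exists_ch hp x
  have h1 : ContinuousAt (f ∘ e.symm) (p x) := (hf.diffAt he (p_mem he hx)).continuousAt
  have h2 : ContinuousAt (fun y => (f ∘ e.symm) (p y)) x :=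
    ContinuousAt.comp (g := f ∘ e.symm) h1 hp.continuous.continuousAt
  refine h2.congr ?_
  filter_upwards [e.open_source.mem_nhds hx] with y hy
  simp [symm_p he hy]

theorem HolP.mul {f g : E → ℂ} (hf : HolP p f) (hg : HolP p g) :
    HolP p (fun x => f x * g x) := fun e he => (hf e he).mul (hg e he)

theorem HolP.pow {f : E → ℂ} (hf : HolP p f) (k : ℕ) : HolP p (fun x => f x ^ k) :=
  fun e he => (hf e he).pow k

theorem HolP.const (c : ℂ) : HolP p (fun _ => c) := fun _ _ => differentiableOn_const c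

theorem HolP.coord (i : Fin d) : HolP p (fun x => p x i) := by
  intro e he z hz
  have h1 : DifferentiableAt ℂ (fun w : Fin d → ℂ => w i) z := differentiableAt_apply i z
  refine (h1.congr_of_eventuallyEq ?_).differentiableWithinAt
  filter_upwards [e.open_target.mem_nhds hz] with w hw
  simp [p_symm he hw]

theorem HolP.sub {f g : E → ℂ} (hf : HolP p f) (hg : HolP p g) :
    HolP p (fun x => f x - g x) := fun e he => (hf e he).sub (hg e he)

/-- local division: a holomorphic function on an open set of `ℂᵈ` vanishing on `{z i = c}` is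
divisible by `z i - c` near every point. -/
theorem local_div {F : (Fin d → ℂ) → ℂ} {U : Set (Fin d → ℂ)} (hU : IsOpen U)
    (hF : DifferentiableOn ℂ F U) (i : Fin d) (c : ℂ) (h0 : ∀ z ∈ U, z i = c → F z = 0)
    {z₀ : Fin d → ℂ} (hz₀ : z₀ ∈ U) (hzi : z₀ i = c) :
    ∃ G : (Fin d → ℂ) → ℂ, AnalyticAt ℂ G z₀ ∧
      ∀ᶠ z in 𝓝 z₀, F z = (z i - c) * G z := by
  classical
  obtain ⟨r, hr, hball⟩ := Metric.isOpen_iff.1 hU z₀ hz₀
  set B := ball z₀ r with hB
  -- the segment from `z` to its projection on `{z i = c}`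
  set q : (Fin d → ℂ) × ℝ → (Fin d → ℂ) := fun w =>
    w.1 - ((1 - w.2 : ℝ) : ℂ) • ((w.1 i - c) • Pi.single i (1 : ℂ)) with hq
  have hqc : Continuous q := by
    have : Continuous fun w : (Fin d → ℂ) × ℝ => w.1 i := (continuous_apply i).comp continuous_fst
    fun_prop
  have hqB : ∀ z ∈ B, ∀ t ∈ uIcc (0 : ℝ) 1, q (z, t) ∈ B := by
    intro z hz t ht
    rw [uIcc_of_le zero_le_one] at ht
    rw [hB, mem_ball, dist_pi_lt_iff hr] at hz ⊢
    intro j
    by_cases hj : j = i
    · subst hj
      have h1 : q (z, t) j - z₀ j = (t : ℂ) * (z j - z₀ j) := by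
        simp only [hq, Pi.sub_apply, Pi.smul_apply, Pi.single_eq_same, smul_eq_mul, mul_one]
        rw [hzi]; push_cast; ring
      rw [dist_eq_norm, h1, norm_mul]
      have h2 := hz j
      rw [dist_eq_norm] at h2
      have h3 : ‖(t : ℂ)‖ ≤ 1 := by
        rw [Complex.norm_real, Real.norm_eq_abs, abs_of_nonneg ht.1]; exact ht.2
      calc ‖(t : ℂ)‖ * ‖z j - z₀ j‖ ≤ 1 * ‖z j - z₀ j‖ := by gcongr
        _ < r := by linarith
    · have h1 : q (z, t) j = z j := by
        simp [hq, Pi.single_eq_of_ne hj]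
      rw [h1]; exact hz j
  have hFan : AnalyticOnNhd ℂ F U := R266.SCV.analyticOnNhd_of_differentiableOn hU hF
  have hdF : ContinuousOn (fun z => fderiv ℂ F z (Pi.single i (1 : ℂ))) B := by
    have := (hFan.mono hball).fderiv.continuousOn
    exact this.clm_apply continuousOn_const
  set G : (Fin d → ℂ) → ℂ := fun z => ∫ t in (0 : ℝ)..1,
    fderiv ℂ F (q (z, t)) (Pi.single i (1 : ℂ)) with hG
  have hGan : AnalyticOnNhd ℂ G B := by
    refine R266.SCV.analyticOnNhd_intervalIntegral (f := fun w : (Fin d → ℂ) × ℝ =>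
      fderiv ℂ F (q w) (Pi.single i (1 : ℂ))) isOpen_ball ?_ ?_
    · refine hdF.comp hqc.continuousOn ?_
      rintro ⟨z, t⟩ ⟨hz, ht⟩
      exact hqB z hz t ht
    · intro t ht z hz
      have h1 : DifferentiableAt ℂ (fun z => fderiv ℂ F z (Pi.single i (1 : ℂ))) (q (z, t)) := by
        have := ((hFan.mono hball).fderiv _ (hqB z hz t ht)).differentiableAt
        exact this.clm_apply (differentiableAt_const _)
      have h2 : DifferentiableAt ℂ (fun z => q (z, t)) z := by
        simp only [hq]
        have : DifferentiableAt ℂ (fun w : Fin d → ℂ => w i) z := differentiableAt_apply i z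
        fun_prop
      exact (h1.comp z h2).differentiableWithinAt
  refine ⟨G, hGan z₀ (mem_ball_self hr), ?_⟩
  filter_upwards [isOpen_ball.mem_nhds (mem_ball_self hr : z₀ ∈ B)] with z hz
  -- fundamental theorem of calculus along the segment
  have hder : ∀ t ∈ uIcc (0 : ℝ) 1, HasDerivAt (fun s : ℝ => F (q (z, s)))
      ((z i - c) * fderiv ℂ F (q (z, t)) (Pi.single i (1 : ℂ))) t := by
    intro t ht
    have h1 : HasFDerivAt F (fderiv ℂ F (q (z, t))) (q (z, t)) :=
      (hFan _ (hball (hqB z hz t ht))).differentiableAt.hasFDerivAt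
    have h2 : HasDerivAt (fun s : ℝ => q (z, s)) ((z i - c) • Pi.single i (1 : ℂ)) t := by
      simp only [hq]
      have h3 : HasDerivAt (fun s : ℝ => ((1 - s : ℝ) : ℂ)) (-1) t := by
        have := ((hasDerivAt_id t).const_sub 1).ofReal_comp
        simpa using this
      have h4 := (h3.smul_const ((z i - c) • Pi.single i (1 : ℂ))).const_sub z
      simpa using h4
    have h5 := (h1.restrictScalars ℝ).comp_hasDerivAt t h2
    simpa [Function.comp_def] using h5
  have hint : IntervalIntegrable (fun t : ℝ => (z i - c) *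
      fderiv ℂ F (q (z, t)) (Pi.single i (1 : ℂ))) MeasureTheory.volume 0 1 := by
    apply ContinuousOn.intervalIntegrable
    refine continuousOn_const.mul (hdF.comp ?_ ?_)
    · exact (hqc.comp (by fun_prop : Continuous fun t : ℝ => (z, t))).continuousOn
    · intro t ht; exact hqB z hz t ht
  have h6 := intervalIntegral.integral_eq_sub_of_hasDerivAt hder hint
  have h7 : q (z, 1) = z := by simp [hq]
  have h8 : F (q (z, 0)) = 0 := by
    apply h0 _ (hball (hqB z hz 0 (by simp)))
    simp [hq]
  rw [h7, h8, sub_zero] at h6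
  rw [← h6, hG, intervalIntegral.integral_const_mul]

/-- global division by one linear factor -/
theorem exists_div (hp : IsLocalHomeomorph p) {f : E → ℂ} (hf : HolP p f) (i : Fin d) (c : ℂ)
    (h0 : ∀ x, p x i = c → f x = 0) :
    ∃ g : E → ℂ, HolP p g ∧ ∀ x, f x = (p x i - c) * g x := by
  classical
  choose ex hxs hex using fun x => exists_ch hp x
  set g : E → ℂ := fun x => if p x i = c then
    fderiv ℂ (f ∘ (ex x).symm) (p x) (Pi.single i (1 : ℂ)) else f x / (p x i - c) with hg
  have hfg : ∀ x, f x = (p x i - c) * g x := by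
    intro x
    by_cases hxi : p x i = c
    · rw [h0 x hxi, hxi]; simp
    · have : p x i - c ≠ 0 := sub_ne_zero.2 hxi
      simp only [hg, if_neg hxi]
      field_simp
  refine ⟨g, HolP.of_local fun x => ?_, hfg⟩
  refine ⟨ex x, hxs x, hex x, ?_⟩
  by_cases hxi : p x i = c
  · obtain ⟨G, hG, hev⟩ := local_div (F := f ∘ (ex x).symm) (ex x).open_target (hf _ (hex x)) i c
        (fun z hz hzi => h0 _ (by rw [p_symm (hex x) hz]; exact hzi)) (p_mem (hex x) (hxs x)) hxi
    -- `g ∘ e.symm = G` near `p x`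
    refine hG.differentiableAt.congr_of_eventuallyEq ?_
    have hG' : ∀ᶠ z in 𝓝 (p x), z ∈ (ex x).target :=
      (ex x).open_target.mem_nhds (p_mem (hex x) (hxs x))
    filter_upwards [hev.eventually_nhds, hG', hG.eventually_analyticAt] with z hz hzt hGz
    by_cases hzi : z i = c
    · set y := (ex x).symm z with hy
      have hpy : p y = z := p_symm (hex x) hzt
      have hyi : p y i = c := by rw [hpy]; exact hzi
      have hys : y ∈ (ex x).source := (ex x).map_target hzt
      have hger := germ (hex y) (hex x) (hxs y) hys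
      rw [hpy] at hger
      have h1 : fderiv ℂ (f ∘ (ex y).symm) z = fderiv ℂ (f ∘ (ex x).symm) z := by
        apply Filter.EventuallyEq.fderiv_eq
        filter_upwards [hger] with w hw
        simp [hw]
      have h2 : fderiv ℂ (f ∘ (ex x).symm) z = fderiv ℂ (fun w => (w i - c) * G w) z := by
        apply Filter.EventuallyEq.fderiv_eq
        exact hz
      have h3 : HasFDerivAt (fun w : Fin d → ℂ => w i - c)
          (ContinuousLinearMap.proj (R := ℂ) (φ := fun _ : Fin d => ℂ) i) z :=
        (hasFDerivAt_apply i z).sub_const c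
      have h4 : HasFDerivAt (fun w => (w i - c) * G w) _ z :=
        h3.mul hGz.differentiableAt.hasFDerivAt
      have h5 : (g ∘ (ex x).symm) z = fderiv ℂ (f ∘ (ex y).symm) (p y) (Pi.single i (1 : ℂ)) := by
        simp only [Function.comp_apply, ← hy, hg, if_pos hyi]
      rw [h5, hpy, h1, h2, h4.fderiv]
      simp [hzi]
    · have hz2 := hz.self_of_nhds
      have h3 : p ((ex x).symm z) = z := p_symm (hex x) hzt
      have h4 : z i - c ≠ 0 := sub_ne_zero.2 hzi
      simp only [Function.comp_apply, hg, h3, if_neg hzi]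
      simp only [Function.comp_apply] at hz2
      rw [hz2]; field_simp
  · have h1 : DifferentiableAt ℂ (f ∘ (ex x).symm) (p x) := hf.diffAt (hex x) (p_mem (hex x) (hxs x))
    have h2 : DifferentiableAt ℂ (fun w : Fin d → ℂ => w i - c) (p x) :=
      (differentiableAt_apply i _).sub_const c
    have h3 : p x i - c ≠ 0 := sub_ne_zero.2 hxi
    have h5 : DifferentiableAt ℂ (fun w : Fin d → ℂ => (w i - c)⁻¹) (p x) := h2.fun_inv h3
    refine (h1.mul h5).congr_of_eventuallyEq ?_
    have h4 : ∀ᶠ z in 𝓝 (p x), z i ≠ c :=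
      (continuous_apply i).continuousAt.eventually_ne hxi
    filter_upwards [h4, (ex x).open_target.mem_nhds (p_mem (hex x) (hxs x))] with z hz hz2
    simp only [Function.comp_apply, hg, p_symm (hex x) hz2, if_neg hz, Pi.mul_apply, div_eq_mul_inv]

end Crest.Agent.R276.SliA_217
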