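import Mathlib
import Crest.Agent.R276.SliA_217

/-!
# R276, leaf CNT-UP (slice lemma), part B (helper217)

The lower bound for `∏_{m<J} |y - m|`, and growth of quotients.
-/

set_option autoImplicit false

open Set Filter Topology Metric

namespace Crest.Agent.R276.SliB_217

open Crest.Agent.R276.SliA_217

/-! ### products of linear factors -/

/-- the constant `κ = 1/(8+8J²)` -/
noncomputable def kap (J : ℕ) : ℝ := 1 / (8 + 8 * (J : ℝ) ^ 2)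

theorem kap_pos (J : ℕ) : 0 < kap J := by unfold kap; positivity

theorem kap_le_one (J : ℕ) : kap J ≤ 1 := by
  unfold kap
  rw [div_le_one (by positivity)]
  nlinarith [sq_nonneg (J : ℝ)]

theorem sq_norm_le (y c : ℂ) : ‖y‖ ^ 2 ≤ 2 * ‖y - c‖ ^ 2 + 2 * ‖c‖ ^ 2 := by
  have h1 : ‖y‖ ≤ ‖y - c‖ + ‖c‖ := by
    have := norm_add_le (y - c) c
    simpa using this
  have h2 : ‖y‖ ^ 2 ≤ (‖y - c‖ + ‖c‖) ^ 2 := by
    have := norm_nonneg y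
    gcongr
  nlinarith [sq_nonneg (‖y - c‖ - ‖c‖)]

theorem far {J m : ℕ} (hm : m < J) {y : ℂ} (h : 1 / 2 ≤ ‖y - m‖) :
    kap J * (1 + ‖y‖ ^ 2) ≤ ‖y - m‖ ^ 2 := by
  have h1 := sq_norm_le y m
  have h2 : ‖(m : ℂ)‖ ^ 2 ≤ (J : ℝ) ^ 2 := by
    rw [Complex.norm_natCast]
    have : (m : ℝ) ≤ J := by exact_mod_cast hm.le
    gcongr
  have h3 : 1 / 4 ≤ ‖y - m‖ ^ 2 := by nlinarith
  unfold kap
  rw [div_mul_eq_mul_div, one_mul, div_le_iff₀ (by positivity)]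
  nlinarith [mul_nonneg (sub_nonneg.2 h3) (sq_nonneg (J : ℝ))]

theorem near {J m : ℕ} (hm : m < J) {y : ℂ} {r : ℝ} (hr : 0 < r) (h : r / 2 ≤ ‖y - m‖)
    (h' : ‖y - m‖ < 1 / 2) :
    r ^ 2 * (kap J * (1 + ‖y‖ ^ 2)) ≤ ‖y - m‖ ^ 2 := by
  have h1 := sq_norm_le y m
  have h2 : ‖(m : ℂ)‖ ^ 2 ≤ (J : ℝ) ^ 2 := by
    rw [Complex.norm_natCast]
    have : (m : ℝ) ≤ J := by exact_mod_cast hm.le
    gcongr
  have h3 : r ^ 2 / 4 ≤ ‖y - m‖ ^ 2 := by nlinarith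
  have h4 : ‖y - m‖ ^ 2 ≤ 1 / 4 := by nlinarith [norm_nonneg (y - (m : ℂ))]
  have h5 : kap J * (1 + ‖y‖ ^ 2) ≤ 1 / 4 := by
    unfold kap
    rw [div_mul_eq_mul_div, one_mul, div_le_iff₀ (by positivity)]
    nlinarith [sq_nonneg (J : ℝ)]
  have h6 : 0 ≤ r ^ 2 := sq_nonneg r
  nlinarith

theorem prod_lower {J : ℕ} {y : ℂ} {r : ℝ} (hr : 0 < r) (hr1 : r ≤ 1)
    (h : ∀ m < J, r / 2 ≤ ‖y - (m : ℂ)‖) :
    r ^ 2 * (kap J * (1 + ‖y‖ ^ 2)) ^ J ≤ ∏ m ∈ Finset.range J, ‖y - (m : ℂ)‖ ^ 2 := by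
  have hk : 0 ≤ kap J * (1 + ‖y‖ ^ 2) := by have := kap_pos J; positivity
  by_cases hall : ∀ m < J, 1 / 2 ≤ ‖y - (m : ℂ)‖
  · have h1 : (kap J * (1 + ‖y‖ ^ 2)) ^ J ≤ ∏ m ∈ Finset.range J, ‖y - (m : ℂ)‖ ^ 2 := by
      calc (kap J * (1 + ‖y‖ ^ 2)) ^ J = ∏ _m ∈ Finset.range J, (kap J * (1 + ‖y‖ ^ 2)) := by simp
        _ ≤ _ := Finset.prod_le_prod (fun _ _ => hk)
          (fun m hm => far (Finset.mem_range.1 hm) (hall m (Finset.mem_range.1 hm)))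
    have h2 : r ^ 2 ≤ 1 := by nlinarith
    have h3 : 0 ≤ (kap J * (1 + ‖y‖ ^ 2)) ^ J := pow_nonneg hk _
    nlinarith
  · push Not at hall
    obtain ⟨m0, hm0, hm0'⟩ := hall
    have hmem : m0 ∈ Finset.range J := Finset.mem_range.2 hm0
    have hothers : ∀ m ∈ (Finset.range J).erase m0, kap J * (1 + ‖y‖ ^ 2) ≤ ‖y - (m : ℂ)‖ ^ 2 := by
      intro m hm
      rw [Finset.mem_erase, Finset.mem_range] at hm
      apply far hm.2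
      have h1 : (1 : ℝ) ≤ ‖(m : ℂ) - (m0 : ℂ)‖ := by
        have h2 : ((m : ℂ) - (m0 : ℂ)) = (((m : ℤ) - (m0 : ℤ) : ℤ) : ℂ) := by push_cast; ring
        rw [h2, Complex.norm_intCast]
        have h3 : (m : ℤ) - (m0 : ℤ) ≠ 0 := by
          intro h; apply hm.1; omega
        have h4 : (1 : ℤ) ≤ |(m : ℤ) - (m0 : ℤ)| := Int.one_le_abs h3
        exact_mod_cast h4
      have h5 : ‖(m : ℂ) - (m0 : ℂ)‖ ≤ ‖y - (m0 : ℂ)‖ + ‖y - (m : ℂ)‖ := by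
        have := norm_sub_le (y - (m0 : ℂ)) (y - (m : ℂ))
        have h6 : (y - (m0 : ℂ)) - (y - (m : ℂ)) = (m : ℂ) - (m0 : ℂ) := by ring
        rwa [h6] at this
      linarith
    rw [← Finset.mul_prod_erase _ _ hmem]
    have h1 : (kap J * (1 + ‖y‖ ^ 2)) ^ (J - 1) ≤
        ∏ m ∈ (Finset.range J).erase m0, ‖y - (m : ℂ)‖ ^ 2 := by
      calc (kap J * (1 + ‖y‖ ^ 2)) ^ (J - 1)
          = ∏ _m ∈ (Finset.range J).erase m0, (kap J * (1 + ‖y‖ ^ 2)) := by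
            simp [Finset.card_erase_of_mem hmem]
        _ ≤ _ := Finset.prod_le_prod (fun _ _ => hk) hothers
    have h2 := near hm0 hr (h m0 hm0) hm0'
    have h3 : (kap J * (1 + ‖y‖ ^ 2)) ^ J =
        (kap J * (1 + ‖y‖ ^ 2)) * (kap J * (1 + ‖y‖ ^ 2)) ^ (J - 1) := by
      rw [← pow_succ']; congr 1; omega
    rw [h3, ← mul_assoc]
    exact mul_le_mul h2 h1 (pow_nonneg hk _) (sq_nonneg _)

/-! ### integer powers of comparable quantities -/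

theorem zpow_cmp {u v : ℝ} (hu : 0 < u) (hv : 0 < v) (h1 : u ≤ 2 * v) (h2 : v ≤ 2 * u) (n : ℤ) :
    u ^ n ≤ 2 ^ n.natAbs * v ^ n := by
  obtain ⟨k, rfl | rfl⟩ := n.eq_nat_or_neg
  · simp only [zpow_natCast, Int.natAbs_natCast]
    calc u ^ k ≤ (2 * v) ^ k := by gcongr
      _ = 2 ^ k * v ^ k := by rw [mul_pow]
  · simp only [zpow_neg, zpow_natCast, Int.natAbs_neg, Int.natAbs_natCast]
    have h3 : v ^ k ≤ 2 ^ k * u ^ k := by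
      calc v ^ k ≤ (2 * u) ^ k := by gcongr
        _ = _ := by rw [mul_pow]
    rw [← one_div, ← one_div, mul_one_div, div_le_div_iff₀ (by positivity) (by positivity)]
    linarith

theorem one_add_shift {y ζ : ℂ} (h : ‖ζ‖ ≤ 1 / 4) : 1 + ‖y + ζ‖ ^ 2 ≤ 2 * (1 + ‖y‖ ^ 2) := by
  have h1 : ‖y + ζ‖ ≤ ‖y‖ + 1 / 4 := (norm_add_le _ _).trans (by linarith)
  have h2 : ‖y + ζ‖ ^ 2 ≤ (‖y‖ + 1 / 4) ^ 2 := by
    have := norm_nonneg (y + ζ)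
    gcongr
  nlinarith [sq_nonneg (‖y‖ - 1 / 4), norm_nonneg y]

theorem one_add_shift' {y ζ : ℂ} (h : ‖ζ‖ ≤ 1 / 4) : 1 + ‖y‖ ^ 2 ≤ 2 * (1 + ‖y + ζ‖ ^ 2) := by
  have h1 : ‖-ζ‖ ≤ 1 / 4 := by simpa using h
  have := one_add_shift (y := y + ζ) h1
  simpa using this

end Crest.Agent.R276.SliB_217
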