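import Mathlib
import Crest.Agent.R276.SliB_217

/-!
# R276, leaf CNT-UP (slice lemma), part C (helper217)

Growth classes and growth of the quotient by `∏_{m<J} (p x i - m)`.
-/

set_option autoImplicit false
set_option linter.unusedSectionVars false

open Set Filter Topology Metric

namespace Crest.Agent.R276.SliC_217

open Crest.Agent.R276.SliA_217 Crest.Agent.R276.SliB_217

variable {d : ℕ} {E : Type*} [TopologicalSpace E]

/-- `min 1 ‖hh x‖` -/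
noncomputable def Hm (hh : E → ℂ) (x : E) : ℝ := min 1 ‖hh x‖

/-- the growth gauge `∏ (1 + ‖p x l‖²)` -/
noncomputable def GG (p : E → (Fin d → ℂ)) (x : E) : ℝ := ∏ l, (1 + ‖p x l‖ ^ 2)

/-- the monomial gauge -/
noncomputable def PP (p : E → (Fin d → ℂ)) (A : Fin d → ℤ) (x : E) : ℝ :=
  ∏ l, (1 + ‖p x l‖ ^ 2) ^ (A l)

/-- growth classes: `‖f‖² e^{-kτ} (min 1 ‖hh‖)^B ≤ C ∏ (1 + ‖p x l‖²)^{A l}` -/
def Gr (p : E → (Fin d → ℂ)) (hh : E → ℂ) (τ : E → ℝ) (k : ℕ) (A : Fin d → ℤ) (B : ℕ)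
    (f : E → ℂ) : Prop :=
  ∃ C : ℝ, ∀ x, ‖f x‖ ^ 2 * Real.exp (-τ x) ^ k * Hm hh x ^ B ≤ C * PP p A x

theorem one_le_GG (p : E → (Fin d → ℂ)) (x : E) : 1 ≤ GG p x := by
  unfold GG
  have : ∀ l, (1 : ℝ) ≤ 1 + ‖p x l‖ ^ 2 := fun l => by nlinarith [sq_nonneg ‖p x l‖]
  calc (1 : ℝ) = ∏ _l : Fin d, (1 : ℝ) := by simp
    _ ≤ _ := Finset.prod_le_prod (fun _ _ => zero_le_one) (fun l _ => this l)

theorem one_add_pos (p : E → (Fin d → ℂ)) (x : E) (l : Fin d) : 0 < 1 + ‖p x l‖ ^ 2 := by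
  positivity

theorem PP_pos (p : E → (Fin d → ℂ)) (A : Fin d → ℤ) (x : E) : 0 < PP p A x :=
  Finset.prod_pos fun l _ => zpow_pos (one_add_pos p x l) _

theorem PP_add (p : E → (Fin d → ℂ)) (A A' : Fin d → ℤ) (x : E) :
    PP p (fun l => A l + A' l) x = PP p A x * PP p A' x := by
  unfold PP
  rw [← Finset.prod_mul_distrib]
  exact Finset.prod_congr rfl fun l _ => zpow_add₀ (one_add_pos p x l).ne' _ _

theorem GG_pow (p : E → (Fin d → ℂ)) (m : ℕ) (x : E) : GG p x ^ m = PP p (fun _ => (m : ℤ)) x := by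
  unfold GG PP
  rw [← Finset.prod_pow]
  simp

theorem PP_single (p : E → (Fin d → ℂ)) (i : Fin d) (n : ℤ) (x : E) :
    PP p (fun l => if l = i then n else 0) x = (1 + ‖p x i‖ ^ 2) ^ n := by
  unfold PP
  rw [Finset.prod_eq_single i]
  · simp
  · intro l _ hl; simp [hl]
  · intro h; exact absurd (Finset.mem_univ i) h

/-- a disc through `x` in the direction `i` with a comparison function `ℓ` for `τ` -/
structure Disc (p : E → (Fin d → ℂ)) (hh : E → ℂ) (τ : E → ℝ) (K : ℝ) (x : E) (i : Fin d)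
    (r : ℝ) (s : ℂ → E) (ℓ : ℂ → ℂ) : Prop where
  r0 : 0 < r
  r1 : r ≤ 1 / 4
  cont : ContinuousOn s (closedBall 0 r)
  s0 : s 0 = x
  ps : ∀ ζ ∈ closedBall (0 : ℂ) r, p (s ζ) = p x + ζ • Pi.single i (1 : ℂ)
  Hs : ∀ ζ ∈ closedBall (0 : ℂ) r, Hm hh x ≤ 2 * Hm hh (s ζ)
  ld : DiffContOnCl ℂ ℓ (ball 0 r)
  l0 : Real.exp (-τ x) ≤ K * ‖ℓ 0‖ ^ 2
  ls : ∀ ζ ∈ closedBall (0 : ℂ) r, ‖ℓ ζ‖ ^ 2 ≤ K * Real.exp (-τ (s ζ))

/-- level data for the slice lemma; see the blueprint (posts 808, 960, 1008). -/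
structure LD (p : E → (Fin d → ℂ)) (hh : E → ℂ) (η τ : E → ℝ) (a b ρ : ℕ) : Prop where
  lh : IsLocalHomeomorph p
  hol : HolP p hh
  ne : ∀ x, hh x ≠ 0
  hgr : ∃ C : ℝ, ∀ x, ‖hh x‖ ≤ C * GG p x ^ b
  cpt : ∀ R δ : ℝ, 0 < δ → IsCompact {x | (∀ i, ‖p x i‖ ≤ R) ∧ δ ≤ ‖hh x‖}
  disc : ∃ c0 K : ℝ, 0 < c0 ∧ 0 < K ∧ ∀ x i, ∃ (r : ℝ) (s : ℂ → E) (ℓ : ℂ → ℂ),
    Disc p hh τ K x i r s ℓ ∧ c0 * Hm hh x ^ a ≤ r * GG p x ^ a
  eta_pos : ∀ x, 0 < η x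
  eta_le : ∃ C : ℝ, ∀ x, η x ≤ C * Real.exp (-τ x)
  eta_C2 : ∀ x, ∀ e : OpenPartialHomeomorph E (Fin d → ℂ), (⇑e : E → (Fin d → ℂ)) = p →
    x ∈ e.source → ContDiffAt ℝ 2 (η ∘ e.symm) (p x)
  null : ∀ x, ∀ e : OpenPartialHomeomorph E (Fin d → ℂ), (⇑e : E → (Fin d → ℂ)) = p →
    x ∈ e.source → ∃ N : Submodule ℂ (Fin d → ℂ), d ≤ ρ + Module.finrank ℂ N ∧
      ∀ w ∈ N, 0 ≤ MaxP_25.lev (fun z => Real.log (η (e.symm z))) (p x) w

variable {p : E → (Fin d → ℂ)} {hh : E → ℂ} {τ : E → ℝ}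

theorem Hm_pos (h0 : ∀ x, hh x ≠ 0) (x : E) : 0 < Hm hh x :=
  lt_min one_pos (norm_pos_iff.2 (h0 x))

/-- composition of a holomorphic function with a disc section -/
theorem comp_section (hp : IsLocalHomeomorph p) {g : E → ℂ} (hg : HolP p g) {x : E} {i : Fin d}
    {r : ℝ} (hr : 0 < r) {s : ℂ → E} (hs : ContinuousOn s (closedBall 0 r))
    (hps : ∀ ζ ∈ closedBall (0 : ℂ) r, p (s ζ) = p x + ζ • Pi.single i (1 : ℂ)) :
    DiffContOnCl ℂ (fun ζ => g (s ζ)) (ball 0 r) := by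
  refine ⟨?_, ?_⟩
  · intro ζ hζ
    have hζ' : ζ ∈ closedBall (0 : ℂ) r := ball_subset_closedBall hζ
    obtain ⟨e, hxe, he⟩ := exists_ch hp (s ζ)
    have hsc : ContinuousAt s ζ := (hs ζ hζ').continuousAt (mem_of_superset
      (isOpen_ball.mem_nhds hζ) ball_subset_closedBall)
    have hev : ∀ᶠ w in 𝓝 ζ, s w ∈ e.source := hsc.eventually (e.open_source.mem_nhds hxe)
    have hev2 : ∀ᶠ w in 𝓝 ζ, w ∈ closedBall (0 : ℂ) r := mem_of_superset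
      (isOpen_ball.mem_nhds hζ) ball_subset_closedBall
    have h1 : DifferentiableAt ℂ (g ∘ e.symm) (p x + ζ • Pi.single i (1 : ℂ)) := by
      have := hg.diffAt he (p_mem he hxe)
      rwa [hps ζ hζ'] at this
    have h2 : DifferentiableAt ℂ (fun w : ℂ => p x + w • (Pi.single i (1 : ℂ) : Fin d → ℂ)) ζ := by
      fun_prop
    refine ((h1.comp ζ h2).congr_of_eventuallyEq ?_).differentiableWithinAt
    filter_upwards [hev, hev2] with w hw hw2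
    simp only [Function.comp_apply, ← hps w hw2, symm_p he hw]
  · rw [closure_ball 0 hr.ne']
    exact (hg.continuous hp).comp_continuousOn hs

/-- the maximum principle on a disc, in the `τ` norm -/
theorem disc_max (hp : IsLocalHomeomorph p) {K : ℝ} (hK : 0 < K) {g : E → ℂ} (hg : HolP p g)
    {x : E} {i : Fin d} {r : ℝ} {s : ℂ → E} {ℓ : ℂ → ℂ} (hD : Disc p hh τ K x i r s ℓ) (k : ℕ)
    {M : ℝ} (hM : ∀ ζ ∈ sphere (0 : ℂ) r, ‖g (s ζ)‖ ^ 2 * Real.exp (-τ (s ζ)) ^ k ≤ M) :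
    ‖g x‖ ^ 2 * Real.exp (-τ x) ^ k ≤ K ^ (2 * k) * M := by
  have hM0 : 0 ≤ M := by
    refine le_trans ?_ (hM (r : ℂ) (by simp [abs_of_pos hD.r0]))
    positivity
  have hF : DiffContOnCl ℂ (fun ζ => g (s ζ) * ℓ ζ ^ k) (ball 0 r) := by
    have h1 := comp_section hp hg hD.r0 hD.cont hD.ps
    exact ⟨h1.1.mul (hD.ld.1.pow k), h1.2.mul (hD.ld.2.pow k)⟩
  have hb : ∀ ζ ∈ frontier (ball (0 : ℂ) r), ‖g (s ζ) * ℓ ζ ^ k‖ ≤ Real.sqrt (K ^ k * M) := by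
    intro ζ hζ
    rw [frontier_ball 0 hD.r0.ne'] at hζ
    apply Real.le_sqrt_of_sq_le
    have hζ' : ζ ∈ closedBall (0 : ℂ) r := sphere_subset_closedBall hζ
    have h1 : ‖g (s ζ) * ℓ ζ ^ k‖ ^ 2 = ‖g (s ζ)‖ ^ 2 * (‖ℓ ζ‖ ^ 2) ^ k := by
      rw [norm_mul, norm_pow]; ring
    rw [h1]
    calc ‖g (s ζ)‖ ^ 2 * (‖ℓ ζ‖ ^ 2) ^ k ≤ ‖g (s ζ)‖ ^ 2 * (K * Real.exp (-τ (s ζ))) ^ k := by
          have := hD.ls ζ hζ'
          gcongr
      _ = K ^ k * (‖g (s ζ)‖ ^ 2 * Real.exp (-τ (s ζ)) ^ k) := by rw [mul_pow]; ring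
      _ ≤ K ^ k * M := by gcongr; exact hM ζ hζ
  have h2 := Complex.norm_le_of_forall_mem_frontier_norm_le isBounded_ball hF hb
    (subset_closure (mem_ball_self hD.r0))
  rw [hD.s0] at h2
  have h3 : ‖g x * ℓ 0 ^ k‖ ^ 2 ≤ K ^ k * M := by
    have := pow_le_pow_left₀ (norm_nonneg _) h2 2
    rwa [Real.sq_sqrt (by positivity)] at this
  calc ‖g x‖ ^ 2 * Real.exp (-τ x) ^ k ≤ ‖g x‖ ^ 2 * (K * ‖ℓ 0‖ ^ 2) ^ k := by
        have := hD.l0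
        gcongr
    _ = K ^ k * ‖g x * ℓ 0 ^ k‖ ^ 2 := by rw [norm_mul, norm_pow, mul_pow]; ring
    _ ≤ K ^ k * (K ^ k * M) := by gcongr
    _ = K ^ (2 * k) * M := by ring

variable {η : E → ℝ} {a b ρ : ℕ}

/-- growth of the quotient by `∏_{m<J} (p x i - m)` -/
theorem growth_div (hL : LD p hh η τ a b ρ) {k J B : ℕ} {A : Fin d → ℤ} {f g : E → ℂ}
    (hf : Gr p hh τ k A B f) (hg : HolP p g) (i : Fin d)
    (hfg : ∀ x, f x = (∏ m ∈ Finset.range J, (p x i - m)) * g x) :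
    Gr p hh τ k (fun l => (A l + if l = i then -(J : ℤ) else 0) + (2 * a : ℕ)) (B + 2 * a) g := by
  obtain ⟨C, hC⟩ := hf
  obtain ⟨c0, K, hc0, hK, hdisc⟩ := hL.disc
  set A1 : Fin d → ℤ := fun l => A l + if l = i then -(J : ℤ) else 0 with hA1
  set C1 : ℝ := |C| * 2 ^ (A1 i).natAbs * 2 ^ B / kap J ^ J with hC1
  have hkap := kap_pos J
  refine ⟨(K ^ (2 * k) + 1) * C1 / c0 ^ 2, fun x => ?_⟩
  obtain ⟨r, s, ℓ, hD, hr⟩ := hdisc x i
  have hr0 := hD.r0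
  have hHx := Hm_pos hL.ne x
  -- bound at a good point near `x`
  have hgood : ∀ x' : E, (∀ m < J, r / 2 ≤ ‖p x' i - (m : ℂ)‖) → (∀ l, l ≠ i → p x' l = p x l) →
      (1 + ‖p x' i‖ ^ 2 ≤ 2 * (1 + ‖p x i‖ ^ 2)) → (1 + ‖p x i‖ ^ 2 ≤ 2 * (1 + ‖p x' i‖ ^ 2)) →
      Hm hh x ≤ 2 * Hm hh x' →
      ‖g x'‖ ^ 2 * Real.exp (-τ x') ^ k ≤ C1 * PP p A1 x / (r ^ 2 * Hm hh x ^ B) := by
    intro x' h1 h2 h3 h4 h5
    have hHx' := Hm_pos hL.ne x'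
    have hprod := prod_lower hr0 (by linarith [hD.r1]) h1
    have hfx : ‖f x'‖ ^ 2 = (∏ m ∈ Finset.range J, ‖p x' i - (m : ℂ)‖ ^ 2) * ‖g x'‖ ^ 2 := by
      rw [hfg x', norm_mul, mul_pow, norm_prod, Finset.prod_pow]
    have h6 : (r ^ 2 * (kap J * (1 + ‖p x' i‖ ^ 2)) ^ J) * ‖g x'‖ ^ 2 ≤ ‖f x'‖ ^ 2 := by
      rw [hfx]; gcongr
    have h7 : ‖f x'‖ ^ 2 * Real.exp (-τ x') ^ k * Hm hh x' ^ B ≤ |C| * PP p A x' :=
      (hC x').trans (by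
        have := le_abs_self C
        have := PP_pos p A x'
        gcongr)
    -- comparison of the gauges
    have h8 : PP p A x' * (1 + ‖p x' i‖ ^ 2) ^ (-(J : ℤ)) = PP p A1 x' := by
      rw [hA1, PP_add, PP_single]
    have h9 : PP p A1 x' ≤ 2 ^ (A1 i).natAbs * PP p A1 x := by
      unfold PP
      rw [← Finset.mul_prod_erase _ _ (Finset.mem_univ i),
        ← Finset.mul_prod_erase Finset.univ (fun l => (1 + ‖p x l‖ ^ 2) ^ A1 l)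
          (Finset.mem_univ i)]
      have h10 : ∏ l ∈ Finset.univ.erase i, (1 + ‖p x' l‖ ^ 2) ^ A1 l =
          ∏ l ∈ Finset.univ.erase i, (1 + ‖p x l‖ ^ 2) ^ A1 l := by
        refine Finset.prod_congr rfl fun l hl => ?_
        rw [h2 l (Finset.ne_of_mem_erase hl)]
      rw [h10, ← mul_assoc]
      have h11 := zpow_cmp (one_add_pos p x' i) (one_add_pos p x i) h3 h4 (A1 i)
      have h12 : 0 ≤ ∏ l ∈ Finset.univ.erase i, (1 + ‖p x l‖ ^ 2) ^ A1 l :=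
        Finset.prod_nonneg fun l _ => (zpow_pos (one_add_pos p x l) _).le
      gcongr
    have h13 : Hm hh x ^ B ≤ 2 ^ B * Hm hh x' ^ B := by
      rw [← mul_pow]; gcongr
    rw [le_div_iff₀ (by positivity)]
    set Q := ‖g x'‖ ^ 2 * Real.exp (-τ x') ^ k with hQ
    have hQ0 : 0 ≤ Q := by positivity
    -- `Q r² κ^J (1+|y'|²)^J Hm(x')^B ≤ |C| PP A x'`
    have h14 : Q * r ^ 2 * kap J ^ J * (1 + ‖p x' i‖ ^ 2) ^ J * Hm hh x' ^ B ≤ |C| * PP p A x' := by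
      refine le_trans ?_ h7
      have h15 : Q * r ^ 2 * kap J ^ J * (1 + ‖p x' i‖ ^ 2) ^ J * Hm hh x' ^ B =
          ((r ^ 2 * (kap J * (1 + ‖p x' i‖ ^ 2)) ^ J) * ‖g x'‖ ^ 2) *
            (Real.exp (-τ x') ^ k * Hm hh x' ^ B) := by
        rw [hQ, mul_pow]; ring
      rw [h15, mul_assoc (‖f x'‖ ^ 2)]
      gcongr
    have h16 : Q * r ^ 2 * kap J ^ J * Hm hh x' ^ B ≤ |C| * PP p A1 x' := by
      have h17 : 0 < (1 + ‖p x' i‖ ^ 2) ^ J := by positivity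
      rw [← h8, zpow_neg, zpow_natCast, ← mul_assoc, ← div_eq_mul_inv, le_div_iff₀ h17]
      calc Q * r ^ 2 * kap J ^ J * Hm hh x' ^ B * (1 + ‖p x' i‖ ^ 2) ^ J
          = Q * r ^ 2 * kap J ^ J * (1 + ‖p x' i‖ ^ 2) ^ J * Hm hh x' ^ B := by ring
        _ ≤ _ := h14
    calc Q * (r ^ 2 * Hm hh x ^ B) ≤ Q * (r ^ 2 * (2 ^ B * Hm hh x' ^ B)) := by gcongr
      _ = (Q * r ^ 2 * kap J ^ J * Hm hh x' ^ B) * (2 ^ B / kap J ^ J) := by
          field_simp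
      _ ≤ (|C| * PP p A1 x') * (2 ^ B / kap J ^ J) := by gcongr
      _ ≤ (|C| * (2 ^ (A1 i).natAbs * PP p A1 x)) * (2 ^ B / kap J ^ J) := by gcongr
      _ = C1 * PP p A1 x := by rw [hC1]; ring
  -- bound at `x`
  have hPPx := PP_pos p A1 x
  have hC1n : 0 ≤ C1 := by rw [hC1]; positivity
  have hM0 : 0 ≤ C1 * PP p A1 x / (r ^ 2 * Hm hh x ^ B) := by positivity
  have hx : ‖g x‖ ^ 2 * Real.exp (-τ x) ^ k ≤
      K ^ (2 * k) * (C1 * PP p A1 x / (r ^ 2 * Hm hh x ^ B)) ∨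
      ‖g x‖ ^ 2 * Real.exp (-τ x) ^ k ≤ C1 * PP p A1 x / (r ^ 2 * Hm hh x ^ B) := by
    by_cases hcase : ∀ m < J, r / 2 ≤ ‖p x i - (m : ℂ)‖
    · right
      exact hgood x hcase (fun _ _ => rfl) (by nlinarith [sq_nonneg ‖p x i‖])
        (by nlinarith [sq_nonneg ‖p x i‖]) (by linarith)
    · left
      push Not at hcase
      obtain ⟨m0, hm0, hm0'⟩ := hcase
      apply disc_max hL.lh hK hg hD k
      intro ζ hζ
      have hζc : ζ ∈ closedBall (0 : ℂ) r := sphere_subset_closedBall hζ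
      have hζn : ‖ζ‖ = r := by simpa using hζ
      have hpi : p (s ζ) i = p x i + ζ := by rw [hD.ps ζ hζc]; simp
      have hζ4 : ‖ζ‖ ≤ 1 / 4 := by rw [hζn]; exact hD.r1
      apply hgood (s ζ)
      · intro m hm
        rw [hpi]
        by_cases hmm : m = m0
        · subst hmm
          have h1 : ‖ζ‖ ≤ ‖p x i + ζ - (m : ℂ)‖ + ‖p x i - (m : ℂ)‖ := by
            have := norm_sub_le (p x i + ζ - (m : ℂ)) (p x i - (m : ℂ))
            have h2 : (p x i + ζ - (m : ℂ)) - (p x i - (m : ℂ)) = ζ := by ring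
            rwa [h2] at this
          linarith
        · have h1 : (1 : ℝ) ≤ ‖(m : ℂ) - (m0 : ℂ)‖ := by
            have h2 : ((m : ℂ) - (m0 : ℂ)) = (((m : ℤ) - (m0 : ℤ) : ℤ) : ℂ) := by push_cast; ring
            rw [h2, Complex.norm_intCast]
            have h3 : (m : ℤ) - (m0 : ℤ) ≠ 0 := by
              intro h; apply hmm; omega
            have h4 : (1 : ℤ) ≤ |(m : ℤ) - (m0 : ℤ)| := Int.one_le_abs h3
            exact_mod_cast h4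
          have h5 : ‖(m : ℂ) - (m0 : ℂ)‖ ≤ ‖p x i - (m0 : ℂ)‖ + ‖ζ‖ + ‖p x i + ζ - (m : ℂ)‖ := by
            have h6 := norm_sub_le ((p x i - (m0 : ℂ)) + ζ) (p x i + ζ - (m : ℂ))
            have h7 := norm_add_le (p x i - (m0 : ℂ)) ζ
            have h8 : ((p x i - (m0 : ℂ)) + ζ) - (p x i + ζ - (m : ℂ)) = (m : ℂ) - (m0 : ℂ) := by
              ring
            rw [h8] at h6
            linarith
          have := hD.r1
          linarith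
      · intro l hl
        rw [hD.ps ζ hζc]; simp [Pi.single_eq_of_ne hl]
      · rw [hpi]; exact one_add_shift hζ4
      · rw [hpi]; exact one_add_shift' hζ4
      · exact hD.Hs ζ hζc
  set Q := ‖g x‖ ^ 2 * Real.exp (-τ x) ^ k with hQ
  have hQ0 : 0 ≤ Q := by positivity
  have hQM : Q ≤ (K ^ (2 * k) + 1) * (C1 * PP p A1 x / (r ^ 2 * Hm hh x ^ B)) := by
    rcases hx with h | h
    · rw [add_mul, one_mul]; linarith
    · have : 0 ≤ K ^ (2 * k) * (C1 * PP p A1 x / (r ^ 2 * Hm hh x ^ B)) := by positivity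
      rw [add_mul, one_mul]; linarith
  have h1 : Q * (r ^ 2 * Hm hh x ^ B) ≤ (K ^ (2 * k) + 1) * (C1 * PP p A1 x) := by
    have h2 : 0 < r ^ 2 * Hm hh x ^ B := by positivity
    rw [← mul_div_assoc, le_div_iff₀ h2] at hQM
    exact hQM
  have h3 : c0 ^ 2 * Hm hh x ^ (2 * a) ≤ r ^ 2 * GG p x ^ (2 * a) := by
    have h4 : 0 ≤ c0 * Hm hh x ^ a := by positivity
    have h5 := pow_le_pow_left₀ h4 hr 2
    calc c0 ^ 2 * Hm hh x ^ (2 * a) = (c0 * Hm hh x ^ a) ^ 2 := by ring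
      _ ≤ (r * GG p x ^ a) ^ 2 := h5
      _ = _ := by ring
  have hPPe : PP p (fun l => A1 l + (2 * a : ℕ)) x = PP p A1 x * GG p x ^ (2 * a) := by
    rw [PP_add p A1 (fun _ => ((2 * a : ℕ) : ℤ)), GG_pow]
  have hGG : 0 ≤ GG p x ^ (2 * a) := by have := one_le_GG p x; positivity
  rw [hPPe, pow_add, div_mul_eq_mul_div, le_div_iff₀ (by positivity)]
  calc Q * (Hm hh x ^ B * Hm hh x ^ (2 * a)) * c0 ^ 2
      = Q * Hm hh x ^ B * (c0 ^ 2 * Hm hh x ^ (2 * a)) := by ring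
    _ ≤ Q * Hm hh x ^ B * (r ^ 2 * GG p x ^ (2 * a)) := by gcongr
    _ = Q * (r ^ 2 * Hm hh x ^ B) * GG p x ^ (2 * a) := by ring
    _ ≤ ((K ^ (2 * k) + 1) * (C1 * PP p A1 x)) * GG p x ^ (2 * a) := by gcongr
    _ = (K ^ (2 * k) + 1) * C1 * (PP p A1 x * GG p x ^ (2 * a)) := by ring

end Crest.Agent.R276.SliC_217
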