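import Mathlib
import Crest.Agent.R276.SliC_217

/-!
# R276, leaf CNT-UP (slice lemma), part D (helper217)

Division by all the linear factors `p x i - m`, `i : Fin d`, `m < J`.
-/

set_option autoImplicit false
set_option linter.unusedSectionVars false

open Set Filter Topology Metric

namespace Crest.Agent.R276.SliD_217

open Crest.Agent.R276.SliA_217 Crest.Agent.R276.SliB_217 Crest.Agent.R276.SliC_217

variable {d : ℕ} {E : Type*} [TopologicalSpace E] {p : E → (Fin d → ℂ)}

/-- the quotient vanishes where `f` vanishes, for another hyperplane -/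
theorem van_quot (hp : IsLocalHomeomorph p) {f g : E → ℂ} (hg : HolP p g) {i : Fin d} {c : ℂ}
    (hfg : ∀ x, f x = (p x i - c) * g x) {j : Fin d} {c' : ℂ} (hne : j = i → c' ≠ c)
    (hf : ∀ x, p x j = c' → f x = 0) : ∀ x, p x j = c' → g x = 0 := by
  intro x hxj
  by_cases hxi : p x i = c
  · have hji : j ≠ i := by
      rintro rfl
      exact hne rfl (hxj.symm.trans hxi)
    obtain ⟨e, hxe, he⟩ := exists_ch hp x
    have hcont : ContinuousAt (g ∘ e.symm) (p x) := (hg.diffAt he (p_mem he hxe)).continuousAt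
    set L : ℂ → (Fin d → ℂ) := fun t => p x + t • Pi.single i (1 : ℂ) with hL
    have hLc : Continuous L := by simp only [hL]; fun_prop
    have hL0 : L 0 = p x := by simp [hL]
    have h1 : Tendsto (fun t : ℂ => (g ∘ e.symm) (L t)) (𝓝[≠] 0) (𝓝 ((g ∘ e.symm) (p x))) := by
      have h2 : ContinuousAt (fun t : ℂ => (g ∘ e.symm) (L t)) 0 := by
        apply ContinuousAt.comp (g := g ∘ e.symm) _ hLc.continuousAt
        rw [hL0]; exact hcont
      have h3 := h2.tendsto
      simp only [hL0] at h3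
      exact h3.mono_left nhdsWithin_le_nhds
    have h4 : ∀ᶠ t in 𝓝[≠] (0 : ℂ), (g ∘ e.symm) (L t) = 0 := by
      have h5 : ∀ᶠ t in 𝓝 (0 : ℂ), L t ∈ e.target := by
        apply hLc.continuousAt.eventually_mem
        rw [hL0]
        exact e.open_target.mem_nhds (p_mem he hxe)
      filter_upwards [h5.filter_mono nhdsWithin_le_nhds, self_mem_nhdsWithin] with t ht ht0
      have hpt : p (e.symm (L t)) = L t := p_symm he ht
      have h6 : p (e.symm (L t)) j = c' := by
        rw [hpt]; simp [hL, Pi.single_eq_of_ne hji, hxj]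
      have h7 : p (e.symm (L t)) i - c ≠ 0 := by
        rw [hpt]
        simp only [hL, Pi.add_apply, Pi.smul_apply, Pi.single_eq_same, smul_eq_mul, mul_one, hxi,
          add_sub_cancel_left]
        exact ht0
      have h8 := hfg (e.symm (L t))
      rw [hf _ h6] at h8
      rcases mul_eq_zero.1 h8.symm with h | h
      · exact absurd h h7
      · exact h
    have h9 : (g ∘ e.symm) (p x) = 0 := by
      refine tendsto_nhds_unique h1 ?_
      exact tendsto_const_nhds.congr' (h4.mono fun t ht => ht.symm)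
    simpa [symm_p he hxe] using h9
  · have h1 := hfg x
    rw [hf x hxj] at h1
    rcases mul_eq_zero.1 h1.symm with h | h
    · exact absurd (sub_eq_zero.1 h) hxi
    · exact h

/-- division by `∏_{m<J} (p x i - m)` -/
theorem exists_div_coord (hp : IsLocalHomeomorph p) {f : E → ℂ} (hf : HolP p f) (i : Fin d)
    (J : ℕ) (h0 : ∀ m < J, ∀ x, p x i = (m : ℂ) → f x = 0) :
    ∃ g : E → ℂ, HolP p g ∧ (∀ x, f x = (∏ m ∈ Finset.range J, (p x i - (m : ℂ))) * g x) ∧
      ∀ j, j ≠ i → ∀ c : ℂ, (∀ x, p x j = c → f x = 0) → ∀ x, p x j = c → g x = 0 := by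
  have key : ∀ n ≤ J, ∃ g : E → ℂ, HolP p g ∧
      (∀ x, f x = (∏ m ∈ Finset.range n, (p x i - (m : ℂ))) * g x) ∧
      (∀ m, n ≤ m → m < J → ∀ x, p x i = (m : ℂ) → g x = 0) ∧
      ∀ j, j ≠ i → ∀ c : ℂ, (∀ x, p x j = c → f x = 0) → ∀ x, p x j = c → g x = 0 := by
    intro n
    induction n with
    | zero => intro _; exact ⟨f, hf, by simp, fun m _ hm => h0 m hm, fun _ _ _ h => h⟩
    | succ n ih =>
      intro hn
      obtain ⟨g, hg, hfg, hg1, hg2⟩ := ih (by omega)
      obtain ⟨g', hg', hgg'⟩ := exists_div hp hg i (n : ℂ) (hg1 n le_rfl (by omega))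
      refine ⟨g', hg', fun x => ?_, fun m hm hmJ => ?_, fun j hj c hc => ?_⟩
      · rw [Finset.prod_range_succ, hfg x, hgg' x]; ring
      · refine van_quot hp hg' hgg' (fun _ => ?_) (hg1 m (by omega) hmJ)
        have : m ≠ n := by omega
        exact_mod_cast this
      · exact van_quot hp hg' hgg' (fun h => absurd h hj) (hg2 j hj c hc)
  obtain ⟨g, hg, h1, _, h2⟩ := key J le_rfl
  exact ⟨g, hg, h1, h2⟩

variable {hh : E → ℂ} {η τ : E → ℝ} {a b ρ : ℕ}

/-- division by all factors -/
theorem exists_div_all (hL : LD p hh η τ a b ρ) {k J B : ℕ} {A : Fin d → ℤ} {f : E → ℂ}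
    (hf : HolP p f) (hfG : Gr p hh τ k A B f)
    (h0 : ∀ i, ∀ m < J, ∀ x, p x i = (m : ℂ) → f x = 0) (S : Finset (Fin d)) :
    ∃ g : E → ℂ, HolP p g ∧ (∀ x, g x = 0 → f x = 0) ∧
      (∀ j ∉ S, ∀ m < J, ∀ x, p x j = (m : ℂ) → g x = 0) ∧
      Gr p hh τ k (fun l => A l + (if l ∈ S then -(J : ℤ) else 0) + (2 * a * S.card : ℕ))
        (B + 2 * a * S.card) g := by
  classical
  induction S using Finset.induction_on with
  | empty =>
    refine ⟨f, hf, fun _ h => h, fun j _ => h0 j, ?_⟩
    simpa using hfG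
  | insert i S hi ih =>
    obtain ⟨g, hg, hgf, hg0, hgG⟩ := ih
    obtain ⟨g', hg', hgg', hvan⟩ := exists_div_coord hL.lh hg i J (hg0 i hi)
    have hG' := growth_div hL hgG hg' i hgg'
    refine ⟨g', hg', fun x hx => hgf x (by rw [hgg' x, hx, mul_zero]), fun j hj m hm => ?_, ?_⟩
    · have hji : j ≠ i := by rintro rfl; exact hj (Finset.mem_insert_self _ _)
      have hjS : j ∉ S := fun h => hj (Finset.mem_insert_of_mem h)
      exact hvan j hji m (hg0 j hjS m hm)
    · rw [Finset.card_insert_of_notMem hi]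
      have h1 : (fun l => A l + (if l ∈ insert i S then -(J : ℤ) else 0) +
          ((2 * a * (S.card + 1) : ℕ) : ℤ)) = fun l => A l + (if l ∈ S then -(J : ℤ) else 0) +
          ((2 * a * S.card : ℕ) : ℤ) + (if l = i then -(J : ℤ) else 0) + ((2 * a : ℕ) : ℤ) := by
        funext l
        by_cases hl : l = i
        · subst hl; simp [hi]; ring
        · simp [hl]; ring
      have h2 : B + 2 * a * (S.card + 1) = B + 2 * a * S.card + 2 * a := by ring
      rw [h1, h2]
      exact hG'

end Crest.Agent.R276.SliD_217
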