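import Mathlib
import Crest.Agent.R276.SliD_217

/-!
# R276, leaf CNT-UP (slice lemma), part E (helper217)

The maximum principle: a holomorphic function which decays at infinity in the `η` norm vanishes if
`-log η` has everywhere a null direction; the level theorem.
-/

set_option autoImplicit false
set_option linter.unusedSectionVars false

open Set Filter Topology Metric InnerProductSpace Laplacian

namespace Crest.Agent.R276.SliE_217

open Crest.Agent.R276.SliA_217 Crest.Agent.R276.SliB_217 Crest.Agent.R276.SliC_217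
  Crest.Agent.R276.SliD_217 Crest.Agent.R276.Ahl_25 Crest.Agent.R276.MaxP_25

/-- `Δ log (1 + |z|²) = 4 / (1 + |z|²)²` -/
theorem lap_log_add (z : ℂ) :
    (Δ (fun w : ℂ => Real.log (1 + ‖w‖ ^ 2))) z = 4 / (1 + ‖z‖ ^ 2) ^ 2 := by
  have hc : ContDiffAt ℝ 2 (fun w : ℂ => Real.log (1 + ‖w‖ ^ 2)) z := by
    refine ContDiffAt.log ?_ (by positivity)
    exact contDiffAt_const.add (contDiff_norm_sq ℝ).contDiffAt
  have key : ∀ v : ℂ, ‖v‖ = 1 → fderiv ℝ (fderiv ℝ (fun w : ℂ => Real.log (1 + ‖w‖ ^ 2))) z v v =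
      2 / (1 + ‖z‖ ^ 2) - 4 * (z.re * v.re + z.im * v.im) ^ 2 / (1 + ‖z‖ ^ 2) ^ 2 := by
    intro v hv
    rw [← deriv2_line hc]
    set a := 1 + ‖z‖ ^ 2 with ha
    have ha0 : 0 < a := by positivity
    set b := z.re * v.re + z.im * v.im with hb
    have hv2 : v.re ^ 2 + v.im ^ 2 = 1 := by
      have := Complex.normSq_eq_norm_sq v
      rw [hv, Complex.normSq_apply] at this
      linarith
    have e1 : (fun t : ℝ => Real.log (1 + ‖z + t • v‖ ^ 2)) =
        fun t => Real.log (a + 2 * b * t + t ^ 2) := by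
      funext t
      congr 1
      have e2 : ‖z + t • v‖ ^ 2 = ‖z‖ ^ 2 + 2 * b * t + t ^ 2 := by
        rw [← Complex.normSq_eq_norm_sq, ← Complex.normSq_eq_norm_sq, Complex.normSq_apply,
          Complex.normSq_apply, hb]
        simp only [Complex.add_re, Complex.add_im, Complex.real_smul, Complex.mul_re,
          Complex.mul_im, Complex.ofReal_re, Complex.ofReal_im, zero_mul, sub_zero, add_zero]
        linear_combination t ^ 2 * hv2
      rw [e2, ha]; ring
    rw [e1]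
    have hpos : ∀ᶠ t in 𝓝 (0 : ℝ), 0 < a + 2 * b * t + t ^ 2 := by
      have : ContinuousAt (fun t : ℝ => a + 2 * b * t + t ^ 2) 0 := by fun_prop
      refine this.eventually (lt_mem_nhds ?_)
      simpa using ha0
    have hq : ∀ t : ℝ, HasDerivAt (fun t : ℝ => a + 2 * b * t + t ^ 2) (2 * b + 2 * t) t := by
      intro t
      have := (((hasDerivAt_id t).const_mul (2 * b)).const_add a).add ((hasDerivAt_id t).pow 2)
      refine this.congr_deriv ?_
      simp
    have hd : deriv (fun t : ℝ => Real.log (a + 2 * b * t + t ^ 2)) =ᶠ[𝓝 0]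
        fun t => (2 * b + 2 * t) / (a + 2 * b * t + t ^ 2) := by
      filter_upwards [hpos] with t ht
      exact ((hq t).log ht.ne').deriv
    rw [hd.deriv_eq]
    have hn : HasDerivAt (fun t : ℝ => 2 * b + 2 * t) 2 0 := by
      have := ((hasDerivAt_id (0 : ℝ)).const_mul 2).const_add (2 * b)
      simpa using this
    have h' := hn.fun_div (hq 0) (by simpa using ha0.ne')
    rw [h'.deriv]
    simp only [mul_zero, add_zero, ne_eq, OfNat.ofNat_ne_zero, not_false_eq_true, zero_pow]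
    field_simp
    ring
  rw [lap_eq, key 1 (by simp), key Complex.I (by simp)]
  have e7 : ‖z‖ ^ 2 = z.re ^ 2 + z.im ^ 2 := by
    rw [← Complex.normSq_eq_norm_sq, Complex.normSq_apply]; ring
  have ha0 : (1 + (z.re ^ 2 + z.im ^ 2)) ≠ 0 := by positivity
  rw [e7]
  simp only [Complex.one_re, Complex.one_im, Complex.I_re, Complex.I_im]
  field_simp
  ring

section levs

variable {d : ℕ}

theorem contDiffAt_log_coord (l : Fin d) (z : Fin d → ℂ) :
    ContDiffAt ℝ 2 (fun y : Fin d → ℂ => Real.log (1 + ‖y l‖ ^ 2)) z := by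
  have h1 : ContDiffAt ℝ 2 (fun w : ℂ => Real.log (1 + ‖w‖ ^ 2)) (z l) := by
    refine ContDiffAt.log ?_ (by positivity)
    exact contDiffAt_const.add (contDiff_norm_sq ℝ).contDiffAt
  have h2 : ContDiffAt ℝ 2 (fun y : Fin d → ℂ => y l) z := (contDiff_apply ℝ ℂ l).contDiffAt
  exact h1.comp z h2

theorem lev_log_coord (l : Fin d) (z w : Fin d → ℂ) :
    lev (fun y : Fin d → ℂ => Real.log (1 + ‖y l‖ ^ 2)) z w =
      ‖w l‖ ^ 2 * (4 / (1 + ‖z l‖ ^ 2) ^ 2) := by
  have h1 : ContDiffAt ℝ 2 (fun y : Fin d → ℂ => Real.log (1 + ‖y l‖ ^ 2)) (z + (0 : ℂ) • w) :=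
    contDiffAt_log_coord l _
  have h2 := lap_cline h1
  simp only [zero_smul, add_zero] at h2
  rw [← h2]
  have h3 : ContDiffAt ℝ 2 (fun w : ℂ => Real.log (1 + ‖w‖ ^ 2)) ((fun t : ℂ => z l + t * w l) 0) := by
    refine ContDiffAt.log ?_ (by positivity)
    exact contDiffAt_const.add (contDiff_norm_sq ℝ).contDiffAt
  have h4 : AnalyticAt ℂ (fun t : ℂ => z l + t * w l) 0 := by fun_prop
  have h5 := lap_comp (f := fun w : ℂ => Real.log (1 + ‖w‖ ^ 2)) (h := fun t : ℂ => z l + t * w l)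
    (z := 0) h3 h4
  have h6 : deriv (fun t : ℂ => z l + t * w l) 0 = w l := by
    have : HasDerivAt (fun t : ℂ => z l + t * w l) (1 * w l) 0 :=
      ((hasDerivAt_id (0 : ℂ)).mul_const (w l)).const_add (z l)
    simpa using this.deriv
  rw [h6, lap_log_add] at h5
  simpa using h5

theorem contDiffAt_log_norm {F : (Fin d → ℂ) → ℂ} {z : Fin d → ℂ} (hF : AnalyticAt ℂ F z)
    (h0 : F z ≠ 0) : ContDiffAt ℝ 2 (fun y => Real.log ‖F y‖) z := by
  have h1 : ContDiffAt ℝ 2 F z := (hF.contDiffAt (n := 2)).restrict_scalars ℝ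
  exact (h1.norm ℝ h0).log (norm_ne_zero_iff.2 h0)

theorem lev_log_norm {F : (Fin d → ℂ) → ℂ} {z : Fin d → ℂ} (hF : AnalyticAt ℂ F z)
    (h0 : F z ≠ 0) (w : Fin d → ℂ) : lev (fun y => Real.log ‖F y‖) z w = 0 := by
  have h1 : ContDiffAt ℝ 2 (fun y => Real.log ‖F y‖) (z + (0 : ℂ) • w) := by
    simpa using contDiffAt_log_norm hF h0
  have h2 := lap_cline h1
  simp only [zero_smul, add_zero] at h2
  rw [← h2]
  have h3 : AnalyticAt ℂ (fun t : ℂ => F (z + t • w)) 0 := by
    have h4 : AnalyticAt ℂ (fun t : ℂ => z + t • w) 0 := by fun_prop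
    have h5 : AnalyticAt ℂ F ((fun t : ℂ => z + t • w) 0) := by simpa using hF
    exact AnalyticAt.comp (g := F) (f := fun t : ℂ => z + t • w) h5 h4
  have h6 := AnalyticAt.harmonicAt_log_norm h3 (by simpa using h0)
  exact h6.2.self_of_nhds

end levs

variable {d : ℕ} {E : Type*} [TopologicalSpace E] {p : E → (Fin d → ℂ)} {hh : E → ℂ}
  {η τ : E → ℝ} {a b ρ : ℕ}

theorem continuous_eta (hL : LD p hh η τ a b ρ) : Continuous η := by
  rw [continuous_iff_continuousAt]
  intro x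
  obtain ⟨e, hx, he⟩ := exists_ch hL.lh x
  have h1 : ContinuousAt (η ∘ e.symm) (p x) := (hL.eta_C2 x e he hx).continuousAt
  have h2 : ContinuousAt (fun y => (η ∘ e.symm) (p y)) x :=
    ContinuousAt.comp (g := η ∘ e.symm) h1 hL.lh.continuous.continuousAt
  refine h2.congr ?_
  filter_upwards [e.open_source.mem_nhds hx] with y hy
  simp [symm_p he hy]

theorem continuous_GG (hp : Continuous p) : Continuous (GG p) := by
  unfold GG
  refine continuous_finsetProd _ fun l _ => ?_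
  have : Continuous fun x => p x l := (continuous_apply l).comp hp
  fun_prop

theorem Hm_mul_max (hh : E → ℂ) (x : E) : ‖hh x‖ = Hm hh x * max 1 ‖hh x‖ := by
  unfold Hm
  rcases le_total 1 ‖hh x‖ with h | h
  · rw [min_eq_left h, max_eq_right h, one_mul]
  · rw [min_eq_right h, max_eq_left h, mul_one]

theorem PP_mono {A A' : Fin d → ℤ} (h : ∀ l, A l ≤ A' l) (x : E) : PP p A x ≤ PP p A' x := by
  unfold PP
  refine Finset.prod_le_prod (fun l _ => (zpow_pos (one_add_pos p x l) _).le) fun l _ => ?_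
  have : (1 : ℝ) ≤ 1 + ‖p x l‖ ^ 2 := by nlinarith [sq_nonneg ‖p x l‖]
  exact zpow_le_zpow_right₀ this (h l)

theorem PP_neg_le (x : E) (i : Fin d) : PP p (fun _ => -1) x * (1 + ‖p x i‖ ^ 2) ≤ 1 := by
  have h1 : PP p (fun _ => -1) x * (1 + ‖p x i‖ ^ 2) =
      PP p (fun l => -1 + if l = i then 1 else 0) x := by
    rw [PP_add p (fun _ => -1), PP_single]; simp
  rw [h1]
  have h2 : PP p (fun _ => (0 : ℤ)) x = 1 := by simp [PP]
  rw [← h2]
  apply PP_mono
  intro l
  split_ifs <;> norm_num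

/-- the maximum principle -/
theorem zero_of_decay (hL : LD p hh η τ a b ρ) (hρ : ρ < d) {k B : ℕ} {A : Fin d → ℤ}
    {g : E → ℂ} (hg : HolP p g) (hG : Gr p hh τ k A B g)
    (hA : ∀ l, A l + 1 + b * (B + 1) ≤ -1) : ∀ x, g x = 0 := by
  obtain ⟨C, hC⟩ := hG
  obtain ⟨Cη, hCη⟩ := hL.eta_le
  obtain ⟨Ch, hCh⟩ := hL.hgr
  by_contra hcon
  push Not at hcon
  obtain ⟨x1, hx1⟩ := hcon
  have hηc := continuous_eta hL
  have hgc := hg.continuous hL.lh
  have hhc := hL.hol.continuous hL.lh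
  set u : E → ℝ := fun x => ‖g x‖ ^ 2 * η x ^ k * ‖hh x‖ ^ (B + 1) * GG p x with hu
  have huc : Continuous u := by
    have := continuous_GG hL.lh.continuous
    simp only [hu]; fun_prop
  have hGGpos : ∀ x, 0 < GG p x := fun x => lt_of_lt_of_le one_pos (one_le_GG p x)
  have hupos : 0 < u x1 := by
    have h1 := hL.eta_pos x1
    have h2 : 0 < ‖hh x1‖ := norm_pos_iff.2 (hL.ne x1)
    have h3 : 0 < ‖g x1‖ := norm_pos_iff.2 hx1
    have h4 := hGGpos x1
    simp only [hu]; positivity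
  set Ch' : ℝ := max 1 |Ch| with hCh'
  set C' : ℝ := |Cη| ^ k * |C| * Ch' ^ (B + 1) with hC'
  have hC'0 : 0 ≤ C' := by rw [hC', hCh']; positivity
  -- decay of `u`
  have hdec : ∀ x, u x ≤ C' * PP p (fun _ => -1) x * Hm hh x := by
    intro x
    have hHx := Hm_pos hL.ne x
    have h1 : ‖g x‖ ^ 2 * η x ^ k ≤ |Cη| ^ k * (‖g x‖ ^ 2 * Real.exp (-τ x) ^ k) := by
      have h2 : η x ≤ |Cη| * Real.exp (-τ x) :=
        (hCη x).trans (by have := le_abs_self Cη; gcongr)
      have h3 := (hL.eta_pos x).le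
      calc ‖g x‖ ^ 2 * η x ^ k ≤ ‖g x‖ ^ 2 * (|Cη| * Real.exp (-τ x)) ^ k := by gcongr
        _ = _ := by rw [mul_pow]; ring
    have h4 : ‖g x‖ ^ 2 * Real.exp (-τ x) ^ k * Hm hh x ^ B ≤ |C| * PP p A x :=
      (hC x).trans (by
        have := le_abs_self C
        have := PP_pos p A x
        gcongr)
    have h5 : max 1 ‖hh x‖ ≤ Ch' * GG p x ^ b := by
      have h6 : 1 ≤ GG p x ^ b := one_le_pow₀ (one_le_GG p x)
      apply max_le
      · have : (1 : ℝ) ≤ Ch' := le_max_left _ _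
        nlinarith
      · calc ‖hh x‖ ≤ Ch * GG p x ^ b := hCh x
          _ ≤ Ch' * GG p x ^ b := by
            have : Ch ≤ Ch' := (le_abs_self Ch).trans (le_max_right _ _)
            gcongr
    have h7 : ‖hh x‖ ^ (B + 1) ≤ Hm hh x ^ (B + 1) * (Ch' * GG p x ^ b) ^ (B + 1) := by
      rw [Hm_mul_max hh x, mul_pow]
      have : 0 ≤ max 1 ‖hh x‖ := le_max_of_le_left zero_le_one
      gcongr
    have hGp := hGGpos x
    have hCh0 : 0 ≤ Ch' := le_max_of_le_left zero_le_one
    calc u x = (‖g x‖ ^ 2 * η x ^ k) * ‖hh x‖ ^ (B + 1) * GG p x := rfl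
      _ ≤ (|Cη| ^ k * (‖g x‖ ^ 2 * Real.exp (-τ x) ^ k)) *
          (Hm hh x ^ (B + 1) * (Ch' * GG p x ^ b) ^ (B + 1)) * GG p x := by gcongr
      _ = |Cη| ^ k * Ch' ^ (B + 1) * (‖g x‖ ^ 2 * Real.exp (-τ x) ^ k * Hm hh x ^ B) *
          (GG p x ^ (b * (B + 1) + 1)) * Hm hh x := by
          rw [mul_pow, pow_add (Hm hh x), pow_one, ← pow_mul, pow_add, pow_one]; ring
      _ ≤ |Cη| ^ k * Ch' ^ (B + 1) * (|C| * PP p A x) *
          (GG p x ^ (b * (B + 1) + 1)) * Hm hh x := by gcongr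
      _ = C' * (PP p A x * PP p (fun _ => ((b * (B + 1) + 1 : ℕ) : ℤ)) x) * Hm hh x := by
          rw [GG_pow, hC']; ring
      _ = C' * PP p (fun l => A l + ((b * (B + 1) + 1 : ℕ) : ℤ)) x * Hm hh x := by
          rw [← PP_add]
      _ ≤ C' * PP p (fun _ => -1) x * Hm hh x := by
          have : PP p (fun l => A l + ((b * (B + 1) + 1 : ℕ) : ℤ)) x ≤ PP p (fun _ => -1) x := by
            apply PP_mono
            intro l
            have := hA l
            push_cast
            linarith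
          gcongr
  -- the compact set
  have hC'pos : 0 < C' := by
    rcases hC'0.lt_or_eq with h | h
    · exact h
    · have := hdec x1
      rw [← h] at this
      simp at this
      linarith
  set δ := u x1 / C' with hδ
  have hδ0 : 0 < δ := div_pos hupos hC'pos
  have hsub : ∀ x, u x1 ≤ u x → x ∈ {x | (∀ i, ‖p x i‖ ≤ 1 / δ) ∧ δ ≤ ‖hh x‖} := by
    intro x hx
    have h1 := hx.trans (hdec x)
    have hHx := Hm_pos hL.ne x
    have hP := PP_pos p (fun _ => -1) x
    have h2 : δ ≤ PP p (fun _ => -1) x * Hm hh x := by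
      rw [hδ, div_le_iff₀ hC'pos]; linarith
    have hH1 : Hm hh x ≤ 1 := min_le_left _ _
    refine ⟨fun i => ?_, ?_⟩
    · have h3 := PP_neg_le (p := p) x i
      have h4 : δ * (1 + ‖p x i‖ ^ 2) ≤ 1 := by
        calc δ * (1 + ‖p x i‖ ^ 2) ≤ (PP p (fun _ => -1) x * Hm hh x) * (1 + ‖p x i‖ ^ 2) := by gcongr
          _ = (PP p (fun _ => -1) x * (1 + ‖p x i‖ ^ 2)) * Hm hh x := by ring
          _ ≤ 1 * 1 := by gcongr
          _ = 1 := by norm_num
      rw [le_div_iff₀ hδ0]
      nlinarith [sq_nonneg (‖p x i‖ - 1), norm_nonneg (p x i)]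
    · have h3 : PP p (fun _ => -1) x ≤ 1 := by
        by_cases hd : Nonempty (Fin d)
        · obtain ⟨i⟩ := hd
          have := PP_neg_le (p := p) x i
          nlinarith [sq_nonneg ‖p x i‖]
        · have : IsEmpty (Fin d) := not_nonempty_iff.1 hd
          simp [PP]
      calc δ ≤ PP p (fun _ => -1) x * Hm hh x := h2
        _ ≤ 1 * Hm hh x := by gcongr
        _ ≤ ‖hh x‖ := by rw [one_mul]; exact min_le_right _ _
  obtain ⟨x0, hx0, hmax⟩ := (hL.cpt (1 / δ) δ hδ0).exists_isMaxOn ⟨x1, hsub x1 le_rfl⟩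
    huc.continuousOn
  have hglob : ∀ x, u x ≤ u x0 := by
    intro x
    by_cases hx : u x1 ≤ u x
    · exact hmax (hsub x hx)
    · have := hmax (hsub x1 le_rfl)
      exact (not_le.1 hx).le.trans this
  have hu0 : 0 < u x0 := lt_of_lt_of_le hupos (hglob x1)
  have hg0 : g x0 ≠ 0 := by
    intro h
    simp only [hu, h, norm_zero] at hu0
    simp at hu0
  -- local analysis at `x0`
  obtain ⟨e, hxe, he⟩ := exists_ch hL.lh x0
  have hpt := p_mem he hxe
  have hsx : e.symm (p x0) = x0 := symm_p he hxe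
  have hGan : AnalyticAt ℂ (g ∘ e.symm) (p x0) :=
    R266.SCV.analyticOnNhd_of_differentiableOn e.open_target (hg e he) _ hpt
  have hHan : AnalyticAt ℂ (hh ∘ e.symm) (p x0) :=
    R266.SCV.analyticOnNhd_of_differentiableOn e.open_target (hL.hol e he) _ hpt
  have hG0 : (g ∘ e.symm) (p x0) ≠ 0 := by simpa [hsx] using hg0
  have hH0 : (hh ∘ e.symm) (p x0) ≠ 0 := by simpa [hsx] using hL.ne x0
  set v1 : (Fin d → ℂ) → ℝ := fun z => Real.log ‖(g ∘ e.symm) z‖ with hv1
  set v2 : (Fin d → ℂ) → ℝ := fun z => Real.log (η (e.symm z)) with hv2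
  set v3 : (Fin d → ℂ) → ℝ := fun z => Real.log ‖(hh ∘ e.symm) z‖ with hv3
  set v4 : (Fin d → ℂ) → ℝ := fun z => ∑ l, Real.log (1 + ‖z l‖ ^ 2) with hv4
  set v : (Fin d → ℂ) → ℝ := fun z => 2 * v1 z + (k : ℝ) * v2 z + ((B + 1 : ℕ) : ℝ) * v3 z + v4 z
    with hv
  have hc1 : ContDiffAt ℝ 2 v1 (p x0) := contDiffAt_log_norm hGan hG0
  have hc2 : ContDiffAt ℝ 2 v2 (p x0) := by
    have h1 := hL.eta_C2 x0 e he hxe
    refine ContDiffAt.log h1 ?_
    simpa [hsx] using (hL.eta_pos x0).ne'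
  have hc3 : ContDiffAt ℝ 2 v3 (p x0) := contDiffAt_log_norm hHan hH0
  have hc4 : ContDiffAt ℝ 2 v4 (p x0) := ContDiffAt.sum fun l _ => contDiffAt_log_coord l _
  have hloc : IsLocalMax v (p x0) := by
    have h1 : ∀ᶠ z in 𝓝 (p x0), (g ∘ e.symm) z ≠ 0 := hGan.continuousAt.eventually_ne hG0
    have h2 : ∀ᶠ z in 𝓝 (p x0), z ∈ e.target := e.open_target.mem_nhds hpt
    have hlog : ∀ z, z ∈ e.target → (g ∘ e.symm) z ≠ 0 → v z = Real.log (u (e.symm z)) := by
      intro z hz hgz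
      have h3 := hL.eta_pos (e.symm z)
      have h4 : 0 < ‖hh (e.symm z)‖ := norm_pos_iff.2 (hL.ne _)
      have h5 : 0 < ‖g (e.symm z)‖ := norm_pos_iff.2 hgz
      have h6 := hGGpos (e.symm z)
      have h7 : Real.log (GG p (e.symm z)) = v4 z := by
        unfold GG
        rw [Real.log_prod (fun l _ => (one_add_pos p (e.symm z) l).ne')]
        simp only [hv4, p_symm he hz]
      simp only [hu]
      rw [Real.log_mul (by positivity) h6.ne', Real.log_mul (by positivity) (by positivity),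
        Real.log_mul (by positivity) (by positivity), Real.log_pow, Real.log_pow, Real.log_pow, h7]
      simp only [hv, hv1, hv2, hv3, Function.comp_apply]
      push_cast; ring
    have h8 : v (p x0) = Real.log (u x0) := by
      rw [hlog _ hpt hG0, hsx]
    filter_upwards [h1, h2] with z hz1 hz2
    rw [h8, hlog z hz2 hz1]
    apply Real.log_le_log _ (hglob _)
    have h3 := hL.eta_pos (e.symm z)
    have h4 : 0 < ‖hh (e.symm z)‖ := norm_pos_iff.2 (hL.ne _)
    have h5 : 0 < ‖g (e.symm z)‖ := norm_pos_iff.2 hz1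
    have h6 := hGGpos (e.symm z)
    simp only [hu]; positivity
  obtain ⟨N, hN, hNw⟩ := hL.null x0 e he hxe
  have hNpos : 0 < Module.finrank ℂ N := by omega
  obtain ⟨w, hw0⟩ := (Module.finrank_pos_iff_exists_ne_zero (R := ℂ) (M := N)).1 hNpos
  have hw1 : (w : Fin d → ℂ) ≠ 0 := fun h => hw0 (Subtype.ext h)
  have hcv : ContDiffAt ℝ 2 v (p x0) :=
    (((contDiffAt_const.mul hc1).add (contDiffAt_const.mul hc2)).add
      (contDiffAt_const.mul hc3)).add hc4
  have hle := lev_nonpos_of_isLocalMax hcv hloc (w : Fin d → ℂ)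
  have hlev : lev v (p x0) w = 2 * lev v1 (p x0) w + (k : ℝ) * lev v2 (p x0) w +
      ((B + 1 : ℕ) : ℝ) * lev v3 (p x0) w + lev v4 (p x0) w := by
    rw [hv, lev_add (((contDiffAt_const.mul hc1).add (contDiffAt_const.mul hc2)).add
        (contDiffAt_const.mul hc3)) hc4,
      lev_add ((contDiffAt_const.mul hc1).add (contDiffAt_const.mul hc2))
        (contDiffAt_const.mul hc3), lev_add (contDiffAt_const.mul hc1) (contDiffAt_const.mul hc2),
      lev_const_mul hc1, lev_const_mul hc2, lev_const_mul hc3]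
  have hl1 : lev v1 (p x0) w = 0 := lev_log_norm hGan hG0 w
  have hl3 : lev v3 (p x0) w = 0 := lev_log_norm hHan hH0 w
  have hl2 : 0 ≤ lev v2 (p x0) w := hNw w w.2
  have hl4 : 0 < lev v4 (p x0) w := by
    have h1 : ∀ S : Finset (Fin d), lev (fun z : Fin d → ℂ => ∑ l ∈ S, Real.log (1 + ‖z l‖ ^ 2))
        (p x0) w = ∑ l ∈ S, ‖(w : Fin d → ℂ) l‖ ^ 2 * (4 / (1 + ‖p x0 l‖ ^ 2) ^ 2) := by
      intro S
      classical
      induction S using Finset.induction_on with
      | empty =>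
        simp only [Finset.sum_empty]
        have := lev_const_mul (u := fun _ : Fin d → ℂ => (0 : ℝ)) (z := p x0) contDiffAt_const 0
          (w : Fin d → ℂ)
        simpa using this
      | insert l S hl ih =>
        simp only [Finset.sum_insert hl]
        rw [lev_add (contDiffAt_log_coord l _) (ContDiffAt.sum fun l _ => contDiffAt_log_coord l _),
          ih, lev_log_coord]
    rw [hv4, h1]
    obtain ⟨l, hl⟩ := Function.ne_iff.1 hw1
    apply Finset.sum_pos' (fun _ _ => by positivity)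
    refine ⟨l, Finset.mem_univ l, ?_⟩
    have : 0 < ‖(w : Fin d → ℂ) l‖ := norm_pos_iff.2 hl
    positivity
  have h9 : 0 ≤ (k : ℝ) * lev v2 (p x0) w := mul_nonneg (Nat.cast_nonneg k) hl2
  rw [hlev, hl1, hl3] at hle
  linarith

/-- **level theorem**: if `ρ < d`, a holomorphic function of growth `A` (all coordinates) and
`B`, vanishing on the hyperplanes `p x i = m`, `i : Fin d`, `m < J`, is zero as soon as
`A + 2ad + b (B + 2ad + 1) + 2 ≤ J`. -/
theorem level (hL : LD p hh η τ a b ρ) (hρ : ρ < d) {k B J : ℕ} {A : ℤ} {f : E → ℂ}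
    (hf : HolP p f) (hG : Gr p hh τ k (fun _ => A) B f)
    (hJ : A + 2 * a * d + b * (B + 2 * a * d + 1) + 2 ≤ J)
    (h0 : ∀ i, ∀ m < J, ∀ x, p x i = (m : ℂ) → f x = 0) : ∀ x, f x = 0 := by
  obtain ⟨g, hg, hgf, -, hgG⟩ := exists_div_all hL hf hG h0 Finset.univ
  have h1 := zero_of_decay hL hρ hg hgG (by
    intro l
    simp only [Finset.mem_univ, if_true, Finset.card_univ, Fintype.card_fin]
    push_cast
    linarith)
  exact fun x => hgf x (h1 x)

end Crest.Agent.R276.SliE_217
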