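import Mathlib
import Crest.Agent.R276.SliE_217

/-!
# R276, leaf CNT-UP (slice lemma), part F (helper217)

Coordinate slices `{p x i = c}`: charts, holomorphy, growth, level data restrict.
-/

set_option autoImplicit false
set_option linter.unusedSectionVars false

open Set Filter Topology Metric InnerProductSpace Laplacian

namespace Crest.Agent.R276.SliF_217

open Crest.Agent.R276.SliA_217 Crest.Agent.R276.SliB_217 Crest.Agent.R276.SliC_217
  Crest.Agent.R276.SliD_217 Crest.Agent.R276.SliE_217 Crest.Agent.R276.Ahl_25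
  Crest.Agent.R276.MaxP_25

variable {d : ℕ} {E : Type*} [TopologicalSpace E]

/-- insertion of the coordinate `c` at the place `i` -/
def ins (i : Fin (d + 1)) (c : ℂ) (z : Fin d → ℂ) : Fin (d + 1) → ℂ :=
  Fin.insertNth (α := fun _ => ℂ) i c z

@[simp] theorem ins_same (i : Fin (d + 1)) (c : ℂ) (z : Fin d → ℂ) : ins i c z i = c := by
  simp [ins]

@[simp] theorem ins_succAbove (i : Fin (d + 1)) (c : ℂ) (z : Fin d → ℂ) (l : Fin d) :
    ins i c z (i.succAbove l) = z l := by
  simp [ins]

theorem ins_eq {i : Fin (d + 1)} {c : ℂ} {z : Fin d → ℂ} {y : Fin (d + 1) → ℂ} (h1 : y i = c)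
    (h2 : ∀ l, y (i.succAbove l) = z l) : ins i c z = y := by
  funext j
  rcases Fin.eq_self_or_eq_succAbove i j with h | ⟨l, h⟩
  · rw [h, ins_same, h1]
  · rw [h, ins_succAbove, h2]

theorem ins_add_smul (i : Fin (d + 1)) (c : ℂ) (z w : Fin d → ℂ) (t : ℂ) :
    ins i c (z + t • w) = ins i c z + t • ins i 0 w := by
  apply ins_eq
  · simp
  · intro l; simp

theorem continuous_ins (i : Fin (d + 1)) (c : ℂ) : Continuous (ins (d := d) i c) := by
  refine continuous_pi fun j => ?_
  rcases Fin.eq_self_or_eq_succAbove i j with h | ⟨l, h⟩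
  · subst h; simpa using continuous_const
  · subst h; simpa using continuous_apply l

theorem differentiable_ins (i : Fin (d + 1)) (c : ℂ) : Differentiable ℂ (ins (d := d) i c) := by
  intro z
  rw [differentiableAt_pi]
  intro j
  rcases Fin.eq_self_or_eq_succAbove i j with h | ⟨l, h⟩
  · subst h; simp
  · subst h; simpa using differentiableAt_apply l z

theorem contDiff_ins (i : Fin (d + 1)) (c : ℂ) {n : ℕ∞} : ContDiff ℝ n (ins (d := d) i c) := by
  rw [contDiff_pi]
  intro j
  rcases Fin.eq_self_or_eq_succAbove i j with h | ⟨l, h⟩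
  · subst h; simpa using contDiff_const
  · subst h; simpa using contDiff_apply ℝ ℂ l

/-- the coordinate slice -/
abbrev Sl (p : E → (Fin (d + 1) → ℂ)) (i : Fin (d + 1)) (c : ℂ) : Type _ := {x : E // p x i = c}

/-- the remaining coordinates on the slice -/
def pS (p : E → (Fin (d + 1) → ℂ)) (i : Fin (d + 1)) (c : ℂ) : Sl p i c → (Fin d → ℂ) :=
  fun x l => p x.1 (i.succAbove l)

variable {p : E → (Fin (d + 1) → ℂ)} {i : Fin (d + 1)} {c : ℂ}

theorem ins_pS (x : Sl p i c) : ins i c (pS p i c x) = p x.1 := ins_eq x.2 fun _ => rfl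

theorem continuous_pS (hp : Continuous p) : Continuous (pS p i c) :=
  continuous_pi fun l => (continuous_apply (i.succAbove l)).comp (hp.comp continuous_subtype_val)

open Classical in
/-- the chart of the slice induced by a chart of `E` -/
noncomputable def chS (hp : Continuous p) (e : OpenPartialHomeomorph E (Fin (d + 1) → ℂ))
    (he : (⇑e : E → (Fin (d + 1) → ℂ)) = p) (x0 : Sl p i c) :
    OpenPartialHomeomorph (Sl p i c) (Fin d → ℂ) where
  toFun := pS p i c
  invFun z := if h : p (e.symm (ins i c z)) i = c then ⟨e.symm (ins i c z), h⟩ else x0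
  source := {x | x.1 ∈ e.source}
  target := {z | ins i c z ∈ e.target}
  map_source' := by
    intro x hx
    simp only [mem_ofPred_eq, ins_pS]
    exact p_mem he hx
  map_target' := by
    intro z hz
    have h : p (e.symm (ins i c z)) i = c := by rw [p_symm he hz]; simp
    simp only [mem_ofPred_eq, dif_pos h]
    exact e.map_target hz
  left_inv' := by
    intro x hx
    have h1 : e.symm (ins i c (pS p i c x)) = x.1 := by rw [ins_pS]; exact symm_p he hx
    have h : p (e.symm (ins i c (pS p i c x))) i = c := by rw [h1]; exact x.2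
    rw [dif_pos h]
    exact Subtype.ext h1
  right_inv' := by
    intro z hz
    have h : p (e.symm (ins i c z)) i = c := by rw [p_symm he hz]; simp
    rw [dif_pos h]
    funext l
    simp only [pS]
    rw [p_symm he hz]; simp
  open_source := e.open_source.preimage continuous_subtype_val
  open_target := e.open_target.preimage (continuous_ins i c)
  continuousOn_toFun := (continuous_pS hp).continuousOn
  continuousOn_invFun := by
    rw [IsEmbedding.subtypeVal.continuousOn_iff]
    have h1 : ContinuousOn (fun z => e.symm (ins i c z)) {z | ins i c z ∈ e.target} :=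
      e.continuousOn_symm.comp (continuous_ins i c).continuousOn fun z hz => hz
    refine h1.congr fun z hz => ?_
    have h : p (e.symm (ins i c z)) i = c := by rw [p_symm he hz]; simp
    simp only [Function.comp_apply, dif_pos h]

theorem chS_coe (hp : Continuous p) (e : OpenPartialHomeomorph E (Fin (d + 1) → ℂ))
    (he : (⇑e : E → (Fin (d + 1) → ℂ)) = p) (x0 : Sl p i c) :
    (⇑(chS hp e he x0) : Sl p i c → (Fin d → ℂ)) = pS p i c := rfl

theorem chS_symm (hp : Continuous p) (e : OpenPartialHomeomorph E (Fin (d + 1) → ℂ))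
    (he : (⇑e : E → (Fin (d + 1) → ℂ)) = p) (x0 : Sl p i c) {z : Fin d → ℂ}
    (hz : ins i c z ∈ e.target) : ((chS hp e he x0).symm z).1 = e.symm (ins i c z) := by
  have h : p (e.symm (ins i c z)) i = c := by rw [p_symm he hz]; simp
  change (dite (p (e.symm (ins i c z)) i = c) _ _ : Sl p i c).1 = _
  rw [dif_pos h]

theorem isLocalHomeomorph_pS (hp : IsLocalHomeomorph p) : IsLocalHomeomorph (pS p i c) := by
  intro x
  obtain ⟨e, hx, he⟩ := exists_ch hp x.1
  exact ⟨chS hp.continuous e he x, hx, rfl⟩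

/-- any chart of the slice is given by the charts of `E` -/
theorem symm_germ (hp : IsLocalHomeomorph p) {e : OpenPartialHomeomorph E (Fin (d + 1) → ℂ)}
    (he : (⇑e : E → (Fin (d + 1) → ℂ)) = p) {e' : OpenPartialHomeomorph (Sl p i c) (Fin d → ℂ)}
    (he' : (⇑e' : Sl p i c → (Fin d → ℂ)) = pS p i c) {x : Sl p i c} (hx : x.1 ∈ e.source)
    (hx' : x ∈ e'.source) :
    ∀ᶠ z in 𝓝 (pS p i c x), (e'.symm z).1 = e.symm (ins i c z) := by
  have h1 := germ he' (chS_coe hp.continuous e he x) hx' (show x ∈ (chS hp.continuous e he x).source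
    from hx)
  have h2 : ∀ᶠ z in 𝓝 (pS p i c x), ins i c z ∈ e.target := by
    apply (continuous_ins i c).continuousAt.eventually_mem
    rw [ins_pS]
    exact e.open_target.mem_nhds (p_mem he hx)
  filter_upwards [h1, h2] with z hz1 hz2
  rw [hz1, chS_symm hp.continuous e he x hz2]

theorem HolP.slice (hp : IsLocalHomeomorph p) {f : E → ℂ} (hf : HolP p f) :
    HolP (pS p i c) (fun x : Sl p i c => f x.1) := by
  apply HolP.of_local
  intro x
  obtain ⟨e, hx, he⟩ := exists_ch hp x.1
  refine ⟨chS hp.continuous e he x, hx, rfl, ?_⟩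
  have h1 : DifferentiableAt ℂ (f ∘ e.symm) (ins i c (pS p i c x)) := by
    rw [ins_pS]; exact hf.diffAt he (p_mem he hx)
  have h2 := h1.comp (pS p i c x) (differentiable_ins i c (pS p i c x))
  refine h2.congr_of_eventuallyEq ?_
  have h3 : ∀ᶠ z in 𝓝 (pS p i c x), ins i c z ∈ e.target := by
    apply (continuous_ins i c).continuousAt.eventually_mem
    rw [ins_pS]
    exact e.open_target.mem_nhds (p_mem he hx)
  filter_upwards [h3] with z hz
  simp only [Function.comp_apply]
  rw [chS_symm hp.continuous e he x hz]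

theorem GG_slice (x : Sl p i c) : GG p x.1 = (1 + ‖c‖ ^ 2) * GG (pS p i c) x := by
  unfold GG
  rw [Fin.prod_univ_succAbove _ i, x.2]
  rfl

theorem PP_slice (A : ℤ) (x : Sl p i c) :
    PP p (fun _ => A) x.1 = (1 + ‖c‖ ^ 2) ^ A * PP (pS p i c) (fun _ => A) x := by
  unfold PP
  rw [Fin.prod_univ_succAbove _ i, x.2]
  rfl

theorem Gr.slice {hh : E → ℂ} {τ : E → ℝ} {k : ℕ} {A : ℤ} {B : ℕ} {f : E → ℂ}
    (hf : Gr p hh τ k (fun _ => A) B f) :
    Gr (pS p i c) (fun x : Sl p i c => hh x.1) (fun x => τ x.1) k (fun _ => A) B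
      (fun x => f x.1) := by
  obtain ⟨C, hC⟩ := hf
  refine ⟨C * (1 + ‖c‖ ^ 2) ^ A, fun x => ?_⟩
  have := hC x.1
  rw [PP_slice A x, ← mul_assoc] at this
  exact this

open Classical in
/-- the section of a disc in the slice -/
theorem Disc.slice {hh : E → ℂ} {τ : E → ℝ} {K : ℝ} {x : Sl p i c} {l : Fin d} {r : ℝ}
    {s : ℂ → E} {ℓ : ℂ → ℂ} (hD : Disc p hh τ K x.1 (i.succAbove l) r s ℓ) :
    Disc (pS p i c) (fun x : Sl p i c => hh x.1) (fun x => τ x.1) K x l r
      (fun ζ => if h : p (s ζ) i = c then ⟨s ζ, h⟩ else x) ℓ := by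
  have hin : ∀ ζ ∈ closedBall (0 : ℂ) r, p (s ζ) i = c := by
    intro ζ hζ
    rw [hD.ps ζ hζ]
    simp [x.2]
  have hval : ∀ ζ ∈ closedBall (0 : ℂ) r,
      ((if h : p (s ζ) i = c then ⟨s ζ, h⟩ else x : Sl p i c)).1 = s ζ := by
    intro ζ hζ
    rw [dif_pos (hin ζ hζ)]
  have h0 : (0 : ℂ) ∈ closedBall (0 : ℂ) r := mem_closedBall_self hD.r0.le
  refine ⟨hD.r0, hD.r1, ?_, ?_, ?_, ?_, hD.ld, hD.l0, ?_⟩
  · rw [IsEmbedding.subtypeVal.continuousOn_iff]
    refine hD.cont.congr fun ζ hζ => ?_
    simp only [Function.comp_apply, hval ζ hζ]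
  · apply Subtype.ext
    rw [hval 0 h0, hD.s0]
  · intro ζ hζ
    funext j
    simp only [pS]
    rw [hval ζ hζ, hD.ps ζ hζ]
    simp only [Pi.add_apply, Pi.smul_apply, smul_eq_mul]
    congr 2
    by_cases hj : j = l
    · subst hj; simp
    · rw [Pi.single_eq_of_ne hj, Pi.single_eq_of_ne]
      exact fun h => hj (Fin.succAbove_right_injective h)
  · intro ζ hζ
    have := hD.Hs ζ hζ
    unfold Hm at this ⊢
    simp only [hval ζ hζ]
    exact this
  · intro ζ hζ
    have := hD.ls ζ hζ
    simp only [hval ζ hζ]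
    exact this

/-- the linear part of `ins` -/
def insL (i : Fin (d + 1)) : (Fin d → ℂ) →ₗ[ℂ] (Fin (d + 1) → ℂ) where
  toFun := ins i 0
  map_add' x y := by
    apply ins_eq
    · simp
    · intro l; simp
  map_smul' t x := by
    apply ins_eq
    · simp
    · intro l; simp

theorem insL_inj (i : Fin (d + 1)) : Function.Injective (insL (d := d) i) := by
  intro x y h
  funext l
  have := congrFun h (i.succAbove l)
  simpa [insL] using this

theorem finrank_comap_insL (i : Fin (d + 1)) (N : Submodule ℂ (Fin (d + 1) → ℂ)) :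
    Module.finrank ℂ N ≤ Module.finrank ℂ (N.comap (insL i)) + 1 := by
  have h1 : Module.finrank ℂ (N.comap (insL i)) =
      Module.finrank ℂ (LinearMap.range (insL (d := d) i) ⊓ N : Submodule ℂ _) := by
    rw [← Submodule.map_comap_eq]
    exact (Submodule.equivMapOfInjective (insL i) (insL_inj i) _).finrank_eq
  have h2 := Submodule.finrank_sup_add_finrank_inf_eq (LinearMap.range (insL (d := d) i)) N
  have h3 : Module.finrank ℂ (LinearMap.range (insL (d := d) i)) = d := by
    rw [LinearMap.finrank_range_of_inj (insL_inj i)]; simp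
  have h4 : Module.finrank ℂ (LinearMap.range (insL (d := d) i) ⊔ N : Submodule ℂ _) ≤ d + 1 := by
    have := Submodule.finrank_le (LinearMap.range (insL (d := d) i) ⊔ N)
    simpa using this
  omega

theorem cpt_slice (hp : Continuous p) {hh : E → ℂ}
    (hc : ∀ R δ : ℝ, 0 < δ → IsCompact {x | (∀ i, ‖p x i‖ ≤ R) ∧ δ ≤ ‖hh x‖}) (R δ : ℝ)
    (hδ : 0 < δ) : IsCompact {x : Sl p i c | (∀ l, ‖pS p i c x l‖ ≤ R) ∧ δ ≤ ‖hh x.1‖} := by
  have hcl : IsClosed {x : E | p x i = c} :=
    isClosed_eq ((continuous_apply i).comp hp) continuous_const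
  have h1 : IsClosedEmbedding (Subtype.val : Sl p i c → E) := hcl.isClosedEmbedding_subtypeVal
  rcases le_or_gt ‖c‖ R with hR | hR
  · have h2 := h1.isCompact_preimage (hc R δ hδ)
    convert h2 using 1
    ext x
    simp only [mem_ofPred_eq, mem_preimage]
    constructor
    · rintro ⟨h3, h4⟩
      refine ⟨fun j => ?_, h4⟩
      rcases Fin.eq_self_or_eq_succAbove i j with h | ⟨l, h⟩
      · rw [h, x.2]; exact hR
      · rw [h]; exact h3 l
    · rintro ⟨h3, h4⟩
      exact ⟨fun l => h3 _, h4⟩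
  · have h2 := h1.isCompact_preimage (hc ‖c‖ δ hδ)
    have hclo : IsClosed {x : Sl p i c | ∀ l, ‖pS p i c x l‖ ≤ R} := by
      rw [ofPred_forall]
      refine isClosed_iInter fun l => isClosed_le ?_ continuous_const
      exact ((continuous_apply l).comp (continuous_pS hp)).norm
    have h3 := h2.inter_left hclo
    convert h3 using 1
    ext x
    simp only [mem_ofPred_eq, mem_preimage, mem_inter_iff]
    constructor
    · rintro ⟨h4, h5⟩
      refine ⟨h4, fun j => ?_, h5⟩
      rcases Fin.eq_self_or_eq_succAbove i j with h | ⟨l, h⟩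
      · rw [h, x.2]
      · rw [h]; exact (h4 l).trans hR.le
    · rintro ⟨h4, -, h5⟩
      exact ⟨h4, h5⟩

/-- level data restrict to coordinate slices -/
theorem LD.slice {hh : E → ℂ} {η τ : E → ℝ} {a b ρ : ℕ} (hL : LD p hh η τ a b ρ)
    (i : Fin (d + 1)) (c : ℂ) :
    LD (pS p i c) (fun x : Sl p i c => hh x.1) (fun x => η x.1) (fun x => τ x.1) a b ρ := by
  have hc1 : (0 : ℝ) < 1 + ‖c‖ ^ 2 := by positivity
  have hgerm : ∀ (x : Sl p i c) (e' : OpenPartialHomeomorph (Sl p i c) (Fin d → ℂ)),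
      (⇑e' : Sl p i c → (Fin d → ℂ)) = pS p i c → x ∈ e'.source →
      ∃ e : OpenPartialHomeomorph E (Fin (d + 1) → ℂ), x.1 ∈ e.source ∧
        (⇑e : E → (Fin (d + 1) → ℂ)) = p ∧
        ∀ᶠ z in 𝓝 (pS p i c x), (e'.symm z).1 = e.symm (ins i c z) := by
    intro x e' he' hx'
    obtain ⟨e, hx, he⟩ := exists_ch hL.lh x.1
    exact ⟨e, hx, he, symm_germ hL.lh he he' hx hx'⟩
  refine
    { lh := isLocalHomeomorph_pS hL.lh
      hol := HolP.slice hL.lh hL.hol
      ne := fun x => hL.ne x.1
      hgr := ?_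
      cpt := fun R δ hδ => cpt_slice hL.lh.continuous hL.cpt R δ hδ
      disc := ?_
      eta_pos := fun x => hL.eta_pos x.1
      eta_le := ?_
      eta_C2 := ?_
      null := ?_ }
  · obtain ⟨C, hC⟩ := hL.hgr
    refine ⟨C * (1 + ‖c‖ ^ 2) ^ b, fun x => ?_⟩
    have := hC x.1
    rw [GG_slice x, mul_pow, ← mul_assoc] at this
    exact this
  · obtain ⟨c0, K, hc0, hK, hd⟩ := hL.disc
    refine ⟨c0 / (1 + ‖c‖ ^ 2) ^ a, K, by positivity, hK, fun x l => ?_⟩
    obtain ⟨r, s, ℓ, hD, hr⟩ := hd x.1 (i.succAbove l)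
    refine ⟨r, _, ℓ, Disc.slice hD, ?_⟩
    rw [GG_slice x, mul_pow] at hr
    have h1 : c0 / (1 + ‖c‖ ^ 2) ^ a * Hm (fun x : Sl p i c => hh x.1) x ^ a =
        c0 * Hm hh x.1 ^ a / (1 + ‖c‖ ^ 2) ^ a := by
      unfold Hm; ring
    rw [h1, div_le_iff₀ (by positivity)]
    calc c0 * Hm hh x.1 ^ a ≤ r * ((1 + ‖c‖ ^ 2) ^ a * GG (pS p i c) x ^ a) := hr
      _ = _ := by ring
  · obtain ⟨C, hC⟩ := hL.eta_le
    exact ⟨C, fun x => hC x.1⟩
  · intro x e' he' hx'
    obtain ⟨e, hx, he, hg⟩ := hgerm x e' he' hx'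
    have h1 : ContDiffAt ℝ 2 (η ∘ e.symm) (ins i c (pS p i c x)) := by
      rw [ins_pS]; exact hL.eta_C2 x.1 e he hx
    have h2 := h1.comp (pS p i c x) (contDiff_ins (n := 2) i c).contDiffAt
    refine h2.congr_of_eventuallyEq ?_
    filter_upwards [hg] with z hz
    simp only [Function.comp_apply, hz]
  · intro x e' he' hx'
    obtain ⟨e, hx, he, hg⟩ := hgerm x e' he' hx'
    obtain ⟨N, hN, hNw⟩ := hL.null x.1 e he hx
    refine ⟨N.comap (insL i), ?_, ?_⟩
    · have := finrank_comap_insL i N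
      omega
    · intro w hw
      have h1 := hNw (insL i w) hw
      have hsx : e.symm (p x.1) = x.1 := symm_p he hx
      have hc2 : ContDiffAt ℝ 2 (fun z => Real.log (η (e.symm z))) (p x.1) := by
        refine ContDiffAt.log (hL.eta_C2 x.1 e he hx) ?_
        simpa [hsx] using (hL.eta_pos x.1).ne'
      have hgg : (fun z => Real.log (η (e'.symm z).1)) =ᶠ[𝓝 (pS p i c x)]
          fun z => Real.log (η (e.symm (ins i c z))) := by
        filter_upwards [hg] with z hz
        rw [hz]
      have hc3 : ContDiffAt ℝ 2 (fun z => Real.log (η (e'.symm z).1)) (pS p i c x) := by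
        have h2 : ContDiffAt ℝ 2 (fun z => Real.log (η (e.symm z))) (ins i c (pS p i c x)) := by
          rw [ins_pS]; exact hc2
        exact (h2.comp (pS p i c x) (contDiff_ins (n := 2) i c).contDiffAt).congr_of_eventuallyEq hgg
      have h3 := lap_cline (u := fun z => Real.log (η (e'.symm z).1)) (z := pS p i c x) (v := w)
        (t := 0) (by simpa using hc3)
      have h4 := lap_cline (u := fun z => Real.log (η (e.symm z))) (z := p x.1) (v := insL i w)
        (t := 0) (by simpa using hc2)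
      simp only [zero_smul, add_zero] at h3 h4
      rw [← h3]
      rw [← h4] at h1
      have h5 : (fun t : ℂ => Real.log (η (e'.symm (pS p i c x + t • w)).1)) =ᶠ[𝓝 0]
          fun t : ℂ => Real.log (η (e.symm (p x.1 + t • insL i w))) := by
        have h6 : ContinuousAt (fun t : ℂ => pS p i c x + t • w) 0 := by fun_prop
        have h7 : Tendsto (fun t : ℂ => pS p i c x + t • w) (𝓝 0) (𝓝 (pS p i c x)) := by
          simpa using h6.tendsto
        filter_upwards [h7.eventually hg] with t ht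
        rw [ht, ins_add_smul, ins_pS]
        rfl
      rw [(laplacian_congr_nhds h5).self_of_nhds]
      exact h1

end Crest.Agent.R276.SliF_217
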