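import Mathlib
import Crest.Agent.R276.SliF_217

/-!
# R276, leaf CNT-UP (slice lemma), part G (helper217)

Dimension count: a space of holomorphic functions of growth `A, B` has dimension at most
`(d J)^(d - ρ) D` if its restrictions to the `ρ`-dimensional coordinate slices have dimension at
most `D`.
-/

set_option autoImplicit false
set_option linter.unusedSectionVars false

open Set Filter Topology Metric Module

namespace Crest.Agent.R276.SliG_217

open Crest.Agent.R276.SliA_217 Crest.Agent.R276.SliC_217 Crest.Agent.R276.SliE_217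
  Crest.Agent.R276.SliF_217

/-- `V` is finite dimensional of dimension at most `n` -/
def Bd {X : Type*} [AddCommGroup X] [Module ℂ X] (V : Submodule ℂ X) (n : ℕ) : Prop :=
  FiniteDimensional ℂ V ∧ finrank ℂ V ≤ n

section Bd

variable {X Y : Type*} [AddCommGroup X] [Module ℂ X] [AddCommGroup Y] [Module ℂ Y]

theorem Bd.map {V : Submodule ℂ X} {n : ℕ} (h : Bd V n) (T : X →ₗ[ℂ] Y) : Bd (V.map T) n := by
  have := h.1
  exact ⟨inferInstance, (Submodule.finrank_map_le T V).trans h.2⟩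

theorem Bd.mono {V W : Submodule ℂ X} {n : ℕ} (h : Bd W n) (hVW : V ≤ W) : Bd V n := by
  have := h.1
  exact ⟨Submodule.finiteDimensional_of_le hVW, (Submodule.finrank_mono hVW).trans h.2⟩

theorem Bd.le {V : Submodule ℂ X} {n m : ℕ} (h : Bd V n) (hnm : n ≤ m) : Bd V m :=
  ⟨h.1, h.2.trans hnm⟩

theorem Bd.span_range {ι : Type*} [Fintype ι] (g : ι → X) :
    Bd (Submodule.span ℂ (Set.range g)) (Fintype.card ι) :=
  ⟨FiniteDimensional.span_of_finite ℂ (Set.finite_range g), finrank_range_le_card g⟩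

theorem Bd.of_map_injective {V : Submodule ℂ X} {n : ℕ} {T : X →ₗ[ℂ] Y} (h : Bd (V.map T) n)
    (hT : ∀ f ∈ V, T f = 0 → f = 0) : Bd V n := by
  have := h.1
  have hinj : Function.Injective (T.submoduleMap V) := by
    rw [injective_iff_map_eq_zero]
    intro f hf
    have h1 : T f.1 = 0 := congrArg Subtype.val hf
    exact Subtype.ext (hT f.1 f.2 h1)
  exact ⟨FiniteDimensional.of_injective _ hinj,
    (LinearMap.finrank_le_finrank_of_injective hinj).trans h.2⟩

theorem Bd.of_pi {ι : Type*} [Fintype ι] {Z : ι → Type*} [∀ j, AddCommGroup (Z j)]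
    [∀ j, Module ℂ (Z j)] {V : Submodule ℂ X} {n : ℕ} (T : ∀ j, X →ₗ[ℂ] Z j)
    (h : ∀ j, Bd (V.map (T j)) n) (hT : ∀ f ∈ V, (∀ j, T j f = 0) → f = 0) :
    Bd V (Fintype.card ι * n) := by
  have hfd : ∀ j, FiniteDimensional ℂ (V.map (T j)) := fun j => (h j).1
  set Φ : V →ₗ[ℂ] (∀ j, V.map (T j)) := LinearMap.pi fun j => (T j).submoduleMap V with hΦ
  have hinj : Function.Injective Φ := by
    rw [injective_iff_map_eq_zero]
    intro f hf
    refine Subtype.ext (hT f.1 f.2 fun j => ?_)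
    have h1 := congrFun hf j
    exact congrArg Subtype.val h1
  refine ⟨FiniteDimensional.of_injective _ hinj, ?_⟩
  calc finrank ℂ V ≤ finrank ℂ (∀ j, V.map (T j)) := LinearMap.finrank_le_finrank_of_injective hinj
    _ = ∑ j, finrank ℂ (V.map (T j)) := finrank_pi_fintype ℂ
    _ ≤ ∑ _j : ι, n := Finset.sum_le_sum fun j _ => (h j).2
    _ = Fintype.card ι * n := by simp

end Bd

/-- the coordinate slice `{x | ∀ i ∈ I, p x i = m i}` -/
def SS {d : ℕ} {E : Type*} (p : E → (Fin d → ℂ)) (I : Finset (Fin d)) (m : Fin d → ℕ) : Set E :=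
  {x | ∀ i ∈ I, p x i = (m i : ℂ)}

/-- restriction of functions to a set -/
noncomputable def res {E : Type*} (S : Set E) : (E → ℂ) →ₗ[ℂ] (S → ℂ) :=
  LinearMap.funLeft ℂ ℂ (Subtype.val : S → E)

/-- restriction of functions to the slice -/
noncomputable def resS {d : ℕ} {E : Type*} (p : E → (Fin (d + 1) → ℂ)) (i : Fin (d + 1)) (c : ℂ) :
    (E → ℂ) →ₗ[ℂ] (Sl p i c → ℂ) :=
  LinearMap.funLeft ℂ ℂ (Subtype.val : Sl p i c → E)

/-- restrictions to slices of slices -/
theorem bd_slice {d : ℕ} {E : Type*} {p : E → (Fin (d + 1) → ℂ)} {i : Fin (d + 1)}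
    {c : ℕ} {V : Submodule ℂ (E → ℂ)} {D : ℕ} {I' : Finset (Fin d)} {m' : Fin d → ℕ}
    {I : Finset (Fin (d + 1))} {m : Fin (d + 1) → ℕ} (hI : ∀ j ∈ I, j = i ∨ ∃ l ∈ I', j = i.succAbove l)
    (hmi : m i = c) (hm : ∀ l, m (i.succAbove l) = m' l) (h : Bd (V.map (res (SS p I m))) D) :
    Bd ((V.map (resS p i c)).map (res (SS (pS p i c) I' m'))) D := by
  have hσ : ∀ x : SS (pS p i (c : ℂ)) I' m', x.1.1 ∈ SS p I m := by
    intro x j hj
    rcases hI j hj with h1 | ⟨l, hl, h1⟩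
    · rw [h1, hmi]; exact x.1.2
    · rw [h1, hm]; exact x.2 l hl
  have h2 := h.map (LinearMap.funLeft ℂ ℂ
    (fun x : SS (pS p i (c : ℂ)) I' m' => (⟨x.1.1, hσ x⟩ : SS p I m)))
  rw [← Submodule.map_comp] at h2 ⊢
  exact h2

/-- **counting theorem (upper bound)** -/
theorem up (n : ℕ) : ∀ {d : ℕ} {E : Type*} [TopologicalSpace E] {p : E → (Fin d → ℂ)} {hh : E → ℂ}
    {η τ : E → ℝ} {a b ρ : ℕ}, LD p hh η τ a b ρ → d = ρ + n → ∀ {k B J D : ℕ} {A : ℤ},
    A + 2 * a * d + b * (B + 2 * a * d + 1) + 2 ≤ J → ∀ V : Submodule ℂ (E → ℂ),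
    (∀ f ∈ V, HolP p f ∧ Gr p hh τ k (fun _ => A) B f) →
    (∀ I : Finset (Fin d), I.card = n → ∀ m : Fin d → ℕ, (∀ i ∈ I, m i < J) →
      Bd (V.map (res (SS p I m))) D) → Bd V ((d * J) ^ n * D) := by
  induction n with
  | zero =>
    intro d E _ p hh η τ a b ρ hL hd k B J D A hJ V hV hD
    have h1 := hD ∅ rfl (fun _ => 0) (by simp)
    have h2 : Bd V D := by
      apply h1.of_map_injective
      intro f _ hf
      funext x
      have : x ∈ SS p ∅ (fun _ => 0) := by intro i hi; simp at hi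
      exact congrFun hf ⟨x, this⟩
    exact h2.le (by simp)
  | succ n ih =>
    intro d E _ p hh η τ a b ρ hL hd k B J D A hJ V hV hD
    obtain ⟨d', rfl⟩ : ∃ d', d = d' + 1 := ⟨ρ + n, by omega⟩
    have hd' : d' = ρ + n := by omega
    have hJ' : A + 2 * a * d' + b * (B + 2 * a * d' + 1) + 2 ≤ (J : ℤ) := by
      refine le_trans ?_ hJ
      push_cast
      have h1 : (0 : ℤ) ≤ (a : ℤ) := Int.natCast_nonneg a
      have h2 : (0 : ℤ) ≤ (b : ℤ) := Int.natCast_nonneg b
      have h3 : (0 : ℤ) ≤ (b : ℤ) * a := mul_nonneg h2 h1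
      nlinarith
    have key : ∀ j : Fin (d' + 1) × Fin J,
        Bd (V.map (resS p j.1 ((j.2 : ℕ) : ℂ))) ((d' * J) ^ n * D) := by
      rintro ⟨i, c⟩
      refine ih (LD.slice hL i ((c : ℕ) : ℂ)) hd' (k := k) (B := B) (A := A) hJ' _ ?_ ?_
      · intro g hg
        obtain ⟨f, hf, rfl⟩ := Submodule.mem_map.1 hg
        exact ⟨HolP.slice hL.lh (hV f hf).1, Gr.slice (hV f hf).2⟩
      · intro I' hI' m' hm'
        refine bd_slice (I := insert i (I'.map i.succAboveEmb)) (m := Fin.insertNth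
          (α := fun _ => ℕ) i (c : ℕ) m') ?_ (by simp) (by simp) (hD _ ?_ _ ?_)
        · intro j hj
          rw [Finset.mem_insert, Finset.mem_map] at hj
          rcases hj with h | ⟨l, hl, h⟩
          · exact Or.inl h
          · exact Or.inr ⟨l, hl, h.symm⟩
        · rw [Finset.card_insert_of_notMem, Finset.card_map, hI']
          rw [Finset.mem_map]
          rintro ⟨l, -, h⟩
          exact Fin.succAbove_ne i l h
        · intro j hj
          rw [Finset.mem_insert, Finset.mem_map] at hj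
          rcases hj with h | ⟨l, hl, h⟩
          · rw [h]; simp
          · rw [← h]; simpa using hm' l hl
    have h1 := Bd.of_pi (V := V) (fun j : Fin (d' + 1) × Fin J => resS p j.1 ((j.2 : ℕ) : ℂ)) key (by
      intro f hf h0
      have h2 := level hL (by omega) (hV f hf).1 (hV f hf).2 hJ (by
        intro i m hm x hx
        exact congrFun (h0 (i, ⟨m, hm⟩)) ⟨x, hx⟩)
      exact funext h2)
    refine h1.le ?_
    rw [Fintype.card_prod, Fintype.card_fin, Fintype.card_fin, pow_succ, ← mul_assoc]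
    have h3 : (d' * J) ^ n ≤ ((d' + 1) * J) ^ n := Nat.pow_le_pow_left
      (Nat.mul_le_mul_right J (Nat.le_succ d')) n
    calc (d' + 1) * J * (d' * J) ^ n * D ≤ (d' + 1) * J * ((d' + 1) * J) ^ n * D := by gcongr
      _ = ((d' + 1) * J) ^ n * ((d' + 1) * J) * D := by ring

section alg

open MvPolynomial

/-- restrictions to coordinate slices of functions `u * ∑ θ_j P_j(p)`, `P_j` of degree `≤ D'` in
each variable -/
theorem algdim {d : ℕ} {E : Type*} {p : E → (Fin d → ℂ)} {q D' : ℕ} {u : E → ℂ}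
    {θ : Fin q → E → ℂ} {V : Submodule ℂ (E → ℂ)}
    (h : ∀ f ∈ V, ∃ P : Fin q → MvPolynomial (Fin d) ℂ,
      (∀ j, P j ∈ restrictDegree (Fin d) ℂ D') ∧ ∀ x, f x = u x * ∑ j, θ j x * eval (p x) (P j))
    (I : Finset (Fin d)) (m : Fin d → ℕ) :
    Bd (V.map (res (SS p I m))) (q * (D' + 1) ^ (d - I.card)) := by
  classical
  set g : Fin q × ({l // l ∉ I} → Fin (D' + 1)) → (SS p I m → ℂ) := fun jb x =>
    u x.1 * (θ jb.1 x.1 * ∏ l : {l // l ∉ I}, p x.1 l.1 ^ (jb.2 l : ℕ)) with hg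
  have hcard : Fintype.card (Fin q × ({l // l ∉ I} → Fin (D' + 1))) =
      q * (D' + 1) ^ (d - I.card) := by
    rw [Fintype.card_prod, Fintype.card_fun, Fintype.card_fin, Fintype.card_fin]
    congr 2
    simp [Fintype.card_subtype_compl]
  have h1 := Bd.span_range g
  rw [hcard] at h1
  refine h1.mono ?_
  intro f' hf'
  obtain ⟨f, hf, rfl⟩ := Submodule.mem_map.1 hf'
  obtain ⟨P, hP, hfP⟩ := h f hf
  have h2 : res (SS p I m) f = ∑ j : Fin q, ∑ α ∈ (P j).support,
      (coeff α (P j) * ∏ l ∈ I, (m l : ℂ) ^ α l) •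
        g (j, fun l => ⟨min (α l.1) D', by omega⟩) := by
    funext x
    simp only [res, LinearMap.funLeft_apply, Finset.sum_apply, Pi.smul_apply, smul_eq_mul, hg]
    rw [hfP, Finset.mul_sum]
    refine Finset.sum_congr rfl fun j _ => ?_
    rw [eval_eq', Finset.mul_sum, Finset.mul_sum]
    refine Finset.sum_congr rfl fun α hα => ?_
    have h3 : ∀ l, min (α l) D' = α l := by
      intro l
      have := (mem_restrictDegree (σ := Fin d) (R := ℂ) (P j) D').1 (hP j) α hα l
      omega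
    simp only [h3]
    have h4 : ∏ l, p x.1 l ^ α l =
        (∏ l ∈ I, (m l : ℂ) ^ α l) * ∏ l : {l // l ∉ I}, p x.1 l.1 ^ α l.1 := by
      rw [← Finset.prod_mul_prod_compl I]
      congr 1
      · exact Finset.prod_congr rfl fun l hl => by rw [x.2 l hl]
      · rw [← Finset.prod_subtype (Finset.univ.filter fun l => l ∉ I) (by simp)
          (fun l => p x.1 l ^ α l)]
        apply Finset.prod_congr _ fun _ _ => rfl
        ext l; simp
    rw [h4]; ring
  rw [h2]
  refine Submodule.sum_mem _ fun j _ => Submodule.sum_mem _ fun α _ => Submodule.smul_mem _ _ ?_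
  exact Submodule.subset_span (mem_range_self _)

/-- **the upper bound of COUNT**: `dim V ≤ (d J)^(d-ρ) q (D'+1)^ρ` -/
theorem count_up {d : ℕ} {E : Type*} [TopologicalSpace E] {p : E → (Fin d → ℂ)} {hh : E → ℂ}
    {η τ : E → ℝ} {a b ρ : ℕ} (hL : LD p hh η τ a b ρ) (hρ : ρ ≤ d) {k B J q D' : ℕ} {A : ℤ}
    (hJ : A + 2 * a * d + b * (B + 2 * a * d + 1) + 2 ≤ J) {u : E → ℂ} {θ : Fin q → E → ℂ}
    {V : Submodule ℂ (E → ℂ)} (hV : ∀ f ∈ V, HolP p f ∧ Gr p hh τ k (fun _ => A) B f)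
    (hP : ∀ f ∈ V, ∃ P : Fin q → MvPolynomial (Fin d) ℂ,
      (∀ j, P j ∈ restrictDegree (Fin d) ℂ D') ∧
        ∀ x, f x = u x * ∑ j, θ j x * eval (p x) (P j)) :
    Bd V ((d * J) ^ (d - ρ) * (q * (D' + 1) ^ ρ)) := by
  refine up (d - ρ) hL (by omega) hJ V hV ?_
  intro I hI m _
  have h1 := algdim hP I m
  rw [hI, show d - (d - ρ) = ρ by omega] at h1
  exact h1

end alg

end Crest.Agent.R276.SliG_217
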