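import Mathlib
import Crest.Agent.R276.SliG_217
import Crest.Agent.R276.CntDefs_857
import Crest.Agent.R271.W_792

/-!
# R276, leaf CNT-UP (slice lemma), part H (helper217)

From the interface `CntDefs_857` (`DChart`, `Full`) to the level data `LD` of the slice lemma, and
the upper bound of the space of leading coefficients.
-/

set_option autoImplicit false
set_option linter.unusedSectionVars false

open Set Filter Topology Metric Module MeasureTheory

namespace Crest.Agent.R276.SliH_217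

open Crest.Agent.R271.Ho51 Crest.Agent.R276.CntDefs_857
open Crest.Agent.R276.SliA_217 Crest.Agent.R276.SliC_217 Crest.Agent.R276.SliG_217

/-- growth and local Lipschitz bound of polynomials -/
theorem poly_bd {d : ℕ} (h : MvPolynomial (Fin d) ℂ) : ∃ (C : ℝ) (N : ℕ), 1 ≤ C ∧
    ∀ z w : Fin d → ℂ, ‖w‖ ≤ 1 → ‖MvPolynomial.eval z h‖ ≤ C * (1 + ‖z‖) ^ N ∧
      ‖MvPolynomial.eval (z + w) h - MvPolynomial.eval z h‖ ≤ C * (1 + ‖z‖) ^ N * ‖w‖ := by
  suffices H : ∃ (C : ℝ) (N : ℕ), 0 ≤ C ∧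
      ∀ z w : Fin d → ℂ, ‖w‖ ≤ 1 → ‖MvPolynomial.eval z h‖ ≤ C * (1 + ‖z‖) ^ N ∧
      ‖MvPolynomial.eval (z + w) h - MvPolynomial.eval z h‖ ≤ C * (1 + ‖z‖) ^ N * ‖w‖ by
    obtain ⟨C, N, hC, H⟩ := H
    refine ⟨C + 1, N, by linarith, fun z w hw => ?_⟩
    obtain ⟨h1, h2⟩ := H z w hw
    have h3 : C * (1 + ‖z‖) ^ N ≤ (C + 1) * (1 + ‖z‖) ^ N := by gcongr; linarith
    exact ⟨h1.trans h3, h2.trans (by gcongr)⟩
  induction h using MvPolynomial.induction_on with
  | C a =>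
    refine ⟨‖a‖, 0, norm_nonneg _, fun z w _ => ⟨by simp, ?_⟩⟩
    simp only [MvPolynomial.eval_C, sub_self, norm_zero]
    positivity
  | add p q hp hq =>
    obtain ⟨C1, N1, hC1, h1⟩ := hp
    obtain ⟨C2, N2, hC2, h2⟩ := hq
    refine ⟨C1 + C2, N1 + N2, by positivity, fun z w hw => ?_⟩
    have hz : 1 ≤ 1 + ‖z‖ := by linarith [norm_nonneg z]
    have e1 : (1 + ‖z‖) ^ N1 ≤ (1 + ‖z‖) ^ (N1 + N2) := pow_le_pow_right₀ hz (by omega)
    have e2 : (1 + ‖z‖) ^ N2 ≤ (1 + ‖z‖) ^ (N1 + N2) := pow_le_pow_right₀ hz (by omega)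
    have f1 : C1 * (1 + ‖z‖) ^ N1 ≤ C1 * (1 + ‖z‖) ^ (N1 + N2) := by gcongr
    have f2 : C2 * (1 + ‖z‖) ^ N2 ≤ C2 * (1 + ‖z‖) ^ (N1 + N2) := by gcongr
    obtain ⟨a1, b1⟩ := h1 z w hw
    obtain ⟨a2, b2⟩ := h2 z w hw
    constructor
    · rw [map_add]
      calc _ ≤ _ := norm_add_le _ _
        _ ≤ C1 * (1 + ‖z‖) ^ (N1 + N2) + C2 * (1 + ‖z‖) ^ (N1 + N2) := by
          gcongr
          · exact a1.trans f1
          · exact a2.trans f2
        _ = _ := by ring
    · rw [map_add, map_add]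
      have h3 : MvPolynomial.eval (z + w) p + MvPolynomial.eval (z + w) q -
          (MvPolynomial.eval z p + MvPolynomial.eval z q) =
          (MvPolynomial.eval (z + w) p - MvPolynomial.eval z p) +
            (MvPolynomial.eval (z + w) q - MvPolynomial.eval z q) := by ring
      rw [h3]
      calc _ ≤ _ := norm_add_le _ _
        _ ≤ C1 * (1 + ‖z‖) ^ (N1 + N2) * ‖w‖ + C2 * (1 + ‖z‖) ^ (N1 + N2) * ‖w‖ := by
          gcongr
          · exact b1.trans (by gcongr)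
          · exact b2.trans (by gcongr)
        _ = _ := by ring
  | mul_X p i hp =>
    obtain ⟨C1, N1, hC1, h1⟩ := hp
    refine ⟨2 * C1, N1 + 1, by positivity, fun z w hw => ?_⟩
    obtain ⟨a1, b1⟩ := h1 z w hw
    have hz : 1 ≤ 1 + ‖z‖ := by linarith [norm_nonneg z]
    have hzi : ‖z i‖ ≤ ‖z‖ := norm_le_pi_norm z i
    have hwi : ‖w i‖ ≤ ‖w‖ := norm_le_pi_norm w i
    constructor
    · rw [map_mul, MvPolynomial.eval_X, norm_mul]
      calc ‖MvPolynomial.eval z p‖ * ‖z i‖ ≤ C1 * (1 + ‖z‖) ^ N1 * (1 + ‖z‖) := by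
            gcongr
            linarith
        _ ≤ 2 * C1 * (1 + ‖z‖) ^ (N1 + 1) := by
          have : 0 ≤ C1 * (1 + ‖z‖) ^ (N1 + 1) := by positivity
          rw [mul_assoc, ← pow_succ]; linarith
    · rw [map_mul, map_mul, MvPolynomial.eval_X, MvPolynomial.eval_X]
      have h3 : MvPolynomial.eval (z + w) p * (z + w) i - MvPolynomial.eval z p * z i =
          (MvPolynomial.eval (z + w) p - MvPolynomial.eval z p) * (z i + w i) +
            MvPolynomial.eval z p * w i := by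
        simp only [Pi.add_apply]; ring
      rw [h3]
      have h4 : ‖z i + w i‖ ≤ 1 + ‖z‖ := by
        calc _ ≤ ‖z i‖ + ‖w i‖ := norm_add_le _ _
          _ ≤ _ := by linarith
      calc _ ≤ _ := norm_add_le _ _
        _ ≤ C1 * (1 + ‖z‖) ^ N1 * ‖w‖ * (1 + ‖z‖) + C1 * (1 + ‖z‖) ^ N1 * ‖w‖ := by
          rw [norm_mul, norm_mul]
          gcongr
        _ ≤ C1 * (1 + ‖z‖) ^ N1 * ‖w‖ * (1 + ‖z‖) + C1 * (1 + ‖z‖) ^ N1 * ‖w‖ * (1 + ‖z‖) := by
          have h5 : 0 ≤ C1 * (1 + ‖z‖) ^ N1 * ‖w‖ := by positivity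
          have h6 := le_mul_of_one_le_right h5 hz
          linarith
        _ = _ := by ring

theorem continuous_eval {d : ℕ} (h : MvPolynomial (Fin d) ℂ) :
    Continuous fun z : Fin d → ℂ => MvPolynomial.eval z h := MvPolynomial.continuous_eval h

theorem differentiable_eval {d : ℕ} (h : MvPolynomial (Fin d) ℂ) :
    Differentiable ℂ fun z : Fin d → ℂ => MvPolynomial.eval z h := by
  induction h using MvPolynomial.induction_on with
  | C a => simp
  | add p q hp hq =>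
    simp only [map_add]
    exact hp.fun_add hq
  | mul_X p i hp =>
    have : Differentiable ℂ fun z : Fin d → ℂ => z i := differentiable_apply i
    simp only [map_mul, MvPolynomial.eval_X]
    exact hp.fun_mul this

variable {d : ℕ} {E : Type*} [TopologicalSpace E] [RDom d E]

theorem one_add_norm_le (y : E) : 1 + ‖(cp y : Fin d → ℂ)‖ ≤ 2 * GG (cp : E → (Fin d → ℂ)) y := by
  have h1 := one_le_GG (cp : E → (Fin d → ℂ)) y
  have h2 : ‖(cp y : Fin d → ℂ)‖ ≤ 2 * GG (cp : E → (Fin d → ℂ)) y - 1 := by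
    rw [pi_norm_le_iff_of_nonneg (by linarith)]
    intro l
    have h3 : 1 + ‖(cp y : Fin d → ℂ) l‖ ^ 2 ≤ GG (cp : E → (Fin d → ℂ)) y := by
      unfold GG
      rw [← Finset.mul_prod_erase _ _ (Finset.mem_univ l)]
      have h4 : (1 : ℝ) ≤ ∏ j ∈ Finset.univ.erase l, (1 + ‖(cp y : Fin d → ℂ) j‖ ^ 2) := by
        calc (1 : ℝ) = ∏ _j ∈ Finset.univ.erase l, (1 : ℝ) := by simp
          _ ≤ _ := Finset.prod_le_prod (fun _ _ => zero_le_one)
              (fun j _ => by nlinarith [sq_nonneg ‖(cp y : Fin d → ℂ) j‖])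
      exact le_mul_of_one_le_right (by positivity) h4
    nlinarith [sq_nonneg (‖(cp y : Fin d → ℂ) l‖ - 1), sq_nonneg ‖(cp y : Fin d → ℂ) l‖]
  linarith

/-- compactness of the sets `{|y| ≤ R, |h| ≥ δ}` -/
theorem cpt_cov (P : PCov d E) (R δ : ℝ) (hδ : 0 < δ) :
    IsCompact {y : E | (∀ i, ‖(cp y : Fin d → ℂ) i‖ ≤ R) ∧
      δ ≤ ‖MvPolynomial.eval (cp y) P.h‖} := by
  set K : Set (Fin d → ℂ) := {z | (∀ i, ‖z i‖ ≤ R) ∧ δ ≤ ‖MvPolynomial.eval z P.h‖} with hK
  have hKc : IsClosed K := by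
    rw [hK, ofPred_and]
    refine IsClosed.inter ?_ ?_
    · rw [ofPred_forall]
      exact isClosed_iInter fun i => isClosed_le (continuous_apply i).norm continuous_const
    · exact isClosed_le continuous_const (continuous_eval P.h).norm
  have hKb : Bornology.IsBounded K := by
    refine (isBounded_iff_subset_closedBall 0).2 ⟨max R 0, fun z hz => ?_⟩
    rw [mem_closedBall_zero_iff, pi_norm_le_iff_of_nonneg (le_max_right _ _)]
    exact fun i => (hz.1 i).trans (le_max_left _ _)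
  have hKK : IsCompact K := isCompact_of_isClosed_isBounded hKc hKb
  have hloc : ∀ z : Fin d → ℂ, ∃ r : ℝ, 0 < r ∧ (z ∈ K → IsCompact
      (cp ⁻¹' closedBall z (r / 2) : Set E)) := by
    intro z
    by_cases hz : z ∈ K
    · have h0 : MvPolynomial.eval z P.h ≠ 0 := by
        intro h; have := hz.2; rw [h, norm_zero] at this; linarith
      have hopen : IsOpen {w : Fin d → ℂ | MvPolynomial.eval w P.h ≠ 0} :=
        isOpen_ne_fun (continuous_eval P.h) continuous_const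
      obtain ⟨r, hr, hball⟩ := Metric.isOpen_iff.1 hopen z h0
      refine ⟨r, hr, fun _ => ?_⟩
      obtain ⟨s, hs1, -, hs3⟩ := P.ev z r hr (fun w hw => hball hw)
      have hsub : closedBall z (r / 2) ⊆ ball z r := closedBall_subset_ball (by linarith)
      have : (cp ⁻¹' closedBall z (r / 2) : Set E) = ⋃ i, (s i).symm '' closedBall z (r / 2) := by
        ext y
        simp only [mem_preimage, mem_iUnion, mem_image]
        constructor
        · intro hy
          have h1 : y ∈ (cp ⁻¹' ball z r : Set E) := hsub hy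
          rw [hs3, mem_iUnion] at h1
          obtain ⟨i, hi⟩ := h1
          exact ⟨i, cp y, hy, (hs1 i).1.symm_cp hi⟩
        · rintro ⟨i, w, hw, rfl⟩
          have : w ∈ (s i).target := by rw [(hs1 i).2]; exact hsub hw
          rwa [(hs1 i).1.cp_symm this]
      rw [this]
      refine isCompact_iUnion fun i => (isCompact_closedBall z (r / 2)).image_of_continuousOn ?_
      exact (s i).continuousOn_symm.mono (by rw [(hs1 i).2]; exact hsub)
    · exact ⟨1, one_pos, fun h => absurd h hz⟩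
  choose r hr hrc using hloc
  obtain ⟨t, htK, ht⟩ := hKK.elim_nhds_subcover (fun z => closedBall z (r z / 2))
    (fun z _ => closedBall_mem_nhds z (by have := hr z; linarith))
  have hc : IsCompact (⋃ z ∈ t, (cp ⁻¹' closedBall z (r z / 2) : Set E)) :=
    t.isCompact_biUnion fun z hz => hrc z (htK z hz)
  refine hc.of_isClosed_subset (hKc.preimage cp_cont) fun y hy => ?_
  have h1 := ht hy
  simp only [mem_iUnion, mem_preimage] at h1 ⊢
  exact h1

theorem isCh_iff {e : OpenPartialHomeomorph E (Fin d → ℂ)} :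
    IsCh e ↔ (⇑e : E → (Fin d → ℂ)) = cp := Iff.rfl

/-- polynomials in the coordinates are holomorphic -/
theorem hol_eval (h : MvPolynomial (Fin d) ℂ) :
    HolP (cp : E → (Fin d → ℂ)) (fun y => MvPolynomial.eval (cp y) h) := by
  intro e he z hz
  refine ((differentiable_eval h z).congr_of_eventuallyEq ?_).differentiableWithinAt
  filter_upwards [e.open_target.mem_nhds hz] with w hw
  simp only [Function.comp_apply]
  rw [p_symm he hw]

/-- the Levi form in charts -/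
theorem lev_eq_Levi {φ : E → ℝ} (hφ : Sm φ) (x : E) (w : Fin d → ℂ) :
    MaxP_25.lev (φ ∘ (ch x).symm) (cp x) w = 4 * Levi φ x w := by
  rw [Crest.Agent.R271.W792.Levi_eq_lev hφ, MaxP_25.lev_eq]
  have key : ∀ v : Fin d → ℂ, D (fun y => D φ y v) x v =
      fderiv ℝ (fderiv ℝ (φ ∘ (ch x).symm)) (cp x) v v := by
    intro v
    have h1 : ((fun y => D φ y v) ∘ (ch x).symm) =ᶠ[𝓝 (cp x)]
        fun z => fderiv ℝ (φ ∘ (ch x).symm) z v := by
      filter_upwards [(ch x).open_target.mem_nhds ((isCh_ch x).cp_mem (mem_ch x))] with z hz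
      simp only [Function.comp_apply]
      rw [D_symm (isCh_ch x) hz φ]
    have h2 : D (fun y => D φ y v) x =
        fderiv ℝ (fun z => fderiv ℝ (φ ∘ (ch x).symm) z v) (cp x) := h1.fderiv_eq
    rw [h2]
    have h3 : DifferentiableAt ℝ (fderiv ℝ (φ ∘ (ch x).symm)) (cp x) :=
      ((hφ x).fderiv_right (m := 1) one_add_one_le_top').differentiableAt (by simp)
    rw [fderiv_clm_apply h3 (differentiableAt_const v)]
    simp
  unfold Crest.Agent.R271.W792.lev
  rw [key w, key (Complex.I • w)]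
  ring

theorem lev_congr {u v : (Fin d → ℂ) → ℝ} {z : Fin d → ℂ} (h : u =ᶠ[𝓝 z] v) (w : Fin d → ℂ) :
    MaxP_25.lev u z w = MaxP_25.lev v z w := by
  rw [MaxP_25.lev_eq, MaxP_25.lev_eq, h.fderiv.fderiv_eq]

section main

variable {M : Type*} [TopologicalSpace M] [RDom (d + 1) M] [MeasurableSpace M] {μ : Measure M}

theorem radf_pos {h : MvPolynomial (Fin d) ℂ} {c : ℝ} (hc : 0 < c) (κ : ℕ) {z : Fin d → ℂ}
    (hz : MvPolynomial.eval z h ≠ 0) : 0 < radf h c κ z := by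
  unfold radf
  have : 0 < min 1 ‖MvPolynomial.eval z h‖ := lt_min one_pos (norm_pos_iff.2 hz)
  positivity

/-- the chart of `E` over the ball of radius `D.r y` -/
theorem exists_ev (D : DChart M E μ) (y : E) : ∃ e : OpenPartialHomeomorph E (Fin d → ℂ),
    IsCh e ∧ y ∈ e.source ∧ e.target = ball (cp y) (D.r y) := by
  have hr : 0 < D.r y := radf_pos D.hc0 D.κ (D.cov.hne y)
  obtain ⟨s, hs1, -, hs3⟩ := D.cov.ev (cp y) (D.r y) hr (D.hball y)
  have h1 : y ∈ (cp ⁻¹' ball (cp y) (D.r y) : Set E) := mem_ball_self hr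
  rw [hs3, mem_iUnion] at h1
  obtain ⟨i, hi⟩ := h1
  exact ⟨s i, (hs1 i).1, hi, (hs1 i).2⟩

/-- **level data of the slice lemma from `Full`** -/
theorem ld_of_full (D : DChart M E μ) {φ ψ : M → ℝ} {k : ℤ} {ρ : ℕ} (F : Full D φ ψ k ρ) :
    ∃ a b : ℕ, LD (cp : E → (Fin d → ℂ)) (fun y => MvPolynomial.eval (cp y) D.cov.h)
      (fun y => Real.exp (-F.ψ' y)) F.τ a b ρ := by
  obtain ⟨C1, N1, hC1, hpoly⟩ := poly_bd D.cov.h
  have hC := F.hC
  have hc0 := D.hc0
  have hc1 := D.hc1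
  set hh : E → ℂ := fun y => MvPolynomial.eval (cp y) D.cov.h with hhh
  have hHpos : ∀ y, 0 < Hm hh y := fun y => Hm_pos D.cov.hne y
  have hH1 : ∀ y, Hm hh y ≤ 1 := fun y => min_le_left _ _
  refine ⟨D.κ + N1 + 1, N1,
    { lh := cp_lh
      hol := hol_eval _
      ne := D.cov.hne
      hgr := ?_
      cpt := fun R δ hδ => cpt_cov D.cov R δ hδ
      disc := ?_
      eta_pos := fun y => Real.exp_pos _
      eta_le := ?_
      eta_C2 := ?_
      null := ?_ }⟩
  · refine ⟨C1 * 2 ^ N1, fun y => ?_⟩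
    have h1 := (hpoly (cp y) 0 (by simp)).1
    have h2 := one_add_norm_le y
    calc ‖hh y‖ ≤ C1 * (1 + ‖(cp y : Fin d → ℂ)‖) ^ N1 := h1
      _ ≤ C1 * (2 * GG (cp : E → (Fin d → ℂ)) y) ^ N1 := by gcongr
      _ = _ := by rw [mul_pow]; ring
  · set a := D.κ + N1 + 1 with ha
    refine ⟨D.c / (8 * C1 * 2 ^ a), F.C, by positivity, by linarith, fun y i => ?_⟩
    obtain ⟨e, he, hye, het⟩ := exists_ev D y
    obtain ⟨l, hl, hl1, hl0⟩ := F.lam y
    set g := 1 + ‖(cp y : Fin d → ℂ)‖ with hg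
    have hg1 : 1 ≤ g := by rw [hg]; linarith [norm_nonneg (cp y : Fin d → ℂ)]
    have hH := hHpos y
    set t := Hm hh y / g with ht
    have ht0 : 0 < t := by positivity
    have ht1 : t ≤ 1 := by
      rw [ht, div_le_one (by positivity)]
      exact (hH1 y).trans hg1
    have hDr : D.r y = D.c * t ^ D.κ := rfl
    set r := D.c / (8 * C1) * t ^ a with hr
    have hr0 : 0 < r := by positivity
    have htκ : t ^ a ≤ t ^ D.κ := pow_le_pow_of_le_one ht0.le ht1 (by omega)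
    have htN : t ^ a ≤ t ^ (N1 + 1) := pow_le_pow_of_le_one ht0.le ht1 (by omega)
    have hr8 : r ≤ D.r y / 8 := by
      rw [hr, hDr]
      calc D.c / (8 * C1) * t ^ a ≤ D.c / (8 * 1) * t ^ D.κ := by gcongr
        _ = _ := by ring
    have hDr1 : D.r y ≤ 1 := by
      rw [hDr]
      calc D.c * t ^ D.κ ≤ 1 * 1 := by
            gcongr
            exact pow_le_one₀ ht0.le ht1
        _ = 1 := by norm_num
    have hDr0 : 0 < D.r y := by rw [hDr]; positivity
    have hr14 : r ≤ 1 / 4 := by linarith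
    -- the points of the disc
    have hball : ∀ ζ ∈ closedBall (0 : ℂ) r,
        ‖ζ • (Pi.single i (1 : ℂ) : Fin d → ℂ)‖ ≤ r := by
      intro ζ hζ
      rw [norm_smul]
      have h1 : ‖ζ‖ ≤ r := by simpa using hζ
      have h2 : ‖(Pi.single i (1 : ℂ) : Fin d → ℂ)‖ = 1 := by
        rw [Pi.norm_single, norm_one]
      rw [h2, mul_one]; exact h1
    have htgt : ∀ ζ ∈ closedBall (0 : ℂ) r,
        (cp y : Fin d → ℂ) + ζ • (Pi.single i (1 : ℂ) : Fin d → ℂ) ∈ e.target := by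
      intro ζ hζ
      rw [het, mem_ball, dist_self_add_left]
      have := hball ζ hζ
      linarith
    have hps : ∀ ζ ∈ closedBall (0 : ℂ) r,
        (cp (e.symm ((cp y : Fin d → ℂ) + ζ • (Pi.single i (1 : ℂ) : Fin d → ℂ))) : Fin d → ℂ) =
          cp y + ζ • (Pi.single i (1 : ℂ) : Fin d → ℂ) := fun ζ hζ => he.cp_symm (htgt ζ hζ)
    refine ⟨r, fun ζ => e.symm (cp y + ζ • (Pi.single i (1 : ℂ) : Fin d → ℂ)),
      fun ζ => l (ζ • (Pi.single i (1 : ℂ) : Fin d → ℂ)), ⟨hr0, hr14, ?_, ?_, hps, ?_, ?_, ?_, ?_⟩, ?_⟩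
    · refine e.continuousOn_symm.comp (Continuous.continuousOn (by fun_prop)) fun ζ hζ => htgt ζ hζ
    · simp only [zero_smul, add_zero]
      exact he.symm_cp hye
    · intro ζ hζ
      have h1 := (hpoly (cp y) (ζ • (Pi.single i (1 : ℂ) : Fin d → ℂ))
        ((hball ζ hζ).trans (by linarith))).2
      have h2 : C1 * g ^ N1 * ‖ζ • (Pi.single i (1 : ℂ) : Fin d → ℂ)‖ ≤ Hm hh y / 8 := by
        have h3 := hball ζ hζ
        have h4 : t ^ (N1 + 1) ≤ Hm hh y / g ^ N1 := by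
          rw [ht, div_pow]
          have h5 : Hm hh y ^ (N1 + 1) ≤ Hm hh y := by
            rw [pow_succ]
            exact mul_le_of_le_one_left hH.le (pow_le_one₀ hH.le (hH1 y))
          have h6 : g ^ N1 ≤ g ^ (N1 + 1) := pow_le_pow_right₀ hg1 (by omega)
          gcongr
        calc C1 * g ^ N1 * ‖ζ • (Pi.single i (1 : ℂ) : Fin d → ℂ)‖ ≤ C1 * g ^ N1 * r := by gcongr
          _ ≤ C1 * g ^ N1 * (1 / (8 * C1) * (Hm hh y / g ^ N1)) := by
            rw [hr]
            gcongr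
            exact htN.trans h4
          _ = Hm hh y / 8 := by field_simp
      have h3 : ‖hh y‖ - Hm hh y / 8 ≤
          ‖MvPolynomial.eval (cp y + ζ • (Pi.single i (1 : ℂ) : Fin d → ℂ)) D.cov.h‖ := by
        have h4 := norm_sub_norm_le (hh y)
          (MvPolynomial.eval (cp y + ζ • (Pi.single i (1 : ℂ) : Fin d → ℂ)) D.cov.h)
        have h5 : ‖hh y - MvPolynomial.eval (cp y + ζ • (Pi.single i (1 : ℂ) : Fin d → ℂ)) D.cov.h‖
            ≤ Hm hh y / 8 := by
          rw [norm_sub_rev]; exact h1.trans h2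
        linarith
      have h6 : Hm hh y ≤ ‖hh y‖ := min_le_right _ _
      have h7 : hh (e.symm (cp y + ζ • (Pi.single i (1 : ℂ) : Fin d → ℂ))) =
          MvPolynomial.eval (cp y + ζ • (Pi.single i (1 : ℂ) : Fin d → ℂ)) D.cov.h := by
        simp only [hhh]; rw [hps ζ hζ]
      have h8 : Hm hh (e.symm (cp y + ζ • (Pi.single i (1 : ℂ) : Fin d → ℂ))) =
          min 1 ‖MvPolynomial.eval (cp y + ζ • (Pi.single i (1 : ℂ) : Fin d → ℂ)) D.cov.h‖ := by
        unfold Hm; rw [h7]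
      rw [h8]
      rcases le_total 1 ‖MvPolynomial.eval (cp y + ζ • (Pi.single i (1 : ℂ) : Fin d → ℂ)) D.cov.h‖
        with h | h
      · rw [min_eq_left h]; linarith [hH1 y]
      · rw [min_eq_right h]; linarith
    · have h1 : DifferentiableOn ℂ (fun ζ : ℂ => l (ζ • (Pi.single i (1 : ℂ) : Fin d → ℂ)))
          (closedBall 0 r) := by
        refine hl.comp (f := fun ζ : ℂ => ζ • (Pi.single i (1 : ℂ) : Fin d → ℂ))
          (Differentiable.differentiableOn (by fun_prop)) fun ζ hζ => ?_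
        rw [mem_ball_zero_iff]
        have := hball ζ hζ
        linarith
      exact h1.diffContOnCl_ball (subset_refl _)
    · simpa using hl0
    · intro ζ hζ
      have h1 := hl1 e he hye het (e.symm (cp y + ζ • (Pi.single i (1 : ℂ) : Fin d → ℂ)))
        (e.map_target (htgt ζ hζ))
      rw [hps ζ hζ, add_sub_cancel_left] at h1
      refine h1 ?_
      have := hball ζ hζ
      linarith
    · have h1 : (Hm hh y / g) ^ a * 2 ^ a * GG (cp : E → (Fin d → ℂ)) y ^ a ≥ Hm hh y ^ a := by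
        have h2 : g ≤ 2 * GG (cp : E → (Fin d → ℂ)) y := one_add_norm_le y
        have h3 : Hm hh y ≤ Hm hh y / g * 2 * GG (cp : E → (Fin d → ℂ)) y := by
          rw [div_mul_eq_mul_div, div_mul_eq_mul_div, le_div_iff₀ (by positivity)]
          calc Hm hh y * g ≤ Hm hh y * (2 * GG (cp : E → (Fin d → ℂ)) y) := by gcongr
            _ = _ := by ring
        calc Hm hh y ^ a ≤ (Hm hh y / g * 2 * GG (cp : E → (Fin d → ℂ)) y) ^ a := by gcongr
          _ = _ := by rw [mul_pow, mul_pow]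
      calc D.c / (8 * C1 * 2 ^ a) * Hm hh y ^ a
          ≤ D.c / (8 * C1 * 2 ^ a) * ((Hm hh y / g) ^ a * 2 ^ a *
            GG (cp : E → (Fin d → ℂ)) y ^ a) := by gcongr
        _ = r * GG (cp : E → (Fin d → ℂ)) y ^ a := by
          rw [hr, ht]; field_simp
  · refine ⟨Real.exp F.C, fun y => ?_⟩
    rw [← Real.exp_add]
    apply Real.exp_le_exp.2
    have := F.tau_le y
    linarith
  · intro y e he hy
    have h1 : ContDiffAt ℝ 2 (F.ψ' ∘ e.symm) (cp y) :=
      (F.sm.contDiffAt (e := e) he hy).of_le two_le_top'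
    exact h1.neg.exp
  · intro y e he hy
    obtain ⟨S, hS, hS0⟩ := F.rank y
    refine ⟨S, by omega, fun w hw => ?_⟩
    have h1 : (fun z => Real.log (Real.exp (-F.ψ' (e.symm z)))) =
        fun z => -1 * (F.ψ' ∘ e.symm) z := by
      funext z; simp
    rw [h1]
    have hc2 : ContDiffAt ℝ 2 (F.ψ' ∘ e.symm) (cp y) :=
      (F.sm.contDiffAt (e := e) he hy).of_le two_le_top'
    have h2 := MaxP_25.lev_const_mul hc2 (-1) w
    rw [h2, lev_congr (comp_germ he (isCh_ch y) hy (mem_ch y) F.ψ') w, lev_eq_Levi F.sm, hS0 w hw]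
    simp

/-- **upper bound, level interface**: constants independent of `k', B', Dm, V` -/
theorem up_full (D : DChart M E μ) {φ ψ : M → ℝ} {k : ℤ} {ρ : ℕ} (F : Full D φ ψ k ρ)
    (hρ : ρ ≤ d) : ∃ C0 : ℕ, ∀ (k' B' Dm : ℕ) (V : Submodule ℂ (E → ℂ)),
    (∀ f ∈ V, Hol f ∧ ∃ C : ℝ, ∀ y, ‖f y‖ ^ 2 * Real.exp (-F.τ y) ^ k' ≤ C * (1 / D.r y) ^ B') →
    (∀ I : Finset (Fin d), I.card = d - ρ → ∀ m : Fin d → ℕ,
      Bd (V.map (res (SS (cp : E → (Fin d → ℂ)) I m))) Dm) →
    Bd V ((C0 * (B' + 1)) ^ (d - ρ) * Dm) := by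
  obtain ⟨a, b, hL⟩ := ld_of_full D F
  set hh : E → ℂ := fun y => MvPolynomial.eval (cp y) D.cov.h with hhh
  set κ := D.κ
  have hc0 := D.hc0
  refine ⟨d * (κ + 2 * a * d + b * (κ + 2 * a * d + 1) + 2), fun k' B' Dm V hV hD => ?_⟩
  set J : ℕ := (κ + 2 * a * d + b * (κ + 2 * a * d + 1) + 2) * (B' + 1) with hJ
  have hV' : ∀ f ∈ V, HolP (cp : E → (Fin d → ℂ)) f ∧
      Gr (cp : E → (Fin d → ℂ)) hh F.τ k' (fun _ => ((κ * B' : ℕ) : ℤ)) (κ * B') f := by
    intro f hf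
    obtain ⟨h1, C, hC⟩ := hV f hf
    refine ⟨h1, |C| * (1 / D.c) ^ B' * 2 ^ (κ * B'), fun y => ?_⟩
    have hH : 0 < Hm hh y := Hm_pos D.cov.hne y
    set g := 1 + ‖(cp y : Fin d → ℂ)‖ with hg
    have hg0 : 0 < g := by positivity
    have h2 : D.r y = D.c * (Hm hh y / g) ^ κ := rfl
    have h3 : (1 / D.r y) ^ B' = (1 / D.c) ^ B' * g ^ (κ * B') / Hm hh y ^ (κ * B') := by
      rw [h2, pow_mul, pow_mul]
      rw [← mul_pow, ← div_pow]
      congr 1
      rw [div_pow]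
      field_simp
    have h4 : ‖f y‖ ^ 2 * Real.exp (-F.τ y) ^ k' ≤ |C| * (1 / D.r y) ^ B' := by
      refine (hC y).trans ?_
      have h5 : 0 ≤ (1 / D.r y) ^ B' := by rw [h3]; positivity
      exact mul_le_mul_of_nonneg_right (le_abs_self C) h5
    rw [← GG_pow]
    calc ‖f y‖ ^ 2 * Real.exp (-F.τ y) ^ k' * Hm hh y ^ (κ * B')
        ≤ |C| * (1 / D.r y) ^ B' * Hm hh y ^ (κ * B') := by gcongr
      _ = |C| * (1 / D.c) ^ B' * g ^ (κ * B') := by
        rw [h3]; field_simp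
      _ ≤ |C| * (1 / D.c) ^ B' * (2 * GG (cp : E → (Fin d → ℂ)) y) ^ (κ * B') := by
        have := one_add_norm_le y
        gcongr
      _ = _ := by rw [mul_pow]; ring
  have hJ' : ((κ * B' : ℕ) : ℤ) + 2 * a * d + b * ((κ * B' : ℕ) + 2 * a * d + 1) + 2 ≤ (J : ℤ) := by
    rw [hJ]
    push_cast
    have h1 : (0 : ℤ) ≤ (a : ℤ) := Int.natCast_nonneg a
    have h2 : (0 : ℤ) ≤ (b : ℤ) := Int.natCast_nonneg b
    have h3 : (0 : ℤ) ≤ (κ : ℤ) := Int.natCast_nonneg κ
    have h4 : (0 : ℤ) ≤ (B' : ℤ) := Int.natCast_nonneg B'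
    have h5 : (0 : ℤ) ≤ (d : ℤ) := Int.natCast_nonneg d
    have h6 : (0 : ℤ) ≤ a * d := mul_nonneg h1 h5
    have h7 : (0 : ℤ) ≤ a * d * B' := mul_nonneg h6 h4
    have h8 : (0 : ℤ) ≤ b * κ := mul_nonneg h2 h3
    have h9 : (0 : ℤ) ≤ b * (a * d) := mul_nonneg h2 h6
    have h10 : (0 : ℤ) ≤ b * (a * d) * B' := mul_nonneg h9 h4
    have h11 : (0 : ℤ) ≤ b * B' := mul_nonneg h2 h4
    nlinarith
  have h1 := up (d - ρ) hL (by omega) hJ' V hV' (fun I hI m _ => hD I hI m)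
  refine h1.le (le_of_eq ?_)
  rw [hJ]; ring

end main

end Crest.Agent.R276.SliH_217
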