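import Mathlib
import Crest.Agent.R276.PdW_571
import Crest.Agent.R276.VLevi2_327

/-!
# R276 (helper571): bridge between `gP` (PdC_571) and `gV`, `gdet` (327's VLevi)

`gV_eq`, `gdet_eq`, `gq_eq`, and the Levi inequalities for `log det` of the Gram matrix `gP` restricted to
any finite family of coordinates (any index type).
-/

set_option autoImplicit false
set_option linter.unusedSectionVars false

noncomputable section

open Set Filter Topology Matrix
open scoped ContDiff ComplexConjugate ComplexOrder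
open Crest.Agent.R271.Ho51
open Crest.Agent.R276.Ipc735
open Crest.Agent.R276.PdL571

namespace Crest.Agent.R276.Pd571

variable {m N w : ℕ} {X : Type*} [TopologicalSpace X] [RDom m X]
variable (V : Ipc735.VHS m X N w)

theorem gV_eq (i j : Fin m) (x : X) : VLevi_327.gV V i j x = gP V x i j := by
  unfold VLevi_327.gV gP
  rw [Matrix.of_apply, Matrix.mul_neg, Matrix.trace_neg]
  rfl

theorem gdet_eq {r : ℕ} (ι : Fin r → Fin m) (x : X) :
    VLevi_327.gdet V ι x = ((gP V x).submatrix ι ι).det.re := by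
  unfold VLevi_327.gdet
  congr 2
  ext i j
  rw [Matrix.of_apply, gV_eq, Matrix.submatrix_apply]

theorem gq_eq (v : Fin m → ℂ) (x : X) : VLevi_327.gq V v x = bf (gP V x)ᵀ v v := by
  unfold VLevi_327.gq
  rw [bf_apply]
  congr 1
  simp only [dotProduct, Matrix.mulVec, Pi.star_apply, Matrix.transpose_apply, gV_eq,
    Finset.mul_sum]
  rw [Finset.sum_comm]
  refine Finset.sum_congr rfl fun i _ => Finset.sum_congr rfl fun j _ => ?_
  rw [Complex.star_def]
  ring

theorem bf_nonneg (x : X) (v : Fin m → ℂ) : 0 ≤ bf (gP V x)ᵀ v v := by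
  rw [bf_apply]
  exact (Complex.nonneg_iff.1 ((gP_transpose_posSemidef V x).dotProduct_mulVec_nonneg v)).1

section det

variable {κ : Type*} [Fintype κ] [DecidableEq κ]

lemma det_equiv (ι : κ → Fin m) (x : X) : ((gP V x).submatrix ι ι).det.re =
    VLevi_327.gdet V (ι ∘ (Fintype.equivFin κ).symm) x := by
  rw [gdet_eq]
  congr 1
  rw [← Matrix.det_submatrix_equiv_self (Fintype.equivFin κ).symm ((gP V x).submatrix ι ι)]
  rfl

/-- the Gram minors are smooth -/
theorem sm_minor (ι : κ → Fin m) : Sm (fun x => ((gP V x).submatrix ι ι).det.re) :=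
  (sm_det (G := fun x : X => (gP V x).submatrix ι ι) fun _ _ => sm_gP V _ _).clm Complex.reCLM

theorem minor_nonneg (ι : κ → Fin m) (x : X) : 0 ≤ ((gP V x).submatrix ι ι).det.re :=
  (Complex.nonneg_iff.1 ((gP_posSemidef V x).submatrix ι).det_nonneg).1

/-- `log det` of a Gram minor is plurisubharmonic where it is finite -/
theorem Levi_log_minor_nonneg (ι : κ → Fin m) {x : X}
    (hpos : 0 < ((gP V x).submatrix ι ι).det.re) (v : Fin m → ℂ) :
    0 ≤ Levi (fun y => Real.log ((gP V y).submatrix ι ι).det.re) x v := by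
  simp only [det_equiv] at hpos ⊢
  exact VLevi_327.Levi_log_gdet_nonneg V _ hpos v

/-- strict positivity in the directions of the minor -/
theorem Levi_log_minor_ge {c : ℝ} (hc : ∀ (K a a' : Matrix (Fin N) (Fin N) ℂ), K.PosDef →
    VCalc_442.Adj K a a' → IsNilpotent a →
    c * (a * a').trace.re ^ 2 ≤ ((a' * a - a * a') * (a' * a - a * a')).trace.re)
    (ι : κ → Fin m) {x : X} (hpos : 0 < ((gP V x).submatrix ι ι).det.re) {v : Fin m → ℂ}
    (hv : v ∈ Submodule.span ℂ (Set.range fun i => (Pi.single (ι i) 1 : Fin m → ℂ))) :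
    c * bf (gP V x)ᵀ v v ≤ Levi (fun y => Real.log ((gP V y).submatrix ι ι).det.re) x v := by
  simp only [det_equiv] at hpos ⊢
  rw [← gq_eq]
  refine VLevi_327.Levi_log_gdet_ge hc V _ hpos ?_
  have h1 : Set.range (VLevi_327.fr (ι ∘ (Fintype.equivFin κ).symm)) =
      Set.range fun i => (Pi.single (ι i) 1 : Fin m → ℂ) := by
    ext u
    constructor
    · rintro ⟨i, rfl⟩
      exact ⟨(Fintype.equivFin κ).symm i, rfl⟩
    · rintro ⟨i, rfl⟩
      refine ⟨Fintype.equivFin κ i, ?_⟩
      simp [VLevi_327.fr]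
  rwa [h1]

/-- a vector of which all coordinates off the minor vanish is in the span -/
lemma mem_span_of {ι : κ → Fin m} {v : Fin m → ℂ} (hv : ∀ j, j ∉ Set.range ι → v j = 0) :
    v ∈ Submodule.span ℂ (Set.range fun i => (Pi.single (ι i) 1 : Fin m → ℂ)) := by
  have h1 : v = ∑ j, v j • (Pi.single j (1 : ℂ) : Fin m → ℂ) := by
    rw [← pi_eq_sum_univ' v]
  rw [h1]
  refine Submodule.sum_mem _ fun j _ => ?_
  by_cases hj : j ∈ Set.range ι
  · obtain ⟨i, rfl⟩ := hj
    exact Submodule.smul_mem _ _ (Submodule.subset_span ⟨i, rfl⟩)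
  · rw [hv j hj, zero_smul]; exact Submodule.zero_mem _

end det

end Crest.Agent.R276.Pd571
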