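import Crest.Agent.R276.CntLow_804

/-!
# Row 276, COUNT-LOW, versions (helper804)

* `count_low_log` : the weight `φ = log E`, `E ≥ 0` smooth, `|∂E(w)|² ≤ E · Levi E (w)` (zeros of `E`
  are allowed), conclusion `∫ |f|² E^{-(N-1)} e^{-N t ψ} < ∞`;
* `count_low_finrank` : lower bound of the dimension of any space containing these functions.
-/

set_option autoImplicit false
set_option linter.unusedSectionVars false

noncomputable section

open Set Filter Topology Complex MeasureTheory Metric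

namespace Crest.Agent.R276.CntLow2_804

open Crest.Agent.R271.Ho51 Crest.Agent.R271.W792 Crest.Agent.R276.CntLowA_804
open Crest.Agent.R271 Crest.Agent.R276.CntLowB_804 Crest.Agent.R276.CntLowC_804
open Crest.Agent.R276.CntLowD_804 Crest.Agent.R276.CntLowE_804 Crest.Agent.R276.CntLow_804

variable {n ν : ℕ} {M : Type} [TopologicalSpace M] [T2Space M] [RDom n M]

lemma sm_logE {E : M → ℝ} (hE : Sm E) (hE0 : ∀ x, 0 ≤ E x) {δ : ℝ} (hδ : 0 < δ) :
    Sm (fun x => Real.log (E x + δ)) := by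
  have h1 : Sm (fun x => E x + δ) := hE.add (Sm.const δ)
  exact Sm.comp_at h1 fun x => Real.contDiffAt_log.mpr (by linarith [hE0 x] : (0:ℝ) < E x + δ).ne'

lemma lev_logE {E : M → ℝ} (hE : Sm E) (hE0 : ∀ x, 0 ≤ E x) {δ : ℝ} (hδ : 0 < δ) (x : M)
    (w : Fin n → ℂ) : lev (fun x => Real.log (E x + δ)) x w =
      -((E x + δ) ^ 2)⁻¹ * dsq E x w + (E x + δ)⁻¹ * lev E x w := by
  have hp : 0 < E x + δ := by linarith [hE0 x]
  have hs : Sm (fun x => (E x + δ)⁻¹) := by
    have h1 : Sm (fun x => E x + δ) := hE.add (Sm.const δ)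
    exact Sm.comp_at (g := fun t : ℝ => t⁻¹) h1 fun x =>
      contDiffAt_inv ℝ (by linarith [hE0 x] : (0:ℝ) < E x + δ).ne'
  refine lev_comp (g := fun t : ℝ => Real.log (t + δ)) (g' := fun t : ℝ => (t + δ)⁻¹)
    hE x ?_ (hasDerivAt_inv_add hp) w hs
  have h1 : -δ < E x := by linarith [hE0 x]
  filter_upwards [Ioi_mem_nhds h1] with t ht
  exact hasDerivAt_log_add (by linarith [mem_Ioi.1 ht])

variable [SecondCountableTopology M] [MeasurableSpace M] [BorelSpace M] {μ : Measure M}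

/-- **COUNT-LOW**, weight `log E` -/
theorem count_low_log (hμ : IsLeb μ) {ρ : M → ℝ} (hρ : Sm ρ)
    (hcpt : ∀ c, IsCompact {x | ρ x ≤ c}) (hL : ∀ x w, nsq w ≤ Levi ρ x w)
    {E : M → ℝ} (hE : Sm E) (hE0 : ∀ x, 0 ≤ E x) (hE1 : ∀ x w, dsq E x w ≤ E x * lev E x w)
    (hE2 : ∀ x w, 0 ≤ lev E x w)
    {ψ : M → ℝ} (hψ : Sm ψ) (hψ0 : ∀ x w, 0 ≤ Levi ψ x w)
    (S : LD n ν M) (hs : Function.Surjective (fderiv ℂ S.β S.z0)) {c e0 : ℝ} (hc : 0 < c)
    (he0 : 0 < e0) (hEe : ∀ z ∈ ball S.z0 S.r, e0 ≤ E (S.e.symm z))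
    (hEc : ∀ z ∈ ball S.z0 S.r, ∀ w, dsq E (S.e.symm z) w + c * E (S.e.symm z) ^ 2 * nsq w ≤
      E (S.e.symm z) * lev E (S.e.symm z) w)
    (hψc : ∀ z ∈ ball S.z0 S.r, ∀ w, c * ∑ i, ‖fderiv ℂ S.β z w i‖ ^ 2 ≤
      Levi ψ (S.e.symm z) w) :
    ∃ c1 : ℝ, 0 < c1 ∧ ∃ N0 : ℕ, ∀ N : ℕ, N0 ≤ N → ∀ t : ℝ, 1 ≤ t →
      ∃ (ι : Type) (_ : Fintype ι) (f : ι → M → ℂ), LinearIndependent ℂ f ∧
        (∀ i, Ho51.Hol (f i) ∧ ∫⁻ x, ENNReal.ofReal (‖f i x‖ ^ 2 * Real.exp (-(N * t * ψ x))) *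
          ((ENNReal.ofReal (E x))⁻¹) ^ (N - 1) ∂μ < ⊤) ∧
        c1 * (N : ℝ) ^ n * t ^ ν ≤ (Fintype.card ι : ℝ) := by
  have hp : ∀ k x, 0 < E x + dl k := fun k x => by linarith [hE0 x, dl_pos k]
  -- the positivity constant
  set κ : ℝ := (e0 / (e0 + 1 / 2)) ^ 2 with hκ
  have hκ0 : 0 < κ := by positivity
  have hκ1 : κ ≤ 1 := by
    rw [hκ]
    apply pow_le_one₀ (by positivity)
    rw [div_le_one (by positivity)]; linarith
  have hlev : ∀ k x w, Levi (fun x => Real.log (E x + dl k)) x w =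
      -((E x + dl k) ^ 2)⁻¹ * dsq E x w + (E x + dl k)⁻¹ * lev E x w := by
    intro k x w
    rw [Levi_eq_lev (sm_logE hE hE0 (dl_pos k)), lev_logE hE hE0 (dl_pos k)]
  have hform : ∀ k x w, -((E x + dl k) ^ 2)⁻¹ * dsq E x w + (E x + dl k)⁻¹ * lev E x w =
      ((E x * lev E x w - dsq E x w) + dl k * lev E x w) / (E x + dl k) ^ 2 := by
    intro k x w
    have := hp k x
    field_simp
    ring
  obtain ⟨c1, hc1, N0, hN0⟩ := count_low (μ := μ) hμ hρ hcpt hL
    (φs := fun k x => Real.log (E x + dl k)) (fun k => sm_logE hE hE0 (dl_pos k))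
    (fun x k l hkl => Real.log_le_log (hp l x) (by linarith [dl_anti hkl]))
    (fun k x w => by
      rw [hlev, hform]
      have h1 := hE1 x w
      have h2 := mul_nonneg (dl_pos k).le (hE2 x w)
      have h3 := hp k x
      apply div_nonneg (by linarith) (by positivity))
    hψ hψ0 S hs (c := c * κ) (A := -Real.log e0) (by positivity)
    (fun k z hz w => by
      rw [hlev, hform]
      have h1 := hEc z hz w
      have h2 := mul_nonneg (dl_pos k).le (hE2 (S.e.symm z) w)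
      have h3 := hp k (S.e.symm z)
      have h4 := hEe z hz
      rw [le_div_iff₀ (by positivity)]
      have h5 : κ * (E (S.e.symm z) + dl k) ^ 2 ≤ E (S.e.symm z) ^ 2 := by
        have h6 : e0 / (e0 + 1 / 2) * (E (S.e.symm z) + dl k) ≤ E (S.e.symm z) := by
          rw [div_mul_eq_mul_div, div_le_iff₀ (by positivity)]
          have := dl_le k
          nlinarith
        have h7 : (e0 / (e0 + 1 / 2) * (E (S.e.symm z) + dl k)) ^ 2 ≤ E (S.e.symm z) ^ 2 := by
          gcongr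
        rw [mul_pow] at h7
        exact h7
      have h8 := nsq_nonneg w
      have h9 : c * κ * nsq w * (E (S.e.symm z) + dl k) ^ 2 ≤
          c * E (S.e.symm z) ^ 2 * nsq w := by
        have := mul_le_mul_of_nonneg_left h5 (mul_nonneg hc.le h8)
        nlinarith
      linarith)
    (fun k z hz => by
      rw [neg_neg]
      exact Real.log_le_log he0 (by linarith [hEe z hz, dl_pos k]))
    (fun z hz w => by
      refine le_trans ?_ (hψc z hz w)
      have h1 : 0 ≤ ∑ i, ‖fderiv ℂ S.β z w i‖ ^ 2 := Finset.sum_nonneg fun _ _ => by positivity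
      have h2 : c * κ ≤ c := by nlinarith
      exact mul_le_mul_of_nonneg_right h2 h1)
  refine ⟨c1, hc1, max N0 1, fun N hN t ht => ?_⟩
  obtain ⟨ι, hι, f, hf, hf2, hcard⟩ := hN0 N (le_trans (le_max_left _ _) hN) t ht
  have hN1 : 1 ≤ N := le_trans (le_max_right _ _) hN
  refine ⟨ι, hι, f, hf, fun i => ⟨(hf2 i).1, ?_⟩, hcard⟩
  refine lt_of_le_of_lt (lintegral_mono fun x => ?_) (hf2 i).2
  rw [ENNReal.ofReal_mul (by positivity), mul_assoc]
  refine mul_le_mul' le_rfl ?_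
  -- the limit
  have hterm : ∀ k, ENNReal.ofReal (Real.exp (-(((N : ℝ) - 1) * Real.log (E x + dl k) +
      N * t * ψ x))) = ENNReal.ofReal (Real.exp (-(N * t * ψ x))) *
        ((ENNReal.ofReal (E x + dl k))⁻¹) ^ (N - 1) := by
    intro k
    have h1 : -(((N : ℝ) - 1) * Real.log (E x + dl k) + N * t * ψ x) =
        -(N * t * ψ x) + (N - 1 : ℕ) * (-Real.log (E x + dl k)) := by
      rw [Nat.cast_sub hN1]; push_cast; ring
    rw [h1, Real.exp_add, Real.exp_nat_mul, Real.exp_neg (Real.log (E x + dl k)),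
      Real.exp_log (hp k x), ENNReal.ofReal_mul (by positivity),
      ENNReal.ofReal_pow (by have := hp k x; positivity), ENNReal.ofReal_inv_of_pos (hp k x)]
  simp only [hterm]
  have hlim : Tendsto (fun k => ENNReal.ofReal (Real.exp (-(N * t * ψ x))) *
      ((ENNReal.ofReal (E x + dl k))⁻¹) ^ (N - 1)) atTop
      (𝓝 (ENNReal.ofReal (Real.exp (-(N * t * ψ x))) * ((ENNReal.ofReal (E x))⁻¹) ^ (N - 1))) := by
    apply ENNReal.Tendsto.const_mul
    · have h1 : Tendsto (fun k => E x + dl k) atTop (𝓝 (E x + 0)) :=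
        tendsto_const_nhds.add dl_tendsto
      rw [add_zero] at h1
      have h2 : Tendsto (fun k => ENNReal.ofReal (E x + dl k)) atTop (𝓝 (ENNReal.ofReal (E x))) :=
        (ENNReal.continuous_ofReal.tendsto _).comp h1
      have h3 : Tendsto (fun k => (ENNReal.ofReal (E x + dl k))⁻¹) atTop
          (𝓝 (ENNReal.ofReal (E x))⁻¹) := (continuous_inv.tendsto _).comp h2
      exact ((ENNReal.continuous_pow (N - 1)).tendsto _).comp h3
    · exact Or.inr ENNReal.ofReal_ne_top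
  exact le_of_tendsto' hlim fun k => le_iSup (fun k =>
    ENNReal.ofReal (Real.exp (-(N * t * ψ x))) * ((ENNReal.ofReal (E x + dl k))⁻¹) ^ (N - 1)) k

omit [T2Space M] [RDom n M] [SecondCountableTopology M] [MeasurableSpace M] [BorelSpace M]
  [TopologicalSpace M] in
/-- dimension form -/
lemma le_finrank_of_linInd {ι : Type} [Fintype ι] {f : ι → M → ℂ} (hf : LinearIndependent ℂ f)
    (V : Submodule ℂ (M → ℂ)) [Module.Finite ℂ V] (hV : ∀ i, f i ∈ V) {a : ℝ}
    (ha : a ≤ (Fintype.card ι : ℝ)) : a ≤ Module.finrank ℂ V := by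
  refine ha.trans ?_
  have h1 : LinearIndependent ℂ (fun i => (⟨f i, hV i⟩ : V)) := by
    apply LinearIndependent.of_comp V.subtype
    exact hf
  exact_mod_cast h1.fintype_card_le_finrank

end Crest.Agent.R276.CntLow2_804
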