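import Mathlib
import Crest.Agent.R271.W_792
import Crest.Agent.R276.MaxP_25

/-!
# R276, leaf LIOU (helper739): Liouville theorem on models, without any compactification

`M` = Riemann domain (`RDom n M`, coordinates `cp`), `h` a polynomial on `ℂⁿ`, `h ∘ cp` nowhere `0` on
`M` and `{x | ‖cp x‖ ≤ R, δ ≤ ‖h (cp x)‖}` compact for all `R`, `δ > 0` (so `M → {h ≠ 0}` is a
finite covering; `M = Hom(B, ℂ)`, `B` finite etale over `ℂ[z][1/h]`).

`MaxPr b` : the function `b ≥ 0` (think `b = exp φ`, `φ` psh, `φ = -∞` allowed) satisfies the strong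
maximum principle for all `b^k ‖F‖²`, `F` holomorphic and `≠ 0`, along complex discs.

* `exists_fibre_ge` : `b` usc, `MaxPr b`, `b^k ‖h‖^B ≤ C_k (1+‖z‖)^A` for all `k` (growth `o(log)` of
  `log b`) ⟹ for every `z0` with `h z0 ≠ 0` and `x`, there is `y` over `z0` with `b x ≤ b y`.
* `exists_max`, `const` : `b` has a maximum; if `M` is preconnected `b` is constant.
* `maxPr_exp` : `b = exp u`, `u` of class `C²` with `Levi u ≥ 0` satisfies `MaxPr`.
-/

set_option autoImplicit false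

open Set Filter Topology Metric

namespace Crest.Agent.R276.Liou_739

open Crest.Agent.R271.Ho51

variable {n : ℕ} {M : Type*} [TopologicalSpace M] [RDom n M]

/-- the complex disc through `x` in direction `v` -/
noncomputable def ln (x : M) (v : Fin n → ℂ) (t : ℂ) : M := (ch x).symm (cp x + t • v)

theorem ln_zero (x : M) (v : Fin n → ℂ) : ln x v 0 = x := by
  simp [ln, symm_cp]

/-- strong maximum principle for `b^k ‖F‖²` along complex discs -/
def MaxPr (b : M → ℝ) : Prop :=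
  ∀ (x : M) (v : Fin n → ℂ) (F : ℂ → ℂ) (k : ℕ), 0 < k → AnalyticAt ℂ F 0 → F 0 ≠ 0 →
    (∀ᶠ t in 𝓝 (0 : ℂ), b (ln x v t) ^ k * ‖F t‖ ^ 2 ≤ b x ^ k * ‖F 0‖ ^ 2) →
    (∀ᶠ t in 𝓝 (0 : ℂ), b (ln x v t) ^ k * ‖F t‖ ^ 2 = b x ^ k * ‖F 0‖ ^ 2)

theorem tendsto_line (x : M) (v : Fin n → ℂ) :
    Tendsto (fun t : ℂ => cp x + t • v) (𝓝 0) (𝓝 (cp x)) := by
  have : Continuous (fun t : ℂ => cp x + t • v) := by fun_prop
  have h := this.tendsto 0
  simpa using h

theorem cp_ln (x : M) (v : Fin n → ℂ) : ∀ᶠ t in 𝓝 (0 : ℂ), cp (ln x v t) = cp x + t • v := by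
  have h := tendsto_line x v
  have h2 : ∀ᶠ z in 𝓝 (cp x), z ∈ (ch x).target :=
    (ch x).open_target.mem_nhds ((isCh_ch x).cp_mem (mem_ch x))
  filter_upwards [h.eventually h2] with t ht
  exact (isCh_ch x).cp_symm ht

theorem tendsto_ln (x : M) (v : Fin n → ℂ) : Tendsto (ln x v) (𝓝 0) (𝓝 x) := by
  have h1 : Tendsto (ch x).symm (𝓝 (cp x)) (𝓝 x) := by
    have := (ch x).symm.continuousAt (x := cp x) (by simpa using (isCh_ch x).cp_mem (mem_ch x))
    rwa [ContinuousAt, (isCh_ch x).symm_cp (mem_ch x)] at this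
  exact h1.comp (tendsto_line x v)

/-- `h` restricted to the complex line `t ↦ z0 + t v` -/
noncomputable def lpoly (h : MvPolynomial (Fin n) ℂ) (z0 v : Fin n → ℂ) : Polynomial ℂ :=
  MvPolynomial.aeval (fun i => Polynomial.C (z0 i) + Polynomial.X * Polynomial.C (v i)) h

theorem lpoly_eval (h : MvPolynomial (Fin n) ℂ) (z0 v : Fin n → ℂ) (t : ℂ) :
    (lpoly h z0 v).eval t = MvPolynomial.eval (z0 + t • v) h := by
  unfold lpoly
  rw [← Polynomial.coe_aeval_eq_eval, ← AlgHom.comp_apply, ← MvPolynomial.aeval_eq_eval]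
  congr 1
  apply MvPolynomial.algHom_ext
  intro i
  simp only [AlgHom.comp_apply, MvPolynomial.aeval_X, map_add, map_mul, Polynomial.aeval_X,
    Polynomial.aeval_C, Pi.add_apply, Pi.smul_apply, smul_eq_mul, Algebra.algebraMap_self,
    RingHom.id_apply]

/-- polynomials have polynomial growth -/
theorem poly_growth (q : Polynomial ℂ) :
    ∃ C : ℝ, 0 ≤ C ∧ ∀ t : ℂ, ‖q.eval t‖ ≤ C * (1 + ‖t‖) ^ q.natDegree := by
  refine ⟨∑ i ∈ Finset.range (q.natDegree + 1), ‖q.coeff i‖,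
    Finset.sum_nonneg fun _ _ => norm_nonneg _, fun t => ?_⟩
  rw [Polynomial.eval_eq_sum_range, Finset.sum_mul]
  refine (norm_sum_le _ _).trans (Finset.sum_le_sum fun i hi => ?_)
  rw [norm_mul, norm_pow]
  refine mul_le_mul_of_nonneg_left ?_ (norm_nonneg _)
  calc ‖t‖ ^ i ≤ (1 + ‖t‖) ^ i := pow_le_pow_left₀ (norm_nonneg _) (by linarith [norm_nonneg t]) _
    _ ≤ (1 + ‖t‖) ^ q.natDegree := pow_le_pow_right₀ (by linarith [norm_nonneg t])
      (by have := Finset.mem_range.1 hi; omega)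

/-- product of an usc function and a continuous function, both `≥ 0` -/
theorem usc_mul {X : Type*} [TopologicalSpace X] {f g : X → ℝ} {s : Set X} {x : X}
    (hf : UpperSemicontinuousWithinAt f s x) (hg : ContinuousWithinAt g s x)
    (hf0 : ∀ y, 0 ≤ f y) (hg0 : ∀ y, 0 ≤ g y) :
    UpperSemicontinuousWithinAt (fun y => f y * g y) s x := by
  intro c hc
  have h1 : Tendsto (fun ε : ℝ => (f x + ε) * (g x + ε)) (𝓝[>] 0) (𝓝 (f x * g x)) := by
    have : Continuous (fun ε : ℝ => (f x + ε) * (g x + ε)) := by fun_prop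
    have h := this.tendsto 0
    simp only [add_zero] at h
    exact h.mono_left nhdsWithin_le_nhds
  obtain ⟨ε, hε, hε0⟩ := ((h1.eventually (gt_mem_nhds hc)).and self_mem_nhdsWithin).exists
  have hε0' : 0 < ε := hε0
  have h2 := hf (f x + ε) (by linarith)
  have h3 := hg.eventually (gt_mem_nhds (show g x < g x + ε by linarith))
  filter_upwards [h2, h3] with y hy1 hy2
  calc f y * g y ≤ (f x + ε) * (g x + ε) :=
        mul_le_mul hy1.le hy2.le (hg0 y) (by have := hf0 x; linarith)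
    _ < c := hε

theorem usc_pow {X : Type*} [TopologicalSpace X] {b : X → ℝ} (hb0 : ∀ x, 0 ≤ b x)
    (hb : UpperSemicontinuous b) (k : ℕ) : UpperSemicontinuous (fun x => b x ^ k) := by
  have h1 : Continuous (fun y : ℝ => (max y 0) ^ k) := by fun_prop
  have h2 : Monotone (fun y : ℝ => (max y 0) ^ k) := fun a c hac =>
    pow_le_pow_left₀ (le_max_right _ _) (max_le_max hac le_rfl) k
  have h3 := h1.comp_upperSemicontinuous hb h2
  have h4 : (fun y : ℝ => (max y 0) ^ k) ∘ b = fun x => b x ^ k := by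
    funext x; simp [max_eq_left (hb0 x)]
  rwa [h4] at h3

/-- properness of `M → {h ≠ 0}` -/
structure Prp (h : MvPolynomial (Fin n) ℂ) (M : Type*) [TopologicalSpace M] [RDom n M] : Prop where
  ne : ∀ x : M, MvPolynomial.eval (cp x) h ≠ 0
  cpt : ∀ R δ : ℝ, 0 < δ →
    IsCompact {x : M | ‖cp x‖ ≤ R ∧ δ ≤ ‖MvPolynomial.eval (cp x) h‖}

theorem Prp.hasLine {h : MvPolynomial (Fin n) ℂ} (P : Prp h M) {v z0 : Fin n → ℂ} {x : M} {t : ℂ}
    (hx : cp x = z0 + t • v) : (lpoly h z0 v).eval t ≠ 0 := by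
  rw [lpoly_eval, ← hx]; exact P.ne x

/-- the parameter of the line -/
noncomputable def tau (z0 v : Fin n → ℂ) (i : Fin n) (x : M) : ℂ := (cp x i - z0 i) / v i

theorem tau_eq {z0 v : Fin n → ℂ} {i : Fin n} (hi : v i ≠ 0) {x : M} {t : ℂ}
    (hx : cp x = z0 + t • v) : tau z0 v i x = t := by
  unfold tau
  rw [hx]
  simp only [Pi.add_apply, Pi.smul_apply, smul_eq_mul, add_sub_cancel_left]
  field_simp

theorem continuous_tau (z0 v : Fin n → ℂ) (i : Fin n) : Continuous (tau (M := M) z0 v i) := by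
  unfold tau
  have := cp_cont (M := M)
  fun_prop

/-- the comparison function on the line -/
noncomputable def FF (q : Polynomial ℂ) (B D : ℕ) (t : ℂ) : ℂ := q.eval t ^ (B + 1) * (t⁻¹) ^ D

theorem analyticAt_FF (q : Polynomial ℂ) (B D : ℕ) {t : ℂ} (ht : t ≠ 0) :
    AnalyticAt ℂ (FF q B D) t := by
  unfold FF
  have h1 : AnalyticAt ℂ (fun t => q.eval t) t := by
    have := (Polynomial.differentiable q).analyticAt t
    exact this
  exact (h1.pow _).mul ((analyticAt_inv ht).pow _)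

theorem continuousAt_FF (q : Polynomial ℂ) (B D : ℕ) {t : ℂ} (ht : t ≠ 0) :
    ContinuousAt (FF q B D) t := (analyticAt_FF q B D ht).continuousAt

theorem FF_ne (q : Polynomial ℂ) (B D : ℕ) {t : ℂ} (ht : t ≠ 0) (hq : q.eval t ≠ 0) :
    FF q B D t ≠ 0 := mul_ne_zero (pow_ne_zero _ hq) (pow_ne_zero _ (inv_ne_zero ht))

theorem bound {h : MvPolynomial (Fin n) ℂ} {b : M → ℝ} (hb0 : ∀ x, 0 ≤ b x)
    {A B : ℕ} {k : ℕ} {C : ℝ}
    (hG : ∀ x, b x ^ k * ‖MvPolynomial.eval (cp x) h‖ ^ B ≤ C * (1 + ‖cp x‖) ^ A)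
    {z0 v : Fin n → ℂ} {r c : ℝ} (hr : 0 < r) (hc : 0 < c) {D : ℕ}
    (hD : A + (B + 2) * (lpoly h z0 v).natDegree < 2 * D) :
    ∃ R δ : ℝ, 0 < δ ∧ ∀ (x : M) (t : ℂ), cp x = z0 + t • v → r ≤ ‖t‖ →
      c ≤ b x ^ k * ‖FF (lpoly h z0 v) B D t‖ ^ 2 →
      ‖cp x‖ ≤ R ∧ δ ≤ ‖MvPolynomial.eval (cp x) h‖ := by
  set q := lpoly h z0 v with hq
  obtain ⟨Cq, hCq, hgr⟩ := poly_growth q
  set C' : ℝ := max C 1 with hC'
  have hC'1 : 1 ≤ C' := le_max_right _ _
  set C1 : ℝ := 1 + ‖z0‖ + ‖v‖ with hC1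
  have hC1p : 1 ≤ C1 := by have := norm_nonneg z0; have := norm_nonneg v; linarith
  set E := A + (B + 2) * q.natDegree with hE
  set K : ℝ := C' * C1 ^ A * Cq ^ (B + 2) * 2 ^ E with hK
  have hK0 : 0 ≤ K := by positivity
  set R1 : ℝ := max 1 (K / c) with hR1
  have hR11 : 1 ≤ R1 := le_max_left _ _
  set δ0 : ℝ := c * r ^ (2 * D) / (C' * (C1 * (1 + R1)) ^ A) with hδ0
  have hδ0p : 0 < δ0 := by positivity
  -- the basic inequality
  have key : ∀ (x : M) (t : ℂ), cp x = z0 + t • v →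
      b x ^ k * ‖FF q B D t‖ ^ 2 * ‖t‖ ^ (2 * D) ≤
        C' * (C1 * (1 + ‖t‖)) ^ A * ‖q.eval t‖ ^ (B + 2) := by
    intro x t hx
    have h1 : ‖MvPolynomial.eval (cp x) h‖ = ‖q.eval t‖ := by rw [hq, lpoly_eval, ← hx]
    have h2 : ‖FF q B D t‖ ^ 2 * ‖t‖ ^ (2 * D) ≤ ‖q.eval t‖ ^ B * ‖q.eval t‖ ^ (B + 2) := by
      rcases eq_or_ne t 0 with rfl | ht
      · rcases Nat.eq_zero_or_pos D with hD0 | hD0
        · omega
        · have : ‖(0 : ℂ)‖ ^ (2 * D) = 0 := by
            rw [norm_zero, zero_pow (by omega)]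
          rw [this, mul_zero]
          positivity
      · have h3 : ‖t‖ ≠ 0 := norm_ne_zero_iff.2 ht
        have h4 : ‖FF q B D t‖ ^ 2 * ‖t‖ ^ (2 * D) =
            ‖q.eval t‖ ^ B * ‖q.eval t‖ ^ (B + 2) := by
          unfold FF
          rw [norm_mul, norm_pow, norm_pow, norm_inv, mul_pow, ← pow_mul, ← pow_mul,
            mul_assoc, inv_pow, mul_comm D 2, inv_mul_cancel₀ (pow_ne_zero _ h3), mul_one,
            ← pow_add]
          congr 1
          ring
        exact h4.le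
    have h5 : ‖cp x‖ ≤ ‖z0‖ + ‖t‖ * ‖v‖ := by
      rw [hx]
      refine (norm_add_le _ _).trans ?_
      rw [norm_smul]
    have h6 : 1 + ‖cp x‖ ≤ C1 * (1 + ‖t‖) := by
      have h7 : (0:ℝ) ≤ ‖t‖ := norm_nonneg _
      have h8 : (0:ℝ) ≤ ‖v‖ := norm_nonneg _
      have h9 : (0:ℝ) ≤ ‖z0‖ := norm_nonneg _
      rw [hC1]
      nlinarith [mul_nonneg h7 h9]
    have h10 := hG x
    rw [h1] at h10
    have h11 : C * (1 + ‖cp x‖) ^ A ≤ C' * (C1 * (1 + ‖t‖)) ^ A := by
      have : (0:ℝ) ≤ 1 + ‖cp x‖ := by positivity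
      exact mul_le_mul (le_max_left _ _) (pow_le_pow_left₀ this h6 _) (by positivity)
        (by positivity)
    calc b x ^ k * ‖FF q B D t‖ ^ 2 * ‖t‖ ^ (2 * D)
        = b x ^ k * (‖FF q B D t‖ ^ 2 * ‖t‖ ^ (2 * D)) := by ring
      _ ≤ b x ^ k * (‖q.eval t‖ ^ B * ‖q.eval t‖ ^ (B + 2)) :=
          mul_le_mul_of_nonneg_left h2 (pow_nonneg (hb0 x) _)
      _ = b x ^ k * ‖q.eval t‖ ^ B * ‖q.eval t‖ ^ (B + 2) := by ring
      _ ≤ C' * (C1 * (1 + ‖t‖)) ^ A * ‖q.eval t‖ ^ (B + 2) :=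
          mul_le_mul_of_nonneg_right (h10.trans h11) (by positivity)
  refine ⟨C1 * (1 + R1), min 1 δ0, lt_min one_pos hδ0p, fun x t hx hrt hcW => ?_⟩
  have hk1 := key x t hx
  have htp : 0 < ‖t‖ := hr.trans_le hrt
  -- bound of `t`
  have ht1 : ‖t‖ ≤ R1 := by
    by_contra hcon
    push Not at hcon
    have h1 : 1 ≤ ‖t‖ := hR11.trans hcon.le
    have h2 : (1 + ‖t‖) ≤ 2 * ‖t‖ := by linarith
    have h3 : C' * (C1 * (1 + ‖t‖)) ^ A * ‖q.eval t‖ ^ (B + 2) ≤ K * ‖t‖ ^ E := by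
      calc C' * (C1 * (1 + ‖t‖)) ^ A * ‖q.eval t‖ ^ (B + 2)
          ≤ C' * (C1 * (1 + ‖t‖)) ^ A * (Cq * (1 + ‖t‖) ^ q.natDegree) ^ (B + 2) :=
            mul_le_mul_of_nonneg_left (pow_le_pow_left₀ (norm_nonneg _) (hgr t) _)
              (by positivity)
        _ = C' * C1 ^ A * Cq ^ (B + 2) * (1 + ‖t‖) ^ E := by
            rw [hE, mul_pow, mul_pow, ← pow_mul, pow_add, mul_comm q.natDegree (B + 2)]; ring
        _ ≤ C' * C1 ^ A * Cq ^ (B + 2) * (2 * ‖t‖) ^ E :=
            mul_le_mul_of_nonneg_left (pow_le_pow_left₀ (by positivity) h2 _) (by positivity)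
        _ = K * ‖t‖ ^ E := by rw [hK]; ring
    have h4 : c * ‖t‖ ^ (2 * D) ≤ K * ‖t‖ ^ E :=
      (mul_le_mul_of_nonneg_right hcW (by positivity)).trans (hk1.trans h3)
    have h5 : ‖t‖ ^ (2 * D) = ‖t‖ ^ E * ‖t‖ ^ (2 * D - E) := by
      rw [← pow_add]; congr 1; omega
    rw [h5] at h4
    have h6 : c * ‖t‖ ^ (2 * D - E) ≤ K := by
      have h7 : 0 < ‖t‖ ^ E := by positivity
      nlinarith [h4]
    have h8 : ‖t‖ ≤ ‖t‖ ^ (2 * D - E) := le_self_pow₀ h1 (by omega)
    have h9 : c * ‖t‖ ≤ K := (mul_le_mul_of_nonneg_left h8 hc.le).trans h6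
    have h10 : ‖t‖ ≤ K / c := by rw [le_div_iff₀ hc]; linarith
    exact absurd (h10.trans (le_max_right _ _)) (not_le.2 hcon)
  have ht2 : C1 * (1 + ‖t‖) ≤ C1 * (1 + R1) := by
    have : (0:ℝ) ≤ C1 := by linarith
    gcongr
  constructor
  · have h5 : ‖cp x‖ ≤ ‖z0‖ + ‖t‖ * ‖v‖ := by
      rw [hx]
      refine (norm_add_le _ _).trans ?_
      rw [norm_smul]
    have h7 : (0:ℝ) ≤ ‖t‖ := norm_nonneg _
    have h8 : (0:ℝ) ≤ ‖v‖ := norm_nonneg _
    have h9 : (0:ℝ) ≤ ‖z0‖ := norm_nonneg _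
    refine le_trans ?_ ht2
    rw [hC1]
    nlinarith [mul_nonneg h7 h9]
  · have h1 : ‖MvPolynomial.eval (cp x) h‖ = ‖q.eval t‖ := by rw [hq, lpoly_eval, ← hx]
    rw [h1]
    have h2 : c * r ^ (2 * D) ≤ C' * (C1 * (1 + R1)) ^ A * ‖q.eval t‖ ^ (B + 2) := by
      calc c * r ^ (2 * D) ≤ b x ^ k * ‖FF q B D t‖ ^ 2 * ‖t‖ ^ (2 * D) :=
            mul_le_mul hcW (pow_le_pow_left₀ hr.le hrt _) (by positivity)
              (hc.le.trans hcW)
        _ ≤ _ := hk1
        _ ≤ C' * (C1 * (1 + R1)) ^ A * ‖q.eval t‖ ^ (B + 2) :=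
          mul_le_mul_of_nonneg_right (mul_le_mul_of_nonneg_left
            (pow_le_pow_left₀ (by positivity) ht2 _) (by positivity)) (by positivity)
    have h3 : δ0 ≤ ‖q.eval t‖ ^ (B + 2) := by
      rw [hδ0, div_le_iff₀ (by positivity)]
      linarith
    rcases le_total 1 ‖q.eval t‖ with h4 | h4
    · exact (min_le_left _ _).trans h4
    · refine (min_le_right _ _).trans (h3.trans ?_)
      calc ‖q.eval t‖ ^ (B + 2) ≤ ‖q.eval t‖ ^ 1 :=
            pow_le_pow_of_le_one (norm_nonneg _) h4 (by omega)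
        _ = _ := pow_one _

/-- the maximum principle on the part `r ≤ ‖t‖` of the line: reduction to the circle `‖t‖ = r`. The
function `W = b^k ‖F‖²` tends to `0` at the ends. -/
theorem step_k {h : MvPolynomial (Fin n) ℂ} (P : Prp h M) {b : M → ℝ} (hb0 : ∀ x, 0 ≤ b x)
    (husc : UpperSemicontinuous b) (hmp : MaxPr b) {A B : ℕ} {k : ℕ} (hk : 0 < k) {C : ℝ}
    (hG : ∀ x, b x ^ k * ‖MvPolynomial.eval (cp x) h‖ ^ B ≤ C * (1 + ‖cp x‖) ^ A)
    {z0 v : Fin n → ℂ} {i : Fin n} (hi : v i ≠ 0) {xs : M} {ts : ℂ} (hxs : cp xs = z0 + ts • v)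
    {r : ℝ} (hr : 0 < r) (hrt : r ≤ ‖ts‖) (hbs : 0 < b xs) {D : ℕ}
    (hD : A + (B + 2) * (lpoly h z0 v).natDegree < 2 * D) :
    ∃ (y : M) (t : ℂ), ‖t‖ = r ∧ cp y = z0 + t • v ∧
      b xs ^ k * ‖FF (lpoly h z0 v) B D ts‖ ^ 2 ≤ b y ^ k * ‖FF (lpoly h z0 v) B D t‖ ^ 2 := by
  set q := lpoly h z0 v with hq
  set W : M → ℝ := fun x => b x ^ k * ‖FF q B D (tau z0 v i x)‖ ^ 2 with hW
  set K : Set M := {x | cp x = z0 + tau z0 v i x • v ∧ r ≤ ‖tau z0 v i x‖} with hKdef
  have hτs : tau z0 v i xs = ts := tau_eq hi hxs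
  have hKcl : IsClosed K := by
    have h1 := cp_cont (M := M)
    have h2 := continuous_tau (M := M) z0 v i
    exact (isClosed_eq h1 (by fun_prop)).inter (isClosed_le continuous_const h2.norm)
  have hxsK : xs ∈ K := ⟨by rw [hτs]; exact hxs, by rw [hτs]; exact hrt⟩
  have hts : ts ≠ 0 := by
    intro h0; rw [h0, norm_zero] at hrt; linarith
  have hqs : q.eval ts ≠ 0 := P.hasLine hxs
  have hcpos : 0 < W xs := by
    rw [hW]
    simp only [hτs]
    exact mul_pos (pow_pos hbs _) (pow_pos (norm_pos_iff.2 (FF_ne q B D hts hqs)) _)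
  obtain ⟨R, δ, hδ, hbd⟩ := bound (M := M) hb0 hG hr hcpos hD
  set K' : Set M := K ∩ {x : M | ‖cp x‖ ≤ R ∧ δ ≤ ‖MvPolynomial.eval (cp x) h‖} with hK'
  have hK'c : IsCompact K' := by
    rw [hK', inter_comm]
    exact (P.cpt R δ hδ).inter_right hKcl
  have hin : ∀ x ∈ K, W xs ≤ W x → x ∈ K' := fun x hx hWx =>
    ⟨hx, hbd x (tau z0 v i x) hx.1 hx.2 hWx⟩
  have hxsK' : xs ∈ K' := hin xs hxsK le_rfl
  have huscW : UpperSemicontinuousOn W K' := by
    intro x hx
    have hτ0 : tau z0 v i x ≠ 0 := by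
      intro h0
      have := hx.1.2
      rw [h0, norm_zero] at this
      linarith
    have h1 : ContinuousAt (fun x => ‖FF q B D (tau z0 v i x)‖ ^ 2) x := by
      have h2 : ContinuousAt (FF q B D) (tau z0 v i x) := continuousAt_FF q B D hτ0
      have h3 : ContinuousAt (tau (M := M) z0 v i) x := (continuous_tau z0 v i).continuousAt
      exact (ContinuousAt.comp (g := FF q B D) h2 h3).norm.pow 2
    exact usc_mul (((usc_pow hb0 husc k).upperSemicontinuousAt x).upperSemicontinuousWithinAt K')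
      h1.continuousWithinAt (fun y => pow_nonneg (hb0 y) _) (fun y => by positivity)
  obtain ⟨x1, hx1, hmax1⟩ := huscW.exists_isMaxOn ⟨xs, hxsK'⟩ hK'c
  have hmax : ∀ x ∈ K, W x ≤ W x1 := by
    intro x hx
    by_cases hWx : W xs ≤ W x
    · exact hmax1 (hin x hx hWx)
    · exact (not_le.1 hWx).le.trans (hmax1 hxsK')
  have hMc : IsCompact (K' ∩ W ⁻¹' Ici (W x1)) := huscW.isCompact_inter_preimage_Ici hK'c _
  obtain ⟨x2, hx2, hmin⟩ := hMc.exists_isMinOn ⟨x1, hx1, mem_preimage.2 (mem_Ici.2 le_rfl)⟩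
    ((continuous_tau (M := M) z0 v i).norm.continuousOn)
  have hW2 : W x2 = W x1 := le_antisymm (hmax x2 hx2.1.1) hx2.2
  have hr2 : ‖tau z0 v i x2‖ = r := by
    by_contra hne
    have hlt : r < ‖tau z0 v i x2‖ := lt_of_le_of_ne hx2.1.1.2 (Ne.symm hne)
    set t2 := tau z0 v i x2 with ht2
    have ht20 : t2 ≠ 0 := by
      intro h0; rw [h0, norm_zero] at hlt; linarith
    -- points of the disc are in `K`
    have hev : ∀ᶠ s in 𝓝 (0 : ℂ), ln x2 v s ∈ K ∧ tau z0 v i (ln x2 v s) = t2 + s := by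
      have h1 : ∀ᶠ s in 𝓝 (0 : ℂ), r < ‖t2 + s‖ := by
        have h2 : Continuous (fun s : ℂ => ‖t2 + s‖) := by fun_prop
        have h3 := h2.tendsto 0
        simp only [add_zero] at h3
        exact h3.eventually (lt_mem_nhds hlt)
      filter_upwards [cp_ln x2 v, h1] with s hs1 hs2
      have h4 : cp (ln x2 v s) = z0 + (t2 + s) • v := by
        rw [hs1, hx2.1.1.1, ← ht2, add_smul, add_assoc]
      have h5 : tau z0 v i (ln x2 v s) = t2 + s := tau_eq hi h4
      exact ⟨⟨by rw [h5]; exact h4, by rw [h5]; exact hs2.le⟩, h5⟩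
    have hA : AnalyticAt ℂ (fun s : ℂ => FF q B D (t2 + s)) 0 := by
      have h1 : AnalyticAt ℂ (FF q B D) (t2 + 0) := by
        rw [add_zero]; exact analyticAt_FF q B D ht20
      exact h1.comp (analyticAt_const.add analyticAt_id)
    have hq2 : q.eval t2 ≠ 0 := P.hasLine hx2.1.1.1
    have h6 := hmp x2 v (fun s : ℂ => FF q B D (t2 + s)) k hk hA
      (by simpa using FF_ne q B D ht20 hq2)
      (by
        filter_upwards [hev] with s hs
        have h7 := hmax _ hs.1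
        rw [← hW2] at h7
        simp only [hW, hs.2] at h7
        simpa using h7)
    -- move towards the circle
    have h8 : Tendsto (fun η : ℝ => -(η : ℂ) * t2) (𝓝[>] 0) (𝓝 0) := by
      have : Continuous (fun η : ℝ => -(η : ℂ) * t2) := by fun_prop
      have h9 := this.tendsto 0
      simp only [Complex.ofReal_zero, neg_zero, zero_mul] at h9
      exact h9.mono_left nhdsWithin_le_nhds
    have h10 : ∀ᶠ η : ℝ in 𝓝[>] 0, η < 1 := by
      have : ∀ᶠ η : ℝ in 𝓝 0, η < 1 := gt_mem_nhds one_pos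
      exact this.filter_mono nhdsWithin_le_nhds
    obtain ⟨η, ⟨⟨⟨h11, h12⟩, h13⟩, h14⟩⟩ :=
      ((((h8.eventually (hev.and h6)).and h10).and self_mem_nhdsWithin)).exists
    have h14' : 0 < η := h14
    set s : ℂ := -(η : ℂ) * t2 with hs
    have h15 : W (ln x2 v s) = W x2 := by
      have h16 := h12
      simp only [add_zero] at h16
      simp only [hW, h11.2]
      exact h16
    have h17 : ln x2 v s ∈ K' := hin _ h11.1 (by rw [h15, hW2]; exact hmax xs hxsK)
    have h18 := hmin (a := ln x2 v s) ⟨h17, by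
      rw [mem_preimage, mem_Ici, h15, hW2]⟩
    have h18' : ‖tau z0 v i x2‖ ≤ ‖tau z0 v i (ln x2 v s)‖ := h18
    rw [h11.2] at h18'
    have h19 : t2 + s = ((1 - η : ℝ) : ℂ) * t2 := by rw [hs]; push_cast; ring
    rw [h19, norm_mul, Complex.norm_real, Real.norm_eq_abs, abs_of_pos (by linarith)] at h18'
    rw [← ht2] at h18'
    have h20 : 0 < ‖t2‖ := norm_pos_iff.2 ht20
    nlinarith
  refine ⟨x2, tau z0 v i x2, hr2, hx2.1.1.1, ?_⟩
  have h21 := hmax xs hxsK
  rw [← hW2] at h21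
  simp only [hW, hτs] at h21
  exact h21

/-- the maximum over the circle `‖t‖ = r` dominates (case `b xs > 0`) -/
theorem circ_pos {h : MvPolynomial (Fin n) ℂ} (P : Prp h M) {b : M → ℝ} (hb0 : ∀ x, 0 ≤ b x)
    (husc : UpperSemicontinuous b) (hmp : MaxPr b) {A B : ℕ}
    (hG : ∀ k : ℕ, 0 < k → ∃ C : ℝ, ∀ x,
      b x ^ k * ‖MvPolynomial.eval (cp x) h‖ ^ B ≤ C * (1 + ‖cp x‖) ^ A)
    {z0 v : Fin n → ℂ} (hv : v ≠ 0) {xs : M} {ts : ℂ} (hxs : cp xs = z0 + ts • v)
    {r : ℝ} (hr : 0 < r) (hrt : r ≤ ‖ts‖)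
    (hq0 : ∀ t : ℂ, ‖t‖ = r → MvPolynomial.eval (z0 + t • v) h ≠ 0) (hbs : 0 < b xs) :
    ∃ (y : M) (t : ℂ), ‖t‖ = r ∧ cp y = z0 + t • v ∧ b xs ≤ b y := by
  obtain ⟨i, hi⟩ : ∃ i, v i ≠ 0 := by
    by_contra hcon
    push Not at hcon
    exact hv (funext hcon)
  set q := lpoly h z0 v with hq
  set D := A + (B + 2) * q.natDegree + 1 with hDdef
  have hD : A + (B + 2) * q.natDegree < 2 * D := by omega
  have hts : ts ≠ 0 := by
    intro h0; rw [h0, norm_zero] at hrt; linarith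
  -- circle is compact
  set S : Set M := {x | cp x = z0 + tau z0 v i x • v ∧ ‖tau z0 v i x‖ = r} with hS
  have hsph : IsCompact (sphere (0 : ℂ) r) := isCompact_sphere _ _
  have hsne : (sphere (0 : ℂ) r).Nonempty := (NormedSpace.sphere_nonempty).2 hr.le
  have hScl : IsClosed S := by
    have h1 := cp_cont (M := M)
    have h2 := continuous_tau (M := M) z0 v i
    exact (isClosed_eq h1 (by fun_prop)).inter (isClosed_eq h2.norm continuous_const)
  obtain ⟨tm, htm, hmin⟩ := hsph.exists_isMinOn hsne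
    (f := fun t => ‖q.eval t‖) ((Polynomial.continuous q).norm.continuousOn)
  have hδ : 0 < ‖q.eval tm‖ := by
    rw [norm_pos_iff, hq, lpoly_eval]
    exact hq0 tm (by simpa using htm)
  have hSc : IsCompact S := by
    refine (P.cpt (‖z0‖ + r * ‖v‖) ‖q.eval tm‖ hδ).of_isClosed_subset hScl ?_
    intro x hx
    refine ⟨?_, ?_⟩
    · rw [hx.1]
      refine (norm_add_le _ _).trans ?_
      rw [norm_smul, hx.2]
    · have h1 : MvPolynomial.eval (cp x) h = q.eval (tau z0 v i x) := by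
        rw [hq, lpoly_eval, ← hx.1]
      rw [h1]
      exact hmin (show tau z0 v i x ∈ sphere (0 : ℂ) r by simpa using hx.2)
  -- non empty
  have hne : S.Nonempty := by
    obtain ⟨C, hC⟩ := hG 1 one_pos
    obtain ⟨y, t, ht, hy, -⟩ := step_k P hb0 husc hmp one_pos hC hi hxs hr hrt hbs hD
    exact ⟨y, by rw [tau_eq hi hy]; exact hy, by rw [tau_eq hi hy]; exact ht⟩
  obtain ⟨y, hyS, hymax⟩ := (husc.upperSemicontinuousOn S).exists_isMaxOn hne hSc
  refine ⟨y, tau z0 v i y, hyS.2, hyS.1, ?_⟩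
  by_contra hcon
  push Not at hcon
  obtain ⟨tM, htM, hMax⟩ := hsph.exists_isMaxOn hsne
    (f := fun t => ‖FF q B D t‖ ^ 2) (by
      intro t ht
      have ht0 : t ≠ 0 := by
        intro h0
        rw [h0] at ht
        simp at ht
        linarith
      exact ((continuousAt_FF q B D ht0).norm.pow 2).continuousWithinAt)
  set a1 : ℝ := ‖FF q B D ts‖ ^ 2 with ha1
  have ha1p : 0 < a1 := pow_pos (norm_pos_iff.2 (FF_ne q B D hts (P.hasLine hxs))) _
  set a2 : ℝ := ‖FF q B D tM‖ ^ 2 with ha2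
  have hkey : ∀ k : ℕ, 0 < k → b xs ^ k * a1 ≤ b y ^ k * a2 := by
    intro k hk
    obtain ⟨C, hC⟩ := hG k hk
    obtain ⟨y', t, ht, hy', h1⟩ := step_k P hb0 husc hmp hk hC hi hxs hr hrt hbs hD
    have hτ := tau_eq hi hy'
    have h2 : b y' ≤ b y := hymax (show y' ∈ S from ⟨by rw [hτ]; exact hy', by rw [hτ]; exact ht⟩)
    have h3 : ‖FF q B D t‖ ^ 2 ≤ a2 := hMax (show t ∈ sphere (0 : ℂ) r by simpa using ht)
    calc b xs ^ k * a1 ≤ b y' ^ k * ‖FF q B D t‖ ^ 2 := h1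
      _ ≤ b y ^ k * a2 := mul_le_mul (pow_le_pow_left₀ (hb0 _) h2 _) h3 (by positivity)
          (pow_nonneg (hb0 _) _)
  have hρ : b y / b xs < 1 := (div_lt_one hbs).2 hcon
  have hρ0 : 0 ≤ b y / b xs := div_nonneg (hb0 _) hbs.le
  have h4 : Tendsto (fun k : ℕ => (b y / b xs) ^ k * a2) atTop (𝓝 (0 * a2)) :=
    (tendsto_pow_atTop_nhds_zero_of_lt_one hρ0 hρ).mul_const a2
  rw [zero_mul] at h4
  obtain ⟨k, hk1, hk2⟩ := ((h4.eventually (gt_mem_nhds ha1p)).and (eventually_gt_atTop 0)).exists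
  have h5 := hkey k hk2
  have h6 : b y ^ k = (b y / b xs) ^ k * b xs ^ k := by
    rw [div_pow]; field_simp
  rw [h6] at h5
  have h7 : 0 < b xs ^ k := pow_pos hbs _
  nlinarith

theorem maxPr_one : MaxPr (fun _ : M => (1 : ℝ)) := by
  intro x v F k hk hF hF0 hloc
  have h1 : ∀ᶠ t in 𝓝 (0 : ℂ), DifferentiableAt ℂ F t := by
    filter_upwards [hF.eventually_analyticAt] with t ht
    exact ht.differentiableAt
  have h2 : IsLocalMax (norm ∘ F) 0 := by
    filter_upwards [hloc] with t ht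
    simp only [one_pow, one_mul] at ht
    simp only [Function.comp_apply]
    exact (pow_le_pow_iff_left₀ (norm_nonneg _) (norm_nonneg _) two_ne_zero).1 ht
  filter_upwards [Complex.eventually_eq_of_isLocalMax_norm h1 h2] with t ht
  rw [ht]

/-- the maximum over the circle `‖t‖ = r` dominates -/
theorem circ {h : MvPolynomial (Fin n) ℂ} (P : Prp h M) {b : M → ℝ} (hb0 : ∀ x, 0 ≤ b x)
    (husc : UpperSemicontinuous b) (hmp : MaxPr b) {A B : ℕ}
    (hG : ∀ k : ℕ, 0 < k → ∃ C : ℝ, ∀ x,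
      b x ^ k * ‖MvPolynomial.eval (cp x) h‖ ^ B ≤ C * (1 + ‖cp x‖) ^ A)
    {z0 v : Fin n → ℂ} (hv : v ≠ 0) {xs : M} {ts : ℂ} (hxs : cp xs = z0 + ts • v)
    {r : ℝ} (hr : 0 < r) (hrt : r ≤ ‖ts‖)
    (hq0 : ∀ t : ℂ, ‖t‖ = r → MvPolynomial.eval (z0 + t • v) h ≠ 0) :
    ∃ (y : M) (t : ℂ), ‖t‖ = r ∧ cp y = z0 + t • v ∧ b xs ≤ b y := by
  rcases (hb0 xs).eq_or_lt with hb | hbs
  · obtain ⟨y, t, ht, hy, -⟩ := circ_pos P (b := fun _ => (1 : ℝ)) (A := 0) (B := 0)
      (fun _ => zero_le_one) continuous_const.upperSemicontinuous maxPr_one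
      (fun k _ => ⟨1, fun x => by simp⟩) hv hxs hr hrt hq0 one_pos
    exact ⟨y, t, ht, hy, by rw [← hb]; exact hb0 y⟩
  · exact circ_pos P hb0 husc hmp hG hv hxs hr hrt hq0 hbs

/-- over every `z0` with `h z0 ≠ 0` there is a point where `b` is at least as large as at `x` -/
theorem exists_fibre_ge {h : MvPolynomial (Fin n) ℂ} (P : Prp h M) {b : M → ℝ}
    (hb0 : ∀ x, 0 ≤ b x) (husc : UpperSemicontinuous b) (hmp : MaxPr b) {A B : ℕ}
    (hG : ∀ k : ℕ, 0 < k → ∃ C : ℝ, ∀ x,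
      b x ^ k * ‖MvPolynomial.eval (cp x) h‖ ^ B ≤ C * (1 + ‖cp x‖) ^ A)
    {z0 : Fin n → ℂ} (hz0 : MvPolynomial.eval z0 h ≠ 0) (x : M) :
    ∃ y : M, cp y = z0 ∧ b x ≤ b y := by
  rcases eq_or_ne (cp x) z0 with he | hne
  · exact ⟨x, he, le_rfl⟩
  set v := cp x - z0 with hvdef
  have hv : v ≠ 0 := sub_ne_zero.2 hne
  obtain ⟨i, hi⟩ : ∃ i, v i ≠ 0 := by
    by_contra hcon
    push Not at hcon
    exact hv (funext hcon)
  have hxs : cp x = z0 + (1 : ℂ) • v := by rw [one_smul, hvdef]; abel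
  -- a small closed disc on which `h ≠ 0`
  set q := lpoly h z0 v with hq
  have hq00 : q.eval 0 ≠ 0 := by rw [hq, lpoly_eval]; simpa using hz0
  have h1 : ∀ᶠ t in 𝓝 (0 : ℂ), ‖q.eval 0‖ / 2 < ‖q.eval t‖ := by
    have h2 : Continuous (fun t => ‖q.eval t‖) := (Polynomial.continuous q).norm
    have h3 := h2.tendsto 0
    exact h3.eventually (lt_mem_nhds (by have := norm_pos_iff.2 hq00; linarith))
  obtain ⟨ρ, hρ, hρq⟩ := Metric.eventually_nhds_iff_ball.1 h1
  set r0 := min (ρ / 2) 1 with hr0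
  have hr0p : 0 < r0 := by positivity
  have hr0q : ∀ t : ℂ, ‖t‖ ≤ r0 → ‖q.eval 0‖ / 2 < ‖q.eval t‖ := by
    intro t ht
    apply hρq
    rw [mem_ball_zero_iff]
    have : r0 ≤ ρ / 2 := min_le_left _ _
    linarith
  set S : ℕ → Set M := fun m => {y | cp y = z0 + tau z0 v i y • v ∧
    ‖tau z0 v i y‖ ≤ r0 / (m + 1) ∧ b x ≤ b y} with hS
  have hScl : ∀ m, IsClosed (S m) := by
    intro m
    have h1 := cp_cont (M := M)
    have h2 := continuous_tau (M := M) z0 v i
    have h3 : IsClosed {y : M | b x ≤ b y} := by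
      have := husc.isClosed_preimage (b x)
      exact this
    exact (isClosed_eq h1 (by fun_prop)).inter ((isClosed_le h2.norm continuous_const).inter h3)
  have hle : ∀ m : ℕ, r0 / (m + 1) ≤ r0 := fun m =>
    div_le_self hr0p.le (by have : (0:ℝ) ≤ m := Nat.cast_nonneg m; linarith)
  have hSc0 : IsCompact (S 0) := by
    refine (P.cpt (‖z0‖ + r0 * ‖v‖) (‖q.eval 0‖ / 2)
      (by have := norm_pos_iff.2 hq00; linarith)).of_isClosed_subset (hScl 0) ?_
    intro y hy
    have h4 : ‖tau z0 v i y‖ ≤ r0 := by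
      have := hy.2.1
      simpa using this
    refine ⟨?_, ?_⟩
    · rw [hy.1]
      refine (norm_add_le _ _).trans ?_
      rw [norm_smul]
      have := norm_nonneg v
      gcongr
    · have h5 : MvPolynomial.eval (cp y) h = q.eval (tau z0 v i y) := by
        rw [hq, lpoly_eval, ← hy.1]
      rw [h5]
      exact (hr0q _ h4).le
  have hSne : ∀ m, (S m).Nonempty := by
    intro m
    have hrp : 0 < r0 / ((m : ℝ) + 1) := by positivity
    obtain ⟨y, t, ht, hy, hb⟩ := circ P hb0 husc hmp hG hv hxs hrp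
      (by rw [norm_one]; exact (hle m).trans (min_le_right _ _))
      (fun t ht => by
        have h6 := hr0q t (by rw [ht]; exact hle m)
        intro h7
        have h8 : q.eval t = 0 := by rw [hq, lpoly_eval]; exact h7
        rw [h8, norm_zero] at h6
        have := norm_nonneg (q.eval 0)
        linarith)
    have hτ := tau_eq hi hy
    exact ⟨y, by rw [hτ]; exact hy, by rw [hτ, ht], hb⟩
  have hSanti : ∀ m, S (m + 1) ⊆ S m := by
    intro m y hy
    refine ⟨hy.1, hy.2.1.trans ?_, hy.2.2⟩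
    apply div_le_div_of_nonneg_left hr0p.le (by positivity)
    push_cast
    linarith
  obtain ⟨y, hy⟩ := IsCompact.nonempty_iInter_of_sequence_nonempty_isCompact_isClosed S hSanti hSne
    hSc0 hScl
  rw [mem_iInter] at hy
  have hτ0 : tau z0 v i y = 0 := by
    rw [← norm_le_zero_iff]
    have h8 : Tendsto (fun m : ℕ => r0 / ((m : ℝ) + 1)) atTop (𝓝 0) := by
      have := (tendsto_one_div_add_atTop_nhds_zero_nat (𝕜 := ℝ)).const_mul r0
      simpa [div_eq_mul_inv] using this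
    exact ge_of_tendsto' h8 (fun m => (hy m).2.1)
  refine ⟨y, ?_, (hy 0).2.2⟩
  have := (hy 0).1
  rw [hτ0] at this
  simpa using this

/-- `b` has a maximum on `M` -/
theorem exists_max {h : MvPolynomial (Fin n) ℂ} (P : Prp h M) {b : M → ℝ}
    (hb0 : ∀ x, 0 ≤ b x) (husc : UpperSemicontinuous b) (hmp : MaxPr b) {A B : ℕ}
    (hG : ∀ k : ℕ, 0 < k → ∃ C : ℝ, ∀ x,
      b x ^ k * ‖MvPolynomial.eval (cp x) h‖ ^ B ≤ C * (1 + ‖cp x‖) ^ A)
    [Nonempty M] : ∃ y : M, ∀ x, b x ≤ b y := by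
  obtain ⟨x0⟩ := ‹Nonempty M›
  set z0 := cp x0 with hz0
  have hS : IsCompact {x : M | cp x = z0} := by
    refine (P.cpt ‖z0‖ ‖MvPolynomial.eval z0 h‖ (norm_pos_iff.2 (P.ne x0))).of_isClosed_subset
      (isClosed_eq cp_cont continuous_const) ?_
    intro x hx
    have hx' : cp x = z0 := hx
    exact ⟨by rw [hx'], by rw [hx']⟩
  obtain ⟨y, hy, hmax⟩ := (husc.upperSemicontinuousOn _).exists_isMaxOn
    (⟨x0, hz0.symm⟩ : {x : M | cp x = z0}.Nonempty) hS
  refine ⟨y, fun x => ?_⟩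
  obtain ⟨y', hy', hb⟩ := exists_fibre_ge P hb0 husc hmp hG (P.ne x0) x
  exact hb.trans (hmax hy')

/-- **Liouville**: `b` is constant if `M` is preconnected -/
theorem const {h : MvPolynomial (Fin n) ℂ} (P : Prp h M) {b : M → ℝ}
    (hb0 : ∀ x, 0 ≤ b x) (husc : UpperSemicontinuous b) (hmp : MaxPr b) {A B : ℕ}
    (hG : ∀ k : ℕ, 0 < k → ∃ C : ℝ, ∀ x,
      b x ^ k * ‖MvPolynomial.eval (cp x) h‖ ^ B ≤ C * (1 + ‖cp x‖) ^ A)
    [PreconnectedSpace M] (x x' : M) : b x = b x' := by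
  have : Nonempty M := ⟨x⟩
  obtain ⟨y, hy⟩ := exists_max P hb0 husc hmp hG
  set m := b y with hm
  set T : Set M := {x | m ≤ b x} with hT
  have hTcl : IsClosed T := husc.isClosed_preimage m
  have hTo : IsOpen T := by
    rw [isOpen_iff_mem_nhds]
    intro p hp
    have hpm : b p = m := le_antisymm (hy p) hp
    obtain ⟨ρ, hρ, hball⟩ := Metric.mem_nhds_iff.1
      ((ch p).open_target.mem_nhds ((isCh_ch p).cp_mem (mem_ch p)))
    -- all points over the ball belong to `T`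
    have hall : ∀ w : Fin n → ℂ, ‖w‖ < ρ → m ≤ b ((ch p).symm (cp p + w)) := by
      intro w hw
      set c : ℝ → M := fun t => (ch p).symm (cp p + t • w) with hc
      have hmem : ∀ t ∈ Icc (0:ℝ) 1, cp p + t • w ∈ (ch p).target := by
        intro t ht
        apply hball
        rw [mem_ball_iff_norm, add_sub_cancel_left, norm_smul, Real.norm_eq_abs,
          abs_of_nonneg ht.1]
        have := norm_nonneg w
        nlinarith [ht.2]
      have hccont : ContinuousOn c (Icc 0 1) := by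
        have h1 : ContinuousOn (ch p).symm (ch p).target := (ch p).continuousOn_symm
        exact h1.comp (by fun_prop) hmem
      have hcl : IsClosed ((c ⁻¹' T) ∩ Icc (0:ℝ) 1) := by
        rw [inter_comm]
        exact hccont.preimage_isClosed_of_isClosed isClosed_Icc hTcl
      have h01 := hcl.Icc_subset_of_forall_mem_nhdsWithin (a := 0) (b := 1)
        (by
          rw [mem_preimage, hc]
          simp only [zero_smul, add_zero]
          rw [symm_cp]
          exact hp)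
        (by
          intro t ht
          have htI : t ∈ Icc (0:ℝ) 1 := ⟨ht.2.1, ht.2.2.le⟩
          set p' := c t with hp'
          have hp's : p' ∈ (ch p).source := (ch p).map_target (hmem t htI)
          have hcp' : cp p' = cp p + t • w := (isCh_ch p).cp_symm (hmem t htI)
          have hp'm : b p' = m := le_antisymm (hy _) ht.1
          have h2 := hmp p' w (fun _ => 1) 1 one_pos analyticAt_const one_ne_zero
            (Eventually.of_forall fun s => by
              simp only [pow_one, norm_one, one_pow, mul_one]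
              rw [hp'm]; exact hy _)
          -- the two local inverses agree
          have h3 := (isCh_ch p').germ (isCh_ch p) (mem_ch p') hp's
          have h4 : Tendsto (fun s : ℝ => cp p' + ((s - t : ℝ) : ℂ) • w) (𝓝 t) (𝓝 (cp p')) := by
            have : Continuous (fun s : ℝ => cp p' + ((s - t : ℝ) : ℂ) • w) := by fun_prop
            have h5 := this.tendsto t
            simpa using h5
          have h6 : Tendsto (fun s : ℝ => ((s - t : ℝ) : ℂ)) (𝓝 t) (𝓝 0) := by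
            have : Continuous (fun s : ℝ => ((s - t : ℝ) : ℂ)) := by fun_prop
            have h5 := this.tendsto t
            simpa using h5
          have h7 : ∀ᶠ s in 𝓝 t, c s ∈ T := by
            filter_upwards [h4.eventually h3, h6.eventually h2] with s hs1 hs2
            simp only [pow_one, norm_one, one_pow, mul_one] at hs2
            have h8 : cp p' + ((s - t : ℝ) : ℂ) • w = cp p + s • w := by
              rw [hcp', Complex.coe_smul, sub_smul]; abel
            have h9 : ln p' w ((s - t : ℝ) : ℂ) = c s := by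
              unfold ln
              rw [hs1, h8]
            rw [h9, hp'm] at hs2
            exact hs2.ge
          exact mem_nhdsWithin_of_mem_nhds h7)
      have := h01 (show (1:ℝ) ∈ Icc (0:ℝ) 1 from ⟨zero_le_one, le_rfl⟩)
      simpa [hc, hT] using this
    have h10 : ∀ᶠ z in 𝓝 p, z ∈ (ch p).source ∧ cp z ∈ ball (cp p) ρ := by
      have h11 : ∀ᶠ z in 𝓝 p, z ∈ (ch p).source := (ch p).open_source.mem_nhds (mem_ch p)
      have h12 : ∀ᶠ z in 𝓝 p, cp z ∈ ball (cp p) ρ :=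
        (cp_cont (M := M)).continuousAt.eventually (ball_mem_nhds _ hρ)
      exact h11.and h12
    filter_upwards [h10] with z hz
    have h11 := hall (cp z - cp p) (by rw [← mem_ball_iff_norm]; exact hz.2)
    rw [add_sub_cancel, (isCh_ch p).symm_cp hz.1] at h11
    exact h11
  have hTu : T = univ := by
    rcases isClopen_iff.1 ⟨hTcl, hTo⟩ with h1 | h1
    · exfalso
      have : y ∈ T := le_refl (b y)
      rw [h1] at this
      exact this
    · exact h1
  have h1 : ∀ z, b z = m := fun z => le_antisymm (hy z) (by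
    have : z ∈ T := by rw [hTu]; exact mem_univ z
    exact this)
  rw [h1, h1]

end Crest.Agent.R276.Liou_739
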