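import Crest.Agent.R276.MassA_137

/-!
# R276, leaf ALG-NL (helper137), part 4: total Monge-Ampère mass of a psh function of logarithmic growth

`mass_log` : `D ≥ 0` smooth on `M`, `log D` psh where `D > 0`, `log D ≤ C + C log (1+|z|²)`,
`{|z|² ≤ R, D ≥ ε}` compact, fibres of `p` with at most `N` points.  Then
`∫_{D>0} det Lv (log D) dμ ≤ N (C+1)^n ∫ (1+|z|²)^(-n-1)`.
-/

set_option autoImplicit false
set_option linter.unusedSectionVars false

noncomputable section

open Set Filter Topology MeasureTheory ComplexConjugate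
open scoped Matrix ENNReal

namespace Crest.Agent.R276.NL_137

open Crest.Agent.R271.Ho51

attribute [local instance] flat

variable {n : ℕ}

/-- the density `det Lv φ` as an element of `[0,∞]` -/
def dens {M : Type*} [TopologicalSpace M] [RDom n M] (φ : M → ℝ) (x : M) : ℝ≥0∞ :=
  ENNReal.ofReal (LvM φ x).det.re

section gen

variable {M : Type*} [TopologicalSpace M] [RDom n M] [T2Space M] [MeasurableSpace M] [BorelSpace M]
  {μ : Measure M}

lemma dens_measurable {φ : M → ℝ} (hφ : Sm φ) : Measurable (dens φ) :=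
  ENNReal.measurable_ofReal.comp
    (Complex.measurable_re.comp (Sm_detLv hφ).continuous.measurable)

lemma dens_congr {φ χ : M → ℝ} {x : M} (h : φ =ᶠ[𝓝 x] χ) : dens φ x = dens χ x := by
  rw [dens, dens, LvM_congr h]

/-- comparison of the masses of two psh functions which agree outside a compact set -/
theorem lintegral_dens_le (hμ : IsLeb μ) {φ χ : M → ℝ} (hφ : Sm φ) (hχ : Sm χ)
    (pφ : ∀ x w, 0 ≤ Levi φ x w) (pχ : ∀ x w, 0 ≤ Levi χ x w)
    (hc : HasCompactSupport (fun x => φ x - χ x)) : ∫⁻ x, dens φ x ∂μ ≤ ∫⁻ x, dens χ x ∂μ := by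
  by_cases hfin : ∫⁻ x, dens χ x ∂μ = ∞
  · rw [hfin]; exact le_top
  have h1 := integral_det_sub hμ hφ hχ hc
  set f : M → ℝ := fun x => (LvM φ x).det.re with hf
  set g : M → ℝ := fun x => (LvM χ x).det.re with hg
  have hf0 : ∀ x, 0 ≤ f x := fun x => (det_LvM_nonneg hφ (pφ x)).1
  have hg0 : ∀ x, 0 ≤ g x := fun x => (det_LvM_nonneg hχ (pχ x)).1
  have hfm : Measurable f := Complex.measurable_re.comp (Sm_detLv hφ).continuous.measurable
  have hgm : Measurable g := Complex.measurable_re.comp (Sm_detLv hχ).continuous.measurable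
  have hfg : Integrable (fun x => f x - g x) μ := by
    refine h1.1.re.congr (Eventually.of_forall fun x => ?_)
    simp [hf, hg]
  have hfg0 : ∫ x, (f x - g x) ∂μ = 0 := by
    have h2 : ∫ x, (f x - g x) ∂μ = ∫ x, (((LvM φ x).det - (LvM χ x).det).re) ∂μ := by
      simp [hf, hg]
    rw [h2]
    have h3 := integral_re h1.1
    have h4 : ∫ x, (((LvM φ x).det - (LvM χ x).det).re) ∂μ =
        (∫ x, ((LvM φ x).det - (LvM χ x).det) ∂μ).re := h3
    rw [h4, h1.2]; rfl
  have hgi : Integrable g μ := by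
    refine ⟨hgm.aestronglyMeasurable, ?_⟩
    rw [hasFiniteIntegral_iff_ofReal (Eventually.of_forall hg0)]
    exact lt_top_iff_ne_top.2 hfin
  have hfi : Integrable f μ := by
    refine (hfg.add hgi).congr (Eventually.of_forall fun x => ?_)
    simp
  have h5 : ∫ x, f x ∂μ = ∫ x, g x ∂μ := by
    rw [integral_sub hfi hgi] at hfg0
    linarith
  have h6 : ∫⁻ x, dens φ x ∂μ = ENNReal.ofReal (∫ x, f x ∂μ) :=
    (ofReal_integral_eq_lintegral_ofReal hfi (Eventually.of_forall hf0)).symm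
  have h7 : ∫⁻ x, dens χ x ∂μ = ENNReal.ofReal (∫ x, g x ∂μ) :=
    (ofReal_integral_eq_lintegral_ofReal hgi (Eventually.of_forall hg0)).symm
  rw [h6, h7, h5]

end gen

/-! ### the flat mass -/

/-- `∫ (1+|z|²)^(-n-1)` -/
def K0 (n : ℕ) : ℝ≥0∞ := ∫⁻ z : Fin n → ℂ, ENNReal.ofReal ((rho z)⁻¹ ^ (n + 1))

lemma K0_lt_top (n : ℕ) : K0 n < ∞ := by
  have h := (integrable_rho (n := n)).2
  rwa [hasFiniteIntegral_iff_ofReal (Eventually.of_forall fun z => by
    have := rho_pos z; unfold rho; positivity)] at h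

/-- `A log (1+|z|²) - B` -/
def bL (A B : ℝ) (z : Fin n → ℂ) : ℝ := A * Lg z + (-B)

lemma Sm_bL (A B : ℝ) : Sm (bL A B : (Fin n → ℂ) → ℝ) :=
  ((Sm.const A).mulR Sm_Lg).add (Sm.const _)

lemma Lv_bL (A B : ℝ) (z : Fin n → ℂ) (j k : Fin n) : Lv (bL A B) z j k = A * Lv Lg z j k := by
  unfold bL
  rw [Lv_add ((Sm.const A).mulR Sm_Lg) (Sm.const _), Lv_const, Lv_const_mul Sm_Lg, add_zero]

lemma Levi_bL {A : ℝ} (hA : 0 ≤ A) (B : ℝ) (z w : Fin n → ℂ) : 0 ≤ Levi (bL A B) z w := by
  unfold bL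
  rw [Levi_add ((Sm.const A).mulR Sm_Lg) (Sm.const _), Levi_const, Levi_const_mul Sm_Lg, add_zero]
  exact mul_nonneg hA (Levi_Lg_nonneg z w)

lemma dens_bL {A : ℝ} (hA : 0 ≤ A) (B : ℝ) (z : Fin n → ℂ) :
    dens (bL A B) z = ENNReal.ofReal (A ^ n) * ENNReal.ofReal ((rho z)⁻¹ ^ (n + 1)) := by
  have h1 : LvM (bL A B) z = (A : ℂ) • LvM Lg z := by
    ext j k
    simp [LvM, Lv_bL]
  rw [dens, h1, Matrix.det_smul, det_Lg, Fintype.card_fin, ← ENNReal.ofReal_mul (by positivity)]
  congr 1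
  rw [← Complex.ofReal_pow, ← Complex.ofReal_mul, Complex.ofReal_re]

/-- the comparison function on `ℂⁿ` -/
def wc (A B c : ℝ) (z : Fin n → ℂ) : ℝ := bL A B z + SM (c - bL A B z)

lemma Sm_wc (A B c : ℝ) : Sm (wc A B c : (Fin n → ℂ) → ℝ) :=
  (Sm_bL A B).add (Sm.comp SM_contDiff ((Sm.const c).sub (Sm_bL A B)))

lemma Levi_wc {A : ℝ} (hA : 0 ≤ A) (B c : ℝ) (z w : Fin n → ℂ) : 0 ≤ Levi (wc A B c) z w :=
  Levi_smax_nonneg (a := fun _ => c) (Sm.const c) (Sm_bL A B) (Levi_const c z w).ge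
    (Levi_bL hA B z w)

lemma isCompact_nsq (R : ℝ) : IsCompact {z : Fin n → ℂ | nsq z ≤ R} := by
  refine Metric.isCompact_of_isClosed_isBounded
    (isClosed_le continuous_nsq continuous_const) ?_
  refine (Metric.isBounded_closedBall (x := (0 : Fin n → ℂ)) (r := Real.sqrt R)).subset ?_
  intro z hz
  rw [mem_closedBall_zero_iff]
  exact Real.le_sqrt_of_sq_le ((norm_sq_le_nsq z).trans hz)

lemma Lg_gt {z : Fin n → ℂ} {T : ℝ} (hz : ¬ nsq z ≤ Real.exp T) : T ≤ Lg z := by
  rw [Lg, Real.le_log_iff_exp_le (rho_pos z)]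
  push Not at hz
  linarith

lemma lintegral_wc {A : ℝ} (hA : 1 ≤ A) (B c : ℝ) :
    ∫⁻ z : Fin n → ℂ, dens (wc A B c) z ≤ ENNReal.ofReal (A ^ n) * K0 n := by
  have hA0 : 0 ≤ A := by linarith
  have h1 : HasCompactSupport (fun z : Fin n → ℂ => wc A B c z - bL A B z) := by
    refine HasCompactSupport.intro (isCompact_nsq (Real.exp (c + B + 1 + |c + B + 1|))) fun z hz => ?_
    have h2 := Lg_gt hz
    have h3 : c - bL A B z ≤ -1 := by
      unfold bL
      have h4 : Lg z ≤ A * Lg z := le_mul_of_one_le_left (Lg_nonneg z) hA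
      have h5 := neg_abs_le (c + B + 1)
      have h6 := abs_nonneg (c + B + 1)
      linarith
    rw [wc, SM_zero h3]; ring
  refine (lintegral_dens_le isLeb_flat (Sm_wc A B c) (Sm_bL A B) (Levi_wc hA0 B c)
    (Levi_bL hA0 B) h1).trans ?_
  simp only [dens_bL hA0]
  rw [lintegral_const_mul _ ?_, K0]
  exact ENNReal.measurable_ofReal.comp
    ((Sm_rho.continuous.inv₀ fun z => (rho_pos z).ne').pow _).measurable

/-! ### the mass on `M` -/

section main

variable {M : Type*} [TopologicalSpace M] [RDom n M] [T2Space M] [SecondCountableTopology M]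
  [MeasurableSpace M] [BorelSpace M] {μ : Measure M}

lemma log_eq_VL {D : M → ℝ} (hD : Continuous D) {x : M} (hx : 0 < D x) :
    ∃ J : ℝ, (fun y => Real.log (D y)) =ᶠ[𝓝 x] fun y => VL J (D y) := by
  refine ⟨1 - Real.log (D x / 2), ?_⟩
  have h1 : ∀ᶠ y in 𝓝 x, D x / 2 < D y := hD.continuousAt.eventually (lt_mem_nhds (by linarith))
  filter_upwards [h1] with y hy
  rw [VL_large]
  rw [show -(1 - Real.log (D x / 2)) + 1 = Real.log (D x / 2) by ring,
    Real.exp_log (by linarith)]
  exact hy.le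

lemma Levi_VL_nonneg {D : M → ℝ} (hD : Sm D)
    (hpsh : ∀ x, 0 < D x → ∀ w, 0 ≤ Levi (fun y => Real.log (D y)) x w) (m : ℝ) (x : M)
    (w : Fin n → ℂ) : 0 ≤ Levi (fun y => VL m (D y)) x w := by
  by_cases hx : 0 < D x
  · obtain ⟨J, hJ⟩ := log_eq_VL hD.continuous hx
    have hs : Sm (fun y => VL J (D y)) := Sm.comp (VL_contDiff J) hD
    have h1 : (fun y => VL m (D y)) =ᶠ[𝓝 x]
        fun y => (fun _ : M => -m) y + SM (VL J (D y) - (fun _ : M => -m) y) := by
      filter_upwards [hJ, hD.continuous.continuousAt.eventually (lt_mem_nhds hx)] with y hy hy0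
      rw [VL_of_pos m hy0, ← hy, sub_neg_eq_add]
    rw [Levi_congr h1]
    refine Levi_smax_nonneg hs (Sm.const _) ?_ (Levi_const _ x w).ge
    rw [← Levi_congr hJ]
    exact hpsh x hx w
  · have h1 : (fun y => VL m (D y)) =ᶠ[𝓝 x] fun _ => -m := by
      have h2 : ∀ᶠ y in 𝓝 x, D y < Real.exp (-m - 1) :=
        hD.continuous.continuousAt.eventually
          (gt_mem_nhds ((not_lt.1 hx).trans_lt (Real.exp_pos _)))
      filter_upwards [h2] with y hy
      exact VL_small m hy.le
    rw [Levi_congr h1, Levi_const]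

/-- **total mass** of `log D` -/
theorem mass_log (hμ : IsLeb μ) {N : ℕ}
    (hN : ∀ z : Fin n → ℂ, ((cp : M → (Fin n → ℂ)) ⁻¹' {z}).encard ≤ N)
    {D : M → ℝ} (hD : Sm D)
    (hpsh : ∀ x, 0 < D x → ∀ w, 0 ≤ Levi (fun y => Real.log (D y)) x w)
    {C : ℝ} (hC : 0 ≤ C) (hgr : ∀ x, 0 < D x → Real.log (D x) ≤ C + C * Lg (cp x))
    (hcp : ∀ R ε : ℝ, 0 < ε → IsCompact {x : M | nsq (cp x) ≤ R ∧ ε ≤ D x}) :
    ∫⁻ x in {x | 0 < D x}, dens (fun y => Real.log (D y)) x ∂μ ≤
      N * (ENNReal.ofReal ((C + 1) ^ n) * K0 n) := by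
  set A := C + 1 with hA
  have hA1 : 1 ≤ A := by linarith
  have hA0 : 0 ≤ A := by linarith
  set b : ℕ → M → ℝ := fun m x => bL A m (cp x) with hb
  set a : ℕ → M → ℝ := fun m x => VL m (D x) with ha
  set w : ℕ → M → ℝ := fun m x => b m x + SM (a m x - b m x) with hw
  have hbs : ∀ m, Sm (b m) := fun m => Sm.of_coord (Sm_flat_iff.1 (Sm_bL A m))
  have has : ∀ m, Sm (a m) := fun m => Sm.comp (VL_contDiff m) hD
  have hws : ∀ m, Sm (w m) := fun m =>
    (hbs m).add (Sm.comp SM_contDiff ((has m).sub (hbs m)))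
  have hbp : ∀ m x v, 0 ≤ Levi (b m) x v := fun m x v => by
    rw [hb, Levi_coord]; exact Levi_bL hA0 _ _ _
  have hap : ∀ m x v, 0 ≤ Levi (a m) x v := fun m x v => Levi_VL_nonneg hD hpsh m x v
  have hwp : ∀ m x v, 0 ≤ Levi (w m) x v := fun m x v =>
    Levi_smax_nonneg (has m) (hbs m) (hap m x v) (hbp m x v)
  -- comparison function
  set w' : ℕ → M → ℝ := fun m x => wc A m (-m) (cp x) with hw'
  have hws' : ∀ m, Sm (w' m) := fun m => Sm.of_coord (Sm_flat_iff.1 (Sm_wc A m (-m)))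
  have hwp' : ∀ m x v, 0 ≤ Levi (w' m) x v := fun m x v => by
    rw [hw', Levi_coord]; exact Levi_wc hA0 _ _ _ _
  have hsup : ∀ m, HasCompactSupport (fun x => w m x - w' m x) := by
    intro m
    refine HasCompactSupport.intro
      (hcp (Real.exp (C + m + 2)) (Real.exp (-(m : ℝ) - 1)) (Real.exp_pos _)) fun x hx => ?_
    simp only [mem_ofPred_eq, not_and_or] at hx
    have hm : (0 : ℝ) ≤ m := Nat.cast_nonneg m
    rcases hx with hx | hx
    · have h1 : C + m + 2 ≤ Lg (cp x) := Lg_gt hx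
      have h2 : -(m : ℝ) - b m x ≤ -1 := by
        simp only [hb, bL, hA]
        nlinarith [Lg_nonneg (cp x)]
      have h3 : a m x - b m x ≤ -1 := by
        by_cases h0 : 0 < D x
        · have h4 := VL_le (m : ℝ) h0
          have h5 := hgr x h0
          have h6 : max (Real.log (D x)) (-(m : ℝ)) ≤ C + C * Lg (cp x) := by
            refine max_le h5 ?_
            have := Lg_nonneg (cp x)
            have : 0 ≤ C + C * Lg (cp x) := by positivity
            linarith
          simp only [ha, hb, bL, hA]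
          linarith
        · have h4 : a m x = -m := by
            simp only [ha]
            exact VL_small _ ((not_lt.1 h0).trans (Real.exp_pos _).le)
          rw [h4]; exact h2
      simp only [hw, hw', wc]
      rw [SM_zero h3]
      have h7 : -(m : ℝ) - bL A m (cp x) ≤ -1 := h2
      rw [SM_zero h7]
      simp [hb]
    · have h4 : a m x = -m := by
        simp only [ha]
        exact VL_small _ (not_le.1 hx).le
      simp only [hw, hw', wc, h4, hb, sub_self]
  have hbound : ∀ m, ∫⁻ x, dens (w m) x ∂μ ≤ N * (ENNReal.ofReal (A ^ n) * K0 n) := by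
    intro m
    refine (lintegral_dens_le hμ (hws m) (hws' m) (hwp m) (hwp' m) (hsup m)).trans ?_
    have h1 : ∀ x, dens (w' m) x = dens (wc A m (-m) : (Fin n → ℂ) → ℝ) (cp x) := by
      intro x
      rw [dens, dens, hw', LvM_coord]
    simp only [h1]
    refine (lintegral_cp_le hμ hN (dens_measurable (Sm_wc A m (-m)))).trans ?_
    gcongr
    exact lintegral_wc hA1 _ _
  -- Fatou
  have hSm : MeasurableSet {x : M | 0 < D x} :=
    (isOpen_lt continuous_const hD.continuous).measurableSet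
  have hlim : ∀ x ∈ {x : M | 0 < D x}, dens (fun y => Real.log (D y)) x =
      liminf (fun m => dens (w m) x) atTop := by
    intro x hx
    have hx0 : 0 < D x := hx
    have h1 : ∀ᶠ m : ℕ in atTop, dens (w m) x = dens (fun y => Real.log (D y)) x := by
      -- for m large: log D y + m ≥ 1, log D y - bL ≥ 1 near x
      have h2 : ∀ᶠ m : ℕ in atTop, 1 - Real.log (D x / 2) ≤ (m : ℝ) ∧
          A * (Lg (cp x) + 1) + 1 - Real.log (D x / 2) ≤ (m : ℝ) :=
        (tendsto_natCast_atTop_atTop.eventually_ge_atTop _).and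
          (tendsto_natCast_atTop_atTop.eventually_ge_atTop _)
      filter_upwards [h2] with m hm
      apply dens_congr
      have h3 : ∀ᶠ y in 𝓝 x, D x / 2 < D y :=
        hD.continuous.continuousAt.eventually (lt_mem_nhds (by linarith))
      have h4 : ∀ᶠ y in 𝓝 x, Lg (cp y) < Lg (cp x) + 1 := by
        have hc : Continuous fun y : M => Lg (cp y) := Lg_contDiff.continuous.comp cp_cont
        exact hc.continuousAt.eventually (gt_mem_nhds (by linarith))
      filter_upwards [h3, h4] with y hy1 hy2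
      have h5 : Real.log (D x / 2) ≤ Real.log (D y) := Real.log_le_log (by linarith) hy1.le
      have hy0 : 0 < D y := by linarith
      have h6 : a m y = Real.log (D y) := by
        simp only [ha]
        rw [VL_of_pos _ hy0, SM_id (by linarith [hm.1])]
        ring
      have h7 : b m y ≤ A * (Lg (cp x) + 1) - m := by
        simp only [hb, bL]
        have := mul_le_mul_of_nonneg_left hy2.le hA0
        linarith
      simp only [hw, h6]
      rw [SM_id (by linarith [hm.2])]
      ring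
    have h8 : Tendsto (fun m => dens (w m) x) atTop (𝓝 (dens (fun y => Real.log (D y)) x)) :=
      tendsto_const_nhds.congr' (h1.mono fun m hm => hm.symm)
    exact h8.liminf_eq.symm
  calc ∫⁻ x in {x | 0 < D x}, dens (fun y => Real.log (D y)) x ∂μ
      = ∫⁻ x in {x | 0 < D x}, liminf (fun m => dens (w m) x) atTop ∂μ :=
        setLIntegral_congr_fun hSm hlim
    _ ≤ ∫⁻ x, liminf (fun m => dens (w m) x) atTop ∂μ := setLIntegral_le_lintegral _ _
    _ ≤ liminf (fun m => ∫⁻ x, dens (w m) x ∂μ) atTop :=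
        lintegral_liminf_le fun m => dens_measurable (hws m)
    _ ≤ liminf (fun _ : ℕ => (N * (ENNReal.ofReal (A ^ n) * K0 n) : ℝ≥0∞)) atTop :=
        liminf_le_liminf (Eventually.of_forall hbound)
    _ = N * (ENNReal.ofReal (A ^ n) * K0 n) := by simp

end main

end Crest.Agent.R276.NL_137
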