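import Mathlib

/-!
# One derivation: Wronskians, linear disjointness and transcendence degree (helper409, row 276)

`Kc D` is the field of constants of a derivation `D` of a field `E`.
* `jets_li` : linear independence over the constants = linear independence of the jets.
* `exists_wronskian` : nonvanishing minor of the jet matrix.
* `trdeg_inter` : linear disjointness for a `D`-stable subfield.
* `trdeg_bound_of_points` : the counting argument at a very general point.
-/

namespace Crest.Agent.R276.Der_409

open Algebra Module

section Wronskian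

variable {k E : Type*} [Field k] [Field E] [Algebra k E]

/-- constants of a derivation -/
def Kc (D : Derivation k E E) : IntermediateField k E where
  carrier := {x | D x = 0}
  mul_mem' := by
    intro a b ha hb
    simp only [Set.mem_ofPred_eq] at *
    rw [D.leibniz, ha, hb]; simp
  add_mem' := by
    intro a b ha hb
    simp only [Set.mem_ofPred_eq] at *
    rw [map_add, ha, hb]; simp
  algebraMap_mem' := by
    intro r
    simp
  inv_mem' := by
    intro a ha
    simp only [Set.mem_ofPred_eq] at *
    rw [D.leibniz_inv, ha]; simp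

@[simp] theorem mem_Kc (D : Derivation k E E) (x : E) : x ∈ Kc D ↔ D x = 0 := Iff.rfl

/-- the jet sequence `x, D x, D (D x), ...` -/
def jet (D : Derivation k E E) (x : E) : ℕ → E := fun j => (⇑D)^[j] x

theorem jet_succ (D : Derivation k E E) (x : E) (j : ℕ) : jet D x (j + 1) = D (jet D x j) := by
  simp [jet, Function.iterate_succ_apply']

theorem jet_zero (D : Derivation k E E) (x : E) : jet D x 0 = x := rfl

/-- the jets of a family linearly independent over the constants are linearly independent -/
theorem jets_li (D : Derivation k E E) {ι : Type*} {f : ι → E}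
    (hf : LinearIndependent (Kc D) f) : LinearIndependent E (fun i => jet D (f i)) := by
  classical
  rw [linearIndependent_iff']
  intro s
  induction s using Finset.strongInduction with
  | H s ih =>
    intro g hg i0 hi0
    by_contra hne
    -- normalise
    set e : ι → E := fun i => g i / g i0 with he
    have hrel : ∀ j, ∑ i ∈ s, e i * jet D (f i) j = 0 := by
      intro j
      have h1 := congrFun hg j
      simp only [Finset.sum_apply, Pi.smul_apply, smul_eq_mul, Pi.zero_apply] at h1
      have h2 : ∑ i ∈ s, e i * jet D (f i) j = (g i0)⁻¹ * ∑ i ∈ s, g i * jet D (f i) j := by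
        rw [Finset.mul_sum]
        refine Finset.sum_congr rfl fun i _ => ?_
        simp only [he]; field_simp
      rw [h2, h1, mul_zero]
    have he0 : e i0 = 1 := div_self hne
    have hd : ∀ j, ∑ i ∈ s, D (e i) * jet D (f i) j = 0 := by
      intro j
      have h1 : D (∑ i ∈ s, e i * jet D (f i) j) = 0 := by rw [hrel j, map_zero]
      rw [map_sum] at h1
      simp only [D.leibniz, smul_eq_mul, ← jet_succ] at h1
      rw [Finset.sum_add_distrib, hrel (j + 1), zero_add] at h1
      rw [← h1]
      exact Finset.sum_congr rfl fun i _ => mul_comm _ _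
    have hz : ∀ i ∈ s.erase i0, D (e i) = 0 := by
      refine ih (s.erase i0) (Finset.erase_ssubset hi0) (fun i => D (e i)) ?_
      funext j
      simp only [Finset.sum_apply, Pi.smul_apply, smul_eq_mul, Pi.zero_apply]
      have h1 := hd j
      rw [← Finset.add_sum_erase s _ hi0, he0] at h1
      simpa using h1
    have hcon : ∀ i ∈ s, D (e i) = 0 := by
      intro i hi
      by_cases h : i = i0
      · subst h; rw [he0]; simp
      · exact hz i (Finset.mem_erase.2 ⟨h, hi⟩)
    -- relation over the constants
    rw [linearIndependent_iff'] at hf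
    have h0 := hf s (fun i => if h : D (e i) = 0 then (⟨e i, h⟩ : Kc D) else 0) ?_ i0 hi0
    · rw [dif_pos (hcon i0 hi0)] at h0
      have := congrArg Subtype.val h0
      simp [he0] at this
    · refine Eq.trans ?_ (hrel 0)
      refine Finset.sum_congr rfl fun i hi => ?_
      rw [dif_pos (hcon i hi)]
      rfl

/-- conversely, a relation over the constants gives a relation between jets -/
theorem jet_smul (D : Derivation k E E) (c : Kc D) (x : E) (j : ℕ) :
    jet D (c • x) j = (c : E) * jet D x j := by
  induction j with
  | zero => rfl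
  | succ j ih =>
    rw [jet_succ, ih, D.leibniz, jet_succ]
    have : D (c : E) = 0 := c.2
    rw [this]; simp

theorem jet_add (D : Derivation k E E) (x y : E) (j : ℕ) :
    jet D (x + y) j = jet D x j + jet D y j := by
  induction j with
  | zero => rfl
  | succ j ih => rw [jet_succ, ih, map_add, jet_succ, jet_succ]

theorem jet_sum (D : Derivation k E E) {ι : Type*} (s : Finset ι) (x : ι → E) (j : ℕ) :
    jet D (∑ i ∈ s, x i) j = ∑ i ∈ s, jet D (x i) j := by
  classical
  induction s using Finset.induction_on with
  | empty =>
    simp only [Finset.sum_empty]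
    induction j with
    | zero => rfl
    | succ j ih => rw [jet_succ, ih, map_zero]
  | insert a s ha ih => rw [Finset.sum_insert ha, Finset.sum_insert ha, jet_add, ih]

/-- a nonvanishing maximal minor of the matrix of a finite independent family of functions -/
theorem exists_minor {F κ : Type*} [Field F] {ι : Type*} [Fintype ι] [DecidableEq ι]
    {v : ι → (κ → F)} (hv : LinearIndependent F v) :
    ∃ r : ι → κ, (Matrix.of fun a b => v b (r a)).det ≠ 0 := by
  classical
  -- the evaluation vectors span
  let w : κ → (ι → F) := fun c i => v i c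
  have hspan : Submodule.span F (Set.range w) = ⊤ := by
    by_contra hne
    obtain ⟨φ, hφ, hker⟩ := Submodule.exists_le_ker_of_lt_top _ (lt_top_iff_ne_top.2 hne)
    apply hφ
    have hrel : ∑ i, φ (Pi.single i 1) • v i = 0 := by
      funext c
      have h1 : φ (w c) = 0 := hker (Submodule.subset_span ⟨c, rfl⟩)
      have h2 : w c = ∑ i, w c i • (Pi.single i (1 : F) : ι → F) := by
        funext i
        simp [Finset.sum_apply, Pi.single_apply]
      rw [h2, map_sum] at h1
      simp only [map_smul, smul_eq_mul] at h1
      simp only [Finset.sum_apply, Pi.smul_apply, smul_eq_mul, Pi.zero_apply]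
      rw [← h1]
      exact Finset.sum_congr rfl fun i _ => mul_comm _ _
    have h0 := Fintype.linearIndependent_iff.1 hv _ hrel
    refine LinearMap.pi_ext' fun i => ?_
    ext
    simpa using h0 i
  obtain ⟨κ', a, ha, hsp, hli⟩ := exists_linearIndependent' F w
  rw [hspan] at hsp
  let B : Basis κ' F (ι → F) := Basis.mk hli (by rw [hsp])
  let e : κ' ≃ ι := B.indexEquiv (Pi.basisFun F ι)
  refine ⟨fun i => a (e.symm i), ?_⟩
  have hli2 : LinearIndependent F (fun i : ι => w (a (e.symm i))) :=
    hli.comp e.symm e.symm.injective
  have := (Matrix.linearIndependent_rows_iff_isUnit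
    (A := Matrix.of fun a' b => v b (a (e.symm a')))).1 hli2
  rw [Matrix.isUnit_iff_isUnit_det] at this
  exact this.ne_zero

theorem exists_wronskian (D : Derivation k E E) {ι : Type*} [Fintype ι] [DecidableEq ι]
    {f : ι → E} (hf : LinearIndependent (Kc D) f) :
    ∃ r : ι → ℕ, (Matrix.of fun a b => jet D (f b) (r a)).det ≠ 0 :=
  exists_minor (jets_li D hf)

/-- **Linear disjointness.** `L` a `D`-stable subfield of `E`; a family in `L` which is linearly
independent over the constants of `D` in `L` is independent over the constants of `D` in `E`. -/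
theorem li_of_stable (D : Derivation k E E) (L : IntermediateField k E)
    (hL : ∀ x ∈ L, D x ∈ L) {ι : Type*} {f : ι → E} (hfL : ∀ i, f i ∈ L)
    (hf : LinearIndependent (L ⊓ Kc D : IntermediateField k E) f) :
    LinearIndependent (Kc D) f := by
  classical
  -- restrict the derivation to `L`
  let DL : Derivation k L L :=
    Derivation.mk' 
      { toFun := fun x => ⟨D x, hL x x.2⟩
        map_add' := fun x y => by ext; simp
        map_smul' := fun c x => by ext; simp } 
      (fun x y => by ext; simp [D.leibniz])
  have hDL : ∀ x : L, ((DL x : L) : E) = D x := fun x => rfl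
  let fL : ι → L := fun i => ⟨f i, hfL i⟩
  have h1 : LinearIndependent (Kc DL) fL := by
    rw [linearIndependent_iff'] at hf ⊢
    intro s g hg i hi
    have hmem : ∀ i, ((g i : L) : E) ∈ L ⊓ Kc D := by
      intro i
      refine ⟨(g i : L).2, ?_⟩
      have : DL (g i : L) = 0 := (g i).2
      have h := congrArg (Subtype.val) this
      simpa [hDL] using h
    have := hf s (fun i => ⟨((g i : L) : E), hmem i⟩) ?_ i hi
    · have h := congrArg Subtype.val this
      apply Subtype.ext
      apply Subtype.ext
      simpa using h
    · have h := congrArg Subtype.val hg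
      rw [← ZeroMemClass.coe_zero L, ← h]
      rw [AddSubmonoidClass.coe_finsetSum]
      rfl
  have h2 := jets_li DL h1
  have hjet : ∀ (x : L) (j : ℕ), ((jet DL x j : L) : E) = jet D (x : E) j := by
    intro x j
    induction j with
    | zero => rfl
    | succ j ih => rw [jet_succ, jet_succ, hDL, ih]
  rw [linearIndependent_iff_finset_linearIndependent]
  intro s
  have h3 : LinearIndependent L (fun i : s => jet DL (fL i)) :=
    h2.comp _ Subtype.val_injective
  obtain ⟨r, hr⟩ := exists_minor h3
  rw [Fintype.linearIndependent_iff]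
  intro g hg
  have hM : (Matrix.of fun (a b : s) => jet D (f b) (r a)).det ≠ 0 := by
    have : (Matrix.of fun (a b : s) => jet D (f b) (r a)) =
        (Matrix.of fun (a b : s) => jet DL (fL b) (r a)).map (algebraMap L E) := by
      ext a b
      simp only [Matrix.of_apply, Matrix.map_apply]
      exact (hjet (fL b) (r a)).symm
    rw [this]
    have h4 : ((Matrix.of fun (a b : s) => jet DL (fL b) (r a)).map (algebraMap L E)).det
        = algebraMap L E ((Matrix.of fun (a b : s) => jet DL (fL b) (r a)).det) := by
      rw [RingHom.map_det]; rfl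
    rw [h4]
    exact (map_ne_zero _).2 hr
  have hg' : (Matrix.of fun (a b : s) => jet D (f b) (r a)).mulVec (fun b => ((g b : Kc D) : E))
      = 0 := by
    funext a
    simp only [Matrix.mulVec, dotProduct, Matrix.of_apply, Pi.zero_apply]
    have h5 : jet D (∑ i : s, g i • f i) (r a) = 0 := by
      have : (∑ i : s, g i • f i) = 0 := hg
      rw [this]
      have := jet_sum D (∅ : Finset ℕ) (fun _ => (0 : E)) (r a)
      simpa using this
    rw [jet_sum] at h5
    rw [← h5]
    refine Finset.sum_congr rfl fun i _ => ?_
    rw [jet_smul, mul_comm]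
  have := Matrix.eq_zero_of_mulVec_eq_zero hM hg'
  intro i
  have h6 := congrFun this i
  exact Subtype.ext h6

end Wronskian

section AlgInd

open MvPolynomial

/-- algebraic independence = linear independence of the monomials -/
theorem algebraicIndependent_iff_monomials {R A ι : Type*} [CommRing R] [CommRing A]
    [Algebra R A] {x : ι → A} :
    AlgebraicIndependent R x ↔
      LinearIndependent R (fun m : ι →₀ ℕ => m.prod fun i n => x i ^ n) := by
  have h1 : (fun m : ι →₀ ℕ => m.prod fun i n => x i ^ n) =
      (aeval x : MvPolynomial ι R →ₐ[R] A).toLinearMap ∘ (basisMonomials ι R) := by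
    funext m
    simp [aeval_monomial]
  rw [h1]
  constructor
  · intro h
    exact (basisMonomials ι R).linearIndependent.map' _ (LinearMap.ker_eq_bot.2 h)
  · intro h
    have h2 : ∀ P : MvPolynomial ι R, (aeval x P : A) =
        Finsupp.linearCombination R ((aeval x : MvPolynomial ι R →ₐ[R] A).toLinearMap ∘
          (basisMonomials ι R)) ((basisMonomials ι R).repr P) := by
      intro P
      conv_lhs => rw [← (basisMonomials ι R).linearCombination_repr P]
      rw [← AlgHom.toLinearMap_apply]
      exact Finsupp.apply_linearCombination R _ _ _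
    intro P Q hPQ
    rw [h2, h2] at hPQ
    exact (basisMonomials ι R).repr.injective (h hPQ)

variable {k E : Type*} [Field k] [Field E] [Algebra k E]

/-- an algebraically independent family in a `D`-stable subfield over the constants in the
subfield remains independent over all constants -/
theorem algInd_of_stable (D : Derivation k E E) (L : IntermediateField k E)
    (hL : ∀ x ∈ L, D x ∈ L) {ι : Type*} {f : ι → E} (hfL : ∀ i, f i ∈ L)
    (hf : AlgebraicIndependent (L ⊓ Kc D : IntermediateField k E) f) :
    AlgebraicIndependent (Kc D) f := by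
  rw [algebraicIndependent_iff_monomials] at hf ⊢
  refine li_of_stable D L hL ?_ hf
  intro m
  exact L.prod_mem fun i _ => pow_mem (hfL i) (m i)

end AlgInd

section Trdeg

universe u v

variable {k : Type u} {E : Type v} [Field k] [Field E] [Algebra k E]

open Cardinal

/-- `trdeg_k L ≤ trdeg_k (L ∩ ker D) + 1` if `trdeg_{ker D} E ≤ 1` and `L` is `D`-stable. -/
theorem trdeg_stable_le (D : Derivation k E E) (L : IntermediateField k E)
    (hL : ∀ x ∈ L, D x ∈ L) (h1 : Algebra.trdeg (Kc D) E ≤ 1) :
    Algebra.trdeg k L ≤ Algebra.trdeg k (L ⊓ Kc D : IntermediateField k E) + 1 := by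
  let F : IntermediateField k E := L ⊓ Kc D
  have hFL : F ≤ L := inf_le_left
  let : Algebra F L := (IntermediateField.inclusion hFL).toRingHom.toAlgebra
  have : IsScalarTower k F L := IsScalarTower.of_algebraMap_eq fun _ => rfl
  have : IsScalarTower F L E := IsScalarTower.of_algebraMap_eq fun _ => rfl
  have hf1 : FaithfulSMul k F :=
    (faithfulSMul_iff_algebraMap_injective k F).2 (algebraMap k F).injective
  have hf2 : FaithfulSMul F L :=
    (faithfulSMul_iff_algebraMap_injective F L).2 (algebraMap F L).injective
  have hadd := _root_.lift_trdeg_add_eq k F L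
  simp only [Cardinal.lift_id] at hadd
  rw [← hadd]
  refine add_le_add le_rfl ?_
  obtain ⟨s, hs⟩ := exists_isTranscendenceBasis F L
  rw [← hs.cardinalMk_eq_trdeg]
  have h2 : AlgebraicIndependent F (fun i : s => ((i : L) : E)) := by
    have := hs.1.map' (f := IsScalarTower.toAlgHom F L E) (algebraMap L E).injective
    exact this
  have h3 : AlgebraicIndependent (Kc D) (fun i : s => ((i : L) : E)) :=
    algInd_of_stable D L hL (fun i => (i : L).2) h2
  exact h3.cardinalMk_le_trdeg.trans h1

/-- **Iteration**: commuting derivations `D_1, .., D_a`, each of whose constant fields has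
relative transcendence degree `≤ 1`: the common constants have transcendence degree
`≥ trdeg_k E - a`. -/
theorem trdeg_iInf_le {ι : Type*} (D : ι → Derivation k E E)
    (hcomm : ∀ i j x, D i (D j x) = D j (D i x))
    (h1 : ∀ i, Algebra.trdeg (Kc (D i)) E ≤ 1) (s : Finset ι) :
    Algebra.trdeg k E ≤ Algebra.trdeg k (⨅ i ∈ s, Kc (D i) : IntermediateField k E) + s.card := by
  classical
  induction s using Finset.induction_on with
  | empty =>
    have h : (⨅ i ∈ (∅ : Finset ι), Kc (D i) : IntermediateField k E) = ⊤ := by simp
    rw [h]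
    have e : (⊤ : IntermediateField k E) ≃ₐ[k] E := IntermediateField.topEquiv
    have := e.trdeg_eq
    simp [this]
  | insert a s ha ih =>
    have h2 : (⨅ i ∈ insert a s, Kc (D i) : IntermediateField k E) =
        (⨅ i ∈ s, Kc (D i) : IntermediateField k E) ⊓ Kc (D a) := by
      rw [Finset.iInf_insert, inf_comm]
    rw [h2]
    have h3 := trdeg_stable_le (D a) (⨅ i ∈ s, Kc (D i) : IntermediateField k E) ?_ (h1 a)
    · refine ih.trans ?_
      rw [Finset.card_insert_of_notMem ha]
      push_cast
      calc Algebra.trdeg k (⨅ i ∈ s, Kc (D i) : IntermediateField k E) + (s.card : Cardinal)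
          ≤ (Algebra.trdeg k ((⨅ i ∈ s, Kc (D i) : IntermediateField k E) ⊓ Kc (D a) :
              IntermediateField k E) + 1) + (s.card : Cardinal) := add_le_add h3 le_rfl
        _ = _ := by rw [add_assoc, add_comm (1 : Cardinal)]
    · intro x hx
      have hmem : ∀ y : E, y ∈ (⨅ i ∈ s, Kc (D i) : IntermediateField k E) ↔
          ∀ i ∈ s, D i y = 0 := by
        intro y
        rw [← SetLike.mem_coe]
        simp only [IntermediateField.coe_iInf, Set.mem_iInter, SetLike.mem_coe, mem_Kc]
      rw [hmem] at hx ⊢
      intro i hi
      rw [hcomm, hx i hi, map_zero]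

/-- the constants of `D` are algebraically closed in `E` (characteristic zero) -/
theorem mem_Kc_of_isAlgebraic [CharZero k] (D : Derivation k E E) {x : E}
    (hx : IsAlgebraic (Kc D) x) : x ∈ Kc D := by
  have : CharZero E := charZero_of_injective_algebraMap (algebraMap k E).injective
  have : CharZero (Kc D) := charZero_of_injective_algebraMap (algebraMap k (Kc D)).injective
  let D' : Derivation (Kc D) E E :=
    Derivation.mk'
      { toFun := D
        map_add' := fun x y => map_add D x y
        map_smul' := fun c x => by
          change D ((c : E) * x) = (c : E) * D x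
          rw [D.leibniz]
          have : D (c : E) = 0 := c.2
          rw [this]; simp }
      (fun x y => D.leibniz x y)
  have hint : IsIntegral (Kc D) x := hx.isIntegral
  have h1 : D' (Polynomial.aeval x (minpoly (Kc D) x)) =
      Polynomial.aeval x (Polynomial.derivative (minpoly (Kc D) x)) • D' x := D'.map_aeval _ _
  rw [minpoly.aeval, map_zero] at h1
  have hsep : Polynomial.aeval x (Polynomial.derivative (minpoly (Kc D) x)) ≠ 0 :=
    (minpoly.irreducible hint).separable.aeval_derivative_ne_zero (minpoly.aeval _ _)
  have h2 : D' x = 0 := by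
    rcases smul_eq_zero.1 h1.symm with h | h
    · exact absurd h hsep
    · exact h
  exact h2

end Trdeg

section Points

open MvPolynomial Cardinal

universe u v w

variable {k : Type u} {B : Type w} {E : Type v} [Field k] [Field E] [Algebra k E] [CommRing B]
  [Algebra k B] [Algebra B E] [IsScalarTower k B E]

omit [IsScalarTower k B E] in
/-- jets in the subring -/
theorem algebraMap_iterate (D : Derivation k E E) (DB : Derivation k B B)
    (hD : ∀ b, D (algebraMap B E b) = algebraMap B E (DB b)) (b : B) (j : ℕ) :
    jet D (algebraMap B E b) j = algebraMap B E ((⇑DB)^[j] b) := by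
  induction j with
  | zero => rfl
  | succ j ih => rw [jet_succ, ih, hD, Function.iterate_succ_apply']

theorem iterate_sum (DB : Derivation k B B) {ι : Type*} (s : Finset ι) (x : ι → B) (j : ℕ) :
    (⇑DB)^[j] (∑ i ∈ s, x i) = ∑ i ∈ s, (⇑DB)^[j] (x i) := by
  induction j with
  | zero => rfl
  | succ j ih =>
    rw [Function.iterate_succ_apply', ih, map_sum]
    exact Finset.sum_congr rfl fun i _ => (Function.iterate_succ_apply' _ _ _).symm

theorem iterate_add (DB : Derivation k B B) (x y : B) (j : ℕ) :
    (⇑DB)^[j] (x + y) = (⇑DB)^[j] x + (⇑DB)^[j] y := by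
  induction j with
  | zero => rfl
  | succ j ih =>
    rw [Function.iterate_succ_apply', ih, map_add, Function.iterate_succ_apply',
      Function.iterate_succ_apply']

theorem iterate_smul (DB : Derivation k B B) (c : k) (x : B) (j : ℕ) :
    (⇑DB)^[j] (c • x) = c • (⇑DB)^[j] x := by
  induction j with
  | zero => rfl
  | succ j ih =>
    rw [Function.iterate_succ_apply', ih, Derivation.map_smul, Function.iterate_succ_apply']

/-- Evaluation of a Wronskian at a point: if `f` is linearly independent over the constants then
at each point `p` outside the zero set of one nonzero `μ ∈ B`, `#ι ≤ N+1` as soon as the jets of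
order `≤ N` at `p` determine all the jets at `p` of the `k`-combinations of `f`. -/
theorem card_le_of_point (_hinj : Function.Injective (algebraMap B E)) (D : Derivation k E E)
    (DB : Derivation k B B) (hD : ∀ b, D (algebraMap B E b) = algebraMap B E (DB b))
    {ι : Type*} [Fintype ι] [DecidableEq ι] {f : ι → B}
    (hf : LinearIndependent (Kc D) (fun i => algebraMap B E (f i))) :
    ∃ μ : B, μ ≠ 0 ∧ ∀ (p : B →ₐ[k] k), p μ ≠ 0 → ∀ N : ℕ,
      (∀ c : ι → k, (∀ j ≤ N, p ((⇑DB)^[j] (∑ i, c i • f i)) = 0) →
        ∀ j, p ((⇑DB)^[j] (∑ i, c i • f i)) = 0) → Fintype.card ι ≤ N + 1 := by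
  classical
  obtain ⟨r, hr⟩ := exists_wronskian D hf
  let W : Matrix ι ι B := Matrix.of fun a b => (⇑DB)^[r a] (f b)
  have hW : algebraMap B E W.det = (Matrix.of fun a b => jet D (algebraMap B E (f b)) (r a)).det := by
    rw [RingHom.map_det]
    congr 1
    ext a b
    simp only [W, RingHom.mapMatrix_apply, Matrix.map_apply, Matrix.of_apply]
    exact (algebraMap_iterate D DB hD _ _).symm
  refine ⟨W.det, ?_, ?_⟩
  · intro h
    rw [h, map_zero] at hW
    exact hr hW.symm
  intro p hp N hN
  let Wp : Matrix ι ι k := W.map p
  have hWp : Wp.det ≠ 0 := by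
    have : p W.det = Wp.det := by
      have := RingHom.map_det (p : B →+* k) W
      exact this
    rwa [← this]
  let T : (ι → k) →ₗ[k] (Fin (N + 1) → k) :=
    { toFun := fun c j => p ((⇑DB)^[(j : ℕ)] (∑ i, c i • f i))
      map_add' := by
        intro c c'
        funext j
        simp only [iterate_sum, Pi.add_apply, map_sum, iterate_smul, add_smul, map_add,
          iterate_add, ← Finset.sum_add_distrib]
      map_smul' := by
        intro a c
        funext j
        simp only [iterate_sum, Pi.smul_apply, map_sum, iterate_smul, smul_eq_mul, mul_smul,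
          RingHom.id_apply, map_smul, Finset.mul_sum] }
  have hT : Function.Injective T := by
    rw [← LinearMap.ker_eq_bot, LinearMap.ker_eq_bot']
    intro c hc
    have h1 := hN c (by
      intro j hj
      exact congrFun hc ⟨j, by omega⟩)
    have h2 : Wp.mulVec c = 0 := by
      funext a
      have h3 := h1 (r a)
      rw [iterate_sum, map_sum] at h3
      simp only [Matrix.mulVec, dotProduct, Pi.zero_apply]
      rw [← h3]
      refine Finset.sum_congr rfl fun i _ => ?_
      rw [iterate_smul, map_smul, smul_eq_mul, mul_comm]
      rfl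
    exact Matrix.eq_zero_of_mulVec_eq_zero hWp h2
  have := LinearMap.finrank_le_finrank_of_injective hT
  simpa using this

/-- two of the coordinate functions are never algebraically independent over the constants -/
theorem not_algInd_pair (hinj : Function.Injective (algebraMap B E)) (D : Derivation k E E)
    (DB : Derivation k B B) (hD : ∀ b, D (algebraMap B E b) = algebraMap B E (DB b))
    {σ : Type*} (z : σ → B)
    (hpt : ∀ μ : ℕ → B, (∀ n, μ n ≠ 0) → ∃ p : B →ₐ[k] k, (∀ n, p (μ n) ≠ 0) ∧
      ∃ C : ℕ, ∀ d : ℕ, ∀ P : MvPolynomial σ k, P.totalDegree ≤ d →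
        (∀ j ≤ C * (d + 1), p ((⇑DB)^[j] (aeval z P)) = 0) →
          ∀ j, p ((⇑DB)^[j] (aeval z P)) = 0)
    (a b : σ) : ¬ AlgebraicIndependent (Kc D) ![algebraMap B E (z a), algebraMap B E (z b)] := by
  classical
  intro hai
  rw [algebraicIndependent_iff_monomials] at hai
  -- the monomials z_a^i z_b^j
  have hli : ∀ d : ℕ, LinearIndependent (Kc D)
      (fun i : Fin (d + 1) × Fin (d + 1) =>
        algebraMap B E (z a ^ (i.1 : ℕ) * z b ^ (i.2 : ℕ))) := by
    intro d
    let e : Fin (d + 1) × Fin (d + 1) → (Fin 2 →₀ ℕ) := fun i =>
      Finsupp.equivFunOnFinite.symm ![(i.1 : ℕ), (i.2 : ℕ)]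
    have he : Function.Injective e := by
      intro i j hij
      have h1 := Finsupp.equivFunOnFinite.symm.injective hij
      have h2 := congrFun h1 0
      have h3 := congrFun h1 1
      simp only [Matrix.cons_val_zero, Matrix.cons_val_one] at h2 h3
      exact Prod.ext (Fin.ext h2) (Fin.ext h3)
    have h4 := hai.comp e he
    have h5 : (fun i : Fin (d + 1) × Fin (d + 1) =>
        algebraMap B E (z a ^ (i.1 : ℕ) * z b ^ (i.2 : ℕ))) =
        (fun m : Fin 2 →₀ ℕ => m.prod fun i n =>
          ![(algebraMap B E) (z a), (algebraMap B E) (z b)] i ^ n) ∘ e := by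
      funext i
      simp only [Function.comp, e]
      rw [Finsupp.prod_fintype _ _ (by intro i; simp)]
      simp [Fin.prod_univ_two]
    rw [h5]
    exact h4
  choose μ hμ0 hμ using fun d : ℕ => card_le_of_point hinj D DB hD (hli d)
  obtain ⟨p, hp, C, hC⟩ := hpt μ hμ0
  have hcard : ∀ d : ℕ, (d + 1) * (d + 1) ≤ C * (2 * d + 1) + 1 := by
    intro d
    have h1 := hμ d p (hp d) (C * (2 * d + 1)) ?_
    · simpa using h1
    · intro c hc
      let P : MvPolynomial σ k := ∑ i : Fin (d + 1) × Fin (d + 1),
        c i • (X a ^ (i.1 : ℕ) * X b ^ (i.2 : ℕ))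
      have hP : (aeval z P : B) = ∑ i : Fin (d + 1) × Fin (d + 1),
          c i • (z a ^ (i.1 : ℕ) * z b ^ (i.2 : ℕ)) := by
        simp [P]
      have hdeg : P.totalDegree ≤ 2 * d := by
        refine totalDegree_finsetSum_le ?_
        intro i _
        refine (totalDegree_smul_le _ _).trans ?_
        refine (totalDegree_mul _ _).trans ?_
        have h1 : (X a ^ (i.1 : ℕ) : MvPolynomial σ k).totalDegree ≤ i.1 := by
          refine (totalDegree_pow _ _).trans ?_
          simp
        have h2 : (X b ^ (i.2 : ℕ) : MvPolynomial σ k).totalDegree ≤ i.2 := by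
          refine (totalDegree_pow _ _).trans ?_
          simp
        have := i.1.2
        have := i.2.2
        omega
      rw [← hP] at hc ⊢
      exact hC (2 * d) P hdeg hc
  have := hcard (2 * C + 1)
  nlinarith

theorem isAlgebraic_adjoin_Kc (D : Derivation k E E) (S : Set E)
    (h : Algebra.IsAlgebraic (Algebra.adjoin k S) E) :
    Algebra.IsAlgebraic (Algebra.adjoin (Kc D) S) E := by
  constructor
  intro x
  obtain ⟨q, hq0, hq⟩ := h.isAlgebraic x
  have hle : Algebra.adjoin k S ≤ (Algebra.adjoin (Kc D) S).restrictScalars k :=
    Algebra.adjoin_le Algebra.subset_adjoin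
  let φ : Algebra.adjoin k S →+* Algebra.adjoin (Kc D) S :=
    (Subalgebra.inclusion hle).toRingHom
  have hφ : Function.Injective φ := Subalgebra.inclusion_injective hle
  refine ⟨q.map φ, (Polynomial.map_ne_zero_iff hφ).2 hq0, ?_⟩
  rw [Polynomial.aeval_def, Polynomial.eval₂_map]
  exact hq

/-- **The counting theorem.** `E` algebraic over `k(z)`, `D` a derivation of `E` preserving `B`.
If at very general points `p` the jets of order `≤ C_p (d+1)` of polynomials of degree `≤ d` in
`z` determine all the jets, then `E` has transcendence degree `≤ 1` over the constants of `D`. -/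
theorem trdeg_Kc_le_one (hinj : Function.Injective (algebraMap B E)) (D : Derivation k E E)
    (DB : Derivation k B B) (hD : ∀ b, D (algebraMap B E b) = algebraMap B E (DB b))
    {σ : Type*} (z : σ → B)
    (halg : Algebra.IsAlgebraic (Algebra.adjoin k (Set.range fun i => algebraMap B E (z i))) E)
    (hpt : ∀ μ : ℕ → B, (∀ n, μ n ≠ 0) → ∃ p : B →ₐ[k] k, (∀ n, p (μ n) ≠ 0) ∧
      ∃ C : ℕ, ∀ d : ℕ, ∀ P : MvPolynomial σ k, P.totalDegree ≤ d →
        (∀ j ≤ C * (d + 1), p ((⇑DB)^[j] (aeval z P)) = 0) →
          ∀ j, p ((⇑DB)^[j] (aeval z P)) = 0) :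
    Algebra.trdeg (Kc D) E ≤ 1 := by
  have h1 := isAlgebraic_adjoin_Kc D _ halg
  obtain ⟨t, ht, htb⟩ := exists_isTranscendenceBasis_subset (R := Kc D)
    (Set.range fun i => algebraMap B E (z i))
  rw [← htb.cardinalMk_eq_trdeg]
  rw [Cardinal.mk_le_one_iff_set_subsingleton]
  intro x hx y hy
  by_contra hxy
  obtain ⟨a, ha⟩ := ht hx
  obtain ⟨b, hb⟩ := ht hy
  apply not_algInd_pair hinj D DB hD z hpt a b
  have h2 := htb.1
  let g : Fin 2 → t := ![⟨x, hx⟩, ⟨y, hy⟩]
  have hg : Function.Injective g := by
    intro i j hij
    fin_cases i <;> fin_cases j <;> simp_all [g]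
  have h3 := h2.comp g hg
  convert h3 using 1
  funext i
  fin_cases i
  · simpa [g] using ha
  · simpa [g] using hb

end Points

end Crest.Agent.R276.Der_409
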