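import Mathlib
import Crest.Agent.R276.Der_409

/-!
# R276, leaf ALG-RAT (helper437), part F2: rational on lines ⇒ rational

`f` analytic at `z0 ∈ ℂ^m`; for every direction `v` in a nonempty open set the function `t ↦ f (z0 + t v)`
is rational near `0`.  Then `f` is rational near `z0` (Baire + Kronecker).
-/

set_option autoImplicit false

open Set Filter Topology Metric

namespace Crest.Agent.R276.RatLine_437

/-! ### power series in one variable -/

theorem coeff_eq_zero {c : ℕ → ℂ} (h : ∀ᶠ t in 𝓝 (0 : ℂ), HasSum (fun n => c n * t ^ n) 0) (n : ℕ) :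
    c n = 0 := by
  have h1 : HasFPowerSeriesAt (0 : ℂ → ℂ) (FormalMultilinearSeries.ofScalars ℂ c) 0 := by
    rw [hasFPowerSeriesAt_iff]
    filter_upwards [h] with t ht
    simp only [FormalMultilinearSeries.coeff_ofScalars, smul_eq_mul, Pi.zero_apply]
    simpa [mul_comm] using ht
  have h2 := h1.eq_zero
  have h3 : (FormalMultilinearSeries.ofScalars ℂ c).coeff n = 0 := by rw [h2]; rfl
  simpa using h3

/-- Cauchy product with a polynomial -/
theorem hasSum_mul {A : ℕ → ℂ} {N : ℕ} (q : Fin (N + 1) → ℂ) {t g : ℂ}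
    (h : HasSum (fun n => A n * t ^ n) g) :
    HasSum (fun n => (∑ i : Fin (N + 1), if (i : ℕ) ≤ n then q i * A (n - i) else 0) * t ^ n)
      ((∑ i, q i * t ^ (i : ℕ)) * g) := by
  rw [Finset.sum_mul]
  have h1 : ∀ i : Fin (N + 1), HasSum (fun n => (if (i : ℕ) ≤ n then q i * A (n - i) else 0) * t ^ n)
      (q i * t ^ (i : ℕ) * g) := by
    intro i
    have h2 : HasSum (fun n => q i * t ^ (i : ℕ) * (A n * t ^ n)) (q i * t ^ (i : ℕ) * g) := h.mul_left _
    have h3 := (hasSum_nat_add_iff (f := fun n => (if (i : ℕ) ≤ n then q i * A (n - i) else 0) * t ^ n)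
      (i : ℕ) (g := q i * t ^ (i : ℕ) * g)).1 (h2.congr_fun (fun n => by
        rw [if_pos (Nat.le_add_left _ _), Nat.add_sub_cancel, pow_add]
        ring))
    have h4 : ∑ n ∈ Finset.range (i : ℕ), (if (i : ℕ) ≤ n then q i * A (n - i) else 0) * t ^ n = 0 := by
      refine Finset.sum_eq_zero fun n hn => ?_
      rw [if_neg (by have := Finset.mem_range.1 hn; omega), zero_mul]
    rwa [h4, add_zero] at h3
  have h2 := hasSum_sum (s := Finset.univ) (fun i _ => h1 i)
  exact h2.congr_fun (fun n => by rw [Finset.sum_mul])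

/-- a polynomial relation gives a recurrence for the coefficients -/
theorem recurrence {A : ℕ → ℂ} {g : ℂ → ℂ} (h : ∀ᶠ t in 𝓝 (0 : ℂ), HasSum (fun n => A n * t ^ n) (g t))
    {p q : Polynomial ℂ} (hpq : ∀ᶠ t in 𝓝 (0 : ℂ), q.eval t * g t = p.eval t) {N : ℕ}
    (hq : q.natDegree ≤ N) (hp : p.natDegree ≤ N) {n : ℕ} (hn : N < n) :
    ∑ i : Fin (N + 1), q.coeff i * A (n - i) = 0 := by
  have h1 : ∀ᶠ t in 𝓝 (0 : ℂ), HasSum (fun n => ((∑ i : Fin (N + 1), if (i : ℕ) ≤ n then
      q.coeff i * A (n - i) else 0) - p.coeff n) * t ^ n) 0 := by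
    filter_upwards [h, hpq] with t h1 h2
    have h3 := hasSum_mul (fun i : Fin (N + 1) => q.coeff i) h1
    have h4 : (∑ i : Fin (N + 1), q.coeff (i : ℕ) * t ^ (i : ℕ)) = q.eval t := by
      rw [Fin.sum_univ_eq_sum_range (fun i => q.coeff i * t ^ i) (N + 1)]
      exact (Polynomial.eval_eq_sum_range' (Nat.lt_succ_of_le hq) t).symm
    rw [h4, h2] at h3
    have h5 : HasSum (fun n => p.coeff n * t ^ n) (p.eval t) := by
      rw [Polynomial.eval_eq_sum_range' (Nat.lt_succ_of_le hp) t]
      refine hasSum_sum_of_ne_finset_zero fun n hn => ?_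
      rw [Finset.mem_range, not_lt] at hn
      rw [Polynomial.coeff_eq_zero_of_natDegree_lt (by omega), zero_mul]
    have h6 := h3.sub h5
    rw [sub_self] at h6
    exact h6.congr_fun (fun n => by ring)
  have h2 := coeff_eq_zero h1 n
  rw [Polynomial.coeff_eq_zero_of_natDegree_lt (by omega), sub_zero] at h2
  rw [← h2]
  refine Finset.sum_congr rfl fun i _ => ?_
  rw [if_pos (by have := i.2; omega)]

/-! ### polynomials -/

/-- a polynomial vanishing on a nonempty open set is zero -/
theorem eq_zero_of_open {m : ℕ} {P : MvPolynomial (Fin m) ℂ} {W : Set (Fin m → ℂ)} (hW : IsOpen W)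
    (hne : W.Nonempty) (h : ∀ v ∈ W, MvPolynomial.eval v P = 0) : P = 0 := by
  obtain ⟨v0, hv0⟩ := hne
  obtain ⟨r, hr, hball⟩ := Metric.isOpen_iff.1 hW v0 hv0
  refine MvPolynomial.funext_set (fun i => ball (v0 i) r)
    (fun i => infinite_of_mem_nhds (v0 i) (ball_mem_nhds _ hr)) ?_
  intro x hx
  rw [map_zero]
  apply h x (hball _)
  rw [mem_ball, dist_pi_lt_iff hr]
  intro i
  exact hx i (mem_univ i)

/-- homogeneous parts of a power series as polynomials -/
theorem exists_mv {m n : ℕ} (p : ContinuousMultilinearMap ℂ (fun _ : Fin n => (Fin m → ℂ)) ℂ) :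
    ∃ a : MvPolynomial (Fin m) ℂ, ∀ v, MvPolynomial.eval v a = p (fun _ => v) := by
  classical
  refine ⟨∑ s : Fin n → Fin m, (∏ i, MvPolynomial.X (s i)) *
    MvPolynomial.C (p (fun i => Pi.single (s i) 1)), fun v => ?_⟩
  have h1 : (fun _ : Fin n => v) = fun _ : Fin n => ∑ j : Fin m, v j • (Pi.single j (1 : ℂ) : Fin m → ℂ) := by
    funext i
    conv_lhs => rw [pi_eq_sum_univ v]
    refine Finset.sum_congr rfl fun j _ => ?_
    congr 1
    funext k
    simp [Pi.single_apply, eq_comm]
  rw [h1, ContinuousMultilinearMap.map_sum]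
  rw [map_sum]
  refine Finset.sum_congr rfl fun s _ => ?_
  rw [ContinuousMultilinearMap.map_smul_univ]
  simp [map_mul, map_prod, smul_eq_mul]

theorem eval_aeval {m : ℕ} (sub : Fin m → MvPolynomial (Fin m) ℂ) (z : Fin m → ℂ)
    (R : MvPolynomial (Fin m) ℂ) :
    MvPolynomial.eval z (MvPolynomial.aeval sub R) =
      MvPolynomial.eval (fun j => MvPolynomial.eval z (sub j)) R := by
  induction R using MvPolynomial.induction_on with
  | C c => simp
  | add p q hp hq => rw [map_add, map_add, map_add, hp, hq]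
  | mul_X p i hp => rw [map_mul, map_mul, map_mul, hp, MvPolynomial.aeval_X, MvPolynomial.eval_X]

open MvPolynomial in
/-- **ALG-RAT (F2)** -/
theorem rational_of_lines {m : ℕ} {f : (Fin m → ℂ) → ℂ} {z0 : Fin m → ℂ} (hf : AnalyticAt ℂ f z0)
    {U : Set (Fin m → ℂ)} (hU : IsOpen U) (hne : U.Nonempty)
    (h : ∀ v ∈ U, ∃ p q : Polynomial ℂ, q ≠ 0 ∧
      ∀ᶠ t in 𝓝 (0 : ℂ), q.eval t * f (z0 + t • v) = p.eval t) :
    ∃ P Q : MvPolynomial (Fin m) ℂ, Q ≠ 0 ∧ ∀ᶠ z in 𝓝 z0, eval z Q * f z = eval z P := by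
  classical
  obtain ⟨ps, r, hr⟩ := hf
  obtain ⟨δ, hδ, hps⟩ : ∃ δ : ℝ, 0 < δ ∧ ∀ y : Fin m → ℂ, ‖y‖ < δ →
      HasSum (fun n => ps n fun _ => y) (f (z0 + y)) := by
    have h1 : Metric.eball (0 : Fin m → ℂ) r ∈ 𝓝 0 := Metric.eball_mem_nhds _ hr.r_pos
    obtain ⟨δ, hδ, hball⟩ := Metric.mem_nhds_iff.1 h1
    exact ⟨δ, hδ, fun y hy => hr.hasSum (hball (by rwa [mem_ball_zero_iff]))⟩
  choose a ha using fun n => exists_mv (ps n)
  have hsum : ∀ (v : Fin m → ℂ) (t : ℂ), ‖t • v‖ < δ →
      HasSum (fun n => eval v (a n) * t ^ n) (f (z0 + t • v)) := by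
    intro v t ht
    refine (hps _ ht).congr_fun (fun n => ?_)
    have h1 := (ps n).map_smul_univ (fun _ => t) (fun _ => v)
    simp only [Finset.prod_const, Finset.card_univ, Fintype.card_fin, smul_eq_mul] at h1
    rw [ha n, h1, mul_comm]
  -- minors
  let Dp : (N : ℕ) → (Fin (N + 1) → ℕ) → MvPolynomial (Fin m) ℂ := fun N ν =>
    (Matrix.of fun j i : Fin (N + 1) => a (ν j - i)).det
  have hDp : ∀ N ν v, eval v (Dp N ν) = (Matrix.of fun j i : Fin (N + 1) => eval v (a (ν j - i))).det := by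
    intro N ν v
    simp only [Dp, RingHom.map_det]
    rfl
  let F : ℕ → Set (Fin m → ℂ) := fun N =>
    {v | ∀ ν : Fin (N + 1) → ℕ, (∀ j, N < ν j) → eval v (Dp N ν) = 0}
  have hFc : ∀ N, IsClosed (F N) := by
    intro N
    have : F N = ⋂ (ν : Fin (N + 1) → ℕ), ⋂ (_ : ∀ j, N < ν j), {v | eval v (Dp N ν) = 0} := by
      ext v; simp [F]
    rw [this]
    refine isClosed_iInter fun ν => isClosed_iInter fun _ => ?_
    exact isClosed_eq (MvPolynomial.continuous_eval _) continuous_const
  have hcov : U ⊆ ⋃ N, F N := by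
    intro v hv
    obtain ⟨p, q, hq, hpq⟩ := h v hv
    refine mem_iUnion.2 ⟨max q.natDegree p.natDegree, ?_⟩
    intro ν hν
    rw [hDp]
    have hev : ∀ᶠ t in 𝓝 (0 : ℂ), HasSum (fun n => eval v (a n) * t ^ n) (f (z0 + t • v)) := by
      have h1 : Tendsto (fun t : ℂ => ‖t • v‖) (𝓝 0) (𝓝 0) := by
        have h2 : Continuous (fun t : ℂ => ‖t • v‖) := by fun_prop
        have h3 := h2.tendsto 0
        simpa using h3
      filter_upwards [h1.eventually (gt_mem_nhds hδ)] with t ht
      exact hsum v t ht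
    rw [← Matrix.exists_mulVec_eq_zero_iff]
    refine ⟨fun i => q.coeff i, ?_, ?_⟩
    · intro h0
      apply hq
      ext n
      rw [Polynomial.coeff_zero]
      rcases lt_or_ge q.natDegree n with h1 | h1
      · exact Polynomial.coeff_eq_zero_of_natDegree_lt h1
      · have := congrFun h0 ⟨n, by omega⟩
        simpa using this
    · funext j
      have := recurrence hev hpq (N := max q.natDegree p.natDegree) (le_max_left _ _)
        (le_max_right _ _) (hν j)
      rw [Pi.zero_apply, ← this]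
      simp only [Matrix.mulVec, dotProduct, Matrix.of_apply]
      refine Finset.sum_congr rfl fun i _ => ?_
      ring
  obtain ⟨N, hN⟩ : ∃ N, (interior (F N)).Nonempty := by
    by_contra hcon
    push Not at hcon
    have h1 : Dense (⋂ N, (F N)ᶜ) := by
      refine dense_iInter_of_isOpen_nat (fun N => (hFc N).isOpen_compl) (fun N => ?_)
      rw [← interior_eq_empty_iff_dense_compl]
      exact hcon N
    obtain ⟨v, hv1, hv2⟩ := h1.inter_open_nonempty U hU hne
    obtain ⟨N, hN⟩ := mem_iUnion.1 (hcov hv1)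
    exact (mem_iInter.1 hv2 N) hN
  have hD : ∀ ν : Fin (N + 1) → ℕ, (∀ j, N < ν j) → Dp N ν = 0 := fun ν hν =>
    eq_zero_of_open isOpen_interior hN (fun v hv => interior_subset hv ν hν)
  -- linear dependence over the fraction field
  let K := FractionRing (MvPolynomial (Fin m) ℂ)
  let col : Fin (N + 1) → ({n : ℕ // N < n} → K) := fun i n =>
    algebraMap (MvPolynomial (Fin m) ℂ) K (a (n.1 - i))
  have hdep : ¬ LinearIndependent K col := by
    intro hli
    obtain ⟨ρ, hρ⟩ := Crest.Agent.R276.Der_409.exists_minor hli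
    apply hρ
    have h1 : (Matrix.of fun (j i : Fin (N + 1)) => col i (ρ j)) =
        (algebraMap (MvPolynomial (Fin m) ℂ) K).mapMatrix
          (Matrix.of fun j i : Fin (N + 1) => a ((ρ j).1 - i)) := by
      ext j i
      simp [col]
    rw [h1, ← RingHom.map_det]
    have h2 := hD (fun j => (ρ j).1) (fun j => (ρ j).2)
    simp only [Dp] at h2
    rw [h2, map_zero]
  rw [Fintype.not_linearIndependent_iff] at hdep
  obtain ⟨g, hg, i0, hi0⟩ := hdep
  obtain ⟨b, hb⟩ := IsLocalization.exist_integer_multiples_of_finite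
    (nonZeroDivisors (MvPolynomial (Fin m) ℂ)) g
  choose Q hQ using hb
  have hinj : Function.Injective (algebraMap (MvPolynomial (Fin m) ℂ) K) :=
    IsFractionRing.injective _ _
  have hb0 : algebraMap (MvPolynomial (Fin m) ℂ) K b.1 ≠ 0 := by
    rw [Ne, map_eq_zero_iff _ hinj]
    exact nonZeroDivisors.ne_zero b.2
  have hQ0 : Q i0 ≠ 0 := by
    intro h0
    have h1 := hQ i0
    rw [h0, map_zero, Algebra.smul_def] at h1
    rcases mul_eq_zero.1 h1.symm with h2 | h2
    · exact hb0 h2
    · exact hi0 h2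
  have hrec : ∀ n, N < n → ∑ i : Fin (N + 1), Q i * a (n - i) = 0 := by
    intro n hn
    apply hinj
    rw [map_zero, map_sum]
    have h1 := congrFun hg ⟨n, hn⟩
    simp only [Finset.sum_apply, Pi.smul_apply, smul_eq_mul, Pi.zero_apply, col] at h1
    have h2 : ∑ i : Fin (N + 1), algebraMap (MvPolynomial (Fin m) ℂ) K (Q i * a (n - i)) =
        algebraMap (MvPolynomial (Fin m) ℂ) K b.1 *
          ∑ i : Fin (N + 1), g i * algebraMap (MvPolynomial (Fin m) ℂ) K (a (n - i)) := by
      rw [Finset.mul_sum]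
      refine Finset.sum_congr rfl fun i _ => ?_
      rw [map_mul, hQ i, Algebra.smul_def, mul_assoc]
    rw [h2, h1, mul_zero]
  -- a good scaling
  obtain ⟨v0, hv0⟩ : ∃ v0, eval v0 (Q i0) ≠ 0 := by
    by_contra hcon
    push Not at hcon
    exact hQ0 (eq_zero_of_open isOpen_univ univ_nonempty (fun v _ => hcon v))
  set q0 : Polynomial ℂ := ∑ i : Fin (N + 1), Polynomial.monomial (i : ℕ) (eval v0 (Q i)) with hq0
  have hq00 : q0 ≠ 0 := by
    intro h0
    have h1 : q0.coeff i0 = eval v0 (Q i0) := by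
      rw [hq0, Polynomial.finsetSum_coeff]
      rw [Finset.sum_eq_single i0]
      · simp
      · intro i _ hi
        rw [Polynomial.coeff_monomial, if_neg]
        exact fun h => hi (Fin.ext h)
      · simp
    rw [h0, Polynomial.coeff_zero] at h1
    exact hv0 h1.symm
  obtain ⟨s, hs⟩ := Infinite.exists_notMem_finset (q0.roots.toFinset ∪ {0})
  rw [Finset.mem_union, not_or, Finset.mem_singleton, Multiset.mem_toFinset,
    Polynomial.mem_roots hq00, Polynomial.IsRoot.def] at hs
  obtain ⟨hs1, hs0⟩ := hs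
  let sub : Fin m → MvPolynomial (Fin m) ℂ := fun j => C s⁻¹ * (X j - C (z0 j))
  have hsub : ∀ z, (fun j => eval z (sub j)) = s⁻¹ • (z - z0) := by
    intro z
    funext j
    simp [sub]
  refine ⟨∑ n ∈ Finset.range (N + 1), aeval sub (∑ i : Fin (N + 1), if (i : ℕ) ≤ n then
    Q i * a (n - i) else 0) * C (s ^ n), ∑ i : Fin (N + 1), aeval sub (Q i) * C (s ^ (i : ℕ)), ?_, ?_⟩
  · intro h0
    have h1 := congrArg (eval (z0 + s • v0)) h0
    rw [map_zero, map_sum] at h1
    apply hs1
    rw [← h1, hq0, Polynomial.eval_finsetSum]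
    refine Finset.sum_congr rfl fun i _ => ?_
    rw [map_mul, eval_aeval, hsub, eval_C, Polynomial.eval_monomial]
    congr 3
    rw [add_sub_cancel_left, smul_smul, inv_mul_cancel₀ hs0, one_smul]
  · filter_upwards [ball_mem_nhds z0 hδ] with z hz
    rw [mem_ball_iff_norm] at hz
    set v : Fin m → ℂ := s⁻¹ • (z - z0) with hv
    have hsv : s • v = z - z0 := by rw [hv, smul_smul, mul_inv_cancel₀ hs0, one_smul]
    have h1 := hsum v s (by rwa [hsv])
    rw [hsv, add_sub_cancel] at h1
    have h2 := hasSum_mul (fun i : Fin (N + 1) => eval v (Q i)) h1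
    have h3 : (∑ i : Fin (N + 1), eval v (Q i) * s ^ (i : ℕ)) =
        eval z (∑ i : Fin (N + 1), aeval sub (Q i) * C (s ^ (i : ℕ))) := by
      rw [map_sum]
      refine Finset.sum_congr rfl fun i _ => ?_
      rw [map_mul, eval_aeval, hsub, eval_C]
    rw [h3] at h2
    have h4 : HasSum (fun n => (∑ i : Fin (N + 1), if (i : ℕ) ≤ n then
        eval v (Q i) * eval v (a (n - i)) else 0) * s ^ n)
        (∑ n ∈ Finset.range (N + 1), (∑ i : Fin (N + 1), if (i : ℕ) ≤ n then
        eval v (Q i) * eval v (a (n - i)) else 0) * s ^ n) := by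
      refine hasSum_sum_of_ne_finset_zero fun n hn => ?_
      rw [Finset.mem_range, not_lt] at hn
      have h5 := congrArg (eval v) (hrec n (by omega))
      rw [map_sum, map_zero] at h5
      have h6 : (∑ i : Fin (N + 1), if (i : ℕ) ≤ n then
        eval v (Q i) * eval v (a (n - i)) else 0) = 0 := by
        rw [← h5]
        refine Finset.sum_congr rfl fun i _ => ?_
        rw [if_pos (by have := i.2; omega), map_mul]
      rw [h6, zero_mul]
    rw [h2.unique h4, map_sum]
    refine Finset.sum_congr rfl fun n _ => ?_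
    rw [map_mul, eval_aeval, hsub, eval_C, map_sum]
    congr 1
    refine Finset.sum_congr rfl fun i _ => ?_
    split_ifs
    · rw [map_mul]
    · rw [map_zero]

end Crest.Agent.R276.RatLine_437
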