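import Mathlib
import Crest.Agent.R276.MaxP_25

/-!
# R276, leaf ALG-RAT (helper437), part F1: growth against a log-subharmonic weight ⇒ rational

`w` is a nonnegative `C²` weight on `ℂ ∖ P` (`P` finite), `log w` subharmonic where `w > 0`, polynomially
bounded; a holomorphic function `S` with `|S|² w` polynomially bounded takes every value only finitely
often (maximum principle), hence is rational.
-/

set_option autoImplicit false

open Set Filter Topology Metric InnerProductSpace Laplacian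

namespace Crest.Agent.R276.RatPlane_437

open Crest.Agent.R276.Ahl_25 Crest.Agent.R276.MaxP_25

/-! ### Laplacians -/

theorem snd_exp {v : ℂ → ℝ} {z : ℂ} (hv : ContDiffAt ℝ 2 v z) (e : ℂ) :
    fderiv ℝ (fderiv ℝ (fun s => Real.exp (v s))) z e e =
      Real.exp (v z) * ((fderiv ℝ v z e) ^ 2 + fderiv ℝ (fderiv ℝ v) z e e) := by
  have hE : ContDiffAt ℝ 2 (fun s => Real.exp (v s)) z := hv.exp
  rw [← deriv2_line hE]
  have hev : ∀ᶠ t in 𝓝 (0 : ℝ), ContDiffAt ℝ 2 v (z + t • e) :=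
    (tendsto_line z e).eventually (hv.eventually (by simp))
  have h1 : deriv (fun t : ℝ => Real.exp (v (z + t • e))) =ᶠ[𝓝 0]
      fun t => Real.exp (v (z + t • e)) * fderiv ℝ v (z + t • e) e := by
    filter_upwards [hev] with t ht
    have h2 := ((ht.differentiableAt (by norm_num)).hasFDerivAt.comp_hasDerivAt t
      (hasDerivAt_line z e t))
    exact h2.exp.deriv
  have h2 : HasDerivAt (fun t : ℝ => v (z + t • e)) (fderiv ℝ v z e) 0 := by
    have h3 : HasFDerivAt v (fderiv ℝ v z) (z + (0 : ℝ) • e) := by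
      simpa using (hv.differentiableAt (by norm_num)).hasFDerivAt
    exact h3.comp_hasDerivAt (0 : ℝ) (hasDerivAt_line z e 0)
  have h3 := h2.exp.mul (hasDerivAt_line2 (v := e) hv)
  rw [h1.deriv_eq]
  have h4 := h3.deriv
  simp only [zero_smul, add_zero] at h4
  refine Eq.trans ?_ (h4.trans ?_)
  · rfl
  · ring

theorem lap_exp_nonneg {v : ℂ → ℝ} {z : ℂ} (hv : ContDiffAt ℝ 2 v z) (h : 0 ≤ (Δ v) z) :
    0 ≤ (Δ (fun s => Real.exp (v s))) z := by
  rw [lap_eq] at h ⊢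
  rw [snd_exp hv, snd_exp hv]
  have h1 := Real.exp_pos (v z)
  have : 0 ≤ Real.exp (v z) * ((fderiv ℝ v z 1) ^ 2 + (fderiv ℝ v z Complex.I) ^ 2 +
      (fderiv ℝ (fderiv ℝ v) z 1 1 + fderiv ℝ (fderiv ℝ v) z Complex.I Complex.I)) := by positivity
  linarith

/-- the Laplacian of a `C²` function is continuous -/
theorem continuousAt_lap {v : ℂ → ℝ} {z : ℂ} (hv : ContDiffAt ℝ 2 v z) : ContinuousAt (Δ v) z := by
  have h1 : ContDiffAt ℝ 1 (fderiv ℝ v) z := hv.fderiv_right (by norm_num)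
  have h2 : ContDiffAt ℝ 0 (fderiv ℝ (fderiv ℝ v)) z := h1.fderiv_right (by norm_num)
  have h3 : ContinuousAt (fderiv ℝ (fderiv ℝ v)) z := h2.continuousAt
  have h4 : (Δ v) = fun z => fderiv ℝ (fderiv ℝ v) z 1 1 + fderiv ℝ (fderiv ℝ v) z Complex.I Complex.I := by
    funext z
    exact lap_eq v z
  rw [h4]
  exact ((h3.clm_apply continuousAt_const).clm_apply continuousAt_const).add
    ((h3.clm_apply continuousAt_const).clm_apply continuousAt_const)

/-- `|g|² e^v` is subharmonic where `g` is holomorphic and nonzero and `v` subharmonic -/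
theorem lap_mul_nonneg {w : ℂ → ℝ} {g : ℂ → ℂ} {z : ℂ} (hw : ContDiffAt ℝ 2 w z) (hw0 : 0 < w z)
    (hl : 0 ≤ (Δ (fun s => Real.log (w s))) z) (hg : AnalyticAt ℂ g z) (hg0 : g z ≠ 0) :
    0 ≤ (Δ (fun s => w s * ‖g s‖ ^ 2)) z := by
  have hlog : ContDiffAt ℝ 2 (fun s => Real.log (w s)) z := hw.log hw0.ne'
  have hharm : HarmonicAt (fun s => Real.log ‖g s‖) z := AnalyticAt.harmonicAt_log_norm hg hg0
  have hH2 : ContDiffAt ℝ 2 (fun s => Real.log ‖g s‖) z := hharm.1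
  have hH0 : (Δ (fun s => Real.log ‖g s‖)) z = 0 := hharm.2.self_of_nhds
  obtain ⟨c, hc⟩ : ∃ c : ℝ, c = 2 := ⟨2, rfl⟩
  set v : ℂ → ℝ := fun s => Real.log (w s) + c * Real.log ‖g s‖ with hv
  have hvC : ContDiffAt ℝ 2 v z := hlog.add (contDiffAt_const.mul hH2)
  have hvL : 0 ≤ (Δ v) z := by
    have h1 : v = (fun s => Real.log (w s)) + c • (fun s => Real.log ‖g s‖) := rfl
    have h5 : ContDiffAt ℝ 2 (c • (fun s => Real.log ‖g s‖)) z := hH2.const_smul c
    have h6 : (Δ (c • (fun s => Real.log ‖g s‖))) z = c • (Δ (fun s => Real.log ‖g s‖)) z :=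
      laplacian_smul c hH2
    rw [h1, hlog.laplacian_add h5, h6, hH0]
    simpa using hl
  have h2 := lap_exp_nonneg hvC hvL
  have h3 : (fun s => Real.exp (v s)) =ᶠ[𝓝 z] fun s => w s * ‖g s‖ ^ 2 := by
    have hwp : ∀ᶠ s in 𝓝 z, 0 < w s := hw.continuousAt.eventually (lt_mem_nhds hw0)
    have hgp : ∀ᶠ s in 𝓝 z, g s ≠ 0 := hg.continuousAt.eventually_ne hg0
    filter_upwards [hwp, hgp] with s h1 h2
    simp only [hv]
    rw [hc, Real.exp_add, Real.exp_log h1, two_mul, Real.exp_add, Real.exp_log (norm_pos_iff.2 h2)]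
    ring
  rwa [(laplacian_congr_nhds h3).self_of_nhds] at h2

theorem quad_bound {w : ℂ → ℝ} {q : ℂ} (hw : ContDiffAt ℝ 2 w q) (h0 : w q = 0)
    (hn : ∀ᶠ z in 𝓝 q, 0 ≤ w z) : ∃ M, ∀ᶠ z in 𝓝 q, w z ≤ M * ‖z - q‖ ^ 2 := by
  have hmin : IsLocalMin w q := by
    filter_upwards [hn] with z hz
    rw [h0]; exact hz
  have hd0 : fderiv ℝ w q = 0 := hmin.fderiv_eq_zero
  have h1 : ContDiffAt ℝ 1 (fderiv ℝ w) q := hw.fderiv_right (by norm_num)
  have h2 : (fun z => fderiv ℝ w z - fderiv ℝ w q) =O[𝓝 q] fun z => z - q :=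
    (h1.differentiableAt (by norm_num)).isBigO_sub
  obtain ⟨M, hM⟩ := h2.bound
  have hev : ∀ᶠ z in 𝓝 q, DifferentiableAt ℝ w z ∧ ‖fderiv ℝ w z‖ ≤ M * ‖z - q‖ := by
    filter_upwards [hM, hw.eventually (by simp)] with z hz1 hz2
    refine ⟨hz2.differentiableAt (by norm_num), ?_⟩
    simpa [hd0] using hz1
  obtain ⟨r, hr, hball⟩ := Metric.eventually_nhds_iff_ball.1 hev
  refine ⟨|M|, ?_⟩
  filter_upwards [ball_mem_nhds q hr] with z hz
  have hsub : closedBall q ‖z - q‖ ⊆ ball q r := by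
    intro x hx
    rw [mem_closedBall_iff_norm] at hx
    rw [mem_ball_iff_norm] at hz ⊢
    linarith
  have h3 := (convex_closedBall q ‖z - q‖).norm_image_sub_le_of_norm_fderiv_le (𝕜 := ℝ) (f := w)
    (C := |M| * ‖z - q‖) (fun x hx => (hball x (hsub hx)).1) (fun x hx => by
      refine ((hball x (hsub hx)).2).trans ?_
      rw [mem_closedBall_iff_norm] at hx
      have := le_abs_self M
      have h5 := norm_nonneg (x - q)
      have h6 := abs_nonneg M
      nlinarith) (mem_closedBall_self (norm_nonneg _)) (x := q) (y := z)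
      (by rw [mem_closedBall_iff_norm])
  rw [h0, sub_zero, Real.norm_eq_abs] at h3
  calc w z ≤ |w z| := le_abs_self _
    _ ≤ |M| * ‖z - q‖ * ‖z - q‖ := h3
    _ = |M| * ‖z - q‖ ^ 2 := by ring

theorem tendsto_log_inv (f : ℂ) : Tendsto (fun z : ℂ => Real.log (1 / ‖z - f‖)) (𝓝[≠] f) atTop := by
  have h2 : Tendsto (fun z : ℂ => ‖z - f‖) (𝓝[≠] f) (𝓝[>] 0) := by
    rw [tendsto_nhdsWithin_iff]
    constructor
    · have : Continuous (fun z : ℂ => ‖z - f‖) := by fun_prop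
      have h3 := this.tendsto f
      simp only [sub_self, norm_zero] at h3
      exact h3.mono_left nhdsWithin_le_nhds
    · filter_upwards [self_mem_nhdsWithin] with z hz
      exact norm_pos_iff.2 (sub_ne_zero.2 hz)
  have h3 : Tendsto (fun z : ℂ => - Real.log ‖z - f‖) (𝓝[≠] f) atTop :=
    tendsto_neg_atBot_atTop.comp (Real.tendsto_log_nhdsGT_zero.comp h2)
  refine h3.congr fun z => ?_
  rw [one_div, Real.log_inv]

/-- **counting lemma**: a nonnegative `C²` weight on `ℂ ∖ P`, logarithmically subharmonic where positive,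
not identically zero and `≤ C (1+|t|)^N`, has at most `N/2` zeros. -/
theorem count {P Q : Finset ℂ} {w : ℂ → ℝ} {C : ℝ} {N : ℕ}
    (hw2 : ∀ t ∉ P, ContDiffAt ℝ 2 w t) (hw0 : ∀ t ∉ P, 0 ≤ w t)
    (hlap : ∀ t ∉ P, 0 < w t → 0 ≤ (Δ (fun s => Real.log (w s))) t)
    (hpos : ∃ t, t ∉ P ∧ 0 < w t)
    (hg : ∀ t ∉ P, w t ≤ C * (1 + ‖t‖) ^ N)
    (hQ : ∀ t ∈ Q, t ∉ P ∧ w t = 0) : 2 * Q.card ≤ N := by
  by_contra hcon
  push Not at hcon
  set G : ℂ → ℂ := fun t => (∏ q ∈ Q, (t - q))⁻¹ with hG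
  set u : ℂ → ℝ := fun t => w t * ‖G t‖ ^ 2 with hu
  have hprod : ∀ t ∉ Q, (∏ q ∈ Q, (t - q)) ≠ 0 := by
    intro t ht
    rw [Finset.prod_ne_zero_iff]
    intro q hq
    exact sub_ne_zero.2 (fun h => ht (h ▸ hq))
  have hGan : ∀ t ∉ Q, AnalyticAt ℂ G t := by
    intro t ht
    refine AnalyticAt.inv ?_ (hprod t ht)
    exact Finset.analyticAt_fun_prod _ (fun q _ => by fun_prop)
  have hGne : ∀ t ∉ Q, G t ≠ 0 := fun t ht => inv_ne_zero (hprod t ht)
  have huC : ∀ t ∉ P ∪ Q, ContDiffAt ℝ 2 u t := by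
    intro t ht
    rw [Finset.mem_union, not_or] at ht
    have h1 : ContDiffAt ℝ 2 G t := ((hGan t ht.2).contDiffAt (n := 2)).restrict_scalars ℝ
    exact (hw2 t ht.1).mul (h1.norm_sq ℝ)
  have huL : ∀ t ∉ P ∪ Q, 0 ≤ (Δ u) t := by
    intro t ht
    by_contra hneg
    push Not at hneg
    have hc : ∀ᶠ s in 𝓝 t, (Δ u) s < 0 := (continuousAt_lap (huC t ht)).eventually (gt_mem_nhds hneg)
    have hF : ∀ᶠ s in 𝓝 t, s ∉ P ∪ Q := (Finset.isClosed _).isOpen_compl.mem_nhds ht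
    by_cases hd : ∃ᶠ s in 𝓝 t, 0 < w s
    · obtain ⟨s, hs1, hs2, hs3⟩ := (hd.and_eventually (hc.and hF)).exists
      rw [Finset.mem_union, not_or] at hs3
      have := lap_mul_nonneg (hw2 s hs3.1) hs1 (hlap s hs3.1 hs1) (hGan s hs3.2) (hGne s hs3.2)
      exact absurd this (not_le.2 hs2)
    · rw [not_frequently] at hd
      have h0 : u =ᶠ[𝓝 t] fun _ => 0 := by
        filter_upwards [hd, hF] with s h1 h2
        rw [Finset.mem_union, not_or] at h2
        have h3 : w s = 0 := le_antisymm (not_lt.1 h1) (hw0 s h2.1)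
        simp only [hu, h3, zero_mul]
      rw [(laplacian_congr_nhds h0).self_of_nhds, lap_eq] at hneg
      simp at hneg
  -- bounded near the punctures
  have hbd : ∀ f ∈ P ∪ Q, ∃ M, ∀ᶠ z in 𝓝[≠] f, u z ≤ M := by
    intro f hf
    by_cases hfQ : f ∈ Q
    · obtain ⟨hfP, hf0⟩ := hQ f hfQ
      have hnn : ∀ᶠ z in 𝓝 f, 0 ≤ w z := by
        filter_upwards [P.isClosed.isOpen_compl.mem_nhds (by exact_mod_cast hfP)] with z hz
        exact hw0 z (by exact_mod_cast hz)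
      obtain ⟨M, hM⟩ := quad_bound (hw2 f hfP) hf0 hnn
      set g' : ℂ → ℂ := fun t => (∏ q ∈ Q.erase f, (t - q))⁻¹ with hg'
      have hg'c : ContinuousAt (fun z => ‖g' z‖ ^ 2) f := by
        have hne : (∏ q ∈ Q.erase f, (f - q)) ≠ 0 := by
          rw [Finset.prod_ne_zero_iff]
          intro q hq
          exact sub_ne_zero.2 (fun h => (Finset.ne_of_mem_erase hq) h.symm)
        have hcp : Continuous (fun t : ℂ => ∏ q ∈ Q.erase f, (t - q)) :=
          continuous_finsetProd _ (fun q _ => by fun_prop)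
        exact ((hcp.continuousAt (x := f)).inv₀ hne).norm.pow 2
      have hev : ∀ᶠ z in 𝓝 f, ‖g' z‖ ^ 2 < ‖g' f‖ ^ 2 + 1 :=
        hg'c.eventually (gt_mem_nhds (lt_add_one _))
      refine ⟨|M| * (‖g' f‖ ^ 2 + 1), ?_⟩
      filter_upwards [nhdsWithin_le_nhds hM, nhdsWithin_le_nhds hev, nhdsWithin_le_nhds hnn,
        self_mem_nhdsWithin] with z h1 h2 h3 h4
      have hzf : 0 < ‖z - f‖ := norm_pos_iff.2 (sub_ne_zero.2 h4)
      have hGz : G z = (z - f)⁻¹ * g' z := by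
        simp only [hG, hg']
        rw [← Finset.mul_prod_erase Q (fun q => z - q) hfQ, mul_inv]
      simp only [hu]
      rw [hGz, norm_mul, norm_inv, mul_pow, inv_pow, ← mul_assoc]
      have h5 : w z * (‖z - f‖ ^ 2)⁻¹ ≤ |M| := by
        rw [← div_eq_mul_inv, div_le_iff₀ (by positivity)]
        exact h1.trans (mul_le_mul_of_nonneg_right (le_abs_self M) (by positivity))
      exact mul_le_mul h5 h2.le (by positivity) (abs_nonneg M)
    · have hfP : f ∈ P := by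
        rcases Finset.mem_union.1 hf with h | h
        · exact h
        · exact absurd h hfQ
      have hGc : ContinuousAt (fun z => ‖G z‖ ^ 2) f := ((hGan f hfQ).continuousAt.norm).pow 2
      have hev : ∀ᶠ z in 𝓝 f, ‖G z‖ ^ 2 < ‖G f‖ ^ 2 + 1 :=
        hGc.eventually (gt_mem_nhds (lt_add_one _))
      have hev2 : ∀ᶠ z in 𝓝[≠] f, z ∉ P := by
        have h1 : ∀ᶠ z in 𝓝 f, z ∉ P.erase f := (P.erase f).isClosed.isOpen_compl.mem_nhds (by simp)
        filter_upwards [nhdsWithin_le_nhds h1, self_mem_nhdsWithin] with z h2 h3 h4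
        exact h2 (Finset.mem_erase.2 ⟨h3, h4⟩)
      have hev3 : ∀ᶠ z in 𝓝 f, ‖z‖ < ‖f‖ + 1 :=
        continuous_norm.continuousAt.eventually (gt_mem_nhds (lt_add_one _))
      refine ⟨|C| * (1 + (‖f‖ + 1)) ^ N * (‖G f‖ ^ 2 + 1), ?_⟩
      filter_upwards [nhdsWithin_le_nhds hev, hev2, nhdsWithin_le_nhds hev3] with z h1 h2 h3
      simp only [hu]
      have h4 : w z ≤ |C| * (1 + (‖f‖ + 1)) ^ N := by
        refine (hg z h2).trans ?_
        have h5 : (1 + ‖z‖) ^ N ≤ (1 + (‖f‖ + 1)) ^ N := by gcongr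
        calc C * (1 + ‖z‖) ^ N ≤ |C| * (1 + ‖z‖) ^ N :=
              mul_le_mul_of_nonneg_right (le_abs_self C) (by positivity)
          _ ≤ _ := by gcongr
      exact mul_le_mul h4 h1.le (by positivity) (by positivity)
  have hlogb : ∀ f ∈ P ∪ Q, ∀ ε : ℝ, 0 < ε → ∀ᶠ z in 𝓝[≠] f, u z ≤ ε * Real.log (1 / ‖z - f‖) := by
    intro f hf ε hε
    obtain ⟨M, hM⟩ := hbd f hf
    filter_upwards [hM, (tendsto_log_inv f).eventually (eventually_ge_atTop (M / ε))] with z h1 h2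
    refine h1.trans ?_
    rw [div_le_iff₀ hε] at h2
    linarith
  -- a point where `w > 0`
  obtain ⟨z0, hz0F, hz0⟩ : ∃ z0, z0 ∉ P ∪ Q ∧ 0 < w z0 := by
    obtain ⟨t0, ht0, ht1⟩ := hpos
    refine ⟨t0, ?_, ht1⟩
    rw [Finset.mem_union, not_or]
    exact ⟨ht0, fun h => ht1.ne' (hQ t0 h).2⟩
  have hz0' := hz0F
  rw [Finset.mem_union, not_or] at hz0'
  have hu0 : 0 < u z0 := by
    have := hGne z0 hz0'.2
    simp only [hu]
    positivity
  obtain ⟨R, hR1, hR⟩ : ∃ R : ℝ, 1 ≤ R ∧ ∀ f ∈ P ∪ Q, ‖f‖ ≤ R := by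
    obtain ⟨R, hR⟩ := (P ∪ Q).finite_toSet.isBounded.exists_norm_le
    exact ⟨max R 1, le_max_right _ _, fun f hf => (hR f hf).trans (le_max_left _ _)⟩
  have hmain : ∀ r : ℝ, 2 * R + 1 ≤ r → ‖z0‖ ≤ r → u z0 ≤ |C| * 4 ^ Q.card / (1 + r) := by
    intro r hr hz0r
    have hr0 : 0 < r := by linarith
    refine finite_le (r := r) (F := P ∪ Q) (fun f hf => by linarith [hR f hf])
      (fun z _ hz => ⟨huC z hz, huL z hz⟩) ?_ hlogb ?_ z0 hz0r hz0F
    · intro z hz
      exact (huC z (by simpa using hz.2)).continuousAt.continuousWithinAt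
    · intro z hz
      have hzP : z ∉ P := fun h => by
        have := hR z (Finset.mem_union_left _ h)
        linarith
      have h1 : ((1 + r) / 2) ^ Q.card ≤ ‖∏ q ∈ Q, (z - q)‖ := by
        rw [norm_prod, ← Finset.prod_const]
        refine Finset.prod_le_prod (fun q _ => by positivity) (fun q hq => ?_)
        have h2 := norm_sub_norm_le z q
        have h3 := hR q (Finset.mem_union_right _ hq)
        rw [hz] at h2
        linarith
      have hpos : 0 < ((1 + r) / 2) ^ Q.card := by positivity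
      have h2 : ‖G z‖ ^ 2 ≤ ((((1 + r) / 2) ^ Q.card)⁻¹) ^ 2 := by
        simp only [hG, norm_inv]
        gcongr
      have h3 : w z ≤ |C| * (1 + r) ^ N := by
        have := hg z hzP
        rw [hz] at this
        exact this.trans (mul_le_mul_of_nonneg_right (le_abs_self C) (by positivity))
      have h4 : u z ≤ |C| * (1 + r) ^ N * ((((1 + r) / 2) ^ Q.card)⁻¹) ^ 2 := by
        simp only [hu]
        exact mul_le_mul h3 h2 (by positivity) (by positivity)
      refine h4.trans ?_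
      have h5 : ((((1 + r) / 2) ^ Q.card)⁻¹) ^ 2 = 4 ^ Q.card / (1 + r) ^ (2 * Q.card) := by
        rw [inv_pow, ← pow_mul, div_pow, mul_comm Q.card 2, pow_mul (2 : ℝ) 2, inv_div]
        norm_num
      rw [h5]
      have h6 : (1 + r) ^ (N + 1) ≤ (1 + r) ^ (2 * Q.card) :=
        pow_le_pow_right₀ (by linarith) hcon
      rw [mul_div_assoc', div_le_div_iff₀ (by positivity) (by positivity)]
      calc |C| * (1 + r) ^ N * 4 ^ Q.card * (1 + r) = |C| * 4 ^ Q.card * (1 + r) ^ (N + 1) := by ring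
        _ ≤ |C| * 4 ^ Q.card * (1 + r) ^ (2 * Q.card) := by gcongr
  have hlim : Tendsto (fun r : ℝ => |C| * 4 ^ Q.card / (1 + r)) atTop (𝓝 0) :=
    tendsto_const_nhds.div_atTop (tendsto_atTop_add_const_left _ _ tendsto_id)
  have hle : u z0 ≤ 0 := by
    refine ge_of_tendsto hlim ?_
    filter_upwards [eventually_ge_atTop (2 * R + 1), eventually_ge_atTop ‖z0‖] with r h1 h2
    exact hmain r h1 h2
  linarith

/-! ### finitely many preimages ⇒ no essential singularity -/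

theorem meromorphicAt_of_bounded {H : ℂ → ℂ} {a : ℂ} {M : ℝ}
    (hH : ∀ᶠ z in 𝓝[≠] a, AnalyticAt ℂ H z) (hM : ∀ᶠ z in 𝓝[≠] a, ‖H z‖ ≤ M) : MeromorphicAt H a := by
  have h1 := hH.and hM
  rw [eventually_nhdsWithin_iff] at h1
  obtain ⟨r, hr, hball⟩ := Metric.eventually_nhds_iff_ball.1 h1
  have hs : ball a r ∈ 𝓝 a := ball_mem_nhds a hr
  have hd : DifferentiableOn ℂ H (ball a r \ {a}) := fun z hz =>
    ((hball z hz.1 hz.2).1.differentiableAt).differentiableWithinAt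
  have hb : BddAbove (norm ∘ H '' (ball a r \ {a})) := by
    refine ⟨M, ?_⟩
    rintro _ ⟨z, hz, rfl⟩
    exact (hball z hz.1 hz.2).2
  have h2 := Complex.differentiableOn_update_limUnder_of_bddAbove hs hd hb
  have h3 : AnalyticAt ℂ (Function.update H a (limUnder (𝓝[≠] a) H)) a := h2.analyticAt hs
  refine h3.meromorphicAt.congr ?_
  filter_upwards [self_mem_nhdsWithin] with z hz
  exact Function.update_of_ne hz _ _

/-- Casorati–Weierstrass -/
theorem casorati {G : ℂ → ℂ} {a : ℂ} (hG : ∀ᶠ z in 𝓝[≠] a, AnalyticAt ℂ G z)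
    (hm : ¬ MeromorphicAt G a) (c : ℂ) {δ : ℝ} (hδ : 0 < δ) : ∃ᶠ z in 𝓝[≠] a, ‖G z - c‖ < δ := by
  intro hcon
  simp only [not_lt] at hcon
  apply hm
  have hne : ∀ᶠ z in 𝓝[≠] a, G z - c ≠ 0 := by
    filter_upwards [hcon] with z hz h0
    rw [h0, norm_zero] at hz
    linarith
  have h1 : MeromorphicAt (fun z => (G z - c)⁻¹) a := by
    refine meromorphicAt_of_bounded (M := δ⁻¹) ?_ ?_
    · filter_upwards [hG, hne] with z h1 h2
      exact (h1.sub analyticAt_const).inv h2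
    · filter_upwards [hcon] with z h1
      rw [norm_inv]
      gcongr
  have h2 : MeromorphicAt (fun z => ((G z - c)⁻¹)⁻¹ + c) a :=
    h1.inv.add (MeromorphicAt.const c a)
  refine h2.congr ?_
  filter_upwards with z
  simp

theorem mero_of_card {G : ℂ → ℂ} {a : ℂ} {r : ℝ} (hr : 0 < r) {N : ℕ}
    (hG : ∀ z, z ≠ a → ‖z - a‖ < r → AnalyticAt ℂ G z)
    (hcard : ∀ (c : ℂ) (T : Finset ℂ), (∀ t ∈ T, t ≠ a ∧ ‖t - a‖ < r ∧ G t = c) → T.card ≤ N) :
    MeromorphicAt G a := by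
  by_contra hm
  have hGe : ∀ᶠ z in 𝓝[≠] a, AnalyticAt ℂ G z := by
    rw [eventually_nhdsWithin_iff]
    filter_upwards [ball_mem_nhds a hr] with z hz hza
    exact hG z hza (by rwa [mem_ball_iff_norm] at hz)
  have claim : ∀ n : ℕ, ∃ (B : Set ℂ) (η : ℝ), IsOpen B ∧ B.Nonempty ∧ 0 < η ∧ η ≤ r ∧
      ∀ c ∈ B, ∃ T : Finset ℂ, T.card = n ∧ ∀ t ∈ T, η ≤ ‖t - a‖ ∧ ‖t - a‖ < r ∧ G t = c := by
    intro n
    induction n with
    | zero => exact ⟨univ, r, isOpen_univ, univ_nonempty, hr, le_rfl, fun c _ => ⟨∅, by simp, by simp⟩⟩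
    | succ n ih =>
      obtain ⟨B, η, hBo, ⟨c0, hc0⟩, hη, hηr, hB⟩ := ih
      obtain ⟨δ, hδ, hδB⟩ := Metric.isOpen_iff.1 hBo c0 hc0
      have hev : ∀ᶠ z in 𝓝[≠] a, z ≠ a ∧ ‖z - a‖ < η := by
        filter_upwards [self_mem_nhdsWithin, nhdsWithin_le_nhds (ball_mem_nhds a hη)] with z h1 h2
        exact ⟨h1, by rwa [mem_ball_iff_norm] at h2⟩
      obtain ⟨z1, hz1, hz1a, hz1η⟩ := ((casorati hGe hm c0 hδ).and_eventually hev).exists
      have hz1B : G z1 ∈ B := hδB (by rwa [mem_ball_iff_norm])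
      have hpos : 0 < ‖z1 - a‖ := norm_pos_iff.2 (sub_ne_zero.2 hz1a)
      have han := hG z1 hz1a (hz1η.trans_le hηr)
      rcases han.eventually_constant_or_nhds_le_map_nhds with hc | hop
      · exfalso
        have h1 : {z | G z = G z1 ∧ z ≠ a ∧ ‖z - a‖ < r} ∈ 𝓝 z1 := by
          filter_upwards [hc, isOpen_ne.mem_nhds hz1a,
            (isOpen_lt (by fun_prop : Continuous fun z : ℂ => ‖z - a‖) continuous_const).mem_nhds
              (hz1η.trans_le hηr)] with z h1 h2 h3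
          exact ⟨h1, h2, h3⟩
        obtain ⟨T, hT1, hT2⟩ := (infinite_of_mem_nhds z1 h1).exists_subset_card_eq (N + 1)
        have := hcard (G z1) T (fun t ht => ⟨(hT1 ht).2.1, (hT1 ht).2.2, (hT1 ht).1⟩)
        omega
      · set V : Set ℂ := {z | ‖z - a‖ < η ∧ ‖z1 - a‖ / 2 < ‖z - a‖ ∧ G z ∈ B} with hV
        have hVn : V ∈ 𝓝 z1 := by
          filter_upwards [(isOpen_lt (by fun_prop : Continuous fun z : ℂ => ‖z - a‖)
              continuous_const).mem_nhds hz1η,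
            (isOpen_lt continuous_const (by fun_prop : Continuous fun z : ℂ => ‖z - a‖)).mem_nhds
              (show ‖z1 - a‖ / 2 < ‖z1 - a‖ by linarith),
            han.continuousAt.preimage_mem_nhds (hBo.mem_nhds hz1B)] with z h1 h2 h3
          exact ⟨h1, h2, h3⟩
        have himg : G '' V ∈ 𝓝 (G z1) := hop (image_mem_map hVn)
        refine ⟨interior (G '' V), ‖z1 - a‖ / 2, isOpen_interior,
          ⟨G z1, mem_interior_iff_mem_nhds.2 himg⟩, by positivity, by linarith, ?_⟩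
        intro c hc
        obtain ⟨z2, hz2, rfl⟩ := interior_subset hc
        obtain ⟨T, hT1, hT2⟩ := hB (G z2) hz2.2.2
        have hnot : z2 ∉ T := fun h => by
          have := (hT2 z2 h).1
          linarith [hz2.1]
        refine ⟨insert z2 T, by rw [Finset.card_insert_of_notMem hnot, hT1], ?_⟩
        intro t ht
        rcases Finset.mem_insert.1 ht with rfl | h
        · exact ⟨hz2.2.1.le, hz2.1.trans_le hηr, rfl⟩
        · have := hT2 t h
          exact ⟨by linarith [this.1], this.2.1, this.2.2⟩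
  obtain ⟨B, η, _, ⟨c, hc⟩, hη, _, hB⟩ := claim (N + 1)
  obtain ⟨T, hT1, hT2⟩ := hB c hc
  have := hcard c T (fun t ht => ⟨fun h => by
    have := (hT2 t ht).1
    rw [h, sub_self, norm_zero] at this
    linarith, (hT2 t ht).2.1, (hT2 t ht).2.2⟩)
  omega

/-! ### entire functions of polynomial growth -/

theorem poly_of_growth : ∀ (N : ℕ) (E : ℂ → ℂ) (C : ℝ), Differentiable ℂ E →
    (∀ t, ‖E t‖ ≤ C * (1 + ‖t‖) ^ N) → ∃ p : Polynomial ℂ, ∀ t, E t = p.eval t := by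
  intro N
  induction N with
  | zero =>
    intro E C hE hb
    have hb' : Bornology.IsBounded (range E) := by
      rw [isBounded_iff_forall_norm_le]
      refine ⟨C, ?_⟩
      rintro _ ⟨t, rfl⟩
      simpa using hb t
    refine ⟨Polynomial.C (E 0), fun t => ?_⟩
    rw [Polynomial.eval_C]
    exact hE.apply_eq_apply_of_bounded hb' t 0
  | succ N ih =>
    intro E C hE hb
    have hd : Differentiable ℂ (dslope E 0) := by
      have := (Complex.differentiableOn_dslope (s := univ) (c := 0) univ_mem (f := E)).2 hE.differentiableOn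
      exact differentiableOn_univ.1 this
    have hC : 0 ≤ C := by
      have := (norm_nonneg _).trans (hb 0)
      simpa using this
    obtain ⟨M, hM⟩ := ((isCompact_closedBall (0 : ℂ) 1).image hd.continuous).isBounded.exists_norm_le
    have hM' : ∀ t : ℂ, ‖t‖ ≤ 1 → ‖dslope E 0 t‖ ≤ M := fun t ht =>
      hM _ ⟨t, by simpa using ht, rfl⟩
    have hM0 : 0 ≤ M := (norm_nonneg _).trans (hM' 0 (by simp))
    obtain ⟨p, hp⟩ := ih (dslope E 0) (M + 4 * C) hd (by
      intro t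
      have h1 : (1 : ℝ) ≤ (1 + ‖t‖) ^ N := one_le_pow₀ (by linarith [norm_nonneg t])
      rcases le_or_gt ‖t‖ 1 with h | h
      · calc ‖dslope E 0 t‖ ≤ M := hM' t h
          _ ≤ (M + 4 * C) * 1 := by linarith
          _ ≤ (M + 4 * C) * (1 + ‖t‖) ^ N := by gcongr
      · have ht0 : t ≠ 0 := by
          intro h0
          rw [h0, norm_zero] at h
          linarith
        rw [dslope_of_ne _ ht0, slope_def_field, sub_zero, norm_div]
        rw [div_le_iff₀ (by positivity)]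
        have h2 : ‖E t - E 0‖ ≤ C * (1 + ‖t‖) ^ (N + 1) + C := by
          refine (norm_sub_le _ _).trans (add_le_add (hb t) ?_)
          simpa using hb 0
        refine h2.trans ?_
        have h3 : C ≤ C * (1 + ‖t‖) ^ (N + 1) := le_mul_of_one_le_right hC
          (one_le_pow₀ (by linarith [norm_nonneg t]))
        have h4 : (1 + ‖t‖) ^ (N + 1) ≤ (1 + ‖t‖) ^ N * (2 * ‖t‖) := by
          rw [pow_succ]
          gcongr
          linarith
        have h5 : 0 ≤ M * (1 + ‖t‖) ^ N * ‖t‖ := by positivity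
        have h6 := mul_le_mul_of_nonneg_left h4 hC
        nlinarith)
    refine ⟨Polynomial.C (E 0) + Polynomial.X * p, fun t => ?_⟩
    have h1 : (t - 0) • dslope E 0 t = E t - E 0 := sub_smul_dslope E 0 t
    simp only [Polynomial.eval_add, Polynomial.eval_C, Polynomial.eval_mul, Polynomial.eval_X, ← hp t]
    rw [sub_zero, smul_eq_mul] at h1
    linear_combination -h1

/-- meromorphic on the sphere, analytic off `P` ⇒ rational -/
theorem rational_of_mero {P : Finset ℂ} {S : ℂ → ℂ} (hS : ∀ t ∉ P, AnalyticAt ℂ S t)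
    (hP : ∀ a ∈ P, MeromorphicAt S a) (hinf : MeromorphicAt (fun z => S z⁻¹) 0) :
    ∃ p q : Polynomial ℂ, q ≠ 0 ∧ (∀ t ∉ P, q.eval t ≠ 0) ∧ ∀ t ∉ P, q.eval t * S t = p.eval t := by
  classical
  choose! n hn using hP
  set E : ℂ → ℂ := fun z => (∏ a ∈ P, (z - a) ^ n a) * S z with hE
  have hEan : ∀ t, AnalyticAt ℂ E t := by
    intro t
    by_cases ht : t ∈ P
    · have h1 : E = fun z => (∏ a ∈ P.erase t, (z - a) ^ n a) * ((z - t) ^ n t • S z) := by
        funext z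
        simp only [hE, smul_eq_mul]
        rw [← Finset.mul_prod_erase P _ ht]
        ring
      rw [h1]
      exact (Finset.analyticAt_fun_prod _ (fun q _ => by fun_prop)).mul (hn t ht)
    · exact (Finset.analyticAt_fun_prod _ (fun q _ => by fun_prop)).mul (hS t ht)
  have hEd : Differentiable ℂ E := fun t => (hEan t).differentiableAt
  obtain ⟨k, hk⟩ := hinf
  simp only [sub_zero, smul_eq_mul] at hk
  obtain ⟨M, hM⟩ : ∃ M, ∀ᶠ z in 𝓝 (0 : ℂ), ‖z ^ k * S z⁻¹‖ ≤ M :=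
    ⟨_, (hk.continuousAt.norm.eventually (gt_mem_nhds (lt_add_one _))).mono fun z hz => hz.le⟩
  obtain ⟨ρ, hρ, hball⟩ := Metric.eventually_nhds_iff_ball.1 hM
  have hM0 : 0 ≤ M := (norm_nonneg _).trans (hball 0 (mem_ball_self hρ))
  set D : ℕ := ∑ a ∈ P, n a with hD
  obtain ⟨R, hR0, hR⟩ : ∃ R : ℝ, 0 ≤ R ∧ ∀ f ∈ P, ‖f‖ ≤ R := by
    obtain ⟨R, hR⟩ := P.finite_toSet.isBounded.exists_norm_le
    exact ⟨max R 0, le_max_right _ _, fun f hf => (hR f hf).trans (le_max_left _ _)⟩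
  have hprodle : ∀ z : ℂ, ‖∏ a ∈ P, (z - a) ^ n a‖ ≤ ((1 + R) * (1 + ‖z‖)) ^ D := by
    intro z
    rw [norm_prod, hD, ← Finset.prod_pow_eq_pow_sum]
    refine Finset.prod_le_prod (fun _ _ => by positivity) (fun a ha => ?_)
    rw [norm_pow]
    gcongr
    have := norm_sub_le z a
    have h1 := hR a ha
    nlinarith [norm_nonneg z, mul_nonneg hR0 (norm_nonneg z)]
  obtain ⟨B, hB⟩ := ((isCompact_closedBall (0 : ℂ) (ρ⁻¹ + 1)).image hEd.continuous).isBounded.exists_norm_le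
  have hB' : ∀ t : ℂ, ‖t‖ ≤ ρ⁻¹ + 1 → ‖E t‖ ≤ B := fun t ht => hB _ ⟨t, by simpa using ht, rfl⟩
  have hB0 : 0 ≤ B := (norm_nonneg _).trans (hB' 0 (by rw [norm_zero]; positivity))
  obtain ⟨p, hp⟩ := poly_of_growth (D + k) E (B + (1 + R) ^ D * M) hEd (by
    intro t
    have h1 : (1 : ℝ) ≤ (1 + ‖t‖) ^ (D + k) := one_le_pow₀ (by linarith [norm_nonneg t])
    rcases le_or_gt ‖t‖ (ρ⁻¹ + 1) with h | h
    · calc ‖E t‖ ≤ B := hB' t h
        _ ≤ (B + (1 + R) ^ D * M) * 1 := by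
          have : 0 ≤ (1 + R) ^ D * M := by positivity
          linarith
        _ ≤ _ := by gcongr
    · have hρi : 0 < ρ⁻¹ := inv_pos.2 hρ
      have htpos : 0 < ‖t‖ := by linarith
      have ht0 : t ≠ 0 := norm_pos_iff.1 htpos
      have h2 : ‖t⁻¹‖ < ρ := by
        rw [norm_inv]
        exact (inv_lt_comm₀ htpos hρ).2 (by linarith)
      have h3 := hball t⁻¹ (by rwa [mem_ball_zero_iff])
      rw [inv_inv, norm_mul, norm_pow, norm_inv] at h3
      have h4 : ‖S t‖ ≤ M * (1 + ‖t‖) ^ k := by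
        have h5 : ‖S t‖ ≤ M * ‖t‖ ^ k := by
          rw [inv_pow, inv_mul_le_iff₀ (by positivity)] at h3
          linarith
        refine h5.trans ?_
        gcongr
        linarith
      calc ‖E t‖ = ‖∏ a ∈ P, (t - a) ^ n a‖ * ‖S t‖ := norm_mul _ _
        _ ≤ ((1 + R) * (1 + ‖t‖)) ^ D * (M * (1 + ‖t‖) ^ k) := by
          have := hprodle t
          gcongr
        _ = (1 + R) ^ D * M * (1 + ‖t‖) ^ (D + k) := by rw [mul_pow, pow_add]; ring
        _ ≤ _ := by gcongr; linarith)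
  refine ⟨p, ∏ a ∈ P, (Polynomial.X - Polynomial.C a) ^ n a, ?_, ?_, ?_⟩
  · rw [Finset.prod_ne_zero_iff]
    intro a _
    exact pow_ne_zero _ (Polynomial.X_sub_C_ne_zero a)
  · intro t ht
    rw [Polynomial.eval_prod, Finset.prod_ne_zero_iff]
    intro a ha
    rw [Polynomial.eval_pow, Polynomial.eval_sub, Polynomial.eval_X, Polynomial.eval_C]
    exact pow_ne_zero _ (sub_ne_zero.2 (fun h => ht (h ▸ ha)))
  · intro t ht
    rw [← hp t, Polynomial.eval_prod]
    simp only [Polynomial.eval_pow, Polynomial.eval_sub, Polynomial.eval_X, Polynomial.eval_C, hE]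

/-- **ALG-RAT (F1)**: `w ≥ 0` is a `C²` weight on `ℂ ∖ P`, not identically `0`, `log w` subharmonic where
`w > 0`, `w ≤ C (1+|t|)^N`; `S` holomorphic where `w > 0` and `|S|² w ≤ C (1+|t|)^N` there. Then `S` is
a rational function. -/
theorem rational_of_growth {P : Finset ℂ} {S : ℂ → ℂ} {w : ℂ → ℝ} {C : ℝ} {N : ℕ}
    (hw2 : ∀ t ∉ P, ContDiffAt ℝ 2 w t) (hw0 : ∀ t ∉ P, 0 ≤ w t)
    (hlap : ∀ t ∉ P, 0 < w t → 0 ≤ (Δ (fun s => Real.log (w s))) t)
    (hpos : ∃ t, t ∉ P ∧ 0 < w t)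
    (hg : ∀ t ∉ P, w t ≤ C * (1 + ‖t‖) ^ N)
    (hS : ∀ t ∉ P, 0 < w t → AnalyticAt ℂ S t)
    (hSg : ∀ t ∉ P, 0 < w t → ‖S t‖ ^ 2 * w t ≤ C * (1 + ‖t‖) ^ N) :
    ∃ p q : Polynomial ℂ, q ≠ 0 ∧ (∀ t ∉ P, 0 < w t → q.eval t ≠ 0) ∧
      ∀ t ∉ P, 0 < w t → q.eval t * S t = p.eval t := by
  classical
  -- the zero set of `w` is finite
  have hfin : {t | t ∉ P ∧ w t = 0}.Finite := by
    by_contra hinf
    obtain ⟨T, hT1, hT2⟩ := Set.Infinite.exists_subset_card_eq hinf (N + 1)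
    have := count (Q := T) hw2 hw0 hlap hpos hg (fun t ht => hT1 ht)
    omega
  set P' : Finset ℂ := P ∪ hfin.toFinset with hP'
  have hP'1 : ∀ t, t ∉ P' ↔ t ∉ P ∧ 0 < w t := by
    intro t
    simp only [hP', Finset.mem_union, Set.Finite.mem_toFinset, Set.mem_ofPred_eq, not_or, not_and]
    constructor
    · rintro ⟨h1, h2⟩
      exact ⟨h1, lt_of_le_of_ne (hw0 t h1) (Ne.symm (h2 h1))⟩
    · rintro ⟨h1, h2⟩
      exact ⟨h1, fun _ => h2.ne'⟩
  have hSan : ∀ t ∉ P', AnalyticAt ℂ S t := fun t ht => hS t ((hP'1 t).1 ht).1 ((hP'1 t).1 ht).2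
  suffices h : ∃ p q : Polynomial ℂ, q ≠ 0 ∧ (∀ t ∉ P', q.eval t ≠ 0) ∧
      ∀ t ∉ P', q.eval t * S t = p.eval t by
    obtain ⟨p, q, h1, h2, h3⟩ := h
    exact ⟨p, q, h1, fun t ht hw => h2 t ((hP'1 t).2 ⟨ht, hw⟩),
      fun t ht hw => h3 t ((hP'1 t).2 ⟨ht, hw⟩)⟩
  by_cases hconst : ∃ c : ℂ, ∃ t0 ∉ P', ∀ᶠ s in 𝓝 t0, S s = c
  · obtain ⟨c, t0, ht0, hc⟩ := hconst
    have hconn : IsPreconnected ((P' : Set ℂ)ᶜ) :=
      (P'.countable_toSet.isConnected_compl_of_one_lt_rank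
        (by rw [Complex.rank_real_complex]; exact Nat.one_lt_ofNat)).isPreconnected
    have hA : AnalyticOnNhd ℂ S ((P' : Set ℂ)ᶜ) := fun t ht => hSan t (by simpa using ht)
    have heq := hA.eqOn_of_preconnected_of_eventuallyEq (analyticOnNhd_const (v := c)) hconn
      (show t0 ∈ ((P' : Set ℂ)ᶜ) by simpa using ht0) hc
    refine ⟨Polynomial.C c, 1, one_ne_zero, fun t _ => by simp, fun t ht => ?_⟩
    have : S t = c := heq (show t ∈ ((P' : Set ℂ)ᶜ) by simpa using ht)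
    simp [this]
  push Not at hconst
  -- every value is taken at most `N/2` times
  have hcard : ∀ (c : ℂ) (T : Finset ℂ), (∀ t ∈ T, t ∉ P' ∧ S t = c) → T.card ≤ N := by
    intro c T hT
    set wc : ℂ → ℝ := fun t => w t * ‖S t - c‖ ^ 2 with hwc
    have hSc : ∀ t ∉ P', AnalyticAt ℂ (fun t => S t - c) t := fun t ht => (hSan t ht).sub analyticAt_const
    have hposc : ∀ t, t ∉ P' → 0 < wc t → S t - c ≠ 0 := by
      intro t _ h h0
      simp only [hwc, h0, norm_zero] at h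
      norm_num at h
    have hCN : ∀ t ∉ P', wc t ≤ (2 * (1 + ‖c‖ ^ 2) * C) * (1 + ‖t‖) ^ N := by
      intro t ht
      obtain ⟨h1, h2⟩ := (hP'1 t).1 ht
      have h3 := hSg t h1 h2
      have h4 := hg t h1
      have h5 : ‖S t - c‖ ^ 2 ≤ 2 * ‖S t‖ ^ 2 + 2 * ‖c‖ ^ 2 := by
        have := norm_sub_le (S t) c
        have h6 : ‖S t - c‖ ^ 2 ≤ (‖S t‖ + ‖c‖) ^ 2 := by gcongr
        nlinarith [sq_nonneg (‖S t‖ - ‖c‖)]
      have h6 : wc t ≤ w t * (2 * ‖S t‖ ^ 2 + 2 * ‖c‖ ^ 2) := by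
        simp only [hwc]
        exact mul_le_mul_of_nonneg_left h5 h2.le
      have h7 : 0 ≤ ‖c‖ ^ 2 := by positivity
      nlinarith [mul_le_mul_of_nonneg_left h4 h7]
    have := count (P := P') (Q := T) (w := wc) (N := N) (C := 2 * (1 + ‖c‖ ^ 2) * C) ?_ ?_ ?_ ?_ hCN ?_
    · omega
    · intro t ht
      have h1 : ContDiffAt ℝ 2 (fun t => S t - c) t := ((hSc t ht).contDiffAt (n := 2)).restrict_scalars ℝ
      exact (hw2 t ((hP'1 t).1 ht).1).mul (h1.norm_sq ℝ)
    · intro t ht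
      have := hw0 t ((hP'1 t).1 ht).1
      simp only [hwc]
      positivity
    · intro t ht hpt
      obtain ⟨h1, h2⟩ := (hP'1 t).1 ht
      have hne := hposc t ht hpt
      have hwlog : ContDiffAt ℝ 2 (fun s => Real.log (w s)) t := (hw2 t h1).log h2.ne'
      have hharm : HarmonicAt (fun s => Real.log ‖S s - c‖) t :=
        AnalyticAt.harmonicAt_log_norm (hSc t ht) hne
      have hH2 : ContDiffAt ℝ 2 (fun s => Real.log ‖S s - c‖) t := hharm.1
      have hH0 : (Δ (fun s => Real.log ‖S s - c‖)) t = 0 := hharm.2.self_of_nhds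
      obtain ⟨d, hd⟩ : ∃ d : ℝ, d = 2 := ⟨2, rfl⟩
      have hev : (fun s => Real.log (wc s)) =ᶠ[𝓝 t]
          (fun s => Real.log (w s)) + d • (fun s => Real.log ‖S s - c‖) := by
        filter_upwards [(hw2 t h1).continuousAt.eventually (lt_mem_nhds h2),
          (hSc t ht).continuousAt.eventually_ne hne] with s hs1 hs2
        have hs3 : 0 < ‖S s - c‖ := norm_pos_iff.2 hs2
        simp only [hwc, Pi.add_apply, Pi.smul_apply, smul_eq_mul]
        rw [Real.log_mul hs1.ne' (by positivity), Real.log_pow, hd]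
        norm_num
      rw [(laplacian_congr_nhds hev).self_of_nhds]
      have h5 : ContDiffAt ℝ 2 (d • (fun s => Real.log ‖S s - c‖)) t := hH2.const_smul d
      have h6 : (Δ (d • (fun s => Real.log ‖S s - c‖))) t = d • (Δ (fun s => Real.log ‖S s - c‖)) t :=
        laplacian_smul d hH2
      rw [hwlog.laplacian_add h5, h6, hH0]
      simpa using hlap t h1 h2
    · obtain ⟨t, h1, h2⟩ := hpos
      have h3 : ∃ᶠ s in 𝓝 t, S s ≠ c := hconst c t ((hP'1 t).2 ⟨h1, h2⟩)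
      have h4 : ∀ᶠ s in 𝓝 t, 0 < w s := (hw2 t h1).continuousAt.eventually (lt_mem_nhds h2)
      have h5 : ∀ᶠ s in 𝓝 t, s ∉ P := P.isClosed.isOpen_compl.mem_nhds (by exact_mod_cast h1)
      obtain ⟨s, hs1, hs2, hs3⟩ := (h3.and_eventually (h4.and h5)).exists
      have : 0 < ‖S s - c‖ := norm_pos_iff.2 (sub_ne_zero.2 hs1)
      refine ⟨s, (hP'1 s).2 ⟨hs3, hs2⟩, ?_⟩
      simp only [hwc]
      positivity
    · intro t ht
      obtain ⟨h1, h2⟩ := hT t ht
      refine ⟨h1, ?_⟩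
      simp [hwc, h2]
  refine rational_of_mero hSan ?_ ?_
  · intro a ha
    have h1 : ∀ᶠ z in 𝓝 a, z ∉ P'.erase a := (P'.erase a).isClosed.isOpen_compl.mem_nhds (by simp)
    obtain ⟨r, hr, hball⟩ := Metric.eventually_nhds_iff_ball.1 h1
    have h2 : ∀ z, z ≠ a → ‖z - a‖ < r → z ∉ P' := fun z hz1 hz2 hz3 =>
      hball z (by rwa [mem_ball_iff_norm]) (Finset.mem_erase.2 ⟨hz1, hz3⟩)
    exact mero_of_card hr (N := N) (fun z hz1 hz2 => hSan z (h2 z hz1 hz2))
      (fun c T hT => hcard c T (fun t ht => ⟨h2 t (hT t ht).1 (hT t ht).2.1, (hT t ht).2.2⟩))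
  · obtain ⟨R, hR0, hR⟩ : ∃ R : ℝ, 0 < R ∧ ∀ f ∈ P', ‖f‖ ≤ R := by
      obtain ⟨R, hR⟩ := P'.finite_toSet.isBounded.exists_norm_le
      exact ⟨max R 1, by positivity, fun f hf => (hR f hf).trans (le_max_left _ _)⟩
    have h2 : ∀ z : ℂ, z ≠ 0 → ‖z - 0‖ < R⁻¹ → z⁻¹ ∉ P' := by
      intro z hz1 hz2 hz3
      rw [sub_zero] at hz2
      have h3 := hR _ hz3
      rw [norm_inv] at h3
      have h4 : 0 < ‖z‖ := norm_pos_iff.2 hz1
      have h5 : R < ‖z‖⁻¹ := (lt_inv_comm₀ h4 hR0).1 hz2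
      linarith
    refine mero_of_card (r := R⁻¹) (N := N) (inv_pos.2 hR0) ?_ ?_
    · intro z hz1 hz2
      exact (hSan z⁻¹ (h2 z hz1 hz2)).comp (analyticAt_inv hz1)
    · intro c T hT
      have h3 := hcard c (T.image (fun z => z⁻¹)) (by
        intro t ht
        obtain ⟨z, hz, rfl⟩ := Finset.mem_image.1 ht
        obtain ⟨h4, h5, h6⟩ := hT z hz
        exact ⟨h2 z h4 h5, h6⟩)
      rwa [Finset.card_image_of_injective _ inv_injective] at h3

end Crest.Agent.R276.RatPlane_437
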