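import Mathlib
import Crest.Agent.R276.Mod3_987
import Crest.Agent.R276.Mass_137
import Crest.Agent.R276.Liou_739
import Crest.Agent.R276.RatPlane_437
import Crest.Agent.R276.RatLine_437
import Crest.Agent.R271.W_792

/-!
# R276, leaf ALG-RAT (helper437), part F4': meromorphic functions on a model with a log-psh weight are rational

`M : Mdl K n`; `g ≥ 0` smooth on `M`, `log g` psh where `g > 0`, `{g > 0}` dense, `f` holomorphic where
`g > 0`, `g` and `|f|² g` of polynomial growth in `z`, `1/h`.  Then `f` is (the evaluation of) an element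
of `K = Frac B`.
-/

set_option autoImplicit false

open Set Filter Topology Metric InnerProductSpace Laplacian

noncomputable section

namespace Crest.Agent.R276.RatMod_437

open Crest.Agent.R271.Defs710 Crest.Agent.R271.Rd692
open Crest.Agent.R271.AlgB956 Crest.Agent.R271.Ho51
open Crest.Agent.R276.Mod1_987 Crest.Agent.R276.NL_137

theorem two_le_top : (2 : WithTop ℕ∞) ≤ ((⊤ : ℕ∞) : WithTop ℕ∞) := by
  have h : (2 : WithTop ℕ∞) = ((2 : ℕ∞) : WithTop ℕ∞) := rfl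
  rw [h]
  exact WithTop.coe_le_coe.2 le_top

/-! ### Levi form and Laplacians on lines -/

section levi

variable {n : ℕ} {M : Type*} [TopologicalSpace M] [RDom n M]

theorem D_D {φ : M → ℝ} (hφ : Sm φ) (x : M) (v w : Fin n → ℂ) :
    D (fun y => D φ y v) x w =
      fderiv ℝ (fderiv ℝ (φ ∘ (ch x).symm)) (cp x) w v := by
  have h1 : ((fun y => D φ y v) ∘ (ch x).symm) =ᶠ[𝓝 (cp x)]
      fun z => fderiv ℝ (φ ∘ (ch x).symm) z v := by
    filter_upwards [(ch x).open_target.mem_nhds ((isCh_ch x).cp_mem (mem_ch x))] with z hz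
    simp only [Function.comp_apply]
    rw [D_symm (isCh_ch x) hz φ]
  have h2 : D (fun y => D φ y v) x = fderiv ℝ ((fun y => D φ y v) ∘ (ch x).symm) (cp x) := rfl
  rw [h2, h1.fderiv_eq]
  have h3 : ContDiffAt ℝ (⊤ : ℕ∞) (fderiv ℝ (φ ∘ (ch x).symm)) (cp x) :=
    (hφ x).fderiv_right (m := (⊤ : ℕ∞)) (by exact_mod_cast le_top)
  have h4 := ((h3.differentiableAt (by simp)).hasFDerivAt.clm_apply
    (hasFDerivAt_const v (cp x))).fderiv
  rw [h4]
  simp

theorem lev_eq_Levi {φ : M → ℝ} (hφ : Sm φ) (x : M) (w : Fin n → ℂ) :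
    MaxP_25.lev (φ ∘ (ch x).symm) (cp x) w = 4 * Levi φ x w := by
  rw [Crest.Agent.R271.W792.Levi_eq_lev hφ, Crest.Agent.R271.W792.lev, D_D hφ, D_D hφ,
    MaxP_25.lev_eq]
  ring

theorem lev_congr {E : Type*} [NormedAddCommGroup E] [NormedSpace ℝ E] [NormedSpace ℂ E]
    {u v : E → ℝ} {z : E} (h : u =ᶠ[𝓝 z] v) (w : E) : MaxP_25.lev u z w = MaxP_25.lev v z w := by
  rw [MaxP_25.lev_eq, MaxP_25.lev_eq, h.fderiv.fderiv_eq]

theorem log_eq_VL' {D : M → ℝ} (hD : Continuous D) {x : M} (hx : 0 < D x) :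
    ∃ J : ℝ, (fun y => Real.log (D y)) =ᶠ[𝓝 x] fun y => VL J (D y) := by
  refine ⟨1 - Real.log (D x / 2), ?_⟩
  have h1 : ∀ᶠ y in 𝓝 x, D x / 2 < D y := hD.continuousAt.eventually (lt_mem_nhds (by linarith))
  filter_upwards [h1] with y hy
  rw [VL_large]
  rw [show -(1 - Real.log (D x / 2)) + 1 = Real.log (D x / 2) by ring,
    Real.exp_log (by linarith)]
  exact hy.le

theorem lev_log_nonneg {g : M → ℝ} (hg : Sm g) {x : M} (hx : 0 < g x) {w : Fin n → ℂ}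
    (h : 0 ≤ Levi (fun y => Real.log (g y)) x w) :
    0 ≤ MaxP_25.lev (fun z => Real.log (g ((ch x).symm z))) (cp x) w := by
  obtain ⟨J, hJ⟩ := log_eq_VL' hg.continuous hx
  have hs : Sm (fun y => VL J (g y)) := Sm.comp (VL_contDiff J) hg
  rw [Levi_congr hJ] at h
  have h1 : (fun z => Real.log (g ((ch x).symm z))) =ᶠ[𝓝 (cp x)]
      (fun y => VL J (g y)) ∘ (ch x).symm := by
    have h2 : Tendsto (ch x).symm (𝓝 (cp x)) (𝓝 x) := by
      have := (ch x).symm.continuousAt (x := cp x) (by simpa using (isCh_ch x).cp_mem (mem_ch x))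
      rwa [ContinuousAt, (isCh_ch x).symm_cp (mem_ch x)] at this
    exact h2.eventually hJ
  rw [lev_congr h1, lev_eq_Levi hs]
  linarith

theorem contDiffAt_log_symm {g : M → ℝ} (hg : Sm g) {x : M} (hx : 0 < g x) :
    ContDiffAt ℝ 2 (fun z => Real.log (g ((ch x).symm z))) (cp x) := by
  have h1 : ContDiffAt ℝ 2 (g ∘ (ch x).symm) (cp x) := (hg x).of_le two_le_top
  refine h1.log ?_
  simp only [Function.comp_apply]
  rw [(isCh_ch x).symm_cp (mem_ch x)]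
  exact hx.ne'

theorem tendsto_symm (x : M) : Tendsto (ch x).symm (𝓝 (cp x)) (𝓝 x) := by
  have := (ch x).symm.continuousAt (x := cp x) (by simpa using (isCh_ch x).cp_mem (mem_ch x))
  rwa [ContinuousAt, (isCh_ch x).symm_cp (mem_ch x)] at this

end levi

/-! ### subharmonic germs -/

/-- `u` is `C²` at `t` with `Δ u t ≥ 0` -/
def SH (u : ℂ → ℝ) (t : ℂ) : Prop := ContDiffAt ℝ 2 u t ∧ 0 ≤ (Δ u) t

theorem SH.add {u v : ℂ → ℝ} {t : ℂ} (hu : SH u t) (hv : SH v t) : SH (fun s => u s + v s) t := by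
  refine ⟨hu.1.add hv.1, ?_⟩
  have h1 : (Δ (u + v)) t = (Δ u) t + (Δ v) t := hu.1.laplacian_add hv.1
  have h2 : (fun s => u s + v s) = u + v := rfl
  rw [h2, h1]
  exact add_nonneg hu.2 hv.2

theorem SH.zero {t : ℂ} : SH (fun _ => 0) t := by
  refine ⟨contDiffAt_const, ?_⟩
  rw [Ahl_25.lap_eq]
  simp

theorem SH.sum {ι : Type*} (s : Finset ι) {u : ι → ℂ → ℝ} {t : ℂ} (h : ∀ i ∈ s, SH (u i) t) :
    SH (fun x => ∑ i ∈ s, u i x) t := by
  classical
  induction s using Finset.induction_on with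
  | empty => simpa using SH.zero
  | insert i s hi ih =>
    have h1 := (h i (Finset.mem_insert_self _ _)).add
      (ih fun j hj => h j (Finset.mem_insert_of_mem hj))
    simpa [Finset.sum_insert hi] using h1

theorem SH.smul {u : ℂ → ℝ} {t : ℂ} (hu : SH u t) {c : ℝ} (hc : 0 ≤ c) : SH (fun s => c * u s) t := by
  refine ⟨contDiffAt_const.mul hu.1, ?_⟩
  have h1 : (Δ (c • u)) t = c • (Δ u) t := laplacian_smul c hu.1
  have h2 : (fun s => c * u s) = c • u := rfl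
  rw [h2, h1, smul_eq_mul]
  exact mul_nonneg hc hu.2

theorem SH.log_norm {F : ℂ → ℂ} {t : ℂ} (hF : AnalyticAt ℂ F t) (h0 : F t ≠ 0) :
    SH (fun s => Real.log ‖F s‖) t := by
  have hharm : HarmonicAt (fun s => Real.log ‖F s‖) t := AnalyticAt.harmonicAt_log_norm hF h0
  have hH0 : (Δ (fun s => Real.log ‖F s‖)) t = 0 := hharm.2.self_of_nhds
  exact ⟨hharm.1, hH0.ge⟩

/-! ### fibres of a model -/

section mdl

variable {K : Type} [Field K] [Algebra ℂ K] {n : ℕ} (M : Mdl K n)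

lemma finite_fib {ζ : Cn n} (hζ : MvPolynomial.eval ζ M.h ≠ 0) : Finite (Fib M.z ζ) :=
  (natCard_fib M.fd hζ).2

lemma cp_fib {ζ : Cn n} (y : Fib M.z ζ) : cp (y.1 : M.Pts) = ζ := funext y.2

lemma eventually_h {ζ0 : Cn n} (h0 : MvPolynomial.eval ζ0 M.h ≠ 0) :
    ∀ᶠ ζ in 𝓝 ζ0, MvPolynomial.eval ζ M.h ≠ 0 :=
  (MvPolynomial.continuous_eval M.h).continuousAt.eventually_ne h0

/-- the sheets over a neighbourhood of `ζ0` -/
theorem sheets {ζ0 : Cn n} (h0 : MvPolynomial.eval ζ0 M.h ≠ 0) :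
    ∀ᶠ ζ in 𝓝 ζ0, MvPolynomial.eval ζ M.h ≠ 0 ∧ ∃ φ : Fib M.z ζ0 → Fib M.z ζ,
      Function.Bijective φ ∧ ∀ y, (φ y).1 = (ch (y.1 : M.Pts)).symm ζ := by
  have := finite_fib M h0
  have h1 : ∀ᶠ ζ in 𝓝 ζ0, ∀ y : Fib M.z ζ0, ζ ∈ (ch (y.1 : M.Pts)).target := by
    rw [eventually_all]
    intro y
    have h := (isCh_ch (y.1 : M.Pts)).cp_mem (mem_ch (y.1 : M.Pts))
    rw [cp_fib M y] at h
    exact (ch (y.1 : M.Pts)).open_target.mem_nhds h
  have htend : ∀ y : Fib M.z ζ0, Tendsto (ch (y.1 : M.Pts)).symm (𝓝 ζ0) (𝓝 y.1) := by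
    intro y
    have h := tendsto_symm (y.1 : M.Pts)
    rwa [cp_fib M y] at h
  have h2 : ∀ᶠ ζ in 𝓝 ζ0, ∀ y y' : Fib M.z ζ0, y ≠ y' →
      (ch (y.1 : M.Pts)).symm ζ ≠ (ch (y'.1 : M.Pts)).symm ζ := by
    rw [eventually_all]; intro y
    rw [eventually_all]; intro y'
    by_cases hyy : y = y'
    · simp [hyy]
    · have h3 : (y.1 : M.Pts) ≠ y'.1 := fun h => hyy (Subtype.ext h)
      have h4 := (htend y).prodMk_nhds (htend y')
      have h5 : {q : M.Pts × M.Pts | q.1 ≠ q.2} ∈ 𝓝 ((y.1 : M.Pts), (y'.1 : M.Pts)) :=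
        (isOpen_ne_fun continuous_fst continuous_snd).mem_nhds h3
      filter_upwards [h4.eventually h5] with ζ hζ _
      exact hζ
  filter_upwards [h1, h2, eventually_h M h0] with ζ hζ1 hζ2 hζ3
  refine ⟨hζ3, fun y => ⟨(ch (y.1 : M.Pts)).symm ζ, fun i => ?_⟩, ?_, fun y => rfl⟩
  · exact congrFun ((isCh_ch (y.1 : M.Pts)).cp_symm (hζ1 y)) i
  · have hfin' := finite_fib M hζ3
    have _ : Fintype (Fib M.z ζ) := Fintype.ofFinite _
    have _ : Fintype (Fib M.z ζ0) := Fintype.ofFinite _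
    have hcard : Fintype.card (Fib M.z ζ0) = Fintype.card (Fib M.z ζ) := by
      rw [← Nat.card_eq_fintype_card, ← Nat.card_eq_fintype_card, (natCard_fib M.fd h0).1,
        (natCard_fib M.fd hζ3).1]
    refine (Fintype.bijective_iff_injective_and_card _).mpr ⟨?_, hcard⟩
    intro y y' hyy
    by_contra hne
    exact hζ2 y y' hne (congrArg Subtype.val hyy)

/-- evaluations are holomorphic -/
theorem analyticAt_ev (b : M.B) (y : M.Pts) :
    AnalyticAt ℂ (fun ζ => ((ch y).symm ζ : M.Pts) b) (cp y) := by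
  obtain ⟨C⟩ := M.hch y
  have h1 : (fun w => (ch y).symm w) =ᶠ[𝓝 (cp y)] fun w => C.s (w - cp y) :=
    (isCh_ch y).germ (show IsCh (chartHomeo M.hch C) from rfl) (mem_ch y) (self_mem_sheet C)
  have h2 : AnalyticAt ℂ (fun w : Cn n => w - cp y) (cp y) := analyticAt_id.sub analyticAt_const
  have h3 : AnalyticAt ℂ (fun ζ => C.s ζ b) ((fun w : Cn n => w - cp y) (cp y)) := by
    simpa using C.anal b 0 (Metric.mem_ball_self C.r_pos)
  have h4 := AnalyticAt.comp (g := fun ζ => C.s ζ b) (f := fun w : Cn n => w - cp y) h3 h2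
  refine h4.congr ?_
  filter_upwards [h1] with w hw
  simp only [Function.comp_apply, hw]

/-- the weight on the base -/
def W (g : M.Pts → ℝ) (L : ℕ) (ζ : Cn n) : ℝ :=
  (∏ᶠ y : Fib M.z ζ, g y.1) * ‖MvPolynomial.eval ζ M.h‖ ^ (2 * L)

/-- the fibre sums -/
def S (f : M.Pts → ℂ) (k : ℕ) (ζ : Cn n) : ℂ := HH M.z M.θ M.μ M.h f k ζ

/-- the coefficients of the dual basis -/
def cf (k : ℕ) : M.B := (qq M.z M.θ M.μ).coeff k

variable {g : M.Pts → ℝ} {f : M.Pts → ℂ}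

theorem W_local (L : ℕ) {ζ0 : Cn n} (h0 : MvPolynomial.eval ζ0 M.h ≠ 0) [Fintype (Fib M.z ζ0)] :
    W M g L =ᶠ[𝓝 ζ0] fun ζ => (∏ y : Fib M.z ζ0, g ((ch (y.1 : M.Pts)).symm ζ)) *
      ‖MvPolynomial.eval ζ M.h‖ ^ (2 * L) := by
  filter_upwards [sheets M h0] with ζ hζ
  obtain ⟨hζ3, φ, hφ, hφ2⟩ := hζ
  have := finite_fib M hζ3
  unfold W
  congr 1
  rw [← finprod_comp φ hφ, finprod_eq_prod_of_fintype]
  exact Finset.prod_congr rfl fun y _ => by rw [hφ2]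

theorem S_local (k : ℕ) {ζ0 : Cn n} (h0 : MvPolynomial.eval ζ0 M.h ≠ 0) [Fintype (Fib M.z ζ0)] :
    S M f k =ᶠ[𝓝 ζ0] fun ζ => ∑ y : Fib M.z ζ0, f ((ch (y.1 : M.Pts)).symm ζ) *
      ((ch (y.1 : M.Pts)).symm ζ : M.Pts) (cf M k) := by
  filter_upwards [sheets M h0] with ζ hζ
  obtain ⟨hζ3, φ, hφ, hφ2⟩ := hζ
  have := finite_fib M hζ3
  have _ : Fintype (Fib M.z ζ) := Fintype.ofFinite _
  unfold S
  rw [HH_eq M.fd f k hζ3, ← hφ.sum_comp]
  exact Finset.sum_congr rfl fun y _ => by rw [hφ2]; rfl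

theorem W_nonneg (hg0 : ∀ y, 0 ≤ g y) (L : ℕ) (ζ : Cn n) : 0 ≤ W M g L ζ := by
  unfold W
  exact mul_nonneg (finprod_nonneg fun y => hg0 y.1) (by positivity)

theorem W_pos_iff (hg0 : ∀ y, 0 ≤ g y) (L : ℕ) {ζ : Cn n} (h0 : MvPolynomial.eval ζ M.h ≠ 0) :
    0 < W M g L ζ ↔ ∀ y : Fib M.z ζ, 0 < g y.1 := by
  have := finite_fib M h0
  have _ : Fintype (Fib M.z ζ) := Fintype.ofFinite _
  unfold W
  rw [finprod_eq_prod_of_fintype]
  have h1 : 0 < ‖MvPolynomial.eval ζ M.h‖ ^ (2 * L) := by positivity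
  rw [mul_pos_iff_of_pos_right h1]
  constructor
  · intro h y
    refine lt_of_le_of_ne (hg0 y.1) (fun h2 => ?_)
    rw [Finset.prod_eq_zero (Finset.mem_univ y) h2.symm] at h
    exact lt_irrefl _ h
  · intro h
    exact Finset.prod_pos fun y _ => h y

/-- good base points are dense -/
theorem dense_good (hg : Sm g) (hd : Dense {y : M.Pts | 0 < g y}) {ζ0 : Cn n}
    (h0 : MvPolynomial.eval ζ0 M.h ≠ 0) :
    ∃ᶠ ζ in 𝓝 ζ0, MvPolynomial.eval ζ M.h ≠ 0 ∧ ∀ y : Fib M.z ζ, 0 < g y.1 := by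
  classical
  have := finite_fib M h0
  have _ : Fintype (Fib M.z ζ0) := Fintype.ofFinite _
  rw [frequently_iff]
  intro U hU
  have h1 : ∀ᶠ ζ in 𝓝 ζ0, ∀ y : Fib M.z ζ0, ζ ∈ (ch (y.1 : M.Pts)).target := by
    rw [eventually_all]
    intro y
    have h := (isCh_ch (y.1 : M.Pts)).cp_mem (mem_ch (y.1 : M.Pts))
    rw [cp_fib M y] at h
    exact (ch (y.1 : M.Pts)).open_target.mem_nhds h
  obtain ⟨O, hO, hOo, hO0⟩ := _root_.mem_nhds_iff.1 (inter_mem hU ((sheets M h0).and h1))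
  have key : ∀ s : Finset (Fib M.z ζ0), ∃ O' ⊆ O, IsOpen O' ∧ O'.Nonempty ∧
      ∀ y ∈ s, ∀ ζ ∈ O', 0 < g ((ch (y.1 : M.Pts)).symm ζ) := by
    intro s
    induction s using Finset.induction_on with
    | empty => exact ⟨O, subset_rfl, hOo, ⟨ζ0, hO0⟩, by simp⟩
    | insert y s hy ih =>
      obtain ⟨O', hO'1, hO'2, ⟨ζ1, hζ1⟩, hO'3⟩ := ih
      have hζ1t : ζ1 ∈ (ch (y.1 : M.Pts)).target := (hO (hO'1 hζ1)).2.2 y
      have hopen : IsOpen ((ch (y.1 : M.Pts)).source ∩ (ch (y.1 : M.Pts)) ⁻¹' O') :=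
        (ch (y.1 : M.Pts)).isOpen_inter_preimage hO'2
      have hne : ((ch (y.1 : M.Pts)).source ∩ (ch (y.1 : M.Pts)) ⁻¹' O').Nonempty := by
        refine ⟨(ch (y.1 : M.Pts)).symm ζ1, (ch (y.1 : M.Pts)).map_target hζ1t, ?_⟩
        rw [mem_preimage, (ch (y.1 : M.Pts)).right_inv hζ1t]
        exact hζ1
      obtain ⟨y', hy'1, hy'2⟩ := hd.inter_open_nonempty _ hopen hne
      have hy'2' : 0 < g y' := hy'2
      set e := ch (y.1 : M.Pts) with he
      have hsy : e.symm (e y') = y' := e.left_inv hy'1.1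
      have hct : ContinuousAt (fun ζ => g (e.symm ζ)) (e y') := by
        have h2 : ContinuousAt e.symm (e y') := e.symm.continuousAt (by simpa using e.map_source hy'1.1)
        exact ContinuousAt.comp (g := g) hg.continuous.continuousAt h2
      have hev : ∀ᶠ ζ in 𝓝 (e y'), 0 < g (e.symm ζ) := by
        refine hct.eventually (lt_mem_nhds ?_)
        show 0 < g (e.symm (e y'))
        rw [hsy]
        exact hy'2'
      obtain ⟨O2, hO2, hO2o, hO20⟩ := _root_.mem_nhds_iff.1 (inter_mem hev (hO'2.mem_nhds hy'1.2))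
      refine ⟨O2, fun ζ hζ => hO'1 (hO2 hζ).2, hO2o, ⟨_, hO20⟩, ?_⟩
      intro y2 hy2 ζ hζ
      rcases Finset.mem_insert.1 hy2 with rfl | h
      · exact (hO2 hζ).1
      · exact hO'3 y2 h ζ (hO2 hζ).2
  obtain ⟨O', hO'1, _, ⟨ζ, hζ⟩, hO'3⟩ := key Finset.univ
  obtain ⟨hζU, ⟨hζ3, φ, hφ, hφ2⟩, _⟩ := hO (hO'1 hζ)
  refine ⟨ζ, hζU, hζ3, fun y => ?_⟩
  obtain ⟨y0, rfl⟩ := hφ.2 y
  rw [hφ2]
  exact hO'3 y0 (Finset.mem_univ _) ζ hζ

/-- the line `t ↦ z0 + t v` -/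
abbrev ln (z0 v : Cn n) (t : ℂ) : Cn n := z0 + t • v

theorem analyticAt_ln (z0 v : Cn n) (t : ℂ) : AnalyticAt ℂ (ln z0 v) t := by
  unfold ln
  fun_prop

theorem contDiffAt_ln (z0 v : Cn n) (t : ℂ) : ContDiffAt ℝ 2 (ln z0 v) t :=
  ((analyticAt_ln z0 v t).contDiffAt (n := 2)).restrict_scalars ℝ

/-- `C²` along lines -/
theorem contDiffAt_W (hg : Sm g) (L : ℕ) {z0 v : Cn n} {t : ℂ}
    (h0 : MvPolynomial.eval (ln z0 v t) M.h ≠ 0) :
    ContDiffAt ℝ 2 (fun s => W M g L (ln z0 v s)) t := by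
  have := finite_fib M h0
  have _ : Fintype (Fib M.z (ln z0 v t)) := Fintype.ofFinite _
  have hev := (analyticAt_ln z0 v t).continuousAt.eventually (W_local M (g := g) L h0)
  refine ContDiffAt.congr_of_eventuallyEq ?_ hev
  refine ContDiffAt.mul ?_ ?_
  · refine contDiffAt_prod fun y _ => ?_
    have h1 : ContDiffAt ℝ 2 (g ∘ (ch (y.1 : M.Pts)).symm) (ln z0 v t) := by
      have h2 : ContDiffAt ℝ 2 (g ∘ (ch (y.1 : M.Pts)).symm) (cp (y.1 : M.Pts)) :=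
        (hg (y.1 : M.Pts)).of_le two_le_top
      rwa [cp_fib M y] at h2
    exact h1.comp t (contDiffAt_ln z0 v t)
  · have h1 : ContDiffAt ℝ 2 (fun s => MvPolynomial.eval (ln z0 v s) M.h) t := by
      have h2 : AnalyticAt ℂ (fun ζ : Cn n => MvPolynomial.eval ζ M.h) (ln z0 v t) :=
        Crest.Agent.R271.RExt747.analyticAt_eval M.h _
      have h3 : AnalyticAt ℂ (fun s => MvPolynomial.eval (ln z0 v s) M.h) t :=
        AnalyticAt.comp (g := fun ζ : Cn n => MvPolynomial.eval ζ M.h) h2 (analyticAt_ln z0 v t)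
      exact (h3.contDiffAt (n := 2)).restrict_scalars ℝ
    have h2 : (fun s => ‖MvPolynomial.eval (ln z0 v s) M.h‖ ^ (2 * L)) =
        fun s => (‖MvPolynomial.eval (ln z0 v s) M.h‖ ^ 2) ^ L := by
      funext s; rw [pow_mul]
    rw [h2]
    exact (h1.norm_sq ℝ).pow L

/-- `log W` is subharmonic along lines -/
theorem lap_W (hg : Sm g) (hg0 : ∀ y, 0 ≤ g y)
    (hpsh : ∀ y : M.Pts, 0 < g y → ∀ w, 0 ≤ Levi (fun y => Real.log (g y)) y w) (L : ℕ)
    {z0 v : Cn n} {t : ℂ} (h0 : MvPolynomial.eval (ln z0 v t) M.h ≠ 0)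
    (hpos : 0 < W M g L (ln z0 v t)) :
    0 ≤ (Δ (fun s => Real.log (W M g L (ln z0 v s)))) t := by
  have := finite_fib M h0
  have _ : Fintype (Fib M.z (ln z0 v t)) := Fintype.ofFinite _
  have hgy := (W_pos_iff M hg0 L h0).1 hpos
  have hgc : ∀ y : Fib M.z (ln z0 v t), ContinuousAt (fun ζ => g ((ch (y.1 : M.Pts)).symm ζ))
      (ln z0 v t) := by
    intro y
    have h2 := tendsto_symm (y.1 : M.Pts)
    have h3 : (ch (y.1 : M.Pts)).symm (cp (y.1 : M.Pts)) = y.1 :=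
      (isCh_ch (y.1 : M.Pts)).symm_cp (mem_ch _)
    have h4 : ContinuousAt (fun ζ => g ((ch (y.1 : M.Pts)).symm ζ)) (cp (y.1 : M.Pts)) := by
      have h5 : ContinuousAt (ch (y.1 : M.Pts)).symm (cp (y.1 : M.Pts)) := by
        rw [ContinuousAt, h3]; exact h2
      exact ContinuousAt.comp (g := g) hg.continuous.continuousAt h5
    rwa [cp_fib M y] at h4
  have hgpos : ∀ᶠ ζ in 𝓝 (ln z0 v t), ∀ y : Fib M.z (ln z0 v t),
      0 < g ((ch (y.1 : M.Pts)).symm ζ) := by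
    rw [eventually_all]
    intro y
    refine (hgc y).eventually (lt_mem_nhds ?_)
    have h3 : (ch (y.1 : M.Pts)).symm (cp (y.1 : M.Pts)) = y.1 :=
      (isCh_ch (y.1 : M.Pts)).symm_cp (mem_ch _)
    rw [cp_fib M y] at h3
    show 0 < g ((ch (y.1 : M.Pts)).symm (ln z0 v t))
    rw [h3]
    exact hgy y
  have hlog : (fun ζ => Real.log (W M g L ζ)) =ᶠ[𝓝 (ln z0 v t)] fun ζ =>
      (∑ y : Fib M.z (ln z0 v t), Real.log (g ((ch (y.1 : M.Pts)).symm ζ))) +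
        (2 * L : ℕ) * Real.log ‖MvPolynomial.eval ζ M.h‖ := by
    filter_upwards [W_local M (g := g) L h0, hgpos, eventually_h M h0] with ζ h1 h2 h3
    rw [h1, Real.log_mul (Finset.prod_pos fun y _ => h2 y).ne' (by positivity),
      Real.log_prod (fun y _ => (h2 y).ne'), Real.log_pow]
  have hev := (analyticAt_ln z0 v t).continuousAt.eventually hlog
  rw [(laplacian_congr_nhds hev).self_of_nhds]
  have hSH : SH (fun s => (∑ y : Fib M.z (ln z0 v t), Real.log (g ((ch (y.1 : M.Pts)).symm (ln z0 v s)))) +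
        (2 * L : ℕ) * Real.log ‖MvPolynomial.eval (ln z0 v s) M.h‖) t := by
    refine SH.add (SH.sum _ fun y _ => ?_) (SH.smul (SH.log_norm ?_ h0) (by positivity))
    · have hc := contDiffAt_log_symm hg (hgy y)
      have hl := lev_log_nonneg hg (hgy y) (hpsh y.1 (hgy y) v)
      rw [cp_fib M y] at hc hl
      refine ⟨hc.comp t (contDiffAt_ln z0 v t), ?_⟩
      have := MaxP_25.lap_cline (u := fun z => Real.log (g ((ch (y.1 : M.Pts)).symm z)))
        (z := z0) (v := v) (t := t) hc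
      rw [this]
      exact hl
    · exact AnalyticAt.comp (g := fun ζ : Cn n => MvPolynomial.eval ζ M.h)
        (Crest.Agent.R271.RExt747.analyticAt_eval M.h _) (analyticAt_ln z0 v t)
  exact hSH.2

/-- the fibre sums are holomorphic at good points -/
theorem analyticAt_S (hf : ∀ y : M.Pts, 0 < g y → AnalyticAt ℂ (f ∘ (ch y).symm) (cp y)) (k : ℕ)
    {ζ0 : Cn n} (h0 : MvPolynomial.eval ζ0 M.h ≠ 0) (hgy : ∀ y : Fib M.z ζ0, 0 < g y.1) :
    AnalyticAt ℂ (S M f k) ζ0 := by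
  have := finite_fib M h0
  have _ : Fintype (Fib M.z ζ0) := Fintype.ofFinite _
  refine AnalyticAt.congr ?_ (S_local M (f := f) k h0).symm
  refine Finset.analyticAt_fun_sum _ fun y _ => ?_
  have h1 := hf y.1 (hgy y)
  have h2 := analyticAt_ev M (cf M k) y.1
  rw [cp_fib M y] at h1 h2
  exact h1.mul h2

/-- the estimates along a line, `X` = a common bound -/
theorem bounds (hg0 : ∀ y, 0 ≤ g y) {k l l1 : ℕ} {ζ : Cn n}
    (h0 : MvPolynomial.eval ζ M.h ≠ 0) {X : ℝ} (hX : 1 ≤ X)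
    (hH : ‖MvPolynomial.eval ζ M.h‖ ≤ X)
    (hgX : ∀ y : Fib M.z ζ, g y.1 * ‖MvPolynomial.eval ζ M.h‖ ^ l ≤ X)
    (hbX : ∀ y : Fib M.z ζ, ‖MvPolynomial.eval ζ M.h‖ ^ l1 * ‖y.1 (cf M k)‖ ≤ X) :
    W M g (l * M.deg + l1) ζ ≤ X ^ (M.deg + l * M.deg + 2 * l1 + 3) ∧
    ((∀ y : Fib M.z ζ, ‖f y.1‖ ^ 2 * g y.1 * ‖MvPolynomial.eval ζ M.h‖ ^ l ≤ X) →
      ‖S M f k ζ‖ ^ 2 * W M g (l * M.deg + l1) ζ ≤
        (M.deg : ℝ) ^ 2 * X ^ (M.deg + l * M.deg + 2 * l1 + 3)) := by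
  classical
  have := finite_fib M h0
  have _ : Fintype (Fib M.z ζ) := Fintype.ofFinite _
  set H := ‖MvPolynomial.eval ζ M.h‖ with hHdef
  have hH0 : 0 < H := by positivity
  have hcard : (Finset.univ : Finset (Fib M.z ζ)).card = M.deg := by
    rw [Finset.card_univ, ← Nat.card_eq_fintype_card, (natCard_fib M.fd h0).1]
  have hW : W M g (l * M.deg + l1) ζ =
      (∏ y : Fib M.z ζ, (g y.1 * H ^ l)) * H ^ (l * M.deg + 2 * l1) := by
    unfold W
    rw [finprod_eq_prod_of_fintype, Finset.prod_mul_distrib, Finset.prod_const, hcard, ← hHdef]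
    ring
  have hg1 : ∀ y : Fib M.z ζ, 0 ≤ g y.1 * H ^ l := fun y => mul_nonneg (hg0 _) (by positivity)
  constructor
  · rw [hW]
    calc (∏ y : Fib M.z ζ, (g y.1 * H ^ l)) * H ^ (l * M.deg + 2 * l1)
        ≤ X ^ M.deg * X ^ (l * M.deg + 2 * l1) := by
          gcongr
          rw [← hcard, ← Finset.prod_const]
          exact Finset.prod_le_prod (fun y _ => hg1 y) (fun y _ => hgX y)
      _ = X ^ (M.deg + l * M.deg + 2 * l1) := by rw [← pow_add, add_assoc]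
      _ ≤ _ := pow_le_pow_right₀ hX (by omega)
  · intro hfX
    have hterm : ∀ y : Fib M.z ζ, ‖f y.1‖ ^ 2 * ‖y.1 (cf M k)‖ ^ 2 * W M g (l * M.deg + l1) ζ ≤
        X ^ (M.deg + l * M.deg + 2 * l1 + 3) := by
      intro y
      rw [hW, ← Finset.mul_prod_erase _ _ (Finset.mem_univ y)]
      have h1 : ‖f y.1‖ ^ 2 * ‖y.1 (cf M k)‖ ^ 2 *
          (g y.1 * H ^ l * (∏ x ∈ Finset.univ.erase y, (g x.1 * H ^ l)) *
            H ^ (l * M.deg + 2 * l1)) =
          (‖f y.1‖ ^ 2 * g y.1 * H ^ l) * (∏ x ∈ Finset.univ.erase y, (g x.1 * H ^ l)) *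
            (H ^ l1 * ‖y.1 (cf M k)‖) ^ 2 * H ^ (l * M.deg) := by ring
      rw [h1]
      have h2 : (∏ x ∈ Finset.univ.erase y, (g x.1 * H ^ l)) ≤ X ^ M.deg := by
        calc (∏ x ∈ Finset.univ.erase y, (g x.1 * H ^ l)) ≤ X ^ (Finset.univ.erase y).card := by
              rw [← Finset.prod_const]
              exact Finset.prod_le_prod (fun x _ => hg1 x) (fun x _ => hgX x)
          _ ≤ X ^ M.deg := pow_le_pow_right₀ hX (by
              rw [← hcard]; exact Finset.card_le_card (Finset.erase_subset _ _))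
      have h3 : 0 ≤ (∏ x ∈ Finset.univ.erase y, (g x.1 * H ^ l)) :=
        Finset.prod_nonneg fun x _ => hg1 x
      have h4 : 0 ≤ ‖f y.1‖ ^ 2 * g y.1 * H ^ l :=
        mul_nonneg (mul_nonneg (by positivity) (hg0 _)) (by positivity)
      calc (‖f y.1‖ ^ 2 * g y.1 * H ^ l) * (∏ x ∈ Finset.univ.erase y, (g x.1 * H ^ l)) *
            (H ^ l1 * ‖y.1 (cf M k)‖) ^ 2 * H ^ (l * M.deg)
          ≤ X * X ^ M.deg * X ^ 2 * X ^ (l * M.deg) := by
            gcongr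
            · exact hfX y
            · exact hbX y
        _ = X ^ (M.deg + l * M.deg + 3) := by ring
        _ ≤ _ := pow_le_pow_right₀ hX (by omega)
    have hWn := W_nonneg M hg0 (l * M.deg + l1) ζ
    have h1 : ‖S M f k ζ‖ ^ 2 ≤ M.deg * ∑ y : Fib M.z ζ, ‖f y.1‖ ^ 2 * ‖y.1 (cf M k)‖ ^ 2 := by
      have h2 : S M f k ζ = ∑ y : Fib M.z ζ, f y.1 * y.1 (cf M k) := HH_eq M.fd f k h0
      rw [h2]
      calc ‖∑ y : Fib M.z ζ, f y.1 * y.1 (cf M k)‖ ^ 2
          ≤ (∑ y : Fib M.z ζ, ‖f y.1‖ * ‖y.1 (cf M k)‖) ^ 2 := by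
            gcongr
            refine (norm_sum_le _ _).trans (Finset.sum_le_sum fun y _ => ?_)
            rw [norm_mul]
        _ ≤ (Finset.univ : Finset (Fib M.z ζ)).card *
            ∑ y : Fib M.z ζ, (‖f y.1‖ * ‖y.1 (cf M k)‖) ^ 2 := sq_sum_le_card_mul_sum_sq
        _ = _ := by
          rw [hcard]
          congr 1
          exact Finset.sum_congr rfl fun y _ => by rw [mul_pow]
    calc ‖S M f k ζ‖ ^ 2 * W M g (l * M.deg + l1) ζ
        ≤ (M.deg * ∑ y : Fib M.z ζ, ‖f y.1‖ ^ 2 * ‖y.1 (cf M k)‖ ^ 2) *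
            W M g (l * M.deg + l1) ζ := by gcongr
      _ = M.deg * ∑ y : Fib M.z ζ, ‖f y.1‖ ^ 2 * ‖y.1 (cf M k)‖ ^ 2 *
            W M g (l * M.deg + l1) ζ := by rw [mul_assoc, Finset.sum_mul]
      _ ≤ M.deg * ∑ _y : Fib M.z ζ, X ^ (M.deg + l * M.deg + 2 * l1 + 3) := by
          gcongr with y _
          exact hterm y
      _ = _ := by
          rw [Finset.sum_const, hcard, nsmul_eq_mul]
          ring

theorem norm_ln_le (z0 v : Cn n) (t : ℂ) :
    1 + ‖ln z0 v t‖ ≤ (1 + ‖z0‖ + ‖v‖) * (1 + ‖t‖) := by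
  have h1 : ‖ln z0 v t‖ ≤ ‖z0‖ + ‖t‖ * ‖v‖ := by
    refine (norm_add_le _ _).trans ?_
    rw [norm_smul]
  have h2 := norm_nonneg z0
  have h3 := norm_nonneg v
  have h4 := norm_nonneg t
  nlinarith [mul_nonneg h2 h4]

/-- rational on lines -/
theorem rational_line (hg : Sm g) (hg0 : ∀ y, 0 ≤ g y)
    (hpsh : ∀ y : M.Pts, 0 < g y → ∀ w, 0 ≤ Levi (fun y => Real.log (g y)) y w)
    (hf : ∀ y : M.Pts, 0 < g y → AnalyticAt ℂ (f ∘ (ch y).symm) (cp y))
    {C : ℝ} {a l : ℕ}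
    (hgb : ∀ y : M.Pts, g y * ‖MvPolynomial.eval (M.pz y) M.h‖ ^ l ≤ C * (1 + ‖M.pz y‖) ^ a)
    (hfb : ∀ y : M.Pts, 0 < g y → ‖f y‖ ^ 2 * g y * ‖MvPolynomial.eval (M.pz y) M.h‖ ^ l ≤
      C * (1 + ‖M.pz y‖) ^ a) (k : ℕ) {z0 : Cn n} (h0 : MvPolynomial.eval z0 M.h ≠ 0)
    (hgood : ∀ y : Fib M.z z0, 0 < g y.1) (v : Cn n) :
    ∃ p q : Polynomial ℂ, q ≠ 0 ∧ ∀ t, MvPolynomial.eval (ln z0 v t) M.h ≠ 0 →
      (∀ y : Fib M.z (ln z0 v t), 0 < g y.1) →
      q.eval t ≠ 0 ∧ q.eval t * S M f k (ln z0 v t) = p.eval t := by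
  classical
  obtain ⟨C1, k1, l1, hC1, hb⟩ := M.growth (cf M k)
  set q0 := Liou_739.lpoly M.h z0 v with hq0
  obtain ⟨C2, hC2, hq0g⟩ := Liou_739.poly_growth q0
  have hq0e : ∀ t, q0.eval t = MvPolynomial.eval (ln z0 v t) M.h := Liou_739.lpoly_eval M.h z0 v
  have hln0 : ln z0 v 0 = z0 := by simp [ln]
  have hq00 : q0 ≠ 0 := by
    intro h
    apply h0
    have := hq0e 0
    rw [h, Polynomial.eval_zero, hln0] at this
    exact this.symm
  set L := l * M.deg + l1 with hL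
  set A := 1 + ‖z0‖ + ‖v‖ with hA
  have hA1 : 1 ≤ A := by have := norm_nonneg z0; have := norm_nonneg v; linarith
  have hE : ∀ t : ℂ, (1 : ℝ) ≤ 1 + ‖t‖ := fun t => by linarith [norm_nonneg t]
  have hln : ∀ t, 1 + ‖ln z0 v t‖ ≤ A * (1 + ‖t‖) := norm_ln_le z0 v
  -- the common bound
  set B0 : ℝ := 1 + C2 + |C| * A ^ a + C1 * (1 + n) ^ k1 * A ^ (2 * k1) with hB0
  set m : ℕ := q0.natDegree + a + 2 * k1 with hm
  have hB01 : 1 ≤ B0 := by
    have h1 : 0 ≤ |C| * A ^ a := by positivity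
    have h2 : 0 ≤ C1 * (1 + (n : ℝ)) ^ k1 * A ^ (2 * k1) := by positivity
    linarith
  have hX : ∀ t : ℂ, 1 ≤ B0 * (1 + ‖t‖) ^ m := fun t => by
    have := one_le_pow₀ (hE t) (n := m)
    nlinarith
  have hX1 : ∀ (t : ℂ) (c : ℝ) (j : ℕ), 0 ≤ c → c ≤ B0 → j ≤ m → c * (1 + ‖t‖) ^ j ≤
      B0 * (1 + ‖t‖) ^ m := by
    intro t c j hc hcB hj
    exact mul_le_mul hcB (pow_le_pow_right₀ (hE t) hj) (by positivity) (by linarith)
  have hXC : ∀ t : ℂ, C * (1 + ‖ln z0 v t‖) ^ a ≤ B0 * (1 + ‖t‖) ^ m := by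
    intro t
    calc C * (1 + ‖ln z0 v t‖) ^ a ≤ |C| * (A * (1 + ‖t‖)) ^ a := by
          have h1 := hln t
          have h2 := le_abs_self C
          gcongr
      _ = (|C| * A ^ a) * (1 + ‖t‖) ^ a := by rw [mul_pow]; ring
      _ ≤ _ := by
          refine hX1 t _ a (by positivity) ?_ (by omega)
          have h2 : 0 ≤ C1 * (1 + (n : ℝ)) ^ k1 * A ^ (2 * k1) := by positivity
          linarith
  have hbounds : ∀ t : ℂ, MvPolynomial.eval (ln z0 v t) M.h ≠ 0 →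
      W M g L (ln z0 v t) ≤ (B0 * (1 + ‖t‖) ^ m) ^ (M.deg + l * M.deg + 2 * l1 + 3) ∧
      ((∀ y : Fib M.z (ln z0 v t), 0 < g y.1) →
        ‖S M f k (ln z0 v t)‖ ^ 2 * W M g L (ln z0 v t) ≤
        (M.deg : ℝ) ^ 2 * (B0 * (1 + ‖t‖) ^ m) ^ (M.deg + l * M.deg + 2 * l1 + 3)) := by
    intro t ht
    have hpz : ∀ y : Fib M.z (ln z0 v t), M.pz y.1 = ln z0 v t := fun y => funext y.2
    have hbd := bounds M (g := g) (f := f) hg0 (k := k) (l := l) (l1 := l1) ht (hX t) ?_ ?_ ?_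
    · refine ⟨hbd.1, fun hy => hbd.2 fun y => ?_⟩
      have h1 := hfb y.1 (hy y)
      rw [hpz y] at h1
      exact h1.trans (hXC t)
    · rw [← hq0e]
      refine (hq0g t).trans (hX1 t C2 _ hC2 ?_ (by omega))
      have h1 : 0 ≤ |C| * A ^ a := by positivity
      have h2 : 0 ≤ C1 * (1 + (n : ℝ)) ^ k1 * A ^ (2 * k1) := by positivity
      linarith
    · intro y
      have h1 := hgb y.1
      rw [hpz y] at h1
      exact h1.trans (hXC t)
    · intro y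
      have h1 := hb y.1
      rw [hpz y] at h1
      refine h1.trans ?_
      have h2 : (1 : ℝ) + ∑ i, ‖y.1 (M.z i)‖ ^ 2 ≤ (1 + n) * (A * (1 + ‖t‖)) ^ 2 := by
        have h3 : ∀ i, ‖y.1 (M.z i)‖ ^ 2 ≤ (A * (1 + ‖t‖)) ^ 2 := by
          intro i
          have h4 : ‖y.1 (M.z i)‖ ≤ A * (1 + ‖t‖) := by
            have h5 : y.1 (M.z i) = ln z0 v t i := y.2 i
            rw [h5]
            have h6 := norm_le_pi_norm (ln z0 v t) i
            have h7 := hln t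
            linarith
          gcongr
        have h4 : ∑ i : Fin n, ‖y.1 (M.z i)‖ ^ 2 ≤ n * (A * (1 + ‖t‖)) ^ 2 := by
          have := Finset.sum_le_card_nsmul Finset.univ (fun i : Fin n => ‖y.1 (M.z i)‖ ^ 2) _
            (fun i _ => h3 i)
          simpa using this
        have h5 : (1 : ℝ) ≤ (A * (1 + ‖t‖)) ^ 2 := by
          have h6 : 1 ≤ A * (1 + ‖t‖) := by nlinarith [hE t]
          exact one_le_pow₀ h6
        nlinarith
      calc C1 * (1 + ∑ i, ‖y.1 (M.z i)‖ ^ 2) ^ k1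
          ≤ C1 * ((1 + n) * (A * (1 + ‖t‖)) ^ 2) ^ k1 := by gcongr
        _ = (C1 * (1 + n) ^ k1 * A ^ (2 * k1)) * (1 + ‖t‖) ^ (2 * k1) := by
          rw [mul_pow, ← pow_mul, mul_pow]; ring
        _ ≤ _ := by
          refine hX1 t _ _ (by positivity) ?_ (by omega)
          have h1 : 0 ≤ |C| * A ^ a := by positivity
          linarith
  have hP : ∀ t, t ∉ q0.roots.toFinset ↔ MvPolynomial.eval (ln z0 v t) M.h ≠ 0 := by
    intro t
    rw [Multiset.mem_toFinset, Polynomial.mem_roots hq00, Polynomial.IsRoot.def, hq0e]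
  set T := M.deg + l * M.deg + 2 * l1 + 3 with hT
  have hfin : ∀ t : ℂ, (B0 * (1 + ‖t‖) ^ m) ^ T = B0 ^ T * (1 + ‖t‖) ^ (m * T) := by
    intro t; rw [mul_pow, ← pow_mul]
  have hmain := RatPlane_437.rational_of_growth (P := q0.roots.toFinset)
    (S := fun t => S M f k (ln z0 v t)) (w := fun t => W M g L (ln z0 v t))
    (C := (1 + (M.deg : ℝ) ^ 2) * B0 ^ T) (N := m * T) ?_ ?_ ?_ ?_ ?_ ?_ ?_
  · obtain ⟨p, q, hq, h1, h2⟩ := hmain
    refine ⟨p, q, hq, fun t ht hy => ?_⟩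
    have hw : 0 < W M g L (ln z0 v t) := (W_pos_iff M hg0 L ht).2 hy
    exact ⟨h1 t ((hP t).2 ht) hw, h2 t ((hP t).2 ht) hw⟩
  · intro t ht
    exact contDiffAt_W M hg L ((hP t).1 ht)
  · intro t ht
    exact W_nonneg M hg0 L _
  · intro t ht hw
    exact lap_W M hg hg0 hpsh L ((hP t).1 ht) hw
  · refine ⟨0, ?_, ?_⟩
    · rw [hP, hln0]; exact h0
    · show 0 < W M g L (ln z0 v 0)
      rw [hln0]
      exact (W_pos_iff M hg0 L h0).2 hgood
  · intro t ht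
    refine ((hbounds t ((hP t).1 ht)).1).trans ?_
    rw [hfin]
    have h1 : 0 ≤ (M.deg : ℝ) ^ 2 * (B0 ^ T * (1 + ‖t‖) ^ (m * T)) := by positivity
    nlinarith
  · intro t ht hw
    have ht' := (hP t).1 ht
    have h1 := analyticAt_S M hf k ht' ((W_pos_iff M hg0 L ht').1 hw)
    exact AnalyticAt.comp (g := S M f k) h1 (analyticAt_ln z0 v t)
  · intro t ht hw
    have ht' := (hP t).1 ht
    refine ((hbounds t ht').2 ((W_pos_iff M hg0 L ht').1 hw)).trans ?_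
    rw [hfin]
    have h1 : 0 ≤ B0 ^ T * (1 + ‖t‖) ^ (m * T) := by positivity
    nlinarith

theorem eventually_good (hg : Sm g) {ζ0 : Cn n} (h0 : MvPolynomial.eval ζ0 M.h ≠ 0)
    (hgood : ∀ y : Fib M.z ζ0, 0 < g y.1) :
    ∀ᶠ ζ in 𝓝 ζ0, MvPolynomial.eval ζ M.h ≠ 0 ∧ ∀ y : Fib M.z ζ, 0 < g y.1 := by
  have := finite_fib M h0
  have h1 : ∀ᶠ ζ in 𝓝 ζ0, ∀ y : Fib M.z ζ0, 0 < g ((ch (y.1 : M.Pts)).symm ζ) := by
    rw [eventually_all]
    intro y
    have h2 := tendsto_symm (y.1 : M.Pts)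
    rw [cp_fib M y] at h2
    exact h2.eventually (hg.continuous.continuousAt.eventually (lt_mem_nhds (hgood y)))
  filter_upwards [h1, sheets M h0] with ζ hζ1 hζ2
  obtain ⟨hζ3, φ, hφ, hφ2⟩ := hζ2
  refine ⟨hζ3, fun y => ?_⟩
  obtain ⟨y0, rfl⟩ := hφ.2 y
  rw [hφ2]
  exact hζ1 y0

/-- **ALG-RAT (F4')**: a function on a model which is holomorphic where a smooth weight `g ≥ 0` with `log g`
psh (where `g > 0`) is positive, with `g` and `|f|² g` of polynomial growth in `z` and `1/h`, is an element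
of the function field. -/
theorem mem_frac (hg : Sm g) (hg0 : ∀ y, 0 ≤ g y)
    (hpsh : ∀ y : M.Pts, 0 < g y → ∀ w, 0 ≤ Levi (fun y => Real.log (g y)) y w)
    (hd : Dense {y : M.Pts | 0 < g y})
    (hf : ∀ y : M.Pts, 0 < g y → AnalyticAt ℂ (f ∘ (ch y).symm) (cp y))
    {C : ℝ} {a l : ℕ}
    (hgb : ∀ y : M.Pts, g y * ‖MvPolynomial.eval (M.pz y) M.h‖ ^ l ≤ C * (1 + ‖M.pz y‖) ^ a)
    (hfb : ∀ y : M.Pts, 0 < g y → ‖f y‖ ^ 2 * g y * ‖MvPolynomial.eval (M.pz y) M.h‖ ^ l ≤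
      C * (1 + ‖M.pz y‖) ^ a) :
    ∃ b1 b2 : M.B, b2 ≠ 0 ∧ ∀ y : M.Pts, 0 < g y → y b2 * f y = y b1 := by
  classical
  obtain ⟨ζ1, hζ1⟩ : ∃ ζ : Cn n, MvPolynomial.eval ζ M.h ≠ 0 := by
    by_contra hcon
    push Not at hcon
    exact M.h_ne (RatLine_437.eq_zero_of_open isOpen_univ univ_nonempty (fun v _ => hcon v))
  obtain ⟨z0, h0, hgood⟩ := (dense_good M hg hd hζ1).exists
  have hln0 : ∀ v, ln z0 v 0 = z0 := fun v => by simp [ln]
  have hS : ∀ k, ∃ P Q : MvPolynomial (Fin n) ℂ, Q ≠ 0 ∧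
      ∀ ζ, MvPolynomial.eval ζ M.h ≠ 0 → (∀ y : Fib M.z ζ, 0 < g y.1) →
        MvPolynomial.eval ζ Q * S M f k ζ = MvPolynomial.eval ζ P := by
    intro k
    have hline := fun v => rational_line M hg hg0 hpsh hf hgb hfb k h0 hgood v
    have hnear : ∀ v : Cn n, ∀ᶠ t in 𝓝 (0 : ℂ), MvPolynomial.eval (ln z0 v t) M.h ≠ 0 ∧
        ∀ y : Fib M.z (ln z0 v t), 0 < g y.1 := by
      intro v
      have h1 := (analyticAt_ln z0 v 0).continuousAt
      rw [ContinuousAt, hln0 v] at h1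
      exact h1.eventually (eventually_good M hg h0 hgood)
    obtain ⟨P, Q, hQ, hPQ⟩ := RatLine_437.rational_of_lines (f := S M f k) (z0 := z0)
      (analyticAt_S M hf k h0 hgood) isOpen_univ univ_nonempty (by
        intro v _
        obtain ⟨p, q, hq, h1⟩ := hline v
        refine ⟨p, q, hq, ?_⟩
        filter_upwards [hnear v] with t ht
        exact (h1 t ht.1 ht.2).2)
    refine ⟨P, Q, hQ, fun ζ hζ hy => ?_⟩
    -- the line from `z0` to `ζ`
    obtain ⟨p, q, hq, h1⟩ := hline (ζ - z0)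
    have h1ζ : ln z0 (ζ - z0) 1 = ζ := by simp [ln]
    have hone := h1 1 (by rw [h1ζ]; exact hζ) (by rw [h1ζ]; exact hy)
    rw [h1ζ] at hone
    have hpoly : q * Liou_739.lpoly P z0 (ζ - z0) = Liou_739.lpoly Q z0 (ζ - z0) * p := by
      refine Polynomial.eq_of_infinite_eval_eq _ _ ?_
      have hev : ∀ᶠ t in 𝓝 (0 : ℂ),
          MvPolynomial.eval (ln z0 (ζ - z0) t) Q * S M f k (ln z0 (ζ - z0) t) =
            MvPolynomial.eval (ln z0 (ζ - z0) t) P := by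
        have h2 := (analyticAt_ln z0 (ζ - z0) 0).continuousAt
        rw [ContinuousAt, hln0] at h2
        exact h2.eventually hPQ
      have hmem : {t : ℂ | (q * Liou_739.lpoly P z0 (ζ - z0)).eval t =
          (Liou_739.lpoly Q z0 (ζ - z0) * p).eval t} ∈ 𝓝 (0 : ℂ) := by
        filter_upwards [hnear (ζ - z0), hev] with t ht1 ht2
        have h3 := (h1 t ht1.1 ht1.2).2
        simp only [Polynomial.eval_mul, Liou_739.lpoly_eval]
        rw [← h3]
        have h4 : MvPolynomial.eval (z0 + t • (ζ - z0)) P =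
            MvPolynomial.eval (z0 + t • (ζ - z0)) Q * S M f k (z0 + t • (ζ - z0)) := ht2.symm
        rw [h4]
        simp only [ln]
        ring
      exact infinite_of_mem_nhds 0 hmem
    have h2 := congrArg (Polynomial.eval 1) hpoly
    simp only [Polynomial.eval_mul, Liou_739.lpoly_eval] at h2
    have h3 : z0 + (1 : ℂ) • (ζ - z0) = ζ := h1ζ
    rw [h3, ← hone.2] at h2
    have h4 : q.eval 1 * (MvPolynomial.eval ζ Q * S M f k ζ - MvPolynomial.eval ζ P) = 0 := by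
      linear_combination -h2
    exact sub_eq_zero.1 ((mul_eq_zero.1 h4).resolve_left hone.1)
  choose P Q hQ hPQ using hS
  set N := (qq M.z M.θ M.μ).natDegree + 1 with hN
  set R := Finset.range N with hR
  let az : MvPolynomial (Fin n) ℂ → M.B := fun p => MvPolynomial.aeval M.z p
  refine ⟨∑ k ∈ R, MvPolynomial.aeval M.z (P k * ∏ j ∈ R.erase k, Q j) * M.θ ^ k,
    MvPolynomial.aeval M.z (∏ j ∈ R, Q j) * dd M.z M.θ M.μ, ?_, ?_⟩
  · refine mul_ne_zero ?_ M.fd.der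
    intro h
    have h1 : (∏ j ∈ R, Q j) = 0 := by
      apply M.az_injective
      rw [map_zero]
      exact h
    rw [Finset.prod_eq_zero_iff] at h1
    obtain ⟨j, _, hj⟩ := h1
    exact hQ j hj
  · -- the identity over good base points
    have hgoodid : ∀ y : M.Pts, (∀ y' : Fib M.z (M.pz y), 0 < g y'.1) →
        y (MvPolynomial.aeval M.z (∏ j ∈ R, Q j) * dd M.z M.θ M.μ) * f y =
          y (∑ k ∈ R, MvPolynomial.aeval M.z (P k * ∏ j ∈ R.erase k, Q j) * M.θ ^ k) := by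
      intro y hy
      have hζ := M.eval_h_ne y
      have h1 := interp M.fd f hζ y (fun _ => rfl)
      have h2 : ∀ p : MvPolynomial (Fin n) ℂ, y (MvPolynomial.aeval M.z p) =
          MvPolynomial.eval (M.pz y) p := fun p => comp_aeval' y p
      rw [map_mul, h2, map_sum]
      have h3 : MvPolynomial.eval (M.pz y) (∏ j ∈ R, Q j) * y (dd M.z M.θ M.μ) * f y =
          MvPolynomial.eval (M.pz y) (∏ j ∈ R, Q j) * (f y * y (dd M.z M.θ M.μ)) := by ring
      rw [h3, h1, Finset.mul_sum]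
      refine Finset.sum_congr rfl fun k hk => ?_
      rw [map_mul, map_pow, h2, map_mul, ← Finset.mul_prod_erase R Q hk, map_mul]
      have h4 : MvPolynomial.eval (M.pz y) (Q k) * HH M.z M.θ M.μ M.h f k (M.pz y) =
          MvPolynomial.eval (M.pz y) (P k) := hPQ k (M.pz y) hζ hy
      rw [← h4]
      ring
    intro y1 hy1
    by_contra hne
    set e := ch y1 with he
    set b2 : M.B := MvPolynomial.aeval M.z (∏ j ∈ R, Q j) * dd M.z M.θ M.μ with hb2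
    set b1 : M.B := ∑ k ∈ R, MvPolynomial.aeval M.z (P k * ∏ j ∈ R.erase k, Q j) * M.θ ^ k with hb1
    have hcont : ContinuousAt (fun ζ => (e.symm ζ : M.Pts) b2 * f (e.symm ζ) - (e.symm ζ : M.Pts) b1)
        (cp y1) :=
      ((analyticAt_ev M b2 y1).continuousAt.mul (hf y1 hy1).continuousAt).sub
        (analyticAt_ev M b1 y1).continuousAt
    have hsy : e.symm (cp y1) = y1 := (isCh_ch y1).symm_cp (mem_ch y1)
    have hev : ∀ᶠ ζ in 𝓝 (cp y1),
        (e.symm ζ : M.Pts) b2 * f (e.symm ζ) - (e.symm ζ : M.Pts) b1 ≠ 0 := by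
      refine hcont.eventually_ne ?_
      rw [hsy]
      exact sub_ne_zero.2 hne
    have hev2 : ∀ᶠ ζ in 𝓝 (cp y1), cp (e.symm ζ : M.Pts) = ζ := by
      filter_upwards [e.open_target.mem_nhds ((isCh_ch y1).cp_mem (mem_ch y1))] with ζ hζ
      exact (isCh_ch y1).cp_symm hζ
    obtain ⟨ζ, hζ1, hζ2, hζ3⟩ := ((dense_good M hg hd (M.eval_h_ne y1)).and_eventually
      (hev.and hev2)).exists
    apply hζ2
    rw [hgoodid (e.symm ζ), sub_self]
    intro y'
    have h5 : M.pz (e.symm ζ) = ζ := hζ3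
    have h6 := hζ1.2 ⟨y'.1, fun i => by rw [y'.2 i, h5]⟩
    exact h6

end mdl

end Crest.Agent.R276.RatMod_437
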