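import Mathlib
import Crest.Agent.R276.Mod5_987
import Crest.Agent.R276.CntLow2_804
import Crest.Agent.R276.RatMod_437

/-!
# Row 276, ALG-FOL (helper437): zero sets of smooth log-psh functions of algebraic growth

`M : Mdl K n`, `g : M.Pts → ℝ` smooth, `≥ 0`, `|∂g|² ≤ g ∂∂̄g` (i.e. `log g` psh), of polynomial growth,
not identically zero.  Then

* `exists_sigma` : there is `σ ∈ B`, `σ ≠ 0`, vanishing on `{g = 0}`;
* `exists_poly` : there is `p ≠ 0` with `g y = 0 → p (z y) = 0`;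
* `dense_pos` : `{g > 0}` is dense.
-/

set_option autoImplicit false

noncomputable section

open Set Filter Topology MeasureTheory Metric
open scoped ENNReal

namespace Crest.Agent.R276.ZS_437

open Crest.Agent.R271 Crest.Agent.R271.Defs710 Crest.Agent.R271.Rd692
open Crest.Agent.R271.AlgB956 Crest.Agent.R271.Ho51 Crest.Agent.R271.W792
open Crest.Agent.R271.Alg255 Crest.Agent.R276.AB2_590
open Crest.Agent.R276.Mod1_987 Crest.Agent.R276.CntLowD_804 Crest.Agent.R276.CntLow2_804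

section form

variable {n : ℕ} {M : Type*} [TopologicalSpace M] [RDom n M]

lemma D_mulR' {f g : M → ℝ} (hf : Sm f) (hg : Sm g) (x : M) (v : Fin n → ℂ) :
    D (fun x => f x * g x) x v = D f x v * g x + f x * D g x v := by
  have := D_smul (G := ℝ) hf hg x v
  simp only [smul_eq_mul] at this
  exact this

lemma dsq_mul {f g : M → ℝ} (hf : Sm f) (hg : Sm g) (x : M) (w : Fin n → ℂ) :
    dsq (fun x => f x * g x) x w = g x ^ 2 * dsq f x w + f x ^ 2 * dsq g x w +
      2 * f x * g x * ((1 / 4) * (D f x w * D g x w +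
        D f x (Complex.I • w) * D g x (Complex.I • w))) := by
  unfold dsq
  rw [D_mulR' hf hg, D_mulR' hf hg]
  ring

lemma lev_mul {f g : M → ℝ} (hf : Sm f) (hg : Sm g) (x : M) (w : Fin n → ℂ) :
    lev (fun x => f x * g x) x w = g x * lev f x w + f x * lev g x w +
      2 * ((1 / 4) * (D f x w * D g x w +
        D f x (Complex.I • w) * D g x (Complex.I • w))) := by
  have h : ∀ v : Fin n → ℂ, D (fun y => D (fun y => f y * g y) y v) x v =
      D (fun y => D f y v) x v * g x + f x * D (fun y => D g y v) x v +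
        2 * (D f x v * D g x v) := by
    intro v
    have h1 : (fun y => D (fun y => f y * g y) y v) =
        fun y => D f y v * g y + f y * D g y v := by
      funext y
      exact D_mulR' hf hg y v
    rw [h1, D_add ((hf.D.apply v).mulR hg) (hf.mulR (hg.D.apply v)),
      _root_.add_apply, D_mulR' (hf.D.apply v) hg, D_mulR' hf (hg.D.apply v)]
    ring
  unfold lev
  rw [h, h]
  ring

/-- defect of log plurisubharmonicity of a product -/
lemma defect_mul {f g : M → ℝ} (hf : Sm f) (hg : Sm g) (x : M) (w : Fin n → ℂ) :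
    (f x * g x) * lev (fun x => f x * g x) x w - dsq (fun x => f x * g x) x w =
      g x ^ 2 * (f x * lev f x w - dsq f x w) + f x ^ 2 * (g x * lev g x w - dsq g x w) := by
  rw [dsq_mul hf hg, lev_mul hf hg]
  ring

/-- at a zero of `g ≥ 0` -/
lemma lev_nonneg_of_zero {g : M → ℝ} (hg : Sm g) (hg0 : ∀ x, 0 ≤ g x) {x : M} (hx : g x = 0)
    (w : Fin n → ℂ) : 0 ≤ lev g x w := by
  have hc : ContDiffAt ℝ 2 (g ∘ (ch x).symm) (cp x) := (hg x).of_le RatMod_437.two_le_top
  have h0 : (g ∘ (ch x).symm) (cp x) = 0 := by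
    simp only [Function.comp_apply]
    rw [(isCh_ch x).symm_cp (mem_ch x), hx]
  have key : ∀ v : Fin n → ℂ, 0 ≤ D (fun y => D g y v) x v := by
    intro v
    rw [RatMod_437.D_D hg]
    have h1 : ContDiffAt ℝ 2 (fun z => -(g ∘ (ch x).symm) z) (cp x) := hc.neg
    have h2 : IsLocalMax (fun z => -(g ∘ (ch x).symm) z) (cp x) := by
      refine Eventually.of_forall fun z => ?_
      have h3 : 0 ≤ (g ∘ (ch x).symm) z := hg0 _
      show -(g ∘ (ch x).symm) z ≤ -(g ∘ (ch x).symm) (cp x)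
      rw [h0]
      linarith
    have h3 := Ahl_25.snd_nonpos_of_isLocalMax h1 h2 v
    have h4 : fderiv ℝ (fderiv ℝ (fun z => -(g ∘ (ch x).symm) z)) (cp x) v v =
        -(fderiv ℝ (fderiv ℝ (g ∘ (ch x).symm)) (cp x) v v) := by
      have h5 : fderiv ℝ (fun z => -(g ∘ (ch x).symm) z) =
          fun z => -(fderiv ℝ (g ∘ (ch x).symm) z) := by
        funext z
        exact fderiv_fun_neg
      rw [h5, fderiv_fun_neg]
      rfl
    rw [h4] at h3
    linarith
  unfold lev
  have := key w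
  have := key (Complex.I • w)
  linarith

/-- first derivative at a zero -/
lemma dsq_of_zero {g : M → ℝ} (hg0 : ∀ x, 0 ≤ g x) {x : M} (hx : g x = 0)
    (w : Fin n → ℂ) : dsq g x w = 0 := by
  have h0 : (g ∘ (ch x).symm) (cp x) = 0 := by
    simp only [Function.comp_apply]
    rw [(isCh_ch x).symm_cp (mem_ch x), hx]
  have h1 : D g x = 0 := by
    show fderiv ℝ (g ∘ (ch x).symm) (cp x) = 0
    apply IsLocalMin.fderiv_eq_zero
    refine Eventually.of_forall fun z => ?_
    have h3 : 0 ≤ (g ∘ (ch x).symm) z := hg0 _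
    rw [h0]
    exact h3
  unfold dsq
  rw [h1]
  simp

lemma lev_nonneg {g : M → ℝ} (hg : Sm g) (hg0 : ∀ x, 0 ≤ g x)
    (hE : ∀ x, 0 < g x → ∀ w, dsq g x w ≤ g x * lev g x w) (x : M) (w : Fin n → ℂ) :
    0 ≤ lev g x w := by
  rcases (hg0 x).eq_or_lt with h | h
  · exact lev_nonneg_of_zero hg hg0 h.symm w
  · have h1 := hE x h w
    have h2 := dsq_nonneg g x w
    by_contra hc
    push Not at hc
    nlinarith

lemma defect_nonneg {g : M → ℝ} (hg0 : ∀ x, 0 ≤ g x)
    (hE : ∀ x, 0 < g x → ∀ w, dsq g x w ≤ g x * lev g x w) (x : M) (w : Fin n → ℂ) :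
    dsq g x w ≤ g x * lev g x w := by
  rcases (hg0 x).eq_or_lt with h | h
  · rw [dsq_of_zero hg0 h.symm, ← h, zero_mul]
  · exact hE x h w

/-- the form `|∂g|² ≤ g ∂∂̄g` from `Levi (log g) ≥ 0` -/
lemma defect_of_Levi {g : M → ℝ} (hg : Sm g) {x : M} (hx : 0 < g x) {w : Fin n → ℂ}
    (h : 0 ≤ Levi (fun y => Real.log (g y)) x w) : dsq g x w ≤ g x * lev g x w := by
  set J : ℝ := 1 - Real.log (g x / 2) with hJ
  have hJ1 : Real.exp (-J + 1) = g x / 2 := by
    rw [show -J + 1 = Real.log (g x / 2) by rw [hJ]; ring, Real.exp_log (by linarith)]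
  have hev : ∀ᶠ t in 𝓝 (g x), NL_137.VL J t = Real.log t := by
    filter_upwards [lt_mem_nhds (show g x / 2 < g x by linarith)] with t ht
    exact NL_137.VL_large J (by rw [hJ1]; exact ht.le)
  have hs : Sm (fun y => NL_137.VL J (g y)) := Sm.comp (NL_137.VL_contDiff J) hg
  have hcd : ContDiff ℝ (⊤ : ℕ∞) (deriv (NL_137.VL J)) :=
    ((contDiff_infty_iff_deriv).1 (NL_137.VL_contDiff J)).2
  have hs' : Sm (fun y => deriv (NL_137.VL J) (g y)) := Sm.comp hcd hg
  have h1 : (fun y => Real.log (g y)) =ᶠ[𝓝 x] fun y => NL_137.VL J (g y) := by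
    filter_upwards [hg.continuous.continuousAt.eventually hev] with y hy
    exact hy.symm
  rw [NL_137.Levi_congr h1, Levi_eq_lev hs] at h
  have hd : ∀ᶠ t in 𝓝 (g x), HasDerivAt (NL_137.VL J) (deriv (NL_137.VL J) t) t :=
    Eventually.of_forall fun t =>
      ((NL_137.VL_contDiff J).differentiable (by simp) t).hasDerivAt
  have hev2 : deriv (NL_137.VL J) =ᶠ[𝓝 (g x)] fun t => t⁻¹ := by
    have h2 : NL_137.VL J =ᶠ[𝓝 (g x)] Real.log := hev
    filter_upwards [h2.eventuallyEq_nhds] with t ht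
    rw [ht.deriv_eq, Real.deriv_log]
  have hd2 : HasDerivAt (deriv (NL_137.VL J)) (-(g x ^ 2)⁻¹) (g x) :=
    (hasDerivAt_inv hx.ne').congr_of_eventuallyEq hev2
  have h3 := lev_comp hg x hd hd2 w hs'
  have h4 : deriv (NL_137.VL J) (g x) = (g x)⁻¹ := hev2.self_of_nhds
  rw [h3, h4] at h
  have h5 : 0 < g x ^ 2 := by positivity
  have h6 : 0 ≤ g x ^ 2 * (-(g x ^ 2)⁻¹ * dsq g x w + (g x)⁻¹ * lev g x w) :=
    mul_nonneg h5.le h
  have h7 : g x ^ 2 * (-(g x ^ 2)⁻¹ * dsq g x w + (g x)⁻¹ * lev g x w) =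
      g x * lev g x w - dsq g x w := by
    field_simp
    ring
  linarith

end form

/-! ### a smooth nonnegative function is quadratically small near a zero -/

lemma quad {E : Type*} [NormedAddCommGroup E] [NormedSpace ℝ E] {u : E → ℝ} {a : E}
    (hu : ContDiffAt ℝ 2 u a) (h0 : u a = 0) (hm : ∀ z, 0 ≤ u z) :
    ∃ C r : ℝ, 0 < C ∧ 0 < r ∧ ∀ z ∈ ball a r, u z ≤ C * ‖z - a‖ ^ 2 := by
  have hd : fderiv ℝ u a = 0 :=
    IsLocalMin.fderiv_eq_zero (Eventually.of_forall fun z => by rw [h0]; exact hm z)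
  have h1 : ContDiffAt ℝ 1 (fderiv ℝ u) a := hu.fderiv_right (by norm_num)
  obtain ⟨K, t, ht, hK⟩ := h1.exists_lipschitzOnWith
  have h2 : ∀ᶠ z in 𝓝 a, DifferentiableAt ℝ u z := by
    filter_upwards [hu.eventually (by simp)] with z hz
    exact hz.differentiableAt (by norm_num)
  obtain ⟨r, hr, hb⟩ := Metric.mem_nhds_iff.1 (Filter.inter_mem ht h2)
  refine ⟨K + 1, r, by positivity, hr, fun z hz => ?_⟩
  have hat : a ∈ t := mem_of_mem_nhds ht
  have hseg : ∀ x ∈ closedBall a ‖z - a‖, ‖fderiv ℝ u x‖ ≤ K * ‖z - a‖ := by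
    intro x hx
    have hzr : ‖z - a‖ < r := by rwa [mem_ball, dist_eq_norm] at hz
    have hxr : x ∈ ball a r := closedBall_subset_ball hzr hx
    have h3 := hK.dist_le_mul x (hb hxr).1 a hat
    rw [hd, dist_zero_right] at h3
    refine h3.trans ?_
    gcongr
    exact mem_closedBall.1 hx
  have hconv : Convex ℝ (closedBall a ‖z - a‖) := convex_closedBall _ _
  have h4 := hconv.norm_image_sub_le_of_norm_fderiv_le (𝕜 := ℝ) (f := u)
    (fun x hx => (hb (closedBall_subset_ball (by rwa [mem_ball, dist_eq_norm] at hz) hx)).2)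
    hseg (mem_closedBall_self (norm_nonneg _)) (y := z)
    (by rw [mem_closedBall, dist_eq_norm])
  rw [h0, sub_zero, Real.norm_eq_abs] at h4
  have h5 := le_abs_self (u z)
  have h6 : K * ‖z - a‖ * ‖z - a‖ ≤ (K + 1) * ‖z - a‖ ^ 2 := by
    nlinarith [sq_nonneg ‖z - a‖]
  linarith

/-! ### existence -/

section mdl

variable {K : Type} [Field K] [Algebra ℂ K] {n : ℕ} (M : Mdl K n)

/-- `1 + |z|²` -/
def qq (y : M.Pts) : ℝ := 1 + nS (fun (i : Fin n) (y : M.Pts) => y (M.z i)) y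

lemma qq_pos (y : M.Pts) : 1 ≤ qq M y := by
  unfold qq
  have := nS_nonneg (fun (i : Fin n) (y : M.Pts) => y (M.z i)) y
  linarith

lemma sm_qq : Sm (qq M) := (Sm.const 1).add (sm_nS fun i => (M.hol792_ev (M.z i)).sm)

lemma qq_eq (y : M.Pts) : qq M y = 1 + ∑ i, ‖y (M.z i)‖ ^ 2 := rfl

lemma D_z (i : Fin n) (y : M.Pts) (w : Fin n → ℂ) :
    D (fun y : M.Pts => y (M.z i)) y w = w i := G792.D_coord (M := M.Pts) i y w

lemma lev_qq (y : M.Pts) (w : Fin n → ℂ) : lev (qq M) y w = nsq w := by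
  unfold qq
  rw [lev_add (Sm.const 1) (sm_nS fun i => (M.hol792_ev (M.z i)).sm), lev_const,
    lev_nS (fun i => M.hol792_ev (M.z i))]
  unfold nT nsq
  simp only [D_z, zero_add]

lemma dsq_qq_le (y : M.Pts) (w : Fin n → ℂ) : dsq (qq M) y w ≤ (qq M y - 1) * nsq w := by
  have h1 : dsq (qq M) y w = dsq (nS (fun (i : Fin n) (y : M.Pts) => y (M.z i))) y w := by
    unfold dsq
    have h2 : D (qq M) y = D (nS (fun (i : Fin n) (y : M.Pts) => y (M.z i))) y := by
      unfold qq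
      rw [D_add (Sm.const 1) (sm_nS fun i => (M.hol792_ev (M.z i)).sm), D_const, zero_add]
    rw [h2]
  rw [h1]
  have h3 := CntLowA_804.dsq_nS_le (f := fun (i : Fin n) (y : M.Pts) => y (M.z i))
    (fun i => (M.hol792_ev (M.z i)).sm) (x := y)
    (fun i => Eventually.of_forall fun y w => (M.hol792_ev (M.z i)).cl y w) w
  refine h3.trans (le_of_eq ?_)
  unfold qq nT nsq
  simp only [D_z]
  ring

lemma norm_le_qq (y : M.Pts) : 1 + ‖M.pz y‖ ≤ 2 * qq M y := by
  have h1 : ‖M.pz y‖ ^ 2 ≤ ∑ i, ‖y (M.z i)‖ ^ 2 := by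
    have h5 : ‖M.pz y‖ ≤ Real.sqrt (∑ i, ‖y (M.z i)‖ ^ 2) := by
      rw [pi_norm_le_iff_of_nonneg (Real.sqrt_nonneg _)]
      intro i
      apply Real.le_sqrt_of_sq_le
      exact Finset.single_le_sum (f := fun i => ‖y (M.z i)‖ ^ 2) (fun _ _ => by positivity)
        (Finset.mem_univ i)
    calc ‖M.pz y‖ ^ 2 ≤ (Real.sqrt (∑ i, ‖y (M.z i)‖ ^ 2)) ^ 2 := by gcongr
      _ = _ := Real.sq_sqrt (Finset.sum_nonneg fun _ _ => by positivity)
  rw [qq_eq]
  nlinarith [sq_nonneg (‖M.pz y‖ - 1)]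

/-- growth of `h` -/
lemma growth_h : ∃ (C : ℝ) (k : ℕ), 0 ≤ C ∧ ∀ y : M.Pts,
    ‖MvPolynomial.eval (M.pz y) M.h‖ ≤ C * qq M y ^ k := by
  have hp : PG M.z (az M.z M.h) := by
    apply PG.adjoin
    rw [Algebra.adjoin_range_eq_range_aeval]
    exact ⟨M.h, rfl⟩
  obtain ⟨C, k, hC, h⟩ := hp
  refine ⟨C, k, hC, fun y => ?_⟩
  have := h y
  rw [M.apply_az'] at this
  exact this

lemma weight_ge {g : M.Pts → ℝ} (hg0 : ∀ y, 0 ≤ g y) {C : ℝ} {a l : ℕ}
    (hgr : ∀ y : M.Pts, g y * ‖MvPolynomial.eval (M.pz y) M.h‖ ^ l ≤ C * (1 + ‖M.pz y‖) ^ a)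
    (N : ℕ) : ∃ (c : ℝ) (A B : ℕ), 0 < c ∧ ∀ y : M.Pts,
      ENNReal.ofReal (c * ‖y (az M.z M.h)‖ ^ (2 * A) / (1 + ∑ i, ‖y (M.z i)‖ ^ 2) ^ B) ≤
        ((ENNReal.ofReal (g y * qq M y))⁻¹) ^ N := by
  obtain ⟨Ch, k, hCh, hh⟩ := growth_h M
  set C' : ℝ := (|C| + 1) * 2 ^ a * (Ch + 1) ^ l with hC'
  have hC'0 : 0 < C' := by positivity
  refine ⟨(C' ^ N)⁻¹, l * N, (a + k * l + 1) * N, by positivity, fun y => ?_⟩
  have hq := qq_pos M y
  have hq0 : 0 < qq M y := by linarith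
  set H : ℝ := ‖MvPolynomial.eval (M.pz y) M.h‖ with hH
  have hH0 : 0 ≤ H := norm_nonneg _
  have h1 : g y * qq M y * H ^ (2 * l) ≤ C' * qq M y ^ (a + k * l + 1) := by
    have h2 : g y * H ^ l ≤ (|C| + 1) * (2 * qq M y) ^ a := by
      refine (hgr y).trans ?_
      have h3 : (1 + ‖M.pz y‖) ^ a ≤ (2 * qq M y) ^ a := by
        have := norm_le_qq M y
        gcongr
      have h4 : C ≤ |C| + 1 := by have := le_abs_self C; linarith
      calc C * (1 + ‖M.pz y‖) ^ a ≤ (|C| + 1) * (1 + ‖M.pz y‖) ^ a := by gcongr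
        _ ≤ _ := by gcongr
    have h5 : H ^ l ≤ ((Ch + 1) * qq M y ^ k) ^ l := by
      have := hh y
      have h6 : Ch * qq M y ^ k ≤ (Ch + 1) * qq M y ^ k := by
        gcongr
        linarith
      gcongr
      linarith
    calc g y * qq M y * H ^ (2 * l) = (g y * H ^ l) * H ^ l * qq M y := by ring
      _ ≤ ((|C| + 1) * (2 * qq M y) ^ a) * ((Ch + 1) * qq M y ^ k) ^ l * qq M y := by
          have := hg0 y
          gcongr
      _ = C' * qq M y ^ (a + k * l + 1) := by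
          rw [hC', mul_pow, mul_pow (Ch + 1), ← pow_mul, pow_succ, pow_add]
          ring
  have h6 : y (az M.z M.h) = MvPolynomial.eval (M.pz y) M.h := M.apply_az' y _
  rw [h6, ← qq_eq M y]
  have h7 : (C' ^ N)⁻¹ * ‖MvPolynomial.eval (M.pz y) M.h‖ ^ (2 * (l * N)) /
      qq M y ^ ((a + k * l + 1) * N) =
      (H ^ (2 * l) / (C' * qq M y ^ (a + k * l + 1))) ^ N := by
    have e1 : (C' * qq M y ^ (a + k * l + 1)) ^ N = C' ^ N * qq M y ^ ((a + k * l + 1) * N) := by
      rw [mul_pow, ← pow_mul]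
    rw [div_pow, e1, ← pow_mul, ← hH, show 2 * (l * N) = 2 * l * N by ring]
    clear_value C'
    field_simp
  rw [h7, ENNReal.ofReal_pow (by positivity)]
  gcongr
  rw [ENNReal.le_inv_iff_mul_le, ← ENNReal.ofReal_mul (by positivity)]
  refine ENNReal.ofReal_le_one.2 ?_
  rw [div_mul_eq_mul_div, div_le_one (by positivity)]
  calc H ^ (2 * l) * (g y * qq M y) = g y * qq M y * H ^ (2 * l) := by ring
    _ ≤ _ := h1

/-- vanishing at a zero of `g` -/
lemma vanish {μ : Measure M.Pts} (hμ : IsLeb μ) {g : M.Pts → ℝ} (hg : Sm g)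
    (hg0 : ∀ y, 0 ≤ g y) {F : M.Pts → ℂ} (hF : Ho51.Hol F) {N : ℕ} (hN : n < N)
    (hint : ∫⁻ x, ENNReal.ofReal (‖F x‖ ^ 2) *
      ((ENNReal.ofReal (g x * qq M x))⁻¹) ^ N ∂μ < ⊤) {y : M.Pts} (hy : g y = 0) : F y = 0 := by
  set e := ch y with he
  have hye : y ∈ e.source := mem_ch y
  have hzt : cp y ∈ e.target := (isCh_ch y).cp_mem hye
  have hes : e.symm (cp y) = y := (isCh_ch y).symm_cp hye
  -- bounds near `y`
  have hc : ContDiffAt ℝ 2 (g ∘ e.symm) (cp y) := (hg y).of_le RatMod_437.two_le_top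
  obtain ⟨A, r1, hA, hr1, hquad⟩ := quad hc (by simp only [Function.comp_apply]; rw [hes, hy])
    (fun z => hg0 _)
  have hqc : ContinuousAt (fun z => qq M (e.symm z)) (cp y) := by
    have h1 : ContinuousAt (qq M) (e.symm (cp y)) := (sm_qq M).continuous.continuousAt
    exact ContinuousAt.comp (g := qq M) h1 (e.continuousAt_symm hzt)
  have hq1 : ∀ᶠ z in 𝓝 (cp y), qq M (e.symm z) < qq M y + 1 := by
    refine hqc.eventually (gt_mem_nhds ?_)
    show qq M (e.symm (cp y)) < qq M y + 1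
    rw [hes]; linarith
  obtain ⟨r2, hr2, hb2⟩ := Metric.mem_nhds_iff.1
    (Filter.inter_mem hq1 (e.open_target.mem_nhds hzt))
  set R : ℝ := min r1 r2 with hR
  have hR0 : 0 < R := lt_min hr1 hr2
  have hq0 : 0 < qq M y + 1 := by have := qq_pos M y; linarith
  -- measurability
  have hFc : Continuous F := CntLowE_804.hol_continuous hF
  have hmeas : Measurable (fun x => ENNReal.ofReal (‖F x‖ ^ 2) *
      ((ENNReal.ofReal (g x * qq M x))⁻¹) ^ N) := by
    apply Measurable.mul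
    · exact (hFc.norm.pow 2).measurable.ennreal_ofReal
    · exact ((hg.continuous.mul (sm_qq M).continuous).measurable.ennreal_ofReal.inv).pow_const _
  have hchart := lintegral_chart hμ (isCh_ch y) (f := fun x => ENNReal.ofReal (‖F x‖ ^ 2) *
      ((ENNReal.ofReal (g x * qq M x))⁻¹) ^ N) hmeas.aemeasurable
  have hT : ∫⁻ z in e.target, ENNReal.ofReal (‖F (e.symm z)‖ ^ 2) *
      ((ENNReal.ofReal (g (e.symm z) * qq M (e.symm z)))⁻¹) ^ N ≤
      ∫⁻ x, ENNReal.ofReal (‖F x‖ ^ 2) * ((ENNReal.ofReal (g x * qq M x))⁻¹) ^ N ∂μ := by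
    rw [← hchart]
    exact setLIntegral_le_lintegral _ _
  have hfd : DifferentiableOn ℂ (F ∘ e.symm) (ball (cp y) R) :=
    (hF e (isCh_ch y)).mono fun z hz =>
      (hb2 (ball_subset_ball (min_le_right _ _) hz)).2
  obtain ⟨C, hC⟩ := CntLowC_804.order_of_decay (p := N) hfd hN (A := A * (qq M y + 1)) (R' := R)
    (by positivity) hR0 le_rfl hint (fun s hs hsR => by
      have hsub : closedBall (cp y) s ⊆ ball (cp y) R := closedBall_subset_ball hsR
      calc ∫⁻ z in closedBall (cp y) s, ‖(F ∘ e.symm) z‖ₑ ^ 2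
          ≤ ∫⁻ z in closedBall (cp y) s, ENNReal.ofReal ((A * (qq M y + 1) * s ^ 2) ^ N) *
              (ENNReal.ofReal (‖F (e.symm z)‖ ^ 2) *
                ((ENNReal.ofReal (g (e.symm z) * qq M (e.symm z)))⁻¹) ^ N) := by
            refine setLIntegral_mono' measurableSet_closedBall fun z hz => ?_
            have hzR := hsub hz
            have h1 : g (e.symm z) ≤ A * s ^ 2 := by
              refine (hquad z (ball_subset_ball (min_le_left _ _) hzR)).trans ?_
              have h2 : ‖z - cp y‖ ≤ s := by rw [← dist_eq_norm]; exact hz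
              gcongr
            have h2 : qq M (e.symm z) ≤ qq M y + 1 :=
              (hb2 (ball_subset_ball (min_le_right _ _) hzR)).1.le
            have h3 : g (e.symm z) * qq M (e.symm z) ≤ A * (qq M y + 1) * s ^ 2 := by
              calc g (e.symm z) * qq M (e.symm z) ≤ (A * s ^ 2) * (qq M y + 1) := by
                    have := hg0 (e.symm z)
                    have := qq_pos M (e.symm z)
                    gcongr
                _ = _ := by ring
            have h4 : (1 : ℝ≥0∞) ≤ ENNReal.ofReal ((A * (qq M y + 1) * s ^ 2) ^ N) *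
                ((ENNReal.ofReal (g (e.symm z) * qq M (e.symm z)))⁻¹) ^ N := by
              rw [ENNReal.ofReal_pow (by positivity), ← mul_pow]
              refine one_le_pow₀ ?_
              have h5 : ENNReal.ofReal (g (e.symm z) * qq M (e.symm z)) ≤
                  ENNReal.ofReal (A * (qq M y + 1) * s ^ 2) := ENNReal.ofReal_le_ofReal h3
              have h6 : ENNReal.ofReal (A * (qq M y + 1) * s ^ 2) ≠ 0 := by
                rw [Ne, ENNReal.ofReal_eq_zero, not_le]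
                positivity
              calc (1 : ℝ≥0∞) = ENNReal.ofReal (A * (qq M y + 1) * s ^ 2) *
                    (ENNReal.ofReal (A * (qq M y + 1) * s ^ 2))⁻¹ :=
                    (ENNReal.mul_inv_cancel h6 ENNReal.ofReal_ne_top).symm
                _ ≤ _ := by gcongr
            have h5 : ‖(F ∘ e.symm) z‖ₑ ^ 2 = ENNReal.ofReal (‖F (e.symm z)‖ ^ 2) := by
              rw [Function.comp_apply, ENNReal.ofReal_pow (norm_nonneg _), ofReal_norm]
            rw [h5]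
            calc ENNReal.ofReal (‖F (e.symm z)‖ ^ 2) = 1 * ENNReal.ofReal (‖F (e.symm z)‖ ^ 2) := by
                  rw [one_mul]
              _ ≤ (ENNReal.ofReal ((A * (qq M y + 1) * s ^ 2) ^ N) *
                ((ENNReal.ofReal (g (e.symm z) * qq M (e.symm z)))⁻¹) ^ N) *
                  ENNReal.ofReal (‖F (e.symm z)‖ ^ 2) := by gcongr
              _ = _ := by ring
        _ = ENNReal.ofReal ((A * (qq M y + 1) * s ^ 2) ^ N) *
            ∫⁻ z in closedBall (cp y) s, (ENNReal.ofReal (‖F (e.symm z)‖ ^ 2) *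
                ((ENNReal.ofReal (g (e.symm z) * qq M (e.symm z)))⁻¹) ^ N) :=
            lintegral_const_mul' _ _ ENNReal.ofReal_ne_top
        _ ≤ ENNReal.ofReal ((A * (qq M y + 1) * s ^ 2) ^ N) *
            ∫⁻ x, ENNReal.ofReal (‖F x‖ ^ 2) *
              ((ENNReal.ofReal (g x * qq M x))⁻¹) ^ N ∂μ := by
            gcongr
            refine le_trans ?_ hT
            refine lintegral_mono_set ?_
            exact fun z hz => (hb2 (ball_subset_ball (min_le_right _ _) (hsub hz))).2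
        _ = _ := mul_comm _ _)
  have h1 := hC.self_of_nhds
  rw [sub_self, norm_zero, zero_pow (by omega), mul_zero] at h1
  have h2 := norm_le_zero_iff.1 h1
  simp only [Function.comp_apply] at h2
  rw [hes] at h2
  exact h2

variable {M}

/-- **zero sets of smooth log-psh functions of algebraic growth are algebraic-small** -/
theorem exists_sigma {g : M.Pts → ℝ} (hg : Sm g) (hg0 : ∀ y, 0 ≤ g y)
    (hE : ∀ y, 0 < g y → ∀ w, dsq g y w ≤ g y * lev g y w) {y0 : M.Pts} (hy0 : 0 < g y0)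
    {C : ℝ} {a l : ℕ}
    (hgr : ∀ y : M.Pts, g y * ‖MvPolynomial.eval (M.pz y) M.h‖ ^ l ≤ C * (1 + ‖M.pz y‖) ^ a) :
    ∃ σ : M.B, σ ≠ 0 ∧ ∀ y : M.Pts, g y = 0 → y σ = 0 := by
  let _ : MeasurableSpace (M.B →ₐ[ℂ] ℂ) := borel _
  have _ : BorelSpace (M.B →ₐ[ℂ] ℂ) := ⟨rfl⟩
  obtain ⟨ρ, hρ, hcpt, hL⟩ := M.exists_rho
  obtain ⟨μ, hμ⟩ := M.exists_leb
  -- the chart
  set e := ch y0 with he
  have hye : y0 ∈ e.source := mem_ch y0
  have hzt : cp y0 ∈ e.target := (isCh_ch y0).cp_mem hye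
  have hes : e.symm (cp y0) = y0 := (isCh_ch y0).symm_cp hye
  have hgc : ContinuousAt (fun z => g (e.symm z)) (cp y0) := by
    have h1 : ContinuousAt g (e.symm (cp y0)) := hg.continuous.continuousAt
    exact ContinuousAt.comp (g := g) h1 (e.continuousAt_symm hzt)
  have hqc : ContinuousAt (fun z => qq M (e.symm z)) (cp y0) := by
    have h1 : ContinuousAt (qq M) (e.symm (cp y0)) := (sm_qq M).continuous.continuousAt
    exact ContinuousAt.comp (g := qq M) h1 (e.continuousAt_symm hzt)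
  have hg1 : ∀ᶠ z in 𝓝 (cp y0), g y0 / 2 < g (e.symm z) := by
    refine hgc.eventually (lt_mem_nhds ?_)
    show g y0 / 2 < g (e.symm (cp y0))
    rw [hes]; linarith
  have hq1 : ∀ᶠ z in 𝓝 (cp y0), qq M (e.symm z) < qq M y0 + 1 := by
    refine hqc.eventually (gt_mem_nhds ?_)
    show qq M (e.symm (cp y0)) < qq M y0 + 1
    rw [hes]; linarith
  obtain ⟨r, hr, hb⟩ := Metric.mem_nhds_iff.1
    (Filter.inter_mem (Filter.inter_mem hg1 hq1) (e.open_target.mem_nhds hzt))
  let S : LD n 0 M.Pts :=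
    { e := e
      he := isCh_ch y0
      z0 := cp y0
      r := r
      hr := hr
      hB := fun z hz => (hb hz).2
      β := fun _ => 0
      hβ := differentiableOn_const _ }
  have hq0 : 0 < qq M y0 + 1 := by have := qq_pos M y0; linarith
  set E : M.Pts → ℝ := fun y => g y * qq M y with hEdef
  have hEs : Sm E := hg.mulR (sm_qq M)
  have hE0 : ∀ y, 0 ≤ E y := fun y => mul_nonneg (hg0 y) (by have := qq_pos M y; linarith)
  have hdef : ∀ (y : M.Pts) (w : Fin n → ℂ), g y ^ 2 * nsq w ≤ E y * lev E y w - dsq E y w := by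
    intro y w
    have h1 := defect_mul hg (sm_qq M) y w
    have h2 := defect_nonneg hg0 hE y w
    have h3 := dsq_qq_le M y w
    have h4 := lev_qq M y w
    have h5 : nsq w ≤ qq M y * lev (qq M) y w - dsq (qq M) y w := by
      rw [h4]; linarith
    have h6 : 0 ≤ qq M y ^ 2 * (g y * lev g y w - dsq g y w) :=
      mul_nonneg (by positivity) (by linarith)
    have h7 : g y ^ 2 * nsq w ≤ g y ^ 2 * (qq M y * lev (qq M) y w - dsq (qq M) y w) := by
      gcongr
    have h8 : E y * lev E y w - dsq E y w = qq M y ^ 2 * (g y * lev g y w - dsq g y w) +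
        g y ^ 2 * (qq M y * lev (qq M) y w - dsq (qq M) y w) := h1
    linarith
  have hE1 : ∀ y w, dsq E y w ≤ E y * lev E y w := by
    intro y w
    have h1 := hdef y w
    have h2 : 0 ≤ g y ^ 2 * nsq w := mul_nonneg (by positivity) (nsq_nonneg w)
    linarith
  have hE2 : ∀ y w, 0 ≤ lev E y w := lev_nonneg hEs hE0 (fun y _ w => hE1 y w)
  obtain ⟨c1, hc1, N0, hN0⟩ := count_low_log (μ := μ) hμ hρ hcpt hL hEs hE0 hE1 hE2
    (ψ := fun _ => 0) (Sm.const 0)
    (fun y w => by rw [Levi_eq_lev (Sm.const 0), lev_const]) S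
    (fun v => ⟨0, Subsingleton.elim _ _⟩) (c := ((qq M y0 + 1) ^ 2)⁻¹) (e0 := g y0 / 2)
    (by positivity) (by linarith)
    (fun z hz => by
      have h1 := (hb hz).1.1
      have h2 := qq_pos M (e.symm z)
      have h3 : 0 ≤ g (e.symm z) := hg0 _
      show g y0 / 2 ≤ g (e.symm z) * qq M (e.symm z)
      have h4 : g y0 / 2 < g (e.symm z) := h1
      nlinarith)
    (fun z hz w => by
      have h1 := (hb hz).1.2
      have h2 := qq_pos M (e.symm z)
      have h3 := hdef (e.symm z) w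
      have h4 : ((qq M y0 + 1) ^ 2)⁻¹ * E (e.symm z) ^ 2 * nsq w ≤
          g (e.symm z) ^ 2 * nsq w := by
        have h5 : ((qq M y0 + 1) ^ 2)⁻¹ * E (e.symm z) ^ 2 ≤ g (e.symm z) ^ 2 := by
          rw [inv_mul_le_iff₀ (by positivity)]
          show (g (e.symm z) * qq M (e.symm z)) ^ 2 ≤ _
          rw [mul_pow, mul_comm]
          have h6 : qq M (e.symm z) < qq M y0 + 1 := h1
          gcongr
        have := nsq_nonneg w
        gcongr
      show dsq E (e.symm z) w + ((qq M y0 + 1) ^ 2)⁻¹ * E (e.symm z) ^ 2 * nsq w ≤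
        E (e.symm z) * lev E (e.symm z) w
      linarith)
    (fun z hz w => by
      rw [Levi_eq_lev (Sm.const 0), lev_const]
      simp)
  obtain ⟨ι, hι, f, hf, hfp, hcard⟩ := hN0 (max N0 (n + 2)) (le_max_left _ _) 1 le_rfl
  set N := max N0 (n + 2) with hN
  have hNn : n < N - 1 := by
    have : n + 2 ≤ N := le_max_right _ _
    omega
  have hcard' : 0 < (Fintype.card ι : ℝ) := by
    refine lt_of_lt_of_le ?_ hcard
    have : 0 < N := by omega
    positivity
  have hne : Nonempty ι := Fintype.card_pos_iff.1 (by exact_mod_cast hcard')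
  obtain ⟨i0⟩ := hne
  obtain ⟨hF, hint⟩ := hfp i0
  have hF0 : f i0 ≠ 0 := hf.ne_zero i0
  have hint' : ∫⁻ x, ENNReal.ofReal (‖f i0 x‖ ^ 2) *
      ((ENNReal.ofReal (g x * qq M x))⁻¹) ^ (N - 1) ∂μ < ⊤ := by
    refine lt_of_le_of_lt (le_of_eq ?_) hint
    refine lintegral_congr fun x => ?_
    show _ = ENNReal.ofReal (‖f i0 x‖ ^ 2 * Real.exp (-((N : ℝ) * 1 * 0))) *
      ((ENNReal.ofReal (g x * qq M x))⁻¹) ^ (N - 1)
    rw [mul_zero, neg_zero, Real.exp_zero, mul_one]
  -- algebraicity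
  obtain ⟨c, A, B, hc, hW⟩ := weight_ge M hg0 hgr (N - 1)
  have hFc : Continuous (f i0) := CntLowE_804.hol_continuous hF
  have hmeas : Measurable (fun x => ENNReal.ofReal (‖f i0 x‖ ^ 2) *
      ((ENNReal.ofReal (g x * qq M x))⁻¹) ^ (N - 1)) := by
    apply Measurable.mul
    · exact (hFc.norm.pow 2).measurable.ennreal_ofReal
    · exact ((hg.continuous.mul (sm_qq M).continuous).measurable.ennreal_ofReal.inv).pow_const _
  obtain ⟨σ, hσ⟩ := mem_of_weight M.het (holB_of_51 M.hch hF) (u := az M.z M.h) (v := 1)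
    M.h_unit.ne_zero one_ne_zero A B hc (W := fun y => ((ENNReal.ofReal (g y * qq M y))⁻¹) ^ (N - 1))
    (fun y _ => hW y) (by
      rw [M.lintM_eq hμ hmeas]
      exact hint')
  refine ⟨σ, ?_, fun y hy => ?_⟩
  · rintro rfl
    apply hF0
    funext y
    rw [hσ y, map_zero]
    rfl
  · rw [← hσ y]
    exact vanish M hμ hg hg0 hF hNn hint' hy

/-- every nonzero element of `B` divides a nonzero polynomial in the coordinates -/
theorem exists_poly_of {σ : M.B} (hσ : σ ≠ 0) : ∃ p : MvPolynomial (Fin n) ℂ, p ≠ 0 ∧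
    ∀ y : M.Pts, y σ = 0 → MvPolynomial.eval (M.pz y) p = 0 := by
  obtain ⟨p, hp, b, hb⟩ := exists_poly_dvd M.het hσ
  refine ⟨p, hp, fun y hy => ?_⟩
  rw [← M.apply_az' y p]
  have h1 : az M.z p = σ * b := hb
  rw [h1, map_mul, hy, zero_mul]

theorem exists_poly {g : M.Pts → ℝ} (hg : Sm g) (hg0 : ∀ y, 0 ≤ g y)
    (hE : ∀ y, 0 < g y → ∀ w, dsq g y w ≤ g y * lev g y w) {y0 : M.Pts} (hy0 : 0 < g y0)
    {C : ℝ} {a l : ℕ}
    (hgr : ∀ y : M.Pts, g y * ‖MvPolynomial.eval (M.pz y) M.h‖ ^ l ≤ C * (1 + ‖M.pz y‖) ^ a) :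
    ∃ p : MvPolynomial (Fin n) ℂ, p ≠ 0 ∧
      ∀ y : M.Pts, g y = 0 → MvPolynomial.eval (M.pz y) p = 0 := by
  obtain ⟨σ, hσ, h⟩ := exists_sigma hg hg0 hE hy0 hgr
  obtain ⟨p, hp, h2⟩ := exists_poly_of hσ
  exact ⟨p, hp, fun y hy => h2 y (h y hy)⟩

/-- the complement of an algebraic hypersurface is dense -/
theorem dense_poly {p : MvPolynomial (Fin n) ℂ} (hp : p ≠ 0) :
    Dense {y : M.Pts | MvPolynomial.eval (M.pz y) p ≠ 0} := by
  have h1 : Dense {ζ : Cn n | MvPolynomial.eval ζ p ≠ 0} := by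
    rw [dense_iff_inter_open]
    intro U hU hUn
    by_contra hcon
    apply hp
    refine RatLine_437.eq_zero_of_open hU hUn fun v hv => ?_
    by_contra h2
    exact hcon ⟨v, hv, h2⟩
  have h2 : IsOpenMap M.pz := (isLocalHomeomorph_pr M.hch).isOpenMap
  exact h1.preimage h2

theorem dense_pos {g : M.Pts → ℝ} (hg : Sm g) (hg0 : ∀ y, 0 ≤ g y)
    (hE : ∀ y, 0 < g y → ∀ w, dsq g y w ≤ g y * lev g y w) {y0 : M.Pts} (hy0 : 0 < g y0)
    {C : ℝ} {a l : ℕ}
    (hgr : ∀ y : M.Pts, g y * ‖MvPolynomial.eval (M.pz y) M.h‖ ^ l ≤ C * (1 + ‖M.pz y‖) ^ a) :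
    Dense {y : M.Pts | 0 < g y} := by
  obtain ⟨p, hp, h⟩ := exists_poly hg hg0 hE hy0 hgr
  refine (dense_poly hp).mono fun y hy => ?_
  exact lt_of_le_of_ne (hg0 y) fun h0 => hy (h y h0.symm)

end mdl

end Crest.Agent.R276.ZS_437
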