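import Mathlib
import Crest.Agent.R276.ZS_437
import Crest.Agent.R276.PdH_571
import Crest.Agent.R276.PdG_571
import Crest.Agent.R276.VPull_327

/-!
# Row 276, ALG-FOL (helper437): the slopes of the kernel of the period metric are algebraic

`M : Mdl K m`, `V : VHS m M.Pts N w`.  `slopes` : there are `s ⊆ {0,..,m-1}`, `p ≠ 0` such that on every
smaller model `M'` with `p` invertible there are `f i j ∈ M'.B` (`i ∉ s`), `f i j = δ_ij` for `j ∉ s`,
`∑_j f i j gP_{jk} = 0`, and `det gP_{s s} > 0` everywhere.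
-/

set_option autoImplicit false

noncomputable section

open Set Filter Topology MeasureTheory Metric Matrix
open scoped ENNReal ComplexOrder ComplexConjugate

namespace Crest.Agent.R276.Slopes_437

/-! ### linear algebra -/

section linalg

variable {m : ℕ}

/-- the block of `G` on `s` -/
def blk (G : Matrix (Fin m) (Fin m) ℂ) (s : Finset (Fin m)) : Matrix s s ℂ :=
  G.submatrix (Subtype.val : s → Fin m) Subtype.val

/-- the `i`-th row vector of the kernel -/
def cf (G : Matrix (Fin m) (Fin m) ℂ) (s : Finset (Fin m)) (i j : Fin m) : ℂ :=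
  if h : j ∈ s then -(((fun k : s => G i k) ᵥ* (blk G s)⁻¹) ⟨j, h⟩) else if i = j then 1 else 0

lemma cf_of_notMem (G : Matrix (Fin m) (Fin m) ℂ) {s : Finset (Fin m)} {i j : Fin m}
    (hj : j ∉ s) : cf G s i j = if i = j then 1 else 0 := by
  unfold cf
  rw [dif_neg hj]

lemma sum_cf (G : Matrix (Fin m) (Fin m) ℂ) {s : Finset (Fin m)} {i : Fin m} (hi : i ∉ s)
    (u : Fin m → ℂ) : ∑ j, cf G s i j * u j =
      u i - ∑ j : s, ((fun k : s => G i k) ᵥ* (blk G s)⁻¹) j * u j := by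
  classical
  have h1 : ∑ j, cf G s i j * u j = ∑ j ∈ s, cf G s i j * u j + ∑ j ∈ sᶜ, cf G s i j * u j :=
    (Finset.sum_add_sum_compl s _).symm
  have h2 : ∑ j ∈ sᶜ, cf G s i j * u j = u i := by
    rw [Finset.sum_eq_single i]
    · rw [cf_of_notMem G hi]; simp
    · intro j hj hji
      rw [cf_of_notMem G (Finset.mem_compl.1 hj), if_neg (Ne.symm hji), zero_mul]
    · intro h
      exact absurd (Finset.mem_compl.2 hi) h
  have h3 : ∑ j ∈ s, cf G s i j * u j =
      - ∑ j : s, ((fun k : s => G i k) ᵥ* (blk G s)⁻¹) j * u j := by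
    rw [← Finset.sum_coe_sort s, ← Finset.sum_neg_distrib]
    refine Finset.sum_congr rfl fun j _ => ?_
    unfold cf
    rw [dif_pos j.2]
    ring
  rw [h1, h2, h3]
  ring

/-- the equations with `k ∈ s` -/
lemma cf_mul_of_mem (G : Matrix (Fin m) (Fin m) ℂ) {s : Finset (Fin m)} {i : Fin m}
    (hi : i ∉ s) (hdet : (blk G s).det ≠ 0) {k : Fin m} (hk : k ∈ s) :
    ∑ j, cf G s i j * G j k = 0 := by
  rw [sum_cf G hi]
  have hu : IsUnit (blk G s).det := isUnit_iff_ne_zero.2 hdet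
  have h1 : ∑ j : s, ((fun k : s => G i k) ᵥ* (blk G s)⁻¹) j * G j k =
      (((fun k : s => G i k) ᵥ* (blk G s)⁻¹) ᵥ* (blk G s)) ⟨k, hk⟩ := rfl
  rw [h1, Matrix.vecMul_vecMul, Matrix.nonsing_inv_mul _ hu, Matrix.vecMul_one, sub_self]

/-- the determinant of the block on `insert i s` -/
lemma det_insert (G : Matrix (Fin m) (Fin m) ℂ) {s : Finset (Fin m)} {i : Fin m}
    (hi : i ∉ s) (hdet : (blk G s).det ≠ 0) :
    (blk G (insert i s)).det = (blk G s).det * ∑ j, cf G s i j * G j i := by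
  classical
  let e1 : {x // x ∈ insert i s} ≃ s ⊕ PUnit.{1} :=
    (Finset.subtypeInsertEquivOption hi).trans (Equiv.optionEquivSumPUnit _)
  have hu : IsUnit (blk G s).det := isUnit_iff_ne_zero.2 hdet
  have hinv : Invertible (blk G s) := Matrix.invertibleOfIsUnitDet _ hu
  have hval : ∀ t : s ⊕ PUnit.{1}, ((e1.symm t : {x // x ∈ insert i s}) : Fin m) =
      Sum.elim (fun x : s => (x : Fin m)) (fun _ => i) t := by
    rintro (t | t)
    · rfl
    · rfl
  have h1 : (blk G (insert i s)).det = ((blk G (insert i s)).submatrix e1.symm e1.symm).det :=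
    (Matrix.det_submatrix_equiv_self _ _).symm
  have h2 : (blk G (insert i s)).submatrix e1.symm e1.symm =
      Matrix.fromBlocks (blk G s) (Matrix.of fun (j : s) (_ : PUnit.{1}) => G j i)
        (Matrix.of fun (_ : PUnit.{1}) (j : s) => G i j)
        (Matrix.of fun (_ : PUnit.{1}) (_ : PUnit.{1}) => G i i) := by
    ext a b
    simp only [blk, Matrix.submatrix_apply, hval]
    rcases a with a | a <;> rcases b with b | b <;> rfl
  rw [h1, h2, Matrix.det_fromBlocks₁₁]
  congr 1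
  rw [Matrix.det_unique, Matrix.sub_apply, sum_cf G hi, Matrix.invOf_eq_nonsing_inv]
  congr 1

/-- the slopes annihilate `G` -/
theorem cf_mul {G : Matrix (Fin m) (Fin m) ℂ} (hG : G.PosSemidef) {s : Finset (Fin m)}
    {i : Fin m} (hi : i ∉ s) (hdet : (blk G s).det ≠ 0) (h0 : (blk G (insert i s)).det = 0)
    (k : Fin m) : ∑ j, cf G s i j * G j k = 0 := by
  rw [det_insert G hi hdet] at h0
  have h1 := (mul_eq_zero.1 h0).resolve_left hdet
  -- the quadratic form vanishes at the conjugate vector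
  set x : Fin m → ℂ := fun j => star (cf G s i j) with hx
  have hv : ∀ k, (star x ᵥ* G) k = ∑ j, cf G s i j * G j k := by
    intro k
    simp only [Matrix.vecMul, dotProduct, hx, Pi.star_apply, star_star]
  have h2 : star x ⬝ᵥ (G *ᵥ x) = 0 := by
    rw [Matrix.dotProduct_mulVec]
    simp only [dotProduct]
    refine Finset.sum_eq_zero fun k _ => ?_
    rw [hv]
    by_cases hk : k ∈ s
    · rw [cf_mul_of_mem G hi hdet hk, zero_mul]
    · by_cases hki : i = k
      · subst hki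
        rw [h1, zero_mul]
      · have : x k = 0 := by
          simp only [hx]
          rw [cf_of_notMem G hk, if_neg hki, star_zero]
        rw [this, mul_zero]
  have h3 : G *ᵥ x = 0 := (hG.dotProduct_mulVec_zero_iff x).1 h2
  have h4 : star x ᵥ* G = 0 := by
    have h5 : star x ᵥ* G = star (Gᴴ *ᵥ x) := by
      rw [Matrix.star_mulVec, Matrix.conjTranspose_conjTranspose]
    rw [h5, hG.isHermitian.eq, h3, star_zero]
  rw [← hv, h4]
  rfl

/-- `|c_j|² det G_{ss} = det G_{s's'}`, `s'` = `s` with `j` replaced by `i` -/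
theorem sq_cf {G : Matrix (Fin m) (Fin m) ℂ} (hG : G.IsHermitian) {s : Finset (Fin m)}
    {i : Fin m} (hi : i ∉ s) (h0 : ∀ k, ∑ j, cf G s i j * G j k = 0) (j : s) :
    ((‖cf G s i j‖ ^ 2 : ℝ) : ℂ) * (blk G s).det =
      (G.submatrix (fun k : s => if k = j then i else (k : Fin m))
        (fun k : s => if k = j then i else (k : Fin m))).det := by
  classical
  set c : s → ℂ := fun k => cf G s i k with hc
  set T : Matrix s s ℂ := (1 : Matrix s s ℂ).updateRow j (fun k => - c k) with hT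
  have hrow : ∀ (a : s) (x : Fin m), ∑ k : s, T a k * G k x =
      G (if a = j then i else (a : Fin m)) x := by
    intro a x
    by_cases ha : a = j
    · rw [if_pos ha, ha]
      have h1 : ∀ k, T j k = - c k := fun k => by rw [hT, Matrix.updateRow_self]
      simp only [h1]
      have h2 := h0 x
      rw [sum_cf G hi] at h2
      have h3 : ∀ k : s, c k = -((fun k : s => G i k) ᵥ* (blk G s)⁻¹) k := by
        intro k
        simp only [hc, cf]
        rw [dif_pos k.2]
      simp only [h3, neg_neg]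
      exact (sub_eq_zero.1 h2).symm
    · rw [if_neg ha]
      have h1 : ∀ k, T a k = (1 : Matrix s s ℂ) a k := fun k => by
        rw [hT, Matrix.updateRow_ne ha]
      simp only [h1, Matrix.one_apply, ite_mul, one_mul, zero_mul, Finset.sum_ite_eq,
        Finset.mem_univ, if_true]
  have hdet : T.det = - c j := by
    have h1 : T = ((1 : Matrix s s ℂ).updateCol j (fun k => - c k))ᵀ := by
      rw [hT, ← Matrix.updateRow_transpose, Matrix.transpose_one]
    rw [h1, Matrix.det_transpose, ← Matrix.cramer_apply, Matrix.cramer_one]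
    rfl
  have hprod : G.submatrix (fun k : s => if k = j then i else (k : Fin m))
      (fun k : s => if k = j then i else (k : Fin m)) = T * blk G s * Tᴴ := by
    ext a b
    rw [Matrix.submatrix_apply, Matrix.mul_apply]
    have h1 : ∀ l : s, (T * blk G s) a l = G (if a = j then i else (a : Fin m)) l := by
      intro l
      rw [Matrix.mul_apply]
      exact hrow a l
    simp only [h1, Matrix.conjTranspose_apply]
    have h2 := hrow b (if a = j then i else (a : Fin m))
    have h3 : G (if a = j then i else (a : Fin m)) (if b = j then i else (b : Fin m)) =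
        star (∑ k : s, T b k * G k (if a = j then i else (a : Fin m))) := by
      rw [h2, hG.apply]
    rw [h3, star_sum]
    refine Finset.sum_congr rfl fun k _ => ?_
    rw [star_mul, hG.apply]
  rw [hprod, Matrix.det_mul, Matrix.det_mul, Matrix.det_conjTranspose, hdet]
  have h4 : ((‖cf G s i j‖ ^ 2 : ℝ) : ℂ) = c j * star (c j) := by
    rw [Complex.star_def, Complex.mul_conj, Complex.normSq_eq_norm_sq]
  rw [h4, star_neg]
  ring

end linalg

/-! ### the slopes are holomorphic -/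

section hol

open Crest.Agent.R276.VCalc_442

variable {m : ℕ} {ι : Type*} [Fintype ι] [DecidableEq ι]
variable {w : ℕ} {U : Set (Fin m → ℂ)} {S : Matrix ι ι ℂ}
  {P : ℕ → (Fin m → ℂ) → Matrix ι ι ℂ} {x : Fin m → ℂ}

lemma diff_cf {E : Type*} [NormedAddCommGroup E] [NormedSpace ℂ E]
    {G : E → Matrix (Fin m) (Fin m) ℂ} {x : E}
    (hG : ∀ j k, DifferentiableAt ℝ (fun y => G y j k) x) {s : Finset (Fin m)}
    (hdet : (blk (G x) s).det ≠ 0) (i j : Fin m) :
    DifferentiableAt ℝ (fun y => cf (G y) s i j) x := by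
  unfold cf
  by_cases hj : j ∈ s
  · simp only [dif_pos hj]
    have hb : ∀ a b : s, DifferentiableAt ℝ (fun y => blk (G y) s a b) x := fun a b => hG a b
    have h1 : ∀ a b : s, DifferentiableAt ℝ (fun y => (blk (G y) s)⁻¹ a b) x := by
      intro a b
      have h2 : (fun y => (blk (G y) s)⁻¹ a b) =
          fun y => ((blk (G y) s).det)⁻¹ * (blk (G y) s).adjugate a b := by
        funext y
        rw [Matrix.inv_def, Matrix.smul_apply, smul_eq_mul, Ring.inverse_eq_inv']
      rw [h2]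
      exact ((diff_det hb).inv hdet).mul (diff_adj hb a b)
    simp only [Matrix.vecMul, dotProduct]
    refine (DifferentiableAt.fun_sum fun (a : s) _ => ?_).neg
    exact (hG i (a : Fin m)).fun_mul (h1 a ⟨j, hj⟩)
  · simp only [dif_neg hj]
    exact differentiableAt_const _

/-- the Gram matrix in the coordinate directions -/
def Gm (w : ℕ) (P : ℕ → (Fin m → ℂ) → Matrix ι ι ℂ) (c : Fin m → ℂ) : Matrix (Fin m) (Fin m) ℂ :=
  Matrix.of fun j k => gg w P (Pi.single j 1) (Pi.single k 1) c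

section nm

attribute [local instance] Matrix.linftyOpNormedRing Matrix.linftyOpNormedAlgebra

lemma diff_gg (h : VCalc_442.VHS w U S P) (hx : x ∈ U) (u v : Fin m → ℂ) :
    DifferentiableAt ℝ (gg w P u v) x :=
  ((h.sm_gg u v).contDiffAt (h.op.mem_nhds hx)).differentiableAt (by simp)

/-- a vector in the row kernel of the Gram matrix is killed by the Higgs field -/
lemma th_zero (h : VCalc_442.VHS w U S P) (hx : x ∈ U) {f : Fin m → ℂ}
    (hf : ∀ k, ∑ j, f j * Gm w P x j k = 0) :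
    ∑ j, f j • dW (grOp w P) (Pi.single j 1) x = 0 := by
  have h1 : gg w P f f x = 0 := by
    rw [Pd571.gg_expand]
    refine Finset.sum_eq_zero fun k _ => ?_
    have h2 := hf k
    have h3 : ∑ j, gg w P (Pi.single j 1) (Pi.single k 1) x * f j = 0 := by
      rw [← h2]
      exact Finset.sum_congr rfl fun j _ => mul_comm _ _
    rw [h3, mul_zero]
  have h2 : gden w P f x = 0 := by
    unfold gden
    rw [h1]; rfl
  have h3 := h.gden_eq_zero hx h2
  rw [h.th_eq hx] at h3
  have h4 : f = ∑ j, f j • (Pi.single j (1 : ℂ) : Fin m → ℂ) := by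
    rw [← pi_eq_sum_univ' f]
  rw [h4, VCalc_442.dW_sum_dir] at h3
  exact h3

lemma dB_sum' {κ : Type*} (s : Finset κ) {f : κ → (Fin m → ℂ) → ℂ} {x : Fin m → ℂ}
    (hf : ∀ k ∈ s, DifferentiableAt ℝ (f k) x) (v : Fin m → ℂ) :
    dB (fun y => ∑ k ∈ s, f k y) v x = ∑ k ∈ s, dB (f k) v x := VCalc_442.dB_sum s hf v

/-- **`∂̄` of the slopes vanishes** -/
theorem dB_cf (h : VCalc_442.VHS w U S P) {U' : Set (Fin m → ℂ)} (hU' : IsOpen U')
    (hUU : U' ⊆ U) {s : Finset (Fin m)} {i : Fin m}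
    (hdet : ∀ c ∈ U', (blk (Gm w P c) s).det ≠ 0)
    (hk : ∀ c ∈ U', ∀ k, ∑ j, cf (Gm w P c) s i j * Gm w P c j k = 0)
    (hx : x ∈ U') (v : Fin m → ℂ) (j : Fin m) :
    dB (fun c => cf (Gm w P c) s i j) v x = 0 := by
  have hxU := hUU hx
  have hGd : ∀ j k, DifferentiableAt ℝ (fun c => Gm w P c j k) x := fun j k =>
    diff_gg h hxU _ _
  have hfd : ∀ j, DifferentiableAt ℝ (fun c => cf (Gm w P c) s i j) x := fun j =>
    diff_cf hGd (hdet x hx) i j
  -- off `s` the slopes are constant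
  have hoff : ∀ j ∉ s, dB (fun c => cf (Gm w P c) s i j) v x = 0 := by
    intro j hj
    have h1 : (fun c => cf (Gm w P c) s i j) = fun _ => if i = j then (1 : ℂ) else 0 := by
      funext c
      exact cf_of_notMem _ hj
    rw [h1]
    exact VCalc_442.dB_const _ _ _
  -- differentiate the relation
  have hrel : ∀ k, ∑ j, dB (fun c => cf (Gm w P c) s i j) v x * Gm w P x j k = 0 := by
    intro k
    have h1 : (fun c => ∑ j, cf (Gm w P c) s i j * Gm w P c j k) =ᶠ[𝓝 x] fun _ => (0 : ℂ) := by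
      filter_upwards [hU'.mem_nhds hx] with c hc
      exact hk c hc k
    have h2 := VCalc_442.dB_congr h1 v
    rw [VCalc_442.dB_const, dB_sum' _ (fun j _ => (hfd j).fun_mul (hGd j k))] at h2
    have h3 : ∀ j, dB (fun c => cf (Gm w P c) s i j * Gm w P c j k) v x =
        dB (fun c => cf (Gm w P c) s i j) v x * Gm w P x j k +
          cf (Gm w P x) s i j * dB (fun c => Gm w P c j k) v x := fun j =>
      VCalc_442.dB_mul (hfd j) (hGd j k) v
    simp only [h3, Finset.sum_add_distrib] at h2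
    have h4 : ∑ j, cf (Gm w P x) s i j * dB (fun c => Gm w P c j k) v x = 0 := by
      have h5 : ∀ j, dB (fun c => Gm w P c j k) v x =
          trL (dW (grOp w P) (Pi.single j 1) x * dB (tb (grOp w P) (Pi.single k 1)) v x) :=
        fun j => h.dB_gg hxU _ _ v
      have h6 := th_zero h hxU (hk x hx)
      calc ∑ j, cf (Gm w P x) s i j * dB (fun c => Gm w P c j k) v x
          = trL ((∑ j, cf (Gm w P x) s i j • dW (grOp w P) (Pi.single j 1) x) *
              dB (tb (grOp w P) (Pi.single k 1)) v x) := by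
            rw [Finset.sum_mul, map_sum]
            refine Finset.sum_congr rfl fun j _ => ?_
            rw [h5, smul_mul_assoc, map_smul, smul_eq_mul]
        _ = 0 := by rw [h6, zero_mul, map_zero]
    rw [h4, add_zero] at h2
    exact h2
  by_cases hj : j ∈ s
  · have hu : IsUnit (blk (Gm w P x) s).det := isUnit_iff_ne_zero.2 (hdet x hx)
    set u : s → ℂ := fun j => dB (fun c => cf (Gm w P c) s i j) v x with hu'
    have h1 : u ᵥ* blk (Gm w P x) s = 0 := by
      funext k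
      have h2 := hrel k
      have h3 : (u ᵥ* blk (Gm w P x) s) k = ∑ j : s, u j * Gm w P x j k := rfl
      rw [h3]
      have h4 : ∑ j, dB (fun c => cf (Gm w P c) s i j) v x * Gm w P x j k =
          ∑ j ∈ s, dB (fun c => cf (Gm w P c) s i j) v x * Gm w P x j k := by
        symm
        refine Finset.sum_subset (Finset.subset_univ s) fun j _ hj => ?_
        rw [hoff j hj, zero_mul]
      rw [h4, ← Finset.sum_coe_sort s] at h2
      exact h2
    have h2 : u = 0 := by
      have h3 : (u ᵥ* blk (Gm w P x) s) ᵥ* (blk (Gm w P x) s)⁻¹ = 0 := by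
        rw [h1, Matrix.zero_vecMul]
      rwa [Matrix.vecMul_vecMul, Matrix.mul_nonsing_inv _ hu, Matrix.vecMul_one] at h3
    exact congrFun h2 ⟨j, hj⟩
  · exact hoff j hj

end nm

end hol

/-! ### on a Riemann domain -/

section rd

open Crest.Agent.R271.Ho51 Crest.Agent.R276.Ipc735 Crest.Agent.R276.Pd571

variable {m N w : ℕ} {X : Type*} [TopologicalSpace X] [RDom m X] (V : Ipc735.VHS m X N w)

/-- the principal minor -/
def mi (s : Finset (Fin m)) (x : X) : ℝ := (blk (gP V x) s).det.re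

lemma mi_eq (s : Finset (Fin m)) (x : X) : ((mi V s x : ℝ) : ℂ) = (blk (gP V x) s).det := by
  have h1 := ((gP_posSemidef V x).submatrix (Subtype.val : s → Fin m)).det_nonneg
  exact (Complex.eq_re_of_ofReal_le h1).symm

lemma mi_nonneg (s : Finset (Fin m)) (x : X) : 0 ≤ mi V s x := minor_nonneg V _ x

lemma sm_mi (s : Finset (Fin m)) : Sm (mi V s) := sm_minor V _

lemma det_ne_iff (s : Finset (Fin m)) (x : X) : (blk (gP V x) s).det ≠ 0 ↔ 0 < mi V s x := by
  rw [← mi_eq, Complex.ofReal_ne_zero]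
  exact ⟨fun h => lt_of_le_of_ne (mi_nonneg V s x) (Ne.symm h), fun h => h.ne'⟩

lemma Levi_mi (s : Finset (Fin m)) {x : X} (hx : 0 < mi V s x) (v : Fin m → ℂ) :
    0 ≤ Levi (fun y => Real.log (mi V s y)) x v := Levi_log_minor_nonneg V _ hx v

theorem analytic_cf {s : Finset (Fin m)} {i : Fin m}
    (hrel : ∀ y, 0 < mi V s y → ∀ k, ∑ j, cf (gP V y) s i j * gP V y j k = 0) {y : X}
    (hy : 0 < mi V s y) (j : Fin m) :
    AnalyticAt ℂ ((fun y => cf (gP V y) s i j) ∘ (ch y).symm) (cp y) := by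
  obtain ⟨U, hyU, h⟩ := exists_Nb V y
  have hG : ∀ c ∈ U, Gm w (PL V y) c = gP V ((ch y).symm c) := by
    intro c hc
    ext a b
    exact h.gg_eq hc a b
  have hGd : ∀ c ∈ U, ∀ a b, DifferentiableAt ℝ (fun c => Gm w (PL V y) c a b) c :=
    fun c hc a b => diff_gg h.loc hc _ _
  set U' : Set (Fin m → ℂ) := {c | c ∈ U ∧ (blk (Gm w (PL V y) c) s).det ≠ 0} with hU'
  have hU'o : IsOpen U' := by
    rw [isOpen_iff_mem_nhds]
    rintro c ⟨hc, hd⟩
    have h1 : ContinuousAt (fun c => (blk (Gm w (PL V y) c) s).det) c :=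
      (VCalc_442.diff_det (A := fun c => blk (Gm w (PL V y) c) s)
        (fun a b => hGd c hc a b)).continuousAt
    filter_upwards [h.op.mem_nhds hc, h1.eventually_ne hd] with c' h2 h3
    exact ⟨h2, h3⟩
  have hyU' : cp y ∈ U' := by
    refine ⟨hyU, ?_⟩
    rw [hG _ hyU, (isCh_ch y).symm_cp (mem_ch y), det_ne_iff]
    exact hy
  have hdiff : ∀ c ∈ U', DifferentiableAt ℂ (fun c => cf (Gm w (PL V y) c) s i j) c := by
    intro c hc
    refine VCalc_442.diff_of_dB (diff_cf (hGd c hc.1) hc.2 i j) fun v => ?_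
    refine dB_cf h.loc hU'o (fun c hc => hc.1) (fun c hc => hc.2) ?_ hc v j
    rintro c ⟨hc, hd⟩ k
    rw [hG c hc] at hd ⊢
    exact hrel _ ((det_ne_iff V s _).1 hd) k
  have h1 : AnalyticAt ℂ (fun c => cf (Gm w (PL V y) c) s i j) (cp y) := by
    refine R266.SCV.analyticAt_of_eventually_differentiableAt ?_
    filter_upwards [hU'o.mem_nhds hyU'] with c hc
    exact hdiff c hc
  refine h1.congr ?_
  filter_upwards [h.op.mem_nhds hyU] with c hc
  rw [hG c hc]
  rfl

/-- a maximal index set with a minor which is not identically zero -/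
theorem exists_max [Nonempty X] : ∃ s : Finset (Fin m), (∃ x, 0 < mi V s x) ∧
    ∀ i ∉ s, ∀ x, mi V (insert i s) x = 0 := by
  classical
  set T : Finset (Finset (Fin m)) := Finset.univ.filter fun s => ∃ x, 0 < mi V s x with hT
  have hne : T.Nonempty := by
    obtain ⟨x⟩ := (inferInstance : Nonempty X)
    refine ⟨∅, Finset.mem_filter.2 ⟨Finset.mem_univ _, x, ?_⟩⟩
    have : (blk (gP V x) ∅).det = 1 := Matrix.det_isEmpty
    rw [mi, this]
    simp
  obtain ⟨s, hs, hmax⟩ := Finset.exists_max_image T Finset.card hne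
  refine ⟨s, (Finset.mem_filter.1 hs).2, fun i hi x => ?_⟩
  by_contra hcon
  have h1 : insert i s ∈ T := Finset.mem_filter.2 ⟨Finset.mem_univ _, x,
    lt_of_le_of_ne (mi_nonneg V _ x) (Ne.symm hcon)⟩
  have h2 := hmax _ h1
  rw [Finset.card_insert_of_notMem hi] at h2
  omega

/-- the relation holds wherever the minor is positive -/
theorem rel_of_max {s : Finset (Fin m)} {i : Fin m} (hi : i ∉ s)
    (h0 : ∀ x, mi V (insert i s) x = 0) (y : X) (hy : 0 < mi V s y) (k : Fin m) :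
    ∑ j, cf (gP V y) s i j * gP V y j k = 0 := by
  refine cf_mul (gP_posSemidef V y) hi ((det_ne_iff V s y).2 hy) ?_ k
  rw [← mi_eq, h0 y, Complex.ofReal_zero]

end rd

/-! ### on a model -/

section mdl

open Crest.Agent.R271 Crest.Agent.R271.Ho51 Crest.Agent.R271.Defs710 Crest.Agent.R271.AlgB956
open Crest.Agent.R271.Alg255 Crest.Agent.R276.AB2_590
open Crest.Agent.R276.Ipc735 Crest.Agent.R276.Pd571 Crest.Agent.R276.Mod1_987

variable {K : Type} [Field K] [Algebra ℂ K] {m N w : ℕ} (M : Mdl K m)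
  (V : Ipc735.VHS m M.Pts N w)

/-- growth of `h` in `1 + ‖z‖` -/
lemma growth_h' : ∃ (C : ℝ) (k : ℕ), 0 ≤ C ∧ ∀ y : M.Pts,
    ‖MvPolynomial.eval (M.pz y) M.h‖ ≤ C * (1 + ‖M.pz y‖) ^ k := by
  obtain ⟨C, k, hC, h⟩ := ZS_437.growth_h M
  refine ⟨C * (m + 1) ^ k, 2 * k, by positivity, fun y => (h y).trans ?_⟩
  have h1 : ZS_437.qq M y ≤ (m + 1) * (1 + ‖M.pz y‖) ^ 2 := by
    rw [ZS_437.qq_eq]
    have h2 : ∑ i, ‖y (M.z i)‖ ^ 2 ≤ ∑ _i : Fin m, ‖M.pz y‖ ^ 2 := by
      refine Finset.sum_le_sum fun i _ => ?_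
      have h6 : ‖y (M.z i)‖ ≤ ‖M.pz y‖ := norm_le_pi_norm (M.pz y) i
      gcongr
    rw [Finset.sum_const, Finset.card_univ, Fintype.card_fin, nsmul_eq_mul] at h2
    have h3 := norm_nonneg (M.pz y)
    have h4 : (0 : ℝ) ≤ m := Nat.cast_nonneg m
    nlinarith [mul_nonneg h4 h3]
  have h5 := ZS_437.qq_pos M y
  calc C * ZS_437.qq M y ^ k ≤ C * ((m + 1) * (1 + ‖M.pz y‖) ^ 2) ^ k := by gcongr
    _ = _ := by rw [mul_pow, ← pow_mul]; ring

/-- common growth constants -/
lemma common {φ ψ : M.Pts → ℝ} {C1 C2 : ℝ} {a1 l1 a2 l2 : ℕ} (hC1 : 0 ≤ C1) (hC2 : 0 ≤ C2)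
    (h1 : ∀ y : M.Pts, φ y * ‖MvPolynomial.eval (M.pz y) M.h‖ ^ l1 ≤ C1 * (1 + ‖M.pz y‖) ^ a1)
    (h2 : ∀ y : M.Pts, ψ y * ‖MvPolynomial.eval (M.pz y) M.h‖ ^ l2 ≤ C2 * (1 + ‖M.pz y‖) ^ a2) :
    ∃ (C : ℝ) (a l : ℕ), (∀ y : M.Pts, φ y * ‖MvPolynomial.eval (M.pz y) M.h‖ ^ l ≤
        C * (1 + ‖M.pz y‖) ^ a) ∧
      ∀ y : M.Pts, ψ y * ‖MvPolynomial.eval (M.pz y) M.h‖ ^ l ≤ C * (1 + ‖M.pz y‖) ^ a := by
  obtain ⟨Ch, k, hCh, hh⟩ := growth_h' M
  refine ⟨C1 * Ch ^ l2 + C2 * Ch ^ l1, (a1 + k * l2) + (a2 + k * l1), l1 + l2, ?_, ?_⟩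
  · intro y
    have hz : 1 ≤ 1 + ‖M.pz y‖ := by have := norm_nonneg (M.pz y); linarith
    set H := ‖MvPolynomial.eval (M.pz y) M.h‖ with hH
    have hH0 : 0 ≤ H := norm_nonneg _
    calc φ y * H ^ (l1 + l2) = (φ y * H ^ l1) * H ^ l2 := by rw [pow_add]; ring
      _ ≤ (C1 * (1 + ‖M.pz y‖) ^ a1) * H ^ l2 :=
          mul_le_mul_of_nonneg_right (h1 y) (pow_nonneg hH0 _)
      _ ≤ (C1 * (1 + ‖M.pz y‖) ^ a1) * (Ch * (1 + ‖M.pz y‖) ^ k) ^ l2 := by
          gcongr; exact hh y
      _ = (C1 * Ch ^ l2) * (1 + ‖M.pz y‖) ^ (a1 + k * l2) := by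
          rw [mul_pow, ← pow_mul, pow_add]; ring
      _ ≤ (C1 * Ch ^ l2 + C2 * Ch ^ l1) * (1 + ‖M.pz y‖) ^ ((a1 + k * l2) + (a2 + k * l1)) := by
          have h3 : 0 ≤ C2 * Ch ^ l1 := by positivity
          have h4 : 0 ≤ C1 * Ch ^ l2 := by positivity
          exact mul_le_mul (by linarith) (pow_le_pow_right₀ hz (Nat.le_add_right _ _))
            (by positivity) (by positivity)
  · intro y
    have hz : 1 ≤ 1 + ‖M.pz y‖ := by have := norm_nonneg (M.pz y); linarith
    set H := ‖MvPolynomial.eval (M.pz y) M.h‖ with hH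
    have hH0 : 0 ≤ H := norm_nonneg _
    calc ψ y * H ^ (l1 + l2) = (ψ y * H ^ l2) * H ^ l1 := by rw [pow_add]; ring
      _ ≤ (C2 * (1 + ‖M.pz y‖) ^ a2) * H ^ l1 :=
          mul_le_mul_of_nonneg_right (h2 y) (pow_nonneg hH0 _)
      _ ≤ (C2 * (1 + ‖M.pz y‖) ^ a2) * (Ch * (1 + ‖M.pz y‖) ^ k) ^ l1 := by
          gcongr; exact hh y
      _ = (C2 * Ch ^ l1) * (1 + ‖M.pz y‖) ^ (a2 + k * l1) := by
          rw [mul_pow, ← pow_mul, pow_add]; ring
      _ ≤ (C1 * Ch ^ l2 + C2 * Ch ^ l1) * (1 + ‖M.pz y‖) ^ ((a1 + k * l2) + (a2 + k * l1)) := by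
          have h3 : 0 ≤ C2 * Ch ^ l1 := by positivity
          have h4 : 0 ≤ C1 * Ch ^ l2 := by positivity
          exact mul_le_mul (by linarith) (pow_le_pow_right₀ hz (Nat.le_add_left _ _))
            (by positivity) (by positivity)

variable {M}

/-- the minor is positive off a hypersurface -/
theorem exists_p1 {s : Finset (Fin m)} {y0 : M.Pts} (hy0 : 0 < mi V s y0) :
    ∃ p : MvPolynomial (Fin m) ℂ, p ≠ 0 ∧
      ∀ y : M.Pts, MvPolynomial.eval (M.pz y) p ≠ 0 → 0 < mi V s y := by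
  obtain ⟨C, a, l, hC, hgr⟩ := det_growth' M V (Subtype.val : s → Fin m)
  obtain ⟨p, hp, h⟩ := ZS_437.exists_poly (sm_mi V s) (mi_nonneg V s)
    (fun y hy w => ZS_437.defect_of_Levi (sm_mi V s) hy (Levi_mi V s hy w)) hy0 hgr
  refine ⟨p, hp, fun y hy => ?_⟩
  exact lt_of_le_of_ne (mi_nonneg V s y) fun h0 => hy (h y h0.symm)

/-- the slopes are in the function field -/
theorem exists_frac {s : Finset (Fin m)} {y0 : M.Pts} (hy0 : 0 < mi V s y0)
    (hmax : ∀ i ∉ s, ∀ x, mi V (insert i s) x = 0) {i : Fin m} (hi : i ∉ s) (j : Fin m) :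
    ∃ b1 b2 : M.B, b2 ≠ 0 ∧ ∀ y : M.Pts, 0 < mi V s y →
      y b2 * cf (gP V y) s i j = y b1 := by
  by_cases hj : j ∈ s
  · obtain ⟨C1, a1, l1, hC1, hgr1⟩ := det_growth' M V (Subtype.val : s → Fin m)
    obtain ⟨C2, a2, l2, hC2, hgr2⟩ := det_growth' M V
      (fun k : s => if k = (⟨j, hj⟩ : s) then i else (k : Fin m))
    have hrel := rel_of_max V hi (hmax i hi)
    obtain ⟨C, a, l, hg1, hg2⟩ := common M hC1 hC2 hgr1 hgr2
    refine RatMod_437.mem_frac M (sm_mi V s) (mi_nonneg V s)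
      (fun y hy w => Levi_mi V s hy w)
      (ZS_437.dense_pos (sm_mi V s) (mi_nonneg V s)
        (fun y hy w => ZS_437.defect_of_Levi (sm_mi V s) hy (Levi_mi V s hy w)) hy0 hgr1)
      (fun y hy => analytic_cf V hrel hy j) (C := C) (a := a) (l := l) hg1 ?_
    intro y hy
    refine le_trans (le_of_eq ?_) (hg2 y)
    congr 1
    have h1 := sq_cf (gP_herm V y) hi (hrel y hy) ⟨j, hj⟩
    rw [← mi_eq] at h1
    have h2 := congrArg Complex.re h1
    rw [← Complex.ofReal_mul, Complex.ofReal_re] at h2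
    exact h2
  · refine ⟨if i = j then 1 else 0, 1, one_ne_zero, fun y _ => ?_⟩
    rw [cf_of_notMem _ hj]
    split_ifs <;> simp

/-! ### restriction to a smaller model -/

section pull

variable {r : ℕ} {X Y : Type*} [TopologicalSpace X] [RDom m X] [TopologicalSpace Y] [RDom m Y]
  {φ : Y → X}

open Crest.Agent.R276.VPull_327

lemma D_pull (hφ : HMap φ) (hcp : ∀ y, cp (φ y) = cp y) {G : Type*} [NormedAddCommGroup G]
    [NormedSpace ℝ G] (g : X → G) (y : Y) : D (fun y => g (φ y)) y = D g (φ y) := by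
  show fderiv ℝ ((fun y' => g (φ y')) ∘ (ch y).symm) (cp y) =
    fderiv ℝ (g ∘ (ch (φ y)).symm) (cp (φ y))
  have h1 : (fun y' => g (φ y')) ∘ (ch y).symm =ᶠ[𝓝 (cp y)] g ∘ (ch (φ y)).symm := by
    refine ((hφ y).germ g).trans ?_
    filter_upwards [(ch y).open_target.mem_nhds ((isCh_ch y).cp_mem (mem_ch y))] with z hz
    have h2 : ((fun y' => cp (φ y')) ∘ (ch y).symm) z = z := by
      simp only [Function.comp_apply]
      rw [hcp, (isCh_ch y).cp_symm hz]
    rw [h2]
  rw [h1.fderiv_eq, hcp]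

/-- the period metric of a pull back along a map over `ℂ^m` -/
theorem gP_pull (V : Ipc735.VHS m X N w) (hφ : HMap φ) (hcp : ∀ y, cp (φ y) = cp y) (y : Y) :
    gP (pull V hφ) y = gP V (φ y) := by
  have h1 : ∀ j, dM (pull V hφ).P (pull V hφ).E j y = dM V.P V.E j (φ y) := by
    intro j
    ext a b
    simp only [dM, Matrix.of_apply, dz]
    exact congrArg (fun L => Crest.Agent.R271.Ho51.wz j L)
      (D_pull hφ hcp (fun x => lM V.P V.E (φ y) x a b) y)
  have h2 : ∀ j, dMb (pull V hφ).P (pull V hφ).E j y = dMb V.P V.E j (φ y) := by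
    intro j
    ext a b
    simp only [dMb, Matrix.of_apply, db]
    exact congrArg (fun L => Crest.Agent.R271.Ho51.wb j L)
      (D_pull hφ hcp (fun x => lM V.P V.E (φ y) x a b) y)
  ext j k
  simp only [gP, Matrix.of_apply, h1, h2]

theorem mi_pull (V : Ipc735.VHS m X N w) (hφ : HMap φ) (hcp : ∀ y, cp (φ y) = cp y)
    (s : Finset (Fin m)) (y : Y) : mi (pull V hφ) s y = mi V s (φ y) := by
  unfold mi
  rw [gP_pull V hφ hcp]

end pull

open Crest.Agent.R276.VPull_327

/-- the restriction of points is holomorphic -/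
theorem resMap {M' : Mdl K m} (hz : M.zK = M'.zK) (h : M.B ≤ M'.B) :
    HMap (Mdl.resB h : M'.Pts → M.Pts) := by
  intro y
  refine ⟨(Mdl.continuous_resB h).continuousAt, ?_⟩
  have h1 : (fun y' : M'.Pts => cp (Mdl.resB h y' : M.Pts)) = fun y' => cp y' := by
    funext y'
    exact Mdl.pz_resB hz h y'
  rw [h1]
  exact HMAt.id y |>.hol

lemma cp_resB {M' : Mdl K m} (hz : M.zK = M'.zK) (h : M.B ≤ M'.B) (y : M'.Pts) :
    cp (Mdl.resB h y : M.Pts) = cp y := Mdl.pz_resB hz h y

/-- the restriction of a VHS to a smaller model -/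
def restr (V : Ipc735.VHS m M.Pts N w) {M' : Mdl K m} (hz : M.zK = M'.zK) (h : M.B ≤ M'.B) :
    Ipc735.VHS m M'.Pts N w := pull V (resMap hz h)

theorem gP_restr {M' : Mdl K m} (hz : M.zK = M'.zK) (h : M.B ≤ M'.B) (y : M'.Pts) :
    gP (restr V hz h) y = gP V (Mdl.resB h y) := gP_pull V (resMap hz h) (cp_resB hz h) y

/-- **slopes theorem** -/
theorem slopes : ∃ (s : Finset (Fin m)) (p : MvPolynomial (Fin m) ℂ), p ≠ 0 ∧
    (∀ i ∉ s, ∀ x, mi V (insert i s) x = 0) ∧
    (∀ y : M.Pts, MvPolynomial.eval (M.pz y) p ≠ 0 → 0 < mi V s y) ∧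
    ∀ (M' : Mdl K m) (hz : M.zK = M'.zK) (h : M.B ≤ M'.B) (j0 : ℕ), p ∣ M'.h ^ j0 →
      ∃ f : {i // i ∉ s} → Fin m → M'.B,
        (∀ i j, j ∉ s → f i j = if (i : Fin m) = j then 1 else 0) ∧
        (∀ y i k, ∑ j, y (f i j) * gP (restr V hz h) y j k = 0) ∧
        (∀ y, 0 < ((gP (restr V hz h) y).submatrix (Subtype.val : s → Fin m)
          Subtype.val).det.re) := by
  classical
  obtain ⟨s, ⟨y0, hy0⟩, hmax⟩ := exists_max V
  obtain ⟨p1, hp1, h1⟩ := exists_p1 V hy0
  choose b1 b2 hb2 hb using fun (i : {i // i ∉ s}) (j : Fin m) =>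
    exists_frac V hy0 hmax i.2 j
  choose q hq d hd using fun (i : {i // i ∉ s}) (j : Fin m) =>
    exists_poly_dvd M.het (hb2 i j)
  refine ⟨s, p1 * ∏ i, ∏ j, q i j, mul_ne_zero hp1 (Finset.prod_ne_zero_iff.2 fun i _ =>
    Finset.prod_ne_zero_iff.2 fun j _ => hq i j), hmax, ?_, ?_⟩
  · intro y hy
    rw [map_mul] at hy
    exact h1 y (left_ne_zero_of_mul hy)
  · intro M' hz h j0 hdvd
    have hqd : ∀ i j, q i j ∣ M'.h ^ j0 := fun i j =>
      ((Finset.dvd_prod_of_mem (fun j => q i j) (Finset.mem_univ j)).trans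
        ((Finset.dvd_prod_of_mem (fun i => ∏ j, q i j) (Finset.mem_univ i)).trans
          (Dvd.intro_left _ rfl))).trans hdvd
    have hp1d : p1 ∣ M'.h ^ j0 := (Dvd.intro _ rfl).trans hdvd
    have hpos : ∀ y : M'.Pts, 0 < mi V s (Mdl.resB h y : M.Pts) := by
      intro y
      refine h1 _ ?_
      have h2 : M.pz (Mdl.resB h y : M.Pts) = M'.pz y := Mdl.pz_resB hz h y
      rw [h2]
      obtain ⟨c, hc⟩ := hp1d
      intro h0
      have h3 := congrArg (MvPolynomial.eval (M'.pz y)) hc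
      rw [map_pow, map_mul, h0, zero_mul] at h3
      exact pow_ne_zero j0 (M'.eval_h_ne y) h3
    have haz : ∀ r : MvPolynomial (Fin m) ℂ, Subalgebra.inclusion h (az M.z r) = az M'.z r := by
      intro r
      apply Subtype.ext
      have h2 : ((Subalgebra.inclusion h (az M.z r) : M'.B) : K) = ((az M.z r : M.B) : K) := rfl
      rw [h2, ← M.aK_eq, ← M'.aK_eq]
      unfold Mdl.aK
      rw [hz]
    have hunit : ∀ i j, IsUnit (Subalgebra.inclusion h (b2 i j)) := by
      intro i j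
      have h2 : Subalgebra.inclusion h (b2 i j) ∣ az M'.z (q i j) := by
        rw [← haz]
        have h3 : az M.z (q i j) = b2 i j * d i j := hd i j
        rw [h3, map_mul]
        exact Dvd.intro _ rfl
      have h3 : az M'.z (q i j) ∣ (az M'.z M'.h) ^ j0 := by
        obtain ⟨c, hc⟩ := hqd i j
        rw [← map_pow, hc, map_mul]
        exact Dvd.intro _ rfl
      exact isUnit_of_dvd_unit (h2.trans h3) (M'.h_unit.pow _)
    choose u hu using hunit
    have hval : ∀ (y : M'.Pts) i j,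
        y (Subalgebra.inclusion h (b1 i j) * ((u i j)⁻¹ : (M'.B)ˣ)) =
          cf (gP V (Mdl.resB h y)) s i j := by
      intro y i j
      have h2 := hb i j (Mdl.resB h y) (hpos y)
      have h3 : (Mdl.resB h y : M.Pts) (b2 i j) = y (Subalgebra.inclusion h (b2 i j)) := rfl
      have h4 : (Mdl.resB h y : M.Pts) (b1 i j) = y (Subalgebra.inclusion h (b1 i j)) := rfl
      have h5 : y (Subalgebra.inclusion h (b2 i j)) ≠ 0 := by
        rw [← hu i j]
        exact ((u i j).isUnit.map y).ne_zero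
      rw [h3, h4] at h2
      have h6 : y (Subalgebra.inclusion h (b2 i j)) *
          y (Subalgebra.inclusion h (b1 i j) * ((u i j)⁻¹ : (M'.B)ˣ)) =
          y (Subalgebra.inclusion h (b1 i j)) := by
        rw [← map_mul, ← hu i j]
        congr 1
        rw [mul_left_comm, Units.mul_inv, mul_one]
      rw [← h2] at h6
      exact mul_left_cancel₀ h5 h6
    refine ⟨fun i j => if j ∈ s then Subalgebra.inclusion h (b1 i j) * ((u i j)⁻¹ : (M'.B)ˣ)
      else if (i : Fin m) = j then 1 else 0, ?_, ?_, ?_⟩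
    · intro i j hj
      exact if_neg hj
    · intro y i k
      have hv2 : ∀ j, y (if j ∈ s then Subalgebra.inclusion h (b1 i j) * ((u i j)⁻¹ : (M'.B)ˣ)
          else if (i : Fin m) = j then 1 else 0) = cf (gP V (Mdl.resB h y)) s i j := by
        intro j
        by_cases hj : j ∈ s
        · rw [if_pos hj, hval]
        · rw [if_neg hj, cf_of_notMem _ hj]
          split_ifs <;> simp
      simp only [hv2, gP_restr]
      exact rel_of_max V i.2 (hmax i i.2) _ (hpos y) k
    · intro y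
      rw [gP_restr]
      exact hpos y

/-- the splitting of the coordinates -/
def eS (s : Finset (Fin m)) : Fin m ≃ {i // i ∉ s} ⊕ {i // i ∈ s} :=
  ((Equiv.sumComm _ _).trans (Equiv.sumCompl (· ∈ s))).symm

@[simp] lemma eS_inl (s : Finset (Fin m)) (i : {i // i ∉ s}) : (eS s).symm (Sum.inl i) = i := rfl

@[simp] lemma eS_inr (s : Finset (Fin m)) (i : {i // i ∈ s}) : (eS s).symm (Sum.inr i) = i := rfl

/-- the slopes theorem in the format of Pf2_409 -/
theorem slopes' : ∃ (s : Finset (Fin m)) (p : MvPolynomial (Fin m) ℂ), p ≠ 0 ∧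
    (∀ i ∉ s, ∀ x, mi V (insert i s) x = 0) ∧
    (∀ y : M.Pts, MvPolynomial.eval (M.pz y) p ≠ 0 → 0 < mi V s y) ∧
    ∀ (M' : Mdl K m) (hz : M.zK = M'.zK) (h : M.B ≤ M'.B) (j0 : ℕ), p ∣ M'.h ^ j0 →
      ∃ f : {i // i ∉ s} → Fin m → M'.B,
        (∀ i j, f i ((eS s).symm (Sum.inl j)) = if i = j then 1 else 0) ∧
        (∀ y i k, ∑ j, y (f i j) * gP (restr V hz h) y j k = 0) ∧
        (∀ y, 0 < ((gP (restr V hz h) y).submatrix ((eS s).symm ∘ Sum.inr)
          ((eS s).symm ∘ Sum.inr)).det.re) := by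
  obtain ⟨s, p, hp, hmax, h1, h2⟩ := slopes V
  refine ⟨s, p, hp, hmax, h1, fun M' hz h j0 hd => ?_⟩
  obtain ⟨f, hf1, hf2, hf3⟩ := h2 M' hz h j0 hd
  refine ⟨f, fun i j => ?_, hf2, hf3⟩
  rw [eS_inl, hf1 i j j.2]
  simp only [Subtype.coe_inj]

end mdl

end Crest.Agent.R276.Slopes_437
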