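import Crest.Agent.R276.Pf3_409
import Crest.Agent.R276.Slopes_437

/-!
# Period fibres are algebraic, part 4 (helper409, row 276): the final statement

`main V` : the period field `K0` of a VHS `V` on the points of a model `M` of `K`.
-/

set_option autoImplicit false
set_option linter.unusedSectionVars false

noncomputable section

open Set Filter Topology MeasureTheory Complex Matrix

namespace Crest.Agent.R276.Pf4_409

open Crest.Agent.R271.Ho51
open Crest.Agent.R276.Mod1_987
open Crest.Agent.R276.Pd571 Crest.Agent.R276.PdL571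
open Crest.Agent.R276.Pf2_409 Crest.Agent.R276.Pf3_409 Crest.Agent.R276.PfDer_676
open Crest.Agent.R276.Slopes_437

variable {K : Type} [Field K] [Algebra ℂ K] {m N w : ℕ}

theorem f_unique {M : Mdl K m} (V : Ipc735.VHS m M.Pts N w) {M' M'' : Mdl K m}
    (hz' : M.zK = M'.zK) (h' : M.B ≤ M'.B) (hz'' : M.zK = M''.zK) (h'' : M.B ≤ M''.B)
    {s : Finset (Fin m)} {f' : {i // i ∉ s} → Fin m → M'.B} {f'' : {i // i ∉ s} → Fin m → M''.B}
    (a1 : ∀ i j, f' i ((eS s).symm (Sum.inl j)) = if i = j then 1 else 0)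
    (a0 : ∀ y i k, ∑ j, y (f' i j) * gP (restr V hz' h') y j k = 0)
    (ad : ∀ y, 0 < ((gP (restr V hz' h') y).submatrix ((eS s).symm ∘ Sum.inr)
          ((eS s).symm ∘ Sum.inr)).det.re)
    (b1 : ∀ i j, f'' i ((eS s).symm (Sum.inl j)) = if i = j then 1 else 0)
    (b0 : ∀ y i k, ∑ j, y (f'' i j) * gP (restr V hz'' h'') y j k = 0) (i : {i // i ∉ s})
    (j : Fin m) : (f' i j : K) = f'' i j := by
  set M3 : Mdl K m := M'.loc M''.h M''.h_ne with hM3
  have hz3 : M'.zK = M3.zK := (Mdl.loc_zK M' _ _).symm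
  have h3' : M'.B ≤ M3.B := M'.le_loc _ _
  have h3'' : M''.B ≤ M3.B := Mdl.B_le (hz''.symm.trans (hz'.trans hz3)) (j := 1) (by
    rw [pow_one]
    exact dvd_mul_left _ _)
  have key : ∀ y : M3.Pts, y ⟨f' i j, h3' (f' i j).2⟩ = y ⟨f'' i j, h3'' (f'' i j).2⟩ := by
    intro y
    set y' : M'.Pts := Mdl.resB h3' y with hy'
    set y'' : M''.Pts := Mdl.resB h3'' y with hy''
    have hg : gP (restr V hz' h') y' = gP (restr V hz'' h'') y'' := by
      rw [gP_restr, gP_restr]
      rfl
    have h4 := (Vert_595.left_ker (eS s) (gP (restr V hz' h') y') (fun i j => y' (f' i j))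
      (fun i j => by
        rw [a1]
        split_ifs
        · exact map_one y'
        · exact map_zero y') (a0 y') (fun h => by
          have := ad y'
          rw [h] at this
          simp at this) (fun j => y'' (f'' i j))).1 (fun k => by
            rw [hg]; exact b0 y'' i k)
    have h5 := congrFun h4 j
    rw [Finset.sum_apply] at h5
    rw [Finset.sum_eq_single i (fun l _ hl => by
        simp only [Pi.smul_apply, b1, if_neg (Ne.symm hl), map_zero, zero_smul])
      (fun h => absurd (Finset.mem_univ _) h)] at h5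
    simp only [Pi.smul_apply, b1, if_true, map_one, one_smul] at h5
    exact h5.symm
  have h6 := M3.ext_of_pts key
  exact congrArg (fun b : M3.B => (b : K)) h6

/-- **B-PF, final form.** The period field of a variation of Hodge structure. -/
theorem main {n : ℕ} {M : Mdl K (n + 1)} (V : Ipc735.VHS (n + 1) M.Pts N w) :
    ∃ (s : Finset (Fin (n + 1))) (p : MvPolynomial (Fin (n + 1)) ℂ) (K0 : IntermediateField ℂ K),
      p ≠ 0 ∧ (∀ x, IsAlgebraic K0 x → x ∈ K0) ∧ Algebra.trdeg ℂ K0 = s.card ∧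
      (∀ i ∉ s, ∀ x, mi V (insert i s) x = 0) ∧
      (∀ y : M.Pts, MvPolynomial.eval (M.pz y) p ≠ 0 → 0 < mi V s y) ∧
      ∀ (M' : Mdl K (n + 1)) (hz : M.zK = M'.zK) (h : M.B ≤ M'.B) (j0 : ℕ), p ∣ M'.h ^ j0 →
        ∃ f : {i // i ∉ s} → Fin (n + 1) → M'.B,
          (∀ i j, f i ((eS s).symm (Sum.inl j)) = if i = j then 1 else 0) ∧
          (∀ y i k, ∑ j, y (f i j) * gP (restr V hz h) y j k = 0) ∧
          (∀ y, 0 < ((gP (restr V hz h) y).submatrix ((eS s).symm ∘ Sum.inr)
            ((eS s).symm ∘ Sum.inr)).det.re) ∧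
          ∀ b, b ∈ K0 ↔ ∀ i, Df M' (fun j => (f i j : K)) b = 0 := by
  classical
  obtain ⟨s, p, hp, hmax, hmin, hM'⟩ := slopes' V
  obtain ⟨f, hf1, hf0, hfd⟩ := hM' (M.loc p hp) (Mdl.loc_zK M p hp).symm (M.le_loc p hp) 1 (by
    rw [pow_one]
    exact dvd_mul_left _ _)
  obtain ⟨K0, h1, h2, h3⟩ := period_field (mkSlopes hf1 hf0 hfd)
  refine ⟨s, p, K0, hp, h1, ?_, hmax, hmin, fun M' hz h j0 hd => ?_⟩
  · rw [h2]
    simp
  · obtain ⟨f', a1, a0, ad⟩ := hM' M' hz h j0 hd
    refine ⟨f', a1, a0, ad, fun b => ?_⟩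
    rw [h3]
    refine forall_congr' fun i => ?_
    have h4 : (fun j => (f i j : K)) = fun j => (f' i j : K) := by
      funext j
      exact f_unique V (Mdl.loc_zK M p hp).symm (M.le_loc p hp) hz h hf1 hf0 hfd a1 a0 i j
    rw [h4, Df_congr ((Mdl.loc_zK M p hp).trans hz)]

end Crest.Agent.R276.Pf4_409
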