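import Crest.Agent.R276.Top8b_815

/-!
# Row 276, leaf A2-PAR (helper425): the line `ℂ ω` is parallel in the top piece

No group action on the local system is used: a finite group acting on `Y` over `S`, linearly and
volume preservingly in the fibre coordinates, acts on the top pieces by isometric holomorphic maps.
If the `χ`-part of the top piece is spanned by `f₀`, the corresponding holomorphic section `v` of the
top piece satisfies `D_j v = θ_j v + c v`.
-/

set_option autoImplicit false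

noncomputable section

open Set Filter Topology MeasureTheory Matrix
open Crest.Agent.R271.Ho51 Crest.Agent.R276.Ipc735 Crest.Agent.R276.Top8_815
open scoped ENNReal ComplexConjugate

namespace Crest.Agent.R276.Par_425

/-! ### linear algebra -/

section lin

variable {N w : ℕ} {S E : Matrix (Fin N) (Fin N) ℂ}

lemma cm_mul {N : ℕ} (g h : GL (Fin N) ℤ) : cm (g * h) = cm g * cm h := by
  unfold cm
  rw [Units.val_mul]
  exact Matrix.map_mul (f := Int.castRingHom ℂ)

lemma cm_one {N : ℕ} : cm (1 : GL (Fin N) ℤ) = 1 := by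
  unfold cm
  rw [Units.val_one]
  exact Matrix.map_one _ (by simp) (by simp)

lemma cm_inv_mul {N : ℕ} (g : GL (Fin N) ℤ) : cm g⁻¹ * cm g = 1 := by
  rw [← cm_mul, inv_mul_cancel, cm_one]

lemma cm_mul_inv {N : ℕ} (g : GL (Fin N) ℤ) : cm g * cm g⁻¹ = 1 := by
  rw [← cm_mul, mul_inv_cancel, cm_one]

lemma aeval_eig {p : Polynomial ℂ} {a : Fin N → ℂ} {c : ℂ} (h : E *ᵥ a = c • a) :
    Polynomial.aeval E p *ᵥ a = p.eval c • a := by
  induction p using Polynomial.induction_on' with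
  | add p q hp hq =>
    rw [map_add, Matrix.add_mulVec, hp, hq, Polynomial.eval_add, add_smul]
  | monomial n r =>
    rw [Polynomial.aeval_monomial, Polynomial.eval_monomial]
    have h1 : ∀ n : ℕ, (E ^ n) *ᵥ a = c ^ n • a := by
      intro n
      induction n with
      | zero => simp
      | succ n ih => rw [pow_succ, ← Matrix.mulVec_mulVec, h, Matrix.mulVec_smul, ih, smul_smul,
          pow_succ, mul_comm]
    rw [← Matrix.mulVec_mulVec, h1, Algebra.algebraMap_eq_smul_one, Matrix.smul_mulVec,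
      Matrix.one_mulVec, smul_smul]

lemma weil_top {a : Fin N → ℂ} (h : Top8_815.IsTop w E a) : weil w E *ᵥ a = (-1 : ℂ) ^ w • a := by
  unfold weil
  rw [Matrix.sum_mulVec]
  have h1 : ∀ p ∈ Finset.range (w + 1), ((-1 : ℂ) ^ p • hpr w p E) *ᵥ a
      = if p = w then (-1 : ℂ) ^ w • a else 0 := by
    intro p hp
    rw [Matrix.smul_mulVec]
    unfold hpr
    rw [aeval_eig h]
    split_ifs with hpw
    · subst hpw
      have hinj : Set.InjOn (fun q : ℕ => (q : ℂ)) (Finset.range (p + 1) : Set ℕ) :=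
        fun x _ y _ h => Nat.cast_injective h
      rw [Lagrange.eval_basis_self hinj hp, one_smul]
    · rw [Lagrange.eval_basis_of_ne (v := fun q : ℕ => (q : ℂ)) hpw
        (Finset.mem_range.2 (Nat.lt_succ_self w)), zero_smul, smul_zero]
  rw [Finset.sum_congr rfl h1, Finset.sum_ite_eq' (Finset.range (w + 1)) w]
  simp

/-- the flat form -/
def fm (S : Matrix (Fin N) (Fin N) ℂ) (a b : Fin N → ℂ) : ℂ := star a ⬝ᵥ S *ᵥ b

lemma fm_add_right (a b b' : Fin N → ℂ) : fm S a (b + b') = fm S a b + fm S a b' := by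
  simp [fm, Matrix.mulVec_add, dotProduct_add]

lemma fm_sub_right (a b b' : Fin N → ℂ) : fm S a (b - b') = fm S a b - fm S a b' := by
  simp [fm, Matrix.mulVec_sub, dotProduct_sub]

lemma fm_smul_right (c : ℂ) (a b : Fin N → ℂ) : fm S a (c • b) = c * fm S a b := by
  simp [fm, Matrix.mulVec_smul, dotProduct_smul]

lemma fm_add_left (a a' b : Fin N → ℂ) : fm S (a + a') b = fm S a b + fm S a' b := by
  simp [fm, add_dotProduct]

lemma fm_sub_left (a a' b : Fin N → ℂ) : fm S (a - a') b = fm S a b - fm S a' b := by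
  simp [fm, sub_dotProduct]

lemma fm_smul_left (c : ℂ) (a b : Fin N → ℂ) : fm S (c • a) b = conj c * fm S a b := by
  simp [fm, smul_dotProduct]

lemma fm_sum_left {ι : Type*} (s : Finset ι) (a : ι → Fin N → ℂ) (b : Fin N → ℂ) :
    fm S (∑ i ∈ s, a i) b = ∑ i ∈ s, fm S (a i) b := by
  classical
  induction s using Finset.induction_on with
  | empty => simp [fm]
  | insert i s hi ih => rw [Finset.sum_insert hi, Finset.sum_insert hi, fm_add_left, ih]

lemma fm_conj (h : S.IsHermitian) (a b : Fin N → ℂ) : conj (fm S a b) = fm S b a := by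
  unfold fm
  rw [← Complex.star_def, ← Matrix.star_dotProduct, Matrix.star_mulVec, h.eq,
    Matrix.dotProduct_mulVec]

lemma fm_self_im (h : S.IsHermitian) (a : Fin N → ℂ) : (fm S a a).im = 0 := by
  have := fm_conj h a a
  exact Complex.conj_eq_iff_im.1 this

/-- eigenvectors for different eigenvalues are orthogonal -/
lemma eig_orth (h : IsHS w S E) {a b : Fin N → ℂ} {p q : ℂ} (ha : E *ᵥ a = p • a)
    (hb : E *ᵥ b = q • b) (hp : conj p = p) (hpq : p ≠ q) : fm S a b = 0 := by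
  have h1 : fm S a (E *ᵥ b) = q * fm S a b := by rw [hb, fm_smul_right]
  have h2 : fm S a (E *ᵥ b) = p * fm S a b := by
    unfold fm
    rw [Matrix.mulVec_mulVec, h.adj, ← Matrix.mulVec_mulVec, Matrix.dotProduct_mulVec,
      ← Matrix.star_mulVec, ha, star_smul, smul_dotProduct, smul_eq_mul]
    simp [hp]
  have h3 : (p - q) * fm S a b = 0 := by rw [sub_mul, ← h2, h1, sub_self]
  rcases mul_eq_zero.1 h3 with h4 | h4
  · exact absurd (sub_eq_zero.1 h4) hpq
  · exact h4

lemma top_pos (h : IsHS w S E) {a : Fin N → ℂ} (ha : Top8_815.IsTop w E a) (ha0 : a ≠ 0) :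
    0 < (-1 : ℝ) ^ w * (fm S a a).re := h.pos w a le_rfl ha0 ha

lemma top_eq_zero (h : IsHS w S E) {a : Fin N → ℂ} (ha : Top8_815.IsTop w E a) (h0 : fm S a a = 0) :
    a = 0 := by
  by_contra hne
  have := top_pos h ha hne
  rw [h0] at this
  simp at this

lemma tp_add {a b : Fin N → ℂ} (ha : Top8_815.IsTop w E a) (hb : Top8_815.IsTop w E b) : Top8_815.IsTop w E (a + b) := by
  unfold Top8_815.IsTop at *
  rw [Matrix.mulVec_add, ha, hb, smul_add]

lemma tp_smul {a : Fin N → ℂ} (c : ℂ) (ha : Top8_815.IsTop w E a) : Top8_815.IsTop w E (c • a) := by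
  unfold Top8_815.IsTop at *
  rw [Matrix.mulVec_smul, ha, smul_comm]

lemma tp_sub {a b : Fin N → ℂ} (ha : Top8_815.IsTop w E a) (hb : Top8_815.IsTop w E b) : Top8_815.IsTop w E (a - b) := by
  unfold Top8_815.IsTop at *
  rw [Matrix.mulVec_sub, ha, hb, smul_sub]

lemma tp_zero : Top8_815.IsTop w E (0 : Fin N → ℂ) := by
  unfold Top8_815.IsTop
  simp

lemma tp_sum {ι : Type*} (s : Finset ι) {a : ι → Fin N → ℂ}
    (ha : ∀ i ∈ s, Top8_815.IsTop w E (a i)) : Top8_815.IsTop w E (∑ i ∈ s, a i) := by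
  classical
  induction s using Finset.induction_on with
  | empty => exact tp_zero
  | insert i s hi ih =>
    rw [Finset.sum_insert hi]
    exact tp_add (ha i (Finset.mem_insert_self _ _))
      (ih fun j hj => ha j (Finset.mem_insert_of_mem hj))

/-- polarisation -/
lemma fm_polar (a b : Fin N → ℂ) : fm S a b = (1 / 4 : ℂ) * ((fm S (a + b) (a + b)
    - fm S (a - b) (a - b)) - Complex.I * (fm S (a + Complex.I • b) (a + Complex.I • b)
    - fm S (a - Complex.I • b) (a - Complex.I • b))) := by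
  simp only [fm_add_left, fm_add_right, fm_sub_left, fm_sub_right, fm_smul_left, fm_smul_right,
    Complex.conj_I]
  have : Complex.I * Complex.I = -1 := Complex.I_mul_I
  linear_combination ((1 / 2 : ℂ) * fm S a b - (1 / 2 : ℂ) * fm S b a) * this

end lin

/-! ### local analysis -/

section loc

variable {m N w : ℕ} {S : Type*} [TopologicalSpace S] [RDom m S]
variable {H : Type*} [NormedAddCommGroup H] [NormedSpace ℂ H] [CompleteSpace H]

lemma tendsto_symm (z : S) : Tendsto (ch z).symm (𝓝 (cp z)) (𝓝 z) := by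
  have := (ch z).symm.continuousAt (x := cp z) (by simpa using (isCh_ch z).cp_mem (mem_ch z))
  rwa [ContinuousAt, (isCh_ch z).symm_cp (mem_ch z)] at this

omit [CompleteSpace H] in
lemma holAt_congr {f g : S → H} {z : S} (h : f =ᶠ[𝓝 z] g) (hf : HolAt f z) : HolAt g z := by
  refine AnalyticAt.congr hf ?_
  filter_upwards [(tendsto_symm z).eventually h] with w hw
  simpa using hw

lemma holAt_near {f : S → H} {z : S} (h : HolAt f z) : ∀ᶠ u in 𝓝 z, HolAt f u := by
  have h1 : ∀ᶠ p in 𝓝 (cp z), AnalyticAt ℂ (f ∘ (ch z).symm) p := AnalyticAt.eventually_analyticAt h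
  have h2 : ∀ᶠ u in 𝓝 z, AnalyticAt ℂ (f ∘ (ch z).symm) (cp u) :=
    (cp_cont (M := S)).continuousAt.eventually h1
  filter_upwards [h2, (ch z).open_source.mem_nhds (mem_ch z)] with u hu hus
  exact hu.congr (comp_germ (isCh_ch z) (isCh_ch u) hus (mem_ch u) f)

lemma ndc_self {P : S → S → GL (Fin N) ℤ} (h : NDC P) (x : S) : P x x = 1 := by
  obtain ⟨U, hU, hc⟩ := h x
  have hx := mem_of_mem_nhds hU
  have := hc x hx x hx x hx
  simpa using this

lemma lV_near {P : S → S → GL (Fin N) ℤ} (h : NDC P) (e : S → Fin N → ℂ) (u0 : S) :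
    ∀ᶠ u in 𝓝 u0, ∀ᶠ y in 𝓝 u, lV P e u y = cm (P u u0) *ᵥ lV P e u0 y := by
  obtain ⟨U, hU, hc⟩ := h u0
  have hU' : ∀ᶠ u in 𝓝 u0, ∀ᶠ y in 𝓝 u, y ∈ U := eventually_eventually_nhds.2 hU
  filter_upwards [hU, hU'] with u hu hu'
  filter_upwards [hu'] with y hy
  unfold lV
  rw [Matrix.mulVec_mulVec, ← cm_mul, hc u hu u0 (mem_of_mem_nhds hU) y hy]

lemma holAt_lV_near {P : S → S → GL (Fin N) ℤ} (h : NDC P) {e : S → Fin N → ℂ} {u0 : S}
    (he : HolAt (lV P e u0) u0) : ∀ᶠ u in 𝓝 u0, HolAt (lV P e u) u := by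
  filter_upwards [lV_near h e u0, holAt_near he] with u hu1 hu2
  have h3 : HolAt (fun y => cm (P u u0) *ᵥ lV P e u0 y) u := by
    have h4 : AnalyticAt ℂ (fun x : Fin N → ℂ => cm (P u u0) *ᵥ x)
        ((lV P e u0 ∘ (ch u).symm) (cp u)) :=
      (LinearMap.toContinuousLinearMap (Matrix.mulVecLin (cm (P u u0)))).analyticAt _
    exact h4.comp hu2
  exact holAt_congr (hu1.mono fun y hy => hy.symm) h3

/-- flat derivative of a section -/
def Dv (P : S → S → GL (Fin N) ℤ) (v : S → Fin N → ℂ) (j : Fin m) (z : S) : Fin N → ℂ :=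
  fun i => dz j (fun y => lV P v z y i) z

lemma Dv_eq {P : S → S → GL (Fin N) ℤ} {v : S → Fin N → ℂ} {z : S} (h : HolAt (lV P v z) z)
    (j : Fin m) :
    Dv P v j z = fderiv ℂ (lV P v z ∘ (ch z).symm) (cp z) (Pi.single j 1) := by
  have hd : DifferentiableAt ℂ (lV P v z ∘ (ch z).symm) (cp z) := AnalyticAt.differentiableAt h
  have hR := hd.hasFDerivAt.restrictScalars ℝ
  funext i
  have h1 : HasFDerivAt (𝕜 := ℝ) (fun x => (lV P v z ∘ (ch z).symm) x i)
      ((ContinuousLinearMap.proj (R := ℝ) (φ := fun _ : Fin N => ℂ) i).comp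
        ((fderiv ℂ (lV P v z ∘ (ch z).symm) (cp z)).restrictScalars ℝ)) (cp z) :=
    (ContinuousLinearMap.proj (R := ℝ) (φ := fun _ : Fin N => ℂ) i).hasFDerivAt.comp _ hR
  have h2 : D (fun y => lV P v z y i) z = (ContinuousLinearMap.proj (R := ℝ)
      (φ := fun _ : Fin N => ℂ) i).comp
        ((fderiv ℂ (lV P v z ∘ (ch z).symm) (cp z)).restrictScalars ℝ) := h1.fderiv
  show dz j (fun y => lV P v z y i) z = _
  rw [dz_eq, h2]
  have h3 : (Pi.single j Complex.I : Fin m → ℂ) = Complex.I • Pi.single j 1 := by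
    rw [← Pi.single_smul]; simp
  simp only [ContinuousLinearMap.coe_comp, Function.comp_apply,
    ContinuousLinearMap.coe_restrictScalars', ContinuousLinearMap.proj_apply, h3, map_smul,
    Pi.smul_apply, smul_eq_mul]
  have : Complex.I * Complex.I = -1 := Complex.I_mul_I
  linear_combination (-(1 / 2 : ℂ)) * (fderiv ℂ (lV P v z ∘ (ch z).symm) (cp z) (Pi.single j 1) i)
    * this

lemma hasDerivAt_fm {M : Matrix (Fin N) (Fin N) ℂ} {f g : ℝ → Fin N → ℂ} {f' g' : Fin N → ℂ}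
    {r : ℝ} (hf : HasDerivAt f f' r) (hg : HasDerivAt g g' r) :
    HasDerivAt (fun t => fm M (f t) (g t)) (fm M f' (g r) + fm M (f r) g') r := by
  have hfi : ∀ i, HasDerivAt (fun t => conj (f t i)) (conj (f' i)) r := fun i =>
    (hasDerivAt_pi.1 hf i).star
  have hgi : ∀ i, HasDerivAt (fun t => (M *ᵥ g t) i) ((M *ᵥ g') i) r := by
    intro i
    have := HasDerivAt.fun_sum (u := Finset.univ)
      (fun k _ => (hasDerivAt_pi.1 hg k).const_mul (M i k))
    exact this
  have h := HasDerivAt.fun_sum (u := Finset.univ) (fun i _ => (hfi i).mul (hgi i))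
  have h2 : HasDerivAt (fun t => fm M (f t) (g t))
      (∑ i, (conj (f' i) * (M *ᵥ g r) i + conj (f r i) * (M *ᵥ g') i)) r := h
  refine h2.congr_deriv ?_
  rw [Finset.sum_add_distrib]
  rfl

/-- if two holomorphic functions are `M`-orthogonal near `p`, the value of the first is orthogonal
to the derivatives of the second. -/
lemma pairing_deriv {M : Matrix (Fin N) (Fin N) ℂ} {φ ψ : (Fin m → ℂ) → Fin N → ℂ}
    {p : Fin m → ℂ} (hφ : DifferentiableAt ℂ φ p) (hψ : DifferentiableAt ℂ ψ p)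
    (h0 : ∀ᶠ x in 𝓝 p, fm M (φ x) (ψ x) = 0) (h : Fin m → ℂ) :
    fm M (φ p) (fderiv ℂ ψ p h) = 0 := by
  have key : ∀ k : Fin m → ℂ, fm M (fderiv ℂ φ p k) (ψ p) + fm M (φ p) (fderiv ℂ ψ p k) = 0 := by
    intro k
    have hl : HasDerivAt (fun t : ℝ => p + (t : ℝ) • k) k 0 := by
      simpa using ((hasDerivAt_id (0 : ℝ)).smul_const k).const_add p
    have e0 : p + (0 : ℝ) • k = p := by simp
    have h1 : HasDerivAt (fun t : ℝ => φ (p + t • k)) (fderiv ℂ φ p k) 0 := by
      have h2 := (hφ.hasFDerivAt.restrictScalars ℝ).comp_hasDerivAt_of_eq (0 : ℝ) hl e0.symm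
      exact h2
    have h2 : HasDerivAt (fun t : ℝ => ψ (p + t • k)) (fderiv ℂ ψ p k) 0 := by
      have h2 := (hψ.hasFDerivAt.restrictScalars ℝ).comp_hasDerivAt_of_eq (0 : ℝ) hl e0.symm
      exact h2
    have h3 := hasDerivAt_fm (M := M) h1 h2
    have h4 : HasDerivAt (fun t : ℝ => fm M (φ (p + t • k)) (ψ (p + t • k))) 0 0 := by
      have hc : Tendsto (fun t : ℝ => p + t • k) (𝓝 0) (𝓝 p) := by
        have := hl.continuousAt
        rwa [ContinuousAt, e0] at this
      refine (hasDerivAt_const (0 : ℝ) (0 : ℂ)).congr_of_eventuallyEq ?_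
      filter_upwards [hc.eventually h0] with t ht
      exact ht
    have h5 := h3.unique h4
    simpa [e0] using h5
  have k1 := key h
  have k2 := key (Complex.I • h)
  rw [map_smul, map_smul, fm_smul_left, fm_smul_right, Complex.conj_I] at k2
  have hI : Complex.I ≠ 0 := Complex.I_ne_zero
  have k3 : Complex.I * (fm M (φ p) (fderiv ℂ ψ p h) - fm M (fderiv ℂ φ p h) (ψ p)) = 0 := by
    linear_combination k2
  have k4 := (mul_eq_zero.1 k3).resolve_left hI
  linear_combination (1 / 2 : ℂ) * k1 + (1 / 2 : ℂ) * k4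

end loc

/-! ### the action on the top pieces -/

section act

variable {m d N w : ℕ} {S Y : Type*} [TopologicalSpace S] [RDom m S] [TopologicalSpace Y]

/-- a group acting on `Y` over `S`, linearly and volume preservingly in the fibre coordinates -/
structure GAct (F : FSp m d S Y) (G : Type) [Group G] (α : G → Y → Y)
    (L : G → ((Fin d → ℂ) ≃L[ℂ] (Fin d → ℂ))) : Prop where
  one : ∀ y, α 1 y = y
  mul : ∀ g h y, α (g * h) y = α g (α h y)
  cont : ∀ g, Continuous (α g)
  q : ∀ g y, F.q (α g y) = F.q y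
  t : ∀ g y, F.t (α g y) = L g (F.t y)
  vol : ∀ g, MeasurePreserving (L g) (volume : Measure (Fin d → ℂ)) volume

variable {F : FSp m d S Y} {G : Type} [Group G] {α : G → Y → Y}
  {L : G → ((Fin d → ℂ) ≃L[ℂ] (Fin d → ℂ))}

lemma FH_of_PB {f : Y → ℂ} (h : ∀ y, PB F.pc f y) (u : S) : F.FH u f := by
  intro y hy
  obtain ⟨k, hk, hk2⟩ := h y
  refine ⟨fun τ => k (cp u, τ), ?_, ?_⟩
  · have h1 : AnalyticAt ℂ (fun τ : Fin d → ℂ => ((cp u : Fin m → ℂ), τ)) (F.t y) :=
      analyticAt_const.prod analyticAt_id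
    have h2 : F.pc y = (cp u, F.t y) := by rw [FSp.pc, hy]
    rw [h2] at hk
    exact hk.comp h1
  · filter_upwards [hk2] with y' hy' hq
    rw [hy', FSp.pc, hq]

lemma FH_comp (hA : GAct F G α L) {u : S} {f : Y → ℂ} (hf : F.FH u f) (g : G) :
    F.FH u (fun y => f (α g y)) := by
  intro y hy
  obtain ⟨k, hk, hk2⟩ := hf (α g y) (by rw [hA.q, hy])
  refine ⟨fun τ => k (L g τ), ?_, ?_⟩
  · have h1 : AnalyticAt ℂ (fun τ => L g τ) (F.t y) :=
      (L g : (Fin d → ℂ) →L[ℂ] (Fin d → ℂ)).analyticAt _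
    rw [hA.t] at hk
    exact hk.comp h1
  · filter_upwards [(hA.cont g).continuousAt.eventually hk2] with y' hy' hq
    rw [hy' (by rw [hA.q, hq]), hA.t]

lemma PB_comp (hA : GAct F G α L) {f : Y → ℂ} {g : G} {y : Y} (hf : PB F.pc f (α g y)) :
    PB F.pc (fun y => f (α g y)) y := by
  obtain ⟨k, hk, hk2⟩ := hf
  have hpc : ∀ y, F.pc (α g y) = ((F.pc y).1, L g (F.pc y).2) := by
    intro y
    rw [FSp.pc, FSp.pc, hA.q, hA.t]
  refine ⟨fun x => k (x.1, L g x.2), ?_, ?_⟩
  · have h1 : AnalyticAt ℂ (fun x : (Fin m → ℂ) × (Fin d → ℂ) => (x.1, L g x.2)) (F.pc y) :=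
      analyticAt_fst.prod (((L g : (Fin d → ℂ) →L[ℂ] (Fin d → ℂ)).analyticAt _).comp
        analyticAt_snd)
    rw [hpc] at hk
    exact AnalyticAt.comp (g := k)
      (f := fun x : (Fin m → ℂ) × (Fin d → ℂ) => (x.1, L g x.2)) hk h1
  · filter_upwards [(hA.cont g).continuousAt.eventually hk2] with y' hy'
    rw [hy', hpc]

lemma fnorm_comp (hA : GAct F G α L) (u : S) (f : Y → ℂ) (g : G) :
    F.fnorm u (fun y => f (α g y)) = F.fnorm u f := by
  unfold FSp.fnorm FSp.fint
  set Φ : (Fin d → ℂ) → ℝ≥0∞ := fun τ =>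
    ∑' y : {y : Y // F.q y = u ∧ F.t y = τ}, ‖f y.1‖ₑ ^ 2 with hΦ
  have h1 : ∀ τ : Fin d → ℂ, ∑' y : {y : Y // F.q y = u ∧ F.t y = τ}, ‖f (α g y.1)‖ₑ ^ 2
      = Φ (L g τ) := by
    intro τ
    let e : {y : Y // F.q y = u ∧ F.t y = τ} ≃ {y : Y // F.q y = u ∧ F.t y = L g τ} :=
      { toFun := fun y => ⟨α g y.1, by rw [hA.q, y.2.1], by rw [hA.t, y.2.2]⟩
        invFun := fun y => ⟨α g⁻¹ y.1, by rw [hA.q, y.2.1], by
          apply (L g).injective
          rw [← hA.t, ← hA.mul, mul_inv_cancel, hA.one, y.2.2]⟩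
        left_inv := fun y => by
          apply Subtype.ext
          show α g⁻¹ (α g y.1) = y.1
          rw [← hA.mul, inv_mul_cancel, hA.one]
        right_inv := fun y => by
          apply Subtype.ext
          show α g (α g⁻¹ y.1) = y.1
          rw [← hA.mul, mul_inv_cancel, hA.one] }
    exact e.tsum_eq (fun y => ‖f y.1‖ₑ ^ 2)
  simp_rw [h1]
  exact (hA.vol g).lintegral_comp_emb (L g).toHomeomorph.measurableEmbedding Φ

end act

section main

variable {m d N w : ℕ} {S Y : Type*} [TopologicalSpace S] [RDom m S] [TopologicalSpace Y]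
variable {V : VHS m S N w} {F : FSp m d S Y} {ι : S → (Fin N → ℂ) → Y → ℂ}
  {G : Type} [Group G] {α : G → Y → Y} {L : G → ((Fin d → ℂ) ≃L[ℂ] (Fin d → ℂ))}

lemma hnsq_top {u : S} {a : Fin N → ℂ} (ha : Top8_815.IsTop w (V.E u) a) :
    hnsq V u a = (-1 : ℝ) ^ w * (fm (V.S u) a a).re := by
  unfold hnsq hodge fm
  rw [← Matrix.mulVec_mulVec, weil_top ha, Matrix.mulVec_smul, dotProduct_smul, smul_eq_mul]
  have : ((-1 : ℂ) ^ w) = (((-1 : ℝ) ^ w : ℝ) : ℂ) := by push_cast; rfl
  rw [this, Complex.re_ofReal_mul]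

lemma hnsq_nonneg {u : S} {a : Fin N → ℂ} (ha : Top8_815.IsTop w (V.E u) a) : 0 ≤ hnsq V u a := by
  rw [hnsq_top ha]
  by_cases h : a = 0
  · subst h; simp [fm]
  · exact (top_pos (V.hs u) ha h).le

lemma iota_zero (hR : Rz V F ι) (u : S) (y : Y) (hy : F.q y = u) : ι u 0 y = 0 := by
  have := hR.smul u 0 0 tp_zero y hy
  simpa using this

lemma iota_inj (hR : Rz V F ι) {u : S} {a b : Fin N → ℂ} (ha : Top8_815.IsTop w (V.E u) a)
    (hb : Top8_815.IsTop w (V.E u) b) (h : ∀ y, F.q y = u → ι u a y = ι u b y) : a = b := by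
  have hc : Top8_815.IsTop w (V.E u) (a + (-1 : ℂ) • b) := tp_add ha (tp_smul _ hb)
  have h0 : ∀ y, F.q y = u → ι u (a + (-1 : ℂ) • b) y = 0 := by
    intro y hy
    rw [hR.add u _ _ ha (tp_smul _ hb) y hy, hR.smul u _ _ hb y hy, h y hy]
    ring
  have h1 : F.fnorm u (ι u (a + (-1 : ℂ) • b)) = 0 := by
    unfold FSp.fnorm FSp.fint
    have : ∀ τ : Fin d → ℂ, ∑' y : {y : Y // F.q y = u ∧ F.t y = τ},
        ‖ι u (a + (-1 : ℂ) • b) y.1‖ₑ ^ 2 = 0 := by
      intro τ
      rw [ENNReal.tsum_eq_zero]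
      intro y
      rw [h0 _ y.2.1]
      simp
    simp_rw [this]
    simp
  rw [hR.norm u _ hc, ENNReal.ofReal_eq_zero] at h1
  have h2 : a + (-1 : ℂ) • b = 0 := by
    by_contra hne
    have := top_pos (V.hs u) hc hne
    rw [hnsq_top hc] at h1
    linarith
  have h3 : a - b = 0 := by rw [← h2]; simp [sub_eq_add_neg]
  exact sub_eq_zero.1 h3

open Classical in
/-- the operator of `g` on the top piece -/
def tw (V : VHS m S N w) (F : FSp m d S Y) (ι : S → (Fin N → ℂ) → Y → ℂ) (α : G → Y → Y) (g : G)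
    (u : S) (a : Fin N → ℂ) : Fin N → ℂ :=
  if h : ∃ b, Top8_815.IsTop w (V.E u) b ∧ ∀ y, F.q y = u → ι u b y = ι u a (α g y)
  then h.choose else 0

lemma tw_spec (hR : Rz V F ι) (hA : GAct F G α L) (g : G) {u : S} {a : Fin N → ℂ}
    (ha : Top8_815.IsTop w (V.E u) a) : Top8_815.IsTop w (V.E u) (tw V F ι α g u a) ∧
      ∀ y, F.q y = u → ι u (tw V F ι α g u a) y = ι u a (α g y) := by
  have h : ∃ b, Top8_815.IsTop w (V.E u) b ∧ ∀ y, F.q y = u → ι u b y = ι u a (α g y) := by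
    refine hR.surj u _ (FH_comp hA (hR.hol u a ha) g) ?_
    rw [fnorm_comp hA, hR.norm u a ha]
    exact ENNReal.ofReal_lt_top
  unfold tw
  rw [dif_pos h]
  exact h.choose_spec

lemma tw_top (hR : Rz V F ι) (hA : GAct F G α L) (g : G) {u : S} {a : Fin N → ℂ}
    (ha : Top8_815.IsTop w (V.E u) a) : Top8_815.IsTop w (V.E u) (tw V F ι α g u a) :=
  (tw_spec hR hA g ha).1

lemma tw_add (hR : Rz V F ι) (hA : GAct F G α L) (g : G) {u : S} {a b : Fin N → ℂ}
    (ha : Top8_815.IsTop w (V.E u) a) (hb : Top8_815.IsTop w (V.E u) b) :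
    tw V F ι α g u (a + b) = tw V F ι α g u a + tw V F ι α g u b := by
  refine iota_inj hR (tw_top hR hA g (tp_add ha hb)) (tp_add (tw_top hR hA g ha)
    (tw_top hR hA g hb)) fun y hy => ?_
  rw [(tw_spec hR hA g (tp_add ha hb)).2 y hy, hR.add u _ _ (tw_top hR hA g ha)
    (tw_top hR hA g hb) y hy, (tw_spec hR hA g ha).2 y hy, (tw_spec hR hA g hb).2 y hy,
    hR.add u _ _ ha hb _ (by rw [hA.q, hy])]

lemma tw_smul (hR : Rz V F ι) (hA : GAct F G α L) (g : G) {u : S} {a : Fin N → ℂ} (c : ℂ)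
    (ha : Top8_815.IsTop w (V.E u) a) :
    tw V F ι α g u (c • a) = c • tw V F ι α g u a := by
  refine iota_inj hR (tw_top hR hA g (tp_smul c ha)) (tp_smul c (tw_top hR hA g ha)) fun y hy => ?_
  rw [(tw_spec hR hA g (tp_smul c ha)).2 y hy, hR.smul u _ _ (tw_top hR hA g ha) y hy,
    (tw_spec hR hA g ha).2 y hy, hR.smul u _ _ ha _ (by rw [hA.q, hy])]

lemma tw_iso (hR : Rz V F ι) (hA : GAct F G α L) (g : G) {u : S} {a : Fin N → ℂ}
    (ha : Top8_815.IsTop w (V.E u) a) :
    fm (V.S u) (tw V F ι α g u a) (tw V F ι α g u a) = fm (V.S u) a a := by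
  have hta := tw_top hR hA g ha
  have h1 : F.fnorm u (ι u (tw V F ι α g u a)) = F.fnorm u (ι u a) := by
    rw [← fnorm_comp hA u (ι u a) g]
    unfold FSp.fnorm FSp.fint
    congr 1
    funext τ
    congr 1
    funext y
    show ‖ι u (tw V F ι α g u a) y.1‖ₑ ^ 2 = ‖ι u a (α g y.1)‖ₑ ^ 2
    rw [(tw_spec hR hA g ha).2 _ y.2.1]
  rw [hR.norm u _ hta, hR.norm u _ ha, ENNReal.ofReal_eq_ofReal_iff (hnsq_nonneg hta)
    (hnsq_nonneg ha), hnsq_top hta, hnsq_top ha] at h1
  have h2 : (fm (V.S u) (tw V F ι α g u a) (tw V F ι α g u a)).re = (fm (V.S u) a a).re :=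
    mul_left_cancel₀ (pow_ne_zero w (by norm_num)) h1
  apply Complex.ext h2
  rw [fm_self_im (V.hs u).herm, fm_self_im (V.hs u).herm]

lemma tw_fm (hR : Rz V F ι) (hA : GAct F G α L) (g : G) {u : S} {a b : Fin N → ℂ}
    (ha : Top8_815.IsTop w (V.E u) a) (hb : Top8_815.IsTop w (V.E u) b) :
    fm (V.S u) (tw V F ι α g u a) (tw V F ι α g u b) = fm (V.S u) a b := by
  have hneg : ∀ {a b : Fin N → ℂ}, a - b = a + (-1 : ℂ) • b := by
    intro a b; simp [sub_eq_add_neg]
  rw [fm_polar (S := V.S u) (tw V F ι α g u a), fm_polar (S := V.S u) a]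
  have h1 := tw_add hR hA g ha hb
  have h2 := tw_add hR hA g ha (tp_smul (-1) hb)
  have h3 := tw_add hR hA g ha (tp_smul Complex.I hb)
  have h4 := tw_add hR hA g ha (tp_smul (-1) (tp_smul Complex.I hb))
  rw [tw_smul hR hA g _ hb] at h2 h3
  rw [tw_smul hR hA g _ (tp_smul Complex.I hb), tw_smul hR hA g _ hb] at h4
  rw [hneg, hneg, hneg, hneg, ← h1, ← h2, ← h3, ← h4, tw_iso hR hA g (tp_add ha hb),
    tw_iso hR hA g (tp_add ha (tp_smul _ hb)), tw_iso hR hA g (tp_add ha (tp_smul _ hb)),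
    tw_iso hR hA g (tp_add ha (tp_smul _ (tp_smul _ hb)))]

/-- projector on the `χ`-part -/
def pchi [Fintype G] (V : VHS m S N w) (F : FSp m d S Y) (ι : S → (Fin N → ℂ) → Y → ℂ)
    (α : G → Y → Y) (χ : G → ℂ) (u : S) (a : Fin N → ℂ) : Fin N → ℂ :=
  ((Fintype.card G : ℂ)⁻¹) • ∑ g, conj (χ g) • tw V F ι α g u a

lemma pchi_top [Fintype G] (hR : Rz V F ι) (hA : GAct F G α L) (χ : G → ℂ) {u : S}
    {a : Fin N → ℂ} (ha : Top8_815.IsTop w (V.E u) a) :
    Top8_815.IsTop w (V.E u) (pchi V F ι α χ u a) :=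
  tp_smul _ (tp_sum _ fun g _ => tp_smul _ (tw_top hR hA g ha))

lemma iota_sum (hR : Rz V F ι) {κ : Type*} (s : Finset κ) {u : S} {a : κ → Fin N → ℂ}
    (ha : ∀ i ∈ s, Top8_815.IsTop w (V.E u) (a i)) (y : Y) (hy : F.q y = u) :
    ι u (∑ i ∈ s, a i) y = ∑ i ∈ s, ι u (a i) y := by
  classical
  induction s using Finset.induction_on with
  | empty => simpa using iota_zero hR u y hy
  | insert i s hi ih =>
    rw [Finset.sum_insert hi, Finset.sum_insert hi, hR.add u _ _ (ha i (Finset.mem_insert_self _ _))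
      (tp_sum _ fun j hj => ha j (Finset.mem_insert_of_mem hj)) y hy,
      ih fun j hj => ha j (Finset.mem_insert_of_mem hj)]

lemma iota_pchi [Fintype G] (hR : Rz V F ι) (hA : GAct F G α L) (χ : G → ℂ) {u : S}
    {a : Fin N → ℂ} (ha : Top8_815.IsTop w (V.E u) a) (y : Y) (hy : F.q y = u) :
    ι u (pchi V F ι α χ u a) y
      = ((Fintype.card G : ℂ)⁻¹) * ∑ g, conj (χ g) * ι u a (α g y) := by
  unfold pchi
  rw [hR.smul u _ _ (tp_sum _ fun g _ => tp_smul _ (tw_top hR hA g ha)) y hy,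
    iota_sum hR _ (fun g _ => tp_smul _ (tw_top hR hA g ha)) y hy]
  congr 1
  refine Finset.sum_congr rfl fun g _ => ?_
  rw [hR.smul u _ _ (tw_top hR hA g ha) y hy, (tw_spec hR hA g ha).2 y hy]

lemma dz_sum_mul {κ : Type*} (s : Finset κ) {A B : κ → S → ℂ} {z : S}
    (hA : ∀ k ∈ s, DifferentiableAt ℝ (A k ∘ (ch z).symm) (cp z))
    (hB : ∀ k ∈ s, DifferentiableAt ℝ (B k ∘ (ch z).symm) (cp z)) (j : Fin m) :
    dz j (fun y => ∑ k ∈ s, A k y * B k y) z
      = ∑ k ∈ s, (dz j (A k) z * B k z + A k z * dz j (B k) z) := by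
  have hz : (ch z).symm (cp z) = z := (isCh_ch z).symm_cp (mem_ch z)
  have h1 : HasFDerivAt (fun x => ∑ k ∈ s, (A k ∘ (ch z).symm) x * (B k ∘ (ch z).symm) x)
      (∑ k ∈ s, (A k z • D (B k) z + B k z • D (A k) z)) (cp z) := by
    refine HasFDerivAt.fun_sum fun k hk => ?_
    have h0 := (hA k hk).hasFDerivAt.mul (hB k hk).hasFDerivAt
    rw [show (A k ∘ (ch z).symm) (cp z) = A k z by simp [hz],
      show (B k ∘ (ch z).symm) (cp z) = B k z by simp [hz]] at h0
    exact h0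
  have h2 : D (fun y => ∑ k ∈ s, A k y * B k y) z
      = ∑ k ∈ s, (A k z • D (B k) z + B k z • D (A k) z) := h1.fderiv
  rw [dz_eq, h2]
  simp only [_root_.sum_apply, _root_.add_apply, _root_.smul_apply, smul_eq_mul,
    dz_eq]
  rw [Finset.mul_sum, ← Finset.sum_sub_distrib, Finset.mul_sum]
  refine Finset.sum_congr rfl fun k _ => ?_
  ring

/-- Griffiths transversality for a holomorphic section of the top piece -/
lemma top_deriv {v : S → Fin N → ℂ} (hv : ∀ u, Top8_815.IsTop w (V.E u) (v u)) {z : S}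
    (hol : HolAt (lV V.P v z) z) (j : Fin m) :
    Top8_815.IsTop w (V.E z) (Dv V.P v j z - dM V.P V.E j z *ᵥ v z) ∧
      V.E z *ᵥ (dM V.P V.E j z *ᵥ v z) = ((w : ℂ) - 1) • (dM V.P V.E j z *ᵥ v z) := by
  have hPz : V.P z z = 1 := ndc_self V.ndc z
  have hvz : lV V.P v z z = v z := by
    unfold lV; rw [hPz, cm_one, Matrix.one_mulVec]
  have hEz : lM V.P V.E z z = V.E z := by
    unfold lM; rw [hPz, inv_one, cm_one, Matrix.one_mul, Matrix.mul_one]
  have hEv : ∀ y i, ∑ k, lM V.P V.E z y i k * lV V.P v z y k = (w : ℂ) * lV V.P v z y i := by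
    intro y i
    have h1 : lM V.P V.E z y *ᵥ lV V.P v z y = (w : ℂ) • lV V.P v z y := by
      unfold lM lV
      rw [Matrix.mulVec_mulVec, Matrix.mul_assoc, cm_inv_mul, Matrix.mul_one,
        ← Matrix.mulVec_mulVec, hv y, Matrix.mulVec_smul]
    exact congrFun h1 i
  have hdv : DifferentiableAt ℂ (lV V.P v z ∘ (ch z).symm) (cp z) := AnalyticAt.differentiableAt hol
  have hdB : ∀ k, DifferentiableAt ℝ ((fun y => lV V.P v z y k) ∘ (ch z).symm) (cp z) := fun k =>
    (differentiableAt_pi.1 (hdv.restrictScalars ℝ)) k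
  have hdA : ∀ i k, DifferentiableAt ℝ ((fun y => lM V.P V.E z y i k) ∘ (ch z).symm) (cp z) :=
    fun i k => (V.smE z i k).differentiableAt (by simp)
  have h2 : dM V.P V.E j z *ᵥ v z + V.E z *ᵥ Dv V.P v j z = (w : ℂ) • Dv V.P v j z := by
    funext i
    have h3 := dz_sum_mul Finset.univ (A := fun k y => lM V.P V.E z y i k)
      (B := fun k y => lV V.P v z y k) (z := z) (fun k _ => hdA i k) (fun k _ => hdB k) j
    have h4 : (fun y => ∑ k, lM V.P V.E z y i k * lV V.P v z y k)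
        = fun y => ∑ _k ∈ {(0 : Fin 1)}, (w : ℂ) * lV V.P v z y i := by
      funext y
      rw [hEv y i]; simp
    have h5 := dz_sum_mul {(0 : Fin 1)} (A := fun _ _ => (w : ℂ))
      (B := fun _ y => lV V.P v z y i) (z := z) (fun k _ => differentiableAt_const _)
      (fun k _ => hdB i) j
    rw [h4, h5] at h3
    simp only [Finset.sum_singleton, dz_const, zero_mul, zero_add] at h3
    rw [Finset.sum_add_distrib] at h3
    have h6 : ∀ k, lV V.P v z z k = v z k := fun k => by rw [hvz]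
    have h7 : ∀ k, lM V.P V.E z z i k = V.E z i k := fun k => by rw [hEz]
    simp only [h6, h7] at h3
    exact h3.symm
  have h8 : V.E z *ᵥ (dM V.P V.E j z *ᵥ v z) = ((w : ℂ) - 1) • (dM V.P V.E j z *ᵥ v z) := by
    have h9 : V.E z * dM V.P V.E j z = dM V.P V.E j z * V.E z - dM V.P V.E j z := by
      have := V.tr z j
      rw [sub_eq_iff_eq_add] at this
      rw [this]
      abel
    rw [Matrix.mulVec_mulVec, h9, Matrix.sub_mulVec, ← Matrix.mulVec_mulVec, hv z,
      Matrix.mulVec_smul, sub_smul, one_smul]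
  refine ⟨?_, h8⟩
  unfold Top8_815.IsTop
  rw [Matrix.mulVec_sub, h8, smul_sub, ← h2, sub_smul, one_smul]
  abel

lemma holAt_sum {P : S → S → GL (Fin N) ℤ} {κ : Type*} (s : Finset κ) {e : κ → S → Fin N → ℂ}
    {u0 : S} (he : ∀ i ∈ s, HolAt (lV P (e i) u0) u0) :
    HolAt (lV P (fun u => ∑ i ∈ s, e i u) u0) u0 := by
  have h1 : (lV P (fun u => ∑ i ∈ s, e i u) u0 ∘ (ch u0).symm)
      = fun x => ∑ i ∈ s, (lV P (e i) u0 ∘ (ch u0).symm) x := by
    funext x
    simp only [lV, Function.comp_apply, Matrix.mulVec_sum]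
  unfold HolAt
  rw [h1]
  exact Finset.analyticAt_fun_sum s fun i hi => he i hi

lemma holAt_smul {P : S → S → GL (Fin N) ℤ} (c : ℂ) {e : S → Fin N → ℂ}
    {u0 : S} (he : HolAt (lV P e u0) u0) :
    HolAt (lV P (fun u => c • e u) u0) u0 := by
  have h1 : (lV P (fun u => c • e u) u0 ∘ (ch u0).symm)
      = fun x => c • (lV P e u0 ∘ (ch u0).symm) x := by
    funext x
    simp only [lV, Function.comp_apply, Matrix.mulVec_smul]
  unfold HolAt
  rw [h1]
  exact (analyticAt_const (v := c)).fun_smul he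

lemma holAt_sub {P : S → S → GL (Fin N) ℤ} {e e' : S → Fin N → ℂ}
    {u0 : S} (he : HolAt (lV P e u0) u0) (he' : HolAt (lV P e' u0) u0) :
    HolAt (lV P (fun u => e u - e' u) u0) u0 := by
  have h1 : (lV P (fun u => e u - e' u) u0 ∘ (ch u0).symm)
      = fun x => (lV P e u0 ∘ (ch u0).symm) x - (lV P e' u0 ∘ (ch u0).symm) x := by
    funext x
    simp only [lV, Function.comp_apply, Matrix.mulVec_sub]
  unfold HolAt
  rw [h1]
  exact AnalyticAt.sub he he'

lemma tw_hol (hR : Rz V F ι) (hA : GAct F G α L) (g : G) {e : S → Fin N → ℂ} {u0 : S}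
    (he : HolAt (lV V.P e u0) u0) (ht : ∀ᶠ u in 𝓝 u0, Top8_815.IsTop w (V.E u) (e u)) :
    HolAt (lV V.P (fun u => tw V F ι α g u (e u)) u0) u0 := by
  refine hR.hol2 u0 _ (ht.mono fun u hu => tw_top hR hA g hu) ?_
  have ht2 : ∀ᶠ u in 𝓝 u0, ∀ᶠ y in 𝓝 u, Top8_815.IsTop w (V.E y) (e y) :=
    eventually_eventually_nhds.2 ht
  filter_upwards [holAt_lV_near V.ndc he, ht2] with u hu1 hu2 y hy
  have h1 := hR.hol1 u e hu1 hu2 (α g y) (by rw [hA.q, hy])
  have h2 := PB_comp hA h1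
  obtain ⟨k, hk, hk2⟩ := h2
  refine ⟨k, hk, ?_⟩
  have hqc : ContinuousAt F.q y := (F.lh.continuous.fst).continuousAt
  have h3 : ∀ᶠ y' in 𝓝 y, Top8_815.IsTop w (V.E (F.q y')) (e (F.q y')) := by
    have := hqc.tendsto
    rw [hy] at this
    exact this.eventually hu2
  filter_upwards [hk2, h3] with y' hy' h3'
  rw [(tw_spec hR hA g h3').2 y' rfl, ← hy']
  simp only [hA.q]

lemma iota_v_hol (hR : Rz V F ι) {f0 : Y → ℂ} (hPB : ∀ y, PB F.pc f0 y) {v : S → Fin N → ℂ}
    (hv : ∀ u, Top8_815.IsTop w (V.E u) (v u)) (hvf : ∀ u y, F.q y = u → ι u (v u) y = f0 y)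
    (u0 : S) : HolAt (lV V.P v u0) u0 := by
  refine hR.hol2 u0 v (Eventually.of_forall hv) (Eventually.of_forall fun u y _ => ?_)
  obtain ⟨k, hk, hk2⟩ := hPB y
  refine ⟨k, hk, ?_⟩
  filter_upwards [hk2] with y' hy'
  rw [hvf _ y' rfl, hy']

/-- **THE LINE IS PARALLEL IN THE TOP PIECE.** -/
theorem par [Fintype G] (hR : Rz V F ι) (hA : GAct F G α L) {χ : G → ℂ}
    (hχ1 : ∀ g, ‖χ g‖ = 1) (hχ : ∀ g h, χ (g * h) = χ g * χ h)
    {f0 : Y → ℂ} (hPB : ∀ y, PB F.pc f0 y) (hfin : ∀ u, F.fnorm u f0 < ∞)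
    (heq : ∀ g y, f0 (α g y) = χ g * f0 y)
    (hone : ∀ u (f : Y → ℂ), F.FH u f → F.fnorm u f < ∞ →
      (∀ g y, F.q y = u → f (α g y) = χ g * f y) →
      ∃ c : ℂ, ∀ y, F.q y = u → f y = c * f0 y)
    (hfr : ∀ u0 a, Top8_815.IsTop w (V.E u0) a → ∃ e : S → Fin N → ℂ, e u0 = a ∧
      HolAt (lV V.P e u0) u0 ∧ ∀ᶠ u in 𝓝 u0, Top8_815.IsTop w (V.E u) (e u)) :
    ∃ v : S → Fin N → ℂ, (∀ u, Top8_815.IsTop w (V.E u) (v u)) ∧
      (∀ u y, F.q y = u → ι u (v u) y = f0 y) ∧
      (∀ u, F.fnorm u f0 = ENNReal.ofReal (hnsq V u (v u))) ∧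
      (∀ u, HolAt (lV V.P v u) u) ∧
      ∀ u j, ∃ c : ℂ, Dv V.P v j u = dM V.P V.E j u *ᵥ v u + c • v u := by
  choose v hv hvf using fun u => hR.surj u f0 (FH_of_PB hPB u) (hfin u)
  have hol := iota_v_hol hR hPB hv hvf
  have hcc : ∀ g, conj (χ g) * χ g = 1 := by
    intro g
    rw [mul_comm, Complex.mul_conj, Complex.normSq_eq_norm_sq, hχ1]
    simp
  have hcard : (Fintype.card G : ℂ) ≠ 0 := Nat.cast_ne_zero.2 Fintype.card_ne_zero
  -- the operators act on `v` by `χ`
  have htv : ∀ g u, tw V F ι α g u (v u) = χ g • v u := by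
    intro g u
    refine iota_inj hR (tw_top hR hA g (hv u)) (tp_smul _ (hv u)) fun y hy => ?_
    rw [(tw_spec hR hA g (hv u)).2 y hy, hvf u _ (by rw [hA.q, hy]), heq,
      hR.smul u _ _ (hv u) y hy, hvf u y hy]
  have horth : ∀ u a, Top8_815.IsTop w (V.E u) a →
      fm (V.S u) (a - pchi V F ι α χ u a) (v u) = 0 := by
    intro u a ha
    have h1 : ∀ g, fm (V.S u) (tw V F ι α g u a) (v u) = conj (χ g) * fm (V.S u) a (v u) := by
      intro g
      have h2 := tw_fm hR hA g ha (hv u)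
      rw [htv, fm_smul_right] at h2
      rw [← h2, ← mul_assoc, hcc, one_mul]
    rw [fm_sub_left]
    unfold pchi
    rw [fm_smul_left, fm_sum_left]
    have h3 : ∀ g ∈ (Finset.univ : Finset G), fm (V.S u) (conj (χ g) • tw V F ι α g u a) (v u)
        = fm (V.S u) a (v u) := by
      intro g _
      rw [fm_smul_left, h1, Complex.conj_conj, ← mul_assoc, mul_comm (χ g), hcc, one_mul]
    rw [Finset.sum_congr rfl h3, Finset.sum_const, Finset.card_univ, nsmul_eq_mul, map_inv₀,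
      Complex.conj_natCast, inv_mul_cancel_left₀ hcard, sub_self]
  have hspan : ∀ u a, Top8_815.IsTop w (V.E u) a → ∃ c : ℂ, pchi V F ι α χ u a = c • v u := by
    intro u a ha
    have hpt := pchi_top hR hA χ ha
    have h1 : ∀ h y, F.q y = u → ι u (pchi V F ι α χ u a) (α h y)
        = χ h * ι u (pchi V F ι α χ u a) y := by
      intro h y hy
      rw [iota_pchi hR hA χ ha _ (by rw [hA.q, hy]), iota_pchi hR hA χ ha y hy]
      have h2 : ∑ g, conj (χ g) * ι u a (α g (α h y))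
          = χ h * ∑ g, conj (χ g) * ι u a (α g y) := by
        rw [Finset.mul_sum, ← Equiv.sum_comp (Equiv.mulRight h)
          (fun g => χ h * (conj (χ g) * ι u a (α g y)))]
        refine Finset.sum_congr rfl fun g _ => ?_
        simp only [Equiv.coe_mulRight, hA.mul, hχ, map_mul]
        have := hcc h
        linear_combination (-(conj (χ g)) * ι u a (α g (α h y))) * this
      rw [h2]
      ring
    obtain ⟨c, hc⟩ := hone u (ι u (pchi V F ι α χ u a)) (hR.hol u _ hpt)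
      (by rw [hR.norm u _ hpt]; exact ENNReal.ofReal_lt_top) h1
    refine ⟨c, iota_inj hR hpt (tp_smul c (hv u)) fun y hy => ?_⟩
    rw [hc y hy, hR.smul u _ _ (hv u) y hy, hvf u y hy]
  refine ⟨v, hv, hvf, ?_, hol, ?_⟩
  · intro u
    rw [← hR.norm u _ (hv u)]
    unfold FSp.fnorm FSp.fint
    congr 1
    funext τ
    congr 1
    funext y
    show ‖f0 y.1‖ₑ ^ 2 = ‖ι u (v u) y.1‖ₑ ^ 2
    rw [hvf u _ y.2.1]
  · intro u j
    -- orthogonality of the derivative
    have key : ∀ a, Top8_815.IsTop w (V.E u) a →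
        fm (V.S u) (a - pchi V F ι α χ u a) (Dv V.P v j u) = 0 := by
      intro a ha
      obtain ⟨e, he0, heh, het⟩ := hfr u a ha
      set e' : S → Fin N → ℂ := fun y => e y - pchi V F ι α χ y (e y) with he'
      have hh : HolAt (lV V.P e' u) u := by
        refine holAt_sub heh ?_
        exact holAt_smul _ (holAt_sum _ fun g _ => holAt_smul _ (tw_hol hR hA g heh het))
      have h0 : ∀ᶠ x in 𝓝 (cp u), fm (V.S u) ((lV V.P e' u ∘ (ch u).symm) x)
          ((lV V.P v u ∘ (ch u).symm) x) = 0 := by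
        refine (tendsto_symm u).eventually (p := fun y => fm (V.S u) (lV V.P e' u y)
          (lV V.P v u y) = 0) ?_
        filter_upwards [V.flatS u, het] with y hy1 hy2
        have h1 : fm (V.S u) (lV V.P e' u y) (lV V.P v u y) = fm (V.S y) (e' y) (v y) := by
          unfold fm lV
          rw [hy1, Matrix.star_mulVec, ← Matrix.dotProduct_mulVec, Matrix.mulVec_mulVec,
            Matrix.mulVec_mulVec, Matrix.mul_assoc]
        rw [h1, he']
        exact horth y _ hy2
      have h1 := pairing_deriv (M := V.S u) (AnalyticAt.differentiableAt hh)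
        (AnalyticAt.differentiableAt (hol u)) h0 (Pi.single j 1)
      rw [← Dv_eq (hol u) j] at h1
      have h2 : (lV V.P e' u ∘ (ch u).symm) (cp u) = a - pchi V F ι α χ u a := by
        rw [Function.comp_apply, (isCh_ch u).symm_cp (mem_ch u)]
        unfold lV
        rw [ndc_self V.ndc, cm_one, Matrix.one_mulVec, he']
        simp only [he0]
      rwa [h2] at h1
    obtain ⟨ht, hE⟩ := top_deriv hv (hol u) j
    set t : Fin N → ℂ := Dv V.P v j u - dM V.P V.E j u *ᵥ v u with ht_def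
    have hw : (conj (w : ℂ)) = w := Complex.conj_natCast w
    have key2 : ∀ a, Top8_815.IsTop w (V.E u) a →
        fm (V.S u) (a - pchi V F ι α χ u a) t = 0 := by
      intro a ha
      rw [ht_def, fm_sub_right, key a ha, zero_sub, neg_eq_zero]
      refine eig_orth (V.hs u) (tp_sub ha (pchi_top hR hA χ ha)) hE hw ?_
      intro h
      have : (1 : ℂ) = 0 := by linear_combination h
      exact one_ne_zero this
    suffices h : ∃ c : ℂ, t = c • v u by
      obtain ⟨c, hc⟩ := h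
      refine ⟨c, ?_⟩
      rw [← hc, ht_def]
      abel
    by_cases hv0 : v u = 0
    · refine ⟨0, ?_⟩
      rw [zero_smul]
      obtain ⟨c, hc⟩ := hspan u t ht
      rw [hv0, smul_zero] at hc
      have := key2 t ht
      rw [hc, sub_zero] at this
      exact top_eq_zero (V.hs u) ht this
    · have hvv : fm (V.S u) (v u) (v u) ≠ 0 := fun h => hv0 (top_eq_zero (V.hs u) (hv u) h)
      set C : ℂ := fm (V.S u) (v u) t / fm (V.S u) (v u) (v u) with hC
      refine ⟨C, ?_⟩
      have ht' : Top8_815.IsTop w (V.E u) (t - C • v u) := tp_sub ht (tp_smul _ (hv u))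
      have h1 : fm (V.S u) (v u) (t - C • v u) = 0 := by
        rw [fm_sub_right, fm_smul_right, hC, div_mul_cancel₀ _ hvv, sub_self]
      obtain ⟨c, hc⟩ := hspan u _ ht'
      have h2 : fm (V.S u) (t - C • v u) (t - C • v u) = 0 := by
        have h3 : fm (V.S u) (t - C • v u) (t - C • v u)
            = fm (V.S u) ((t - C • v u) - pchi V F ι α χ u (t - C • v u)) (t - C • v u)
              + fm (V.S u) (pchi V F ι α χ u (t - C • v u)) (t - C • v u) := by
          rw [← fm_add_left, sub_add_cancel]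
        have h4 : fm (V.S u) (pchi V F ι α χ u (t - C • v u)) (t - C • v u) = 0 := by
          rw [hc, fm_smul_left, h1, mul_zero]
        have h5 : fm (V.S u) ((t - C • v u) - pchi V F ι α χ u (t - C • v u)) (t - C • v u)
            = 0 := by
          rw [fm_sub_right (S := V.S u) _ t (C • v u), key2 _ ht', fm_smul_right, horth u _ ht',
            mul_zero, sub_zero]
        rw [h3, h4, h5, add_zero]
      have h3 := top_eq_zero (V.hs u) ht' h2
      exact sub_eq_zero.1 h3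

end main

end Crest.Agent.R276.Par_425
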