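import Crest.Agent.R276.TrB_617
import Crest.Agent.R276.Par_425

/-!
# R276, helper617: the flat line (FL)

`V` a polarised variation with lattice over a connected Riemann domain, `om` a holomorphic nowhere
vanishing section of the top piece with `D_j om ∈ ℂ om`.

* `line_near` : near `z`, seen from `z`, `om` is a holomorphic multiple of `om z`.
* `line_flat` : the line `ℂ om` is a flat subbundle.
* `fl_root` : if the monodromy scalars on the line at one point are `M`-th roots of unity, there is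
  `f` holomorphic without zeros with `|f|² = hnsq(om)^M`.
* `fl_mono` : the same from `Hull_574.Mono` at one point.
-/

set_option autoImplicit false

open Set Filter Topology Matrix

namespace Crest.Agent.R276.FL_617

open Crest.Agent.R271.Ho51 Crest.Agent.R276.Ipc735 Crest.Agent.R276.Par_425
  Crest.Agent.R276.Tr_617 Crest.Agent.R276.Top8_815

section loc

variable {m N : ℕ} {X : Type*} [TopologicalSpace X] [RDom m X] {P : X → X → GL (Fin N) ℤ}
  {om : X → Fin N → ℂ}

theorem lV_self (h : NDC P) (v : X → Fin N → ℂ) (z : X) : lV P v z z = v z := by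
  rw [lV, ndc_self h, Par_425.cm_one, Matrix.one_mulVec]

/-- the derivative of the section seen from `z` at points near `z` -/
theorem fderiv_near (h : NDC P) (z : X) (hol : ∀ u, HolAt (lV P om u) u)
    (hD : ∀ u j, ∃ c : ℂ, Dv P om j u = c • om u) :
    ∀ᶠ p in 𝓝 (cp z), ∀ j, ∃ c : ℂ, fderiv ℂ (lV P om z ∘ (ch z).symm) p (Pi.single j 1)
      = c • (lV P om z ∘ (ch z).symm) p := by
  have h1 : ∀ᶠ u in 𝓝 z, ∀ j, ∃ c : ℂ, fderiv ℂ (lV P om z ∘ (ch z).symm) (cp u) (Pi.single j 1)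
      = c • (lV P om z ∘ (ch z).symm) (cp u) := by
    filter_upwards [lV_near h om z, (ch z).open_source.mem_nhds (mem_ch z), holAt_near (hol z)]
      with u hu hus hu2 j
    obtain ⟨c, hc⟩ := hD u j
    refine ⟨c, ?_⟩
    have e1 : (lV P om z ∘ (ch z).symm) =ᶠ[𝓝 (cp u)] (lV P om z ∘ (ch u).symm) :=
      comp_germ (isCh_ch z) (isCh_ch u) hus (mem_ch u) _
    have e2 : (lV P om u ∘ (ch u).symm) =ᶠ[𝓝 (cp u)]
        fun p => cm (P u z) *ᵥ ((lV P om z ∘ (ch u).symm) p) := by
      filter_upwards [(tendsto_symm u).eventually hu] with p hp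
      exact hp
    have hd : DifferentiableAt ℂ (lV P om z ∘ (ch u).symm) (cp u) := AnalyticAt.differentiableAt hu2
    have e3 : fderiv ℂ (lV P om u ∘ (ch u).symm) (cp u) (Pi.single j 1)
        = cm (P u z) *ᵥ (fderiv ℂ (lV P om z ∘ (ch u).symm) (cp u) (Pi.single j 1)) := by
      rw [e2.fderiv_eq]
      have h3 := (LinearMap.toContinuousLinearMap
        (Matrix.mulVecLin (cm (P u z)))).hasFDerivAt.comp (cp u) hd.hasFDerivAt
      exact congrArg (fun L => L (Pi.single j 1)) h3.fderiv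
    have e4 := Dv_eq (hol u) j
    rw [hc, e3] at e4
    have e5 : (lV P om z ∘ (ch z).symm) (cp u) = lV P om z u := by
      show lV P om z ((ch z).symm (cp u)) = lV P om z u
      rw [(isCh_ch z).symm_cp hus]
    have e6 : om u = cm (P u z) *ᵥ lV P om z u := by
      rw [← hu.self_of_nhds, lV_self h]
    rw [e1.fderiv_eq, e5]
    have e7 := congrArg (fun t => cm (P u z)⁻¹ *ᵥ t) e4
    beta_reduce at e7
    rw [e6, Matrix.mulVec_smul, Matrix.mulVec_mulVec, Matrix.mulVec_mulVec, Par_425.cm_inv_mul,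
      Matrix.one_mulVec, Matrix.one_mulVec] at e7
    exact e7.symm
  have h2 := (tendsto_symm z).eventually h1
  filter_upwards [h2, (ch z).open_target.mem_nhds ((isCh_ch z).cp_mem (mem_ch z))] with p hp hpt
  rwa [(isCh_ch z).cp_symm hpt] at hp

/-- near `z`, seen from `z`, the section is a holomorphic multiple of its value at `z` -/
theorem line_near (h : NDC P) (z : X) (hol : ∀ u, HolAt (lV P om u) u) (h0 : om z ≠ 0)
    (hD : ∀ u j, ∃ c : ℂ, Dv P om j u = c • om u) :
    ∃ a : X → ℂ, HolAt a z ∧ a z = 1 ∧ ∀ᶠ y in 𝓝 z, a y ≠ 0 ∧ lV P om z y = a y • om z := by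
  classical
  set Φ : (Fin m → ℂ) → Fin N → ℂ := lV P om z ∘ (ch z).symm with hΦ
  have hΦa : AnalyticAt ℂ Φ (cp z) := hol z
  have hΦz : Φ (cp z) = om z := by
    rw [hΦ]
    show lV P om z ((ch z).symm (cp z)) = om z
    rw [symm_cp, lV_self h]
  obtain ⟨i, hi⟩ := Function.ne_iff.1 h0
  have hi' : Φ (cp z) i ≠ 0 := by rw [hΦz]; exact hi
  have hci : ContinuousAt (fun p => Φ p i) (cp z) :=
    (continuous_apply i).continuousAt.comp hΦa.continuousAt
  obtain ⟨r, hr, hball⟩ := Metric.eventually_nhds_iff_ball.1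
    ((hΦa.eventually_analyticAt).and ((hci.eventually_ne hi').and (fderiv_near h z hol hD)))
  have hlin : ∀ p ∈ Metric.ball (cp z) r, ∀ v, ∃ c : ℂ, fderiv ℂ Φ p v = c • Φ p := by
    intro p hp v
    choose c hc using (hball p hp).2.2
    refine ⟨∑ j, v j * c j, ?_⟩
    have hv : v = ∑ j, v j • (Pi.single j 1 : Fin m → ℂ) := by
      ext k
      simp [Finset.sum_apply, Pi.single_apply]
    conv_lhs => rw [hv]
    rw [map_sum, Finset.sum_smul]
    refine Finset.sum_congr rfl fun j _ => ?_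
    rw [map_smul, hc j, smul_smul]
  have hder : ∀ (k : Fin N) (p : Fin m → ℂ), p ∈ Metric.ball (cp z) r →
      HasFDerivAt (fun q => Φ q k) ((ContinuousLinearMap.proj (R := ℂ) (φ := fun _ : Fin N => ℂ)
        k).comp (fderiv ℂ Φ p)) p := by
    intro k p hp
    exact (ContinuousLinearMap.proj (R := ℂ) (φ := fun _ : Fin N => ℂ) k).hasFDerivAt.comp p
      (hball p hp).1.differentiableAt.hasFDerivAt
  have hconst : ∀ k, ∀ p ∈ Metric.ball (cp z) r,
      Φ p k * (Φ p i)⁻¹ = Φ (cp z) k * (Φ (cp z) i)⁻¹ := by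
    intro k p hp
    have hq : ∀ q ∈ Metric.ball (cp z) r,
        HasFDerivAt (fun q => Φ q k * (Φ q i)⁻¹) (0 : (Fin m → ℂ) →L[ℂ] ℂ) q := by
      intro q hq
      have h1 := (hder k q hq).mul
        ((hasDerivAt_inv (hball q hq).2.1).comp_hasFDerivAt q (hder i q hq))
      refine h1.congr_fderiv ?_
      ext v
      obtain ⟨c, hc⟩ := hlin q hq v
      have hne := (hball q hq).2.1
      have e1 : fderiv ℂ Φ q v k = c * Φ q k := by rw [hc]; rfl
      have e2 : fderiv ℂ Φ q v i = c * Φ q i := by rw [hc]; rfl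
      simp only [Function.comp_apply, _root_.add_apply, _root_.smul_apply,
        ContinuousLinearMap.comp_apply, ContinuousLinearMap.proj_apply, smul_eq_mul,
        _root_.zero_apply, e1, e2]
      field_simp
      ring
    refine Metric.isOpen_ball.is_const_of_fderiv_eq_zero (𝕜 := ℂ)
      (f := fun q => Φ q k * (Φ q i)⁻¹)
      (convex_ball (cp z) r).isPreconnected
      (fun q hq' => (hq q hq').differentiableAt.differentiableWithinAt)
      (fun q hq' => (hq q hq').fderiv) hp (Metric.mem_ball_self hr)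
  have hΦi : AnalyticAt ℂ (fun p => Φ p i) (cp z) :=
    ((ContinuousLinearMap.proj (R := ℂ) (φ := fun _ : Fin N => ℂ) i).analyticAt _).comp hΦa
  refine ⟨fun y => lV P om z y i * (om z i)⁻¹, ?_, ?_, ?_⟩
  · exact hΦi.mul analyticAt_const
  · show lV P om z z i * (om z i)⁻¹ = 1
    rw [lV_self h]
    exact mul_inv_cancel₀ hi
  · have hev : ∀ᶠ y in 𝓝 z, cp y ∈ Metric.ball (cp z) r :=
      (cp_cont (M := X)).continuousAt.eventually (Metric.ball_mem_nhds _ hr)
    filter_upwards [hev, (ch z).open_source.mem_nhds (mem_ch z)] with y hy hys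
    have e1 : Φ (cp y) = lV P om z y := by
      show lV P om z ((ch z).symm (cp y)) = lV P om z y
      rw [(isCh_ch z).symm_cp hys]
    have hne : lV P om z y i ≠ 0 := by
      rw [← e1]
      exact (hball _ hy).2.1
    refine ⟨mul_ne_zero hne (inv_ne_zero hi), ?_⟩
    ext k
    have e2 := hconst k _ hy
    rw [e1, hΦz] at e2
    show lV P om z y k = lV P om z y i * (om z i)⁻¹ * om z k
    have e3 : lV P om z y k = lV P om z y k * (lV P om z y i)⁻¹ * lV P om z y i := by
      rw [mul_assoc, inv_mul_cancel₀ hne, mul_one]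
    rw [e3, e2]
    ring

/-- the line spanned by the section is a flat subbundle -/
theorem line_flat (h : NDC P) (hol : ∀ u, HolAt (lV P om u) u) (h0 : ∀ u, om u ≠ 0)
    (hD : ∀ u j, ∃ c : ℂ, Dv P om j u = c • om u) : FlS P (fun x => Submodule.span ℂ {om x}) := by
  intro z
  obtain ⟨a, -, -, ha⟩ := line_near h z hol (h0 z) hD
  filter_upwards [ha] with y hy
  show (Submodule.span ℂ {om y}).map (cm (P z y)).mulVecLin = Submodule.span ℂ {om z}
  rw [Submodule.map_span, Set.image_singleton, Matrix.mulVecLin_apply]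
  have e1 : cm (P z y) *ᵥ om y = a y • om z := hy.2
  rw [e1]
  exact Submodule.span_singleton_smul_eq (IsUnit.mk0 _ hy.1) _

/-- the section along a transport -/
theorem line_tr (h : NDC P) (hol : ∀ u, HolAt (lV P om u) u) (h0 : ∀ u, om u ≠ 0)
    (hD : ∀ u j, ∃ c : ℂ, Dv P om j u = c • om u) {x y : X} {g : GL (Fin N) ℤ} (hg : Tr P x y g) :
    ∃ c : ℂ, c ≠ 0 ∧ om x = c • (cm g *ᵥ om y) := by
  have h1 := sub_tr (line_flat h hol h0 hD) hg
  have h2 : om x ∈ mapS g (Submodule.span ℂ {om y}) := by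
    rw [← h1]
    exact Submodule.mem_span_singleton_self _
  rw [mapS, Submodule.map_span, Set.image_singleton, Matrix.mulVecLin_apply,
    Submodule.mem_span_singleton] at h2
  obtain ⟨c, hc⟩ := h2
  refine ⟨c, ?_, hc.symm⟩
  rintro rfl
  rw [zero_smul] at hc
  exact h0 x hc.symm

end loc

section main

variable {m N w : ℕ} {X : Type*} [TopologicalSpace X] [RDom m X] (V : VHS m X N w)
  {om : X → Fin N → ℂ}

theorem hnsq_pos {x : X} (htop : Top8_815.IsTop w (V.E x) (om x)) (h0 : om x ≠ 0) :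
    0 < hnsq V x (om x) := by
  rw [hnsq_top htop]
  exact top_pos (V.hs x) htop h0

/-- the norm of the section along a transport -/
theorem hnsq_tr (htop : ∀ u, Top8_815.IsTop w (V.E u) (om u)) {x y : X} {g : GL (Fin N) ℤ} {c : ℂ}
    (hg : Tr V.P x y g) (hc : om x = c • (cm g *ᵥ om y)) :
    hnsq V x (om x) = ‖c‖ ^ 2 * hnsq V y (om y) := by
  rw [hnsq_top (htop x), hnsq_top (htop y), hc, fm_smul_left, fm_smul_right, vhs_S V hg]
  have e1 : fm (V.S x) (cm g *ᵥ om y) (cm g *ᵥ om y)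
      = fm ((cm g)ᴴ * V.S x * cm g) (om y) (om y) := by
    unfold fm
    rw [Matrix.star_mulVec, ← Matrix.mulVec_mulVec, ← Matrix.mulVec_mulVec,
      ← Matrix.dotProduct_mulVec]
  rw [e1, ← mul_assoc, mul_comm ((starRingEnd ℂ) c) c, Complex.mul_conj, Complex.re_ofReal_mul,
    Complex.normSq_eq_norm_sq]
  ring

/-- **(FL)** from a root of unity condition at one point -/
theorem fl_root [PreconnectedSpace X] (htop : ∀ u, Top8_815.IsTop w (V.E u) (om u))
    (hol : ∀ u, HolAt (lV V.P om u) u) (h0 : ∀ u, om u ≠ 0)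
    (hD : ∀ u j, ∃ c : ℂ, Dv V.P om j u = c • om u) (x₀ : X) {M : ℕ}
    (hM : ∀ k ∈ mon V.P x₀, ∀ ζ : ℂ, cm k *ᵥ om x₀ = ζ • om x₀ → ζ ^ M = 1) :
    ∃ f : X → ℂ, (∀ x, HolAt f x) ∧ (∀ x, f x ≠ 0) ∧
      ∀ x, ‖f x‖ ^ 2 = (hnsq V x (om x)) ^ M := by
  choose g hg using fun x => vhs_exists_tr V x x₀
  choose c hc0 hc using fun x => line_tr V.ndc hol h0 hD (hg x)
  -- independence of the transport
  have key : ∀ x (k : GL (Fin N) ℤ) (b : ℂ), Tr V.P x x₀ k → om x = b • (cm k *ᵥ om x₀) →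
      b ^ M = c x ^ M := by
    intro x k b hk hb
    have hb0 : b ≠ 0 := by
      rintro rfl
      rw [zero_smul] at hb
      exact h0 x hb
    have h1 : (g x)⁻¹ * k ∈ mon V.P x₀ := (hg x).inv_mul_mem hk
    have h2 : cm ((g x)⁻¹ * k) *ᵥ om x₀ = (c x * b⁻¹) • om x₀ := by
      have e1 : b • (cm k *ᵥ om x₀) = c x • (cm (g x) *ᵥ om x₀) := by rw [← hb, ← hc x]
      have e2 : cm k *ᵥ om x₀ = (c x * b⁻¹) • (cm (g x) *ᵥ om x₀) := by
        have e3 := congrArg (fun t => b⁻¹ • t) e1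
        simp only [smul_smul] at e3
        rw [inv_mul_cancel₀ hb0, one_smul, mul_comm] at e3
        exact e3
      rw [Par_425.cm_mul, ← Matrix.mulVec_mulVec, e2, Matrix.mulVec_smul, Matrix.mulVec_mulVec,
        Par_425.cm_inv_mul, Matrix.one_mulVec]
    have h3 := hM _ h1 _ h2
    rw [mul_pow, inv_pow] at h3
    have h4 : b ^ M ≠ 0 := pow_ne_zero _ hb0
    field_simp at h3
    exact h3.symm
  set r : ℝ := Real.sqrt (hnsq V x₀ (om x₀)) with hr
  have hpos := hnsq_pos V (htop x₀) (h0 x₀)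
  have hr0 : 0 < r := Real.sqrt_pos.2 hpos
  refine ⟨fun x => (r : ℂ) ^ M * c x ^ M, fun z => ?_, fun x => ?_, fun x => ?_⟩
  · obtain ⟨a, ha, -, hev⟩ := line_near V.ndc z hol (h0 z) hD
    have h1 : ∀ᶠ y in 𝓝 z, (r : ℂ) ^ M * c y ^ M = (r : ℂ) ^ M * (a y ^ M * c z ^ M) := by
      have : LocallyConnectedSpace X := rdom_lc (m := m)
      filter_upwards [hev, tr_near V.ndc z] with y hy hyt
      have h2 : Tr V.P y x₀ (V.P y z * g z) := hyt.2.1.trans (hg z)
      have h3 : om y = (a y * c z) • (cm (V.P y z * g z) *ᵥ om x₀) := by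
        have e1 : cm (V.P z y) *ᵥ om y = a y • om z := hy.2
        have e2 : cm (V.P y z) *ᵥ (cm (V.P z y) *ᵥ om y) = om y := by
          have e3 : V.P y z * V.P z y = 1 := by
            have e4 := hyt.2.2
            exact mul_eq_one_comm.1 e4
          rw [Matrix.mulVec_mulVec, ← Par_425.cm_mul, e3, Par_425.cm_one, Matrix.one_mulVec]
        have e5 : om y = cm (V.P y z) *ᵥ (a y • om z) := by rw [← e1, e2]
        rw [e5, hc z, Matrix.mulVec_smul, Matrix.mulVec_smul, smul_smul, Matrix.mulVec_mulVec,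
          ← Par_425.cm_mul]
      rw [← key y _ _ h2 h3, mul_pow]
    have h4 : HolAt (fun y => (r : ℂ) ^ M * (a y ^ M * c z ^ M)) z := by
      have h5 : AnalyticAt ℂ (a ∘ (ch z).symm) (cp z) := ha
      exact analyticAt_const.mul ((h5.pow M).mul analyticAt_const)
    exact holAt_congr (h1.mono fun y hy => hy.symm) h4
  · exact mul_ne_zero (pow_ne_zero _ (by exact_mod_cast hr0.ne')) (pow_ne_zero _ (hc0 x))
  · have h1 := hnsq_tr V htop (hg x) (hc x)
    rw [h1, norm_mul, norm_pow, norm_pow, Complex.norm_real, Real.norm_of_nonneg hr0.le, mul_pow,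
      mul_pow, ← pow_mul, ← pow_mul, mul_comm M 2, pow_mul r 2 M, hr, Real.sq_sqrt hpos.le,
      pow_mul ‖c x‖ 2 M]
    ring

/-- **(FL)** from `Mono` at one point -/
theorem fl_mono [PreconnectedSpace X] (htop : ∀ u, Top8_815.IsTop w (V.E u) (om u))
    (hol : ∀ u, HolAt (lV V.P om u) u) (h0 : ∀ u, om u ≠ 0)
    (hD : ∀ u j, ∃ c : ℂ, Dv V.P om j u = c • om u) (x₀ : X)
    (hMo : Hull_574.Mono w (V.S x₀) (V.E x₀) (mon V.P x₀)) :
    ∃ M : ℕ, 0 < M ∧ ∃ f : X → ℂ, (∀ x, HolAt f x) ∧ (∀ x, f x ≠ 0) ∧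
      ∀ x, ‖f x‖ ^ 2 = (hnsq V x (om x)) ^ M := by
  have hst : Hull_574.IsSt (mon V.P x₀) (Submodule.span ℂ {om x₀}) :=
    sub_st (line_flat V.ndc hol h0 hD)
  have hne : Submodule.span ℂ {om x₀} ≠ ⊥ := by
    rw [Ne, Submodule.span_singleton_eq_bot]
    exact h0 x₀
  obtain ⟨M, hM0, hM⟩ := Hull_574.scalar_root hMo hst hne
  refine ⟨M, hM0, fl_root V htop hol h0 hD x₀ fun k hk ζ hζ => hM k hk ζ fun u hu => ?_⟩
  obtain ⟨b, rfl⟩ := Submodule.mem_span_singleton.1 hu
  rw [Matrix.mulVec_smul, hζ, smul_comm]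

end main

end Crest.Agent.R276.FL_617
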