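import Crest.Agent.R276.RestrC_236
import Crest.Agent.R276.FL_617
import Crest.Agent.R276.VPull2_327

/-!
# Row 276 (S0419), leaf RESTR (helper236), part E: the CY line and flat families

* `CYL R N u V om` : output of GEO (519, 425): `om` = holomorphic section of the top piece of `V`,
  `‖om‖² = N D`, `D_j om = θ_j om + c om`; `CYL.transport` : pull back;
* `flatFam` : on a slice `G` of the base along which `θ om = 0` (fibre of `M_L → M_T`), with `Mono`
  (574) at one point: `FlatFam` on the restricted model (by 617's `fl_mono`).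
-/

set_option autoImplicit false
set_option linter.unusedSectionVars false

open Set Filter Topology MeasureTheory Matrix
open scoped ENNReal

noncomputable section

namespace Crest.Agent.R276.Restr_236

open Crest.Agent.R271 Crest.Agent.R271.Ho51 Crest.Agent.R276.AB2_590 Crest.Agent.R271.Defs710
open Crest.Agent.R276.Mod1_987 Crest.Agent.R276.FlatM_464 Crest.Agent.R276.FlatDefs_236
open Crest.Agent.R276.CmpR_652 Crest.Agent.R276.FibN_793 Crest.Agent.R276.VPull_327
open Crest.Agent.R276.Ipc735 Crest.Agent.R276.Par_425 Crest.Agent.R276.Top8_815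
open Crest.Agent.R276.Tr_617

/-! ### pull back of derivatives of sections -/

section pull

variable {r m N w : ℕ} {Y X : Type*} [TopologicalSpace Y] [RDom r Y] [TopologicalSpace X]
  [RDom m X] (V : VHS m X N w) {φ : Y → X} (hφ : HMap φ)

/-- the derivative of the pull back of a section -/
theorem Dv_pull {om : X → Fin N → ℂ} {z : Y} (hol : HolAt (lV V.P om (φ z)) (φ z)) (k : Fin r) :
    Dv (pull V hφ).P (fun y => om (φ y)) k z = ∑ l, J φ z k l • Dv V.P om l (φ z) := by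
  funext i
  rw [Finset.sum_apply]
  have h1 : HolAt (fun x => lV V.P om (φ z) x i) (φ z) := by
    have h2 : AnalyticAt ℂ (lV V.P om (φ z) ∘ (ch (φ z)).symm) (cp (φ z)) := hol
    exact (ContinuousLinearMap.proj (R := ℂ) (φ := fun _ : Fin N => ℂ) i).analyticAt _ |>.comp h2
  exact (hφ z).dz_comp (SmAt.differentiableAt (HolAt.smAt h1)) k

end pull

variable {L K : Type} [Field L] [Field K] [Algebra ℂ L] [Algebra ℂ K] [Algebra L K]
  [IsScalarTower ℂ L K] {m r : ℕ}
variable {L' K' : Type} [Field L'] [Field K'] [Algebra ℂ L'] [Algebra ℂ K'] [Algebra L' K']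
  [IsScalarTower ℂ L' K'] {m' : ℕ}

/-- OUTPUT OF GEO (519, 425): the Calabi-Yau line -/
structure CYL (R : RMdl L K m r) (N : ℕ) {s : ℕ} (u : Fin s → R.MK.B) {N₀ w₀ : ℕ}
    (V : VHS m R.ML.Pts N₀ w₀) (om : R.ML.Pts → Fin N₀ → ℂ) : Prop where
  top : ∀ z, Top8_815.IsTop w₀ (V.E z) (om z)
  hol : ∀ z, HolAt (lV V.P om z) z
  /-- `‖ω‖² = N D` -/
  nrm : ∀ z, ENNReal.ofReal (hnsq V z (om z)) = N * DN N u z
  /-- `D_j ω = θ_j ω + c ω` -/
  par : ∀ z j, ∃ c : ℂ, Dv V.P om j z = dM V.P V.E j z *ᵥ om z + c • om z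

/-- pull back of the CY line -/
theorem CYL.transport {R : RMdl L K m r} {R' : RMdl L' K' m' r} {s : ℕ} {Θ : FMap R' R}
    {u' : Fin s → R'.MK.B} {u : Fin s → R.MK.B} (h : Θ.Cp u' u) (hι : HMap Θ.ι) {N N₀ w₀ : ℕ}
    {V : VHS m R.ML.Pts N₀ w₀} {om : R.ML.Pts → Fin N₀ → ℂ} (H : CYL R N u V om) :
    CYL R' N u' (pull V hι) (fun y => om (Θ.ι y)) where
  top z := H.top (Θ.ι z)
  hol z := holAt_pull V hι (H.hol (Θ.ι z))
  nrm z := by
    rw [h.dn]
    exact H.nrm (Θ.ι z)
  par z k := by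
    choose c hc using fun l => H.par (Θ.ι z) l
    refine ⟨∑ l, J Θ.ι z k l * c l, ?_⟩
    rw [Dv_pull V hι (H.hol (Θ.ι z)), dM_pull_E, Finset.sum_smul]
    rw [Matrix.sum_mulVec, ← Finset.sum_add_distrib]
    refine Finset.sum_congr rfl fun l _ => ?_
    rw [hc l, smul_add, Matrix.smul_mulVec, smul_smul]

section nz

variable {R : RMdl L K m r} {s N N₀ w₀ : ℕ} {u : Fin s → R.MK.B} {V : VHS m R.ML.Pts N₀ w₀}
  {om : R.ML.Pts → Fin N₀ → ℂ}

lemma CYL.hnsq_eq (H : CYL R N u V om) (z : R.ML.Pts) :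
    hnsq V z (om z) = N * (DN N u z).toReal := by
  have h1 := H.nrm z
  have h2 : 0 ≤ hnsq V z (om z) := hnsq_nonneg (H.top z)
  rw [← ENNReal.toReal_ofReal h2, h1, ENNReal.toReal_mul, ENNReal.toReal_natCast]

lemma CYL.ne (H : CYL R N u V om) (HS : SatFam R N u) (z : R.ML.Pts) : om z ≠ 0 := by
  intro h0
  have h1 := H.nrm z
  have hN : (N : ℝ≥0∞) ≠ 0 := by
    have := HS.N_ge
    simp only [ne_eq, Nat.cast_eq_zero]
    omega
  have h2 : hnsq V z (om z) = 0 := by
    rw [h0]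
    simp [hnsq]
  rw [h2, ENNReal.ofReal_zero] at h1
  exact (mul_ne_zero hN (HS.D_pos z).ne') h1.symm

/-- **(FL) on a model on which the CY line is flat** -/
theorem flatFam_of [PreconnectedSpace R.ML.Pts] (H : CYL R N u V om) (HS : SatFam R N u)
    (hθ : ∀ z j, dM V.P V.E j z *ᵥ om z = 0) (x₀ : R.ML.Pts)
    (hMo : Hull_574.Mono w₀ (V.S x₀) (V.E x₀) (mon V.P x₀)) :
    ∃ (M : ℕ) (f : R.ML.Pts → ℂ), FlatFam R N u f M := by
  obtain ⟨M, hM, f, hf, hf0, hfn⟩ := FL_617.fl_mono V H.top H.hol (H.ne HS) (fun z j => by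
    obtain ⟨c, hc⟩ := H.par z j
    exact ⟨c, by rw [hc, hθ, zero_add]⟩) x₀ hMo
  have hN : (0 : ℝ) < N := by
    have := HS.N_ge
    exact_mod_cast (by omega : 0 < N)
  set κ : ℝ := (Real.sqrt ((N : ℝ) ^ M))⁻¹ with hκ
  have hκ0 : 0 < κ := inv_pos.2 (Real.sqrt_pos.2 (by positivity))
  refine ⟨M, fun z => (κ : ℂ) * f z, { HS with
    M_pos := hM
    hol := ?_
    ne := fun w => mul_ne_zero (by exact_mod_cast hκ0.ne') (hf0 w)
    eq := fun w => ?_ }⟩
  · refine hol51_iff.2 fun z => ?_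
    exact analyticAt_const.mul (hf z)
  · rw [norm_mul, mul_pow, hfn w, H.hnsq_eq, Complex.norm_real, Real.norm_of_nonneg hκ0.le,
      mul_pow, hκ, inv_pow, Real.sq_sqrt (by positivity)]
    field_simp

end nz

/-! ### restriction to slices -/

section up

variable (R : RMdl L K m r) {ρ a : ℕ} {e : Fin ρ ⊕ Fin a ≃ Fin m} {c : Cn ρ} (S : SG R.ML e c)
  (hs : Function.Surjective R.q) (hc : ∀ w, IsPreconnected (R.q ⁻¹' {w}))

/-- the Jacobian of the inclusion of a slice -/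
lemma J_ι (y : S.mdl.Pts) (k : Fin a) (l : Fin m) :
    J S.ι y k l = if l = e (Sum.inr k) then 1 else 0 := by
  have h1 : jac S.ι y = fderiv ℂ (FibM_793.glue e c) (cp y) :=
    jac_of_cp (Eventually.of_forall fun y' => S.cp_ι y')
  have hd : HasFDerivAt (FibM_793.glue e c) (fderiv ℂ (FibM_793.glue e c) (cp y)) (cp y) :=
    (analyticAt_glue (e := e) (c := c) (cp y)).differentiableAt.hasFDerivAt
  have h2 := hasFDerivAt_pi'.1 hd l
  unfold VPull_327.J
  rw [h1]
  obtain ⟨t, rfl⟩ := e.surjective l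
  rcases t with i | j
  · have h3 : HasFDerivAt (fun x : Cn a => FibM_793.glue e c x (e (Sum.inl i)))
        (0 : (Fin a → ℂ) →L[ℂ] ℂ) (cp y) := by
      simp only [FibM_793.glue_inl]
      exact hasFDerivAt_const _ _
    have h4 := congrArg (fun T : (Fin a → ℂ) →L[ℂ] ℂ => T (Pi.single k 1)) (h2.unique h3)
    simp only [ContinuousLinearMap.comp_apply, ContinuousLinearMap.proj_apply,
      _root_.zero_apply] at h4
    rw [h4, if_neg (fun h => by simpa using e.injective h)]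
  · have h3 : HasFDerivAt (fun x : Cn a => FibM_793.glue e c x (e (Sum.inr j)))
        (ContinuousLinearMap.proj (R := ℂ) (φ := fun _ : Fin a => ℂ) j) (cp y) := by
      simp only [FibM_793.glue_inr]
      exact (ContinuousLinearMap.proj (R := ℂ) (φ := fun _ : Fin a => ℂ) j).hasFDerivAt
    have h4 := congrArg (fun T : (Fin a → ℂ) →L[ℂ] ℂ => T (Pi.single k 1)) (h2.unique h3)
    simp only [ContinuousLinearMap.comp_apply, ContinuousLinearMap.proj_apply] at h4
    rw [h4, Pi.single_apply]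
    simp

variable {R}

/-- **flat families on slices along which `θ ω = 0`** -/
theorem flatFam_up {s N N₀ w₀ : ℕ} {u : Fin s → R.MK.B} {V : VHS m R.ML.Pts N₀ w₀}
    {om : R.ML.Pts → Fin N₀ → ℂ} (H : CYL R N u V om) (HS : SatFam R N u)
    (hθ : ∀ z ∈ S.G, ∀ k : Fin a, dM V.P V.E (e (Sum.inr k)) z *ᵥ om z = 0) (x₀ : S.mdl.Pts)
    (hMo : Hull_574.Mono w₀ (V.S (S.ι x₀)) (V.E (S.ι x₀)) (mon (pull V S.hmap_ι).P x₀)) :
    ∃ (M : ℕ) (f : (S.rmdl R hs hc).ML.Pts → ℂ),
      FlatFam (S.rmdl R hs hc) N (upU R S hs hc u) f M := by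
  have H' : CYL (S.rmdl R hs hc) N (upU R S hs hc u) (pull V S.hmap_ι) (fun y => om (S.ι y)) :=
    CYL.transport (Θ := upMap R S hs hc) (cp_up R S hs hc u) S.hmap_ι H
  refine flatFam_of H' (HS.up R S hs hc) (fun z k => ?_) x₀ hMo
  rw [dM_pull_E]
  simp only [J_ι]
  simp only [ite_smul, one_smul, zero_smul, Finset.sum_ite_eq', Finset.mem_univ, if_true]
  exact hθ _ (S.ι_mem z) k

end up

end Crest.Agent.R276.Restr_236
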