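import Mathlib
import Crest.Agent.R276.ModPack_849
import Crest.Agent.R276.RestrE_236
import Crest.Agent.R276.Vert_595
import Crest.Agent.R276.Pf4_409

/-!
# Row 276, COMPOSITION (helper849), part A: from the geometric data on a relative model
`R₀ : M_K → M_L` to the tower `M_K → M_L → M_T` over the period field `T`

* `Slp V T` : the slopes of the period map of `V` (Theorem B, helper409) on a model of `L`;
* `TD R₁ V om W` : the data on a tower `W`: good, comparable with `R₁`, the pulled back CY line, its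
  period metric has exactly the vertical vectors as kernel;
* `Pack` : everything; `exists_pack`.
-/

set_option autoImplicit false
set_option linter.unusedSectionVars false

open Topology Filter Set Matrix
open scoped ComplexOrder

noncomputable section

namespace Crest.Agent.R276.CompA_849

open Crest.Agent.R271.Defs710 Crest.Agent.R271.Rd692 Crest.Agent.R271.Ho51
open Crest.Agent.R276.Mod1_987 Crest.Agent.R276.TowA_849 Crest.Agent.R276.TowB_849
open Crest.Agent.R276.ModPack_849 Crest.Agent.R276.CmpR_652 Crest.Agent.R276.Cmp_595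
open Crest.Agent.R276.Ipc735 Crest.Agent.R276.VPull_327 Crest.Agent.R276.PfDer_676
open Crest.Agent.R276.FlatDefs_236 Crest.Agent.R276.Restr_236

/-! ### pull back along comparisons -/

section pull

variable {L K : Type} [Field L] [Field K] [Algebra ℂ L] [Algebra ℂ K] [Algebra L K]
  [IsScalarTower ℂ L K] {m r : ℕ} {R₀ R : RMdl L K m r} {N₂ w₂ : ℕ}

/-- pull back of a VHS along a comparison -/
def vL (h : Cmp R₀ R) (V : VHS m R₀.ML.Pts N₂ w₂) : VHS m R.ML.Pts N₂ w₂ :=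
  pull V (hMap_rs (M := R₀.ML) (M' := R.ML) h.locL)

/-- pull back of a section -/
def omL (h : Cmp R₀ R) (om : R₀.ML.Pts → Fin N₂ → ℂ) : R.ML.Pts → Fin N₂ → ℂ :=
  fun y => om (h.rL y)

theorem cyl_cmp {s N : ℕ} {u : Fin s → R₀.MK.B} {V : VHS m R₀.ML.Pts N₂ w₂}
    {om : R₀.ML.Pts → Fin N₂ → ℂ} (H : CYL R₀ N u V om) (h : Cmp R₀ R)
    (hs : ∀ w, Nonempty (R.Fib w)) : CYL R N (resU h u) (vL h V) (omL h om) :=
  CYL.transport (Θ := cmpMap h hs) (cp_cmp h hs u)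
    (hMap_rs (M := R₀.ML) (M' := R.ML) h.locL) H

end pull

/-! ### slopes -/

section slopes

variable {L : Type} [Field L] [Algebra ℂ L] {m : ℕ} {N₂ w₂ : ℕ}

/-- the period map of `V` has constant rank `ρ`, its kernel is spanned by the derivations
`f_i = ∂_i + ∑ …` of the model, whose common constants are the elements of `T` (Theorem B) -/
structure Slp {M : Mdl L m} (V : VHS m M.Pts N₂ w₂) (T : IntermediateField ℂ L) where
  s : Finset (Fin m)
  e : Fin m ≃ {i // i ∉ s} ⊕ {i // i ∈ s}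
  f : {i // i ∉ s} → Fin m → M.B
  f1 : ∀ i j, f i (e.symm (Sum.inl j)) = if i = j then 1 else 0
  f0 : ∀ (y : M.Pts) i k, ∑ j, y (f i j) * Pd571.gP V y j k = 0
  pos : ∀ y : M.Pts,
    0 < ((Pd571.gP V y).submatrix (e.symm ∘ Sum.inr) (e.symm ∘ Sum.inr)).det.re
  mem : ∀ b : L, b ∈ T ↔ ∀ i, Df M (fun j => (f i j : L)) b = 0

/-- Theorem B for `m > 0` -/
theorem exists_slp {M : Mdl L m} (hm : 0 < m) (V : VHS m M.Pts N₂ w₂) :
    ∃ (s : Finset (Fin m)) (p : MvPolynomial (Fin m) ℂ) (T : IntermediateField ℂ L),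
      p ≠ 0 ∧ (∀ x, IsAlgebraic T x → x ∈ T) ∧ Algebra.trdeg ℂ T = s.card ∧
      ∀ (M' : Mdl L m) (hz : M.zK = M'.zK) (h : M.B ≤ M'.B) (j0 : ℕ), p ∣ M'.h ^ j0 →
        ∃ S : Slp (Slopes_437.restr V hz h) T, S.s = s := by
  obtain ⟨n, rfl⟩ : ∃ n, m = n + 1 := ⟨m - 1, by omega⟩
  obtain ⟨s, p, T, hp, hT, htr, -, -, h⟩ := Pf4_409.main V
  refine ⟨s, p, T, hp, hT, htr, fun M' hz hB j0 hd => ?_⟩
  obtain ⟨f, h1, h0, h2, h3⟩ := h M' hz hB j0 hd
  exact ⟨⟨s, Slopes_437.eS s, f, h1, h0, h2, h3⟩, rfl⟩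

end slopes

/-! ### the data on a tower -/

section tower

variable {L K : Type} [Field L] [Field K] [Algebra ℂ L] [Algebra ℂ K] [Algebra L K]
  [IsScalarTower ℂ L K]

/-- **data on a small tower `W` over the period field**; `R₁` is the old relative model -/
structure TD {T : IntermediateField ℂ L} {ρ a r s : ℕ} (R₁ : RMdl L K (ρ + a) r) (N : ℕ)
    (u : Fin s → R₁.MK.B) {N₂ w₂ : ℕ} (V : VHS (ρ + a) R₁.ML.Pts N₂ w₂)
    (om : R₁.ML.Pts → Fin N₂ → ℂ) (W : Tow T L K ρ a r) : Prop where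
  good : Good W
  cmp : Cmp R₁ W.LK
  sat : SatFam W.LK N (resU cmp u)
  cyl : CYL W.LK N (resU cmp u) (vL cmp V) (omL cmp om)
  /-- the kernel of the period map consists of the vertical vectors -/
  vert : ∀ (z : W.LK.ML.Pts) (v : Fin (ρ + a) → ℂ), (∀ k, v (Fin.castAdd a k) = 0) ↔
    ∀ k, ∑ j, v j * Pd571.gP (vL cmp V) z j k = 0
  block : ∀ z : W.LK.ML.Pts, ((Pd571.gP (vL cmp V) z).submatrix
    (Fin.castAdd a : Fin ρ → Fin (ρ + a)) (Fin.castAdd a)).PosDef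

variable (L K) in
/-- **the package**: period field `T`, coordinates, old relative model `R`, new tower `W` -/
structure Pack (r N s : ℕ) where
  T : IntermediateField ℂ L
  acT : ∀ x : L, IsAlgebraic T x → x ∈ T
  ρ : ℕ
  a : ℕ
  R : RMdl L K (ρ + a) r
  u : Fin s → R.MK.B
  N₂ : ℕ
  w₂ : ℕ
  V : VHS (ρ + a) R.ML.Pts N₂ w₂
  om : R.ML.Pts → Fin N₂ → ℂ
  sat : SatFam R N u
  cyl : CYL R N u V om
  slp : Slp V T
  card : slp.s.card = ρ
  W : Tow T L K ρ a r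
  dv : Dv W
  x_eq : ∀ j, W.MK.zK (Fin.natAdd (ρ + a) j) = R.MK.zK (Fin.natAdd (ρ + a) j)
  ev : Ev W fun W' => TLe W W' ∧ TD R N u V om W'

/-- shrinking of the base only: the fibres do not change -/
theorem nonempty_fib_shrink {m r : ℕ} {R : RMdl L K m r} (h : ∀ w, Nonempty (R.Fib w))
    (p : MvPolynomial (Fin m) ℂ) (hp : p ≠ 0) (w : (R.shrink p hp 1 one_ne_zero).ML.Pts) :
    Nonempty ((R.shrink p hp 1 one_ne_zero).Fib w) := by
  have h1 : Le R (R.shrink p hp 1 one_ne_zero) := le_shrink R hp one_ne_zero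
  have h2 := h1.image_fibre_eq (j := 1) (by
    rw [pow_one]
    change R.MK.h * (MvPolynomial.rename (Fin.castAdd r) p * 1) ∣
      R.MK.h * MvPolynomial.rename (Fin.castAdd r) (R.ML.h * p)
    rw [map_mul, mul_one]
    exact mul_dvd_mul_left _ (Dvd.intro_left _ rfl)) w
  obtain ⟨y⟩ := h (h1.resL w)
  have h3 : y.val ∈ h1.resK '' ((R.shrink p hp 1 one_ne_zero).q ⁻¹' {w}) := by
    rw [h2]
    exact y.q_eq
  obtain ⟨y', hy', -⟩ := h3
  exact ⟨⟨y', hy'⟩⟩

/-- the data on the tower, from the comparison with `R₁` -/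
theorem td_of {T : IntermediateField ℂ L} {ρ a r s : ℕ} {R₁ : RMdl L K (ρ + a) r} {N : ℕ}
    {u : Fin s → R₁.MK.B} {N₂ w₂ : ℕ} {V : VHS (ρ + a) R₁.ML.Pts N₂ w₂}
    {om : R₁.ML.Pts → Fin N₂ → ℂ} (hS : SatFam R₁ N u) (hC : CYL R₁ N u V om)
    (S : Slp V T) (hcard : S.s.card = ρ) {W : Tow T L K ρ a r} (hg : Good W)
    (hc : Cmp R₁ W.LK) : TD R₁ N u V om W := by
  have hs : ∀ w, Nonempty (W.LK.Fib w) := nonempty_fib hg.surjLK
  have hca : Fintype.card {i // i ∉ S.s} = a := by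
    rw [Fintype.card_subtype_compl, Fintype.card_fin, Fintype.card_coe, hcard]
    omega
  have ht : ∀ i k, Df R₁.ML (fun l => (S.f i l : L)) (W.LK.ML.zK (Fin.castAdd a k)) = 0 := by
    intro i k
    have h1 : W.LK.ML.zK (Fin.castAdd a k) ∈ T := by
      have h2 : W.LK.ML.zK (Fin.castAdd a k) = algebraMap T L (W.MT.zK k) := W.zL k
      rw [h2]
      exact (W.MT.zK k).2
    exact (S.mem _).mp h1 i
  have hdet : ∀ y : R₁.ML.Pts,
      ((Pd571.gP V y).submatrix (S.e.symm ∘ Sum.inr) (S.e.symm ∘ Sum.inr)).det ≠ 0 := by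
    intro y h0
    have := S.pos y
    rw [h0] at this
    simp at this
  exact ⟨hg, hc, hS.cmp hc hs, cyl_cmp hC hc hs,
    Vert_595.vertical_iff_pull V hc.locL S.e S.f hca S.f1 S.f0 hdet ht,
    Vert_595.posDef_block V hc.locL S.e S.f hca S.f1 S.f0 hdet ht⟩

/-- **existence of the package** -/
theorem exists_pack {m r s N : ℕ} (hm : 0 < m) (hLK : BN1_143.AC L K) {R₀ : RMdl L K m r}
    {u : Fin s → R₀.MK.B} {N₂ w₂ : ℕ} {V : VHS m R₀.ML.Pts N₂ w₂} {om : R₀.ML.Pts → Fin N₂ → ℂ}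
    (hS : SatFam R₀ N u) (hC : CYL R₀ N u V om) :
    ∃ P : Pack L K r N s, m = P.ρ + P.a ∧ (∀ i, (P.u i : K) = u i) ∧
      (∀ j, P.R.MK.zK (Fin.natAdd (P.ρ + P.a) j) = R₀.MK.zK (Fin.natAdd m j)) ∧
      R₀.ML.B ≤ P.R.ML.B ∧ R₀.MK.B ≤ P.R.MK.B := by
  obtain ⟨s', p, T, hp, hT, htr, hsl⟩ := exists_slp hm V
  have hne : ∀ w, Nonempty (R₀.Fib w) := fun w => (hS.conn w).toNonempty
  have hcmp : Cmp R₀ (R₀.shrink p hp 1 one_ne_zero) := Cmp.shrink_self R₀ p hp 1 one_ne_zero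
  have hle : Le R₀ (R₀.shrink p hp 1 one_ne_zero) := le_shrink R₀ hp one_ne_zero
  have hS1 := hS.cmp hcmp (nonempty_fib_shrink hne p hp)
  have hC1 := cyl_cmp hC hcmp (nonempty_fib_shrink hne p hp)
  obtain ⟨S, hSs⟩ := hsl (R₀.shrink p hp 1 one_ne_zero).ML hle.zL hle.bL 1 (by
    rw [pow_one]
    exact Dvd.intro_left _ rfl)
  have hS' : ∃ S : Slp (vL hcmp V) T, S.s = s' := ⟨S, hSs⟩
  obtain ⟨S1, hS1s⟩ := hS'
  clear S hSs
  have hxeq : ∀ j, (R₀.shrink p hp 1 one_ne_zero).MK.zK (Fin.natAdd m j) =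
    R₀.MK.zK (Fin.natAdd m j) := fun j => hcmp.x_eq j
  have hu1 : ∀ i, ((resU hcmp u i : (R₀.shrink p hp 1 one_ne_zero).MK.B) : K) = u i := fun _ => rfl
  have hb1 := hle.bL
  have hb2 := hle.bK
  generalize (R₀.shrink p hp 1 one_ne_zero) = R₁ at *
  generalize resU hcmp u = u₁ at *
  generalize vL hcmp V = V₁ at *
  generalize omL hcmp om = om₁ at *
  obtain ⟨ρ, a, t, z, hma, ht, -, hz⟩ :=
    exists_coords T (Cmp_595.isTranscendenceBasis R₁.ML)
  have hρ : s'.card = ρ := by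
    have h1 := ht.cardinalMk_eq_trdeg
    rw [htr] at h1
    simp only [Cardinal.mk_fin] at h1
    exact (Nat.cast_injective h1).symm
  subst hma
  obtain ⟨W, hW1, hW2, hW3, hW4, hW5⟩ := modpack (ac_of_mem T hT) hLK R₁ ht hz
  refine ⟨⟨T, hT, ρ, a, R₁, u₁, N₂, w₂, V₁, om₁, hS1, hC1, S1, hS1s ▸ hρ, W, hW4, hW3, ?_⟩, rfl,
    hu1, hxeq, hb1, hb2⟩
  exact hW5.mono fun W' h => ⟨h.1, td_of hS1 hC1 S1 (hS1s ▸ hρ) h.2.1 h.2.2⟩

end tower

end Crest.Agent.R276.CompA_849
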