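import Crest.Agent.R276.RestrE_236
import Crest.Agent.R276.PdC_571

/-!
# Row 276 (S0419), leaf RESTR (helper236), part F: null vectors of the period metric

`dM_of_gP` : if `v` is in the kernel of the period metric `gP` (571) then `∑ vⱼ θⱼ = 0`.
-/

set_option autoImplicit false
set_option linter.unusedSectionVars false

open Set Filter Topology Matrix

noncomputable section

namespace Crest.Agent.R276.Restr_236

open Crest.Agent.R271.Ho51 Crest.Agent.R276.Ipc735 Crest.Agent.R276.VPull_327
open Crest.Agent.R276.Pd571 Crest.Agent.R276.PdL571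

variable {m N w : ℕ} {X : Type*} [TopologicalSpace X] [RDom m X] {V : VHS m X N w}

/-- null vectors of the period metric -/
theorem TE_of_gP {x : X} {v : Fin m → ℂ} (h : ∀ k, ∑ j, v j * gP V x j k = 0) : TE V x v = 0 := by
  rw [TE_eq_zero_iff, bf_apply]
  have h1 : (gP V x)ᵀ *ᵥ v = 0 := by
    funext k
    have h2 := h k
    simp only [Matrix.mulVec, dotProduct, Matrix.transpose_apply, Pi.zero_apply]
    rw [← h2]
    exact Finset.sum_congr rfl fun j _ => mul_comm _ _
  rw [h1]
  simp

/-- **null vectors of the period metric kill the derivative of the Hodge structure** -/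
theorem dM_of_gP {x : X} {v : Fin m → ℂ} (h : ∀ k, ∑ j, v j * gP V x j k = 0) :
    ∑ j, v j • dM V.P V.E j x = 0 := by
  have h1 := TE_of_gP h
  have h2 : TE V x (Complex.I • v) = 0 := TE_of_gP fun k => by
    simp only [Pi.smul_apply, smul_eq_mul, mul_assoc]
    rw [← Finset.mul_sum, h k, mul_zero]
  ext i k
  rw [Matrix.sum_apply]
  have h3 := wz_sum (D (fun y => lM V.P V.E x y i k) x) v
  have h4 : D (fun y => lM V.P V.E x y i k) x v = 0 := congrFun (congrFun h1 i) k
  have h5 : D (fun y => lM V.P V.E x y i k) x (Complex.I • v) = 0 := congrFun (congrFun h2 i) k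
  rw [h4, h5, mul_zero, sub_zero, mul_zero] at h3
  rw [Matrix.zero_apply, h3]
  rfl

/-- one coordinate direction -/
theorem dM_single {x : X} {j : Fin m} (h : ∀ k, gP V x j k = 0) : dM V.P V.E j x = 0 := by
  have h1 := dM_of_gP (V := V) (x := x) (v := Pi.single j 1) (fun k => by
    rw [Finset.sum_eq_single j]
    · simp [h k]
    · intro b _ hb
      simp [Pi.single_eq_of_ne hb]
    · simp)
  rw [Finset.sum_eq_single j] at h1
  · simpa using h1
  · intro b _ hb
    simp [Pi.single_eq_of_ne hb]
  · simp

end Crest.Agent.R276.Restr_236
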