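import Mathlib

/-!
# Row 276 (S0419), leaf TOW (helper244): algebra of the tower of punctured lines

* `step`: for `D ≠ 0` in `R[X]`, `R` a domain of characteristic zero, there are `P ∈ R[X]` and
  `c ≠ 0` in `R` such that over every field point of `{c ≠ 0}` the polynomial `P` has constant
  degree, is separable, and has the same roots as `D`.
* `localRoots`: a polynomial with analytic coefficients, of constant degree near `s₀`, separable at
  `s₀`, has analytic pairwise distinct roots near `s₀`.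
-/

set_option autoImplicit false

open Polynomial Filter
open scoped Topology

noncomputable section

namespace Crest.Agent.R276.Tow_244

section algebra

variable {R : Type*} [CommRing R] [IsDomain R]

/-- clearing denominators -/
lemma clear (p : (FractionRing R)[X]) :
    ∃ b : R, b ≠ 0 ∧ ∃ q : R[X],
      q.map (algebraMap R (FractionRing R)) = C (algebraMap R (FractionRing R) b) * p := by
  obtain ⟨b, hb, h⟩ := IsLocalization.integerNormalization_spec (nonZeroDivisors R) p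
  refine ⟨b, nonZeroDivisors.ne_zero hb, _, h.trans ?_⟩
  rw [← smul_eq_C_mul, algebraMap_smul]

/-- squarefree part, with denominators cleared -/
theorem exists_sqfree [CharZero R] (D : R[X]) (hD : D ≠ 0) :
    ∃ P : R[X], P ≠ 0 ∧ ∃ c : R, c ≠ 0 ∧ ∃ (m : ℕ) (U V Q₁ Q₂ : R[X]),
      U * P + V * derivative P = C c ∧ P * Q₁ = C c * D ∧ D * Q₂ = C c * P ^ m := by
  classical
  set K := FractionRing R
  set i : R →+* K := algebraMap R K with hi
  have hinj : Function.Injective i := IsFractionRing.injective R K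
  have hmi : Function.Injective (Polynomial.map i : R[X] → K[X]) := map_injective i hinj
  have : CharZero K := charZero_of_injective_algebraMap (R := R) hinj
  set D₀ : K[X] := D.map i with hD₀
  have hD₀0 : D₀ ≠ 0 := by
    intro h
    exact hD (hmi (by rw [Polynomial.map_zero]; exact h))
  -- the radical over the fraction field
  obtain ⟨P₀, m, hsq, ⟨E₁, hE₁⟩, ⟨E₂, hE₂⟩⟩ :=
    exists_squarefree_dvd_pow_of_ne_zero hD₀0
  have hsep : P₀.Separable := PerfectField.separable_iff_squarefree.mpr hsq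
  have hP₀0 : P₀ ≠ 0 := hsq.ne_zero
  -- the numerator of `P₀`
  obtain ⟨b, hb, P, hP⟩ := clear P₀
  change P.map i = C (i b) * P₀ at hP
  have hib : i b ≠ 0 := fun h => hb (hinj (by rw [h, map_zero]))
  have hbb : (C (i b)⁻¹ : K[X]) * C (i b) = 1 := by
    rw [← C_mul, inv_mul_cancel₀ hib, C_1]
  have hPP : P₀ = C (i b)⁻¹ * P.map i := by
    rw [hP, ← mul_assoc, hbb, one_mul]
  obtain ⟨u, v, huv⟩ := hsep
  obtain ⟨c₁, hc₁, U, hU⟩ := clear (u * C (i b)⁻¹)
  obtain ⟨c₂, hc₂, V, hV⟩ := clear (v * C (i b)⁻¹)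
  obtain ⟨c₃, hc₃, Q₁, hQ₁⟩ := clear (C (i b)⁻¹ * E₁)
  obtain ⟨c₄, hc₄, Q₂, hQ₂⟩ := clear (C (i b) ^ m * E₂)
  change U.map i = C (i c₁) * _ at hU
  change V.map i = C (i c₂) * _ at hV
  change Q₁.map i = C (i c₃) * _ at hQ₁
  change Q₂.map i = C (i c₄) * _ at hQ₂
  refine ⟨P, ?_, c₁ * c₂ * c₃ * c₄, by simp [hc₁, hc₂, hc₃, hc₄], m,
    C (c₂ * c₃ * c₄) * U, C (c₁ * c₃ * c₄) * V, C (c₁ * c₂ * c₄) * Q₁, C (c₁ * c₂ * c₃) * Q₂,
    ?_, ?_, ?_⟩
  · rintro rfl
    apply hP₀0
    rw [hPP, Polynomial.map_zero, mul_zero]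
  · apply hmi
    simp only [Polynomial.map_add, Polynomial.map_mul, Polynomial.map_C, hU, hV, map_mul]
    have hder : (derivative P).map i = derivative (P.map i) := (derivative_map P i).symm
    rw [hder]
    have hd : derivative P₀ = C (i b)⁻¹ * derivative (P.map i) := by
      rw [hPP, derivative_C_mul]
    rw [hd, hPP] at huv
    have : C (i c₂) * C (i c₃) * C (i c₄) * (C (i c₁) * (u * C (i b)⁻¹)) * Polynomial.map i P +
      C (i c₁) * C (i c₃) * C (i c₄) * (C (i c₂) * (v * C (i b)⁻¹)) * derivative (Polynomial.map i P)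
      = C (i c₁) * C (i c₂) * C (i c₃) * C (i c₄) *
        (u * (C (i b)⁻¹ * Polynomial.map i P) + v * (C (i b)⁻¹ * derivative (Polynomial.map i P))) := by
      ring
    rw [this, huv, mul_one]
  · apply hmi
    simp only [Polynomial.map_mul, Polynomial.map_C, hQ₁, map_mul]
    have : Polynomial.map i P * (C (i c₁) * C (i c₂) * C (i c₄) * (C (i c₃) * (C (i b)⁻¹ * E₁)))
      = C (i c₁) * C (i c₂) * C (i c₃) * C (i c₄) * ((C (i b)⁻¹ * Polynomial.map i P) * E₁) := by
      ring
    rw [this, ← hPP, ← hE₁]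
  · apply hmi
    simp only [Polynomial.map_mul, Polynomial.map_C, hQ₂, map_mul, Polynomial.map_pow]
    have h1 : Polynomial.map i D * (C (i c₁) * C (i c₂) * C (i c₃) * (C (i c₄) * (C (i b) ^ m * E₂)))
      = C (i c₁) * C (i c₂) * C (i c₃) * C (i c₄) * (C (i b) ^ m * (D₀ * E₂)) := by
      rw [hD₀]; ring
    rw [h1, ← hE₂, hP, mul_pow]

/-- **One step of the tower.** -/
theorem step [CharZero R] (D : R[X]) (hD : D ≠ 0) :
    ∃ (P : R[X]) (c : R), P ≠ 0 ∧ c ≠ 0 ∧ ∀ (K : Type) [Field K] (φ : R →+* K), φ c ≠ 0 →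
      (P.map φ).natDegree = P.natDegree ∧ (P.map φ).Separable ∧
      ∀ x : K, (P.map φ).eval x = 0 ↔ (D.map φ).eval x = 0 := by
  obtain ⟨P, hP, c, hc, m, U, V, Q₁, Q₂, h1, h2, h3⟩ := exists_sqfree D hD
  refine ⟨P, P.leadingCoeff * c, hP, mul_ne_zero (leadingCoeff_ne_zero.mpr hP) hc, ?_⟩
  intro K _ φ hφ
  rw [map_mul] at hφ
  have hl : φ P.leadingCoeff ≠ 0 := left_ne_zero_of_mul hφ
  have hφc : φ c ≠ 0 := right_ne_zero_of_mul hφ
  refine ⟨natDegree_map_of_leadingCoeff_ne_zero φ hl, ?_, ?_⟩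
  · refine ⟨C (φ c)⁻¹ * U.map φ, C (φ c)⁻¹ * V.map φ, ?_⟩
    have h := congrArg (Polynomial.map φ) h1
    simp only [Polynomial.map_add, Polynomial.map_mul, Polynomial.map_C] at h
    rw [← derivative_map] at h
    rw [mul_assoc, mul_assoc, ← mul_add, h, ← C_mul, inv_mul_cancel₀ hφc, C_1]
  · intro x
    have h2' := congrArg (fun q => (Polynomial.map φ q).eval x) h2
    have h3' := congrArg (fun q => (Polynomial.map φ q).eval x) h3
    simp only [Polynomial.map_mul, Polynomial.map_C, eval_mul, eval_C, Polynomial.map_pow,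
      eval_pow] at h2' h3'
    constructor
    · intro h
      rw [h, zero_mul] at h2'
      exact (mul_eq_zero.mp h2'.symm).resolve_left hφc
    · intro h
      rw [h, zero_mul] at h3'
      have := (mul_eq_zero.mp h3'.symm).resolve_left hφc
      exact eq_zero_of_pow_eq_zero this

end algebra

section roots

variable {E : Type*} [NormedAddCommGroup E] [NormedSpace ℂ E] [CompleteSpace E]

omit [CompleteSpace E] in
/-- `(s, x) ↦ P_s(x)` is analytic. -/
lemma analyticAt_eval {P : E → ℂ[X]} {s₀ : E} {d : ℕ}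
    (hdeg : ∀ᶠ s in 𝓝 s₀, (P s).natDegree ≤ d)
    (han : ∀ i, AnalyticAt ℂ (fun s => (P s).coeff i) s₀) (x₀ : ℂ) :
    AnalyticAt ℂ (fun q : E × ℂ => (P q.1).eval q.2) (s₀, x₀) := by
  have h1 : AnalyticAt ℂ (fun q : E × ℂ => ∑ i ∈ Finset.range (d + 1),
      (P q.1).coeff i * q.2 ^ i) (s₀, x₀) := by
    refine Finset.analyticAt_fun_sum _ fun i _ => ?_
    refine AnalyticAt.mul ?_ (analyticAt_snd.pow i)
    exact AnalyticAt.comp (g := fun s => (P s).coeff i) (f := Prod.fst) (han i) analyticAt_fst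
  refine h1.congr ?_
  have h2 : ∀ᶠ q : E × ℂ in 𝓝 (s₀, x₀), (P q.1).natDegree ≤ d :=
    (continuousAt_fst (p := (s₀, x₀))).eventually hdeg
  filter_upwards [h2] with q hq
  rw [eval_eq_sum_range' (Nat.lt_succ_of_le hq)]

/-- analytic implicit function theorem at a simple root -/
theorem exists_analytic_root {P : E → ℂ[X]} {s₀ : E} {d : ℕ}
    (hdeg : ∀ᶠ s in 𝓝 s₀, (P s).natDegree ≤ d)
    (han : ∀ i, AnalyticAt ℂ (fun s => (P s).coeff i) s₀) (x₀ : ℂ)
    (h0 : (P s₀).eval x₀ = 0) (h1 : (derivative (P s₀)).eval x₀ ≠ 0) :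
    ∃ a : E → ℂ, AnalyticAt ℂ a s₀ ∧ a s₀ = x₀ ∧ (∀ᶠ s in 𝓝 s₀, (P s).eval (a s) = 0) ∧
      ∀ᶠ q : E × ℂ in 𝓝 (s₀, x₀), (P q.1).eval q.2 = 0 → q.2 = a q.1 := by
  set f : E × ℂ → ℂ := fun q => (P q.1).eval q.2 with hf
  have hfa : AnalyticAt ℂ f (s₀, x₀) := analyticAt_eval hdeg han x₀
  set Ψ : E × ℂ → E × ℂ := fun q => (q.1, f q) with hΨ
  have hA : AnalyticAt ℂ Ψ (s₀, x₀) := analyticAt_fst.prod hfa
  set A : E × ℂ →L[ℂ] ℂ := fderiv ℂ f (s₀, x₀) with hAdef
  have hpe : HasFDerivAt f A (s₀, x₀) := hfa.differentiableAt.hasFDerivAt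
  set δ : ℂ := (derivative (P s₀)).eval x₀ with hδ
  have hA1 : A (0, 1) = δ := by
    have h2 : HasDerivAt (fun t : ℂ => ((s₀, t) : E × ℂ)) ((0, 1) : E × ℂ) x₀ :=
      (hasDerivAt_const x₀ s₀).prodMk (hasDerivAt_id x₀)
    have h3 : HasDerivAt (fun t => f (s₀, t)) (A (0, 1)) x₀ := by
      have h4 : HasFDerivAt f A ((fun t : ℂ => ((s₀, t) : E × ℂ)) x₀) := hpe
      exact h4.comp_hasDerivAt x₀ h2
    exact h3.unique ((P s₀).hasDerivAt x₀)
  have hA2 : ∀ (v : E) (t : ℂ), A (v, t) = A (v, 0) + t * δ := by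
    intro v t
    have : ((v, t) : E × ℂ) = (v, 0) + t • ((0, 1) : E × ℂ) := by simp
    rw [this, map_add, map_smul, hA1, smul_eq_mul]
  -- the derivative is invertible
  let L : (E × ℂ) ≃L[ℂ] (E × ℂ) :=
    ContinuousLinearEquiv.equivOfInverse
      ((ContinuousLinearMap.fst ℂ E ℂ).prod A)
      ((ContinuousLinearMap.fst ℂ E ℂ).prod
        (δ⁻¹ • (ContinuousLinearMap.snd ℂ E ℂ -
          A.comp ((ContinuousLinearMap.fst ℂ E ℂ).prod 0))))
      (by
        rintro ⟨v, t⟩
        have := hA2 v t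
        simp [this]
        field_simp
        )
      (by
        rintro ⟨v, t⟩
        simp
        rw [hA2]
        field_simp
        ring)
  have hD : HasFDerivAt Ψ (L : (E × ℂ) →L[ℂ] (E × ℂ)) (s₀, x₀) := hasFDerivAt_fst.prodMk hpe
  have hC : ContDiffAt ℂ (⊤ : WithTop ℕ∞) Ψ (s₀, x₀) := hA.contDiffAt
  set e := hC.toOpenPartialHomeomorph Ψ hD (by simp) with he
  have hecoe : ∀ q, e q = Ψ q := fun q => rfl
  have hsrc : (s₀, x₀) ∈ e.source := hC.mem_toOpenPartialHomeomorph_source hD (by simp)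
  have hval : Ψ (s₀, x₀) = (s₀, 0) := by simp [hΨ, hf, h0]
  have htgt : ((s₀, 0) : E × ℂ) ∈ e.target := by
    rw [← hval]; exact e.map_source hsrc
  have hsymm : AnalyticAt ℂ e.symm (s₀, 0) := by
    have h7 := hC.to_localInverse hD (by simp)
    rw [hval] at h7
    exact h7.analyticAt
  have hsymm0 : e.symm (s₀, 0) = (s₀, x₀) := by
    rw [← hval]; exact e.left_inv hsrc
  have hinc : ContinuousAt (fun w : E => ((w, 0) : E × ℂ)) s₀ := by fun_prop
  have hev : ∀ᶠ w in 𝓝 s₀, ((w, 0) : E × ℂ) ∈ e.target :=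
    hinc.eventually_mem (e.open_target.mem_nhds htgt)
  refine ⟨fun w => (e.symm (w, 0)).2, ?_, ?_, ?_, ?_⟩
  · have h8 : AnalyticAt ℂ (fun w : E => ((w, 0) : E × ℂ)) s₀ :=
      analyticAt_id.prod analyticAt_const
    have h9 : AnalyticAt ℂ (fun w => e.symm (w, 0)) s₀ :=
      AnalyticAt.comp (g := e.symm) (f := fun w : E => ((w, 0) : E × ℂ)) hsymm h8
    exact AnalyticAt.comp (g := Prod.snd) (f := fun w : E => e.symm ((w, 0) : E × ℂ))
      analyticAt_snd h9
  · simp [hsymm0]
  · filter_upwards [hev] with w hw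
    have h10 : Ψ (e.symm (w, 0)) = (w, 0) := by
      rw [← hecoe]; exact e.right_inv hw
    have h11 : (e.symm (w, 0)).1 = w := congrArg Prod.fst h10
    have h12 : f (e.symm (w, 0)) = 0 := congrArg Prod.snd h10
    have h13 : ((w, (e.symm (w, 0)).2) : E × ℂ) = e.symm (w, 0) := Prod.ext h11.symm rfl
    have h14 : f (w, (e.symm (w, 0)).2) = 0 := by rw [h13]; exact h12
    exact h14
  · filter_upwards [e.open_source.mem_nhds hsrc] with q hq hq0
    have h14 : Ψ q = (q.1, 0) := by simp [hΨ, hf, hq0]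
    have h15 : e.symm (q.1, 0) = q := by
      rw [← h14]; exact e.left_inv hq
    simp [h15]

/-- a polynomial with as many distinct roots as its degree -/
lemma eq_prod_of_roots {d : ℕ} {p : ℂ[X]} (hp : p.natDegree = d) (hp0 : p ≠ 0)
    {x : Fin d → ℂ} (hx : Function.Injective x) (hr : ∀ i, p.eval (x i) = 0) :
    p = C p.leadingCoeff * ∏ i, (X - C (x i)) ∧ ∀ y, p.eval y = 0 ↔ ∃ i, x i = y := by
  classical
  have hle : (Finset.univ.val.map x) ≤ p.roots := by
    rw [Multiset.le_iff_subset (Multiset.Nodup.map hx Finset.univ.nodup)]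
    intro y hy
    rw [Multiset.mem_map] at hy
    obtain ⟨i, -, rfl⟩ := hy
    exact (mem_roots hp0).mpr (hr i)
  have heq : (Finset.univ.val.map x) = p.roots := by
    refine Multiset.eq_of_le_of_card_le hle ?_
    rw [Multiset.card_map, Finset.card_val, Finset.card_univ, Fintype.card_fin, ← hp]
    exact p.card_roots'
  have hcard : Multiset.card p.roots = p.natDegree := by
    rw [← heq, Multiset.card_map, Finset.card_val, Finset.card_univ, Fintype.card_fin, hp]
  have h1 := C_leadingCoeff_mul_prod_multiset_X_sub_C hcard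
  constructor
  · rw [← heq, Multiset.map_map] at h1
    exact h1.symm
  · intro y
    have h2 : p.eval y = 0 ↔ y ∈ p.roots := (mem_roots hp0).symm
    rw [h2, ← heq, Multiset.mem_map]
    simp

/-- **Local analytic roots** of a family of polynomials, separable of constant degree. -/
theorem localRoots {P : E → ℂ[X]} {s₀ : E} {d : ℕ}
    (hdeg : ∀ᶠ s in 𝓝 s₀, (P s).natDegree ≤ d) (hd : (P s₀).natDegree = d)
    (hsep : (P s₀).Separable)
    (han : ∀ i, AnalyticAt ℂ (fun s => (P s).coeff i) s₀) :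
    ∃ a : Fin d → E → ℂ, (∀ i, AnalyticAt ℂ (a i) s₀) ∧ (Function.Injective fun i => a i s₀) ∧
      ∀ᶠ s in 𝓝 s₀, (P s).natDegree = d ∧ (Function.Injective fun i => a i s) ∧
        P s = C (P s).leadingCoeff * ∏ i, (X - C (a i s)) ∧
        ∀ x, (P s).eval x = 0 ↔ ∃ i, a i s = x := by
  classical
  have hP0 : P s₀ ≠ 0 := hsep.ne_zero
  have hcard : Multiset.card (P s₀).roots = d := by
    rw [← hd]
    exact splits_iff_card_roots.mp (IsAlgClosed.splits (P s₀))
  have hnd : (P s₀).roots.Nodup := nodup_roots hsep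
  -- enumerate the roots at `s₀`
  let F : Finset ℂ := (P s₀).roots.toFinset
  have hF : F.card = d := by
    rw [← hcard]; exact Multiset.toFinset_card_of_nodup hnd
  let eq : Fin d ≃ F := (F.equivFinOfCardEq hF).symm
  let x : Fin d → ℂ := fun i => (eq i : ℂ)
  have hxinj : Function.Injective x := fun i j h => eq.injective (Subtype.ext h)
  have hxr : ∀ i, (P s₀).eval (x i) = 0 := by
    intro i
    have h : (eq i : ℂ) ∈ F := (eq i).2
    rw [Multiset.mem_toFinset] at h
    exact (mem_roots hP0).mp h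
  have hder : ∀ i, (derivative (P s₀)).eval (x i) ≠ 0 := by
    intro i
    have h := hsep.eval₂_derivative_ne_zero (RingHom.id ℂ) (x := x i) (by simpa using hxr i)
    simpa using h
  choose a haA ha0 har _ using fun i => exists_analytic_root hdeg han (x i) (hxr i) (hder i)
  have hinj0 : Function.Injective fun i => a i s₀ := by
    intro i j h
    simp only [ha0] at h
    exact hxinj h
  refine ⟨a, haA, hinj0, ?_⟩
  have hlc : ∀ᶠ s in 𝓝 s₀, (P s).coeff d ≠ 0 := by
    refine (han d).continuousAt.eventually_ne ?_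
    rw [← hd]
    exact leadingCoeff_ne_zero.mpr hP0
  have hij : ∀ᶠ s in 𝓝 s₀, ∀ i j, i ≠ j → a i s ≠ a j s := by
    rw [eventually_all]
    intro i
    rw [eventually_all]
    intro j
    rw [eventually_imp_distrib_left]
    intro hne
    exact ((haA i).continuousAt.ne_iff_eventually_ne (haA j).continuousAt).mp (hinj0.ne hne)
  have hall : ∀ᶠ s in 𝓝 s₀, ∀ i, (P s).eval (a i s) = 0 := eventually_all.mpr har
  filter_upwards [hdeg, hlc, hij, hall] with s g1 g2 g3 g4
  have hdeg' : (P s).natDegree = d := le_antisymm g1 (le_natDegree_of_ne_zero g2)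
  have hinj : Function.Injective fun i => a i s := by
    intro i j h
    by_contra hne
    exact g3 i j hne h
  have hPs : P s ≠ 0 := by
    rintro h
    rw [h] at g2
    simp at g2
  obtain ⟨h1, h2⟩ := eq_prod_of_roots hdeg' hPs hinj g4
  exact ⟨hdeg', hinj, h1, h2⟩

end roots

section tower

/-- the isomorphism `ℂ[w₀,…,wₙ] ≃ ℂ[w₀,…,wₙ₋₁][X]`, last variable `↦ X` -/
def lastEquiv (n : ℕ) : MvPolynomial (Fin (n + 1)) ℂ ≃ₐ[ℂ] Polynomial (MvPolynomial (Fin n) ℂ) :=
  (MvPolynomial.renameEquiv ℂ finSuccEquivLast).trans (MvPolynomial.optionEquivLeft ℂ (Fin n))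

/-- the value of `P ∈ ℂ[w₀,…,wₙ₋₁][X]` at the point `w` -/
abbrev at' {n : ℕ} (P : Polynomial (MvPolynomial (Fin n) ℂ)) (w : Fin n → ℂ) : ℂ[X] :=
  P.map (MvPolynomial.eval w)

lemma eval_lastEquiv {n : ℕ} (f : MvPolynomial (Fin (n + 1)) ℂ) (w : Fin n → ℂ) (t : ℂ) :
    (at' (lastEquiv n f) w).eval t = MvPolynomial.eval (Fin.snoc w t : Fin (n + 1) → ℂ) f := by
  have h := MvPolynomial.optionEquivLeft_elim_eval (R := ℂ) (S₁ := Fin n) w t
    (MvPolynomial.rename finSuccEquivLast f)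
  rw [MvPolynomial.eval_rename] at h
  have h2 : ((fun x : Option (Fin n) => Option.elim x t w) ∘ finSuccEquivLast) =
      (Fin.snoc w t : Fin (n + 1) → ℂ) := by
    funext i
    refine Fin.lastCases ?_ (fun j => ?_) i
    · simp
    · simp
  rw [h2] at h
  exact h.symm

/-- one step, for polynomials over `ℂ` -/
theorem stepC {n : ℕ} (f : MvPolynomial (Fin (n + 1)) ℂ) (hf : f ≠ 0) :
    ∃ (P : Polynomial (MvPolynomial (Fin n) ℂ)) (c : MvPolynomial (Fin n) ℂ), P ≠ 0 ∧ c ≠ 0 ∧
      ∀ w : Fin n → ℂ, MvPolynomial.eval w c ≠ 0 →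
        (at' P w).natDegree = P.natDegree ∧ (at' P w).Separable ∧
        ∀ t : ℂ, (at' P w).eval t = 0 ↔ MvPolynomial.eval (Fin.snoc w t : Fin (n + 1) → ℂ) f = 0 := by
  obtain ⟨P, c, hP, hc, h⟩ := step (lastEquiv n f) (by
    intro h0
    exact hf ((lastEquiv n).injective (by rw [h0, map_zero])))
  refine ⟨P, c, hP, hc, fun w hw => ?_⟩
  obtain ⟨h1, h2, h3⟩ := h ℂ (MvPolynomial.eval w) hw
  refine ⟨h1, h2, fun t => ?_⟩
  rw [← eval_lastEquiv]
  exact h3 t

/-- **TOW1: the tower of discriminants.** -/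
theorem tower (m r : ℕ) (h : MvPolynomial (Fin (m + r)) ℂ) (hh : h ≠ 0) :
    ∃ (c : (j : ℕ) → MvPolynomial (Fin (m + j)) ℂ)
      (P : (j : ℕ) → Polynomial (MvPolynomial (Fin (m + j)) ℂ)),
      c r = h ∧ (∀ j ≤ r, c j ≠ 0) ∧ ∀ j < r, P j ≠ 0 ∧ ∀ w : Fin (m + j) → ℂ,
        MvPolynomial.eval w (c j) ≠ 0 →
          (at' (P j) w).natDegree = (P j).natDegree ∧ (at' (P j) w).Separable ∧
          ∀ t : ℂ, (at' (P j) w).eval t = 0 ↔
            MvPolynomial.eval (Fin.snoc w t : Fin (m + j + 1) → ℂ) (c (j + 1)) = 0 := by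
  induction r with
  | zero =>
    refine ⟨fun j => if hj : j = 0 then hj ▸ h else 0, fun j => 0, by simp, ?_, by simp⟩
    intro j hj
    obtain rfl : j = 0 := by omega
    simpa using hh
  | succ r ih =>
    obtain ⟨P', c', hP', hc', h'⟩ := stepC (n := m + r) h hh
    obtain ⟨c, P, h1, h2, h3⟩ := ih c' hc'
    refine ⟨Function.update c (r + 1) h, Function.update P r P', ?_, ?_, ?_⟩
    · simp
    · intro j hj
      rcases Nat.lt_or_ge r j with hj' | hj'
      · obtain rfl : j = r + 1 := by omega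
        simpa using hh
      · rw [Function.update_of_ne (by omega)]
        exact h2 j hj'
    · intro j hj
      rcases Nat.lt_or_ge j r with hj' | hj'
      · rw [Function.update_of_ne (by omega : j ≠ r), Function.update_of_ne (by omega : j ≠ r + 1),
          Function.update_of_ne (by omega : j + 1 ≠ r + 1)]
        exact h3 j hj'
      · obtain rfl : j = r := by omega
        rw [Function.update_self, Function.update_of_ne (by omega : j ≠ j + 1),
          Function.update_self, h1]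
        exact ⟨hP', h'⟩

end tower

end Crest.Agent.R276.Tow_244
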