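import Crest.Agent.R276.IpcDefs_735
import Crest.Agent.R276.Tow_244

/-!
# Row 276 (S0419), leaf TOW, part 2 (helper244): the tower of punctured lines over a Riemann domain

* `PTow m`, `exists_ptow`: the polynomial tower (coordinate `0` = fibre coordinate).
* `puncOfPoly`: a family of separable polynomials of constant degree with holomorphic coefficients
  gives a family of punctures.
* `Lvl`, `PTow.lvl`: the levels `X_0 = S`, `X_{j+1} = Tot`.
-/

set_option autoImplicit false

noncomputable section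

open Set Filter Topology MeasureTheory
open Crest.Agent.R271.Ho51 Crest.Agent.R276.Ipc735

namespace Crest.Agent.R276.Tow2_244

open Crest.Agent.R276.Tow_244 (at' step localRoots)

/-! ### the polynomial tower -/

/-- one step, for polynomials over `ℂ`; variable `0` is the fibre variable -/
theorem stepCons {n : ℕ} (f : MvPolynomial (Fin (n + 1)) ℂ) (hf : f ≠ 0) :
    ∃ (P : Polynomial (MvPolynomial (Fin n) ℂ)) (c : MvPolynomial (Fin n) ℂ), P ≠ 0 ∧ c ≠ 0 ∧
      ∀ w : Fin n → ℂ, MvPolynomial.eval w c ≠ 0 →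
        (at' P w).natDegree = P.natDegree ∧ (at' P w).Separable ∧
        ∀ t : ℂ, (at' P w).eval t = 0 ↔ MvPolynomial.eval (Fin.cons t w : Fin (n + 1) → ℂ) f = 0 := by
  obtain ⟨P, c, hP, hc, h⟩ := step (MvPolynomial.finSuccEquiv ℂ n f) (by
    intro h0
    exact hf ((MvPolynomial.finSuccEquiv ℂ n).injective (by rw [h0, map_zero])))
  refine ⟨P, c, hP, hc, fun w hw => ?_⟩
  obtain ⟨h1, h2, h3⟩ := h ℂ (MvPolynomial.eval w) hw
  refine ⟨h1, h2, fun t => ?_⟩
  rw [MvPolynomial.eval_eq_eval_mv_eval']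
  exact h3 t

/-- the tower of discriminants: over `{c_j ≠ 0}` the polynomial `P_j` is separable of constant degree in
the new variable, with zero set `{c_{j+1} = 0}` -/
structure PTow (m : ℕ) where
  c : (j : ℕ) → MvPolynomial (Fin (m + j)) ℂ
  P : (j : ℕ) → Polynomial (MvPolynomial (Fin (m + j)) ℂ)
  prop : ∀ (j : ℕ) (w : Fin (m + j) → ℂ), MvPolynomial.eval w (c j) ≠ 0 →
    (at' (P j) w).natDegree = (P j).natDegree ∧ (at' (P j) w).Separable ∧
      ∀ t : ℂ, (at' (P j) w).eval t = 0 ↔
        MvPolynomial.eval (Fin.cons t w : Fin (m + j + 1) → ℂ) (c (j + 1)) = 0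

lemma eval_cons_succ {n : ℕ} (f : MvPolynomial (Fin n) ℂ) (w : Fin n → ℂ) (t : ℂ) :
    MvPolynomial.eval (Fin.cons t w : Fin (n + 1) → ℂ) (MvPolynomial.rename Fin.succ f) =
      MvPolynomial.eval w f := by
  rw [MvPolynomial.eval_rename]
  rfl

/-- the trivial tower over `c₀` -/
def trivC {m : ℕ} (c₀ : MvPolynomial (Fin m) ℂ) : (j : ℕ) → MvPolynomial (Fin (m + j)) ℂ
  | 0 => c₀
  | (j + 1) => MvPolynomial.rename Fin.succ (trivC c₀ j)

lemma prop_one {n : ℕ} (f : MvPolynomial (Fin n) ℂ) (w : Fin n → ℂ) (hw : MvPolynomial.eval w f ≠ 0) :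
    (at' (1 : Polynomial (MvPolynomial (Fin n) ℂ)) w).natDegree =
        (1 : Polynomial (MvPolynomial (Fin n) ℂ)).natDegree ∧
      (at' (1 : Polynomial (MvPolynomial (Fin n) ℂ)) w).Separable ∧
      ∀ t : ℂ, (at' (1 : Polynomial (MvPolynomial (Fin n) ℂ)) w).eval t = 0 ↔
        MvPolynomial.eval (Fin.cons t w : Fin (n + 1) → ℂ) (MvPolynomial.rename Fin.succ f) = 0 := by
  refine ⟨by simp [at'], ?_, fun t => ?_⟩
  · simp only [at', Polynomial.map_one]
    exact Polynomial.separable_one
  · rw [eval_cons_succ]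
    simp [at', hw]

/-- the trivial tower -/
def PTow.triv {m : ℕ} (c₀ : MvPolynomial (Fin m) ℂ) : PTow m where
  c := trivC c₀
  P := fun _ => 1
  prop := fun j w hw => prop_one (trivC c₀ j) w hw

/-- extension of a tower by one step at level `r` -/
def extC {m : ℕ} (T : PTow m) (r : ℕ) (h : MvPolynomial (Fin (m + (r + 1))) ℂ) :
    (j : ℕ) → MvPolynomial (Fin (m + j)) ℂ
  | 0 => T.c 0
  | (j + 1) => if hj : r = j then (by rw [← hj]; exact h) else
      if j < r then T.c (j + 1) else MvPolynomial.rename Fin.succ (extC T r h j)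

lemma extC_le {m : ℕ} (T : PTow m) (r : ℕ) (h : MvPolynomial (Fin (m + (r + 1))) ℂ) {j : ℕ}
    (hj : j ≤ r) : extC T r h j = T.c j := by
  cases j with
  | zero => rfl
  | succ j =>
    unfold extC
    rw [dif_neg (by omega), if_pos (by omega)]

lemma extC_succ_self {m : ℕ} (T : PTow m) (r : ℕ) (h : MvPolynomial (Fin (m + (r + 1))) ℂ) :
    extC T r h (r + 1) = h := by
  unfold extC
  rw [dif_pos rfl]
  rfl

lemma extC_gt {m : ℕ} (T : PTow m) (r : ℕ) (h : MvPolynomial (Fin (m + (r + 1))) ℂ) {j : ℕ}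
    (hj : r < j) : extC T r h (j + 1) = MvPolynomial.rename Fin.succ (extC T r h j) := by
  conv_lhs => unfold extC
  rw [dif_neg (by omega), if_neg (by omega)]

/-- extension of the polynomials -/
def extP {m : ℕ} (T : PTow m) (r : ℕ) (P' : Polynomial (MvPolynomial (Fin (m + r)) ℂ)) (j : ℕ) :
    Polynomial (MvPolynomial (Fin (m + j)) ℂ) :=
  if hj : r = j then (by rw [← hj]; exact P') else if j < r then T.P j else 1

/-- **The polynomial tower.** -/
theorem exists_ptow (m r : ℕ) (h : MvPolynomial (Fin (m + r)) ℂ) (hh : h ≠ 0) :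
    ∃ T : PTow m, T.c r = h ∧ ∀ j ≤ r, T.c j ≠ 0 := by
  induction r with
  | zero =>
    refine ⟨PTow.triv h, rfl, ?_⟩
    intro j hj
    obtain rfl : j = 0 := by omega
    exact hh
  | succ r ih =>
    obtain ⟨P', c', hP', hc', h'⟩ := stepCons (n := m + r) h hh
    obtain ⟨T, h1, h2⟩ := ih c' hc'
    refine ⟨⟨extC T r h, extP T r P', ?_⟩, extC_succ_self T r h, ?_⟩
    · intro j w hw
      rcases lt_trichotomy j r with hj | hj | hj
      · have e1 : extP T r P' j = T.P j := by
          unfold extP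
          rw [dif_neg (by omega), if_pos hj]
        rw [e1, extC_le T r h (show j + 1 ≤ r by omega)]
        rw [extC_le T r h hj.le] at hw
        exact T.prop j w hw
      · subst hj
        have e1 : extP T j P' j = P' := by
          unfold extP
          rw [dif_pos rfl]
          rfl
        rw [e1, extC_succ_self]
        rw [extC_le T j h le_rfl, h1] at hw
        exact h' w hw
      · have e1 : extP T r P' j = 1 := by
          unfold extP
          rw [dif_neg (by omega), if_neg (by omega)]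
        rw [e1, extC_gt T r h hj]
        exact prop_one _ w hw
    · intro j hj
      rcases Nat.lt_or_ge r j with hj' | hj'
      · obtain rfl : j = r + 1 := by omega
        change extC T r h (r + 1) ≠ 0
        rw [extC_succ_self T r h]
        exact hh
      · change extC T r h j ≠ 0
        rw [extC_le T r h hj']
        exact h2 j hj'

/-! ### punctures from polynomials -/

section punc

variable {m : ℕ} {S : Type*} [TopologicalSpace S] [RDom m S]

/-- a function of the coordinates is holomorphic if it is analytic -/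
lemma holAt_comp_cp {G : Type*} [NormedAddCommGroup G] [NormedSpace ℂ G] {g : (Fin m → ℂ) → G}
    {z : S} (hg : AnalyticAt ℂ g (cp z)) : HolAt (fun s : S => g (cp s)) z := by
  have h1 : ((fun x : S => g (cp x)) ∘ (ch z).symm) =ᶠ[𝓝 (cp z)] g := by
    filter_upwards [(ch z).open_target.mem_nhds ((isCh_ch z).cp_mem (mem_ch z))] with y hy
    simp [(isCh_ch z).cp_symm hy]
  exact hg.congr h1.symm

/-- coefficients of a polynomial over `ℂ[w]` evaluated at the coordinates are holomorphic -/
lemma holAt_coeff_at' (P : Polynomial (MvPolynomial (Fin m) ℂ)) (i : ℕ) (z : S) :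
    HolAt (fun s : S => (at' P (cp s)).coeff i) z := by
  have h : (fun s : S => (at' P (cp s)).coeff i) =
      fun s : S => MvPolynomial.eval (cp s) (P.coeff i) := by
    funext s
    simp [at', Polynomial.coeff_map]
  rw [h]
  exact holAt_comp_cp (AnalyticOnNhd.eval_mvPolynomial (P.coeff i) (cp z) (mem_univ _))

/-- a family of separable polynomials of constant degree with holomorphic coefficients gives a family
of punctures -/
def puncOfPoly (P : S → Polynomial ℂ) (k : ℕ)
    (hol : ∀ (i : ℕ) (s : S), HolAt (fun s => (P s).coeff i) s)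
    (hdeg : ∀ s, (P s).natDegree = k) (hsep : ∀ s, (P s).Separable) : Punc S k where
  A := fun s => (P s).roots.toFinset
  loc := by
    classical
    intro s₀
    -- the family in the chart
    set e := ch s₀ with he
    have hcp : (fun s => P s) =ᶠ[𝓝 s₀] fun s => (fun w => P (e.symm w)) (cp s) := by
      filter_upwards [e.open_source.mem_nhds (mem_ch s₀)] with y hy
      rw [(isCh_ch s₀).symm_cp hy]
    obtain ⟨b, hb1, hb2, hb3⟩ := localRoots (P := fun w => P (e.symm w)) (s₀ := cp s₀) (d := k)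
      (Eventually.of_forall fun w => (hdeg _).le) (hdeg _) (hsep _) (fun i => hol i s₀)
    refine ⟨fun i s => b i (cp s), fun i => holAt_comp_cp (hb1 i), ?_⟩
    have h3 : ∀ᶠ s : S in 𝓝 s₀, _ := (cp_cont (M := S)).continuousAt.eventually hb3
    filter_upwards [h3, hcp] with s hs hPs
    obtain ⟨g1, g2, g3, g4⟩ := hs
    refine ⟨g2, ?_⟩
    ext x
    have hne : P s ≠ 0 := (hsep s).ne_zero
    rw [Multiset.mem_toFinset, Polynomial.mem_roots hne, Polynomial.IsRoot.def, hPs, g4 x]
    simp

@[simp] lemma mem_puncOfPoly {P : S → Polynomial ℂ} {k : ℕ}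
    {hol : ∀ (i : ℕ) (s : S), HolAt (fun s => (P s).coeff i) s}
    {hdeg : ∀ s, (P s).natDegree = k} {hsep : ∀ s, (P s).Separable} {s : S} {x : ℂ} :
    x ∈ (puncOfPoly P k hol hdeg hsep).A s ↔ (P s).eval x = 0 := by
  change x ∈ (P s).roots.toFinset ↔ _
  rw [Multiset.mem_toFinset, Polynomial.mem_roots (hsep s).ne_zero, Polynomial.IsRoot.def]

variable {k : ℕ} (Q : Punc S k)

instance [T2Space S] : T2Space (Tot Q) :=
  inferInstanceAs (T2Space {q : S × ℂ // q.2 ∉ Q.A q.1})

instance [SecondCountableTopology S] : SecondCountableTopology (Tot Q) :=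
  TopologicalSpace.Subtype.secondCountableTopology {q : S × ℂ | q.2 ∉ Q.A q.1}

/-- the projection to the base -/
def Tot.fst (q : Tot Q) : S := q.1.1

lemma continuous_fst' : Continuous (Tot.fst Q) := continuous_fst.comp continuous_subtype_val

lemma isOpenMap_fst' : IsOpenMap (Tot.fst Q) :=
  isOpenMap_fst.comp (IsOpen.isOpenEmbedding_subtypeVal (isOpen_tot Q)).isOpenMap

lemma surjective_fst' : Function.Surjective (Tot.fst Q) := by
  intro s
  obtain ⟨x, hx⟩ := (Q.A s).finite_toSet.exists_notMem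
  exact ⟨Tot.mk Q s x (by simpa using hx), rfl⟩

lemma isConnected_fibre (s : S) : IsConnected (Tot.fst Q ⁻¹' {s}) := by
  have h1 : IsConnected ((Q.A s : Set ℂ)ᶜ) := by
    apply Set.Countable.isConnected_compl_of_one_lt_rank
    · simp
    · exact (Q.A s).finite_toSet.countable
  have h2 : ContinuousOn (fun x : ℂ => (s, x)) ((Q.A s : Set ℂ)ᶜ) := by fun_prop
  let f : ((Q.A s : Set ℂ)ᶜ : Set ℂ) → Tot Q := fun x => Tot.mk Q s x.1
    (fun h => x.2 (Finset.mem_coe.mpr h))
  have hf : Continuous f := by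
    refine Continuous.subtype_mk ?_ _
    exact continuous_const.prodMk continuous_subtype_val
  have h3 : IsConnected (univ : Set ((Q.A s : Set ℂ)ᶜ : Set ℂ)) := by
    have := isConnected_iff_connectedSpace.mp h1
    exact isConnected_univ
  have h4 := h3.image f hf.continuousOn
  have h5 : Tot.fst Q ⁻¹' {s} = f '' univ := by
    ext q
    constructor
    · intro hq
      obtain ⟨⟨s', x⟩, hx⟩ := q
      have hs : s' = s := hq
      subst hs
      exact ⟨⟨x, by simpa using hx⟩, trivial, rfl⟩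
    · rintro ⟨x, -, rfl⟩
      rfl
  rw [h5]
  exact h4

instance [PreconnectedSpace S] : PreconnectedSpace (Tot Q) := by
  rcases isEmpty_or_nonempty S with hS | hS
  · have : IsEmpty (Tot Q) := ⟨fun q => hS.false (Tot.fst Q q)⟩
    infer_instance
  · have hq : IsOpenQuotientMap (Tot.fst Q) := ⟨surjective_fst' Q, continuous_fst' Q, isOpenMap_fst' Q⟩
    have hc : Topology.IsCoinducing (Tot.fst Q) := hq.isQuotientMap.isCoinducing
    have h1 : IsConnected (univ : Set S) := ⟨univ_nonempty, isPreconnected_univ⟩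
    have h2 := hc.isConnected_preimage_of_isClosed (isConnected_fibre Q) isClosed_univ h1
    rw [preimage_univ] at h2
    exact ⟨h2.2⟩

end punc

/-! ### levels -/

/-- a level of the tower -/
structure Lvl (n : ℕ) (c : MvPolynomial (Fin n) ℂ) where
  X : Type
  [top : TopologicalSpace X]
  [rd : RDom n X]
  [t2 : T2Space X]
  [sc : SecondCountableTopology X]
  [pc : PreconnectedSpace X]
  hc : ∀ x : X, MvPolynomial.eval (cp x) c ≠ 0

attribute [instance] Lvl.top Lvl.rd Lvl.t2 Lvl.sc Lvl.pc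

namespace PTow

variable {m : ℕ} (T : PTow m)

/-- the punctures over a level -/
def punc (j : ℕ) (L : Lvl (m + j) (T.c j)) : Punc L.X (T.P j).natDegree :=
  puncOfPoly (fun x : L.X => at' (T.P j) (cp x)) _ (fun i z => holAt_coeff_at' (T.P j) i z)
    (fun x => (T.prop j _ (L.hc x)).1) (fun x => (T.prop j _ (L.hc x)).2.1)

lemma mem_punc (j : ℕ) (L : Lvl (m + j) (T.c j)) (x : L.X) (t : ℂ) :
    t ∈ (T.punc j L).A x ↔
      MvPolynomial.eval (Fin.cons t (cp x) : Fin (m + j + 1) → ℂ) (T.c (j + 1)) = 0 := by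
  rw [punc, mem_puncOfPoly]
  exact (T.prop j _ (L.hc x)).2.2 t

/-- the next level -/
def next (j : ℕ) (L : Lvl (m + j) (T.c j)) : Lvl (m + (j + 1)) (T.c (j + 1)) where
  X := Tot (T.punc j L)
  rd := inferInstanceAs (RDom (m + j + 1) (Tot (T.punc j L)))
  hc := by
    intro q h
    exact q.2 ((T.mem_punc j L q.1.1 q.1.2).mpr h)

/-- the levels over a base -/
def lvl (L₀ : Lvl m (T.c 0)) : (j : ℕ) → Lvl (m + j) (T.c j)
  | 0 => L₀
  | (j + 1) => T.next j (lvl L₀ j)

@[simp] lemma lvl_zero (L₀ : Lvl m (T.c 0)) : T.lvl L₀ 0 = L₀ := rfl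

@[simp] lemma lvl_succ (L₀ : Lvl m (T.c 0)) (j : ℕ) : T.lvl L₀ (j + 1) = T.next j (T.lvl L₀ j) := rfl

/-- the coordinates of a point of the next level -/
lemma cp_next (j : ℕ) (L : Lvl (m + j) (T.c j)) (q : (T.next j L).X) :
    (cp q : Fin (m + (j + 1)) → ℂ) = (Fin.cons q.1.2 (cp q.1.1) : Fin (m + j + 1) → ℂ) := rfl

/-- the projection of the level `j` to the base -/
def toBase (L₀ : Lvl m (T.c 0)) : (j : ℕ) → (T.lvl L₀ j).X → L₀.X
  | 0 => id
  | (j + 1) => fun q => toBase L₀ j q.1.1

lemma continuous_toBase (L₀ : Lvl m (T.c 0)) (j : ℕ) : Continuous (T.toBase L₀ j) := by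
  induction j with
  | zero => exact continuous_id
  | succ j ih => exact ih.comp (continuous_fst' (T.punc j (T.lvl L₀ j)))

/-- a point of a level is determined by its base point and its coordinates; topological version -/
lemma isEmbedding_toBase_cp (L₀ : Lvl m (T.c 0)) (j : ℕ) :
    Topology.IsEmbedding (fun q : (T.lvl L₀ j).X => (T.toBase L₀ j q, (cp q : Fin (m + j) → ℂ))) := by
  induction j with
  | zero =>
    refine Topology.IsEmbedding.of_comp (g := Prod.fst) ?_ continuous_fst ?_
    · exact continuous_id.prodMk cp_cont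
    · exact Topology.IsEmbedding.id
  | succ j ih =>
    have h1 : Topology.IsEmbedding (fun q : (T.lvl L₀ (j + 1)).X =>
        ((T.toBase L₀ j q.1.1, (cp q.1.1 : Fin (m + j) → ℂ)), q.1.2)) := by
      have h2 : Topology.IsEmbedding (fun q : (T.lvl L₀ j).X × ℂ =>
          ((T.toBase L₀ j q.1, (cp q.1 : Fin (m + j) → ℂ)), q.2)) :=
        ih.prodMap Topology.IsEmbedding.id
      exact h2.comp Topology.IsEmbedding.subtypeVal
    let g : L₀.X × (Fin (m + j + 1) → ℂ) → (L₀.X × (Fin (m + j) → ℂ)) × ℂ :=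
      fun p => ((p.1, fun i => p.2 i.succ), p.2 0)
    have hg : Continuous g := by fun_prop
    refine Topology.IsEmbedding.of_comp (g := g) ?_ hg ?_
    · exact (T.continuous_toBase L₀ (j + 1)).prodMk (cp_cont (M := (T.lvl L₀ (j + 1)).X))
    · have h3 : (g ∘ fun q : (T.lvl L₀ (j + 1)).X =>
          (T.toBase L₀ (j + 1) q, (cp q : Fin (m + j + 1) → ℂ))) =
          (fun q : (T.lvl L₀ (j + 1)).X =>
            ((T.toBase L₀ j q.1.1, (cp q.1.1 : Fin (m + j) → ℂ)), q.1.2)) := by
        funext q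
        rfl
      rw [h3]
      exact h1

section lift

variable {Y : Type*}

/-- the coordinates of the lift -/
def crd (L₀ : Lvl m (T.c 0)) (f : Y → L₀.X) (x : ℕ → Y → ℂ) (y : Y) :
    (j : ℕ) → (Fin (m + j) → ℂ)
  | 0 => cp (f y)
  | (j + 1) => (Fin.cons (x j y) (crd L₀ f x y j) : Fin (m + j + 1) → ℂ)

/-- the lift to the level `j` of a map to the base, given the new coordinates `x 0, x 1, …` -/
def liftAux (L₀ : Lvl m (T.c 0)) (f : Y → L₀.X) (x : ℕ → Y → ℂ) (y : Y) :
    (j : ℕ) → (∀ i ≤ j, MvPolynomial.eval (T.crd L₀ f x y i) (T.c i) ≠ 0) →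
      {p : (T.lvl L₀ j).X // T.toBase L₀ j p = f y ∧ (cp p : Fin (m + j) → ℂ) = T.crd L₀ f x y j}
  | 0 => fun _ => ⟨f y, rfl, rfl⟩
  | (j + 1) => fun h =>
      let p := liftAux L₀ f x y j (fun i hi => h i (by omega))
      ⟨Tot.mk (T.punc j (T.lvl L₀ j)) p.1 (x j y) (by
        rw [mem_punc, p.2.2]
        exact h (j + 1) le_rfl), p.2.1, by
          have h1 := p.2.2
          change (Fin.cons (x j y) (cp p.1) : Fin (m + j + 1) → ℂ) =
            (Fin.cons (x j y) (T.crd L₀ f x y j) : Fin (m + j + 1) → ℂ)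
          rw [h1]⟩

/-- the lift to the level `j` -/
def lift (L₀ : Lvl m (T.c 0)) (f : Y → L₀.X) (x : ℕ → Y → ℂ) (j : ℕ)
    (h : ∀ y, ∀ i ≤ j, MvPolynomial.eval (T.crd L₀ f x y i) (T.c i) ≠ 0) (y : Y) :
    (T.lvl L₀ j).X := (T.liftAux L₀ f x y j (h y)).1

variable {L₀ : Lvl m (T.c 0)} {f : Y → L₀.X} {x : ℕ → Y → ℂ} {j : ℕ}
  {h : ∀ y, ∀ i ≤ j, MvPolynomial.eval (T.crd L₀ f x y i) (T.c i) ≠ 0}

lemma toBase_lift (y : Y) : T.toBase L₀ j (T.lift L₀ f x j h y) = f y :=
  (T.liftAux L₀ f x y j (h y)).2.1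

lemma cp_lift (y : Y) : (cp (T.lift L₀ f x j h y) : Fin (m + j) → ℂ) = T.crd L₀ f x y j :=
  (T.liftAux L₀ f x y j (h y)).2.2

lemma continuous_crd [TopologicalSpace Y] (hf : Continuous f) (hx : ∀ i, Continuous (x i)) (j : ℕ) :
    Continuous (fun y => T.crd L₀ f x y j) := by
  induction j with
  | zero => exact cp_cont.comp hf
  | succ j ih =>
    refine continuous_pi fun i => ?_
    refine Fin.cases ?_ (fun i => ?_) i
    · exact hx j
    · exact (continuous_apply i).comp ih

/-- the lift is continuous -/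
theorem continuous_lift [TopologicalSpace Y] (hf : Continuous f) (hx : ∀ i, Continuous (x i)) :
    Continuous (T.lift L₀ f x j h) := by
  rw [(T.isEmbedding_toBase_cp L₀ j).continuous_iff]
  have h1 : ((fun q : (T.lvl L₀ j).X => (T.toBase L₀ j q, (cp q : Fin (m + j) → ℂ))) ∘
      T.lift L₀ f x j h) = fun y => (f y, T.crd L₀ f x y j) := by
    funext y
    exact Prod.ext (T.toBase_lift y) (T.cp_lift y)
  rw [h1]
  exact hf.prodMk (T.continuous_crd hf hx j)

/-- the lift is a local homeomorphism if the coordinates are -/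
theorem isLocalHomeomorph_lift [TopologicalSpace Y] (hf : Continuous f)
    (hx : ∀ i, Continuous (x i)) (hY : IsLocalHomeomorph (fun y => T.crd L₀ f x y j)) :
    IsLocalHomeomorph (T.lift L₀ f x j h) := by
  refine IsLocalHomeomorph.of_comp (g := (cp : (T.lvl L₀ j).X → Fin (m + j) → ℂ)) ?_ cp_lh
    (T.continuous_lift hf hx)
  have h1 : (cp : (T.lvl L₀ j).X → Fin (m + j) → ℂ) ∘ T.lift L₀ f x j h =
      fun y => T.crd L₀ f x y j := by
    funext y
    exact T.cp_lift y
  rw [h1]
  exact hY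

end lift

/-- the fibre coordinates on the level `j`: coordinate `i < j` is the fibre coordinate of step `i` -/
def fx (L₀ : Lvl m (T.c 0)) : (j : ℕ) → ℕ → (T.lvl L₀ j).X → ℂ
  | 0 => fun _ _ => 0
  | (j + 1) => fun i q => if i = j then q.1.2 else fx L₀ j i q.1.1

lemma continuous_fx (L₀ : Lvl m (T.c 0)) (j i : ℕ) : Continuous (T.fx L₀ j i) := by
  induction j with
  | zero => exact continuous_const
  | succ j ih =>
    unfold fx
    by_cases hi : i = j
    · simp only [hi, if_true]
      exact continuous_snd.comp continuous_subtype_val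
    · simp only [hi, if_false]
      exact ih.comp (continuous_fst' (T.punc j (T.lvl L₀ j)))

lemma crd_fx_lt (L₀ : Lvl m (T.c 0)) (j : ℕ) (q : (T.lvl L₀ (j + 1)).X) (i : ℕ) (hi : i ≤ j) :
    T.crd L₀ (T.toBase L₀ (j + 1)) (T.fx L₀ (j + 1)) q i =
      T.crd L₀ (T.toBase L₀ j) (T.fx L₀ j) (q.1.1 : (T.lvl L₀ j).X) i := by
  induction i with
  | zero => rfl
  | succ i ih =>
    have h1 : T.fx L₀ (j + 1) i q = T.fx L₀ j i q.1.1 := by
      change (if i = j then q.1.2 else T.fx L₀ j i q.1.1) = _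
      rw [if_neg (by omega)]
    unfold crd
    rw [h1, ih (by omega)]

/-- the coordinates of a point of level `j` in terms of its base point and fibre coordinates -/
theorem crd_fx (L₀ : Lvl m (T.c 0)) (j : ℕ) (q : (T.lvl L₀ j).X) :
    T.crd L₀ (T.toBase L₀ j) (T.fx L₀ j) q j = cp q := by
  induction j with
  | zero => rfl
  | succ j ih =>
    have h1 : T.fx L₀ (j + 1) j q = q.1.2 := by
      change (if j = j then q.1.2 else T.fx L₀ j j q.1.1) = _
      rw [if_pos rfl]
    unfold crd
    rw [h1, T.crd_fx_lt L₀ j q j le_rfl, ih]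
    rfl

/-- on the level `j` all `c_i`, `i ≤ j`, are different from zero -/
theorem ne_zero_of_lvl (L₀ : Lvl m (T.c 0)) (j : ℕ) (q : (T.lvl L₀ j).X) (i : ℕ) (hi : i ≤ j) :
    MvPolynomial.eval (T.crd L₀ (T.toBase L₀ j) (T.fx L₀ j) q i) (T.c i) ≠ 0 := by
  induction j with
  | zero =>
    obtain rfl : i = 0 := by omega
    exact L₀.hc q
  | succ j ih =>
    rcases Nat.lt_or_ge j i with h | h
    · obtain rfl : i = j + 1 := by omega
      rw [crd_fx]
      exact (T.lvl L₀ (j + 1)).hc q
    · rw [T.crd_fx_lt L₀ j q i h]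
      exact ih q.1.1 h

end PTow

end Crest.Agent.R276.Tow2_244
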