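import Crest.Agent.R276.Mod3_987
import Crest.Agent.R276.Tow2_244

/-!
# R276, leaf FRI (helper348), algebra: the polynomial `D(c, x)`

* `crd0 x c j` : the coordinate vector `(x_{j-1}, …, x_0, c)` of level `j` of a tower.
* `exists_D` : for a model `M : Mdl K r` and `g : Fin s → M.B`, not all `0`, there is a nonzero
  polynomial `D` in the coordinates of level `r` such that `D ≠ 0` at `(x, c)` implies `h x ≠ 0` and
  `∑ c k * p (g k) ≠ 0` for all points `p` over `x`.
-/

set_option autoImplicit false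

noncomputable section

open Set Polynomial
open Crest.Agent.R271.Rd692 Crest.Agent.R271.Alg255
open Crest.Agent.R276.Mod1_987

namespace Crest.Agent.R276.FriD_348

variable {s : ℕ}

/-- `(x_{j-1}, …, x_0, c)` -/
def crd0 {α : Type*} (x : ℕ → α) (c : Fin s → α) : (j : ℕ) → (Fin (s + j) → α)
  | 0 => c
  | (j + 1) => (Fin.cons (x j) (crd0 x c j) : Fin (s + j + 1) → α)

theorem crd0_comp {α β : Type*} (φ : α → β) (x : ℕ → α) (c : Fin s → α) (j : ℕ) :
    (fun i => φ (crd0 x c j i)) = crd0 (fun i => φ (x i)) (fun i => φ (c i)) j := by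
  induction j with
  | zero => rfl
  | succ j ih =>
    funext i
    refine Fin.cases ?_ (fun i => ?_) i
    · rfl
    · exact congrFun ih i

theorem crd0_congr {α : Type*} {x x' : ℕ → α} (c : Fin s → α) {j : ℕ}
    (h : ∀ i < j, x i = x' i) : crd0 x c j = crd0 x' c j := by
  induction j with
  | zero => rfl
  | succ j ih =>
    show (Fin.cons (x j) (crd0 x c j) : Fin (s + j + 1) → α) = Fin.cons (x' j) (crd0 x' c j)
    rw [h j (by omega), ih fun i hi => h i (by omega)]

theorem continuous_crd0 {Y : Type*} [TopologicalSpace Y] {x : ℕ → Y → ℂ} {c : Y → Fin s → ℂ}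
    (hx : ∀ i, Continuous (x i)) (hc : Continuous c) (j : ℕ) :
    Continuous (fun y => crd0 (fun i => x i y) (c y) j) := by
  induction j with
  | zero => exact hc
  | succ j ih =>
    refine continuous_pi fun i => ?_
    refine Fin.cases ?_ (fun i => ?_) i
    · exact hx j
    · exact (continuous_apply i).comp ih

theorem exists_pos (j : ℕ) : ∃ (a : Fin j → Fin (s + j)) (b : Fin s → Fin (s + j)),
    ∀ (x : ℕ → ℂ) (c : Fin s → ℂ), (∀ i, crd0 x c j (a i) = x i) ∧ ∀ k, crd0 x c j (b k) = c k := by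
  induction j with
  | zero => exact ⟨fun i => i.elim0, id, fun x c => ⟨fun i => i.elim0, fun k => rfl⟩⟩
  | succ j ih =>
    obtain ⟨a, b, hab⟩ := ih
    refine ⟨Fin.lastCases (motive := fun _ => Fin (s + (j + 1))) (0 : Fin (s + j + 1))
      (fun i => (a i).succ), fun k => (b k).succ, fun x c => ⟨fun i => ?_, fun k => ?_⟩⟩
    · refine Fin.lastCases ?_ (fun i => ?_) i
      · simp only [Fin.lastCases_last]
        show (Fin.cons (x j) (crd0 x c j) : Fin (s + j + 1) → ℂ) 0 = _
        simp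
      · simp only [Fin.lastCases_castSucc]
        show (Fin.cons (x j) (crd0 x c j) : Fin (s + j + 1) → ℂ) (a i).succ = _
        rw [Fin.cons_succ, (hab x c).1]
        simp
    · show (Fin.cons (x j) (crd0 x c j) : Fin (s + j + 1) → ℂ) (b k).succ = _
      rw [Fin.cons_succ, (hab x c).2]

/-- Positions as an equivalence. -/
theorem exists_posEquiv (j : ℕ) : ∃ e : Fin j ⊕ Fin s ≃ Fin (s + j),
    ∀ (x : ℕ → ℂ) (c : Fin s → ℂ), (∀ i, crd0 x c j (e (Sum.inl i)) = x i) ∧
      ∀ k, crd0 x c j (e (Sum.inr k)) = c k := by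
  classical
  obtain ⟨a, b, hab⟩ := exists_pos (s := s) j
  have hval : ∀ (x : ℕ → ℂ) (c : Fin s → ℂ) (u : Fin j ⊕ Fin s),
      crd0 x c j (Sum.elim a b u) = Sum.elim (fun i : Fin j => x i) c u := by
    intro x c u
    rcases u with i | k
    · exact (hab x c).1 i
    · exact (hab x c).2 k
  have hinj : Function.Injective (Sum.elim a b) := by
    intro u v huv
    by_contra hne
    rcases u with i | k
    · have h1 := hval (fun m => if m = i then 1 else 0) 0 (Sum.inl i)
      rw [huv, hval] at h1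
      rcases v with i' | k'
      · have h2 : (i' : ℕ) = i := by
          by_contra h3
          simp [h3] at h1
        exact hne (by rw [Fin.ext h2])
      · simp at h1
    · have h1 := hval 0 (Pi.single k 1) (Sum.inr k)
      rw [huv, hval] at h1
      rcases v with i' | k'
      · simp at h1
      · have h2 : k' = k := by
          by_contra h3
          simp [Pi.single_eq_of_ne h3] at h1
        exact hne (by rw [h2])
  have hbij : Function.Bijective (Sum.elim a b) :=
    (Fintype.bijective_iff_injective_and_card _).2 ⟨hinj, by simp [add_comm]⟩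
  exact ⟨Equiv.ofBijective _ hbij, fun x c => ⟨fun i => (hab x c).1 i, fun k => (hab x c).2 k⟩⟩

/-- extension of a vector by `0` -/
def ex0 {j : ℕ} (x : Fin j → ℂ) (i : ℕ) : ℂ := if h : i < j then x ⟨i, h⟩ else 0

@[simp] theorem ex0_val {j : ℕ} (x : Fin j → ℂ) (i : Fin j) : ex0 x i = x i := by
  simp [ex0]

theorem continuous_ex0 {j : ℕ} (i : ℕ) : Continuous (fun x : Fin j → ℂ => ex0 x i) := by
  unfold ex0
  by_cases h : i < j
  · simp only [h, dif_pos]; exact continuous_apply _
  · simp only [h, dif_neg, not_false_iff]; exact continuous_const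

/-- The coordinates of level `j` as a homeomorphism. -/
theorem exists_homeo (j : ℕ) : ∃ E : ((Fin j → ℂ) × (Fin s → ℂ)) ≃ₜ (Fin (s + j) → ℂ),
    ∀ x c, E (x, c) = crd0 (ex0 x) c j := by
  obtain ⟨e, he⟩ := exists_posEquiv (s := s) j
  refine ⟨{
    toFun := fun q => crd0 (ex0 q.1) q.2 j
    invFun := fun w => (fun i => w (e (Sum.inl i)), fun k => w (e (Sum.inr k)))
    left_inv := ?_
    right_inv := ?_
    continuous_toFun := ?_
    continuous_invFun := by fun_prop }, fun x c => rfl⟩
  · rintro ⟨x, c⟩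
    refine Prod.ext ?_ ?_
    · funext i
      show crd0 (ex0 x) c j (e (Sum.inl i)) = x i
      rw [(he _ _).1, ex0_val]
    · funext k
      exact (he _ _).2 k
  · intro w
    funext idx
    obtain ⟨u, rfl⟩ := e.surjective idx
    rcases u with i | k
    · show crd0 (ex0 _) _ j (e (Sum.inl i)) = _
      rw [(he _ _).1, ex0_val]
    · show crd0 (ex0 _) _ j (e (Sum.inr k)) = _
      rw [(he _ _).2]
  · exact continuous_crd0 (fun i => (continuous_ex0 i).comp continuous_fst) continuous_snd j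

variable {K : Type} [Field K] [Algebra ℂ K] {r : ℕ} (M : Mdl K r)

/-- A nonzero element of the model vanishes at the points over a proper algebraic subset only. -/
theorem exists_ne_of_ne (g : M.B) (hg : g ≠ 0) : ∃ P : MvPolynomial (Fin r) ℂ, P ≠ 0 ∧
    ∀ p : M.Pts, MvPolynomial.eval (M.pz p) P ≠ 0 → p g ≠ 0 := by
  obtain ⟨k, q, hq⟩ := M.gen g
  let _ : Algebra (MvPolynomial (Fin r) ℂ) M.B := (az M.z).toAlgebra
  have halg : ∀ f : MvPolynomial (Fin r) ℂ, algebraMap (MvPolynomial (Fin r) ℂ) M.B f = az M.z f :=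
    fun f => rfl
  have hθ : IsIntegral (MvPolynomial (Fin r) ℂ) M.θ := ⟨M.μ, M.monic, M.root⟩
  set b' : M.B := az M.z (M.h ^ k) * g with hb'
  have hb0 : b' ≠ 0 := by
    refine mul_ne_zero ?_ hg
    rw [map_pow]; exact pow_ne_zero _ M.h_unit.ne_zero
  have hint : IsIntegral (MvPolynomial (Fin r) ℂ) b' := by
    rw [hq]
    have h1 : eval₂ (az M.z) M.θ q = aeval M.θ q := rfl
    rw [h1]
    exact IsIntegral.of_mem_of_fg (Algebra.adjoin (MvPolynomial (Fin r) ℂ) {M.θ})
      hθ.fg_adjoin_singleton _ (Algebra.adjoin_singleton_eq_range_aeval (MvPolynomial (Fin r) ℂ) M.θ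
        ▸ ⟨q, rfl⟩)
  have hinj : Function.Injective (algebraMap (MvPolynomial (Fin r) ℂ) M.B) := M.az_injective
  have : FaithfulSMul (MvPolynomial (Fin r) ℂ) M.B :=
    (faithfulSMul_iff_algebraMap_injective _ _).2 hinj
  obtain ⟨P, hP0, hP⟩ := hint.isAlgebraic.exists_nonzero_coeff_and_aeval_eq_zero
    (mem_nonZeroDivisors_of_ne_zero hb0)
  refine ⟨P.coeff 0, hP0, fun p hp hpg => hp ?_⟩
  have h1 : p b' = 0 := by rw [hb', map_mul, hpg, mul_zero]
  have h2 := congrArg (p : M.B →+* ℂ) (show eval₂ (az M.z) b' P = 0 from hP)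
  rw [Polynomial.hom_eval₂, map_zero] at h2
  have h3 : (p : M.B →+* ℂ).comp (az M.z) = MvPolynomial.eval (M.pz p) :=
    RingHom.ext fun f => M.apply_az' p f
  rw [h3] at h2
  have h4 : (p : M.B →+* ℂ) b' = 0 := h1
  rw [h4, eval₂_at_zero] at h2
  exact h2

/-- The polynomial `D`. -/
theorem exists_D (g : Fin s → M.B) (hg : ∃ k, g k ≠ 0) :
    ∃ D : MvPolynomial (Fin (s + r)) ℂ, D ≠ 0 ∧ ∀ (x : ℕ → ℂ) (c : Fin s → ℂ),
      MvPolynomial.eval (crd0 x c r) D ≠ 0 →
      MvPolynomial.eval (fun i : Fin r => x i) M.h ≠ 0 ∧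
      ∀ p : M.Pts, (M.pz p = fun i : Fin r => x i) → ∑ k, c k * p (g k) ≠ 0 := by
  classical
  obtain ⟨a, b, hab⟩ := exists_pos (s := s) r
  choose κ q hq using fun k => M.gen (g k)
  -- common exponent
  let κ' : ℕ := ∑ k, κ k
  let q' : Fin s → (MvPolynomial (Fin r) ℂ)[X] := fun k => C (M.h ^ (κ' - κ k)) * q k
  have hκ : ∀ k, κ k ≤ κ' := fun k => Finset.single_le_sum (f := κ) (fun _ _ => Nat.zero_le _)
    (Finset.mem_univ k)
  have hq' : ∀ k, az M.z (M.h ^ κ') * g k = eval₂ (az M.z) M.θ (q' k) := by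
    intro k
    have h1 : M.h ^ κ' = M.h ^ (κ' - κ k) * M.h ^ κ k := by
      rw [← pow_add, Nat.sub_add_cancel (hκ k)]
    rw [h1, map_mul, mul_assoc, hq k, eval₂_mul, eval₂_C]
  -- values at the points
  have hval : ∀ (p : M.Pts) (k : Fin s), ((q' k).map (MvPolynomial.eval (M.pz p))).eval (p M.θ) =
      (MvPolynomial.eval (M.pz p) M.h) ^ κ' * p (g k) := by
    intro p k
    have h2 := congrArg (p : M.B →+* ℂ) (hq' k)
    rw [Polynomial.hom_eval₂, map_mul] at h2
    have h3 : (p : M.B →+* ℂ).comp (az M.z) = MvPolynomial.eval (M.pz p) :=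
      RingHom.ext fun f => M.apply_az' p f
    rw [h3, ← eval_map] at h2
    have h4 : (p : M.B →+* ℂ) (az M.z (M.h ^ κ')) = (MvPolynomial.eval (M.pz p) M.h) ^ κ' := by
      have := M.apply_az' p (M.h ^ κ')
      rw [map_pow (MvPolynomial.eval (M.pz p))] at this
      exact this
    rw [h4] at h2
    exact h2.symm
  let ρ : MvPolynomial (Fin r) ℂ →+* MvPolynomial (Fin (s + r)) ℂ :=
    (MvPolynomial.rename a : MvPolynomial (Fin r) ℂ →ₐ[ℂ] MvPolynomial (Fin (s + r)) ℂ)
  let Q : (MvPolynomial (Fin (s + r)) ℂ)[X] :=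
    ∑ k, C (MvPolynomial.X (b k)) * (q' k).map ρ
  let m : ℕ := M.μ.natDegree
  let n : ℕ := Q.natDegree
  let D : MvPolynomial (Fin (s + r)) ℂ := ρ M.h * resultant (M.μ.map ρ) Q m n
  -- evaluation
  have hρ : ∀ (x : ℕ → ℂ) (c : Fin s → ℂ), (MvPolynomial.eval (crd0 x c r)).comp ρ =
      MvPolynomial.eval (fun i : Fin r => x i) := by
    intro x c
    refine RingHom.ext fun f => ?_
    show MvPolynomial.eval (crd0 x c r) (MvPolynomial.rename a f) = _
    rw [MvPolynomial.eval_rename]
    have h1 : (crd0 x c r) ∘ a = fun i : Fin r => x i := funext fun i => (hab x c).1 i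
    rw [h1]
  have hμ : ∀ (x : ℕ → ℂ) (c : Fin s → ℂ), (M.μ.map ρ).map (MvPolynomial.eval (crd0 x c r)) =
      M.μ.map (MvPolynomial.eval (fun i : Fin r => x i)) := by
    intro x c
    rw [Polynomial.map_map, hρ]
  have hQ : ∀ (x : ℕ → ℂ) (c : Fin s → ℂ), Q.map (MvPolynomial.eval (crd0 x c r)) =
      ∑ k, C (c k) * (q' k).map (MvPolynomial.eval (fun i : Fin r => x i)) := by
    intro x c
    rw [Polynomial.map_sum]
    refine Finset.sum_congr rfl fun k _ => ?_
    rw [Polynomial.map_mul, Polynomial.map_C, Polynomial.map_map, hρ, MvPolynomial.eval_X,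
      (hab x c).2]
  have hD : ∀ (x : ℕ → ℂ) (c : Fin s → ℂ), MvPolynomial.eval (crd0 x c r) D =
      MvPolynomial.eval (fun i : Fin r => x i) M.h *
        resultant (M.μ.map (MvPolynomial.eval (fun i : Fin r => x i)))
          (∑ k, C (c k) * (q' k).map (MvPolynomial.eval (fun i : Fin r => x i))) m n := by
    intro x c
    show MvPolynomial.eval (crd0 x c r) (ρ M.h * _) = _
    rw [map_mul, ← resultant_map_map, hμ, hQ]
    congr 1
    exact congrArg (fun φ : MvPolynomial (Fin r) ℂ →+* ℂ => φ M.h) (hρ x c)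
  -- the value of `Q` at `θ`
  have hQval : ∀ (x : ℕ → ℂ) (c : Fin s → ℂ) (p : M.Pts), (M.pz p = fun i : Fin r => x i) →
      (∑ k, C (c k) * (q' k).map (MvPolynomial.eval (fun i : Fin r => x i))).eval (p M.θ) =
        (MvPolynomial.eval (fun i : Fin r => x i) M.h) ^ κ' * ∑ k, c k * p (g k) := by
    intro x c p hp
    rw [eval_finsetSum, Finset.mul_sum]
    refine Finset.sum_congr rfl fun k _ => ?_
    rw [eval_mul, eval_C, ← hp, hval]
    ring
  have hm0 : m ≠ 0 := M.deg_pos.ne'
  have hQdeg : ∀ (x : ℕ → ℂ) (c : Fin s → ℂ),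
      (∑ k, C (c k) * (q' k).map (MvPolynomial.eval (fun i : Fin r => x i))).natDegree ≤ n := by
    intro x c
    rw [← hQ]; exact natDegree_map_le
  have hμdeg : ∀ (x : ℕ → ℂ),
      (M.μ.map (MvPolynomial.eval (fun i : Fin r => x i))).natDegree = m :=
    fun x => M.monic.natDegree_map _
  refine ⟨D, ?_, ?_⟩
  · -- nonzero
    obtain ⟨k₀, hk₀⟩ := hg
    obtain ⟨P, hP0, hP⟩ := exists_ne_of_ne M (g k₀) hk₀
    have hPh : P * M.h ≠ 0 := mul_ne_zero hP0 M.h_ne
    obtain ⟨x₀, hx₀⟩ : ∃ x₀ : Fin r → ℂ, MvPolynomial.eval x₀ (P * M.h) ≠ 0 := by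
      by_contra hcon
      push Not at hcon
      exact hPh (MvPolynomial.funext fun x => by rw [hcon, map_zero])
    rw [map_mul] at hx₀
    have hPx := left_ne_zero_of_mul hx₀
    have hhx := right_ne_zero_of_mul hx₀
    let x : ℕ → ℂ := fun i => if h : i < r then x₀ ⟨i, h⟩ else 0
    have hx : (fun i : Fin r => x i) = x₀ := by
      funext i; simp [x]
    let c : Fin s → ℂ := Pi.single k₀ 1
    intro hD0
    have h1 := hD x c
    rw [hD0, map_zero, hx] at h1
    have h2 : resultant (M.μ.map (MvPolynomial.eval x₀))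
        (∑ k, C (c k) * (q' k).map (MvPolynomial.eval x₀)) m n = 0 := by
      rcases mul_eq_zero.1 h1.symm with h | h
      · exact absurd h hhx
      · exact h
    set μ₀ := M.μ.map (MvPolynomial.eval x₀) with hμ₀
    set Q₀ := ∑ k, C (c k) * (q' k).map (MvPolynomial.eval x₀) with hQ₀
    have hcop : IsCoprime μ₀ Q₀ := by
      rw [Polynomial.isCoprime_iff_aeval_ne_zero_of_isAlgClosed ℂ ℂ]
      intro t
      by_contra hcon
      push Not at hcon
      obtain ⟨ht1, ht2⟩ := hcon
      rw [Polynomial.coe_aeval_eq_eval] at ht1 ht2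
      obtain ⟨p, hp, hpt⟩ := M.exists_pt hhx ht1
      have hp' : M.pz p = x₀ := by
        funext i; exact hp i
      have h5 := hQval x c p (by rw [hp', hx])
      rw [hx, hpt] at h5
      rw [← hQ₀, ht2] at h5
      have h6 : ∑ k, c k * p (g k) = p (g k₀) := by
        rw [Finset.sum_eq_single k₀]
        · simp [c]
        · intro k _ hk; simp [c, Pi.single_eq_of_ne hk]
        · intro h; exact absurd (Finset.mem_univ _) h
      rw [h6] at h5
      rcases mul_eq_zero.1 h5.symm with h | h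
      · exact pow_ne_zero _ hhx h
      · exact hP p (by rw [hp']; exact hPx) h
    have hμmon : μ₀.Monic := M.monic.map _
    have h3 : resultant μ₀ Q₀ m n = resultant μ₀ Q₀ := by
      have hdeg : Q₀.natDegree ≤ n := by
        have := hQdeg x c
        rw [hx] at this; exact this
      have hm : μ₀.natDegree = m := by
        have := hμdeg x
        rw [hx] at this; exact this
      obtain ⟨k, hk⟩ := Nat.exists_eq_add_of_le hdeg
      rw [hk, resultant_add_right_deg _ _ _ _ _ le_rfl]
      have h7 : μ₀.coeff m = 1 := by rw [← hm]; exact hμmon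
      rw [h7, one_pow, one_mul, hm]
    rw [h3] at h2
    have h4 := (isUnit_resultant_iff_isCoprime hμmon).2 hcop
    rw [h2] at h4
    exact not_isUnit_zero h4
  · intro x c hne
    rw [hD] at hne
    refine ⟨left_ne_zero_of_mul hne, fun p hp hsum => ?_⟩
    apply right_ne_zero_of_mul hne
    obtain ⟨u, v, _, _, huv⟩ := exists_mul_add_mul_eq_C_resultant (m := m) (n := n)
      (M.μ.map (MvPolynomial.eval (fun i : Fin r => x i)))
      (∑ k, C (c k) * (q' k).map (MvPolynomial.eval (fun i : Fin r => x i)))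
      (hμdeg x).le (hQdeg x c) (Or.inl hm0)
    have h1 := congrArg (Polynomial.eval (p M.θ)) huv
    rw [eval_add, eval_mul, eval_mul, hQval x c p hp, hsum, mul_zero, zero_mul, add_zero,
      eval_C] at h1
    have h2 := M.eval_μ_eq_zero p
    rw [hp] at h2
    rw [h2, zero_mul] at h1
    exact h1.symm

end Crest.Agent.R276.FriD_348
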