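import Crest.Agent.R276.SkelDefs_220
import Crest.Agent.R276.EndRest_870
import Crest.Agent.R276.FriD_348
import Crest.Agent.R276.Mod6_987
import Crest.Agent.R271.Null_956

/-!
# Row 276, leaves (NZ) and (IND) of `SkelDefs_220` (helper534)

* `cNz`  : a nonzero function of `B_L` does not vanish identically on almost all fibres `G_y` of
  `M_L → M_T`;
* `cInd` : if `w_1/w_0, …, w_e/w_0` are algebraically independent, then for almost every `c` at
  least `e - ρ` of them stay independent on every fibre `G_y`, `y` over `c`.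
-/

set_option autoImplicit false

open Set Filter Topology MeasureTheory
open scoped ENNReal

noncomputable section

namespace Crest.Agent.R276.CInd_534

open Crest.Agent.R271 Crest.Agent.R271.Defs710 Crest.Agent.R271.Rd692 Crest.Agent.R271.Ho51
open Crest.Agent.R276.Mod1_987 Crest.Agent.R276.SkelDefs_220

/-! ### polynomials -/

section poly

variable {ρ a : ℕ}

lemma eval_left (P : MvPolynomial (Fin (ρ + a)) ℂ) (x : Fin a → ℂ) (c : Fin ρ → ℂ) :
    MvPolynomial.eval c (MvPolynomial.aeval (Fin.append (fun i => MvPolynomial.X i)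
      (fun j => MvPolynomial.C (x j)) : Fin (ρ + a) → MvPolynomial (Fin ρ) ℂ) P) =
      MvPolynomial.eval (Fin.append c x) P := by
  have h1 : ((MvPolynomial.aeval c : MvPolynomial (Fin ρ) ℂ →ₐ[ℂ] ℂ).comp
      (MvPolynomial.aeval (Fin.append (fun i => MvPolynomial.X i)
      (fun j => MvPolynomial.C (x j)) : Fin (ρ + a) → MvPolynomial (Fin ρ) ℂ))) =
      MvPolynomial.aeval (Fin.append c x) := by
    apply MvPolynomial.algHom_ext
    intro i
    refine Fin.addCases (fun i => ?_) (fun j => ?_) i <;> simp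
  have h2 := congrArg (fun f : MvPolynomial (Fin (ρ + a)) ℂ →ₐ[ℂ] ℂ => f P) h1
  simpa [MvPolynomial.coe_aeval_eq_eval] using h2

lemma eval_right (P : MvPolynomial (Fin (ρ + a)) ℂ) (c : Fin ρ → ℂ) (x : Fin a → ℂ) :
    MvPolynomial.eval x (MvPolynomial.aeval (Fin.append (fun i => MvPolynomial.C (c i))
      (fun j => MvPolynomial.X j) : Fin (ρ + a) → MvPolynomial (Fin a) ℂ) P) =
      MvPolynomial.eval (Fin.append c x) P := by
  have h1 : ((MvPolynomial.aeval x : MvPolynomial (Fin a) ℂ →ₐ[ℂ] ℂ).comp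
      (MvPolynomial.aeval (Fin.append (fun i => MvPolynomial.C (c i))
      (fun j => MvPolynomial.X j) : Fin (ρ + a) → MvPolynomial (Fin a) ℂ))) =
      MvPolynomial.aeval (Fin.append c x) := by
    apply MvPolynomial.algHom_ext
    intro i
    refine Fin.addCases (fun i => ?_) (fun j => ?_) i <;> simp
  have h2 := congrArg (fun f : MvPolynomial (Fin (ρ + a)) ℂ →ₐ[ℂ] ℂ => f P) h1
  simpa [MvPolynomial.coe_aeval_eq_eval] using h2

/-- almost all partial evaluations of a nonzero polynomial are nonzero -/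
theorem ae_exists {P : MvPolynomial (Fin (ρ + a)) ℂ} (hP : P ≠ 0) :
    ∀ᵐ c : Fin ρ → ℂ, ∃ x : Fin a → ℂ, MvPolynomial.eval (Fin.append c x) P ≠ 0 := by
  obtain ⟨ζ, hζ⟩ : ∃ ζ : Fin (ρ + a) → ℂ, MvPolynomial.eval ζ P ≠ 0 := by
    by_contra hcon
    push Not at hcon
    exact hP (MvPolynomial.funext fun x => by rw [hcon, map_zero])
  set c0 : Fin ρ → ℂ := fun i => ζ (Fin.castAdd a i) with hc0
  set x0 : Fin a → ℂ := fun j => ζ (Fin.natAdd ρ j) with hx0
  have e0 : Fin.append c0 x0 = ζ := by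
    funext i
    refine Fin.addCases (fun i => ?_) (fun j => ?_) i <;> simp [hc0, hx0]
  set P' := MvPolynomial.aeval (Fin.append (fun i => MvPolynomial.X i)
      (fun j => MvPolynomial.C (x0 j)) : Fin (ρ + a) → MvPolynomial (Fin ρ) ℂ) P with hP'
  have h1 : P' ≠ 0 := by
    intro h0
    apply hζ
    rw [← e0, ← eval_left P x0 c0, ← hP', h0, map_zero]
  filter_upwards [Null956.ae_eval_ne h1] with c hc
  exact ⟨x0, by rw [← eval_left P x0 c]; exact hc⟩

end poly

section main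

variable {T L : Type} [Field T] [Field L] [Algebra ℂ T] [Algebra ℂ L] [Algebra T L]
  [IsScalarTower ℂ T L] {ρ a : ℕ}

/-- points of the fibre near a point of the fibre -/
theorem exists_in_fibre (R : RMdl T L ρ a) (z0 : R.MK.Pts) {U : Set R.MK.Pts} (hU : U ∈ 𝓝 z0) :
    ∃ V ∈ 𝓝 (R.x z0), ∀ x ∈ V, ∃ z ∈ U, R.q z = R.q z0 ∧ R.x z = x := by
  obtain ⟨e, he, he'⟩ := R.isLocalHomeomorph_φ z0
  have h1 : R.φ z0 = (R.q z0, R.x z0) := rfl
  have h2 : (R.q z0, R.x z0) ∈ e.target := by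
    rw [← h1, he']
    exact e.map_source he
  have h3 : e.symm (R.q z0, R.x z0) = z0 := by
    rw [← h1, he']
    exact e.left_inv he
  have h4 : ContinuousAt e.symm (R.q z0, R.x z0) := e.continuousAt_symm h2
  have h5 : ContinuousAt (fun x => e.symm (R.q z0, x)) (R.x z0) :=
    ContinuousAt.comp (g := e.symm) (f := fun x => (R.q z0, x)) h4
      (by fun_prop)
  have h6 : ∀ᶠ x in 𝓝 (R.x z0), (R.q z0, x) ∈ e.target := by
    have : ContinuousAt (fun x : Cn a => (R.q z0, x)) (R.x z0) := by fun_prop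
    exact this.eventually_mem (e.open_target.mem_nhds h2)
  have h7 : ∀ᶠ x in 𝓝 (R.x z0), e.symm (R.q z0, x) ∈ U := by
    apply h5.eventually_mem
    show U ∈ 𝓝 (e.symm (R.q z0, R.x z0))
    rw [h3]; exact hU
  refine ⟨_, h6.and h7, fun x hx => ⟨e.symm (R.q z0, x), hx.2, ?_⟩⟩
  have h8 : R.φ (e.symm (R.q z0, x)) = (R.q z0, x) := by
    rw [he']; exact e.right_inv hx.1
  exact ⟨congrArg Prod.fst h8, congrArg Prod.snd h8⟩

/-- near a point, the slices are contained in the fibres -/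
theorem exists_slice (R : RMdl T L ρ a) (z0 : R.MK.Pts) : ∃ U ∈ 𝓝 z0, ∀ z ∈ U,
    (∀ i : Fin ρ, R.MK.pz z (Fin.castAdd a i) = R.MK.pz z0 (Fin.castAdd a i)) →
      R.q z = R.q z0 := by
  obtain ⟨e, he, he'⟩ := isLocalHomeomorph_pr R.ML.hch (R.q z0)
  refine ⟨R.q ⁻¹' e.source, R.continuous_q.continuousAt.preimage_mem_nhds
    (e.open_source.mem_nhds he), fun z hz h => ?_⟩
  apply e.injOn hz he
  rw [← he']
  funext i
  have h1 := R.pz_q z i
  have h2 := R.pz_q z0 i
  exact h1.trans ((h i).trans h2.symm)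

/-- the relative model of `SkelDefs_220` is a relative model of 987 -/
def toR {MT : Mdl T ρ} {ML : Mdl L (ρ + a)} (H₁ : Rel MT ML) : RMdl T L ρ a where
  ML := MT
  MK := ML
  z_eq := H₁.coord
  incl_mem := H₁.mem

theorem toR_q {MT : Mdl T ρ} {ML : Mdl L (ρ + a)} (H₁ : Rel MT ML) (z : ML.Pts) :
    (toR H₁).q z = H₁.f z := AlgHom.ext fun _ => rfl

theorem exists_fib {MT : Mdl T ρ} {ML : Mdl L (ρ + a)} (H₁ : Rel MT ML) (y : MT.Pts) :
    ∃ z : ML.Pts, H₁.f z = y := by
  obtain ⟨z, hz⟩ := H₁.surj y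
  exact ⟨z, AlgHom.ext fun b => hz b _ rfl⟩

/-- **(NZ)** -/
theorem cNz {MT : Mdl T ρ} {ML : Mdl L (ρ + a)} (H₁ : Rel MT ML) : CNz H₁ := by
  intro σ hσ
  obtain ⟨P, hP0, hP⟩ := FriD_348.exists_ne_of_ne ML σ hσ
  filter_upwards [ae_exists hP0] with c hc y hy
  obtain ⟨x1, hx1⟩ := hc
  obtain ⟨z0, hz0⟩ := exists_fib H₁ y
  obtain ⟨V, hV, hVz⟩ := exists_in_fibre (toR H₁) z0 (univ_mem (f := 𝓝 z0))
  have hne : MvPolynomial.aeval (Fin.append (fun i => MvPolynomial.C (c i))
      (fun j => MvPolynomial.X j) : Fin (ρ + a) → MvPolynomial (Fin a) ℂ) P ≠ 0 := by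
    intro h0
    apply hx1
    rw [← eval_right P c x1, h0, map_zero]
  obtain ⟨x, hxV, hx⟩ := EndRest_870.exists_eval_ne hV hne
  obtain ⟨z, -, hzq, hzx⟩ := hVz x hxV
  refine ⟨z, by rw [← hz0, ← toR_q, ← toR_q]; exact hzq, hP z ?_⟩
  have h1 : ML.pz z = Fin.append c x := by
    have h2 := (toR H₁).append_eq z
    have h3 : (toR H₁).ML.pz ((toR H₁).q z) = c := by
      rw [hzq, toR_q, hz0]
      exact hy
    rw [h3, hzx] at h2
    exact h2.symm
  rw [h1, ← eval_right P c x]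
  exact hx

/-! ### independence -/

lemma eval_cons {r : ℕ} (Q : MvPolynomial (Fin (r + 1)) ℂ) (v : Fin r → ℂ) :
    MvPolynomial.eval v (MvPolynomial.aeval (Fin.cons 1 (fun j => MvPolynomial.X j) :
      Fin (r + 1) → MvPolynomial (Fin r) ℂ) Q) = MvPolynomial.eval (Fin.cons 1 v) Q := by
  have h1 : ((MvPolynomial.aeval v : MvPolynomial (Fin r) ℂ →ₐ[ℂ] ℂ).comp
      (MvPolynomial.aeval (Fin.cons 1 (fun j => MvPolynomial.X j) :
        Fin (r + 1) → MvPolynomial (Fin r) ℂ))) =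
      MvPolynomial.aeval (Fin.cons 1 v : Fin (r + 1) → ℂ) := by
    apply MvPolynomial.algHom_ext
    intro i
    refine Fin.cases ?_ (fun j => ?_) i <;> simp
  have h2 := congrArg (fun f : MvPolynomial (Fin (r + 1)) ℂ →ₐ[ℂ] ℂ => f Q) h1
  simpa [MvPolynomial.coe_aeval_eq_eval] using h2

/-- dehomogenisation is injective on homogeneous polynomials -/
theorem dehom_ne {r Δ : ℕ} {Q : MvPolynomial (Fin (r + 1)) ℂ} (hQ : Q.IsHomogeneous Δ)
    (h0 : Q ≠ 0) : MvPolynomial.aeval (Fin.cons 1 (fun j => MvPolynomial.X j) :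
      Fin (r + 1) → MvPolynomial (Fin r) ℂ) Q ≠ 0 := by
  intro h1
  apply h0
  have h2 : MvPolynomial.X 0 * Q = 0 := by
    apply MvPolynomial.funext
    intro u
    rw [map_mul, map_zero, MvPolynomial.eval_X]
    by_cases hu : u 0 = 0
    · rw [hu, zero_mul]
    · have h3 := eval_cons Q (fun j => u j.succ / u 0)
      rw [h1, map_zero] at h3
      have h4 : u = u 0 • (Fin.cons 1 (fun j => u j.succ / u 0) : Fin (r + 1) → ℂ) := by
        funext i
        refine Fin.cases ?_ (fun j => ?_) i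
        · simp
        · simp [mul_div_cancel₀ _ hu]
      have h5 : MvPolynomial.eval u Q = 0 := by
        rw [h4, Null956.eval_smul_homog hQ, ← h3, mul_zero]
      rw [h5, mul_zero]
  exact (mul_eq_zero.1 h2).resolve_left (MvPolynomial.X_ne_zero 0)

/-- **(IND)** -/
theorem cInd {MT : Mdl T ρ} {ML : Mdl L (ρ + a)} (H₁ : Rel MT ML) {e : ℕ}
    (w : Fin (e + 1) → ML.B) (hw0 : w 0 ≠ 0)
    (hind : AlgebraicIndependent ℂ fun j : Fin e => (w j.succ : L) / (w 0 : L)) :
    CInd H₁ w := by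
  classical
  obtain ⟨r, α, -, hcard, h, hh0, hh⟩ := EndRest_870.rest ML (w 0) (fun j : Fin e => w j.succ) hw0
    hind (Finset.univ.image (Fin.castAdd a : Fin ρ → Fin (ρ + a)))
  refine ⟨r, Fin.cons 0 (fun j => (α j).succ), ?_, ?_⟩
  · have h1 : (Finset.univ.image (Fin.castAdd a : Fin ρ → Fin (ρ + a))).card = ρ := by
      rw [Finset.card_image_of_injective _ (Fin.castAdd_injective ρ a), Finset.card_univ,
        Fintype.card_fin]
    rw [h1, Fintype.card_fin] at hcard
    exact hcard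
  filter_upwards [cNz H₁ h hh0] with c hc y hy Δ Q hQ hvan
  by_contra hQ0
  obtain ⟨z, hz, hzh⟩ := hc y hy
  obtain ⟨U, hU, hUq⟩ := exists_slice (toR H₁) z
  obtain ⟨z', hz'U, hz's, hz'0, hz'Q⟩ := hh z hzh _ (dehom_ne hQ hQ0) U hU
  have h1 : H₁.f z' = y := by
    rw [← hz, ← toR_q, ← toR_q]
    exact hUq z' hz'U fun i => hz's _ (Finset.mem_image_of_mem _ (Finset.mem_univ i))
  have h2 := hvan z' h1
  apply hz'Q
  rw [eval_cons]
  have h3 : (fun i => z' (w ((Fin.cons 0 (fun j => (α j).succ) : Fin (r + 1) → Fin (e + 1)) i))) =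
      z' (w 0) • (Fin.cons 1 (fun j => z' (w (α j).succ) / z' (w 0)) : Fin (r + 1) → ℂ) := by
    funext i
    refine Fin.cases ?_ (fun j => ?_) i
    · simp
    · simp [mul_div_cancel₀ _ hz'0]
  rw [h3, Null956.eval_smul_homog hQ] at h2
  exact (mul_eq_zero.1 h2).resolve_left (pow_ne_zero _ hz'0)

end main

end Crest.Agent.R276.CInd_534
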