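import Mathlib
import Crest.Agent.R271.Bd3_741
import Crest.Agent.R271.Rd7_692
import Crest.Agent.R276.Area_448

/-!
# INT, part A: integrals of `|g|^{2/N}` over `M = Hom(B, ℂ)` from finitely many bounded charts

`B` a finitely generated `ℂ`-algebra, étale over `ℂ[z]`.  If `g = h_s · jac(y_s)^N` for finitely many
`(h_s, y_s)`, every point of a measurable set `T ⊆ M` satisfies `|h_s| ≤ C`, `y_s ∈ W_s` for some `s`, and
`y_s` is at most `d_s` to one where its Jacobian is `≠ 0`, then
`∫_T |g|^{2/N} ≤ ∑_s C^{2/N} d_s vol(W_s)`.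
-/

set_option autoImplicit false

open scoped Topology ENNReal
open Filter Set MeasureTheory

noncomputable section

namespace Crest.Agent.R276.IntA_448

open Crest.Agent.R271.Defs710 Crest.Agent.R271.Ho51 Crest.Agent.R271.Rd692 Crest.Agent.R271.Bd741
open Crest.Agent.R276.Area_448

variable {n : ℕ} {B : Type} [CommRing B] [Algebra ℂ B]

/-- the Jacobian matrix `∂ yᵢ / ∂ z_j` -/
def jm (D : Fin n → Derivation ℂ B B) (y : Fin n → B) : Matrix (Fin n) (Fin n) B :=
  Matrix.of fun i j => D j (y i)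

/-- the Jacobian determinant -/
def jd (D : Fin n → Derivation ℂ B B) (y : Fin n → B) : B := (jm D y).det

/-- the derivative of `x ↦ (x (yᵢ))ᵢ` at the point `x` -/
def qd (D : Fin n → Derivation ℂ B B) (y : Fin n → B) (x : B →ₐ[ℂ] ℂ) :
    (Fin n → ℂ) →L[ℂ] (Fin n → ℂ) :=
  LinearMap.toContinuousLinearMap (Matrix.toLin' ((jm D y).map x))

lemma qd_det (D : Fin n → Derivation ℂ B B) (y : Fin n → B) (x : B →ₐ[ℂ] ℂ) :
    (qd D y x).det = x (jd D y) := by
  rw [qd, ContinuousLinearMap.det, LinearMap.coe_toContinuousLinearMap, LinearMap.det_toLin', jd,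
    AlgHom.map_det]
  rfl

lemma qd_single (D : Fin n → Derivation ℂ B B) (y : Fin n → B) (x : B →ₐ[ℂ] ℂ) (i j : Fin n) :
    qd D y x (Pi.single j 1) i = x (D j (y i)) := by
  rw [qd, LinearMap.coe_toContinuousLinearMap', Matrix.toLin'_apply, Matrix.mulVec_single_one]
  rfl

variable {z : Fin n → B}

section

variable (het : RingHom.Etale ((MvPolynomial.aeval z : MvPolynomial (Fin n) ℂ →ₐ[ℂ] B) :
      MvPolynomial (Fin n) ℂ →+* B))

include het in
lemma hch (y : B →ₐ[ℂ] ℂ) : Nonempty (Chart z y) := nonempty_chart z het y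

/-- the evaluation map of `y` has strict derivative `qd` in the coordinates `z` -/
lemma sd_ev (D : Fin n → Derivation ℂ B B) (hD : ∀ i j, D j (z i) = if i = j then 1 else 0)
    (y : Fin n → B) :
    @SD n (B →ₐ[ℂ] ℂ) _ (rdom (hch het)) (fun x i => x (y i)) (qd D y) := by
  let _ := rdom (hch het)
  intro x
  obtain ⟨C⟩ := hch het x
  have hgerm : (((ch x).symm : (Fin n → ℂ) → (B →ₐ[ℂ] ℂ))) =ᶠ[𝓝 (cp x)]
      fun w => C.s (w - pr z x) := by
    have he : IsCh (chartHomeo (hch het) C) := rfl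
    exact (isCh_ch x).germ he (mem_ch x) (self_mem_sheet C)
  have h1 : HasStrictFDerivAt (fun w : Fin n → ℂ => fun i => C.s (w - pr z x) (y i)) (qd D y x)
      (cp x) := by
    rw [hasStrictFDerivAt_pi']
    intro i
    have han : AnalyticAt ℂ (fun ζ => C.s ζ (y i)) 0 :=
      C.anal (y i) 0 (Metric.mem_ball_self C.r_pos)
    have h2 : HasStrictFDerivAt (fun ζ => C.s ζ (y i))
        ((ContinuousLinearMap.proj i).comp (qd D y x)) ((fun w : Fin n → ℂ => w - pr z x) (cp x)) := by
      have h3 : (fun w : Fin n → ℂ => w - pr z x) (cp x) = 0 := sub_self _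
      rw [h3]
      have h4 : fderiv ℂ (fun ζ => C.s ζ (y i)) 0 =
          (ContinuousLinearMap.proj i).comp (qd D y x) := by
        apply ContinuousLinearMap.coe_injective
        apply LinearMap.pi_ext'
        intro j
        apply LinearMap.ext_ring
        have h5 := chart_deriv z het D hD C 0 (Metric.mem_ball_self C.r_pos) j (y i)
        rw [C.s_zero] at h5
        simp only [LinearMap.coe_comp, Function.comp_apply, LinearMap.coe_single,
          ContinuousLinearMap.coe_coe, ContinuousLinearMap.coe_comp, ContinuousLinearMap.proj_apply]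
        rw [h5, qd_single]
      rw [← h4]
      exact han.hasStrictFDerivAt
    have h6 : HasStrictFDerivAt (fun w : Fin n → ℂ => w - pr z x)
        (ContinuousLinearMap.id ℂ (Fin n → ℂ)) (cp x) :=
      (hasStrictFDerivAt_id (cp x)).sub_const _
    have h7 := HasStrictFDerivAt.comp (g := fun ζ => C.s ζ (y i)) (f := fun w => w - pr z x)
      (cp x) h2 h6
    simpa using h7
  refine h1.congr_of_eventuallyEq ?_
  filter_upwards [hgerm] with w hw
  funext i
  simp only [Function.comp_apply, hw]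

variable (hft : Algebra.FiniteType ℂ B)

include het hft in
/-- **the integral bound** -/
theorem lintM_indicator_le (D : Fin n → Derivation ℂ B B)
    (hD : ∀ i j, D j (z i) = if i = j then 1 else 0)
    {σ : Type*} [Fintype σ] (h : σ → B) (y : σ → Fin n → B) (g : B) {N : ℕ} (hN : 0 < N)
    (hg : ∀ s, g = h s * jd D (y s) ^ N) (C : ℝ)
    (T : Set (B →ₐ[ℂ] ℂ)) (hT : MeasurableSet T) (W : σ → Set (Fin n → ℂ))
    (hW : ∀ s, MeasurableSet (W s))
    (cov : ∀ x ∈ T, ∃ s, ‖x (h s)‖ ≤ C ∧ (fun i => x (y s i)) ∈ W s)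
    (d : σ → ℕ) (hd : ∀ s η,
      {x : B →ₐ[ℂ] ℂ | x (jd D (y s)) ≠ 0 ∧ (fun i => x (y s i)) = η}.encard ≤ d s) :
    lintM z (T.indicator fun x => ENNReal.ofReal (‖x g‖ ^ (2 / (N : ℝ)))) ≤
      ∑ s, ENNReal.ofReal (C ^ (2 / (N : ℝ))) * (d s * volume (W s)) := by
  classical
  let _ := rdom (hch het)
  have _ := secondCountable_of_ft hft
  obtain ⟨μ, hμ⟩ := exists_leb (M := B →ₐ[ℂ] ℂ) (n := n)
  have hgm : Measurable fun x : B →ₐ[ℂ] ℂ => ENNReal.ofReal (‖x g‖ ^ (2 / (N : ℝ))) := by
    have h1 : Continuous fun x : B →ₐ[ℂ] ℂ => ‖x g‖ := (continuous_ev g).norm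
    exact (h1.measurable.pow_const _).ennreal_ofReal
  rw [lintM_eq' hft z (hch het) hμ (hgm.indicator hT), lintegral_indicator hT]
  set E : σ → Set (B →ₐ[ℂ] ℂ) :=
    fun s => T ∩ ({x | ‖x (h s)‖ ≤ C} ∩ {x | (fun i => x (y s i)) ∈ W s}) with hE
  have hEm : ∀ s, MeasurableSet (E s) := by
    intro s
    refine hT.inter ((isClosed_le (continuous_ev (h s)).norm continuous_const).measurableSet.inter ?_)
    have h1 : Continuous fun x : B →ₐ[ℂ] ℂ => (fun i => x (y s i)) :=
      continuous_pi fun i => continuous_ev (y s i)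
    exact h1.measurable (hW s)
  have hTE : T ⊆ ⋃ s, E s := by
    intro x hx
    obtain ⟨s, hs1, hs2⟩ := cov x hx
    exact mem_iUnion.2 ⟨s, hx, hs1, hs2⟩
  have hjc : ∀ s, Continuous fun x : B →ₐ[ℂ] ℂ => (qd D (y s) x).det := by
    intro s
    simp only [qd_det]
    exact continuous_ev _
  calc ∫⁻ x in T, ENNReal.ofReal (‖x g‖ ^ (2 / (N : ℝ))) ∂μ
      ≤ ∫⁻ x in ⋃ s, E s, ENNReal.ofReal (‖x g‖ ^ (2 / (N : ℝ))) ∂μ :=
        lintegral_mono_set hTE
    _ ≤ ∑ s, ∫⁻ x in E s, ENNReal.ofReal (‖x g‖ ^ (2 / (N : ℝ))) ∂μ := by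
        have h1 := lintegral_iUnion_le (μ := μ) E
          (fun x : B →ₐ[ℂ] ℂ => ENNReal.ofReal (‖x g‖ ^ (2 / (N : ℝ))))
        rwa [tsum_fintype] at h1
    _ ≤ ∑ s, ENNReal.ofReal (C ^ (2 / (N : ℝ))) * (d s * volume (W s)) := by
        refine Finset.sum_le_sum fun s _ => ?_
        calc ∫⁻ x in E s, ENNReal.ofReal (‖x g‖ ^ (2 / (N : ℝ))) ∂μ
            ≤ ∫⁻ x in E s, ENNReal.ofReal (C ^ (2 / (N : ℝ))) *
                ENNReal.ofReal (‖(qd D (y s) x).det‖ ^ 2) ∂μ := by
              refine setLIntegral_mono' (hEm s) fun x hx => ?_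
              have hx1 : ‖x (h s)‖ ≤ C := hx.2.1
              have hC0 : 0 ≤ C := (norm_nonneg _).trans hx1
              rw [← ENNReal.ofReal_mul (by positivity), qd_det]
              apply ENNReal.ofReal_le_ofReal
              have h1 : ‖x g‖ = ‖x (h s)‖ * ‖x (jd D (y s))‖ ^ N := by
                rw [hg s, map_mul, map_pow, norm_mul, norm_pow]
              rw [h1, Real.mul_rpow (norm_nonneg _) (by positivity), ← Real.rpow_natCast,
                ← Real.rpow_mul (norm_nonneg _)]
              have h2 : (N : ℝ) * (2 / (N : ℝ)) = (2 : ℕ) := by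
                have : (N : ℝ) ≠ 0 := by exact_mod_cast hN.ne'
                field_simp
                norm_num
              rw [h2, Real.rpow_natCast]
              gcongr
          _ = ENNReal.ofReal (C ^ (2 / (N : ℝ))) *
                ∫⁻ x in E s, ENNReal.ofReal (‖(qd D (y s) x).det‖ ^ 2) ∂μ := by
              rw [lintegral_const_mul']
              exact ENNReal.ofReal_ne_top
          _ ≤ ENNReal.ofReal (C ^ (2 / (N : ℝ))) * (d s * volume (W s)) := by
              gcongr
              refine area_le hμ (sd_ev het D hD (y s)) (hjc s) (hEm s) (hW s)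
                (fun x hx _ => hx.2.2) (fun η => le_trans (encard_le_encard ?_) (hd s η))
              rintro x ⟨_, hx2, hx3⟩
              exact ⟨by rwa [qd_det] at hx2, hx3⟩

end

end Crest.Agent.R276.IntA_448
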