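import Mathlib

/-!
# ZRC: compactness of the Zariski-Riemann space, in algebraic form

`K` a field, `k` a commutative ring acting on `K` (in the applications a subfield `L`), `f : ι → κ → K`
a family of finite tuples.  If every valuation subring of `K` containing `k` contains all entries of
one of the tuples, then there is a finite set `S` of tuples such that for every choice `c` of one entry
of each tuple of `S` (all chosen entries `≠ 0`) the number `1` is a polynomial without constant term, with
coefficients in `k`, in the inverses of the chosen entries.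
-/

set_option autoImplicit false

open Filter

namespace Crest.Agent.R276.Zrc_448

section adj

variable {k A : Type*} [CommRing k] [CommRing A] [Algebra k A]

/-- `NonUnitalAlgebra.adjoin` is finitary -/
theorem mem_adjoin_finset {s : Set A} {x : A} (hx : x ∈ NonUnitalAlgebra.adjoin k s) :
    ∃ t : Finset A, (t : Set A) ⊆ s ∧ x ∈ NonUnitalAlgebra.adjoin k (t : Set A) := by
  classical
  induction hx using NonUnitalAlgebra.adjoin_induction with
  | mem y hy =>
    exact ⟨{y}, by simpa using hy, NonUnitalAlgebra.subset_adjoin k (by simp)⟩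
  | add y z _ _ hy hz =>
    obtain ⟨t, ht, hty⟩ := hy
    obtain ⟨u, hu, huz⟩ := hz
    refine ⟨t ∪ u, by simp [ht, hu], add_mem ?_ ?_⟩
    · exact NonUnitalAlgebra.adjoin_mono (by simp) hty
    · exact NonUnitalAlgebra.adjoin_mono (by simp) huz
  | zero => exact ⟨∅, by simp, zero_mem _⟩
  | mul y z _ _ hy hz =>
    obtain ⟨t, ht, hty⟩ := hy
    obtain ⟨u, hu, huz⟩ := hz
    refine ⟨t ∪ u, by simp [ht, hu], mul_mem ?_ ?_⟩
    · exact NonUnitalAlgebra.adjoin_mono (by simp) hty
    · exact NonUnitalAlgebra.adjoin_mono (by simp) huz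
  | smul r y _ hy =>
    obtain ⟨t, ht, hty⟩ := hy
    exact ⟨t, ht, SMulMemClass.smul_mem r hty⟩

/-- the ideal generated by `s` in `Algebra.adjoin k s` is `NonUnitalAlgebra.adjoin k s` -/
theorem mem_nonUnital_of_mem_span {s : Set A} {x : Algebra.adjoin k s}
    (hx : x ∈ Ideal.span {y : Algebra.adjoin k s | (y : A) ∈ s}) :
    (x : A) ∈ NonUnitalAlgebra.adjoin k s := by
  have key : ∀ a ∈ Algebra.adjoin k s, ∀ y ∈ NonUnitalAlgebra.adjoin k s,
      a * y ∈ NonUnitalAlgebra.adjoin k s := by
    intro a ha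
    induction ha using Algebra.adjoin_induction with
    | mem a ha => intro y hy; exact mul_mem (NonUnitalAlgebra.subset_adjoin k ha) hy
    | algebraMap r =>
      intro y hy
      rw [← Algebra.smul_def]
      exact SMulMemClass.smul_mem r hy
    | add a b _ _ ha hb => intro y hy; rw [add_mul]; exact add_mem (ha y hy) (hb y hy)
    | mul a b _ _ ha hb => intro y hy; rw [mul_assoc]; exact ha _ (hb y hy)
  induction hx using Submodule.span_induction with
  | mem y hy => exact NonUnitalAlgebra.subset_adjoin k hy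
  | zero => exact zero_mem _
  | add y z _ _ hy hz => exact add_mem hy hz
  | smul a y _ hy => exact key a a.2 _ hy

end adj

variable {k K : Type*} [CommRing k] [Field K] [Algebra k K]

/-- if `1` is not a polynomial without constant term in the elements of `s` (coefficients in `k`)
then some valuation subring containing `k` has `s` in its maximal ideal -/
theorem exists_valuationSubring {s : Set K} (h : (1 : K) ∉ NonUnitalAlgebra.adjoin k s) :
    ∃ V : ValuationSubring K, (∀ a : k, algebraMap k K a ∈ V) ∧ s ⊆ V.nonunits := by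
  have hI : Ideal.span {y : Algebra.adjoin k s | (y : K) ∈ s} ≠ ⊤ := by
    intro h1
    apply h
    have := mem_nonUnital_of_mem_span (k := k) (s := s) (x := 1) (h1 ▸ Submodule.mem_top)
    simpa using this
  obtain ⟨V, hV, hV'⟩ := Ideal.image_subset_nonunits_valuationSubring
    (A := (Algebra.adjoin k s).toSubring) _ hI
  refine ⟨V, fun a => hV (Subalgebra.algebraMap_mem _ a), fun x hx => hV' ?_⟩
  exact ⟨⟨x, Algebra.subset_adjoin hx⟩, Ideal.subset_span hx, rfl⟩

theorem not_mem_of_inv_mem_nonunits {V : ValuationSubring K} {x : K} (hx : x ≠ 0)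
    (h : x⁻¹ ∈ V.nonunits) : x ∉ V := by
  rw [ValuationSubring.inv_mem_nonunits_iff] at h
  exact h.resolve_left hx

/-- ZRC -/
theorem zrc {ι κ : Type*} [Finite κ] (f : ι → κ → K)
    (H : ∀ V : ValuationSubring K, (∀ a : k, algebraMap k K a ∈ V) → ∃ i, ∀ j, f i j ∈ V) :
    ∃ S : Finset ι, ∀ c : ι → κ, (∀ i ∈ S, f i (c i) ≠ 0) →
      (1 : K) ∈ NonUnitalAlgebra.adjoin k ((fun i => (f i (c i))⁻¹) '' (S : Set ι)) := by
  classical
  by_contra hcon
  push Not at hcon
  choose c hc0 hc1 using hcon
  -- ultrafilter on finite subsets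
  let U : Ultrafilter (Finset ι) := Ultrafilter.of atTop
  have hU : (U : Filter (Finset ι)) ≤ atTop := Ultrafilter.of_le _
  have hlim : ∀ i, ∃ v : κ, ∀ᶠ S in (U : Filter (Finset ι)), c S i = v := by
    intro i
    obtain ⟨v, hv⟩ := Ultrafilter.eq_pure_of_finite (U.map fun S => c S i)
    refine ⟨v, ?_⟩
    have : {v} ∈ U.map fun S => c S i := by rw [hv]; exact Set.mem_singleton v
    exact this
  choose d hd using hlim
  have hfin : ∀ T : Finset ι, ∃ S : Finset ι, T ⊆ S ∧ ∀ i ∈ T, c S i = d i := by
    intro T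
    have h1 : ∀ᶠ S in (U : Filter (Finset ι)), T ⊆ S := hU (eventually_ge_atTop T)
    have h2 : ∀ᶠ S in (U : Filter (Finset ι)), ∀ i ∈ T, c S i = d i :=
      (eventually_all_finset T).2 fun i _ => hd i
    obtain ⟨S, hS⟩ := (h1.and h2).exists
    exact ⟨S, hS⟩
  have h0 : ∀ i, f i (d i) ≠ 0 := by
    intro i
    obtain ⟨S, hS, hSd⟩ := hfin {i}
    rw [← hSd i (by simp)]
    exact hc0 S i (hS (by simp))
  have h1 : (1 : K) ∉ NonUnitalAlgebra.adjoin k (Set.range fun i => (f i (d i))⁻¹) := by
    intro h1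
    obtain ⟨t, ht, h1t⟩ := mem_adjoin_finset h1
    have : ∃ T : Finset ι, (t : Set K) ⊆ (fun i => (f i (d i))⁻¹) '' (T : Set ι) := by
      have : ∀ x ∈ t, ∃ i, (f i (d i))⁻¹ = x := fun x hx => ht hx
      choose g hg using this
      refine ⟨t.attach.image (fun x => g x.1 x.2), fun x hx => ⟨g x hx, ?_, hg x hx⟩⟩
      simp only [Finset.coe_image, Set.mem_image]
      exact ⟨⟨x, hx⟩, by simp, rfl⟩
    obtain ⟨T, hT⟩ := this
    obtain ⟨S, hS, hSd⟩ := hfin T
    apply hc1 S
    refine NonUnitalAlgebra.adjoin_mono ?_ h1t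
    refine hT.trans ?_
    rintro _ ⟨i, hi, rfl⟩
    exact ⟨i, hS hi, by simp only [hSd i hi]⟩
  obtain ⟨V, hV, hV'⟩ := exists_valuationSubring h1
  obtain ⟨i, hi⟩ := H V hV
  exact not_mem_of_inv_mem_nonunits (h0 i) (hV' ⟨i, rfl⟩) (hi (d i))

end Crest.Agent.R276.Zrc_448
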