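import Mathlib
import Crest.Agent.R276.Zrc_448

/-!
# INT, part B: analytic form of ZRC, denominators

* `bound_of_mem_adjoin`: if `b` is a polynomial without constant term in the elements of `G` then `b` is small
  at the points where all elements of `G` are small, uniformly over sets of points where the coefficients are
  bounded.
* `cover`: the analytic covering property.
* `exists_smul_mem`: clearing denominators.
-/

set_option autoImplicit false

open Filter Set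

namespace Crest.Agent.R276.IntB_448

section bound

variable {A B : Type*} [CommRing A] [CommRing B] [Algebra A B]

theorem bound_of_mem_adjoin {G : Set B} {b : B} (hb : b ∈ NonUnitalAlgebra.adjoin A G)
    (Q : Set (B →+* ℂ)) (hQ : ∀ α : A, ∃ C, ∀ x ∈ Q, ‖x (algebraMap A B α)‖ ≤ C) :
    ∃ C : ℝ, 0 ≤ C ∧ ∀ x ∈ Q, ∀ ε : ℝ, 0 ≤ ε → ε ≤ 1 → (∀ g ∈ G, ‖x g‖ ≤ ε) → ‖x b‖ ≤ C * ε := by
  induction hb using NonUnitalAlgebra.adjoin_induction with
  | mem y hy => exact ⟨1, zero_le_one, fun x _ ε _ _ h => by rw [one_mul]; exact h y hy⟩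
  | add y z _ _ hy hz =>
    obtain ⟨C, hC, h⟩ := hy
    obtain ⟨C', hC', h'⟩ := hz
    refine ⟨C + C', add_nonneg hC hC', fun x hx ε h0 h1 hg => ?_⟩
    rw [map_add, add_mul]
    exact (norm_add_le _ _).trans (add_le_add (h x hx ε h0 h1 hg) (h' x hx ε h0 h1 hg))
  | zero => exact ⟨0, le_rfl, fun x _ ε _ _ _ => by simp⟩
  | mul y z _ _ hy hz =>
    obtain ⟨C, hC, h⟩ := hy
    obtain ⟨C', hC', h'⟩ := hz
    refine ⟨C * C', mul_nonneg hC hC', fun x hx ε h0 h1 hg => ?_⟩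
    rw [map_mul, norm_mul]
    have h2 := h x hx ε h0 h1 hg
    have h3 := h' x hx ε h0 h1 hg
    have h4 : C' * ε ≤ C' := mul_le_of_le_one_right hC' h1
    calc ‖x y‖ * ‖x z‖ ≤ (C * ε) * (C' * ε) :=
          mul_le_mul h2 h3 (norm_nonneg _) (mul_nonneg hC h0)
      _ ≤ (C * ε) * C' := mul_le_mul_of_nonneg_left h4 (mul_nonneg hC h0)
      _ = C * C' * ε := by ring
  | smul r y _ hy =>
    obtain ⟨C, hC, h⟩ := hy
    obtain ⟨C', h'⟩ := hQ r
    refine ⟨|C'| * C, mul_nonneg (abs_nonneg _) hC, fun x hx ε h0 h1 hg => ?_⟩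
    rw [Algebra.smul_def, map_mul, norm_mul, mul_assoc]
    exact mul_le_mul ((h' x hx).trans (le_abs_self _)) (h x hx ε h0 h1 hg) (norm_nonneg _)
      (abs_nonneg _)

/-- **covering property** -/
theorem cover {σ κ : Type*} [Finite σ] [Finite κ] (f u : σ → κ → B)
    (hfu : ∀ s j, f s j = 0 ∨ f s j * u s j = 1) (a : A)
    (hadj : ∀ c : σ → κ, (∀ s, f s (c s) ≠ 0) →
      algebraMap A B a ∈ NonUnitalAlgebra.adjoin A (range fun s => u s (c s)))
    (Q : Set (B →+* ℂ)) (hQ : ∀ α : A, ∃ C, ∀ x ∈ Q, ‖x (algebraMap A B α)‖ ≤ C)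
    {δ : ℝ} (hδ : 0 < δ) (hQa : ∀ x ∈ Q, δ ≤ ‖x (algebraMap A B a)‖) :
    ∃ C : ℝ, ∀ x ∈ Q, ∃ s, ∀ j, ‖x (f s j)‖ ≤ C := by
  classical
  have key : ∀ c : σ → κ, ∃ C : ℝ, 0 ≤ C ∧ ((∀ s, f s (c s) ≠ 0) → ∀ x ∈ Q, ∀ ε : ℝ, 0 ≤ ε → ε ≤ 1 →
      (∀ s, ‖x (u s (c s))‖ ≤ ε) → ‖x (algebraMap A B a)‖ ≤ C * ε) := by
    intro c
    by_cases hc : ∀ s, f s (c s) ≠ 0
    · obtain ⟨C, hC, h⟩ := bound_of_mem_adjoin (hadj c hc) Q hQ
      refine ⟨C, hC, fun _ x hx ε h0 h1 hg => h x hx ε h0 h1 ?_⟩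
      rintro _ ⟨s, rfl⟩
      exact hg s
    · exact ⟨0, le_rfl, fun h => absurd h hc⟩
  choose Cc hCc0 hCc using key
  have : Fintype (σ → κ) := Fintype.ofFinite _
  set C0 : ℝ := ∑ c : σ → κ, Cc c with hC0
  have hC0' : ∀ c, Cc c ≤ C0 := fun c => Finset.single_le_sum (fun c _ => hCc0 c) (Finset.mem_univ c)
  have hC0n : 0 ≤ C0 := Finset.sum_nonneg fun c _ => hCc0 c
  set ε : ℝ := min 1 (δ / (2 * (C0 + 1))) with hε
  have hε0 : 0 < ε := lt_min one_pos (by positivity)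
  have hε1 : ε ≤ 1 := min_le_left _ _
  have hε2 : C0 * ε < δ := by
    have h1 : ε ≤ δ / (2 * (C0 + 1)) := min_le_right _ _
    have h2 : C0 * ε ≤ C0 * (δ / (2 * (C0 + 1))) := mul_le_mul_of_nonneg_left h1 hC0n
    have h3 : C0 * (δ / (2 * (C0 + 1))) < δ := by
      have h4 : C0 * (δ / (2 * (C0 + 1))) = δ * (C0 / (2 * (C0 + 1))) := by ring
      rw [h4]
      have h5 : C0 / (2 * (C0 + 1)) < 1 := by
        rw [div_lt_one (by positivity)]
        linarith
      calc δ * (C0 / (2 * (C0 + 1))) < δ * 1 := mul_lt_mul_of_pos_left h5 hδ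
        _ = δ := mul_one δ
    exact h2.trans_lt h3
  refine ⟨ε⁻¹, fun x hx => ?_⟩
  by_contra hcon
  push Not at hcon
  choose c hc using hcon
  have hf : ∀ s, f s (c s) ≠ 0 := by
    intro s h0
    have := hc s
    rw [h0, map_zero, norm_zero] at this
    exact absurd this (not_lt.2 (inv_nonneg.2 hε0.le))
  have hu : ∀ s, ‖x (u s (c s))‖ ≤ ε := by
    intro s
    have h1 := (hfu s (c s)).resolve_left (hf s)
    have h2 : ‖x (f s (c s))‖ * ‖x (u s (c s))‖ = 1 := by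
      rw [← norm_mul, ← map_mul, h1, map_one, norm_one]
    have h3 : 0 < ‖x (f s (c s))‖ := (inv_pos.2 hε0).trans (hc s)
    have h4 : ‖x (u s (c s))‖ = ‖x (f s (c s))‖⁻¹ := by
      field_simp
      linarith
    rw [h4]
    exact inv_le_of_inv_le₀ hε0 (hc s).le
  have h1 := hCc c hf x hx ε hε0.le hε1 hu
  have h2 := hQa x hx
  have h3 : Cc c * ε ≤ C0 * ε := mul_le_mul_of_nonneg_right (hC0' c) hε0.le
  linarith

end bound

section denom

variable {A L K : Type*} [CommRing A] [IsDomain A] [Field L] [Algebra A L] [IsFractionRing A L]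
  [CommRing K] [Algebra L K] [Algebra A K] [IsScalarTower A L K]

/-- clearing denominators -/
theorem exists_smul_mem {G : Set K} {x : K} (hx : x ∈ NonUnitalAlgebra.adjoin L G) :
    ∃ a : A, a ≠ 0 ∧ a • x ∈ NonUnitalAlgebra.adjoin A G := by
  induction hx using NonUnitalAlgebra.adjoin_induction with
  | mem y hy =>
    exact ⟨1, one_ne_zero, by rw [one_smul]; exact NonUnitalAlgebra.subset_adjoin A hy⟩
  | add y z _ _ hy hz =>
    obtain ⟨a, ha, hay⟩ := hy
    obtain ⟨b, hb, hbz⟩ := hz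
    refine ⟨a * b, mul_ne_zero ha hb, ?_⟩
    rw [smul_add]
    refine add_mem ?_ ?_
    · rw [mul_comm, mul_smul]; exact SMulMemClass.smul_mem b hay
    · rw [mul_smul]; exact SMulMemClass.smul_mem a hbz
  | zero => exact ⟨1, one_ne_zero, by rw [smul_zero]; exact zero_mem _⟩
  | mul y z _ _ hy hz =>
    obtain ⟨a, ha, hay⟩ := hy
    obtain ⟨b, hb, hbz⟩ := hz
    refine ⟨a * b, mul_ne_zero ha hb, ?_⟩
    have h1 : (a * b) • (y * z) = (a • y) * (b • z) := by
      rw [smul_mul_smul_comm]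
    rw [h1]
    exact mul_mem hay hbz
  | smul r y _ hy =>
    obtain ⟨a, ha, hay⟩ := hy
    obtain ⟨p, q, hq, hr⟩ := IsFractionRing.div_surjective (A := A) r
    have hq0 : q ≠ 0 := nonZeroDivisors.ne_zero hq
    have hq1 : algebraMap A L q ≠ 0 := by
      rw [Ne, IsFractionRing.to_map_eq_zero_iff]; exact hq0
    refine ⟨q * a, mul_ne_zero hq0 ha, ?_⟩
    have h1 : (q * a) • (r • y) = p • (a • y) := by
      rw [← hr]
      rw [← algebraMap_smul L (q * a), ← algebraMap_smul L a, ← algebraMap_smul L p, smul_smul, smul_smul]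
      congr 1
      rw [map_mul]
      field_simp
    rw [h1]
    exact SMulMemClass.smul_mem p hay

end denom

section descend

variable {A B K : Type*} [CommRing A] [CommRing B] [CommRing K] [Algebra A B] [Algebra B K]
  [Algebra A K] [IsScalarTower A B K]

theorem mem_adjoin_of_map (hinj : Function.Injective (algebraMap B K)) {G : Set B} {b : B}
    (h : algebraMap B K b ∈ NonUnitalAlgebra.adjoin A (algebraMap B K '' G)) :
    b ∈ NonUnitalAlgebra.adjoin A G := by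
  have h1 : ∀ x ∈ NonUnitalAlgebra.adjoin A (algebraMap B K '' G),
      ∃ c ∈ NonUnitalAlgebra.adjoin A G, algebraMap B K c = x := by
    intro x hx
    induction hx using NonUnitalAlgebra.adjoin_induction with
    | mem y hy =>
      obtain ⟨c, hc, rfl⟩ := hy
      exact ⟨c, NonUnitalAlgebra.subset_adjoin A hc, rfl⟩
    | add y z _ _ hy hz =>
      obtain ⟨c, hc, rfl⟩ := hy
      obtain ⟨d, hd, rfl⟩ := hz
      exact ⟨c + d, add_mem hc hd, map_add _ _ _⟩
    | zero => exact ⟨0, zero_mem _, map_zero _⟩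
    | mul y z _ _ hy hz =>
      obtain ⟨c, hc, rfl⟩ := hy
      obtain ⟨d, hd, rfl⟩ := hz
      exact ⟨c * d, mul_mem hc hd, map_mul _ _ _⟩
    | smul r y _ hy =>
      obtain ⟨c, hc, rfl⟩ := hy
      refine ⟨r • c, SMulMemClass.smul_mem r hc, ?_⟩
      rw [Algebra.smul_def, map_mul, ← IsScalarTower.algebraMap_apply, ← Algebra.smul_def]
  obtain ⟨c, hc, hcb⟩ := h1 _ h
  rwa [← hinj hcb]

end descend

end Crest.Agent.R276.IntB_448
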