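import Crest.Agent.R276.FKDefs_779

/-!
# Row 276, FK (helper143): bases of `Ω[K⁄k]` from transcendence bases, change of basis,
ascent of `PluriS` along base enlargements
-/

set_option autoImplicit false

noncomputable section

open KaehlerDifferential TensorProduct MvPolynomial

namespace Crest.Agent.R276.FKB0_143

open Crest.Agent.R276.FKDefs_779

section kbasis

variable {k K : Type*} [Field k] [CharZero k] [Field K] [Algebra k K] {ι : Type*} {x : ι → K}

theorem exists_kbasis (hx : IsTranscendenceBasis k x) :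
    ∃ b : Module.Basis ι K (Ω[K⁄k]), ∀ i, b i = D k K (x i) := by
  let _ : Algebra (MvPolynomial ι k) K := (aeval x : MvPolynomial ι k →ₐ[k] K).toAlgebra
  have hal : ∀ p : MvPolynomial ι k, algebraMap (MvPolynomial ι k) K p = aeval x p := fun p => rfl
  have : IsScalarTower k (MvPolynomial ι k) K :=
    IsScalarTower.of_algebraMap_eq fun c => by rw [hal]; simp
  have hinj : Function.Injective (algebraMap (MvPolynomial ι k) K) := hx.1
  have : FaithfulSMul (MvPolynomial ι k) K := (faithfulSMul_iff_algebraMap_injective _ _).2 hinj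
  have halg : Algebra.IsAlgebraic (MvPolynomial ι k) K := by
    have h1 := hx.isAlgebraic
    refine ⟨fun a => ?_⟩
    have h2 := h1.isAlgebraic a
    obtain ⟨p, hp0, hp⟩ := h2
    let e := hx.1.aevalEquiv
    refine ⟨p.map e.symm.toRingEquiv.toRingHom, ?_, ?_⟩
    · intro h
      apply hp0
      have := (Polynomial.map_injective e.symm.toRingEquiv.toRingHom e.symm.injective)
      apply this
      rw [h, Polynomial.map_zero]
    · rw [Polynomial.aeval_def, Polynomial.eval₂_map]
      rw [Polynomial.aeval_def] at hp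
      have hco : (algebraMap (MvPolynomial ι k) K).comp e.symm.toRingEquiv.toRingHom =
          algebraMap (Algebra.adjoin k (Set.range x)) K := by
        refine RingHom.ext fun c => ?_
        show aeval x (e.symm c) = (c : K)
        have h3 := hx.1.algebraMap_aevalEquiv (e.symm c)
        rw [← h3]
        show ((e (e.symm c) : Algebra.adjoin k (Set.range x)) : K) = c
        rw [AlgEquiv.apply_symm_apply]
      rw [hco, hp]
  let _ : Algebra (FractionRing (MvPolynomial ι k)) K := FractionRing.liftAlgebra _ K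
  have : IsScalarTower (MvPolynomial ι k) (FractionRing (MvPolynomial ι k)) K :=
    FractionRing.isScalarTower_liftAlgebra _ K
  have halg' : Algebra.IsAlgebraic (FractionRing (MvPolynomial ι k)) K :=
    (IsFractionRing.comap_isAlgebraic_iff (A := MvPolynomial ι k)
      (K := FractionRing (MvPolynomial ι k)) (C := K)).1 halg
  have : Algebra.IsSeparable (FractionRing (MvPolynomial ι k)) K := inferInstance
  have h1 : Algebra.FormallyEtale (FractionRing (MvPolynomial ι k)) K :=
    Algebra.FormallyEtale.of_isSeparable _ K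
  have h2 : Algebra.FormallyEtale (MvPolynomial ι k) (FractionRing (MvPolynomial ι k)) :=
    .of_isLocalization (nonZeroDivisors (MvPolynomial ι k))
  have h3 : Algebra.FormallyEtale (MvPolynomial ι k) K :=
    .comp _ (FractionRing (MvPolynomial ι k)) K
  let b := ((mvPolynomialBasis k ι).baseChange K).map
    (tensorKaehlerEquivOfFormallyEtale k (MvPolynomial ι k) K)
  refine ⟨b, fun i => ?_⟩
  have hbi : (mvPolynomialBasis k ι) i = D k _ (X i) := by
    apply (mvPolynomialBasis k ι).repr.injective
    rw [Module.Basis.repr_self, mvPolynomialBasis_repr_D_X]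
  simp only [b, Module.Basis.map_apply, Module.Basis.baseChange_apply, hbi]
  rw [← LinearEquiv.eq_symm_apply]
  have h5 : x i = algebraMap (MvPolynomial ι k) K (X i) := by rw [hal]; simp
  rw [h5, tensorKaehlerEquivOfFormallyEtale_symm_D_algebraMap]

/-- the basis `dxᵢ` of `Ω[K⁄k]` attached to a transcendence basis `x` (characteristic `0`). -/
def kbasis (hx : IsTranscendenceBasis k x) : Module.Basis ι K (Ω[K⁄k]) :=
  Classical.choose (exists_kbasis hx)

@[simp] theorem kbasis_apply (hx : IsTranscendenceBasis k x) (i : ι) :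
    kbasis hx i = D k K (x i) := Classical.choose_spec (exists_kbasis hx) i

end kbasis

section val

variable {K M : Type*} [Field K] [Field M]

theorem val_le_iff (R : ValuationSubring K) {a b : K} (hb : b ≠ 0) :
    R.valuation a ≤ R.valuation b ↔ a / b ∈ R := by
  rw [← ValuationSubring.valuation_le_one_iff, map_div₀]
  exact (div_le_one₀ (by simpa [zero_lt_iff] using hb)).symm

theorem val_comap_le_iff (V : ValuationSubring M) (f : K →+* M) {a b : K} :
    (V.comap f).valuation a ≤ (V.comap f).valuation b ↔ V.valuation (f a) ≤ V.valuation (f b) := by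
  by_cases hb : b = 0
  · subst hb
    simp
  · rw [val_le_iff _ hb, val_le_iff _ ((map_ne_zero f).2 hb), ValuationSubring.mem_comap, map_div₀]

end val

section change

variable {k K : Type*} [Field k] [Field K] [Algebra k K] {n : ℕ}

theorem jac_change (b b' : Module.Basis (Fin n) K (Ω[K⁄k])) (y : Fin n → K) :
    jac k b y = b.det b' * jac k b' y := by
  have h := AlternatingMap.eq_smul_basis_det (e := b') b.det
  unfold jac
  conv_lhs => rw [h]
  rfl

theorem det_ne_zero (b b' : Module.Basis (Fin n) K (Ω[K⁄k])) : b.det b' ≠ 0 :=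
  (b.isUnit_det b').ne_zero

theorem regAt_change (R : ValuationSubring K) (b b' : Module.Basis (Fin n) K (Ω[K⁄k])) (m : ℕ)
    {g : K} (h : RegAt k R b m g) : RegAt k R b' m (g / b.det b' ^ m) := by
  obtain ⟨y, hy, hg⟩ := h
  refine ⟨y, hy, ?_⟩
  rw [jac_change b b' y, map_mul, mul_pow] at hg
  rw [map_div₀, map_pow]
  have h0 : 0 < R.valuation (b.det b') ^ m := by
    apply pow_pos
    simpa [zero_lt_iff] using det_ne_zero b b'
  rwa [div_le_iff₀ h0, mul_comm]

theorem pluriS_change (b b' : Module.Basis (Fin n) K (Ω[K⁄k])) (m : ℕ)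
    {g : K} (h : PluriS k b m g) : PluriS k b' m (g / b.det b' ^ m) := fun R hR =>
  regAt_change R b b' m (h R hR)

theorem pluri_change (b b' : Module.Basis (Fin n) K (Ω[K⁄k])) (m : ℕ)
    {g : K} (h : Pluri k b m g) : Pluri k b' m (g / b.det b' ^ m) := fun R hR =>
  regAt_change R b b' m (h R hR)

theorem card_eq_of_basis {n' : ℕ} (b : Module.Basis (Fin n) K (Ω[K⁄k]))
    (b' : Module.Basis (Fin n') K (Ω[K⁄k])) : n = n' := by
  have h1 := Module.finrank_eq_card_basis b
  have h2 := Module.finrank_eq_card_basis b'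
  rw [Fintype.card_fin] at h1 h2
  omega

/-- `κ(K/k) ≥ d` can be tested on any basis of `Ω[K⁄k]` (strong version). -/
theorem kapGeS_iff (b : Module.Basis (Fin n) K (Ω[K⁄k])) (d : ℕ) :
    KapGeS k K d ↔ ∃ m : ℕ, 0 < m ∧ ∃ f : Fin (d + 1) → K,
      (∀ i, f i ≠ 0 ∧ PluriS k b m (f i)) ∧
      AlgebraicIndependent k (fun i : Fin d => f i.succ / f 0) := by
  constructor
  · rintro ⟨n', b', m, hm, f, hf, ha⟩
    obtain rfl := card_eq_of_basis b b'
    have h0 : b'.det b ^ m ≠ 0 := pow_ne_zero _ (det_ne_zero b' b)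
    refine ⟨m, hm, fun i => f i / b'.det b ^ m, fun i => ⟨div_ne_zero (hf i).1 h0,
      pluriS_change b' b m (hf i).2⟩, ?_⟩
    convert ha using 2 with i
    exact div_div_div_cancel_right₀ h0 _ _
  · rintro ⟨m, hm, f, hf, ha⟩
    exact ⟨n, b, m, hm, f, hf, ha⟩

/-- `κ(K/k) ≥ d` can be tested on any basis of `Ω[K⁄k]`. -/
theorem kapGe_iff (b : Module.Basis (Fin n) K (Ω[K⁄k])) (d : ℕ) :
    KapGe k K d ↔ ∃ m : ℕ, 0 < m ∧ ∃ f : Fin (d + 1) → K,
      (∀ i, f i ≠ 0 ∧ Pluri k b m (f i)) ∧
      AlgebraicIndependent k (fun i : Fin d => f i.succ / f 0) := by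
  constructor
  · rintro ⟨n', b', m, hm, f, hf, ha⟩
    obtain rfl := card_eq_of_basis b b'
    have h0 : b'.det b ^ m ≠ 0 := pow_ne_zero _ (det_ne_zero b' b)
    refine ⟨m, hm, fun i => f i / b'.det b ^ m, fun i => ⟨div_ne_zero (hf i).1 h0,
      pluri_change b' b m (hf i).2⟩, ?_⟩
    convert ha using 2 with i
    exact div_div_div_cancel_right₀ h0 _ _
  · rintro ⟨m, hm, f, hf, ha⟩
    exact ⟨n, b, m, hm, f, hf, ha⟩

end change

section ascent

variable {k k' L M : Type*} [Field k] [Field k'] [Field L] [Field M] [Algebra k k'] [Algebra k L]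
  [Algebra k' M] [Algebra L M] [Algebra k M] [IsScalarTower k k' M] [IsScalarTower k L M]
  {n : ℕ}

/-- compatibility of Jacobians with base enlargement -/
theorem jac_map (b : Module.Basis (Fin n) L (Ω[L⁄k])) (b' : Module.Basis (Fin n) M (Ω[M⁄k']))
    (hb : ∀ i, KaehlerDifferential.map k k' L M (b i) = b' i) (y : Fin n → L) :
    jac k' b' (fun i => algebraMap L M (y i)) = algebraMap L M (jac k b y) := by
  unfold jac
  rw [Module.Basis.det_apply, Module.Basis.det_apply, RingHom.map_det]
  congr 1
  ext i j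
  rw [Module.Basis.toMatrix_apply, RingHom.mapMatrix_apply, Matrix.map_apply,
    Module.Basis.toMatrix_apply]
  have h1 : D k' M (algebraMap L M (y j)) =
      ∑ l, algebraMap L M (b.repr (D k L (y j)) l) • b' l := by
    rw [← KaehlerDifferential.map_D k k' L M]
    conv_lhs => rw [← b.sum_repr (D k L (y j))]
    rw [map_sum]
    refine Finset.sum_congr rfl fun l _ => ?_
    rw [map_smul, hb, algebraMap_smul]
  rw [h1, map_sum, Finsupp.finsetSum_apply, Finset.sum_eq_single i]
  · rw [map_smul, Module.Basis.repr_self, Finsupp.smul_apply, Finsupp.single_eq_same,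
      smul_eq_mul, mul_one]
  · intro l _ hl
    rw [map_smul, Module.Basis.repr_self, Finsupp.smul_apply, Finsupp.single_apply, if_neg hl,
      smul_zero]
  · intro h
    exact absurd (Finset.mem_univ _) h

/-- ASCENT: `PluriS` goes up along base enlargements. -/
theorem pluriS_ascent (b : Module.Basis (Fin n) L (Ω[L⁄k])) (b' : Module.Basis (Fin n) M (Ω[M⁄k']))
    (hb : ∀ i, KaehlerDifferential.map k k' L M (b i) = b' i) {m : ℕ} {g : L}
    (h : PluriS k b m g) : PluriS k' b' m (algebraMap L M g) := by
  intro V hV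
  obtain ⟨y, hy, hg⟩ := h (V.comap (algebraMap L M)) (fun c => by
    rw [ValuationSubring.mem_comap, ← IsScalarTower.algebraMap_apply k L M,
      IsScalarTower.algebraMap_apply k k' M]
    exact hV _)
  refine ⟨fun i => algebraMap L M (y i), fun i => hy i, ?_⟩
  rw [jac_map b b' hb, ← map_pow, ← map_pow]
  rw [← map_pow] at hg
  exact (val_comap_le_iff V (algebraMap L M)).1 hg

end ascent

end Crest.Agent.R276.FKB0_143
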