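import Mathlib
import Crest.Agent.R276.Mod3_987
import Crest.Agent.R276.FKB0_143
import Crest.Agent.R271.Der_171

/-!
# INT, part C: transcendence bases from Jacobians, multiplicities, localisation of models
-/

set_option autoImplicit false

open Filter Set MeasureTheory
open scoped ENNReal

noncomputable section

namespace Crest.Agent.R276.IntC_448

open Crest.Agent.R271.Defs710 Crest.Agent.R271.Alg255 Crest.Agent.R271.Rd692
open Crest.Agent.R276.Mod1_987 Crest.Agent.R276.Mod1_987.Mdl

section indep

variable {K : Type*} [Field K] [Algebra ℂ K] {n : ℕ}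

lemma deriv_aeval (δ : Derivation ℂ K K) (x : Fin n → K) (P : MvPolynomial (Fin n) ℂ) :
    δ (MvPolynomial.aeval x P) =
      ∑ i, MvPolynomial.aeval x (MvPolynomial.pderiv i P) * δ (x i) := by
  classical
  induction P using MvPolynomial.induction_on with
  | C a =>
    simp only [MvPolynomial.pderiv_C, map_zero, zero_mul, Finset.sum_const_zero]
    rw [← MvPolynomial.algebraMap_eq, AlgHom.commutes, Derivation.map_algebraMap]
  | add p q hp hq =>
    simp only [map_add, hp, hq, add_mul, Finset.sum_add_distrib]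
  | mul_X p i hp =>
    rw [map_mul, MvPolynomial.aeval_X, Derivation.leibniz, hp, smul_eq_mul, smul_eq_mul]
    have h1 : ∀ j, MvPolynomial.aeval x (MvPolynomial.pderiv j (p * MvPolynomial.X i)) * δ (x j) =
        (if j = i then MvPolynomial.aeval x p * δ (x i) else 0) +
          x i * (MvPolynomial.aeval x (MvPolynomial.pderiv j p) * δ (x j)) := by
      intro j
      rw [Derivation.leibniz, map_add, smul_eq_mul, smul_eq_mul, map_mul, map_mul,
        MvPolynomial.aeval_X, MvPolynomial.pderiv_X]
      by_cases hj : j = i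
      · subst hj
        simp only [Pi.single_eq_same, map_one, if_true]
        ring
      · rw [Pi.single_eq_of_ne (Ne.symm hj), map_zero, if_neg hj]
        ring
    simp_rw [h1]
    rw [Finset.sum_add_distrib, Finset.sum_ite_eq' Finset.univ i, if_pos (Finset.mem_univ i),
      Finset.mul_sum]

/-- elements with nonvanishing Jacobian are algebraically independent -/
theorem algebraicIndependent_of_det (δ : Fin n → Derivation ℂ K K) (x : Fin n → K)
    (h : (Matrix.of fun i j => δ j (x i)).det ≠ 0) : AlgebraicIndependent ℂ x := by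
  classical
  rw [algebraicIndependent_iff_injective_aeval, injective_iff_map_eq_zero]
  by_contra hcon
  push Not at hcon
  obtain ⟨P0, hP0, hP0'⟩ := hcon
  -- minimal total degree
  have hex : ∃ d, ∃ P : MvPolynomial (Fin n) ℂ, MvPolynomial.aeval x P = 0 ∧ P ≠ 0 ∧
      P.totalDegree = d := ⟨_, P0, hP0, hP0', rfl⟩
  obtain ⟨P, hP, hPne, hPd⟩ := Nat.find_spec hex
  have hmin : ∀ Q : MvPolynomial (Fin n) ℂ, MvPolynomial.aeval x Q = 0 →
      Q.totalDegree < P.totalDegree → Q = 0 := by
    intro Q hQ hlt
    by_contra hQ0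
    exact Nat.find_min hex (hPd ▸ hlt) ⟨Q, hQ, hQ0, rfl⟩
  have hdeg : P.totalDegree ≠ 0 := by
    intro h0
    have hc := (MvPolynomial.totalDegree_eq_zero_iff_eq_C).1 h0
    rw [hc, ← MvPolynomial.algebraMap_eq, AlgHom.commutes] at hP
    have h1 : P.coeff 0 = 0 := (map_eq_zero_iff _ (algebraMap ℂ K).injective).1 hP
    rw [h1, MvPolynomial.C_0] at hc
    exact hPne hc
  obtain ⟨i0, hi0⟩ := Crest.Agent.R271.Ord171.exists_pderiv_ne_zero P hdeg
  have hv : (Matrix.of fun i j => δ j (x i)).transpose.mulVec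
      (fun i => MvPolynomial.aeval x (MvPolynomial.pderiv i P)) = 0 := by
    funext j
    simp only [Matrix.mulVec, dotProduct, Matrix.transpose_apply, Matrix.of_apply, Pi.zero_apply]
    have h1 := deriv_aeval (δ j) x P
    rw [hP, map_zero] at h1
    rw [h1]
    exact Finset.sum_congr rfl fun i _ => mul_comm _ _
  have hv0 := Matrix.eq_zero_of_mulVec_eq_zero (by rwa [Matrix.det_transpose]) hv
  apply hi0
  apply hmin _ (congrFun hv0 i0)
  have h1 := Crest.Agent.R271.Ord171.totalDegree_pderiv_le i0 P
  omega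

end indep

section basis

variable {K : Type} [Field K] [Algebra ℂ K] {n : ℕ} (M : Mdl K n)

/-- elements of `B` are algebraic over `ℂ[z]` -/
theorem isAlgebraic_B (b : M.B) :
    letI : Algebra (MvPolynomial (Fin n) ℂ) M.B := (az M.z).toAlgebra
    IsAlgebraic (MvPolynomial (Fin n) ℂ) b := by
  let _ : Algebra (MvPolynomial (Fin n) ℂ) M.B := (az M.z).toAlgebra
  have hmap : algebraMap (MvPolynomial (Fin n) ℂ) M.B = az M.z := rfl
  have hθ : IsIntegral (MvPolynomial (Fin n) ℂ) M.θ := ⟨M.μ, M.monic, M.root⟩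
  obtain ⟨k, q, hq⟩ := M.gen b
  have h1 : IsAlgebraic (MvPolynomial (Fin n) ℂ) (az M.z (M.h ^ k) * b) := by
    rw [hq]
    have h2 : Polynomial.eval₂ (az M.z) M.θ q = Polynomial.aeval M.θ q := rfl
    rw [h2]
    have h4 : IsIntegral (MvPolynomial (Fin n) ℂ) (Polynomial.aeval M.θ q) :=
      IsIntegral.of_mem_of_fg (Algebra.adjoin (MvPolynomial (Fin n) ℂ) {M.θ})
        hθ.fg_adjoin_singleton _ (Polynomial.aeval_mem_adjoin_singleton _ _)
    exact h4.isAlgebraic
  have h3 : az M.z (M.h ^ k) ∈ nonZeroDivisors M.B := by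
    apply mem_nonZeroDivisors_of_ne_zero
    rw [map_pow]
    exact pow_ne_zero _ M.h_unit.ne_zero
  exact IsAlgebraic.of_mul h3 (isAlgebraic_algebraMap _) h1

/-- every nonzero element of `B` divides a nonzero polynomial in `z` -/
theorem exists_dvd {b : M.B} (hb : b ≠ 0) :
    ∃ p : MvPolynomial (Fin n) ℂ, p ≠ 0 ∧ b ∣ az M.z p := by
  let _ : Algebra (MvPolynomial (Fin n) ℂ) M.B := (az M.z).toAlgebra
  obtain ⟨r, hr, h⟩ := (isAlgebraic_B M b).exists_nonzero_dvd (mem_nonZeroDivisors_of_ne_zero hb)
  exact ⟨r, hr, h⟩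

lemma algInd_z : AlgebraicIndependent ℂ (fun i => (M.z i : K)) := by
  rw [algebraicIndependent_iff_injective_aeval]
  intro p q hpq
  apply M.az_injective
  apply Subtype.ext
  rw [az_val, az_val]
  exact hpq

theorem isTranscendenceBasis : IsTranscendenceBasis ℂ (fun i => (M.z i : K)) := by
  rw [(algInd_z M).isTranscendenceBasis_iff_isAlgebraic]
  let R := Algebra.adjoin ℂ (Set.range fun i => (M.z i : K))
  let _ : Algebra (MvPolynomial (Fin n) ℂ) M.B := (az M.z).toAlgebra
  have hB : ∀ b : M.B, IsAlgebraic R (b : K) := by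
    intro b
    obtain ⟨p, hp0, hp⟩ := isAlgebraic_B M b
    let e := (algInd_z M).aevalEquiv
    refine ⟨p.map e.toRingEquiv.toRingHom, ?_, ?_⟩
    · intro h
      apply hp0
      apply Polynomial.map_injective e.toRingEquiv.toRingHom e.injective
      rw [h, Polynomial.map_zero]
    · rw [Polynomial.aeval_def, Polynomial.eval₂_map]
      have hco : (algebraMap R K).comp e.toRingEquiv.toRingHom =
          (M.B.val : M.B →+* K).comp (az M.z) := by
        refine RingHom.ext fun c => ?_
        change ((e c : Algebra.adjoin ℂ _) : K) = ((az M.z c : M.B) : K)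
        rw [az_val]
        exact (algInd_z M).algebraMap_aevalEquiv c
      rw [hco]
      have h2 := Polynomial.hom_eval₂ p (az M.z) (M.B.val : M.B →+* K) b
      have h3 : Polynomial.eval₂ (az M.z) b p = 0 := hp
      rw [h3, map_zero] at h2
      exact h2.symm
  refine ⟨fun a => ?_⟩
  obtain ⟨b, c, _, rfl⟩ := M.frac a
  rw [div_eq_mul_inv]
  exact (hB b).mul (hB c).inv

end basis

end Crest.Agent.R276.IntC_448
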