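import Mathlib
import Crest.Agent.R276.Mod5_987
import Crest.Agent.R276.IntC_448

/-!
# INT, part D: localisations, multiplicities

* `lintM_resB`: `lintM` does not change when the model is shrunk;
* `exists_den`: common denominators;
* `mult`: for a transcendence basis `x` of `K` there are finitely many elements of `K` and `d` such that on
  every shrinking containing them, `x` takes every value at most `d` times.
-/

set_option autoImplicit false

open Filter Set MeasureTheory Polynomial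
open scoped ENNReal

noncomputable section

namespace Crest.Agent.R276.IntD_448

open Crest.Agent.R271.Defs710 Crest.Agent.R271.Alg255 Crest.Agent.R271.Rd692 Crest.Agent.R271
open Crest.Agent.R276.Mod1_987 Crest.Agent.R276.Mod1_987.Mdl

variable {K : Type} [Field K] [Algebra ℂ K] {n : ℕ}

theorem lintM_resB {M M' : Mdl K n} (hz : M.zK = M'.zK) (h : M.B ≤ M'.B) (G : M.Pts → ℝ≥0∞) :
    lintM M.z G = lintM M'.z (fun y => G (resB h y)) := by
  unfold lintM
  refine lintegral_congr_ae ?_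
  filter_upwards [Null956.ae_eval_ne M'.h_ne] with ζ hζ
  let e : {y : M'.Pts // ∀ i, y (M'.z i) = ζ i} ≃ {y : M.Pts // ∀ i, y (M.z i) = ζ i} :=
    Equiv.ofBijective (fun y => ⟨resB h y.1, fun i => by
      have h1 := congrFun (pz_resB hz h y.1) i
      exact h1.trans (y.2 i)⟩) ⟨fun y y' hy => Subtype.ext (resB_injective hz h
        (congrArg Subtype.val hy)), fun y => by
      have h1 : M.pz y.1 = ζ := funext y.2
      have h2 : y.1 ∈ Set.range (resB h : M'.Pts → M.Pts) := by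
        rw [range_resB hz h]
        change MvPolynomial.eval (M.pz y.1) M'.h ≠ 0
        rw [h1]
        exact hζ
      obtain ⟨y', hy'⟩ := h2
      refine ⟨⟨y', fun i => ?_⟩, Subtype.ext hy'⟩
      have h3 := congrFun (pz_resB hz h y') i
      rw [hy', h1] at h3
      exact h3.symm⟩
  rw [← e.tsum_eq]
  rfl

variable (M : Mdl K n)

lemma aK_ne {p : MvPolynomial (Fin n) ℂ} (hp : p ≠ 0) : M.aK p ≠ 0 := by
  rw [Ne, map_eq_zero_iff _ M.aK_injective]; exact hp

/-- denominators -/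
lemma exists_den1 (a : K) : ∃ p : MvPolynomial (Fin n) ℂ, p ≠ 0 ∧ M.aK p * a ∈ M.B := by
  obtain ⟨r, hr, q, hq⟩ := M.gen_frac a
  refine ⟨r, hr, ?_⟩
  rw [hq]
  have h1 := eval₂_az_val M.z M.θ q
  change Polynomial.eval₂ _ _ _ ∈ M.B
  rw [← h1]
  exact Subtype.property _

lemma exists_den (F : Finset K) : ∃ p : MvPolynomial (Fin n) ℂ, p ≠ 0 ∧
    ∀ a ∈ F, M.aK p * a ∈ M.B := by
  classical
  induction F using Finset.induction_on with
  | empty => exact ⟨1, one_ne_zero, by simp⟩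
  | insert a F _ ih =>
    obtain ⟨p, hp, h⟩ := ih
    obtain ⟨r, hr, h'⟩ := exists_den1 M a
    refine ⟨p * r, mul_ne_zero hp hr, fun c hc => ?_⟩
    rw [map_mul]
    rcases Finset.mem_insert.1 hc with rfl | hc
    · rw [mul_assoc]
      exact mul_mem (M.aK_mem p) h'
    · have h1 : M.aK p * M.aK r * c = M.aK r * (M.aK p * c) := by ring
      rw [h1]
      exact mul_mem (M.aK_mem r) (h c hc)

lemma mem_loc_of_den {p : MvPolynomial (Fin n) ℂ} (hp : p ≠ 0) {a : K} (h : M.aK p * a ∈ M.B) :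
    a ∈ (M.loc p hp).B := ⟨1, by rw [pow_one]; exact h⟩

theorem exists_loc (F : Finset K) : ∃ M' : Mdl K n, M.zK = M'.zK ∧ M.B ≤ M'.B ∧
    ∀ a ∈ F, a ∈ M'.B := by
  obtain ⟨p, hp, h⟩ := exists_den M F
  exact ⟨M.loc p hp, rfl, M.le_loc p hp, fun a ha => mem_loc_of_den M hp (h a ha)⟩

lemma locSub_le {B0 B' : Subalgebra ℂ K} {H : K} {hH : H ∈ B0} (h : B0 ≤ B') (h0 : H ≠ 0)
    (hi : H⁻¹ ∈ B') : locSub B0 H hH ≤ B' := by
  rintro b ⟨k, hk⟩
  have h1 : b = (H⁻¹) ^ k * (H ^ k * b) := by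
    rw [← mul_assoc, ← mul_pow, inv_mul_cancel₀ h0, one_pow, one_mul]
  rw [h1]
  exact mul_mem (pow_mem hi k) (h hk)

/-- the number of points over any point -/
lemma encard_fib_le (N : Mdl K n) (η : Fin n → ℂ) : {y : N.Pts | N.pz y = η}.encard ≤ N.deg := by
  by_cases hη : MvPolynomial.eval η N.h = 0
  · have h1 : {y : N.Pts | N.pz y = η} = ∅ := by
      rw [Set.eq_empty_iff_forall_notMem]
      intro y hy
      apply N.eval_h_ne y
      have h2 : N.pz y = η := hy
      rw [h2]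
      exact hη
    rw [h1, Set.encard_empty]
    exact bot_le
  · have h1 := N.card_fib hη
    have := h1.2
    have h2 : {y : N.Pts | N.pz y = η}.Finite := this
    rw [← h2.cast_ncard_eq]
    have h3 : {y : N.Pts | N.pz y = η}.ncard = N.deg := h1.1
    rw [h3]

/-- **multiplicities** -/
theorem mult (x : Fin n → K) (hx : IsTranscendenceBasis ℂ x) :
    ∃ (F : Finset K) (d : ℕ), ∀ M' : Mdl K n, M.zK = M'.zK → M.B ≤ M'.B → (∀ a ∈ F, a ∈ M'.B) →
      ∀ y : Fin n → M'.B, (∀ i, (y i : K) = x i) → ∀ η : Fin n → ℂ,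
        {w : M'.Pts | (fun i => w (y i)) = η}.encard ≤ d := by
  classical
  obtain ⟨p, hp, hpx⟩ := exists_den M (Finset.univ.image x)
  set B0 : Subalgebra ℂ K := (M.loc p hp).B with hB0
  have hxB : ∀ i, x i ∈ B0 := fun i =>
    mem_loc_of_den M hp (hpx _ (Finset.mem_image_of_mem _ (Finset.mem_univ _)))
  have hfg : B0.FG := (Subalgebra.fg_iff_finiteType _).mpr (M.loc p hp).ft
  obtain ⟨P⟩ := nonempty_prim B0 hfg x hxB hx
  have hfrac : ∀ a : K, ∃ b ∈ B0, ∃ c ∈ B0, c ≠ 0 ∧ a = b / c := by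
    intro a
    obtain ⟨b, c, hc, h⟩ := (M.loc p hp).frac a
    exact ⟨b, b.2, c, c.2, fun h0 => hc (Subtype.ext h0), h⟩
  let N : Mdl K n := mkMdl hfg hfrac hxB hx.1 P P.g P.g_ne dvd_rfl
  have hg0 : MvPolynomial.aeval x P.g ≠ 0 := by
    rw [Ne, map_eq_zero_iff _ (hx.1 : Function.Injective _)]
    exact P.g_ne
  refine ⟨{(M.aK p)⁻¹, (MvPolynomial.aeval x P.g)⁻¹}, N.deg, ?_⟩
  intro M' hz hle hF y hy η
  have h1 : B0 ≤ M'.B := locSub_le (hH := M.aK_mem p) hle (aK_ne M hp)
    (hF _ (Finset.mem_insert_self _ _))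
  have h2 : N.B ≤ M'.B := locSub_le (hH := aeval_mem hxB P.g) h1 hg0
    (hF _ (Finset.mem_insert_of_mem (Finset.mem_singleton_self _)))
  have h3 : M.B ≤ N.B := (M.le_loc p hp).trans (le_locSub (hH := aeval_mem hxB P.g))
  have hinj : Function.Injective (resB h2 : M'.Pts → N.Pts) := by
    intro w w' hw
    apply resB_injective hz hle
    have h4 : ∀ v : M'.Pts, (resB hle v : M.Pts) = resB h3 (resB h2 v) := by
      intro v
      rfl
    rw [h4, h4, hw]
  have h5 : MapsTo (resB h2 : M'.Pts → N.Pts) {w : M'.Pts | (fun i => w (y i)) = η}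
      {v : N.Pts | N.pz v = η} := by
    intro w hw
    change N.pz (resB h2 w) = η
    rw [← (hw : (fun i => w (y i)) = η)]
    funext i
    change w ⟨x i, _⟩ = w (y i)
    congr 1
    exact Subtype.ext (hy i).symm
  exact (Set.encard_le_encard_of_injOn h5 hinj.injOn).trans (encard_fib_le N η)

end Crest.Agent.R276.IntD_448
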