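import Mathlib
import Crest.Agent.R276.IntA_448
import Crest.Agent.R276.IntB_448
import Crest.Agent.R276.IntD_448
import Crest.Agent.R276.FKDefs_779

/-!
# INT-ABS: integrability of pluricanonical forms on a model

`M` a model of `K/ℂ`, `g ∈ M.B`, `g · (dz₁ ∧ … ∧ dzₙ)^N` regular at every valuation ring of `K/ℂ`: then
`∫_M |g|^{2/N} < ∞`.
-/

set_option autoImplicit false

open Filter Set MeasureTheory Polynomial
open scoped ENNReal

noncomputable section

namespace Crest.Agent.R276.IntE_448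

open Crest.Agent.R271.Defs710 Crest.Agent.R271.Alg255 Crest.Agent.R271.Rd692 Crest.Agent.R271
open Crest.Agent.R276.Mod1_987 Crest.Agent.R276.Mod1_987.Mdl
open Crest.Agent.R276.FKDefs_779
open Crest.Agent.R276.IntA_448 Crest.Agent.R276.IntB_448 Crest.Agent.R276.IntC_448
open Crest.Agent.R276.IntD_448

section jac

variable {k K : Type*} [Field k] [Field K] [Algebra k K] {n : ℕ}

/-- the derivation dual to `b j` -/
def dv (b : Module.Basis (Fin n) K (Ω[K⁄k])) (j : Fin n) : Derivation k K K :=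
  (b.coord j).compDer (KaehlerDifferential.D k K)

lemma dv_apply (b : Module.Basis (Fin n) K (Ω[K⁄k])) (j : Fin n) (x : K) :
    dv b j x = b.repr (KaehlerDifferential.D k K x) j := rfl

lemma jac_eq (b : Module.Basis (Fin n) K (Ω[K⁄k])) (y : Fin n → K) :
    jac k b y = (Matrix.of fun i j => dv b j (y i)).det := by
  rw [jac, Module.Basis.det_apply, ← Matrix.det_transpose]
  congr 1

end jac

variable {K : Type} [Field K] [Algebra ℂ K] {n : ℕ} (M : Mdl K n)

include M in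
/-- elements with nonvanishing Jacobian form a transcendence basis -/
theorem isTranscendenceBasis_of_jac (b : Module.Basis (Fin n) K (Ω[K⁄ℂ])) (y : Fin n → K)
    (hy : jac ℂ b y ≠ 0) : IsTranscendenceBasis ℂ y := by
  have h1 : AlgebraicIndependent ℂ y := by
    apply algebraicIndependent_of_det (fun j => dv b j)
    rw [← jac_eq]
    exact hy
  refine h1.isTranscendenceBasis_of_lift_trdeg_le_of_finite ?_
  have h2 := (IntC_448.isTranscendenceBasis M).lift_cardinalMk_eq_trdeg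
  rw [← h2]

lemma coe_jd (D : Fin n → Derivation ℂ M.B M.B)
    (hD : ∀ i j, D j (M.z i) = if i = j then 1 else 0)
    (b : Module.Basis (Fin n) K (Ω[K⁄ℂ]))
    (hb : ∀ i, b i = KaehlerDifferential.D ℂ K (M.z i : K)) (y : Fin n → M.B) :
    ((jd D y : M.B) : K) = jac ℂ b (fun i => (y i : K)) := by
  rw [jac_eq]
  have h1 : ((jd D y : M.B) : K) = ((jm D y).map (algebraMap M.B K)).det := by
    exact (RingHom.map_det (algebraMap M.B K) (jm D y))
  rw [h1]
  congr 1
  ext i j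
  rw [Matrix.map_apply, Matrix.of_apply, dv_apply]
  have h2 := Bd741.D_K (K := K) M.z M.het D hD (y i)
  have h3 : ∀ i, KaehlerDifferential.D ℂ K (algebraMap M.B K (M.z i)) = b i := fun i => (hb i).symm
  simp only [h3] at h2
  have h4 : KaehlerDifferential.D ℂ K ((y i : K)) = ∑ j, (algebraMap M.B K (D j (y i))) • b j := h2
  rw [h4, map_sum, Finsupp.finsetSum_apply]
  simp only [map_smul, Module.Basis.repr_self, Finsupp.smul_apply, smul_eq_mul,
    Finsupp.single_apply, mul_ite, mul_one, mul_zero]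
  rw [Finset.sum_ite_eq' Finset.univ j, if_pos (Finset.mem_univ j)]
  rfl

/-- **INT-ABS** -/
theorem int_abs (b : Module.Basis (Fin n) K (Ω[K⁄ℂ]))
    (hb : ∀ i, b i = KaehlerDifferential.D ℂ K (M.z i : K)) {N : ℕ} (hN : 0 < N) (g : M.B)
    (hg : PluriS ℂ b N (g : K)) :
    lintM M.z (fun y => ENNReal.ofReal (‖y g‖ ^ (2 / (N : ℝ)))) < ⊤ := by
  classical
  by_cases hg0 : (g : K) = 0
  · have h0 : g = 0 := Subtype.ext hg0
    have h1 : lintM M.z (fun y => ENNReal.ofReal (‖y g‖ ^ (2 / (N : ℝ)))) = 0 := by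
      unfold lintM
      simp only [h0, map_zero, norm_zero]
      have h2 : (0 : ℝ) ^ (2 / (N : ℝ)) = 0 := by
        apply Real.zero_rpow
        have : (N : ℝ) ≠ 0 := by exact_mod_cast hN.ne'
        positivity
      simp [h2]
    rw [h1]
    exact ENNReal.zero_lt_top
  -- the tuples
  let ι := {y : Fin n → K // jac ℂ b y ≠ 0}
  let f : ι → Option (Fin n) → K := fun y j => j.elim ((g : K) / jac ℂ b y.1 ^ N) y.1
  have H : ∀ V : ValuationSubring K, (∀ a : ℂ, algebraMap ℂ K a ∈ V) → ∃ i, ∀ j, f i j ∈ V := by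
    intro V hV
    obtain ⟨y, hy, hle⟩ := hg V hV
    have hj : jac ℂ b y ≠ 0 := by
      intro h0
      rw [h0, map_zero, zero_pow hN.ne', le_zero_iff, map_eq_zero] at hle
      exact hg0 hle
    refine ⟨⟨y, hj⟩, fun j => ?_⟩
    rcases j with _ | i
    · change (g : K) / jac ℂ b y ^ N ∈ V
      rw [← V.valuation_le_one_iff, map_div₀, map_pow]
      exact div_le_one_of_le₀ hle zero_le
    · exact hy i
  obtain ⟨S, hS⟩ := Zrc_448.zrc (k := ℂ) f H
  -- multiplicities
  choose Fm dm hm using fun s : ι => mult M s.1 (isTranscendenceBasis_of_jac M b s.1 s.2)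
  obtain ⟨M', hz, hle, hF⟩ := exists_loc M
    ((S.biUnion fun s => Finset.univ.image (f s)) ∪
      ((S.biUnion fun s => Finset.univ.image fun j => (f s j)⁻¹) ∪ S.biUnion Fm))
  have hf : ∀ s ∈ S, ∀ j, f s j ∈ M'.B := fun s hs j => hF _ (Finset.mem_union_left _
    (Finset.mem_biUnion.2 ⟨s, hs, Finset.mem_image_of_mem _ (Finset.mem_univ _)⟩))
  have hfi : ∀ s ∈ S, ∀ j, (f s j)⁻¹ ∈ M'.B := fun s hs j => hF _ (Finset.mem_union_right _
    (Finset.mem_union_left _ (Finset.mem_biUnion.2 ⟨s, hs,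
      Finset.mem_image_of_mem (fun j => (f s j)⁻¹) (Finset.mem_univ _)⟩)))
  have hfm : ∀ s ∈ S, ∀ a ∈ Fm s, a ∈ M'.B := fun s hs a ha => hF _ (Finset.mem_union_right _
    (Finset.mem_union_right _ (Finset.mem_biUnion.2 ⟨s, hs, ha⟩)))
  let f' : S → Option (Fin n) → M'.B := fun s j => ⟨f s.1 j, hf s.1 s.2 j⟩
  let u' : S → Option (Fin n) → M'.B := fun s j => ⟨(f s.1 j)⁻¹, hfi s.1 s.2 j⟩
  have hfu : ∀ s j, f' s j = 0 ∨ f' s j * u' s j = 1 := by
    intro s j
    by_cases h0 : f s.1 j = 0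
    · exact Or.inl (Subtype.ext h0)
    · exact Or.inr (Subtype.ext (mul_inv_cancel₀ h0))
  have hadj : ∀ c : S → Option (Fin n), (∀ s, f' s (c s) ≠ 0) →
      algebraMap ℂ M'.B 1 ∈ NonUnitalAlgebra.adjoin ℂ (range fun s => u' s (c s)) := by
    intro c hc
    have h1 := hS (fun i => if h : i ∈ S then c ⟨i, h⟩ else none) (by
      intro i hi h0
      rw [dif_pos hi] at h0
      exact hc ⟨i, hi⟩ (Subtype.ext h0))
    apply mem_adjoin_of_map (K := K) Subtype.val_injective
    rw [map_one, map_one]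
    convert h1 using 2
    ext a
    constructor
    · rintro ⟨_, ⟨s, rfl⟩, rfl⟩
      refine ⟨s.1, s.2, ?_⟩
      dsimp only
      rw [dif_pos s.2]
      rfl
    · rintro ⟨i, hi, rfl⟩
      refine ⟨_, ⟨⟨i, hi⟩, rfl⟩, ?_⟩
      dsimp only
      rw [dif_pos (show i ∈ S from hi)]
      rfl
  obtain ⟨C, hC⟩ := cover f' u' hfu (1 : ℂ) hadj
    (range fun y : M'.Pts => (y : M'.B →+* ℂ)) (by
      intro α
      refine ⟨‖α‖, ?_⟩
      rintro _ ⟨y, rfl⟩
      change ‖y (algebraMap ℂ M'.B α)‖ ≤ _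
      rw [AlgHom.commutes]
      exact le_rfl) one_pos (by
      rintro _ ⟨y, rfl⟩
      change 1 ≤ ‖y (algebraMap ℂ M'.B 1)‖
      rw [map_one, map_one, norm_one])
  obtain ⟨D, hD⟩ := Bd741.exists_coord_deriv M'.z M'.het
  have hb' : ∀ i, b i = KaehlerDifferential.D ℂ K (M'.z i : K) := by
    intro i
    rw [hb i]
    congr 1
    exact congrFun hz i
  rw [lintM_resB hz hle]
  have key := lintM_indicator_le (z := M'.z) M'.het M'.ft D hD (fun s : S => f' s none)
    (fun s i => f' s (some i)) ⟨g, hle g.2⟩ hN (by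
      intro s
      apply Subtype.ext
      have h1 := coe_jd M' D hD b hb' (fun i => f' s (some i))
      have h2 : (((f' s none * jd D (fun i => f' s (some i)) ^ N : M'.B)) : K) =
          ((g : K) / jac ℂ b s.1.1 ^ N) * (jac ℂ b s.1.1) ^ N := by
        push_cast
        rw [h1]
        rfl
      rw [h2, div_mul_cancel₀ _ (pow_ne_zero _ s.1.2)]) C univ MeasurableSet.univ
    (fun _ => Metric.closedBall (0 : Fin n → ℂ) |C|) (fun _ => Metric.isClosed_closedBall.measurableSet)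
    (by
      intro x _
      obtain ⟨s, hs⟩ := hC (x : M'.B →+* ℂ) ⟨x, rfl⟩
      refine ⟨s, hs none, ?_⟩
      rw [mem_closedBall_zero_iff, pi_norm_le_iff_of_nonneg (abs_nonneg C)]
      exact fun i => (hs (some i)).trans (le_abs_self C)) (fun s => dm s.1)
    (by
      intro s η
      refine le_trans (Set.encard_le_encard ?_) (hm s.1 M' hz hle (hfm s.1 s.2)
        (fun i => f' s (some i)) (fun i => rfl) η)
      exact fun x hx => hx.2)
  rw [indicator_univ] at key
  refine lt_of_le_of_lt (le_trans (le_of_eq ?_) key) ?_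
  · rfl
  · refine ENNReal.sum_lt_top.2 fun s _ => ?_
    refine ENNReal.mul_lt_top ENNReal.ofReal_lt_top (ENNReal.mul_lt_top ?_ ?_)
    · exact ENNReal.natCast_lt_top _
    · exact measure_closedBall_lt_top

/-- INT-ABS with respect to the Lebesgue measure of the model -/
theorem int_abs_leb {μ : Measure (M.B →ₐ[ℂ] ℂ)} (hμ : Ho51.IsLeb μ)
    (b : Module.Basis (Fin n) K (Ω[K⁄ℂ]))
    (hb : ∀ i, b i = KaehlerDifferential.D ℂ K (M.z i : K)) {N : ℕ} (hN : 0 < N) (g : M.B)
    (hg : PluriS ℂ b N (g : K)) :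
    ∫⁻ y, ENNReal.ofReal (‖y g‖ ^ (2 / (N : ℝ))) ∂μ < ⊤ := by
  have h1 : Continuous fun x : M.B →ₐ[ℂ] ℂ => ‖x g‖ := (continuous_ev g).norm
  rw [← M.lintM_eq hμ (h1.measurable.pow_const _).ennreal_ofReal]
  exact int_abs M b hb hN g hg

lemma rpow_sum_le {ι : Type*} (s : Finset ι) (f : ι → ℝ≥0∞) {p : ℝ} (hp : 0 < p) (hp1 : p ≤ 1) :
    (∑ j ∈ s, f j) ^ p ≤ ∑ j ∈ s, f j ^ p := by
  classical
  induction s using Finset.induction_on with
  | empty => simp [ENNReal.zero_rpow_of_pos hp]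
  | insert a s ha ih =>
    rw [Finset.sum_insert ha, Finset.sum_insert ha]
    exact (ENNReal.rpow_add_le_add_rpow _ _ hp.le hp1).trans (by gcongr)

/-- INT-ABS for finitely many forms: `∫_M (∑ |g_j|²)^{1/N} < ∞` -/
theorem int_abs_sum {μ : Measure (M.B →ₐ[ℂ] ℂ)} (hμ : Ho51.IsLeb μ)
    (b : Module.Basis (Fin n) K (Ω[K⁄ℂ]))
    (hb : ∀ i, b i = KaehlerDifferential.D ℂ K (M.z i : K)) {N : ℕ} (hN : 0 < N)
    {ι : Type*} (s : Finset ι) (g : ι → M.B) (hg : ∀ j ∈ s, PluriS ℂ b N (g j : K)) :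
    ∫⁻ y, ENNReal.ofReal ((∑ j ∈ s, ‖y (g j)‖ ^ 2) ^ (1 / (N : ℝ))) ∂μ < ⊤ := by
  have hN1 : (1 : ℝ) ≤ N := by exact_mod_cast hN
  have hN0 : (0 : ℝ) < 1 / (N : ℝ) := by
    have : (0 : ℝ) < N := by exact_mod_cast hN
    positivity
  have hN2 : 1 / (N : ℝ) ≤ 1 := by
    rw [div_le_one (by linarith)]
    exact hN1
  calc ∫⁻ y, ENNReal.ofReal ((∑ j ∈ s, ‖y (g j)‖ ^ 2) ^ (1 / (N : ℝ))) ∂μ
      ≤ ∫⁻ y, ∑ j ∈ s, ENNReal.ofReal (‖y (g j)‖ ^ (2 / (N : ℝ))) ∂μ := by
        refine lintegral_mono fun y => ?_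
        dsimp only
        rw [← ENNReal.ofReal_rpow_of_nonneg (Finset.sum_nonneg fun _ _ => by positivity) hN0.le,
          ENNReal.ofReal_sum_of_nonneg (fun _ _ => by positivity)]
        refine (rpow_sum_le _ _ hN0 hN2).trans (le_of_eq ?_)
        refine Finset.sum_congr rfl fun j _ => ?_
        rw [ENNReal.ofReal_rpow_of_nonneg (by positivity) hN0.le, ← Real.rpow_natCast,
          ← Real.rpow_mul (norm_nonneg _)]
        congr 2
        push_cast
        ring
    _ = ∑ j ∈ s, ∫⁻ y, ENNReal.ofReal (‖y (g j)‖ ^ (2 / (N : ℝ))) ∂μ := by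
        refine lintegral_finsetSum _ fun j _ => ?_
        have h1 : Continuous fun x : M.B →ₐ[ℂ] ℂ => ‖x (g j)‖ := (continuous_ev (g j)).norm
        exact (h1.measurable.pow_const _).ennreal_ofReal
    _ < ⊤ := ENNReal.sum_lt_top.2 fun j hj => int_abs_leb M hμ b hb hN (g j) (hg j hj)

end Crest.Agent.R276.IntE_448
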