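import Mathlib
import Crest.Agent.R276.SkelDefs_220
import Crest.Agent.R276.IntE_448
import Crest.Agent.R271.Rd8_692
import Crest.Agent.R276.Mod7_987

/-!
# R276, leaf CJ (helper505): Fubini on Riemann domains in split coordinates, `J(c) < ∞` a.e.

`lintegral_split`: for a Riemann domain `M` over `ℂⁿ`, the coordinates being split into `ρ`
distinguished ones `t` and `p` other ones `x` by `e : Fin ρ ⊕ Fin p ≃ Fin n`,
`∫_M g = ∫_c (∫_x ∑_{y over (c,x)} g y)`.
`cj`: `∫_{G_c} (∑ |w_j|²)^{1/N} < ∞` for almost every slice `G_c = {t = c}` if the `w_j` are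
`N`-canonical forms of `L/ℂ` regular at all valuation rings.
-/

set_option autoImplicit false

open Set Filter Topology MeasureTheory
open scoped ENNReal

noncomputable section

namespace Crest.Agent.R276.CJ_505

open Crest.Agent.R271 Crest.Agent.R271.Defs710 Crest.Agent.R271.Rd692 Crest.Agent.R271.Ho51
open Crest.Agent.R276.Mod1_987 Crest.Agent.R276.FKDefs_779 Crest.Agent.R276.SkelDefs_220

section split

variable {n ρ p : ℕ} (e : Fin ρ ⊕ Fin p ≃ Fin n)

/-- the point with distinguished coordinates `c` and other coordinates `x` -/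
def gl (c : Fin ρ → ℂ) (x : Fin p → ℂ) : Fin n → ℂ := fun j => Sum.elim c x (e.symm j)

theorem gl_inl (c : Fin ρ → ℂ) (x : Fin p → ℂ) (i : Fin ρ) : gl e c x (e (Sum.inl i)) = c i := by
  simp [gl]

theorem gl_inr (c : Fin ρ → ℂ) (x : Fin p → ℂ) (i : Fin p) : gl e c x (e (Sum.inr i)) = x i := by
  simp [gl]

theorem eq_gl_iff {ζ : Fin n → ℂ} {c : Fin ρ → ℂ} {x : Fin p → ℂ} :
    ζ = gl e c x ↔ (fun i => ζ (e (Sum.inl i))) = c ∧ (fun i => ζ (e (Sum.inr i))) = x := by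
  constructor
  · rintro rfl
    exact ⟨funext fun i => gl_inl e c x i, funext fun i => gl_inr e c x i⟩
  · rintro ⟨rfl, rfl⟩
    funext j
    obtain ⟨k, rfl⟩ := e.surjective j
    rcases k with i | i <;> simp [gl]

theorem measurePreserving_gl :
    MeasurePreserving (fun q : (Fin ρ → ℂ) × (Fin p → ℂ) => gl e q.1 q.2) := by
  have h1 := volume_measurePreserving_sumPiEquivProdPi_symm (fun _ : Fin ρ ⊕ Fin p => ℂ)
  have h2 := volume_measurePreserving_piCongrLeft (fun _ : Fin n => ℂ) e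
  have h3 := h2.comp h1
  have h4 : (fun q : (Fin ρ → ℂ) × (Fin p → ℂ) => gl e q.1 q.2) =
      (MeasurableEquiv.piCongrLeft (fun _ : Fin n => ℂ) e) ∘
        (MeasurableEquiv.sumPiEquivProdPi fun _ : Fin ρ ⊕ Fin p => ℂ).symm := by
    funext q
    symm
    show (MeasurableEquiv.piCongrLeft (fun _ : Fin n => ℂ) e)
      ((MeasurableEquiv.sumPiEquivProdPi fun _ : Fin ρ ⊕ Fin p => ℂ).symm q) = gl e q.1 q.2
    funext j
    obtain ⟨k, rfl⟩ := e.surjective j
    rw [MeasurableEquiv.coe_piCongrLeft, Equiv.piCongrLeft_apply_apply]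
    rcases k with i | i
    · rw [gl_inl]; rfl
    · rw [gl_inr]; rfl
  rw [h4]
  exact h3

variable {M : Type*} [TopologicalSpace M] [RDom n M] [SecondCountableTopology M]
  [MeasurableSpace M] [BorelSpace M]

/-- the fibre sum over `(c, x)` -/
def fs (g : M → ℝ≥0∞) (q : (Fin ρ → ℂ) × (Fin p → ℂ)) : ℝ≥0∞ :=
  ∑' y : {y : M // cp y = gl e q.1 q.2}, g y.1

theorem measurable_fs {g : M → ℝ≥0∞} (hg : Measurable g) : Measurable (fs e g) :=
  (measurable_fibre hg).comp (measurePreserving_gl e).measurable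

/-- **Fubini in split coordinates** -/
theorem lintegral_split {μ : Measure M} (hμ : IsLeb μ) {g : M → ℝ≥0∞} (hg : Measurable g) :
    ∫⁻ y, g y ∂μ = ∫⁻ c : Fin ρ → ℂ, ∫⁻ x : Fin p → ℂ, fs e g (c, x) := by
  rw [lintegral_eq_fibre hμ hg, ← (measurePreserving_gl e).lintegral_comp (measurable_fibre hg)]
  exact lintegral_prod _ (measurable_fs e hg).aemeasurable

theorem measurable_slice {g : M → ℝ≥0∞} (hg : Measurable g) :
    Measurable fun c : Fin ρ → ℂ => ∫⁻ x : Fin p → ℂ, fs e g (c, x) :=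
  (measurable_fs e hg).lintegral_prod_right'

/-- slices of an integrable function are integrable for almost every slice -/
theorem ae_slice {μ : Measure M} (hμ : IsLeb μ) {g : M → ℝ≥0∞} (hg : Measurable g)
    (h : ∫⁻ y, g y ∂μ ≠ ∞) : ∀ᵐ c : Fin ρ → ℂ, ∫⁻ x : Fin p → ℂ, fs e g (c, x) < ∞ := by
  rw [lintegral_split e hμ hg] at h
  exact ae_lt_top (measurable_slice e hg) h

end split

section mdl

variable {K : Type} [Field K] [Algebra ℂ K] {n ρ p : ℕ} (M : Mdl K n) (e : Fin ρ ⊕ Fin p ≃ Fin n)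

theorem sint_eq (c : Cn ρ) (g : M.Pts → ℝ≥0∞) :
    sint M e c g = ∫⁻ x : Cn p, fs e g (c, x) := by
  unfold sint
  apply lintegral_congr
  intro x
  let E : {y : M.Pts // tc M e y = c ∧ xc M e y = x} ≃ {y : M.Pts // cp y = gl e c x} :=
    Equiv.subtypeEquivRight fun y => by
      rw [eq_gl_iff]
      exact Iff.rfl
  exact E.tsum_eq (fun y => g y.1)

/-- **Fubini for `sint`** -/
theorem lintM_eq_sint {μ : Measure (M.B →ₐ[ℂ] ℂ)} (hμ : IsLeb μ) {g : M.Pts → ℝ≥0∞}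
    (hg : Measurable g) : ∫⁻ y, g y ∂μ = ∫⁻ c : Cn ρ, sint M e c g := by
  rw [lintegral_split e hμ hg]
  exact lintegral_congr fun c => (sint_eq M e c g).symm

theorem ae_sint {μ : Measure (M.B →ₐ[ℂ] ℂ)} (hμ : IsLeb μ) {g : M.Pts → ℝ≥0∞}
    (hg : Measurable g) (h : ∫⁻ y, g y ∂μ ≠ ∞) : ∀ᵐ c : Cn ρ, sint M e c g < ∞ := by
  filter_upwards [ae_slice e hμ hg h] with c hc
  rw [sint_eq]
  exact hc

theorem continuous_Wf {k : ℕ} (w : Fin (k + 1) → M.B) : Continuous fun z : M.Pts => Wf w z :=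
  continuous_finsetSum _ fun j _ => ((continuous_ev (w j)).norm).pow 2

/-- **(J)**: `∫_{G_c} W^{1/N} < ∞` for almost every slice -/
theorem ae_Wf {k N : ℕ} (hN : 0 < N) (b : Module.Basis (Fin n) K (Ω[K⁄ℂ]))
    (hb : ∀ i, b i = KaehlerDifferential.D ℂ K (M.z i : K)) (w : Fin (k + 1) → M.B)
    (hw : ∀ j, PluriS ℂ b N (w j : K)) :
    ∀ᵐ c : Cn ρ, sint M e c (fun z => ENNReal.ofReal (Wf w z) ^ (1 / (N : ℝ))) < ∞ := by
  obtain ⟨μ, hμ⟩ := M.exists_leb
  have hW0 : ∀ z : M.Pts, 0 ≤ Wf w z := fun z =>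
    Finset.sum_nonneg fun j _ => sq_nonneg _
  have hp : (0 : ℝ) ≤ 1 / (N : ℝ) := by positivity
  refine ae_sint M e hμ ?_ (ne_of_lt ?_)
  · exact (continuous_Wf M w).measurable.ennreal_ofReal.pow_const _
  · have h1 := IntE_448.int_abs_sum M hμ b hb hN Finset.univ w fun j _ => hw j
    refine lt_of_le_of_lt (le_of_eq (lintegral_congr fun z => ?_)) h1
    rw [ENNReal.ofReal_rpow_of_nonneg (hW0 z) hp]
    rfl

end mdl

section skel

variable {L : Type} [Field L] [Algebra ℂ L] {ρ a : ℕ} (ML : Mdl L (ρ + a))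

/-- `CJ` of `SkelDefs_220` -/
theorem cj {k e₀ : ℕ} (he : 0 < e₀) (b : Module.Basis (Fin (ρ + a)) L (Ω[L⁄ℂ]))
    (hb : ∀ i, b i = KaehlerDifferential.D ℂ L (ML.z i : L)) (w : Fin (k + 1) → ML.B)
    (hw : ∀ j, PluriS ℂ b e₀ (w j : L)) : CJ ML w e₀ :=
  ae_Wf ML (eL ρ a) he b hb w hw

end skel

/-! ### relative models of 987 -/

section rel

variable {L K : Type} [Field L] [Field K] [Algebra ℂ L] [Algebra ℂ K] [Algebra L K]
  [IsScalarTower ℂ L K] {m r : ℕ} (R : RMdl L K m r)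

theorem fsumR_le (g : R.MK.Pts → ℝ≥0∞) (w : R.ML.Pts) (ξ : Cn r) :
    R.fsumR g w ξ ≤ fs finSumFinEquiv g (R.ML.pz w, ξ) := by
  have hgl : gl finSumFinEquiv (R.ML.pz w) ξ = Fin.append (R.ML.pz w) ξ := by
    symm
    rw [eq_gl_iff]
    constructor
    · funext i
      simp
    · funext i
      simp
  let f : {y : R.MK.Pts // R.q y = w ∧ R.x y = ξ} →
      {y : R.MK.Pts // cp y = gl finSumFinEquiv (R.ML.pz w) ξ} :=
    fun y => ⟨y.1, by
      have h1 := R.append_eq y.1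
      rw [y.2.1, y.2.2] at h1
      rw [hgl, h1]
      rfl⟩
  have hf : Function.Injective f := fun y y' h => Subtype.ext (congrArg (fun t => t.1) h)
  exact ENNReal.tsum_comp_le_tsum_of_injective hf (fun y => g y.1)

/-- for almost every `c` the fibre integrals over ALL points over `c` are finite -/
theorem ae_fint {μ : Measure (R.MK.B →ₐ[ℂ] ℂ)} (hμ : IsLeb μ) {g : R.MK.Pts → ℝ≥0∞}
    (hg : Measurable g) (h : ∫⁻ y, g y ∂μ ≠ ∞) :
    ∀ᵐ c : Cn m, ∀ w : R.ML.Pts, R.ML.pz w = c → R.fint w g < ∞ := by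
  filter_upwards [ae_slice finSumFinEquiv hμ hg h] with c hc w hw
  subst hw
  exact lt_of_le_of_lt (lintegral_mono fun ξ => fsumR_le R g w ξ) hc

/-- `∫_{G_y} W^{1/N} < ∞` on the fibres `G_y = R.Fib y` for almost all `y` -/
theorem ae_fint_Wf {k N : ℕ} (hN : 0 < N) (b : Module.Basis (Fin (m + r)) K (Ω[K⁄ℂ]))
    (hb : ∀ i, b i = KaehlerDifferential.D ℂ K (R.MK.z i : K)) (w : Fin (k + 1) → R.MK.B)
    (hw : ∀ j, PluriS ℂ b N (w j : K)) :
    ∀ᵐ c : Cn m, ∀ y : R.ML.Pts, R.ML.pz y = c →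
      R.fint y (fun z => ENNReal.ofReal (Wf w z ^ (1 / (N : ℝ)))) < ∞ ∧
      ∀ ν : Measure (R.Fib y), IsLeb ν →
        ∫⁻ z, ENNReal.ofReal (Wf w (RMdl.Fib.val R z) ^ (1 / (N : ℝ))) ∂ν < ∞ := by
  obtain ⟨μ, hμ⟩ := R.MK.exists_leb
  have hm : Measurable fun z : R.MK.Pts => ENNReal.ofReal (Wf w z ^ (1 / (N : ℝ))) :=
    ((continuous_Wf R.MK w).measurable.pow_const _).ennreal_ofReal
  have h1 := IntE_448.int_abs_sum R.MK hμ b hb hN Finset.univ w fun j _ => hw j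
  filter_upwards [ae_fint R hμ hm (ne_of_lt h1)] with c hc y hy
  refine ⟨hc y hy, fun ν hν => ?_⟩
  have h2 := R.fint_eq hν hm
  rw [← h2]
  exact hc y hy

end rel

end Crest.Agent.R276.CJ_505
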