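import Crest.Agent.R276.FKDefs_779
import Crest.Agent.R276.FK1_779
import Crest.Agent.R276.FKB0_143

/-!
# Row 276, END0 (helper508), part A: algebra of the endgame in the flat case

`k ⊆ L ⊆ K`, characteristic `0`.

* `Adapted bL bK b`, `exists_adapted`, `jac_tower` : `jac k b (z', y) = jac k bL z' * jac L bK y`;
* `RegAt.mul'`, `RegAt.pow'` : products of regular forms;
* `regAt_tower` : `w` regular at `R ∩ L` and `τ` regular at `R` relative to `L` ⟹ `τ^α w^β` is
  regular at `R` over `k` (this is `K_{K/L} + f^* K_L ≤ K_K`, at every valuation ring);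
* `kapGeF_of` : the finite-test conclusion of `CoreBeta` from flat relative forms.
-/

set_option autoImplicit false

noncomputable section

open KaehlerDifferential

namespace Crest.Agent.R276.End0_508

open Crest.Agent.R276.FKDefs_779

section tower

variable {k L K : Type*} [Field k] [Field L] [Field K] [Algebra k L] [Algebra k K] [Algebra L K]
  [IsScalarTower k L K] {m r : ℕ}

/-- a basis of `Ω[K⁄k]` adapted to bases of `Ω[L⁄k]` and `Ω[K⁄L]`. -/
structure Adapted (bL : Module.Basis (Fin m) L (Ω[L⁄k])) (bK : Module.Basis (Fin r) K (Ω[K⁄L]))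
    (b : Module.Basis (Fin (m + r)) K (Ω[K⁄k])) : Prop where
  lo : ∀ i, b (Fin.castAdd r i) = KaehlerDifferential.map k k L K (bL i)
  hi : ∀ j, KaehlerDifferential.map k L K K (b (Fin.natAdd m j)) = bK j

theorem map_map_eq_zero (ω : Ω[L⁄k]) :
    KaehlerDifferential.map k L K K (KaehlerDifferential.map k k L K ω) = 0 := by
  have hω : ω ∈ Submodule.span L (Set.range (D k L)) := by
    rw [KaehlerDifferential.span_range_derivation]; trivial
  induction hω using Submodule.span_induction with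
  | mem x hx =>
    obtain ⟨l, rfl⟩ := hx
    rw [KaehlerDifferential.map_D, KaehlerDifferential.map_D]
    simp
  | zero => simp
  | add x y _ _ hx hy => rw [map_add, map_add, hx, hy, add_zero]
  | smul a x _ hx =>
    rw [LinearMap.map_smul]
    have h1 : a • (KaehlerDifferential.map k k L K x) =
        (algebraMap L K a) • (KaehlerDifferential.map k k L K x) := by
      rw [algebraMap_smul]
    rw [h1, LinearMap.map_smul, hx, smul_zero]

variable {bL : Module.Basis (Fin m) L (Ω[L⁄k])} {bK : Module.Basis (Fin r) K (Ω[K⁄L])}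
  {b : Module.Basis (Fin (m + r)) K (Ω[K⁄k])}

theorem Adapted.map_eq (h : Adapted bL bK b) (ω : Ω[L⁄k]) :
    KaehlerDifferential.map k k L K ω =
      ∑ i : Fin m, algebraMap L K (bL.repr ω i) • b (Fin.castAdd r i) := by
  conv_lhs => rw [← bL.sum_repr ω]
  rw [map_sum]
  refine Finset.sum_congr rfl fun i _ => ?_
  rw [LinearMap.map_smul, h.lo, algebraMap_smul]

theorem Adapted.repr_lo (h : Adapted bL bK b) (ω : Ω[L⁄k]) (i : Fin m) :
    b.repr (KaehlerDifferential.map k k L K ω) (Fin.castAdd r i) =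
      algebraMap L K (bL.repr ω i) := by
  rw [h.map_eq, map_sum, Finsupp.finsetSum_apply]
  rw [Finset.sum_eq_single i]
  · rw [LinearEquiv.map_smul, Module.Basis.repr_self, Finsupp.smul_apply, Finsupp.single_eq_same,
      smul_eq_mul, mul_one]
  · intro j _ hj
    rw [LinearEquiv.map_smul, Module.Basis.repr_self]
    simp [hj]
  · intro hi
    exact absurd (Finset.mem_univ i) hi

theorem Adapted.repr_lo' (h : Adapted bL bK b) (ω : Ω[L⁄k]) (j : Fin r) :
    b.repr (KaehlerDifferential.map k k L K ω) (Fin.natAdd m j) = 0 := by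
  rw [h.map_eq, map_sum, Finsupp.finsetSum_apply]
  refine Finset.sum_eq_zero fun i _ => ?_
  rw [LinearEquiv.map_smul, Module.Basis.repr_self]
  have : Fin.castAdd r i ≠ Fin.natAdd m j := by
    intro h
    have := congrArg Fin.val h
    simp only [Fin.val_castAdd, Fin.val_natAdd] at this
    omega
  simp [this]

theorem Adapted.repr_hi (h : Adapted bL bK b) (ω : Ω[K⁄k]) (j : Fin r) :
    bK.repr (KaehlerDifferential.map k L K K ω) j = b.repr ω (Fin.natAdd m j) := by
  conv_lhs => rw [← b.sum_repr ω]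
  rw [map_sum, Fin.sum_univ_add]
  have h1 : ∀ i : Fin m, KaehlerDifferential.map k L K K
      (b.repr ω (Fin.castAdd r i) • b (Fin.castAdd r i)) = 0 := by
    intro i
    rw [LinearMap.map_smul, h.lo, map_map_eq_zero, smul_zero]
  have h2 : ∀ i : Fin r, KaehlerDifferential.map k L K K
      (b.repr ω (Fin.natAdd m i) • b (Fin.natAdd m i)) = b.repr ω (Fin.natAdd m i) • bK i := by
    intro i
    rw [LinearMap.map_smul, h.hi]
  rw [Finset.sum_eq_zero (fun i _ => h1 i), zero_add, Finset.sum_congr rfl (fun i _ => h2 i)]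
  rw [Module.Basis.repr_sum_self]

theorem Adapted.jac_tower (h : Adapted bL bK b) (z' : Fin m → L) (y : Fin r → K) :
    jac k b (Fin.append (fun i => algebraMap L K (z' i)) y) =
      algebraMap L K (jac k bL z') * jac L bK y := by
  unfold jac
  rw [Module.Basis.det_apply, Module.Basis.det_apply, Module.Basis.det_apply]
  have key : (b.toMatrix (fun i => D k K (Fin.append (fun i => algebraMap L K (z' i)) y i))).submatrix
      finSumFinEquiv finSumFinEquiv =
      Matrix.fromBlocks ((bL.toMatrix (fun i => D k L (z' i))).map (algebraMap L K))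
        (Matrix.of fun i j => b.repr (D k K (y j)) (Fin.castAdd r i)) 0
        (bK.toMatrix (fun i => D L K (y i))) := by
    ext i j
    rcases i with i | i <;> rcases j with j | j
    · simp only [Matrix.submatrix_apply, finSumFinEquiv_apply_left, Module.Basis.toMatrix_apply,
        Fin.append_left, Matrix.fromBlocks_apply₁₁, Matrix.map_apply]
      rw [← KaehlerDifferential.map_D k k L K, h.repr_lo]
    · simp only [Matrix.submatrix_apply, finSumFinEquiv_apply_left, finSumFinEquiv_apply_right,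
        Module.Basis.toMatrix_apply, Fin.append_right, Matrix.fromBlocks_apply₁₂, Matrix.of_apply]
    · simp only [Matrix.submatrix_apply, finSumFinEquiv_apply_left, finSumFinEquiv_apply_right,
        Module.Basis.toMatrix_apply, Fin.append_left, Matrix.fromBlocks_apply₂₁, Matrix.zero_apply]
      rw [← KaehlerDifferential.map_D k k L K, h.repr_lo']
    · simp only [Matrix.submatrix_apply, finSumFinEquiv_apply_right,
        Module.Basis.toMatrix_apply, Fin.append_right, Matrix.fromBlocks_apply₂₂]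
      rw [← h.repr_hi, KaehlerDifferential.map_D]
      rfl
  rw [← Matrix.det_submatrix_equiv_self finSumFinEquiv, key, Matrix.det_fromBlocks_zero₂₁]
  congr 1
  exact (RingHom.map_det (algebraMap L K) _).symm

/-- the transcendence basis `(z, x)` of a tower. -/
theorem isTranscendenceBasis_append {z : Fin m → L} {x : Fin r → K}
    (hz : IsTranscendenceBasis k z) (hx : IsTranscendenceBasis L x) :
    IsTranscendenceBasis k (Fin.append (fun i => algebraMap L K (z i)) x) := by
  have h1 := hz.sumElim_comp hx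
  let e : Fin (m + r) ≃ Fin r ⊕ Fin m := finSumFinEquiv.symm.trans (Equiv.sumComm _ _)
  have h2 : Fin.append (fun i => algebraMap L K (z i)) x =
      (Sum.elim x (algebraMap L K ∘ z)) ∘ e := by
    funext i
    refine Fin.addCases (fun i => ?_) (fun j => ?_) i
    · simp [e]
    · simp [e]
  rw [h2]
  exact (isTranscendenceBasis_equiv e).mpr h1

theorem exists_adapted [CharZero k] [CharZero L] {z : Fin m → L} {x : Fin r → K}
    (hz : IsTranscendenceBasis k z) (hx : IsTranscendenceBasis L x)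
    (bL : Module.Basis (Fin m) L (Ω[L⁄k])) (hbL : ∀ i, bL i = D k L (z i))
    (bK : Module.Basis (Fin r) K (Ω[K⁄L])) (hbK : ∀ i, bK i = D L K (x i)) :
    ∃ b : Module.Basis (Fin (m + r)) K (Ω[K⁄k]), Adapted bL bK b ∧
      ∀ i, b i = D k K (Fin.append (fun i => algebraMap L K (z i)) x i) := by
  obtain ⟨b, hb⟩ := FKB0_143.exists_kbasis (isTranscendenceBasis_append hz hx)
  refine ⟨b, ⟨fun i => ?_, fun j => ?_⟩, hb⟩
  · rw [hb, Fin.append_left, hbL, KaehlerDifferential.map_D]
  · rw [hb, Fin.append_right, KaehlerDifferential.map_D, hbK]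
    rfl

end tower

section reg

variable {k K : Type*} [Field k] [Field K] [Algebra k K] {n : ℕ} {R : ValuationSubring K}
  {b : Module.Basis (Fin n) K (Ω[K⁄k])}

theorem regAt_mul {m₁ m₂ : ℕ} {g₁ g₂ : K} (h₁ : RegAt k R b m₁ g₁) (h₂ : RegAt k R b m₂ g₂) :
    RegAt k R b (m₁ + m₂) (g₁ * g₂) := by
  obtain ⟨y, hy, h1⟩ := h₁
  obtain ⟨y', hy', h2⟩ := h₂
  rcases le_total (R.valuation (jac k b y)) (R.valuation (jac k b y')) with hle | hle
  · refine ⟨y', hy', ?_⟩
    rw [map_mul, pow_add]
    exact mul_le_mul' (h1.trans (pow_le_pow_left₀ zero_le hle _)) h2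
  · refine ⟨y, hy, ?_⟩
    rw [map_mul, pow_add]
    exact mul_le_mul' h1 (h2.trans (pow_le_pow_left₀ zero_le hle _))

theorem regAt_pow {m : ℕ} {g : K} (h : RegAt k R b m g) (a : ℕ) :
    RegAt k R b (m * a) (g ^ a) := by
  obtain ⟨y, hy, h1⟩ := h
  refine ⟨y, hy, ?_⟩
  rw [map_pow, pow_mul]
  exact pow_le_pow_left₀ zero_le h1 _

end reg

section regtower

variable {k L K : Type*} [Field k] [Field L] [Field K] [Algebra k L] [Algebra k K] [Algebra L K]
  [IsScalarTower k L K] {m r : ℕ}
variable {bL : Module.Basis (Fin m) L (Ω[L⁄k])} {bK : Module.Basis (Fin r) K (Ω[K⁄L])}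
  {b : Module.Basis (Fin (m + r)) K (Ω[K⁄k])}

/-- `q·K_{K/L} + q·f^*K_L ≤ q·K_K` at every valuation ring of `K`. -/
theorem Adapted.regAt_tower (h : Adapted bL bK b) (R : ValuationSubring K) {q : ℕ} {w : L} {τ : K}
    (hw : RegAt k (R.comap (algebraMap L K)) bL q w) (hτ : RegAt L R bK q τ) :
    RegAt k R b q (algebraMap L K w * τ) := by
  obtain ⟨z', hz', h1⟩ := hw
  obtain ⟨y, hy, h2⟩ := hτ
  refine ⟨Fin.append (fun i => algebraMap L K (z' i)) y, ?_, ?_⟩
  · intro i
    refine Fin.addCases (fun i => ?_) (fun j => ?_) i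
    · rw [Fin.append_left]; exact hz' i
    · rw [Fin.append_right]; exact hy j
  · rw [h.jac_tower, map_mul, map_mul, mul_pow]
    refine mul_le_mul' ?_ h2
    rw [← map_pow, ← map_pow, ← FKB0_143.val_comap_le_iff, map_pow]
    exact h1

theorem Adapted.regAt_tower' (h : Adapted bL bK b) (R : ValuationSubring K) {e q : ℕ} {w : L}
    {τ : K} (hw : RegAt k (R.comap (algebraMap L K)) bL e w) (hτ : RegAt L R bK q τ) :
    RegAt k R b (e * q) (algebraMap L K (w ^ q) * τ ^ e) :=
  h.regAt_tower R (regAt_pow hw q) (mul_comm q e ▸ regAt_pow hτ e)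

theorem algInd_append {d e : ℕ} {u : Fin d → K} {v : Fin e → L} (hv : AlgebraicIndependent k v)
    (hu : AlgebraicIndependent L u) :
    AlgebraicIndependent k (Fin.append u (fun j => algebraMap L K (v j))) := by
  have h1 := hv.sumElim_comp hu
  have h2 : Fin.append u (fun j => algebraMap L K (v j)) =
      (Sum.elim u (algebraMap L K ∘ v)) ∘ (finSumFinEquiv.symm : Fin (d + e) ≃ Fin d ⊕ Fin e) := by
    funext i
    refine Fin.addCases (fun i => ?_) (fun j => ?_) i
    · simp
    · simp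
  rw [h2]
  exact h1.comp _ finSumFinEquiv.symm.injective

/-- the products `τ_i τ_0^{q₁-1} w_0^{q₂}` and `τ_0^{q₁} w_j w_0^{q₂-1}` -/
theorem Adapted.exists_products (h : Adapted bL bK b) {d e q₁ q₂ : ℕ} (hq₁ : 0 < q₁)
    (hq₂ : 0 < q₂) (w : Fin (e + 1) → L) (hw0 : ∀ j, w j ≠ 0)
    (hwi : AlgebraicIndependent k (fun i : Fin e => w i.succ / w 0))
    (τ : Fin (d + 1) → K) (hτ0 : ∀ j, τ j ≠ 0)
    (hτi : AlgebraicIndependent L (fun i : Fin d => τ i.succ / τ 0)) :
    ∃ f : Fin (d + e + 1) → K, (∀ i, f i ≠ 0) ∧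
      (∀ R : ValuationSubring K, (∀ j, RegAt k (R.comap (algebraMap L K)) bL q₁ (w j)) →
        (∀ i, RegAt L R bK q₂ (τ i)) → ∀ i, RegAt k R b (q₁ * q₂) (f i)) ∧
      AlgebraicIndependent k (fun i : Fin (d + e) => f i.succ / f 0) := by
  obtain ⟨a₁, rfl⟩ : ∃ a, q₁ = a + 1 := ⟨q₁ - 1, by omega⟩
  obtain ⟨a₂, rfl⟩ : ∃ a, q₂ = a + 1 := ⟨q₂ - 1, by omega⟩
  let f0 : K := algebraMap L K (w 0 ^ (a₂ + 1)) * τ 0 ^ (a₁ + 1)
  let fu : Fin d → K := fun i => algebraMap L K (w 0 ^ (a₂ + 1)) * (τ i.succ * τ 0 ^ a₁)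
  let fv : Fin e → K := fun j => algebraMap L K (w j.succ * w 0 ^ a₂) * τ 0 ^ (a₁ + 1)
  have hw0' : algebraMap L K (w 0) ≠ 0 := by simpa using hw0 0
  have hf0 : f0 ≠ 0 := by
    simp only [f0, map_pow]
    exact mul_ne_zero (pow_ne_zero _ hw0') (pow_ne_zero _ (hτ0 0))
  refine ⟨Fin.cons f0 (Fin.append fu fv), ?_, ?_, ?_⟩
  · intro i
    refine Fin.cases ?_ (fun i => ?_) i
    · exact hf0
    · rw [Fin.cons_succ]
      refine Fin.addCases (fun i => ?_) (fun j => ?_) i
      · rw [Fin.append_left]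
        simp only [fu, map_pow]
        exact mul_ne_zero (pow_ne_zero _ hw0') (mul_ne_zero (hτ0 _) (pow_ne_zero _ (hτ0 0)))
      · rw [Fin.append_right]
        have hwj : algebraMap L K (w j.succ) ≠ 0 := by simpa using hw0 j.succ
        simp only [fv, map_pow, map_mul]
        exact mul_ne_zero (mul_ne_zero hwj (pow_ne_zero _ hw0')) (pow_ne_zero _ (hτ0 0))
  · intro R hwR hτR i
    have hc : (a₁ + 1) * (a₂ + 1) = (a₂ + 1) + (a₂ + 1) * a₁ := by ring
    have hc' : (a₁ + 1) * (a₂ + 1) = (a₁ + 1) + (a₁ + 1) * a₂ := by ring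
    have hW : RegAt k (R.comap (algebraMap L K)) bL ((a₁ + 1) * (a₂ + 1)) (w 0 ^ (a₂ + 1)) :=
      regAt_pow (hwR 0) _
    have hT : RegAt L R bK ((a₁ + 1) * (a₂ + 1)) (τ 0 ^ (a₁ + 1)) := by
      rw [mul_comm]
      exact regAt_pow (hτR 0) _
    refine Fin.cases ?_ (fun i => ?_) i
    · rw [Fin.cons_zero]
      exact h.regAt_tower R hW hT
    · rw [Fin.cons_succ]
      refine Fin.addCases (fun i => ?_) (fun j => ?_) i
      · rw [Fin.append_left]
        refine h.regAt_tower R hW ?_
        rw [hc]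
        exact regAt_mul (hτR i.succ) (regAt_pow (hτR 0) _)
      · rw [Fin.append_right]
        refine h.regAt_tower R ?_ hT
        rw [hc']
        exact regAt_mul (hwR j.succ) (regAt_pow (hwR 0) _)
  · have h1 := algInd_append hwi hτi
    convert h1 using 1
    funext i
    rw [Fin.cons_succ, Fin.cons_zero]
    refine Fin.addCases (fun i => ?_) (fun j => ?_) i
    · rw [Fin.append_left, Fin.append_left]
      simp only [fu, f0]
      have h3 := hτ0 0
      have h4 : algebraMap L K (w 0 ^ (a₂ + 1)) ≠ 0 := by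
        rw [map_pow]; exact pow_ne_zero _ hw0'
      rw [mul_div_mul_left _ _ h4, pow_succ', mul_div_mul_right _ _ (pow_ne_zero _ h3)]
    · rw [Fin.append_right, Fin.append_right]
      simp only [fv, f0]
      have h3 : τ 0 ^ (a₁ + 1) ≠ 0 := pow_ne_zero _ (hτ0 0)
      rw [mul_div_mul_right _ _ h3, pow_succ' (w 0), map_mul, map_mul,
        mul_div_mul_right _ _ (by rw [map_pow]; exact pow_ne_zero _ hw0'), map_div₀]

/-- **END0, algebraic form.**  `w_j` regular over `k` at the valuation rings `R ∩ L`, `τ_i`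
regular at `R` relative to `L`, both for all `R` divisorial over `k`: then `κ(K/k) ≥ d + e` in the
finite-test sense, provided affine étale charts exist for the coordinates `(z, x)`. -/
theorem kapGeF_of [CharZero k] [CharZero L] {z : Fin m → L} {x : Fin r → K}
    (hz : IsTranscendenceBasis k z) (hx : IsTranscendenceBasis L x)
    (hchart : ∀ S : Finset K, ∃ A : Subalgebra k K,
      EtChart k K A (Fin.append (fun i => algebraMap L K (z i)) x) ∧ ∀ s ∈ S, s ∈ A)
    (hbL : ∀ i, bL i = D k L (z i)) (hbK : ∀ i, bK i = D L K (x i))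
    {d e q₁ q₂ : ℕ} (hq₁ : 0 < q₁)
    (hq₂ : 0 < q₂) (w : Fin (e + 1) → L) (hw0 : ∀ j, w j ≠ 0)
    (hwi : AlgebraicIndependent k (fun i : Fin e => w i.succ / w 0))
    (hw : ∀ R : ValuationSubring K, IsDiv k (m + r) R →
      ∀ j, RegAt k (R.comap (algebraMap L K)) bL q₁ (w j))
    (τ : Fin (d + 1) → K) (hτ0 : ∀ j, τ j ≠ 0)
    (hτi : AlgebraicIndependent L (fun i : Fin d => τ i.succ / τ 0))
    (hτ : ∀ R : ValuationSubring K, IsDiv k (m + r) R → ∀ i, RegAt L R bK q₂ (τ i)) :
    KapGeF k K (d + e) := by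
  classical
  obtain ⟨b, hb, hb'⟩ := exists_adapted hz hx bL hbL bK hbK
  obtain ⟨f, hf0, hf, hfi⟩ := hb.exists_products hq₁ hq₂ w hw0 hwi τ hτ0 hτi
  obtain ⟨A, hA, hAf⟩ := hchart (Finset.univ.image f)
  refine ⟨m + r, A, _, b, hA, hb', ?_⟩
  intro S _ hSd
  refine ⟨q₁ * q₂, Nat.mul_pos hq₁ hq₂, f, fun i => ⟨hf0 i, hAf _ (by simp), fun R hR => ?_⟩, hfi⟩
  exact hf R (hw R (hSd R hR)) (hτ R (hSd R hR)) i

end regtower

end Crest.Agent.R276.End0_508
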