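import Mathlib

/-!
# R276, leaf FLATALG (helper464), part I: algebraic independence of norms

`E` a field over `ℂ` (functions on one fibre), `σ : Fin s → E` linearly independent over `ℂ`, `𝒜` a finite
nonempty set of invertible `s × s` matrices, `N a = ∏_{A ∈ 𝒜} (A a)·σ`.
`norm_indep` : if `σ_{ι j} / σ_{i0}` (`j < d`) are algebraically independent over `ℂ`, then
`N (a j) / N a0` (`j < d`) are algebraically independent for suitable `a0, a j ∈ ℂˢ`.
-/

set_option autoImplicit false

noncomputable section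

open Matrix

namespace Crest.Agent.R276.FlatI_464

/-- `d` independent elements which are algebraic over the algebra generated by `t` ⟹ `t` contains
`d` independent elements -/
theorem exists_indep {F E : Type*} [Field F] [Field E] [Algebra F E] {d : ℕ} (x : Fin d → E)
    (hx : AlgebraicIndependent F x) (t : Set E)
    (ht : ∀ i, IsAlgebraic (Algebra.adjoin F t) (x i)) :
    ∃ y : Fin d → E, (∀ i, y i ∈ t) ∧ AlgebraicIndependent F y := by
  classical
  set M := AlgebraicIndependent.matroid F E with hM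
  obtain ⟨u, hu⟩ := M.exists_isBasis t
  have hind : M.Indep (Set.range x) := by
    rw [hM, AlgebraicIndependent.matroid_indep_iff]
    exact hx.to_subtype_range
  have hcl : Set.range x ⊆ M.closure t := by
    rintro _ ⟨i, rfl⟩
    rw [hM, AlgebraicIndependent.matroid_closure_eq]
    exact ht i
  have h1 : (d : ℕ∞) ≤ u.encard := by
    calc (d : ℕ∞) = (Set.range x).encard := by
          rw [← Set.image_univ, hx.injective.encard_image, Set.encard_univ, ENat.card_eq_coe_fintype_card,
            Fintype.card_fin]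
      _ = M.eRk (Set.range x) := hind.eRk_eq_encard.symm
      _ ≤ M.eRk (M.closure t) := M.eRk_mono hcl
      _ = M.eRk t := M.eRk_closure_eq t
      _ = u.encard := hu.eRk_eq_encard
  obtain ⟨v, hvu, hv⟩ := Set.exists_subset_encard_eq h1
  have hvf : v.Finite := Set.finite_of_encard_eq_coe hv
  have hcard : Nat.card v = d := by
    have := hvf.cast_ncard_eq
    rw [hv] at this
    rw [Nat.card_coe_set_eq]
    exact_mod_cast this
  have := hvf.to_subtype
  have hfin : Fintype v := Fintype.ofFinite v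
  have e : Fin d ≃ v := by
    refine (Fintype.equivFinOfCardEq ?_).symm
    rw [← Nat.card_eq_fintype_card, hcard]
  have huind : AlgebraicIndepOn F id u := by
    rw [← AlgebraicIndependent.matroid_indep_iff]
    exact hu.indep
  refine ⟨fun i => (e i : E), fun i => ?_, ?_⟩
  · have : (e i : E) ∈ u := hvu (e i).2
    exact hu.subset this
  · have h2 : AlgebraicIndependent F (fun z : v => (z : E)) := huind.mono hvu
    exact h2.comp e e.injective

variable {E : Type*} [Field E] [Algebra ℂ E] {s : ℕ}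

/-- the linear combination `v·σ` -/
def ln (σ : Fin s → E) (v : Fin s → ℂ) : E := ∑ i, algebraMap ℂ E (v i) * σ i

theorem ln_ne {σ : Fin s → E} (hσ : LinearIndependent ℂ σ) {v : Fin s → ℂ} (hv : v ≠ 0) :
    ln σ v ≠ 0 := by
  intro h
  apply hv
  rw [Fintype.linearIndependent_iff] at hσ
  ext i
  refine hσ v ?_ i
  rw [ln] at h
  simpa only [Algebra.smul_def] using h

theorem ln_add (σ : Fin s → E) (v w : Fin s → ℂ) : ln σ (v + w) = ln σ v + ln σ w := by
  simp [ln, add_mul, Finset.sum_add_distrib]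

theorem ln_smul (σ : Fin s → E) (c : ℂ) (v : Fin s → ℂ) :
    ln σ (c • v) = algebraMap ℂ E c * ln σ v := by
  simp [ln, Finset.mul_sum, mul_assoc]

/-- the norm -/
def N (σ : Fin s → E) (𝒜 : Finset (Matrix (Fin s) (Fin s) ℂ)) (a : Fin s → ℂ) : E :=
  ∏ A ∈ 𝒜, ln σ (A *ᵥ a)

theorem mulVec_ne {A : Matrix (Fin s) (Fin s) ℂ} (hA : IsUnit A.det) {a : Fin s → ℂ} (ha : a ≠ 0) :
    A *ᵥ a ≠ 0 := by
  intro h0
  apply ha
  have h1 : A⁻¹ *ᵥ (A *ᵥ a) = 0 := by rw [h0, Matrix.mulVec_zero]
  rwa [Matrix.mulVec_mulVec, Matrix.nonsing_inv_mul _ hA, Matrix.one_mulVec] at h1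

theorem N_ne {σ : Fin s → E} (hσ : LinearIndependent ℂ σ) {𝒜 : Finset (Matrix (Fin s) (Fin s) ℂ)}
    (h𝒜 : ∀ A ∈ 𝒜, IsUnit A.det) {a : Fin s → ℂ} (ha : a ≠ 0) : N σ 𝒜 a ≠ 0 :=
  Finset.prod_ne_zero_iff.2 fun A hA => ln_ne hσ (mulVec_ne (h𝒜 A hA) ha)

open Polynomial in
/-- a monic polynomial over `E` whose values at all constants lie in a subfield `F` has
coefficients in `F` -/
theorem coeff_mem {F : IntermediateField ℂ E} (P : E[X])
    (h : ∀ c : ℂ, P.eval (algebraMap ℂ E c) ∈ F) (j : ℕ) : P.coeff j ∈ F := by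
  classical
  set k := P.natDegree with hk
  set v : Fin (k + 1) → E := fun i => algebraMap ℂ E (i : ℕ) with hv
  have hvi : Set.InjOn v (Finset.univ : Finset (Fin (k + 1))) := by
    intro a _ b _ hab
    have h1 := (algebraMap ℂ E).injective hab
    have h2 : (a : ℕ) = b := by exact_mod_cast h1
    exact Fin.ext h2
  have hP : P = Lagrange.interpolate Finset.univ v (fun i => P.eval (v i)) := by
    refine Lagrange.eq_interpolate hvi ?_
    rw [Finset.card_univ, Fintype.card_fin]
    exact lt_of_le_of_lt Polynomial.degree_le_natDegree (by exact_mod_cast Nat.lt_succ_self _)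
  rw [hP, Lagrange.interpolate_apply, Polynomial.finsetSum_coeff]
  refine sum_mem fun i _ => ?_
  rw [Polynomial.coeff_C_mul]
  refine mul_mem (h _) ?_
  -- the Lagrange basis has coefficients in `ℂ`
  have hb : Lagrange.basis Finset.univ v i =
      (Lagrange.basis Finset.univ (fun i : Fin (k + 1) => ((i : ℕ) : ℂ)) i).map
        (algebraMap ℂ E) := by
    simp only [Lagrange.basis, Lagrange.basisDivisor, hv, Polynomial.map_prod, Polynomial.map_mul,
      Polynomial.map_sub, Polynomial.map_X, Polynomial.map_C, map_inv₀, map_sub]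
  rw [hb, Polynomial.coeff_map]
  exact F.algebraMap_mem _

open Polynomial in
open scoped IntermediateField.algebraAdjoinAdjoin in
/-- **independence of norms** -/
theorem norm_indep {σ : Fin s → E} (hσ : LinearIndependent ℂ σ)
    {𝒜 : Finset (Matrix (Fin s) (Fin s) ℂ)} (hne : 𝒜.Nonempty) (h𝒜 : ∀ A ∈ 𝒜, IsUnit A.det)
    {d : ℕ} (i0 : Fin s) (ι : Fin d → Fin s)
    (hind : AlgebraicIndependent ℂ (fun j => σ (ι j) / σ i0)) {a0 : Fin s → ℂ} (ha0 : a0 ≠ 0) :
    ∃ a : Fin d → Fin s → ℂ, (∀ j, a j ≠ 0) ∧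
      AlgebraicIndependent ℂ (fun j => N σ 𝒜 (a j) / N σ 𝒜 a0) := by
  classical
  set t : Set E := {y | ∃ a : Fin s → ℂ, a ≠ 0 ∧ y = N σ 𝒜 a / N σ 𝒜 a0} with ht
  set F : IntermediateField ℂ E := IntermediateField.adjoin ℂ t with hF
  have hN0 := N_ne hσ h𝒜 ha0
  have htF : ∀ a : Fin s → ℂ, N σ 𝒜 a / N σ 𝒜 a0 ∈ F := by
    intro a
    by_cases ha : a = 0
    · have : N σ 𝒜 a = 0 := by
        obtain ⟨A, hA⟩ := hne
        refine Finset.prod_eq_zero hA ?_
        rw [ha, Matrix.mulVec_zero]
        simp [ln]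
      rw [this, zero_div]
      exact zero_mem _
    · exact IntermediateField.subset_adjoin ℂ t ⟨a, ha, rfl⟩
  have htF2 : ∀ a b : Fin s → ℂ, N σ 𝒜 a / N σ 𝒜 b ∈ F := by
    intro a b
    have := div_mem (htF a) (htF b)
    rwa [div_div_div_cancel_right₀ hN0] at this
  obtain ⟨A0, hA0⟩ := hne
  -- ratios are algebraic over `F`
  have halg : ∀ v w : Fin s → ℂ, w ≠ 0 → IsAlgebraic F (ln σ v / ln σ w) := by
    intro v w hw
    set a := A0⁻¹ *ᵥ v with ha
    set b := A0⁻¹ *ᵥ w with hb
    have hA0d := h𝒜 A0 hA0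
    have hva : A0 *ᵥ a = v := by
      rw [ha, Matrix.mulVec_mulVec, Matrix.mul_nonsing_inv _ hA0d, Matrix.one_mulVec]
    have hwb : A0 *ᵥ b = w := by
      rw [hb, Matrix.mulVec_mulVec, Matrix.mul_nonsing_inv _ hA0d, Matrix.one_mulVec]
    have hb0 : b ≠ 0 := by
      rintro h0
      rw [h0, Matrix.mulVec_zero] at hwb
      exact hw hwb.symm
    -- the polynomial
    set P : E[X] := ∏ A ∈ 𝒜, (X + C (ln σ (A *ᵥ a) / ln σ (A *ᵥ b))) with hP
    have hPm : P.Monic := monic_prod_of_monic _ _ fun A _ => monic_X_add_C _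
    have hPe : ∀ c : ℂ, P.eval (algebraMap ℂ E c) ∈ F := by
      intro c
      have h1 : P.eval (algebraMap ℂ E c) = N σ 𝒜 (a + c • b) / N σ 𝒜 b := by
        rw [hP, eval_prod, N, N, ← Finset.prod_div_distrib]
        refine Finset.prod_congr rfl fun A hA => ?_
        have h2 := ln_ne hσ (mulVec_ne (h𝒜 A hA) hb0)
        rw [Matrix.mulVec_add, Matrix.mulVec_smul, ln_add, ln_smul]
        simp only [eval_add, eval_X, eval_C]
        field_simp
        ring
      rw [h1]
      exact htF2 _ _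
    have hPF : ∀ j, P.coeff j ∈ F := coeff_mem P hPe
    obtain ⟨Q, hQ⟩ : ∃ Q : F[X], Q.map (algebraMap F E) = P := by
      have : P ∈ Polynomial.lifts (algebraMap F E) := by
        rw [Polynomial.lifts_iff_coeff_lifts]
        intro j
        exact ⟨⟨P.coeff j, hPF j⟩, rfl⟩
      exact (Polynomial.mem_lifts _).1 this
    have hroot : IsAlgebraic F (-(ln σ v / ln σ w)) := by
      refine ⟨Q, ?_, ?_⟩
      · rintro rfl
        rw [Polynomial.map_zero] at hQ
        exact hPm.ne_zero hQ.symm
      · rw [← Polynomial.eval_map_algebraMap, hQ, hP, eval_prod]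
        refine Finset.prod_eq_zero hA0 ?_
        simp only [eval_add, eval_X, eval_C, hva, hwb]
        ring
    simpa using hroot.neg
  -- basis vectors
  have hsingle : ∀ i : Fin s, ln σ (Pi.single i 1) = σ i := by
    intro i
    simp [ln, Pi.single_apply, apply_ite]
  have hx : ∀ j, IsAlgebraic (Algebra.adjoin ℂ t) (σ (ι j) / σ i0) := by
    intro j
    have h1 := halg (Pi.single (ι j) 1) (Pi.single i0 1) (by
      intro h
      have := congrFun h i0
      simp at this)
    rw [hsingle, hsingle] at h1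
    exact (IsFractionRing.isAlgebraic_iff (Algebra.adjoin ℂ t)
      (IntermediateField.adjoin ℂ t) E).2 h1
  obtain ⟨y, hy, hyi⟩ := exists_indep _ hind t hx
  choose a ha hya using hy
  refine ⟨a, ha, ?_⟩
  have : (fun j => N σ 𝒜 (a j) / N σ 𝒜 a0) = y := by
    funext j; rw [hya]
  rw [this]
  exact hyi

end Crest.Agent.R276.FlatI_464
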