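import Mathlib
import Crest.Agent.R276.IpcDefs_735

/-!
# R276, leaf FLATALG (helper464), part T: the torsor of isometries and the flat norm sections

`G` a connected Riemann domain, `Φ z : ℂˢ → ℝ` a family of "norms" which is locally constant up to
holomorphic linear isomorphisms (`Loc`, output of LEMMA N), `D : G → ℂˣ` holomorphic with
`‖det A‖^m = ‖D z‖` for every isometry `A : Φ z0 → Φ z` (the flat power of the determinant), and
finitely many isometries `A` of `Φ z0` with `(det A)^m = 1` (LEMMA FIN).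

`I z` = isometries `A : Φ z0 → Φ z` with `(det A)^m = D z` : a torsor under the finite group `I z0`.
`nrm z a = ∏_{A ∈ I z} (A a)·X` : homogeneous polynomial of degree `k = #I z0` in `s` variables;
its coefficients are holomorphic on `G` (`hol_coeff`).  No paths, no monodromy, no coverings.
-/

set_option autoImplicit false
set_option linter.unusedSectionVars false

noncomputable section

open Set Filter Topology Matrix
open Crest.Agent.R271.Ho51

namespace Crest.Agent.R276.FlatT_464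

open Crest.Agent.R276.Ipc735 (HolAt)

section hol

variable {n : ℕ} {G : Type*} [TopologicalSpace G] [RDom n G]
variable {E : Type*} [NormedAddCommGroup E] [NormedSpace ℂ E]

theorem tendsto_symm (z : G) : Tendsto (ch z).symm (𝓝 (cp z)) (𝓝 z) := by
  have := (ch z).symm.continuousAt (x := cp z) (by simpa using (isCh_ch z).cp_mem (mem_ch z))
  rwa [ContinuousAt, (isCh_ch z).symm_cp (mem_ch z)] at this

theorem HolAt.congr {f g : G → E} {z : G} (hf : HolAt f z) (h : f =ᶠ[𝓝 z] g) : HolAt g z :=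
  AnalyticAt.congr hf ((tendsto_symm z).eventually h)

theorem holAt_const (c : E) (z : G) : HolAt (fun _ : G => c) z := analyticAt_const

theorem HolAt.add {f g : G → E} {z : G} (hf : HolAt f z) (hg : HolAt g z) :
    HolAt (fun x => f x + g x) z := AnalyticAt.add hf hg

theorem HolAt.mul {f g : G → ℂ} {z : G} (hf : HolAt f z) (hg : HolAt g z) :
    HolAt (fun x => f x * g x) z := AnalyticAt.mul hf hg

theorem HolAt.pow {f : G → ℂ} {z : G} (hf : HolAt f z) (k : ℕ) :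
    HolAt (fun x => f x ^ k) z := AnalyticAt.pow hf k

theorem HolAt.inv {f : G → ℂ} {z : G} (hf : HolAt f z) (h : f z ≠ 0) :
    HolAt (fun x => (f x)⁻¹) z := by
  refine AnalyticAt.inv hf ?_
  show f ((ch z).symm (cp z)) ≠ 0
  rwa [(isCh_ch z).symm_cp (mem_ch z)]

theorem HolAt.sum {ι : Type*} (S : Finset ι) {f : ι → G → E} {z : G}
    (h : ∀ i ∈ S, HolAt (f i) z) : HolAt (fun x => ∑ i ∈ S, f i x) z := by
  classical
  induction S using Finset.induction_on with
  | empty => simpa using holAt_const (0 : E) z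
  | insert a S ha ih =>
    simp only [Finset.sum_insert ha]
    exact HolAt.add (h a (Finset.mem_insert_self _ _))
      (ih fun i hi => h i (Finset.mem_insert_of_mem hi))

theorem HolAt.prod {ι : Type*} (S : Finset ι) {f : ι → G → ℂ} {z : G}
    (h : ∀ i ∈ S, HolAt (f i) z) : HolAt (fun x => ∏ i ∈ S, f i x) z := by
  classical
  induction S using Finset.induction_on with
  | empty => simpa using holAt_const (1 : ℂ) z
  | insert a S ha ih =>
    simp only [Finset.prod_insert ha]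
    exact HolAt.mul (h a (Finset.mem_insert_self _ _))
      (ih fun i hi => h i (Finset.mem_insert_of_mem hi))

/-- a holomorphic function of constant modulus is locally constant -/
theorem eventually_const {f : G → ℂ} {z : G} (hf : HolAt f z)
    (h : ∀ᶠ x in 𝓝 z, ‖f x‖ = ‖f z‖) : ∀ᶠ x in 𝓝 z, f x = f z := by
  have h1 : ∀ᶠ w in 𝓝 (cp z), DifferentiableAt ℂ (f ∘ (ch z).symm) w :=
    (AnalyticAt.eventually_analyticAt hf).mono fun w hw => hw.differentiableAt
  have h2 : IsLocalMax (norm ∘ (f ∘ (ch z).symm)) (cp z) := by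
    filter_upwards [(tendsto_symm z).eventually h] with w hw
    simp only [Function.comp_apply]
    rw [hw, (isCh_ch z).symm_cp (mem_ch z)]
  have h3 := Complex.eventually_eq_of_isLocalMax_norm h1 h2
  have h4 : ∀ᶠ x in 𝓝 z, (f ∘ (ch z).symm) (cp x) = (f ∘ (ch z).symm) (cp z) :=
    (cp_cont.continuousAt (x := z)).eventually h3
  filter_upwards [h4, eventually_eq_comp (isCh_ch z) (mem_ch z) f] with x hx hx'
  rw [hx', hx]
  simp [(isCh_ch z).symm_cp (mem_ch z)]

/-- determinant of a holomorphic family of matrices -/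
theorem HolAt.det {s : ℕ} {T : G → Matrix (Fin s) (Fin s) ℂ} {z : G}
    (h : ∀ i j, HolAt (fun x => T x i j) z) : HolAt (fun x => (T x).det) z := by
  simp only [Matrix.det_apply']
  refine HolAt.sum _ fun σ _ => HolAt.mul (holAt_const _ z) (HolAt.prod _ fun i _ => h _ _)

theorem HolAt.mul_const {s : ℕ} {T : G → Matrix (Fin s) (Fin s) ℂ} {z : G}
    (h : ∀ i j, HolAt (fun x => T x i j) z) (A : Matrix (Fin s) (Fin s) ℂ) (i j : Fin s) :
    HolAt (fun x => (T x * A) i j) z := by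
  simp only [Matrix.mul_apply]
  exact HolAt.sum _ fun k _ => HolAt.mul (h _ _) (holAt_const _ z)

theorem HolAt.mulVec {s : ℕ} {T : G → Matrix (Fin s) (Fin s) ℂ} {z : G}
    (h : ∀ i j, HolAt (fun x => T x i j) z) (v : Fin s → ℂ) (i : Fin s) :
    HolAt (fun x => (T x *ᵥ v) i) z := by
  simp only [Matrix.mulVec, dotProduct]
  exact HolAt.sum _ fun k _ => HolAt.mul (h _ _) (holAt_const _ z)

end hol

/-! ### isometries -/

section iso

variable {G : Type*} {s : ℕ} {R : Type*}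

/-- linear maps carrying `Φ z` to `Φ z'` -/
def Is (Φ : G → (Fin s → ℂ) → R) (z z' : G) : Set (Matrix (Fin s) (Fin s) ℂ) :=
  {A | ∀ a, Φ z' (A *ᵥ a) = Φ z a}

/-- `Φ z` is definite and invariant under the circle -/
structure Nm (Φ : G → (Fin s → ℂ) → R) : Prop where
  pos : ∀ z a, Φ z a = Φ z 0 → a = 0
  circ : ∀ z (c : ℂ) a, ‖c‖ = 1 → Φ z (c • a) = Φ z a

variable {Φ : G → (Fin s → ℂ) → R} {z z' z'' : G} {A B : Matrix (Fin s) (Fin s) ℂ}

theorem Is.one : (1 : Matrix (Fin s) (Fin s) ℂ) ∈ Is Φ z z := fun a => by simp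

theorem Is.mul (hA : A ∈ Is Φ z' z'') (hB : B ∈ Is Φ z z') : A * B ∈ Is Φ z z'' := fun a => by
  rw [← Matrix.mulVec_mulVec, hA, hB]

theorem Is.det_ne (h : Nm Φ) (hA : A ∈ Is Φ z z') : A.det ≠ 0 := by
  intro h0
  obtain ⟨v, hv, hv0⟩ := Matrix.exists_mulVec_eq_zero_iff.2 h0
  apply hv
  apply h.pos z
  rw [← hA v, hv0, ← hA 0, Matrix.mulVec_zero]

theorem Is.inv (h : Nm Φ) (hA : A ∈ Is Φ z z') : A⁻¹ ∈ Is Φ z' z := fun a => by
  have h1 : IsUnit A.det := (Is.det_ne h hA).isUnit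
  rw [← hA, Matrix.mulVec_mulVec, Matrix.mul_nonsing_inv A h1, Matrix.one_mulVec]

theorem Is.smul (h : Nm Φ) (hA : A ∈ Is Φ z z') {c : ℂ} (hc : ‖c‖ = 1) : c • A ∈ Is Φ z z' :=
  fun a => by rw [Matrix.smul_mulVec, h.circ _ _ _ hc, hA]

end iso

/-! ### the torsor -/

section torsor

variable {n : ℕ} {G : Type*} [TopologicalSpace G] [RDom n G] {s : ℕ} {R : Type*}

/-- `Φ` is locally constant up to holomorphic families of linear isomorphisms -/
structure Loc (Φ : G → (Fin s → ℂ) → R) : Prop extends Nm Φ where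
  tr : ∀ z1, ∃ T : G → Matrix (Fin s) (Fin s) ℂ, (∀ i j, HolAt (fun z => T z i j) z1) ∧
    ∀ᶠ z in 𝓝 z1, T z ∈ Is Φ z1 z

variable {Φ : G → (Fin s → ℂ) → R}

/-- normalised local transport -/
theorem Loc.exists_tr (h : Loc Φ) (z1 : G) : ∃ T : G → Matrix (Fin s) (Fin s) ℂ,
    (∀ i j, HolAt (fun z => T z i j) z1) ∧ T z1 = 1 ∧ ∀ᶠ z in 𝓝 z1, T z ∈ Is Φ z1 z := by
  obtain ⟨T, hT, hT'⟩ := h.tr z1
  have h1 := hT'.self_of_nhds
  refine ⟨fun z => T z * (T z1)⁻¹, fun i j => HolAt.mul_const hT _ i j, ?_, ?_⟩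
  · exact Matrix.mul_nonsing_inv _ (Is.det_ne h.toNm h1).isUnit
  · filter_upwards [hT'] with z hz
    exact Is.mul hz (Is.inv h.toNm h1)

/-- all the `Φ z` are isomorphic -/
theorem Loc.nonempty_is [PreconnectedSpace G] (h : Loc Φ) (z0 z : G) : (Is Φ z0 z).Nonempty := by
  have hcl : IsClopen {z | (Is Φ z0 z).Nonempty} := by
    constructor
    · rw [← isOpen_compl_iff, isOpen_iff_mem_nhds]
      intro z1 hz1
      obtain ⟨T, -, hT⟩ := h.tr z1
      filter_upwards [hT] with z hz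
      rintro ⟨A, hA⟩
      exact hz1 ⟨(T z)⁻¹ * A, Is.mul (Is.inv h.toNm hz) hA⟩
    · rw [isOpen_iff_mem_nhds]
      rintro z1 ⟨A, hA⟩
      obtain ⟨T, -, hT⟩ := h.tr z1
      filter_upwards [hT] with z hz
      exact ⟨T z * A, Is.mul hz hA⟩
  have := hcl.eq_univ ⟨z0, 1, Is.one⟩
  have hz : z ∈ {z | (Is Φ z0 z).Nonempty} := by rw [this]; trivial
  exact hz

/-- the data: flat norms with a flat power of the determinant -/
structure Dat (Φ : G → (Fin s → ℂ) → R) (D : G → ℂ) (m : ℕ) (z0 : G) : Prop extends Loc Φ where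
  s_pos : 0 < s
  m_pos : 0 < m
  D_one : D z0 = 1
  D_ne : ∀ z, D z ≠ 0
  D_hol : ∀ z, HolAt D z
  det : ∀ z, ∀ A ∈ Is Φ z0 z, ‖A.det‖ ^ m = ‖D z‖
  fin : {A | A ∈ Is Φ z0 z0 ∧ A.det ^ m = 1}.Finite

/-- the torsor -/
def Iz (Φ : G → (Fin s → ℂ) → R) (D : G → ℂ) (m : ℕ) (z0 z : G) :
    Set (Matrix (Fin s) (Fin s) ℂ) := {A | A ∈ Is Φ z0 z ∧ A.det ^ m = D z}

variable {D : G → ℂ} {m : ℕ} {z0 : G}

theorem one_mem (h : Dat Φ D m z0) : (1 : Matrix (Fin s) (Fin s) ℂ) ∈ Iz Φ D m z0 z0 :=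
  ⟨Is.one, by rw [Matrix.det_one, one_pow, h.D_one]⟩

theorem Dat.nonempty [PreconnectedSpace G] (h : Dat Φ D m z0) (z : G) :
    (Iz Φ D m z0 z).Nonempty := by
  obtain ⟨A, hA⟩ := h.toLoc.nonempty_is z0 z
  have hd := Is.det_ne h.toNm hA
  -- a root of unity correction
  obtain ⟨c, hc⟩ := IsAlgClosed.exists_pow_nat_eq (D z / A.det ^ m)
    (Nat.mul_pos h.s_pos h.m_pos)
  have hc1 : ‖c‖ = 1 := by
    have h1 : ‖c‖ ^ (s * m) = 1 := by
      rw [← norm_pow, hc, norm_div, norm_pow, h.det z A hA, div_self]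
      exact norm_ne_zero_iff.2 (h.D_ne z)
    exact (pow_eq_one_iff_of_nonneg (norm_nonneg _) (Nat.mul_pos h.s_pos h.m_pos).ne').1 h1
  refine ⟨c • A, Is.smul h.toNm hA hc1, ?_⟩
  rw [Matrix.det_smul, Fintype.card_fin, mul_pow, ← pow_mul, hc]
  field_simp

theorem Iz.mul {z : G} {A B : Matrix (Fin s) (Fin s) ℂ} (h : Dat Φ D m z0)
    (hA : A ∈ Iz Φ D m z0 z) (hB : B ∈ Iz Φ D m z0 z0) : A * B ∈ Iz Φ D m z0 z := by
  refine ⟨Is.mul hA.1 hB.1, ?_⟩
  rw [Matrix.det_mul, mul_pow, hA.2, hB.2, h.D_one, mul_one]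

theorem Iz.eq_image {z : G} {A : Matrix (Fin s) (Fin s) ℂ} (h : Dat Φ D m z0)
    (hA : A ∈ Iz Φ D m z0 z) : Iz Φ D m z0 z = (fun B => A * B) '' Iz Φ D m z0 z0 := by
  have hd : IsUnit A.det := (Is.det_ne h.toNm hA.1).isUnit
  ext B
  constructor
  · intro hB
    refine ⟨A⁻¹ * B, ⟨Is.mul (Is.inv h.toNm hA.1) hB.1, ?_⟩, ?_⟩
    · rw [Matrix.det_mul, mul_pow, hB.2, Matrix.det_nonsing_inv, Ring.inverse_eq_inv', inv_pow,
        hA.2, inv_mul_cancel₀ (h.D_ne z), h.D_one]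
    · simp only [Matrix.mul_nonsing_inv_cancel_left _ _ hd]
  · rintro ⟨C, hC, rfl⟩
    exact Iz.mul h hA hC

theorem mul_injective {A : Matrix (Fin s) (Fin s) ℂ} (hA : IsUnit A.det) :
    Function.Injective (fun B : Matrix (Fin s) (Fin s) ℂ => A * B) := by
  intro B C hBC
  have h1 : A⁻¹ * (A * B) = A⁻¹ * (A * C) := by
    simp only at hBC
    rw [hBC]
  rwa [Matrix.nonsing_inv_mul_cancel_left _ _ hA, Matrix.nonsing_inv_mul_cancel_left _ _ hA] at h1

theorem Dat.finite [PreconnectedSpace G] (h : Dat Φ D m z0) (z : G) : (Iz Φ D m z0 z).Finite := by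
  obtain ⟨A, hA⟩ := h.nonempty z
  rw [Iz.eq_image h hA]
  refine Set.Finite.image _ ?_
  refine h.fin.subset fun B hB => ⟨hB.1, ?_⟩
  rw [hB.2, h.D_one]

/-- number of elements of the torsor -/
theorem Dat.ncard_eq [PreconnectedSpace G] (h : Dat Φ D m z0) (z : G) :
    (Iz Φ D m z0 z).ncard = (Iz Φ D m z0 z0).ncard := by
  obtain ⟨A, hA⟩ := h.nonempty z
  rw [Iz.eq_image h hA]
  exact Set.ncard_image_of_injective _ (mul_injective (Is.det_ne h.toNm hA.1).isUnit)

/-- the degree of the norm sections -/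
def deg (Φ : G → (Fin s → ℂ) → R) (D : G → ℂ) (m : ℕ) (z0 : G) : ℕ := (Iz Φ D m z0 z0).ncard

theorem Dat.deg_pos [PreconnectedSpace G] (h : Dat Φ D m z0) : 0 < deg Φ D m z0 := by
  rw [deg, Set.ncard_pos (h.finite z0)]
  exact ⟨1, one_mem h⟩

/-- **local structure of the torsor** -/
theorem Dat.local [PreconnectedSpace G] (h : Dat Φ D m z0) (z1 : G) :
    ∃ T : G → Matrix (Fin s) (Fin s) ℂ, (∀ i j, HolAt (fun z => T z i j) z1) ∧ T z1 = 1 ∧
      ∀ᶠ z in 𝓝 z1, T z ∈ Is Φ z1 z ∧ Iz Φ D m z0 z = (fun A => T z * A) '' Iz Φ D m z0 z1 := by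
  obtain ⟨T, hT, hT1, hT'⟩ := h.toLoc.exists_tr z1
  refine ⟨T, hT, hT1, ?_⟩
  obtain ⟨A, hA⟩ := h.nonempty z1
  set f : G → ℂ := fun z => (T z).det ^ m * (D z1 * (D z)⁻¹) with hf
  have hfh : HolAt f z1 :=
    HolAt.mul ((HolAt.det hT).pow m)
      (HolAt.mul (holAt_const _ z1) (HolAt.inv (h.D_hol z1) (h.D_ne z1)))
  have hf1 : f z1 = 1 := by
    simp only [hf, hT1, Matrix.det_one, one_pow, one_mul]
    exact mul_inv_cancel₀ (h.D_ne z1)
  have hnorm : ∀ᶠ z in 𝓝 z1, ‖f z‖ = ‖f z1‖ := by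
    filter_upwards [hT'] with z hz
    rw [hf1, norm_one]
    have h1 := h.det z _ (Is.mul hz hA.1)
    have h2 : ‖A.det‖ ^ m = ‖D z1‖ := h.det z1 A hA.1
    rw [Matrix.det_mul, norm_mul, mul_pow, h2] at h1
    simp only [hf, norm_mul, norm_pow, norm_inv]
    have h3 : ‖D z‖ ≠ 0 := norm_ne_zero_iff.2 (h.D_ne z)
    rw [← mul_assoc, h1, mul_inv_cancel₀ h3]
  filter_upwards [hT', eventually_const hfh hnorm] with z hz hfz
  refine ⟨hz, ?_⟩
  have hdet : (T z).det ^ m * D z1 = D z := by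
    rw [hf1] at hfz
    simp only [hf] at hfz
    have h3 : D z ≠ 0 := h.D_ne z
    field_simp at hfz
    exact hfz
  have hmem : ∀ B ∈ Iz Φ D m z0 z1, T z * B ∈ Iz Φ D m z0 z := by
    intro B hB
    refine ⟨Is.mul hz hB.1, ?_⟩
    rw [Matrix.det_mul, mul_pow, hB.2, hdet]
  have hd : IsUnit (T z).det := (Is.det_ne h.toNm hz).isUnit
  ext B
  constructor
  · intro hB
    refine ⟨(T z)⁻¹ * B, ⟨Is.mul (Is.inv h.toNm hz) hB.1, ?_⟩, ?_⟩
    · rw [Matrix.det_mul, mul_pow, hB.2, Matrix.det_nonsing_inv, Ring.inverse_eq_inv', inv_pow,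
        ← hdet]
      have : (T z).det ^ m ≠ 0 := pow_ne_zero _ hd.ne_zero
      field_simp
    · simp only [Matrix.mul_nonsing_inv_cancel_left _ _ hd]
  · rintro ⟨C, hC, rfl⟩
    exact hmem C hC

end torsor

/-! ### polynomials with holomorphic coefficients -/

section poly

variable {n : ℕ} {G : Type*} [TopologicalSpace G] [RDom n G] {s : ℕ}

/-- the linear form `v · X` -/
def lin (v : Fin s → ℂ) : MvPolynomial (Fin s) ℂ := ∑ i, MvPolynomial.C (v i) * MvPolynomial.X i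

theorem lin_eval (v x : Fin s → ℂ) : MvPolynomial.eval x (lin v) = ∑ i, v i * x i := by
  simp [lin]

theorem lin_homog (v : Fin s → ℂ) : (lin v).IsHomogeneous 1 := by
  refine MvPolynomial.IsHomogeneous.sum _ _ _ fun i _ => ?_
  have := (MvPolynomial.isHomogeneous_C (Fin s) (v i)).mul (MvPolynomial.isHomogeneous_X ℂ i)
  simpa using this

theorem lin_ne {v : Fin s → ℂ} (hv : v ≠ 0) : lin v ≠ 0 := by
  intro h
  apply hv
  ext i
  have h1 := congrArg (MvPolynomial.eval (Pi.single i 1)) h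
  rw [lin_eval] at h1
  simpa [Pi.single_apply] using h1

/-- holomorphic coefficients at a point -/
def HolPoly (P : G → MvPolynomial (Fin s) ℂ) (z : G) : Prop :=
  ∀ μ : Fin s →₀ ℕ, HolAt (fun x => (P x).coeff μ) z

theorem HolPoly.congr {P Q : G → MvPolynomial (Fin s) ℂ} {z : G} (hP : HolPoly P z)
    (h : P =ᶠ[𝓝 z] Q) : HolPoly Q z := fun μ =>
  FlatT_464.HolAt.congr (hP μ) (h.mono fun x hx => by simp only [hx])

theorem HolPoly.one (z : G) : HolPoly (fun _ : G => (1 : MvPolynomial (Fin s) ℂ)) z :=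
  fun _ => holAt_const _ z

theorem HolPoly.mul {P Q : G → MvPolynomial (Fin s) ℂ} {z : G} (hP : HolPoly P z)
    (hQ : HolPoly Q z) : HolPoly (fun x => P x * Q x) z := by
  intro μ
  simp only [MvPolynomial.coeff_mul]
  exact HolAt.sum _ fun i _ => HolAt.mul (hP _) (hQ _)

theorem HolPoly.prod {ι : Type*} (S : Finset ι) {P : ι → G → MvPolynomial (Fin s) ℂ} {z : G}
    (h : ∀ i ∈ S, HolPoly (P i) z) : HolPoly (fun x => ∏ i ∈ S, P i x) z := by
  classical
  induction S using Finset.induction_on with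
  | empty => simpa using HolPoly.one z
  | insert a S ha ih =>
    simp only [Finset.prod_insert ha]
    exact HolPoly.mul (h a (Finset.mem_insert_self _ _))
      (ih fun i hi => h i (Finset.mem_insert_of_mem hi))

theorem HolPoly.lin {v : G → Fin s → ℂ} {z : G} (h : ∀ i, HolAt (fun x => v x i) z) :
    HolPoly (fun x => lin (v x)) z := by
  intro μ
  simp only [FlatT_464.lin, MvPolynomial.coeff_sum, MvPolynomial.coeff_C_mul]
  exact HolAt.sum _ fun i _ => HolAt.mul (h i) (holAt_const _ z)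

/-- the values of a polynomial with holomorphic coefficients at a holomorphic point -/
theorem HolPoly.eval {P : G → MvPolynomial (Fin s) ℂ} {z : G} {k : ℕ}
    (hP : HolPoly P z) (hd : ∀ x, (P x).totalDegree ≤ k) {v : G → Fin s → ℂ}
    (hv : ∀ i, HolAt (fun x => v x i) z) : HolAt (fun x => MvPolynomial.eval (v x) (P x)) z := by
  classical
  -- sum over all exponents of degree `≤ k`
  set S : Finset (Fin s →₀ ℕ) := (Finset.range (k + 1)).biUnion fun j =>
    (Finset.finsuppAntidiag Finset.univ j) with hS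
  have hmem : ∀ x, (P x).support ⊆ S := by
    intro x μ hμ
    rw [hS, Finset.mem_biUnion]
    have h1 := MvPolynomial.le_totalDegree hμ
    refine ⟨μ.sum fun _ e => e, Finset.mem_range.2 (by have := hd x; omega), ?_⟩
    rw [Finset.mem_finsuppAntidiag]
    refine ⟨?_, Finset.subset_univ _⟩
    rw [Finsupp.sum_fintype]
    intro; rfl
  have h1 : (fun x => MvPolynomial.eval (v x) (P x)) =
      fun x => ∑ μ ∈ S, (P x).coeff μ * ∏ i, v x i ^ μ i := by
    funext x
    rw [MvPolynomial.eval_eq']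
    refine Finset.sum_subset (hmem x) fun μ _ hμ => ?_
    rw [MvPolynomial.notMem_support_iff.1 hμ, zero_mul]
  rw [h1]
  exact HolAt.sum _ fun μ _ => HolAt.mul (hP μ) (HolAt.prod _ fun i _ => HolAt.pow (hv i) _)

end poly

/-! ### the norm sections -/

section nrm

variable {n : ℕ} {G : Type*} [TopologicalSpace G] [RDom n G] {s : ℕ} {R : Type*}
variable {Φ : G → (Fin s → ℂ) → R} {D : G → ℂ} {m : ℕ} {z0 : G}

/-- the norm of `a` : product of the conjugates `A a`, `A ∈ I z` -/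
def nrm (Φ : G → (Fin s → ℂ) → R) (D : G → ℂ) (m : ℕ) (z0 z : G) (a : Fin s → ℂ) :
    MvPolynomial (Fin s) ℂ := ∏ᶠ A ∈ Iz Φ D m z0 z, lin (A *ᵥ a)

variable [PreconnectedSpace G]

theorem nrm_eq (h : Dat Φ D m z0) (z : G) (a : Fin s → ℂ) :
    nrm Φ D m z0 z a = ∏ A ∈ (h.finite z).toFinset, lin (A *ᵥ a) :=
  finprod_mem_eq_finite_toFinset_prod _ (h.finite z)

theorem card_toFinset (h : Dat Φ D m z0) (z : G) :
    (h.finite z).toFinset.card = deg Φ D m z0 := by
  rw [← Set.ncard_eq_toFinset_card _ (h.finite z), h.ncard_eq z]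
  rfl

theorem nrm_homog (h : Dat Φ D m z0) (z : G) (a : Fin s → ℂ) :
    (nrm Φ D m z0 z a).IsHomogeneous (deg Φ D m z0) := by
  rw [nrm_eq h z a, ← card_toFinset h z, Finset.card_eq_sum_ones]
  exact MvPolynomial.IsHomogeneous.prod _ _ _ fun A _ => lin_homog _

theorem nrm_ne (h : Dat Φ D m z0) (z : G) {a : Fin s → ℂ} (ha : a ≠ 0) :
    nrm Φ D m z0 z a ≠ 0 := by
  rw [nrm_eq h z a, Finset.prod_ne_zero_iff]
  intro A hA
  rw [Set.Finite.mem_toFinset] at hA
  apply lin_ne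
  intro h0
  apply ha
  have hd : IsUnit A.det := (Is.det_ne h.toNm hA.1).isUnit
  have h1 : A⁻¹ *ᵥ (A *ᵥ a) = 0 := by rw [h0, Matrix.mulVec_zero]
  rwa [Matrix.mulVec_mulVec, Matrix.nonsing_inv_mul _ hd, Matrix.one_mulVec] at h1

theorem nrm_eval (h : Dat Φ D m z0) (z : G) (a x : Fin s → ℂ) :
    MvPolynomial.eval x (nrm Φ D m z0 z a) =
      ∏ A ∈ (h.finite z).toFinset, ∑ i, (A *ᵥ a) i * x i := by
  rw [nrm_eq h z a, map_prod]
  exact Finset.prod_congr rfl fun A _ => lin_eval _ _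

/-- near `z1` the norm is the product over `I z1` of the transported conjugates -/
theorem nrm_local (h : Dat Φ D m z0) (z1 : G) :
    ∃ T : G → Matrix (Fin s) (Fin s) ℂ, (∀ i j, HolAt (fun z => T z i j) z1) ∧ T z1 = 1 ∧
      ∀ᶠ z in 𝓝 z1, T z ∈ Is Φ z1 z ∧ ∀ a, nrm Φ D m z0 z a =
        ∏ A ∈ (h.finite z1).toFinset, lin (T z *ᵥ (A *ᵥ a)) := by
  obtain ⟨T, hT, hT1, hT'⟩ := h.local z1
  refine ⟨T, hT, hT1, ?_⟩
  filter_upwards [hT'] with z hz
  refine ⟨hz.1, fun a => ?_⟩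
  have hd : IsUnit (T z).det := (Is.det_ne h.toNm hz.1).isUnit
  rw [nrm, hz.2, finprod_mem_image ((mul_injective hd).injOn),
    finprod_mem_eq_finite_toFinset_prod _ (h.finite z1)]
  refine Finset.prod_congr rfl fun A _ => ?_
  rw [Matrix.mulVec_mulVec]

/-- **the coefficients of the norm are holomorphic** -/
theorem hol_nrm (h : Dat Φ D m z0) (a : Fin s → ℂ) (z1 : G) :
    HolPoly (fun z => nrm Φ D m z0 z a) z1 := by
  obtain ⟨T, hT, -, hT'⟩ := nrm_local h z1
  have h1 : HolPoly (fun z => ∏ A ∈ (h.finite z1).toFinset, lin (T z *ᵥ (A *ᵥ a))) z1 :=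
    HolPoly.prod _ fun A _ => HolPoly.lin fun i => HolAt.mulVec hT _ i
  refine h1.congr ?_
  filter_upwards [hT'] with z hz
  rw [hz.2 a]

end nrm

end Crest.Agent.R276.FlatT_464
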