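import Mathlib

/-!
# RUD: Rudin / Plotkin equimeasurability for exponents `0 < p < 2`

`mu` on `X`, `nu` on `Y` s-finite measures, `s : X → ℂ^n`, `t : Y → ℂ^n` measurable, and
`∫ |∑ a_i s_i|^p dmu = ∫ |∑ a_i t_i|^p dnu < ∞` for all `a`.  Then `∫ h(s) dmu = ∫ h(t) dnu` for every
measurable `h : ℂ^n → [0,∞]` with `h (c x) = |c|^p h x`.

Proof: `|w|^p` is a constant times `∫ (1 - cos Re(w ξ)) |ξ|^{-2-p} dξ`; hence the Levy measures (image of
`mu × |ξ|^{-2-p} dξ` under `(ω,ξ) ↦ ξ s(ω)`) weighted by `1 - cos Re<h,x>` are finite and have the same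
characteristic function.
-/

set_option autoImplicit false

open MeasureTheory
open scoped ENNReal NNReal

namespace Crest.Agent.R276.Rud_210

/-- complex bilinear pairing -/
def pr {n : ℕ} (a x : Fin n → ℂ) : ℂ := ∑ i, a i * x i

lemma pr_add {n : ℕ} (a b x : Fin n → ℂ) : pr (a + b) x = pr a x + pr b x := by
  simp [pr, add_mul, Finset.sum_add_distrib]

lemma pr_sub {n : ℕ} (a b x : Fin n → ℂ) : pr (a - b) x = pr a x - pr b x := by
  simp [pr, sub_mul, Finset.sum_sub_distrib]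

lemma pr_smul_right {n : ℕ} (c : ℂ) (a x : Fin n → ℂ) : pr a (fun i => c * x i) = c * pr a x := by
  simp only [pr, Finset.mul_sum]
  exact Finset.sum_congr rfl fun i _ => by ring

lemma pr_neg_right {n : ℕ} (a x : Fin n → ℂ) : pr a (-x) = - pr a x := by
  simp [pr, Finset.sum_neg_distrib]

lemma continuous_pr {n : ℕ} (a : Fin n → ℂ) : Continuous (pr a) := by
  unfold pr
  fun_prop

/-- The radial kernel `|ξ|^{-2-p} dξ` on `ℂ`. -/
noncomputable def lam (p : ℝ) : Measure ℂ :=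
  (volume : Measure ℂ).withDensity (fun ξ => ENNReal.ofReal (‖ξ‖ ^ (-2 - p)))

instance (p : ℝ) : SFinite (lam p) := by
  unfold lam
  infer_instance

lemma meas_ker (p : ℝ) : Measurable (fun ξ : ℂ => ENNReal.ofReal (‖ξ‖ ^ (-2 - p))) := by
  fun_prop

lemma map_mul_volume {w : ℂ} (hw : w ≠ 0) :
    Measure.map (fun ξ : ℂ => w * ξ) volume = ENNReal.ofReal (‖w‖ ^ (-2 : ℝ)) • (volume : Measure ℂ) := by
  have hdet : LinearMap.det (LinearMap.mulLeft ℝ w) = ‖w‖ ^ 2 := by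
    have h1 : LinearMap.det (LinearMap.mulLeft ℝ w) = Algebra.norm ℝ w := by
      rw [Algebra.norm_apply]
      rfl
    rw [h1, Algebra.norm_complex_apply, Complex.normSq_eq_norm_sq]
  have hn : ‖w‖ ≠ 0 := norm_ne_zero_iff.mpr hw
  have hdet0 : LinearMap.det (LinearMap.mulLeft ℝ w) ≠ 0 := by
    rw [hdet]; positivity
  have := Measure.map_linearMap_addHaar_eq_smul_addHaar (volume : Measure ℂ) hdet0
  have h2 : (fun ξ : ℂ => w * ξ) = ⇑(LinearMap.mulLeft ℝ w) := by
    ext ξ; simp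
  rw [h2, this, hdet]
  congr 2
  rw [abs_of_pos (by positivity), Real.rpow_neg (norm_nonneg _)]
  norm_num

lemma lam_map_mul (p : ℝ) {w : ℂ} (hw : w ≠ 0) :
    Measure.map (fun ξ : ℂ => w * ξ) (lam p) = ENNReal.ofReal (‖w‖ ^ p) • lam p := by
  have hn : 0 < ‖w‖ := norm_pos_iff.mpr hw
  have hm : Measurable (fun ξ : ℂ => w * ξ) := by fun_prop
  ext S hS
  rw [Measure.map_apply hm hS, Measure.smul_apply, smul_eq_mul]
  unfold lam
  rw [withDensity_apply _ (hm hS), withDensity_apply _ hS]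
  rw [← lintegral_indicator (hm hS), ← lintegral_indicator hS]
  have key : ∀ ξ : ℂ, ((fun ξ : ℂ => w * ξ) ⁻¹' S).indicator
      (fun ξ => ENNReal.ofReal (‖ξ‖ ^ (-2 - p))) ξ =
      ENNReal.ofReal (‖w‖ ^ (2 + p)) *
        (S.indicator (fun ξ => ENNReal.ofReal (‖ξ‖ ^ (-2 - p))) (w * ξ)) := by
    intro ξ
    by_cases h : w * ξ ∈ S
    · have h' : ξ ∈ (fun ξ : ℂ => w * ξ) ⁻¹' S := h
      rw [Set.indicator_of_mem h', Set.indicator_of_mem h, ← ENNReal.ofReal_mul (by positivity)]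
      congr 1
      rw [norm_mul, Real.mul_rpow (norm_nonneg _) (norm_nonneg _), ← mul_assoc,
        ← Real.rpow_add hn]
      have : (2 + p + (-2 - p) : ℝ) = 0 := by ring
      rw [this, Real.rpow_zero, one_mul]
    · have h' : ξ ∉ (fun ξ : ℂ => w * ξ) ⁻¹' S := h
      rw [Set.indicator_of_notMem h', Set.indicator_of_notMem h, mul_zero]
  have hmS : Measurable (S.indicator (fun ξ : ℂ => ENNReal.ofReal (‖ξ‖ ^ (-2 - p)))) :=
    (meas_ker p).indicator hS
  have hmS' : Measurable (fun ξ : ℂ =>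
      S.indicator (fun ξ : ℂ => ENNReal.ofReal (‖ξ‖ ^ (-2 - p))) (w * ξ)) := hmS.comp hm
  rw [lintegral_congr key, lintegral_const_mul _ hmS']
  have h3 : ∫⁻ ξ, S.indicator (fun ξ : ℂ => ENNReal.ofReal (‖ξ‖ ^ (-2 - p))) (w * ξ) =
      ∫⁻ η, S.indicator (fun ξ : ℂ => ENNReal.ofReal (‖ξ‖ ^ (-2 - p))) η
        ∂(Measure.map (fun ξ : ℂ => w * ξ) volume) :=
    (lintegral_map hmS hm).symm
  rw [h3, map_mul_volume hw, lintegral_smul_measure, smul_eq_mul, ← mul_assoc,
    ← ENNReal.ofReal_mul (by positivity), ← Real.rpow_add hn]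
  congr 3
  ring

lemma lintegral_lam_comp_mul (p : ℝ) {w : ℂ} (hw : w ≠ 0) {f : ℂ → ℝ≥0∞} (hf : Measurable f) :
    ∫⁻ ξ, f (w * ξ) ∂(lam p) = ENNReal.ofReal (‖w‖ ^ p) * ∫⁻ ξ, f ξ ∂(lam p) := by
  have hm : Measurable (fun ξ : ℂ => w * ξ) := by fun_prop
  rw [← lintegral_map hf hm, lam_map_mul p hw, lintegral_smul_measure, smul_eq_mul]

lemma lam_neg (p : ℝ) : Measure.map (fun ξ : ℂ => -ξ) (lam p) = lam p := by
  have := lam_map_mul p (w := (-1 : ℂ)) (by norm_num)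
  simpa using this

/-- the constant `K` -/
noncomputable def K (p : ℝ) : ℝ≥0∞ := ∫⁻ ξ : ℂ, ENNReal.ofReal (1 - Real.cos ξ.re) ∂(lam p)

lemma meas_oneCos : Measurable (fun ξ : ℂ => ENNReal.ofReal (1 - Real.cos ξ.re)) := by
  fun_prop

lemma lintegral_oneCos (p : ℝ) (hp : 0 < p) (w : ℂ) :
    ∫⁻ ξ : ℂ, ENNReal.ofReal (1 - Real.cos (ξ * w).re) ∂(lam p) =
      K p * ENNReal.ofReal (‖w‖ ^ p) := by
  by_cases hw : w = 0
  · subst hw
    simp [Real.zero_rpow hp.ne']
  · have := lintegral_lam_comp_mul p hw meas_oneCos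
    rw [K, mul_comm, ← this]
    exact lintegral_congr fun ξ => by rw [mul_comm]

lemma K_ne_zero (p : ℝ) : K p ≠ 0 := by
  intro h
  have h1 : (fun ξ : ℂ => ENNReal.ofReal (1 - Real.cos ξ.re)) =ᵐ[lam p] 0 :=
    (lintegral_eq_zero_iff meas_oneCos).mp h
  have h2 : ∀ᵐ ξ ∂(volume : Measure ℂ), ENNReal.ofReal (‖ξ‖ ^ (-2 - p)) ≠ 0 →
      ENNReal.ofReal (1 - Real.cos ξ.re) = 0 := by
    have := (ae_withDensity_iff (meas_ker p) (p := fun ξ : ℂ =>
      ENNReal.ofReal (1 - Real.cos ξ.re) = 0)).mp h1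
    exact this
  -- the open set where `1 < re < 2`
  have hopen : IsOpen {ξ : ℂ | 1 < ξ.re ∧ ξ.re < 2} :=
    (isOpen_lt continuous_const Complex.continuous_re).inter
      (isOpen_lt Complex.continuous_re continuous_const)
  have hne : ({ξ : ℂ | 1 < ξ.re ∧ ξ.re < 2}).Nonempty := ⟨(3/2 : ℝ), by
    simp; norm_num⟩
  have hpos := hopen.measure_pos volume hne
  have hsub : {ξ : ℂ | 1 < ξ.re ∧ ξ.re < 2} ⊆ {ξ : ℂ | ¬ (ENNReal.ofReal (‖ξ‖ ^ (-2 - p)) ≠ 0 →
      ENNReal.ofReal (1 - Real.cos ξ.re) = 0)} := by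
    rintro ξ ⟨h1, h2⟩ hc
    have hn : 0 < ‖ξ‖ := by
      apply norm_pos_iff.mpr
      rintro rfl
      simp at h1
      linarith
    have h3 : ENNReal.ofReal (‖ξ‖ ^ (-2 - p)) ≠ 0 := by
      have : 0 < ‖ξ‖ ^ (-2 - p) := by positivity
      simpa using this
    have h4 := hc h3
    rw [ENNReal.ofReal_eq_zero] at h4
    have h5 : Real.cos ξ.re < 1 := by
      have := Real.cos_lt_cos_of_nonneg_of_le_pi (x := 0) (y := ξ.re) le_rfl
        (by linarith [Real.pi_gt_three]) (by linarith)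
      simpa using this
    linarith
  have := measure_mono_null hsub h2
  exact hpos.ne' this

lemma K_ne_top {p : ℝ} (hp : 0 < p) (hp2 : p < 2) : K p ≠ ∞ := by
  -- dominate by an integrable radial function
  set g : ℝ → ℝ := fun r => min (r ^ 2 / 2) 2 * r ^ (-2 - p) with hg
  have hint : Integrable (fun ξ : ℂ => g ‖ξ‖) := by
    rw [integrable_fun_norm_addHaar (volume : Measure ℂ) (f := g)]
    rw [Complex.finrank_real_complex]
    have hsplit : Set.Ioi (0 : ℝ) = Set.Ioc 0 1 ∪ Set.Ioi 1 := by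
      rw [Set.Ioc_union_Ioi_eq_Ioi zero_le_one]
    rw [hsplit]
    apply IntegrableOn.union
    · -- near 0
      have h1 : IntegrableOn (fun y : ℝ => (1/2 : ℝ) * y ^ (1 - p)) (Set.Ioc 0 1) := by
        have := (intervalIntegral.intervalIntegrable_rpow' (a := 0) (b := 1) (r := 1 - p)
          (by linarith))
        rw [intervalIntegrable_iff_integrableOn_Ioc_of_le zero_le_one] at this
        exact this.const_mul _
      refine h1.mono' ?_ ?_
      · refine Measurable.aestronglyMeasurable ?_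
        simp only [hg, smul_eq_mul]
        fun_prop
      · refine (ae_restrict_iff' measurableSet_Ioc).mpr (Filter.Eventually.of_forall ?_)
        intro y hy
        have hy0 : 0 < y := hy.1
        simp only [hg, smul_eq_mul]
        rw [Real.norm_of_nonneg (by positivity)]
        calc y ^ (2 - 1) * (min (y ^ 2 / 2) 2 * y ^ (-2 - p))
            ≤ y ^ (2 - 1) * ((y ^ 2 / 2) * y ^ (-2 - p)) := by
              gcongr; exact min_le_left _ _
          _ = (1/2) * (y ^ (1:ℝ) * y ^ (2:ℝ) * y ^ (-2 - p)) := by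
              rw [Real.rpow_one, Real.rpow_two]; ring
          _ = (1/2) * y ^ (1 - p) := by
              rw [← Real.rpow_add hy0, ← Real.rpow_add hy0]; congr 2; ring
    · have h1 : IntegrableOn (fun y : ℝ => (2 : ℝ) * y ^ (-1 - p)) (Set.Ioi 1) :=
        (integrableOn_Ioi_rpow_of_lt (by linarith) zero_lt_one).const_mul _
      refine h1.mono' ?_ ?_
      · refine Measurable.aestronglyMeasurable ?_
        simp only [hg, smul_eq_mul]
        fun_prop
      · refine (ae_restrict_iff' measurableSet_Ioi).mpr (Filter.Eventually.of_forall ?_)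
        intro y hy
        have hy0 : 0 < y := lt_trans zero_lt_one hy
        simp only [hg, smul_eq_mul]
        rw [Real.norm_of_nonneg (by positivity)]
        calc y ^ (2 - 1) * (min (y ^ 2 / 2) 2 * y ^ (-2 - p))
            ≤ y ^ (2 - 1) * (2 * y ^ (-2 - p)) := by
              gcongr; exact min_le_right _ _
          _ = 2 * (y ^ (1:ℝ) * y ^ (-2 - p)) := by
              rw [Real.rpow_one]; ring
          _ = 2 * y ^ (-1 - p) := by
              rw [← Real.rpow_add hy0]; congr 2; ring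
  have hle : K p ≤ ∫⁻ ξ : ℂ, ENNReal.ofReal (g ‖ξ‖) := by
    unfold K lam
    rw [lintegral_withDensity_eq_lintegral_mul _ (meas_ker p) meas_oneCos]
    apply lintegral_mono
    intro ξ
    simp only [Pi.mul_apply]
    rw [← ENNReal.ofReal_mul (by positivity), mul_comm]
    apply ENNReal.ofReal_le_ofReal
    simp only [hg]
    gcongr
    refine le_min ?_ ?_
    · have h1 := Real.one_sub_sq_div_two_le_cos (x := ξ.re)
      have h2 : ξ.re ^ 2 ≤ ‖ξ‖ ^ 2 := by
        have := Complex.abs_re_le_norm ξ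
        rw [← sq_abs ξ.re]
        gcongr
      linarith
    · linarith [Real.neg_one_le_cos ξ.re]
  exact (lt_of_le_of_lt hle hint.lintegral_lt_top).ne

section Levy

variable {X : Type*} [MeasurableSpace X] {n : ℕ}

/-- The Levy measure: image of `μ × |ξ|^{-2-p} dξ` under `(ω, ξ) ↦ ξ s(ω)`. -/
noncomputable def Lev (p : ℝ) (μ : Measure X) (s : X → Fin n → ℂ) : Measure (Fin n → ℂ) :=
  Measure.map (fun q : X × ℂ => fun i => q.2 * s q.1 i) (μ.prod (lam p))

lemma meas_lev {s : X → Fin n → ℂ} (hs : Measurable s) :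
    Measurable (fun q : X × ℂ => fun i => q.2 * s q.1 i) := by
  refine measurable_pi_lambda _ fun i => ?_
  have h1 : Measurable (fun q : X × ℂ => s q.1 i) :=
    (measurable_pi_apply i).comp (hs.comp measurable_fst)
  exact measurable_snd.mul h1

lemma lintegral_Lev (p : ℝ) (μ : Measure X) [SFinite μ] {s : X → Fin n → ℂ} (hs : Measurable s)
    {H : (Fin n → ℂ) → ℝ≥0∞} (hH : Measurable H) :
    ∫⁻ x, H x ∂(Lev p μ s) = ∫⁻ ω, ∫⁻ ξ, H (fun i => ξ * s ω i) ∂(lam p) ∂μ := by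
  unfold Lev
  have hc : Measurable (fun q : X × ℂ => H (fun i => q.2 * s q.1 i)) := hH.comp (meas_lev hs)
  rw [lintegral_map hH (meas_lev hs), lintegral_prod _ hc.aemeasurable]

lemma lintegral_Lev_neg (p : ℝ) (μ : Measure X) [SFinite μ] {s : X → Fin n → ℂ}
    (hs : Measurable s) {H : (Fin n → ℂ) → ℝ≥0∞} (hH : Measurable H) :
    ∫⁻ x, H (-x) ∂(Lev p μ s) = ∫⁻ x, H x ∂(Lev p μ s) := by
  have hn : Measurable (fun x : Fin n → ℂ => -x) := measurable_neg
  have hHn : Measurable (fun x : Fin n → ℂ => H (-x)) := hH.comp hn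
  rw [lintegral_Lev p μ hs hHn, lintegral_Lev p μ hs hH]
  refine lintegral_congr fun ω => ?_
  have hm : Measurable (fun ξ : ℂ => H (fun i => ξ * s ω i)) := by
    refine hH.comp (measurable_pi_lambda _ fun i => ?_)
    fun_prop
  have h1 : ∫⁻ ξ, H (fun i => ξ * s ω i) ∂(lam p) =
      ∫⁻ ξ, H (fun i => (-ξ) * s ω i) ∂(lam p) := by
    conv_lhs => rw [← lam_neg p]
    rw [lintegral_map hm measurable_neg]
  rw [h1]
  refine lintegral_congr fun ξ => ?_
  congr 1
  ext i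
  simp

lemma Lev_map_neg (p : ℝ) (μ : Measure X) [SFinite μ] {s : X → Fin n → ℂ}
    (hs : Measurable s) : Measure.map (fun x : Fin n → ℂ => -x) (Lev p μ s) = Lev p μ s := by
  ext S hS
  have h1 := lintegral_Lev_neg p μ hs (H := S.indicator 1) (measurable_one.indicator hS)
  rw [lintegral_indicator_one hS] at h1
  rw [← h1, ← lintegral_indicator_one hS]
  rw [lintegral_map (measurable_one.indicator hS) measurable_neg]

/-- the `p`-norm functional -/
noncomputable def Nn (p : ℝ) (μ : Measure X) (s : X → Fin n → ℂ) (a : Fin n → ℂ) : ℝ≥0∞ :=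
  ∫⁻ ω, ENNReal.ofReal (‖pr a (s ω)‖ ^ p) ∂μ

lemma meas_oneCosPr (a : Fin n → ℂ) :
    Measurable (fun x : Fin n → ℂ => ENNReal.ofReal (1 - Real.cos (pr a x).re)) := by
  have : Continuous (fun x : Fin n → ℂ => 1 - Real.cos (pr a x).re) := by
    have := continuous_pr a
    fun_prop
  exact this.measurable.ennreal_ofReal

lemma lintegral_oneCosPr {p : ℝ} (hp : 0 < p) (μ : Measure X) [SFinite μ] {s : X → Fin n → ℂ}
    (hs : Measurable s) (a : Fin n → ℂ) :
    ∫⁻ x, ENNReal.ofReal (1 - Real.cos (pr a x).re) ∂(Lev p μ s) = K p * Nn p μ s a := by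
  rw [lintegral_Lev p μ hs (meas_oneCosPr a)]
  have h1 : ∀ ω, ∫⁻ ξ, ENNReal.ofReal (1 - Real.cos (pr a (fun i => ξ * s ω i)).re) ∂(lam p) =
      K p * ENNReal.ofReal (‖pr a (s ω)‖ ^ p) := by
    intro ω
    rw [← lintegral_oneCos p hp]
    refine lintegral_congr fun ξ => ?_
    rw [pr_smul_right]
  rw [lintegral_congr h1, lintegral_const_mul]
  · rfl
  · have : Measurable (fun ω => pr a (s ω)) := (continuous_pr a).measurable.comp hs
    fun_prop

variable {p : ℝ} {μ : Measure X} [SFinite μ] {s : X → Fin n → ℂ}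

lemma oneCos_nonneg (u : ℝ) : 0 ≤ 1 - Real.cos u := by linarith [Real.cos_le_one u]

lemma integrable_oneCosPr (hp : 0 < p) (hp2 : p < 2) (hs : Measurable s)
    (hN : ∀ a, Nn p μ s a ≠ ∞) (a : Fin n → ℂ) :
    Integrable (fun x : Fin n → ℂ => 1 - Real.cos (pr a x).re) (Lev p μ s) := by
  have hc : Continuous (fun x : Fin n → ℂ => 1 - Real.cos (pr a x).re) := by
    have := continuous_pr a
    fun_prop
  refine ⟨hc.aestronglyMeasurable, ?_⟩
  rw [hasFiniteIntegral_iff_ofReal (Filter.Eventually.of_forall fun x => oneCos_nonneg _),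
    lintegral_oneCosPr hp μ hs a]
  exact ENNReal.mul_lt_top (K_ne_top hp hp2).lt_top (hN a).lt_top

lemma integral_oneCosPr (hp : 0 < p) (hs : Measurable s) (a : Fin n → ℂ) :
    ∫ x, (1 - Real.cos (pr a x).re) ∂(Lev p μ s) = (K p * Nn p μ s a).toReal := by
  have hc : Continuous (fun x : Fin n → ℂ => 1 - Real.cos (pr a x).re) := by
    have := continuous_pr a
    fun_prop
  rw [integral_eq_lintegral_of_nonneg_ae (Filter.Eventually.of_forall fun x => oneCos_nonneg _)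
    hc.aestronglyMeasurable, lintegral_oneCosPr hp μ hs a]

/-- the weighted finite measures -/
noncomputable def Wt (p : ℝ) (μ : Measure X) (s : X → Fin n → ℂ) (h : Fin n → ℂ) :
    Measure (Fin n → ℂ) :=
  (Lev p μ s).withDensity (fun x => ENNReal.ofReal (1 - Real.cos (pr h x).re))

lemma isFinite_Wt (hp : 0 < p) (hp2 : p < 2) (hs : Measurable s)
    (hN : ∀ a, Nn p μ s a ≠ ∞) (h : Fin n → ℂ) : IsFiniteMeasure (Wt p μ s h) := by
  unfold Wt
  refine isFiniteMeasure_withDensity ?_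
  rw [lintegral_oneCosPr hp μ hs h]
  exact ENNReal.mul_ne_top (K_ne_top hp hp2) (hN h)

lemma exists_pr (L : StrongDual ℝ (Fin n → ℂ)) : ∃ a : Fin n → ℂ, ∀ x, L x = (pr a x).re := by
  refine ⟨fun i => (L (Pi.single i 1) : ℂ) - Complex.I * (L (Pi.single i Complex.I) : ℂ),
    fun x => ?_⟩
  have hx : x = ∑ i, ((x i).re • (Pi.single i (1 : ℂ) : Fin n → ℂ) +
      (x i).im • (Pi.single i Complex.I : Fin n → ℂ)) := by
    ext j
    simp only [Finset.sum_apply, Pi.add_apply, Pi.smul_apply, Pi.single_apply]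
    rw [Finset.sum_eq_single j]
    · apply Complex.ext <;> simp
    · intro i _ hij
      simp [Ne.symm hij]
    · simp
  conv_lhs => rw [hx]
  rw [map_sum]
  unfold pr
  rw [Complex.re_sum]
  refine Finset.sum_congr rfl fun i _ => ?_
  simp
  ring

lemma charFunDual_Wt (hp : 0 < p) (hp2 : p < 2) (hs : Measurable s)
    (hN : ∀ a, Nn p μ s a ≠ ∞) (h a : Fin n → ℂ) (L : StrongDual ℝ (Fin n → ℂ))
    (hL : ∀ x, L x = (pr a x).re) :
    charFunDual (Wt p μ s h) L =
      ((((K p * Nn p μ s (a + h)).toReal + (K p * Nn p μ s (a - h)).toReal) / 2 -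
        (K p * Nn p μ s a).toReal : ℝ) : ℂ) := by
  rw [charFunDual_apply]
  unfold Wt
  rw [integral_withDensity_eq_integral_toReal_smul (meas_oneCosPr h)
    (Filter.Eventually.of_forall fun x => ENNReal.ofReal_lt_top)]
  have hI := integrable_oneCosPr (μ := μ) hp hp2 hs hN
  have hpr := continuous_pr (n := n)
  -- split
  have h1 : ∀ x : Fin n → ℂ, (ENNReal.ofReal (1 - Real.cos (pr h x).re)).toReal •
      Complex.exp ((L x : ℂ) * Complex.I) =
      (((1 - Real.cos (pr h x).re) * Real.cos (pr a x).re : ℝ) : ℂ) +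
      (((1 - Real.cos (pr h x).re) * Real.sin (pr a x).re : ℝ) : ℂ) * Complex.I := by
    intro x
    rw [ENNReal.toReal_ofReal (oneCos_nonneg _), hL x, Complex.exp_mul_I]
    simp only [Complex.real_smul]
    push_cast
    ring
  rw [integral_congr_ae (Filter.Eventually.of_forall h1)]
  have i1 : Integrable (fun x : Fin n → ℂ => (1 - Real.cos (pr h x).re) * Real.cos (pr a x).re)
      (Lev p μ s) := by
    refine (hI h).mono' ?_ ?_
    · refine Continuous.aestronglyMeasurable ?_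
      have := hpr h; have := hpr a
      fun_prop
    · refine Filter.Eventually.of_forall fun x => ?_
      rw [norm_mul, Real.norm_of_nonneg (oneCos_nonneg _), Real.norm_eq_abs]
      exact mul_le_of_le_one_right (oneCos_nonneg _) (Real.abs_cos_le_one _)
  have i2 : Integrable (fun x : Fin n → ℂ => (1 - Real.cos (pr h x).re) * Real.sin (pr a x).re)
      (Lev p μ s) := by
    refine (hI h).mono' ?_ ?_
    · refine Continuous.aestronglyMeasurable ?_
      have := hpr h; have := hpr a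
      fun_prop
    · refine Filter.Eventually.of_forall fun x => ?_
      rw [norm_mul, Real.norm_of_nonneg (oneCos_nonneg _), Real.norm_eq_abs]
      exact mul_le_of_le_one_right (oneCos_nonneg _) (Real.abs_sin_le_one _)
  rw [integral_add i1.ofReal (i2.ofReal.mul_const _), integral_mul_const, integral_complex_ofReal,
    integral_complex_ofReal]
  -- the sine part vanishes
  have hodd : ∫ x, (1 - Real.cos (pr h x).re) * Real.sin (pr a x).re ∂(Lev p μ s) = 0 := by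
    have e1 : ∫ x, (1 - Real.cos (pr h x).re) * Real.sin (pr a x).re ∂(Lev p μ s) =
        ∫ x, (1 - Real.cos (pr h (-x)).re) * Real.sin (pr a (-x)).re ∂(Lev p μ s) := by
      conv_lhs => rw [← Lev_map_neg p μ hs]
      rw [integral_map measurable_neg.aemeasurable]
      refine Continuous.aestronglyMeasurable ?_
      have := hpr h; have := hpr a
      fun_prop
    have e2 : ∀ x : Fin n → ℂ, (1 - Real.cos (pr h (-x)).re) * Real.sin (pr a (-x)).re =
        -((1 - Real.cos (pr h x).re) * Real.sin (pr a x).re) := by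
      intro x
      rw [pr_neg_right, pr_neg_right, Complex.neg_re, Complex.neg_re, Real.cos_neg, Real.sin_neg]
      ring
    rw [integral_congr_ae (Filter.Eventually.of_forall e2), integral_neg] at e1
    linarith
  have hev : ∫ x, (1 - Real.cos (pr h x).re) * Real.cos (pr a x).re ∂(Lev p μ s) =
      ((K p * Nn p μ s (a + h)).toReal + (K p * Nn p μ s (a - h)).toReal) / 2 -
        (K p * Nn p μ s a).toReal := by
    have e2 : ∀ x : Fin n → ℂ, (1 - Real.cos (pr h x).re) * Real.cos (pr a x).re =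
        ((1 - Real.cos (pr (a + h) x).re) + (1 - Real.cos (pr (a - h) x).re)) / 2 -
        (1 - Real.cos (pr a x).re) := by
      intro x
      rw [pr_add, pr_sub, Complex.add_re, Complex.sub_re, Real.cos_add, Real.cos_sub]
      ring
    have i3 : Integrable (fun x : Fin n → ℂ =>
        ((1 - Real.cos (pr (a + h) x).re) + (1 - Real.cos (pr (a - h) x).re)) / 2) (Lev p μ s) :=
      ((hI (a + h)).add (hI (a - h))).div_const 2
    rw [integral_congr_ae (Filter.Eventually.of_forall e2), integral_sub i3 (hI a), integral_div,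
      integral_add (hI (a + h)) (hI (a - h)), integral_oneCosPr hp hs, integral_oneCosPr hp hs,
      integral_oneCosPr hp hs]
  rw [hodd, hev]
  simp

end Levy

section Main

variable {X Y : Type*} [MeasurableSpace X] [MeasurableSpace Y] {n : ℕ}

lemma Wt_eq {p : ℝ} (hp : 0 < p) (hp2 : p < 2) {μ : Measure X} {ν : Measure Y} [SFinite μ]
    [SFinite ν] {s : X → Fin n → ℂ} {t : Y → Fin n → ℂ} (hs : Measurable s) (ht : Measurable t)
    (hN : ∀ a, Nn p μ s a ≠ ∞) (heq : ∀ a, Nn p μ s a = Nn p ν t a) (h : Fin n → ℂ) :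
    Wt p μ s h = Wt p ν t h := by
  have hN' : ∀ a, Nn p ν t a ≠ ∞ := fun a => heq a ▸ hN a
  have := isFinite_Wt hp hp2 hs hN h
  have := isFinite_Wt hp hp2 ht hN' h
  apply Measure.ext_of_charFunDual
  ext L
  obtain ⟨a, ha⟩ := exists_pr L
  rw [charFunDual_Wt hp hp2 hs hN h a L ha, charFunDual_Wt hp hp2 ht hN' h a L ha, heq, heq, heq]

lemma real_zero_of_cos {u : ℝ} (h1 : Real.cos u = 1) (h2 : Real.cos (√2 * u) = 1) : u = 0 := by
  rw [Real.cos_eq_one_iff] at h1 h2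
  obtain ⟨k, hk⟩ := h1
  obtain ⟨l, hl⟩ := h2
  have hpi : (2 * Real.pi) ≠ 0 := by positivity
  have h3 : √2 * (k : ℝ) = l := by
    have : (√2 * (k : ℝ)) * (2 * Real.pi) = l * (2 * Real.pi) := by
      rw [hl, ← hk]; ring
    exact mul_right_cancel₀ hpi this
  by_cases hk0 : k = 0
  · rw [← hk, hk0]; simp
  · exfalso
    have h4 : √2 = (l : ℝ) / k := by
      field_simp
      exact h3
    apply irrational_sqrt_two
    exact ⟨(l : ℚ) / k, by push_cast; exact h4.symm⟩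

/-- the four test multipliers -/
noncomputable def mult : Fin 4 → ℂ := ![1, (√2 : ℝ), Complex.I, (√2 : ℝ) * Complex.I]

/-- sum of the test weights; vanishes only at `0` -/
noncomputable def RR (x : Fin n → ℂ) : ℝ≥0∞ :=
  ∑ i : Fin n, ∑ c : Fin 4, ENNReal.ofReal (1 - Real.cos (pr (Pi.single i (mult c)) x).re)

lemma pr_single (i : Fin n) (c : ℂ) (x : Fin n → ℂ) : pr (Pi.single i c) x = c * x i := by
  unfold pr
  rw [Finset.sum_eq_single i]
  · simp
  · intro j _ hj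
    simp [hj]
  · simp

lemma RR_ne_zero {x : Fin n → ℂ} (hx : x ≠ 0) : RR x ≠ 0 := by
  intro h
  apply hx
  unfold RR at h
  rw [Finset.sum_eq_zero_iff] at h
  ext i
  have hi := h i (Finset.mem_univ i)
  rw [Finset.sum_eq_zero_iff] at hi
  have hc : ∀ c : Fin 4, Real.cos (mult c * x i).re = 1 := by
    intro c
    have := hi c (Finset.mem_univ c)
    rw [ENNReal.ofReal_eq_zero, pr_single] at this
    linarith [Real.cos_le_one (mult c * x i).re]
  have h0 := hc 0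
  have h1 := hc 1
  have h2 := hc 2
  have h3 := hc 3
  simp only [mult, Matrix.cons_val_zero, Matrix.cons_val_one, Matrix.cons_val] at h0 h1 h2 h3
  have e1 : ((√2 : ℝ) * x i : ℂ).re = √2 * (x i).re := by simp
  have e2 : (Complex.I * x i).re = -(x i).im := by simp
  have e3 : (((√2 : ℝ) : ℂ) * Complex.I * x i).re = √2 * (-(x i).im) := by simp
  rw [one_mul] at h0
  rw [e1] at h1
  rw [e2] at h2
  rw [e3] at h3
  have r := real_zero_of_cos h0 h1
  have m := real_zero_of_cos h2 h3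
  apply Complex.ext
  · simpa using r
  · simpa using m

lemma RR_ne_top (x : Fin n → ℂ) : RR x ≠ ∞ := by
  unfold RR
  refine ENNReal.sum_ne_top.mpr fun i _ => ENNReal.sum_ne_top.mpr fun c _ => ENNReal.ofReal_ne_top

lemma meas_RR : Measurable (RR : (Fin n → ℂ) → ℝ≥0∞) := by
  unfold RR
  exact Finset.measurable_sum _ fun i _ => Finset.measurable_sum _ fun c _ => meas_oneCosPr _

/-- The Levy measures agree off `0`. -/
theorem lintegral_Lev_eq {p : ℝ} (hp : 0 < p) (hp2 : p < 2) {μ : Measure X} {ν : Measure Y}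
    [SFinite μ] [SFinite ν] {s : X → Fin n → ℂ} {t : Y → Fin n → ℂ} (hs : Measurable s)
    (ht : Measurable t) (hN : ∀ a, Nn p μ s a ≠ ∞) (heq : ∀ a, Nn p μ s a = Nn p ν t a)
    {H : (Fin n → ℂ) → ℝ≥0∞} (hH : Measurable H) (hH0 : H 0 = 0) :
    ∫⁻ x, H x ∂(Lev p μ s) = ∫⁻ x, H x ∂(Lev p ν t) := by
  have hfac : ∀ x, H x = (H x / RR x) * RR x := by
    intro x
    by_cases hx : x = 0
    · subst hx; rw [hH0]; simp
    · rw [ENNReal.div_mul_cancel (RR_ne_zero hx) (RR_ne_top x)]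
  have hHR : Measurable (fun x => H x / RR x) := hH.div meas_RR
  have key : ∀ (Λ : Measure (Fin n → ℂ)), ∫⁻ x, H x ∂Λ =
      ∑ i : Fin n, ∑ c : Fin 4, ∫⁻ x, (H x / RR x)
        ∂(Λ.withDensity (fun x => ENNReal.ofReal (1 - Real.cos (pr (Pi.single i (mult c)) x).re))) := by
    intro Λ
    rw [lintegral_congr hfac]
    have h1 : ∀ x, (H x / RR x) * RR x = ∑ i : Fin n, ∑ c : Fin 4,
        ENNReal.ofReal (1 - Real.cos (pr (Pi.single i (mult c)) x).re) * (H x / RR x) := by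
      intro x
      conv_lhs => rw [mul_comm, RR]
      rw [Finset.sum_mul]
      exact Finset.sum_congr rfl fun i _ => by rw [Finset.sum_mul]; rfl
    have hm1 : ∀ (i : Fin n) (c : Fin 4), Measurable (fun x : Fin n → ℂ =>
        ENNReal.ofReal (1 - Real.cos (pr (Pi.single i (mult c)) x).re) * (H x / RR x)) :=
      fun i c => (meas_oneCosPr _).mul hHR
    have hm2 : ∀ i ∈ (Finset.univ : Finset (Fin n)), Measurable (fun x : Fin n → ℂ =>
        ∑ c : Fin 4, ENNReal.ofReal (1 - Real.cos (pr (Pi.single i (mult c)) x).re) *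
          (H x / RR x)) :=
      fun i _ => Finset.measurable_sum _ fun c _ => hm1 i c
    rw [lintegral_congr h1, lintegral_finsetSum _ hm2]
    refine Finset.sum_congr rfl fun i _ => ?_
    rw [lintegral_finsetSum _ (fun c _ => hm1 i c)]
    refine Finset.sum_congr rfl fun c _ => ?_
    rw [lintegral_withDensity_eq_lintegral_mul _ (meas_oneCosPr _) hHR]
    rfl
  rw [key, key]
  refine Finset.sum_congr rfl fun i _ => Finset.sum_congr rfl fun c _ => ?_
  have := Wt_eq hp hp2 hs ht hN heq (Pi.single i (mult c))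
  unfold Wt at this
  rw [this]

/-- the annulus constant -/
noncomputable def K2 (p : ℝ) : ℝ≥0∞ :=
  ∫⁻ ξ : ℂ, ({ξ : ℂ | 1 ≤ ‖ξ‖ ∧ ‖ξ‖ < 2}.indicator
    (fun ξ : ℂ => ENNReal.ofReal (‖ξ‖ ^ p)) ξ) ∂(lam p)

lemma measSet_ann : MeasurableSet {ξ : ℂ | 1 ≤ ‖ξ‖ ∧ ‖ξ‖ < 2} :=
  (measurableSet_le measurable_const measurable_norm).inter
    (measurableSet_lt measurable_norm measurable_const)

lemma meas_annF (p : ℝ) : Measurable ({ξ : ℂ | 1 ≤ ‖ξ‖ ∧ ‖ξ‖ < 2}.indicator
    (fun ξ : ℂ => ENNReal.ofReal (‖ξ‖ ^ p))) := by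
  refine Measurable.indicator ?_ measSet_ann
  fun_prop

lemma K2_ne_zero (p : ℝ) : K2 p ≠ 0 := by
  intro h
  have h1 := (lintegral_eq_zero_iff (meas_annF p)).mp h
  have h2 : ∀ᵐ ξ ∂(volume : Measure ℂ), ENNReal.ofReal (‖ξ‖ ^ (-2 - p)) ≠ 0 →
      ({ξ : ℂ | 1 ≤ ‖ξ‖ ∧ ‖ξ‖ < 2}.indicator
    (fun ξ : ℂ => ENNReal.ofReal (‖ξ‖ ^ p)) ξ) = 0 :=
    (ae_withDensity_iff (meas_ker p) (p := fun ξ : ℂ =>
      ({ξ : ℂ | 1 ≤ ‖ξ‖ ∧ ‖ξ‖ < 2}.indicator (fun ξ : ℂ => ENNReal.ofReal (‖ξ‖ ^ p)) ξ) = 0)).mp h1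
  have hopen : IsOpen {ξ : ℂ | 1 < ‖ξ‖ ∧ ‖ξ‖ < 2} :=
    (isOpen_lt continuous_const continuous_norm).inter
      (isOpen_lt continuous_norm continuous_const)
  have hne : ({ξ : ℂ | 1 < ‖ξ‖ ∧ ‖ξ‖ < 2}).Nonempty := ⟨((3/2 : ℝ) : ℂ), by
    constructor <;> rw [Complex.norm_real] <;> norm_num⟩
  have hpos := hopen.measure_pos volume hne
  have hsub : {ξ : ℂ | 1 < ‖ξ‖ ∧ ‖ξ‖ < 2} ⊆ {ξ : ℂ | ¬ (ENNReal.ofReal (‖ξ‖ ^ (-2 - p)) ≠ 0 →
      ({ξ : ℂ | 1 ≤ ‖ξ‖ ∧ ‖ξ‖ < 2}.indicator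
    (fun ξ : ℂ => ENNReal.ofReal (‖ξ‖ ^ p)) ξ) = 0)} := by
    rintro ξ ⟨h1, h2⟩ hc
    have hn : 0 < ‖ξ‖ := by linarith
    have h3 : ENNReal.ofReal (‖ξ‖ ^ (-2 - p)) ≠ 0 := by
      have : 0 < ‖ξ‖ ^ (-2 - p) := by positivity
      simpa using this
    have h4 := hc h3
    have hmem : ξ ∈ {ξ : ℂ | 1 ≤ ‖ξ‖ ∧ ‖ξ‖ < 2} := ⟨h1.le, h2⟩
    rw [Set.indicator_of_mem hmem, ENNReal.ofReal_eq_zero] at h4
    have : 0 < ‖ξ‖ ^ p := by positivity
    linarith
  exact hpos.ne' (measure_mono_null hsub h2)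

lemma K2_ne_top (p : ℝ) : K2 p ≠ ∞ := by
  unfold K2 lam
  rw [lintegral_withDensity_eq_lintegral_mul _ (meas_ker p) (meas_annF p)]
  have hle : ∀ ξ : ℂ, ((fun ξ : ℂ => ENNReal.ofReal (‖ξ‖ ^ (-2 - p))) *
      ({ξ : ℂ | 1 ≤ ‖ξ‖ ∧ ‖ξ‖ < 2}.indicator (fun ξ : ℂ => ENNReal.ofReal (‖ξ‖ ^ p)))) ξ ≤
      (Metric.closedBall (0 : ℂ) 2).indicator 1 ξ := by
    intro ξ
    simp only [Pi.mul_apply]
    by_cases hξ : ξ ∈ {ξ : ℂ | 1 ≤ ‖ξ‖ ∧ ‖ξ‖ < 2}
    · rw [Set.indicator_of_mem hξ]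
      have hb : ξ ∈ Metric.closedBall (0 : ℂ) 2 := by
        simp; exact hξ.2.le
      rw [Set.indicator_of_mem hb, ← ENNReal.ofReal_mul (by positivity)]
      have hn : 0 < ‖ξ‖ := lt_of_lt_of_le one_pos hξ.1
      rw [← Real.rpow_add hn]
      have e : (-2 - p + p : ℝ) = -2 := by ring
      rw [e]
      simp only [Pi.one_apply]
      rw [ENNReal.ofReal_le_one]
      rw [Real.rpow_neg hn.le]
      apply inv_le_one_of_one_le₀
      have := hξ.1
      calc (1:ℝ) = 1 ^ (2:ℝ) := by simp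
        _ ≤ ‖ξ‖ ^ (2:ℝ) := by gcongr
    · rw [Set.indicator_of_notMem hξ]; simp
  refine (lt_of_le_of_lt (lintegral_mono hle) ?_).ne
  rw [lintegral_indicator_one Metric.isClosed_closedBall.measurableSet]
  exact measure_closedBall_lt_top

/-- **Equimeasurability (Rudin, Plotkin), homogeneous form.** -/
theorem equimeasurable {p : ℝ} (hp : 0 < p) (hp2 : p < 2) {μ : Measure X} {ν : Measure Y}
    [SFinite μ] [SFinite ν] {s : X → Fin n → ℂ} {t : Y → Fin n → ℂ} (hs : Measurable s)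
    (ht : Measurable t)
    (hfin : ∀ a : Fin n → ℂ, ∫⁻ ω, ENNReal.ofReal (‖∑ i, a i * s ω i‖ ^ p) ∂μ ≠ ∞)
    (heq : ∀ a : Fin n → ℂ, ∫⁻ ω, ENNReal.ofReal (‖∑ i, a i * s ω i‖ ^ p) ∂μ =
      ∫⁻ ω, ENNReal.ofReal (‖∑ i, a i * t ω i‖ ^ p) ∂ν)
    {h : (Fin n → ℂ) → ℝ≥0∞} (hh : Measurable h)
    (hhom : ∀ (c : ℂ) (x : Fin n → ℂ), h (fun i => c * x i) = ENNReal.ofReal (‖c‖ ^ p) * h x) :
    ∫⁻ ω, h (s ω) ∂μ = ∫⁻ ω, h (t ω) ∂ν := by
  set H : (Fin n → ℂ) → ℝ≥0∞ := {x : Fin n → ℂ | 1 ≤ ‖x‖ ∧ ‖x‖ < 2}.indicator h with hHdef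
  have hSm : MeasurableSet {x : Fin n → ℂ | 1 ≤ ‖x‖ ∧ ‖x‖ < 2} :=
    (measurableSet_le measurable_const measurable_norm).inter
      (measurableSet_lt measurable_norm measurable_const)
  have hH : Measurable H := hh.indicator hSm
  have hH0 : H 0 = 0 := by
    rw [hHdef, Set.indicator_of_notMem]
    rintro ⟨h1, -⟩
    simp at h1
    linarith
  have hh0 : h 0 = 0 := by
    have := hhom 0 0
    simp only [zero_mul, norm_zero, Real.zero_rpow hp.ne', ENNReal.ofReal_zero] at this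
    exact this
  have inner : ∀ x : Fin n → ℂ, ∫⁻ ξ, H (fun i => ξ * x i) ∂(lam p) = K2 p * h x := by
    intro x
    by_cases hx : x = 0
    · subst hx
      have : ∀ ξ : ℂ, H (fun i => ξ * (0 : Fin n → ℂ) i) = 0 := by
        intro ξ
        have : (fun i => ξ * (0 : Fin n → ℂ) i) = 0 := by ext i; simp
        rw [this, hH0]
      rw [lintegral_congr this, hh0]
      simp
    · have hxn : 0 < ‖x‖ := norm_pos_iff.mpr hx
      have hnorm : ∀ ξ : ℂ, ‖(fun i => ξ * x i)‖ = ‖ξ‖ * ‖x‖ := by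
        intro ξ
        have : (fun i => ξ * x i) = ξ • x := by ext i; simp
        rw [this, norm_smul]
      have e1 : ∀ ξ : ℂ, H (fun i => ξ * x i) =
          (({ξ : ℂ | 1 ≤ ‖ξ‖ ∧ ‖ξ‖ < 2}.indicator
            (fun ξ : ℂ => ENNReal.ofReal (‖ξ‖ ^ p)) ((‖x‖ : ℂ) * ξ)) *
            (ENNReal.ofReal (‖x‖ ^ (-p)) * h x)) := by
        intro ξ
        have hn2 : ‖(‖x‖ : ℂ) * ξ‖ = ‖ξ‖ * ‖x‖ := by
          rw [norm_mul, Complex.norm_real, norm_norm, mul_comm]
        by_cases hc : 1 ≤ ‖ξ‖ * ‖x‖ ∧ ‖ξ‖ * ‖x‖ < 2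
        · have m1 : (fun i => ξ * x i) ∈ {x : Fin n → ℂ | 1 ≤ ‖x‖ ∧ ‖x‖ < 2} := by
            simp only [Set.mem_ofPred_eq, hnorm]; exact hc
          have m2 : (‖x‖ : ℂ) * ξ ∈ {ξ : ℂ | 1 ≤ ‖ξ‖ ∧ ‖ξ‖ < 2} := by
            simp only [Set.mem_ofPred_eq, hn2]; exact hc
          rw [hHdef, Set.indicator_of_mem m1, Set.indicator_of_mem m2, hhom, hn2, ← mul_assoc,
            ← ENNReal.ofReal_mul (by positivity)]
          congr 2
          rw [Real.mul_rpow (norm_nonneg _) (norm_nonneg _), mul_assoc, ← Real.rpow_add hxn]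
          simp
        · have m1 : (fun i => ξ * x i) ∉ {x : Fin n → ℂ | 1 ≤ ‖x‖ ∧ ‖x‖ < 2} := by
            simp only [Set.mem_ofPred_eq, hnorm]; exact hc
          have m2 : (‖x‖ : ℂ) * ξ ∉ {ξ : ℂ | 1 ≤ ‖ξ‖ ∧ ‖ξ‖ < 2} := by
            simp only [Set.mem_ofPred_eq, hn2]; exact hc
          rw [hHdef, Set.indicator_of_notMem m1, Set.indicator_of_notMem m2, zero_mul]
      have hxc : (‖x‖ : ℂ) ≠ 0 := by exact_mod_cast hxn.ne'
      have hmm : Measurable (fun ξ : ℂ => ({ξ : ℂ | 1 ≤ ‖ξ‖ ∧ ‖ξ‖ < 2}.indicator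
            (fun ξ : ℂ => ENNReal.ofReal (‖ξ‖ ^ p)) ((‖x‖ : ℂ) * ξ))) :=
        (meas_annF p).comp (measurable_const.mul measurable_id)
      rw [lintegral_congr e1, lintegral_mul_const _ hmm,
        lintegral_lam_comp_mul p hxc (meas_annF p)]
      change ENNReal.ofReal (‖(‖x‖ : ℂ)‖ ^ p) * K2 p * (ENNReal.ofReal (‖x‖ ^ (-p)) * h x) = _
      rw [Complex.norm_real, norm_norm]
      have e2 : ENNReal.ofReal (‖x‖ ^ p) * ENNReal.ofReal (‖x‖ ^ (-p)) = 1 := by
        rw [← ENNReal.ofReal_mul (by positivity), ← Real.rpow_add hxn]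
        simp
      calc ENNReal.ofReal (‖x‖ ^ p) * K2 p * (ENNReal.ofReal (‖x‖ ^ (-p)) * h x)
          = (ENNReal.ofReal (‖x‖ ^ p) * ENNReal.ofReal (‖x‖ ^ (-p))) * (K2 p * h x) := by ring
        _ = K2 p * h x := by rw [e2, one_mul]
  have hLev := lintegral_Lev_eq (μ := μ) (ν := ν) hp hp2 hs ht hfin heq hH hH0
  have hhs : Measurable (fun ω => h (s ω)) := hh.comp hs
  have hht : Measurable (fun ω => h (t ω)) := hh.comp ht
  rw [lintegral_Lev p μ hs hH, lintegral_Lev p ν ht hH, lintegral_congr fun ω => inner (s ω),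
    lintegral_congr fun ω => inner (t ω), lintegral_const_mul _ hhs,
    lintegral_const_mul _ hht] at hLev
  exact (ENNReal.mul_right_inj (K2_ne_zero p) (K2_ne_top p)).mp hLev

/-- **Ratio form**: the measure `|s_j|^p dμ` pushed forward by the ratios `s_i / s_j` is
determined by the functional `a ↦ ∫ |∑ a_i s_i|^p dμ`. -/
theorem map_ratio_eq {p : ℝ} (hp : 0 < p) (hp2 : p < 2) {μ : Measure X} {ν : Measure Y}
    [SFinite μ] [SFinite ν] {s : X → Fin n → ℂ} {t : Y → Fin n → ℂ} (hs : Measurable s)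
    (ht : Measurable t)
    (hfin : ∀ a : Fin n → ℂ, ∫⁻ ω, ENNReal.ofReal (‖∑ i, a i * s ω i‖ ^ p) ∂μ ≠ ∞)
    (heq : ∀ a : Fin n → ℂ, ∫⁻ ω, ENNReal.ofReal (‖∑ i, a i * s ω i‖ ^ p) ∂μ =
      ∫⁻ ω, ENNReal.ofReal (‖∑ i, a i * t ω i‖ ^ p) ∂ν) (j : Fin n) :
    Measure.map (fun ω i => s ω i / s ω j)
        (μ.withDensity (fun ω => ENNReal.ofReal (‖s ω j‖ ^ p))) =
      Measure.map (fun ω i => t ω i / t ω j)
        (ν.withDensity (fun ω => ENNReal.ofReal (‖t ω j‖ ^ p))) := by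
  have hr : Measurable (fun (x : Fin n → ℂ) (i : Fin n) => x i / x j) :=
    measurable_pi_lambda _ fun i => (measurable_pi_apply i).div (measurable_pi_apply j)
  have hrs : Measurable (fun ω i => s ω i / s ω j) := hr.comp hs
  have hrt : Measurable (fun ω i => t ω i / t ω j) := hr.comp ht
  have hnm : Measurable (fun x : Fin n → ℂ => ENNReal.ofReal (‖x j‖ ^ p)) := by fun_prop
  ext B hB
  have hBp : MeasurableSet ((fun (x : Fin n → ℂ) (i : Fin n) => x i / x j) ⁻¹' B) := hr hB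
  rw [Measure.map_apply hrs hB, Measure.map_apply hrt hB, withDensity_apply _ (hrs hB),
    withDensity_apply _ (hrt hB), ← lintegral_indicator (hrs hB), ← lintegral_indicator (hrt hB)]
  have key := equimeasurable hp hp2 hs ht hfin heq
    (h := ((fun (x : Fin n → ℂ) (i : Fin n) => x i / x j) ⁻¹' B).indicator
      (fun x => ENNReal.ofReal (‖x j‖ ^ p))) (hnm.indicator hBp) ?_
  · exact key
  · intro c x
    by_cases hc : c = 0
    · subst hc
      simp only [norm_zero, Real.zero_rpow hp.ne', ENNReal.ofReal_zero, zero_mul]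
      by_cases hx : (fun _ : Fin n => (0 : ℂ)) ∈
          ((fun (x : Fin n → ℂ) (i : Fin n) => x i / x j) ⁻¹' B)
      · rw [Set.indicator_of_mem hx]
        simp [Real.zero_rpow hp.ne']
      · rw [Set.indicator_of_notMem hx]
    · have hrat : (fun i : Fin n => (c * x i) / (c * x j)) = fun i => x i / x j := by
        ext i
        rw [mul_div_mul_left _ _ hc]
      by_cases hx : x ∈ ((fun (x : Fin n → ℂ) (i : Fin n) => x i / x j) ⁻¹' B)
      · have hx' : (fun i => c * x i) ∈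
            ((fun (x : Fin n → ℂ) (i : Fin n) => x i / x j) ⁻¹' B) := by
          simp only [Set.mem_preimage, hrat]
          exact hx
        rw [Set.indicator_of_mem hx, Set.indicator_of_mem hx', ← ENNReal.ofReal_mul (by positivity),
          norm_mul, Real.mul_rpow (norm_nonneg _) (norm_nonneg _)]
      · have hx' : (fun i => c * x i) ∉
            ((fun (x : Fin n → ℂ) (i : Fin n) => x i / x j) ⁻¹' B) := by
          simp only [Set.mem_preimage, hrat]
          exact hx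
        rw [Set.indicator_of_notMem hx, Set.indicator_of_notMem hx', mul_zero]

lemma ofReal_pow_le {p : ℝ} (hp : 0 < p) {x y z : ℝ} (hx : 0 ≤ x) (hy : 0 ≤ y)
    (hz : 0 ≤ z) (h : x ≤ y + z) :
    ENNReal.ofReal (x ^ p) ≤ ENNReal.ofReal (2 ^ p) *
      (ENNReal.ofReal (y ^ p) + ENNReal.ofReal (z ^ p)) := by
  rw [← ENNReal.ofReal_add (by positivity) (by positivity), ← ENNReal.ofReal_mul (by positivity)]
  apply ENNReal.ofReal_le_ofReal
  rcases le_total y z with hyz | hyz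
  · calc x ^ p ≤ (2 * z) ^ p := by gcongr; linarith
      _ = 2 ^ p * z ^ p := by rw [Real.mul_rpow (by norm_num) hz]
      _ ≤ 2 ^ p * (y ^ p + z ^ p) := by
        gcongr
        have : 0 ≤ y ^ p := by positivity
        linarith
  · calc x ^ p ≤ (2 * y) ^ p := by gcongr; linarith
      _ = 2 ^ p * y ^ p := by rw [Real.mul_rpow (by norm_num) hy]
      _ ≤ 2 ^ p * (y ^ p + z ^ p) := by
        gcongr
        have : 0 ≤ z ^ p := by positivity
        linarith

/-- auxiliary: the homogeneous functional is a limit of the affine one -/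
lemma tendsto_affine {p : ℝ} (hp : 0 < p) {μ : Measure X} {f : X → Fin n → ℂ}
    (hf : Measurable f)
    (hfin : ∀ z : Fin n → ℂ, ∫⁻ ω, ENNReal.ofReal (‖1 + ∑ i, z i * f ω i‖ ^ p) ∂μ ≠ ∞)
    (a : Fin n → ℂ) :
    (∫⁻ ω, ENNReal.ofReal (‖∑ i, a i * f ω i‖ ^ p) ∂μ ≠ ∞) ∧
    Filter.Tendsto (fun k : ℕ => ∫⁻ ω, ENNReal.ofReal
        (‖(((1 : ℝ) / ((k : ℝ) + 1) : ℝ) : ℂ) + ∑ i, a i * f ω i‖ ^ p) ∂μ) Filter.atTop
      (nhds (∫⁻ ω, ENNReal.ofReal (‖∑ i, a i * f ω i‖ ^ p) ∂μ)) := by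
  have hpm : Measurable (fun ω => ∑ i, a i * f ω i) := by fun_prop
  have hone : ∫⁻ _, (1 : ℝ≥0∞) ∂μ ≠ ∞ := by
    have := hfin 0
    simpa using this
  have hu : ∫⁻ ω, ENNReal.ofReal (‖∑ i, a i * f ω i‖ ^ p) ∂μ ≠ ∞ := by
    have hb : ∀ ω, ENNReal.ofReal (‖∑ i, a i * f ω i‖ ^ p) ≤ ENNReal.ofReal (2 ^ p) *
        (ENNReal.ofReal (‖1 + ∑ i, a i * f ω i‖ ^ p) + ENNReal.ofReal (1 ^ p)) := by
      intro ω
      apply ofReal_pow_le hp (norm_nonneg _) (norm_nonneg _) zero_le_one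
      have := norm_sub_le (1 + ∑ i, a i * f ω i) (1 : ℂ)
      simpa using this
    refine ((lintegral_mono hb).trans_lt ?_).ne
    have hm1 : Measurable (fun ω => ENNReal.ofReal (‖1 + ∑ i, a i * f ω i‖ ^ p) +
        ENNReal.ofReal (1 ^ p)) := by fun_prop
    rw [lintegral_const_mul _ hm1, lintegral_add_right _ measurable_const]
    refine ENNReal.mul_lt_top ENNReal.ofReal_lt_top (ENNReal.add_lt_top.mpr
      ⟨(hfin a).lt_top, ?_⟩)
    simpa using hone.lt_top
  refine ⟨hu, ?_⟩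
  refine tendsto_lintegral_of_dominated_convergence (fun ω => ENNReal.ofReal (2 ^ p) *
        (ENNReal.ofReal (‖∑ i, a i * f ω i‖ ^ p) + ENNReal.ofReal (1 ^ p))) ?_ ?_ ?_ ?_
  · intro k
    fun_prop
  · intro k
    refine Filter.Eventually.of_forall fun ω => ?_
    apply ofReal_pow_le hp (norm_nonneg _) (norm_nonneg _) zero_le_one
    refine (norm_add_le _ _).trans ?_
    rw [add_comm]
    gcongr
    rw [Complex.norm_real, Real.norm_of_nonneg (by positivity)]
    rw [div_le_one (by positivity)]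
    have : (0 : ℝ) ≤ (k : ℝ) := Nat.cast_nonneg k
    linarith
  · have hm1 : Measurable (fun ω => ENNReal.ofReal (‖∑ i, a i * f ω i‖ ^ p) +
        ENNReal.ofReal (1 ^ p)) := by fun_prop
    rw [lintegral_const_mul _ hm1, lintegral_add_right _ measurable_const]
    refine (ENNReal.mul_lt_top ENNReal.ofReal_lt_top (ENNReal.add_lt_top.mpr
      ⟨hu.lt_top, ?_⟩)).ne
    simpa using hone.lt_top
  · refine Filter.Eventually.of_forall fun ω => ?_
    have h1 : Filter.Tendsto (fun k : ℕ => (((1 : ℝ) / ((k : ℝ) + 1) : ℝ) : ℂ) +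
        ∑ i, a i * f ω i) Filter.atTop (nhds (((0 : ℝ) : ℂ) + ∑ i, a i * f ω i)) :=
      ((Complex.continuous_ofReal.tendsto _).comp
        tendsto_one_div_add_atTop_nhds_zero_nat).add tendsto_const_nhds
    rw [Complex.ofReal_zero, zero_add] at h1
    have h2 : Continuous (fun w : ℂ => ENNReal.ofReal (‖w‖ ^ p)) := by
      refine ENNReal.continuous_ofReal.comp ?_
      exact continuous_norm.rpow_const fun _ => Or.inr hp.le
    exact (h2.tendsto _).comp h1

/-- homogenisation off the hyperplane at infinity -/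
lemma affine_hom {p : ℝ} {Z : Type*} [MeasurableSpace Z] (ρ : Measure Z) (q : Z → Fin n → ℂ)
    (hq : Measurable q) (b : ℂ) (hb : b ≠ 0) (a : Fin n → ℂ) :
    ∫⁻ ω, ENNReal.ofReal (‖b + ∑ i, a i * q ω i‖ ^ p) ∂ρ =
      ENNReal.ofReal (‖b‖ ^ p) *
        ∫⁻ ω, ENNReal.ofReal (‖1 + ∑ i, (a i / b) * q ω i‖ ^ p) ∂ρ := by
  have hm1 : Measurable (fun ω => ENNReal.ofReal (‖1 + ∑ i, (a i / b) * q ω i‖ ^ p)) := by
    fun_prop
  rw [← lintegral_const_mul _ hm1]
  refine lintegral_congr fun ω => ?_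
  rw [← ENNReal.ofReal_mul (by positivity), ← Real.mul_rpow (norm_nonneg _) (norm_nonneg _),
    ← norm_mul]
  congr 3
  rw [mul_add, mul_one, Finset.mul_sum]
  congr 1
  refine Finset.sum_congr rfl fun i _ => ?_
  field_simp

/-- **Affine form (Rudin)**: if `∫ |1 + z·f|^p dμ = ∫ |1 + z·g|^p dν < ∞` for all `z` then `f` and
`g` are equimeasurable. -/
theorem map_eq_of_affine {p : ℝ} (hp : 0 < p) (hp2 : p < 2) {μ : Measure X} {ν : Measure Y}
    [SFinite μ] [SFinite ν] {f : X → Fin n → ℂ} {g : Y → Fin n → ℂ} (hf : Measurable f)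
    (hg : Measurable g)
    (hfin : ∀ z : Fin n → ℂ, ∫⁻ ω, ENNReal.ofReal (‖1 + ∑ i, z i * f ω i‖ ^ p) ∂μ ≠ ∞)
    (heq : ∀ z : Fin n → ℂ, ∫⁻ ω, ENNReal.ofReal (‖1 + ∑ i, z i * f ω i‖ ^ p) ∂μ =
      ∫⁻ ω, ENNReal.ofReal (‖1 + ∑ i, z i * g ω i‖ ^ p) ∂ν) :
    Measure.map f μ = Measure.map g ν := by
  have hfin' : ∀ z : Fin n → ℂ, ∫⁻ ω, ENNReal.ofReal (‖1 + ∑ i, z i * g ω i‖ ^ p) ∂ν ≠ ∞ :=
    fun z => heq z ▸ hfin z
  have lim : ∀ a : Fin n → ℂ, ∫⁻ ω, ENNReal.ofReal (‖∑ i, a i * f ω i‖ ^ p) ∂μ =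
      ∫⁻ ω, ENNReal.ofReal (‖∑ i, a i * g ω i‖ ^ p) ∂ν := by
    intro a
    have h1 := (tendsto_affine hp hf hfin a).2
    have h2 := (tendsto_affine hp hg hfin' a).2
    refine tendsto_nhds_unique h1 (h2.congr fun k => ?_)
    have hb : (((1 : ℝ) / ((k : ℝ) + 1) : ℝ) : ℂ) ≠ 0 := by
      rw [Complex.ofReal_ne_zero]
      positivity
    rw [affine_hom μ f hf _ hb a, affine_hom ν g hg _ hb a, heq]
  have all : ∀ a : Fin (n + 1) → ℂ,
      ∫⁻ ω, ENNReal.ofReal (‖∑ i, a i * (Fin.cons 1 (f ω) : Fin (n + 1) → ℂ) i‖ ^ p) ∂μ ≠ ∞ ∧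
      ∫⁻ ω, ENNReal.ofReal (‖∑ i, a i * (Fin.cons 1 (f ω) : Fin (n + 1) → ℂ) i‖ ^ p) ∂μ =
      ∫⁻ ω, ENNReal.ofReal (‖∑ i, a i * (Fin.cons 1 (g ω) : Fin (n + 1) → ℂ) i‖ ^ p) ∂ν := by
    intro a
    simp only [Fin.sum_univ_succ, Fin.cons_zero, Fin.cons_succ, mul_one]
    by_cases hb : a 0 = 0
    · simp only [hb, zero_add]
      exact ⟨(tendsto_affine hp hf hfin _).1, lim _⟩
    · rw [affine_hom μ f hf _ hb _, affine_hom ν g hg _ hb _, heq]
      refine ⟨ENNReal.mul_ne_top ENNReal.ofReal_ne_top ?_, rfl⟩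
      exact hfin' _
  have hcf : Measurable (fun ω => (Fin.cons 1 (f ω) : Fin (n + 1) → ℂ)) := by
    refine measurable_pi_lambda _ fun i => ?_
    refine Fin.cases ?_ (fun i => ?_) i
    · simp only [Fin.cons_zero]; exact measurable_const
    · simp only [Fin.cons_succ]; fun_prop
  have hcg : Measurable (fun ω => (Fin.cons 1 (g ω) : Fin (n + 1) → ℂ)) := by
    refine measurable_pi_lambda _ fun i => ?_
    refine Fin.cases ?_ (fun i => ?_) i
    · simp only [Fin.cons_zero]; exact measurable_const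
    · simp only [Fin.cons_succ]; fun_prop
  have key := map_ratio_eq hp hp2 hcf hcg (fun a => (all a).1) (fun a => (all a).2) 0
  simp only [Fin.cons_zero, norm_one, Real.one_rpow, ENNReal.ofReal_one, div_one] at key
  rw [show (fun _ : X => (1 : ℝ≥0∞)) = 1 from rfl, show (fun _ : Y => (1 : ℝ≥0∞)) = 1 from rfl,
    withDensity_one, withDensity_one] at key
  have htail : Measurable (fun (x : Fin (n + 1) → ℂ) (i : Fin n) => x i.succ) := by fun_prop
  have key2 := congrArg (Measure.map (fun (x : Fin (n + 1) → ℂ) (i : Fin n) => x i.succ)) key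
  rw [Measure.map_map htail hcf, Measure.map_map htail hcg] at key2
  exact key2

end Main

end Crest.Agent.R276.Rud_210
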