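import Mathlib
import Crest.Agent.R276.Rud_210
import Crest.Agent.R276.FlatT_464

/-!
# R276, leaf FLATALG (helper464), part M: integrals of flat sections

`X z` measure spaces (the fibres), `σ z : X z → ℂˢ` (the frame of `V_N`),
`PHI z v = ∫ ‖v·σ‖^p` (values in `[0,∞]`).
* `holder` : `∫ ‖∏_{A∈𝒜} (A a)·σ‖^{p/k} ≤ ∏ (∫ ‖(A a)·σ‖^p)^{1/k}`;
* `lint_nrm_le` : `∫ ‖nrm z a‖^{p/k} ≤ PHI z0 a`;
* `equi` : joint distributions: `∫ h(σ z0 x) = ∫ h(Aᵀ σ z x)`, `h` homogeneous of degree `p`;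
* `equi_pi` : the same for `r` variables, `h` homogeneous of degree `p` in each variable;
* `DD_mul` : `D z ‖det A‖^p = D z0`, `D z = ∫ ‖det (σ_i(x_j))‖^p`;
* `II_mul` : `I(z) D(z)^{β/p}` is constant.
-/

set_option autoImplicit false
set_option linter.unusedSectionVars false

noncomputable section

open Set Filter Topology Matrix MeasureTheory
open scoped ENNReal

namespace Crest.Agent.R276.FlatM_464

open Crest.Agent.R276.FlatT_464

/-- Hölder for the product of `k` functions -/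
theorem holder {X ι : Type*} [MeasurableSpace X] (μ : Measure X) (S : Finset ι) (hS : S.Nonempty)
    (f : ι → X → ℂ) (hf : ∀ i ∈ S, AEMeasurable (f i) μ) (p : ℝ) :
    ∫⁻ x, ENNReal.ofReal (‖∏ i ∈ S, f i x‖ ^ (p / S.card)) ∂μ ≤
      ∏ i ∈ S, (∫⁻ x, ENNReal.ofReal (‖f i x‖ ^ p) ∂μ) ^ ((S.card : ℝ)⁻¹) := by
  have hk : (0 : ℝ) < S.card := by exact_mod_cast hS.card_pos
  have h1 := ENNReal.lintegral_prod_norm_pow_le (μ := μ) S
    (f := fun i x => ENNReal.ofReal (‖f i x‖ ^ p))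
    (fun i hi => ENNReal.measurable_ofReal.comp_aemeasurable ((hf i hi).norm.pow_const p))
    (p := fun _ => (S.card : ℝ)⁻¹) (by
      rw [Finset.sum_const, nsmul_eq_mul, mul_inv_cancel₀ hk.ne'])
    (fun i _ => by positivity)
  refine le_trans (le_of_eq (lintegral_congr fun x => ?_)) h1
  rw [norm_prod, ← Real.finsetProd_rpow _ _ (fun i _ => norm_nonneg _),
    ENNReal.ofReal_prod_of_nonneg (fun i _ => by positivity)]
  refine Finset.prod_congr rfl fun i _ => ?_
  rw [ENNReal.ofReal_rpow_of_nonneg (by positivity) (by positivity),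
    ← Real.rpow_mul (norm_nonneg _), div_eq_mul_inv]

section fam

variable {G : Type*} {s : ℕ} {X : G → Type*} [∀ z, MeasurableSpace (X z)]
variable (ν : ∀ z, Measure (X z)) (σ : ∀ z, X z → Fin s → ℂ) (p : ℝ)

/-- the norm `∫ ‖v·σ‖^p` -/
def PHI (z : G) (v : Fin s → ℂ) : ℝ≥0∞ :=
  ∫⁻ x, ENNReal.ofReal (‖∑ i, v i * σ z x i‖ ^ p) ∂(ν z)

variable {ν σ p}

theorem PHI_circ (z : G) (c : ℂ) (a : Fin s → ℂ) (hc : ‖c‖ = 1) :
    PHI ν σ p z (c • a) = PHI ν σ p z a := by
  unfold PHI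
  refine lintegral_congr fun x => ?_
  have : ∑ i, (c • a) i * σ z x i = c * ∑ i, a i * σ z x i := by
    rw [Finset.mul_sum]
    exact Finset.sum_congr rfl fun i _ => by rw [Pi.smul_apply, smul_eq_mul, mul_assoc]
  rw [this, norm_mul, hc, one_mul]

theorem PHI_zero (hp : 0 < p) (z : G) : PHI ν σ p z 0 = 0 := by
  unfold PHI
  simp [Real.zero_rpow hp.ne']

theorem pr_mulVec (A : Matrix (Fin s) (Fin s) ℂ) (a x : Fin s → ℂ) :
    ∑ i, (A *ᵥ a) i * x i = ∑ i, a i * (Aᵀ *ᵥ x) i := by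
  have h1 : ∑ i, (A *ᵥ a) i * x i = (A *ᵥ a) ⬝ᵥ x := rfl
  have h2 : ∑ i, a i * (Aᵀ *ᵥ x) i = a ⬝ᵥ (Aᵀ *ᵥ x) := rfl
  rw [h1, h2, Matrix.dotProduct_mulVec, Matrix.vecMul_transpose]

/-- **joint distributions are constant** (Rudin) -/
theorem equi [∀ z, SFinite (ν z)] (hp : 0 < p) (hp2 : p < 2) (hσ : ∀ z, Measurable (σ z)) {z0 z : G}
    (hfin : ∀ a, PHI ν σ p z0 a ≠ ∞) {A : Matrix (Fin s) (Fin s) ℂ} (hA : A ∈ Is (PHI ν σ p) z0 z)
    {h : (Fin s → ℂ) → ℝ≥0∞} (hh : Measurable h)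
    (hhom : ∀ (c : ℂ) (x : Fin s → ℂ), h (fun i => c * x i) = ENNReal.ofReal (‖c‖ ^ p) * h x) :
    ∫⁻ x, h (σ z0 x) ∂(ν z0) = ∫⁻ x, h (Aᵀ *ᵥ σ z x) ∂(ν z) := by
  have hm : Measurable fun x => Aᵀ *ᵥ σ z x := by
    have : Continuous fun v : Fin s → ℂ => Aᵀ *ᵥ v := by fun_prop
    exact this.measurable.comp (hσ z)
  refine Rud_210.equimeasurable hp hp2 (hσ z0) hm hfin (fun a => ?_) hh hhom
  have h1 := hA a
  unfold PHI at h1
  rw [← h1]
  refine lintegral_congr fun x => ?_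
  rw [pr_mulVec]

/-- homogeneous of degree `p` in each of `r` variables -/
def HomEach (p : ℝ) {r : ℕ} (h : (Fin r → Fin s → ℂ) → ℝ≥0∞) : Prop :=
  ∀ (j : Fin r) (c : ℂ) (x : Fin r → Fin s → ℂ),
    h (Function.update x j (fun i => c * x j i)) = ENNReal.ofReal (‖c‖ ^ p) * h x

theorem measurable_cons {r : ℕ} :
    Measurable fun q : (Fin s → ℂ) × (Fin r → Fin s → ℂ) =>
      (Fin.cons q.1 q.2 : Fin (r + 1) → Fin s → ℂ) := by
  refine measurable_pi_lambda _ fun j => ?_
  refine Fin.cases ?_ (fun j => ?_) j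
  · simpa using measurable_fst
  · exact (measurable_pi_apply j).comp measurable_snd

theorem lintegral_succ {Y : Type*} [MeasurableSpace Y] (μ : Measure Y) [SigmaFinite μ] {r : ℕ}
    {H : (Fin (r + 1) → Y) → ℝ≥0∞} (hH : Measurable H) :
    ∫⁻ x, H x ∂(Measure.pi fun _ : Fin (r + 1) => μ) =
      ∫⁻ y, ∫⁻ a, H (Fin.cons a y) ∂μ ∂(Measure.pi fun _ : Fin r => μ) := by
  have h1 := (measurePreserving_piFinSuccAbove (fun _ : Fin (r + 1) => μ) 0).symm
  have h2 := h1.lintegral_comp hH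
  rw [← h2, lintegral_prod_symm]
  · refine lintegral_congr fun y => lintegral_congr fun a => ?_
    congr 1
    ext j
    refine Fin.cases ?_ (fun j => ?_) j
    · simp [MeasurableEquiv.piFinSuccAbove]
    · simp [MeasurableEquiv.piFinSuccAbove]
  · exact (hH.comp h1.measurable).aemeasurable

/-- **joint distributions, several variables** -/
theorem equi_pi [∀ z, SigmaFinite (ν z)] (hp : 0 < p) (hp2 : p < 2) (hσ : ∀ z, Measurable (σ z))
    {z0 z : G} (hfin : ∀ a, PHI ν σ p z0 a ≠ ∞) {A : Matrix (Fin s) (Fin s) ℂ}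
    (hA : A ∈ Is (PHI ν σ p) z0 z) {r : ℕ} {h : (Fin r → Fin s → ℂ) → ℝ≥0∞} (hh : Measurable h)
    (hhom : HomEach p h) :
    ∫⁻ x, h (fun j => σ z0 (x j)) ∂(Measure.pi fun _ : Fin r => ν z0) =
      ∫⁻ x, h (fun j => Aᵀ *ᵥ σ z (x j)) ∂(Measure.pi fun _ : Fin r => ν z) := by
  have hm : Measurable fun x => Aᵀ *ᵥ σ z x := by
    have : Continuous fun v : Fin s → ℂ => Aᵀ *ᵥ v := by fun_prop
    exact this.measurable.comp (hσ z)
  induction r with
  | zero =>
    rw [Measure.pi_of_empty _ (Fin.elim0 : Fin 0 → X z0), Measure.pi_of_empty _ (Fin.elim0 : Fin 0 → X z),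
      lintegral_dirac, lintegral_dirac]
    congr 1
    ext j
    exact Fin.elim0 j
  | succ r ih =>
    have hmt : ∀ (w : G) (B : Matrix (Fin s) (Fin s) ℂ), Measurable fun x : Fin (r + 1) → X w =>
        (fun j => B *ᵥ σ w (x j)) := by
      intro w B
      refine measurable_pi_lambda _ fun j => ?_
      have : Continuous fun v : Fin s → ℂ => B *ᵥ v := by fun_prop
      exact this.measurable.comp ((hσ w).comp (measurable_pi_apply j))
    have hms : ∀ w : G, Measurable fun x : Fin (r + 1) → X w => (fun j => σ w (x j)) := by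
      intro w
      exact measurable_pi_lambda _ fun j => (hσ w).comp (measurable_pi_apply j)
    rw [lintegral_succ (ν z0) (H := fun x => h (fun j => σ z0 (x j))) (hh.comp (hms z0)),
      lintegral_succ (ν z) (H := fun x => h (fun j => Aᵀ *ᵥ σ z (x j))) (hh.comp (hmt z Aᵀ))]
    -- the inner integral over `ν z`
    set h' : (Fin r → Fin s → ℂ) → ℝ≥0∞ := fun v =>
      ∫⁻ a, h (Fin.cons (Aᵀ *ᵥ σ z a) v) ∂(ν z) with hh'
    have hh'm : Measurable h' := by
      refine Measurable.lintegral_prod_right' (f := fun q : (Fin r → Fin s → ℂ) × X z =>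
        h (Fin.cons (Aᵀ *ᵥ σ z q.2) q.1)) ?_
      exact hh.comp (measurable_cons.comp ((hm.comp measurable_snd).prodMk measurable_fst))
    have hinner : ∀ v : Fin r → Fin s → ℂ,
        ∫⁻ a, h (Fin.cons (σ z0 a) v) ∂(ν z0) = h' v := by
      intro v
      refine equi (h := fun u => h (Fin.cons u v)) hp hp2 hσ hfin hA
        (hh.comp (measurable_cons.comp (measurable_id.prodMk measurable_const))) ?_
      intro c x
      have := hhom 0 c (Fin.cons x v)
      rw [Fin.update_cons_zero] at this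
      simpa using this
    have hh'hom : HomEach p h' := by
      intro j c x
      rw [hh']
      simp only
      rw [← lintegral_const_mul' _ _ ENNReal.ofReal_ne_top]
      refine lintegral_congr fun a => ?_
      have := hhom j.succ c (Fin.cons (Aᵀ *ᵥ σ z a) x)
      rw [← Fin.cons_update] at this
      simpa using this
    have e1 : ∀ y : Fin r → X z0, ∫⁻ a, h (fun j => σ z0 ((Fin.cons a y : Fin (r + 1) → X z0) j))
        ∂(ν z0) = h' (fun j => σ z0 (y j)) := by
      intro y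
      rw [← hinner]
      refine lintegral_congr fun a => ?_
      congr 1
      ext j i
      refine Fin.cases ?_ (fun j => ?_) j <;> simp
    have e2 : ∀ y : Fin r → X z, ∫⁻ a, h (fun j => Aᵀ *ᵥ σ z ((Fin.cons a y : Fin (r + 1) → X z) j))
        ∂(ν z) = h' (fun j => Aᵀ *ᵥ σ z (y j)) := by
      intro y
      rw [hh']
      refine lintegral_congr fun a => ?_
      congr 1
      ext j i
      refine Fin.cases ?_ (fun j => ?_) j <;> simp
    simp only [e1, e2]
    exact ih hh'm hh'hom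

/-! ### the determinant -/

/-- `‖det x‖^p` -/
def hdet (s : ℕ) (p : ℝ) (x : Fin s → Fin s → ℂ) : ℝ≥0∞ :=
  ENNReal.ofReal (‖(Matrix.of x).det‖ ^ p)

theorem det_update (x : Fin s → Fin s → ℂ) (j : Fin s) (c : ℂ) :
    (Matrix.of (Function.update x j (fun i => c * x j i))).det = c * (Matrix.of x).det := by
  have : Matrix.of (Function.update x j (fun i => c * x j i)) =
      (Matrix.of x).updateRow j (c • (Matrix.of x) j) := by
    ext a b
    by_cases hab : a = j
    · subst hab; simp [Function.update]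
    · simp [Matrix.updateRow_apply, Function.update, hab]
  rw [this, Matrix.det_updateRow_smul, Matrix.updateRow_eq_self]

theorem det_mulVec (A : Matrix (Fin s) (Fin s) ℂ) (x : Fin s → Fin s → ℂ) :
    (Matrix.of (fun j => Aᵀ *ᵥ x j)).det = A.det * (Matrix.of x).det := by
  have : Matrix.of (fun j => Aᵀ *ᵥ x j) = Matrix.of x * A := by
    ext a b
    simp [Matrix.mulVec, dotProduct, Matrix.mul_apply, mul_comm]
  rw [this, Matrix.det_mul, mul_comm]

theorem measurable_det : Measurable fun x : Fin s → Fin s → ℂ => (Matrix.of x).det := by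
  have : Continuous fun x : Fin s → Fin s → ℂ => (Matrix.of x).det := by
    apply Continuous.matrix_det
    exact continuous_id
  exact this.measurable

/-- `∫ ‖det (σ_i(x_j))‖^p` over the `s`-fold product of the fibre -/
def DD (ν : ∀ z, Measure (X z)) (σ : ∀ z, X z → Fin s → ℂ) (p : ℝ) (z : G) : ℝ≥0∞ :=
  ∫⁻ x, ENNReal.ofReal (‖(Matrix.of fun j : Fin s => σ z (x j)).det‖ ^ p)
    ∂(Measure.pi fun _ : Fin s => ν z)

theorem DD_mul [∀ z, SigmaFinite (ν z)] (hp : 0 < p) (hp2 : p < 2) (hσ : ∀ z, Measurable (σ z))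
    {z0 z : G} (hfin : ∀ a, PHI ν σ p z0 a ≠ ∞) {A : Matrix (Fin s) (Fin s) ℂ}
    (hA : A ∈ Is (PHI ν σ p) z0 z) :
    ENNReal.ofReal (‖A.det‖ ^ p) * DD ν σ p z = DD ν σ p z0 := by
  have h1 := equi_pi (ν := ν) (h := hdet s p) hp hp2 hσ hfin hA
    (ENNReal.measurable_ofReal.comp ((measurable_det.norm).pow_const p)) (by
      intro j c x
      unfold hdet
      rw [det_update, norm_mul, Real.mul_rpow (norm_nonneg _) (norm_nonneg _),
        ENNReal.ofReal_mul (by positivity)])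
  unfold DD
  simp only [hdet] at h1
  rw [h1, ← lintegral_const_mul' _ _ ENNReal.ofReal_ne_top]
  refine lintegral_congr fun x => ?_
  rw [det_mulVec, norm_mul, Real.mul_rpow (norm_nonneg _) (norm_nonneg _),
    ENNReal.ofReal_mul (by positivity)]

/-- `∫ ∏_j ‖P(σ(x_j))‖^α ‖det σ(x)‖^{-β}` over the `s`-fold product of the fibre -/
def II (ν : ∀ z, Measure (X z)) (σ : ∀ z, X z → Fin s → ℂ) (P : G → MvPolynomial (Fin s) ℂ)
    (α β : ℝ) (z : G) : ℝ≥0∞ :=
  ∫⁻ x, ENNReal.ofReal ((∏ j : Fin s, ‖MvPolynomial.eval (σ z (x j)) (P z)‖ ^ α) *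
    ‖(Matrix.of fun j : Fin s => σ z (x j)).det‖ ^ (-β)) ∂(Measure.pi fun _ : Fin s => ν z)

theorem eval_homog {P : MvPolynomial (Fin s) ℂ} {k : ℕ} (hP : P.IsHomogeneous k) (c : ℂ)
    (x : Fin s → ℂ) :
    MvPolynomial.eval (fun i => c * x i) P = c ^ k * MvPolynomial.eval x P := by
  rw [MvPolynomial.eval_eq', MvPolynomial.eval_eq', Finset.mul_sum]
  refine Finset.sum_congr rfl fun μ hμ => ?_
  have h2 : ∑ i, μ i = k := by
    have := hP (MvPolynomial.mem_support_iff.1 hμ)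
    rw [Finsupp.weight_apply, Finsupp.sum_fintype] at this
    · simpa using this
    · intro; simp
  rw [← h2, ← Finset.prod_pow_eq_pow_sum]
  simp only [mul_pow, Finset.prod_mul_distrib]
  ring

/-- for homogeneous `P z` with `P z = P z0 ∘ Aᵀ`, `k α - β = p`: `‖det A‖^{-β} I(z) = I(z0)` -/
theorem II_mul [∀ z, SigmaFinite (ν z)] (hp : 0 < p) (hp2 : p < 2) (hσ : ∀ z, Measurable (σ z))
    {z0 z : G} (hfin : ∀ a, PHI ν σ p z0 a ≠ ∞) {A : Matrix (Fin s) (Fin s) ℂ}
    (hA : A ∈ Is (PHI ν σ p) z0 z) {P : G → MvPolynomial (Fin s) ℂ} {k : ℕ}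
    (hPk : (P z0).IsHomogeneous k)
    (hP : ∀ x : Fin s → ℂ, MvPolynomial.eval x (P z) = MvPolynomial.eval (Aᵀ *ᵥ x) (P z0))
    {α β : ℝ} (hα : 0 < α) (hk : 0 < k) (hαβ : k * α - β = p) :
    ENNReal.ofReal (‖A.det‖ ^ (-β)) * II ν σ P α β z = II ν σ P α β z0 := by
  set h : (Fin s → Fin s → ℂ) → ℝ≥0∞ := fun x =>
    ENNReal.ofReal ((∏ j : Fin s, ‖MvPolynomial.eval (x j) (P z0)‖ ^ α) *
      ‖(Matrix.of x).det‖ ^ (-β)) with hh
  have hev : Measurable fun v : Fin s → ℂ => MvPolynomial.eval v (P z0) :=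
    (MvPolynomial.continuous_eval (P z0)).measurable
  have hm : Measurable h := by
    refine ENNReal.measurable_ofReal.comp ?_
    refine Measurable.mul ?_ ((measurable_det.norm).pow_const _)
    exact Finset.measurable_fun_prod _ fun j _ => ((hev.comp (measurable_pi_apply j)).norm).pow_const α
  have hhom : HomEach p h := by
    intro j c x
    rw [hh]
    simp only
    rw [det_update, ← ENNReal.ofReal_mul (by positivity)]
    congr 1
    have h1 : ∏ i : Fin s, ‖MvPolynomial.eval (Function.update x j (fun i => c * x j i) i)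
        (P z0)‖ ^ α = (‖c‖ ^ k) ^ α * ∏ i : Fin s, ‖MvPolynomial.eval (x i) (P z0)‖ ^ α := by
      rw [← Finset.mul_prod_erase Finset.univ _ (Finset.mem_univ j),
        ← Finset.mul_prod_erase Finset.univ (fun i => ‖MvPolynomial.eval (x i) (P z0)‖ ^ α)
        (Finset.mem_univ j), ← mul_assoc]
      congr 1
      · rw [Function.update_self, eval_homog hPk, norm_mul, norm_pow,
          Real.mul_rpow (by positivity) (norm_nonneg _)]
      · refine Finset.prod_congr rfl fun i hi => ?_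
        rw [Function.update_of_ne (Finset.ne_of_mem_erase hi)]
    rw [h1, norm_mul, Real.mul_rpow (norm_nonneg _) (norm_nonneg _)]
    by_cases hc : c = 0
    · subst hc
      rw [norm_zero, zero_pow hk.ne', Real.zero_rpow hα.ne', Real.zero_rpow hp.ne']
      ring
    · have hc0 : 0 < ‖c‖ := norm_pos_iff.2 hc
      have h2 : (‖c‖ ^ k) ^ α * ‖c‖ ^ (-β) = ‖c‖ ^ p := by
        rw [← Real.rpow_natCast, ← Real.rpow_mul hc0.le, ← Real.rpow_add hc0, ← hαβ]
        congr 1
      calc (‖c‖ ^ k) ^ α * (∏ i : Fin s, ‖MvPolynomial.eval (x i) (P z0)‖ ^ α) *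
            (‖c‖ ^ (-β) * ‖(Matrix.of x).det‖ ^ (-β))
          = ((‖c‖ ^ k) ^ α * ‖c‖ ^ (-β)) * ((∏ i : Fin s, ‖MvPolynomial.eval (x i) (P z0)‖ ^ α) *
            ‖(Matrix.of x).det‖ ^ (-β)) := by ring
        _ = _ := by rw [h2]
  have h1 := equi_pi (ν := ν) hp hp2 hσ hfin hA hm hhom
  unfold II
  simp only [hh] at h1
  rw [h1, ← lintegral_const_mul' _ _ ENNReal.ofReal_ne_top]
  refine lintegral_congr fun x => ?_
  rw [det_mulVec, norm_mul, Real.mul_rpow (norm_nonneg _) (norm_nonneg _),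
    ← ENNReal.ofReal_mul (by positivity)]
  congr 1
  simp only [hP]
  ring

end fam

end Crest.Agent.R276.FlatM_464
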