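import Mathlib
import Crest.Agent.R276.FlatT_464
import Crest.Agent.R276.FlatM_464
import Crest.Agent.R276.FlatI_464
import Crest.Agent.R276.DescC_327
import Crest.Agent.R276.EndInd_870

/-!
# R276, leaf FLATALG (helper464), part N: flat sections: norms, joint distributions, independence

Data `Dat (PHI ν σ p) D m z0` of `FlatT_464` with the norms `PHI z v = ∫ ‖v·σ‖^p` of `FlatM_464`.
`TT z a x = nrm z a (σ z x)`, `k = deg`.
* `lint_TT_le` : `∫ ‖TT z a‖^{p/k} dν_z ≤ PHI z0 a` for all `z`;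
* `TT_ratio` / `indep_of` : if `TT_j/TT_0` are algebraically independent at `z0`, then at every `z`;
* `exists_indep` : existence of `a_0, …, a_d` from the independence of the ratios `σ_i/σ_{i0}` at `z0`;
* `hol_total` : `TT` is holomorphic on the total space.
-/

set_option autoImplicit false
set_option linter.unusedSectionVars false

noncomputable section

open Set Filter Topology Matrix MeasureTheory
open scoped ENNReal
open Crest.Agent.R271.Ho51

namespace Crest.Agent.R276.FlatN_464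

open Crest.Agent.R276.FlatT_464 Crest.Agent.R276.FlatM_464
open Crest.Agent.R276.Ipc735 (HolAt)

section main

variable {n : ℕ} {G : Type*} [TopologicalSpace G] [RDom n G] [PreconnectedSpace G] {s : ℕ}
variable {X : G → Type*} [∀ z, MeasurableSpace (X z)]
variable {ν : ∀ z, Measure (X z)} {σ : ∀ z, X z → Fin s → ℂ} {p : ℝ}
variable {D : G → ℂ} {m : ℕ} {z0 : G}

variable (ν σ p D m z0) in
/-- the flat section `a` evaluated at a point of the fibre over `z` -/
def TT (z : G) (a : Fin s → ℂ) (x : X z) : ℂ :=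
  MvPolynomial.eval (σ z x) (nrm (PHI ν σ p) D m z0 z a)

theorem TT_eq (h : Dat (PHI ν σ p) D m z0) (z : G) (a : Fin s → ℂ) (x : X z) :
    TT ν σ p D m z0 z a x = ∏ A ∈ (h.finite z).toFinset, ∑ i, (A *ᵥ a) i * σ z x i :=
  nrm_eval h z a _

/-- **bound of the norms** -/
theorem lint_TT_le (h : Dat (PHI ν σ p) D m z0) (hσ : ∀ z, Measurable (σ z)) (z : G)
    (a : Fin s → ℂ) :
    ∫⁻ x, ENNReal.ofReal (‖TT ν σ p D m z0 z a x‖ ^ (p / deg (PHI ν σ p) D m z0)) ∂(ν z) ≤
      PHI ν σ p z0 a := by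
  set S := (h.finite z).toFinset with hS
  have hSne : S.Nonempty := by
    obtain ⟨A, hA⟩ := h.nonempty z
    exact ⟨A, (h.finite z).mem_toFinset.2 hA⟩
  have hcard : S.card = deg (PHI ν σ p) D m z0 := card_toFinset h z
  have hk : (0 : ℝ) < S.card := by exact_mod_cast hSne.card_pos
  have h1 := holder (ν z) S hSne (fun A x => ∑ i, (A *ᵥ a) i * σ z x i) (fun A _ => by
    have : Measurable fun x => ∑ i, (A *ᵥ a) i * σ z x i :=
      Finset.measurable_fun_sum _ fun i _ =>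
        ((measurable_pi_apply i).comp (hσ z)).const_mul _
    exact this.aemeasurable) p
  rw [← hcard]
  simp only [TT_eq h]
  refine h1.trans (le_of_eq ?_)
  have h2 : ∀ A ∈ S, (∫⁻ x, ENNReal.ofReal (‖∑ i, (A *ᵥ a) i * σ z x i‖ ^ p) ∂(ν z)) =
      PHI ν σ p z0 a := by
    intro A hA
    exact ((h.finite z).mem_toFinset.1 hA).1 a
  rw [Finset.prod_congr rfl fun A hA => by rw [h2 A hA], Finset.prod_const,
    ← ENNReal.rpow_natCast, ← ENNReal.rpow_mul, inv_mul_cancel₀ hk.ne', ENNReal.rpow_one]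

/-- the norm at `z` through the norm at `z0` -/
theorem nrm_transport (h : Dat (PHI ν σ p) D m z0) {z : G} {A : Matrix (Fin s) (Fin s) ℂ}
    (hA : A ∈ Iz (PHI ν σ p) D m z0 z) (a x : Fin s → ℂ) :
    MvPolynomial.eval x (nrm (PHI ν σ p) D m z0 z a) =
      MvPolynomial.eval (Aᵀ *ᵥ x) (nrm (PHI ν σ p) D m z0 z0 a) := by
  have hd : IsUnit A.det := (Is.det_ne h.toNm hA.1).isUnit
  have h1 : nrm (PHI ν σ p) D m z0 z a =
      ∏ B ∈ (h.finite z0).toFinset, lin ((A * B) *ᵥ a) := by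
    rw [nrm, Iz.eq_image h hA, finprod_mem_image ((mul_injective hd).injOn),
      finprod_mem_eq_finite_toFinset_prod _ (h.finite z0)]
  rw [h1, nrm_eq h z0 a, map_prod, map_prod]
  refine Finset.prod_congr rfl fun B _ => ?_
  rw [lin_eval, lin_eval, ← Matrix.mulVec_mulVec, pr_mulVec]

/-- `D z = D z0 ‖det‖^{-p}` for the torsor -/
theorem DD_eq [∀ z, SigmaFinite (ν z)] (h : Dat (PHI ν σ p) D m z0) (hp : 0 < p) (hp2 : p < 2)
    (hσ : ∀ z, Measurable (σ z)) (hfin : ∀ a, PHI ν σ p z0 a ≠ ∞) (z : G) :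
    ENNReal.ofReal (‖D z‖ ^ (p / m)) * DD ν σ p z = DD ν σ p z0 := by
  obtain ⟨A, hA⟩ := h.nonempty z
  rw [← DD_mul hp hp2 hσ hfin hA.1]
  congr 2
  have hm : (0 : ℝ) < m := by exact_mod_cast h.m_pos
  rw [← h.det z A hA.1, ← Real.rpow_natCast, ← Real.rpow_mul (norm_nonneg _)]
  congr 1
  field_simp

/-- **`I(z) D(z)^{β/p}` is constant** -/
theorem II_DD [∀ z, SigmaFinite (ν z)] (h : Dat (PHI ν σ p) D m z0) (hp : 0 < p) (hp2 : p < 2)
    (hσ : ∀ z, Measurable (σ z)) (hfin : ∀ a, PHI ν σ p z0 a ≠ ∞) (a : Fin s → ℂ) {α β : ℝ}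
    (hα : 0 < α) (hβ : 0 ≤ β) (hαβ : (deg (PHI ν σ p) D m z0) * α - β = p) (z : G) :
    II ν σ (fun z => nrm (PHI ν σ p) D m z0 z a) α β z * DD ν σ p z ^ (β / p) =
      II ν σ (fun z => nrm (PHI ν σ p) D m z0 z a) α β z0 * DD ν σ p z0 ^ (β / p) := by
  obtain ⟨A, hA⟩ := h.nonempty z
  have h1 := II_mul hp hp2 hσ hfin hA.1 (P := fun z => nrm (PHI ν σ p) D m z0 z a)
    (nrm_homog h z0 a) (fun x => nrm_transport h hA a x) hα h.deg_pos hαβ
  have h2 := DD_mul hp hp2 hσ hfin hA.1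
  have hd : 0 < ‖A.det‖ := norm_pos_iff.2 (Is.det_ne h.toNm hA.1)
  rw [← h1, ← h2, ENNReal.mul_rpow_of_nonneg _ _ (by positivity),
    ENNReal.ofReal_rpow_of_pos (by positivity), ← Real.rpow_mul hd.le]
  have h3 : p * (β / p) = β := by field_simp
  have h4 : ENNReal.ofReal (‖A.det‖ ^ (-β)) * ENNReal.ofReal (‖A.det‖ ^ β) = 1 := by
    rw [← ENNReal.ofReal_mul (by positivity), ← Real.rpow_add hd]
    simp
  rw [h3]
  calc II ν σ (fun z => nrm (PHI ν σ p) D m z0 z a) α β z * DD ν σ p z ^ (β / p)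
      = 1 * (II ν σ (fun z => nrm (PHI ν σ p) D m z0 z a) α β z * DD ν σ p z ^ (β / p)) := by
        rw [one_mul]
    _ = _ := by rw [← h4]; ring

/-! ### independence -/

/-- independence of `TT_j / TT_0` as functions on the fibre over `z`, up to null sets -/
def IndAt (ν : ∀ z, Measure (X z)) (σ : ∀ z, X z → Fin s → ℂ) (p : ℝ) (D : G → ℂ) (m : ℕ) (z0 : G)
    {d : ℕ} (a0 : Fin s → ℂ) (a : Fin d → Fin s → ℂ) (z : G) : Prop :=
  ∀ P : MvPolynomial (Fin d) ℂ, P ≠ 0 → ν z {x | TT ν σ p D m z0 z a0 x ≠ 0 ∧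
    MvPolynomial.eval (fun j => TT ν σ p D m z0 z (a j) x / TT ν σ p D m z0 z a0 x) P ≠ 0} ≠ 0

/-- **independence at `z0` gives independence at every `z`** -/
theorem indAt_of [∀ z, SFinite (ν z)] (h : Dat (PHI ν σ p) D m z0) (hp : 0 < p) (hp2 : p < 2)
    (hσ : ∀ z, Measurable (σ z)) (hfin : ∀ a, PHI ν σ p z0 a ≠ ∞) {d : ℕ} {a0 : Fin s → ℂ}
    {a : Fin d → Fin s → ℂ} (h0 : IndAt ν σ p D m z0 a0 a z0) (z : G) :
    IndAt ν σ p D m z0 a0 a z := by
  intro P hP hz
  apply h0 P hP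
  obtain ⟨A, hA⟩ := h.nonempty z
  set k := deg (PHI ν σ p) D m z0 with hk
  set N0 : (Fin s → ℂ) → ℂ := fun v => MvPolynomial.eval v (nrm (PHI ν σ p) D m z0 z0 a0) with hN0
  set N : Fin d → (Fin s → ℂ) → ℂ := fun j v =>
    MvPolynomial.eval v (nrm (PHI ν σ p) D m z0 z0 (a j)) with hN
  have hN0m : Measurable N0 := (MvPolynomial.continuous_eval _).measurable
  have hNm : ∀ j, Measurable (N j) := fun j => (MvPolynomial.continuous_eval _).measurable
  have hPm : Measurable fun v => MvPolynomial.eval (fun j => N j v / N0 v) P := by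
    have h1 : Measurable fun v => fun j => N j v / N0 v :=
      measurable_pi_lambda _ fun j => (hNm j).div hN0m
    exact (MvPolynomial.continuous_eval P).measurable.comp h1
  set E : Set (Fin s → ℂ) := {v | N0 v ≠ 0 ∧ MvPolynomial.eval (fun j => N j v / N0 v) P ≠ 0}
    with hE
  have hEm : MeasurableSet E :=
    (hN0m (measurableSet_singleton 0).compl).inter (hPm (measurableSet_singleton 0).compl)
  set hh : (Fin s → ℂ) → ℝ≥0∞ := E.indicator (fun v => ENNReal.ofReal (‖v‖ ^ p)) with hhh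
  have hnm : Measurable fun v : Fin s → ℂ => ENNReal.ofReal (‖v‖ ^ p) := by fun_prop
  have hhm : Measurable hh := hnm.indicator hEm
  have hk0 : k ≠ 0 := h.deg_pos.ne'
  have hscale0 : ∀ (c : ℂ) v, N0 (fun i => c * v i) = c ^ k * N0 v := fun c v =>
    eval_homog (nrm_homog h z0 a0) c v
  have hscale : ∀ j (c : ℂ) v, N j (fun i => c * v i) = c ^ k * N j v := fun j c v =>
    eval_homog (nrm_homog h z0 (a j)) c v
  have hhom : ∀ (c : ℂ) (v : Fin s → ℂ), hh (fun i => c * v i) =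
      ENNReal.ofReal (‖c‖ ^ p) * hh v := by
    intro c v
    by_cases hc : c = 0
    · subst hc
      have h1 : (fun i => (0 : ℂ) * v i) = 0 := by ext i; simp
      rw [h1, hhh, norm_zero, Real.zero_rpow hp.ne', ENNReal.ofReal_zero, zero_mul]
      by_cases h2 : (0 : Fin s → ℂ) ∈ E
      · rw [Set.indicator_of_mem h2]; simp [Real.zero_rpow hp.ne']
      · rw [Set.indicator_of_notMem h2]
    · have hck : c ^ k ≠ 0 := pow_ne_zero _ hc
      have hiff : (fun i => c * v i) ∈ E ↔ v ∈ E := by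
        rw [hE]
        simp only [Set.mem_ofPred_eq, hscale0, hscale]
        have h1 : (fun j => c ^ k * N j v / (c ^ k * N0 v)) = fun j => N j v / N0 v := by
          funext j; rw [mul_div_mul_left _ _ hck]
        rw [h1]
        simp [hck]
      have hnorm : ‖(fun i => c * v i)‖ = ‖c‖ * ‖v‖ := by
        have : (fun i => c * v i) = c • v := by ext i; simp
        rw [this, norm_smul]
      rw [hhh]
      by_cases h2 : v ∈ E
      · rw [Set.indicator_of_mem h2, Set.indicator_of_mem (hiff.2 h2), hnorm,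
          Real.mul_rpow (norm_nonneg _) (norm_nonneg _), ENNReal.ofReal_mul (by positivity)]
      · rw [Set.indicator_of_notMem h2, Set.indicator_of_notMem (fun h3 => h2 (hiff.1 h3)),
          mul_zero]
  have heq := equi hp hp2 hσ hfin hA.1 hhm hhom
  -- the set at `z`
  have hset : ∀ x : X z, Aᵀ *ᵥ σ z x ∈ E ↔ (TT ν σ p D m z0 z a0 x ≠ 0 ∧
      MvPolynomial.eval (fun j => TT ν σ p D m z0 z (a j) x / TT ν σ p D m z0 z a0 x) P ≠ 0) := by
    intro x
    simp only [hE, Set.mem_ofPred_eq, hN0, hN, TT, nrm_transport h hA]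
  have hRHS : ∫⁻ x, hh (Aᵀ *ᵥ σ z x) ∂(ν z) = 0 := by
    have hae : ∀ᵐ x ∂(ν z), hh (Aᵀ *ᵥ σ z x) = 0 := by
      have h1 : ∀ᵐ x ∂(ν z), ¬ (TT ν σ p D m z0 z a0 x ≠ 0 ∧ MvPolynomial.eval
          (fun j => TT ν σ p D m z0 z (a j) x / TT ν σ p D m z0 z a0 x) P ≠ 0) := by
        rw [ae_iff]
        simpa only [not_not] using hz
      filter_upwards [h1] with x hx
      rw [hhh, Set.indicator_of_notMem]
      intro h2
      exact hx ((hset x).1 h2)
    rw [lintegral_congr_ae hae, lintegral_zero]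
  rw [hRHS] at heq
  have hm0 : Measurable fun x => hh (σ z0 x) := hhm.comp (hσ z0)
  rw [lintegral_eq_zero_iff hm0] at heq
  have h5 : ∀ᵐ x ∂(ν z0), ¬ (TT ν σ p D m z0 z0 a0 x ≠ 0 ∧ MvPolynomial.eval
      (fun j => TT ν σ p D m z0 z0 (a j) x / TT ν σ p D m z0 z0 a0 x) P ≠ 0) := by
    filter_upwards [heq] with x hx hx2
    have hmem : σ z0 x ∈ E := by
      rw [hE]
      simpa only [Set.mem_ofPred_eq, hN0, hN, TT] using hx2
    have h6 : hh (σ z0 x) = 0 := hx
    rw [hhh, Set.indicator_of_mem hmem, ENNReal.ofReal_eq_zero] at h6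
    have h7 : σ z0 x ≠ 0 := by
      intro h8
      have h9 := hscale0 0 (σ z0 x)
      rw [zero_pow hk0, zero_mul] at h9
      have h10 : (fun i => (0 : ℂ) * σ z0 x i) = σ z0 x := by rw [h8]; ext i; simp
      rw [h10] at h9
      exact hmem.1 h9
    have h11 : 0 < ‖σ z0 x‖ ^ p := Real.rpow_pos_of_pos (norm_pos_iff.2 h7) p
    linarith
  rw [ae_iff] at h5
  simpa only [not_not] using h5

open MvPolynomial in
/-- **existence of independent flat sections.**  `B0` = regular functions on the fibre over `z0`. -/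
theorem exists_indep [∀ z, SFinite (ν z)] (h : Dat (PHI ν σ p) D m z0) (hp : 0 < p) (hp2 : p < 2)
    (hσ : ∀ z, Measurable (σ z)) (hfin : ∀ a, PHI ν σ p z0 a ≠ ∞)
    {B0 E : Type*} [CommRing B0] [Algebra ℂ B0] [Field E] [Algebra ℂ E] (iE : B0 →ₐ[ℂ] E)
    (hiE : Function.Injective iE) (ev : X z0 → (B0 →ₐ[ℂ] ℂ))
    (hev : ∀ b : B0, b ≠ 0 → ν z0 {x | ev x b ≠ 0} ≠ 0) (σB : Fin s → B0)
    (hσB : ∀ x i, ev x (σB i) = σ z0 x i) {d : ℕ} (i0 : Fin s) (ι : Fin d → Fin s)
    (hind : AlgebraicIndependent ℂ (fun j => iE (σB (ι j)) / iE (σB i0)))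
    {a0 : Fin s → ℂ} (ha0 : a0 ≠ 0) :
    ∃ a : Fin d → Fin s → ℂ, (∀ j, a j ≠ 0) ∧ ∀ z, IndAt ν σ p D m z0 a0 a z := by
  classical
  set σE : Fin s → E := fun i => iE (σB i) with hσE
  have hlin : LinearIndependent ℂ σE := by
    rw [Fintype.linearIndependent_iff]
    intro v hv
    have h1 : ∑ i, v i • σB i = 0 := by
      apply hiE
      rw [map_zero, map_sum]
      simpa only [map_smul] using hv
    have h2 : v = 0 := by
      apply h.pos z0
      rw [PHI_zero hp]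
      unfold PHI
      refine (lintegral_congr fun x => ?_).trans lintegral_zero
      have h3 := congrArg (ev x) h1
      rw [map_zero, map_sum] at h3
      simp only [map_smul, smul_eq_mul, hσB] at h3
      rw [h3]
      simp [Real.zero_rpow hp.ne']
    intro i
    rw [h2]
    rfl
  set 𝒜 := (h.finite z0).toFinset with h𝒜
  have hAne : 𝒜.Nonempty := ⟨1, (h.finite z0).mem_toFinset.2 (one_mem h)⟩
  have hAdet : ∀ A ∈ 𝒜, IsUnit A.det := fun A hA =>
    (Is.det_ne h.toNm ((h.finite z0).mem_toFinset.1 hA).1).isUnit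
  obtain ⟨a, ha, hai⟩ := FlatI_464.norm_indep hlin hAne hAdet i0 ι hind ha0
  refine ⟨a, ha, fun z => indAt_of h hp hp2 hσ hfin ?_ z⟩
  -- independence at `z0`
  set NB : (Fin s → ℂ) → B0 := fun b => ∏ A ∈ 𝒜, ∑ i, algebraMap ℂ B0 ((A *ᵥ b) i) * σB i with hNB
  have hNBE : ∀ b, iE (NB b) = FlatI_464.N σE 𝒜 b := by
    intro b
    simp only [hNB, map_prod, map_sum, map_mul, AlgHom.commutes, FlatI_464.N, FlatI_464.ln, hσE]
  have hNBx : ∀ b x, ev x (NB b) = TT ν σ p D m z0 z0 b x := by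
    intro b x
    rw [TT_eq h]
    simp only [hNB, map_prod, map_sum, map_mul, AlgHom.commutes, hσB]
    rfl
  intro P hP
  set M := P.totalDegree with hM
  set b : B0 := NB a0 * EndInd_870.hz (algebraMap ℂ B0) M (NB a0) (fun j => NB (a j)) P with hb
  have hN0 : iE (NB a0) ≠ 0 := by
    rw [hNBE]
    exact FlatI_464.N_ne hlin hAdet ha0
  have hbE : iE b ≠ 0 := by
    rw [hb, map_mul]
    refine mul_ne_zero hN0 ?_
    have h1 := EndInd_870.map_hz (φ := (iE : B0 →+* E)) (algebraMap ℂ B0) M (NB a0)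
      (fun j => NB (a j)) P
    have h2 : iE (EndInd_870.hz (algebraMap ℂ B0) M (NB a0) (fun j => NB (a j)) P) =
        (iE : B0 →+* E) (EndInd_870.hz (algebraMap ℂ B0) M (NB a0) (fun j => NB (a j)) P) := rfl
    rw [h2, h1, EndInd_870.hz_eq _ (by exact hN0) _ (le_refl _)]
    refine mul_ne_zero (pow_ne_zero _ hN0) ?_
    have h3 : ((iE : B0 →+* E).comp (algebraMap ℂ B0)) = algebraMap ℂ E := by
      ext c; simp
    have h4 : (fun i => (iE : B0 →+* E) (NB (a i)) / (iE : B0 →+* E) (NB a0)) =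
        fun j => FlatI_464.N σE 𝒜 (a j) / FlatI_464.N σE 𝒜 a0 := by
      funext j
      rw [← hNBE, ← hNBE]; rfl
    rw [h3, h4]
    intro h5
    apply hP
    exact hai.eq_zero_of_aeval_eq_zero P h5
  have hb0 : b ≠ 0 := by
    rintro h1
    rw [h1, map_zero] at hbE
    exact hbE rfl
  have hmeas := hev b hb0
  refine fun h0 => hmeas (measure_mono_null (fun x hx => ?_) h0)
  have hx' : ev x b ≠ 0 := hx
  rw [hb, map_mul] at hx'
  have hx1 : ev x (NB a0) ≠ 0 := left_ne_zero_of_mul hx'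
  have hx2 := right_ne_zero_of_mul hx'
  refine ⟨by rw [← hNBx]; exact hx1, ?_⟩
  have h1 := EndInd_870.map_hz (φ := (ev x : B0 →+* ℂ)) (algebraMap ℂ B0) M (NB a0)
      (fun j => NB (a j)) P
  have h2 : ev x (EndInd_870.hz (algebraMap ℂ B0) M (NB a0) (fun j => NB (a j)) P) =
      (ev x : B0 →+* ℂ) (EndInd_870.hz (algebraMap ℂ B0) M (NB a0) (fun j => NB (a j)) P) := rfl
  rw [h2, h1, EndInd_870.hz_eq _ (by exact hx1) _ (le_refl _)] at hx2
  have h3 := right_ne_zero_of_mul hx2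
  have h4 : ((ev x : B0 →+* ℂ).comp (algebraMap ℂ B0)) = RingHom.id ℂ := by
    ext c; simp
  have h5 : (fun i => (ev x : B0 →+* ℂ) (NB (a i)) / (ev x : B0 →+* ℂ) (NB a0)) =
      fun j => TT ν σ p D m z0 z0 (a j) x / TT ν σ p D m z0 z0 a0 x := by
    funext j
    rw [← hNBx, ← hNBx]; rfl
  rw [h4, h5] at h3
  exact h3

/-! ### the total space -/

/-- **the flat sections are holomorphic on the total space** -/
theorem hol_total (h : Dat (PHI ν σ p) D m z0) {N : ℕ} {Y : Type*} [TopologicalSpace Y] [RDom N Y]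
    {ι : Fin n → Fin N} {f : Y → G} (hf : DescC_327.Prj ι f) {g : Y → Fin s → ℂ} {y : Y}
    (hg : ∀ i, HolAt (fun y => g y i) y) (a : Fin s → ℂ) :
    HolAt (fun y => MvPolynomial.eval (g y) (nrm (PHI ν σ p) D m z0 (f y) a)) y := by
  have h1 : HolPoly (fun y => nrm (PHI ν σ p) D m z0 (f y) a) y := fun μ =>
    hf.holAt_comp (hol_nrm h a (f y) μ)
  exact HolPoly.eval h1 (k := deg (PHI ν σ p) D m z0) (fun x => (nrm_homog h (f x) a).totalDegree_le)
    hg

end main

end Crest.Agent.R276.FlatN_464
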