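import Mathlib

/-!
# SAT, abstract half: saturated spaces

`u : Fin s → X → ℂ` finitely many measurable functions, `K x = ∑ ‖u i x‖²`, `0 < α < 1`.
For `g : X → ℂ` compare `IK g = ∫ ‖g‖² K^(-α)` with `IW g w = ∫ ‖g‖² ‖w‖^(-2α)`, `w = ∑ c_i u_i`.
-/

set_option autoImplicit false

open MeasureTheory
open scoped ENNReal NNReal

namespace Crest.Agent.R276.Sat_210

section Disc

/-- the reference measure on `ℂ`: Lebesgue measure on the unit disc -/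
noncomputable def nu1 : Measure ℂ := (volume : Measure ℂ).restrict (Metric.ball 0 1)

lemma nu1_univ : nu1 Set.univ = volume (Metric.ball (0 : ℂ) 1) := by
  unfold nu1
  simp

instance : IsFiniteMeasure nu1 := by
  refine ⟨?_⟩
  rw [nu1_univ]
  exact measure_ball_lt_top

lemma nu1_univ_ne_zero : nu1 Set.univ ≠ 0 := by
  rw [nu1_univ]
  exact (Metric.measure_ball_pos volume _ one_pos).ne'

lemma integrableOn_norm_rpow {α : ℝ} (h1 : α < 1) :
    IntegrableOn (fun ξ : ℂ => ‖ξ‖ ^ (-2 * α)) (Metric.ball 0 1) volume := by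
  set g : ℝ → ℝ := (Set.Iio (1:ℝ)).indicator (fun r => r ^ (-2 * α)) with hg
  have hgm : Measurable g := by
    refine Measurable.indicator ?_ measurableSet_Iio
    fun_prop
  have hint : Integrable (fun ξ : ℂ => g ‖ξ‖) := by
    rw [integrable_fun_norm_addHaar (volume : Measure ℂ) (f := g)]
    rw [Complex.finrank_real_complex]
    have hsplit : Set.Ioi (0 : ℝ) = Set.Ioc 0 1 ∪ Set.Ioi 1 := by
      rw [Set.Ioc_union_Ioi_eq_Ioi zero_le_one]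
    rw [hsplit]
    apply IntegrableOn.union
    · have h2 : IntegrableOn (fun y : ℝ => y ^ (1 - 2 * α)) (Set.Ioc 0 1) := by
        have := (intervalIntegral.intervalIntegrable_rpow' (a := 0) (b := 1) (r := 1 - 2 * α)
          (by linarith))
        rwa [intervalIntegrable_iff_integrableOn_Ioc_of_le zero_le_one] at this
      refine h2.mono' ?_ ?_
      · refine Measurable.aestronglyMeasurable ?_
        simp only [smul_eq_mul]
        fun_prop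
      · refine (ae_restrict_iff' measurableSet_Ioc).mpr (Filter.Eventually.of_forall ?_)
        intro y hy
        have hy0 : 0 < y := hy.1
        simp only [smul_eq_mul]
        by_cases h : y < 1
        · rw [hg, Set.indicator_of_mem (show y ∈ Set.Iio (1:ℝ) from h),
            Real.norm_of_nonneg (by positivity)]
          apply le_of_eq
          calc y ^ (2 - 1) * y ^ (-2 * α) = y ^ (1:ℝ) * y ^ (-2 * α) := by
                rw [Real.rpow_one]; ring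
            _ = y ^ (1 - 2 * α) := by
                rw [← Real.rpow_add hy0]; congr 1; ring
        · rw [hg, Set.indicator_of_notMem (show y ∉ Set.Iio (1:ℝ) from h)]
          simp only [mul_zero, norm_zero]
          positivity
    · refine (integrableOn_zero : IntegrableOn (fun _ : ℝ => (0 : ℝ)) (Set.Ioi 1) volume).congr_fun
        ?_ measurableSet_Ioi
      intro y hy
      have : y ∉ Set.Iio (1:ℝ) := by
        simp only [Set.mem_Iio, not_lt]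
        exact le_of_lt hy
      simp only [smul_eq_mul, hg]
      rw [Set.indicator_of_notMem this, mul_zero]
  rw [← integrable_indicator_iff Metric.isOpen_ball.measurableSet]
  refine hint.congr (Filter.Eventually.of_forall fun ξ => ?_)
  by_cases h : ‖ξ‖ < 1
  · have m1 : ξ ∈ Metric.ball (0 : ℂ) 1 := by simpa using h
    simp only [hg]
    rw [Set.indicator_of_mem m1, Set.indicator_of_mem (show ‖ξ‖ ∈ Set.Iio (1:ℝ) from h)]
  · have m1 : ξ ∉ Metric.ball (0 : ℂ) 1 := by simpa using h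
    simp only [hg]
    rw [Set.indicator_of_notMem m1, Set.indicator_of_notMem (show ‖ξ‖ ∉ Set.Iio (1:ℝ) from h)]

/-- the constant -/
noncomputable def M0 (α : ℝ) : ℝ≥0∞ :=
  (∫⁻ ξ in Metric.ball (0 : ℂ) 1, ‖ξ‖ₑ ^ (-2 * α)) + volume (Metric.ball (0 : ℂ) 1)

lemma M0_ne_top {α : ℝ} (h1 : α < 1) : M0 α ≠ ⊤ := by
  unfold M0
  refine ENNReal.add_ne_top.mpr ⟨?_, measure_ball_lt_top.ne⟩
  have key : ∫⁻ ξ in Metric.ball (0 : ℂ) 1, ENNReal.ofReal (‖ξ‖ ^ (-2 * α)) < ⊤ := by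
    have := (integrableOn_norm_rpow h1).hasFiniteIntegral
    rw [hasFiniteIntegral_iff_ofReal] at this
    · exact this
    · exact Filter.Eventually.of_forall fun ξ => by positivity
  refine ne_of_lt (lt_of_le_of_lt (le_of_eq ?_) key)
  refine lintegral_congr_ae ?_
  have h0 : ∀ᵐ ξ ∂((volume : Measure ℂ).restrict (Metric.ball 0 1)), ξ ≠ 0 := by
    refine ae_restrict_of_ae ?_
    rw [ae_iff]
    simp
  filter_upwards [h0] with ξ hξ
  rw [← ofReal_norm, ENNReal.ofReal_rpow_of_pos (norm_pos_iff.mpr hξ)]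

lemma M0_ne_zero (α : ℝ) : M0 α ≠ 0 := by
  unfold M0
  intro h
  have := (add_eq_zero.mp h).2
  exact (Metric.measure_ball_pos volume (0 : ℂ) one_pos).ne' this

lemma disc_bound {α : ℝ} (h0 : 0 ≤ α) (b : ℂ) :
    ∫⁻ ξ, ‖ξ + b‖ₑ ^ (-2 * α) ∂nu1 ≤ M0 α := by
  have hpt : ∀ ξ : ℂ, ‖ξ + b‖ₑ ^ (-2 * α) ≤
      (Metric.ball (0 : ℂ) 1).indicator (fun η => ‖η‖ₑ ^ (-2 * α)) (ξ + b) + 1 := by
    intro ξ
    by_cases h : ‖ξ + b‖ < 1
    · have m1 : ξ + b ∈ Metric.ball (0 : ℂ) 1 := by simpa using h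
      rw [Set.indicator_of_mem m1]
      exact le_self_add
    · have m1 : ξ + b ∉ Metric.ball (0 : ℂ) 1 := by simpa using h
      rw [Set.indicator_of_notMem m1, zero_add]
      have h2 : (1 : ℝ≥0∞) ≤ ‖ξ + b‖ₑ := by
        rw [← ofReal_norm, ← ENNReal.ofReal_one]
        exact ENNReal.ofReal_le_ofReal (not_lt.mp h)
      have h3 : -2 * α = -(2 * α) := by ring
      rw [h3, ENNReal.rpow_neg]
      refine ENNReal.inv_le_one.mpr ?_
      rcases eq_or_lt_of_le h0 with h | h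
      · rw [← h]; simp
      · exact ENNReal.one_le_rpow h2 (by positivity)
  have hm : Measurable (fun η : ℂ =>
      (Metric.ball (0 : ℂ) 1).indicator (fun η => ‖η‖ₑ ^ (-2 * α)) η) := by
    refine Measurable.indicator ?_ Metric.isOpen_ball.measurableSet
    fun_prop
  calc ∫⁻ ξ, ‖ξ + b‖ₑ ^ (-2 * α) ∂nu1
      ≤ ∫⁻ ξ, ((Metric.ball (0 : ℂ) 1).indicator (fun η => ‖η‖ₑ ^ (-2 * α)) (ξ + b) + 1) ∂nu1 :=
        lintegral_mono hpt
    _ = (∫⁻ ξ, (Metric.ball (0 : ℂ) 1).indicator (fun η => ‖η‖ₑ ^ (-2 * α)) (ξ + b) ∂nu1) +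
        volume (Metric.ball (0 : ℂ) 1) := by
        rw [lintegral_add_right _ measurable_const, lintegral_const, one_mul, nu1_univ]
    _ ≤ M0 α := by
        unfold M0
        refine add_le_add_left ?_ _
        calc ∫⁻ ξ, (Metric.ball (0 : ℂ) 1).indicator (fun η => ‖η‖ₑ ^ (-2 * α)) (ξ + b) ∂nu1
            ≤ ∫⁻ ξ, (Metric.ball (0 : ℂ) 1).indicator (fun η => ‖η‖ₑ ^ (-2 * α)) (ξ + b) := by
              unfold nu1
              exact setLIntegral_le_lintegral _ _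
          _ = ∫⁻ ξ, (Metric.ball (0 : ℂ) 1).indicator (fun η => ‖η‖ₑ ^ (-2 * α)) ξ :=
              lintegral_add_right_eq_self
                (fun ξ => (Metric.ball (0 : ℂ) 1).indicator (fun η => ‖η‖ₑ ^ (-2 * α)) ξ) b
          _ = _ := lintegral_indicator Metric.isOpen_ball.measurableSet _

lemma disc_bound' {α : ℝ} (h0 : 0 ≤ α) {v : ℂ} (hv : v ≠ 0) (w : ℂ) :
    ∫⁻ ξ, ‖ξ * v + w‖ₑ ^ (-2 * α) ∂nu1 ≤ ‖v‖ₑ ^ (-2 * α) * M0 α := by
  have h1 : ∀ ξ : ℂ, ‖ξ * v + w‖ₑ ^ (-2 * α) = ‖v‖ₑ ^ (-2 * α) * ‖ξ + w / v‖ₑ ^ (-2 * α) := by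
    intro ξ
    rw [← ENNReal.mul_rpow_of_ne_top enorm_ne_top enorm_ne_top, ← enorm_mul]
    congr 2
    field_simp
  rw [lintegral_congr h1, lintegral_const_mul _ (by fun_prop)]
  gcongr
  exact disc_bound h0 _

end Disc

section Avg

variable {s : ℕ}

/-- Lebesgue measure on the unit polydisc -/
noncomputable abbrev nuP (s : ℕ) : Measure (Fin s → ℂ) := Measure.pi fun _ => nu1

lemma nuP_ne_zero (s : ℕ) : nuP s ≠ 0 := by
  intro h
  have h1 : nuP s Set.univ = 0 := by rw [h]; simp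
  rw [Measure.pi_univ] at h1
  rw [Finset.prod_eq_zero_iff] at h1
  obtain ⟨i, -, hi⟩ := h1
  exact nu1_univ_ne_zero hi

lemma nuP_ac (s : ℕ) : nuP s ≪ (volume : Measure (Fin s → ℂ)) := by
  have : nuP s = (volume : Measure (Fin s → ℂ)).restrict (Set.univ.pi fun _ => Metric.ball 0 1) := by
    rw [volume_pi, Measure.restrict_pi_pi]
    rfl
  rw [this]
  exact Measure.absolutelyContinuous_of_le Measure.restrict_le_self

/-- the averaging constant -/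
noncomputable def CA (s : ℕ) (α : ℝ) : ℝ≥0∞ :=
  M0 α * (nu1 Set.univ) ^ (s - 1) * (s : ℝ≥0∞) ^ α + M0 α

lemma CA_ne_top (s : ℕ) {α : ℝ} (h0 : 0 ≤ α) (h1 : α < 1) : CA s α ≠ ⊤ := by
  unfold CA
  refine ENNReal.add_ne_top.mpr ⟨ENNReal.mul_ne_top (ENNReal.mul_ne_top (M0_ne_top h1) ?_) ?_,
    M0_ne_top h1⟩
  · exact ENNReal.pow_ne_top (measure_ne_top _ _)
  · exact ENNReal.rpow_ne_top_of_nonneg h0 (ENNReal.natCast_ne_top s)

lemma CA_ne_zero (s : ℕ) (α : ℝ) : CA s α ≠ 0 := by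
  unfold CA
  intro h
  exact M0_ne_zero α (add_eq_zero.mp h).2

/-- **Averaging**: the average of `‖c·v‖^(-2α)` over the polydisc is `≤ C |v|^(-2α)`. -/
theorem avg_le {α : ℝ} (h0 : 0 < α) (v : Fin s → ℂ) :
    ∫⁻ c, ‖∑ i, c i * v i‖ₑ ^ (-2 * α) ∂(nuP s) ≤
      CA s α * (∑ i, ‖v i‖ₑ ^ (2:ℝ)) ^ (-α) := by
  by_cases hv : v = 0
  · have : (∑ i, ‖v i‖ₑ ^ (2:ℝ)) ^ (-α) = ⊤ := by
      rw [hv]
      simp only [Pi.zero_apply, enorm_zero]
      rw [ENNReal.zero_rpow_of_pos (by norm_num), Finset.sum_const_zero,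
        ENNReal.zero_rpow_of_neg (by linarith)]
    rw [this, ENNReal.mul_top (CA_ne_zero s α)]
    exact le_top
  · -- pick the largest coordinate
    obtain ⟨i0, hi0⟩ : ∃ i, v i ≠ 0 := by
      by_contra hcon
      apply hv
      funext i
      by_contra hne
      exact hcon ⟨i, hne⟩
    obtain ⟨n, rfl⟩ : ∃ n, s = n + 1 := ⟨s - 1, by have := i0.2; omega⟩
    obtain ⟨j, -, hj⟩ := Finset.exists_max_image Finset.univ (fun i => ‖v i‖ₑ)
      ⟨i0, Finset.mem_univ _⟩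
    have hvj : v j ≠ 0 := by
      intro h
      have := hj i0 (Finset.mem_univ _)
      rw [h, enorm_zero] at this
      exact hi0 (enorm_eq_zero.mp (le_antisymm this bot_le))
    have hmp := measurePreserving_piFinSuccAbove (fun _ : Fin (n + 1) => nu1) j
    have e1 : ∫⁻ c, ‖∑ i, c i * v i‖ₑ ^ (-2 * α) ∂(nuP (n + 1)) =
        ∫⁻ q : ℂ × (Fin n → ℂ), ‖q.1 * v j + ∑ i, q.2 i * v (j.succAbove i)‖ₑ ^ (-2 * α)
          ∂(nu1.prod (Measure.pi fun _ => nu1)) := by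
      rw [← hmp.lintegral_comp (by fun_prop)]
      refine lintegral_congr fun c => ?_
      congr 2
      rw [Fin.sum_univ_succAbove _ j]
      rfl
    rw [e1, lintegral_prod_symm' _ (by fun_prop)]
    have e2 : ∀ y : Fin n → ℂ, ∫⁻ ξ, ‖ξ * v j + ∑ i, y i * v (j.succAbove i)‖ₑ ^ (-2 * α) ∂nu1 ≤
        ‖v j‖ₑ ^ (-2 * α) * M0 α := fun y => disc_bound' h0.le hvj _
    refine (lintegral_mono e2).trans ?_
    rw [lintegral_const, Measure.pi_univ]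
    simp only [Finset.prod_const, Finset.card_univ, Fintype.card_fin]
    have e3 : ‖v j‖ₑ ^ (-2 * α) ≤ ((n + 1 : ℕ) : ℝ≥0∞) ^ α * (∑ i, ‖v i‖ₑ ^ (2:ℝ)) ^ (-α) := by
      have hsum : (∑ i, ‖v i‖ₑ ^ (2:ℝ)) ≤ ((n + 1 : ℕ) : ℝ≥0∞) * ‖v j‖ₑ ^ (2:ℝ) := by
        have := Finset.sum_le_card_nsmul Finset.univ (fun i => ‖v i‖ₑ ^ (2:ℝ)) (‖v j‖ₑ ^ (2:ℝ))
          (fun i hi => ENNReal.rpow_le_rpow (hj i hi) (by norm_num))
        simpa [nsmul_eq_mul] using this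
      have hn0 : ((n + 1 : ℕ) : ℝ≥0∞) ≠ 0 := by
        exact_mod_cast Nat.succ_ne_zero n
      have h4 : (((n + 1 : ℕ) : ℝ≥0∞) * ‖v j‖ₑ ^ (2:ℝ)) ^ (-α) ≤
          (∑ i, ‖v i‖ₑ ^ (2:ℝ)) ^ (-α) := by
        rw [ENNReal.rpow_neg, ENNReal.rpow_neg]
        exact ENNReal.inv_le_inv.mpr (ENNReal.rpow_le_rpow hsum h0.le)
      calc ‖v j‖ₑ ^ (-2 * α) = (‖v j‖ₑ ^ (2:ℝ)) ^ (-α) := by
            rw [← ENNReal.rpow_mul]; congr 1; ring
        _ = ((n + 1 : ℕ) : ℝ≥0∞) ^ α *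
            (((n + 1 : ℕ) : ℝ≥0∞) ^ (-α) * (‖v j‖ₑ ^ (2:ℝ)) ^ (-α)) := by
            rw [← mul_assoc, ← ENNReal.rpow_add _ _ hn0 (ENNReal.natCast_ne_top _)]
            simp
        _ = ((n + 1 : ℕ) : ℝ≥0∞) ^ α * (((n + 1 : ℕ) : ℝ≥0∞) * ‖v j‖ₑ ^ (2:ℝ)) ^ (-α) := by
            rw [ENNReal.mul_rpow_of_ne_top (ENNReal.natCast_ne_top _)
              (ENNReal.rpow_ne_top_of_nonneg (by norm_num) enorm_ne_top)]
        _ ≤ _ := by gcongr
    calc ‖v j‖ₑ ^ (-2 * α) * M0 α * nu1 Set.univ ^ n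
        ≤ (((n + 1 : ℕ) : ℝ≥0∞) ^ α * (∑ i, ‖v i‖ₑ ^ (2:ℝ)) ^ (-α)) * M0 α *
          nu1 Set.univ ^ n := by gcongr
      _ = (M0 α * (nu1 Set.univ) ^ ((n + 1) - 1) * ((n + 1 : ℕ) : ℝ≥0∞) ^ α) *
          (∑ i, ‖v i‖ₑ ^ (2:ℝ)) ^ (-α) := by
            rw [Nat.add_sub_cancel]; ring
      _ ≤ CA (n + 1) α * (∑ i, ‖v i‖ₑ ^ (2:ℝ)) ^ (-α) := by
            unfold CA
            gcongr
            exact le_self_add

end Avg

section Compare

variable {X : Type*} [MeasurableSpace X] {s : ℕ}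

/-- `∫ ‖g‖² ‖w‖^(-2α)` -/
noncomputable def IW (μ : Measure X) (α : ℝ) (g w : X → ℂ) : ℝ≥0∞ :=
  ∫⁻ x, ‖g x‖ₑ ^ (2:ℝ) * ‖w x‖ₑ ^ (-2 * α) ∂μ

/-- `K = ∑ ‖u i‖²` -/
noncomputable def KK (u : Fin s → X → ℂ) (x : X) : ℝ≥0∞ := ∑ i, ‖u i x‖ₑ ^ (2:ℝ)

/-- `∫ ‖g‖² K^(-α)` -/
noncomputable def IK (μ : Measure X) (α : ℝ) (g : X → ℂ) (u : Fin s → X → ℂ) : ℝ≥0∞ :=
  ∫⁻ x, ‖g x‖ₑ ^ (2:ℝ) * KK u x ^ (-α) ∂μ

lemma meas_KK {u : Fin s → X → ℂ} (hu : ∀ i, Measurable (u i)) : Measurable (KK u) := by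
  unfold KK
  fun_prop

omit [MeasurableSpace X] in
lemma KK_ne_top (u : Fin s → X → ℂ) (x : X) : KK u x ≠ ⊤ := by
  unfold KK
  exact ENNReal.sum_ne_top.mpr fun i _ => ENNReal.rpow_ne_top_of_nonneg (by norm_num) enorm_ne_top

lemma cauchy (c v : Fin s → ℂ) :
    ‖∑ i, c i * v i‖ₑ ^ (2:ℝ) ≤ (∑ i, ‖c i‖ₑ ^ (2:ℝ)) * ∑ i, ‖v i‖ₑ ^ (2:ℝ) := by
  have h1 : ‖∑ i, c i * v i‖ ≤ ∑ i, ‖c i‖ * ‖v i‖ := by
    refine (norm_sum_le _ _).trans (le_of_eq ?_)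
    exact Finset.sum_congr rfl fun i _ => norm_mul _ _
  have h2 : ‖∑ i, c i * v i‖ ^ 2 ≤ (∑ i, ‖c i‖ ^ 2) * ∑ i, ‖v i‖ ^ 2 := by
    calc ‖∑ i, c i * v i‖ ^ 2 ≤ (∑ i, ‖c i‖ * ‖v i‖) ^ 2 := by gcongr
      _ ≤ _ := Finset.sum_mul_sq_le_sq_mul_sq _ _ _
  have e : ∀ z : ℂ, ‖z‖ₑ ^ (2:ℝ) = ENNReal.ofReal (‖z‖ ^ 2) := by
    intro z
    rw [← ofReal_norm, ENNReal.ofReal_rpow_of_nonneg (norm_nonneg _) (by norm_num), Real.rpow_two]
  simp only [e]
  rw [← ENNReal.ofReal_sum_of_nonneg (fun i _ => by positivity),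
    ← ENNReal.ofReal_sum_of_nonneg (fun i _ => by positivity),
    ← ENNReal.ofReal_mul (Finset.sum_nonneg fun i _ => by positivity)]
  exact ENNReal.ofReal_le_ofReal h2

/-- `E_w ⊂ E` with a bound, for every `w ≠ 0`. -/
theorem IK_le_IW {μ : Measure X} {α : ℝ} (h0 : 0 ≤ α) (g : X → ℂ) (u : Fin s → X → ℂ)
    {c : Fin s → ℂ} (hc : c ≠ 0) :
    IK μ α g u ≤ (∑ i, ‖c i‖ₑ ^ (2:ℝ)) ^ α * IW μ α g (fun x => ∑ i, c i * u i x) := by
  set S : ℝ≥0∞ := ∑ i, ‖c i‖ₑ ^ (2:ℝ) with hS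
  have hS0 : S ≠ 0 := by
    intro h
    apply hc
    funext i
    have := (Finset.sum_eq_zero_iff.mp h) i (Finset.mem_univ _)
    rw [ENNReal.rpow_eq_zero_iff] at this
    rcases this with h | h
    · exact enorm_eq_zero.mp h.1
    · exact absurd h.1 enorm_ne_top
  have hST : S ≠ ⊤ := ENNReal.sum_ne_top.mpr fun i _ =>
    ENNReal.rpow_ne_top_of_nonneg (by norm_num) enorm_ne_top
  have hSa : S ^ α ≠ ⊤ := ENNReal.rpow_ne_top_of_nonneg h0 hST
  unfold IK IW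
  rw [← lintegral_const_mul' _ _ hSa]
  refine lintegral_mono fun x => ?_
  have h1 : KK u x ^ (-α) ≤ S ^ α * ‖∑ i, c i * u i x‖ₑ ^ (-2 * α) := by
    have h2 := cauchy c (fun i => u i x)
    have h3 : (S * KK u x) ^ (-α) ≤ (‖∑ i, c i * u i x‖ₑ ^ (2:ℝ)) ^ (-α) := by
      rw [ENNReal.rpow_neg, ENNReal.rpow_neg]
      exact ENNReal.inv_le_inv.mpr (ENNReal.rpow_le_rpow h2 h0)
    calc KK u x ^ (-α) = S ^ α * (S ^ (-α) * KK u x ^ (-α)) := by
          rw [← mul_assoc, ← ENNReal.rpow_add _ _ hS0 hST]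
          simp
      _ = S ^ α * (S * KK u x) ^ (-α) := by
          rw [ENNReal.mul_rpow_of_ne_top hST (KK_ne_top u x)]
      _ ≤ S ^ α * (‖∑ i, c i * u i x‖ₑ ^ (2:ℝ)) ^ (-α) := by gcongr
      _ = S ^ α * ‖∑ i, c i * u i x‖ₑ ^ (-2 * α) := by
          rw [← ENNReal.rpow_mul]; congr 2; ring
  calc ‖g x‖ₑ ^ (2:ℝ) * KK u x ^ (-α)
      ≤ ‖g x‖ₑ ^ (2:ℝ) * (S ^ α * ‖∑ i, c i * u i x‖ₑ ^ (-2 * α)) := by gcongr
    _ = _ := by ring

/-- average of `IW g (c·u)` over `c` -/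
theorem avg_IW_le {μ : Measure X} [SFinite μ] {α : ℝ} (h0 : 0 < α) {g : X → ℂ}
    (hg : Measurable g) {u : Fin s → X → ℂ} (hu : ∀ i, Measurable (u i)) :
    ∫⁻ c, IW μ α g (fun x => ∑ i, c i * u i x) ∂(nuP s) ≤ CA s α * IK μ α g u := by
  unfold IW IK
  have hm : Measurable (Function.uncurry fun (c : Fin s → ℂ) (x : X) =>
      ‖g x‖ₑ ^ (2:ℝ) * ‖∑ i, c i * u i x‖ₑ ^ (-2 * α)) := by
    simp only [Function.uncurry_def]
    fun_prop
  rw [lintegral_lintegral_swap hm.aemeasurable]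
  have hmr : Measurable (fun x => ‖g x‖ₑ ^ (2:ℝ) * KK u x ^ (-α)) := by
    have := meas_KK hu
    fun_prop
  rw [← lintegral_const_mul _ hmr]
  refine lintegral_mono fun x => ?_
  rw [lintegral_const_mul _ (by fun_prop)]
  calc ‖g x‖ₑ ^ (2:ℝ) * ∫⁻ c, ‖∑ i, c i * u i x‖ₑ ^ (-2 * α) ∂(nuP s)
      ≤ ‖g x‖ₑ ^ (2:ℝ) * (CA s α * KK u x ^ (-α)) := by
        gcongr
        exact avg_le h0 (fun i => u i x)
    _ = _ := by ring

/-- `E ⊂ E_w` for almost every `w` -/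
theorem ae_IW_ne_top {μ : Measure X} [SFinite μ] {α : ℝ} (h0 : 0 < α) (h1 : α < 1) {g : X → ℂ}
    (hg : Measurable g) {u : Fin s → X → ℂ} (hu : ∀ i, Measurable (u i)) (hI : IK μ α g u ≠ ⊤) :
    ∀ᵐ c ∂(nuP s), IW μ α g (fun x => ∑ i, c i * u i x) ≠ ⊤ := by
  have hm : Measurable (fun c : Fin s → ℂ => IW μ α g (fun x => ∑ i, c i * u i x)) := by
    unfold IW
    refine Measurable.lintegral_prod_right (f := fun (c : Fin s → ℂ) (x : X) =>
      ‖g x‖ₑ ^ (2:ℝ) * ‖∑ i, c i * u i x‖ₑ ^ (-2 * α)) ?_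
    simp only [Function.uncurry_def]
    fun_prop
  have hfin : ∫⁻ c, IW μ α g (fun x => ∑ i, c i * u i x) ∂(nuP s) ≠ ⊤ :=
    ne_top_of_le_ne_top (ENNReal.mul_ne_top (CA_ne_top s h0.le h1) hI) (avg_IW_le h0 hg hu)
  filter_upwards [ae_lt_top hm hfin] with c hc using hc.ne

/-- the good set: a conull set of `c` meets the set where finitely many `g` are `w`-integrable -/
theorem exists_good {μ : Measure X} [SFinite μ] {α : ℝ} (h0 : 0 < α) (h1 : α < 1) {κ : Type*}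
    [Finite κ] {g : κ → X → ℂ} (hg : ∀ k, Measurable (g k)) {u : Fin s → X → ℂ}
    (hu : ∀ i, Measurable (u i)) (hI : ∀ k, IK μ α (g k) u ≠ ⊤) {U : Set (Fin s → ℂ)}
    (hU : volume Uᶜ = 0) :
    ∃ c ∈ U, ∀ k, IW μ α (g k) (fun x => ∑ i, c i * u i x) ≠ ⊤ := by
  have hae : ∀ᵐ c ∂(nuP s), c ∈ U := (nuP_ac s) hU
  have hall : ∀ᵐ c ∂(nuP s), ∀ k, IW μ α (g k) (fun x => ∑ i, c i * u i x) ≠ ⊤ :=
    ae_all_iff.mpr fun k => ae_IW_ne_top h0 h1 (hg k) hu (hI k)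
  have hne : (ae (nuP s)).NeBot := ae_neBot.mpr (nuP_ne_zero s)
  obtain ⟨c, hc⟩ := (hae.and hall).exists
  exact ⟨c, hc.1, hc.2⟩

/-- `Φ` -/
noncomputable def PHI (μ : Measure X) (p : ℝ) (g : X → ℂ) : ℝ≥0∞ := ∫⁻ x, ‖g x‖ₑ ^ p ∂μ

lemma PHI_add_le {μ : Measure X} {p : ℝ} (hp0 : 0 ≤ p) (hp1 : p ≤ 1) {g g' : X → ℂ}
    (hg : Measurable g) : PHI μ p (fun x => g x + g' x) ≤ PHI μ p g + PHI μ p g' := by
  unfold PHI
  rw [← lintegral_add_left (by fun_prop)]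
  refine lintegral_mono fun x => ?_
  calc ‖g x + g' x‖ₑ ^ p ≤ (‖g x‖ₑ + ‖g' x‖ₑ) ^ p :=
        ENNReal.rpow_le_rpow (enorm_add_le _ _) hp0
    _ ≤ _ := ENNReal.rpow_add_le_add_rpow _ _ hp0 hp1

lemma PHI_smul {μ : Measure X} {p : ℝ} (hp0 : 0 ≤ p) (t : ℂ) (g : X → ℂ) :
    PHI μ p (fun x => t * g x) = ‖t‖ₑ ^ p * PHI μ p g := by
  unfold PHI
  rw [← lintegral_const_mul' _ _ (ENNReal.rpow_ne_top_of_nonneg hp0 enorm_ne_top)]
  refine lintegral_congr fun x => ?_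
  rw [enorm_mul, ENNReal.mul_rpow_of_nonneg _ _ hp0]

/-- `∫ K^(1/N) ≤ ∑ Φ(u_i)` -/
lemma lintegral_KK_le {μ : Measure X} {q : ℝ} (hq0 : 0 < q) (hq1 : q ≤ 1)
    {u : Fin s → X → ℂ} (hu : ∀ i, Measurable (u i)) :
    ∫⁻ x, KK u x ^ q ∂μ ≤ ∑ i, PHI μ (2 * q) (u i) := by
  unfold PHI
  rw [← lintegral_finsetSum _ (fun i _ => by have := hu i; fun_prop)]
  refine lintegral_mono fun x => ?_
  have h1 : KK u x ^ q ≤ ∑ i, (‖u i x‖ₑ ^ (2:ℝ)) ^ q := by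
    unfold KK
    generalize (Finset.univ : Finset (Fin s)) = F
    induction F using Finset.induction_on with
    | empty => simp [ENNReal.zero_rpow_of_pos hq0]
    | insert i F hi ih =>
      rw [Finset.sum_insert hi, Finset.sum_insert hi]
      exact (ENNReal.rpow_add_le_add_rpow _ _ hq0.le hq1).trans (by gcongr)
  refine h1.trans (le_of_eq ?_)
  refine Finset.sum_congr rfl fun i _ => ?_
  rw [← ENNReal.rpow_mul]

/-- `V ⊂ E` -/
theorem IK_self_le {μ : Measure X} {α : ℝ} {u : Fin s → X → ℂ} (j : Fin s) :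
    IK μ α (u j) u ≤ ∫⁻ x, KK u x ^ (1 - α) ∂μ := by
  unfold IK
  refine lintegral_mono fun x => ?_
  have hle : ‖u j x‖ₑ ^ (2:ℝ) ≤ KK u x := by
    unfold KK
    exact Finset.single_le_sum (f := fun i => ‖u i x‖ₑ ^ (2:ℝ)) (fun i _ => zero_le)
      (Finset.mem_univ j)
  by_cases hK : KK u x = 0
  · have : ‖u j x‖ₑ ^ (2:ℝ) = 0 := le_antisymm (hle.trans hK.le) bot_le
    rw [this, zero_mul]
    exact bot_le
  · calc ‖u j x‖ₑ ^ (2:ℝ) * KK u x ^ (-α) ≤ KK u x ^ (1:ℝ) * KK u x ^ (-α) := by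
          rw [ENNReal.rpow_one]; gcongr
      _ = KK u x ^ (1 - α) := by
          rw [← ENNReal.rpow_add _ _ hK (KK_ne_top u x)]; congr 1

/-- `Φ` is finite on `E` (Hoelder), `p = 2 (1 - α)`. -/
theorem PHI_le {μ : Measure X} {α : ℝ} (h0 : 0 < α) (h1 : α < 1) {g : X → ℂ}
    (hg : Measurable g) {u : Fin s → X → ℂ} (hu : ∀ i, Measurable (u i))
    (hK : ∀ᵐ x ∂μ, KK u x ≠ 0) :
    PHI μ (2 * (1 - α)) g ≤ (IK μ α g u) ^ (1 - α) * (∫⁻ x, KK u x ^ (1 - α) ∂μ) ^ α := by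
  have hKm := meas_KK hu
  have h1' : 0 < 1 - α := by linarith
  have hpq : (1 / (1 - α)).HolderConjugate (1 / α) := by
    rw [Real.holderConjugate_iff]
    constructor
    · rw [lt_div_iff₀ h1']; linarith
    · simp
  have hpt : ∀ᵐ x ∂μ, ‖g x‖ₑ ^ (2 * (1 - α)) =
      ((‖g x‖ₑ ^ (2:ℝ) * KK u x ^ (-α)) ^ (1 - α)) * (KK u x ^ (α * (1 - α))) := by
    filter_upwards [hK] with x hx
    have hxt := KK_ne_top u x
    rw [ENNReal.mul_rpow_of_nonneg _ _ h1'.le, ← ENNReal.rpow_mul, ← ENNReal.rpow_mul, mul_assoc,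
      ← ENNReal.rpow_add _ _ hx hxt]
    have : -α * (1 - α) + α * (1 - α) = 0 := by ring
    rw [this, ENNReal.rpow_zero, mul_one]
  unfold PHI
  rw [lintegral_congr_ae hpt]
  refine (ENNReal.lintegral_mul_le_Lp_mul_Lq μ hpq (by fun_prop) (by fun_prop)).trans ?_
  refine le_of_eq ?_
  congr 1
  · unfold IK
    have e1 : (1 / (1 / (1 - α)) : ℝ) = 1 - α := by rw [one_div_one_div]
    rw [e1]
    congr 1
    refine lintegral_congr fun x => ?_
    rw [← ENNReal.rpow_mul, mul_one_div_cancel h1'.ne', ENNReal.rpow_one]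
  · have e1 : (1 / (1 / α) : ℝ) = α := by rw [one_div_one_div]
    rw [e1]
    congr 1
    refine lintegral_congr fun x => ?_
    rw [← ENNReal.rpow_mul]
    congr 1
    field_simp

/-- Hoelder for a single `w`. -/
theorem PHI_le_IW {μ : Measure X} {α : ℝ} (h0 : 0 < α) (h1 : α < 1) {g w : X → ℂ}
    (hg : Measurable g) (hw : Measurable w) (hw0 : ∀ᵐ x ∂μ, w x ≠ 0) :
    PHI μ (2 * (1 - α)) g ≤ (IW μ α g w) ^ (1 - α) * (PHI μ (2 * (1 - α)) w) ^ α := by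
  have hIW : IW μ α g w = IK μ α g (fun _ : Fin 1 => w) := by
    unfold IW IK KK
    refine lintegral_congr fun x => ?_
    simp only [Finset.univ_unique, Finset.sum_const, Finset.card_singleton, one_smul]
    rw [← ENNReal.rpow_mul]
    congr 2
    ring
  have h2 := PHI_le (u := fun _ : Fin 1 => w) h0 h1 hg (fun _ => hw) (μ := μ) (by
    filter_upwards [hw0] with x hx
    unfold KK
    simp only [Finset.univ_unique, Finset.sum_const, Finset.card_singleton, one_smul, ne_eq]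
    rw [ENNReal.rpow_eq_zero_iff]
    simp [hx])
  rw [← hIW] at h2
  refine h2.trans (le_of_eq ?_)
  congr 2
  unfold PHI KK
  refine lintegral_congr fun x => ?_
  simp only [Finset.univ_unique, Finset.sum_const, Finset.card_singleton, one_smul]
  rw [← ENNReal.rpow_mul]

end Compare

section Spaces

variable {X : Type*} [MeasurableSpace X] {s : ℕ}

lemma two_mul_sq (a b : ℂ) : ‖a + b‖ₑ ^ (2:ℝ) ≤ 2 * ‖a‖ₑ ^ (2:ℝ) + 2 * ‖b‖ₑ ^ (2:ℝ) := by
  calc ‖a + b‖ₑ ^ (2:ℝ) ≤ (‖a‖ₑ + ‖b‖ₑ) ^ (2:ℝ) := ENNReal.rpow_le_rpow (enorm_add_le _ _) (by norm_num)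
    _ ≤ 2 ^ ((2:ℝ) - 1) * (‖a‖ₑ ^ (2:ℝ) + ‖b‖ₑ ^ (2:ℝ)) :=
        ENNReal.rpow_add_le_mul_rpow_add_rpow _ _ (by norm_num)
    _ = _ := by
        rw [show (2:ℝ) - 1 = 1 by norm_num, ENNReal.rpow_one, mul_add]

/-- `{g ∈ H : ∫ ‖g‖² W < ∞}` for an arbitrary weight `W : X → [0,∞]`. -/
def L2s (μ : Measure X) (H : Submodule ℂ (X → ℂ)) (hH : ∀ g ∈ H, Measurable g) (W : X → ℝ≥0∞)
    (hW : Measurable W) : Submodule ℂ (X → ℂ) where
  carrier := {g | g ∈ H ∧ ∫⁻ x, ‖g x‖ₑ ^ (2:ℝ) * W x ∂μ ≠ ⊤}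
  zero_mem' := by
    refine ⟨H.zero_mem, ?_⟩
    simp
  add_mem' := by
    rintro a b ⟨ha, ha'⟩ ⟨hb, hb'⟩
    refine ⟨H.add_mem ha hb, ?_⟩
    have hma := hH a ha
    have hb2 : ∫⁻ x, ‖(a + b) x‖ₑ ^ (2:ℝ) * W x ∂μ ≤
        2 * (∫⁻ x, ‖a x‖ₑ ^ (2:ℝ) * W x ∂μ) + 2 * ∫⁻ x, ‖b x‖ₑ ^ (2:ℝ) * W x ∂μ := by
      rw [← lintegral_const_mul' _ _ ENNReal.ofNat_ne_top,
        ← lintegral_const_mul' _ _ ENNReal.ofNat_ne_top, ← lintegral_add_left (by fun_prop)]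
      refine lintegral_mono fun x => ?_
      calc ‖(a + b) x‖ₑ ^ (2:ℝ) * W x ≤ (2 * ‖a x‖ₑ ^ (2:ℝ) + 2 * ‖b x‖ₑ ^ (2:ℝ)) * W x := by
            gcongr
            exact two_mul_sq _ _
        _ = _ := by ring
    refine ne_top_of_le_ne_top ?_ hb2
    exact ENNReal.add_ne_top.mpr ⟨ENNReal.mul_ne_top ENNReal.ofNat_ne_top ha',
      ENNReal.mul_ne_top ENNReal.ofNat_ne_top hb'⟩
  smul_mem' := by
    rintro c a ⟨ha, ha'⟩
    refine ⟨H.smul_mem c ha, ?_⟩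
    have : ∫⁻ x, ‖(c • a) x‖ₑ ^ (2:ℝ) * W x ∂μ =
        ‖c‖ₑ ^ (2:ℝ) * ∫⁻ x, ‖a x‖ₑ ^ (2:ℝ) * W x ∂μ := by
      rw [← lintegral_const_mul' _ _ (ENNReal.rpow_ne_top_of_nonneg (by norm_num) enorm_ne_top)]
      refine lintegral_congr fun x => ?_
      rw [Pi.smul_apply, smul_eq_mul, enorm_mul, ENNReal.mul_rpow_of_nonneg _ _ (by norm_num),
        mul_assoc]
    rw [this]
    exact ENNReal.mul_ne_top (ENNReal.rpow_ne_top_of_nonneg (by norm_num) enorm_ne_top) ha'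

lemma mem_L2s {μ : Measure X} {H : Submodule ℂ (X → ℂ)} {hH : ∀ g ∈ H, Measurable g}
    {W : X → ℝ≥0∞} {hW : Measurable W} {g : X → ℂ} :
    g ∈ L2s μ H hH W hW ↔ g ∈ H ∧ ∫⁻ x, ‖g x‖ₑ ^ (2:ℝ) * W x ∂μ ≠ ⊤ := Iff.rfl

/-- comparison of weights -/
lemma L2s_mono {μ : Measure X} {H : Submodule ℂ (X → ℂ)} {hH : ∀ g ∈ H, Measurable g}
    {W W' : X → ℝ≥0∞} {hW : Measurable W} {hW' : Measurable W'} {C : ℝ≥0∞} (hC : C ≠ ⊤)
    (h : ∀ x, W' x ≤ C * W x) : L2s μ H hH W hW ≤ L2s μ H hH W' hW' := by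
  rintro g ⟨hg, hg'⟩
  refine ⟨hg, ne_top_of_le_ne_top (ENNReal.mul_ne_top hC hg') ?_⟩
  rw [← lintegral_const_mul' _ _ hC]
  refine lintegral_mono fun x => ?_
  calc ‖g x‖ₑ ^ (2:ℝ) * W' x ≤ ‖g x‖ₑ ^ (2:ℝ) * (C * W x) := by gcongr; exact h x
    _ = _ := by ring

variable (μ : Measure X) (α : ℝ) (H : Submodule ℂ (X → ℂ)) (hH : ∀ g ∈ H, Measurable g)

lemma meas_wK {u : Fin s → X → ℂ} (hu : ∀ i, u i ∈ H) (hH : ∀ g ∈ H, Measurable g) :
    Measurable (fun x => KK u x ^ (-α)) := by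
  have := meas_KK (fun i => hH _ (hu i))
  fun_prop

lemma meas_wW {w : X → ℂ} (hw : w ∈ H) (hH : ∀ g ∈ H, Measurable g) :
    Measurable (fun x => ‖w x‖ₑ ^ (-2 * α)) := by
  have := hH w hw
  fun_prop

/-- `E = {g ∈ H : ∫ ‖g‖² K^(-α) < ∞}` -/
noncomputable def EK {u : Fin s → X → ℂ} (hu : ∀ i, u i ∈ H) : Submodule ℂ (X → ℂ) :=
  L2s μ H hH (fun x => KK u x ^ (-α)) (meas_wK α H hu hH)

/-- `E_w = {g ∈ H : ∫ ‖g‖² ‖w‖^(-2α) < ∞}` -/
noncomputable def EW {w : X → ℂ} (hw : w ∈ H) : Submodule ℂ (X → ℂ) :=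
  L2s μ H hH (fun x => ‖w x‖ₑ ^ (-2 * α)) (meas_wW α H hw hH)

variable {μ α H hH}

lemma mem_EK {u : Fin s → X → ℂ} {hu : ∀ i, u i ∈ H} {g : X → ℂ} :
    g ∈ EK μ α H hH hu ↔ g ∈ H ∧ IK μ α g u ≠ ⊤ := Iff.rfl

lemma mem_EW {w : X → ℂ} {hw : w ∈ H} {g : X → ℂ} :
    g ∈ EW μ α H hH hw ↔ g ∈ H ∧ IW μ α g w ≠ ⊤ := Iff.rfl

omit [MeasurableSpace X] in
lemma comb_mem {u : Fin s → X → ℂ} (hu : ∀ i, u i ∈ H) (c : Fin s → ℂ) :
    (fun x => ∑ i, c i * u i x) ∈ H := by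
  have : (fun x => ∑ i, c i * u i x) = ∑ i, c i • u i := by
    ext x
    simp [Finset.sum_apply, Pi.smul_apply]
  rw [this]
  exact H.sum_mem fun i _ => H.smul_mem _ (hu i)

theorem EW_le_EK (h0 : 0 ≤ α) {u : Fin s → X → ℂ} (hu : ∀ i, u i ∈ H) {c : Fin s → ℂ}
    (hc : c ≠ 0) : EW μ α H hH (comb_mem hu c) ≤ EK μ α H hH hu := by
  rintro g ⟨hg, hg'⟩
  refine ⟨hg, ne_top_of_le_ne_top ?_ (IK_le_IW h0 g u hc)⟩
  refine ENNReal.mul_ne_top (ENNReal.rpow_ne_top_of_nonneg h0 ?_) hg'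
  exact ENNReal.sum_ne_top.mpr fun i _ =>
    ENNReal.rpow_ne_top_of_nonneg (by norm_num) enorm_ne_top

/-- For `c` in a conull set, `E_w = E`. -/
theorem exists_EW_eq [SFinite μ] (h0 : 0 < α) (h1 : α < 1) {u : Fin s → X → ℂ}
    (hu : ∀ i, u i ∈ H) [hfd : FiniteDimensional ℂ (EK μ α H hH hu)] {U : Set (Fin s → ℂ)}
    (hU : volume Uᶜ = 0) (hU0 : (0 : Fin s → ℂ) ∉ U) :
    ∃ c ∈ U, EW μ α H hH (comb_mem hu c) = EK μ α H hH hu := by
  let b := Module.finBasis ℂ (EK μ α H hH hu)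
  obtain ⟨c, hcU, hc⟩ := exists_good (μ := μ) h0 h1
    (g := fun k => (b k : X → ℂ)) (fun k => hH _ (b k).2.1) (fun i => hH _ (hu i))
    (fun k => (b k).2.2) hU
  refine ⟨c, hcU, le_antisymm (EW_le_EK h0.le hu (fun h => hU0 (h ▸ hcU))) ?_⟩
  intro g hg
  have hrep := b.sum_repr ⟨g, hg⟩
  have hrep' : g = ∑ k, (b.repr ⟨g, hg⟩) k • (b k : X → ℂ) := by
    have := congrArg (fun v : EK μ α H hH hu => (v : X → ℂ)) hrep
    simp only [Submodule.coe_sum, Submodule.coe_smul] at this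
    exact this.symm
  rw [hrep']
  refine Submodule.sum_mem _ fun k _ => Submodule.smul_mem _ _ ?_
  exact ⟨(b k).2.1, hc k⟩

/-- If `E_w` has constant dimension `q` for `c` in a conull set `U`, then `dim E = q` and `E_w = E`
for all `c ∈ U`. -/
theorem finrank_EK_eq [SFinite μ] (h0 : 0 < α) (h1 : α < 1) {u : Fin s → X → ℂ}
    (hu : ∀ i, u i ∈ H) [hfd : FiniteDimensional ℂ (EK μ α H hH hu)] {U : Set (Fin s → ℂ)}
    (hU : volume Uᶜ = 0) (hU0 : (0 : Fin s → ℂ) ∉ U) {q : ℕ}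
    (hq : ∀ c ∈ U, Module.finrank ℂ (EW μ α H hH (comb_mem hu c)) = q) :
    Module.finrank ℂ (EK μ α H hH hu) = q ∧
      ∀ c ∈ U, EW μ α H hH (comb_mem hu c) = EK μ α H hH hu := by
  obtain ⟨c, hcU, hc⟩ := exists_EW_eq (μ := μ) (hH := hH) h0 h1 hu hU hU0
  have h2 : Module.finrank ℂ (EK μ α H hH hu) = q := by rw [← hc]; exact hq c hcU
  refine ⟨h2, fun c' hc' => ?_⟩
  have hne : c' ≠ 0 := fun h => hU0 (h ▸ hc')
  exact Submodule.eq_of_le_of_finrank_eq (EW_le_EK h0.le hu hne) (by rw [hq c' hc', h2])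

/-- (Cl) for a saturated space. -/
theorem mem_of_saturated (h0 : 0 ≤ α) {u : Fin s → X → ℂ} (hu : ∀ i, u i ∈ H)
    (hsat : EK μ α H hH hu = Submodule.span ℂ (Set.range u)) {w : X → ℂ}
    (hw : w ∈ Submodule.span ℂ (Set.range u)) (hw0 : w ≠ 0) {f : X → ℂ} (hf : f ∈ H)
    (hI : IW μ α f w ≠ ⊤) : f ∈ Submodule.span ℂ (Set.range u) := by
  obtain ⟨c, hc⟩ := (Submodule.mem_span_range_iff_exists_fun ℂ).mp hw
  have hwc : (fun x => ∑ i, c i * u i x) = w := by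
    rw [← hc]
    ext x
    simp [Finset.sum_apply, Pi.smul_apply]
  have hc0 : c ≠ 0 := by
    rintro rfl
    apply hw0
    rw [← hwc]
    ext x
    simp
  rw [← hsat]
  refine EW_le_EK h0 hu hc0 ⟨hf, ?_⟩
  change IW μ α f (fun x => ∑ i, c i * u i x) ≠ ⊤
  rw [hwc]
  exact hI

/-- weights `(‖F‖² + d K)^(-α)` give the same space -/
theorem L2s_twist_eq (h0 : 0 ≤ α) {u : Fin s → X → ℂ} (hu : ∀ i, u i ∈ H) (c : Fin s → ℂ)
    {d : ℝ≥0∞} (hd : d ≠ 0) (hd' : d ≠ ⊤)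
    (hW : Measurable (fun x => (‖∑ i, c i * u i x‖ₑ ^ (2:ℝ) + d * KK u x) ^ (-α))) :
    L2s μ H hH (fun x => (‖∑ i, c i * u i x‖ₑ ^ (2:ℝ) + d * KK u x) ^ (-α)) hW =
      EK μ α H hH hu := by
  set S : ℝ≥0∞ := ∑ i, ‖c i‖ₑ ^ (2:ℝ) with hS
  have hST : S ≠ ⊤ := ENNReal.sum_ne_top.mpr fun i _ =>
    ENNReal.rpow_ne_top_of_nonneg (by norm_num) enorm_ne_top
  apply le_antisymm
  · -- K^(-α) ≤ (S+d)^α (‖F‖²+dK)^(-α)
    refine L2s_mono (C := (S + d) ^ α)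
      (ENNReal.rpow_ne_top_of_nonneg h0 (ENNReal.add_ne_top.mpr ⟨hST, hd'⟩)) fun x => ?_
    have hSd0 : S + d ≠ 0 := fun h => hd (add_eq_zero.mp h).2
    have hSdT : S + d ≠ ⊤ := ENNReal.add_ne_top.mpr ⟨hST, hd'⟩
    have h1 : ‖∑ i, c i * u i x‖ₑ ^ (2:ℝ) + d * KK u x ≤ (S + d) * KK u x := by
      rw [add_mul]
      gcongr
      exact cauchy c fun i => u i x
    calc KK u x ^ (-α) = (S + d) ^ α * ((S + d) ^ (-α) * KK u x ^ (-α)) := by
          rw [← mul_assoc, ← ENNReal.rpow_add _ _ hSd0 hSdT]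
          simp
      _ = (S + d) ^ α * ((S + d) * KK u x) ^ (-α) := by
          rw [ENNReal.mul_rpow_of_ne_top hSdT (KK_ne_top u x)]
      _ ≤ _ := by
          refine mul_le_mul_right ?_ _
          rw [ENNReal.rpow_neg, ENNReal.rpow_neg]
          exact ENNReal.inv_le_inv.mpr (ENNReal.rpow_le_rpow h1 h0)
  · refine L2s_mono (C := d ^ (-α)) (by
      rw [ENNReal.rpow_neg]
      exact ENNReal.inv_ne_top.mpr (by
        intro h
        rw [ENNReal.rpow_eq_zero_iff] at h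
        rcases h with h | h
        · exact hd h.1
        · exact hd' h.1)) fun x => ?_
    calc (‖∑ i, c i * u i x‖ₑ ^ (2:ℝ) + d * KK u x) ^ (-α) ≤ (d * KK u x) ^ (-α) := by
          rw [ENNReal.rpow_neg, ENNReal.rpow_neg]
          exact ENNReal.inv_le_inv.mpr (ENNReal.rpow_le_rpow le_add_self h0)
      _ = d ^ (-α) * KK u x ^ (-α) := by
          rw [ENNReal.mul_rpow_of_ne_top hd' (KK_ne_top u x)]

end Spaces

section Cont

/-- A function `Φ (z, c)`, `p`-homogeneous and subadditive in `c`, continuous at the points of a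
fibrewise dense set, is continuous. -/
theorem continuous_of_dense {T E : Type*} [TopologicalSpace T] [NormedAddCommGroup E]
    [NormedSpace ℂ E] {Φ : T → E → ℝ} {p : ℝ} (hp : 0 < p) (hnn : ∀ z c, 0 ≤ Φ z c)
    (hsub : ∀ z c c', Φ z (c + c') ≤ Φ z c + Φ z c')
    (hhom : ∀ z (t : ℂ) c, Φ z (t • c) = ‖t‖ ^ p * Φ z c) {D : T → Set E}
    (hD : ∀ z, Dense (D z))
    (hc : ∀ z, ∀ c ∈ D z, ContinuousAt (fun q : T × E => Φ q.1 q.2) (z, c)) :
    Continuous (fun q : T × E => Φ q.1 q.2) := by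
  have hneg : ∀ z c, Φ z (-c) = Φ z c := by
    intro z c
    have := hhom z (-1) c
    simpa using this
  -- local Hoelder bound
  have hloc : ∀ z0 : T, ∃ B : ℝ, 0 ≤ B ∧ ∃ δ : ℝ, 0 < δ ∧ ∀ᶠ z in nhds z0, ∀ e : E,
      Φ z e ≤ B * (‖e‖ / δ) ^ p := by
    intro z0
    obtain ⟨c0, hc0⟩ := (hD z0).nonempty
    have h1 := (hc z0 c0 hc0).eventually_lt_const (u := Φ z0 c0 + 1) (by linarith)
    rw [nhds_prod_eq] at h1
    obtain ⟨pa, hpa, pb, hpb, hab⟩ := Filter.eventually_prod_iff.mp h1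
    obtain ⟨δ, hδ, hball⟩ := Metric.eventually_nhds_iff.mp hpb
    refine ⟨2 * (Φ z0 c0 + 1), by have := hnn z0 c0; positivity, δ / 2, by positivity, ?_⟩
    filter_upwards [hpa] with z hz e
    have hz0 : Φ z c0 < Φ z0 c0 + 1 := hab hz (hball (by simpa using hδ))
    by_cases he : e = 0
    · subst he
      have := hhom z 0 (0 : E)
      rw [smul_zero, norm_zero, Real.zero_rpow hp.ne', zero_mul] at this
      rw [this, norm_zero, zero_div, Real.zero_rpow hp.ne', mul_zero]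
    · have hen : 0 < ‖e‖ := norm_pos_iff.mpr he
      set r : ℝ := ‖e‖ / (δ / 2) with hr
      have hrpos : 0 < r := by positivity
      have hsc : e = ((r : ℝ) : ℂ) • (((r⁻¹ : ℝ) : ℂ) • e) := by
        rw [smul_smul, ← Complex.ofReal_mul, mul_inv_cancel₀ hrpos.ne']
        simp
      have hsmall : ‖(((r⁻¹ : ℝ) : ℂ) • e)‖ < δ := by
        rw [norm_smul, Complex.norm_real, Real.norm_of_nonneg (by positivity), hr]
        rw [inv_div]
        field_simp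
        linarith
      have hb : Φ z (((r⁻¹ : ℝ) : ℂ) • e) ≤ 2 * (Φ z0 c0 + 1) := by
        have h2 : Φ z (c0 + ((r⁻¹ : ℝ) : ℂ) • e) < Φ z0 c0 + 1 :=
          hab hz (hball (by simpa [dist_eq_norm] using hsmall))
        have h3 := hsub z (c0 + ((r⁻¹ : ℝ) : ℂ) • e) (-c0)
        rw [hneg, add_neg_cancel_comm] at h3
        linarith
      conv_lhs => rw [hsc]
      rw [hhom, Complex.norm_real, Real.norm_of_nonneg hrpos.le, mul_comm]
      gcongr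
  rw [continuous_iff_continuousAt]
  rintro ⟨z0, c0⟩
  obtain ⟨B, hB, δ, hδ, hbd⟩ := hloc z0
  rw [Metric.continuousAt_iff']
  intro ε hε
  -- choose a good point c' near c0
  have hcont : Filter.Tendsto (fun e : E => B * (‖e‖ / δ) ^ p) (nhds 0) (nhds 0) := by
    have : Continuous (fun e : E => B * (‖e‖ / δ) ^ p) := by
      refine continuous_const.mul ?_
      exact (continuous_norm.div_const δ).rpow_const fun _ => Or.inr hp.le
    have h := this.tendsto 0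
    simpa [Real.zero_rpow hp.ne'] using h
  have hsm := hcont.eventually_lt_const (u := ε / 4) (by positivity)
  obtain ⟨η, hη, hηb⟩ := Metric.eventually_nhds_iff.mp hsm
  obtain ⟨c', hc'D, hc'⟩ := (hD z0).exists_dist_lt c0 (half_pos hη)
  have hA := (hc z0 c' hc'D)
  rw [Metric.continuousAt_iff'] at hA
  have hA' := hA (ε / 4) (by positivity)
  -- restrict to points (z, c') 
  have hline : ∀ᶠ z in nhds z0, dist (Φ z c') (Φ z0 c') < ε / 4 := by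
    have ht : Filter.Tendsto (fun z : T => (z, c')) (nhds z0) (nhds (z0, c')) :=
      (Continuous.prodMk_left c').tendsto z0
    exact ht.eventually hA'
  have hdiff : ∀ z c d, |Φ z c - Φ z d| ≤ Φ z (c - d) := by
    intro z c d
    rw [abs_le]
    constructor
    · have := hsub z c (-(c - d))
      rw [hneg] at this
      have e : c + -(c - d) = d := by abel
      rw [e] at this
      linarith
    · have := hsub z d (c - d)
      have e : d + (c - d) = c := by abel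
      rw [e] at this
      linarith
  rw [nhds_prod_eq]
  have hball : ∀ᶠ c in nhds c0, dist c c0 < η / 2 := Metric.ball_mem_nhds c0 (half_pos hη)
  filter_upwards [(hline.and hbd).prod_mk hball] with q hq
  obtain ⟨⟨hq1, hq2⟩, hq3⟩ := hq
  have hz0 := hbd.self_of_nhds
  have t1 : |Φ q.1 q.2 - Φ q.1 c'| < ε / 4 := by
    refine (hdiff _ _ _).trans_lt ((hq2 _).trans_lt ?_)
    apply hηb
    rw [dist_zero_right, ← dist_eq_norm]
    calc dist q.2 c' ≤ dist q.2 c0 + dist c0 c' := dist_triangle _ _ _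
      _ < η / 2 + η / 2 := by gcongr
      _ = η := by ring
  have t3 : |Φ z0 c' - Φ z0 c0| < ε / 4 := by
    refine (hdiff _ _ _).trans_lt ((hz0 _).trans_lt ?_)
    apply hηb
    rw [dist_zero_right, ← dist_eq_norm, dist_comm]
    exact hc'.trans (half_lt_self hη)
  have t2 : |Φ q.1 c' - Φ z0 c'| < ε / 4 := by
    rw [← Real.dist_eq]; exact hq1
  rw [Real.dist_eq]
  calc |Φ q.1 q.2 - Φ z0 c0|
      = |(Φ q.1 q.2 - Φ q.1 c') + (Φ q.1 c' - Φ z0 c') + (Φ z0 c' - Φ z0 c0)| := by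
        congr 1; ring
    _ ≤ |Φ q.1 q.2 - Φ q.1 c'| + |Φ q.1 c' - Φ z0 c'| + |Φ z0 c' - Φ z0 c0| := abs_add_three _ _ _
    _ < ε := by linarith

/-- growth exponents contract -/
theorem growth_bound {α b : ℝ} (h0 : 0 ≤ α) (h1 : α < 1) {A : ℕ → ℝ}
    (hA : ∀ k, A (k + 1) ≤ α * A k + b) (k : ℕ) : A k ≤ max (A 0) (b / (1 - α)) := by
  induction k with
  | zero => exact le_max_left _ _
  | succ k ih =>
    have h2 : 0 < 1 - α := by linarith
    set M := max (A 0) (b / (1 - α)) with hM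
    have h3 : b ≤ (1 - α) * M := by
      have : b / (1 - α) ≤ M := le_max_right _ _
      rw [div_le_iff₀ h2] at this
      linarith
    calc A (k + 1) ≤ α * A k + b := hA k
      _ ≤ α * M + (1 - α) * M := by gcongr
      _ = M := by ring

end Cont

end Crest.Agent.R276.Sat_210
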