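import Crest.Agent.R276.Mod7_987
import Crest.Agent.R276.Sat_210
import Crest.Agent.R276.FlatN_464

/-!
# Row 276 (S0419): saturated families and flat families (helper236, leaf RESTR)

For a relative model `R : RMdl L K m r` and `u : Fin s → R.MK.B`:
* `nu R w` : the Lebesgue measure of the fibre `R.Fib w`;
* `sg u w y = (u₁(y), …, u_s(y))`, `Phi N u w a = ∫_{Fib w} |∑ aᵢ uᵢ|^{2/N}`,
  `DN N u w = ∫_{(Fib w)^s} |det uᵢ(y_j)|^{2/N}` (464's `PHI`, `DD`);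
* `SatFam R N u` : output of SAT (210) for ALL points of `ML`;
* `FlatFam R N u f M` : `SatFam` together with (FL): `f` holomorphic without zeros,
  `|f w|² = D(w)^M` (574).
-/

set_option autoImplicit false
set_option linter.unusedSectionVars false

open Set Filter Topology MeasureTheory
open scoped ENNReal

noncomputable section

namespace Crest.Agent.R276.FlatDefs_236

open Crest.Agent.R271 Crest.Agent.R271.Ho51 Crest.Agent.R271.Rd692
open Crest.Agent.R276.Mod1_987 Crest.Agent.R276.FlatM_464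
open Crest.Agent.R276.Sat_210 (IK IW)

variable {L K : Type} [Field L] [Field K] [Algebra ℂ L] [Algebra ℂ K] [Algebra L K]
  [IsScalarTower ℂ L K] {m r : ℕ}

section data

variable (R : RMdl L K m r)

/-- Lebesgue measure of the fibre -/
def nu (w : R.ML.Pts) : Measure (R.Fib w) := (exists_leb (M := R.Fib w)).choose

lemma nu_leb (w : R.ML.Pts) : IsLeb (nu R w) := (exists_leb (M := R.Fib w)).choose_spec

variable {R} {s : ℕ}

/-- the sections `uᵢ` on the fibre over `w` -/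
def sg (u : Fin s → R.MK.B) (w : R.ML.Pts) (y : R.Fib w) : Fin s → ℂ := fun i => (y.val : R.MK.B →ₐ[ℂ] ℂ) (u i)

/-- `Φ(w, a) = ∫_{Fib w} |∑ aᵢ uᵢ|^{2/N}` -/
abbrev Phi (N : ℕ) (u : Fin s → R.MK.B) (w : R.ML.Pts) (a : Fin s → ℂ) : ℝ≥0∞ :=
  PHI (nu R) (sg u) (2 / (N : ℝ)) w a

/-- `D(w) = ∫_{(Fib w)^s} |det uᵢ(y_j)|^{2/N}` -/
abbrev DN (N : ℕ) (u : Fin s → R.MK.B) (w : R.ML.Pts) : ℝ≥0∞ :=
  DD (nu R) (sg u) (2 / (N : ℝ)) w

/-- OUTPUT OF SAT (210), for every point `w` of `ML`. -/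
structure SatFam (R : RMdl L K m r) (N : ℕ) {s : ℕ} (u : Fin s → R.MK.B) : Prop where
  N_even : Even N
  N_ge : 4 ≤ N
  s_pos : 0 < s
  /-- the fibres are nonempty and connected -/
  conn : ∀ w : R.ML.Pts, ConnectedSpace (R.Fib w)
  /-- (S1) -/
  indep : ∀ (w : R.ML.Pts) (a : Fin s → ℂ), (∀ y : R.Fib w, ∑ i, a i * sg u w y i = 0) → a = 0
  /-- (S2) -/
  fin : ∀ (w : R.ML.Pts) (a : Fin s → ℂ), Phi N u w a ≠ ∞
  cont : Continuous fun p : R.ML.Pts × (Fin s → ℂ) => Phi N u p.1 p.2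
  /-- (Cl) = (S4) = (S5): `f` holomorphic on the fibre with
  `∫ |f|² (∑ |uᵢ|²)^{-(N-1)/N} < ∞` is a combination of the `uᵢ` -/
  clos : ∀ (w : R.ML.Pts) (f : R.Fib w → ℂ), Hol f →
    IK (nu R w) (((N : ℝ) - 1) / N) f (fun i y => sg u w y i) ≠ ∞ →
    ∃ b : Fin s → ℂ, ∀ y : R.Fib w, f y = ∑ i, b i * sg u w y i
  D_pos : ∀ w : R.ML.Pts, 0 < DN N u w
  D_fin : ∀ w : R.ML.Pts, DN N u w ≠ ∞
  D_cont : Continuous fun w : R.ML.Pts => DN N u w

/-- FLAT FAMILY: a saturated family with (FL): the CY line is flat. -/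
structure FlatFam (R : RMdl L K m r) (N : ℕ) {s : ℕ} (u : Fin s → R.MK.B)
    (f : R.ML.Pts → ℂ) (M : ℕ) : Prop extends SatFam R N u where
  M_pos : 0 < M
  hol : Hol f
  ne : ∀ w, f w ≠ 0
  eq : ∀ w, ‖f w‖ ^ 2 = (DN N u w).toReal ^ M

end data

end Crest.Agent.R276.FlatDefs_236
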