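import Crest.Agent.R276.Nil_840

/-!
R276, helper840: the nilpotent commutator bound for the adjoint with respect to an arbitrary
positive definite Hermitian matrix `H` (inner product `⟨x, y⟩ = xᵀ … `; the adjoint of `A` is
`H⁻¹ Aᴴ H`, i.e. `⟪A x, y⟫ = ⟪x, A^* y⟫` for `⟪x, y⟫ = xᴴ H y` read as `(A x)ᴴ H y = xᴴ H (H⁻¹ Aᴴ H) y`).
-/

set_option autoImplicit false

open Matrix Finset
open scoped ComplexOrder MatrixOrder

namespace Crest.Agent.R276.Nil_840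

variable {n : ℕ}

/-- adjoint with respect to the form `xᴴ H y` -/
noncomputable def adjH (H A : Matrix (Fin n) (Fin n) ℂ) : Matrix (Fin n) (Fin n) ℂ :=
  H⁻¹ * Aᴴ * H

/-- squared norm of `A` with respect to `H` -/
noncomputable def frH (H A : Matrix (Fin n) (Fin n) ℂ) : ℝ := (A * adjH H A).trace.re

theorem fr_eq_trace (A : Matrix (Fin n) (Fin n) ℂ) : fr A = (A * Aᴴ).trace.re := by
  simp only [fr, Matrix.trace, Matrix.diag, Matrix.mul_apply, Matrix.conjTranspose_apply,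
    Complex.re_sum]
  refine Finset.sum_congr rfl fun i _ => Finset.sum_congr rfl fun j _ => ?_
  have h : A i j * star (A i j) = ((‖A i j‖ ^ 2 : ℝ) : ℂ) := by
    rw [Complex.star_def, Complex.mul_conj, Complex.normSq_eq_norm_sq]
  rw [h, Complex.ofReal_re]

/-- `H = Gᴴ G` with `G` invertible -/
theorem exists_sqrt {H : Matrix (Fin n) (Fin n) ℂ} (hH : H.PosDef) :
    ∃ G : Matrix (Fin n) (Fin n) ℂ, IsUnit G ∧ H = Gᴴ * G := by
  obtain ⟨G, hG⟩ := CStarAlgebra.nonneg_iff_eq_star_mul_self.mp hH.posSemidef.nonneg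
  refine ⟨G, ?_, hG⟩
  have h1 : IsUnit H := hH.isUnit
  rw [hG] at h1
  rw [Matrix.isUnit_iff_isUnit_det] at h1 ⊢
  rw [Matrix.det_mul] at h1
  exact isUnit_of_mul_isUnit_right h1

theorem adjH_conj {H G A : Matrix (Fin n) (Fin n) ℂ} (hG : IsUnit G) (hHG : H = Gᴴ * G) :
    G * adjH H A * G⁻¹ = (G * A * G⁻¹)ᴴ := by
  have hd : IsUnit G.det := (Matrix.isUnit_iff_isUnit_det G).1 hG
  have hdH : IsUnit Gᴴ.det := by
    rw [Matrix.det_conjTranspose]
    exact hd.star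
  rw [adjH, hHG, Matrix.mul_inv_rev, Matrix.conjTranspose_mul, Matrix.conjTranspose_mul,
    Matrix.conjTranspose_nonsing_inv]
  calc G * (G⁻¹ * Gᴴ⁻¹ * Aᴴ * (Gᴴ * G)) * G⁻¹
      = (G * G⁻¹) * Gᴴ⁻¹ * Aᴴ * Gᴴ * (G * G⁻¹) := by noncomm_ring
    _ = Gᴴ⁻¹ * (Aᴴ * Gᴴ) := by
        rw [Matrix.mul_nonsing_inv _ hd]
        noncomm_ring

theorem frH_conj {H G A : Matrix (Fin n) (Fin n) ℂ} (hG : IsUnit G) (hHG : H = Gᴴ * G) :
    frH H A = fr (G * A * G⁻¹) := by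
  have hd : IsUnit G.det := (Matrix.isUnit_iff_isUnit_det G).1 hG
  rw [fr_eq_trace, ← adjH_conj hG hHG, frH]
  congr 1
  have h1 : G * A * G⁻¹ * (G * adjH H A * G⁻¹) = G * (A * adjH H A) * G⁻¹ := by
    calc G * A * G⁻¹ * (G * adjH H A * G⁻¹) = G * A * (G⁻¹ * G) * adjH H A * G⁻¹ := by
          noncomm_ring
      _ = _ := by
          rw [Matrix.nonsing_inv_mul _ hd]
          noncomm_ring
  rw [h1, Matrix.trace_mul_comm (G * (A * adjH H A)) G⁻¹, ← Matrix.mul_assoc,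
    Matrix.nonsing_inv_mul _ hd, Matrix.one_mul]

theorem frH_nonneg {H : Matrix (Fin n) (Fin n) ℂ} (hH : H.PosDef) (A : Matrix (Fin n) (Fin n) ℂ) :
    0 ≤ frH H A := by
  obtain ⟨G, hG, hHG⟩ := exists_sqrt hH
  rw [frH_conj hG hHG]
  exact fr_nonneg _

theorem frH_eq_zero {H : Matrix (Fin n) (Fin n) ℂ} (hH : H.PosDef) {A : Matrix (Fin n) (Fin n) ℂ}
    (h : frH H A = 0) : A = 0 := by
  obtain ⟨G, hG, hHG⟩ := exists_sqrt hH
  have hd : IsUnit G.det := (Matrix.isUnit_iff_isUnit_det G).1 hG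
  rw [frH_conj hG hHG] at h
  have h1 := fr_eq_zero h
  calc A = G⁻¹ * (G * A * G⁻¹) * G := by
        calc A = (G⁻¹ * G) * A * (G⁻¹ * G) := by rw [Matrix.nonsing_inv_mul _ hd]; simp
          _ = _ := by noncomm_ring
    _ = 0 := by rw [h1]; simp

/-- (NIL_H) for every `n` there is `c > 0` such that for every positive definite `H` and every
nilpotent `A`: `c * |A|_H⁴ ≤ |[A^*, A]|_H²`. -/
theorem exists_nil_bound_H (n : ℕ) : ∃ c : ℝ, 0 < c ∧ ∀ H A : Matrix (Fin n) (Fin n) ℂ,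
    H.PosDef → IsNilpotent A → c * frH H A ^ 2 ≤ frH H (adjH H A * A - A * adjH H A) := by
  obtain ⟨c, hc, h⟩ := exists_nil_bound n
  refine ⟨c, hc, fun H A hH hA => ?_⟩
  obtain ⟨G, hG, hHG⟩ := exists_sqrt hH
  have hd : IsUnit G.det := (Matrix.isUnit_iff_isUnit_det G).1 hG
  rw [frH_conj hG hHG, frH_conj hG hHG]
  have hB : IsNilpotent (G * A * G⁻¹) := by
    obtain ⟨k, hk⟩ := hA
    refine ⟨k, ?_⟩
    have : ∀ k : ℕ, (G * A * G⁻¹) ^ k = G * A ^ k * G⁻¹ := by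
      intro k
      induction k with
      | zero => simp [Matrix.mul_nonsing_inv _ hd]
      | succ k ih =>
        rw [pow_succ, ih, pow_succ]
        calc G * A ^ k * G⁻¹ * (G * A * G⁻¹) = G * A ^ k * (G⁻¹ * G) * A * G⁻¹ := by noncomm_ring
          _ = _ := by rw [Matrix.nonsing_inv_mul _ hd]; noncomm_ring
    rw [this, hk]; simp
  have h1 := h _ hB
  rw [← adjH_conj hG hHG] at h1
  have h2 : G * adjH H A * G⁻¹ * (G * A * G⁻¹) - G * A * G⁻¹ * (G * adjH H A * G⁻¹)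
      = G * (adjH H A * A - A * adjH H A) * G⁻¹ := by
    calc _ = G * adjH H A * (G⁻¹ * G) * A * G⁻¹ - G * A * (G⁻¹ * G) * adjH H A * G⁻¹ := by
          noncomm_ring
      _ = _ := by rw [Matrix.nonsing_inv_mul _ hd]; noncomm_ring
  rw [h2] at h1
  exact h1

end Crest.Agent.R276.Nil_840
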