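import Crest.Agent.R276.HSL_574
import Crest.Agent.R276.NilH_840

/-!
# R276, helper574: GVHS, algebraic part — flat endomorphisms and the rational hull

`Γ` = monodromy group (subgroup of `GL_N(ℤ)`), `IsHS w S E` the polarised Hodge structure at the base
point.  Hypotheses `Mono`: `Γ` preserves `S`; `ad E` preserves the flat endomorphisms (commutant of `Γ`);
the orthogonal projector (for the Hodge metric) of every `Γ`-stable subspace is flat.

Results: flat endomorphisms are stable under the Hodge adjoint; the centre commutes with `E`;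
`Hul Γ W` = rational hull of (flat endomorphisms)·`W` is a sub-Hodge structure, and every `g ∈ Γ` which
is a scalar on `W` commutes on it with `E` and `Γ`, preserves the Hodge metric and has finite order.
-/

set_option autoImplicit false

open Matrix Polynomial
open scoped ComplexOrder

namespace Crest.Agent.R276.Hull_574

open Crest.Agent.R276.Ipc735 Crest.Agent.R276.HSL_574 Crest.Agent.R276.Nil_840

variable {N w : ℕ} {S E : Matrix (Fin N) (Fin N) ℂ}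

/-! ### `cm` -/

theorem cm_eq (g : GL (Fin N) ℤ) :
    cm g = (Int.castRingHom ℂ).mapMatrix (g : Matrix (Fin N) (Fin N) ℤ) := rfl

theorem cm_mul (g h : GL (Fin N) ℤ) : cm (g * h) = cm g * cm h := by
  rw [cm_eq, cm_eq, cm_eq, Units.val_mul, map_mul]

theorem cm_one : cm (1 : GL (Fin N) ℤ) = 1 := by
  rw [cm_eq, Units.val_one, map_one]

theorem cm_inv_mul (g : GL (Fin N) ℤ) : cm g⁻¹ * cm g = 1 := by
  rw [← cm_mul, inv_mul_cancel, cm_one]

theorem cm_mul_inv (g : GL (Fin N) ℤ) : cm g * cm g⁻¹ = 1 := by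
  rw [← cm_mul, mul_inv_cancel, cm_one]

theorem cm_pow (g : GL (Fin N) ℤ) (n : ℕ) : cm (g ^ n) = cm g ^ n := by
  induction n with
  | zero => rw [pow_zero, pow_zero, cm_one]
  | succ n ih => rw [pow_succ, pow_succ, cm_mul, ih]

/-! ### flat endomorphisms -/

/-- flat endomorphisms -/
def fl (Γ : Subgroup (GL (Fin N) ℤ)) : Submodule ℂ (Matrix (Fin N) (Fin N) ℂ) where
  carrier := {A | ∀ g ∈ Γ, A * cm g = cm g * A}
  add_mem' := fun {a b} ha hb g hg => by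
    rw [add_mul, mul_add, ha g hg, hb g hg]
  zero_mem' := fun g _ => by rw [zero_mul, mul_zero]
  smul_mem' := fun c a ha g hg => by
    rw [Matrix.smul_mul, Matrix.mul_smul, ha g hg]

variable {Γ : Subgroup (GL (Fin N) ℤ)}

theorem mem_fl {A : Matrix (Fin N) (Fin N) ℂ} : A ∈ fl Γ ↔ ∀ g ∈ Γ, A * cm g = cm g * A := Iff.rfl

theorem mul_mem_fl {A B : Matrix (Fin N) (Fin N) ℂ} (hA : A ∈ fl Γ) (hB : B ∈ fl Γ) :
    A * B ∈ fl Γ := fun g hg => by
  rw [mul_assoc, hB g hg, ← mul_assoc, hA g hg, mul_assoc]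

theorem one_mem_fl : (1 : Matrix (Fin N) (Fin N) ℂ) ∈ fl Γ := fun g _ => by
  rw [one_mul, mul_one]

/-- `Γ`-stable subspaces -/
def IsSt (Γ : Subgroup (GL (Fin N) ℤ)) (U : Submodule ℂ (Fin N → ℂ)) : Prop :=
  ∀ g ∈ Γ, ∀ u ∈ U, cm g *ᵥ u ∈ U

/-- subspaces stable under flat endomorphisms -/
def IsFs (Γ : Subgroup (GL (Fin N) ℤ)) (U : Submodule ℂ (Fin N → ℂ)) : Prop :=
  ∀ A ∈ fl Γ, ∀ u ∈ U, A *ᵥ u ∈ U

/-! ### subspaces defined by rational linear forms -/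

/-- rational linear forms vanishing on `W` -/
def ann (W : Submodule ℂ (Fin N → ℂ)) : Submodule ℚ (Fin N → ℚ) where
  carrier := {x | ∀ u ∈ W, ∑ i, (x i : ℂ) * u i = 0}
  add_mem' := fun {a b} ha hb u hu => by
    simp only [Pi.add_apply, Rat.cast_add, add_mul, Finset.sum_add_distrib]
    rw [ha u hu, hb u hu, add_zero]
  zero_mem' := fun u _ => by simp
  smul_mem' := fun c a ha u hu => by
    simp only [Pi.smul_apply, smul_eq_mul, Rat.cast_mul, mul_assoc]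
    rw [← Finset.mul_sum, ha u hu, mul_zero]

/-- the complex subspace defined by a rational subspace of linear forms -/
def zer (R : Submodule ℚ (Fin N → ℚ)) : Submodule ℂ (Fin N → ℂ) where
  carrier := {v | ∀ x ∈ R, ∑ i, (x i : ℂ) * v i = 0}
  add_mem' := fun {a b} ha hb x hx => by
    simp only [Pi.add_apply, mul_add, Finset.sum_add_distrib]
    rw [ha x hx, hb x hx, add_zero]
  zero_mem' := fun x _ => by simp
  smul_mem' := fun c a ha x hx => by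
    have h1 : ∀ i, (x i : ℂ) * (c • a) i = c * ((x i : ℂ) * a i) := fun i => by
      simp only [Pi.smul_apply, smul_eq_mul]; ring
    simp only [h1]
    rw [← Finset.mul_sum, ha x hx, mul_zero]

/-- the hypotheses (which hold for the monodromy of a polarised variation over a model) -/
structure Mono (w : ℕ) (S E : Matrix (Fin N) (Fin N) ℂ) (Γ : Subgroup (GL (Fin N) ℤ)) : Prop where
  hs : IsHS w S E
  pres : ∀ g ∈ Γ, (cm g)ᴴ * S * cm g = S
  adE : ∀ A ∈ fl Γ, E * A - A * E ∈ fl Γ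
  semi : ∀ R : Submodule ℚ (Fin N → ℚ), IsSt Γ (zer R) → ∃ Q ∈ fl Γ, Q * Q = Q ∧
    Qᴴ * hodge w S E = hodge w S E * Q ∧ ∀ v, v ∈ zer R ↔ Q *ᵥ v = v

theorem isUnit_S (h : IsHS w S E) : IsUnit S := by
  have h1 : IsUnit (S * weil w E) := (hodge_posDef h).isUnit
  have h2 : IsUnit (weil w E) := IsUnit.of_mul_eq_one _ (weil_mul_weil h)
  have h3 : S = (S * weil w E) * weil w E := by
    rw [mul_assoc, weil_mul_weil h, mul_one]
  rw [h3]
  exact h1.mul h2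

theorem adjS_mem (hM : Mono w S E Γ) {A : Matrix (Fin N) (Fin N) ℂ} (hA : A ∈ fl Γ) :
    S⁻¹ * Aᴴ * S ∈ fl Γ := by
  intro g hg
  have hdet : IsUnit S.det := (Matrix.isUnit_iff_isUnit_det S).1 (isUnit_S hM.hs)
  have h1 : (cm g)ᴴ * S = S * cm g⁻¹ := by
    have := hM.pres g hg
    calc (cm g)ᴴ * S = (cm g)ᴴ * S * (cm g * cm g⁻¹) := by rw [cm_mul_inv, mul_one]
      _ = ((cm g)ᴴ * S * cm g) * cm g⁻¹ := by noncomm_ring
      _ = _ := by rw [this]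
  have h1' : (cm g⁻¹)ᴴ * S = S * cm g := by
    have := hM.pres g⁻¹ (Γ.inv_mem hg)
    calc (cm g⁻¹)ᴴ * S = (cm g⁻¹)ᴴ * S * (cm g⁻¹ * cm g) := by rw [cm_inv_mul, mul_one]
      _ = ((cm g⁻¹)ᴴ * S * cm g⁻¹) * cm g := by noncomm_ring
      _ = _ := by rw [this]
  have h2 : A * cm g⁻¹ = cm g⁻¹ * A := hA _ (Γ.inv_mem hg)
  have h3 : (cm g⁻¹)ᴴ * Aᴴ = Aᴴ * (cm g⁻¹)ᴴ := by
    rw [← Matrix.conjTranspose_mul, ← Matrix.conjTranspose_mul, h2]
  have h4 : S⁻¹ * (cm g⁻¹)ᴴ = cm g * S⁻¹ := by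
    calc S⁻¹ * (cm g⁻¹)ᴴ = S⁻¹ * ((cm g⁻¹)ᴴ * S) * S⁻¹ := by
          rw [mul_assoc, mul_assoc, Matrix.mul_nonsing_inv _ hdet, mul_one]
      _ = S⁻¹ * (S * cm g) * S⁻¹ := by rw [h1']
      _ = (S⁻¹ * S) * cm g * S⁻¹ := by noncomm_ring
      _ = _ := by rw [Matrix.nonsing_inv_mul _ hdet, one_mul]
  calc S⁻¹ * Aᴴ * S * cm g = S⁻¹ * Aᴴ * (S * cm g) := by noncomm_ring
    _ = S⁻¹ * Aᴴ * ((cm g⁻¹)ᴴ * S) := by rw [h1']
    _ = S⁻¹ * (Aᴴ * (cm g⁻¹)ᴴ) * S := by noncomm_ring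
    _ = S⁻¹ * ((cm g⁻¹)ᴴ * Aᴴ) * S := by rw [h3]
    _ = (S⁻¹ * (cm g⁻¹)ᴴ) * Aᴴ * S := by noncomm_ring
    _ = (cm g * S⁻¹) * Aᴴ * S := by rw [h4]
    _ = cm g * (S⁻¹ * Aᴴ * S) := by noncomm_ring

theorem adL_mem (hM : Mono w S E Γ) : ∀ A ∈ fl Γ, adL E A ∈ fl Γ := hM.adE

/-- flat endomorphisms are stable under the adjoint for the Hodge metric -/
theorem adjH_mem (hM : Mono w S E Γ) {A : Matrix (Fin N) (Fin N) ℂ} (hA : A ∈ fl Γ) :
    adjH (hodge w S E) A ∈ fl Γ := by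
  obtain ⟨f, hf⟩ := weil_conj_eq_aeval hM.hs
  have h1 : adjH (hodge w S E) A = weil w E * (S⁻¹ * Aᴴ * S) * weil w E := by
    have h2 : (weil w E)⁻¹ = weil w E := Matrix.inv_eq_right_inv (weil_mul_weil hM.hs)
    unfold adjH hodge
    rw [Matrix.mul_inv_rev, h2]
    noncomm_ring
  rw [h1, hf]
  exact aeval_mem _ _ (adL_mem hM) f _ (adjS_mem hM hA)

/-- the centre of the algebra of flat endomorphisms -/
def ctr (Γ : Subgroup (GL (Fin N) ℤ)) : Submodule ℂ (Matrix (Fin N) (Fin N) ℂ) where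
  carrier := {A | A ∈ fl Γ ∧ ∀ B ∈ fl Γ, A * B = B * A}
  add_mem' := fun {a b} ha hb => ⟨(fl Γ).add_mem ha.1 hb.1, fun B hB => by
    rw [add_mul, mul_add, ha.2 B hB, hb.2 B hB]⟩
  zero_mem' := ⟨(fl Γ).zero_mem, fun B _ => by rw [zero_mul, mul_zero]⟩
  smul_mem' := fun c a ha => ⟨(fl Γ).smul_mem c ha.1, fun B hB => by
    rw [Matrix.smul_mul, Matrix.mul_smul, ha.2 B hB]⟩

theorem mem_ctr {A : Matrix (Fin N) (Fin N) ℂ} :
    A ∈ ctr Γ ↔ A ∈ fl Γ ∧ ∀ B ∈ fl Γ, A * B = B * A := Iff.rfl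

theorem adL_mem_ctr (hM : Mono w S E Γ) : ∀ A ∈ ctr Γ, adL E A ∈ ctr Γ := by
  intro A hA
  refine ⟨hM.adE A hA.1, fun B hB => ?_⟩
  have h1 := hA.2 B hB
  have h2 := hA.2 _ (hM.adE B hB)
  rw [adL_apply]
  have h3 : (E * A - A * E) * B - B * (E * A - A * E) =
      (E * (A * B) - (A * B) * E) - (E * (B * A) - (B * A) * E) -
        (A * (E * B - B * E) - (E * B - B * E) * A) := by noncomm_ring
  rw [← sub_eq_zero, h3, h1, h2]
  simp

theorem eq_zero_of_normal {H A : Matrix (Fin N) (Fin N) ℂ} (hH : H.PosDef) (hA : IsNilpotent A)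
    (hc : A * adjH H A = adjH H A * A) : A = 0 := by
  refine frH_eq_zero hH ?_
  have h1 : IsNilpotent (A * adjH H A) := by
    have hc' : Commute A (adjH H A) := hc
    exact hc'.isNilpotent_mul_right hA
  have h2 := Matrix.isNilpotent_trace_of_isNilpotent h1
  unfold frH
  rw [h2.eq_zero, Complex.zero_re]

/-- the centre commutes with `E` -/
theorem ctr_comm (hM : Mono w S E Γ) {A : Matrix (Fin N) (Fin N) ℂ} (hA : A ∈ ctr Γ) :
    E * A = A * E := by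
  have h1 : ∀ k : ℤ, k ≠ 0 → cpt w E A k = 0 := by
    intro k hk
    have h2 : cpt w E A k ∈ ctr Γ := by
      obtain ⟨f, hf⟩ := cpt_eq_aeval hM.hs k
      rw [hf]
      exact aeval_mem _ _ (adL_mem_ctr hM) f _ hA
    exact eq_zero_of_normal (hodge_posDef hM.hs)
      (isNilpotent_of_adL hM.hs hk (adL_cpt hM.hs A k)) (h2.2 _ (adjH_mem hM h2.1))
  have h3 : A = cpt w E A 0 := by
    conv_lhs => rw [sum_cpt hM.hs A]
    rw [Finset.sum_eq_single 0]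
    · intro k _ hk; exact h1 k hk
    · intro h; exact absurd (Finset.mem_Icc.2 ⟨by omega, by omega⟩) h
  have h4 := adL_cpt hM.hs A 0
  rw [← h3, adL_apply] at h4
  simpa [sub_eq_zero] using h4

theorem adjH_mul {H : Matrix (Fin N) (Fin N) ℂ} (hH : H.PosDef) (A B : Matrix (Fin N) (Fin N) ℂ) :
    adjH H (A * B) = adjH H B * adjH H A := by
  have hdet : IsUnit H.det := (Matrix.isUnit_iff_isUnit_det H).1 hH.isUnit
  unfold adjH
  rw [Matrix.conjTranspose_mul]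
  calc H⁻¹ * (Bᴴ * Aᴴ) * H = H⁻¹ * Bᴴ * (1 : Matrix (Fin N) (Fin N) ℂ) * Aᴴ * H := by noncomm_ring
    _ = H⁻¹ * Bᴴ * (H * H⁻¹) * Aᴴ * H := by rw [Matrix.mul_nonsing_inv _ hdet]
    _ = _ := by noncomm_ring

theorem adjH_adjH {H : Matrix (Fin N) (Fin N) ℂ} (hH : H.PosDef) (A : Matrix (Fin N) (Fin N) ℂ) :
    adjH H (adjH H A) = A := by
  have hdet : IsUnit H.det := (Matrix.isUnit_iff_isUnit_det H).1 hH.isUnit
  unfold adjH
  rw [Matrix.conjTranspose_mul, Matrix.conjTranspose_mul, Matrix.conjTranspose_conjTranspose,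
    Matrix.conjTranspose_nonsing_inv, hH.isHermitian.eq]
  calc H⁻¹ * (H * (A * H⁻¹)) * H = (H⁻¹ * H) * A * (H⁻¹ * H) := by noncomm_ring
    _ = _ := by rw [Matrix.nonsing_inv_mul _ hdet]; simp

theorem adjH_proj {H Q : Matrix (Fin N) (Fin N) ℂ} (hH : H.PosDef) (hQ : Qᴴ * H = H * Q) :
    adjH H Q = Q := by
  have hdet : IsUnit H.det := (Matrix.isUnit_iff_isUnit_det H).1 hH.isUnit
  unfold adjH
  rw [mul_assoc, hQ, ← mul_assoc, Matrix.nonsing_inv_mul _ hdet, one_mul]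

theorem ext_mulVec {A B : Matrix (Fin N) (Fin N) ℂ} (h : ∀ v, A *ᵥ v = B *ᵥ v) : A = B := by
  apply Matrix.toLin'.injective
  ext1 v
  ext1
  simp [h]

/-- the projector of a flat subspace stable under flat endomorphisms is central -/
theorem proj_ctr (hM : Mono w S E Γ) {U : Submodule ℂ (Fin N → ℂ)} (hF : IsFs Γ U)
    {Q : Matrix (Fin N) (Fin N) ℂ} (hQ : Q ∈ fl Γ)
    (hQH : Qᴴ * hodge w S E = hodge w S E * Q) (hQ2 : Q * Q = Q)
    (hU : ∀ v, v ∈ U ↔ Q *ᵥ v = v) : Q ∈ ctr Γ := by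
  refine ⟨hQ, fun B hB => ?_⟩
  have hpos := hodge_posDef hM.hs
  have h1 : ∀ A ∈ fl Γ, Q * (A * Q) = A * Q := by
    intro A hA
    refine ext_mulVec fun v => ?_
    have hv : Q *ᵥ v ∈ U := by
      rw [hU, Matrix.mulVec_mulVec, hQ2]
    have h2 := (hU _).1 (hF A hA _ hv)
    rw [← Matrix.mulVec_mulVec, ← Matrix.mulVec_mulVec]
    exact h2
  have h2 : Q * B = Q * B * Q := by
    have h3 := congrArg (adjH (hodge w S E)) (h1 _ (adjH_mem hM hB))
    rw [adjH_mul hpos, adjH_mul hpos, adjH_adjH hpos, adjH_proj hpos hQH] at h3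
    exact h3.symm
  rw [h2, mul_assoc, h1 B hB]

/-! ### rational hull -/

/-- rational hull -/
def hull (W : Submodule ℂ (Fin N → ℂ)) : Submodule ℂ (Fin N → ℂ) := zer (ann W)

theorem le_hull (W : Submodule ℂ (Fin N → ℂ)) : W ≤ hull W := fun u hu _ hx => hx u hu

theorem mem_zer {R : Submodule ℚ (Fin N → ℚ)} {v : Fin N → ℂ} :
    v ∈ zer R ↔ ∀ x ∈ R, ∑ i, (x i : ℂ) * v i = 0 := Iff.rfl

/-- a rational matrix as a complex matrix -/
def qm (A : Matrix (Fin N) (Fin N) ℚ) : Matrix (Fin N) (Fin N) ℂ := A.map (fun a : ℚ => (a : ℂ))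

theorem row_mul (x : Fin N → ℚ) (A : Matrix (Fin N) (Fin N) ℚ) (v : Fin N → ℂ) :
    ∑ i, ((x ᵥ* A) i : ℂ) * v i = ∑ i, (x i : ℂ) * (qm A *ᵥ v) i := by
  simp only [Matrix.vecMul, Matrix.mulVec, dotProduct, qm, Matrix.map_apply, Rat.cast_sum,
    Rat.cast_mul, Finset.sum_mul, Finset.mul_sum]
  rw [Finset.sum_comm]
  refine Finset.sum_congr rfl fun i _ => Finset.sum_congr rfl fun j _ => ?_
  ring

/-- a rational matrix killing `W` kills the hull -/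
theorem hull_kill {W : Submodule ℂ (Fin N → ℂ)} {A : Matrix (Fin N) (Fin N) ℚ}
    (h : ∀ u ∈ W, qm A *ᵥ u = 0) : ∀ u ∈ hull W, qm A *ᵥ u = 0 := by
  intro v hv
  ext j
  have h1 : A j ∈ ann W := by
    intro u hu
    have := congrFun (h u hu) j
    simpa [qm, Matrix.mulVec, dotProduct] using this
  have := hv _ h1
  simpa [qm, Matrix.mulVec, dotProduct] using this

/-- a rational matrix preserving `W` preserves the hull -/
theorem hull_pres {W : Submodule ℂ (Fin N → ℂ)} {A : Matrix (Fin N) (Fin N) ℚ}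
    (h : ∀ u ∈ W, qm A *ᵥ u ∈ W) : ∀ u ∈ hull W, qm A *ᵥ u ∈ hull W := by
  intro v hv x hx
  rw [← row_mul]
  refine hv _ fun u hu => ?_
  rw [row_mul]
  exact hx _ (h u hu)

/-- an integral invertible matrix as rational matrix -/
def gq (g : GL (Fin N) ℤ) : Matrix (Fin N) (Fin N) ℚ :=
  (g : Matrix (Fin N) (Fin N) ℤ).map (fun a : ℤ => (a : ℚ))

theorem qm_gq (g : GL (Fin N) ℤ) : qm (gq g) = cm g := by
  ext i j
  simp [qm, gq, cm]

theorem qm_mul (A B : Matrix (Fin N) (Fin N) ℚ) : qm (A * B) = qm A * qm B := by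
  have : qm = ⇑((Rat.castHom ℂ).mapMatrix (m := Fin N)) := rfl
  rw [this, map_mul]

theorem qm_sub (A B : Matrix (Fin N) (Fin N) ℚ) : qm (A - B) = qm A - qm B := by
  have : qm = ⇑((Rat.castHom ℂ).mapMatrix (m := Fin N)) := rfl
  rw [this, map_sub]

theorem qm_injective : Function.Injective (qm : Matrix (Fin N) (Fin N) ℚ → _) := by
  intro A B h
  ext i j
  have := congrFun (congrFun h i) j
  simp only [qm, Matrix.map_apply] at this
  exact_mod_cast this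

/-- coordinates with respect to a `ℚ`-basis of `ℂ` -/
noncomputable def cb : Module.Basis (Module.Basis.ofVectorSpaceIndex ℚ ℂ) ℚ ℂ :=
  Module.Basis.ofVectorSpace ℚ ℂ

/-- the rational coordinate matrices of a complex matrix -/
noncomputable def co (A : Matrix (Fin N) (Fin N) ℂ) (j : Module.Basis.ofVectorSpaceIndex ℚ ℂ) :
    Matrix (Fin N) (Fin N) ℚ := Matrix.of fun i k => cb.repr (A i k) j

theorem co_mul_gq (A : Matrix (Fin N) (Fin N) ℂ) (g : GL (Fin N) ℤ)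
    (j : Module.Basis.ofVectorSpaceIndex ℚ ℂ) : co (A * cm g) j = co A j * gq g := by
  ext i k
  simp only [co, Matrix.of_apply, Matrix.mul_apply, gq, Matrix.map_apply, cm, map_sum,
    Finsupp.coe_finsetSum, Finset.sum_apply]
  refine Finset.sum_congr rfl fun l _ => ?_
  have h1 : A i l * (((g : Matrix (Fin N) (Fin N) ℤ) l k : ℤ) : ℂ) =
      (((g : Matrix (Fin N) (Fin N) ℤ) l k : ℤ) : ℚ) • A i l := by
    rw [Rat.smul_def]; push_cast; ring
  rw [h1, map_smul, Finsupp.smul_apply, smul_eq_mul, mul_comm]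

theorem co_gq_mul (A : Matrix (Fin N) (Fin N) ℂ) (g : GL (Fin N) ℤ)
    (j : Module.Basis.ofVectorSpaceIndex ℚ ℂ) : co (cm g * A) j = gq g * co A j := by
  ext i k
  simp only [co, Matrix.of_apply, Matrix.mul_apply, gq, Matrix.map_apply, cm, map_sum,
    Finsupp.coe_finsetSum, Finset.sum_apply]
  refine Finset.sum_congr rfl fun l _ => ?_
  have h1 : (((g : Matrix (Fin N) (Fin N) ℤ) i l : ℤ) : ℂ) * A l k =
      (((g : Matrix (Fin N) (Fin N) ℤ) i l : ℤ) : ℚ) • A l k := by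
    rw [Rat.smul_def]; push_cast; ring
  rw [h1, map_smul, Finsupp.smul_apply, smul_eq_mul]

theorem co_mem {A : Matrix (Fin N) (Fin N) ℂ} (hA : A ∈ fl Γ)
    (j : Module.Basis.ofVectorSpaceIndex ℚ ℂ) : qm (co A j) ∈ fl Γ := by
  intro g hg
  rw [← qm_gq, ← qm_mul, ← qm_mul, ← co_mul_gq, ← co_gq_mul, hA g hg]

theorem eq_sum_co (A : Matrix (Fin N) (Fin N) ℂ) :
    ∃ J : Finset (Module.Basis.ofVectorSpaceIndex ℚ ℂ), A = ∑ j ∈ J, cb j • qm (co A j) := by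
  classical
  refine ⟨Finset.univ.biUnion fun i => Finset.univ.biUnion fun k => (cb.repr (A i k)).support, ?_⟩
  ext i k
  rw [Matrix.sum_apply]
  have h1 := cb.linearCombination_repr (A i k)
  rw [Finsupp.linearCombination_apply, Finsupp.sum] at h1
  conv_lhs => rw [← h1]
  rw [Finset.sum_subset (s₂ := Finset.univ.biUnion fun i => Finset.univ.biUnion fun k =>
    (cb.repr (A i k)).support)]
  · refine Finset.sum_congr rfl fun j _ => ?_
    simp only [Matrix.smul_apply, qm, Matrix.map_apply, co, Matrix.of_apply, smul_eq_mul,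
      Rat.smul_def]
    ring
  · intro j hj
    rw [Finset.mem_biUnion]
    refine ⟨i, Finset.mem_univ _, ?_⟩
    rw [Finset.mem_biUnion]
    exact ⟨k, Finset.mem_univ _, hj⟩
  · intro j _ hj
    rw [Finsupp.notMem_support_iff.1 hj, zero_smul]

theorem hull_fs {W : Submodule ℂ (Fin N → ℂ)} (hW : IsFs Γ W) : IsFs Γ (hull W) := by
  intro A hA v hv
  obtain ⟨J, hJ⟩ := eq_sum_co A
  rw [hJ, Matrix.sum_mulVec]
  refine Submodule.sum_mem _ fun j _ => ?_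
  rw [Matrix.smul_mulVec]
  exact Submodule.smul_mem _ _ (hull_pres (fun u hu => hW _ (co_mem hA j) u hu) v hv)

theorem hull_st {W : Submodule ℂ (Fin N → ℂ)} (hW : IsSt Γ W) : IsSt Γ (hull W) := by
  intro g hg v hv
  rw [← qm_gq]
  refine hull_pres (fun u hu => ?_) v hv
  rw [qm_gq]
  exact hW g hg u hu

/-! ### the hull of a flat subspace -/

/-- (flat endomorphisms)·`W` -/
def fspan (Γ : Subgroup (GL (Fin N) ℤ)) (W : Submodule ℂ (Fin N → ℂ)) : Submodule ℂ (Fin N → ℂ) :=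
  Submodule.span ℂ {v | ∃ A ∈ fl Γ, ∃ u ∈ W, v = A *ᵥ u}

theorem le_fspan (W : Submodule ℂ (Fin N → ℂ)) : W ≤ fspan Γ W := fun u hu =>
  Submodule.subset_span ⟨1, one_mem_fl, u, hu, (Matrix.one_mulVec u).symm⟩

theorem fspan_fs (W : Submodule ℂ (Fin N → ℂ)) : IsFs Γ (fspan Γ W) := by
  intro A hA v hv
  refine Submodule.span_induction (p := fun v _ => A *ᵥ v ∈ fspan Γ W) ?_ ?_ ?_ ?_ hv
  · rintro _ ⟨B, hB, u, hu, rfl⟩
    rw [Matrix.mulVec_mulVec]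
    exact Submodule.subset_span ⟨A * B, mul_mem_fl hA hB, u, hu, rfl⟩
  · rw [Matrix.mulVec_zero]; exact Submodule.zero_mem _
  · intro x y _ _ hx hy
    rw [Matrix.mulVec_add]; exact Submodule.add_mem _ hx hy
  · intro c x _ hx
    rw [Matrix.mulVec_smul]; exact Submodule.smul_mem _ _ hx

theorem fspan_st {W : Submodule ℂ (Fin N → ℂ)} (hW : IsSt Γ W) : IsSt Γ (fspan Γ W) := by
  intro g hg v hv
  refine Submodule.span_induction (p := fun v _ => cm g *ᵥ v ∈ fspan Γ W) ?_ ?_ ?_ ?_ hv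
  · rintro _ ⟨B, hB, u, hu, rfl⟩
    rw [Matrix.mulVec_mulVec, ← hB g hg, ← Matrix.mulVec_mulVec]
    exact Submodule.subset_span ⟨B, hB, _, hW g hg u hu, rfl⟩
  · rw [Matrix.mulVec_zero]; exact Submodule.zero_mem _
  · intro x y _ _ hx hy
    rw [Matrix.mulVec_add]; exact Submodule.add_mem _ hx hy
  · intro c x _ hx
    rw [Matrix.mulVec_smul]; exact Submodule.smul_mem _ _ hx

theorem fspan_scalar {W : Submodule ℂ (Fin N → ℂ)} {g : GL (Fin N) ℤ} (hg : g ∈ Γ) {ζ : ℂ}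
    (h : ∀ u ∈ W, cm g *ᵥ u = ζ • u) : ∀ u ∈ fspan Γ W, cm g *ᵥ u = ζ • u := by
  intro v hv
  refine Submodule.span_induction (p := fun v _ => cm g *ᵥ v = ζ • v) ?_ ?_ ?_ ?_ hv
  · rintro _ ⟨B, hB, u, hu, rfl⟩
    rw [Matrix.mulVec_mulVec, ← hB g hg, ← Matrix.mulVec_mulVec, h u hu, Matrix.mulVec_smul]
  · rw [Matrix.mulVec_zero, smul_zero]
  · intro x y _ _ hx hy
    rw [Matrix.mulVec_add, hx, hy, smul_add]
  · intro c x _ hx
    rw [Matrix.mulVec_smul, hx, smul_comm]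

/-- the rational hull of (flat endomorphisms)·`W` -/
def Hul (Γ : Subgroup (GL (Fin N) ℤ)) (W : Submodule ℂ (Fin N → ℂ)) : Submodule ℂ (Fin N → ℂ) :=
  hull (fspan Γ W)

theorem le_Hul (W : Submodule ℂ (Fin N → ℂ)) : W ≤ Hul Γ W := (le_fspan W).trans (le_hull _)

theorem Hul_fs (W : Submodule ℂ (Fin N → ℂ)) : IsFs Γ (Hul Γ W) := hull_fs (fspan_fs W)

theorem Hul_st {W : Submodule ℂ (Fin N → ℂ)} (hW : IsSt Γ W) : IsSt Γ (Hul Γ W) :=
  hull_st (fspan_st hW)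

/-- the projector on the hull -/
theorem exists_proj (hM : Mono w S E Γ) {W : Submodule ℂ (Fin N → ℂ)} (hW : IsSt Γ W) :
    ∃ Q ∈ ctr Γ, Q * Q = Q ∧ Qᴴ * hodge w S E = hodge w S E * Q ∧
      ∀ v, v ∈ Hul Γ W ↔ Q *ᵥ v = v := by
  obtain ⟨Q, hQ, hQ2, hQH, hU⟩ := hM.semi _ (Hul_st hW)
  exact ⟨Q, proj_ctr hM (Hul_fs W) hQ hQH hQ2 hU, hQ2, hQH, hU⟩

/-- the hull is a sub-Hodge structure -/
theorem Hul_E (hM : Mono w S E Γ) {W : Submodule ℂ (Fin N → ℂ)} (hW : IsSt Γ W) :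
    ∀ v ∈ Hul Γ W, E *ᵥ v ∈ Hul Γ W := by
  obtain ⟨Q, hQ, hQ2, hQH, hU⟩ := exists_proj hM hW
  intro v hv
  rw [hU] at hv ⊢
  rw [Matrix.mulVec_mulVec, ← ctr_comm hM hQ, ← Matrix.mulVec_mulVec, hv]

/-- a transport which is a scalar on `W` commutes with all transports on the hull -/
theorem Hul_comm {W : Submodule ℂ (Fin N → ℂ)} (hW : IsSt Γ W) {g : GL (Fin N) ℤ}
    (hg : g ∈ Γ) {ζ : ℂ} (h : ∀ u ∈ W, cm g *ᵥ u = ζ • u) {k : GL (Fin N) ℤ} (hk : k ∈ Γ) :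
    ∀ v ∈ Hul Γ W, cm g *ᵥ (cm k *ᵥ v) = cm k *ᵥ (cm g *ᵥ v) := by
  intro v hv
  have h1 : ∀ u ∈ fspan Γ W, qm (gq g * gq k - gq k * gq g) *ᵥ u = 0 := by
    intro u hu
    rw [qm_sub, qm_mul, qm_mul, qm_gq, qm_gq, Matrix.sub_mulVec, ← Matrix.mulVec_mulVec,
      ← Matrix.mulVec_mulVec, fspan_scalar hg h _ hu,
      fspan_scalar hg h _ (fspan_st hW k hk u hu), Matrix.mulVec_smul, sub_self]
  have h2 := hull_kill h1 v hv
  rw [qm_sub, qm_mul, qm_mul, qm_gq, qm_gq, Matrix.sub_mulVec, ← Matrix.mulVec_mulVec,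
    ← Matrix.mulVec_mulVec, sub_eq_zero] at h2
  exact h2

/-- a transport which is a scalar on `W` commutes with `E` on the hull -/
theorem Hul_commE (hM : Mono w S E Γ) {W : Submodule ℂ (Fin N → ℂ)} (hW : IsSt Γ W)
    {g : GL (Fin N) ℤ} (hg : g ∈ Γ) {ζ : ℂ} (h : ∀ u ∈ W, cm g *ᵥ u = ζ • u) :
    ∀ v ∈ Hul Γ W, cm g *ᵥ (E *ᵥ v) = E *ᵥ (cm g *ᵥ v) := by
  obtain ⟨Q, hQ, hQ2, hQH, hU⟩ := exists_proj hM hW
  have hQm : ∀ v, Q *ᵥ v ∈ Hul Γ W := fun v => by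
    rw [hU, Matrix.mulVec_mulVec, hQ2]
  have h1 : cm g * Q ∈ ctr Γ := by
    constructor
    · intro k hk
      rw [mul_assoc, hQ.1 k hk, ← mul_assoc, ← mul_assoc]
      refine ext_mulVec fun v => ?_
      rw [← Matrix.mulVec_mulVec, ← Matrix.mulVec_mulVec, ← Matrix.mulVec_mulVec,
        ← Matrix.mulVec_mulVec]
      exact Hul_comm hW hg h hk _ (hQm v)
    · intro B hB
      rw [mul_assoc, hQ.2 B hB, ← mul_assoc, ← hB g hg, mul_assoc]
  have h2 := ctr_comm hM h1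
  have h3 := ctr_comm hM hQ
  intro v hv
  have hv' := (hU v).1 hv
  have h4 : cm g *ᵥ (E *ᵥ v) = (cm g * Q * E) *ᵥ v := by
    rw [mul_assoc, ← h3, ← Matrix.mulVec_mulVec, ← Matrix.mulVec_mulVec, hv']
  rw [h4, ← h2, ← Matrix.mulVec_mulVec, ← Matrix.mulVec_mulVec, hv']

theorem Hul_comm_aeval (hM : Mono w S E Γ) {W : Submodule ℂ (Fin N → ℂ)} (hW : IsSt Γ W)
    {g : GL (Fin N) ℤ} (hg : g ∈ Γ) {ζ : ℂ} (h : ∀ u ∈ W, cm g *ᵥ u = ζ • u) (f : ℂ[X]) :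
    ∀ v ∈ Hul Γ W, Polynomial.aeval E f *ᵥ v ∈ Hul Γ W ∧
      cm g *ᵥ (Polynomial.aeval E f *ᵥ v) = Polynomial.aeval E f *ᵥ (cm g *ᵥ v) := by
  induction f using Polynomial.induction_on' with
  | add f f' hf hf' =>
    intro v hv
    rw [map_add, Matrix.add_mulVec, Matrix.add_mulVec, Matrix.mulVec_add]
    exact ⟨Submodule.add_mem _ (hf v hv).1 (hf' v hv).1, by rw [(hf v hv).2, (hf' v hv).2]⟩
  | monomial n a =>
    intro v hv
    rw [← C_mul_X_pow_eq_monomial, map_mul, aeval_C, map_pow, aeval_X, ← Algebra.smul_def,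
      Matrix.smul_mulVec, Matrix.smul_mulVec, Matrix.mulVec_smul]
    have h1 : ∀ n : ℕ, ∀ v ∈ Hul Γ W, E ^ n *ᵥ v ∈ Hul Γ W ∧
        cm g *ᵥ (E ^ n *ᵥ v) = E ^ n *ᵥ (cm g *ᵥ v) := by
      intro n
      induction n with
      | zero => intro v hv; simp [hv]
      | succ n ih =>
        intro v hv
        rw [pow_succ', ← Matrix.mulVec_mulVec, ← Matrix.mulVec_mulVec]
        exact ⟨Hul_E hM hW _ (ih v hv).1, by
          rw [Hul_commE hM hW hg h _ (ih v hv).1, (ih v hv).2]⟩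
    exact ⟨Submodule.smul_mem _ _ (h1 n v hv).1, by rw [(h1 n v hv).2]⟩

/-- a transport which is a scalar on `W` preserves the Hodge metric on the hull -/
theorem Hul_herm (hM : Mono w S E Γ) {W : Submodule ℂ (Fin N → ℂ)} (hW : IsSt Γ W)
    {g : GL (Fin N) ℤ} (hg : g ∈ Γ) {ζ : ℂ} (h : ∀ u ∈ W, cm g *ᵥ u = ζ • u)
    (u v : Fin N → ℂ) (hv : v ∈ Hul Γ W) :
    star (cm g *ᵥ u) ⬝ᵥ (hodge w S E *ᵥ (cm g *ᵥ v)) = star u ⬝ᵥ (hodge w S E *ᵥ v) := by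
  have h1 : ∃ f : ℂ[X], weil w E = Polynomial.aeval E f := by
    refine ⟨∑ p ∈ Finset.range (w + 1), C ((-1 : ℂ) ^ p) *
      Lagrange.basis (Finset.range (w + 1)) (fun q : ℕ => (q : ℂ)) p, ?_⟩
    unfold weil
    rw [map_sum]
    refine Finset.sum_congr rfl fun p _ => ?_
    rw [map_mul, aeval_C, ← Algebra.smul_def]
    rfl
  obtain ⟨f, hf⟩ := h1
  unfold hodge
  rw [hf, ← Matrix.mulVec_mulVec, ← (Hul_comm_aeval hM hW hg h f v hv).2, Matrix.star_mulVec,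
    ← Matrix.dotProduct_mulVec, Matrix.mulVec_mulVec, Matrix.mulVec_mulVec,
    hM.pres g hg, Matrix.mulVec_mulVec]

/-! ### integral vectors and finite order -/

/-- a vector of integers as complex vector -/
def zv (v : Fin N → ℤ) : Fin N → ℂ := fun i => (v i : ℂ)

/-- coordinates of a vector with respect to a `ℚ`-basis of `ℂ` -/
noncomputable def cov (v : Fin N → ℂ) (j : Module.Basis.ofVectorSpaceIndex ℚ ℂ) : Fin N → ℚ :=
  fun i => cb.repr (v i) j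

theorem eq_sum_cov (v : Fin N → ℂ) :
    ∃ J : Finset (Module.Basis.ofVectorSpaceIndex ℚ ℂ),
      v = ∑ j ∈ J, cb j • (fun i => ((cov v j i : ℚ) : ℂ)) := by
  classical
  refine ⟨Finset.univ.biUnion fun i => (cb.repr (v i)).support, ?_⟩
  ext i
  rw [Finset.sum_apply]
  have h1 := cb.linearCombination_repr (v i)
  rw [Finsupp.linearCombination_apply, Finsupp.sum] at h1
  conv_lhs => rw [← h1]
  rw [Finset.sum_subset (s₂ := Finset.univ.biUnion fun i => (cb.repr (v i)).support)]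
  · refine Finset.sum_congr rfl fun j _ => ?_
    simp only [Pi.smul_apply, cov, smul_eq_mul, Rat.smul_def]
    ring
  · intro j hj
    rw [Finset.mem_biUnion]
    exact ⟨i, Finset.mem_univ _, hj⟩
  · intro j _ hj
    rw [Finsupp.notMem_support_iff.1 hj, zero_smul]

theorem cov_mem {R : Submodule ℚ (Fin N → ℚ)} {v : Fin N → ℂ} (hv : v ∈ zer R)
    (j : Module.Basis.ofVectorSpaceIndex ℚ ℂ) : (fun i => ((cov v j i : ℚ) : ℂ)) ∈ zer R := by
  intro x hx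
  have h1 := hv x hx
  have h2 : cb.repr (∑ i, (x i : ℂ) * v i) j = ∑ i, x i * cov v j i := by
    rw [map_sum, Finsupp.coe_finsetSum, Finset.sum_apply]
    refine Finset.sum_congr rfl fun i _ => ?_
    rw [← Rat.smul_def, map_smul, Finsupp.smul_apply, smul_eq_mul]
    rfl
  rw [h1, map_zero, Finsupp.zero_apply] at h2
  have h3 : ((∑ i, x i * cov v j i : ℚ) : ℂ) = 0 := by rw [← h2]; simp
  push_cast at h3
  exact h3

/-- clearing denominators -/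
theorem exists_int (v : Fin N → ℚ) : ∃ d : ℕ, d ≠ 0 ∧ ∃ u : Fin N → ℤ, ∀ i, (u i : ℚ) = d * v i := by
  refine ⟨∏ i, (v i).den, Finset.prod_ne_zero_iff.2 fun i _ => (v i).den_nz, ?_⟩
  have h : ∀ i, ∃ m : ℤ, (m : ℚ) = ((∏ i, (v i).den : ℕ) : ℚ) * v i := by
    intro i
    obtain ⟨c, hc⟩ := Finset.dvd_prod_of_mem (fun i => (v i).den) (Finset.mem_univ i)
    refine ⟨c * (v i).num, ?_⟩
    rw [hc]
    push_cast
    have h1 : ((v i).den : ℚ) * v i = (v i).num := by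
      rw [mul_comm]; exact Rat.mul_den_eq_num (v i)
    rw [← h1]
    ring
  choose u hu using h
  exact ⟨u, hu⟩

/-- a subspace defined by rational forms is spanned by its integral vectors -/
theorem zer_eq_span (R : Submodule ℚ (Fin N → ℚ)) :
    zer R = Submodule.span ℂ {v | ∃ u : Fin N → ℤ, zv u = v ∧ v ∈ zer R} := by
  refine le_antisymm ?_ (Submodule.span_le.2 fun v hv => ?_)
  · intro v hv
    obtain ⟨J, hJ⟩ := eq_sum_cov v
    rw [hJ]
    refine Submodule.sum_mem _ fun j _ => Submodule.smul_mem _ _ ?_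
    obtain ⟨d, hd, u, hu⟩ := exists_int (cov v j)
    have h1 : (fun i => ((cov v j i : ℚ) : ℂ)) = ((d : ℂ)⁻¹) • zv u := by
      ext i
      have h2 : ((u i : ℚ) : ℂ) = ((d * cov v j i : ℚ) : ℂ) := by rw [hu i]
      push_cast at h2
      simp only [zv, Pi.smul_apply, smul_eq_mul]
      rw [h2, ← mul_assoc, inv_mul_cancel₀ (by exact_mod_cast hd), one_mul]
    rw [h1]
    refine Submodule.smul_mem _ _ (Submodule.subset_span ⟨u, rfl, ?_⟩)
    have h3 : zv u = (d : ℂ) • (fun i => ((cov v j i : ℚ) : ℂ)) := by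
      rw [h1, smul_smul, mul_inv_cancel₀ (by exact_mod_cast hd), one_smul]
    rw [h3]
    exact Submodule.smul_mem _ _ (cov_mem hv j)
  · obtain ⟨u, _, h2⟩ := hv
    exact h2

theorem finite_bdd {H : Matrix (Fin N) (Fin N) ℂ} (hH : H.PosDef) (K : ℝ) :
    Set.Finite {v : Fin N → ℤ | (star (zv v) ⬝ᵥ (H *ᵥ zv v)).re ≤ K} := by
  obtain ⟨G, hG, hHG⟩ := exists_sqrt hH
  have hd : IsUnit G.det := (Matrix.isUnit_iff_isUnit_det G).1 hG
  have h1 : ∀ v : Fin N → ℂ, (star v ⬝ᵥ (H *ᵥ v)).re = ∑ i, ‖(G *ᵥ v) i‖ ^ 2 := by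
    intro v
    rw [hHG, ← Matrix.mulVec_mulVec, Matrix.dotProduct_mulVec, ← Matrix.star_mulVec]
    simp only [dotProduct, Complex.re_sum, Pi.star_apply]
    refine Finset.sum_congr rfl fun i _ => ?_
    rw [Complex.star_def, mul_comm, Complex.mul_conj, Complex.normSq_eq_norm_sq, Complex.ofReal_re]
  obtain ⟨C, hC⟩ : ∃ C : ℝ, ∀ v : Fin N → ℂ, ∀ i, ‖v i‖ ≤ C * ∑ j, ‖(G *ᵥ v) j‖ := by
    refine ⟨∑ i, ∑ j, ‖G⁻¹ i j‖, fun v i => ?_⟩
    have h2 : v = G⁻¹ *ᵥ (G *ᵥ v) := by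
      rw [Matrix.mulVec_mulVec, Matrix.nonsing_inv_mul _ hd, Matrix.one_mulVec]
    have h3 : v i = ∑ j, G⁻¹ i j * (G *ᵥ v) j := by
      conv_lhs => rw [h2]
      rfl
    rw [h3]
    calc ‖∑ j, G⁻¹ i j * (G *ᵥ v) j‖ ≤ ∑ j, ‖G⁻¹ i j * (G *ᵥ v) j‖ := norm_sum_le _ _
      _ ≤ ∑ j, ‖G⁻¹ i j‖ * ∑ l, ‖(G *ᵥ v) l‖ := by
          refine Finset.sum_le_sum fun j _ => ?_
          rw [norm_mul]
          exact mul_le_mul_of_nonneg_left (Finset.single_le_sum (f := fun l => ‖(G *ᵥ v) l‖)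
            (fun _ _ => norm_nonneg _) (Finset.mem_univ j)) (norm_nonneg _)
      _ = (∑ j, ‖G⁻¹ i j‖) * ∑ l, ‖(G *ᵥ v) l‖ := by rw [Finset.sum_mul]
      _ ≤ (∑ i, ∑ j, ‖G⁻¹ i j‖) * ∑ l, ‖(G *ᵥ v) l‖ := by
          refine mul_le_mul_of_nonneg_right ?_ (Finset.sum_nonneg fun _ _ => norm_nonneg _)
          exact Finset.single_le_sum (f := fun i => ∑ j, ‖G⁻¹ i j‖)
            (fun _ _ => Finset.sum_nonneg fun _ _ => norm_nonneg _) (Finset.mem_univ i)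
  obtain ⟨B, hB⟩ : ∃ B : ℤ, C * (N * (K + 1)) < B ∧ 0 < B := by
    obtain ⟨B, hB⟩ := exists_int_gt (max (C * (N * (K + 1))) 0)
    exact ⟨B, lt_of_le_of_lt (le_max_left _ _) hB,
      by exact_mod_cast lt_of_le_of_lt (le_max_right _ _) hB⟩
  refine (Set.Finite.pi' (t := fun _ : Fin N => Set.Icc (-B) B)
    fun _ => Set.finite_Icc _ _).subset fun v hv i => ?_
  rw [Set.mem_ofPred_eq, h1] at hv
  have hC0 : 0 ≤ C ∨ (∑ j, ‖(G *ᵥ zv v) j‖) = 0 := by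
    by_contra hcon
    push Not at hcon
    have h4 := hC (zv v) i
    have h5 : 0 < ∑ j, ‖(G *ᵥ zv v) j‖ :=
      lt_of_le_of_ne (Finset.sum_nonneg fun _ _ => norm_nonneg _) (Ne.symm hcon.2)
    have h6 : C * ∑ j, ‖(G *ᵥ zv v) j‖ < 0 := mul_neg_of_neg_of_pos hcon.1 h5
    linarith [norm_nonneg (zv v i)]
  have h7 : ∑ j, ‖(G *ᵥ zv v) j‖ ≤ N * (K + 1) := by
    have h8 : ∀ j ∈ Finset.univ, ‖(G *ᵥ zv v) j‖ ≤ K + 1 := by
      intro j _
      have h9 : ‖(G *ᵥ zv v) j‖ ^ 2 ≤ K := le_trans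
        (Finset.single_le_sum (f := fun j => ‖(G *ᵥ zv v) j‖ ^ 2) (fun _ _ => sq_nonneg _)
          (Finset.mem_univ j)) hv
      nlinarith [sq_nonneg (‖(G *ᵥ zv v) j‖ - 1), norm_nonneg ((G *ᵥ zv v) j)]
    refine (Finset.sum_le_sum h8).trans_eq ?_
    rw [Finset.sum_const, Finset.card_univ, Fintype.card_fin, nsmul_eq_mul]
  have h10 : ‖zv v i‖ ≤ B := by
    refine (hC (zv v) i).trans ?_
    rcases hC0 with h0 | h0
    · exact (mul_le_mul_of_nonneg_left h7 h0).trans hB.1.le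
    · rw [h0, mul_zero]; exact_mod_cast hB.2.le
  have h11 : |(v i : ℝ)| ≤ B := by
    have : ‖zv v i‖ = |(v i : ℝ)| := by
      unfold zv
      rw [← Complex.ofReal_intCast, Complex.norm_real, Real.norm_eq_abs]
    rwa [this] at h10
  have h12 : |v i| ≤ B := by exact_mod_cast h11
  exact Set.mem_Icc.2 (abs_le.1 h12)

theorem cm_mulVec_zv (g : GL (Fin N) ℤ) (v : Fin N → ℤ) :
    cm g *ᵥ zv v = zv ((g : Matrix (Fin N) (Fin N) ℤ) *ᵥ v) := by
  ext i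
  simp [zv, cm, Matrix.mulVec, dotProduct]

/-- the restrictions to the hull of the transports which are scalars on `W` form a finite set -/
theorem Hul_finite (hM : Mono w S E Γ) {W : Submodule ℂ (Fin N → ℂ)} (hW : IsSt Γ W) :
    Set.Finite {f : Hul Γ W → (Fin N → ℂ) | ∃ g ∈ Γ, (∃ ζ : ℂ, ∀ u ∈ W, cm g *ᵥ u = ζ • u) ∧
      f = fun v : Hul Γ W => cm g *ᵥ (v : Fin N → ℂ)} := by
  have hspan : Hul Γ W = Submodule.span ℂ {v | ∃ u : Fin N → ℤ, zv u = v ∧ v ∈ Hul Γ W} :=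
    zer_eq_span _
  have hfg : (Submodule.span ℂ {v | ∃ u : Fin N → ℤ, zv u = v ∧ v ∈ Hul Γ W}).FG :=
    IsNoetherian.noetherian _
  obtain ⟨B, hB, hBs⟩ := Submodule.fg_span_iff_fg_span_finset_subset _ |>.1 hfg
  rw [← hspan] at hBs
  have hBm : ∀ b : B, (b : Fin N → ℂ) ∈ Hul Γ W := fun b => (hB b.2).choose_spec.2
  let F : B → Set (Fin N → ℂ) := fun b =>
    zv '' {v : Fin N → ℤ | (star (zv v) ⬝ᵥ (hodge w S E *ᵥ zv v)).re ≤
      (star (b : Fin N → ℂ) ⬝ᵥ (hodge w S E *ᵥ (b : Fin N → ℂ))).re}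
  have hF : (Set.pi Set.univ F).Finite :=
    Set.Finite.pi' (t := F) (fun b => (finite_bdd (hodge_posDef hM.hs) _).image _) |>.subset
      (fun f hf b => hf b (Set.mem_univ b))
  let r : (Hul Γ W → (Fin N → ℂ)) → (B → (Fin N → ℂ)) := fun f b => f ⟨b, hBm b⟩
  refine Set.Finite.of_finite_image (f := r) (hF.subset ?_) ?_
  · rintro _ ⟨f, ⟨g, hg, ⟨ζ, hζ⟩, rfl⟩, rfl⟩ b _
    obtain ⟨u, hu, hu2⟩ := hB b.2
    refine ⟨(g : Matrix (Fin N) (Fin N) ℤ) *ᵥ u, ?_, ?_⟩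
    · rw [Set.mem_ofPred_eq, ← cm_mulVec_zv, hu, Hul_herm hM hW hg hζ _ _ hu2]
    · rw [← cm_mulVec_zv, hu]
  · rintro _ ⟨g, hg, _, rfl⟩ _ ⟨g', hg', _, rfl⟩ he
    funext v
    obtain ⟨v, hv⟩ := v
    have h1 : v ∈ Submodule.span ℂ (B : Set (Fin N → ℂ)) := hBs ▸ hv
    show cm g *ᵥ v = cm g' *ᵥ v
    refine Submodule.span_induction (p := fun v _ => cm g *ᵥ v = cm g' *ᵥ v) ?_ ?_ ?_ ?_ h1
    · intro b hb
      exact congrFun he ⟨b, hb⟩
    · rw [Matrix.mulVec_zero, Matrix.mulVec_zero]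
    · intro x y _ _ hx hy
      rw [Matrix.mulVec_add, Matrix.mulVec_add, hx, hy]
    · intro c x _ hx
      rw [Matrix.mulVec_smul, Matrix.mulVec_smul, hx]

theorem scalar_pow {W : Submodule ℂ (Fin N → ℂ)} {g : GL (Fin N) ℤ} {ζ : ℂ}
    (h : ∀ u ∈ W, cm g *ᵥ u = ζ • u) (n : ℕ) : ∀ u ∈ W, cm (g ^ n) *ᵥ u = ζ ^ n • u := by
  induction n with
  | zero => intro u _; rw [pow_zero, pow_zero, cm_one, Matrix.one_mulVec, one_smul]
  | succ n ih =>
    intro u hu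
    rw [pow_succ, cm_mul, ← Matrix.mulVec_mulVec, h u hu, Matrix.mulVec_smul, ih u hu, smul_smul,
      pow_succ, mul_comm]

/-- uniform finite order -/
theorem Hul_order (hM : Mono w S E Γ) {W : Submodule ℂ (Fin N → ℂ)} (hW : IsSt Γ W) :
    ∃ M : ℕ, 0 < M ∧ ∀ g ∈ Γ, ∀ ζ : ℂ, (∀ u ∈ W, cm g *ᵥ u = ζ • u) →
      ∀ v ∈ Hul Γ W, cm (g ^ M) *ᵥ v = v := by
  have hfin := Hul_finite hM hW
  refine ⟨(hfin.toFinset.card + 1).factorial, Nat.factorial_pos _, fun g hg ζ hζ => ?_⟩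
  let φ : Fin (hfin.toFinset.card + 1) → (Hul Γ W → (Fin N → ℂ)) :=
    fun n => fun v => cm (g ^ (n : ℕ)) *ᵥ (v : Fin N → ℂ)
  have hφ : ∀ n, φ n ∈ hfin.toFinset := by
    intro n
    rw [Set.Finite.mem_toFinset]
    exact ⟨g ^ (n : ℕ), Γ.pow_mem hg _, ⟨ζ ^ (n : ℕ), scalar_pow hζ _⟩, rfl⟩
  obtain ⟨i, _, j, _, hij, he⟩ := Finset.exists_ne_map_eq_of_card_lt_of_maps_to
    (s := Finset.univ) (t := hfin.toFinset) (f := φ) (by simp) (fun n _ => hφ n)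
  have key : ∀ i j : Fin (hfin.toFinset.card + 1), (i : ℕ) < j → φ i = φ j →
      ∀ v ∈ Hul Γ W, cm (g ^ ((j : ℕ) - i)) *ᵥ v = v := by
    intro i j hlt he v hv
    have h1 := congrFun he ⟨v, hv⟩
    have h2 : cm (g ^ (i : ℕ)) *ᵥ v = cm (g ^ (j : ℕ)) *ᵥ v := h1
    have h3 : g ^ (j : ℕ) = g ^ (i : ℕ) * g ^ ((j : ℕ) - i) := by
      rw [← pow_add, Nat.add_sub_cancel' hlt.le]
    rw [h3, cm_mul, ← Matrix.mulVec_mulVec] at h2
    have h4 := congrArg (fun x => cm (g ^ (i : ℕ))⁻¹ *ᵥ x) h2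
    simp only [Matrix.mulVec_mulVec] at h4
    rw [← mul_assoc, cm_inv_mul, one_mul, Matrix.one_mulVec] at h4
    exact h4.symm
  obtain ⟨d, hd0, hdle, hd⟩ : ∃ d : ℕ, 0 < d ∧ d ≤ hfin.toFinset.card + 1 ∧
      ∀ v ∈ Hul Γ W, cm (g ^ d) *ᵥ v = v := by
    rcases lt_or_gt_of_ne (fun h => hij (Fin.ext h) : (i : ℕ) ≠ j) with h | h
    · exact ⟨j - i, by omega, by omega, key i j h he⟩
    · exact ⟨i - j, by omega, by omega, key j i h he.symm⟩
  obtain ⟨c, hc⟩ := Nat.dvd_factorial hd0 hdle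
  have hpow : ∀ n : ℕ, ∀ v ∈ Hul Γ W, cm ((g ^ d) ^ n) *ᵥ v = v := by
    intro n
    induction n with
    | zero => intro v _; rw [pow_zero, cm_one, Matrix.one_mulVec]
    | succ n ih =>
      intro v hv
      rw [pow_succ, cm_mul, ← Matrix.mulVec_mulVec, hd v hv, ih v hv]
  intro v hv
  rw [hc, pow_mul]
  exact hpow c v hv

/-- **flat case**: if every transport is a scalar on `W`, the monodromy on the hull is finite -/
theorem Hul_finite_all (hM : Mono w S E Γ) {W : Submodule ℂ (Fin N → ℂ)} (hW : IsSt Γ W)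
    (hs : ∀ g ∈ Γ, ∃ ζ : ℂ, ∀ u ∈ W, cm g *ᵥ u = ζ • u) :
    Set.Finite {f : Hul Γ W → (Fin N → ℂ) | ∃ g ∈ Γ,
      f = fun v : Hul Γ W => cm g *ᵥ (v : Fin N → ℂ)} :=
  (Hul_finite hM hW).subset fun _ ⟨g, hg, h⟩ => ⟨g, hg, hs g hg, h⟩

/-- a nonzero vector gives a nonzero `W`, so the scalar is a root of unity -/
theorem scalar_root (hM : Mono w S E Γ) {W : Submodule ℂ (Fin N → ℂ)} (hW : IsSt Γ W)
    (h0 : W ≠ ⊥) : ∃ M : ℕ, 0 < M ∧ ∀ g ∈ Γ, ∀ ζ : ℂ, (∀ u ∈ W, cm g *ᵥ u = ζ • u) → ζ ^ M = 1 := by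
  obtain ⟨M, hM0, h⟩ := Hul_order hM hW
  refine ⟨M, hM0, fun g hg ζ hζ => ?_⟩
  obtain ⟨u, hu, hu0⟩ := Submodule.exists_mem_ne_zero_of_ne_bot h0
  have h1 := h g hg ζ hζ u (le_Hul W hu)
  rw [scalar_pow hζ M u hu] at h1
  have h2 : (ζ ^ M - 1) • u = 0 := by rw [sub_smul, h1, one_smul, sub_self]
  rcases smul_eq_zero.1 h2 with h3 | h3
  · exact sub_eq_zero.1 h3
  · exact absurd h3 hu0

end Crest.Agent.R276.Hull_574
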