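import Crest.Agent.R276.TrA_617
import Crest.Agent.R276.Hull_574

/-!
# R276, helper617: GVHS-T, matrix forms of the chain transport

* `rdom_lpc`, `rdom_lc` : Riemann domains are locally (path) connected.
* `mat_*` : flat endomorphism fields `lM P Φ z y = Φ z`.
* `vec_*` : flat sections `lV P v z y = v z`; `ivec_*` integral flat sections.
* `sub_*` : flat subbundles (`Submodule ℂ (Fin N → ℂ)`); `isub_*` for lattices.
* `form_*` : flat Hermitian forms `S y = (cm (P z y))ᴴ * S z * cm (P z y)`.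
* `gl_*` : flat automorphisms (`P z y * ρ y = ρ z * P z y`).
-/

set_option autoImplicit false

open Set Topology Filter Matrix

namespace Crest.Agent.R276.Tr_617

open Crest.Agent.R276.Ipc735 Crest.Agent.R276.Top1_175 Crest.Agent.R271.Ho51
  Crest.Agent.R276.Hull_574

/-! ### Riemann domains are locally path connected -/

theorem rdom_lpc {m : ℕ} {X : Type*} [TopologicalSpace X] [RDom m X] :
    LocallyPathConnectedSpace X := by
  let _ : ChartedSpace (Fin m → ℂ) X :=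
    { atlas := Set.range fun x : X => ch x
      chartAt := fun x => ch x
      mem_chart_source := fun x => mem_ch x
      chart_mem_atlas := fun x => ⟨x, rfl⟩ }
  exact ChartedSpace.locallyPathConnectedSpace (Fin m → ℂ) X

instance (priority := 50) rdom_lpc' {m : ℕ} {X : Type*} [TopologicalSpace X] [RDom m X] :
    LocallyPathConnectedSpace X := rdom_lpc (m := m)

theorem rdom_lc {m : ℕ} {X : Type*} [TopologicalSpace X] [RDom m X] :
    LocallyConnectedSpace X := by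
  have := rdom_lpc (X := X)
  infer_instance

variable {X : Type*} [TopologicalSpace X] {N : ℕ} {P : X → X → GL (Fin N) ℤ} {x y z x₀ : X}
  {g k : GL (Fin N) ℤ}

/-! ### the actions -/

/-- conjugation action on matrices -/
def conjM (g : GL (Fin N) ℤ) (A : Matrix (Fin N) (Fin N) ℂ) : Matrix (Fin N) (Fin N) ℂ :=
  cm g * A * cm g⁻¹

theorem conjM_one (A : Matrix (Fin N) (Fin N) ℂ) : conjM 1 A = A := by
  rw [conjM, inv_one, cm_one, one_mul, mul_one]

theorem conjM_mul (g h : GL (Fin N) ℤ) (A : Matrix (Fin N) (Fin N) ℂ) :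
    conjM (g * h) A = conjM g (conjM h A) := by
  simp only [conjM]
  rw [_root_.mul_inv_rev, cm_mul, cm_mul]
  simp only [mul_assoc]

/-- complex matrices with the conjugation action -/
def CMat (N : ℕ) : Type := Matrix (Fin N) (Fin N) ℂ

instance : MulAction (GL (Fin N) ℤ) (CMat N) where
  smul g A := conjM g A
  one_smul A := conjM_one A
  mul_smul g h A := conjM_mul g h A

/-- action on Hermitian forms -/
def conjF (g : GL (Fin N) ℤ) (A : Matrix (Fin N) (Fin N) ℂ) : Matrix (Fin N) (Fin N) ℂ :=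
  (cm g⁻¹)ᴴ * A * cm g⁻¹

theorem conjF_one (A : Matrix (Fin N) (Fin N) ℂ) : conjF 1 A = A := by
  rw [conjF, inv_one, cm_one, conjTranspose_one, one_mul, mul_one]

theorem conjF_mul (g h : GL (Fin N) ℤ) (A : Matrix (Fin N) (Fin N) ℂ) :
    conjF (g * h) A = conjF g (conjF h A) := by
  simp only [conjF]
  rw [_root_.mul_inv_rev, cm_mul, conjTranspose_mul]
  simp only [mul_assoc]

/-- Hermitian forms with the natural action -/
def CForm (N : ℕ) : Type := Matrix (Fin N) (Fin N) ℂ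

instance : MulAction (GL (Fin N) ℤ) (CForm N) where
  smul g A := conjF g A
  one_smul A := conjF_one A
  mul_smul g h A := conjF_mul g h A

theorem cm_mulVec_mul (g h : GL (Fin N) ℤ) (v : Fin N → ℂ) :
    cm (g * h) *ᵥ v = cm g *ᵥ (cm h *ᵥ v) := by
  rw [cm_mul, mulVec_mulVec]

theorem cm_mulVec_one (v : Fin N → ℂ) : cm (1 : GL (Fin N) ℤ) *ᵥ v = v := by
  rw [cm_one, one_mulVec]

/-- complex vectors -/
def CVec (N : ℕ) : Type := Fin N → ℂ

instance : MulAction (GL (Fin N) ℤ) (CVec N) where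
  smul g v := cm g *ᵥ (show Fin N → ℂ from v)
  one_smul v := cm_mulVec_one v
  mul_smul g h v := cm_mulVec_mul g h v

theorem gl_mulVec_mul (g h : GL (Fin N) ℤ) (v : Fin N → ℤ) :
    ((g * h : GL (Fin N) ℤ) : Matrix (Fin N) (Fin N) ℤ) *ᵥ v
      = (g : Matrix (Fin N) (Fin N) ℤ) *ᵥ ((h : Matrix (Fin N) (Fin N) ℤ) *ᵥ v) := by
  rw [Units.val_mul, mulVec_mulVec]

theorem gl_mulVec_one (v : Fin N → ℤ) :
    ((1 : GL (Fin N) ℤ) : Matrix (Fin N) (Fin N) ℤ) *ᵥ v = v := by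
  rw [Units.val_one, one_mulVec]

/-- integral vectors -/
def ZVec (N : ℕ) : Type := Fin N → ℤ

instance : MulAction (GL (Fin N) ℤ) (ZVec N) where
  smul g v := (g : Matrix (Fin N) (Fin N) ℤ) *ᵥ (show Fin N → ℤ from v)
  one_smul v := gl_mulVec_one v
  mul_smul g h v := gl_mulVec_mul g h v

/-- conjugation action on integral matrices -/
def conjZ (g : GL (Fin N) ℤ) (A : Matrix (Fin N) (Fin N) ℤ) : Matrix (Fin N) (Fin N) ℤ :=
  (g : Matrix (Fin N) (Fin N) ℤ) * A * ((g⁻¹ : GL (Fin N) ℤ) : Matrix (Fin N) (Fin N) ℤ)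

theorem conjZ_one (A : Matrix (Fin N) (Fin N) ℤ) : conjZ 1 A = A := by
  rw [conjZ, inv_one, Units.val_one, one_mul, mul_one]

theorem conjZ_mul (g h : GL (Fin N) ℤ) (A : Matrix (Fin N) (Fin N) ℤ) :
    conjZ (g * h) A = conjZ g (conjZ h A) := by
  simp only [conjZ]
  rw [_root_.mul_inv_rev, Units.val_mul, Units.val_mul]
  simp only [mul_assoc]

theorem conjZ_iff (g : GL (Fin N) ℤ) (A B : Matrix (Fin N) (Fin N) ℤ) (h : A = conjZ g B) :
    (g : Matrix (Fin N) (Fin N) ℤ) * B = A * (g : Matrix (Fin N) (Fin N) ℤ) := by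
  have hi : ((g⁻¹ : GL (Fin N) ℤ) : Matrix (Fin N) (Fin N) ℤ)
      * (g : Matrix (Fin N) (Fin N) ℤ) = 1 := by
    rw [← Units.val_mul, inv_mul_cancel, Units.val_one]
  rw [h, conjZ, mul_assoc _ _ (g : Matrix (Fin N) (Fin N) ℤ), hi, mul_one]

/-- integral matrices with the conjugation action -/
def ZMat (N : ℕ) : Type := Matrix (Fin N) (Fin N) ℤ

instance : MulAction (GL (Fin N) ℤ) (ZMat N) where
  smul g A := conjZ g A
  one_smul A := conjZ_one A
  mul_smul g h A := conjZ_mul g h A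

/-- image of a subspace under `cm g` -/
def mapS (g : GL (Fin N) ℤ) (K : Submodule ℂ (Fin N → ℂ)) : Submodule ℂ (Fin N → ℂ) :=
  K.map (cm g).mulVecLin

theorem mem_mapS {K : Submodule ℂ (Fin N → ℂ)} {u : Fin N → ℂ} :
    u ∈ mapS g K ↔ cm g⁻¹ *ᵥ u ∈ K := by
  rw [mapS, Submodule.mem_map]
  constructor
  · rintro ⟨v, hv, rfl⟩
    rwa [mulVecLin_apply, mulVec_mulVec, cm_inv_mul, one_mulVec]
  · intro h
    refine ⟨_, h, ?_⟩
    rw [mulVecLin_apply, mulVec_mulVec, cm_mul_inv, one_mulVec]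

theorem mapS_one (K : Submodule ℂ (Fin N → ℂ)) : mapS 1 K = K := by
  ext u
  rw [mem_mapS, inv_one, cm_one, one_mulVec]

theorem mapS_mul (g h : GL (Fin N) ℤ) (K : Submodule ℂ (Fin N → ℂ)) :
    mapS (g * h) K = mapS g (mapS h K) := by
  ext u
  rw [mem_mapS, mem_mapS, mem_mapS, _root_.mul_inv_rev, cm_mul, mulVec_mulVec]

theorem mulVec_mem_mapS {K : Submodule ℂ (Fin N → ℂ)} {u : Fin N → ℂ} :
    cm g *ᵥ u ∈ mapS g K ↔ u ∈ K := by
  rw [mem_mapS, mulVec_mulVec, cm_inv_mul, one_mulVec]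

theorem finrank_mapS (g : GL (Fin N) ℤ) (K : Submodule ℂ (Fin N → ℂ)) :
    Module.finrank ℂ (mapS g K) = Module.finrank ℂ K := by
  have hinj : Function.Injective (cm g).mulVecLin := by
    intro u v huv
    have h1 := congrArg (fun t => cm g⁻¹ *ᵥ t) huv
    simpa only [mulVecLin_apply, mulVec_mulVec, cm_inv_mul, one_mulVec] using h1
  exact (LinearEquiv.finrank_eq (Submodule.equivMapOfInjective _ hinj K)).symm

theorem mapS_eq_of_st {Γ : Subgroup (GL (Fin N) ℤ)} {K : Submodule ℂ (Fin N → ℂ)} (h : IsSt Γ K)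
    (hg : g ∈ Γ) : mapS g K = K := by
  ext u
  rw [mem_mapS]
  constructor
  · intro hu
    have h1 := h g hg _ hu
    rwa [mulVec_mulVec, cm_mul_inv, one_mulVec] at h1
  · intro hu
    exact h _ (inv_mem hg) _ hu

theorem isSt_of_mapS {Γ : Subgroup (GL (Fin N) ℤ)} {K : Submodule ℂ (Fin N → ℂ)}
    (h : ∀ g ∈ Γ, mapS g K = K) : IsSt Γ K := by
  intro g hg u hu
  rw [← h g hg]
  exact mulVec_mem_mapS.2 hu

/-- complex subspaces -/
def CSub (N : ℕ) : Type := Submodule ℂ (Fin N → ℂ)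

instance : MulAction (GL (Fin N) ℤ) (CSub N) where
  smul g K := mapS g K
  one_smul K := mapS_one K
  mul_smul g h K := mapS_mul g h K

/-! ### endomorphism fields -/

/-- flat endomorphism field -/
def FlM (P : X → X → GL (Fin N) ℤ) (Φ : X → Matrix (Fin N) (Fin N) ℂ) : Prop :=
  ∀ z, ∀ᶠ y in 𝓝 z, lM P Φ z y = Φ z

variable {Φ Ψ : X → Matrix (Fin N) (Fin N) ℂ}

theorem flM_iff : FlM P Φ ↔ Fl P (A := CMat N) Φ :=
  forall_congr' fun z => by
    constructor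
    · intro h
      filter_upwards [h] with y hy
      exact hy.symm
    · intro h
      filter_upwards [h] with y hy
      exact Eq.symm hy

theorem mat_tr (hΦ : FlM P Φ) (h : Tr P x y g) : Φ x = cm g * Φ y * cm g⁻¹ :=
  (flM_iff.1 hΦ).tr h

theorem mat_tr' (hΦ : FlM P Φ) (h : Tr P x y g) : Φ x * cm g = cm g * Φ y := by
  rw [mat_tr hΦ h, mul_assoc, cm_inv_mul, mul_one]

theorem mat_fl (hΦ : FlM P Φ) : Φ x ∈ fl (mon P x) := fun _ hk => mat_tr' hΦ hk

theorem mat_ext [PreconnectedSpace X] (hΦ : FlM P Φ) (hΨ : FlM P Ψ) (h : Φ x = Ψ x) : Φ = Ψ :=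
  (flM_iff.1 hΦ).ext' (flM_iff.1 hΨ) h

theorem mat_of_tr [LocallyConnectedSpace X] (h : NDC P)
    (hΦ : ∀ x y g, Tr P x y g → Φ x = cm g * Φ y * cm g⁻¹) : FlM P Φ :=
  flM_iff.2 (Fl.of_tr h hΦ)

theorem mat_of_tr' [LocallyConnectedSpace X] (h : NDC P)
    (hΦ : ∀ x y g, Tr P x y g → Φ x * cm g = cm g * Φ y) : FlM P Φ :=
  mat_of_tr h fun x y g hg => by rw [← hΦ x y g hg, mul_assoc, cm_mul_inv, mul_one]

/-- **extension of flat endomorphisms** -/
theorem mat_extend [PreconnectedSpace X] [LocallyConnectedSpace X] (h : NDC P) (x₀ : X)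
    {F : Matrix (Fin N) (Fin N) ℂ} (hF : F ∈ fl (mon P x₀)) :
    ∃ Φ : X → Matrix (Fin N) (Fin N) ℂ, FlM P Φ ∧ Φ x₀ = F ∧
      ∀ x g, Tr P x x₀ g → Φ x = cm g * F * cm g⁻¹ := by
  obtain ⟨v, hv, h0, h1⟩ := extend (A := CMat N) (a := (F : CMat N)) h x₀ (fun k hk => by
    show cm k * F * cm k⁻¹ = F
    rw [← hF k hk, mul_assoc, cm_mul_inv, mul_one])
  exact ⟨v, flM_iff.2 hv, h0, h1⟩

/-- conjugation of flat endomorphisms by a transport -/
theorem fl_conj {F : Matrix (Fin N) (Fin N) ℂ} (h : Tr P x y g) :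
    F ∈ fl (mon P y) ↔ cm g * F * cm g⁻¹ ∈ fl (mon P x) := by
  have key : ∀ {x y : X} {g : GL (Fin N) ℤ} {F : Matrix (Fin N) (Fin N) ℂ}, Tr P x y g →
      F ∈ fl (mon P y) → cm g * F * cm g⁻¹ ∈ fl (mon P x) := by
    intro x y g F h hF k hk
    have hk' : g⁻¹ * k * g ∈ mon P y := (h.symm.trans hk).trans h
    have h1 := hF _ hk'
    have h2 : cm g * (F * cm (g⁻¹ * k * g)) * cm g⁻¹
        = cm g * (cm (g⁻¹ * k * g) * F) * cm g⁻¹ := by rw [h1]
    have h3 : cm (g⁻¹ * k * g) = cm g⁻¹ * cm k * cm g := by rw [cm_mul, cm_mul]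
    rw [h3] at h2
    have e1 : cm g * (F * (cm g⁻¹ * cm k * cm g)) * cm g⁻¹
        = cm g * F * cm g⁻¹ * cm k * (cm g * cm g⁻¹) := by simp only [mul_assoc]
    have e2 : cm g * (cm g⁻¹ * cm k * cm g * F) * cm g⁻¹
        = (cm g * cm g⁻¹) * cm k * (cm g * F * cm g⁻¹) := by simp only [mul_assoc]
    rw [e1, e2, cm_mul_inv, mul_one, one_mul] at h2
    exact h2
  refine ⟨key h, fun hF => ?_⟩
  have h1 := key h.symm hF
  rw [inv_inv] at h1
  have e1 : cm g⁻¹ * (cm g * F * cm g⁻¹) * cm g = (cm g⁻¹ * cm g) * F * (cm g⁻¹ * cm g) := by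
    simp only [mul_assoc]
  rwa [e1, cm_inv_mul, one_mul, mul_one] at h1

theorem FlM.add (hΦ : FlM P Φ) (hΨ : FlM P Ψ) : FlM P (fun x => Φ x + Ψ x) := by
  intro z
  filter_upwards [hΦ z, hΨ z] with y h1 h2
  rw [← h1, ← h2]
  simp only [lM, mul_add, add_mul]

theorem FlM.sub (hΦ : FlM P Φ) (hΨ : FlM P Ψ) : FlM P (fun x => Φ x - Ψ x) := by
  intro z
  filter_upwards [hΦ z, hΨ z] with y h1 h2
  rw [← h1, ← h2]
  simp only [lM, mul_sub, sub_mul]

theorem FlM.smul (c : ℂ) (hΦ : FlM P Φ) : FlM P (fun x => c • Φ x) := by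
  intro z
  filter_upwards [hΦ z] with y h1
  rw [← h1]
  simp only [lM, Matrix.mul_smul, Matrix.smul_mul]

theorem FlM.mul (hΦ : FlM P Φ) (hΨ : FlM P Ψ) : FlM P (fun x => Φ x * Ψ x) := by
  intro z
  filter_upwards [hΦ z, hΨ z] with y h1 h2
  rw [← h1, ← h2]
  simp only [lM]
  have e1 : cm (P z y) * Φ y * cm (P z y)⁻¹ * (cm (P z y) * Ψ y * cm (P z y)⁻¹)
      = cm (P z y) * Φ y * (cm (P z y)⁻¹ * cm (P z y)) * Ψ y * cm (P z y)⁻¹ := by
    simp only [mul_assoc]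
  rw [e1, cm_inv_mul, mul_one]
  simp only [mul_assoc]

theorem FlM.one : FlM P (fun _ => 1) := by
  intro z
  refine Eventually.of_forall fun y => ?_
  rw [lM, mul_one, cm_mul_inv]

/-! ### vector fields -/

/-- flat section -/
def FlV (P : X → X → GL (Fin N) ℤ) (v : X → Fin N → ℂ) : Prop :=
  ∀ z, ∀ᶠ y in 𝓝 z, lV P v z y = v z

variable {v w : X → Fin N → ℂ}

theorem flV_iff : FlV P v ↔ Fl P (A := CVec N) v :=
  forall_congr' fun z => by
    constructor
    · intro h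
      filter_upwards [h] with y hy
      exact hy.symm
    · intro h
      filter_upwards [h] with y hy
      exact Eq.symm hy

theorem vec_tr (hv : FlV P v) (h : Tr P x y g) : v x = cm g *ᵥ v y := (flV_iff.1 hv).tr h

theorem vec_mon (hv : FlV P v) (hk : k ∈ mon P x) : cm k *ᵥ v x = v x := (vec_tr hv hk).symm

theorem vec_ext [PreconnectedSpace X] (hv : FlV P v) (hw : FlV P w) (h : v x = w x) : v = w :=
  (flV_iff.1 hv).ext' (flV_iff.1 hw) h

theorem vec_of_tr [LocallyConnectedSpace X] (h : NDC P)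
    (hv : ∀ x y g, Tr P x y g → v x = cm g *ᵥ v y) : FlV P v :=
  flV_iff.2 (Fl.of_tr h hv)

theorem vec_extend [PreconnectedSpace X] [LocallyConnectedSpace X] (h : NDC P) (x₀ : X)
    {a : Fin N → ℂ} (ha : ∀ k ∈ mon P x₀, cm k *ᵥ a = a) :
    ∃ v : X → Fin N → ℂ, FlV P v ∧ v x₀ = a ∧ ∀ x g, Tr P x x₀ g → v x = cm g *ᵥ a := by
  obtain ⟨v, hv, h0, h1⟩ := extend (A := CVec N) (a := (a : CVec N)) h x₀ ha
  exact ⟨v, flV_iff.2 hv, h0, h1⟩

/-- integral flat sections -/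
theorem ivec_extend [PreconnectedSpace X] [LocallyConnectedSpace X] (h : NDC P) (x₀ : X)
    {a : Fin N → ℤ} (ha : ∀ k ∈ mon P x₀, (k : Matrix (Fin N) (Fin N) ℤ) *ᵥ a = a) :
    ∃ v : X → Fin N → ℤ, (∀ z, ∀ᶠ y in 𝓝 z, (P z y : Matrix (Fin N) (Fin N) ℤ) *ᵥ v y = v z) ∧
      v x₀ = a ∧ ∀ x g, Tr P x x₀ g → v x = (g : Matrix (Fin N) (Fin N) ℤ) *ᵥ a := by
  obtain ⟨v, hv, h0, h1⟩ := extend (A := ZVec N) (a := (a : ZVec N)) h x₀ ha
  refine ⟨v, fun z => ?_, h0, h1⟩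
  filter_upwards [hv z] with y hy
  exact hy.symm

theorem ivec_tr {v : X → Fin N → ℤ}
    (hv : ∀ z, ∀ᶠ y in 𝓝 z, (P z y : Matrix (Fin N) (Fin N) ℤ) *ᵥ v y = v z) (h : Tr P x y g) :
    v x = (g : Matrix (Fin N) (Fin N) ℤ) *ᵥ v y := by
  have h1 : Fl P (A := ZVec N) v := fun z => by
    filter_upwards [hv z] with y hy
    exact hy.symm
  exact h1.tr h

/-- integral flat endomorphisms -/
theorem imat_extend [PreconnectedSpace X] [LocallyConnectedSpace X] (h : NDC P) (x₀ : X)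
    {F : Matrix (Fin N) (Fin N) ℤ}
    (hF : ∀ k ∈ mon P x₀, F * (k : Matrix (Fin N) (Fin N) ℤ) = (k : Matrix (Fin N) (Fin N) ℤ) * F) :
    ∃ Φ : X → Matrix (Fin N) (Fin N) ℤ,
      (∀ z, ∀ᶠ y in 𝓝 z, (P z y : Matrix (Fin N) (Fin N) ℤ) * Φ y
        = Φ z * (P z y : Matrix (Fin N) (Fin N) ℤ)) ∧
      Φ x₀ = F ∧ ∀ x g, Tr P x x₀ g →
        Φ x * (g : Matrix (Fin N) (Fin N) ℤ) = (g : Matrix (Fin N) (Fin N) ℤ) * F := by
  have hi' : ∀ k : GL (Fin N) ℤ, (k : Matrix (Fin N) (Fin N) ℤ)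
      * ((k⁻¹ : GL (Fin N) ℤ) : Matrix (Fin N) (Fin N) ℤ) = 1 := fun k => by
    rw [← Units.val_mul, mul_inv_cancel, Units.val_one]
  have hfix : ∀ k ∈ mon P x₀, conjZ k F = F := fun k hk => by
    rw [conjZ, ← hF k hk, mul_assoc, hi', mul_one]
  obtain ⟨v, hv, h0, h1⟩ := extend (A := ZMat N) (a := (F : ZMat N)) h x₀ hfix
  refine ⟨v, fun z => ?_, h0, fun x g hg => ?_⟩
  · filter_upwards [hv z] with y hy
    exact conjZ_iff (P z y) (v z) (v y) hy
  · exact (conjZ_iff g (v x) F (h1 x g hg)).symm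

/-! ### flat subbundles -/

/-- flat subbundle -/
def FlS (P : X → X → GL (Fin N) ℤ) (K : X → Submodule ℂ (Fin N → ℂ)) : Prop :=
  ∀ z, ∀ᶠ y in 𝓝 z, mapS (P z y) (K y) = K z

variable {K L : X → Submodule ℂ (Fin N → ℂ)}

theorem flS_iff : FlS P K ↔ Fl P (A := CSub N) K :=
  forall_congr' fun z => by
    constructor
    · intro h
      filter_upwards [h] with y hy
      exact hy.symm
    · intro h
      filter_upwards [h] with y hy
      exact Eq.symm hy

theorem sub_tr (hK : FlS P K) (h : Tr P x y g) : K x = mapS g (K y) := (flS_iff.1 hK).tr h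

theorem sub_tr_mem (hK : FlS P K) (h : Tr P x y g) {u : Fin N → ℂ} :
    cm g *ᵥ u ∈ K x ↔ u ∈ K y := by
  rw [sub_tr hK h, mulVec_mem_mapS]

theorem sub_st (hK : FlS P K) : IsSt (mon P x) (K x) :=
  isSt_of_mapS fun _ hg => (sub_tr hK hg).symm

theorem sub_ext [PreconnectedSpace X] (hK : FlS P K) (hL : FlS P L) (h : K x = L x) : K = L :=
  (flS_iff.1 hK).ext' (flS_iff.1 hL) h

theorem sub_of_tr [LocallyConnectedSpace X] (h : NDC P)
    (hK : ∀ x y g, Tr P x y g → K x = mapS g (K y)) : FlS P K :=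
  flS_iff.2 (Fl.of_tr h hK)

/-- **extension of flat subspaces** -/
theorem sub_extend [PreconnectedSpace X] [LocallyConnectedSpace X] (h : NDC P) (x₀ : X)
    {K₀ : Submodule ℂ (Fin N → ℂ)} (hK : IsSt (mon P x₀) K₀) :
    ∃ K : X → Submodule ℂ (Fin N → ℂ), FlS P K ∧ K x₀ = K₀ ∧
      ∀ x g, Tr P x x₀ g → K x = mapS g K₀ := by
  obtain ⟨v, hv, h0, h1⟩ := extend (A := CSub N) (a := (K₀ : CSub N)) h x₀
    (fun k hk => mapS_eq_of_st hK hk)
  exact ⟨v, flS_iff.2 hv, h0, h1⟩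

theorem st_conj {K₀ : Submodule ℂ (Fin N → ℂ)} (h : Tr P x y g) (hK : IsSt (mon P y) K₀) :
    IsSt (mon P x) (mapS g K₀) := by
  refine isSt_of_mapS fun k hk => ?_
  have h1 : g⁻¹ * k * g ∈ mon P y := (h.symm.trans hk).trans h
  have h2 := mapS_eq_of_st hK h1
  have h3 : mapS k (mapS g K₀) = mapS g (mapS (g⁻¹ * k * g) K₀) := by
    rw [← mapS_mul, ← mapS_mul]
    congr 1
    group
  rw [h3, h2]

/-- a flat endomorphism field maps flat sections to flat sections -/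
theorem FlM.vec (hΦ : FlM P Φ) (hv : FlV P v) : FlV P (fun x => Φ x *ᵥ v x) := by
  intro z
  filter_upwards [hΦ z, hv z] with y h1 h2
  rw [← h1, ← h2]
  simp only [lV, lM, mulVec_mulVec]
  rw [mul_assoc (cm (P z y) * Φ y), cm_inv_mul, mul_one]

/-! ### flat forms -/

variable {S : X → Matrix (Fin N) (Fin N) ℂ}

/-- flat form -/
def FlF (P : X → X → GL (Fin N) ℤ) (S : X → Matrix (Fin N) (Fin N) ℂ) : Prop :=
  ∀ z, ∀ᶠ y in 𝓝 z, S y = (cm (P z y))ᴴ * S z * cm (P z y)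

theorem form_swap {A B : Matrix (Fin N) (Fin N) ℂ} :
    A = (cm g⁻¹)ᴴ * B * cm g⁻¹ ↔ B = (cm g)ᴴ * A * cm g := by
  constructor
  · rintro rfl
    have e : (cm g)ᴴ * ((cm g⁻¹)ᴴ * B * cm g⁻¹) * cm g
        = ((cm g)ᴴ * (cm g⁻¹)ᴴ) * B * (cm g⁻¹ * cm g) := by simp only [mul_assoc]
    rw [e, ← conjTranspose_mul, cm_inv_mul, conjTranspose_one, one_mul, mul_one]
  · rintro rfl
    have e : (cm g⁻¹)ᴴ * ((cm g)ᴴ * A * cm g) * cm g⁻¹
        = ((cm g⁻¹)ᴴ * (cm g)ᴴ) * A * (cm g * cm g⁻¹) := by simp only [mul_assoc]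
    rw [e, ← conjTranspose_mul, cm_mul_inv, conjTranspose_one, one_mul, mul_one]

theorem flF_iff : FlF P S ↔ Fl P (A := CForm N) S :=
  forall_congr' fun z => by
    constructor
    · intro h
      filter_upwards [h] with y hy
      exact form_swap.2 hy
    · intro h
      filter_upwards [h] with y hy
      exact form_swap.1 hy

theorem form_tr (hS : FlF P S) (h : Tr P x y g) : S y = (cm g)ᴴ * S x * cm g :=
  form_swap.1 ((flF_iff.1 hS).tr h)

theorem form_mon (hS : FlF P S) (hk : k ∈ mon P x) : (cm k)ᴴ * S x * cm k = S x :=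
  (form_tr hS hk).symm

/-! ### flat automorphisms -/

theorem gl_tr {ρ : X → GL (Fin N) ℤ} (hρ : ∀ z, ∀ᶠ y in 𝓝 z, P z y * ρ y = ρ z * P z y)
    (h : Tr P x y g) : g * ρ y = ρ x * g := by
  have h1 : FlM P (fun x => cm (ρ x)) := by
    intro z
    filter_upwards [hρ z] with y hy
    rw [lM, ← cm_mul, hy, ← cm_mul, mul_inv_cancel_right]
  have h2 := mat_tr' h1 h
  rw [← cm_mul, ← cm_mul] at h2
  have hinj : Function.Injective (cm (N := N)) := by
    intro a b hab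
    apply Units.ext
    ext i j
    have h3 : cm a i j = cm b i j := by rw [hab]
    simp only [cm, Matrix.map_apply] at h3
    exact_mod_cast h3
  exact (hinj h2).symm

/-! ### variations of Hodge structures -/

section vhs

variable {m w : ℕ} [RDom m X] (V : VHS m X N w)

theorem vhs_S (h : Tr V.P x y g) : V.S y = (cm g)ᴴ * V.S x * cm g := form_tr V.flatS h

theorem vhs_mon_S (hk : k ∈ mon V.P x) : (cm k)ᴴ * V.S x * cm k = V.S x := form_mon V.flatS hk

theorem vhs_exists_tr [PreconnectedSpace X] (x y : X) : ∃ g, Tr V.P x y g := exists_tr V.ndc x y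

theorem vhs_mat_extend [PreconnectedSpace X] (x₀ : X) {F : Matrix (Fin N) (Fin N) ℂ}
    (hF : F ∈ fl (mon V.P x₀)) : ∃ Φ : X → Matrix (Fin N) (Fin N) ℂ, FlM V.P Φ ∧ Φ x₀ = F ∧
      ∀ x g, Tr V.P x x₀ g → Φ x = cm g * F * cm g⁻¹ := mat_extend V.ndc x₀ hF

theorem vhs_sub_extend [PreconnectedSpace X] (x₀ : X)
    {K₀ : Submodule ℂ (Fin N → ℂ)} (hK : IsSt (mon V.P x₀) K₀) :
    ∃ K : X → Submodule ℂ (Fin N → ℂ), FlS V.P K ∧ K x₀ = K₀ ∧
      ∀ x g, Tr V.P x x₀ g → K x = mapS g K₀ := sub_extend V.ndc x₀ hK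

/-- fields of matrices which satisfy `lM P A z y = A z` near `z` only when seen from `z` : the
property `IsHS` is transported -/
theorem isHS_conj {w : ℕ} {S E : Matrix (Fin N) (Fin N) ℂ} (h : IsHS w S E) (g : GL (Fin N) ℤ) :
    IsHS w ((cm g⁻¹)ᴴ * S * cm g⁻¹) (cm g * E * cm g⁻¹) := by
  have hpow : ∀ n : ℕ, (cm g * E * cm g⁻¹) ^ n = cm g * E ^ n * cm g⁻¹ := by
    intro n
    induction n with
    | zero => rw [pow_zero, pow_zero, mul_one, cm_mul_inv]
    | succ n ih =>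
      have e : cm g * E ^ n * cm g⁻¹ * (cm g * E * cm g⁻¹)
          = cm g * (E ^ n * (cm g⁻¹ * cm g) * E) * cm g⁻¹ := by simp only [mul_assoc]
      rw [pow_succ, pow_succ, ih, e, cm_inv_mul, mul_one]
  have haev : ∀ q : Polynomial ℂ, Polynomial.aeval (cm g * E * cm g⁻¹) q
      = cm g * Polynomial.aeval E q * cm g⁻¹ := by
    intro q
    rw [Polynomial.aeval_eq_sum_range, Polynomial.aeval_eq_sum_range, Finset.mul_sum,
      Finset.sum_mul]
    refine Finset.sum_congr rfl fun i _ => ?_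
    rw [hpow, Matrix.mul_smul, Matrix.smul_mul]
  constructor
  · have h1 := h.herm
    unfold Matrix.IsHermitian at h1 ⊢
    rw [conjTranspose_mul, conjTranspose_mul, conjTranspose_conjTranspose, h1]
    simp only [mul_assoc]
  · have e1 : (cm g⁻¹)ᴴ * S * cm g⁻¹ * (cm g * E * cm g⁻¹)
        = (cm g⁻¹)ᴴ * (S * (cm g⁻¹ * cm g) * E) * cm g⁻¹ := by simp only [mul_assoc]
    have e2 : (cm g * E * cm g⁻¹)ᴴ * ((cm g⁻¹)ᴴ * S * cm g⁻¹)
        = (cm g⁻¹)ᴴ * (Eᴴ * ((cm g)ᴴ * (cm g⁻¹)ᴴ) * S) * cm g⁻¹ := by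
      rw [conjTranspose_mul, conjTranspose_mul]
      simp only [mul_assoc]
    rw [e1, e2, cm_inv_mul, mul_one, ← conjTranspose_mul, cm_inv_mul, conjTranspose_one, mul_one,
      h.adj]
  · rw [haev, h.eig, mul_zero, zero_mul]
  · intro p v hp hv he
    have h1 : cm g⁻¹ *ᵥ v ≠ 0 := by
      intro h0
      apply hv
      have h2 := congrArg (fun t => cm g *ᵥ t) h0
      simpa only [mulVec_mulVec, cm_mul_inv, one_mulVec, mulVec_zero] using h2
    have h2 : E *ᵥ (cm g⁻¹ *ᵥ v) = (p : ℂ) • (cm g⁻¹ *ᵥ v) := by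
      have h3 := congrArg (fun t => cm g⁻¹ *ᵥ t) he
      simp only [mulVec_mulVec, mulVec_smul] at h3
      rw [mulVec_mulVec, ← h3, ← mul_assoc, ← mul_assoc, cm_inv_mul, one_mul]
    have h3 := h.pos p _ hp h1 h2
    have h4 : star v ⬝ᵥ ((cm g⁻¹)ᴴ * S * cm g⁻¹) *ᵥ v
        = star (cm g⁻¹ *ᵥ v) ⬝ᵥ S *ᵥ (cm g⁻¹ *ᵥ v) := by
      rw [star_mulVec, ← mulVec_mulVec, ← mulVec_mulVec, ← dotProduct_mulVec]
    rw [h4]
    exact h3

end vhs

end Crest.Agent.R276.Tr_617
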