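import Mathlib

set_option autoImplicit false

/-!
# Row 276, FK-CONN, part A: pure algebra / topology

`fib_conn`: a continuous map from a preconnected space to `Spec A[T]/(g)` lying over one rational
point `v` of `A` cannot hit two different roots of `g` mod `v`.
`exists_glue`: on an integral scheme a rational function regular at every point of an open set is a
section over it.
-/

open Polynomial TopologicalSpace

namespace Crest.Agent.R276.ConnA_617

theorem fib_conn {A k : Type*} [CommRing A] [Field k] (s : k →+* A) (v : A →+* k)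
    (hvs : ∀ c, v (s c) = c) (g : A[X]) (hg : g.Monic) (hsplit : (g.map v).Splits)
    {c₁ c₂ : k} (h12 : c₁ ≠ c₂) {T : Type*} [TopologicalSpace T] [PreconnectedSpace T]
    (Θ : T → PrimeSpectrum (AdjoinRoot g)) (hΘ : Continuous Θ)
    (hker : ∀ y, ∀ a, v a = 0 → AdjoinRoot.of g a ∈ (Θ y).asIdeal) (y₁ y₂ : T)
    (hy₁ : AdjoinRoot.root g - AdjoinRoot.of g (s c₁) ∈ (Θ y₁).asIdeal)
    (hy₂ : AdjoinRoot.root g - AdjoinRoot.of g (s c₂) ∈ (Θ y₂).asIdeal) : False := by
  classical
  -- the product over the roots lies in every point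
  have hprod : ∀ y, ((g.map v).roots.map
      (fun c => AdjoinRoot.root g - AdjoinRoot.of g (s c))).prod ∈ (Θ y).asIdeal := by
    intro y
    -- the polynomial g - ∏ (T - s c) has coefficients in ker v
    set P : A[X] := ((g.map v).roots.map (fun c => X - C (s c))).prod with hP
    have hPv : P.map v = g.map v := by
      rw [hP, Polynomial.map_multiset_prod, Multiset.map_map]
      have h1 := hsplit.eq_prod_roots_of_monic (hg.map v)
      conv_rhs => rw [h1]
      congr 1
      apply Multiset.map_congr rfl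
      intro c _
      simp [hvs]
    have h2 : (aeval (AdjoinRoot.root g)) (P - g) ∈ (Θ y).asIdeal := by
      rw [Polynomial.aeval_eq_sum_range]
      refine Ideal.sum_mem _ fun i _ => ?_
      have h3 : v ((P - g).coeff i) = 0 := by
        have := congrArg (fun q : k[X] => q.coeff i) hPv
        simp only [Polynomial.coeff_map] at this
        simp [this]
      rw [Algebra.smul_def]
      exact Ideal.mul_mem_right _ _ (hker y _ h3)
    have h4 : (aeval (AdjoinRoot.root g)) g = 0 := by
      rw [AdjoinRoot.aeval_eq, AdjoinRoot.mk_self]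
    rw [map_sub, h4, sub_zero, hP, map_multiset_prod, Multiset.map_map] at h2
    have h5 : (⇑(aeval (AdjoinRoot.root g)) ∘ fun c => X - C (s c)) =
        fun c => AdjoinRoot.root g - AdjoinRoot.of g (s c) := by
      funext c
      simp [AdjoinRoot.algebraMap_eq]
    rw [h5] at h2
    exact h2
  -- each point has some root
  have hex : ∀ y, ∃ c ∈ (g.map v).roots, AdjoinRoot.root g - AdjoinRoot.of g (s c) ∈
      (Θ y).asIdeal := by
    intro y
    obtain ⟨p, hp, hpy⟩ := ((Θ y).isPrime.multiset_prod_mem_iff_exists_mem _).1 (hprod y)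
    obtain ⟨c, hc, rfl⟩ := Multiset.mem_map.1 hp
    exact ⟨c, hc, hpy⟩
  -- uniqueness
  have huniq : ∀ y (c c' : k), AdjoinRoot.root g - AdjoinRoot.of g (s c) ∈ (Θ y).asIdeal →
      AdjoinRoot.root g - AdjoinRoot.of g (s c') ∈ (Θ y).asIdeal → c = c' := by
    intro y c c' h h'
    by_contra hne
    apply (Θ y).isPrime.ne_top
    have h3 : AdjoinRoot.of g (s (c' - c)) ∈ (Θ y).asIdeal := by
      have := Ideal.sub_mem _ h h'
      simpa using this
    rw [Ideal.eq_top_iff_one]
    have h4 : AdjoinRoot.of g (s ((c' - c)⁻¹)) * AdjoinRoot.of g (s (c' - c)) = 1 := by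
      rw [← map_mul, ← map_mul, inv_mul_cancel₀ (sub_ne_zero.2 (Ne.symm hne)), map_one, map_one]
    rw [← h4]
    exact Ideal.mul_mem_left _ _ h3
  -- the clopen set
  let E : k → Set T := fun c => Θ ⁻¹' (PrimeSpectrum.zeroLocus
    {AdjoinRoot.root g - AdjoinRoot.of g (s c)})
  have hEcl : ∀ c, IsClosed (E c) := fun c => (PrimeSpectrum.isClosed_zeroLocus _).preimage hΘ
  have hmem : ∀ c y, y ∈ E c ↔ AdjoinRoot.root g - AdjoinRoot.of g (s c) ∈ (Θ y).asIdeal := by
    intro c y
    simp [E, PrimeSpectrum.mem_zeroLocus]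
  have hcompl : (E c₁)ᶜ = ⋃ c ∈ ((g.map v).roots.toFinset.erase c₁), E c := by
    ext y
    simp only [Set.mem_compl_iff, Set.mem_iUnion, Finset.mem_erase, Multiset.mem_toFinset,
      exists_prop]
    constructor
    · intro hy
      obtain ⟨c, hc, hcy⟩ := hex y
      refine ⟨c, ⟨?_, hc⟩, (hmem c y).2 hcy⟩
      rintro rfl
      exact hy ((hmem _ y).2 hcy)
    · rintro ⟨c, ⟨hne, hc⟩, hcy⟩ hy
      exact hne (huniq y c c₁ ((hmem c y).1 hcy) ((hmem c₁ y).1 hy))
  have hclopen : IsClopen (E c₁) := by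
    refine ⟨hEcl c₁, ?_⟩
    rw [← isClosed_compl_iff, hcompl]
    exact isClosed_biUnion_finset fun c _ => hEcl c
  rcases isClopen_iff.1 hclopen with h | h
  · have : y₁ ∈ E c₁ := (hmem _ _).2 hy₁
    rw [h] at this
    exact this
  · have : y₂ ∈ E c₁ := by rw [h]; trivial
    exact h12 (huniq y₂ c₁ c₂ ((hmem _ _).1 this) hy₂)

open AlgebraicGeometry CategoryTheory Opposite in
/-- On an integral scheme, a rational function which is regular at every point of an open set is
(the germ of) a section over this open set. -/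
theorem exists_glue (X : Scheme.{0}) [IsIntegral X] (W : X.Opens) [Nonempty W]
    (a : X.functionField)
    (h : ∀ x ∈ W, a ∈ (algebraMap (X.presheaf.stalk x) X.functionField).range) :
    ∃ t : Γ(X, W), X.germToFunctionField W t = a := by
  classical
  -- local sections
  have hloc : ∀ x : W, ∃ (U : X.Opens) (hU : U ≤ W) (hxU : x.1 ∈ U) (t : Γ(X, U)),
      ∀ [Nonempty U], X.germToFunctionField U t = a := by
    intro x
    obtain ⟨b, hb⟩ := h x.1 x.2
    obtain ⟨U, hxU, t, rfl⟩ := X.presheaf.exists_germ_eq b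
    refine ⟨U ⊓ W, inf_le_right, ⟨hxU, x.2⟩, X.presheaf.map (homOfLE inf_le_left).op t, ?_⟩
    intro hne
    have : Nonempty U := ⟨⟨x.1, hxU⟩⟩
    rw [← hb, Scheme.algebraMap_germ_eq_germToFunctionField X hxU]
    change (X.presheaf.germ _ _ _).hom _ = (X.presheaf.germ _ _ _).hom _
    exact X.presheaf.germ_res_apply (homOfLE inf_le_left) _ _ _
  choose U hUW hxU t ht using hloc
  have hneU : ∀ x, Nonempty (U x) := fun x => ⟨⟨x.1, hxU x⟩⟩
  have hcomp : TopCat.Presheaf.IsCompatible X.presheaf U t := by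
    intro x y
    have hne : Nonempty (U x ⊓ U y : X.Opens) := by
      have h1 := nonempty_preirreducible_inter (U x).isOpen (U y).isOpen
        ⟨x.1, hxU x⟩ ⟨y.1, hxU y⟩
      obtain ⟨z, hz1, hz2⟩ := h1
      exact ⟨⟨z, hz1, hz2⟩⟩
    apply X.germToFunctionField_injective (U x ⊓ U y)
    have e1 : X.germToFunctionField (U x ⊓ U y)
        (X.presheaf.map (Opens.infLELeft (U x) (U y)).op (t x)) = X.germToFunctionField (U x) (t x) :=
      X.presheaf.germ_res_apply _ _ _ _
    have e2 : X.germToFunctionField (U x ⊓ U y)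
        (X.presheaf.map (Opens.infLERight (U x) (U y)).op (t y)) = X.germToFunctionField (U y) (t y) :=
      X.presheaf.germ_res_apply _ _ _ _
    rw [e1, e2]
    have := hneU x
    have := hneU y
    rw [ht x, ht y]
  obtain ⟨s, hs, -⟩ := X.sheaf.existsUnique_gluing' U W (fun x => homOfLE (hUW x))
    (fun x hx => Opens.mem_iSup.2 ⟨⟨x, hx⟩, hxU ⟨x, hx⟩⟩) t hcomp
  refine ⟨s, ?_⟩
  obtain ⟨x⟩ := ‹Nonempty W›
  have := hneU x
  rw [← ht x, ← hs x]
  symm
  exact X.presheaf.germ_res_apply _ _ _ _

end Crest.Agent.R276.ConnA_617
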