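import Mathlib
import Crest.Prelude.Def_SmoothDivisors
import Crest.Agent.R271.UfdG_243
import Crest.Agent.R276.ConnA_617

set_option autoImplicit false

/-!
# Row 276, FK-CONN, part B: scheme side

`algClosed_of_connected`: if all fibres of `f : X ⟶ Z` over complex points are connected then the
function field of `Z` is algebraically closed in the function field of `X`.
-/

open AlgebraicGeometry CategoryTheory Order TopologicalSpace Polynomial Opposite
open Crest.AlgGeometry.Divisors
open Crest.Agent.R276.ConnA_617 Crest.Agent.R271.UFD243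

namespace Crest.Agent.R276.ConnB_617

/-! ### algebra -/

/-- Nullstellensatz, with a nonvanishing condition -/
theorem exists_point_ne {A : Type} [CommRing A] [IsDomain A] [Algebra ℂ A]
    [Algebra.FiniteType ℂ A] (d : A) (hd : d ≠ 0) : ∃ v : A →ₐ[ℂ] ℂ, v d ≠ 0 := by
  let B := Localization.Away d
  have h0 : Nontrivial B :=
    (IsLocalization.injective B (M := Submonoid.powers d)
      (powers_le_nonZeroDivisors_of_noZeroDivisors hd)).nontrivial
  have h1 : Algebra.FiniteType A B := IsLocalization.finiteType_of_monoid_fg (Submonoid.powers d) B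
  have h2 : Algebra.FiniteType ℂ B := Algebra.FiniteType.trans (S := A) inferInstance h1
  obtain ⟨m, hm⟩ := Ideal.exists_maximal B
  let _ := Ideal.Quotient.field m
  have h3 : Module.Finite ℂ (B ⧸ m) := finite_of_finite_type_of_isJacobsonRing ℂ (B ⧸ m)
  have h4 : Algebra.IsAlgebraic ℂ (B ⧸ m) := inferInstance
  let g : (B ⧸ m) →ₐ[ℂ] ℂ := IsAlgClosed.lift
  let v : A →ₐ[ℂ] ℂ := (g.comp (Ideal.Quotient.mkₐ ℂ m)).comp (IsScalarTower.toAlgHom ℂ A B)
  refine ⟨v, ?_⟩
  have h5 : IsUnit (v d) := by
    have : IsUnit (algebraMap A B d) := IsLocalization.Away.algebraMap_isUnit d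
    exact this.map (g.comp (Ideal.Quotient.mkₐ ℂ m))
  exact h5.ne_zero

/-- clearing denominators in a Bezout relation `u g + w g' = 1` -/
theorem exists_bezout {A M : Type*} [CommRing A] [IsDomain A] [Field M] [Algebra A M]
    [IsFractionRing A M] (g : A[X]) (hsep : (g.map (algebraMap A M)).Separable) :
    ∃ d : A, d ≠ 0 ∧ ∃ U W : A[X], U * g + W * derivative g = C d := by
  obtain ⟨u, w, huw⟩ := hsep
  obtain ⟨b₁, hb₁', hb₁⟩ := IsLocalization.integerNormalization_spec (nonZeroDivisors A) u
  obtain ⟨b₂, hb₂', hb₂⟩ := IsLocalization.integerNormalization_spec (nonZeroDivisors A) w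
  refine ⟨b₁ * b₂, mul_ne_zero (nonZeroDivisors.ne_zero hb₁') (nonZeroDivisors.ne_zero hb₂'),
    C (b₂ : A) * IsLocalization.integerNormalization (nonZeroDivisors A) u,
    C (b₁ : A) * IsLocalization.integerNormalization (nonZeroDivisors A) w, ?_⟩
  apply Polynomial.map_injective (algebraMap A M) (IsFractionRing.injective A M)
  simp only [Polynomial.map_add, Polynomial.map_mul, Polynomial.map_C, hb₁, hb₂]
  have e1 : (b₁ : A) • u = C (algebraMap A M b₁) * u := by
    rw [← Polynomial.smul_eq_C_mul, algebraMap_smul]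
  have e2 : (b₂ : A) • w = C (algebraMap A M b₂) * w := by
    rw [← Polynomial.smul_eq_C_mul, algebraMap_smul]
  rw [e1, e2, ← Polynomial.derivative_map, map_mul, C_mul]
  linear_combination (C (algebraMap A M b₁) * C (algebraMap A M b₂)) * huw

/-! ### the chart -/

section chart

variable (X : Scheme.{0}) [IsIntegral X] (W : X.Opens) (C : CommRingCat.{0})
  (ψ : C ⟶ Γ(X, W))

omit [IsIntegral X] in
theorem mem_iff (x : W) (c : C) :
    c ∉ ((W.toSpecΓ ≫ Spec.map ψ) x).asIdeal ↔ x.1 ∈ X.basicOpen (ψ c) := by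
  have h := Scheme.Opens.toSpecΓ_preimage_basicOpen W (ψ c)
  have h2 : (x ∈ W.toSpecΓ ⁻¹ᵁ PrimeSpectrum.basicOpen (ψ c)) ↔
      x ∈ W.ι ⁻¹ᵁ X.basicOpen (ψ c) := by rw [h]
  exact h2

theorem surj (hψ : Function.Injective ψ)
    (hcl : IsClosedMap (W.toSpecΓ ≫ Spec.map ψ)) :
    Function.Surjective (W.toSpecΓ ≫ Spec.map ψ) := by
  by_contra hns
  rw [← Set.range_eq_univ] at hns
  have hclr : IsClosed (Set.range (W.toSpecΓ ≫ Spec.map ψ)) := hcl.isClosed_range
  obtain ⟨p, hp⟩ := (Set.ne_univ_iff_exists_notMem _).1 hns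
  obtain ⟨_, ⟨c, rfl⟩, hpc, hc⟩ := PrimeSpectrum.isTopologicalBasis_basic_opens.exists_subset_of_mem_open
    (show p ∈ (Set.range (W.toSpecΓ ≫ Spec.map ψ))ᶜ from hp) hclr.isOpen_compl
  have h1 : X.basicOpen (ψ c) = ⊥ := by
    rw [eq_bot_iff]
    intro x hx
    have hxW : x ∈ W := X.basicOpen_le _ hx
    have h2 := (mem_iff X W C ψ ⟨x, hxW⟩ c).2 hx
    exact absurd ⟨⟨x, hxW⟩, rfl⟩ (hc h2)
  have h3 : ψ c = 0 := eq_zero_of_basicOpen_eq_bot _ h1
  have h4 : c = 0 := hψ (by rw [h3, map_zero])
  exact hpc (by rw [h4]; exact p.asIdeal.zero_mem)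

end chart

/-! ### normality -/

section normal

variable (X : Scheme.{0}) [Algebra ℂ Γ(X, ⊤)] [IsIntegral X] [IsLocallyNoetherian X] {n : ℕ}

/-- An element of the function field integral over (the image of) a ring of sections over `W` is
a section over `W`. -/
theorem exists_section_of_integral (hX : IsSmoothProperVariety ℂ X n) (W : X.Opens) [Nonempty W]
    {A : Type*} [CommRing A] (i : A →+* Γ(X, W)) (a : X.functionField)
    (ha : ((X.germToFunctionField W).hom.comp i).IsIntegralElem a) :
    ∃ t : Γ(X, W), X.germToFunctionField W t = a := by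
  apply exists_glue
  intro x hx
  have hufd := stalk_ufd X hX x
  have hic : IsIntegrallyClosed (X.presheaf.stalk x) := inferInstance
  have h1 : IsIntegral (X.presheaf.stalk x) a := by
    obtain ⟨p, hp, hpa⟩ := ha
    refine ⟨p.map (((X.presheaf.germ W x hx).hom).comp i), hp.map _, ?_⟩
    rw [Polynomial.eval₂_map]
    have h2 : (algebraMap (X.presheaf.stalk x) X.functionField).comp
        (((X.presheaf.germ W x hx).hom).comp i) = (X.germToFunctionField W).hom.comp i := by
      ext c
      exact Scheme.algebraMap_germ_eq_germToFunctionField X hx (i c)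
    rw [h2]
    exact hpa
  obtain ⟨y, hy⟩ := IsIntegrallyClosed.isIntegral_iff.1 h1
  exact ⟨y, hy⟩

end normal

end Crest.Agent.R276.ConnB_617
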