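import Mathlib
import Crest.Prelude.Def_SmoothDivisors
import Crest.Agent.R271.UfdG_243
import Crest.Agent.R276.ConnA_617
import Crest.Agent.R276.ConnB_617

set_option autoImplicit false

/-!
# Row 276, FK-CONN, part C: the theorem
-/

open AlgebraicGeometry CategoryTheory Order TopologicalSpace Polynomial Opposite
open Crest.AlgGeometry.Divisors
open Crest.Agent.R276.ConnA_617 Crest.Agent.R271.UFD243 Crest.Agent.R276.ConnB_617

namespace Crest.Agent.R276.ConnC_617

/-- two different roots of a separable polynomial of degree at least two -/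
theorem exists_two_roots (q : ℂ[X]) (hsep : q.Separable) (hdeg : 2 ≤ q.natDegree) :
    ∃ c₁ c₂ : ℂ, c₁ ≠ c₂ ∧ q.IsRoot c₁ ∧ q.IsRoot c₂ := by
  classical
  have hq : q ≠ 0 := by rintro rfl; simp at hdeg
  have h1 : q.roots.card = q.natDegree := (IsAlgClosed.splits q).natDegree_eq_card_roots.symm
  have h2 : q.roots.Nodup := nodup_roots hsep
  have h3 : 1 < q.roots.toFinset.card := by
    rw [Multiset.toFinset_card_of_nodup h2, h1]; omega
  obtain ⟨c₁, hc₁, c₂, hc₂, hne⟩ := Finset.one_lt_card.1 h3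
  refine ⟨c₁, c₂, hne, ?_, ?_⟩
  · exact (mem_roots hq).1 (Multiset.mem_toFinset.1 hc₁)
  · exact (mem_roots hq).1 (Multiset.mem_toFinset.1 hc₂)

/-- a complex point of an affine open set from a ring homomorphism -/
theorem point_structure (Z : Scheme.{0}) [Algebra ℂ Γ(Z, ⊤)] (V : Z.Opens) (hV : IsAffineOpen V)
    (v : Γ(Z, V) →+* ℂ) (hv : ∀ c, v (resC Z V c) = c) :
    (Spec.map (CommRingCat.ofHom v) ≫ hV.fromSpec) ≫ structureMorphism ℂ Z = 𝟙 _ := by
  rw [structureMorphism, Category.assoc, IsAffineOpen.fromSpec_toSpecΓ_assoc,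
    ← Spec.map_comp, ← Spec.map_comp, ← Spec.map_id]
  congr 1
  ext c
  exact hv c

/-- coordinate rings of affine open sets are integrally closed -/
theorem isIntegrallyClosed_of_affine (Z : Scheme.{0}) [Algebra ℂ Γ(Z, ⊤)] [IsIntegral Z]
    [IsLocallyNoetherian Z] {m : ℕ} (hZ : IsSmoothProperVariety ℂ Z m) (V : Z.Opens)
    (hV : IsAffineOpen V) [Nonempty V] : IsIntegrallyClosed Γ(Z, V) := by
  have := functionField_isFractionRing_of_isAffineOpen Z V hV
  rw [isIntegrallyClosed_iff Z.functionField]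
  intro x hx
  obtain ⟨t, ht⟩ := exists_section_of_integral Z hZ V (RingHom.id Γ(Z, V)) x hx
  exact ⟨t, ht⟩

/-- coordinate rings of affine open sets are of finite type -/
theorem finiteType_of_affine (Z : Scheme.{0}) [Algebra ℂ Γ(Z, ⊤)]
    (hZ : IsProper (structureMorphism ℂ Z)) (V : Z.Opens)
    (hV : IsAffineOpen V) : (resC Z V).FiniteType := by
  have e : V ≤ (structureMorphism ℂ Z) ⁻¹ᵁ ⊤ := le_top
  rw [← structureMorphism_appLE Z V e]
  have h1 : ((structureMorphism ℂ Z).appLE ⊤ V e).hom.FiniteType :=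
    (structureMorphism ℂ Z).finiteType_appLE (isAffineOpen_top _) hV e
  exact h1.comp (RingHom.FiniteType.of_surjective _
    (Scheme.ΓSpecIso (CommRingCat.of ℂ)).symm.commRingCatIsoToRingEquiv.surjective)

section main

variable (X Z : Scheme.{0}) [Algebra ℂ Γ(X, ⊤)] [Algebra ℂ Γ(Z, ⊤)]
  [IsIntegral X] [IsLocallyNoetherian X] [IsIntegral Z] [IsLocallyNoetherian Z] {n m : ℕ}
  (f : X ⟶ Z)

omit [AlgebraicGeometry.IsIntegral X] [IsLocallyNoetherian X] [AlgebraicGeometry.IsIntegral Z]
  [IsLocallyNoetherian Z] in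
/-- the morphism is proper -/
theorem isProper_of (hX : IsSmoothProperVariety ℂ X n) (hZ : IsSmoothProperVariety ℂ Z m)
    (hf : f ≫ structureMorphism ℂ Z = structureMorphism ℂ X) : IsProper f := by
  have h1 : IsProper (f ≫ structureMorphism ℂ Z) := by rw [hf]; exact hX.2.1
  have h2 : IsProper (structureMorphism ℂ Z) := hZ.2.1
  exact IsProper.of_comp f (structureMorphism ℂ Z)

theorem core (hX : IsSmoothProperVariety ℂ X n) (hZ : IsSmoothProperVariety ℂ Z m)
    (hf : f ≫ structureMorphism ℂ Z = structureMorphism ℂ X)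
    (hconn : ∀ z : Spec (CommRingCat.of ℂ) ⟶ Z, z ≫ structureMorphism ℂ Z = 𝟙 _ →
      PreconnectedSpace ↥(Limits.pullback f z))
    (φ : Z.functionField →+* X.functionField)
    (hφ : ∀ (V : Z.Opens) [Nonempty V] [Nonempty (f ⁻¹ᵁ V : X.Opens)] (s : Γ(Z, V)),
      φ (Z.germToFunctionField V s) = X.germToFunctionField (f ⁻¹ᵁ V) (f.app V s))
    (V : Z.Opens) (hV : IsAffineOpen V) [Nonempty V] [Nonempty (f ⁻¹ᵁ V : X.Opens)]
    (a : X.functionField)
    (ha : ((X.germToFunctionField (f ⁻¹ᵁ V)).hom.comp (f.app V).hom).IsIntegralElem a) :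
    a ∈ φ.range := by
  classical
  by_contra hna
  have hprop : IsProper f := isProper_of X Z f hX hZ hf
  obtain ⟨t, ht⟩ := exists_section_of_integral X hX (f ⁻¹ᵁ V) (f.app V).hom a ha
  have hfr := functionField_isFractionRing_of_isAffineOpen Z V hV
  have hic := isIntegrallyClosed_of_affine Z hZ V hV
  -- algebra structures
  let W : X.Opens := f ⁻¹ᵁ V
  let iAK : Algebra Γ(Z, V) X.functionField :=
    ((X.germToFunctionField (f ⁻¹ᵁ V)).hom.comp (f.app V).hom).toAlgebra
  let iMK : Algebra Z.functionField X.functionField := φ.toAlgebra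
  have htow : IsScalarTower Γ(Z, V) Z.functionField X.functionField :=
    IsScalarTower.of_algebraMap_eq (fun s => (hφ V s).symm)
  have hinjA : Function.Injective (algebraMap Γ(Z, V) X.functionField) := by
    rw [IsScalarTower.algebraMap_eq Γ(Z, V) Z.functionField X.functionField]
    exact φ.injective.comp (IsFractionRing.injective Γ(Z, V) Z.functionField)
  have htf : Module.IsTorsionFree Γ(Z, V) X.functionField := by
    rw [Module.isTorsionFree_iff_algebraMap_injective]
    exact hinjA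
  have hint : IsIntegral Γ(Z, V) a := ha
  -- the minimal polynomial
  let g : Γ(Z, V)[X] := minpoly Γ(Z, V) a
  have hgm : g.Monic := minpoly.monic hint
  have hgM : minpoly Z.functionField a = g.map (algebraMap Γ(Z, V) Z.functionField) :=
    minpoly.isIntegrallyClosed_eq_field_fractions' Z.functionField hint
  have hintM : IsIntegral Z.functionField a := hint.tower_top
  have hdeg : 2 ≤ g.natDegree := by
    have h1 : 2 ≤ (minpoly Z.functionField a).natDegree :=
      (minpoly.two_le_natDegree_iff hintM).2 hna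
    rwa [hgM, hgm.natDegree_map] at h1
  have hch : CharZero Z.functionField := by
    have h1 : Function.Injective ((algebraMap Γ(Z, V) Z.functionField).comp (resC Z V)) :=
      RingHom.injective _
    exact charZero_of_injective_ringHom h1
  have hsep : (g.map (algebraMap Γ(Z, V) Z.functionField)).Separable := by
    rw [← hgM]
    exact (minpoly.irreducible hintM).separable
  obtain ⟨d, hd, U, U', hU⟩ := exists_bezout g hsep
  -- the point
  let iCA : Algebra ℂ Γ(Z, V) := (resC Z V).toAlgebra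
  have hft : Algebra.FiniteType ℂ Γ(Z, V) := finiteType_of_affine Z hZ.2.1 V hV
  obtain ⟨v, hvd⟩ := exists_point_ne d hd
  have hvs : ∀ c, v (resC Z V c) = c := fun c => v.commutes c
  have hvm : (g.map (v : Γ(Z, V) →+* ℂ)).Monic := hgm.map _
  have hvsep : (g.map (v : Γ(Z, V) →+* ℂ)).Separable := by
    refine ⟨C (v d)⁻¹ * U.map (v : Γ(Z, V) →+* ℂ), C (v d)⁻¹ * U'.map (v : Γ(Z, V) →+* ℂ), ?_⟩
    have h1 := congrArg (Polynomial.map (v : Γ(Z, V) →+* ℂ)) hU
    simp only [Polynomial.map_add, Polynomial.map_mul, Polynomial.map_C,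
      ← Polynomial.derivative_map] at h1
    have h2 : C (v d)⁻¹ * C (v d) = (1 : ℂ[X]) := by
      rw [← C_mul, inv_mul_cancel₀ hvd, C_1]
    have h3 : C ((v : Γ(Z, V) →+* ℂ) d) = C (v d) := rfl
    rw [h3] at h1
    linear_combination (C (v d)⁻¹) * h1 + h2
  have hvdeg : 2 ≤ (g.map (v : Γ(Z, V) →+* ℂ)).natDegree := by
    rwa [hgm.natDegree_map]
  obtain ⟨c₁, c₂, hne, hc₁, hc₂⟩ := exists_two_roots _ hvsep hvdeg
  -- the map to the spectrum
  have hgt : g.eval₂ (f.app V).hom t = 0 := by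
    apply (X.germToFunctionField_injective (f ⁻¹ᵁ V))
    have h1 : (X.germToFunctionField (f ⁻¹ᵁ V)).hom (g.eval₂ (f.app V).hom t) =
        g.eval₂ ((X.germToFunctionField (f ⁻¹ᵁ V)).hom.comp (f.app V).hom)
          ((X.germToFunctionField (f ⁻¹ᵁ V)).hom t) := by
      rw [Polynomial.hom_eval₂]
    have h2 : (X.germToFunctionField (f ⁻¹ᵁ V)).hom t = a := ht
    have h3 : g.eval₂ ((X.germToFunctionField (f ⁻¹ᵁ V)).hom.comp (f.app V).hom) a = 0 :=
      minpoly.aeval Γ(Z, V) a
    rw [h2, h3] at h1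
    rw [map_zero]
    exact h1
  let ψ : CommRingCat.of (AdjoinRoot g) ⟶ Γ(X, f ⁻¹ᵁ V) :=
    CommRingCat.ofHom (AdjoinRoot.lift (f.app V).hom t hgt)
  have hψinj : Function.Injective ψ := by
    have h0 : Function.Injective (AdjoinRoot.lift (f.app V).hom t hgt) := by
      rw [injective_iff_map_eq_zero]
      intro x hx
      obtain ⟨q, rfl⟩ := AdjoinRoot.mk_surjective x
      rw [AdjoinRoot.lift_mk] at hx
      have h1 : Polynomial.aeval a q = 0 := by
        have h2 := congrArg (X.germToFunctionField (f ⁻¹ᵁ V)).hom hx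
        rw [Polynomial.hom_eval₂, map_zero] at h2
        have h3 : (X.germToFunctionField (f ⁻¹ᵁ V)).hom t = a := ht
        rw [h3] at h2
        exact h2
      rw [AdjoinRoot.mk_eq_zero]
      exact minpoly.isIntegrallyClosed_dvd hint h1
    exact h0
  have hdom : IsDomain (CommRingCat.of (AdjoinRoot g)) := by
    have : IsDomain Γ(X, f ⁻¹ᵁ V) := inferInstance
    exact hψinj.isDomain ψ.hom
  let h : (f ⁻¹ᵁ V).toScheme ⟶ Spec (CommRingCat.of (AdjoinRoot g)) :=
    (f ⁻¹ᵁ V).toSpecΓ ≫ Spec.map ψ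
  have hcomp : h ≫ Spec.map (CommRingCat.ofHom (AdjoinRoot.of g)) = f ∣_ V ≫ V.toSpecΓ := by
    rw [← Scheme.Opens.toSpecΓ_naturality, Category.assoc, ← Spec.map_comp]
    congr 2
    ext s
    simp [ψ]
  have hhcl : UniversallyClosed h := by
    have h1 : IsProper (f ∣_ V) := IsZariskiLocalAtTarget.restrict hprop V
    have h2 : IsIso V.toSpecΓ := by
      rw [← hV.isoSpec_hom]; infer_instance
    have h3 : UniversallyClosed (h ≫ Spec.map (CommRingCat.ofHom (AdjoinRoot.of g))) := by
      rw [hcomp]; infer_instance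
    exact UniversallyClosed.of_comp_of_isSeparated h
      (Spec.map (CommRingCat.ofHom (AdjoinRoot.of g)))
  have hsurj' : Function.Surjective h := surj X (f ⁻¹ᵁ V) _ ψ hψinj h.isClosedMap
  -- the primes of the roots
  have hev : ∀ c, (g.map (v : Γ(Z, V) →+* ℂ)).IsRoot c →
      g.eval₂ (v : Γ(Z, V) →+* ℂ) c = 0 := by
    intro c hc
    rw [Polynomial.IsRoot.def, Polynomial.eval_map] at hc
    exact hc
  let z : Spec (CommRingCat.of ℂ) ⟶ Z :=
    Spec.map (CommRingCat.ofHom (v : Γ(Z, V) →+* ℂ)) ≫ hV.fromSpec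
  have hz : z ≫ structureMorphism ℂ Z = 𝟙 _ := point_structure Z V hV _ hvs
  have hpre := hconn z hz
  -- the formula for `f` on the preimage
  have hfx : ∀ x : (f ⁻¹ᵁ V : X.Opens),
      f x.1 = hV.fromSpec (Spec.map (CommRingCat.ofHom (AdjoinRoot.of g)) (h x)) := by
    intro x
    have h1 : (h ≫ Spec.map (CommRingCat.ofHom (AdjoinRoot.of g))) ≫ hV.fromSpec =
        (f ⁻¹ᵁ V).ι ≫ f := by
      rw [hcomp, Category.assoc, IsAffineOpen.toSpecΓ_fromSpec, morphismRestrict_ι]
    have h2 := congrArg (fun k : (f ⁻¹ᵁ V).toScheme ⟶ Z => k x) h1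
    exact h2.symm
  have hfsinj : Function.Injective hV.fromSpec := hV.fromSpec.isOpenEmbedding.injective
  -- points over the roots
  have hpts : ∀ c, (g.map (v : Γ(Z, V) →+* ℂ)).IsRoot c →
      ∃ y : ↥(Limits.pullback f z), ∃ hy : Limits.pullback.fst f z y ∈ f ⁻¹ᵁ V,
        AdjoinRoot.root g - AdjoinRoot.of g (resC Z V c) ∈
          (h ⟨Limits.pullback.fst f z y, hy⟩).asIdeal := by
    intro c hc
    let ev : AdjoinRoot g →+* ℂ := AdjoinRoot.lift (v : Γ(Z, V) →+* ℂ) c (hev c hc)
    let P : PrimeSpectrum (AdjoinRoot g) := ⟨RingHom.ker ev, RingHom.ker_isPrime ev⟩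
    obtain ⟨x, hx⟩ := hsurj' P
    have hpt : f x.1 = z (IsLocalRing.closedPoint ℂ) := by
      rw [hfx x, hx]
      change hV.fromSpec _ = hV.fromSpec _
      congr 1
      apply PrimeSpectrum.ext
      ext s
      change ev (AdjoinRoot.of g s) = 0 ↔ v s ∈ IsLocalRing.maximalIdeal ℂ
      rw [IsLocalRing.mem_maximalIdeal, mem_nonunits_iff, isUnit_iff_ne_zero, not_not]
      simp [ev]
    obtain ⟨y, hy, -⟩ := Scheme.Pullback.exists_preimage_pullback (f := f) (g := z) x.1
      (IsLocalRing.closedPoint ℂ) hpt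
    refine ⟨y, by rw [hy]; exact x.2, ?_⟩
    have hxy : (⟨Limits.pullback.fst f z y, by rw [hy]; exact x.2⟩ :
        (f ⁻¹ᵁ V : X.Opens)) = x := Subtype.ext hy
    rw [hxy, hx]
    change ev _ = 0
    simp [ev, hvs]
  have hmem : ∀ y : ↥(Limits.pullback f z), Limits.pullback.fst f z y ∈ f ⁻¹ᵁ V := by
    intro y
    have h1 : f (Limits.pullback.fst f z y) = z (Limits.pullback.snd f z y) := by
      rw [← Scheme.Hom.comp_apply, Limits.pullback.condition, Scheme.Hom.comp_apply]
    change f (Limits.pullback.fst f z y) ∈ V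
    rw [h1]
    change hV.fromSpec _ ∈ (V : Set Z)
    rw [← hV.range_fromSpec]
    exact ⟨_, rfl⟩
  let Θ : ↥(Limits.pullback f z) → PrimeSpectrum (AdjoinRoot g) := fun y =>
    h ⟨Limits.pullback.fst f z y, hmem y⟩
  have hΘ : Continuous Θ := by
    refine h.continuous.comp ?_
    exact Continuous.subtype_mk (Limits.pullback.fst f z).continuous _
  obtain ⟨y₁, hy₁, hy₁'⟩ := hpts c₁ hc₁
  obtain ⟨y₂, hy₂, hy₂'⟩ := hpts c₂ hc₂
  refine fib_conn (resC Z V) (v : Γ(Z, V) →+* ℂ) hvs g hgm (IsAlgClosed.splits _) hne Θ hΘ ?_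
    y₁ y₂ hy₁' hy₂'
  intro y s hs
  have h1 : Spec.map (CommRingCat.ofHom (AdjoinRoot.of g)) (Θ y) =
      Spec.map (CommRingCat.ofHom (v : Γ(Z, V) →+* ℂ)) (Limits.pullback.snd f z y) := by
    apply hfsinj
    rw [← hfx ⟨Limits.pullback.fst f z y, hmem y⟩]
    change f (Limits.pullback.fst f z y) = z (Limits.pullback.snd f z y)
    rw [← Scheme.Hom.comp_apply, Limits.pullback.condition, Scheme.Hom.comp_apply]
  have h2 : AdjoinRoot.of g s ∈ (Θ y).asIdeal ↔ v s ∈ (Limits.pullback.snd f z y).asIdeal := by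
    have := congrArg (fun q : PrimeSpectrum Γ(Z, V) => s ∈ q.asIdeal) h1
    exact this.to_iff
  rw [h2]
  have h3 : v s = 0 := hs
  rw [h3]
  exact Ideal.zero_mem _

/-- **FK-CONN.** Let `f : X ⟶ Z` be a surjective morphism of smooth proper complex varieties all of
whose fibres over complex points are connected. Then the function field of `Z` is algebraically
closed in the function field of `X`. The homomorphism `φ` of function fields is any one compatible
with the sections over the open sets. -/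
theorem algClosed_of_connected (hX : IsSmoothProperVariety ℂ X n)
    (hZ : IsSmoothProperVariety ℂ Z m)
    (hf : f ≫ structureMorphism ℂ Z = structureMorphism ℂ X)
    (hsurj : Function.Surjective f)
    (hconn : ∀ z : Spec (CommRingCat.of ℂ) ⟶ Z, z ≫ structureMorphism ℂ Z = 𝟙 _ →
      PreconnectedSpace ↥(Limits.pullback f z))
    (φ : Z.functionField →+* X.functionField)
    (hφ : ∀ (V : Z.Opens) [Nonempty V] [Nonempty (f ⁻¹ᵁ V : X.Opens)] (s : Γ(Z, V)),
      φ (Z.germToFunctionField V s) = X.germToFunctionField (f ⁻¹ᵁ V) (f.app V s))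
    (a : X.functionField) (p : Z.functionField[X]) (hp : p ≠ 0) (hpa : p.eval₂ φ a = 0) :
    a ∈ φ.range := by
  obtain ⟨V, hV, hgV, -⟩ := exists_isAffineOpen_mem_and_subset (X := Z) (x := genericPoint Z)
    (U := ⊤) trivial
  have hVne : Nonempty V := ⟨⟨_, hgV⟩⟩
  obtain ⟨x, hx⟩ := hsurj (genericPoint Z)
  have hWne : Nonempty (f ⁻¹ᵁ V : X.Opens) := ⟨⟨x, by
    change f x ∈ V
    rw [hx]; exact hgV⟩⟩
  have hfr := functionField_isFractionRing_of_isAffineOpen Z V hV
  let iAK : Algebra Γ(Z, V) X.functionField :=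
    ((X.germToFunctionField (f ⁻¹ᵁ V)).hom.comp (f.app V).hom).toAlgebra
  let iMK : Algebra Z.functionField X.functionField := φ.toAlgebra
  have htow : IsScalarTower Γ(Z, V) Z.functionField X.functionField :=
    IsScalarTower.of_algebraMap_eq (fun s => (hφ V s).symm)
  have halg : IsAlgebraic Z.functionField a := ⟨p, hp, hpa⟩
  have halgA : IsAlgebraic Γ(Z, V) a :=
    (IsFractionRing.isAlgebraic_iff Γ(Z, V) Z.functionField X.functionField).2 halg
  obtain ⟨b, hb, hbint⟩ := halgA.exists_integral_multiple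
  obtain ⟨y, hy⟩ := core X Z f hX hZ hf hconn φ hφ V hV (b • a) hbint
  have hb0 : algebraMap Γ(Z, V) Z.functionField b ≠ 0 := by
    intro h0
    exact hb (IsFractionRing.injective Γ(Z, V) Z.functionField (by rw [h0, map_zero]))
  refine ⟨(algebraMap Γ(Z, V) Z.functionField b)⁻¹ * y, ?_⟩
  rw [map_mul, map_inv₀, hy, Algebra.smul_def,
    IsScalarTower.algebraMap_apply Γ(Z, V) Z.functionField X.functionField]
  have h1 : φ (algebraMap Γ(Z, V) Z.functionField b) ≠ 0 := by
    exact (_root_.map_ne_zero φ).2 hb0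
  change (φ (algebraMap Γ(Z, V) Z.functionField b))⁻¹ *
    (φ (algebraMap Γ(Z, V) Z.functionField b) * a) = a
  field_simp

end main

end Crest.Agent.R276.ConnC_617
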