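import Mathlib
import Crest.Agent.R271.KrullTrdeg_661

/-!
# Row 276 (S0419), FK2: the residue field of a prime divisor has transcendence degree `n - 1`
(helper594).
-/

set_option autoImplicit false
set_option linter.style.haveILetI false
set_option linter.unusedSectionVars false

open MvPolynomial

noncomputable section

namespace Crest.Agent.R276.FKB1_594

/-- `height Q + dim A/Q ≤ dim A` -/
theorem height_add_le {A : Type*} [CommRing A] {Q : Ideal A} [hQ : Q.IsPrime] {n c : ℕ}
    (h1 : (n : WithBot ℕ∞) ≤ ringKrullDim (A ⧸ Q))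
    (hc : ringKrullDim A = (c : ℕ)) : Q.height + n ≤ c := by
  have hne : Nonempty (PrimeSpectrum A) := ⟨⟨Q, hQ⟩⟩
  have h2 := Order.krullDim_eq_iSup_height_add_coheight_of_nonempty (α := PrimeSpectrum A)
  have h3 : ringKrullDim (A ⧸ Q) = Order.coheight (⟨Q, hQ⟩ : PrimeSpectrum A) := by
    rw [Order.coheight_eq_krullDim_Ici, ringKrullDim_quotient]
    congr 1
  rw [h3] at h1
  have h4 : (n : ℕ∞) ≤ Order.coheight (⟨Q, hQ⟩ : PrimeSpectrum A) := by exact_mod_cast h1
  have h5 : Order.height (⟨Q, hQ⟩ : PrimeSpectrum A) + Order.coheight (⟨Q, hQ⟩ : PrimeSpectrum A)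
      ≤ ⨆ (a : PrimeSpectrum A), Order.height a + Order.coheight a :=
    le_iSup (fun a : PrimeSpectrum A => Order.height a + Order.coheight a) _
  have h6 : ((⨆ (a : PrimeSpectrum A), Order.height a + Order.coheight a : ℕ∞) : WithBot ℕ∞) =
      ((c : ℕ∞) : WithBot ℕ∞) := by
    rw [← h2]; exact hc
  have h7 : (⨆ (a : PrimeSpectrum A), Order.height a + Order.coheight a : ℕ∞) = (c : ℕ∞) :=
    WithBot.coe_injective h6
  rw [h7] at h5
  have h8 : Q.height = Order.height (⟨Q, hQ⟩ : PrimeSpectrum A) :=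
    PrimeSpectrum.height_eq_orderHeight ⟨Q, hQ⟩
  rw [h8]
  exact (add_le_add le_rfl h4).trans h5

/-- modulo a nonconstant prime polynomial, the variables other than one occurring in it are
algebraically independent -/
theorem algebraicIndependent_of_prime {k : Type*} [Field k] {n : ℕ}
    {π : MvPolynomial (Fin n) k} (hπ : Prime π) :
    ∃ j : Fin n, ∀ F : MvPolynomial {i // i ≠ j} k,
      π ∣ rename Subtype.val F → F = 0 := by
  classical
  obtain ⟨j, hj⟩ : ∃ j, π.degreeOf j ≠ 0 := by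
    by_contra hcon
    push Not at hcon
    have hv : π.vars = ∅ := by
      ext i
      simp [mem_vars_iff_degreeOf_ne_zero, hcon i]
    have hc := vars_eq_empty_iff_eq_C.1 hv
    apply hπ.not_isUnit
    rw [hc]
    refine (IsUnit.mk0 _ ?_).map C
    intro h0
    exact hπ.ne_zero (by rw [hc, h0, C_0])
  refine ⟨j, fun F hF => ?_⟩
  by_contra hF0
  have hr0 : rename Subtype.val F ≠ 0 := by
    intro h
    exact hF0 (rename_injective _ Subtype.val_injective (by rw [h, map_zero]))
  obtain ⟨c, hc⟩ := hF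
  have hc0 : c ≠ 0 := by rintro rfl; exact hr0 (by rw [hc, mul_zero])
  have h1 : (rename Subtype.val F).degreeOf j = π.degreeOf j + c.degreeOf j := by
    rw [hc, degreeOf_mul_eq hπ.ne_zero hc0]
  have h2 : (rename Subtype.val F).degreeOf j = 0 := by
    by_contra h
    obtain ⟨i, -, hi⟩ := mem_vars_rename _ _ (mem_vars_iff_degreeOf_ne_zero.2 h)
    exact i.2 hi
  omega

variable {n : ℕ} {A : Type} [CommRing A] [IsDomain A] [Algebra ℂ A]

/-- a height one prime of an étale `ℂ[x_1..x_n]`-domain has a quotient of transcendence degree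
`n - 1` -/
theorem trdeg_quotient (w : Fin n → A)
    (hw : RingHom.Etale ((MvPolynomial.aeval w : MvPolynomial (Fin n) ℂ →ₐ[ℂ] A) :
      MvPolynomial (Fin n) ℂ →+* A)) (p : Ideal A) [hp : p.IsPrime] (hp1 : p.height = 1) :
    ∃ j : Fin n, AlgebraicIndependent ℂ (fun i : {i // i ≠ j} => Ideal.Quotient.mk p (w i)) ∧
      Algebra.trdeg ℂ (A ⧸ p) + 1 = n := by
  classical
  letI : Algebra (MvPolynomial (Fin n) ℂ) A :=
    ((MvPolynomial.aeval w : MvPolynomial (Fin n) ℂ →ₐ[ℂ] A) :
      MvPolynomial (Fin n) ℂ →+* A).toAlgebra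
  haveI hE : Algebra.Etale (MvPolynomial (Fin n) ℂ) A := hw
  haveI : IsScalarTower ℂ (MvPolynomial (Fin n) ℂ) A :=
    IsScalarTower.of_algebraMap_eq fun a => ((MvPolynomial.aeval w).commutes a).symm
  haveI hft : Algebra.FiniteType ℂ A := Crest.Agent.R271.KT661.finiteType_of_etale w hw
  haveI hN : IsNoetherianRing A := Algebra.FiniteType.isNoetherianRing ℂ A
  haveI hflat : Module.Flat (MvPolynomial (Fin n) ℂ) A := Algebra.Smooth.flat _ A
  haveI : Algebra.HasGoingDown (MvPolynomial (Fin n) ℂ) A := inferInstance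
  obtain ⟨hinj, halg⟩ := Crest.Agent.R271.KT661.injective_and_isAlgebraic_of_etale
    (R := MvPolynomial (Fin n) ℂ) (S := A)
  set q : Ideal (MvPolynomial (Fin n) ℂ) := p.comap (algebraMap _ A) with hq
  haveI hqp : q.IsPrime := Ideal.comap_isPrime _ _
  haveI : p.LiesOver q := ⟨rfl⟩
  have hp0 : p ≠ ⊥ := p.ne_bot_of_height_eq_one hp1
  obtain ⟨a, hap, ha0⟩ := p.ne_bot_iff.1 hp0
  have hq0 : q ≠ ⊥ := Ideal.comap_ne_bot_of_algebraic_mem ha0 hap (halg.isAlgebraic a)
  have hle : q.height ≤ 1 := by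
    have h1 := Ideal.height_eq_height_add_of_liesOver_of_hasGoingDown q p
    rw [hp1] at h1
    rw [h1]
    exact le_self_add
  have hq1 : q.height = 1 := by
    refine le_antisymm hle ?_
    rw [Order.one_le_iff_ne_zero]
    intro h0
    apply hq0
    haveI := hqp
    exact (Ideal.height_eq_zero_iff_eq_bot (I := q)).1 h0
  obtain ⟨π, hπq, hπ⟩ := Ideal.IsPrime.exists_mem_prime_of_ne_bot hqp hq0
  have hspan := q.eq_span_singleton_of_height_eq_one hq1 hπq hπ
  obtain ⟨j, hj⟩ := algebraicIndependent_of_prime hπ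
  have hai : AlgebraicIndependent ℂ (fun i : {i // i ≠ j} => Ideal.Quotient.mk p (w i)) := by
    rw [algebraicIndependent_iff]
    intro F hF
    apply hj F
    have h1 : aeval (fun i : {i // i ≠ j} => Ideal.Quotient.mk p (w i)) F =
        Ideal.Quotient.mk p (algebraMap (MvPolynomial (Fin n) ℂ) A (rename Subtype.val F)) := by
      have h2 : (Ideal.Quotient.mk p) (aeval w (rename Subtype.val F)) =
          (Ideal.Quotient.mkₐ ℂ p) (aeval w (rename Subtype.val F)) := rfl
      change _ = Ideal.Quotient.mk p (aeval w (rename Subtype.val F))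
      rw [h2, aeval_rename, ← AlgHom.comp_apply, comp_aeval]
      rfl
    rw [h1, Ideal.Quotient.eq_zero_iff_mem] at hF
    have h3 : rename Subtype.val F ∈ q := hF
    rw [hspan, Ideal.mem_span_singleton] at h3
    exact h3
  refine ⟨j, hai, ?_⟩
  have hlow : ((n - 1 : ℕ) : Cardinal) ≤ Algebra.trdeg ℂ (A ⧸ p) := by
    have h := hai.cardinalMk_le_trdeg
    rw [Cardinal.mk_fintype] at h
    have hc : Fintype.card {i // i ≠ j} = n - 1 := by
      rw [Fintype.card_subtype_compl]; simp
    rwa [hc] at h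
  have hn : 1 ≤ n := Nat.one_le_of_lt j.2
  obtain ⟨s, hs1, hs2⟩ := Crest.Agent.R271.KT661.exists_noether ℂ (A ⧸ p)
  rw [hs2] at hlow ⊢
  have h4 : n - 1 ≤ s := by exact_mod_cast hlow
  have h5 := height_add_le (Q := p) (n := s) (c := n) hs1.ge
    (Crest.Agent.R271.KT661.krull_eq w hw)
  rw [hp1] at h5
  have h6 : 1 + s ≤ n := by exact_mod_cast h5
  have h7 : s + 1 = n := by omega
  exact_mod_cast h7

end Crest.Agent.R276.FKB1_594
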