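import Mathlib
import Crest.Prelude.Def_KodairaDim
import Crest.Agent.R271.Br5_958
import Crest.Agent.R271.Val_985
import Crest.Agent.R271.UfdG_243
import Crest.Agent.R271.Kx1_735

/-!
Row 276, leaf FK2 (helper375): bridge between `KodairaDimGe` on a smooth proper scheme over `ℂ`
and pluricanonical forms of the function field that are regular at every valuation ring.
-/

set_option autoImplicit false
set_option linter.unusedSectionVars false
set_option linter.style.haveILetI false

open AlgebraicGeometry Order CategoryTheory Crest.AlgGeometry.Divisors TopologicalSpace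
open Crest.Agent.R271.Br958 Crest.Agent.R271.Bs960 Crest.Agent.R271.Kx735

noncomputable section

namespace Crest.Agent.R276.FKB_375

set_option warn.classDefReducibility false in
attribute [local instance] fnFieldAlgebra

variable {X : Scheme.{0}} [Algebra ℂ Γ(X, ⊤)] [IsIntegral X] [IsLocallyNoetherian X] {n : ℕ}

theorem normalSch (hX : IsSmoothProperVariety ℂ X n) : NormalSch X :=
  ⟨fun x => by
    have := Crest.Agent.R271.UFD243.stalk_ufd X hX x
    infer_instance⟩

/-- local frame given by coordinates at an arbitrary point -/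
theorem exists_coord_frame (hX : IsSmoothProperVariety ℂ X n) (x : X) :
    ∃ (y : Fin n → X.presheaf.stalk x)
      (b : Module.Basis (Fin n) X.functionField (Ω[X.functionField⁄ℂ])),
      (∀ i, b i = KaehlerDifferential.D ℂ X.functionField
        (algebraMap (X.presheaf.stalk x) X.functionField (y i))) ∧
      ∀ z : X, z ⤳ x → IsLocalFrameAt ℂ X z ⇑b := by
  obtain ⟨V, hV, hxV, w, hw⟩ := exists_etale_chart hX x
  letI := secAlg X V
  have hne : Nonempty V := ⟨⟨x, hxV⟩⟩
  obtain ⟨b, hb, hbf⟩ := frame_of_etale X hV w (ECoord.fe hw)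
  refine ⟨fun i => X.presheaf.germ V x hxV (w i), b, fun i => ?_, fun z hz =>
    hbf z (hz.mem_open V.isOpen hxV)⟩
  rw [hb]
  congr 1
  exact (Scheme.algebraMap_germ_eq_germToFunctionField X hxV (w i)).symm

lemma det_mul_det (b b' : Module.Basis (Fin n) X.functionField (Ω[X.functionField⁄ℂ])) :
    b'.det b * (b.toMatrix b').det = 1 := by
  rw [Module.Basis.det_apply, ← Matrix.det_mul, Module.Basis.toMatrix_mul_toMatrix_flip,
    Matrix.det_one]

/-- Sections of `m K_X` are regular `m`-canonical forms at every valuation ring. -/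
theorem pluri_of_section (hX : IsSmoothProperVariety ℂ X n)
    (b' : Module.Basis (Fin n) X.functionField (Ω[X.functionField⁄ℂ]))
    {K : WeilDiv X} {c : X.functionField} (hc : c ≠ 0)
    (hcK : ∀ (z : PrimeDivisor X)
      (b : Module.Basis (Fin n) X.functionField (Ω[X.functionField⁄ℂ])),
      IsLocalFrameAt ℂ X z.1 ⇑b →
        K z = Scheme.ord c z.1 + Scheme.ord (b.toMatrix b').det z.1)
    (m : ℕ) {f : X.functionField} (hf : IsSection (m • K) f)
    (R : ValuationSubring X.functionField)
    (hR : ∀ a : ℂ, algebraMap ℂ X.functionField a ∈ R) :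
    ∃ y : Fin n → X.functionField, (∀ i, y i ∈ R) ∧
      b'.det (fun i => KaehlerDifferential.D ℂ X.functionField (y i)) ≠ 0 ∧
      f * c ^ m / b'.det (fun i => KaehlerDifferential.D ℂ X.functionField (y i)) ^ m ∈ R := by
  have hn := normalSch hX
  obtain ⟨x, hx⟩ := Crest.Agent.R271.Br958.exists_center hX.2.1 R hR
  obtain ⟨y, b, hb, hbf⟩ := exists_coord_frame hX x
  have hD : (fun i => KaehlerDifferential.D ℂ X.functionField
      (algebraMap (X.presheaf.stalk x) X.functionField (y i))) = ⇑b := by
    funext i; rw [hb]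
  refine ⟨fun i => algebraMap (X.presheaf.stalk x) X.functionField (y i), fun i => hx _, ?_, ?_⟩
  · rw [hD]
    exact left_ne_zero_of_mul_eq_one (det_mul_det b b')
  · rw [hD]
    have hJ : b'.det b ≠ 0 := left_ne_zero_of_mul_eq_one (det_mul_det b b')
    have hdet : (b.toMatrix b').det ≠ 0 := right_ne_zero_of_mul_eq_one (det_mul_det b b')
    have hfc : f * c ^ m ≠ 0 := mul_ne_zero hf.1 (pow_ne_zero m hc)
    obtain ⟨a, ha⟩ := mem_stalk_of_ord_nonneg_all x (f * c ^ m / b'.det b ^ m)
      (div_ne_zero hfc (pow_ne_zero m hJ)) (fun z hz hzx => by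
        have h1 := hcK ⟨z, hz⟩ b (hbf z hzx)
        have h2 := hf.2 ⟨z, hz⟩
        have h3 := congrArg (fun g => Scheme.ord g z) (det_mul_det b b')
        rw [Scheme.ord_mul hJ hdet, ord_one] at h3
        rw [ord_div hfc (pow_ne_zero m hJ), Scheme.ord_mul hf.1 (pow_ne_zero m hc), ord_pow hc,
          ord_pow hJ]
        simp only [Finsupp.smul_apply, nsmul_eq_mul] at h2
        have h4 : Scheme.ord (b'.det b) z = - Scheme.ord (b.toMatrix b').det z := by omega
        rw [h4]
        rw [h1] at h2
        nlinarith)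
    rw [← ha]
    exact hx a

/-- the valuation subring of a prime divisor -/
def stalkVal (z : X) (hd : IsDiscreteValuationRing (X.presheaf.stalk z)) :
    ValuationSubring X.functionField where
  toSubring := (algebraMap (X.presheaf.stalk z) X.functionField).range
  mem_or_inv_mem' x := by
    rcases ValuationRing.isInteger_or_isInteger (X.presheaf.stalk z) x with h | h
    · obtain ⟨a, ha⟩ := h
      exact Or.inl ⟨a, ha⟩
    · obtain ⟨a, ha⟩ := h
      exact Or.inr ⟨a, ha⟩

lemma mem_stalkVal (z : X) (hd : IsDiscreteValuationRing (X.presheaf.stalk z))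
    (x : X.functionField) :
    x ∈ stalkVal z hd ↔ ∃ a, algebraMap (X.presheaf.stalk z) X.functionField a = x := Iff.rfl

lemma const_mem_stalkVal (z : X) (hd : IsDiscreteValuationRing (X.presheaf.stalk z)) (a : ℂ) :
    algebraMap ℂ X.functionField a ∈ stalkVal z hd := by
  letI := stalkAlgebra ℂ X z
  have := tower_stalk_fn X z
  exact ⟨algebraMap ℂ (X.presheaf.stalk z) a, (IsScalarTower.algebraMap_apply ℂ _ _ a).symm⟩

lemma repr_sum_smul {ι F M : Type*} [Fintype ι] [Field F] [AddCommGroup M]
    [Module F M] (b : Module.Basis ι F M) (c : ι → F) (j : ι) :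
    b.repr (∑ i, c i • b i) j = c j := by
  rw [b.repr_sum_self]

/-- the determinant of differentials of regular functions against a local frame is regular -/
lemma det_mem (z : X) (b : Module.Basis (Fin n) X.functionField (Ω[X.functionField⁄ℂ]))
    (hb : IsLocalFrameAt ℂ X z ⇑b) (y : Fin n → X.presheaf.stalk z) :
    ∃ a : X.presheaf.stalk z, algebraMap (X.presheaf.stalk z) X.functionField a =
      b.det (fun i => KaehlerDifferential.D ℂ X.functionField
        (algebraMap (X.presheaf.stalk z) X.functionField (y i))) := by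
  letI := stalkAlgebra ℂ X z
  obtain ⟨ht, e, he, hspan⟩ := hb
  have h1 : ∀ i, ∃ A : Fin n → X.presheaf.stalk z,
      ∑ j, A j • e j = KaehlerDifferential.D ℂ (X.presheaf.stalk z) (y i) := by
    intro i
    have : KaehlerDifferential.D ℂ (X.presheaf.stalk z) (y i) ∈
        Submodule.span (X.presheaf.stalk z) (Set.range e) := by
      rw [hspan]; trivial
    exact (Submodule.mem_span_range_iff_exists_fun _).1 this
  choose A hA using h1
  refine ⟨(Matrix.of fun j i => A i j).det, ?_⟩
  rw [Module.Basis.det_apply, RingHom.map_det]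
  congr 1
  ext j i
  rw [Module.Basis.toMatrix_apply]
  have h2 : KaehlerDifferential.D ℂ X.functionField
      (algebraMap (X.presheaf.stalk z) X.functionField (y i)) =
      ∑ j, algebraMap (X.presheaf.stalk z) X.functionField (A i j) • b j := by
    have h3 := congrArg (KaehlerDifferential.map ℂ ℂ (X.presheaf.stalk z) X.functionField) (hA i)
    rw [KaehlerDifferential.map_D, map_sum] at h3
    rw [← h3]
    refine Finset.sum_congr rfl fun j _ => ?_
    rw [map_smul, he, algebraMap_smul]
  rw [h2, repr_sum_smul]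
  rfl

/-- Regular `m`-canonical forms at the valuation rings of all prime divisors are sections of
`m K_X`. -/
theorem section_of_pluri (hX : IsSmoothProperVariety ℂ X n)
    (b' : Module.Basis (Fin n) X.functionField (Ω[X.functionField⁄ℂ]))
    {K : WeilDiv X} {c : X.functionField} (hc : c ≠ 0)
    (hcK : ∀ (z : PrimeDivisor X)
      (b : Module.Basis (Fin n) X.functionField (Ω[X.functionField⁄ℂ])),
      IsLocalFrameAt ℂ X z.1 ⇑b →
        K z = Scheme.ord c z.1 + Scheme.ord (b.toMatrix b').det z.1)
    (m : ℕ) {g : X.functionField} (hg : g ≠ 0)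
    (hreg : ∀ R : ValuationSubring X.functionField,
      (∀ a : ℂ, algebraMap ℂ X.functionField a ∈ R) →
      ∃ y : Fin n → X.functionField, (∀ i, y i ∈ R) ∧
        b'.det (fun i => KaehlerDifferential.D ℂ X.functionField (y i)) ≠ 0 ∧
        g / b'.det (fun i => KaehlerDifferential.D ℂ X.functionField (y i)) ^ m ∈ R) :
    IsSection (m • K) (g / c ^ m) := by
  refine ⟨div_ne_zero hg (pow_ne_zero m hc), fun z => ?_⟩
  have hd : IsDiscreteValuationRing (X.presheaf.stalk z.1) :=
    Crest.Agent.R271.UFD243.dvr_stalk X hX z.1 z.2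
  obtain ⟨y, hy, hJ, hreg2⟩ := hreg (stalkVal z.1 hd) (const_mem_stalkVal z.1 hd)
  obtain ⟨y0, b, hb, hbf⟩ := exists_coord_frame hX z.1
  have hfr := hbf z.1 (specializes_refl _)
  choose a ha using fun i => (mem_stalkVal z.1 hd (y i)).1 (hy i)
  obtain ⟨r, hr⟩ := (mem_stalkVal z.1 hd _).1 hreg2
  obtain ⟨q, hq⟩ := det_mem z.1 b hfr a
  have hfun : (fun i => KaehlerDifferential.D ℂ X.functionField
      (algebraMap (X.presheaf.stalk z.1) X.functionField (a i))) =
      fun i => KaehlerDifferential.D ℂ X.functionField (y i) := by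
    funext i; rw [ha]
  rw [hfun] at hq
  set J := b'.det (fun i => KaehlerDifferential.D ℂ X.functionField (y i)) with hJdef
  set J2 := b.det (fun i => KaehlerDifferential.D ℂ X.functionField (y i)) with hJ2def
  have hJJ : J = b'.det b * J2 := by
    rw [hJdef, hJ2def, Module.Basis.det_apply, Module.Basis.det_apply, Module.Basis.det_apply,
      ← Matrix.det_mul, Module.Basis.toMatrix_mul_toMatrix]
  have hb0 : b'.det b ≠ 0 := left_ne_zero_of_mul_eq_one (det_mul_det b b')
  have hdet : (b.toMatrix b').det ≠ 0 := right_ne_zero_of_mul_eq_one (det_mul_det b b')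
  have hJ2 : J2 ≠ 0 := fun h => hJ (by rw [hJJ, h, mul_zero])
  have h3 := congrArg (fun g => Scheme.ord g z.1) (det_mul_det b b')
  rw [Scheme.ord_mul hb0 hdet, ord_one] at h3
  have h4 : 0 ≤ Scheme.ord J2 z.1 := by
    rw [← hq]
    exact ord_nonneg_of_mem_stalk z.2 q
  have h5 : 0 ≤ Scheme.ord (g / J ^ m) z.1 := by
    rw [← hr]
    exact ord_nonneg_of_mem_stalk z.2 r
  rw [ord_div hg (pow_ne_zero m hJ), ord_pow hJ, hJJ, Scheme.ord_mul hb0 hJ2] at h5
  rw [ord_div hg (pow_ne_zero m hc), ord_pow hc]
  have h6 := hcK z b hfr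
  simp only [Finsupp.smul_apply, nsmul_eq_mul]
  rw [h6]
  nlinarith [mul_nonneg (Nat.cast_nonneg (α := ℤ) m) h4]

end Crest.Agent.R276.FKB_375
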