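import Mathlib
import Crest.Agent.R276.FKB_375
import Crest.Agent.R276.FKB1_594
import Crest.Agent.R271.PCtx2_961

/-!
# Row 276 (S0419), FK2: the valuation ring of a prime divisor is divisorial (helper594).
-/

set_option autoImplicit false
set_option linter.style.haveILetI false
set_option linter.unusedSectionVars false

open AlgebraicGeometry Order CategoryTheory Crest.AlgGeometry.Divisors TopologicalSpace
open Crest.Agent.R271.Br958 Crest.Agent.R271.Bs960 Crest.Agent.R276.FKB_375 IsLocalRing

noncomputable section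

namespace Crest.Agent.R276.FKB3_594

/-- transcendence degree of the residue field of a localisation at a prime -/
theorem trdeg_residueField {A R : Type} [CommRing A] [CommRing R] [Algebra ℂ A] [Algebra ℂ R]
    [Algebra A R] [IsScalarTower ℂ A R] [IsLocalRing R] (p : Ideal A) [hp : p.IsPrime]
    [hloc : IsLocalization.AtPrime R p] :
    Algebra.trdeg ℂ (ResidueField R) = Algebra.trdeg ℂ (A ⧸ p) := by
  have hker : ∀ a ∈ p, residue R (algebraMap A R a) = 0 := by
    intro a ha
    rw [residue_eq_zero_iff]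
    exact ((IsLocalization.AtPrime.to_map_mem_maximal_iff R p a).2 ha)
  let φ : A ⧸ p →ₐ[ℂ] ResidueField R :=
    Ideal.Quotient.liftₐ p ((IsScalarTower.toAlgHom ℂ R (ResidueField R)).comp
      (IsScalarTower.toAlgHom ℂ A R)) (fun a ha => hker a ha)
  have hφ : ∀ a : A, φ (Ideal.Quotient.mk p a) = residue R (algebraMap A R a) := fun a => rfl
  have hinj : Function.Injective φ := by
    rw [injective_iff_map_eq_zero]
    intro x hx
    obtain ⟨a, rfl⟩ := Ideal.Quotient.mk_surjective x
    rw [hφ, residue_eq_zero_iff, IsLocalization.AtPrime.to_map_mem_maximal_iff R p] at hx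
    exact Ideal.Quotient.eq_zero_iff_mem.2 hx
  letI : Algebra (A ⧸ p) (ResidueField R) := φ.toRingHom.toAlgebra
  haveI : IsScalarTower ℂ (A ⧸ p) (ResidueField R) :=
    IsScalarTower.of_algebraMap_eq fun c => (φ.commutes c).symm
  haveI : FaithfulSMul (A ⧸ p) (ResidueField R) :=
    (faithfulSMul_iff_algebraMap_injective _ _).2 hinj
  haveI : IsDomain (A ⧸ p) := Ideal.Quotient.isDomain p
  haveI : FaithfulSMul ℂ (A ⧸ p) :=
    (faithfulSMul_iff_algebraMap_injective _ _).2 (algebraMap ℂ (A ⧸ p)).injective
  haveI halg : Algebra.IsAlgebraic (A ⧸ p) (ResidueField R) := by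
    refine ⟨fun x => ?_⟩
    obtain ⟨r, rfl⟩ := IsLocalRing.residue_surjective x
    obtain ⟨⟨a, s⟩, has⟩ := IsLocalization.surj p.primeCompl r
    have h1 : algebraMap (A ⧸ p) (ResidueField R) (Ideal.Quotient.mk p s.1) * residue R r =
        algebraMap (A ⧸ p) (ResidueField R) (Ideal.Quotient.mk p a) := by
      change residue R (algebraMap A R s.1) * residue R r = residue R (algebraMap A R a)
      rw [← map_mul, mul_comm, has]
    have hs0 : Ideal.Quotient.mk p s.1 ≠ 0 := fun h =>
      s.2 (Ideal.Quotient.eq_zero_iff_mem.1 h)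
    refine ⟨Polynomial.C (Ideal.Quotient.mk p s.1) * Polynomial.X -
      Polynomial.C (Ideal.Quotient.mk p a), ?_, ?_⟩
    · intro h0
      have := congrArg (fun P => Polynomial.coeff P 1) h0
      simp only [Polynomial.coeff_sub, Polynomial.coeff_C_mul, Polynomial.coeff_X_one, mul_one,
        Polynomial.coeff_C_succ, sub_zero, Polynomial.coeff_zero] at this
      exact hs0 this
    · simp only [map_sub, map_mul, Polynomial.aeval_C, Polynomial.aeval_X]
      rw [h1, sub_self]
  have h := trdeg_add_eq ℂ (A ⧸ p) (A := ResidueField R)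
  have h0 : Algebra.trdeg (A ⧸ p) (ResidueField R) = 0 := trdeg_eq_zero
  rw [h0, add_zero] at h
  exact h.symm

set_option warn.classDefReducibility false in
attribute [local instance] fnFieldAlgebra

variable {X : Scheme.{0}} [Algebra ℂ Γ(X, ⊤)] [IsIntegral X] [IsLocallyNoetherian X] {n : ℕ}

/-- the residue field of a prime divisor has transcendence degree `n - 1` -/
theorem trdeg_residueField_stalk (hX : IsSmoothProperVariety ℂ X n) (z : X)
    (hz : coheight z = 1) :
    letI := stalkAlgebra ℂ X z
    Algebra.trdeg ℂ (ResidueField (X.presheaf.stalk z)) + 1 = n := by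
  letI := stalkAlgebra ℂ X z
  obtain ⟨V, hV, hzV, w, hw⟩ := exists_etale_chart hX z
  letI := secAlg X V
  haveI hne : Nonempty V := ⟨⟨z, hzV⟩⟩
  letI : Algebra Γ(X, V) (X.presheaf.stalk z) := (X.presheaf.germ V z hzV).hom.toAlgebra
  haveI := tower_sec_stalk X V z hzV
  haveI hloc : IsLocalization.AtPrime (X.presheaf.stalk z)
      (hV.primeIdealOf ⟨z, hzV⟩).asIdeal := hV.isLocalization_stalk ⟨z, hzV⟩
  have hh : (hV.primeIdealOf ⟨z, hzV⟩).asIdeal.height = 1 := by
    have h1 := coheight_fromSpec hV (hV.primeIdealOf ⟨z, hzV⟩)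
    rw [hV.fromSpec_primeIdealOf ⟨z, hzV⟩] at h1
    rw [← h1]
    exact hz
  obtain ⟨j, -, hj⟩ := FKB1_594.trdeg_quotient w hw (hV.primeIdealOf ⟨z, hzV⟩).asIdeal hh
  rw [trdeg_residueField (R := X.presheaf.stalk z) (hV.primeIdealOf ⟨z, hzV⟩).asIdeal]
  exact hj

/-- `O_{X,z} ≃ stalkVal z` -/
def stalkEquiv (z : X) (hd : IsDiscreteValuationRing (X.presheaf.stalk z)) :
    X.presheaf.stalk z ≃+* stalkVal z hd :=
  RingEquiv.ofBijective
    ((algebraMap (X.presheaf.stalk z) X.functionField).codRestrict (stalkVal z hd).toSubring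
      (fun a => ⟨a, rfl⟩))
    ⟨fun _ _ h => IsFractionRing.injective (X.presheaf.stalk z) X.functionField
      (congrArg Subtype.val h), fun ⟨_, a, ha⟩ => ⟨a, Subtype.ext ha⟩⟩

lemma stalkEquiv_coe (z : X) (hd : IsDiscreteValuationRing (X.presheaf.stalk z))
    (a : X.presheaf.stalk z) :
    ((stalkEquiv z hd a : stalkVal z hd) : X.functionField) = algebraMap _ _ a := rfl

theorem dvr_stalkVal (z : X) (hd : IsDiscreteValuationRing (X.presheaf.stalk z)) :
    IsDiscreteValuationRing (stalkVal z hd) :=
  haveI := hd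
  IsDiscreteValuationRing.RingEquivClass.isDiscreteValuationRing (stalkEquiv z hd)

/-- for every `ℂ`-algebra structure on the valuation ring compatible with the function field, the
residue field has transcendence degree `n - 1` -/
theorem trdeg_stalkVal (hX : IsSmoothProperVariety ℂ X n) (z : X)
    (hz : coheight z = 1) (hd : IsDiscreteValuationRing (X.presheaf.stalk z))
    [Algebra ℂ (stalkVal z hd)] [IsScalarTower ℂ (stalkVal z hd) X.functionField] :
    Algebra.trdeg ℂ (ResidueField (stalkVal z hd)) + 1 = n := by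
  letI := stalkAlgebra ℂ X z
  haveI := tower_stalk_fn X z
  let e : X.presheaf.stalk z ≃ₐ[ℂ] stalkVal z hd :=
    AlgEquiv.ofRingEquiv (f := stalkEquiv z hd) (fun c => by
      apply Subtype.ext
      rw [stalkEquiv_coe, ← IsScalarTower.algebraMap_apply]
      exact IsScalarTower.algebraMap_apply ℂ (stalkVal z hd) X.functionField c)
  let e2 : ResidueField (X.presheaf.stalk z) ≃ₐ[ℂ] ResidueField (stalkVal z hd) :=
    AlgEquiv.ofRingEquiv (f := ResidueField.mapEquiv e.toRingEquiv) (fun c => by
      change residue _ (e (algebraMap ℂ _ c)) = _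
      rw [e.commutes]
      rfl)
  rw [← e2.trdeg_eq]
  exact trdeg_residueField_stalk hX z hz

end Crest.Agent.R276.FKB3_594
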