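import Crest.Agent.R276.FKD4_508
import Crest.Agent.R276.FKDefs_779

/-!
# R276, leaf FK4 (helper508), part 5: divisorial valuation rings in algebraic extensions;
ascent and descent of `KapGe`, `KapGeS` along `K' = K ⊗_k k'`, `k'/k` Galois.
-/

set_option autoImplicit false
set_option linter.unusedSectionVars false

open Algebra TensorProduct KaehlerDifferential

namespace Crest.Agent.R276.FKD1_508

open Crest.Agent.R276.FKDefs_779 (IsDiv RegAt Pluri PluriS KapGe KapGeS)

noncomputable section

section Exist

variable {K K' : Type*} [Field K] [Field K'] [Algebra K K']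

/-- every valuation ring extends -/
theorem exists_over (R : ValuationSubring K) : ∃ V : ValuationSubring K', Over V R := by
  obtain ⟨V, hV⟩ := (LocalSubring.map (algebraMap K K') R.toLocalSubring).exists_le_valuationSubring
  refine ⟨V, fun a => ⟨fun ha => ?_, fun ha => ?_⟩⟩
  · by_contra hR
    have h1 : a⁻¹ ∈ R := (R.mem_or_inv_mem a).resolve_left hR
    have ha0 : a ≠ 0 := by rintro rfl; exact hR R.zero_mem
    have h2 : algebraMap K K' a⁻¹ ∈ (LocalSubring.map (algebraMap K K') R.toLocalSubring).toSubring :=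
      ⟨a⁻¹, h1, rfl⟩
    have h3 : IsUnit (⟨algebraMap K K' a⁻¹, h2⟩ :
        (LocalSubring.map (algebraMap K K') R.toLocalSubring).toSubring) := by
      apply hV.2.map_nonunit
      rw [isUnit_iff_exists_inv]
      refine ⟨⟨algebraMap K K' a, ha⟩, ?_⟩
      apply Subtype.ext
      change algebraMap K K' a⁻¹ * algebraMap K K' a = 1
      rw [← map_mul, inv_mul_cancel₀ ha0, map_one]
    rw [isUnit_iff_exists_inv] at h3
    obtain ⟨⟨c, hc⟩, hc2⟩ := h3
    obtain ⟨c', hc', rfl⟩ := hc
    have h4 : algebraMap K K' a⁻¹ * algebraMap K K' c' = 1 := congrArg Subtype.val hc2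
    rw [← map_mul, ← map_one (algebraMap K K')] at h4
    have h5 := (algebraMap K K').injective h4
    have h6 : c' = a := by
      have := congrArg (fun z => a * z) h5
      simpa [mul_inv_cancel_left₀ ha0] using this
    rw [← h6] at hR
    exact hR hc'
  · exact hV.1 ⟨a, ha, rfl⟩

theorem over_comap (V : ValuationSubring K') : Over V (V.comap (algebraMap K K')) := fun _ => Iff.rfl

theorem Over.eq_top [Algebra.IsAlgebraic K K'] {V : ValuationSubring K'}
    (h : Over V (⊤ : ValuationSubring K)) : V = ⊤ := by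
  rw [_root_.eq_top_iff]
  intro x _
  have h1 : IsIntegral K x := (Algebra.IsAlgebraic.isAlgebraic (R := K) x).isIntegral
  obtain ⟨p, hp, hp2⟩ := h1
  let φ : K →+* V := (algebraMap K K').codRestrict V.toSubring
    (fun a => (h a).2 (ValuationSubring.mem_top a))
  have h3 : IsIntegral V x := by
    refine ⟨p.map φ, hp.map φ, ?_⟩
    rw [Polynomial.eval₂_map]
    exact hp2
  obtain ⟨y, hy⟩ := IsIntegrallyClosed.isIntegral_iff.1 h3
  rw [← hy]
  exact y.2

theorem over_top_iff [Algebra.IsAlgebraic K K'] {V : ValuationSubring K'}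
    {R : ValuationSubring K} (h : Over V R) : V = ⊤ ↔ R = ⊤ := by
  constructor
  · rintro rfl
    ext a
    simp [← h a]
  · rintro rfl
    exact h.eq_top

end Exist

section Residue

variable {k K : Type*} [Field k] [Field K] [Algebra k K]

/-- `k → κ(V)` -/
def resHom (V : ValuationSubring K) (hk : ∀ c : k, algebraMap k K c ∈ V) :
    k →+* IsLocalRing.ResidueField V :=
  (IsLocalRing.residue V).comp ((algebraMap k K).codRestrict V.toSubring hk)

theorem res_iff (V : ValuationSubring K) (hk : ∀ c : k, algebraMap k K c ∈ V) {d : ℕ}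
    (x : Fin d → K) (hx : ∀ i, x i ∈ V) :
    letI := (resHom V hk).toAlgebra
    (∀ P : MvPolynomial (Fin d) k, P ≠ 0 → V.valuation (MvPolynomial.aeval x P) = 1) ↔
      AlgebraicIndependent k (fun i => IsLocalRing.residue V ⟨x i, hx i⟩) := by
  let := (resHom V hk).toAlgebra
  let φ : k →+* V := (algebraMap k K).codRestrict V.toSubring hk
  let F : MvPolynomial (Fin d) k →+* V := MvPolynomial.eval₂Hom φ (fun i => ⟨x i, hx i⟩)
  have h1 : ∀ P, ((F P : V) : K) = MvPolynomial.aeval x P := by
    intro P
    have : (V.subtype.comp F) = (MvPolynomial.aeval x : MvPolynomial (Fin d) k →ₐ[k] K).toRingHom := by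
      apply MvPolynomial.ringHom_ext
      · intro c; simp [F, φ]
      · intro i; simp [F]
    exact congrArg (fun g : MvPolynomial (Fin d) k →+* K => g P) this
  have h2 : ∀ P, IsLocalRing.residue V (F P) =
      MvPolynomial.aeval (fun i => IsLocalRing.residue V ⟨x i, hx i⟩) P := by
    intro P
    have : ((IsLocalRing.residue V).comp F) =
        (MvPolynomial.aeval (fun i => IsLocalRing.residue V ⟨x i, hx i⟩) :
          MvPolynomial (Fin d) k →ₐ[k] IsLocalRing.ResidueField V).toRingHom := by
      apply MvPolynomial.ringHom_ext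
      · intro c
        simp only [RingHom.coe_comp, Function.comp_apply, F, MvPolynomial.eval₂Hom_C,
          AlgHom.toRingHom_eq_coe, RingHom.coe_coe, MvPolynomial.algHom_C]
        rfl
      · intro i; simp [F]
    exact congrArg (fun g : MvPolynomial (Fin d) k →+* IsLocalRing.ResidueField V => g P) this
  rw [algebraicIndependent_iff_injective_aeval, injective_iff_map_eq_zero]
  constructor
  · intro h P hP
    by_contra hP0
    have h3 := h P hP0
    rw [← h2, IsLocalRing.residue_eq_zero_iff, V.valuation_lt_one_iff, h1, h3] at hP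
    exact lt_irrefl _ hP
  · intro h P hP0
    by_contra hne
    refine hP0 (h P ?_)
    rw [← h2, IsLocalRing.residue_eq_zero_iff, V.valuation_lt_one_iff, h1]
    refine lt_of_le_of_ne ?_ hne
    rw [← h1]
    exact V.valuation_le_one _

end Residue

section Div

variable {k k' K K' : Type*} [Field k] [Field k'] [Field K] [Field K']
  [Algebra k k'] [Algebra k K] [Algebra k K'] [Algebra K K'] [Algebra k' K']
  [IsScalarTower k K K'] [IsScalarTower k k' K']

theorem isDiv_up [Algebra.IsAlgebraic k k'] [Algebra.IsAlgebraic K K'] {n : ℕ}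
    {R : ValuationSubring K} {V : ValuationSubring K'} (hVR : Over V R) (h : IsDiv k n R) :
    IsDiv k' n V := by
  have hkV : ∀ c : k, algebraMap k K' c ∈ V := fun c => by
    rw [IsScalarTower.algebraMap_apply k K K', hVR]; exact h.alg c
  have hkV' : ∀ c : k', algebraMap k' K' c ∈ V := const_mem (k := k) V hkV
  refine ⟨hkV', fun hV => h.ne_top ((over_top_iff hVR).1 hV), ?_⟩
  obtain ⟨x, hx, hx2⟩ := h.res
  have hx' : ∀ i, algebraMap K K' (x i) ∈ V := fun i => (hVR _).2 (hx i)
  refine ⟨fun i => algebraMap K K' (x i), hx', ?_⟩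
  let a1 := (resHom V hkV).toAlgebra
  let a2 := (resHom V hkV').toAlgebra
  have : IsScalarTower k k' (IsLocalRing.ResidueField V) := by
    refine IsScalarTower.of_algebraMap_eq fun c => ?_
    change resHom V hkV c = resHom V hkV' (algebraMap k k' c)
    simp only [resHom, RingHom.coe_comp, Function.comp_apply]
    congr 1
    apply Subtype.ext
    exact IsScalarTower.algebraMap_apply k k' K' c
  rw [res_iff V hkV' _ hx']
  have h1 : AlgebraicIndependent k (fun i => IsLocalRing.residue V ⟨algebraMap K K' (x i), hx' i⟩) := by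
    rw [← res_iff V hkV _ hx']
    intro P hP
    have h2 := hx2 P hP
    have h3 : MvPolynomial.aeval (fun i => algebraMap K K' (x i)) P =
        algebraMap K K' (MvPolynomial.aeval x P) :=
      (MvPolynomial.aeval_algebraMap_apply K' x P)
    rw [h3]
    have e1 := (hVR.val_le (MvPolynomial.aeval x P) 1).2 (by rw [h2, map_one])
    have e2 := (hVR.val_le 1 (MvPolynomial.aeval x P)).2 (by rw [h2, map_one])
    rw [map_one, map_one] at e1 e2
    exact le_antisymm e1 e2
  exact h1.extendScalars k'

theorem isDiv_down [Algebra.IsAlgebraic k k'] [Algebra.IsAlgebraic K K'] {n : ℕ}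
    {R : ValuationSubring K} {V : ValuationSubring K'} (hVR : Over V R) (h : IsDiv k' n V) :
    IsDiv k n R := by
  have hkV' : ∀ c : k', algebraMap k' K' c ∈ V := h.alg
  have hkV : ∀ c : k, algebraMap k K' c ∈ V := fun c => by
    rw [IsScalarTower.algebraMap_apply k k' K']; exact hkV' _
  have hkR : ∀ c : k, algebraMap k K c ∈ R := fun c => by
    rw [← hVR, ← IsScalarTower.algebraMap_apply]; exact hkV c
  refine ⟨hkR, fun hR => h.ne_top ((over_top_iff hVR).2 hR), ?_⟩
  obtain ⟨x, hx, hx2⟩ := h.res
  let a1 := (resHom V hkV).toAlgebra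
  let a2 := (resHom V hkV').toAlgebra
  let a3 := (resHom R hkR).toAlgebra
  have : IsScalarTower k k' (IsLocalRing.ResidueField V) := by
    refine IsScalarTower.of_algebraMap_eq fun c => ?_
    change resHom V hkV c = resHom V hkV' (algebraMap k k' c)
    simp only [resHom, RingHom.coe_comp, Function.comp_apply]
    congr 1
    apply Subtype.ext
    exact IsScalarTower.algebraMap_apply k k' K' c
  rw [res_iff V hkV' _ hx] at hx2
  have h1 : AlgebraicIndependent k (fun i => IsLocalRing.residue V ⟨x i, hx i⟩) :=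
    hx2.restrictScalars (algebraMap k k').injective
  -- the residue field of `V` is algebraic over the image of that of `R`
  let ι : R →+* V := ((algebraMap K K').comp R.subtype).codRestrict V.toSubring
    (fun a => (hVR _).2 a.2)
  let T : Set (IsLocalRing.ResidueField V) := Set.range (fun a : R => IsLocalRing.residue V (ι a))
  have halg : ∀ z : IsLocalRing.ResidueField V, IsAlgebraic (Algebra.adjoin k T) z := by
    intro z
    obtain ⟨z, rfl⟩ := IsLocalRing.residue_surjective z
    -- primitive polynomial of `z` over `K`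
    obtain ⟨P, hP0, hPz⟩ := Algebra.IsAlgebraic.isAlgebraic (R := K) (z : K')
    obtain ⟨c, hc0, hcR, i, hi, hiu⟩ := exists_scale P hP0 R
    -- polynomial over `adjoin k T`
    let co : ℕ → Algebra.adjoin k T := fun j =>
      ⟨IsLocalRing.residue V (ι ⟨c * P.coeff j, hcR j⟩), Algebra.subset_adjoin ⟨_, rfl⟩⟩
    let Q : Polynomial (Algebra.adjoin k T) :=
      ∑ j ∈ Finset.range (P.natDegree + 1), Polynomial.monomial j (co j)
    have hQc : ∀ j ≤ P.natDegree, Q.coeff j = co j := by
      intro j hj
      simp only [Q, Polynomial.finsetSum_coeff, Polynomial.coeff_monomial]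
      rw [Finset.sum_eq_single j]
      · simp
      · intro l _ hl; simp [hl]
      · intro hj'; exact absurd (Finset.mem_range.2 (by omega)) hj'
    refine ⟨Q, fun hQ => ?_, ?_⟩
    · have h2 : co i = 0 := by rw [← hQc i hi, hQ, Polynomial.coeff_zero]
      have h3 : IsLocalRing.residue V (ι ⟨c * P.coeff i, hcR i⟩) = 0 := congrArg Subtype.val h2
      rw [IsLocalRing.residue_eq_zero_iff, V.valuation_lt_one_iff] at h3
      have h4 : V.valuation (algebraMap K K' (c * P.coeff i)) < V.valuation (algebraMap K K' 1) := by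
        rw [map_one, map_one]; exact h3
      have h5 := (hVR.val_le 1 (c * P.coeff i)).2 (by rw [hiu, map_one])
      exact absurd h4 (not_lt.2 h5)
    · simp only [Q, map_sum, Polynomial.aeval_monomial]
      have h6 : ∑ j ∈ Finset.range (P.natDegree + 1), ι ⟨c * P.coeff j, hcR j⟩ * z ^ j = 0 := by
        apply Subtype.ext
        have h7 : algebraMap K K' c * Polynomial.aeval (z : K') P = 0 := by rw [hPz, mul_zero]
        rw [Polynomial.aeval_eq_sum_range, Finset.mul_sum] at h7
        rw [← V.subtype_apply, map_sum]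
        rw [← V.subtype_apply (x := 0), map_zero, ← h7]
        refine Finset.sum_congr rfl fun j _ => ?_
        rw [map_mul, map_pow]
        change algebraMap K K' (c * P.coeff j) * (z : K') ^ j = _
        rw [map_mul, Algebra.smul_def, mul_assoc]
      have h8 := congrArg (IsLocalRing.residue V) h6
      rw [map_sum, map_zero] at h8
      rw [← h8]
      refine Finset.sum_congr rfl fun j _ => ?_
      rw [map_mul, map_pow]
      rfl
  obtain ⟨t, htT, htind⟩ := exists_algInd T _ _ h1 (fun i => halg _)
  choose a ha using htT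
  refine ⟨fun i => (a i : K), fun i => (a i).2, ?_⟩
  intro P hP
  have h9 := (res_iff V hkV (fun i => algebraMap K K' (a i : K)) (fun i => (hVR _).2 (a i).2)).2 (by
    have : (fun i => IsLocalRing.residue V ⟨algebraMap K K' (a i : K), (hVR _).2 (a i).2⟩) = t := by
      funext i; exact ha i
    rw [this]; exact htind) P hP
  have h3 : MvPolynomial.aeval (fun i => algebraMap K K' (a i : K)) P =
      algebraMap K K' (MvPolynomial.aeval (fun i => (a i : K)) P) :=
    (MvPolynomial.aeval_algebraMap_apply K' _ P)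
  rw [h3] at h9
  have e1 := (hVR.val_le (MvPolynomial.aeval (fun i => (a i : K)) P) 1).1 (by
    rw [map_one, map_one, h9])
  have e2 := (hVR.val_le 1 (MvPolynomial.aeval (fun i => (a i : K)) P)).1 (by
    rw [map_one, map_one, h9])
  rw [map_one] at e1 e2
  exact le_antisymm e1 e2

end Div

section Main

variable {k k' K K' : Type*} [Field k] [Field k'] [Field K] [Field K']
  [Algebra k k'] [Algebra k K] [Algebra k K'] [Algebra K K'] [Algebra k' K']
  [IsScalarTower k K K'] [IsScalarTower k k' K'] [Algebra.IsPushout k K k' K']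

theorem jac_eq {n : ℕ} (b : Module.Basis (Fin n) K (Ω[K⁄k])) (y : Fin n → K) :
    FKDefs_779.jac k b y = jac b y := rfl

theorem pluri_iff {n : ℕ} (b : Module.Basis (Fin n) K (Ω[K⁄k])) (m : ℕ) (g : K) :
    Pluri k b m g ↔ PlC (IsDiv k n) b m g := Iff.rfl

theorem pluriS_iff {n : ℕ} (b : Module.Basis (Fin n) K (Ω[K⁄k])) (m : ℕ) (g : K) :
    PluriS k b m g ↔ PlC (fun R => ∀ c : k, algebraMap k K c ∈ R) b m g := Iff.rfl

theorem regAt_iff {n : ℕ} (R : ValuationSubring K) (b : Module.Basis (Fin n) K (Ω[K⁄k])) (m : ℕ)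
    (g : K) : RegAt k R b m g ↔ PlC (fun V => V = R) b m g :=
  ⟨fun h V hV => by rw [hV]; exact h, fun h => h R rfl⟩

/-- `K'/K` is algebraic if `k'/k` is -/
theorem isAlgebraic_of_isPushout [Algebra.IsAlgebraic k k'] : Algebra.IsAlgebraic K K' := by
  have h1 : Algebra.IsIntegral K (K ⊗[k] k') := by infer_instance
  have h2 : Algebra.IsIntegral K K' := by
    refine ⟨fun x => ?_⟩
    have := (h1.1 ((Algebra.IsPushout.equiv k K k' K').symm x)).map
      (Algebra.IsPushout.equiv k K k' K')
    simpa using this
  exact Algebra.IsIntegral.isAlgebraic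

/-- algebraic independence goes up -/
theorem algInd_up [Algebra.IsAlgebraic k k'] {d : ℕ} {x : Fin d → K}
    (h : AlgebraicIndependent k x) :
    AlgebraicIndependent k' (fun i => algebraMap K K' (x i)) := by
  have h1 : AlgebraicIndependent k (fun i => algebraMap K K' (x i)) :=
    h.map' (f := IsScalarTower.toAlgHom k K K') (algebraMap K K').injective
  exact h1.extendScalars k'

/-- divisorial and strong pluricanonical forms go up -/
theorem pluri_up [Algebra.IsAlgebraic k k'] {n : ℕ} (b : Module.Basis (Fin n) K (Ω[K⁄k])) {m : ℕ}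
    {g : K} (hg : Pluri k b m g) : Pluri k' (bch k' K' b) m (algebraMap K K' g) := by
  have := isAlgebraic_of_isPushout (k := k) (k' := k') (K := K) (K' := K')
  exact plC_up b (fun V hV => ⟨V.comap (algebraMap K K'), isDiv_down (over_comap V) hV,
    over_comap V⟩) hg

theorem pluriS_up {n : ℕ} (b : Module.Basis (Fin n) K (Ω[K⁄k])) {m : ℕ}
    {g : K} (hg : PluriS k b m g) : PluriS k' (bch k' K' b) m (algebraMap K K' g) := by
  refine plC_up (C := fun R => ∀ c : k, algebraMap k K c ∈ R) b
    (fun V hV => ⟨V.comap (algebraMap K K'), fun c => ?_, over_comap V⟩) hg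
  change algebraMap K K' (algebraMap k K c) ∈ V
  rw [← IsScalarTower.algebraMap_apply, IsScalarTower.algebraMap_apply k k' K']
  exact hV _

/-- divisorial pluricanonical forms go down -/
theorem pluri_down [IsGalois k k'] {n : ℕ} (b : Module.Basis (Fin n) K (Ω[K⁄k])) {m : ℕ}
    {g : K} (hg : Pluri k' (bch k' K' b) m (algebraMap K K' g)) : Pluri k b m g := by
  have := isAlgebraic_of_isPushout (k := k) (k' := k') (K := K) (K' := K')
  exact plC_down (k' := k') (K' := K') (C := IsDiv k n) (C' := IsDiv k' n) b
    (fun R hR => hR.alg)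
    (fun R hR => by
      obtain ⟨V, hV⟩ := exists_over (K' := K') R
      exact ⟨V, isDiv_up hV hR, hV⟩) hg

theorem pluriS_down [IsGalois k k'] {n : ℕ} (b : Module.Basis (Fin n) K (Ω[K⁄k])) {m : ℕ}
    {g : K} (hg : PluriS k' (bch k' K' b) m (algebraMap K K' g)) : PluriS k b m g := by
  have := isAlgebraic_of_isPushout (k := k) (k' := k') (K := K) (K' := K')
  exact plC_down (k' := k') (K' := K') (C := fun R => ∀ c : k, algebraMap k K c ∈ R)
    (C' := fun V => ∀ c : k', algebraMap k' K' c ∈ V) b
    (fun R hR => hR)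
    (fun R hR => by
      obtain ⟨V, hV⟩ := exists_over (K' := K') R
      exact ⟨V, const_mem (k := k) V (fun c => by
        rw [IsScalarTower.algebraMap_apply k K K', hV]; exact hR c), hV⟩) hg

/-- **ascent of `κ ≥ d`** (constant algebraic extension) -/
theorem kapGe_up [Algebra.IsAlgebraic k k'] {d : ℕ} (h : KapGe k K d) : KapGe k' K' d := by
  obtain ⟨n, b, m, hm, f, hf, hind⟩ := h
  refine ⟨n, bch k' K' b, m, hm, fun i => algebraMap K K' (f i), fun i => ⟨?_, ?_⟩, ?_⟩
  · simpa using (hf i).1
  · exact pluri_up b (hf i).2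
  · simpa only [map_div₀] using algInd_up (k' := k') (K' := K') hind

theorem kapGeS_up [Algebra.IsAlgebraic k k'] {d : ℕ} (h : KapGeS k K d) : KapGeS k' K' d := by
  obtain ⟨n, b, m, hm, f, hf, hind⟩ := h
  refine ⟨n, bch k' K' b, m, hm, fun i => algebraMap K K' (f i), fun i => ⟨?_, ?_⟩, ?_⟩
  · simpa using (hf i).1
  · exact pluriS_up b (hf i).2
  · simpa only [map_div₀] using algInd_up (k' := k') (K' := K') hind

theorem isDiv_gal [Algebra.IsAlgebraic k k'] {n : ℕ} (σ : k' ≃ₐ[k] k') (V : ValuationSubring K')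
    (hV : IsDiv k' n V) : IsDiv k' n (galV (K := K) σ V) := by
  have := isAlgebraic_of_isPushout (k := k) (k' := k') (K := K) (K' := K')
  have h1 : IsDiv k n (V.comap (algebraMap K K')) := isDiv_down (over_comap V) hV
  exact isDiv_up (over_galV σ V _ (over_comap V)) h1

/-- **descent of `κ ≥ d`** (constant Galois extension) -/
theorem kapGe_down [IsGalois k k'] {d : ℕ} (h : KapGe k' K' d) : KapGe k K d := by
  have := isAlgebraic_of_isPushout (k := k) (k' := k') (K := K) (K' := K')
  obtain ⟨n, b', m, hm, f, hf, hind⟩ := h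
  obtain ⟨b, g, h1, h2, h3⟩ := forms_down (k := k) (k' := k') (K := K) (K' := K')
    (C := IsDiv k n) (C' := IsDiv k' n)
    (fun R hR => hR.alg) (fun V hV => hV.alg) (fun σ V hV => isDiv_gal σ V hV)
    (fun R hR => by
      obtain ⟨V, hV⟩ := exists_over (K' := K') R
      exact ⟨V, isDiv_up (k := k) (k' := k') hV hR, hV⟩) b' f (fun i => (hf i).1) (fun i => (hf i).2) hind
  exact ⟨n, b, m, hm, g, fun i => ⟨h1 i, h2 i⟩, h3⟩

theorem kapGeS_down [IsGalois k k'] {d : ℕ} (h : KapGeS k' K' d) : KapGeS k K d := by
  have := isAlgebraic_of_isPushout (k := k) (k' := k') (K := K) (K' := K')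
  obtain ⟨n, b', m, hm, f, hf, hind⟩ := h
  obtain ⟨b, g, h1, h2, h3⟩ := forms_down (k := k) (k' := k') (K := K) (K' := K')
    (C := fun R => ∀ c : k, algebraMap k K c ∈ R)
    (C' := fun V => ∀ c : k', algebraMap k' K' c ∈ V)
    (fun R hR => hR) (fun V hV => hV)
    (fun σ V hV c => by
      rw [mem_galV, gal_algebraMap (K := K)]; exact hV _)
    (fun R hR => by
      obtain ⟨V, hV⟩ := exists_over (K' := K') R
      exact ⟨V, const_mem (k := k) V (fun c => by
        rw [IsScalarTower.algebraMap_apply k K K', hV]; exact hR c), hV⟩)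
    b' f (fun i => (hf i).1) (fun i => (hf i).2) hind
  exact ⟨n, b, m, hm, g, fun i => ⟨h1 i, h2 i⟩, h3⟩

end Main

end

end Crest.Agent.R276.FKD1_508
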