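import Mathlib
import Crest.Agent.R276.FKB4_594
import Crest.Agent.R276.ConnC_617
import Crest.Agent.R276.FKD5_508
import Crest.Agent.R276.BetaDefs_231

/-!
# Row 276 (S0419): final assembly of the algebraic half (helper849)

* `CoreDE` : THE GEOMETRIC CORE in direct form: for a finitely generated `K/ℂ` and `L → K` with `L`
  algebraically closed in `K`, `κ(K/L) ≥ d` and `κ(L/ℂ) ≥ e` (regularity at all valuation rings)
  imply `κ(K/ℂ) ≥ d + e` (finite test version).
* `VGF` : very general fibre ⇒ generic fibre (output of FK3 and FK4).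
* `main` : `CoreDE → VGF →` the statement of S0419.
* `mainBeta` : the same from 231's `CoreBeta` (honest fields) for given `f : X ⟶ Z`.
* `kapGeS_equiv`, `honest_equiv` : transport along `K ≃ₐ[k] K'`; `honest_functionField`.
-/

set_option autoImplicit false
set_option linter.style.haveILetI false
set_option linter.unusedSectionVars false

open AlgebraicGeometry Order CategoryTheory Crest.AlgGeometry.Divisors TopologicalSpace
open Crest.Agent.R276.FKDefs_779 Crest.Agent.R276.FKB4_594 Crest.Agent.R276.ConnC_617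
open Crest.Agent.R271.Bs960 Crest.Agent.R271.Kx735 Crest.Agent.R276.BetaDefs_231
open Crest.Agent.R276.FKD1_508 (bch pluri_up pluriS_up pluri_down pluriS_down kapGeS_up)

noncomputable section

namespace Crest.Agent.R276.FKFin_849

/-- THE GEOMETRIC CORE, direct form (no reduction to `κ ≥ 0, 1`). -/
def CoreDE : Prop :=
  ∀ (L K : Type) [Field L] [Field K] [Algebra ℂ L] [Algebra ℂ K] [Algebra L K]
    [IsScalarTower ℂ L K], FGF ℂ K →
    (∀ a : K, IsAlgebraic L a → a ∈ (algebraMap L K).range) → ∀ d e : ℕ,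
    KapGeS L K d → KapGeS ℂ L e → KapGeF ℂ K (d + e)

/-- Very general fibre ⇒ generic fibre (output of FK3 and FK4): for `f : X ⟶ Z` as in S0419 there are
a homomorphism `φ` of function fields compatible with `f` and countably many proper closed subsets
of `Z` such that a lower bound for the Kodaira dimension of the fibre over a complex point outside
of them is a lower bound for `κ(K(X)/K(Z))`. -/
def VGF : Prop :=
  ∀ (X Z : Scheme.{0}) [Algebra ℂ Γ(X, ⊤)] [Algebra ℂ Γ(Z, ⊤)]
    [IsIntegral X] [IsLocallyNoetherian X] [IsIntegral Z] [IsLocallyNoetherian Z] (n m : ℕ)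
    (_hX : IsSmoothProperVariety ℂ X n) (_hZ : IsSmoothProperVariety ℂ Z m)
    (f : X ⟶ Z) (_hf : f ≫ structureMorphism ℂ Z = structureMorphism ℂ X)
    (_hsurj : Function.Surjective f.base),
    letI : Algebra ℂ X.functionField := fnFieldAlgebra ℂ X
    letI : Algebra ℂ Z.functionField := fnFieldAlgebra ℂ Z
    ∃ φ : Z.functionField →+* X.functionField,
      (∀ (V : Z.Opens) [Nonempty V] [Nonempty (f ⁻¹ᵁ V : X.Opens)] (s : Γ(Z, V)),
        φ (Z.germToFunctionField V s) = X.germToFunctionField (f ⁻¹ᵁ V) (f.app V s)) ∧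
      (∀ c : ℂ, φ (algebraMap ℂ Z.functionField c) = algebraMap ℂ X.functionField c) ∧
      ∃ C : ℕ → Set Z, (∀ i, IsClosed (C i) ∧ C i ≠ Set.univ) ∧
        ∀ z : Spec (CommRingCat.of ℂ) ⟶ Z, z ≫ structureMorphism ℂ Z = 𝟙 _ →
          (∀ i, z.base (IsLocalRing.closedPoint ℂ) ∉ C i) →
          ∀ d : ℕ, FibreKodairaDimGe ℂ f z (n - m) d →
            letI : Algebra Z.functionField X.functionField := φ.toAlgebra
            KapGeS Z.functionField X.functionField d

section transport

variable {k K K' : Type*} [Field k] [Field K] [Field K'] [Algebra k K] [Algebra k K']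

/-- an isomorphism is a (trivial) base change -/
theorem isPushout_of_equiv (e : K ≃ₐ[k] K') :
    letI : Algebra K K' := e.toRingEquiv.toRingHom.toAlgebra
    ∃ (_ : IsScalarTower k K K'), Algebra.IsPushout k K k K' := by
  letI : Algebra K K' := e.toRingEquiv.toRingHom.toAlgebra
  haveI h1 : IsScalarTower k K K' := IsScalarTower.of_algebraMap_eq fun c => (e.commutes c).symm
  refine ⟨h1, ?_⟩
  have hbij : Function.Bijective (algebraMap K K') := e.bijective
  let e2 : TensorProduct k K k ≃ₗ[K] K' :=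
    (TensorProduct.AlgebraTensorModule.rid k K K).trans
      (LinearEquiv.ofBijective (Algebra.linearMap K K') hbij)
  refine ⟨IsBaseChange.of_equiv e2 fun x => ?_⟩
  change algebraMap K K' (x • (1 : K)) = algebraMap k K' x
  rw [Algebra.smul_def, mul_one, ← IsScalarTower.algebraMap_apply]

/-- transport of `κ ≥ d` along an isomorphism -/
theorem kapGeS_equiv (e : K ≃ₐ[k] K') {d : ℕ} (h : KapGeS k K d) : KapGeS k K' d := by
  letI : Algebra K K' := e.toRingEquiv.toRingHom.toAlgebra
  obtain ⟨_, h2⟩ := isPushout_of_equiv e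
  exact kapGeS_up (k := k) (k' := k) (K := K) (K' := K') h

/-- transport of `Honest` along an isomorphism -/
theorem honest_equiv (e : K ≃ₐ[k] K') (h : Honest k K) : Honest k K' := by
  intro n b m g hg
  letI : Algebra K' K := e.symm.toRingEquiv.toRingHom.toAlgebra
  obtain ⟨_, h2⟩ := isPushout_of_equiv e.symm
  have h3 := pluri_up (k := k) (k' := k) (K := K') (K' := K) b hg
  exact pluriS_down (k := k) (k' := k) (K := K') (K' := K) b (h n _ m _ h3)

end transport

/-- the function field of a smooth proper variety is honest -/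
theorem honest_functionField (X : Scheme.{0}) [Algebra ℂ Γ(X, ⊤)] [IsIntegral X]
    [IsLocallyNoetherian X] {n : ℕ} (hX : IsSmoothProperVariety ℂ X n) {D : WeilDiv X}
    (hD : IsCanonicalDivisor ℂ X n D) :
    letI : Algebra ℂ X.functionField := fnFieldAlgebra ℂ X
    Honest ℂ X.functionField := by
  letI : Algebra ℂ X.functionField := fnFieldAlgebra ℂ X
  intro n' b m g hg
  obtain rfl := card_eq hX b
  by_cases hg0 : g = 0
  · subst hg0
    intro R hR
    exact ⟨fun _ => 0, fun _ => R.zero_mem, by simp⟩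
  obtain ⟨c, hc, hcK⟩ := canonical_ord hD b
  have h1 := isSection_of_regAt hX b hc hcK m hg0
    (fun z hd => hg _ (isDiv_stalkVal hX z.1 z.2 hd))
  have h2 := pluriS_of_isSection hX b hc hcK m h1
  rwa [div_mul_cancel₀ _ (pow_ne_zero m hc)] at h2

/-- the function field of a smooth proper variety is finitely generated -/
theorem fgf_functionField (X : Scheme.{0}) [Algebra ℂ Γ(X, ⊤)] [IsIntegral X]
    [IsLocallyNoetherian X] {n : ℕ} (hX : IsSmoothProperVariety ℂ X n) :
    letI : Algebra ℂ X.functionField := fnFieldAlgebra ℂ X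
    FGF ℂ X.functionField := by
  letI : Algebra ℂ X.functionField := fnFieldAlgebra ℂ X
  obtain ⟨V, hV, hgV, -⟩ := exists_isAffineOpen_mem_and_subset (X := X) (x := genericPoint X)
    (U := ⊤) trivial
  have hVne : Nonempty V := ⟨⟨_, hgV⟩⟩
  have hfr := functionField_isFractionRing_of_isAffineOpen X V hV
  letI := secAlg X V
  haveI ht := tower_sec_fn X V
  haveI hft : Algebra.FiniteType ℂ Γ(X, V) := by
    have h1 := finiteType_of_affine X hX.2.1 V hV
    exact h1
  haveI h2 : Algebra.EssFiniteType Γ(X, V) X.functionField :=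
    Algebra.EssFiniteType.of_isLocalization X.functionField (nonZeroDivisors Γ(X, V))
  exact IntermediateField.fg_top_iff.2 (Algebra.EssFiniteType.comp ℂ Γ(X, V) X.functionField)

/-- **Final assembly.** -/
theorem main (hcore : CoreDE) (hvgf : VGF)
    (X Z : Scheme.{0}) [Algebra ℂ Γ(X, ⊤)] [Algebra ℂ Γ(Z, ⊤)]
    [IsIntegral X] [IsLocallyNoetherian X] [IsIntegral Z] [IsLocallyNoetherian Z] (n m : ℕ)
    (hX : IsSmoothProperVariety ℂ X n) (hZ : IsSmoothProperVariety ℂ Z m)
    (f : X ⟶ Z) (hf : f ≫ structureMorphism ℂ Z = structureMorphism ℂ X)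
    (hsurj : Function.Surjective f.base)
    (hconn : ∀ z : Spec (CommRingCat.of ℂ) ⟶ Z, z ≫ structureMorphism ℂ Z = 𝟙 _ →
      PreconnectedSpace ↥(Limits.pullback f z))
    (KX : WeilDiv X) (hKX : IsCanonicalDivisor ℂ X n KX)
    (KZ : WeilDiv Z) (hKZ : IsCanonicalDivisor ℂ Z m KZ) :
    ∃ C : ℕ → Set Z, (∀ i, IsClosed (C i) ∧ C i ≠ Set.univ) ∧
      ∀ z : Spec (CommRingCat.of ℂ) ⟶ Z, z ≫ structureMorphism ℂ Z = 𝟙 _ →
        (∀ i, z.base (IsLocalRing.closedPoint ℂ) ∉ C i) →
        ∀ d e : ℕ, FibreKodairaDimGe ℂ f z (n - m) d → KodairaDimGe ℂ Z KZ e →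
          KodairaDimGe ℂ X KX (d + e) := by
  letI : Algebra ℂ X.functionField := fnFieldAlgebra ℂ X
  letI : Algebra ℂ Z.functionField := fnFieldAlgebra ℂ Z
  obtain ⟨φ, hφ, hφc, C, hC, h⟩ := hvgf X Z n m hX hZ f hf hsurj
  letI : Algebra Z.functionField X.functionField := φ.toAlgebra
  haveI : IsScalarTower ℂ Z.functionField X.functionField :=
    IsScalarTower.of_algebraMap_eq fun c => (hφc c).symm
  refine ⟨C, hC, fun z hz hzC d e hd he => ?_⟩
  have h1 : KapGeS Z.functionField X.functionField d := h z hz hzC d hd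
  have h2 : KapGeS ℂ Z.functionField e := (kodairaDimGe_iffS hZ hKZ e).1 he
  refine kodairaDimGe_of_kapGeF hX hKX (hcore _ _ (fgf_functionField X hX) ?_ d e h1 h2)
  rintro a ⟨p, hp, hpa⟩
  exact algClosed_of_connected X Z f hX hZ hf hsurj hconn φ hφ a p hp hpa

/-- **Final assembly from `CoreBeta`**, for given `f`: `φ` is the homomorphism of function fields,
`C` the exceptional sets of FK3. -/
theorem mainBeta (hcore : CoreBeta)
    (X Z : Scheme.{0}) [Algebra ℂ Γ(X, ⊤)] [Algebra ℂ Γ(Z, ⊤)]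
    [IsIntegral X] [IsLocallyNoetherian X] [IsIntegral Z] [IsLocallyNoetherian Z] (n m : ℕ)
    (hX : IsSmoothProperVariety ℂ X n) (hZ : IsSmoothProperVariety ℂ Z m)
    (f : X ⟶ Z) (hf : f ≫ structureMorphism ℂ Z = structureMorphism ℂ X)
    (hsurj : Function.Surjective f.base)
    (hconn : ∀ z : Spec (CommRingCat.of ℂ) ⟶ Z, z ≫ structureMorphism ℂ Z = 𝟙 _ →
      PreconnectedSpace ↥(Limits.pullback f z))
    (KX : WeilDiv X) (hKX : IsCanonicalDivisor ℂ X n KX)
    (KZ : WeilDiv Z) (hKZ : IsCanonicalDivisor ℂ Z m KZ)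
    (φ : letI := fnFieldAlgebra ℂ X; letI := fnFieldAlgebra ℂ Z;
      Z.functionField →ₐ[ℂ] X.functionField)
    (hφ : ∀ (V : Z.Opens) [Nonempty V] [Nonempty (f ⁻¹ᵁ V : X.Opens)] (s : Γ(Z, V)),
      φ (Z.germToFunctionField V s) = X.germToFunctionField (f ⁻¹ᵁ V) (f.app V s))
    (hrel : letI := fnFieldAlgebra ℂ X; letI := fnFieldAlgebra ℂ Z;
      Honest φ.fieldRange X.functionField)
    (hvgf : letI := fnFieldAlgebra ℂ X; letI := fnFieldAlgebra ℂ Z;
      ∃ C : ℕ → Set Z, (∀ i, IsClosed (C i) ∧ C i ≠ Set.univ) ∧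
        ∀ z : Spec (CommRingCat.of ℂ) ⟶ Z, z ≫ structureMorphism ℂ Z = 𝟙 _ →
          (∀ i, z.base (IsLocalRing.closedPoint ℂ) ∉ C i) →
          ∀ d : ℕ, FibreKodairaDimGe ℂ f z (n - m) d → KapGeS φ.fieldRange X.functionField d) :
    ∃ C : ℕ → Set Z, (∀ i, IsClosed (C i) ∧ C i ≠ Set.univ) ∧
      ∀ z : Spec (CommRingCat.of ℂ) ⟶ Z, z ≫ structureMorphism ℂ Z = 𝟙 _ →
        (∀ i, z.base (IsLocalRing.closedPoint ℂ) ∉ C i) →
        ∀ d e : ℕ, FibreKodairaDimGe ℂ f z (n - m) d → KodairaDimGe ℂ Z KZ e →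
          KodairaDimGe ℂ X KX (d + e) := by
  letI : Algebra ℂ X.functionField := fnFieldAlgebra ℂ X
  letI : Algebra ℂ Z.functionField := fnFieldAlgebra ℂ Z
  obtain ⟨C, hC, h⟩ := hvgf
  refine ⟨C, hC, fun z hz hzC d e hd he => ?_⟩
  let eZ : Z.functionField ≃ₐ[ℂ] φ.fieldRange := AlgEquiv.ofInjectiveField φ
  have h2 : KapGeS ℂ φ.fieldRange e := kapGeS_equiv eZ ((kodairaDimGe_iffS hZ hKZ e).1 he)
  refine kodairaDimGe_of_kapGeF hX hKX (hcore _ φ.fieldRange (fgf_functionField X hX) ?_
    (honest_functionField X hX hKX) (honest_equiv eZ (honest_functionField Z hZ hKZ)) hrel d e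
    (h z hz hzC d hd) h2)
  rintro a ⟨p, hp, hpa⟩
  -- transport the polynomial to `Z.functionField`
  have h3 := algClosed_of_connected X Z f hX hZ hf hsurj hconn φ.toRingHom hφ a
    (p.map eZ.symm.toRingEquiv.toRingHom) (by
      rwa [Ne, Polynomial.map_eq_zero_iff eZ.symm.injective]) (by
      rw [Polynomial.eval₂_map]
      have : φ.toRingHom.comp eZ.symm.toRingEquiv.toRingHom =
          algebraMap φ.fieldRange X.functionField := by
        ext x
        have := congrArg Subtype.val (eZ.apply_symm_apply x)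
        exact this
      rw [this]
      exact hpa)
  obtain ⟨y, hy⟩ := h3
  exact ⟨y, hy⟩

end Crest.Agent.R276.FKFin_849
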