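import Mathlib
import Crest.Agent.R102.Free_781

/-!
# Row 276, leaf HONEST (helper231), local algebra

`exists_rel_frame` : `O` local ring with field of fractions `K`, essentially smooth over `k` (a
finite frame `e` of `Ω[O⁄k]` inducing a basis of `Ω[K⁄k]`), `L ⊆ K` a subfield contained in `O`
(char 0).  Then a subfamily of the frame is a frame of the image of `Ω[O⁄L]` in `Ω[K⁄L]`.
-/

set_option autoImplicit false

noncomputable section

namespace Crest.Agent.R276.Honest1_231

open KaehlerDifferential

section der
variable {k F : Type*} [Field k] [CharZero k] [Field F] [Algebra k F]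

/-- a derivation vanishing on `z`, with `F` algebraic over `k(z)`, vanishes -/
theorem derivation_eq_zero {ι : Type*} {z : ι → F}
    (hz : Algebra.IsAlgebraic (IntermediateField.adjoin k (Set.range z)) F)
    (D : Derivation k F F) (hD : ∀ i, D (z i) = 0) : D = 0 := by
  classical
  let C : IntermediateField k F :=
    { carrier := {a | D a = 0}
      mul_mem' := fun {a b} ha hb => by
        change D (a * b) = 0
        rw [D.leibniz, show D a = 0 from ha, show D b = 0 from hb]; simp
      add_mem' := fun {a b} ha hb => by
        change D (a + b) = 0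
        rw [map_add, show D a = 0 from ha, show D b = 0 from hb, add_zero]
      algebraMap_mem' := fun c => D.map_algebraMap c
      inv_mem' := fun a ha => by
        change D a⁻¹ = 0
        rw [D.leibniz_inv, show D a = 0 from ha]; simp }
  have hE : IntermediateField.adjoin k (Set.range z) ≤ C := by
    rw [IntermediateField.adjoin_le_iff]
    rintro _ ⟨i, rfl⟩
    exact hD i
  set E := IntermediateField.adjoin k (Set.range z) with hEdef
  have : CharZero E := charZero_of_injective_algebraMap (algebraMap k _).injective
  let D' : Derivation E F F :=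
    { toFun := D
      map_add' := D.map_add
      map_smul' := fun c a => by
        have h : D (c : F) = 0 := hE c.2
        change D ((c : F) * a) = _
        rw [D.leibniz, h, smul_zero, add_zero]
        rfl
      map_one_eq_zero' := D.map_one_eq_zero
      leibniz' := D.leibniz }
  have hun : Algebra.FormallyUnramified E F := Algebra.FormallyUnramified.of_isSeparable E F
  have h0 : D' = 0 := by
    have hs : Subsingleton (Ω[F⁄E]) := inferInstance
    have h1 : D'.liftKaehlerDifferential = 0 := LinearMap.ext fun x => by
      rw [Subsingleton.elim x 0, map_zero, map_zero]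
    ext a
    have := congrArg (fun f => f (KaehlerDifferential.D E F a)) h1
    simpa using this
  ext a
  exact congrArg (fun f => f a) h0

/-- the differentials of a transcendence basis span `Ω[F⁄k]` -/
theorem span_D_eq_top {ι : Type*} {z : ι → F}
    (hz : Algebra.IsAlgebraic (IntermediateField.adjoin k (Set.range z)) F) :
    Submodule.span F (Set.range fun i => KaehlerDifferential.D k F (z i)) = ⊤ := by
  by_contra hne
  obtain ⟨f, hf0, hf⟩ := Submodule.exists_le_ker_of_lt_top _ (lt_top_iff_ne_top.2 hne)
  apply hf0
  have h1 : f.compDer (KaehlerDifferential.D k F) = 0 := by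
    refine derivation_eq_zero hz _ fun i => ?_
    exact hf (Submodule.subset_span ⟨i, rfl⟩)
  have h2 : (⊤ : Submodule F (Ω[F⁄k])) ≤ LinearMap.ker f := by
    rw [← KaehlerDifferential.span_range_derivation, Submodule.span_le]
    rintro _ ⟨a, rfl⟩
    exact congrArg (fun g => g a) h1
  exact LinearMap.ker_eq_top.1 (top_le_iff.1 h2)

/-- the differentials of algebraically independent elements are linearly independent -/
theorem linearIndependent_D {ι : Type*} {z : ι → F} (hz : AlgebraicIndependent k z) :
    LinearIndependent F (fun i => KaehlerDifferential.D k F (z i)) := by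
  classical
  rw [linearIndependent_iff']
  intro s g hg i hi
  obtain ⟨D, hD⟩ := Crest.Agent.R102.Free781.exists_derivation z hz (fun j => if j = i then 1 else 0)
  have h1 := congrArg D.liftKaehlerDifferential hg
  rw [map_sum, map_zero] at h1
  simp only [map_smul, Derivation.liftKaehlerDifferential_comp_D, hD, smul_eq_mul, mul_ite,
    mul_one, mul_zero, Finset.sum_ite_eq', hi, if_true] at h1
  exact h1

end der

section rel

variable {k K : Type*} [Field k] [CharZero k] [Field K] [Algebra k K] (L : IntermediateField k K)
  {O : Type*} [CommRing O] [IsLocalRing O] [Algebra k O] [Algebra O K] [IsScalarTower k O K]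
  {n r : ℕ}

open IsLocalRing

/-- Relative frame at a local ring containing the field `L` (characteristic zero). -/
theorem exists_rel_frame (hinj : Function.Injective (algebraMap O K))
    (e : Fin n → Ω[O⁄k]) (he : Submodule.span O (Set.range e) = ⊤)
    (bn : Module.Basis (Fin n) K (Ω[K⁄k]))
    (hb : ∀ i, KaehlerDifferential.map k k O K (e i) = bn i)
    (b : Module.Basis (Fin r) K (Ω[K⁄L]))
    (j : L →+* O) (hj : ∀ l : L, algebraMap O K (j l) = (l : K)) :
    (∃ J : Fin r → Fin n, Function.Injective J ∧ ∀ i : Fin n, ∃ c : Fin r → O,
      KaehlerDifferential.map k L K K (bn i) =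
        ∑ t, algebraMap O K (c t) • KaehlerDifferential.map k L K K (bn (J t))) ∧
    Algebra.trdeg k L + r = n := by
  classical
  -- transcendence basis of `L/k`
  obtain ⟨s, hs⟩ := exists_isTranscendenceBasis k L
  set z : s → L := Subtype.val with hz
  have hzi : AlgebraicIndependent k z := hs.1
  have hza : Algebra.IsAlgebraic (IntermediateField.adjoin k (Set.range z)) L :=
    hs.isAlgebraic_field
  -- coefficients
  have hcoef : ∀ l : L, ∃ a : Fin n → O, ∑ t, a t • e t = KaehlerDifferential.D k O (j l) := by
    intro l
    have : KaehlerDifferential.D k O (j l) ∈ Submodule.span O (Set.range e) := by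
      rw [he]; trivial
    exact (Submodule.mem_span_range_iff_exists_fun _).1 this
  choose a ha using hcoef
  -- residue field
  have hjk : ∀ c : k, j (algebraMap k L c) = algebraMap k O c := fun c => by
    apply hinj
    rw [hj, ← IsScalarTower.algebraMap_apply]
    rfl
  let θ : L →ₐ[k] ResidueField O :=
    { (residue O).comp j with
      commutes' := fun c => by
        change residue O (j (algebraMap k L c)) = _
        rw [hjk]
        rfl }
  have hθ : ∀ l, θ l = residue O (j l) := fun l => rfl
  have hzb : AlgebraicIndependent k (θ ∘ z) := hzi.map' θ.injective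
  have hDzb := linearIndependent_D hzb
  -- rows
  let ρ : s → (Fin n → ResidueField O) := fun i t => residue O (a (z i) t)
  let φ : (Fin n → ResidueField O) →ₗ[ResidueField O] Ω[ResidueField O⁄k] :=
    Fintype.linearCombination (ResidueField O) fun t => KaehlerDifferential.map k k O (ResidueField O) (e t)
  have hφ : ∀ l : L, φ (fun t => residue O (a l t)) =
      KaehlerDifferential.D k (ResidueField O) (θ l) := by
    intro l
    have h1 := congrArg (KaehlerDifferential.map k k O (ResidueField O)) (ha l)
    rw [KaehlerDifferential.map_D, map_sum] at h1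
    rw [Fintype.linearCombination_apply]
    rw [hθ]
    refine Eq.trans ?_ h1
    refine Finset.sum_congr rfl fun t _ => ?_
    rw [map_smul]
    exact (algebraMap_smul (ResidueField O) (a l t) _)
  have hρ : LinearIndependent (ResidueField O) ρ := by
    refine LinearIndependent.of_comp φ ?_
    have : φ ∘ ρ = fun i => KaehlerDifferential.D k (ResidueField O) ((θ ∘ z) i) := by
      funext i
      exact hφ (z i)
    rw [this]
    exact hDzb
  have hfin : Finite s := hρ.finite
  have : Fintype s := Fintype.ofFinite s
  -- quotient
  set W : Submodule (ResidueField O) (Fin n → ResidueField O) :=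
    Submodule.span (ResidueField O) (Set.range ρ) with hW
  have hWdim : Module.finrank (ResidueField O) W = Fintype.card s :=
    finrank_span_eq_card hρ
  obtain ⟨κ', aa, haa, hspan, hind⟩ := exists_linearIndependent' (K := ResidueField O)
    (fun t : Fin n => W.mkQ (Pi.single t 1))
  have hfin' : Finite κ' := Finite.of_injective aa haa
  have : Fintype κ' := Fintype.ofFinite κ'
  have hspantop : Submodule.span (ResidueField O)
      (Set.range fun t : Fin n => W.mkQ (Pi.single t 1)) = ⊤ := by
    have h1 : Submodule.span (ResidueField O)
        (Set.range fun t : Fin n => (Pi.single t 1 : Fin n → ResidueField O)) = ⊤ := by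
      have h0 := (Pi.basisFun (ResidueField O) (Fin n)).span_eq
      have h00 : (fun t : Fin n => (Pi.single t 1 : Fin n → ResidueField O)) =
          ⇑(Pi.basisFun (ResidueField O) (Fin n)) := by
        funext t
        rw [Pi.basisFun_apply]
      rw [h00]
      exact h0
    have h2 := congrArg (Submodule.map W.mkQ) h1
    rw [Submodule.map_span, Submodule.map_top, Submodule.range_mkQ, ← Set.range_comp] at h2
    exact h2
  have hcard : Fintype.card κ' + Fintype.card s = n := by
    have h1 : Module.finrank (ResidueField O) ((Fin n → ResidueField O) ⧸ W) = Fintype.card κ' := by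
      have h2 := finrank_span_eq_card hind
      rw [hspan, hspantop, finrank_top] at h2
      exact h2
    have h3 := Submodule.finrank_quotient_add_finrank W
    rw [h1, hWdim, Module.finrank_fin_fun] at h3
    exact h3
  -- Nakayama
  let row : s → (Fin n → O) := fun i => a (z i)
  let ε : Fin n → (Fin n → O) := fun t => Pi.single t 1
  set N : Submodule O (Fin n → O) := Submodule.span O (Set.range row ∪ Set.range (ε ∘ aa)) with hN
  have hsm : ∀ w : Fin n → O, (∀ t, residue O (w t) = 0) →
      w ∈ (maximalIdeal O) • (⊤ : Submodule O (Fin n → O)) := by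
    intro w hw
    have h1 : w = ∑ t, w t • ε t := by
      funext u
      simp [ε, Finset.sum_apply, Pi.single_apply]
    rw [h1]
    refine Submodule.sum_mem _ fun t _ => ?_
    refine Submodule.smul_mem_smul ?_ trivial
    exact (residue_eq_zero_iff _).1 (hw t)
  have hNtop : N = ⊤ := by
    rw [eq_top_iff]
    refine Submodule.le_of_le_smul_of_le_jacobson_bot (I := maximalIdeal O) (Module.finite_def.1 inferInstance)
      (IsLocalRing.maximalIdeal_le_jacobson _) ?_
    intro v _
    set vb : Fin n → ResidueField O := fun t => residue O (v t) with hvb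
    have h1 : W.mkQ vb ∈ Submodule.span (ResidueField O)
        (Set.range ((fun t : Fin n => W.mkQ (Pi.single t 1)) ∘ aa)) := by
      rw [hspan, hspantop]; trivial
    obtain ⟨lam, hlam⟩ := (Submodule.mem_span_range_iff_exists_fun _).1 h1
    have h2 : vb - ∑ i, lam i • (Pi.single (aa i) 1 : Fin n → ResidueField O) ∈ W := by
      rw [← Submodule.Quotient.mk_eq_zero, ← Submodule.mkQ_apply, map_sub, map_sum, sub_eq_zero,
        ← hlam]
      refine Finset.sum_congr rfl fun i _ => ?_
      rw [map_smul]
      rfl
    obtain ⟨mu, hmu⟩ := (Submodule.mem_span_range_iff_exists_fun _).1 h2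
    choose lam' hlam' using fun i => residue_surjective (lam i)
    choose mu' hmu' using fun i => residue_surjective (mu i)
    have h3 : v - (∑ i, mu' i • row i + ∑ i, lam' i • ε (aa i)) ∈
        (maximalIdeal O) • (⊤ : Submodule O (Fin n → O)) := by
      refine hsm _ fun t => ?_
      have h4 := congrFun hmu t
      simp only [Finset.sum_apply, Pi.smul_apply, smul_eq_mul, Pi.sub_apply, ρ, hvb] at h4
      simp only [Pi.sub_apply, Pi.add_apply, Finset.sum_apply, Pi.smul_apply, smul_eq_mul, map_sub,
        map_add, map_sum, map_mul, hlam', hmu', row]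
      rw [h4]
      have h5 : ∀ i, residue O (ε (aa i) t) = (Pi.single (aa i) 1 : Fin n → ResidueField O) t := by
        intro i
        simp only [ε, Pi.single_apply]
        split_ifs <;> simp
      simp only [h5]
      ring
    have h6 : (∑ i, mu' i • row i + ∑ i, lam' i • ε (aa i)) ∈ N := by
      refine N.add_mem (N.sum_mem fun i _ => N.smul_mem _ (Submodule.subset_span (Or.inl ⟨i, rfl⟩)))
        (N.sum_mem fun i _ => N.smul_mem _ (Submodule.subset_span (Or.inr ⟨i, rfl⟩)))
    have h7 : v = (∑ i, mu' i • row i + ∑ i, lam' i • ε (aa i)) +
        (v - (∑ i, mu' i • row i + ∑ i, lam' i • ε (aa i))) := by abel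
    rw [h7]
    exact Submodule.add_mem_sup h6 h3
  -- the map to `Ω[K/L]`
  set π := KaehlerDifferential.map k L K K with hπ
  have hπs : Function.Surjective π := KaehlerDifferential.map_surjective k L K
  let Φ : (Fin n → O) →ₗ[O] Ω[K⁄L] := Fintype.linearCombination O fun t => π (bn t)
  have hsmul : ∀ (c : O) (x : Ω[K⁄L]), c • x = algebraMap O K c • x := fun c x =>
    (algebraMap_smul K c x).symm
  have hΦrow : ∀ i, Φ (row i) = 0 := by
    intro i
    have h1 := congrArg (KaehlerDifferential.map k k O K) (ha (z i))
    rw [KaehlerDifferential.map_D, map_sum, hj] at h1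
    have h2 := congrArg π h1
    rw [hπ, KaehlerDifferential.map_D, map_sum] at h2
    have h3 : KaehlerDifferential.D L K ((algebraMap K K) (z i : K)) = 0 :=
      (KaehlerDifferential.D L K).map_algebraMap (z i)
    rw [h3] at h2
    rw [Fintype.linearCombination_apply]
    refine Eq.trans ?_ h2
    refine Finset.sum_congr rfl fun t _ => ?_
    rw [map_smul, hb, hsmul, hπ, ← map_smul]
    congr 1
    exact algebraMap_smul K _ _
  have hΦε : ∀ t, Φ (ε t) = π (bn t) := by
    intro t
    rw [Fintype.linearCombination_apply]
    simp [ε, Pi.single_apply]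
  have hmem : ∀ i, π (bn i) ∈ Submodule.span O (Set.range fun t => π (bn (aa t))) := by
    intro i
    have h1 : ε i ∈ N := by rw [hNtop]; trivial
    have h2 : Submodule.map Φ N ≤ Submodule.span O (Set.range fun t => π (bn (aa t))) := by
      rw [hN, Submodule.map_span, Submodule.span_le]
      rintro _ ⟨v, (⟨i, rfl⟩ | ⟨t, rfl⟩), rfl⟩
      · rw [hΦrow]; exact Submodule.zero_mem _
      · refine Submodule.subset_span ⟨t, ?_⟩
        exact (hΦε (aa t)).symm
    rw [← hΦε]
    exact h2 ⟨_, h1, rfl⟩
  have hmem' : ∀ i, ∃ c : κ' → O, π (bn i) = ∑ t, algebraMap O K (c t) • π (bn (aa t)) := by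
    intro i
    obtain ⟨c, hc⟩ := (Submodule.mem_span_range_iff_exists_fun _).1 (hmem i)
    exact ⟨c, by rw [← hc]; exact Finset.sum_congr rfl fun t _ => hsmul _ _⟩
  -- `r ≤ card κ'`
  have hr1 : r ≤ Fintype.card κ' := by
    have h1 : Submodule.span K (Set.range fun t => π (bn (aa t))) = ⊤ := by
      rw [eq_top_iff]
      intro x _
      obtain ⟨x', rfl⟩ := hπs x
      rw [← bn.sum_repr x', map_sum]
      refine Submodule.sum_mem _ fun i _ => ?_
      rw [map_smul]
      refine Submodule.smul_mem _ _ ?_
      obtain ⟨c, hc⟩ := hmem' i
      rw [hc]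
      exact Submodule.sum_mem _ fun t _ => Submodule.smul_mem _ _ (Submodule.subset_span ⟨t, rfl⟩)
    have h2 := finrank_range_le_card (R := K) (fun t : κ' => π (bn (aa t)))
    rw [Set.finrank, h1, finrank_top, Module.finrank_eq_card_basis b, Fintype.card_fin] at h2
    exact h2
  -- `n ≤ card s + r`
  have hr2 : n ≤ Fintype.card s + r := by
    have h1 : LinearMap.ker π ≤ Submodule.span K
        (Set.range fun i : s => KaehlerDifferential.D k K ((z i : L) : K)) := by
      rw [hπ, ← KaehlerDifferential.range_mapBaseChange]
      rintro _ ⟨x, rfl⟩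
      induction x with
      | zero => rw [map_zero]; exact Submodule.zero_mem _
      | add x y hx hy => rw [map_add]; exact Submodule.add_mem _ hx hy
      | tmul c y =>
        rw [KaehlerDifferential.mapBaseChange_tmul]
        refine Submodule.smul_mem _ _ ?_
        have hy : y ∈ Submodule.span L (Set.range fun i => KaehlerDifferential.D k L (z i)) := by
          rw [span_D_eq_top hza]; trivial
        induction hy using Submodule.span_induction with
        | mem x hx =>
          obtain ⟨i, rfl⟩ := hx
          rw [KaehlerDifferential.map_D]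
          exact Submodule.subset_span ⟨i, rfl⟩
        | zero => rw [map_zero]; exact Submodule.zero_mem _
        | add x y _ _ hx hy => rw [map_add]; exact Submodule.add_mem _ hx hy
        | smul c x _ hx =>
          rw [map_smul]
          have : c • (KaehlerDifferential.map k k L K) x =
            (algebraMap L K c) • (KaehlerDifferential.map k k L K) x :=
            (algebraMap_smul K c _).symm
          rw [this]
          exact Submodule.smul_mem _ _ hx
    have h2 : Module.finrank K (LinearMap.ker π) ≤ Fintype.card s := by
      have : Module.Finite K (Ω[K⁄k]) := Module.Finite.of_basis bn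
      refine (Submodule.finrank_mono h1).trans ?_
      exact finrank_range_le_card (R := K) _
    have : Module.Finite K (Ω[K⁄k]) := Module.Finite.of_basis bn
    have h3 := LinearMap.finrank_range_add_finrank_ker π
    rw [LinearMap.range_eq_top.2 hπs, finrank_top, Module.finrank_eq_card_basis b,
      Module.finrank_eq_card_basis bn, Fintype.card_fin, Fintype.card_fin] at h3
    omega
  have hcr : Fintype.card κ' = r := by omega
  refine ⟨?_, ?_⟩
  · let E : Fin r ≃ κ' := (Fintype.equivFinOfCardEq hcr).symm
    refine ⟨aa ∘ E, haa.comp E.injective, fun i => ?_⟩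
    obtain ⟨c, hc⟩ := hmem' i
    refine ⟨c ∘ E, ?_⟩
    rw [hc]
    exact (Equiv.sum_comp E fun t => algebraMap O K (c t) • π (bn (aa t))).symm
  · rw [← hs.cardinalMk_eq_trdeg, Cardinal.mk_fintype]
    have h9 : Fintype.card s + r = n := by omega
    rw [← h9, Nat.cast_add]

end rel

end Crest.Agent.R276.Honest1_231
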