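import Mathlib
import Crest.Agent.R276.Honest2_231

/-!
# Row 276: uniform honesty (helper845)

`UHon k K` : finitely many tuples `y` of elements of `K` serve as local frames at every valuation ring `R ⊇ k`, for
pluricanonical forms of ALL weights.  `uhon_rel` : the function fields of a morphism of smooth proper varieties
satisfy it (the proof is helper231's proof of `honest_rel`; only the order of quantifiers is new).
-/

set_option autoImplicit false
set_option linter.style.haveILetI false
set_option linter.unusedSectionVars false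

open AlgebraicGeometry Order CategoryTheory Crest.AlgGeometry.Divisors TopologicalSpace
open Crest.Agent.R271.Br958 Crest.Agent.R271.Bs960 Crest.Agent.R276.FKB_375 IsLocalRing
open Crest.Agent.R276.FKDefs_779 Crest.Agent.R276.FKB3_594 Crest.Agent.R271.Kx735
open Crest.Agent.R276.FKB4_594 Crest.Agent.R276.BetaDefs_231 Crest.Agent.R276.Honest2_231

noncomputable section

namespace Crest.Agent.R276.UHon_845

/-- Uniform honesty: finitely many tuples are frames for the regular pluricanonical forms of all weights, at every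
valuation ring of `K/k`. -/
def UHon (k K : Type*) [Field k] [Field K] [Algebra k K] : Prop :=
  ∀ (n : ℕ) (b : Module.Basis (Fin n) K (Ω[K⁄k])), ∃ Y : Set (Fin n → K), Y.Finite ∧
    ∀ R : ValuationSubring K, (∀ c : k, algebraMap k K c ∈ R) → ∃ y ∈ Y, (∀ i, y i ∈ R) ∧
      jac k b y ≠ 0 ∧
      ∀ (m : ℕ) (g : K), Pluri k b m g → R.valuation g ≤ R.valuation (jac k b y) ^ m

/-- uniform honesty implies honesty -/
theorem UHon.honest {k K : Type*} [Field k] [Field K] [Algebra k K] (h : UHon k K) :
    Honest k K := by
  intro n b m g hg R hR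
  obtain ⟨Y, -, hY⟩ := h n b
  obtain ⟨y, -, h1, -, h2⟩ := hY R hR
  exact ⟨y, h1, h2 m g hg⟩

set_option warn.classDefReducibility false in
attribute [local instance] fnFieldAlgebra

section rel
variable {X : Scheme.{0}} [Algebra ℂ Γ(X, ⊤)] [IsIntegral X] [IsLocallyNoetherian X] {n : ℕ}

/-- Core statement: a subfield `L` contained in the local ring at `x`, `w` étale coordinates on `V ∋ x`: some `r` of the
coordinates are a frame at `x` for the relative forms of all weights. -/
theorem center_chart (hX : IsSmoothProperVariety ℂ X n)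
    (L : IntermediateField ℂ X.functionField) (x : X)
    (hLx : ∀ l : L, ∃ a : X.presheaf.stalk x, algebraMap _ X.functionField a = l)
    {r : ℕ} (b : Module.Basis (Fin r) X.functionField (Ω[X.functionField⁄L]))
    (V : X.Opens) (hV : IsAffineOpen V) (hxV : x ∈ V) [hne : Nonempty V] (w : Fin n → Γ(X, V))
    (hw : letI := secAlg X V
      RingHom.Etale ((MvPolynomial.aeval w : MvPolynomial (Fin n) ℂ →ₐ[ℂ] Γ(X, V)) :
        MvPolynomial (Fin n) ℂ →+* Γ(X, V))) :
    ∃ J : Fin r → Fin n, (∀ t, ∃ a : X.presheaf.stalk x, algebraMap _ X.functionField a =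
        X.germToFunctionField V (w (J t))) ∧
      jac L b (fun t => X.germToFunctionField V (w (J t))) ≠ 0 ∧
      ∀ (m : ℕ) (g : X.functionField), Pluri L b m g →
        ∃ a : X.presheaf.stalk x, algebraMap _ X.functionField a =
          g / jac L b (fun t => X.germToFunctionField V (w (J t))) ^ m := by
  classical
  have hinj : ∀ z : X, Function.Injective (algebraMap (X.presheaf.stalk z) X.functionField) :=
    fun z => IsFractionRing.injective _ _
  have hn := normalSch hX
  -- étale coordinates at `x`
  letI := secAlg X V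
  obtain ⟨bn, hbn, hbf⟩ := frame_of_etale X hV w (ECoord.fe hw)
  -- the maps `L → O_z`
  have hLz : ∀ z : X, z ⤳ x → ∀ l : L, ∃ a : X.presheaf.stalk z,
      algebraMap _ X.functionField a = l := by
    intro z hzx l
    obtain ⟨a, ha⟩ := hLx l
    refine ⟨X.presheaf.stalkSpecializes hzx a, ?_⟩
    rw [← ha]
    have h1 := TopCat.Presheaf.stalkSpecializes_comp (F := X.presheaf)
      (genericPoint_specializes z) hzx
    exact congrArg (fun φ => φ.hom a) h1
  have hjz : ∀ z : X, z ⤳ x → ∃ j : L →+* X.presheaf.stalk z,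
      ∀ l : L, algebraMap _ X.functionField (j l) = (l : X.functionField) := by
    intro z hzx
    choose a ha using hLz z hzx
    refine ⟨{ toFun := a, map_one' := ?_, map_mul' := ?_, map_zero' := ?_, map_add' := ?_ }, ha⟩
    · exact hinj z (by rw [ha, map_one]; rfl)
    · intro u v; exact hinj z (by rw [ha, map_mul, ha, ha]; rfl)
    · exact hinj z (by rw [ha, map_zero]; rfl)
    · intro u v; exact hinj z (by rw [ha, map_add, ha, ha]; rfl)
  obtain ⟨j, hj⟩ := hjz x specializes_rfl
  -- relative frame
  obtain ⟨J, hJinj, hJ⟩ : (∃ J : Fin r → Fin n, Function.Injective J ∧ ((∀ i : Fin n,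
      ∃ c : Fin r → X.presheaf.stalk x,
      KaehlerDifferential.map ℂ L X.functionField X.functionField (bn i) =
        ∑ t, algebraMap _ X.functionField (c t) •
          KaehlerDifferential.map ℂ L X.functionField X.functionField (bn (J t))) ∧
    Algebra.trdeg ℂ L + r = n)) := by
    letI := stalkAlgebra ℂ X x
    obtain ⟨ht, e, he, hspan⟩ := hbf x hxV
    obtain ⟨⟨J, h1, h2⟩, h3⟩ := Honest1_231.exists_rel_frame L (hinj x) e hspan bn he b j hj
    exact ⟨J, h1, h2, h3⟩
  obtain ⟨hJ, hr⟩ := hJ
  set π := KaehlerDifferential.map ℂ L X.functionField X.functionField with hπ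
  have hπs : Function.Surjective π := KaehlerDifferential.map_surjective ℂ L X.functionField
  -- the coordinates
  let y : Fin r → X.functionField := fun t => X.germToFunctionField V (w (J t))
  have hDy : ∀ t, KaehlerDifferential.D L X.functionField (y t) = π (bn (J t)) := by
    intro t
    rw [hbn, hπ, KaehlerDifferential.map_D]
    rfl
  have hyx : ∀ t, ∃ a : X.presheaf.stalk x, algebraMap _ X.functionField a = y t := fun t =>
    ⟨X.presheaf.germ V x hxV (w (J t)), Scheme.algebraMap_germ_eq_germToFunctionField X hxV _⟩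
  have hspan : Submodule.span X.functionField (Set.range fun t => π (bn (J t))) = ⊤ := by
    rw [eq_top_iff]
    intro v _
    obtain ⟨v', rfl⟩ := hπs v
    rw [← bn.sum_repr v', map_sum]
    refine Submodule.sum_mem _ fun i _ => ?_
    rw [map_smul]
    refine Submodule.smul_mem _ _ ?_
    obtain ⟨c, hc⟩ := hJ i
    rw [hc]
    exact Submodule.sum_mem _ fun t _ => Submodule.smul_mem _ _ (Submodule.subset_span ⟨t, rfl⟩)
  have hjac0 : jac L b y ≠ 0 := by
    have h1 : LinearIndependent X.functionField (fun t => π (bn (J t))) := by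
      refine linearIndependent_of_top_le_span_of_card_eq_finrank hspan.ge ?_
      rw [Module.finrank_eq_card_basis b]
    let b1 : Module.Basis (Fin r) X.functionField (Ω[X.functionField⁄L]) :=
      Module.Basis.mk h1 hspan.ge
    have h2 : (fun i => KaehlerDifferential.D L X.functionField (y i)) = ⇑b1 := by
      funext t
      rw [hDy, Module.Basis.mk_apply]
    rw [jac, h2]
    exact (b.isUnit_det b1).ne_zero
  -- Claim B
  have hB : ∀ z : X, z ⤳ x → ∀ y' : Fin r → X.presheaf.stalk z, ∃ q : X.presheaf.stalk z,
      jac L b (fun i => algebraMap _ X.functionField (y' i)) =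
        algebraMap _ X.functionField q * jac L b y := by
    intro z hzx y'
    have hzV : z ∈ V := hzx.mem_open V.isOpen hxV
    choose A hA using fun i => exists_coeff z bn (hbf z hzV) (y' i)
    choose c hc using hJ
    have hcz : ∀ i t, ∃ a : X.presheaf.stalk z, algebraMap _ X.functionField a =
        algebraMap (X.presheaf.stalk x) X.functionField (c i t) := by
      intro i t
      refine ⟨X.presheaf.stalkSpecializes hzx (c i t), ?_⟩
      have h1 := TopCat.Presheaf.stalkSpecializes_comp (F := X.presheaf)
        (genericPoint_specializes z) hzx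
      exact congrArg (fun φ => φ.hom (c i t)) h1
    choose cz hcz using hcz
    have hD : ∀ i, KaehlerDifferential.D L X.functionField (algebraMap _ X.functionField (y' i)) =
        ∑ t, algebraMap _ X.functionField (∑ u, A i u * cz u t) •
          KaehlerDifferential.D L X.functionField (y t) := by
      intro i
      have h1 := congrArg π (hA i)
      rw [hπ, KaehlerDifferential.map_D, map_sum] at h1
      have h2 : (algebraMap X.functionField X.functionField)
          (algebraMap (X.presheaf.stalk z) X.functionField (y' i)) =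
          algebraMap (X.presheaf.stalk z) X.functionField (y' i) := rfl
      rw [h2] at h1
      rw [h1]
      have h3 : ∀ u, π (algebraMap (X.presheaf.stalk z) X.functionField (A i u) • bn u) =
          ∑ t, (algebraMap (X.presheaf.stalk z) X.functionField (A i u * cz u t)) •
            π (bn (J t)) := by
        intro u
        rw [map_smul, hc u, Finset.smul_sum]
        refine Finset.sum_congr rfl fun t _ => ?_
        rw [smul_smul, map_mul, hcz]
      rw [← hπ, Finset.sum_congr rfl fun u _ => h3 u, Finset.sum_comm]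
      refine Finset.sum_congr rfl fun t _ => ?_
      rw [hDy, map_sum, Finset.sum_smul]
    refine ⟨(Matrix.of fun t i => ∑ u, A i u * cz u t).det, ?_⟩
    rw [jac, jac, Module.Basis.det_apply, Module.Basis.det_apply, RingHom.map_det, mul_comm,
      ← Matrix.det_mul]
    congr 1
    ext s i
    rw [Module.Basis.toMatrix_apply, hD i, map_sum, Matrix.mul_apply]
    rw [Finsupp.finsetSum_apply]
    refine Finset.sum_congr rfl fun t _ => ?_
    rw [map_smul, Finsupp.smul_apply, Module.Basis.toMatrix_apply, smul_eq_mul, mul_comm]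
    rfl
  refine ⟨J, hyx, hjac0, fun m g hg => ?_⟩
  by_cases hg0 : g = 0
  · exact ⟨0, by rw [hg0, map_zero, zero_div]⟩
  -- `g / jac^m` is regular at all prime divisors through `x`
  have hdiv0 : g / jac L b y ^ m ≠ 0 := div_ne_zero hg0 (pow_ne_zero m hjac0)
  exact mem_stalk_of_ord_nonneg_all x (g / jac L b y ^ m) hdiv0 (fun z hz hzx => by
    have hd : IsDiscreteValuationRing (X.presheaf.stalk z) :=
      Crest.Agent.R271.UFD243.dvr_stalk X hX z hz
    obtain ⟨jz, hjz⟩ := hjz z hzx
    obtain ⟨y', hy', hle⟩ := hg (stalkVal z hd) (isDiv_rel hX L hr z hz hd jz hjz)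
    choose a' ha' using fun i => (mem_stalkVal z hd (y' i)).1 (hy' i)
    obtain ⟨q, hq⟩ := hB z hzx a'
    have hfun : (fun i => algebraMap (X.presheaf.stalk z) X.functionField (a' i)) = y' :=
      funext ha'
    rw [hfun] at hq
    obtain ⟨u, hu⟩ : ∃ u : X.presheaf.stalk z, g = algebraMap _ X.functionField u *
        jac L b y' ^ m := by
      by_cases hJ0 : jac L b y' ^ m = 0
      · rw [← map_pow, hJ0, map_zero, le_zero_iff, map_eq_zero] at hle
        exact absurd hle hg0
      · have h0 : (stalkVal z hd).valuation (jac L b y' ^ m) ≠ 0 := by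
          rwa [Ne, map_eq_zero]
        have h1 : (stalkVal z hd).valuation (g / jac L b y' ^ m) ≤ 1 := by
          rw [map_div₀, div_le_one₀ (zero_lt_iff.2 h0), map_pow]
          exact hle
        obtain ⟨u, hu⟩ := (valuation_le_one_iff z hd _).1 h1
        exact ⟨u, by rw [hu, div_mul_cancel₀ _ hJ0]⟩
    have h2 : g / jac L b y ^ m = algebraMap _ X.functionField (u * q ^ m) := by
      rw [div_eq_iff (pow_ne_zero m hjac0), hu, hq, map_mul, map_pow, mul_pow]
      ring
    rw [h2]
    exact ord_nonneg_of_mem_stalk hz _)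
end rel

section fibre
variable {X Z : Scheme.{0}} [Algebra ℂ Γ(X, ⊤)] [Algebra ℂ Γ(Z, ⊤)]
  [IsIntegral X] [IsLocallyNoetherian X] [IsIntegral Z] [IsLocallyNoetherian Z]

/-- The relative function field extension of a morphism of smooth proper varieties is uniformly honest. -/
theorem uhon_rel {n : ℕ} (hX : IsSmoothProperVariety ℂ X n) (f : X ⟶ Z)
    (φ : Z.functionField →ₐ[ℂ] X.functionField)
    (hφ : ∀ (V : Z.Opens) [Nonempty V] [Nonempty (f ⁻¹ᵁ V : X.Opens)] (s : Γ(Z, V)),
      φ (Z.germToFunctionField V s) = X.germToFunctionField (f ⁻¹ᵁ V) (f.app V s)) :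
    UHon φ.fieldRange X.functionField := by
  classical
  intro r b
  have hinjX : ∀ z : X, Function.Injective (algebraMap (X.presheaf.stalk z) X.functionField) :=
    fun z => IsFractionRing.injective _ _
  haveI : QuasiCompact (structureMorphism ℂ X) := by
    have h : IsProper (structureMorphism ℂ X) := hX.2.1
    infer_instance
  haveI : CompactSpace X := QuasiCompact.compactSpace_of_compactSpace (structureMorphism ℂ X)
  choose V hV hxV w hw using fun x : X => exists_etale_chart hX x
  haveI hVne : ∀ x, Nonempty (V x) := fun x => ⟨⟨x, hxV x⟩⟩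
  obtain ⟨S, -, hS⟩ := isCompact_univ.elim_nhds_subcover (fun x : X => ((V x : X.Opens) : Set X))
    (fun x _ => (V x).isOpen.mem_nhds (hxV x))
  let yy : X × (Fin r → Fin n) → Fin r → X.functionField := fun p t =>
    X.germToFunctionField (V p.1) (w p.1 (p.2 t))
  refine ⟨yy '' ((S : Set X) ×ˢ Set.univ), (S.finite_toSet.prod Set.finite_univ).image _,
    fun R hR => ?_⟩
  obtain ⟨x, hx, hloc⟩ := exists_center' hX.2.1 R (fun c => by
    have := hR (algebraMap ℂ φ.fieldRange c)
    rwa [← IsScalarTower.algebraMap_apply] at this)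
  -- compatibility of `φ` with the stalk map at `x`
  have hcomp : ∀ a : Z.presheaf.stalk (f x), φ (algebraMap _ Z.functionField a) =
      algebraMap (X.presheaf.stalk x) X.functionField ((f.stalkMap x).hom a) := by
    intro a
    obtain ⟨V, hV, s, rfl⟩ := TopCat.Presheaf.exists_germ_eq Z.presheaf a
    haveI : Nonempty V := ⟨⟨f x, hV⟩⟩
    have hxV : x ∈ f ⁻¹ᵁ V := hV
    haveI : Nonempty (f ⁻¹ᵁ V : X.Opens) := ⟨⟨x, hxV⟩⟩
    have h1 := Scheme.algebraMap_germ_eq_germToFunctionField Z hV s
    have h2 := Scheme.algebraMap_germ_eq_germToFunctionField X hxV (f.app V s)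
    rw [h1, hφ V s, ← h2]
    congr 1
    exact (Scheme.Hom.germ_stalkMap_apply f V x hxV s).symm
  -- the local ring at `f x` is a field
  have hfield : ∀ a : Z.presheaf.stalk (f x), a ≠ 0 → IsUnit a := by
    intro a ha
    have h0 : algebraMap _ Z.functionField a ≠ 0 := by
      rwa [Ne, map_eq_zero_iff _ (IsFractionRing.injective (Z.presheaf.stalk (f x)) Z.functionField)]
    have h1 : φ ((algebraMap _ Z.functionField a)⁻¹) ∈ R :=
      hR ⟨_, ⟨_, rfl⟩⟩
    have h2 := hloc ((f.stalkMap x).hom a) _ h1 (by
      rw [← hcomp, ← map_mul, mul_inv_cancel₀ h0, map_one])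
    exact (inferInstance : IsLocalHom (f.stalkMap x).hom).map_nonunit a h2
  obtain ⟨x0, hx0S, hx0⟩ : ∃ x0 ∈ S, x ∈ V x0 := by
    have := hS (Set.mem_univ x)
    simpa using this
  obtain ⟨J, hy, hjac, hreg⟩ := center_chart hX φ.fieldRange x (fun l => by
    obtain ⟨_, ⟨u, rfl⟩⟩ := l
    obtain ⟨a, c, hc, huc⟩ := IsFractionRing.div_surjective (A := Z.presheaf.stalk (f x)) u
    have hc0 : c ≠ 0 := nonZeroDivisors.ne_zero hc
    obtain ⟨d, hd⟩ := (hfield c hc0).exists_right_inv
    refine ⟨(f.stalkMap x).hom (a * d), ?_⟩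
    rw [← hcomp]
    have hcK : algebraMap _ Z.functionField c ≠ 0 := by
      rwa [Ne, map_eq_zero_iff _ (IsFractionRing.injective (Z.presheaf.stalk (f x)) Z.functionField)]
    have h3 : algebraMap _ Z.functionField (a * d) = u := by
      rw [← huc, eq_div_iff hcK, ← map_mul]
      congr 1
      calc a * d * c = a * (c * d) := by ring
        _ = a := by rw [hd, mul_one]
    rw [h3]
    rfl) b (V x0) (hV x0) hx0 (w x0) (hw x0)
  refine ⟨yy (x0, J), ⟨(x0, J), ⟨hx0S, trivial⟩, rfl⟩, fun t => ?_, hjac, fun m g hg => ?_⟩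
  · obtain ⟨a, ha⟩ := hy t
    change X.germToFunctionField (V x0) (w x0 (J t)) ∈ R
    rw [← ha]
    exact hx a
  · obtain ⟨a, ha⟩ := hreg m g hg
    have h0 : R.valuation (jac φ.fieldRange b (yy (x0, J)) ^ m) ≠ 0 := by
      rw [Ne, map_eq_zero]; exact pow_ne_zero m hjac
    have h1 : R.valuation (g / jac φ.fieldRange b (yy (x0, J)) ^ m) ≤ 1 := by
      rw [← ha]
      exact (R.valuation_le_one_iff _).2 (hx a)
    rwa [map_div₀, div_le_one₀ (zero_lt_iff.2 h0), map_pow] at h1

end fibre

end Crest.Agent.R276.UHon_845
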