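import Mathlib
import Crest.Agent.R276.SkelDefs_220
import Crest.Agent.R276.TowA_849
import Crest.Agent.R276.FlatDefs_236
import Crest.Agent.R276.CmpR3_652
import Crest.Agent.R276.VLevi2_327
import Crest.Agent.R276.TrB_617
import Crest.Agent.R276.PfDer_676
import Crest.Agent.R276.Triv_63
import Crest.Agent.R276.UHon_845

/-!
# Row 276 (S0419), SKEL LEVEL 3 (helper220): the geometry

Frozen Props `L…`, one per owner; the composition is in `Skel_220`.

* `Setup L K`   : hypotheses of `CoreBetaPosU` for general types;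
* `GeoD R N σ`  : SAT frame `σ : Fin s → K` on `R` + VHS of the CY line (data);
* `GeoD.Hull`   : monodromies scalar on the flat span of `om` commute with `E`, finite exponent;
* `GeoD.Per t`  : `ker θ = ker (dt₁, …, dt_ρ)` at every point of `M_L`;
* `Adapt`       : the same for the first `ρ` coordinates of a tower;
* `TowOK W …`   : everything on a tower of models;
* `Stm W … Φ`   : the statement `Φ` of SkelDefs for the tower.
-/

set_option autoImplicit false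

open Set Filter Topology MeasureTheory
open scoped ENNReal

noncomputable section

namespace Crest.Agent.R276.SkelGeo_220

open Crest.Agent.R271 Crest.Agent.R271.Defs710 Crest.Agent.R271.Rd692 Crest.Agent.R271.Ho51
open Crest.Agent.R276.Mod1_987 Crest.Agent.R276.FKDefs_779
open Crest.Agent.R276.BetaDefs_231 Crest.Agent.R276.SkelDefs_220
open Crest.Agent.R276.TowA_849 Crest.Agent.R276.Ipc735
open Crest.Agent.R276.UHon_845 (UHon)
open Crest.Agent.R276.CmpR_652 (Cmp)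
open Crest.Agent.R276.FlatDefs_236 (SatFam DN)
open Crest.Agent.R276.VLevi_327 (CYL hn thV)
open Crest.Agent.R276.Tr_617 (Tr mon)
open Crest.Agent.R276.PfDer_676 (dB)
open Crest.Agent.R276.FKB0_143 (kbasis)

/-! ## 1. Setup -/

/-- the hypotheses of `CoreBetaPosU` -/
structure Setup (L K : Type) [Field L] [Field K] [Algebra ℂ L] [Algebra ℂ K] [Algebra L K]
    [IsScalarTower ℂ L K] : Prop where
  fg : FGF ℂ K
  ac : ∀ a : K, IsAlgebraic L a → a ∈ (algebraMap L K).range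
  hK : Honest ℂ K
  hL : Honest ℂ L
  uhon : UHon L K

section rel

variable {L K : Type} [Field L] [Field K] [Algebra ℂ L] [Algebra ℂ K] [Algebra L K]
  [IsScalarTower ℂ L K] {m r : ℕ}

/-- elements of `K` as functions on `M_K` -/
def fr (R : RMdl L K m r) {s : ℕ} (σ : Fin s → K) (h : ∀ i, σ i ∈ R.MK.B) : Fin s → R.MK.B :=
  fun i => ⟨σ i, h i⟩

/-- the CY norm `D(z)` -/
def DR (R : RMdl L K m r) (N : ℕ) {s : ℕ} (u : Fin s → R.MK.B) (z : R.ML.Pts) : ℝ :=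
  (DN N u z).toReal

/-- `span_L σ = V_N := {v : Pluri L b N v}` for the basis of fibre coordinates -/
def SpanV (R : RMdl L K m r) (N : ℕ) {s : ℕ} (σ : Fin s → K) : Prop :=
  ∀ b : Module.Basis (Fin r) K (Ω[K⁄L]),
    (∀ j, b j = KaehlerDifferential.D L K (R.MK.zK (Fin.natAdd m j))) →
    ∀ v : K, Pluri L b N v ↔ v ∈ Submodule.span L (Set.range σ)

/-- SAT frame `σ` on `R` and the VHS of the CY line -/
structure GeoD (R : RMdl L K m r) (N : ℕ) {s : ℕ} (σ : Fin s → K) where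
  mem : ∀ i, σ i ∈ R.MK.B
  sat : SatFam R N (fr R σ mem)
  n : ℕ
  wt : ℕ
  V : VHS m R.ML.Pts n wt
  om : R.ML.Pts → Fin n → ℂ
  cyl : CYL V om
  c : ℝ
  c_pos : 0 < c
  nrm : ∀ z, hn V z (om z) = c * DR R N (fr R σ mem) z

variable {R : RMdl L K m r} {N s : ℕ} {σ : Fin s → K}

/-- (HULL) monodromies which are scalar on the flat span of `om` commute with `E` and have a common
finite exponent -/
def GeoD.Hull (X : GeoD R N σ) : Prop :=
  ∃ e : ℕ, 0 < e ∧ ∀ (x : R.ML.Pts) (g : GL (Fin X.n) ℤ), g ∈ mon X.V.P x → ∀ ζ : ℂ,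
    (∀ (y : R.ML.Pts) (h : GL (Fin X.n) ℤ), Tr X.V.P x y h →
      Matrix.mulVec (cm g) (Matrix.mulVec (cm h) (X.om y)) =
        ζ • Matrix.mulVec (cm h) (X.om y)) →
    cm g * X.V.E x = X.V.E x * cm g ∧ g ^ e = 1

/-- (PER) `t₁ … t_ρ ∈ B_L` algebraically independent, `ker θ = ker dt` at every point -/
def GeoD.Per (X : GeoD R N σ) {ρ : ℕ} (t : Fin ρ → L) : Prop :=
  AlgebraicIndependent ℂ t ∧ ∃ ht : ∀ i, t i ∈ R.ML.B, ∀ (z : R.ML.Pts) (v : Fin m → ℂ),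
    (∀ i, ∑ j, v j * z (dB R.ML j ⟨t i, ht i⟩) = 0) ↔ thV X.V z v = 0

end rel

/-! ## 2. Field level and relative models over `L` -/

/-- (SAT) [210]: saturated frame with prescribed coordinates. -/
def LSat : Prop :=
  ∀ (L K : Type) [Field L] [Field K] [Algebra ℂ L] [Algebra ℂ K] [Algebra L K]
    [IsScalarTower ℂ L K] [CharZero L] (m r : ℕ), Setup L K → 0 < m → 0 < r →
    ∀ (z : Fin m → L) (x : Fin r → K), IsTranscendenceBasis ℂ z →
    ∀ hx : IsTranscendenceBasis L x, ∀ N : ℕ, Even N → 4 ≤ N →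
    (∃ g : K, g ≠ 0 ∧ Pluri L (kbasis hx) N g) →
    ∃ (R : RMdl L K m r) (s : ℕ) (σ : Fin s → K) (h : ∀ i, σ i ∈ R.MK.B),
      R.ML.zK = z ∧ (∀ j, R.MK.zK (Fin.natAdd m j) = x j) ∧ SatFam R N (fr R σ h) ∧ SpanV R N σ

/-- (GEO) [519, 425, 244, 840, 815, IPC]: the VHS of the CY line on a finer model. -/
def LGeo : Prop :=
  ∀ (L K : Type) [Field L] [Field K] [Algebra ℂ L] [Algebra ℂ K] [Algebra L K]
    [IsScalarTower ℂ L K] (m r : ℕ), Setup L K → 0 < m → 0 < r →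
    ∀ (R : RMdl L K m r) (N s : ℕ) (σ : Fin s → K) (h : ∀ i, σ i ∈ R.MK.B),
      SatFam R N (fr R σ h) → SpanV R N σ → ∃ R' : RMdl L K m r, Cmp R R' ∧ Nonempty (GeoD R' N σ)

/-- (HULL) [574, 605, 617, 720, 317]: sub-VHS on which central monodromies are Hodge. -/
def LHull : Prop :=
  ∀ (L K : Type) [Field L] [Field K] [Algebra ℂ L] [Algebra ℂ K] [Algebra L K]
    [IsScalarTower ℂ L K] (m r : ℕ) (R : RMdl L K m r) (N s : ℕ) (σ : Fin s → K), 0 < m →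
    Nonempty (GeoD R N σ) → ∃ X : GeoD R N σ, X.Hull

/-- (PER) [409, 437, 450, 571, 676]: the period field; `ρ` = generic rank of `θ`. -/
def LPer : Prop :=
  ∀ (L K : Type) [Field L] [Field K] [Algebra ℂ L] [Algebra ℂ K] [Algebra L K]
    [IsScalarTower ℂ L K] (m r : ℕ) (R : RMdl L K m r) (N s : ℕ) (σ : Fin s → K)
    (X : GeoD R N σ), X.Hull →
    ∃ (R' : RMdl L K m r) (X' : GeoD R' N σ) (ρ : ℕ) (t : Fin ρ → L),
      Cmp R R' ∧ X'.Hull ∧ X'.Per t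

/-- (TR) [652, 595, 327, 236]: transport to a finer model with connected fibres. -/
def LTr : Prop :=
  ∀ (L K : Type) [Field L] [Field K] [Algebra ℂ L] [Algebra ℂ K] [Algebra L K]
    [IsScalarTower ℂ L K] (m r : ℕ) (R R' : RMdl L K m r) (N s : ℕ) (σ : Fin s → K)
    (X : GeoD R N σ), Cmp R R' → (∀ w, ConnectedSpace (R'.Fib w)) →
    ∃ X' : GeoD R' N σ, (X.Hull → X'.Hull) ∧ ∀ (ρ : ℕ) (t : Fin ρ → L), X.Per t → X'.Per t

/-- (SKO) [845, 567]: uniform exponent; `k = 1` form, for the norm `∑ |uᵢ|²`. -/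
def SkoP {L K : Type} [Field L] [Field K] [Algebra ℂ L] [Algebra ℂ K] [Algebra L K]
    [IsScalarTower ℂ L K] {m r : ℕ} {ML : Mdl L m} {MK : Mdl K (m + r)} (H₂ : Rel ML MK)
    (N : ℕ) {s : ℕ} (u : Fin s → MK.B) (ε : ℝ) : Prop :=
  ∃ p : MvPolynomial (Fin m) ℂ, p ≠ 0 ∧ ∀ z : ML.Pts, MvPolynomial.eval (ML.pz z) p ≠ 0 →
    ∀ (k : ℕ) (P : MvPolynomial (Fin s) ℂ), 0 < k → P.IsHomogeneous k →
      Ieps H₂ N k u ε z (evs u P) ≠ ∞

/-! ## 3. Towers -/

section tower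

variable {T L K : Type} [Field T] [Field L] [Field K] [Algebra ℂ T] [Algebra ℂ L] [Algebra ℂ K]
  [Algebra T L] [Algebra L K] [IsScalarTower ℂ T L] [IsScalarTower ℂ L K] {ρ a r : ℕ}

/-- (ADAPT) `θ_v = 0` iff `v` is tangent to the fibres of `M_L → M_T` -/
def Adapt {W : Tow T L K ρ a r} {N s : ℕ} {σ : Fin s → K} (X : GeoD W.LK N σ) : Prop :=
  ∀ (z : W.ML.Pts) (v : Fin (ρ + a) → ℂ),
    (∀ i : Fin ρ, v (Fin.castAdd a i) = 0) ↔ thV X.V z v = 0

/-- everything on a tower of models -/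
structure TowOK (W : Tow T L K ρ a r) (N d e₀ : ℕ) {s e : ℕ} (σ : Fin s → K)
    (w : Fin (e + 1) → L) : Prop where
  N_even : Even N
  N_ge : 4 ≤ N
  s_pos : 0 < s
  e₀_pos : 0 < e₀
  r_pos : 0 < r
  m_pos : 0 < ρ + a
  setup : Setup L K
  acT : ∀ b : L, IsAlgebraic T b → b ∈ (algebraMap T L).range
  H₁ : Rel W.MT W.ML
  H₂ : Rel W.ML W.MK
  conn₁ : H₁.Conn
  conn₂ : H₂.Conn
  span : SpanV W.LK N σ
  ind : ∃ f : Fin (d + 1) → K, f 0 ≠ 0 ∧ (∀ i, f i ∈ Submodule.span L (Set.range σ)) ∧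
    AlgebraicIndependent L fun i : Fin d => f i.succ / f 0
  geo : ∃ X : GeoD W.LK N σ, X.Hull ∧ Adapt X
  wmem : ∀ j, w j ∈ W.ML.B
  wreg : ∀ b : Module.Basis (Fin (ρ + a)) L (Ω[L⁄ℂ]),
    (∀ j, b j = KaehlerDifferential.D ℂ L (W.ML.zK j)) → ∀ j, PluriS ℂ b e₀ (w j)
  w0 : w 0 ≠ 0
  wind : AlgebraicIndependent ℂ fun j : Fin e => w j.succ / w 0

/-- the statement `Φ` about the relative models of a tower, sections `u = σ`, `w` and the CY norm -/
def Stm (W : Tow T L K ρ a r) (N : ℕ) {s e : ℕ} (σ : Fin s → K) (w : Fin (e + 1) → L)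
    (Φ : ∀ {MT : Mdl T ρ} {ML : Mdl L (ρ + a)} {MK : Mdl K (ρ + a + r)} (_ : Rel MT ML)
      (_ : Rel ML MK) (_ : Fin s → MK.B) (_ : Fin (e + 1) → ML.B) (_ : ML.Pts → ℝ), Prop) : Prop :=
  ∃ (H₁ : Rel W.MT W.ML) (H₂ : Rel W.ML W.MK) (hσ : ∀ i, σ i ∈ W.MK.B) (hw : ∀ j, w j ∈ W.ML.B),
    Φ H₁ H₂ (fr W.LK σ hσ) (fun j => ⟨w j, hw j⟩) (DR W.LK N (fr W.LK σ hσ))

end tower

/-- quantification over all towers with `TowOK` -/
def ForTow (Q : ∀ {T L K : Type} [Field T] [Field L] [Field K] [Algebra ℂ T] [Algebra ℂ L]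
    [Algebra ℂ K] [Algebra T L] [Algebra L K] [IsScalarTower ℂ T L] [IsScalarTower ℂ L K]
    {ρ a r : ℕ} (_ : Tow T L K ρ a r) (_N _d _e₀ : ℕ) {s e : ℕ} (_ : Fin s → K)
    (_ : Fin (e + 1) → L), Prop) : Prop :=
  ∀ (T L K : Type) [Field T] [Field L] [Field K] [Algebra ℂ T] [Algebra ℂ L]
    [Algebra ℂ K] [Algebra T L] [Algebra L K] [IsScalarTower ℂ T L] [IsScalarTower ℂ L K]
    (ρ a r : ℕ) (W : Tow T L K ρ a r) (N d e e₀ s : ℕ) (σ : Fin s → K) (w : Fin (e + 1) → L),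
    TowOK W N d e₀ σ w → Q W N d e₀ σ w

end Crest.Agent.R276.SkelGeo_220
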