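import Mathlib
import Crest.Agent.R276.AcOpen_89

/-!
# R276, leaf C3 = WPACK (helper505): the frame bound of `W = ∑ |w_j|²`

`c3 : C3 H₁ H₂ w e₀` of `SkelDefs_220` for `w_j` regular `e₀`-canonical forms of `L/ℂ`.
Reusable: `Mono.bound` (`u = τ^k·`, `J = τ^c·`, `k + m c ≥ 0` ⟹ `|u| |J|^m` bounded on smaller
polydiscs), `logB_of_bdd`, `regAt_comap`.
-/

set_option autoImplicit false

open Set Filter Topology

noncomputable section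

namespace Crest.Agent.R276.WPack_505

open Crest.Agent.R271 Crest.Agent.R271.Rd692 Crest.Agent.R271.Ho51
open Crest.Agent.R271.Defs710 hiding glue
open Crest.Agent.R276.Mod1_987 Crest.Agent.R276.FKDefs_779 Crest.Agent.R276.SkelDefs_220
open Crest.Agent.R276.AcOpen_89

section mono

variable {n : ℕ} {δ : ℝ} {i₀ : Option (Fin n)}

theorem logB_of_bdd {u : Cn n → ℝ} (h : ∀ δ' < δ, ∃ C : ℝ, ∀ ζ ∈ PD δ' i₀, u ζ ≤ C) :
    LogB δ i₀ u := by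
  intro δ' hδ'
  obtain ⟨C, hC⟩ := h δ' hδ'
  exact ⟨C, 0, fun ζ hζ => by simpa using hC ζ hζ⟩

theorem norm_tau_le_one {ζ : Cn n} (hδ : δ ≤ 1) (h : ζ ∈ PD δ i₀) : ‖tau i₀ ζ‖ ≤ 1 := by
  cases i₀ with
  | none => simp [tau]
  | some i => exact (norm_le_pi_norm ζ i).trans (h.1.le.trans hδ)

/-- `u = τ^k·(zero free)`, `J = τ^c·(zero free)`, `k + m c ≥ 0`: then `|u| |J|^m` is bounded on
smaller polydiscs -/
theorem Mono.bound {u J : Cn n → ℂ} {k c : ℤ} (hδ : δ ≤ 1) (hu : Mono δ i₀ u k)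
    (hJ : Mono δ i₀ J c) {m : ℕ} (h : 0 ≤ k + m * c) {δ' : ℝ} (hδ' : δ' < δ) :
    ∃ C : ℝ, ∀ ζ ∈ PD δ' i₀, ‖u ζ‖ * ‖J ζ‖ ^ m ≤ C := by
  obtain ⟨G, hG1, -, hG3⟩ := hu
  obtain ⟨H, hH1, -, hH3⟩ := hJ
  have hK : IsCompact (Metric.closedBall (0 : Cn n) δ') := isCompact_closedBall _ _
  have hsub : Metric.closedBall (0 : Cn n) δ' ⊆ Metric.ball 0 δ :=
    Metric.closedBall_subset_ball hδ'
  have hcont : ContinuousOn (fun ζ => ‖G ζ‖ * ‖H ζ‖ ^ m) (Metric.closedBall (0 : Cn n) δ') := by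
    refine ContinuousOn.mul ?_ ?_
    · exact (hG1.continuousOn.mono hsub).norm
    · exact ((hH1.continuousOn.mono hsub).norm).pow m
  obtain ⟨C, hC⟩ := hK.bddAbove_image hcont
  refine ⟨C, fun ζ hζ => ?_⟩
  have hζδ : ζ ∈ PD δ i₀ := PD_mono hδ'.le i₀ hζ
  have h1 : ‖G ζ‖ * ‖H ζ‖ ^ m ≤ C := hC ⟨ζ, by
    rw [mem_closedBall_zero_iff]; exact hζ.1.le, rfl⟩
  have ht0 : tau i₀ ζ ≠ 0 := tau_ne hζδ
  have ht : 0 < ‖tau i₀ ζ‖ := norm_pos_iff.2 ht0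
  have ht1 : ‖tau i₀ ζ‖ ≤ 1 := norm_tau_le_one hδ hζδ
  rw [hG3 ζ hζδ, hH3 ζ hζδ, norm_mul, norm_mul, norm_zpow, norm_zpow, mul_pow]
  have h2 : ‖tau i₀ ζ‖ ^ k * ‖G ζ‖ * ((‖tau i₀ ζ‖ ^ c) ^ m * ‖H ζ‖ ^ m) =
      ‖tau i₀ ζ‖ ^ (k + m * c) * (‖G ζ‖ * ‖H ζ‖ ^ m) := by
    rw [zpow_add₀ ht.ne', ← zpow_natCast (‖tau i₀ ζ‖ ^ c) m, ← zpow_mul, mul_comm c (m : ℤ)]
    ring
  rw [h2]
  obtain ⟨q, hq⟩ := Int.eq_ofNat_of_zero_le h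
  rw [hq, zpow_natCast]
  have h3 : ‖tau i₀ ζ‖ ^ q ≤ 1 := pow_le_one₀ ht.le ht1
  have h4 : 0 ≤ ‖G ζ‖ * ‖H ζ‖ ^ m := by positivity
  calc ‖tau i₀ ζ‖ ^ q * (‖G ζ‖ * ‖H ζ‖ ^ m) ≤ 1 * (‖G ζ‖ * ‖H ζ‖ ^ m) := by gcongr
    _ ≤ C := by rw [one_mul]; exact h1

end mono

section reg

variable {L K : Type} [Field L] [Field K] [Algebra ℂ L] [Algebra ℂ K] [Algebra L K]
  [IsScalarTower ℂ L K]

/-- forms regular at all valuation rings are regular at the restriction of `R ⊇ ℂ` -/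
theorem regAt_comap {R : ValuationSubring K} (hR : ∀ c : ℂ, algebraMap ℂ K c ∈ R) {m e₀ : ℕ}
    {b : Module.Basis (Fin m) L (Ω[L⁄ℂ])} {g : L} (hg : PluriS ℂ b e₀ g) :
    RegAt ℂ (R.comap (algebraMap L K)) b e₀ g := by
  refine hg _ fun c => ?_
  rw [ValuationSubring.mem_comap, ← IsScalarTower.algebraMap_apply]
  exact hR c

end reg

section main

variable {T L K : Type} [Field T] [Field L] [Field K] [Algebra ℂ T] [Algebra ℂ L] [Algebra ℂ K]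
  [Algebra T L] [Algebra L K] [IsScalarTower ℂ T L] [IsScalarTower ℂ L K] {ρ a r : ℕ}
  {MT : Mdl T ρ} {ML : Mdl L (ρ + a)} {MK : Mdl K (ρ + a + r)}
  {H₁ : Rel MT ML} {H₂ : Rel ML MK}

/-- value of an element of `B_L` on a chart -/
theorem ord_apply {δ : ℝ} {i₀ : Option (Fin (ρ + a))} {X : AC ML δ i₀} {b : ML.B} {k : ℤ}
    (h : X.Ord (b : L) k) : Mono δ i₀ (fun η => X.s η b) k := by
  obtain ⟨u, ⟨G, hG1, hG2, hG3⟩, hu⟩ := h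
  refine ⟨G, hG1, hG2, fun η hη => ?_⟩
  have h1 := hu η hη b 1 (by rw [OneMemClass.coe_one, mul_one])
  rw [map_one, mul_one] at h1
  show X.s η b = tau i₀ η ^ k * G η
  rw [h1]
  exact hG3 η hη

/-- one form: `|w|² |J_L|^{2 e₀}` is bounded on good tower charts -/
theorem form_bound {R : ValuationSubring K} (Y : TChart H₁ H₂ R) (hD : Y.Dict) {e₀ : ℕ}
    {b : Module.Basis (Fin (ρ + a)) L (Ω[L⁄ℂ])}
    (hb : ∀ j, b j = KaehlerDifferential.D ℂ L (ML.z j)) {w : ML.B}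
    (hw : RegAt ℂ (R.comap (algebraMap L K)) b e₀ (w : L)) {k : ℤ} (hk : Y.cL.Ord (w : L) k)
    {δ' : ℝ} (hδ' : δ' < Y.δ) : ∃ C : ℝ, ∀ η ∈ PD δ' (low (some Y.i₀)),
      ‖Y.cL.s η w‖ * ‖Y.cL.J η‖ ^ e₀ ≤ C := by
  obtain ⟨c, hc1, hc2⟩ := hD.JL
  have hmono := ord_apply hk
  by_cases hlow : low (m := ρ + a) (some Y.i₀) = none
  · have h1 : ∀ {u : Cn (ρ + a) → ℂ} {j : ℤ}, Mono Y.δ (low (some Y.i₀)) u j →
        Mono Y.δ (low (some Y.i₀)) u 0 := by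
      intro u j hu
      rw [hlow] at hu ⊢
      obtain ⟨G, hG1, hG2, hG3⟩ := hu
      refine ⟨G, hG1, hG2, fun ζ hζ => ?_⟩
      rw [hG3 ζ hζ]
      simp [tau]
    exact Mono.bound Y.δ_lt.le (h1 hmono) (h1 hc1) (by simp) hδ'
  · exact Mono.bound Y.δ_lt.le hmono hc1 ((hc2 b hb e₀ (w : L) k hk hlow).1 hw) hδ'

/-- **(C3)** -/
theorem c3 {e e₀ : ℕ} (w : Fin (e + 1) → ML.B) (b : Module.Basis (Fin (ρ + a)) L (Ω[L⁄ℂ]))
    (hb : ∀ j, b j = KaehlerDifferential.D ℂ L (ML.z j))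
    (hw : ∀ j, PluriS ℂ b e₀ (w j : L)) : C3 H₁ H₂ w e₀ := by
  classical
  intro R hR
  refine ⟨∅, (Finset.univ.image fun j => (w j : L)).filter (· ≠ 0), by simp, fun f hf =>
    (Finset.mem_filter.1 hf).2, fun Y hD _ hGL => logB_of_bdd fun δ' hδ' => ?_⟩
  have key : ∀ j, ∃ C : ℝ, ∀ η ∈ PD δ' (low (some Y.i₀)),
      ‖Y.cL.s η (w j)‖ ^ 2 * ‖Y.cL.J η‖ ^ (2 * e₀) ≤ C := by
    intro j
    by_cases h0 : (w j : L) = 0
    · refine ⟨0, fun η _ => ?_⟩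
      have : w j = 0 := Subtype.ext h0
      rw [this, map_zero]
      simp
    · obtain ⟨k, hk⟩ := hGL (w j : L) (Finset.mem_filter.2 ⟨Finset.mem_image.2
        ⟨j, Finset.mem_univ j, rfl⟩, h0⟩)
      obtain ⟨C, hC⟩ := form_bound Y hD hb (regAt_comap hR.alg (hw j)) hk hδ'
      refine ⟨C ^ 2, fun η hη => ?_⟩
      have h1 := hC η hη
      calc ‖Y.cL.s η (w j)‖ ^ 2 * ‖Y.cL.J η‖ ^ (2 * e₀) =
            (‖Y.cL.s η (w j)‖ * ‖Y.cL.J η‖ ^ e₀) ^ 2 := by ring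
        _ ≤ C ^ 2 := by gcongr
  choose C hC using key
  refine ⟨∑ j, C j, fun η hη => ?_⟩
  show (∑ j, ‖Y.cL.s η (w j)‖ ^ 2) * ‖Y.cL.J η‖ ^ (2 * e₀) ≤ ∑ j, C j
  rw [Finset.sum_mul]
  exact Finset.sum_le_sum fun j _ => hC j η hη

end main

end Crest.Agent.R276.WPack_505
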