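import Mathlib
import Crest.Agent.R276.SkelGeo_220
import Crest.Agent.R276.End0A_508
import Crest.Agent.R276.CInd_534
import Crest.Agent.R276.WPack_505
import Crest.Agent.R276.CJ_505

/-!
# Row 276 (S0419), SKEL (helper220): composition

`coreBetaPosU` : `CoreBetaPosU` from the frozen Props
`LSat, LGeo, LHull, LPerTow, LEv, LCY, LC1, LC2, LC4, LTCh, LFlat, LComp, LogExt`.
-/

set_option autoImplicit false

open Set Filter Topology MeasureTheory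
open scoped ENNReal

noncomputable section

namespace Crest.Agent.R276.Skel_220

open Crest.Agent.R271 Crest.Agent.R271.Defs710 Crest.Agent.R271.Rd692 Crest.Agent.R271.Ho51
open Crest.Agent.R276.Mod1_987 Crest.Agent.R276.FKDefs_779
open Crest.Agent.R276.BetaDefs_231 Crest.Agent.R276.SkelDefs_220
open Crest.Agent.R276.TowA_849 Crest.Agent.R276.SkelGeo_220
open Crest.Agent.R276.UHon_845 (UHon)
open Crest.Agent.R276.CmpR_652 (Cmp)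
open Crest.Agent.R276.FlatDefs_236 (SatFam DN)
open Crest.Agent.R276.FKB0_143 (kbasis)

/-! ## Props on towers -/

/-- (PER + TOW) [409, 437, 595 (VERT), 849 (MODPACK)] -/
def LPerTow : Prop :=
  ∀ (L K : Type) [Field L] [Field K] [Algebra ℂ L] [Algebra ℂ K] [Algebra L K]
    [IsScalarTower ℂ L K] (m r : ℕ), Setup L K → 0 < m → 0 < r →
    ∀ (R : RMdl L K m r) (N s : ℕ) (σ : Fin s → K) (X : GeoD R N σ), X.Hull →
    ∃ (T : IntermediateField ℂ L) (ρ a : ℕ) (W : Tow T L K ρ a r), m = ρ + a ∧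
      (∀ b : L, IsAlgebraic T b → b ∈ T) ∧
      (∀ j, W.MK.zK (Fin.natAdd (ρ + a) j) = R.MK.zK (Fin.natAdd m j)) ∧
      Ev W fun W' => ∃ (H₁ : Rel W'.MT W'.ML) (H₂ : Rel W'.ML W'.MK), H₁.Conn ∧ H₂.Conn ∧
        ∃ X' : GeoD W'.LK N σ, X'.Hull ∧ Adapt X'

/-- (EV) [220, 652, 849, 236, 327]: `TowOK` is stable under shrinking -/
def LEv : Prop := ForTow fun W N d e₀ _ _ σ w => Ev W fun W' => TowOK W' N d e₀ σ w

/-- (C1) + (SKO) [185, 845] -/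
def LC1 : Prop := ForTow fun W N _ _ _ _ σ w => ∃ ε₀ : ℝ, 0 < ε₀ ∧ Ev W fun W' =>
  ∀ q : ℕ, 0 < q → 1 / (q : ℝ) < ε₀ → Stm W' N σ w fun H₁ H₂ u _ D =>
    (∀ k : ℕ, 0 < k → ∃ b₁, C1 H₁ H₂ N k u D (1 / (q : ℝ)) b₁) ∧ SkoP H₂ N u (1 / (q : ℝ))

/-- (C2) [748] -/
def LC2 : Prop := ForTow fun W N _ e₀ _ _ σ w => Ev W fun W' =>
  Stm W' N σ w fun H₁ H₂ _ w _ => ∃ b₂, C2 H₁ H₂ w e₀ b₂

/-- (C4) [857, 804, 327, 217, 606, 651, 767] -/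
def LC4 : Prop := ForTow fun W N _ _ _ _ σ w => Ev W fun W' =>
  Stm W' N σ w fun H₁ H₂ _ _ D => C4 H₁ H₂ D

/-- (TCH) [858, 590] -/
def LTCh : Prop := ForTow fun W N _ _ _ _ σ w => Ev W fun W' =>
  Stm W' N σ w fun H₁ H₂ _ _ _ => TCh H₁ H₂

/-- (FLAT) [793, 464, 739, 999, 333, 236, 348, 39, 617] -/
def LFlat : Prop := ForTow fun W N d _ _ _ σ w => ∀ ε : ℝ, 0 < ε →
  Stm W N σ w (fun _ H₂ u _ _ => SkoP H₂ N u ε) →
  Stm W N σ w fun H₁ H₂ u _ D => Flat H₁ H₂ N d u D ε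

/-- (CY) -/
def LCY : Prop := ForTow fun W N _ _ _ _ σ w => Stm W N σ w fun _ H₂ u _ D => IsCY H₂ N u D

/-- (COMP) [723, 870]: the endgame -/
def LComp : Prop :=
  ∀ (T L K : Type) [Field T] [Field L] [Field K] [Algebra ℂ T] [Algebra ℂ L] [Algebra ℂ K]
    [Algebra T L] [Algebra L K] [IsScalarTower ℂ T L] [IsScalarTower ℂ L K]
    (ρ a r N s e₀ d e : ℕ) (MT : Mdl T ρ) (ML : Mdl L (ρ + a)) (MK : Mdl K (ρ + a + r))
    (H₁ : Rel MT ML) (H₂ : Rel ML MK) (u : Fin s → MK.B) (w : Fin (e + 1) → ML.B)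
    (D : ML.Pts → ℝ) (ε : ℝ), FGF ℂ K → 0 < N → 0 < s → 0 < e₀ → 0 < ε → IsCY H₂ N u D →
    H₁.Conn → H₂.Conn → TCh H₁ H₂ → (∀ k : ℕ, 0 < k → ∃ b₁, C1 H₁ H₂ N k u D ε b₁) →
    (∃ b₂, C2 H₁ H₂ w e₀ b₂) → C3 H₁ H₂ w e₀ → C4 H₁ H₂ D → Flat H₁ H₂ N d u D ε →
    CJ ML w e₀ → CInd H₁ w → CNz H₁ → KapGeF ℂ K (d + e)

/-! ## Algebra -/

section alg

variable {k K : Type*} [Field k] [Field K] [Algebra k K] {n : ℕ}
  {b : Module.Basis (Fin n) K (Ω[K⁄k])}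

theorem pluriS_mul {m₁ m₂ : ℕ} {g₁ g₂ : K} (h₁ : PluriS k b m₁ g₁) (h₂ : PluriS k b m₂ g₂) :
    PluriS k b (m₁ + m₂) (g₁ * g₂) := fun R hR =>
  Crest.Agent.R276.End0_508.regAt_mul (h₁ R hR) (h₂ R hR)

end alg

section ev

variable {T L K : Type} [Field T] [Field L] [Field K] [Algebra ℂ T] [Algebra ℂ L] [Algebra ℂ K]
  [Algebra T L] [Algebra L K] [IsScalarTower ℂ T L] [IsScalarTower ℂ L K] {ρ a r : ℕ}

/-- shrinking does not change the coordinates -/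
theorem ev_coord (W : Tow T L K ρ a r) :
    Ev W fun W' => W'.ML.zK = W.ML.zK ∧ W'.MK.zK = W.MK.zK :=
  ⟨1, one_ne_zero, fun _ _ _ => ⟨1, one_ne_zero, fun _ _ _ => ⟨1, one_ne_zero, fun _ _ _ =>
    ⟨rfl, rfl⟩⟩⟩⟩

theorem ev_mem (W : Tow T L K ρ a r) {n : ℕ} (w : Fin n → L) :
    Ev W fun W' => ∀ j, w j ∈ W'.ML.B := by
  classical
  have hess : Algebra.EssFiniteType ℂ L := Cmp_595.essFiniteType W.ML
  refine Ev.of_ML (Q := fun M => ∀ j, w j ∈ M.B) ((Ev1.units W.ML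
    (Cmp_595.isTranscendenceBasis W.ML) (Finset.univ.image w)).mono fun M h j => ?_)
  exact (h (w j) (by simp)).1

end ev

/-! ## The composition -/

theorem coreBetaPosU (hSat : LSat) (hGeo : LGeo) (hHull : LHull) (hPT : LPerTow) (hEv : LEv)
    (hCY : LCY) (hC1 : LC1) (hC2 : LC2) (hC4 : LC4) (hTCh : LTCh) (hFlat : LFlat)
    (hComp : LComp) :
    ∀ (K : Type) [Field K] [Algebra ℂ K] (L : IntermediateField ℂ K), FGF ℂ K →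
    (∀ a : K, IsAlgebraic L a → a ∈ L) →
    Honest ℂ K → Honest ℂ L → UHon L K →
    ∀ (r m : ℕ), 0 < r → 0 < m → ∀ (_ : Module.Basis (Fin r) K (Ω[K⁄L]))
      (_ : Module.Basis (Fin m) L (Ω[L⁄ℂ])),
    ∀ d e : ℕ, KapGeS L K d → KapGeS ℂ L e → KapGeF ℂ K (d + e) := by
  intro K _ _ L hfg hac hK hL hU r m hr hm bK bL d e hd he
  have hS : Setup L K := ⟨hfg, fun a ha => ⟨⟨a, hac a ha⟩, rfl⟩, hK, hL, hU⟩
  obtain ⟨z, hz⟩ := Triv_63.exists_tb bL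
  obtain ⟨x, hx⟩ := Triv_63.exists_tb bK
  obtain ⟨m₁, hm₁, f, hf, hfi⟩ := (FKB0_143.kapGeS_iff (kbasis hx) d).1 hd
  -- the weight `N = 4 m₁`
  have hf0 : f 0 ≠ 0 := (hf 0).1
  have hg : ∀ i, PluriS L (kbasis hx) (m₁ + (m₁ + (m₁ + m₁))) (f i * (f 0 * (f 0 * f 0))) := fun i =>
    pluriS_mul (hf i).2 (pluriS_mul (hf 0).2 (pluriS_mul (hf 0).2 (hf 0).2))
  have hP : ∀ i, Pluri L (kbasis hx) (m₁ + (m₁ + (m₁ + m₁))) (f i * (f 0 * (f 0 * f 0))) :=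
    fun i R hR => hg i R hR.alg
  generalize hN : m₁ + (m₁ + (m₁ + m₁)) = N at hP
  have hNe : Even N := ⟨m₁ + m₁, by omega⟩
  have hN4 : 4 ≤ N := by omega
  obtain ⟨R, s, σ, hσ, -, hRx, hsat, hspan⟩ := hSat L K m r hS hm hr z x hz hx N hNe hN4
    ⟨_, mul_ne_zero hf0 (mul_ne_zero hf0 (mul_ne_zero hf0 hf0)), hP 0⟩
  obtain ⟨R₁, hc₁, hX₁⟩ := hGeo L K m r hS hm hr R N s σ hσ hsat hspan
  obtain ⟨X₂, hX₂⟩ := hHull L K m r R₁ N s σ hm hX₁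
  obtain ⟨T, ρ, a, W, hma, hT, hWx, hEvW⟩ := hPT L K m r hS hm hr R₁ N s σ X₂ hX₂
  subst hma
  have htb : IsTranscendenceBasis ℂ W.ML.zK := Cmp_595.isTranscendenceBasis W.ML
  obtain ⟨e₀, he₀, w, hw, hwi⟩ := (FKB0_143.kapGeS_iff (kbasis htb) e).1 he
  obtain ⟨s₁, hs₁, p₁, hp₁, c₁', hc₁', hQ⟩ := (hEvW.and ((ev_mem W w).and (ev_coord W))).exists
  generalize hW₁ : W.shrink c₁' hc₁' p₁ hp₁ s₁ hs₁ = W₁ at hQ
  obtain ⟨⟨H₁, H₂, hcn₁, hcn₂, X', hX'h, hX'a⟩, hwm, hzL, hzK⟩ := hQ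
  have hspan₁ : SpanV W₁.LK N σ := by
    intro b hb v
    apply hspan b
    intro j
    rw [hb j]
    congr 1
    calc W₁.LK.MK.zK (Fin.natAdd (ρ + a) j) = W.MK.zK (Fin.natAdd (ρ + a) j) := congrFun hzK _
      _ = R₁.MK.zK (Fin.natAdd (ρ + a) j) := hWx j
      _ = R.MK.zK (Fin.natAdd (ρ + a) j) := hc₁.x_eq j
  have hOK : TowOK W₁ N d e₀ σ w :=
    { N_even := hNe
      N_ge := hN4
      s_pos := X'.sat.s_pos
      e₀_pos := he₀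
      r_pos := hr
      m_pos := hm
      setup := hS
      acT := fun b hb => ⟨⟨b, hT b hb⟩, rfl⟩
      H₁ := H₁
      H₂ := H₂
      conn₁ := hcn₁
      conn₂ := hcn₂
      span := hspan₁
      ind := by
        refine ⟨fun i => f i * (f 0 * (f 0 * f 0)),
          mul_ne_zero hf0 (mul_ne_zero hf0 (mul_ne_zero hf0 hf0)), fun i => ?_, ?_⟩
        · exact (hspan (kbasis hx) (fun j => by rw [FKB0_143.kbasis_apply, hRx]) _).1 (hP i)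
        · have h1 : (fun i : Fin d => f i.succ * (f 0 * (f 0 * f 0)) / (f 0 * (f 0 * (f 0 * f 0))))
              = fun i : Fin d => f i.succ / f 0 := by
            funext i
            rw [mul_div_mul_right _ _ (mul_ne_zero hf0 (mul_ne_zero hf0 hf0))]
          rw [h1]
          exact hfi
      geo := ⟨X', hX'h, hX'a⟩
      wmem := hwm
      wreg := by
        intro b hb j
        have h1 : b = kbasis htb := Module.Basis.eq_of_apply_eq fun i => by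
          rw [hb i, FKB0_143.kbasis_apply, hzL]
        rw [h1]
        exact (hw j).2
      w0 := (hw 0).1
      wind := hwi }
  obtain ⟨ε₀, hε₀, h1⟩ := hC1 _ _ _ _ _ _ W₁ N d e e₀ s σ w hOK
  obtain ⟨q, hq⟩ := exists_nat_gt (1 / ε₀)
  have hq0 : (0 : ℝ) < q := lt_trans (by positivity) hq
  have hqn : 0 < q := by exact_mod_cast hq0
  have hqε : 1 / (q : ℝ) < ε₀ := by
    rw [div_lt_iff₀ hq0]
    rw [div_lt_iff₀ hε₀] at hq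
    linarith
  obtain ⟨s₂, hs₂, p₂, hp₂, c₂, hc₂, hQ₂⟩ := ((hEv _ _ _ _ _ _ W₁ N d e e₀ s σ w hOK).and
    (h1.and ((hC2 _ _ _ _ _ _ W₁ N d e e₀ s σ w hOK).and
    ((hC4 _ _ _ _ _ _ W₁ N d e e₀ s σ w hOK).and
      (hTCh _ _ _ _ _ _ W₁ N d e e₀ s σ w hOK))))).exists
  generalize hW₂ : W₁.shrink c₂ hc₂ p₂ hp₂ s₂ hs₂ = W₂ at hQ₂
  obtain ⟨hOK₂, h1', h2', h4', ht'⟩ := hQ₂
  obtain ⟨K₁, K₂, hσ₂, hw₂, hc1, hsko⟩ := h1' q hqn hqε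
  obtain ⟨_, _, _, _, hc2⟩ := h2'
  obtain ⟨_, _, _, _, hc4⟩ := h4'
  obtain ⟨_, _, _, _, htch⟩ := ht'
  obtain ⟨_, _, _, _, hcy⟩ := hCY _ _ _ _ _ _ W₂ N d e e₀ s σ w hOK₂
  have hε : (0 : ℝ) < 1 / (q : ℝ) := by positivity
  obtain ⟨_, _, _, _, hflat⟩ := hFlat _ _ _ _ _ _ W₂ N d e e₀ s σ w hOK₂ (1 / (q : ℝ)) hε
    ⟨K₁, K₂, hσ₂, hw₂, hsko⟩
  have htb₂ : IsTranscendenceBasis ℂ W₂.ML.zK := Cmp_595.isTranscendenceBasis W₂.ML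
  have hreg := hOK₂.wreg (kbasis htb₂) (fun j => FKB0_143.kbasis_apply htb₂ j)
  have hc3 : C3 K₁ K₂ (fun j => (⟨w j, hw₂ j⟩ : W₂.ML.B)) e₀ :=
    WPack_505.c3 (H₁ := K₁) (H₂ := K₂) _ (kbasis htb₂)
      (fun j => FKB0_143.kbasis_apply htb₂ j) hreg
  have hcj : CJ W₂.ML (fun j => (⟨w j, hw₂ j⟩ : W₂.ML.B)) e₀ :=
    CJ_505.cj _ he₀ (kbasis htb₂) (fun j => FKB0_143.kbasis_apply htb₂ j) _ hreg
  have hci : CInd K₁ (fun j => (⟨w j, hw₂ j⟩ : W₂.ML.B)) :=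
    CInd_534.cInd K₁ _ (fun h => hOK₂.w0 (congrArg Subtype.val h)) hOK₂.wind
  exact hComp _ _ _ _ _ _ N s e₀ d e W₂.MT W₂.ML W₂.MK K₁ K₂ _ _ _ (1 / (q : ℝ)) hfg
    (by omega) hOK₂.s_pos he₀ hε hcy hOK₂.conn₁ hOK₂.conn₂ htch hc1 hc2 hc3 hc4 hflat hcj hci
    (CInd_534.cNz K₁)

end Crest.Agent.R276.Skel_220
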