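import Crest.Agent.R276.SkelGeo_220
import Crest.Agent.R276.RestrE_236
import Crest.Agent.R276.CmpB_595

/-!
# Row 276 (helper220): transport of `GeoD` along `Cmp`

* `ident` : identity theorem on open preconnected subsets of a Riemann domain;
* `germ_tr` : if a matrix kills the germ of the section `om` at `x` (in the flat frame at `x`) then it
  kills all its translates;
* `GeoD.hull_of_germ`, `GeoD.tr`.
-/

set_option autoImplicit false

open Set Filter Topology MeasureTheory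
open scoped ENNReal

noncomputable section

namespace Crest.Agent.R276.SkelGeo_220

open Crest.Agent.R271 Crest.Agent.R271.Defs710 Crest.Agent.R271.Rd692 Crest.Agent.R271.Ho51
open Crest.Agent.R276.Mod1_987 Crest.Agent.R276.Ipc735
open Crest.Agent.R276.CmpR_652 (Cmp)
open Crest.Agent.R276.FlatDefs_236 (SatFam DN)
open Crest.Agent.R276.VLevi_327 (CYL hn thV)
open Crest.Agent.R276.Tr_617 (Tr mon Gd)
open Crest.Agent.R276.VPull_327
open Crest.Agent.R276.Par_425 (Dv holAt_congr ndc_self)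
open Crest.Agent.R276.Restr_236 (cmpMap resU cp_cmp)

section germ

variable {m N w : ℕ} {X : Type*} [TopologicalSpace X] [RDom m X]

/-- **identity theorem** on an open preconnected set -/
theorem ident {G : Type*} [NormedAddCommGroup G] [NormedSpace ℂ G] [CompleteSpace G] {U : Set X}
    (hU : IsOpen U) (hc : IsPreconnected U) {F : X → G} (hF : ∀ y ∈ U, HolAt F y) {x₀ : X}
    (hx₀ : x₀ ∈ U) (h0 : ∀ᶠ y in 𝓝 x₀, F y = 0) {y : X} (hy : y ∈ U) : ∀ᶠ y' in 𝓝 y, F y' = 0 := by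
  set S : Set X := {y | ∀ᶠ x in 𝓝 y, F x = 0} with hS
  have hSo : IsOpen S := isOpen_setOfPred_eventually_nhds
  refine hc.subset_of_closure_inter_subset hSo ⟨x₀, hx₀, h0⟩ ?_ hy
  rintro z ⟨hzS, hzU⟩
  set e := ch z with he_def
  have he : IsCh e := isCh_ch z
  have hze : z ∈ e.source := mem_ch z
  have han : ∀ᶠ p in 𝓝 (cp z), AnalyticAt ℂ (F ∘ e.symm) p :=
    AnalyticAt.eventually_analyticAt (hF z hzU)
  obtain ⟨δ, hδ, hball⟩ := Metric.mem_nhds_iff.1
    (inter_mem han (e.open_target.mem_nhds (he.cp_mem hze)))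
  have hW : e.source ∩ cp ⁻¹' (Metric.ball (cp z) δ) ∈ 𝓝 z :=
    inter_mem (e.open_source.mem_nhds hze)
      ((cp_cont (M := X)).continuousAt.preimage_mem_nhds (Metric.ball_mem_nhds _ hδ))
  obtain ⟨x, hx, hxS⟩ := mem_closure_iff_nhds.1 hzS _ hW
  have hx1 : x ∈ e.source := hx.1
  have hx2 : (cp x : Fin m → ℂ) ∈ Metric.ball (cp z) δ := hx.2
  have h1 : (F ∘ e.symm) =ᶠ[𝓝 (cp x)] 0 := by
    have h2 : Tendsto e.symm (𝓝 (cp x)) (𝓝 x) := by
      have h3 := e.symm.continuousAt (x := cp x) (by simpa using he.cp_mem hx1)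
      rwa [ContinuousAt, he.symm_cp hx1] at h3
    filter_upwards [h2.eventually hxS] with p hp
    exact hp
  have h2 : EqOn (F ∘ e.symm) 0 (Metric.ball (cp z) δ) :=
    AnalyticOnNhd.eqOn_zero_of_preconnected_of_eventuallyEq_zero
      (fun p hp => (hball hp).1) (convex_ball _ _).isPreconnected hx2 h1
  change ∀ᶠ x in 𝓝 z, F x = 0
  filter_upwards [hW] with y hy
  have h3 := h2 hy.2
  simp only [Function.comp, Pi.zero_apply] at h3
  rwa [he.symm_cp hy.1] at h3

/-- a matrix which kills the germ of `om` at `x` kills all translates -/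
theorem germ_tr {P : X → X → GL (Fin N) ℤ} (hP : NDC P) {om : X → Fin N → ℂ}
    (hom : ∀ z, HolAt (lV P om z) z) {x z : X} {g : GL (Fin N) ℤ} (h : Tr P x z g)
    {A : Matrix (Fin N) (Fin N) ℂ}
    (hA : ∀ᶠ y in 𝓝 x, Matrix.mulVec A (lV P om x y) = 0) :
    ∀ᶠ y in 𝓝 z, Matrix.mulVec A (Matrix.mulVec (cm g) (lV P om z y)) = 0 := by
  induction h generalizing A with
  | refl x =>
    filter_upwards [hA] with y hy
    rw [cm_one, Matrix.one_mulVec]
    exact hy
  | @step x y z g U hU hx hy _ ih =>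
    -- the function on `U`
    have hF : ∀ p ∈ U, HolAt (fun q => Matrix.mulVec A (Matrix.mulVec (cm (P x q)) (om q))) p := by
      intro p hp
      have h1 : HolAt (fun q => Matrix.mulVec (A * cm (P x p)) (lV P om p q)) p := by
        have h4 : AnalyticAt ℂ (fun v : Fin N → ℂ => Matrix.mulVec (A * cm (P x p)) v)
            ((lV P om p ∘ (ch p).symm) (cp p)) :=
          (LinearMap.toContinuousLinearMap (Matrix.mulVecLin (A * cm (P x p)))).analyticAt _
        exact h4.comp (hom p)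
      refine holAt_congr ?_ h1
      filter_upwards [hU.op.mem_nhds hp] with q hq
      unfold lV
      rw [Matrix.mulVec_mulVec, Matrix.mulVec_mulVec, Matrix.mul_assoc, ← cm_mul,
        hU.mul x hx p hp q hq]
    have h0 : ∀ᶠ q in 𝓝 y, Matrix.mulVec A (Matrix.mulVec (cm (P x q)) (om q)) = 0 :=
      ident hU.op hU.pc hF hx (hA.mono fun q hq => hq) hy
    have h1 : ∀ᶠ q in 𝓝 y, Matrix.mulVec (A * cm (P x y)) (lV P om y q) = 0 := by
      filter_upwards [h0, hU.op.mem_nhds hy] with q hq hqU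
      unfold lV
      rw [Matrix.mulVec_mulVec, Matrix.mul_assoc, ← cm_mul, hU.mul x hx y hy q hqU,
        ← Matrix.mulVec_mulVec]
      exact hq
    filter_upwards [ih h1] with q hq
    rw [← hq, Matrix.mulVec_mulVec, Matrix.mulVec_mulVec, cm_mul, Matrix.mul_assoc]

/-- the value version -/
theorem germ_tr' {P : X → X → GL (Fin N) ℤ} (hP : NDC P) {om : X → Fin N → ℂ}
    (hom : ∀ z, HolAt (lV P om z) z) {x z : X} {g : GL (Fin N) ℤ} (h : Tr P x z g)
    {A : Matrix (Fin N) (Fin N) ℂ}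
    (hA : ∀ᶠ y in 𝓝 x, Matrix.mulVec A (lV P om x y) = 0) :
    Matrix.mulVec A (Matrix.mulVec (cm g) (om z)) = 0 := by
  have h1 := (germ_tr hP hom h hA).self_of_nhds
  unfold lV at h1
  rwa [ndc_self hP, cm_one, Matrix.one_mulVec] at h1

/-- a monodromy which is scalar on the germ of `om` is scalar on all translates -/
theorem scalar_tr {P : X → X → GL (Fin N) ℤ} (hP : NDC P) {om : X → Fin N → ℂ}
    (hom : ∀ z, HolAt (lV P om z) z) {x : X} {T : GL (Fin N) ℤ} {ζ : ℂ}
    (hT : ∀ᶠ y in 𝓝 x, Matrix.mulVec (cm T) (lV P om x y) = ζ • lV P om x y)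
    (y : X) (g : GL (Fin N) ℤ) (h : Tr P x y g) :
    Matrix.mulVec (cm T) (Matrix.mulVec (cm g) (om y)) = ζ • Matrix.mulVec (cm g) (om y) := by
  have h1 := germ_tr' hP hom h (A := cm T - ζ • (1 : Matrix (Fin N) (Fin N) ℂ)) (by
    filter_upwards [hT] with q hq
    rw [Matrix.sub_mulVec, hq, Matrix.smul_mulVec, Matrix.one_mulVec, sub_self])
  rw [Matrix.sub_mulVec, Matrix.smul_mulVec, Matrix.one_mulVec, sub_eq_zero] at h1
  exact h1

end germ

section tr

variable {L K : Type} [Field L] [Field K] [Algebra ℂ L] [Algebra ℂ K] [Algebra L K]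
  [IsScalarTower ℂ L K] {m r : ℕ} {R R' : RMdl L K m r} {N s : ℕ} {σ : Fin s → K}

/-- the germ form of (HULL) -/
theorem GeoD.hull_germ {X : GeoD R N σ} (h : X.Hull) : ∃ e : ℕ, 0 < e ∧
    ∀ (x : R.ML.Pts) (g : GL (Fin X.n) ℤ), g ∈ mon X.V.P x → ∀ ζ : ℂ,
    (∀ᶠ y in 𝓝 x, Matrix.mulVec (cm g) (lV X.V.P X.om x y) = ζ • lV X.V.P X.om x y) →
    cm g * X.V.E x = X.V.E x * cm g ∧ g ^ e = 1 := by
  obtain ⟨e, he, h⟩ := h
  exact ⟨e, he, fun x g hg ζ hζ => h x g hg ζ fun y k hk =>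
    scalar_tr X.V.ndc X.cyl.hol hζ y k hk⟩

/-- the map of the bases is a morphism -/
theorem hMap_rL (h : Cmp R R') : HMap h.rL := Cmp_595.hMap_rs h.locL

/-- `GeoD` on a finer model -/
def GeoD.pull (X : GeoD R N σ) (h : Cmp R R') (hs : ∀ w, Nonempty (R'.Fib w)) : GeoD R' N σ where
  mem i := h.leK (X.mem i)
  sat := X.sat.cmp h hs
  n := X.n
  wt := X.wt
  V := VPull_327.pull X.V (hMap_rL h)
  om z := X.om (h.rL z)
  cyl :=
    { hol := fun z => holAt_pull X.V (hMap_rL h) (X.cyl.hol (h.rL z))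
      eig := fun z => X.cyl.eig (h.rL z)
      ne := fun z => X.cyl.ne (h.rL z)
      par := by
        intro z k
        choose c hc using fun l => X.cyl.par (h.rL z) l
        refine ⟨∑ l, J h.rL z k l * c l, ?_⟩
        have h1 := Restr_236.Dv_pull X.V (hMap_rL h) (X.cyl.hol (h.rL z)) k
        change Dv (VPull_327.pull X.V (hMap_rL h)).P (fun y => X.om (h.rL y)) k z = _
        rw [h1, dM_pull_E, Finset.sum_smul, Matrix.sum_mulVec, ← Finset.sum_add_distrib]
        refine Finset.sum_congr rfl fun l _ => ?_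
        have h2 : Dv X.V.P X.om l (h.rL z) =
            Matrix.mulVec (dM X.V.P X.V.E l (h.rL z)) (X.om (h.rL z)) + c l • X.om (h.rL z) := hc l
        rw [h2, smul_add, Matrix.smul_mulVec, smul_smul] }
  c := X.c
  c_pos := X.c_pos
  nrm z := by
    have h1 := X.nrm (h.rL z)
    have h2 : DR R' N (fr R' σ fun i => h.leK (X.mem i)) z = DR R N (fr R σ X.mem) (h.rL z) := by
      unfold DR
      exact congrArg ENNReal.toReal ((cp_cmp h hs (fr R σ X.mem)).dn N z)
    rw [h2]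
    exact h1

theorem sum_pi {m' : ℕ} (F : (Fin m → ℂ) →L[ℂ] (Fin m' → ℂ)) (v : Fin m → ℂ) (l : Fin m') :
    F v l = ∑ k, v k * F (Pi.single k 1) l := by
  have h1 : v = ∑ k, v k • (Pi.single k (1 : ℂ) : Fin m → ℂ) := by
    funext i
    rw [Finset.sum_apply]
    simp [Pi.single_apply]
  conv_lhs => rw [h1]
  rw [map_sum, Finset.sum_apply]
  refine Finset.sum_congr rfl fun k _ => ?_
  rw [map_smul, Pi.smul_apply, smul_eq_mul]

theorem thV_pull {n : ℕ} {w : ℕ} {Y X : Type*} [TopologicalSpace Y] [RDom r Y]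
    [TopologicalSpace X] [RDom m X] (V : VHS m X n w) {φ : Y → X} (hφ : HMap φ) (z : Y)
    (v : Fin r → ℂ) : thV (VPull_327.pull V hφ) z v = thV V (φ z) (jac φ z v) := by
  unfold Crest.Agent.R276.VLevi_327.thV
  have h1 : ∀ k, v k • dM (VPull_327.pull V hφ).P (VPull_327.pull V hφ).E k z =
      ∑ l, (v k * J φ z k l) • dM V.P V.E l (φ z) := by
    intro k
    rw [dM_pull_E, Finset.smul_sum]
    exact Finset.sum_congr rfl fun l _ => smul_smul _ _ _
  rw [Finset.sum_congr rfl fun k _ => h1 k, Finset.sum_comm]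
  refine Finset.sum_congr rfl fun l _ => ?_
  rw [← Finset.sum_smul, sum_pi (jac φ z) v l]
  rfl

/-- **transport of (HULL)** -/
theorem GeoD.pull_hull (X : GeoD R N σ) (h : Cmp R R') (hs : ∀ w, Nonempty (R'.Fib w))
    (hX : X.Hull) : (X.pull h hs).Hull := by
  have : LocallyConnectedSpace R.ML.Pts := Tr_617.rdom_lc (m := m)
  have : LocallyConnectedSpace R'.ML.Pts := Tr_617.rdom_lc (m := m)
  obtain ⟨e, he, hH⟩ := X.hull_germ hX
  refine ⟨e, he, fun x g hg ζ hζ => ?_⟩
  have hcont : Continuous h.rL := h.continuous_rL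
  have hemb : Topology.IsOpenEmbedding h.rL := Cmp_595.isOpenEmbedding_rs h.locL
  have hg' : g ∈ mon X.V.P (h.rL x) := Tr_617.mon_comp X.V.ndc hcont x hg
  refine hH (h.rL x) g hg' ζ ?_
  rw [← hemb.map_nhds_eq x, eventually_map]
  filter_upwards [Tr_617.tr_near (X.pull h hs).V.ndc x] with y hy
  exact hζ y _ hy.1

/-- **transport of `GeoD`** -/
theorem GeoD.tr (X : GeoD R N σ) (h : Cmp R R') (hs : ∀ w, Nonempty (R'.Fib w)) :
    ∃ X' : GeoD R' N σ, (X.Hull → X'.Hull) ∧
      ∀ z v, thV X'.V z v = 0 ↔ thV X.V (h.rL z) (jac h.rL z v) = 0 := by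
  refine ⟨X.pull h hs, X.pull_hull h hs, fun z v => ?_⟩
  have h1 : thV (VPull_327.pull X.V (hMap_rL h)) z v = thV X.V (h.rL z) (jac h.rL z v) :=
    thV_pull X.V (hMap_rL h) z v
  rw [← h1]
  exact Iff.rfl

end tr

end Crest.Agent.R276.SkelGeo_220
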