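import Mathlib
import Crest.Agent.R276.CompA_849
import Crest.Agent.R276.RestrF_236
import Crest.Agent.R276.Skel_220
import Crest.Agent.R276.TrG_220

/-!
# Row 276 (S0419), leaf LPerTow (helper849)

`lperTow_of` : `Skel_220.LPerTow` from the transport of `GeoD` along comparisons; `lperTow`.
-/

set_option autoImplicit false
set_option linter.unusedSectionVars false

open Topology Filter Set Matrix

noncomputable section

namespace Crest.Agent.R276.LPerTow_849

open Crest.Agent.R271.Defs710 Crest.Agent.R271.Rd692 Crest.Agent.R271.Ho51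
open Crest.Agent.R276.Mod1_987 Crest.Agent.R276.TowA_849 Crest.Agent.R276.TowB_849
open Crest.Agent.R276.ModPack_849 Crest.Agent.R276.CmpR_652 Crest.Agent.R276.Cmp_595
open Crest.Agent.R276.Ipc735 Crest.Agent.R276.VPull_327 Crest.Agent.R276.PfDer_676
open Crest.Agent.R276.CompA_849 Crest.Agent.R276.SkelGeo_220 Crest.Agent.R276.SkelDefs_220
open Crest.Agent.R276.VLevi_327 (thV)

/-! ### the Higgs field -/

section th

variable {m N w : ℕ} {X : Type*} [TopologicalSpace X] [RDom m X]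

/-- the kernel of `θ` is the kernel of the period metric -/
theorem thV_iff_gP (V : VHS m X N w) (z : X) (v : Fin m → ℂ) :
    thV V z v = 0 ↔ ∀ k, ∑ j, v j * Pd571.gP V z j k = 0 := by
  constructor
  · intro h k
    have h1 : ∑ j, v j * Pd571.gP V z j k = -(thV V z v * Pd571.dMb V.P V.E k z).trace := by
      unfold thV
      rw [Finset.sum_mul, Matrix.trace_sum, ← Finset.sum_neg_distrib]
      refine Finset.sum_congr rfl fun j _ => ?_
      rw [Matrix.smul_mul, Matrix.trace_smul, smul_eq_mul]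
      simp only [Pd571.gP, Matrix.of_apply]
      ring
    rw [h1, h, Matrix.zero_mul, Matrix.trace_zero, neg_zero]
  · intro h
    exact Restr_236.dM_of_gP h

/-- `θ` of a pull back -/
theorem thV_pull {r : ℕ} {Y : Type*} [TopologicalSpace Y] [RDom r Y] (V : VHS m X N w)
    {φ : Y → X} (hφ : HMap φ) (z : Y) (v : Fin r → ℂ) :
    thV (pull V hφ) z v = thV V (φ z) (jac φ z v) := by
  unfold thV
  simp only [dM_pull_E, Finset.smul_sum, smul_smul]
  rw [Finset.sum_comm]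
  refine Finset.sum_congr rfl fun l _ => ?_
  rw [← Finset.sum_smul, jac_apply]

end th

/-- transport of `GeoD` along a comparison (220) -/
def GTr : Prop :=
  ∀ (L K : Type) [Field L] [Field K] [Algebra ℂ L] [Algebra ℂ K] [Algebra L K]
    [IsScalarTower ℂ L K] (m r N s : ℕ) (σ : Fin s → K) (R R' : RMdl L K m r) (X : GeoD R N σ)
    (h : Cmp R R'), (∀ w, Nonempty (R'.Fib w)) →
    ∃ X' : GeoD R' N σ, (X.Hull → X'.Hull) ∧
      ∀ z v, thV X'.V z v = 0 ↔ thV X.V (h.rL z) (jac h.rL z v) = 0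

theorem lperTow_of (hTr : GTr) : Skel_220.LPerTow := by
  intro L K _ _ _ _ _ _ m r hSet hm hr R₀ N s σ X₀ hH₀
  have hLK : BN1_143.AC L K := fun a ha => by
    obtain ⟨c, hc⟩ := hSet.ac a ha
    exact ⟨c, hc⟩
  obtain ⟨s', p, T, hp, hT, htr, hsl⟩ := exists_slp hm X₀.V
  have hne : ∀ w, Nonempty (R₀.Fib w) := fun w => (X₀.sat.conn w).toNonempty
  have hcmp : Cmp R₀ (R₀.shrink p hp 1 one_ne_zero) := Cmp.shrink_self R₀ p hp 1 one_ne_zero
  have hle : Le R₀ (R₀.shrink p hp 1 one_ne_zero) := le_shrink R₀ hp one_ne_zero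
  obtain ⟨X₁, hH₁, hth₁⟩ := hTr L K m r N s σ R₀ _ X₀ hcmp (nonempty_fib_shrink hne p hp)
  replace hH₁ := hH₁ hH₀
  obtain ⟨S, hSs⟩ := hsl (R₀.shrink p hp 1 one_ne_zero).ML hle.zL hle.bL 1 (by
    rw [pow_one]
    exact Dvd.intro_left _ rfl)
  have hS' : ∃ S : Slp (vL hcmp X₀.V) T, S.s = s' := ⟨S, hSs⟩
  obtain ⟨S1, hS1s⟩ := hS'
  clear S hSs
  have hth : ∀ z v, thV X₁.V z v = 0 ↔ thV (vL hcmp X₀.V) z v = 0 := fun z v => by
    rw [hth₁]
    exact (congrArg (fun A => A = 0) (thV_pull X₀.V _ z v)).symm.to_iff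
  have hxeq : ∀ j, (R₀.shrink p hp 1 one_ne_zero).MK.zK (Fin.natAdd m j) =
    R₀.MK.zK (Fin.natAdd m j) := fun j => hcmp.x_eq j
  generalize vL hcmp X₀.V = V₁ at *
  clear hth₁
  generalize (R₀.shrink p hp 1 one_ne_zero) = R₁ at *
  obtain ⟨ρ, a, t, z, hma, ht, -, hz⟩ :=
    exists_coords T (Cmp_595.isTranscendenceBasis R₁.ML)
  have hρ : s'.card = ρ := by
    have h1 := ht.cardinalMk_eq_trdeg
    rw [htr] at h1
    simp only [Cardinal.mk_fin] at h1
    exact (Nat.cast_injective h1).symm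
  have hcard : S1.s.card = ρ := hS1s ▸ hρ
  subst hma
  obtain ⟨W, hW1, hW2, hW3, hW4, hW5⟩ := modpack (ac_of_mem T hT) hLK R₁ ht hz
  refine ⟨T, ρ, a, W, rfl, hT, fun j => (hW3 j).trans (hxeq j), hW5.mono fun W' h => ?_⟩
  obtain ⟨-, hg, hc⟩ := h
  obtain ⟨X', hH', hth'⟩ := hTr L K _ _ N s σ R₁ W'.LK X₁ hc (nonempty_fib hg.surjLK)
  suffices key : ∀ (z : W'.LK.ML.Pts) (v : Fin (ρ + a) → ℂ),
      (∀ i : Fin ρ, v (Fin.castAdd a i) = 0) ↔ thV X'.V z v = 0 from
    ⟨hg.relTL, hg.relLK, hg.conn_relTL, hg.conn_relLK, X', hH' hH₁, key⟩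
  intro z v
  have hca : Fintype.card {i // i ∉ S1.s} = a := by
    rw [Fintype.card_subtype_compl, Fintype.card_fin, Fintype.card_coe, hcard]
    omega
  have ht' : ∀ i k, Df R₁.ML (fun l => (S1.f i l : L)) (W'.LK.ML.zK (Fin.castAdd a k)) = 0 := by
    intro i k
    have h1 : W'.LK.ML.zK (Fin.castAdd a k) ∈ T := by
      have h2 : W'.LK.ML.zK (Fin.castAdd a k) = algebraMap T L (W'.MT.zK k) := W'.zL k
      rw [h2]
      exact (W'.MT.zK k).2
    exact (S1.mem _).mp h1 i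
  have hdet : ∀ y : R₁.ML.Pts,
      ((Pd571.gP V₁ y).submatrix (S1.e.symm ∘ Sum.inr) (S1.e.symm ∘ Sum.inr)).det ≠ 0 := by
    intro y h0
    have := S1.pos y
    rw [h0] at this
    simp at this
  have h3 := Vert_595.vertical_iff_pull V₁ hc.locL S1.e S1.f hca S1.f1 S1.f0 hdet ht' z v
  have h4 := (thV_iff_gP (pull V₁ (hMap_rs hc.locL)) z v).symm
  have h5 := congrArg (fun A => A = 0) (thV_pull V₁ (hMap_rs hc.locL) z v)
  exact h3.trans (h4.trans (h5.to_iff.trans ((hth _ _).symm.trans (hth' z v).symm)))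

/-- **LPerTow** -/
theorem lperTow : Skel_220.LPerTow :=
  lperTow_of fun _ _ _ _ _ _ _ _ _ _ _ _ _ _ _ X h hs => X.tr h hs

end Crest.Agent.R276.LPerTow_849
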