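import Mathlib
import Crest.Agent.R276.DescV_327
import Crest.Agent.R276.LPerTow_849

/-!
# R276, leaf LC4 (helper327): `Fl` and `0 < gdet` from (ADAPT)
-/

set_option autoImplicit false
set_option linter.unusedSectionVars false

noncomputable section

open Set Filter Topology Matrix
open scoped ContDiff ComplexOrder ComplexConjugate
open Crest.Agent.R271.Ho51 Crest.Agent.R276.Ipc735
open Crest.Agent.R276.VLevi_327 Crest.Agent.R276.VPull_327
open Crest.Agent.R276.DescF_327 Crest.Agent.R276.Mod1_987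
open Crest.Agent.R276.SkelGeo_220 Crest.Agent.R276.TowA_849

namespace Crest.Agent.R276.AdF_327

attribute [local instance] Matrix.linftyOpNormedRing Matrix.linftyOpNormedAlgebra

section gen

variable {ρ a N w : ℕ} {X : Type*} [TopologicalSpace X] [RDom (ρ + a) X]
  {V : VHS (ρ + a) X N w}

theorem fl_of_adapt (h : ∀ (z : X) (v : Fin (ρ + a) → ℂ),
    (∀ i : Fin ρ, v (Fin.castAdd a i) = 0) ↔ thV V z v = 0) :
    Fl V (Fin.castAdd a : Fin ρ → Fin (ρ + a)) := by
  intro z j hj
  have h1 := (h z (Pi.single j 1)).1 (fun i => Pi.single_eq_of_ne (hj i) _)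
  unfold thV at h1
  rw [Finset.sum_eq_single j (fun k _ hk => by rw [Pi.single_eq_of_ne hk, zero_smul])
    (fun hn => absurd (Finset.mem_univ j) hn), Pi.single_eq_same, one_smul] at h1
  exact h1

theorem pos_of_adapt (h : ∀ (z : X) (v : Fin (ρ + a) → ℂ),
    (∀ i : Fin ρ, v (Fin.castAdd a i) = 0) ↔ thV V z v = 0) (z : X) :
    0 < gdet V (Fin.castAdd a : Fin ρ → Fin (ρ + a)) z := by
  refine DescV_327.gdet_pos_of ?_
  set g := Pd571.gP V z with hg
  have hps : g.PosSemidef := Pd571.gP_posSemidef _ z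
  refine Matrix.PosDef.of_dotProduct_mulVec_pos (hps.1.submatrix _) ?_
  intro x hx
  set v : Fin (ρ + a) → ℂ := Fin.append x 0 with hv
  have h1 : star x ⬝ᵥ (g.submatrix (Fin.castAdd a : Fin ρ → Fin (ρ + a)) (Fin.castAdd a)) *ᵥ x =
      star v ⬝ᵥ g *ᵥ v := by
    simp only [dotProduct, Matrix.mulVec, Fin.sum_univ_add, Pi.star_apply, hv, Fin.append_left,
      Fin.append_right, Pi.zero_apply, star_zero, zero_mul, mul_zero, Finset.sum_const_zero,
      add_zero, Matrix.submatrix_apply]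
  have h2 := hps.dotProduct_mulVec_nonneg v
  rw [h1]
  refine lt_of_le_of_ne h2 fun h0 => hx ?_
  have h3 : g *ᵥ v = 0 := (hps.dotProduct_mulVec_zero_iff v).mp h0.symm
  have h4 : ∀ k, ∑ j, conj (v j) * g j k = 0 := by
    intro k
    have h5 := congrArg conj (congrFun h3 k)
    rw [Matrix.mulVec, dotProduct, map_sum, Pi.zero_apply, map_zero] at h5
    rw [← h5]
    refine Finset.sum_congr rfl fun j _ => ?_
    rw [map_mul, mul_comm]
    congr 1
    exact (congrFun (congrFun hps.1 j) k).symm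
  have h5 : thV V z (fun j => conj (v j)) = 0 := (LPerTow_849.thV_iff_gP V z _).2 h4
  have h6 := (h z (fun j => conj (v j))).2 h5
  funext i
  have h7 := h6 i
  simp only [hv, Fin.append_left] at h7
  exact (map_eq_zero _).1 h7

end gen

section tower

variable {T L K : Type} [Field T] [Field L] [Field K] [Algebra ℂ T] [Algebra ℂ L] [Algebra ℂ K]
  [Algebra T L] [Algebra L K] [IsScalarTower ℂ T L] [IsScalarTower ℂ L K] {ρ a r : ℕ}
  {W : Tow T L K ρ a r} {N s : ℕ} {σ : Fin s → K}

theorem adapt_fl {X : GeoD W.LK N σ} (h : Adapt X) :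
    Fl X.V (Fin.castAdd a : Fin ρ → Fin (ρ + a)) :=
  fl_of_adapt (X := W.LK.ML.Pts) (V := X.V) h

theorem adapt_pos {X : GeoD W.LK N σ} (h : Adapt X) (z : W.LK.ML.Pts) :
    0 < gdet X.V (Fin.castAdd a : Fin ρ → Fin (ρ + a)) z :=
  pos_of_adapt (X := W.LK.ML.Pts) (V := X.V) h z

end tower

end Crest.Agent.R276.AdF_327
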