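import Mathlib

/-!
# R276 leaf FIN, part A (helper39): functions of finite rank on the line

`RankLE b f`: all `(b+1) x (b+1)` minors of `(x, y) ↦ f (x + y)` vanish.
* `repr_of_rankLE`: the translates of `f` span a finite-dimensional space, explicitly.
* `eq_zero_of_tendsto`: a bounded function of finite rank which tends to `0` at `-∞` is `0`.
* `rankLE_of_sum`: `f (x + y) = ∑ U i x * V i y` gives `RankLE`.
-/

namespace Crest.Agent.R276.FinA_39

open Filter Topology Matrix

/-- All `(b+1) × (b+1)` minors of `(x, y) ↦ f (x + y)` vanish. -/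
def RankLE (b : ℕ) (f : ℝ → ℝ) : Prop :=
  ∀ u v : Fin (b + 1) → ℝ, (Matrix.of fun i j => f (u i + v j)).det = 0

/-- a product through a smaller index set has determinant zero -/
theorem det_mul_eq_zero {K : Type*} [Field K] {m n : ℕ} (h : m < n)
    (A : Matrix (Fin n) (Fin m) K) (B : Matrix (Fin m) (Fin n) K) : (A * B).det = 0 := by
  have hker : LinearMap.ker (Matrix.mulVecLin B) ≠ ⊥ := by
    apply LinearMap.ker_ne_bot_of_finrank_lt
    simpa using h
  obtain ⟨v, hv, hv0⟩ := (Submodule.ne_bot_iff _).1 hker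
  rw [← Matrix.exists_mulVec_eq_zero_iff]
  refine ⟨v, hv0, ?_⟩
  rw [← Matrix.mulVec_mulVec]
  have : B *ᵥ v = 0 := by simpa using hv
  rw [this, Matrix.mulVec_zero]

theorem rankLE_of_sum {b : ℕ} {f : ℝ → ℝ} (U V : Fin b → ℝ → ℝ)
    (h : ∀ x y, f (x + y) = ∑ i, U i x * V i y) : RankLE b f := by
  intro u v
  have : (Matrix.of fun i j => f (u i + v j)) =
      (Matrix.of fun i k => U k (u i)) * (Matrix.of fun k j => V k (v j)) := by
    ext i j
    simp [Matrix.mul_apply, h]
  rw [this]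
  exact det_mul_eq_zero (Nat.lt_succ_self b) _ _

theorem det_zero_of_rankLE {b : ℕ} {f : ℝ → ℝ} (h : RankLE b f) {n : ℕ} (hn : n = b + 1)
    (u v : Fin n → ℝ) : (Matrix.of fun i j => f (u i + v j)).det = 0 := by
  subst hn; exact h u v

/-- The translates of a function of finite rank span a finite-dimensional space; explicit
coefficients which are linear combinations of `f (t + v j)`. -/
theorem repr_of_rankLE {b : ℕ} {f : ℝ → ℝ} (h : RankLE b f) :
    ∃ (r : ℕ) (u v : Fin r → ℝ) (N : Matrix (Fin r) (Fin r) ℝ),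
      ∀ t y, f (t + y) = ∑ i, ∑ j, f (t + v j) * N j i * f (u i + y) := by
  classical
  -- the least `r` such that all `(r+1)`-minors vanish
  have hex : ∃ r, RankLE r f := ⟨b, h⟩
  obtain ⟨r, hr, hmin⟩ : ∃ r, RankLE r f ∧ ∀ s < r, ¬ RankLE s f :=
    ⟨Nat.find hex, Nat.find_spec hex, fun s hs => Nat.find_min hex hs⟩
  have hne : ∃ u v : Fin r → ℝ, (Matrix.of fun i j => f (u i + v j)).det ≠ 0 := by
    rcases Nat.eq_zero_or_pos r with h0 | hpos
    · subst h0
      exact ⟨fun i => 0, fun i => 0, by simp⟩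
    · obtain ⟨s, rfl⟩ : ∃ s, r = s + 1 := ⟨r - 1, by omega⟩
      have := hmin s (Nat.lt_succ_self s)
      unfold RankLE at this
      push Not at this
      exact this
  obtain ⟨u, v, hM⟩ := hne
  set M : Matrix (Fin r) (Fin r) ℝ := Matrix.of fun i j => f (u i + v j) with hMdef
  refine ⟨r, u, v, M⁻¹, fun t y => ?_⟩
  -- bordered determinant
  have hunit : IsUnit M.det := isUnit_iff_ne_zero.2 hM
  letI : Invertible M := Matrix.invertibleOfIsUnitDet M hunit
  let B : Matrix (Fin r) (Fin 1) ℝ := Matrix.of fun i _ => f (u i + y)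
  let C : Matrix (Fin 1) (Fin r) ℝ := Matrix.of fun _ j => f (t + v j)
  let D : Matrix (Fin 1) (Fin 1) ℝ := Matrix.of fun _ _ => f (t + y)
  have hdet : (Matrix.fromBlocks M B C D).det = 0 := by
    have hr' := hr (fun i => Sum.elim u (fun _ : Fin 1 => t) (finSumFinEquiv.symm i))
      (fun j => Sum.elim v (fun _ : Fin 1 => y) (finSumFinEquiv.symm j))
    have hre : (Matrix.of fun i j : Fin (r + 1) =>
        f (Sum.elim u (fun _ : Fin 1 => t) (finSumFinEquiv.symm i) +
          Sum.elim v (fun _ : Fin 1 => y) (finSumFinEquiv.symm j))) =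
        (Matrix.fromBlocks M B C D).submatrix finSumFinEquiv.symm finSumFinEquiv.symm := by
      ext i j
      rcases hi : (finSumFinEquiv.symm i : Fin r ⊕ Fin 1) with i' | i' <;>
      rcases hj : (finSumFinEquiv.symm j : Fin r ⊕ Fin 1) with j' | j' <;>
      simp [hi, hj, B, C, D, M]
    rw [hre, Matrix.det_submatrix_equiv_self] at hr'
    exact hr'
  rw [Matrix.det_fromBlocks₁₁] at hdet
  have hz : (D - C * ⅟M * B).det = 0 := by
    rcases mul_eq_zero.1 hdet with h1 | h1
    · exact absurd h1 hM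
    · exact h1
  rw [Matrix.det_unique] at hz
  have hz' : f (t + y) = (C * ⅟M * B) default default := by
    simpa [D, sub_eq_zero] using hz
  rw [hz', Matrix.mul_apply]
  refine Finset.sum_congr rfl fun i _ => ?_
  rw [Matrix.mul_apply, Finset.sum_mul]
  refine Finset.sum_congr rfl fun j _ => ?_
  simp [B, C, Matrix.invOf_eq_nonsing_inv]

/-- A bounded function of finite rank tending to `0` at `-∞` vanishes identically. -/
theorem eq_zero_of_tendsto {b : ℕ} {g : ℝ → ℝ} (h : RankLE b g) {K : ℝ} (hK : ∀ x, |g x| ≤ K)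
    (hlim : Tendsto g atBot (𝓝 0)) (x : ℝ) : g x = 0 := by
  obtain ⟨r, u, v, N, hrep⟩ := repr_of_rankLE h
  have hlimc : Tendsto (fun t => ∑ i, ∑ j, |g (t + v j)| * |N j i| * K) atBot (𝓝 0) := by
    have : (0 : ℝ) = ∑ i : Fin r, ∑ j : Fin r, |(0 : ℝ)| * |N j i| * K := by simp
    rw [this]
    refine tendsto_finsetSum _ fun i _ => tendsto_finsetSum _ fun j _ => ?_
    refine Tendsto.mul_const _ (Tendsto.mul_const _ (Tendsto.abs ?_))
    exact hlim.comp (tendsto_atBot_add_const_right _ _ tendsto_id)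
  by_contra hx
  have hpos : 0 < |g x| := abs_pos.2 hx
  obtain ⟨t, ht⟩ := ((hlimc.eventually (gt_mem_nhds hpos))).exists
  have h1 : |g x| ≤ ∑ i, ∑ j, |g (t + v j)| * |N j i| * K := by
    have h2 := hrep t (x - t)
    rw [add_sub_cancel] at h2
    rw [h2]
    refine (Finset.abs_sum_le_sum_abs _ _).trans (Finset.sum_le_sum fun i _ => ?_)
    refine (Finset.abs_sum_le_sum_abs _ _).trans (Finset.sum_le_sum fun j _ => ?_)
    rw [abs_mul, abs_mul]
    exact mul_le_mul_of_nonneg_left (hK _) (by positivity)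
  exact absurd h1 (not_le.2 ht)

/-- adding `α + β e^{p x}` keeps finite rank -/
theorem rankLE_sub_exp {b : ℕ} {f : ℝ → ℝ} (h : RankLE b f) (α β p : ℝ) :
    ∃ b', RankLE b' (fun u => α + β * Real.exp (p * u) - f u) := by
  obtain ⟨r, u, v, N, hrep⟩ := repr_of_rankLE h
  refine ⟨r + 1 + 1, rankLE_of_sum
    (Fin.cons (fun _ => α) (Fin.cons (fun x => β * Real.exp (p * x))
      (fun i x => - ∑ j, f (x + v j) * N j i)))
    (Fin.cons (fun _ => 1) (Fin.cons (fun x => Real.exp (p * x)) (fun i y => f (u i + y)))) ?_⟩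
  intro x y
  rw [Fin.sum_univ_succ, Fin.sum_univ_succ]
  simp only [Fin.cons_zero, Fin.cons_succ]
  rw [hrep x y]
  simp only [neg_mul, Finset.sum_neg_distrib, Finset.sum_mul]
  rw [mul_add, Real.exp_add]
  ring

/-- The punch line of FIN in dimension one: `J` of finite rank, squeezed between the two
pure regimes, is impossible. -/
theorem no_gap {b : ℕ} {J : ℝ → ℝ} (h : RankLE b J) {α β p : ℝ} (hp : 0 < p)
    (hlow : ∀ u, 0 ≤ α + β * Real.exp (p * u) - J u)
    (h1 : ∀ u, α + β * Real.exp (p * u) - J u ≤ 2 * α)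
    (h2 : ∀ u, α + β * Real.exp (p * u) - J u ≤ 2 * (β * Real.exp (p * u))) (u : ℝ) :
    J u = α + β * Real.exp (p * u) := by
  obtain ⟨b', hb'⟩ := rankLE_sub_exp h α β p
  have hexp : Tendsto (fun u : ℝ => 2 * (β * Real.exp (p * u))) atBot (𝓝 0) := by
    have : Tendsto (fun u : ℝ => Real.exp (p * u)) atBot (𝓝 0) :=
      Real.tendsto_exp_atBot.comp (Tendsto.const_mul_atBot hp tendsto_id)
    simpa using (this.const_mul β).const_mul 2
  have hlim : Tendsto (fun u => α + β * Real.exp (p * u) - J u) atBot (𝓝 0) :=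
    tendsto_of_tendsto_of_tendsto_of_le_of_le tendsto_const_nhds hexp hlow h2
  have := eq_zero_of_tendsto hb' (K := 2 * α) (fun x => by
    rw [abs_of_nonneg (hlow x)]; exact h1 x) hlim u
  linarith

end Crest.Agent.R276.FinA_39
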