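import Mathlib
import Crest.Agent.R276.FinA_39

/-!
# R276 leaf FIN, part B (helper39): local sesquilinear finite rank implies `RankLE`

If `f (Re z) = ∑ H i j * P i z * conj (P j z)` near one point of every vertical line
(`P i` holomorphic, `H` constant), then `f` is real analytic on `ℝ` and of rank `≤ b`.
-/

namespace Crest.Agent.R276.FinB_39

open Filter Topology Matrix Complex ComplexConjugate Metric
open Crest.Agent.R276.FinA_39

theorem eqOn_of_real {h : ℂ → ℂ} {c ρ : ℝ} (hd : DifferentiableOn ℂ h (ball (c : ℂ) ρ))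
    (hz : ∀ x : ℝ, |x - c| < ρ → h x = 0) : ∀ z ∈ ball (c : ℂ) ρ, h z = 0 := by
  intro z hzm
  have hρ : 0 < ρ := lt_of_le_of_lt dist_nonneg (mem_ball.1 hzm)
  have han : AnalyticOnNhd ℂ h (ball (c : ℂ) ρ) := hd.analyticOnNhd isOpen_ball
  have hfreq : ∃ᶠ w in 𝓝[≠] (c : ℂ), h w = 0 := by
    have ht : Tendsto (fun x : ℝ => (x : ℂ)) (𝓝[≠] c) (𝓝[≠] (c : ℂ)) := by
      apply tendsto_nhdsWithin_of_tendsto_nhds_of_eventually_within
      · exact (Complex.continuous_ofReal.tendsto c).mono_left nhdsWithin_le_nhds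
      · filter_upwards [self_mem_nhdsWithin] with x hx
        simpa using hx
    refine ht.frequently (Eventually.frequently ?_)
    have : ∀ᶠ x : ℝ in 𝓝 c, |x - c| < ρ := by
      have := ball_mem_nhds c hρ
      filter_upwards [this] with x hx
      simpa [Real.dist_eq] using hx
    filter_upwards [nhdsWithin_le_nhds this] with x hx
    exact hz x hx
  exact han.eqOn_zero_of_preconnected_of_frequently_eq_zero
    (convex_ball _ _).isPreconnected (mem_ball_self hρ) hfreq hzm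

/-- the reflected function `w ↦ conj (P (conj w))` -/
noncomputable def refl (P : ℂ → ℂ) (w : ℂ) : ℂ := conj (P (conj w))

theorem refl_differentiableOn {P : ℂ → ℂ} {c δ : ℝ}
    (hP : DifferentiableOn ℂ P (ball (c : ℂ) δ)) :
    DifferentiableOn ℂ (refl P) (ball (c : ℂ) δ) := by
  intro w hw
  have hw' : conj w ∈ ball (c : ℂ) δ := by
    rw [mem_ball, dist_eq_norm] at hw ⊢
    have : conj w - (c : ℂ) = conj (w - c) := by simp
    rw [this, RCLike.norm_conj]
    exact hw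
  have hd : DifferentiableAt ℂ P (conj w) := (hP _ hw').differentiableAt (isOpen_ball.mem_nhds hw')
  have := hd.hasDerivAt.conj_conj
  simp only [Complex.conj_conj] at this
  exact this.differentiableAt.differentiableWithinAt

section polar

variable {b : ℕ} {f : ℝ → ℝ} {t0 δ : ℝ} (P : Fin b → ℂ → ℂ) (H : Matrix (Fin b) (Fin b) ℂ)

/-- the polarised kernel -/
noncomputable def G (X Y : ℂ) : ℂ := ∑ i, ∑ j, H i j * P i (X + I * Y) * refl (P j) (X - I * Y)

variable {P H}

theorem G_real (hf : ∀ z ∈ ball (t0 : ℂ) δ, (f z.re : ℂ) = ∑ i, ∑ j, H i j * P i z * conj (P j z))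
    {x y : ℝ} (h : ((x : ℂ) + I * y) ∈ ball (t0 : ℂ) δ) : G P H x y = f x := by
  have := hf _ h
  simp only [add_re, ofReal_re, mul_re, I_re, zero_mul, I_im, one_mul, ofReal_im, sub_zero,
    add_zero] at this
  rw [this]
  unfold G refl
  refine Finset.sum_congr rfl fun i _ => Finset.sum_congr rfl fun j _ => ?_
  congr 3
  simp

theorem mem1 {X Y : ℂ} (hX : X ∈ ball (t0 : ℂ) (δ / 2)) (hY : Y ∈ ball (0 : ℂ) (δ / 2)) :
    X + I * Y ∈ ball (t0 : ℂ) δ := by
  rw [mem_ball, dist_eq_norm] at *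
  have : X + I * Y - t0 = (X - t0) + I * Y := by ring
  rw [this]
  refine (norm_add_le _ _).trans_lt ?_
  rw [norm_mul, Complex.norm_I, one_mul]
  simp only [sub_zero] at hY
  linarith

theorem mem2 {X Y : ℂ} (hX : X ∈ ball (t0 : ℂ) (δ / 2)) (hY : Y ∈ ball (0 : ℂ) (δ / 2)) :
    X - I * Y ∈ ball (t0 : ℂ) δ := by
  have := mem1 (t0 := t0) hX (Y := -Y) (by simpa using hY)
  simpa [sub_eq_add_neg] using this

theorem G_diff1 (hP : ∀ i, DifferentiableOn ℂ (P i) (ball (t0 : ℂ) δ)) {Y : ℂ}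
    (hY : Y ∈ ball (0 : ℂ) (δ / 2)) :
    DifferentiableOn ℂ (fun X => G P H X Y) (ball (t0 : ℂ) (δ / 2)) := by
  unfold G
  refine DifferentiableOn.fun_sum fun i _ => DifferentiableOn.fun_sum fun j _ => ?_
  refine DifferentiableOn.mul (DifferentiableOn.const_mul ?_ _) ?_
  · exact (hP i).comp (by fun_prop) (fun X hX => mem1 hX hY)
  · exact (refl_differentiableOn (hP j)).comp (by fun_prop) (fun X hX => mem2 hX hY)

theorem G_diff2 (hP : ∀ i, DifferentiableOn ℂ (P i) (ball (t0 : ℂ) δ)) {X : ℂ}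
    (hX : X ∈ ball (t0 : ℂ) (δ / 2)) :
    DifferentiableOn ℂ (fun Y => G P H X Y) (ball ((0 : ℝ) : ℂ) (δ / 2)) := by
  unfold G
  refine DifferentiableOn.fun_sum fun i _ => DifferentiableOn.fun_sum fun j _ => ?_
  refine DifferentiableOn.mul (DifferentiableOn.const_mul ?_ _) ?_
  · exact (hP i).comp (by fun_prop) (fun Y hY => mem1 hX (by simpa using hY))
  · exact (refl_differentiableOn (hP j)).comp (by fun_prop) (fun Y hY => mem2 hX (by simpa using hY))

theorem G_eq (hδ : 0 < δ) (hP : ∀ i, DifferentiableOn ℂ (P i) (ball (t0 : ℂ) δ))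
    (hf : ∀ z ∈ ball (t0 : ℂ) δ, (f z.re : ℂ) = ∑ i, ∑ j, H i j * P i z * conj (P j z))
    {X Y : ℂ} (hX : X ∈ ball (t0 : ℂ) (δ / 2)) (hY : Y ∈ ball (0 : ℂ) (δ / 2)) :
    G P H X Y = G P H X 0 := by
  have h0 : (0 : ℂ) ∈ ball (0 : ℂ) (δ / 2) := mem_ball_self (by linarith)
  -- step 2
  have step2 : ∀ y : ℝ, |y| < δ / 2 → ∀ X ∈ ball (t0 : ℂ) (δ / 2), G P H X y - G P H X 0 = 0 := by
    intro y hy
    have hyb : (y : ℂ) ∈ ball (0 : ℂ) (δ / 2) := by simpa using hy
    refine eqOn_of_real ((G_diff1 hP hyb).sub (G_diff1 hP h0)) fun x hx => ?_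
    have hxb : (x : ℂ) ∈ ball (t0 : ℂ) (δ / 2) := by
      rw [mem_ball, dist_eq_norm, ← ofReal_sub, Complex.norm_real]; exact hx
    have e1 := G_real hf (x := x) (y := y) (mem1 hxb hyb)
    have e2 := G_real hf (x := x) (y := 0) (mem1 hxb (by simpa using h0))
    simp only [ofReal_zero] at e2
    rw [e1, e2, sub_self]
  have := eqOn_of_real (c := 0) (ρ := δ / 2) (h := fun Y => G P H X Y - G P H X 0)
    ((G_diff2 hP hX).sub (differentiableOn_const _)) (fun y hy => by
      simpa using step2 y (by simpa using hy) X hX) Y (by simpa using hY)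
  exact sub_eq_zero.1 this

theorem polar (hδ : 0 < δ) (hP : ∀ i, DifferentiableOn ℂ (P i) (ball (t0 : ℂ) δ))
    (hf : ∀ z ∈ ball (t0 : ℂ) δ, (f z.re : ℂ) = ∑ i, ∑ j, H i j * P i z * conj (P j z))
    {x y : ℝ} (hx : |x - t0| < δ / 2) (hy : |y - t0| < δ / 2) :
    (f ((x + y) / 2) : ℂ) = ∑ i, (∑ j, H j i * P j x) * conj (P i y) := by
  set X : ℂ := (((x + y) / 2 : ℝ) : ℂ) with hXd
  set Y : ℂ := - I * (((x - y) / 2 : ℝ) : ℂ) with hYd
  have hX : X ∈ ball (t0 : ℂ) (δ / 2) := by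
    rw [mem_ball, dist_eq_norm, hXd, ← ofReal_sub, Complex.norm_real, Real.norm_eq_abs]
    rw [abs_lt] at *
    constructor <;> linarith
  have hY : Y ∈ ball (0 : ℂ) (δ / 2) := by
    rw [mem_ball, dist_eq_norm, sub_zero, hYd, norm_mul, norm_neg, Complex.norm_I, one_mul,
      Complex.norm_real, Real.norm_eq_abs]
    rw [abs_lt] at *
    constructor <;> linarith
  have h1 : X + I * Y = x := by
    rw [hXd, hYd]; push_cast; ring_nf; rw [I_sq]; ring
  have h2 : X - I * Y = y := by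
    rw [hXd, hYd]; push_cast; ring_nf; rw [I_sq]; ring
  have h3 : G P H X 0 = f ((x + y) / 2) := by
    have := G_real hf (x := (x + y) / 2) (y := 0) (by
      have := mem1 hX (Y := 0) (mem_ball_self (by linarith))
      simpa [hXd] using this)
    simpa [hXd] using this
  rw [← h3, ← G_eq hδ hP hf hX hY]
  unfold G
  rw [h1, h2, Finset.sum_comm]
  refine Finset.sum_congr rfl fun j _ => ?_
  rw [Finset.sum_mul]
  refine Finset.sum_congr rfl fun i _ => ?_
  simp [refl]

theorem analyticAt_of_local (hδ : 0 < δ) (hP : ∀ i, DifferentiableOn ℂ (P i) (ball (t0 : ℂ) δ))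
    (hf : ∀ z ∈ ball (t0 : ℂ) δ, (f z.re : ℂ) = ∑ i, ∑ j, H i j * P i z * conj (P j z)) :
    AnalyticAt ℝ f t0 := by
  have h0 : (0 : ℂ) ∈ ball (0 : ℂ) (δ / 2) := mem_ball_self (by linarith)
  have hd : DifferentiableOn ℂ (fun X => G P H X 0) (ball (t0 : ℂ) (δ / 2)) := G_diff1 hP h0
  have ha : AnalyticAt ℂ (fun X => G P H X 0) (t0 : ℂ) :=
    hd.analyticAt (ball_mem_nhds _ (by linarith))
  have ha' : AnalyticAt ℝ (fun x : ℝ => (G P H (x : ℂ) 0).re) t0 := by
    have h1 : AnalyticAt ℝ (fun X => G P H X 0) (t0 : ℂ) := ha.restrictScalars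
    have h2 : AnalyticAt ℝ (fun x : ℝ => (x : ℂ)) t0 := Complex.ofRealCLM.analyticAt t0
    have h3 : AnalyticAt ℝ (fun x : ℝ => G P H (x : ℂ) 0) t0 := h1.comp h2
    exact (Complex.reCLM.analyticAt _).comp h3
  refine ha'.congr ?_
  have : ∀ᶠ x : ℝ in 𝓝 t0, |x - t0| < δ / 2 := by
    have := ball_mem_nhds t0 (show 0 < δ / 2 by linarith)
    filter_upwards [this] with x hx
    simpa [Real.dist_eq] using hx
  filter_upwards [this] with x hx
  have hxb : (x : ℂ) ∈ ball (t0 : ℂ) (δ / 2) := by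
    rw [mem_ball, dist_eq_norm, ← ofReal_sub, Complex.norm_real]; exact hx
  have e2 := G_real hf (x := x) (y := 0) (mem1 hxb (by simpa using h0))
  simp only [ofReal_zero] at e2
  simp [e2]

end polar

/-- analytic + locally of rank `≤ b` implies globally of rank `≤ b` -/
theorem rankLE_global {b : ℕ} {f : ℝ → ℝ} (hf : AnalyticOnNhd ℝ f Set.univ) {t0 δ : ℝ}
    (hδ : 0 < δ) (U V : Fin b → ℝ → ℂ)
    (h : ∀ x y, |x - t0| < δ → |y - t0| < δ → (f ((x + y) / 2) : ℂ) = ∑ i, U i x * V i y) :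
    RankLE b f := by
  classical
  set D : ((Fin (b + 1) → ℝ) × (Fin (b + 1) → ℝ)) → ℝ := fun w =>
    (Matrix.of fun i j => f (w.1 i + w.2 j)).det with hD
  have hDan : AnalyticOnNhd ℝ D Set.univ := by
    rw [hD]
    simp only [Matrix.det_apply]
    refine Finset.analyticOnNhd_fun_sum _ fun σ _ => ?_
    refine AnalyticOnNhd.const_smul ?_
    refine Finset.analyticOnNhd_fun_prod _ fun i _ => ?_
    simp only [Matrix.of_apply]
    intro w _
    have hlin : AnalyticAt ℝ (fun w : (Fin (b + 1) → ℝ) × (Fin (b + 1) → ℝ) =>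
        w.1 (σ i) + w.2 i) w := by
      have h1 : AnalyticAt ℝ (fun w : (Fin (b + 1) → ℝ) × (Fin (b + 1) → ℝ) => w.1 (σ i)) w :=
        ((ContinuousLinearMap.proj (R := ℝ) (φ := fun _ : Fin (b + 1) => ℝ) (σ i)).comp
          (ContinuousLinearMap.fst ℝ (Fin (b + 1) → ℝ) (Fin (b + 1) → ℝ))).analyticAt w
      have h2 : AnalyticAt ℝ (fun w : (Fin (b + 1) → ℝ) × (Fin (b + 1) → ℝ) => w.2 i) w :=
        ((ContinuousLinearMap.proj (R := ℝ) (φ := fun _ : Fin (b + 1) => ℝ) i).comp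
          (ContinuousLinearMap.snd ℝ (Fin (b + 1) → ℝ) (Fin (b + 1) → ℝ))).analyticAt w
      exact h1.add h2
    exact (hf _ (Set.mem_univ _)).comp hlin
  set w0 : (Fin (b + 1) → ℝ) × (Fin (b + 1) → ℝ) := (fun _ => t0 / 2, fun _ => t0 / 2) with hw0
  have hev : D =ᶠ[𝓝 w0] 0 := by
    have hball := ball_mem_nhds w0 (show 0 < δ / 2 by linarith)
    filter_upwards [hball] with w hw
    have hw1 : ∀ i, |2 * w.1 i - t0| < δ := by
      intro i
      have : dist w.1 w0.1 < δ / 2 := lt_of_le_of_lt (le_max_left _ _) hw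
      have := lt_of_le_of_lt (dist_le_pi_dist w.1 w0.1 i) this
      rw [Real.dist_eq] at this
      simp only [hw0] at this
      rw [abs_lt] at *
      constructor <;> linarith
    have hw2 : ∀ i, |2 * w.2 i - t0| < δ := by
      intro i
      have : dist w.2 w0.2 < δ / 2 := lt_of_le_of_lt (le_max_right _ _) hw
      have := lt_of_le_of_lt (dist_le_pi_dist w.2 w0.2 i) this
      rw [Real.dist_eq] at this
      simp only [hw0] at this
      rw [abs_lt] at *
      constructor <;> linarith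
    have hc : ((D w : ℝ) : ℂ) = 0 := by
      have e1 : ((D w : ℝ) : ℂ) =
          ((Matrix.of fun i j => f (w.1 i + w.2 j)).map (Complex.ofRealHom)).det := by
        rw [hD]
        exact (RingHom.map_det Complex.ofRealHom _)
      rw [e1]
      have e2 : ((Matrix.of fun i j => f (w.1 i + w.2 j)).map (Complex.ofRealHom)) =
          (Matrix.of fun i k => U k (2 * w.1 i)) * (Matrix.of fun k j => V k (2 * w.2 j)) := by
        ext i j
        simp only [Matrix.map_apply, Matrix.of_apply, Matrix.mul_apply, Complex.ofRealHom_eq_coe]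
        rw [← h _ _ (hw1 i) (hw2 j)]
        congr 2
        ring
      rw [e2]
      exact det_mul_eq_zero (Nat.lt_succ_self b) _ _
    simpa using hc
  have := hDan.eqOn_zero_of_preconnected_of_eventuallyEq_zero isPreconnected_univ
    (Set.mem_univ w0) hev
  intro u v
  exact this (Set.mem_univ (u, v))

/-- Main result of this file. -/
theorem rankLE_of_vertical {b : ℕ} {f : ℝ → ℝ}
    (h : ∀ t0 : ℝ, ∃ (θ δ : ℝ) (P : Fin b → ℂ → ℂ) (H : Matrix (Fin b) (Fin b) ℂ), 0 < δ ∧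
      (∀ i, DifferentiableOn ℂ (P i) (ball ((t0 : ℂ) + I * θ) δ)) ∧
      ∀ z ∈ ball ((t0 : ℂ) + I * θ) δ, (f z.re : ℂ) = ∑ i, ∑ j, H i j * P i z * conj (P j z)) :
    RankLE b f := by
  have h' : ∀ t0 : ℝ, ∃ (δ : ℝ) (P : Fin b → ℂ → ℂ) (H : Matrix (Fin b) (Fin b) ℂ), 0 < δ ∧
      (∀ i, DifferentiableOn ℂ (P i) (ball (t0 : ℂ) δ)) ∧
      ∀ z ∈ ball (t0 : ℂ) δ, (f z.re : ℂ) = ∑ i, ∑ j, H i j * P i z * conj (P j z) := by
    intro t0
    obtain ⟨θ, δ, P, H, hδ, hP, hf⟩ := h t0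
    have hmem : ∀ z ∈ ball (t0 : ℂ) δ, z + I * θ ∈ ball ((t0 : ℂ) + I * θ) δ := by
      intro z hz
      rw [mem_ball, dist_eq_norm] at *
      simpa using hz
    refine ⟨δ, fun i z => P i (z + I * θ), H, hδ, fun i => ?_, fun z hz => ?_⟩
    · exact (hP i).comp (by fun_prop) hmem
    · have := hf _ (hmem z hz)
      simpa using this
  obtain ⟨δ, P, H, hδ, hP, hf⟩ := h' 0
  refine rankLE_global (t0 := 0) (δ := δ / 2) (fun t0 _ => ?_) (by linarith)
    (fun i x => ∑ j, H j i * P j x) (fun i y => conj (P i y)) (fun x y hx hy => ?_)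
  · obtain ⟨δ, P, H, hδ, hP, hf⟩ := h' t0
    exact analyticAt_of_local hδ hP hf
  · exact polar hδ hP hf hx hy

end Crest.Agent.R276.FinB_39
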