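import Mathlib
import Crest.Agent.R276.FinB_39

/-!
# R276 leaf FIN, part C (helper39): one-parameter groups preserving a `p`-norm of finite rank

`V` finite-dimensional complex space, `Φ : V → ℝ` a "p-norm" (`FinNorm`), locally
`Φ = ∑ H i j * P i * conj (P j)` with holomorphic `P i` on `{Q ≠ 0}` (`LocRank`).
Then a one-parameter group `exp (θ B)` preserving `Φ` has no two eigenvectors with
different eigenvalues (`no_two_eigenvalues`).
-/

namespace Crest.Agent.R276.FinC_39

open Filter Topology Matrix Complex ComplexConjugate Metric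
open Crest.Agent.R276.FinA_39 Crest.Agent.R276.FinB_39

variable {V : Type*} [NormedAddCommGroup V] [NormedSpace ℂ V] [FiniteDimensional ℂ V]

/-- `Φ` is locally of finite rank `b` at the points where `Q ≠ 0`. -/
def LocRank (b : ℕ) (Φ : V → ℝ) (Q : V → ℂ) : Prop :=
  ∀ σ, Q σ ≠ 0 → ∃ (δ : ℝ) (P : Fin b → V → ℂ) (H : Matrix (Fin b) (Fin b) ℂ), 0 < δ ∧
    (∀ i, DifferentiableOn ℂ (P i) (ball σ δ)) ∧
    ∀ τ ∈ ball σ δ, (Φ τ : ℂ) = ∑ i, ∑ j, H i j * P i τ * conj (P j τ)

/-- the abstract properties of `Φ σ = ∫ |σ|^p`, `0 < p ≤ 1` -/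
structure FinNorm (p : ℝ) (Φ : V → ℝ) : Prop where
  hp : 0 < p
  cont : Continuous Φ
  hom : ∀ (c : ℂ) σ, Φ (c • σ) = ‖c‖ ^ p * Φ σ
  sub : ∀ a b, Φ (a + b) ≤ Φ a + Φ b
  strict : ∀ a b, a ≠ 0 → b ≠ 0 → Φ (a + b) + Φ (a - b) < 2 * (Φ a + Φ b)
  pos : ∀ a, a ≠ 0 → 0 < Φ a

section flow

variable (B : V →L[ℂ] V)

/-- the complex flow of `-i B` -/
noncomputable def flow (z : ℂ) : V →L[ℂ] V := NormedSpace.exp ((-I * z) • B)

theorem flow_zero : flow B 0 = 1 := by simp [flow]

theorem flow_add (z w : ℂ) : flow B (z + w) = flow B z * flow B w := by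
  have hc : Commute ((-I * z) • B) ((-I * w) • B) :=
    ((Commute.refl B).smul_left _).smul_right _
  unfold flow
  rw [mul_add, add_smul]
  haveI := FiniteDimensional.complete ℂ V
  exact NormedSpace.exp_add_of_commute_of_mem_ball (𝕂 := ℂ) (𝔸 := V →L[ℂ] V) hc
    ((NormedSpace.expSeries_radius_eq_top ℂ (V →L[ℂ] V)).symm ▸ edist_lt_top _ _)
    ((NormedSpace.expSeries_radius_eq_top ℂ (V →L[ℂ] V)).symm ▸ edist_lt_top _ _)

theorem flow_I (θ : ℝ) : flow B (I * θ) = NormedSpace.exp ((θ : ℂ) • B) := by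
  unfold flow
  congr 2
  rw [← mul_assoc, neg_mul, I_mul_I]; simp

theorem differentiable_flow (σ : V) : Differentiable ℂ (fun z => flow B z σ) := by
  haveI := FiniteDimensional.complete ℂ V
  have h1 : Differentiable ℂ (fun z : ℂ => flow B z) := by
    intro z
    have := hasDerivAt_exp_smul_const (𝕂 := ℂ) (𝔸 := V →L[ℂ] V) B (-I * z)
    have h2 : HasDerivAt (fun z : ℂ => -I * z) (-I) z := by
      simpa using (hasDerivAt_id z).const_mul (-I)
    exact (this.scomp z h2).differentiableAt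
  intro z
  exact (h1 z).clm_apply (differentiableAt_const σ)

theorem exp_apply_of_eigen {c : V →L[ℂ] V} {μ : ℂ} {v : V} (h : c v = μ • v) :
    NormedSpace.exp c v = Complex.exp μ • v := by
  have hpow : ∀ n : ℕ, (c ^ n) v = μ ^ n • v := by
    intro n
    induction n with
    | zero => simp
    | succ n ih =>
      rw [pow_succ', ContinuousLinearMap.mul_apply, ih, map_smul, h, smul_smul, pow_succ]
  have h1 := (NormedSpace.exp_series_hasSum_exp' (𝕂 := ℂ) c).mapL
    (ContinuousLinearMap.apply ℂ V v)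
  have h2 := (NormedSpace.exp_series_hasSum_exp' (𝕂 := ℂ) μ).smul_const v
  rw [← Complex.exp_eq_exp_ℂ] at h2
  refine h1.unique ?_
  convert h2 using 2 with n
  simp [hpow, smul_smul]

theorem flow_eigen {μ : ℝ} {v : V} (h : B v = (I * μ) • v) (z : ℂ) :
    flow B z v = Complex.exp (μ * z) • v := by
  unfold flow
  rw [exp_apply_of_eigen (μ := μ * z)]
  rw [ContinuousLinearMap.smul_apply, h, smul_smul]
  congr 1
  linear_combination (-(μ : ℂ) * z) * I_mul_I

end flow

variable {p : ℝ} {Φ : V → ℝ} {b : ℕ} {Q : V → ℂ}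

/-- `{Q ≠ 0}` is dense. -/
theorem dense_ne (hQ : Differentiable ℂ Q) (hne : ∃ σ, Q σ ≠ 0) : Dense {σ | Q σ ≠ 0} := by
  rw [dense_iff_inter_open]
  intro U hU ⟨σ, hσ⟩
  by_contra hcon
  rw [Set.not_nonempty_iff_eq_empty] at hcon
  have hz : ∀ τ ∈ U, Q τ = 0 := by
    intro τ hτ
    by_contra h
    have : τ ∈ U ∩ {σ | Q σ ≠ 0} := ⟨hτ, h⟩
    rw [hcon] at this
    exact this
  obtain ⟨τ, hτ⟩ := hne
  set q : ℂ → ℂ := fun z => Q (σ + z • (τ - σ)) with hq
  have hqd : Differentiable ℂ q := hQ.comp (by fun_prop)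
  have hqa : AnalyticOnNhd ℂ q Set.univ := fun z _ => hqd.analyticAt z
  have hev : q =ᶠ[𝓝 0] 0 := by
    have hc : Continuous (fun z : ℂ => σ + z • (τ - σ)) := by fun_prop
    have : (fun z : ℂ => σ + z • (τ - σ)) ⁻¹' U ∈ 𝓝 (0 : ℂ) :=
      hc.continuousAt.preimage_mem_nhds (by simpa using hU.mem_nhds hσ)
    filter_upwards [this] with z hz'
    exact hz _ hz'
  have := hqa.eqOn_zero_of_preconnected_of_eventuallyEq_zero isPreconnected_univ
    (Set.mem_univ 0) hev (Set.mem_univ 1)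
  simp [hq] at this
  exact hτ this

/-- on every vertical line there is a good point -/
theorem exists_good (hQ : Differentiable ℂ Q) (B : V →L[ℂ] V) {σ : V} (hσ : Q σ ≠ 0) (t0 : ℝ) :
    ∃ θ : ℝ, Q (flow B ((t0 : ℂ) + I * θ) σ) ≠ 0 := by
  by_contra hcon
  push Not at hcon
  set h : ℂ → ℂ := fun w => Q (flow B ((t0 : ℂ) + I * w) σ) with hh
  have hd : Differentiable ℂ h :=
    hQ.comp ((differentiable_flow B σ).comp (by fun_prop : Differentiable ℂ (fun w : ℂ => (t0 : ℂ) + I * w)))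
  have hzero := eqOn_of_real (c := 0) (ρ := |t0| + 1) hd.differentiableOn
    (fun x _ => hcon x) (I * t0) (by
      rw [mem_ball, dist_eq_norm]; simp)
  rw [hh] at hzero
  simp only at hzero
  have : (t0 : ℂ) + I * (I * t0) = 0 := by
    rw [← mul_assoc, I_mul_I]; ring
  rw [this, flow_zero] at hzero
  exact hσ (by simpa using hzero)

theorem rank_generic (hQ : Differentiable ℂ Q) (hL : LocRank b Φ Q) (B : V →L[ℂ] V)
    (hB : ∀ (θ : ℝ) σ, Φ (NormedSpace.exp ((θ : ℂ) • B) σ) = Φ σ) {σ : V} (hσ : Q σ ≠ 0) :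
    RankLE b (fun t : ℝ => Φ (flow B (t : ℂ) σ)) := by
  refine rankLE_of_vertical fun t0 => ?_
  obtain ⟨θ, hθ⟩ := exists_good hQ B hσ t0
  obtain ⟨δ, P, H, hδ, hP, hΦ⟩ := hL _ hθ
  set c : ℂ → V := fun z => flow B z σ with hc
  have hcd : Differentiable ℂ c := differentiable_flow B σ
  have hcc : ContinuousAt c ((t0 : ℂ) + I * θ) := hcd.continuous.continuousAt
  obtain ⟨δ', hδ', hsub⟩ := Metric.continuousAt_iff.1 hcc δ hδ
  have hmem : ∀ z ∈ ball ((t0 : ℂ) + I * θ) δ', c z ∈ ball (c ((t0 : ℂ) + I * θ)) δ := by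
    intro z hz
    exact hsub (mem_ball.1 hz)
  refine ⟨θ, δ', fun i z => P i (c z), H, hδ', fun i => ?_, fun z hz => ?_⟩
  · exact (hP i).comp hcd.differentiableOn hmem
  · have h1 := hΦ _ (hmem z hz)
    rw [← h1]
    congr 1
    show Φ (flow B (z.re : ℂ) σ) = Φ (flow B z σ)
    have hz' : z = I * z.im + z.re := by
      rw [add_comm, mul_comm]; exact (re_add_im z).symm
    conv_rhs => rw [hz', flow_add, flow_I, ContinuousLinearMap.mul_apply]
    exact (hB _ _).symm

theorem rank_all (hΦ : Continuous Φ) (hQ : Differentiable ℂ Q) (hne : ∃ σ, Q σ ≠ 0)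
    (hL : LocRank b Φ Q) (B : V →L[ℂ] V)
    (hB : ∀ (θ : ℝ) σ, Φ (NormedSpace.exp ((θ : ℂ) • B) σ) = Φ σ) (σ : V) :
    RankLE b (fun t : ℝ => Φ (flow B (t : ℂ) σ)) := by
  intro u v
  have hcont : Continuous fun σ : V =>
      (Matrix.of fun i j => Φ (flow B ((u i + v j : ℝ) : ℂ) σ)).det := by
    refine Continuous.matrix_det ?_
    refine continuous_matrix fun i j => ?_
    exact hΦ.comp (flow B _).continuous
  have heq : (fun σ : V => (Matrix.of fun i j => Φ (flow B ((u i + v j : ℝ) : ℂ) σ)).det) =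
      fun _ => 0 := by
    refine Continuous.ext_on (dense_ne hQ hne) hcont continuous_const ?_
    intro σ hσ
    exact rank_generic hQ hL B hB hσ u v
  exact congrFun heq σ

theorem rankLE_exp_mul {f : ℝ → ℝ} (h : RankLE b f) (k : ℝ) :
    ∃ b', RankLE b' (fun t => Real.exp (k * t) * f t) := by
  obtain ⟨r, u, v, N, hrep⟩ := repr_of_rankLE h
  refine ⟨r, rankLE_of_sum (fun i x => Real.exp (k * x) * ∑ j, f (x + v j) * N j i)
    (fun i y => Real.exp (k * y) * f (u i + y)) fun x y => ?_⟩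
  rw [hrep x y, mul_add, Real.exp_add, Finset.mul_sum]
  refine Finset.sum_congr rfl fun i _ => ?_
  rw [← Finset.sum_mul]
  ring

/-- **FIN, one-parameter form.** -/
theorem no_two_eigenvalues (hF : FinNorm p Φ) (hQ : Differentiable ℂ Q) (hne : ∃ σ, Q σ ≠ 0)
    (hL : LocRank b Φ Q) (B : V →L[ℂ] V)
    (hB : ∀ (θ : ℝ) σ, Φ (NormedSpace.exp ((θ : ℂ) • B) σ) = Φ σ)
    {l1 l2 : ℝ} (hl : l1 < l2) {x y : V} (hx : x ≠ 0) (hy : y ≠ 0)
    (hxe : B x = (I * l1) • x) (hye : B y = (I * l2) • y) : False := by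
  set m := l2 - l1 with hm
  have hm0 : 0 < m := by rw [hm]; linarith
  set J : ℝ → ℝ := fun t => Φ (x + (Real.exp (m * t) : ℂ) • y) with hJ
  have hflow : ∀ t : ℝ, Φ (flow B (t : ℂ) (x + y)) = Real.exp (p * l1 * t) * J t := by
    intro t
    have : flow B (t : ℂ) (x + y) =
        (Real.exp (l1 * t) : ℂ) • (x + (Real.exp (m * t) : ℂ) • y) := by
      rw [map_add, flow_eigen B hxe, flow_eigen B hye, smul_add, smul_smul]
      congr 2
      · push_cast; rfl
      · push_cast
        rw [← Complex.exp_add]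
        congr 1
        rw [hm]; push_cast; ring
    rw [this, hF.hom, hJ]
    congr 1
    rw [Complex.norm_real, Real.norm_eq_abs, abs_of_pos (Real.exp_pos _), ← Real.exp_mul]
    congr 1; ring
  have hr := rank_all hF.cont hQ hne hL B hB (x + y)
  obtain ⟨b', hb'⟩ := rankLE_exp_mul hr (-(p * l1))
  have hJr : RankLE b' J := by
    convert hb' using 1
    funext t
    rw [hflow t, ← mul_assoc, ← Real.exp_add]
    have : -(p * l1) * t + p * l1 * t = 0 := by ring
    rw [this, Real.exp_zero, one_mul]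
  have hneg : ∀ a : V, Φ (-a) = Φ a := by
    intro a
    have := hF.hom (-1) a
    simpa using this
  have hhom : ∀ t : ℝ, Φ ((Real.exp (m * t) : ℂ) • y) = Φ y * Real.exp (p * m * t) := by
    intro t
    rw [hF.hom, Complex.norm_real, Real.norm_eq_abs, abs_of_pos (Real.exp_pos _), ← Real.exp_mul,
      mul_comm]
    congr 2; ring
  have key := no_gap (J := J) hJr (α := Φ x) (β := Φ y) (p := p * m) (mul_pos hF.hp hm0)
    (fun t => by
      have := hF.sub x ((Real.exp (m * t) : ℂ) • y)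
      rw [hhom t] at this
      rw [hJ]; simp only; linarith)
    (fun t => by
      have := hF.sub (x + (Real.exp (m * t) : ℂ) • y) (-x)
      rw [hneg, show x + (Real.exp (m * t) : ℂ) • y + -x = (Real.exp (m * t) : ℂ) • y by abel,
        hhom t] at this
      rw [hJ]; simp only; linarith)
    (fun t => by
      have := hF.sub (x + (Real.exp (m * t) : ℂ) • y) (-((Real.exp (m * t) : ℂ) • y))
      rw [hneg, add_neg_cancel_right, hhom t] at this
      rw [hJ]; simp only; linarith) 0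
  have hsum : Φ (x + y) = Φ x + Φ y := by
    rw [hJ] at key
    simpa using key
  -- rotation by `π / m`
  have hrot : Φ (x - y) = Φ (x + y) := by
    have h1 := hB (Real.pi / m) (x + y)
    rw [← flow_I, map_add, flow_eigen B hxe, flow_eigen B hye] at h1
    rw [← h1]
    have h2 : Complex.exp (l2 * (I * (Real.pi / m : ℝ))) =
        - Complex.exp (l1 * (I * (Real.pi / m : ℝ))) := by
      have : (l2 : ℂ) * (I * (Real.pi / m : ℝ)) = l1 * (I * (Real.pi / m : ℝ)) + Real.pi * I := by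
        have hm' : (m : ℂ) ≠ 0 := by exact_mod_cast hm0.ne'
        have hl2 : (l2 : ℂ) = l1 + m := by rw [hm]; push_cast; ring
        rw [hl2]; push_cast; field_simp
      rw [this, Complex.exp_add, Complex.exp_pi_mul_I]; ring
    rw [h2, neg_smul, ← sub_eq_add_neg, ← smul_sub, hF.hom]
    have : ‖Complex.exp ((l1 : ℂ) * (I * (Real.pi / m : ℝ)))‖ = 1 := by
      rw [Complex.norm_exp]
      simp
    rw [this]; simp
  have := hF.strict x y hx hy
  rw [hrot, hsum] at this
  linarith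

end Crest.Agent.R276.FinC_39
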