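import Mathlib

/-!
# Row 276, IPC step (8): evaluation points (helper815)

* `exists_points`: `ρ` linearly independent functions are separated by `ρ` points.
* `ep_core`: the evaluation-point argument.  `π : Y → E` open and continuous, `f, φ₁, …, φ_ρ` continuous
  on `Y`; if for almost every `x` near `x₀` the function `f` is on the fibre `π⁻¹(x)` a combination of the
  `φ_k`, and `σ_j` are local sections with `det (φ_k (σ_j x₀)) ≠ 0`, then for every `x` near `x₀`
  `f = ∑ c_k(x) φ_k` on `π⁻¹(x)` with `c(x) = (φ_k (σ_j x))⁻¹ (f (σ_j x))`.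
* `analyticAt_cramer`: `c` is analytic if the data are.
-/

set_option autoImplicit false

open Filter Set MeasureTheory Topology Matrix

namespace Crest.Agent.R276.Top8_815

/-- linearly independent functions are separated by finitely many points -/
theorem exists_points {Y : Type*} : ∀ {ρ : ℕ} (φ : Fin ρ → Y → ℂ), LinearIndependent ℂ φ →
    ∃ y : Fin ρ → Y, (Matrix.of fun j k => φ k (y j)).det ≠ 0 := by
  intro ρ
  induction ρ with
  | zero =>
      intro φ _
      exact ⟨Fin.elim0, by simp⟩
  | succ ρ ih =>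
      intro φ hφ
      have h1 : LinearIndependent ℂ (fun k : Fin ρ => φ k.succ) :=
        hφ.comp Fin.succ (Fin.succ_injective ρ)
      obtain ⟨y, hy⟩ := ih (fun k => φ k.succ) h1
      -- coefficients of the expansion along the new row
      let A : Y → Matrix (Fin (ρ + 1)) (Fin (ρ + 1)) ℂ := fun y0 =>
        Matrix.of fun j k => φ k ((Fin.cons y0 y : Fin (ρ + 1) → Y) j)
      let g : Fin (ρ + 1) → ℂ := fun k =>
        (-1) ^ (k : ℕ) * (Matrix.of fun (j : Fin ρ) (l : Fin ρ) => φ (k.succAbove l) (y j)).det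
      have hdet : ∀ y0 : Y, (A y0).det = ∑ k, g k * φ k y0 := by
        intro y0
        rw [Matrix.det_succ_row_zero]
        refine Finset.sum_congr rfl fun k _ => ?_
        have h2 : (A y0).submatrix Fin.succ k.succAbove =
            Matrix.of fun (j : Fin ρ) (l : Fin ρ) => φ (k.succAbove l) (y j) := by
          ext j l
          simp [A]
        rw [h2]
        simp only [A, g, Matrix.of_apply, Fin.cons_zero]
        ring
      by_contra hcon
      push Not at hcon
      have hzero : ∑ k, g k • φ k = 0 := by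
        funext y0
        have := hcon (Fin.cons y0 y)
        have h3 := hdet y0
        simp only [A] at h3
        rw [this] at h3
        simp only [Finset.sum_apply, Pi.smul_apply, smul_eq_mul, Pi.zero_apply]
        exact h3.symm
      have hg := (Fintype.linearIndependent_iff.1 hφ) g hzero 0
      apply hy
      simpa [g] using hg

/-! ### Cramer's rule for a class of functions closed under ring operations -/

section cramer

variable {E : Type*} {ρ : ℕ}

/-- a class of functions closed under the field operations near `x` -/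
structure Cl (P : (E → ℂ) → Prop) (x : E) : Prop where
  const : ∀ c : ℂ, P fun _ => c
  add : ∀ f g : E → ℂ, P f → P g → P fun y => f y + g y
  mul : ∀ f g : E → ℂ, P f → P g → P fun y => f y * g y
  inv : ∀ f : E → ℂ, P f → f x ≠ 0 → P fun y => (f y)⁻¹

theorem Cl.sum {P : (E → ℂ) → Prop} {x : E} (h : Cl P x) {ι : Type*} (s : Finset ι)
    (f : ι → E → ℂ) (hf : ∀ i ∈ s, P (f i)) : P fun y => ∑ i ∈ s, f i y := by
  classical
  induction s using Finset.induction_on with
  | empty => simpa using h.const 0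
  | insert a s ha ih =>
      simp only [Finset.sum_insert ha]
      exact h.add _ _ (hf a (Finset.mem_insert_self a s))
        (ih fun i hi => hf i (Finset.mem_insert_of_mem hi))

theorem Cl.prod {P : (E → ℂ) → Prop} {x : E} (h : Cl P x) {ι : Type*} (s : Finset ι)
    (f : ι → E → ℂ) (hf : ∀ i ∈ s, P (f i)) : P fun y => ∏ i ∈ s, f i y := by
  classical
  induction s using Finset.induction_on with
  | empty => simpa using h.const 1
  | insert a s ha ih =>
      simp only [Finset.prod_insert ha]
      exact h.mul _ _ (hf a (Finset.mem_insert_self a s))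
        (ih fun i hi => hf i (Finset.mem_insert_of_mem hi))

theorem Cl.det {P : (E → ℂ) → Prop} {x : E} (h : Cl P x) {A : E → Matrix (Fin ρ) (Fin ρ) ℂ}
    (hA : ∀ i j, P fun y => A y i j) : P fun y => (A y).det := by
  simp only [Matrix.det_apply, Units.smul_def, zsmul_eq_mul]
  exact h.sum _ _ fun s _ => h.mul _ _ (h.const _) (h.prod _ _ fun i _ => hA _ _)

theorem Cl.cramer {P : (E → ℂ) → Prop} {x : E} (h : Cl P x) {A : E → Matrix (Fin ρ) (Fin ρ) ℂ}
    {b : E → Fin ρ → ℂ} (hA : ∀ i j, P fun y => A y i j) (hb : ∀ i, P fun y => b y i)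
    (hdet : (A x).det ≠ 0) (k : Fin ρ) : P fun y => ((A y)⁻¹ *ᵥ b y) k := by
  have hadj : ∀ i j, P fun y => (A y).adjugate i j := by
    intro i j
    simp only [Matrix.adjugate_apply]
    refine h.det fun p q => ?_
    by_cases hp : p = j
    · subst hp
      simp only [Matrix.updateRow_self]
      exact h.const _
    · simp only [Matrix.updateRow_ne hp]
      exact hA p q
  simp only [Matrix.inv_def, Ring.inverse_eq_inv', Matrix.mulVec, dotProduct, Matrix.smul_apply,
    smul_eq_mul]
  exact h.sum _ _ fun j _ => h.mul _ _ (h.mul _ _ (h.inv _ (h.det hA) hdet) (hadj k j)) (hb j)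

theorem cl_continuousAt [TopologicalSpace E] (x : E) : Cl (fun f : E → ℂ => ContinuousAt f x) x where
  const _ := continuousAt_const
  add _ _ hf hg := hf.add hg
  mul _ _ hf hg := hf.mul hg
  inv _ hf h0 := hf.inv₀ h0

theorem cl_analyticAt [NormedAddCommGroup E] [NormedSpace ℂ E] (x : E) :
    Cl (fun f : E → ℂ => AnalyticAt ℂ f x) x where
  const _ := analyticAt_const
  add _ _ hf hg := hf.add hg
  mul _ _ hf hg := hf.mul hg
  inv _ hf h0 := hf.inv h0

theorem cl_differentiableAt [NormedAddCommGroup E] [NormedSpace ℂ E] (x : E) :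
    Cl (fun f : E → ℂ => DifferentiableAt ℂ f x) x where
  const _ := differentiableAt_const _
  add _ _ hf hg := hf.add hg
  mul _ _ hf hg := hf.mul hg
  inv _ hf h0 := hf.inv h0

end cramer

section ep

variable {E : Type*} {Y : Type*} {ρ : ℕ}

/-- the matrix of evaluations -/
def evM (φ : Fin ρ → Y → ℂ) (σ : Fin ρ → E → Y) (x : E) : Matrix (Fin ρ) (Fin ρ) ℂ :=
  Matrix.of fun j k => φ k (σ j x)

/-- the coefficients obtained from the evaluation points by Cramer's rule -/
noncomputable def evC (f : Y → ℂ) (φ : Fin ρ → Y → ℂ) (σ : Fin ρ → E → Y) (x : E) : Fin ρ → ℂ :=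
  (evM φ σ x)⁻¹ *ᵥ fun j => f (σ j x)

/-- if `f` is a combination of the `φ_k` on the fibre through the points `σ_j x` then the coefficients are
`evC` -/
theorem evC_eq {f : Y → ℂ} {φ : Fin ρ → Y → ℂ} {σ : Fin ρ → E → Y} {x : E} {π : Y → E}
    (hdet : (evM φ σ x).det ≠ 0) (hσ : ∀ j, π (σ j x) = x) {c : Fin ρ → ℂ}
    (hc : ∀ y, π y = x → f y = ∑ k, c k * φ k y) : evC f φ σ x = c := by
  have h1 : (fun j => f (σ j x)) = (evM φ σ x) *ᵥ c := by
    funext j
    rw [hc _ (hσ j)]
    simp only [evM, Matrix.mulVec, dotProduct, Matrix.of_apply]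
    exact Finset.sum_congr rfl fun k _ => mul_comm _ _
  rw [evC, h1, Matrix.mulVec_mulVec, Matrix.nonsing_inv_mul _ (isUnit_iff_ne_zero.2 hdet),
    Matrix.one_mulVec]

/-- the evaluation coefficients belong to every class of functions closed under the field operations -/
theorem Cl.evC {P : (E → ℂ) → Prop} {x : E} (h : Cl P x) {f : Y → ℂ} {φ : Fin ρ → Y → ℂ}
    {σ : Fin ρ → E → Y} (hdet : (evM φ σ x).det ≠ 0) (hφ : ∀ j k, P fun x => φ k (σ j x))
    (hf : ∀ j, P fun x => f (σ j x)) (k : Fin ρ) : P fun y => Top8_815.evC f φ σ y k :=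
  h.cramer (A := evM φ σ) (b := fun x j => f (σ j x)) hφ hf hdet k

variable [TopologicalSpace E] [MeasurableSpace E] [TopologicalSpace Y]

/-- THE EVALUATION-POINT ARGUMENT. -/
theorem ep_core {μ : Measure E} [μ.IsOpenPosMeasure] {π : Y → E} (hπc : Continuous π)
    (hπ : IsOpenMap π) {f : Y → ℂ} (hf : Continuous f) {φ : Fin ρ → Y → ℂ}
    (hφ : ∀ k, Continuous (φ k)) {σ : Fin ρ → E → Y} {U : Set E} (hU : IsOpen U)
    (hσ : ∀ j, ∀ x ∈ U, π (σ j x) = x) (hσc : ∀ j, ContinuousOn (σ j) U)
    (hdet : ∀ x ∈ U, (evM φ σ x).det ≠ 0)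
    (hae : ∀ᵐ x ∂μ, x ∈ U → ∃ c : Fin ρ → ℂ, ∀ y, π y = x → f y = ∑ k, c k * φ k y) :
    ∀ x ∈ U, ∀ y, π y = x → f y = ∑ k, evC f φ σ x k * φ k y := by
  have hcc : ∀ x ∈ U, ∀ k, ContinuousAt (fun x => evC f φ σ x k) x := fun x hx k =>
    (cl_continuousAt x).evC (hdet x hx)
      (fun j k => (hφ k).continuousAt.comp ((hσc j).continuousAt (hU.mem_nhds hx)))
      (fun j => hf.continuousAt.comp ((hσc j).continuousAt (hU.mem_nhds hx))) k
  let F : Y → ℂ := fun y => f y - ∑ k, evC f φ σ (π y) k * φ k y
  have hF : ContinuousOn F (π ⁻¹' U) := by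
    intro y hy
    have h1 : ∀ k, ContinuousAt (fun y => evC f φ σ (π y) k) y := fun k =>
      ContinuousAt.comp (g := fun x => evC f φ σ x k) (hcc (π y) hy k) hπc.continuousAt
    have h2 : ContinuousAt F y := by
      refine hf.continuousAt.sub ?_
      refine tendsto_finsetSum _ fun k _ => ?_
      exact (h1 k).mul (hφ k).continuousAt
    exact h2.continuousWithinAt
  -- the bad set
  let W : Set Y := π ⁻¹' U ∩ {y | F y ≠ 0}
  have hW : IsOpen W := hF.isOpen_inter_preimage (hU.preimage hπc) isOpen_ne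
  have hpW : IsOpen (π '' W) := hπ _ hW
  have hnull : μ (π '' W) = 0 := by
    refine measure_mono_null ?_ hae
    rintro _ ⟨y, ⟨hyU, hyF⟩, rfl⟩ hc
    obtain ⟨c, hc⟩ := hc hyU
    apply hyF
    have h3 := evC_eq (hdet (π y) hyU) (fun j => hσ j (π y) hyU) hc
    simp only [F]
    rw [h3, hc y rfl, sub_self]
  have hempty : π '' W = ∅ := hpW.eq_empty_of_measure_zero hnull
  intro x hx y hy
  by_contra hne
  have : π y ∈ π '' W := by
    refine ⟨y, ⟨by simpa [hy] using hx, ?_⟩, rfl⟩
    intro h0
    apply hne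
    simp only [F, hy] at h0
    exact sub_eq_zero.1 h0
  rw [hempty] at this
  exact this

end ep

end Crest.Agent.R276.Top8_815
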