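import Crest.Agent.R276.IpcDefs_735
import Crest.Agent.R276.Top8a_815

/-!
# Row 276, IPC step (8): REALISATION of the top piece by `L²` holomorphic functions (helper815)

Interface file (definitions only).  `X` is a Riemann domain (`RDom n X`), `Y` a space fibred over `X`:
`q : Y → X`, `t : Y → ℂ^d`, such that `y ↦ (q y, t y)` is a local homeomorphism (`FSp n d X Y`).
`Rz V F ι`: for every `u : X`, `v ↦ ι u v` identifies the top piece `{v | E u v = w v}` with the square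
integrable holomorphic functions on the fibre `q⁻¹(u)`, isometrically (Hodge norm = `L²` norm `fint`), and
holomorphic sections of the top piece correspond to holomorphic functions on `Y` (`hol1`, `hol2`);
`RzAct` is the compatibility with a group action.

`FSp.down`: `Y` fibred over the total space `Tot Q` is fibred over the base `S` (one more fibre coordinate).
`StepTop` is the part of `OneStep` which is used, and the main theorem (`Top8d_815`) is

  `Rz V F ι → StepTop V W cl → Rz W F.down (down ι)`.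
-/

set_option autoImplicit false

noncomputable section

open Set Filter Topology MeasureTheory Matrix
open Crest.Agent.R271.Ho51 Crest.Agent.R276.Ipc735
open scoped ENNReal

namespace Crest.Agent.R276.Top8_815

/-- near `y` the function `f` is the pull back by `p` of an analytic function -/
def PB {Y E : Type*} [TopologicalSpace Y] [NormedAddCommGroup E] [NormedSpace ℂ E] (p : Y → E)
    (f : Y → ℂ) (y : Y) : Prop :=
  ∃ g : E → ℂ, AnalyticAt ℂ g (p y) ∧ ∀ᶠ y' in 𝓝 y, f y' = g (p y')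

/-- `v` is in the top piece -/
def IsTop {N : ℕ} (w : ℕ) (E : Matrix (Fin N) (Fin N) ℂ) (v : Fin N → ℂ) : Prop :=
  E *ᵥ v = (w : ℂ) • v

/-- a space fibred over `X` with fibre coordinates in `ℂ^d` -/
structure FSp (n d : ℕ) (X Y : Type*) [TopologicalSpace X] [RDom n X] [TopologicalSpace Y] where
  /-- projection to the base -/
  q : Y → X
  /-- fibre coordinates -/
  t : Y → Fin d → ℂ
  lh : IsLocalHomeomorph fun y => (q y, t y)

namespace FSp

variable {n d : ℕ} {X Y : Type*} [TopologicalSpace X] [RDom n X] [TopologicalSpace Y]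
  (F : FSp n d X Y)

/-- all coordinates on `Y` -/
def pc (y : Y) : (Fin n → ℂ) × (Fin d → ℂ) := (cp (F.q y), F.t y)

/-- `f` is holomorphic on the fibre over `u` -/
def FH (u : X) (f : Y → ℂ) : Prop :=
  ∀ y, F.q y = u → ∃ g : (Fin d → ℂ) → ℂ, AnalyticAt ℂ g (F.t y) ∧
    ∀ᶠ y' in 𝓝 y, F.q y' = u → f y' = g (F.t y')

/-- integral over the fibre over `u` (sum over the points with the same fibre coordinates) -/
def fint (u : X) (g : Y → ℝ≥0∞) : ℝ≥0∞ :=
  ∫⁻ τ : Fin d → ℂ, ∑' y : {y : Y // F.q y = u ∧ F.t y = τ}, g y.1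

/-- squared `L²` norm on the fibre over `u` -/
def fnorm (u : X) (f : Y → ℂ) : ℝ≥0∞ := F.fint u fun y => ‖f y‖ₑ ^ 2

end FSp

section rz

variable {n d N w : ℕ} {X Y : Type*} [TopologicalSpace X] [RDom n X] [TopologicalSpace Y]

/-- square of the Hodge norm -/
def hnsq (V : VHS n X N w) (u : X) (v : Fin N → ℂ) : ℝ :=
  (star v ⬝ᵥ hodge w (V.S u) (V.E u) *ᵥ v).re

/-- **Realisation** of the top piece of `V` by `L²` holomorphic functions on the fibres of `Y → X`. -/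
structure Rz (V : VHS n X N w) (F : FSp n d X Y) (ι : X → (Fin N → ℂ) → Y → ℂ) : Prop where
  add : ∀ u v v', IsTop w (V.E u) v → IsTop w (V.E u) v' →
    ∀ y, F.q y = u → ι u (v + v') y = ι u v y + ι u v' y
  smul : ∀ u (c : ℂ) v, IsTop w (V.E u) v → ∀ y, F.q y = u → ι u (c • v) y = c * ι u v y
  hol : ∀ u v, IsTop w (V.E u) v → F.FH u (ι u v)
  norm : ∀ u v, IsTop w (V.E u) v → F.fnorm u (ι u v) = ENNReal.ofReal (hnsq V u v)
  surj : ∀ u f, F.FH u f → F.fnorm u f < ∞ →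
    ∃ v, IsTop w (V.E u) v ∧ ∀ y, F.q y = u → ι u v y = f y
  hol1 : ∀ (u₀ : X) (v : X → Fin N → ℂ), HolAt (lV V.P v u₀) u₀ →
    (∀ᶠ u in 𝓝 u₀, IsTop w (V.E u) (v u)) →
    ∀ y, F.q y = u₀ → PB F.pc (fun y' => ι (F.q y') (v (F.q y')) y') y
  hol2 : ∀ (u₀ : X) (v : X → Fin N → ℂ), (∀ᶠ u in 𝓝 u₀, IsTop w (V.E u) (v u)) →
    (∀ᶠ u in 𝓝 u₀, ∀ y, F.q y = u → PB F.pc (fun y' => ι (F.q y') (v (F.q y')) y') y) →
    HolAt (lV V.P v u₀) u₀

/-- compatibility of a realisation with a group action: `α` is the action on `Y` -/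
structure RzAct {V : VHS n X N w} {Γ : Type} [Group Γ] (ρ : Act V Γ) (F : FSp n d X Y)
    (ι : X → (Fin N → ℂ) → Y → ℂ) (α : Γ → Y → Y) : Prop where
  q : ∀ g y, F.q (α g y) = F.q y
  t : ∀ g y, F.t (α g y) = F.t y
  eqv : ∀ g u v, IsTop w (V.E u) v → ∀ y, F.q y = u →
    ι u (cm (ρ.ρ g u) *ᵥ v) y = ι u v (α g⁻¹ y)

end rz

section step

variable {m k N N' w d : ℕ} {S Y : Type*} [TopologicalSpace S] [RDom m S] [TopologicalSpace Y]

/-- the part of the one-step theorem which concerns the top piece -/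
structure StepTop (Q : Punc S k) (V : VHS (m + 1) (Tot Q) N w) (W : VHS m S N' (w + 1))
    (R : ∀ s : S, PVHS (Q.A s) N w) (cl : ∀ _ : S, (ℂ → Fin N → ℂ) → (Fin N' → ℂ)) : Prop where
  res : ∀ s, IsRes V s (R s)
  add : ∀ s f g, (R s).Top f → (R s).Top g → cl s (f + g) = cl s f + cl s g
  smul : ∀ s (c : ℂ) f, (R s).Top f → cl s (c • f) = c • cl s f
  eig : ∀ s f, (R s).Top f → W.E s *ᵥ cl s f = ((w + 1 : ℕ) : ℂ) • cl s f
  surj : ∀ s v, W.E s *ᵥ v = ((w + 1 : ℕ) : ℂ) • v → ∃ f, (R s).Top f ∧ cl s f = v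
  norm : ∀ s f, (R s).Top f → (star (cl s f) ⬝ᵥ hodge (w + 1) (W.S s) (W.E s) *ᵥ cl s f).re =
    ∫ z in ((Q.A s : Set ℂ)ᶜ), (R s).nsq f z
  hol1 : ∀ (s₀ : S) (F : S → ℂ → Fin N → ℂ), (∀ᶠ s in 𝓝 s₀, (R s).Top (F s)) →
    (∀ᶠ s in 𝓝 s₀, HolFib V F s) → HolAt (lV W.P (fun s => cl s (F s)) s₀) s₀
  hol2 : ∀ (s₀ : S) (v : S → Fin N' → ℂ) (F : S → ℂ → Fin N → ℂ),
    HolAt (lV W.P v s₀) s₀ → (∀ᶠ s in 𝓝 s₀, W.E s *ᵥ v s = ((w + 1 : ℕ) : ℂ) • v s) →
    (∀ᶠ s in 𝓝 s₀, (R s).Top (F s) ∧ cl s (F s) = v s) → ∀ᶠ s in 𝓝 s₀, HolFib V F s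

/-- `Y` fibred over the total space is fibred over the base -/
def FSp.down {Q : Punc S k} (F : FSp (m + 1) d (Tot Q) Y) : FSp m (d + 1) S Y where
  q := fun y => (F.q y).1.1
  t := fun y => Fin.cons (F.q y).1.2 (F.t y)
  lh := by
    let c : ((S × ℂ) × (Fin d → ℂ)) ≃ₜ (S × (Fin (d + 1) → ℂ)) :=
      (Homeomorph.prodAssoc S ℂ (Fin d → ℂ)).trans
        ((Homeomorph.refl S).prodCongr
          (Fin.consEquivL ℂ (fun _ : Fin (d + 1) => ℂ)).toHomeomorph)
    have h1 : IsLocalHomeomorph (fun p : Tot Q × (Fin d → ℂ) => ((p.1.1 : S × ℂ), p.2)) :=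
      ((IsOpen.isOpenEmbedding_subtypeVal (isOpen_tot Q)).prodMap
        Topology.IsOpenEmbedding.id).isLocalHomeomorph
    have h2 := c.isLocalHomeomorph.comp (h1.comp F.lh)
    exact h2

open Classical in
/-- the realisation map of the next step -/
def down {Q : Punc S k} (R : ∀ s : S, PVHS (Q.A s) N w)
    (cl : ∀ _ : S, (ℂ → Fin N → ℂ) → (Fin N' → ℂ)) (F : FSp (m + 1) d (Tot Q) Y)
    (ι : Tot Q → (Fin N → ℂ) → Y → ℂ) (s : S) (v : Fin N' → ℂ) (y : Y) : ℂ :=
  if h : ∃ f, (R s).Top f ∧ cl s f = v then ι (F.q y) (h.choose (F.q y).1.2) y else 0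

end step

end Crest.Agent.R276.Top8_815
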