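import Mathlib
import Crest.Agent.R276.Top8b_815
import Crest.Agent.R276.FinC_39

/-!
# R276 leaf FRI, part A (helper39): finite rank of Hodge norms of holomorphic top sections

`V : VHS m X N w` (frozen interface `IpcDefs_735`), `v` a holomorphic section with values in the top
piece.  Then `u ↦ hnsq V u (v u)` is, in the coordinates of `X`, locally
`∑ H i j * P i * conj (P j)` with analytic `P i` and constant `H` (`hnsq_local`).
For an open subset of `ℂ^s` this is `LocRank` (`locRank_of_section`).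
-/

set_option autoImplicit false

noncomputable section

open Set Filter Topology MeasureTheory Matrix ComplexConjugate
open Crest.Agent.R271.Ho51 Crest.Agent.R276.Ipc735 Crest.Agent.R276.Top8_815
open Crest.Agent.R276.FinC_39
open scoped ENNReal

namespace Crest.Agent.R276.FriA_39

theorem aeval_mulVec_of_eig {N : ℕ} {E : Matrix (Fin N) (Fin N) ℂ} {c : ℂ} {v : Fin N → ℂ}
    (h : E *ᵥ v = c • v) (q : Polynomial ℂ) :
    (Polynomial.aeval E q) *ᵥ v = (q.eval c) • v := by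
  have hpow : ∀ n : ℕ, (E ^ n) *ᵥ v = c ^ n • v := by
    intro n
    induction n with
    | zero => simp
    | succ n ih =>
      rw [pow_succ', ← Matrix.mulVec_mulVec, ih, Matrix.mulVec_smul, h, smul_smul, pow_succ]
  induction q using Polynomial.induction_on' with
  | add p q hp hq =>
    rw [map_add, Matrix.add_mulVec, hp, hq, Polynomial.eval_add, add_smul]
  | monomial n a =>
    rw [Polynomial.aeval_monomial, Polynomial.eval_monomial, ← Matrix.mulVec_mulVec, hpow,
      Matrix.mulVec_smul, Algebra.algebraMap_eq_smul_one, Matrix.smul_mulVec, Matrix.one_mulVec,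
      smul_smul, mul_comm]

theorem hpr_mulVec_of_top {N w : ℕ} {E : Matrix (Fin N) (Fin N) ℂ} {v : Fin N → ℂ}
    (h : IsTop w E v) (p : ℕ) (hp : p ∈ Finset.range (w + 1)) :
    hpr w p E *ᵥ v = (if p = w then (1 : ℂ) else 0) • v := by
  unfold hpr
  rw [aeval_mulVec_of_eig h]
  congr 1
  have hinj : Set.InjOn (fun q : ℕ => (q : ℂ)) (Finset.range (w + 1) : Set ℕ) := by
    intro a _ b _ hab
    exact Nat.cast_injective (R := ℂ) hab
  have hw : w ∈ Finset.range (w + 1) := by simp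
  by_cases hpw : p = w
  · subst hpw
    rw [if_pos rfl]
    exact Lagrange.eval_basis_self hinj hp
  · rw [if_neg hpw]
    exact Lagrange.eval_basis_of_ne (v := fun q : ℕ => (q : ℂ)) hpw hw

theorem weil_mulVec_of_top {N w : ℕ} {E : Matrix (Fin N) (Fin N) ℂ} {v : Fin N → ℂ}
    (h : IsTop w E v) : weil w E *ᵥ v = (-1 : ℂ) ^ w • v := by
  unfold weil
  rw [Matrix.sum_mulVec]
  rw [Finset.sum_eq_single w]
  · rw [Matrix.smul_mulVec, hpr_mulVec_of_top h w (by simp), if_pos rfl, one_smul]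
  · intro p hp hpw
    rw [Matrix.smul_mulVec, hpr_mulVec_of_top h p hp, if_neg hpw, zero_smul, smul_zero]
  · intro hw
    simp at hw

variable {m : ℕ} {X : Type*} [TopologicalSpace X] [RDom m X] {N w : ℕ}

theorem hnsq_top (V : VHS m X N w) {u : X} {v : Fin N → ℂ} (h : IsTop w (V.E u) v) :
    (hnsq V u v : ℂ) = (-1 : ℂ) ^ w * (star v ⬝ᵥ V.S u *ᵥ v) := by
  have hreal : (star v ⬝ᵥ V.S u *ᵥ v).im = 0 := by
    have hherm := (V.hs u).herm
    have h1 : star (star v ⬝ᵥ V.S u *ᵥ v) = star v ⬝ᵥ V.S u *ᵥ v := by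
      conv_lhs => rw [Matrix.star_dotProduct, star_star, Matrix.star_mulVec, hherm.eq]
      rw [Matrix.dotProduct_mulVec]
    have h2 : conj (star v ⬝ᵥ V.S u *ᵥ v) = star v ⬝ᵥ V.S u *ᵥ v := h1
    exact Complex.conj_eq_iff_im.1 h2
  unfold hnsq hodge
  rw [← Matrix.mulVec_mulVec, weil_mulVec_of_top h, Matrix.mulVec_smul, dotProduct_smul,
    smul_eq_mul]
  set q := star v ⬝ᵥ V.S u *ᵥ v with hq
  have hq' : q = (q.re : ℂ) := by
    apply Complex.ext <;> simp [hreal]
  have hs : ((-1 : ℂ) ^ w) = (((-1 : ℝ) ^ w : ℝ) : ℂ) := by push_cast; rfl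
  rw [hs, hq', ← Complex.ofReal_mul, Complex.ofReal_re]

/-- The Hodge norm of a holomorphic top section in local flat coordinates. -/
theorem hnsq_local (V : VHS m X N w) (v : X → Fin N → ℂ) (u₀ : X)
    (htop : ∀ᶠ u in 𝓝 u₀, IsTop w (V.E u) (v u)) :
    ∀ᶠ u in 𝓝 u₀, (hnsq V u (v u) : ℂ) = ∑ i, ∑ j,
      ((-1 : ℂ) ^ w * V.S u₀ j i) * lV V.P v u₀ u i * conj (lV V.P v u₀ u j) := by
  filter_upwards [htop, V.flatS u₀] with u hu hS
  rw [hnsq_top V hu]
  have h1 : star (v u) ⬝ᵥ V.S u *ᵥ v u =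
      star (lV V.P v u₀ u) ⬝ᵥ V.S u₀ *ᵥ (lV V.P v u₀ u) := by
    rw [hS]
    unfold lV
    rw [Matrix.star_mulVec, ← Matrix.mulVec_mulVec, ← Matrix.mulVec_mulVec,
      Matrix.dotProduct_mulVec]
  rw [h1]
  set φ := lV V.P v u₀ u with hφ
  rw [dotProduct, Finset.sum_comm, Finset.mul_sum]
  refine Finset.sum_congr rfl fun j _ => ?_
  rw [Matrix.mulVec, dotProduct, Finset.mul_sum, Finset.mul_sum]
  refine Finset.sum_congr rfl fun i _ => ?_
  have : star φ j = conj (φ j) := rfl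
  rw [this]; ring

theorem hnsq_nonneg (V : VHS m X N w) {u : X} {v : Fin N → ℂ} (h : IsTop w (V.E u) v) :
    0 ≤ hnsq V u v := by
  have h1 := hnsq_top V h
  have h2 : hnsq V u v = (-1 : ℝ) ^ w * (star v ⬝ᵥ V.S u *ᵥ v).re := by
    have hs : ((-1 : ℂ) ^ w) = (((-1 : ℝ) ^ w : ℝ) : ℂ) := by push_cast; rfl
    have h3 := congrArg Complex.re h1
    rw [hs, Complex.re_ofReal_mul, Complex.ofReal_re] at h3
    exact h3
  rw [h2]
  by_cases hv : v = 0
  · subst hv; simp
  · exact ((V.hs u).pos w v le_rfl hv h).le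

section realisation

variable {d : ℕ} {Y : Type*} [TopologicalSpace Y]

/-- a function which is locally analytic in all coordinates is holomorphic on the fibres -/
theorem fH_of_PB (F : FSp m d X Y) {f : Y → ℂ} (hf : ∀ y, PB F.pc f y) (u : X) : F.FH u f := by
  intro y hy
  obtain ⟨g, hg, he⟩ := hf y
  refine ⟨fun t => g (cp u, t), ?_, ?_⟩
  · have h1 : F.pc y = (cp u, F.t y) := by rw [← hy]; rfl
    rw [h1] at hg
    exact AnalyticAt.fun_comp (g := g) (f := fun t : Fin d → ℂ => ((cp u : Fin m → ℂ), t)) hg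
      (analyticAt_const.prod analyticAt_id)
  · filter_upwards [he] with y' hy' hq
    rw [hy']
    change g (cp (F.q y'), F.t y') = _
    rw [hq]

/-- a holomorphic function with square integrable restrictions to the fibres is a holomorphic section
of the top piece -/
theorem exists_section {V : VHS m X N w} {F : FSp m d X Y} {ι : X → (Fin N → ℂ) → Y → ℂ}
    (hR : Rz V F ι) (f : Y → ℂ) (hf : ∀ y, PB F.pc f y) (hfin : ∀ u, F.fnorm u f < ∞) :
    ∃ v : X → Fin N → ℂ, (∀ u, IsTop w (V.E u) (v u)) ∧ (∀ u, HolAt (lV V.P v u) u) ∧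
      (∀ y, ι (F.q y) (v (F.q y)) y = f y) ∧
      ∀ u, hnsq V u (v u) = (F.fnorm u f).toReal := by
  choose v hv1 hv2 using fun u => hR.surj u f (fH_of_PB F hf u) (hfin u)
  have hι : ∀ y, ι (F.q y) (v (F.q y)) y = f y := fun y => hv2 _ y rfl
  refine ⟨v, hv1, fun u => ?_, hι, fun u => ?_⟩
  · refine hR.hol2 u v (Eventually.of_forall hv1) (Eventually.of_forall fun u' y _ => ?_)
    have : (fun y' => ι (F.q y') (v (F.q y')) y') = f := funext hι
    rw [this]
    exact hf y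
  · have h1 := hR.norm u (v u) (hv1 u)
    have h2 : F.fnorm u (ι u (v u)) = F.fnorm u f := by
      unfold FSp.fnorm FSp.fint
      refine lintegral_congr fun τ => tsum_congr fun y => ?_
      change ‖ι u (v u) y.1‖ₑ ^ 2 = ‖f y.1‖ₑ ^ 2
      rw [hv2 u y.1 y.2.1]
    rw [← h2, h1, ENNReal.toReal_ofReal (hnsq_nonneg V (hv1 u))]

end realisation

/-! ### open subsets of `ℂ^s` -/

section schlicht

variable {s : ℕ}

/-- `{Q ≠ 0}` -/
abbrev NZ (Q : (Fin s → ℂ) → ℂ) : Type := {v : Fin s → ℂ // Q v ≠ 0}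

/-- an open subset of `ℂ^s` as a Riemann domain -/
abbrev nzRDom {Q : (Fin s → ℂ) → ℂ} (hQ : Continuous Q) : RDom s (NZ Q) where
  p := Subtype.val
  hp := (isOpen_ne_fun hQ continuous_const).isOpenEmbedding_subtypeVal.isLocalHomeomorph

theorem locRank_of_section {Q : (Fin s → ℂ) → ℂ} {X : Type*} [TopologicalSpace X] [RDom s X]
    (V : VHS s X N w) (hX : ∀ σ, Q σ ≠ 0 → ∃ u : X, (cp u : Fin s → ℂ) = σ)
    (v : X → Fin N → ℂ) (htop : ∀ u, IsTop w (V.E u) (v u)) (hol : ∀ u, HolAt (lV V.P v u) u)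
    {Φ : (Fin s → ℂ) → ℝ} {c : ℝ} (hΦ : ∀ u : X, Φ (cp u) = c * hnsq V u (v u)) :
    LocRank N Φ Q := by
  intro σ hσ
  obtain ⟨u₀, hu₀⟩ := hX σ hσ
  set e := ch u₀ with he
  set g : (Fin s → ℂ) → Fin N → ℂ := lV V.P v u₀ ∘ e.symm with hg
  have hgan : AnalyticAt ℂ g σ := by
    have := hol u₀
    rw [← hu₀]
    exact this
  -- the local formula in the chart
  have hloc := hnsq_local V v u₀ (Eventually.of_forall htop)
  have hcont : ContinuousAt e.symm σ := by
    rw [← hu₀, ← (isCh_ch u₀).apply u₀]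
    exact e.continuousAt_symm (e.map_source (mem_ch u₀))
  have hsymm : e.symm σ = u₀ := by
    rw [← hu₀, ← (isCh_ch u₀).apply u₀]
    exact e.left_inv (mem_ch u₀)
  have hev : ∀ᶠ τ in 𝓝 σ, (hnsq V (e.symm τ) (v (e.symm τ)) : ℂ) = ∑ i, ∑ j,
      ((-1 : ℂ) ^ w * V.S u₀ j i) * g τ i * conj (g τ j) := by
    have h1 : Tendsto e.symm (𝓝 σ) (𝓝 u₀) := by
      have := hcont.tendsto
      rwa [hsymm] at this
    exact h1.eventually hloc
  have htgt : ∀ᶠ τ in 𝓝 σ, τ ∈ e.target := by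
    apply e.open_target.mem_nhds
    rw [← hu₀, ← (isCh_ch u₀).apply u₀]
    exact e.map_source (mem_ch u₀)
  have hdiff : ∀ᶠ τ in 𝓝 σ, DifferentiableAt ℂ g τ :=
    hgan.eventually_analyticAt.mono fun τ hτ => hτ.differentiableAt
  obtain ⟨δ, hδ, hball⟩ := Metric.eventually_nhds_iff_ball.1 (hev.and (htgt.and hdiff))
  refine ⟨δ, fun i τ => g τ i, fun i j => (c : ℂ) * ((-1 : ℂ) ^ w * V.S u₀ j i), hδ, ?_, ?_⟩
  · intro i τ hτ
    exact ((differentiableAt_pi.1 (hball τ hτ).2.2) i).differentiableWithinAt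
  · intro τ hτ
    obtain ⟨h1, h2, -⟩ := hball τ hτ
    have h3 : (cp (e.symm τ) : Fin s → ℂ) = τ := (isCh_ch u₀).cp_symm h2
    have h4 := hΦ (e.symm τ)
    rw [h3] at h4
    rw [h4, Complex.ofReal_mul, h1, Finset.mul_sum]
    refine Finset.sum_congr rfl fun i _ => ?_
    rw [Finset.mul_sum]
    refine Finset.sum_congr rfl fun j _ => ?_
    ring

end schlicht

end Crest.Agent.R276.FriA_39
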