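import Crest.Agent.R276.Top8f_815
import Crest.Agent.R276.FriA_39

/-!
# Row 276 (S0419), leaf SAT (helper210), LEMMA AE-ALL

`V` a variation over `X` realised on `F : FSp n d X Y` (`Rz V F ι`), `f` a holomorphic function on `Y` whose
restriction to the fibre over `u` is square integrable for a dense set of `u`.  Then it is square integrable on
EVERY fibre and the norm is continuous.
-/

set_option autoImplicit false

noncomputable section

open Set Filter Topology MeasureTheory Matrix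
open Crest.Agent.R271.Ho51 Crest.Agent.R276.Ipc735 Crest.Agent.R276.Top8_815
open Crest.Agent.R276.FriA_39 (exists_section fH_of_PB hnsq_nonneg hnsq_local)
open scoped ENNReal ComplexConjugate

namespace Crest.Agent.R276.AeAll_210

/-- the evaluation point argument, dense version -/
theorem ep_dense {E Y : Type*} [TopologicalSpace E] [TopologicalSpace Y] {ρ : ℕ} {D : Set E}
    (hD : Dense D) {π : Y → E} (hπc : Continuous π) (hπ : IsOpenMap π) {f : Y → ℂ}
    (hf : Continuous f) {φ : Fin ρ → Y → ℂ} {σ : Fin ρ → E → Y} {U : Set E} (hU : IsOpen U)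
    (hφ : ∀ k, ∀ y, π y ∈ U → ContinuousAt (φ k) y)
    (hσ : ∀ j, ∀ x ∈ U, π (σ j x) = x) (hσc : ∀ j, ∀ x ∈ U, ContinuousAt (σ j) x)
    (hdet : ∀ x ∈ U, (evM φ σ x).det ≠ 0)
    (hde : ∀ x ∈ D, x ∈ U → ∃ c : Fin ρ → ℂ, ∀ y, π y = x → f y = ∑ k, c k * φ k y) :
    ∀ x ∈ U, ∀ y, π y = x → f y = ∑ k, evC f φ σ x k * φ k y := by
  have hcc : ∀ x ∈ U, ∀ k, ContinuousAt (fun x => evC f φ σ x k) x := fun x hx k =>
    (cl_continuousAt x).evC (hdet x hx)
      (fun j k => ContinuousAt.comp (g := φ k) (hφ k _ (by rw [hσ j x hx]; exact hx)) (hσc j x hx))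
      (fun j => ContinuousAt.comp (g := f) hf.continuousAt (hσc j x hx)) k
  let F : Y → ℂ := fun y => f y - ∑ k, evC f φ σ (π y) k * φ k y
  have hF : ContinuousOn F (π ⁻¹' U) := by
    intro y hy
    have h1 : ∀ k, ContinuousAt (fun y => evC f φ σ (π y) k) y := fun k =>
      ContinuousAt.comp (g := fun x => evC f φ σ x k) (hcc (π y) hy k) hπc.continuousAt
    have h2 : ContinuousAt F y := by
      refine hf.continuousAt.sub ?_
      refine tendsto_finsetSum _ fun k _ => ?_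
      exact (h1 k).mul (hφ k y hy)
    exact h2.continuousWithinAt
  let W : Set Y := π ⁻¹' U ∩ {y | F y ≠ 0}
  have hW : IsOpen W := hF.isOpen_inter_preimage (hU.preimage hπc) isOpen_ne
  have hpW : IsOpen (π '' W) := hπ _ hW
  have hempty : ¬ (π '' W).Nonempty := by
    intro hne
    obtain ⟨x, hx1, hx2⟩ := hD.inter_open_nonempty _ hpW hne
    obtain ⟨y, ⟨hyU, hyF⟩, rfl⟩ := hx1
    obtain ⟨c, hc⟩ := hde _ hx2 hyU
    apply hyF
    have h3 := evC_eq (hdet (π y) hyU) (fun j => hσ j (π y) hyU) hc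
    simp only [F]
    rw [h3, hc y rfl, sub_self]
  intro x hx y hy
  by_contra hne
  apply hempty
  refine ⟨π y, y, ⟨by simpa [hy] using hx, ?_⟩, rfl⟩
  intro h0
  apply hne
  simp only [F, hy] at h0
  exact sub_eq_zero.1 h0

variable {n d N w : ℕ} {X Y : Type*} [TopologicalSpace X] [RDom n X] [TopologicalSpace Y]
  {V : VHS n X N w} {F : FSp n d X Y} {ι : X → (Fin N → ℂ) → Y → ℂ}

lemma isOpenMap_q (F : FSp n d X Y) : IsOpenMap F.q :=
  isOpenMap_fst.comp F.lh.isOpenMap

/-- section over the base through a point -/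
lemma exists_bsec (F : FSp n d X Y) (y : Y) : ∃ σ : X → Y, σ (F.q y) = y ∧
    ∀ᶠ u in 𝓝 (F.q y), ContinuousAt σ u ∧ F.q (σ u) = u := by
  obtain ⟨σ, h1, h2⟩ := F.exists_sec y
  have hc : Continuous fun u : X => (u, F.t y) := Continuous.prodMk_left (F.t y)
  refine ⟨fun u => σ (u, F.t y), h1, ?_⟩
  filter_upwards [hc.continuousAt.eventually h2] with u hu
  exact ⟨ContinuousAt.comp (g := σ) hu.1 hc.continuousAt, hu.2.1⟩

lemma continuous_of_PB {f : Y → ℂ} (hf : ∀ y, PB F.pc f y) : Continuous f :=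
  continuous_iff_continuousAt.2 fun y => PB.continuousAt F.continuous_pc (hf y)

/-- **AE-ALL**, finiteness -/
theorem fnorm_lt_top (hR : Rz V F ι) {f : Y → ℂ} (hf : ∀ y, PB F.pc f y) {D : Set X}
    (hD : Dense D) (hfin : ∀ u ∈ D, F.fnorm u f < ∞) (u₀ : X) : F.fnorm u₀ f < ∞ := by
  classical
  obtain ⟨ρ, e, β, he, hev⟩ := exists_frame V u₀
  let φ : Fin ρ → Y → ℂ := fun k y' => ι (F.q y') (e k (F.q y')) y'
  have hpb : ∀ᶠ u in 𝓝 u₀, ∀ k, ∀ y, F.q y = u → PB F.pc (φ k) y :=
    Filter.eventually_all.2 fun k => hR.frame_pb (he k) (hev.mono fun u h => h.1 k)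
  -- linear independence on the fibre over `u₀`
  have hli : LinearIndependent ℂ (fun k => fun y : {y // F.q y = u₀} => φ k y.1) := by
    rw [Fintype.linearIndependent_iff]
    intro g hg k
    have ht := hev.self_of_nhds.1
    have h1 : ∀ y, F.q y = u₀ → ι u₀ (∑ k, g k • e k u₀) y = ι u₀ 0 y := by
      intro y hy
      rw [hR.sum _ _ (fun i _ => ht i) hy, hR.zero hy]
      have h2 := congrFun hg ⟨y, hy⟩
      simp only [φ, Finset.sum_apply, Pi.smul_apply, smul_eq_mul, Pi.zero_apply, hy] at h2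
      exact h2
    have h2 := hR.inj (isTop_sum _ fun i _ => isTop_smul _ (ht i)) isTop_zero h1
    have h3 := congrArg (fun v => β k (cm (V.P u₀ u₀) *ᵥ v)) h2
    simp only [mulVec_sum, mulVec_smul, map_sum, map_smul, hev.self_of_nhds.2.1, mulVec_zero,
      map_zero, smul_eq_mul, mul_ite, mul_one, mul_zero, Finset.sum_ite_eq', Finset.mem_univ,
      if_true] at h3
    exact h3
  obtain ⟨yj, hdet⟩ := exists_points _ hli
  choose σ hσ0 hσe using fun j => exists_bsec F (yj j).1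
  have hyj : ∀ j, F.q (yj j).1 = u₀ := fun j => (yj j).2
  have hσ0' : ∀ j, σ j u₀ = (yj j).1 := fun j =>
    (congrArg (σ j) (hyj j).symm).trans (hσ0 j)
  have hσe' : ∀ j, ∀ᶠ u in 𝓝 u₀, ContinuousAt (σ j) u ∧ F.q (σ j u) = u := by
    intro j
    have := hσe j
    rwa [hyj j] at this
  have hcφ : ∀ j k, ContinuousAt (fun x => φ k (σ j x)) u₀ := by
    intro j k
    have h1 : PB F.pc (φ k) (σ j u₀) :=
      hpb.self_of_nhds k _ (by rw [hσ0' j]; exact hyj j)
    exact ContinuousAt.comp (g := φ k) (PB.continuousAt F.continuous_pc h1)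
      (hσe' j).self_of_nhds.1
  have hdet0 : (evM φ σ u₀).det ≠ 0 := by
    have h1 : evM φ σ u₀ = Matrix.of fun j k => φ k (yj j).1 := by
      ext j k
      simp only [evM, Matrix.of_apply, hσ0']
    rw [h1]
    exact hdet
  have hdete : ∀ᶠ u in 𝓝 u₀, (evM φ σ u).det ≠ 0 :=
    ((cl_continuousAt u₀).det fun j k => hcφ j k).eventually_ne hdet0
  have hall : ∀ᶠ u in 𝓝 u₀, ((∀ k, IsTop w (V.E u) (e k u)) ∧
      (∀ v, IsTop w (V.E u) v → v = ∑ k, β k (cm (V.P u₀ u) *ᵥ v) • e k u)) ∧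
      (∀ k, ∀ y, F.q y = u → PB F.pc (φ k) y) ∧
      (∀ j, ContinuousAt (σ j) u ∧ F.q (σ j u) = u) ∧ (evM φ σ u).det ≠ 0 := by
    filter_upwards [hev, hpb, Filter.eventually_all.2 hσe', hdete] with u h1 h2 h3 h4
    exact ⟨⟨h1.1, h1.2.2⟩, h2, h3, h4⟩
  obtain ⟨U, hU, hUo, hU0⟩ := mem_nhds_iff.1 hall
  have key := ep_dense hD F.continuous_q (isOpenMap_q F) (continuous_of_PB hf) (φ := φ) (σ := σ)
    hUo ?_ ?_ ?_ ?_ ?_ u₀ hU0
  · -- conclusion
    have ht := (hU hU0).1.1
    have h1 : ∀ y, F.q y = u₀ → f y = ι u₀ (∑ k, evC f φ σ u₀ k • e k u₀) y := by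
      intro y hy
      rw [hR.sum _ _ (fun i _ => ht i) hy, key y hy]
      refine Finset.sum_congr rfl fun k _ => ?_
      simp only [φ, hy]
    rw [F.fnorm_congr h1, hR.norm _ _ (isTop_sum _ fun i _ => isTop_smul _ (ht i))]
    exact ENNReal.ofReal_lt_top
  · intro k y hy
    exact PB.continuousAt F.continuous_pc ((hU hy).2.1 k y rfl)
  · intro j x hx
    exact ((hU hx).2.2.1 j).2
  · intro j x hx
    exact ((hU hx).2.2.1 j).1
  · intro x hx
    exact (hU hx).2.2.2
  · intro x hxD hxU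
    obtain ⟨v, hv, hvy⟩ := hR.surj x f (fH_of_PB F hf x) (hfin x hxD)
    refine ⟨fun k => β k (cm (V.P u₀ x) *ᵥ v), fun y hy => ?_⟩
    rw [← hvy y hy]
    conv_lhs => rw [(hU hxU).1.2 v hv]
    rw [hR.sum _ _ (fun i _ => (hU hxU).1.1 i) hy]
    refine Finset.sum_congr rfl fun k _ => ?_
    simp only [φ, hy]

/-- the norm of a holomorphic function is continuous -/
theorem continuous_fnorm (hR : Rz V F ι) {f : Y → ℂ} (hf : ∀ y, PB F.pc f y)
    (hfin : ∀ u, F.fnorm u f < ∞) : Continuous fun u => F.fnorm u f := by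
  obtain ⟨v, hv1, hv2, -, hv4⟩ := exists_section hR f hf hfin
  have h1 : Continuous fun u => hnsq V u (v u) := by
    refine continuous_iff_continuousAt.2 fun u₀ => ?_
    have h2 := hnsq_local V v u₀ (Eventually.of_forall hv1)
    have h3 : ContinuousAt (lV V.P v u₀) u₀ := by
      obtain ⟨g, hg, h4⟩ := holAt_iff.1 (hv2 u₀)
      have h5 : ContinuousAt (fun u => g (cp u)) u₀ :=
        ContinuousAt.comp (g := g) hg.continuousAt cp_cont.continuousAt
      exact h5.congr (h4.mono fun u hu => hu.symm)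
    have h4 : ∀ i, ContinuousAt (fun u => lV V.P v u₀ u i) u₀ := fun i =>
      (continuous_apply i).continuousAt.comp h3
    have h5 : ContinuousAt (fun u => (hnsq V u (v u) : ℂ)) u₀ := by
      refine ContinuousAt.congr ?_ (h2.mono fun u hu => hu.symm)
      refine tendsto_finsetSum _ fun i _ => tendsto_finsetSum _ fun j _ => ?_
      exact (continuousAt_const.mul (h4 i)).mul
        (Complex.continuous_conj.continuousAt.comp (h4 j))
    have h6 := Complex.continuous_re.continuousAt.comp h5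
    exact h6
  have h2 : (fun u => F.fnorm u f) = fun u => ENNReal.ofReal (hnsq V u (v u)) := by
    funext u
    rw [hv4 u, ENNReal.ofReal_toReal (hfin u).ne]
  rw [h2]
  exact ENNReal.continuous_ofReal.comp h1

/-- **AE-ALL** -/
theorem ae_all (hR : Rz V F ι) {f : Y → ℂ} (hf : ∀ y, PB F.pc f y) {D : Set X}
    (hD : Dense D) (hfin : ∀ u ∈ D, F.fnorm u f < ∞) :
    (∀ u, F.fnorm u f < ∞) ∧ Continuous fun u => F.fnorm u f :=
  ⟨fnorm_lt_top hR hf hD hfin, continuous_fnorm hR hf (fnorm_lt_top hR hf hD hfin)⟩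

end Crest.Agent.R276.AeAll_210
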