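import Mathlib
import Crest.Agent.R276.Lq_464

/-!
# R276, leaf FLATALG (helper464): growth from `L^q` integrability

`growth_of_lq` : `f` holomorphic on `{g ≠ 0} ⊆ ℂⁿ`, `∫ ‖f‖^q (1+‖ζ‖)^{-L} < ∞`, `q > 0` ⟹
`‖f ζ‖ ‖g ζ‖^b ≤ C (1+‖ζ‖)^a`.
-/

set_option autoImplicit false

open MeasureTheory Metric Set Filter Topology
open scoped ENNReal Real

namespace Crest.Agent.R276.LqG_464

variable {n : ℕ}

/-- growth and Lipschitz estimate for polynomials -/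
theorem poly_bound (g : MvPolynomial (Fin n) ℂ) : ∃ (C : ℝ) (D : ℕ), 1 ≤ C ∧
    (∀ ζ : Fin n → ℂ, ‖MvPolynomial.eval ζ g‖ ≤ C * (1 + ‖ζ‖) ^ D) ∧
    ∀ ζ w : Fin n → ℂ, ‖w‖ ≤ 1 →
      ‖MvPolynomial.eval (ζ + w) g - MvPolynomial.eval ζ g‖ ≤ C * (1 + ‖ζ‖) ^ D * ‖w‖ := by
  induction g using MvPolynomial.induction_on with
  | C a =>
    refine ⟨1 + ‖a‖, 0, by linarith [norm_nonneg a], fun ζ => ?_, fun ζ w hw => ?_⟩
    · simp only [MvPolynomial.eval_C, pow_zero, mul_one]; linarith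
    · simp only [MvPolynomial.eval_C, sub_self, norm_zero]; positivity
  | add p q hp hq =>
    obtain ⟨C1, D1, h1, h2, h3⟩ := hp
    obtain ⟨C2, D2, h4, h5, h6⟩ := hq
    have key : ∀ ζ : Fin n → ℂ, C1 * (1 + ‖ζ‖) ^ D1 + C2 * (1 + ‖ζ‖) ^ D2 ≤
        (C1 + C2) * (1 + ‖ζ‖) ^ (D1 + D2) := by
      intro ζ
      have h0 : 1 ≤ 1 + ‖ζ‖ := by linarith [norm_nonneg ζ]
      have e1 : (1 + ‖ζ‖) ^ D1 ≤ (1 + ‖ζ‖) ^ (D1 + D2) := pow_le_pow_right₀ h0 (by omega)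
      have e2 : (1 + ‖ζ‖) ^ D2 ≤ (1 + ‖ζ‖) ^ (D1 + D2) := pow_le_pow_right₀ h0 (by omega)
      nlinarith
    refine ⟨C1 + C2, D1 + D2, by linarith, fun ζ => ?_, fun ζ w hw => ?_⟩
    · rw [map_add]
      exact ((norm_add_le _ _).trans (add_le_add (h2 ζ) (h5 ζ))).trans (key ζ)
    · rw [map_add, map_add]
      have e : MvPolynomial.eval (ζ + w) p + MvPolynomial.eval (ζ + w) q -
          (MvPolynomial.eval ζ p + MvPolynomial.eval ζ q) =
          (MvPolynomial.eval (ζ + w) p - MvPolynomial.eval ζ p) +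
          (MvPolynomial.eval (ζ + w) q - MvPolynomial.eval ζ q) := by ring
      rw [e]
      refine ((norm_add_le _ _).trans (add_le_add (h3 ζ w hw) (h6 ζ w hw))).trans ?_
      rw [← add_mul]
      exact mul_le_mul_of_nonneg_right (key ζ) (norm_nonneg _)
  | mul_X p i hp =>
    obtain ⟨C1, D1, h1, h2, h3⟩ := hp
    refine ⟨3 * C1, D1 + 1, by linarith, fun ζ => ?_, fun ζ w hw => ?_⟩
    · rw [map_mul, norm_mul, MvPolynomial.eval_X]
      have e1 : ‖ζ i‖ ≤ 1 + ‖ζ‖ := (norm_le_pi_norm ζ i).trans (by linarith)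
      have e0 : 0 ≤ 1 + ‖ζ‖ := by positivity
      calc ‖MvPolynomial.eval ζ p‖ * ‖ζ i‖ ≤ (C1 * (1 + ‖ζ‖) ^ D1) * (1 + ‖ζ‖) :=
            mul_le_mul (h2 ζ) e1 (norm_nonneg _) (by positivity)
        _ = C1 * (1 + ‖ζ‖) ^ (D1 + 1) := by ring
        _ ≤ 3 * C1 * (1 + ‖ζ‖) ^ (D1 + 1) := by
          have : 0 ≤ C1 * (1 + ‖ζ‖) ^ (D1 + 1) := by positivity
          linarith
    · rw [map_mul, map_mul, MvPolynomial.eval_X, MvPolynomial.eval_X, Pi.add_apply]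
      have e : MvPolynomial.eval (ζ + w) p * (ζ i + w i) - MvPolynomial.eval ζ p * ζ i =
          (MvPolynomial.eval (ζ + w) p - MvPolynomial.eval ζ p) * ζ i +
          (MvPolynomial.eval (ζ + w) p - MvPolynomial.eval ζ p) * w i +
          MvPolynomial.eval ζ p * w i := by ring
      rw [e]
      have e1 : ‖ζ i‖ ≤ ‖ζ‖ := norm_le_pi_norm ζ i
      have e2 : ‖w i‖ ≤ ‖w‖ := norm_le_pi_norm w i
      have e0 : 0 ≤ ‖ζ‖ := norm_nonneg _
      have e3 := h3 ζ w hw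
      have e4 := h2 ζ
      set P := C1 * (1 + ‖ζ‖) ^ D1 with hP
      have hP0 : 0 ≤ P := by positivity
      have w0 : 0 ≤ ‖w‖ := norm_nonneg _
      calc _ ≤ ‖(MvPolynomial.eval (ζ + w) p - MvPolynomial.eval ζ p) * ζ i +
            (MvPolynomial.eval (ζ + w) p - MvPolynomial.eval ζ p) * w i‖ +
            ‖MvPolynomial.eval ζ p * w i‖ := norm_add_le _ _
        _ ≤ (‖(MvPolynomial.eval (ζ + w) p - MvPolynomial.eval ζ p) * ζ i‖ +
            ‖(MvPolynomial.eval (ζ + w) p - MvPolynomial.eval ζ p) * w i‖) +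
            ‖MvPolynomial.eval ζ p * w i‖ := by gcongr; exact norm_add_le _ _
        _ ≤ (P * ‖w‖ * ‖ζ‖ + P * ‖w‖ * 1) + P * ‖w‖ := by
          rw [norm_mul, norm_mul, norm_mul]
          gcongr
          exact e2.trans hw
        _ ≤ 3 * C1 * (1 + ‖ζ‖) ^ (D1 + 1) * ‖w‖ := by
          have : 3 * C1 * (1 + ‖ζ‖) ^ (D1 + 1) * ‖w‖ = 3 * (P * ‖w‖) * (1 + ‖ζ‖) := by
            rw [hP]; ring
          rw [this]
          have h7 : 0 ≤ P * ‖w‖ := by positivity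
          nlinarith

/-- volume of sup norm balls in `ℂⁿ` -/
theorem vol_ball (x : Fin n → ℂ) {r : ℝ} (hr : 0 < r) :
    volume (ball x r) = ENNReal.ofReal ((π * r ^ 2) ^ n) := by
  rw [MeasureTheory.volume_pi_ball _ hr]
  have h1 : ∀ i : Fin n, volume (ball (x i) r) = ENNReal.ofReal (π * r ^ 2) := by
    intro i
    rw [Complex.volume_ball, ENNReal.ofReal_mul Real.pi_pos.le, mul_comm, ENNReal.ofReal_pow hr.le]
    congr 1
    rw [← NNReal.coe_real_pi, ENNReal.ofReal_coe_nnreal]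
  rw [Finset.prod_congr rfl fun i _ => h1 i, Finset.prod_const, Finset.card_univ,
    Fintype.card_fin, ENNReal.ofReal_pow (by positivity)]

/-- **growth from `L^q` integrability** -/
theorem growth_of_lq {f : (Fin n → ℂ) → ℂ} {g : MvPolynomial (Fin n) ℂ}
    (hf : DifferentiableOn ℂ f {ζ | MvPolynomial.eval ζ g ≠ 0}) {q : ℝ} (hq : 0 < q) (L : ℕ)
    (hint : ∫⁻ ζ in {ζ | MvPolynomial.eval ζ g ≠ 0},
      ‖f ζ‖ₑ ^ q * ENNReal.ofReal ((1 + ‖ζ‖) ^ L)⁻¹ < ∞) :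
    ∃ (C : ℝ) (a b : ℕ), 0 ≤ C ∧ 0 < b ∧ ∀ ζ, MvPolynomial.eval ζ g ≠ 0 →
      ‖f ζ‖ * ‖MvPolynomial.eval ζ g‖ ^ b ≤ C * (1 + ‖ζ‖) ^ a := by
  obtain ⟨C, D, hC, hg1, hg2⟩ := poly_bound g
  set Ω : Set (Fin n → ℂ) := {ζ | MvPolynomial.eval ζ g ≠ 0} with hΩ
  have hΩo : IsOpen Ω := isOpen_ne.preimage (MvPolynomial.continuous_eval g)
  set I : ℝ := (∫⁻ ζ in Ω, ‖f ζ‖ₑ ^ q * ENNReal.ofReal ((1 + ‖ζ‖) ^ L)⁻¹).toReal with hI
  have hI0 : 0 ≤ I := ENNReal.toReal_nonneg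
  obtain ⟨k, hk⟩ := exists_nat_ge (1 / q)
  set E : ℝ := (4 * C ^ 2) ^ n * 2 ^ L * I with hE
  have hE0 : 0 ≤ E := by positivity
  -- pointwise estimate
  have hpt : ∀ ζ ∈ Ω, ‖f ζ‖ ^ q * ‖MvPolynomial.eval ζ g‖ ^ (2 * n) ≤
      E * (1 + ‖ζ‖) ^ (2 * D * n + L) := by
    intro ζ hζ
    have hG0 : 0 < ‖MvPolynomial.eval ζ g‖ := norm_pos_iff.2 hζ
    set G := ‖MvPolynomial.eval ζ g‖ with hG
    set S := 1 + ‖ζ‖ with hS
    have hS1 : 1 ≤ S := by rw [hS]; linarith [norm_nonneg ζ]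
    have hS0 : 0 < S := by linarith
    have hCD : 0 < C * S ^ D := by positivity
    set r : ℝ := G / (2 * (C * S ^ D)) with hr
    have hr0 : 0 < r := by positivity
    have hr1 : r ≤ 1 / 2 := by
      rw [hr, div_le_div_iff₀ (by positivity) (by norm_num)]
      have := hg1 ζ
      nlinarith
    have hsub : closedBall ζ r ⊆ Ω := by
      intro y hy
      have hw : ‖y - ζ‖ ≤ r := by simpa [dist_eq_norm] using hy
      have h1 := hg2 ζ (y - ζ) (hw.trans (hr1.trans (by norm_num)))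
      rw [add_sub_cancel] at h1
      intro h0
      have h0' : MvPolynomial.eval y g = 0 := h0
      rw [h0', zero_sub, norm_neg] at h1
      have h2 : C * S ^ D * ‖y - ζ‖ ≤ C * S ^ D * r := by gcongr
      have h3 : C * S ^ D * r = G / 2 := by rw [hr]; field_simp
      have h4 : G ≤ C * S ^ D * ‖y - ζ‖ := h1
      linarith
    have hmv := Lq_464.submean hΩo hf hsub hq
    have hle : ∫⁻ y in ball ζ r, ‖f y‖ₑ ^ q ≤ ENNReal.ofReal ((2 * S) ^ L) * ENNReal.ofReal I := by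
      calc ∫⁻ y in ball ζ r, ‖f y‖ₑ ^ q
          ≤ ∫⁻ y in ball ζ r, ENNReal.ofReal ((2 * S) ^ L) *
              (‖f y‖ₑ ^ q * ENNReal.ofReal ((1 + ‖y‖) ^ L)⁻¹) := by
            refine setLIntegral_mono' measurableSet_ball fun y hy => ?_
            have hw : ‖y - ζ‖ < r := by simpa [dist_eq_norm] using hy
            have h1 : ‖y‖ ≤ ‖y - ζ‖ + ‖ζ‖ := by
              have : y = (y - ζ) + ζ := by abel
              conv_lhs => rw [this]
              exact norm_add_le _ _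
            have h2 : 1 + ‖y‖ ≤ 2 * S := by linarith
            have h3 : (1 : ℝ) ≤ (2 * S) ^ L * ((1 + ‖y‖) ^ L)⁻¹ := by
              rw [← div_eq_mul_inv, one_le_div (by positivity)]
              gcongr
            calc ‖f y‖ₑ ^ q = 1 * ‖f y‖ₑ ^ q := by rw [one_mul]
              _ ≤ ENNReal.ofReal ((2 * S) ^ L * ((1 + ‖y‖) ^ L)⁻¹) * ‖f y‖ₑ ^ q := by
                gcongr
                rw [← ENNReal.ofReal_one]
                exact ENNReal.ofReal_le_ofReal h3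
              _ = _ := by
                rw [ENNReal.ofReal_mul (by positivity)]; ring
        _ = ENNReal.ofReal ((2 * S) ^ L) *
              ∫⁻ y in ball ζ r, ‖f y‖ₑ ^ q * ENNReal.ofReal ((1 + ‖y‖) ^ L)⁻¹ :=
            lintegral_const_mul' _ _ ENNReal.ofReal_ne_top
        _ ≤ ENNReal.ofReal ((2 * S) ^ L) * ∫⁻ y in Ω,
              ‖f y‖ₑ ^ q * ENNReal.ofReal ((1 + ‖y‖) ^ L)⁻¹ := by
            gcongr
            exact ball_subset_closedBall.trans hsub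
        _ = _ := by rw [hI, ENNReal.ofReal_toReal hint.ne]
    have h5 := hmv.trans hle
    rw [vol_ball ζ hr0, ← ENNReal.ofReal_mul (by positivity)] at h5
    have h6 : ‖f ζ‖ₑ ^ q = ENNReal.ofReal (‖f ζ‖ ^ q) := by
      rw [← ENNReal.ofReal_rpow_of_nonneg (norm_nonneg _) hq.le, ofReal_norm]
    rw [h6, ← ENNReal.ofReal_mul (by positivity), ENNReal.ofReal_le_ofReal_iff (by positivity)] at h5
    -- (π r²)ⁿ |f|^q ≤ (2S)^L I
    have h7 : (r ^ 2) ^ n * ‖f ζ‖ ^ q ≤ (2 * S) ^ L * I := by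
      refine le_trans ?_ h5
      gcongr
      have : (1 : ℝ) ≤ π := by linarith [Real.pi_gt_three]
      nlinarith [sq_nonneg r]
    have h8 : (r ^ 2) ^ n * ((4 * C ^ 2) ^ n * S ^ (2 * D * n)) = G ^ (2 * n) := by
      have e1 : r ^ 2 * (4 * C ^ 2 * S ^ (2 * D)) = G ^ 2 := by
        rw [hr, show S ^ (2 * D) = (S ^ D) ^ 2 by rw [← pow_mul, mul_comm]]
        field_simp
        ring
      calc (r ^ 2) ^ n * ((4 * C ^ 2) ^ n * S ^ (2 * D * n))
          = (r ^ 2 * (4 * C ^ 2 * S ^ (2 * D))) ^ n := by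
            rw [mul_pow (r ^ 2) (4 * C ^ 2 * S ^ (2 * D)) n, mul_pow (4 * C ^ 2) (S ^ (2 * D)) n,
              ← pow_mul S (2 * D) n]
        _ = G ^ (2 * n) := by rw [e1, ← pow_mul]
    calc ‖f ζ‖ ^ q * G ^ (2 * n)
        = ((r ^ 2) ^ n * ‖f ζ‖ ^ q) * ((4 * C ^ 2) ^ n * S ^ (2 * D * n)) := by
          rw [← h8]; ring
      _ ≤ ((2 * S) ^ L * I) * ((4 * C ^ 2) ^ n * S ^ (2 * D * n)) := by gcongr
      _ = E * S ^ (2 * D * n + L) := by
          rw [hE, pow_add, mul_pow]; ring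
  -- take the power `1/q`
  refine ⟨(C ^ (2 * n) + E) ^ k * C, (2 * D * n + L) * k + D, 2 * n * k + 1, by positivity,
    by omega, ?_⟩
  intro ζ hζ
  have hG0 : 0 < ‖MvPolynomial.eval ζ g‖ := norm_pos_iff.2 hζ
  have h1 := hpt ζ hζ
  have h2 := hg1 ζ
  set G := ‖MvPolynomial.eval ζ g‖ with hG
  set S := 1 + ‖ζ‖ with hS
  have hS1 : 1 ≤ S := by rw [hS]; linarith [norm_nonneg ζ]
  have hS0 : 0 < S := by linarith
  set a0 := 2 * D * n + L with ha0
  set X := ‖f ζ‖ with hX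
  have hX0 : 0 ≤ X := norm_nonneg _
  set Y : ℝ := (G ^ (2 * n) + E * S ^ a0) / G ^ (2 * n) with hY
  have hGn : 0 < G ^ (2 * n) := by positivity
  have hY1 : 1 ≤ Y := by
    rw [hY, one_le_div hGn]
    have : 0 ≤ E * S ^ a0 := by positivity
    linarith
  have hXY : X ^ q ≤ Y := by
    rw [hY, le_div_iff₀ hGn]
    linarith
  have hXk : X ≤ Y ^ k := by
    calc X = (X ^ q) ^ (1 / q) := by
          rw [← Real.rpow_mul hX0, mul_one_div_cancel hq.ne', Real.rpow_one]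
      _ ≤ Y ^ (1 / q) := Real.rpow_le_rpow (by positivity) hXY (by positivity)
      _ ≤ Y ^ (k : ℝ) := Real.rpow_le_rpow_of_exponent_le hY1 hk
      _ = Y ^ k := Real.rpow_natCast _ _
  have hYG : Y ^ k * G ^ (2 * n * k) = (G ^ (2 * n) + E * S ^ a0) ^ k := by
    rw [hY, pow_mul G (2 * n) k, ← mul_pow, div_mul_cancel₀ _ hGn.ne']
  have h3 : G ^ (2 * n) + E * S ^ a0 ≤ (C ^ (2 * n) + E) * S ^ a0 := by
    rw [add_mul]
    gcongr
    calc G ^ (2 * n) ≤ (C * S ^ D) ^ (2 * n) := by gcongr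
      _ = C ^ (2 * n) * S ^ (D * (2 * n)) := by rw [mul_pow, ← pow_mul]
      _ ≤ C ^ (2 * n) * S ^ a0 := by
        gcongr
        rw [ha0]; nlinarith
  calc X * G ^ (2 * n * k + 1) = (X * G ^ (2 * n * k)) * G := by ring
    _ ≤ (Y ^ k * G ^ (2 * n * k)) * (C * S ^ D) := by gcongr
    _ = (G ^ (2 * n) + E * S ^ a0) ^ k * (C * S ^ D) := by rw [hYG]
    _ ≤ ((C ^ (2 * n) + E) * S ^ a0) ^ k * (C * S ^ D) := by gcongr
    _ = (C ^ (2 * n) + E) ^ k * C * S ^ (a0 * k + D) := by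
      rw [mul_pow, ← pow_mul, pow_add]; ring

end Crest.Agent.R276.LqG_464
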