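import Mathlib
import Crest.Agent.R276.AB2_590
import Crest.Agent.R276.LqG_464

/-!
# R276, leaf FLATALG (helper464): algebraicity from `L^q` integrability, every `q > 0`

`mem_of_lq` : `F` holomorphic on `M = Hom(B,ℂ)` (`B` a domain of finite type, étale over `ℂ[z]`),
`∫_M (‖F‖ ‖u‖^N)^q (1+|z|²)^{-M} < ∞` with `u ≠ 0`, `q > 0` ⟹ `F ∈ B`.
-/

set_option autoImplicit false

open Topology Filter MeasureTheory Set
open scoped ENNReal

noncomputable section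

namespace Crest.Agent.R276.AlgLq_464

open Crest.Agent.R271 Crest.Agent.R271.Defs710 Crest.Agent.R271.AlgB956
open Crest.Agent.R276.AB2_590

variable {n : ℕ} {B : Type} [CommRing B] [Algebra ℂ B] {z : Fin n → B}

/-- pointwise `L^q` bound of the fibre sums -/
theorem HH_bound_q {θ : B} {μ : Polynomial (MvPolynomial (Fin n) ℂ)}
    {g : MvPolynomial (Fin n) ℂ} (hF : FibData z θ μ g) (G : (B →ₐ[ℂ] ℂ) → ℂ) (k : ℕ) {A : ℝ}
    {K : ℕ} (M : ℕ) {q : ℝ} (hq : 0 < q) (hA : 0 ≤ A)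
    (hgr : ∀ y : B →ₐ[ℂ] ℂ, ‖y ((qq z θ μ).coeff k)‖ ≤ A * (1 + ∑ i, ‖y (z i)‖ ^ 2) ^ K) :
    ∃ (c : ℝ) (L : ℕ), 0 ≤ c ∧ ∀ ζ : Cn n, MvPolynomial.eval ζ g ≠ 0 →
      ‖HH z θ μ g G k ζ‖ₑ ^ q ≤ ENNReal.ofReal (c * (1 + ‖ζ‖) ^ L) *
        ∑' y : Fib z ζ, ENNReal.ofReal (‖G y.1‖ ^ q / (1 + ∑ i, ‖y.1 (z i)‖ ^ 2) ^ M) := by
  obtain ⟨m, hm⟩ := exists_nat_ge ((K : ℝ) * q)
  refine ⟨((μ.natDegree : ℝ) * A) ^ q * (n + 1 : ℝ) ^ (m + M), 2 * (m + M), by positivity, ?_⟩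
  intro ζ hζ
  have hfin := (natCard_fib hF hζ).2
  have hft : Fintype (Fib z ζ) := Fintype.ofFinite _
  set S : ℝ := 1 + ∑ i, ‖ζ i‖ ^ 2 with hS
  have hS1 : 1 ≤ S := by rw [hS]; have : 0 ≤ ∑ i, ‖ζ i‖ ^ 2 := by positivity
                         linarith
  have hS0 : 0 < S := by linarith
  have hyS : ∀ y : Fib z ζ, (1 + ∑ i, ‖y.1 (z i)‖ ^ 2) = S := by
    intro y; simp only [y.2, hS]
  have hcard : Fintype.card (Fib z ζ) = μ.natDegree := by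
    rw [← Nat.card_eq_fintype_card, (natCard_fib hF hζ).1]
  -- ‖HH‖ ≤ card * A S^K * sup ‖G‖
  set T : ℝ := A * S ^ K with hT
  have hT0 : 0 ≤ T := by positivity
  have h1 : ‖HH z θ μ g G k ζ‖ ^ q ≤
      ((μ.natDegree : ℝ) * T) ^ q * ∑ y : Fib z ζ, ‖G y.1‖ ^ q := by
    by_cases hne : Nonempty (Fib z ζ)
    · obtain ⟨y0, -, hy0⟩ := Finset.exists_max_image (Finset.univ : Finset (Fib z ζ))
        (fun y => ‖G y.1‖) Finset.univ_nonempty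
      have h2 : ‖HH z θ μ g G k ζ‖ ≤ (μ.natDegree : ℝ) * T * ‖G y0.1‖ := by
        rw [HH_eq hF G k hζ]
        calc ‖∑ y : Fib z ζ, G y.1 * y.1 ((qq z θ μ).coeff k)‖
            ≤ ∑ y : Fib z ζ, ‖G y.1 * y.1 ((qq z θ μ).coeff k)‖ := norm_sum_le _ _
          _ ≤ ∑ _y : Fib z ζ, ‖G y0.1‖ * T := by
            refine Finset.sum_le_sum fun y _ => ?_
            rw [norm_mul]
            have h3 := hgr y.1
            rw [hyS] at h3
            exact mul_le_mul (hy0 y (Finset.mem_univ _)) h3 (norm_nonneg _) (norm_nonneg _)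
          _ = (μ.natDegree : ℝ) * T * ‖G y0.1‖ := by
            rw [Finset.sum_const, Finset.card_univ, hcard, nsmul_eq_mul]; ring
      calc ‖HH z θ μ g G k ζ‖ ^ q ≤ ((μ.natDegree : ℝ) * T * ‖G y0.1‖) ^ q :=
            Real.rpow_le_rpow (norm_nonneg _) h2 hq.le
        _ = ((μ.natDegree : ℝ) * T) ^ q * ‖G y0.1‖ ^ q :=
            Real.mul_rpow (by positivity) (norm_nonneg _)
        _ ≤ _ := by
          gcongr
          exact Finset.single_le_sum (f := fun y : Fib z ζ => ‖G y.1‖ ^ q)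
            (fun y _ => by positivity) (Finset.mem_univ y0)
    · have : IsEmpty (Fib z ζ) := not_nonempty_iff.1 hne
      rw [HH_eq hF G k hζ]
      simp [Real.zero_rpow hq.ne']
  have h4 : ‖HH z θ μ g G k ζ‖ₑ ^ q = ENNReal.ofReal (‖HH z θ μ g G k ζ‖ ^ q) := by
    rw [← ENNReal.ofReal_rpow_of_nonneg (norm_nonneg _) hq.le, ofReal_norm]
  rw [h4, tsum_fintype, ← ENNReal.ofReal_sum_of_nonneg (fun _ _ => by positivity),
    ← ENNReal.ofReal_mul (by positivity)]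
  apply ENNReal.ofReal_le_ofReal
  refine h1.trans ?_
  have h5 : ∑ y : Fib z ζ, ‖G y.1‖ ^ q =
      S ^ M * ∑ y : Fib z ζ, ‖G y.1‖ ^ q / (1 + ∑ i, ‖y.1 (z i)‖ ^ 2) ^ M := by
    rw [Finset.mul_sum]
    refine Finset.sum_congr rfl fun y _ => ?_
    rw [hyS]; field_simp
  rw [h5, ← mul_assoc]
  refine mul_le_mul_of_nonneg_right ?_ (Finset.sum_nonneg fun _ _ => by positivity)
  have h6 : S ≤ (n + 1 : ℝ) * (1 + ‖ζ‖) ^ 2 := AlgC956.one_add_sum_le ζ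
  have h7 : (S ^ K) ^ q ≤ S ^ m := by
    rw [← Real.rpow_natCast S K, ← Real.rpow_mul hS0.le, ← Real.rpow_natCast S m]
    exact Real.rpow_le_rpow_of_exponent_le hS1 hm
  calc ((μ.natDegree : ℝ) * T) ^ q * S ^ M
      = ((μ.natDegree : ℝ) * A) ^ q * (S ^ K) ^ q * S ^ M := by
        rw [hT, ← mul_assoc, Real.mul_rpow (by positivity) (by positivity)]
    _ ≤ ((μ.natDegree : ℝ) * A) ^ q * S ^ m * S ^ M := by gcongr
    _ = ((μ.natDegree : ℝ) * A) ^ q * S ^ (m + M) := by rw [pow_add]; ring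
    _ ≤ ((μ.natDegree : ℝ) * A) ^ q * ((n + 1 : ℝ) * (1 + ‖ζ‖) ^ 2) ^ (m + M) := by gcongr
    _ = _ := by rw [mul_pow, ← pow_mul]; ring

/-- growth of the fibre sums -/
theorem HH_growth {θ : B} {μ : Polynomial (MvPolynomial (Fin n) ℂ)}
    {g : MvPolynomial (Fin n) ℂ} (hF : FibData z θ μ g)
    (hC : ∀ y : B →ₐ[ℂ] ℂ, Nonempty (Chart z y)) {G : (B →ₐ[ℂ] ℂ) → ℂ}
    (hG : ∀ (y : B →ₐ[ℂ] ℂ) (C : Chart z y), AnalyticAt ℂ (fun ζ => G (C.s ζ)) 0) (k : ℕ)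
    {A : ℝ} {K : ℕ} (M : ℕ) {q : ℝ} (hq : 0 < q) (hA : 0 ≤ A)
    (hgr : ∀ y : B →ₐ[ℂ] ℂ, ‖y ((qq z θ μ).coeff k)‖ ≤ A * (1 + ∑ i, ‖y (z i)‖ ^ 2) ^ K)
    (hint : lintM z (fun y => ENNReal.ofReal (‖G y‖ ^ q / (1 + ∑ i, ‖y (z i)‖ ^ 2) ^ M)) < ∞) :
    ∃ (C : ℝ) (a b : ℕ), 0 ≤ C ∧ ∀ ζ, MvPolynomial.eval ζ g ≠ 0 →
      ‖HH z θ μ g G k ζ‖ * ‖MvPolynomial.eval ζ g‖ ^ b ≤ C * (1 + ‖ζ‖) ^ a := by
  obtain ⟨c, L, hc, hb⟩ := HH_bound_q hF G k M hq hA hgr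
  rw [lintM] at hint
  set Ψ : Cn n → ℝ≥0∞ := fun ζ => ∑' y : Fib z ζ,
    ENNReal.ofReal (‖G y.1‖ ^ q / (1 + ∑ i, ‖y.1 (z i)‖ ^ 2) ^ M) with hΨ
  have hopen : IsOpen {ζ : Cn n | MvPolynomial.eval ζ g ≠ 0} :=
    isOpen_ne.preimage (MvPolynomial.continuous_eval g)
  obtain ⟨C, a, b, hC0, -, h⟩ := LqG_464.growth_of_lq (f := HH z θ μ g G k) (g := g)
    (fun ζ hζ => (HH_differentiableAt hF hC hG k hζ).differentiableWithinAt) hq L (by
      calc ∫⁻ ζ in {ζ : Cn n | MvPolynomial.eval ζ g ≠ 0},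
            ‖HH z θ μ g G k ζ‖ₑ ^ q * ENNReal.ofReal ((1 + ‖ζ‖) ^ L)⁻¹
          ≤ ∫⁻ ζ in {ζ : Cn n | MvPolynomial.eval ζ g ≠ 0}, ENNReal.ofReal c * Ψ ζ := by
            refine setLIntegral_mono' hopen.measurableSet fun ζ hζ => ?_
            calc ‖HH z θ μ g G k ζ‖ₑ ^ q * ENNReal.ofReal ((1 + ‖ζ‖) ^ L)⁻¹
                ≤ (ENNReal.ofReal (c * (1 + ‖ζ‖) ^ L) * Ψ ζ) *
                  ENNReal.ofReal ((1 + ‖ζ‖) ^ L)⁻¹ := by
                  gcongr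
                  exact hb ζ hζ
              _ = (ENNReal.ofReal (c * (1 + ‖ζ‖) ^ L) *
                  ENNReal.ofReal ((1 + ‖ζ‖) ^ L)⁻¹) * Ψ ζ := by ring
              _ = ENNReal.ofReal c * Ψ ζ := by
                  rw [← ENNReal.ofReal_mul (by positivity)]
                  congr 2
                  field_simp
        _ ≤ ∫⁻ ζ, ENNReal.ofReal c * Ψ ζ := setLIntegral_le_lintegral _ _
        _ = ENNReal.ofReal c * ∫⁻ ζ, Ψ ζ := lintegral_const_mul' _ _ ENNReal.ofReal_ne_top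
        _ < ∞ := ENNReal.mul_lt_top ENNReal.ofReal_lt_top hint)
  exact ⟨C, a, b, hC0, h⟩

/-- norm comparison -/
theorem one_add_norm_le (ζ : Cn n) : 1 + ‖ζ‖ ≤ 2 * (1 + ∑ i, ‖ζ i‖ ^ 2) := by
  have h0 : 0 ≤ ∑ i, ‖ζ i‖ ^ 2 := by positivity
  have h1 : ‖ζ‖ ≤ 1 + ∑ i, ‖ζ i‖ ^ 2 := by
    rw [pi_norm_le_iff_of_nonneg (by positivity)]
    intro i
    have h2 : ‖ζ i‖ ^ 2 ≤ ∑ i, ‖ζ i‖ ^ 2 :=
      Finset.single_le_sum (f := fun i => ‖ζ i‖ ^ 2) (fun i _ => by positivity) (Finset.mem_univ i)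
    nlinarith [norm_nonneg (ζ i), sq_nonneg (‖ζ i‖ - 1)]
  linarith

/-- growth of `F` from `L^q` integrability -/
theorem growth_gen [IsDomain B] [Algebra.FiniteType ℂ B] (het : Et z) {G : (B →ₐ[ℂ] ℂ) → ℂ}
    (hG : HolB z G) (M : ℕ) {q : ℝ} (hq : 0 < q)
    (hint : lintM z (fun y => ENNReal.ofReal (‖G y‖ ^ q / (1 + ∑ i, ‖y (z i)‖ ^ 2) ^ M)) < ∞) :
    ∃ (u : B) (C : ℝ) (a : ℕ), u ≠ 0 ∧ ∀ y : B →ₐ[ℂ] ℂ,
      ‖G y‖ * ‖y u‖ ≤ C * (1 + ∑ i, ‖y (z i)‖ ^ 2) ^ a := by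
  obtain ⟨θ, μ, g, hD⟩ := Alg956.exists_fibData z het
  have hch := Rd692.nonempty_chart z het
  have hk : ∀ k, ∃ (C : ℝ) (a b : ℕ), 0 ≤ C ∧ ∀ ζ, MvPolynomial.eval ζ g ≠ 0 →
      ‖HH z θ μ g G k ζ‖ * ‖MvPolynomial.eval ζ g‖ ^ b ≤ C * (1 + ‖ζ‖) ^ a := by
    intro k
    obtain ⟨A, K, hA, hAK⟩ := AlgD956.PG_coeff hD.monic hD.root k
    exact HH_growth hD hch hG k M hq hA hAK hint
  choose C a b hC0 hC using hk
  set m := (qq z θ μ).natDegree + 1 with hm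
  -- everything is `PG`
  have hth : Alg255.PG z θ := Alg255.growthI (AlgD956.isIntegral_theta hD.monic hD.root)
  have hgPG : Alg255.PG z (MvPolynomial.aeval z g) := AlgD956.PG_aeval z g
  set bb : ℕ := 1 + ∑ k ∈ Finset.range m, b k with hbb
  -- bound of one summand
  have hsum : ∀ k ∈ Finset.range m, ∃ (C' : ℝ) (a' : ℕ), 0 ≤ C' ∧ ∀ y : B →ₐ[ℂ] ℂ,
      MvPolynomial.eval (fun i => y (z i)) g ≠ 0 →
      ‖HH z θ μ g G k (fun i => y (z i))‖ * ‖y θ‖ ^ k *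
        ‖MvPolynomial.eval (fun i => y (z i)) g‖ ^ bb ≤ C' * (1 + ∑ i, ‖y (z i)‖ ^ 2) ^ a' := by
    intro k hk
    obtain ⟨C1, K1, hC1, h1⟩ := AlgD956.PG_pow hth k
    obtain ⟨C2, K2, hC2, h2⟩ := AlgD956.PG_pow hgPG (bb - b k)
    have hbk : b k ≤ bb := by
      have : b k ≤ ∑ k ∈ Finset.range m, b k :=
        Finset.single_le_sum (f := b) (fun _ _ => Nat.zero_le _) hk
      omega
    refine ⟨C k * 2 ^ (a k) * C1 * C2, a k + K1 + K2, by have := hC0 k; positivity, fun y hy => ?_⟩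
    set ζ : Cn n := fun i => y (z i) with hζ
    set S : ℝ := 1 + ∑ i, ‖ζ i‖ ^ 2 with hS
    have hS0 : 0 < S := by positivity
    have e1 := hC k ζ hy
    have e2 : ‖y θ‖ ^ k ≤ C1 * S ^ K1 := by
      have := h1 y
      rw [map_pow, norm_pow] at this
      exact this
    have e3 : ‖MvPolynomial.eval ζ g‖ ^ (bb - b k) ≤ C2 * S ^ K2 := by
      have := h2 y
      rw [map_pow, norm_pow, comp_aeval'] at this
      exact this
    have e4 : (1 + ‖ζ‖) ^ (a k) ≤ 2 ^ (a k) * S ^ (a k) := by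
      rw [← mul_pow]
      exact pow_le_pow_left₀ (by positivity) (one_add_norm_le ζ) _
    have hsplit : ‖MvPolynomial.eval ζ g‖ ^ bb =
        ‖MvPolynomial.eval ζ g‖ ^ (b k) * ‖MvPolynomial.eval ζ g‖ ^ (bb - b k) := by
      rw [← pow_add]; congr 1; omega
    rw [hsplit]
    calc ‖HH z θ μ g G k ζ‖ * ‖y θ‖ ^ k *
          (‖MvPolynomial.eval ζ g‖ ^ (b k) * ‖MvPolynomial.eval ζ g‖ ^ (bb - b k))
        = (‖HH z θ μ g G k ζ‖ * ‖MvPolynomial.eval ζ g‖ ^ (b k)) * ‖y θ‖ ^ k *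
          ‖MvPolynomial.eval ζ g‖ ^ (bb - b k) := by ring
      _ ≤ (C k * (2 ^ (a k) * S ^ (a k))) * (C1 * S ^ K1) * (C2 * S ^ K2) := by
        have h0 := hC0 k
        have e5 := e1.trans (mul_le_mul_of_nonneg_left e4 h0)
        exact mul_le_mul (mul_le_mul e5 e2 (by positivity) (by positivity)) e3
          (by positivity) (by positivity)
      _ = C k * 2 ^ (a k) * C1 * C2 * S ^ (a k + K1 + K2) := by rw [pow_add, pow_add]; ring
  choose! C' a' hC'0 hC' using hsum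
  set aa : ℕ := ∑ k ∈ Finset.range m, a' k with haa
  refine ⟨MvPolynomial.aeval z g ^ bb * dd z θ μ, ∑ k ∈ Finset.range m, C' k, aa, ?_, ?_⟩
  · have hinj := KT661.aeval_injective z het
    refine mul_ne_zero (pow_ne_zero _ fun h => hD.g_ne (hinj ?_)) hD.der
    rw [map_zero]; exact h
  intro y
  set ζ : Cn n := fun i => y (z i) with hζ
  set S : ℝ := 1 + ∑ i, ‖ζ i‖ ^ 2 with hS
  have hS1 : 1 ≤ S := by rw [hS]; have : 0 ≤ ∑ i, ‖ζ i‖ ^ 2 := by positivity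
                         linarith
  rw [map_mul, map_pow, comp_aeval']
  have hpos : 0 ≤ ∑ k ∈ Finset.range m, C' k := Finset.sum_nonneg fun k hk => hC'0 k hk
  by_cases hy : MvPolynomial.eval ζ g = 0
  · have : ‖MvPolynomial.eval ζ g ^ bb * y (dd z θ μ)‖ = 0 := by
      rw [hy, zero_pow (by omega), zero_mul, norm_zero]
    rw [this, mul_zero]
    positivity
  · have h1 := interp hD G hy y (fun _ => rfl)
    calc ‖G y‖ * ‖MvPolynomial.eval ζ g ^ bb * y (dd z θ μ)‖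
        = ‖G y * y (dd z θ μ)‖ * ‖MvPolynomial.eval ζ g‖ ^ bb := by
          rw [norm_mul, norm_mul, norm_pow]; ring
      _ = ‖∑ k ∈ Finset.range m, HH z θ μ g G k ζ * y θ ^ k‖ * ‖MvPolynomial.eval ζ g‖ ^ bb := by
          rw [h1]
      _ ≤ (∑ k ∈ Finset.range m, ‖HH z θ μ g G k ζ‖ * ‖y θ‖ ^ k) *
            ‖MvPolynomial.eval ζ g‖ ^ bb := by
          gcongr
          refine (norm_sum_le _ _).trans (le_of_eq (Finset.sum_congr rfl fun k _ => ?_))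
          rw [norm_mul, norm_pow]
      _ = ∑ k ∈ Finset.range m, ‖HH z θ μ g G k ζ‖ * ‖y θ‖ ^ k *
            ‖MvPolynomial.eval ζ g‖ ^ bb := by rw [Finset.sum_mul]
      _ ≤ ∑ k ∈ Finset.range m, C' k * S ^ aa := by
          refine Finset.sum_le_sum fun k hk => (hC' k hk y hy).trans ?_
          have h3 : a' k ≤ aa := Finset.single_le_sum (f := a') (fun _ _ => Nat.zero_le _) hk
          have h4 := hC'0 k hk
          gcongr
      _ = (∑ k ∈ Finset.range m, C' k) * S ^ aa := by rw [Finset.sum_mul]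

/-- **ALGEBRAICITY from `L^q` integrability.** -/
theorem mem_of_lq [IsDomain B] [Algebra.FiniteType ℂ B] (het : Et z) {F : (B →ₐ[ℂ] ℂ) → ℂ}
    (hF : HolB z F) {u : B} (hu : u ≠ 0) (N M : ℕ) {q : ℝ} (hq : 0 < q)
    (hint : lintM z (fun y => ENNReal.ofReal
      ((‖F y‖ * ‖y u‖ ^ N) ^ q / (1 + ∑ i, ‖y (z i)‖ ^ 2) ^ M)) < ∞) :
    ∃ f : B, ∀ y : B →ₐ[ℂ] ℂ, F y = y f := by
  have hG : HolB z (fun y => F y * y (u ^ N)) := fun y C => (hF y C).mul (holB_ev (u ^ N) y C)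
  obtain ⟨v, C, a, hv, h⟩ := growth_gen het hG M hq (by
    convert hint using 6 with y
    rw [norm_mul, map_pow, norm_pow])
  refine mem_of_growth het hF (mul_ne_zero (pow_ne_zero N hu) hv) a 1 C fun y => ?_
  have h1 := h y
  rw [norm_mul] at h1
  rw [map_mul, norm_mul, pow_one, ← mul_assoc]
  exact h1

end Crest.Agent.R276.AlgLq_464
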