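import Crest.Agent.R276.Ann_696

/-!
# Row 276, W1 (helper986): from annuli to `LPsh`, with a dense set of good points

The kernel `b` of (C1) is controlled (closure (Cl)) only over the good points `G = {h ≠ 0}`.  The
mean inequality is available for every disc which meets `G` (centre arbitrary), against usc
majorants of `b` on `G`.  Then `ush b` is log-psh.
-/

set_option autoImplicit false
set_option linter.unusedSectionVars false

open MeasureTheory Set Metric Filter Topology
open scoped ENNReal

noncomputable section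

namespace Crest.Agent.R276.AnnG_986

open Crest.Agent.R275.FL606 Crest.Agent.R271.Ho51 Crest.Agent.R273.Reg_844
open Crest.Agent.R276.PV_159 (Ann isOpen_Ann measurableSet_Ann Ann_sub vol_Ann_lt vol_Ann_pos)
open Crest.Agent.R276.EngU_29 (LPsh)
open Crest.Agent.R276.Ann_696

variable {n : ℕ} {M : Type*} [TopologicalSpace M] [RDom n M]

/-- retraction onto the closed unit disc -/
def ret (t : ℂ) : ℂ := ((1 / max 1 ‖t‖ : ℝ) : ℂ) * t

lemma continuous_ret : Continuous ret := by
  refine (Complex.continuous_ofReal.comp ?_).mul continuous_id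
  refine continuous_const.div (continuous_const.max continuous_norm) fun t => ?_
  exact (lt_of_lt_of_le one_pos (le_max_left _ _)).ne'

lemma norm_ret (t : ℂ) : ‖ret t‖ ≤ 1 := by
  have hm : 0 < max 1 ‖t‖ := lt_of_lt_of_le one_pos (le_max_left _ _)
  unfold ret
  rw [norm_mul, Complex.norm_real, Real.norm_eq_abs, abs_of_pos (div_pos one_pos hm),
    div_mul_eq_mul_div, div_le_iff₀ hm, one_mul, one_mul]
  exact le_max_right _ _

lemma ret_eq {t : ℂ} (ht : ‖t‖ ≤ 1) : ret t = t := by
  unfold ret
  rw [max_eq_left ht, div_one, Complex.ofReal_one, one_mul]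

/-- small annuli around the centre: the mean of a usc function is at most its value plus `ε` -/
theorem le_of_small_ann {u : M → ℝ} (hu : UpperSemicontinuous u) (hub : LocB u)
    {e : OpenPartialHomeomorph M (Fin n → ℂ)} {z v : Fin n → ℂ} {R : ℝ} (hR : 1 < R)
    (hd : ∀ t : ℂ, ‖t‖ < R → z + t • v ∈ e.target) {c : ℝ}
    (hc : ∀ r2, 0 < r2 → r2 < R → c ≤ ⨍ t in Ann 0 r2, u (e.symm (z + t • v))) :
    c ≤ u (e.symm z) := by
  refine le_of_forall_gt_imp_ge_of_dense fun a ha => ?_
  have hcont : Continuous fun t : ℂ => e.symm (z + ret t • v) := by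
    refine e.symm.continuousOn.comp_continuous ?_ fun t => ?_
    · exact continuous_const.add (continuous_ret.smul continuous_const)
    · exact hd _ ((norm_ret t).trans_lt hR)
  set g : ℂ → ℝ := fun t => u (e.symm (z + ret t • v)) with hg
  have hgu : UpperSemicontinuous g := hu.comp hcont
  have hg0 : g 0 = u (e.symm z) := by
    simp only [hg]
    rw [ret_eq (by simp), zero_smul, add_zero]
  obtain ⟨K, hK⟩ : ∃ K, ∀ t, |g t| ≤ K := by
    have hcomp : IsCompact ((fun w : ℂ => e.symm (z + ret w • v)) '' closedBall 0 1) :=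
      (isCompact_closedBall (0 : ℂ) 1).image hcont
    obtain ⟨K, hK⟩ := hub.exists_bound hcomp
    refine ⟨K, fun t => hK _ ⟨ret t, ?_, ?_⟩⟩
    · rw [mem_closedBall_zero_iff]; exact norm_ret t
    · simp only
      rw [ret_eq (norm_ret t)]
  have h1 : ∀ᶠ t in 𝓝 (0 : ℂ), g t < a := hgu 0 a (show g 0 < a by rw [hg0]; exact ha)
  obtain ⟨r, hr, hball⟩ := Metric.eventually_nhds_iff.1 h1
  set r2 := min r 1 with hr2
  have hr20 : 0 < r2 := lt_min hr one_pos
  have hr21 : r2 ≤ 1 := min_le_right _ _
  refine (hc r2 hr20 (lt_of_le_of_lt hr21 hR)).trans ?_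
  have hV : 0 < volume.real (Ann 0 r2) :=
    ENNReal.toReal_pos (vol_Ann_pos le_rfl hr20).ne' (vol_Ann_lt 0 r2).ne
  have : IsFiniteMeasure (volume.restrict (Ann 0 r2)) := ⟨by
    rw [Measure.restrict_apply_univ]; exact vol_Ann_lt 0 r2⟩
  have e1 : ∫ t in Ann 0 r2, u (e.symm (z + t • v)) = ∫ t in Ann 0 r2, g t := by
    refine setIntegral_congr_fun (measurableSet_Ann 0 r2) fun t ht => ?_
    simp only [hg]
    rw [ret_eq (ht.2.le.trans hr21)]
  have hint : IntegrableOn g (Ann 0 r2) :=
    Integrable.of_bound hgu.measurable.aestronglyMeasurable K (Eventually.of_forall fun t => by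
      rw [Real.norm_eq_abs]; exact hK t)
  have h2 : ∫ t in Ann 0 r2, g t ≤ ∫ t in Ann 0 r2, a := by
    refine setIntegral_mono_on hint (integrableOn_const (vol_Ann_lt 0 r2).ne)
      (measurableSet_Ann 0 r2) fun t ht => ?_
    refine (hball ?_).le
    rw [dist_zero_right]
    exact ht.2.trans_le (min_le_left _ _)
  rw [setAverage_eq, e1, smul_eq_mul, ← div_eq_inv_mul, div_le_iff₀ hV]
  rw [setIntegral_const, smul_eq_mul] at h2
  linarith

/-- **from annuli to `LPsh`, only discs meeting a dense set `G`, only majorants on `G`** -/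
theorem lpsh_ush_good {b : M → ℝ} (h0 : ∀ x, 0 ≤ b x) (hb : ∀ x, ∃ K : ℝ, ∀ᶠ y in 𝓝 x, b y ≤ K)
    {G : Set M} (hG : Dense G)
    (hyp : ∀ e : OpenPartialHomeomorph M (Fin n → ℂ), IsCh e → ∀ (z v : Fin n → ℂ) (R : ℝ), 1 < R →
      (∀ t : ℂ, ‖t‖ < R → z + t • v ∈ e.target) →
      (∃ t : ℂ, ‖t‖ < R ∧ e.symm (z + t • v) ∈ G) →
      ∀ u : M → ℝ, UpperSemicontinuous u → LocB u →
      (∀ x ∈ G, b x ≤ Real.exp (u x)) → ∀ r1 r2 : ℝ, 0 ≤ r1 → r1 < r2 → r2 < R →
      b (e.symm z) ≤ Real.exp (⨍ t in Ann r1 r2, u (e.symm (z + t • v)))) :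
    LPsh (ush b) := by
  classical
  set b' : M → ℝ := G.indicator b with hb'
  have hle : ∀ x, b' x ≤ b x := fun x => indicator_le_self' (fun _ _ => h0 x) x
  have h0' : ∀ x, 0 ≤ b' x := fun x => indicator_nonneg (fun y _ => h0 y) x
  have hbb' : ∀ x, ∃ K : ℝ, ∀ᶠ y in 𝓝 x, b' y ≤ K := fun x => by
    obtain ⟨K, hK⟩ := hb x
    exact ⟨K, hK.mono fun y hy => (hle y).trans hy⟩
  have hL : LocB b := fun x => by
    obtain ⟨K, hK⟩ := hb x
    refine ⟨|K|, hK.mono fun y hy => ?_⟩
    rw [abs_of_nonneg (h0 y)]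
    exact hy.trans (le_abs_self K)
  have hL' : LocB b' := fun x => by
    obtain ⟨K, hK⟩ := hbb' x
    refine ⟨|K|, hK.mono fun y hy => ?_⟩
    rw [abs_of_nonneg (h0' y)]
    exact hy.trans (le_abs_self K)
  -- the cut off kernel
  have hpsh : LPsh (ush b') := by
    refine lpsh_ush h0' hbb' fun e he z v R hR hd u hu1 hu2 hbu r1 r2 h1 h12 h2 => ?_
    by_cases hz : e.symm z ∈ G
    · rw [hb', indicator_of_mem hz]
      refine hyp e he z v R hR hd ⟨0, by rw [norm_zero]; linarith, by simpa using hz⟩ u hu1 hu2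
        (fun x hx => ?_) r1 r2 h1 h12 h2
      have := hbu x
      rwa [hb', indicator_of_mem hx] at this
    · rw [hb', indicator_of_notMem hz]
      exact (Real.exp_pos _).le
  -- the full kernel is below
  have hkey : ∀ x, b x ≤ ush b' x := by
    intro x
    refine le_of_forall_pos_le_add fun δ hδ => ?_
    set U : M → ℝ := fun y => Real.log (ush b' y + δ) with hU
    have hup : ∀ y, 0 < ush b' y + δ := fun y => by
      have := (h0' y).trans (hL'.le_ush y)
      linarith
    have hU1 : UpperSemicontinuous U := by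
      set F : ℝ → ℝ := fun s => Real.log (max (s + δ) δ) with hF
      have hFc : Continuous F := by
        refine Continuous.log (by fun_prop) fun s => ?_
        exact (lt_of_lt_of_le hδ (le_max_right _ _)).ne'
      have hFm : Monotone F := fun s s' hs =>
        Real.log_le_log (lt_of_lt_of_le hδ (le_max_right _ _)) (max_le_max (by linarith) le_rfl)
      have hUF : U = fun y => F (ush b' y) := by
        funext y
        have := (h0' y).trans (hL'.le_ush y)
        simp only [hU, hF]
        rw [max_eq_left (by linarith)]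
      rw [hUF]
      exact hFc.comp_upperSemicontinuous hL'.ush_usc hFm
    have hU2 : LocB U := by
      intro y
      obtain ⟨K, hK⟩ := hL'.ush_locB y
      refine ⟨|Real.log δ| + |Real.log (K + δ)|, hK.mono fun w hw => ?_⟩
      have h1 := (abs_le.1 hw).2
      have hw0 := (h0' w).trans (hL'.le_ush w)
      have h2 : Real.log δ ≤ U w := Real.log_le_log hδ (by linarith)
      have h3 : U w ≤ Real.log (K + δ) := Real.log_le_log (hup w) (by linarith)
      rw [abs_le]
      constructor
      · have := neg_abs_le (Real.log δ)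
        have := abs_nonneg (Real.log (K + δ))
        linarith
      · have := le_abs_self (Real.log (K + δ))
        have := abs_nonneg (Real.log δ)
        linarith
    have hbU : ∀ y ∈ G, b y ≤ Real.exp (U y) := by
      intro y hy
      rw [hU]
      simp only
      rw [Real.exp_log (hup y)]
      have h1 : b' y = b y := indicator_of_mem hy b
      have h2 := hL'.le_ush y
      linarith
    -- the chart at `x` and a disc which meets `G`
    set e := (ch x : OpenPartialHomeomorph M (Fin n → ℂ)) with he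
    have hxs : x ∈ e.source := mem_ch x
    obtain ⟨ε, hε, hball⟩ := Metric.isOpen_iff.1 e.open_target (e x) (e.map_source hxs)
    have hopen : IsOpen (e.source ∩ e ⁻¹' ball (e x) (ε / 2)) :=
      e.isOpen_inter_preimage isOpen_ball
    obtain ⟨x1, hx1, hx1G⟩ := hG.inter_open_nonempty _ hopen
      ⟨x, hxs, mem_ball_self (by linarith)⟩
    have hvn : ‖e x1 - e x‖ < ε / 2 := by
      have := hx1.2
      rwa [mem_preimage, mem_ball, dist_eq_norm] at this
    have hd : ∀ t : ℂ, ‖t‖ < 2 → e x + t • (e x1 - e x) ∈ e.target := by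
      intro t ht
      refine hball ?_
      rw [mem_ball, dist_eq_norm, add_sub_cancel_left, norm_smul]
      have h1 : ‖t‖ * ‖e x1 - e x‖ ≤ 2 * ‖e x1 - e x‖ :=
        mul_le_mul_of_nonneg_right ht.le (norm_nonneg _)
      linarith
    have hgood : ∃ t : ℂ, ‖t‖ < 2 ∧ e.symm (e x + t • (e x1 - e x)) ∈ G := by
      refine ⟨1, by norm_num, ?_⟩
      rw [one_smul, add_sub_cancel, e.left_inv hx1.1]
      exact hx1G
    have hmean : ∀ r2 : ℝ, 0 < r2 → r2 < 2 →
        b x ≤ Real.exp (⨍ t in Ann 0 r2, U (e.symm (e x + t • (e x1 - e x)))) := by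
      intro r2 hr hr2
      have := hyp e (isCh_ch x) (e x) (e x1 - e x) 2 (by norm_num) hd hgood U hU1 hU2 hbU 0 r2
        le_rfl hr hr2
      rwa [e.left_inv hxs] at this
    rcases eq_or_lt_of_le (h0 x) with hx0 | hx0
    · rw [← hx0]; exact (hup x).le
    · have h1 : Real.log (b x) ≤ U (e.symm (e x)) := by
        refine le_of_small_ann hU1 hU2 (by norm_num) hd fun r2 hr hr2 => ?_
        rw [Real.log_le_iff_le_exp hx0]
        exact hmean r2 hr hr2
      rw [e.left_inv hxs, hU] at h1
      exact (Real.log_le_log_iff hx0 (hup x)).1 h1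
  have heq : ush b = ush b' := by
    funext x
    refine le_antisymm (ush_le_of_le hL'.ush_usc hkey x) ?_
    exact ush_le_of_le hL.ush_usc (fun y => (hle y).trans (hL.le_ush y)) x
  rw [heq]
  exact hpsh

end Crest.Agent.R276.AnnG_986
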