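import Crest.Agent.R276.PVj_159
import Crest.Agent.R276.EngU_29
import Crest.Agent.R273.PsiA_844

/-
ROW 276, task ANN (helper696).  From sub-mean inequalities over annuli (against all usc majorants) to
plurisubharmonicity of the usc regularisation.
-/

set_option autoImplicit false
set_option linter.unusedSectionVars false

open MeasureTheory Set Metric Filter Topology
open scoped ENNReal

noncomputable section

namespace Crest.Agent.R276.Ann_696

open Crest.Agent.R275.FL606 Crest.Agent.R271.Ho51 Crest.Agent.R273.Reg_844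
open Crest.Agent.R276.PV_159 (Ann isOpen_Ann measurableSet_Ann Ann_sub vol_Ann_lt vol_Ann_pos)
open Crest.Agent.R276.EngU_29 (LPsh)

/-! ### annuli shrinking to the circle -/

/-- averages over an annulus are bounded by bounds of the circle means -/
theorem avg_Ann_le {g : ℂ → ℝ} (hg : Measurable g) {K : ℝ} (hK : ∀ t, |g t| ≤ K) {r1 r2 c : ℝ}
    (h1 : 0 ≤ r1) (h : r1 < r2)
    (hc : ∀ t ∈ Ann r1 r2, ∫ θ, g (ang θ * t) ∂circ ≤ c) :
    ⨍ t in Ann r1 r2, g t ≤ c := by
  set A := Ann r1 r2 with hA
  have hAm : MeasurableSet A := measurableSet_Ann r1 r2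
  have hV : 0 < volume.real A := ENNReal.toReal_pos (vol_Ann_pos h1 h).ne' (vol_Ann_lt r1 r2).ne
  have : IsFiniteMeasure (volume.restrict A) := ⟨by
    rw [Measure.restrict_apply_univ]; exact vol_Ann_lt r1 r2⟩
  -- the rotated integrals
  have hrot : ∀ θ : ℝ, ∫ t in A, g (ang θ * t) = ∫ t in A, g t := by
    intro θ
    have hmp := (rotation (Circle.exp θ)).measurePreserving
    have hemb : MeasurableEmbedding (rotation (Circle.exp θ)) :=
      (rotation (Circle.exp θ)).toHomeomorph.measurableEmbedding
    have h2 := hmp.setIntegral_preimage_emb hemb g A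
    rw [← h2]
    have h3 : (rotation (Circle.exp θ)) ⁻¹' A = A := by
      ext t
      simp only [mem_preimage, hA, Ann, mem_ofPred_eq, LinearIsometryEquiv.norm_map]
    rw [h3]
    refine setIntegral_congr_fun hAm fun t _ => ?_
    simp [rotation_apply, ang]
  have hm : Measurable (Function.uncurry fun (t : ℂ) (θ : ℝ) => g (ang θ * t)) := by
    apply hg.comp
    have : Continuous fun p : ℂ × ℝ => ang p.2 * p.1 :=
      (continuous_ang.comp continuous_snd).mul continuous_fst
    exact this.measurable
  have hint : Integrable (Function.uncurry fun (t : ℂ) (θ : ℝ) => g (ang θ * t))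
      ((volume.restrict A).prod circ) :=
    Integrable.of_bound hm.aestronglyMeasurable K (Eventually.of_forall fun p => by
      rw [Real.norm_eq_abs]; exact hK _)
  have hswap := integral_integral_swap hint
  have hR : ∫ θ, (∫ t in A, g (ang θ * t)) ∂circ = ∫ t in A, g t := by
    simp_rw [hrot]
    simp
  rw [hR] at hswap
  have hL : ∫ t in A, (∫ θ, g (ang θ * t) ∂circ) ≤ ∫ t in A, c := by
    refine setIntegral_mono_on hint.integral_prod_left ?_ hAm hc
    exact integrableOn_const (vol_Ann_lt r1 r2).ne
  rw [hswap, setIntegral_const, smul_eq_mul] at hL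
  rw [setAverage_eq, smul_eq_mul, ← div_eq_inv_mul, div_le_iff₀ hV]
  linarith

/-- **annuli to circle** for bounded usc functions -/
theorem le_circ_of_Ann {g : ℂ → ℝ} (hg : UpperSemicontinuous g) {K : ℝ} (hK : ∀ t, |g t| ≤ K)
    {c r0 : ℝ} (hr0 : 1 < r0) (hc : ∀ r2, 1 < r2 → r2 < r0 → c ≤ ⨍ t in Ann 1 r2, g t) :
    c ≤ ∫ θ, g (ang θ) ∂circ := by
  by_contra hcon
  rw [not_le] at hcon
  obtain ⟨c', hc1, hc2⟩ := exists_between hcon
  -- circle means `< c'` near the unit circle
  have key : ∃ r2, 1 < r2 ∧ r2 < r0 ∧ ∀ t ∈ Ann 1 r2, ∫ θ, g (ang θ * t) ∂circ ≤ c' := by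
    by_contra hno
    push Not at hno
    have hs : ∀ j : ℕ, ∃ t : ℂ, 1 < ‖t‖ ∧ ‖t‖ < 1 + (r0 - 1) / (j + 2) ∧
        c' < ∫ θ, g (ang θ * t) ∂circ := by
      intro j
      have hj : (0 : ℝ) < (j : ℝ) + 2 := by positivity
      have hpos : 0 < (r0 - 1) / (j + 2) := div_pos (by linarith) hj
      have hlt : (r0 - 1) / (j + 2) < r0 - 1 := by
        rw [div_lt_iff₀ hj]
        nlinarith [(Nat.cast_nonneg j : (0 : ℝ) ≤ j)]
      obtain ⟨t, ht, ht2⟩ := hno (1 + (r0 - 1) / (j + 2)) (by linarith) (by linarith)
      exact ⟨t, ht.1, ht.2, ht2⟩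
    choose t ht1 ht2 ht3 using hs
    -- replace `t j` by its norm (rotation invariance of the circle mean)
    have hlim : Tendsto (fun j => ‖t j‖) atTop (𝓝 1) := by
      have h2 : Tendsto (fun j : ℕ => 1 + (r0 - 1) / ((j : ℝ) + 2)) atTop (𝓝 (1 + 0)) := by
        apply Tendsto.const_add
        apply Tendsto.div_atTop tendsto_const_nhds
        exact tendsto_atTop_add_const_right _ _ tendsto_natCast_atTop_atTop
      rw [add_zero] at h2
      exact tendsto_of_tendsto_of_tendsto_of_le_of_le tendsto_const_nhds h2
        (fun j => (ht1 j).le) (fun j => (ht2 j).le)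
    have hnorm : ∀ j, ∫ θ, g (ang θ * t j) ∂circ = ∫ θ, g (ang θ * (‖t j‖ : ℂ)) ∂circ := by
      intro j
      have e1 : ∀ s : ℂ, ∫ θ, g (ang θ * s) ∂circ = Real.circleAverage g 0 ‖s‖ := by
        intro s
        have h3 := av_eq_circleAverage g 0 s
        rw [av] at h3
        simp only [zero_add, smul_eq_mul] at h3
        rw [h3]
        rw [Real.circleAverage_def, Real.circleAverage_eq_integral_add (Complex.arg s)]
        congr 2
        funext θ
        congr 1
        rw [circleMap_zero, circleMap_zero]
        push_cast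
        rw [add_mul, Complex.exp_add]
        conv_lhs => rw [← Complex.norm_mul_exp_arg_mul_I s]
        simp only [one_mul]
        ring
      rw [e1, e1]
      simp
    have h4 := le_integral_of_limsup (c := c') (u := fun j θ => g (ang θ * (‖t j‖ : ℂ)))
      (U := fun θ => g (ang θ)) (K := K)
      (fun j => hg.measurable.comp (continuous_ang.mul continuous_const).measurable)
      (hg.measurable.comp continuous_ang.measurable) (fun j θ => hK _) (fun θ => hK _)
      (fun θ a ha => by
        have h5 : Tendsto (fun j => ang θ * (‖t j‖ : ℂ)) atTop (𝓝 (ang θ * ((1 : ℝ) : ℂ))) :=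
          ((Complex.continuous_ofReal.tendsto 1).comp hlim).const_mul _
        rw [Complex.ofReal_one, mul_one] at h5
        exact h5.eventually (hg _ a ha))
      (Frequently.of_forall fun j => by
        have := ht3 j
        rw [hnorm j] at this
        exact this.le)
    linarith
  obtain ⟨r2, hr1, hr2, hmean⟩ := key
  have h6 := avg_Ann_le hg.measurable hK zero_le_one hr1 hmean
  have h7 := hc r2 hr1 hr2
  linarith

/-- superadditivity of the geometric mean -/
theorem geom {Ω : Type*} [MeasurableSpace Ω] {ν : Measure Ω} [IsProbabilityMeasure ν] {u : Ω → ℝ}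
    (hu : Measurable u) {K : ℝ} (hK : ∀ x, |u x| ≤ K) {δ : ℝ} (hδ : 0 < δ) :
    Real.exp (∫ x, u x ∂ν) + δ ≤ Real.exp (∫ x, Real.log (Real.exp (u x) + δ) ∂ν) := by
  set U : Ω → ℝ := fun x => Real.log (Real.exp (u x) + δ) with hU
  have hpos : ∀ x, 0 < Real.exp (u x) + δ := fun x => by positivity
  have hUm : Measurable U := Real.measurable_log.comp ((Real.measurable_exp.comp hu).add_const δ)
  have hUe : ∀ x, Real.exp (U x) = Real.exp (u x) + δ := fun x => Real.exp_log (hpos x)
  have hUK : ∀ x, |U x| ≤ |Real.log (Real.exp (-K))| + |Real.log (Real.exp K + δ)| := by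
    intro x
    have h1 := abs_le.1 (hK x)
    have h2 : Real.log (Real.exp (-K)) ≤ U x :=
      Real.log_le_log (Real.exp_pos _) (by have := Real.exp_le_exp.2 h1.1; linarith)
    have h3 : U x ≤ Real.log (Real.exp K + δ) :=
      Real.log_le_log (hpos x) (by have := Real.exp_le_exp.2 h1.2; linarith)
    rw [abs_le]
    constructor
    · have := neg_abs_le (Real.log (Real.exp (-K)))
      have := abs_nonneg (Real.log (Real.exp K + δ))
      linarith
    · have := le_abs_self (Real.log (Real.exp K + δ))
      have := abs_nonneg (Real.log (Real.exp (-K)))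
      linarith
  have hui : Integrable u ν := Integrable.of_bound hu.aestronglyMeasurable K
    (Eventually.of_forall fun x => by rw [Real.norm_eq_abs]; exact hK x)
  have hUi : Integrable U ν := Integrable.of_bound hUm.aestronglyMeasurable _
    (Eventually.of_forall fun x => by rw [Real.norm_eq_abs]; exact hUK x)
  have hbd : ∀ {f : Ω → ℝ}, Measurable f → (∀ x, 0 ≤ f x) → (∀ x, f x ≤ 1) → Integrable f ν := by
    intro f hf h0 h1
    exact Integrable.of_bound hf.aestronglyMeasurable 1 (Eventually.of_forall fun x => by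
      rw [Real.norm_eq_abs, abs_of_nonneg (h0 x)]; exact h1 x)
  have f1 : ∀ x, Real.exp (u x - U x) = Real.exp (u x) / (Real.exp (u x) + δ) := fun x => by
    rw [Real.exp_sub, hUe]
  have f2 : ∀ x, Real.exp (Real.log δ - U x) = δ / (Real.exp (u x) + δ) := fun x => by
    rw [Real.exp_sub, hUe, Real.exp_log hδ]
  have i1 : Integrable (fun x => Real.exp (u x - U x)) ν := by
    refine hbd (Real.measurable_exp.comp (hu.sub hUm)) (fun x => (Real.exp_pos _).le) fun x => ?_
    rw [f1, div_le_one (hpos x)]; linarith
  have i2 : Integrable (fun x => Real.exp (Real.log δ - U x)) ν := by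
    refine hbd (Real.measurable_exp.comp (measurable_const.sub hUm))
      (fun x => (Real.exp_pos _).le) fun x => ?_
    rw [f2, div_le_one (hpos x)]
    have := Real.exp_pos (u x)
    linarith
  have j1 : Real.exp (∫ x, (u x - U x) ∂ν) ≤ ∫ x, Real.exp (u x - U x) ∂ν :=
    convexOn_exp.map_integral_le Real.continuous_exp.continuousOn isClosed_univ
      (Eventually.of_forall fun _ => mem_univ _) (hui.sub hUi) i1
  have j2 : Real.exp (∫ x, (Real.log δ - U x) ∂ν) ≤ ∫ x, Real.exp (Real.log δ - U x) ∂ν :=
    convexOn_exp.map_integral_le Real.continuous_exp.continuousOn isClosed_univ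
      (Eventually.of_forall fun _ => mem_univ _) ((integrable_const _).sub hUi) i2
  have hsum : (∫ x, Real.exp (u x - U x) ∂ν) + ∫ x, Real.exp (Real.log δ - U x) ∂ν = 1 := by
    rw [← integral_add i1 i2]
    have : (fun x => Real.exp (u x - U x) + Real.exp (Real.log δ - U x)) = fun _ => (1 : ℝ) := by
      funext x
      rw [f1, f2, ← add_div, div_self (hpos x).ne']
    rw [this]; simp
  rw [integral_sub hui hUi, Real.exp_sub] at j1
  rw [integral_sub (integrable_const _) hUi, Real.exp_sub, integral_const] at j2
  simp only [probReal_univ, one_smul, Real.exp_log hδ] at j2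
  have hUp := Real.exp_pos (∫ x, U x ∂ν)
  have : (Real.exp (∫ x, u x ∂ν) + δ) / Real.exp (∫ x, U x ∂ν) ≤ 1 := by
    rw [add_div, ← hsum]
    exact add_le_add j1 j2
  rwa [div_le_one hUp] at this

variable {n : ℕ} {M : Type*} [TopologicalSpace M] [RDom n M]

/-- from annuli to the circle in a chart -/
theorem le_av_of_Ann {u : M → ℝ} (hu : UpperSemicontinuous u) (hub : LocB u)
    {e : OpenPartialHomeomorph M (Fin n → ℂ)} {z v : Fin n → ℂ} {R : ℝ} (hR : 1 < R)
    (hd : ∀ t : ℂ, ‖t‖ < R → z + t • v ∈ e.target) {c : ℝ}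
    (hc : ∀ r2, 1 < r2 → r2 < R → c ≤ ⨍ t in Ann 1 r2, u (e.symm (z + t • v))) :
    c ≤ av (u ∘ e.symm) z v := by
  set R' := (1 + R) / 2 with hR'
  have hR'1 : 1 < R' := by linarith
  have hR'R : R' < R := by linarith
  have hR'0 : 0 < R' := by linarith
  -- retraction
  set ret : ℂ → ℂ := fun t => ((R' / max R' ‖t‖ : ℝ) : ℂ) * t with hret
  have hretc : Continuous ret := by
    refine (Complex.continuous_ofReal.comp ?_).mul continuous_id
    refine continuous_const.div (continuous_const.max continuous_norm) fun t => ?_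
    exact (lt_of_lt_of_le hR'0 (le_max_left _ _)).ne'
  have hretn : ∀ t, ‖ret t‖ ≤ R' := by
    intro t
    have hm : 0 < max R' ‖t‖ := lt_of_lt_of_le hR'0 (le_max_left _ _)
    rw [hret]
    simp only
    rw [norm_mul, Complex.norm_real, Real.norm_eq_abs, abs_of_pos (div_pos hR'0 hm),
      div_mul_eq_mul_div, div_le_iff₀ hm]
    exact mul_le_mul_of_nonneg_left (le_max_right _ _) hR'0.le
  have hrete : ∀ t, ‖t‖ ≤ R' → ret t = t := by
    intro t ht
    rw [hret]
    simp only
    rw [max_eq_left ht, div_self hR'0.ne', Complex.ofReal_one, one_mul]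
  have hcont : Continuous fun t : ℂ => e.symm (z + ret t • v) := by
    refine e.symm.continuousOn.comp_continuous (by fun_prop) fun t => ?_
    exact hd _ ((hretn t).trans_lt hR'R)
  set g : ℂ → ℝ := fun t => u (e.symm (z + ret t • v)) with hg
  have hgu : UpperSemicontinuous g := hu.comp hcont
  obtain ⟨K, hK⟩ : ∃ K, ∀ t, |g t| ≤ K := by
    have hcomp : IsCompact ((fun w : ℂ => e.symm (z + ret w • v)) '' closedBall 0 R') :=
      (isCompact_closedBall (0 : ℂ) R').image hcont
    obtain ⟨K, hK⟩ := hub.exists_bound hcomp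
    refine ⟨K, fun t => hK _ ⟨ret t, ?_, ?_⟩⟩
    · rw [mem_closedBall_zero_iff]; exact hretn t
    · simp only
      rw [hrete (ret t) (hretn t)]
  have h1 : c ≤ ∫ θ, g (ang θ) ∂circ := by
    refine le_circ_of_Ann hgu hK hR'1 fun r2 hr hr' => ?_
    refine (hc r2 hr (by linarith)).trans (le_of_eq ?_)
    rw [setAverage_eq, setAverage_eq]
    congr 1
    refine setIntegral_congr_fun (measurableSet_Ann 1 r2) fun t ht => ?_
    have : ‖t‖ ≤ R' := (ht.2.trans hr').le
    simp only [hg]
    rw [hrete t this]
  refine h1.trans (le_of_eq ?_)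
  unfold av
  congr 1
  funext θ
  simp only [hg, Function.comp_apply]
  rw [hrete (ang θ) (by rw [norm_ang]; exact hR'1.le)]

theorem exists_R {e : OpenPartialHomeomorph M (Fin n → ℂ)} {z v : Fin n → ℂ}
    (hd : ∀ w : ℂ, ‖w‖ ≤ 1 → z + w • v ∈ e.target) :
    ∃ R : ℝ, 1 < R ∧ ∀ t : ℂ, ‖t‖ < R → z + t • v ∈ e.target := by
  have hC : IsCompact (closedBall (0 : ℂ) 1) := isCompact_closedBall 0 1
  have hO : IsOpen ((fun w : ℂ => z + w • v) ⁻¹' e.target) :=
    e.open_target.preimage (by fun_prop)
  obtain ⟨δ, hδ, hsub⟩ := hC.exists_thickening_subset_open hO (fun w hw => hd w (by simpa using hw))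
  refine ⟨1 + δ, by linarith, fun t ht => hsub ?_⟩
  rw [mem_thickening_iff]
  rcases le_or_gt ‖t‖ 1 with h | h
  · exact ⟨t, by simpa using h, by simpa using hδ⟩
  · have ht0 : 0 < ‖t‖ := by linarith
    refine ⟨((‖t‖⁻¹ : ℝ) : ℂ) * t, ?_, ?_⟩
    · rw [mem_closedBall_zero_iff, norm_mul, Complex.norm_real, norm_inv, norm_norm,
        inv_mul_cancel₀ ht0.ne']
    · rw [dist_eq_norm]
      have : t - ((‖t‖⁻¹ : ℝ) : ℂ) * t = ((1 - ‖t‖⁻¹ : ℝ) : ℂ) * t := by push_cast; ring
      rw [this, norm_mul, Complex.norm_real, Real.norm_eq_abs, abs_of_nonneg]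
      · have : (1 - ‖t‖⁻¹) * ‖t‖ = ‖t‖ - 1 := by
          rw [sub_mul, inv_mul_cancel₀ ht0.ne', one_mul]
        rw [this]; linarith
      · have : ‖t‖⁻¹ ≤ 1 := inv_le_one_of_one_le₀ h.le
        linarith

theorem ush_log {b : M → ℝ} (h0 : ∀ x, 0 ≤ b x) (hb : LocB b) {δ : ℝ} (hδ : 0 < δ) (x : M) :
    ush (fun y => Real.log (b y + δ)) x = Real.log (ush b x + δ) := by
  have hux : 0 ≤ ush b x := (h0 x).trans (hb.le_ush x)
  apply le_antisymm
  · have hcont : ContinuousWithinAt (fun a : ℝ => Real.log (a + δ)) (Ioi (ush b x)) (ush b x) := by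
      apply ContinuousAt.continuousWithinAt
      exact (continuousAt_id.add continuousAt_const).log (by simp; linarith)
    apply ge_of_tendsto hcont.tendsto
    filter_upwards [self_mem_nhdsWithin] with a ha
    apply ush_le
    filter_upwards [hb.eventually_lt ha] with y hy
    exact Real.log_le_log (by have := h0 y; linarith) (by linarith)
  · have hS : LocB fun y => Real.log (b y + δ) := by
      intro y
      obtain ⟨K, hK⟩ := hb y
      refine ⟨|Real.log δ| + |Real.log (K + δ)|, hK.mono fun w hw => ?_⟩
      have h1 := (abs_le.1 hw).2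
      have h2 : Real.log δ ≤ Real.log (b w + δ) := Real.log_le_log hδ (by have := h0 w; linarith)
      have h3 : Real.log (b w + δ) ≤ Real.log (K + δ) :=
        Real.log_le_log (by have := h0 w; linarith) (by linarith)
      rw [abs_le]
      constructor
      · have := neg_abs_le (Real.log δ)
        have := abs_nonneg (Real.log (K + δ))
        linarith
      · have := le_abs_self (Real.log (K + δ))
        have := abs_nonneg (Real.log δ)
        linarith
    refine le_csInf (hS.nonempty x) fun a ha => ?_
    have h1 : ush b x ≤ Real.exp a - δ := by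
      apply ush_le
      filter_upwards [ha] with y hy
      have h2 : 0 < b y + δ := by have := h0 y; linarith
      have h3 : b y + δ ≤ Real.exp a := by
        rw [← Real.exp_log h2]; exact Real.exp_le_exp.2 hy
      linarith
    calc Real.log (ush b x + δ) ≤ Real.log (Real.exp a) :=
          Real.log_le_log (by linarith) (by linarith)
      _ = a := Real.log_exp a

/-- **from annuli to `LPsh`** -/
theorem lpsh_ush {b : M → ℝ} (h0 : ∀ x, 0 ≤ b x) (hb : ∀ x, ∃ K : ℝ, ∀ᶠ y in 𝓝 x, b y ≤ K)
    (hyp : ∀ e : OpenPartialHomeomorph M (Fin n → ℂ), IsCh e → ∀ (z v : Fin n → ℂ) (R : ℝ), 1 < R →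
      (∀ t : ℂ, ‖t‖ < R → z + t • v ∈ e.target) → ∀ u : M → ℝ, UpperSemicontinuous u → LocB u →
      (∀ x, b x ≤ Real.exp (u x)) → ∀ r1 r2 : ℝ, 0 ≤ r1 → r1 < r2 → r2 < R →
      b (e.symm z) ≤ Real.exp (⨍ t in Ann r1 r2, u (e.symm (z + t • v)))) :
    LPsh (ush b) := by
  have hbL : LocB b := fun x => by
    obtain ⟨K, hK⟩ := hb x
    refine ⟨|K|, hK.mono fun y hy => ?_⟩
    rw [abs_of_nonneg (h0 y)]
    exact hy.trans (le_abs_self K)
  refine ⟨fun x => (h0 x).trans (hbL.le_ush x), fun δ hδ => ?_⟩
  have hS : LocB fun y => Real.log (b y + δ) := by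
    intro y
    obtain ⟨K, hK⟩ := hbL y
    refine ⟨|Real.log δ| + |Real.log (K + δ)|, hK.mono fun w hw => ?_⟩
    have h1 := (abs_le.1 hw).2
    have h2 : Real.log δ ≤ Real.log (b w + δ) := Real.log_le_log hδ (by have := h0 w; linarith)
    have h3 : Real.log (b w + δ) ≤ Real.log (K + δ) :=
      Real.log_le_log (by have := h0 w; linarith) (by linarith)
    rw [abs_le]
    constructor
    · have := neg_abs_le (Real.log δ)
      have := abs_nonneg (Real.log (K + δ))
      linarith
    · have := le_abs_self (Real.log (K + δ))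
      have := abs_nonneg (Real.log δ)
      linarith
  have hSub : SubM fun y => Real.log (b y + δ) := by
    intro U hU1 hU2 hle e he z v hd
    obtain ⟨R, hR, hdR⟩ := exists_R hd
    obtain ⟨K, hK⟩ := exists_circ_bound hU2 hd
    have hUm : Measurable fun θ : ℝ => U (e.symm (z + ang θ • v)) :=
      (hU1.comp (continuous_circ_chart hd)).measurable
    -- for every `η ∈ (0, δ)`
    have key : ∀ η : ℝ, 0 < η → η < δ →
        Real.log (b (e.symm z) + (δ - η)) ≤ av (U ∘ e.symm) z v := by
      intro η hη hηδ
      have hpos : ∀ x, η ≤ Real.exp (U x) - δ + η := by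
        intro x
        have h1 : 0 < b x + δ := by have := h0 x; linarith
        have h2 : b x + δ ≤ Real.exp (U x) := by
          rw [← Real.exp_log h1]; exact Real.exp_le_exp.2 (hle x)
        have := h0 x
        linarith
      set F : ℝ → ℝ := fun s => Real.log (max (Real.exp s - δ + η) η) with hF
      have hFc : Continuous F := by
        refine Continuous.log (by fun_prop) fun s => ?_
        exact (lt_of_lt_of_le hη (le_max_right _ _)).ne'
      have hFm : Monotone F := by
        intro s s' hs
        apply Real.log_le_log (lt_of_lt_of_le hη (le_max_right _ _))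
        apply max_le_max _ le_rfl
        have := Real.exp_le_exp.2 hs
        linarith
      set u : M → ℝ := fun x => F (U x) with hu
      have hue : ∀ x, Real.exp (u x) = Real.exp (U x) - δ + η := by
        intro x
        simp only [hu, hF]
        rw [max_eq_left (hpos x), Real.exp_log (by have := hpos x; linarith)]
      have hu1 : UpperSemicontinuous u := hFc.comp_upperSemicontinuous hU1 hFm
      have hu2 : LocB u := by
        intro x
        obtain ⟨K', hK'⟩ := hU2 x
        refine ⟨|F (-K')| + |F K'|, hK'.mono fun y hy => ?_⟩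
        have h1 := abs_le.1 hy
        have h2 := hFm h1.1
        have h3 := hFm h1.2
        rw [abs_le]
        constructor
        · have := neg_abs_le (F (-K'))
          have := abs_nonneg (F K')
          linarith
        · have := le_abs_self (F K')
          have := abs_nonneg (F (-K'))
          linarith
      have hub : ∀ x, b x ≤ Real.exp (u x) := by
        intro x
        rw [hue]
        have h1 : 0 < b x + δ := by have := h0 x; linarith
        have h2 : b x + δ ≤ Real.exp (U x) := by
          rw [← Real.exp_log h1]; exact Real.exp_le_exp.2 (hle x)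
        linarith
      -- annuli → circle
      have h1 : b (e.symm z) ≤ Real.exp (av (u ∘ e.symm) z v) := by
        rcases eq_or_lt_of_le (h0 (e.symm z)) with hz | hz
        · rw [← hz]; exact (Real.exp_pos _).le
        · have h2 : Real.log (b (e.symm z)) ≤ av (u ∘ e.symm) z v := by
            refine le_av_of_Ann hu1 hu2 hR hdR fun r2 hr hr' => ?_
            have h3 := hyp e he z v R hR hdR u hu1 hu2 hub 1 r2 zero_le_one hr hr'
            rw [← Real.log_exp (⨍ t in Ann 1 r2, u (e.symm (z + t • v)))]
            exact Real.log_le_log hz h3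
          rw [← Real.exp_log hz]
          exact Real.exp_le_exp.2 h2
      -- Jensen
      have hum : Measurable fun θ : ℝ => u (e.symm (z + ang θ • v)) :=
        hFc.measurable.comp hUm
      have huK : ∀ θ, |u (e.symm (z + ang θ • v))| ≤ |F (-K)| + |F K| := by
        intro θ
        have h1 := abs_le.1 (hK θ)
        have h2 := hFm h1.1
        have h3 := hFm h1.2
        rw [abs_le]
        constructor
        · have := neg_abs_le (F (-K))
          have := abs_nonneg (F K)
          linarith
        · have := le_abs_self (F K)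
          have := abs_nonneg (F (-K))
          linarith
      have h4 := geom (ν := circ) hum huK (sub_pos.2 hηδ)
      have h5 : (fun θ => Real.log (Real.exp (u (e.symm (z + ang θ • v))) + (δ - η))) =
          fun θ => U (e.symm (z + ang θ • v)) := by
        funext θ
        rw [hue, show Real.exp (U (e.symm (z + ang θ • v))) - δ + η + (δ - η) =
          Real.exp (U (e.symm (z + ang θ • v))) by ring, Real.log_exp]
      rw [h5] at h4
      have h6 : b (e.symm z) + (δ - η) ≤ Real.exp (av (U ∘ e.symm) z v) := by
        refine le_trans ?_ h4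
        have : av (u ∘ e.symm) z v = ∫ θ, u (e.symm (z + ang θ • v)) ∂circ := rfl
        rw [← this]
        linarith
      calc Real.log (b (e.symm z) + (δ - η)) ≤ Real.log (Real.exp (av (U ∘ e.symm) z v)) :=
            Real.log_le_log (by have := h0 (e.symm z); linarith) h6
        _ = _ := Real.log_exp _
    have hcont : ContinuousWithinAt (fun η : ℝ => Real.log (b (e.symm z) + (δ - η)))
        (Ioo 0 δ) 0 := by
      apply ContinuousAt.continuousWithinAt
      refine ContinuousAt.log (by fun_prop) ?_
      have := h0 (e.symm z)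
      simp
      linarith
    have hne : (𝓝[Ioo 0 δ] (0 : ℝ)).NeBot := by
      apply mem_closure_iff_nhdsWithin_neBot.1
      rw [closure_Ioo hδ.ne]
      exact ⟨le_rfl, hδ.le⟩
    have h7 := le_of_tendsto hcont.tendsto (b := av (U ∘ e.symm) z v) (by
      filter_upwards [self_mem_nhdsWithin] with η hη
      exact key η hη.1 hη.2)
    simpa using h7
  have h8 := hSub.psh_ush hS
  have h9 : (ush fun y => Real.log (b y + δ)) = fun x => Real.log (ush b x + δ) :=
    funext fun x => ush_log h0 hbL hδ x
  rwa [h9] at h8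

end Crest.Agent.R276.Ann_696
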