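import Mathlib

/-!
# Auerbach bases for quasi-norms and the bound of the Bergman mass (helper999, row 276)

Formalism independent leaf of LEMMA N (post 835), step (N0).
-/

set_option linter.unusedSectionVars false

namespace Crest.Agent.R276.Aue_999

open MeasureTheory Module
open scoped ENNReal

section aue

variable {V : Type*} [NormedAddCommGroup V] [NormedSpace ℂ V] [FiniteDimensional ℂ V]

/-- lower bound of a positive continuous homogeneous function -/
theorem exists_lower (q : V → ℝ) (hq : Continuous q) (hpos : ∀ v, v ≠ 0 → 0 < q v)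
    (α : ℝ) (hα : 0 < α) (hhom : ∀ (c : ℂ) (v : V), q (c • v) = ‖c‖ ^ α * q v) :
    ∃ m : ℝ, 0 < m ∧ ∀ v, m * ‖v‖ ^ α ≤ q v := by
  have hq0 : q 0 = 0 := by
    have := hhom 0 0
    simpa [Real.zero_rpow hα.ne'] using this
  have : ProperSpace V := FiniteDimensional.proper ℂ V
  by_cases hne : (Metric.sphere (0 : V) 1).Nonempty
  · obtain ⟨v0, hv0, hmin⟩ := (isCompact_sphere (0 : V) 1).exists_isMinOn hne hq.continuousOn
    have hv0' : v0 ≠ 0 := by
      intro h
      rw [h] at hv0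
      simp at hv0
    refine ⟨q v0, hpos v0 hv0', fun v => ?_⟩
    by_cases hv : v = 0
    · simp [hv, hq0, Real.zero_rpow hα.ne']
    · have hnv : 0 < ‖v‖ := norm_pos_iff.mpr hv
      have hmem : ((‖v‖⁻¹ : ℝ) : ℂ) • v ∈ Metric.sphere (0 : V) 1 := by
        simp [norm_smul, hnv.ne']
      have h1 := hmin hmem
      have h2 : q v = ‖v‖ ^ α * q (((‖v‖⁻¹ : ℝ) : ℂ) • v) := by
        rw [hhom]
        rw [← mul_assoc]
        have : ‖v‖ ^ α * ‖((‖v‖⁻¹ : ℝ) : ℂ)‖ ^ α = 1 := by
          rw [← Real.mul_rpow (norm_nonneg _) (norm_nonneg _)]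
          simp [hnv.ne']
        rw [this, one_mul]
      rw [h2, mul_comm]
      exact mul_le_mul_of_nonneg_left h1 (by positivity)
  · refine ⟨1, one_pos, fun v => ?_⟩
    have hv : v = 0 := by
      by_contra hv
      apply hne
      refine ⟨((‖v‖⁻¹ : ℝ) : ℂ) • v, ?_⟩
      have hnv : 0 < ‖v‖ := norm_pos_iff.mpr hv
      simp [norm_smul, hnv.ne']
    simp [hv, hq0, Real.zero_rpow hα.ne']

/-- the unit ball of a positive continuous homogeneous function is compact -/
theorem isCompact_ball (q : V → ℝ) (hq : Continuous q) (hpos : ∀ v, v ≠ 0 → 0 < q v)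
    (α : ℝ) (hα : 0 < α) (hhom : ∀ (c : ℂ) (v : V), q (c • v) = ‖c‖ ^ α * q v) :
    IsCompact {v | q v ≤ 1} := by
  have : ProperSpace V := FiniteDimensional.proper ℂ V
  obtain ⟨m, hm, hle⟩ := exists_lower q hq hpos α hα hhom
  refine Metric.isCompact_of_isClosed_isBounded (isClosed_le hq continuous_const) ?_
  refine (Metric.isBounded_closedBall (x := (0 : V)) (r := (1 / m) ^ (1 / α))).subset ?_
  intro v hv
  have h1 : m * ‖v‖ ^ α ≤ 1 := (hle v).trans hv
  have h2 : ‖v‖ ^ α ≤ 1 / m := by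
    rw [le_div_iff₀ hm]; linarith
  have h3 : (‖v‖ ^ α) ^ (1 / α) ≤ (1 / m) ^ (1 / α) :=
    Real.rpow_le_rpow (by positivity) h2 (by positivity)
  rw [← Real.rpow_mul (norm_nonneg _), mul_one_div_cancel hα.ne', Real.rpow_one] at h3
  simpa using h3

/-- AUERBACH BASIS for a continuous positive homogeneous function `q` (no convexity). -/
theorem exists_auerbach (q : V → ℝ) (hq : Continuous q) (hpos : ∀ v, v ≠ 0 → 0 < q v)
    (α : ℝ) (hα : 0 < α) (hhom : ∀ (c : ℂ) (v : V), q (c • v) = ‖c‖ ^ α * q v) :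
    ∃ b : Basis (Fin (finrank ℂ V)) ℂ V, (∀ i, q (b i) ≤ 1) ∧
      ∀ v, q v ≤ 1 → ∀ i, ‖b.repr v i‖ ≤ 1 := by
  classical
  set n := finrank ℂ V
  let e : Basis (Fin n) ℂ V := Module.finBasis ℂ V
  have hq0 : q 0 = 0 := by
    have := hhom 0 0
    simpa [Real.zero_rpow hα.ne'] using this
  have hK : IsCompact (Set.pi (Set.univ : Set (Fin n)) (fun _ => {v : V | q v ≤ 1})) :=
    isCompact_univ_pi (fun _ => isCompact_ball q hq hpos α hα hhom)
  have hne : (Set.pi (Set.univ : Set (Fin n)) (fun _ => {v : V | q v ≤ 1})).Nonempty :=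
    ⟨fun _ => 0, by intro i _; simp [hq0]⟩
  have hdet : Continuous (fun v : Fin n → V => ‖e.det v‖) := by
    apply Continuous.norm
    change Continuous (fun v : Fin n → V => Matrix.det (e.toMatrix v))
    apply Continuous.matrix_det
    apply continuous_matrix
    intro i j
    have h1 : (fun v : Fin n → V => e.toMatrix v i j) = fun v => e.coord i (v j) := by
      ext v; simp [Basis.toMatrix_apply]
    rw [h1]
    exact (LinearMap.continuous_of_finiteDimensional (e.coord i)).comp (continuous_apply j)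
  obtain ⟨b, hb, hmax⟩ := hK.exists_isMaxOn hne hdet.continuousOn
  have hbq : ∀ i, q (b i) ≤ 1 := fun i => hb i (Set.mem_univ i)
  -- the maximum is positive
  have hposdet : 0 < ‖e.det b‖ := by
    -- scaled basis
    obtain ⟨c, hc, hcq⟩ : ∃ c : ℝ, 0 < c ∧ ∀ i, q ((c : ℂ) • e i) ≤ 1 := by
      have hfin : ∃ M : ℝ, 0 < M ∧ ∀ i, q (e i) ≤ M := by
        refine ⟨1 + ∑ i, |q (e i)|, by positivity, fun i => ?_⟩
        have := Finset.single_le_sum (f := fun i => |q (e i)|) (fun i _ => abs_nonneg _)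
          (Finset.mem_univ i)
        have h2 := le_abs_self (q (e i))
        linarith
      obtain ⟨M, hM, hMle⟩ := hfin
      refine ⟨(1 / M) ^ (1 / α), by positivity, fun i => ?_⟩
      rw [hhom]
      have h1 : ‖(((1 / M) ^ (1 / α) : ℝ) : ℂ)‖ ^ α = 1 / M := by
        rw [Complex.norm_real, Real.norm_of_nonneg (by positivity),
          ← Real.rpow_mul (by positivity), one_div_mul_cancel hα.ne', Real.rpow_one]
      rw [h1]
      have := hMle i
      rw [div_mul_eq_mul_div, one_mul, div_le_one hM]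
      exact this
    have hmem : (fun i => (c : ℂ) • e i) ∈ Set.pi (Set.univ : Set (Fin n)) (fun _ => {v : V | q v ≤ 1}) :=
      fun i _ => hcq i
    have h1 := hmax hmem
    have h2 : ‖e.det (fun i => (c : ℂ) • e i)‖ = c ^ n := by
      have : e.det (fun i => (c : ℂ) • e i) = (∏ _i : Fin n, (c : ℂ)) • e.det e :=
        e.det.map_smul_univ (fun _ => (c : ℂ)) e
      rw [this, e.det_self]
      simp [abs_of_pos hc]
    have h3 : c ^ n ≤ ‖e.det b‖ := by
      rw [← h2]; exact h1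
    exact lt_of_lt_of_le (by positivity) h3
  have hdne : e.det b ≠ 0 := by
    intro h; rw [h] at hposdet; simp at hposdet
  obtain ⟨hli, hsp⟩ := (e.is_basis_iff_det (v := b)).mpr (IsUnit.mk0 _ hdne)
  refine ⟨Basis.mk hli hsp.ge, fun i => by simpa using hbq i, fun v hv i => ?_⟩
  have h1 := e.det_smul_mk_coord_eq_det_update hli hsp.ge i
  have h2 : e.det b * (Basis.mk hli hsp.ge).repr v i = e.det (Function.update b i v) := by
    have := congrArg (fun f => f v) h1
    simpa using this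
  have hmem : Function.update b i v ∈ Set.pi (Set.univ : Set (Fin n)) (fun _ => {v : V | q v ≤ 1}) := by
    intro j _
    by_cases hj : j = i
    · subst hj; simpa using hv
    · rw [Function.update_of_ne hj]
      exact hbq j
  have h3 : ‖e.det (Function.update b i v)‖ ≤ ‖e.det b‖ := hmax hmem
  rw [← h2, norm_mul] at h3
  exact le_of_mul_le_mul_left (by linarith) hposdet

end aue

/-! ## The norms `∫ |v|^α`, `0 < α ≤ 1` -/

section pint

variable {X : Type*} [MeasurableSpace X] (μ : Measure X)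
variable {V : Type*} [NormedAddCommGroup V] [NormedSpace ℂ V] [FiniteDimensional ℂ V]
variable (ev : X → V →ₗ[ℂ] ℂ) (α : ℝ)

/-- `p(v) = ∫ |v|^α` -/
noncomputable def pint (v : V) : ℝ≥0∞ := ∫⁻ x, ENNReal.ofReal (‖ev x v‖ ^ α) ∂μ

/-- real version of `p` -/
noncomputable def q (v : V) : ℝ := (pint μ ev α v).toReal

/-- standing hypotheses: measurable, finite, faithful -/
structure Good : Prop where
  α_pos : 0 < α
  α_le : α ≤ 1
  meas : ∀ v, AEMeasurable (fun x => ev x v) μ
  fin : ∀ v, pint μ ev α v ≠ ⊤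
  inj : ∀ v, pint μ ev α v = 0 → v = 0

variable {μ ev α}

theorem ofReal_q (h : Good μ ev α) (v : V) : ENNReal.ofReal (q μ ev α v) = pint μ ev α v :=
  ENNReal.ofReal_toReal (h.fin v)

theorem q_nonneg (v : V) : 0 ≤ q μ ev α v := ENNReal.toReal_nonneg

theorem q_pos (h : Good μ ev α) (v : V) (hv : v ≠ 0) : 0 < q μ ev α v := by
  refine lt_of_le_of_ne (q_nonneg v) (fun h0 => hv (h.inj v ?_))
  rw [← ofReal_q h, ← h0]; simp

theorem aemeas (h : Good μ ev α) (v : V) :
    AEMeasurable (fun x => ENNReal.ofReal (‖ev x v‖ ^ α)) μ :=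
  ENNReal.measurable_ofReal.comp_aemeasurable ((h.meas v).norm.pow_const α)

theorem pint_smul (h : Good μ ev α) (c : ℂ) (v : V) :
    pint μ ev α (c • v) = ENNReal.ofReal (‖c‖ ^ α) * pint μ ev α v := by
  unfold pint
  rw [← lintegral_const_mul'' _ (aemeas h v)]
  congr 1
  ext x
  rw [map_smul, norm_smul, Real.mul_rpow (norm_nonneg _) (norm_nonneg _),
    ENNReal.ofReal_mul (by positivity)]

theorem q_smul (h : Good μ ev α) (c : ℂ) (v : V) :
    q μ ev α (c • v) = ‖c‖ ^ α * q μ ev α v := by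
  unfold q
  rw [pint_smul h, ENNReal.toReal_mul, ENNReal.toReal_ofReal (by positivity)]

theorem rpow_add_le {a b : ℝ} (ha : 0 ≤ a) (hb : 0 ≤ b) (h0 : 0 < α) (h1 : α ≤ 1) :
    (a + b) ^ α ≤ a ^ α + b ^ α := Real.rpow_add_le_add_rpow ha hb h0.le h1

theorem pint_add_le (h : Good μ ev α) (u v : V) :
    pint μ ev α (u + v) ≤ pint μ ev α u + pint μ ev α v := by
  unfold pint
  rw [← lintegral_add_left' (aemeas h u)]
  apply lintegral_mono
  intro x
  simp only
  rw [← ENNReal.ofReal_add (by positivity) (by positivity)]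
  apply ENNReal.ofReal_le_ofReal
  rw [map_add]
  exact (Real.rpow_le_rpow (norm_nonneg _) (norm_add_le _ _) h.α_pos.le).trans
    (rpow_add_le (norm_nonneg _) (norm_nonneg _) h.α_pos h.α_le)

theorem q_add_le (h : Good μ ev α) (u v : V) :
    q μ ev α (u + v) ≤ q μ ev α u + q μ ev α v := by
  unfold q
  rw [← ENNReal.toReal_add (h.fin u) (h.fin v)]
  exact ENNReal.toReal_mono (ENNReal.add_ne_top.mpr ⟨h.fin u, h.fin v⟩) (pint_add_le h u v)

theorem q_sum_le (h : Good μ ev α) {ι : Type*} (s : Finset ι) (f : ι → V) :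
    q μ ev α (∑ i ∈ s, f i) ≤ ∑ i ∈ s, q μ ev α (f i) := by
  classical
  induction s using Finset.induction_on with
  | empty =>
      have : q μ ev α (0 : V) = 0 := by
        have := q_smul h 0 (0 : V)
        simpa [Real.zero_rpow h.α_pos.ne'] using this
      simp [this]
  | insert a s ha ih =>
      rw [Finset.sum_insert ha, Finset.sum_insert ha]
      exact (q_add_le h _ _).trans (by linarith)

theorem q_continuous (h : Good μ ev α) : Continuous (q μ ev α) := by
  classical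
  let e : Basis (Fin (finrank ℂ V)) ℂ V := Module.finBasis ℂ V
  -- bound near zero
  have hbd : ∀ w : V, q μ ev α w ≤ ∑ i, ‖e.coord i w‖ ^ α * q μ ev α (e i) := by
    intro w
    conv_lhs => rw [← e.sum_repr w]
    refine (q_sum_le h _ _).trans (Finset.sum_le_sum fun i _ => ?_)
    rw [q_smul h]
    simp
  have habs : ∀ u v : V, |q μ ev α u - q μ ev α v| ≤ q μ ev α (u - v) := by
    intro u v
    rw [abs_sub_le_iff]
    constructor
    · have := q_add_le h (u - v) v
      rw [sub_add_cancel] at this; linarith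
    · have := q_add_le h (v - u) u
      rw [sub_add_cancel] at this
      have h2 : q μ ev α (v - u) = q μ ev α (u - v) := by
        have := q_smul h (-1) (u - v)
        simpa using this
      linarith
  rw [continuous_iff_continuousAt]
  intro v
  rw [ContinuousAt, tendsto_iff_dist_tendsto_zero]
  have hg : Filter.Tendsto (fun u : V => ∑ i, ‖e.coord i (u - v)‖ ^ α * q μ ev α (e i))
      (nhds v) (nhds 0) := by
    have hc : Continuous (fun u : V => ∑ i, ‖e.coord i (u - v)‖ ^ α * q μ ev α (e i)) := by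
      apply continuous_finsetSum
      intro i _
      apply Continuous.mul _ continuous_const
      apply Continuous.rpow_const
      · exact ((LinearMap.continuous_of_finiteDimensional (e.coord i)).comp
          (continuous_id.sub continuous_const)).norm
      · intro u; right; exact h.α_pos.le
    have := hc.tendsto v
    simpa [Real.zero_rpow h.α_pos.ne'] using this
  refine squeeze_zero (fun _ => dist_nonneg) (fun u => ?_) hg
  rw [Real.dist_eq]
  exact (habs u v).trans (hbd _)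

/-- Auerbach basis for `p`. -/
theorem exists_basis (h : Good μ ev α) :
    ∃ b : Basis (Fin (finrank ℂ V)) ℂ V, (∀ i, q μ ev α (b i) ≤ 1) ∧
      ∀ v, q μ ev α v ≤ 1 → ∀ i, ‖b.repr v i‖ ≤ 1 :=
  exists_auerbach _ (q_continuous h) (q_pos h) α h.α_pos (q_smul h)

/-- the Bergman function is dominated by the Auerbach basis -/
theorem exists_basis_bound (h : Good μ ev α) :
    ∃ b : Basis (Fin (finrank ℂ V)) ℂ V, (∀ i, q μ ev α (b i) ≤ 1) ∧
      ∀ x v, ‖ev x v‖ ^ α ≤ q μ ev α v * ∑ i, ‖ev x (b i)‖ ^ α := by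
  obtain ⟨b, hb1, hb2⟩ := exists_basis h
  refine ⟨b, hb1, fun x v => ?_⟩
  by_cases hv : v = 0
  · have h1 : 0 ≤ q μ ev α v * ∑ i, ‖ev x (b i)‖ ^ α :=
      mul_nonneg (q_nonneg v) (Finset.sum_nonneg fun _ _ => by positivity)
    rw [hv] at h1 ⊢
    simpa [Real.zero_rpow h.α_pos.ne'] using h1
  have hq := q_pos h v hv
  set t : ℝ := (q μ ev α v) ^ (-(1 / α)) with ht
  have ht0 : 0 < t := Real.rpow_pos_of_pos hq _
  have htα : t ^ α = (q μ ev α v)⁻¹ := by
    rw [ht, ← Real.rpow_mul hq.le, neg_mul, one_div_mul_cancel h.α_pos.ne', Real.rpow_neg_one]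
  have hw : q μ ev α ((t : ℂ) • v) ≤ 1 := by
    rw [q_smul h, Complex.norm_real, Real.norm_of_nonneg ht0.le, htα]
    rw [inv_mul_cancel₀ hq.ne']
  have hc := hb2 _ hw
  have h1 : ‖ev x ((t : ℂ) • v)‖ ^ α ≤ ∑ i, ‖ev x (b i)‖ ^ α := by
    have hsum : ev x ((t : ℂ) • v) = ∑ i, b.repr ((t : ℂ) • v) i * ev x (b i) := by
      conv_lhs => rw [← b.sum_repr ((t : ℂ) • v), map_sum]
      exact Finset.sum_congr rfl fun i _ => by rw [map_smul, smul_eq_mul]
    have h2 : ‖ev x ((t : ℂ) • v)‖ ≤ ∑ i, ‖ev x (b i)‖ := by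
      rw [hsum]
      refine (norm_sum_le _ _).trans (Finset.sum_le_sum fun i _ => ?_)
      rw [norm_mul]
      have := hc i
      have h3 := norm_nonneg (ev x (b i))
      nlinarith
    refine (Real.rpow_le_rpow (norm_nonneg _) h2 h.α_pos.le).trans ?_
    have : ∀ s : Finset (Fin (finrank ℂ V)), (∑ i ∈ s, ‖ev x (b i)‖) ^ α ≤ ∑ i ∈ s, ‖ev x (b i)‖ ^ α := by
      classical
      intro s
      induction s using Finset.induction_on with
      | empty => simp [Real.zero_rpow h.α_pos.ne']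
      | insert a s ha ih =>
          rw [Finset.sum_insert ha, Finset.sum_insert ha]
          exact (rpow_add_le (norm_nonneg _) (Finset.sum_nonneg fun _ _ => norm_nonneg _)
            h.α_pos h.α_le).trans (by linarith)
    exact this _
  rw [map_smul, norm_smul, Real.mul_rpow (norm_nonneg _) (norm_nonneg _), Complex.norm_real,
    Real.norm_of_nonneg ht0.le, htα] at h1
  rw [inv_mul_le_iff₀ hq] at h1
  exact h1

/-- (N0), first half of the mass bound: any function `B` below the extremal function has mass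
at most `dim V`. -/
theorem lintegral_le_finrank (h : Good μ ev α) (B : X → ℝ≥0∞)
    (hB : ∀ x (C : ℝ), (∀ v, q μ ev α v ≤ 1 → ‖ev x v‖ ^ α ≤ C) → B x ≤ ENNReal.ofReal C) :
    ∫⁻ x, B x ∂μ ≤ (finrank ℂ V : ℝ≥0∞) := by
  obtain ⟨b, hb1, hb2⟩ := exists_basis_bound h
  have h1 : ∀ x, B x ≤ ∑ i, ENNReal.ofReal (‖ev x (b i)‖ ^ α) := by
    intro x
    rw [← ENNReal.ofReal_sum_of_nonneg (fun i _ => by positivity)]
    apply hB
    intro v hv
    refine (hb2 x v).trans ?_
    have : 0 ≤ ∑ i, ‖ev x (b i)‖ ^ α := Finset.sum_nonneg fun _ _ => by positivity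
    nlinarith
  calc ∫⁻ x, B x ∂μ ≤ ∫⁻ x, ∑ i, ENNReal.ofReal (‖ev x (b i)‖ ^ α) ∂μ := lintegral_mono h1
    _ = ∑ i, pint μ ev α (b i) := lintegral_finsetSum' _ (fun i _ => aemeas h (b i))
    _ ≤ ∑ _i : Fin (finrank ℂ V), 1 := by
        apply Finset.sum_le_sum
        intro i _
        rw [← ofReal_q h]
        simpa using hb1 i
    _ = _ := by simp

/-- (N0) upper comparison: `|σ|²_NS ≤ p(σ)^N`. -/
theorem ns_le (N : ℕ) (hN : 1 ≤ N) (hα : α = 2 / N) (h : Good μ ev α) (B : X → ℝ≥0∞)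
    (hB1 : ∀ x v, ENNReal.ofReal (‖ev x v‖ ^ α) ≤ pint μ ev α v * B x) (v : V) :
    ∫⁻ x, ENNReal.ofReal (‖ev x v‖ ^ 2) * ((B x) ^ (N - 1))⁻¹ ∂μ ≤ pint μ ev α v ^ N := by
  have hpt : ∀ x, ENNReal.ofReal (‖ev x v‖ ^ 2) * ((B x) ^ (N - 1))⁻¹ ≤
      pint μ ev α v ^ (N - 1) * ENNReal.ofReal (‖ev x v‖ ^ α) := by
    intro x
    have h2 : ENNReal.ofReal (‖ev x v‖ ^ 2) = ENNReal.ofReal (‖ev x v‖ ^ α) ^ (N - 1) *
        ENNReal.ofReal (‖ev x v‖ ^ α) := by
      rw [← pow_succ, Nat.sub_add_cancel hN, ← ENNReal.ofReal_pow (by positivity),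
        ← Real.rpow_natCast, ← Real.rpow_natCast, ← Real.rpow_mul (norm_nonneg _), hα]
      congr 2
      have : (N : ℝ) ≠ 0 := by positivity
      field_simp
      norm_num
    rw [h2, mul_assoc, mul_comm (ENNReal.ofReal (‖ev x v‖ ^ α)), ← mul_assoc]
    apply mul_le_mul_left
    calc ENNReal.ofReal (‖ev x v‖ ^ α) ^ (N - 1) * (B x ^ (N - 1))⁻¹
        ≤ (pint μ ev α v * B x) ^ (N - 1) * (B x ^ (N - 1))⁻¹ := by
          gcongr
          exact hB1 x v
      _ = pint μ ev α v ^ (N - 1) * (B x ^ (N - 1) * (B x ^ (N - 1))⁻¹) := by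
          rw [mul_pow, mul_assoc]
      _ ≤ pint μ ev α v ^ (N - 1) * 1 := by
          gcongr
          exact ENNReal.mul_inv_le_one _
      _ = _ := mul_one _
  calc _ ≤ ∫⁻ x, pint μ ev α v ^ (N - 1) * ENNReal.ofReal (‖ev x v‖ ^ α) ∂μ := lintegral_mono hpt
    _ = pint μ ev α v ^ (N - 1) * pint μ ev α v := lintegral_const_mul'' _ (aemeas h v)
    _ = pint μ ev α v ^ N := by rw [← pow_succ, Nat.sub_add_cancel hN]

/-- (N0) lower comparison: `p(σ)^N ≤ s^{N-1} |σ|²_NS`. -/
theorem pint_pow_le (N : ℕ) (hN : 1 ≤ N) (hα : α = 2 / N) (h : Good μ ev α) (B : X → ℝ≥0∞)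
    (hBm : AEMeasurable B μ)
    (hB1 : ∀ x v, ENNReal.ofReal (‖ev x v‖ ^ α) ≤ pint μ ev α v * B x)
    (hB2 : ∀ x (C : ℝ), (∀ v, q μ ev α v ≤ 1 → ‖ev x v‖ ^ α ≤ C) → B x ≤ ENNReal.ofReal C)
    (v : V) :
    pint μ ev α v ^ N ≤ (finrank ℂ V : ℝ≥0∞) ^ (N - 1) *
      ∫⁻ x, ENNReal.ofReal (‖ev x v‖ ^ 2) * ((B x) ^ (N - 1))⁻¹ ∂μ := by
  have hBI := lintegral_le_finrank h B hB2
  have hBfin : ∀ x, B x ≠ ⊤ := by
    intro x
    obtain ⟨b, hb1, hb2⟩ := exists_basis_bound h
    have := hB2 x (∑ i, ‖ev x (b i)‖ ^ α) (fun v hv => by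
      refine (hb2 x v).trans ?_
      have : 0 ≤ ∑ i, ‖ev x (b i)‖ ^ α := Finset.sum_nonneg fun _ _ => by positivity
      nlinarith)
    exact ne_top_of_le_ne_top ENNReal.ofReal_ne_top this
  rcases Nat.lt_or_ge 1 N with hN2 | hN1
  · -- Hölder with exponents N and N/(N-1)
    set I : ℝ≥0∞ := ∫⁻ x, ENNReal.ofReal (‖ev x v‖ ^ 2) * ((B x) ^ (N - 1))⁻¹ ∂μ with hI
    have hNr : (1 : ℝ) < N := by exact_mod_cast hN2
    have hN0 : (N : ℝ) ≠ 0 := by positivity
    have hpq : (N : ℝ).HolderConjugate ((N : ℝ) / (N - 1)) := by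
      rw [Real.holderConjugate_iff]
      refine ⟨hNr, ?_⟩
      have : (N : ℝ) - 1 ≠ 0 := by linarith
      field_simp
      ring
    let f : X → ℝ≥0∞ := fun x => (ENNReal.ofReal (‖ev x v‖ ^ 2) * ((B x) ^ (N - 1))⁻¹) ^ (1 / (N : ℝ))
    let g : X → ℝ≥0∞ := fun x => (B x) ^ (((N : ℝ) - 1) / N)
    have hfm : AEMeasurable f μ := by
      apply AEMeasurable.pow_const
      apply AEMeasurable.mul
      · exact ENNReal.measurable_ofReal.comp_aemeasurable ((h.meas v).norm.pow_const 2)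
      · exact (hBm.pow_const (N - 1)).inv
    have hgm : AEMeasurable g μ := hBm.pow_const _
    have hfg : ∀ x, ENNReal.ofReal (‖ev x v‖ ^ α) ≤ (f * g) x := by
      intro x
      simp only [Pi.mul_apply, f, g]
      by_cases hB0 : B x = 0
      · have := hB1 x v
        rw [hB0, mul_zero] at this
        exact this.trans zero_le
      · rw [ENNReal.mul_rpow_of_nonneg _ _ (by positivity), mul_assoc]
        have e1 : (((B x) ^ (N - 1))⁻¹) ^ (1 / (N : ℝ)) * (B x) ^ (((N : ℝ) - 1) / N) = 1 := by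
          rw [ENNReal.inv_rpow, ← ENNReal.rpow_natCast, ← ENNReal.rpow_mul]
          have : ((N - 1 : ℕ) : ℝ) * (1 / (N : ℝ)) = ((N : ℝ) - 1) / N := by
            rw [Nat.cast_sub hN]; push_cast; ring
          rw [this]
          apply ENNReal.inv_mul_cancel
          · have hpos : 0 < B x := pos_iff_ne_zero.mpr hB0
            exact (ENNReal.rpow_pos hpos (hBfin x)).ne'
          · exact ENNReal.rpow_ne_top_of_nonneg (div_nonneg (by linarith) (by positivity)) (hBfin x)
        rw [e1, mul_one, ENNReal.ofReal_rpow_of_nonneg (by positivity) (by positivity)]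
        apply ENNReal.ofReal_le_ofReal
        rw [← Real.rpow_natCast, ← Real.rpow_mul (norm_nonneg _), hα]
        apply le_of_eq
        congr 1
        push_cast
        ring
    have hH := ENNReal.lintegral_mul_le_Lp_mul_Lq μ hpq hfm hgm
    have hf1 : ∫⁻ x, f x ^ (N : ℝ) ∂μ = I := by
      rw [hI]
      congr 1
      ext x
      simp only [f]
      rw [← ENNReal.rpow_mul, one_div_mul_cancel hN0, ENNReal.rpow_one]
    have hg1 : ∫⁻ x, g x ^ ((N : ℝ) / (N - 1)) ∂μ = ∫⁻ x, B x ∂μ := by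
      congr 1
      ext x
      simp only [g]
      rw [← ENNReal.rpow_mul]
      have : ((N : ℝ) - 1) / N * (N / (N - 1)) = 1 := by
        have : (N : ℝ) - 1 ≠ 0 := by linarith
        field_simp
      rw [this, ENNReal.rpow_one]
    rw [hf1, hg1] at hH
    have h3 : pint μ ev α v ≤ I ^ (1 / (N : ℝ)) * (finrank ℂ V : ℝ≥0∞) ^ (((N : ℝ) - 1) / N) := by
      calc pint μ ev α v ≤ ∫⁻ x, (f * g) x ∂μ := lintegral_mono hfg
        _ ≤ I ^ (1 / (N : ℝ)) * (∫⁻ x, B x ∂μ) ^ (1 / ((N : ℝ) / (N - 1))) := hH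
        _ = I ^ (1 / (N : ℝ)) * (∫⁻ x, B x ∂μ) ^ (((N : ℝ) - 1) / N) := by rw [one_div_div]
        _ ≤ _ := by
            gcongr
    calc pint μ ev α v ^ N ≤ (I ^ (1 / (N : ℝ)) * (finrank ℂ V : ℝ≥0∞) ^ (((N : ℝ) - 1) / N)) ^ N := by
          gcongr
      _ = I * (finrank ℂ V : ℝ≥0∞) ^ (N - 1) := by
          rw [mul_pow, ← ENNReal.rpow_natCast, ← ENNReal.rpow_natCast, ← ENNReal.rpow_mul,
            ← ENNReal.rpow_mul, one_div_mul_cancel hN0, ENNReal.rpow_one, div_mul_cancel₀ _ hN0]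
          congr 1
          rw [← ENNReal.rpow_natCast, Nat.cast_sub hN]
          simp
      _ = _ := mul_comm _ _
  · have hN' : N = 1 := le_antisymm hN1 hN
    subst hN'
    exfalso
    have := h.α_le
    rw [hα] at this
    norm_num at this

end pint

end Crest.Agent.R276.Aue_999
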