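import Mathlib

/-!
# Averaging principle for submean functions on a torsor bundle (helper999, row 276)

LEMMA N (posts 835, 1072), step (AVG).  `P ⊆ X × E` is a principal `K`-bundle (K compact group),
`f` a continuous function on `P`, bounded above, submean along lifted discs; if every continuous
submean function on `X` which is bounded above is constant (Liouville), then all mean value
inequalities are equalities.
-/

set_option linter.unusedSectionVars false

namespace Crest.Agent.R276.Avg_999

open MeasureTheory Metric Filter Topology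
open Real (circleAverage circleAverage_const)

variable {X E K : Type*} [TopologicalSpace X] [TopologicalSpace E]
variable [Group K] [TopologicalSpace K] [IsTopologicalGroup K] [CompactSpace K]
  [MeasurableSpace K] [BorelSpace K] [MulAction K E] [ContinuousSMul K E]

/-- the total space is stable under the group, and the group is transitive on the fibres -/
structure Tor (K : Type*) {X E : Type*} [Group K] [MulAction K E] (P : Set (X × E)) : Prop where
  act : ∀ z R (g : K), (z, R) ∈ P → (z, g • R) ∈ P
  trans : ∀ z R R', (z, R) ∈ P → (z, R') ∈ P → ∃ g : K, R' = g • R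

/-- a lifted disc -/
structure IsLift (P : Set (X × E)) (d : ℂ → X) (T : ℂ → E) : Prop where
  contd : ContinuousOn d (closedBall 0 1)
  contT : ContinuousOn T (closedBall 0 1)
  mem : ∀ t ∈ closedBall (0 : ℂ) 1, (d t, T t) ∈ P

theorem circleMap_mem (θ : ℝ) : circleMap (0 : ℂ) 1 θ ∈ closedBall (0 : ℂ) 1 := by
  have := circleMap_mem_closedBall (0 : ℂ) (zero_le_one' ℝ) θ
  exact this

variable {P : Set (X × E)}

theorem cont_f {f : X × E → ℝ} (hf : ContinuousOn f P) (hP : Tor K P) {d : ℂ → X} {T : ℂ → E}
    (hd : IsLift P d T) :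
    Continuous (fun q : ℝ × K => f (d (circleMap 0 1 q.1), q.2⁻¹ • T (circleMap 0 1 q.1))) := by
  rw [← continuousOn_univ]
  refine hf.comp (t := P) ?_ ?_
  · apply ContinuousOn.prodMk
    · refine hd.contd.comp (t := closedBall (0 : ℂ) 1) ?_ ?_
      · exact ((continuous_circleMap 0 1).comp continuous_fst).continuousOn
      · intro q _; exact circleMap_mem q.1
    · apply ContinuousOn.smul
      · exact (continuous_snd.inv).continuousOn
      · refine hd.contT.comp (t := closedBall (0 : ℂ) 1) ?_ ?_
        · exact ((continuous_circleMap 0 1).comp continuous_fst).continuousOn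
        · intro q _; exact circleMap_mem q.1
  · intro q _
    exact hP.act _ _ _ (hd.mem _ (circleMap_mem q.1))

theorem cont_fg {f : X × E → ℝ} (hf : ContinuousOn f P) (hP : Tor K P) {z : X} {R : E}
    (hR : (z, R) ∈ P) : Continuous (fun g : K => f (z, g⁻¹ • R)) := by
  rw [← continuousOn_univ]
  refine hf.comp (t := P) ?_ ?_
  · apply ContinuousOn.prodMk continuousOn_const
    exact (continuous_inv.smul continuous_const).continuousOn
  · intro g _
    exact hP.act _ _ _ hR

/-- the average of `f` over the fibre -/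
noncomputable def ave (μ : Measure K) (f : X × E → ℝ) (z : X) (R : E) : ℝ :=
  ∫ g, f (z, g⁻¹ • R) ∂μ

theorem ave_indep (μ : Measure K) [μ.IsMulLeftInvariant] (hP : Tor K P) (f : X × E → ℝ)
    {z : X} {R R' : E} (hR : (z, R) ∈ P) (hR' : (z, R') ∈ P) : ave μ f z R = ave μ f z R' := by
  obtain ⟨h, rfl⟩ := hP.trans z R R' hR hR'
  unfold ave
  have := integral_mul_left_eq_self (μ := μ) (fun g : K => f (z, g⁻¹ • R)) h⁻¹
  rw [← this]
  congr 1
  ext g
  rw [mul_inv_rev, inv_inv, mul_smul]

section main

variable [T2Space K] [SecondCountableTopology K] [FirstCountableTopology X]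
  [LocallyCompactSpace X]
variable (μ : Measure K) [IsProbabilityMeasure μ] [μ.IsMulLeftInvariant] [μ.IsOpenPosMeasure]

theorem integrable_of_cont {φ : K → ℝ} (h : Continuous φ) : Integrable φ μ := by
  have := h.integrable_of_hasCompactSupport (μ := μ) (HasCompactSupport.of_compactSpace φ)
  exact this

include μ in
/-- **Averaging principle.** -/
theorem avg_eq (hP : Tor K P) (f : X × E → ℝ) (hf : ContinuousOn f P)
    (C : ℝ) (hC : ∀ p ∈ P, f p ≤ C)
    (D : Set ((ℂ → X) × (ℂ → E))) (hD : ∀ p ∈ D, IsLift P p.1 p.2)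
    (hsub : ∀ p ∈ D, ∀ g : K,
      f (p.1 0, g • p.2 0) ≤ circleAverage (fun t => f (p.1 t, g • p.2 t)) 0 1)
    (hL : ∀ A : X → ℝ, Continuous A → (∃ C, ∀ x, A x ≤ C) →
      (∀ p ∈ D, A (p.1 0) ≤ circleAverage (fun t => A (p.1 t)) 0 1) → ∀ x y, A x = A y)
    (hloc : ∀ x, ∃ U ∈ 𝓝 x, ∃ S : X → E, ContinuousOn S U ∧ ∀ z ∈ U, (z, S z) ∈ P) :
    ∀ p ∈ D, ∀ g : K,
      f (p.1 0, g • p.2 0) = circleAverage (fun t => f (p.1 t, g • p.2 t)) 0 1 := by
  classical
  -- choose a section
  have hex : ∀ x, ∃ R, (x, R) ∈ P := fun x => by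
    obtain ⟨U, hU, S, _, hS⟩ := hloc x
    exact ⟨S x, hS x (mem_of_mem_nhds hU)⟩
  choose R0 hR0 using hex
  let A : X → ℝ := fun z => ave μ f z (R0 z)
  have hA : ∀ z R, (z, R) ∈ P → A z = ave μ f z R := fun z R hR =>
    ave_indep μ hP f (hR0 z) hR
  -- continuity of A
  have hAc : Continuous A := by
    rw [continuous_iff_continuousAt]
    intro x
    obtain ⟨U, hU, S, hSc, hS⟩ := hloc x
    obtain ⟨V, hVU, hVo, hxV⟩ := mem_nhds_iff.mp hU
    have h1 : ContinuousOn (fun z => ave μ f z (S z)) V := by
      have hc : Continuous (fun q : K × V => f ((q.2 : X), q.1⁻¹ • S q.2)) := by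
        rw [← continuousOn_univ]
        refine hf.comp (t := P) ?_ ?_
        · apply ContinuousOn.prodMk
          · exact (continuous_subtype_val.comp continuous_snd).continuousOn
          · apply ContinuousOn.smul
            · exact (continuous_fst.inv).continuousOn
            · refine (hSc.mono hVU).comp (t := V) ?_ ?_
              · exact (continuous_subtype_val.comp continuous_snd).continuousOn
              · intro q _; exact q.2.2
        · intro q _
          exact hP.act _ _ _ (hS _ (hVU q.2.2))
      have hlc : LocallyCompactSpace V := hVo.locallyCompactSpace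
      have h2 : Continuous (fun z : V => ∫ g, f ((z : X), g⁻¹ • S z) ∂μ) := by
        have hc' : Continuous (Function.uncurry fun (z : V) (g : K) => f ((z : X), g⁻¹ • S z)) :=
          hc.comp continuous_swap
        have := continuous_parametric_integral_of_continuous (μ := μ) hc' (isCompact_univ (X := K))
        simpa using this
      rw [continuousOn_iff_continuous_domRestrict]
      exact h2
    have h2 : A =ᶠ[𝓝 x] fun z => ave μ f z (S z) := by
      filter_upwards [hVo.mem_nhds hxV] with z hz
      exact hA z _ (hS z (hVU hz))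
    exact (h1.continuousAt (hVo.mem_nhds hxV)).congr h2.symm
  have hAb : ∃ C, ∀ x, A x ≤ C := by
    refine ⟨C, fun x => ?_⟩
    have hi : Integrable (fun g : K => f (x, g⁻¹ • R0 x)) μ :=
      integrable_of_cont μ (cont_fg hf hP (hR0 x))
    calc A x = ∫ g, f (x, g⁻¹ • R0 x) ∂μ := rfl
      _ ≤ ∫ _g : K, C ∂μ := integral_mono hi (integrable_const C)
          (fun g => hC _ (hP.act _ _ _ (hR0 x)))
      _ = C := by simp
  -- Fubini
  have hfub : ∀ p ∈ D, circleAverage (fun t => A (p.1 t)) 0 1 =
      ∫ g, circleAverage (fun t => f (p.1 t, (g : K)⁻¹ • p.2 t)) 0 1 ∂μ := by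
    intro p hp
    have hd := hD p hp
    have hc := cont_f (K := K) hf hP hd
    simp only [circleAverage]
    have h1 : ∀ θ : ℝ, A (p.1 (circleMap 0 1 θ)) =
        ∫ g : K, f (p.1 (circleMap 0 1 θ), g⁻¹ • p.2 (circleMap 0 1 θ)) ∂μ := fun θ =>
      hA _ _ (hd.mem _ (circleMap_mem θ))
    simp only [h1]
    rw [integral_smul]
    congr 1
    rw [intervalIntegral.integral_of_le (by positivity)]
    simp only [intervalIntegral.integral_of_le (show (0 : ℝ) ≤ 2 * Real.pi by positivity)]
    rw [integral_integral_swap]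
    -- integrability on the product
    have hcomp : IsCompact (Set.Icc (0 : ℝ) (2 * Real.pi) ×ˢ (Set.univ : Set K)) :=
      isCompact_Icc.prod isCompact_univ
    have hi : IntegrableOn (fun q : ℝ × K => f (p.1 (circleMap 0 1 q.1), q.2⁻¹ • p.2 (circleMap 0 1 q.1)))
        (Set.Icc (0 : ℝ) (2 * Real.pi) ×ˢ (Set.univ : Set K)) (volume.prod μ) :=
      hc.continuousOn.integrableOn_compact hcomp
    have hi2 := hi.mono_set (Set.prod_mono Set.Ioc_subset_Icc_self (le_refl (Set.univ : Set K)))
    rw [IntegrableOn, ← Measure.prod_restrict, Measure.restrict_univ] at hi2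
    exact hi2
  have hAsub : ∀ p ∈ D, A (p.1 0) ≤ circleAverage (fun t => A (p.1 t)) 0 1 := by
    intro p hp
    have hd := hD p hp
    rw [hfub p hp, hA _ _ (hd.mem 0 (by simp))]
    unfold ave
    apply integral_mono
    · exact integrable_of_cont μ (cont_fg hf hP (hd.mem 0 (by simp)))
    · apply integrable_of_cont
      have hc := cont_f (K := K) hf hP hd
      have hc' : Continuous (Function.uncurry fun (g : K) (θ : ℝ) =>
          f (p.1 (circleMap 0 1 θ), g⁻¹ • p.2 (circleMap 0 1 θ))) := hc.comp continuous_swap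
      have := intervalIntegral.continuous_parametric_intervalIntegral_of_continuous' (μ := volume) hc' 0 (2 * Real.pi)
      change Continuous fun g : K => (2 * Real.pi)⁻¹ • ∫ (t : ℝ) in 0..2 * Real.pi,
        f (p.1 (circleMap 0 1 t), g⁻¹ • p.2 (circleMap 0 1 t))
      exact (this.const_mul ((2 * Real.pi)⁻¹))
    · intro g
      exact hsub p hp g⁻¹
  have hconst := hL A hAc hAb hAsub
  -- conclusion
  intro p hp g
  have hd := hD p hp
  have h0 : A (p.1 0) = circleAverage (fun t => A (p.1 t)) 0 1 := by
    have : (fun t => A (p.1 t)) = fun _ => A (p.1 0) := by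
      ext t; exact hconst _ _
    rw [this, circleAverage_const]
  rw [hfub p hp, hA _ _ (hd.mem 0 (by simp))] at h0
  let φ : K → ℝ := fun g => circleAverage (fun t => f (p.1 t, (g : K)⁻¹ • p.2 t)) 0 1 -
    f (p.1 0, g⁻¹ • p.2 0)
  have hφ1 : Continuous fun g : K => circleAverage (fun t => f (p.1 t, (g : K)⁻¹ • p.2 t)) 0 1 := by
    have hc := cont_f (K := K) hf hP hd
    have hc' : Continuous (Function.uncurry fun (g : K) (θ : ℝ) =>
        f (p.1 (circleMap 0 1 θ), g⁻¹ • p.2 (circleMap 0 1 θ))) := hc.comp continuous_swap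
    have := intervalIntegral.continuous_parametric_intervalIntegral_of_continuous' (μ := volume) hc' 0 (2 * Real.pi)
    change Continuous fun g : K => (2 * Real.pi)⁻¹ • ∫ (t : ℝ) in 0..2 * Real.pi,
        f (p.1 (circleMap 0 1 t), g⁻¹ • p.2 (circleMap 0 1 t))
    exact (this.const_mul ((2 * Real.pi)⁻¹))
  have hφ2 : Continuous fun g : K => f (p.1 0, g⁻¹ • p.2 0) := cont_fg hf hP (hd.mem 0 (by simp))
  have hφc : Continuous φ := hφ1.sub hφ2
  have hφ0 : 0 ≤ φ := fun g => sub_nonneg.mpr (hsub p hp g⁻¹)
  have hφi : ∫ g, φ g ∂μ = 0 := by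
    simp only [φ]
    rw [integral_sub (integrable_of_cont μ hφ1) (integrable_of_cont μ hφ2)]
    unfold ave at h0
    linarith
  have hφz : φ g⁻¹ = 0 := by
    by_contra hne
    have := hφc.integral_pos_of_hasCompactSupport_nonneg_nonzero (μ := μ)
      (HasCompactSupport.of_compactSpace φ) hφ0 hne
    linarith
  simp only [φ, inv_inv] at hφz
  linarith

end main

end Crest.Agent.R276.Avg_999
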