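import Mathlib
import Crest.Agent.R276.BC3_986
import Crest.Agent.R276.FKDefs_779

/-!
Row 276, leaf BC (boundary charts at divisorial valuations), part 4: regularity of pluricanonical
forms at the valuation ring of a divisorial model.
-/

set_option autoImplicit false

open scoped Topology BigOperators ENNReal
open Set Metric MeasureTheory

noncomputable section

namespace Crest.Agent.R276.BC_986

open Crest.Agent.R271.Defs710 Crest.Agent.R271.Bd741 Crest.Agent.R276.FKDefs_779

variable {n : ℕ} {K : Type} [Field K] [Algebra ℂ K]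

namespace DivModel

/-- `D` is a model of the valuation ring `R`, i.e. `R = A_(t)` -/
structure ModelOf (D : DivModel n K) (R : ValuationSubring K) : Prop where
  unit : ∀ a : D.A, ¬ D.t ∣ a → R.valuation (algebraMap D.A K a) = 1
  lt : R.valuation (algebraMap D.A K D.t) < 1

variable {D : DivModel n K} {R : ValuationSubring K}

lemma ModelOf.pos (_h : D.ModelOf R) : 0 < R.valuation (algebraMap D.A K D.t) := by
  rw [Valuation.pos_iff]
  exact D.tK_ne

lemma ModelOf.val_eq (h : D.ModelOf R) {f : K} {a : ℤ} (hf : D.HasOrd f a) :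
    R.valuation f = R.valuation (algebraMap D.A K D.t) ^ a := by
  obtain ⟨u, v, hu, hv, h1⟩ := hf
  have h2 := congrArg R.valuation h1
  rw [map_mul, map_mul, map_zpow₀, h.unit u hu, h.unit v hv, mul_one, mul_one] at h2
  exact h2

lemma ModelOf.le_one_iff (h : D.ModelOf R) {f : K} {a : ℤ} (hf : D.HasOrd f a) :
    R.valuation f ≤ 1 ↔ 0 ≤ a := by
  rw [h.val_eq hf]
  exact zpow_le_one_iff_right_of_lt_one₀ h.pos h.lt

lemma ModelOf.val_le_one (h : D.ModelOf R) (u : D.A) : R.valuation (algebraMap D.A K u) ≤ 1 := by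
  rcases eq_or_ne u 0 with rfl | hu
  · simp
  obtain ⟨k, v, hv, rfl⟩ := D.exists_pow_mul u hu
  rw [map_mul, map_pow, map_mul, map_pow, h.unit v hv, mul_one]
  exact pow_le_one' h.lt.le k

lemma ModelOf.mem (h : D.ModelOf R) (u : D.A) : algebraMap D.A K u ∈ R := by
  rw [← R.valuation_le_one_iff]; exact h.val_le_one u

lemma ModelOf.mem_iff (h : D.ModelOf R) {f : K} {a : ℤ} (hf : D.HasOrd f a) :
    f ∈ R ↔ 0 ≤ a := by
  rw [← R.valuation_le_one_iff, h.le_one_iff hf]

/-- every element of `R` is a quotient with denominator not divisible by `t` -/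
lemma ModelOf.exists_frac (h : D.ModelOf R) {f : K} (hf : f ∈ R) :
    ∃ u v : D.A, ¬ D.t ∣ v ∧ f * algebraMap D.A K v = algebraMap D.A K u := by
  rcases eq_or_ne f 0 with rfl | hf0
  · exact ⟨0, 1, fun h => D.prime.not_isUnit (isUnit_of_dvd_one h), by simp⟩
  obtain ⟨a, ha⟩ := D.exists_hasOrd f hf0
  obtain ⟨k, rfl⟩ := Int.eq_ofNat_of_zero_le ((h.mem_iff ha).1 hf)
  obtain ⟨u, v, hu, hv, h1⟩ := ha
  exact ⟨D.t ^ k * u, v, hv, by rw [h1, map_mul, map_pow, zpow_natCast]⟩

/-- `R = A_(t)` -/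
lemma ModelOf.mem_iff_exists (h : D.ModelOf R) (f : K) : f ∈ R ↔
    ∃ u v : D.A, ¬ D.t ∣ v ∧ f * algebraMap D.A K v = algebraMap D.A K u := by
  refine ⟨h.exists_frac, ?_⟩
  rintro ⟨u, v, hv, h1⟩
  rw [← R.valuation_le_one_iff]
  have h2 := congrArg R.valuation h1
  rw [map_mul, h.unit v hv, mul_one] at h2
  rw [h2]
  exact h.val_le_one u

lemma ModelOf.unique {R' : ValuationSubring K} (h : D.ModelOf R) (h' : D.ModelOf R') : R = R' := by
  ext f
  rw [h.mem_iff_exists, h'.mem_iff_exists]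

/-- the coefficients of `df`, `f ∈ R`, in the frame `dw` are in `R` -/
lemma ModelOf.repr_mem (h : D.ModelOf R) {f : K} (hf : f ∈ R) (j : Fin n) :
    D.dw.repr (KaehlerDifferential.D ℂ K f) j ∈ R := by
  obtain ⟨u, v, hv, h1⟩ := h.exists_frac hf
  obtain ⟨Δ, hΔ⟩ := exists_coord_deriv D.w D.etale
  have hrep : ∀ a : D.A, D.dw.repr (KaehlerDifferential.D ℂ K (algebraMap D.A K a)) j =
      algebraMap D.A K (Δ j a) := by
    intro a
    rw [D_K (K := K) D.w D.etale Δ hΔ a]
    have : ∑ j, algebraMap D.A K (Δ j a) • KaehlerDifferential.D ℂ K (algebraMap D.A K (D.w j)) =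
      ∑ j, algebraMap D.A K (Δ j a) • D.dw j := by
      refine Finset.sum_congr rfl fun i _ => ?_
      rw [D.dw_apply]
    rw [this, Module.Basis.repr_sum_self]
  have e1 : D.dw.repr (KaehlerDifferential.D ℂ K f) j * algebraMap D.A K v ^ 2 =
      algebraMap D.A K (v * Δ j u - u * Δ j v) := by
    have e2 := congrArg (KaehlerDifferential.D ℂ K) h1
    rw [Derivation.leibniz] at e2
    have e3 := congrArg (fun x => D.dw.repr x j) e2
    simp only [map_add, map_smul, Finsupp.add_apply, Finsupp.smul_apply, smul_eq_mul, hrep] at e3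
    rw [map_sub, map_mul, map_mul, ← e3, ← h1]
    ring
  rw [← R.valuation_le_one_iff]
  have h2 := congrArg R.valuation e1
  rw [map_mul, map_pow, h.unit v hv, one_pow, mul_one] at h2
  rw [h2]
  exact h.val_le_one _

omit [Algebra ℂ K] in
lemma det_mem {m : ℕ} (M : Matrix (Fin m) (Fin m) K) (hM : ∀ i j, M i j ∈ R) : M.det ∈ R := by
  let N : Matrix (Fin m) (Fin m) R := Matrix.of fun i j => ⟨M i j, hM i j⟩
  have h1 : M = (algebraMap R K).mapMatrix N := by
    ext i j
    rfl
  rw [h1, ← RingHom.map_det]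
  exact (N.det).2

lemma ModelOf.jac_mem (h : D.ModelOf R) {y : Fin n → K} (hy : ∀ i, y i ∈ R) :
    jac ℂ D.dw y ∈ R := by
  unfold jac
  rw [Module.Basis.det_apply]
  apply det_mem
  intro i j
  rw [Module.Basis.toMatrix_apply]
  exact h.repr_mem (hy j) i

lemma jac_change (b b' : Module.Basis (Fin n) K (Ω[K⁄ℂ])) (y : Fin n → K) :
    jac ℂ b y = (b.toMatrix b').det * jac ℂ b' y := by
  unfold jac
  rw [Module.Basis.det_apply, Module.Basis.det_apply, ← Matrix.det_mul,
    Module.Basis.toMatrix_mul_toMatrix]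

lemma det_toMatrix_mul (b b' : Module.Basis (Fin n) K (Ω[K⁄ℂ])) :
    (b.toMatrix b').det * (b'.toMatrix b).det = 1 := by
  rw [← Matrix.det_mul, Module.Basis.toMatrix_mul_toMatrix_flip, Matrix.det_one]

lemma det_ne_zero (b b' : Module.Basis (Fin n) K (Ω[K⁄ℂ])) : (b.toMatrix b').det ≠ 0 :=
  left_ne_zero_of_mul_eq_one (det_toMatrix_mul b b')

lemma jac_dw (D : DivModel n K) : jac ℂ D.dw (fun i => algebraMap D.A K (D.w i)) = 1 := by
  unfold jac
  have : (fun i => KaehlerDifferential.D ℂ K (algebraMap D.A K (D.w i))) = D.dw := by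
    funext i
    rw [D.dw_apply]
  rw [this, Module.Basis.det_self]

/-- **regularity in terms of orders**: `g b^m` is regular at `R` iff `ord g + m ord (b / dw) ≥ 0` -/
theorem ModelOf.regAt_iff (h : D.ModelOf R) (b : Module.Basis (Fin n) K (Ω[K⁄ℂ])) {g : K} {a : ℤ}
    (hg : D.HasOrd g a) {c : ℤ} (hc : D.HasOrd (D.dw.toMatrix b).det c) (m : ℕ) :
    RegAt ℂ R b m g ↔ 0 ≤ a + m * c := by
  have ht := h.pos
  have hc' : D.HasOrd (b.toMatrix D.dw).det (-c) := by
    have h1 := det_toMatrix_mul D.dw b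
    have h2 : (b.toMatrix D.dw).det = ((D.dw.toMatrix b).det)⁻¹ := by
      exact eq_inv_of_mul_eq_one_right h1
    rw [h2]
    exact hc.inv
  have key : R.valuation g ≤ R.valuation (b.toMatrix D.dw).det ^ m ↔ 0 ≤ a + m * c := by
    rw [h.val_eq hg, h.val_eq hc', ← zpow_natCast, ← zpow_mul,
      zpow_le_zpow_iff_right_of_lt_one₀ ht h.lt]
    constructor
    · intro h1; linarith [mul_comm (-c) (m : ℤ), neg_mul c (m : ℤ), mul_comm c (m : ℤ)]
    · intro h1; linarith [mul_comm (-c) (m : ℤ), neg_mul c (m : ℤ), mul_comm c (m : ℤ)]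
  rw [← key]
  constructor
  · rintro ⟨y, hy, h1⟩
    refine h1.trans ?_
    rw [jac_change b D.dw, map_mul, mul_pow]
    have h2 : R.valuation (jac ℂ D.dw y) ≤ 1 := (R.valuation_le_one_iff _).2 (h.jac_mem hy)
    calc R.valuation (b.toMatrix D.dw).det ^ m * R.valuation (jac ℂ D.dw y) ^ m
        ≤ R.valuation (b.toMatrix D.dw).det ^ m * 1 := by
          gcongr
          exact pow_le_one' h2 m
      _ = _ := mul_one _
  · intro h1
    refine ⟨fun i => algebraMap D.A K (D.w i), fun i => h.mem _, ?_⟩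
    rw [jac_change b D.dw, jac_dw, mul_one]
    exact h1

lemma regAt_zero (R : ValuationSubring K) (b : Module.Basis (Fin n) K (Ω[K⁄ℂ])) (m : ℕ) :
    RegAt ℂ R b m 0 := ⟨0, fun _ => R.zero_mem, by rw [map_zero]; exact zero_le⟩

end DivModel

section et

variable {A : Subalgebra ℂ K} {z : Fin n → K}

lemma _root_.Crest.Agent.R276.FKDefs_779.EtChart.isFractionRing (hA : EtChart ℂ K A z) :
    IsFractionRing A K := by
  refine (isLocalization_iff _ _).2 ⟨?_, ?_, ?_⟩
  · rintro ⟨s, hs⟩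
    rw [isUnit_iff_ne_zero]
    have := nonZeroDivisors.ne_zero hs
    intro h
    exact this (Subtype.ext h)
  · intro a
    obtain ⟨b, hb, s, hs, hs0, h⟩ := hA.frac a
    refine ⟨(⟨b, hb⟩, ⟨⟨s, hs⟩, ?_⟩), ?_⟩
    · rw [mem_nonZeroDivisors_iff_ne_zero]
      intro h0
      exact hs0 (congrArg Subtype.val h0)
    · change a * s = b
      rw [h, mul_assoc, inv_mul_cancel₀ hs0, mul_one]
  · intro x y hxy
    exact ⟨1, by simpa using Subtype.ext hxy⟩

lemma _root_.Crest.Agent.R276.FKDefs_779.EtChart.finiteType (hA : EtChart ℂ K A z) :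
    Algebra.FiniteType ℂ A := (Subalgebra.fg_iff_finiteType A).1 hA.fg

/-- the étale coordinates as elements of the chart -/
def zA (hA : EtChart ℂ K A z) (i : Fin n) : A := ⟨z i, hA.mem i⟩

/-- **Regularity from square integrability** (on an affine étale chart `(A, z)` of `K`, at a
divisorial valuation ring `R` with model `D`).  `w = e^{-φ}` is a weight on `Hom(A,ℂ)`; the
hypothesis says that near some general point of the divisor `φ` is bounded above in the frame of
`(m-1)K` given by the coordinates of the boundary chart. -/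
theorem regAt_of_lintM (hA : EtChart ℂ K A z) {b : Module.Basis (Fin n) K (Ω[K⁄ℂ])}
    (hb : ∀ i, b i = KaehlerDifferential.D ℂ K (z i)) {R : ValuationSubring K} {D : DivModel n K}
    (hD : D.ModelOf R) (g : A) (m : ℕ) (w : (A →ₐ[ℂ] ℂ) → ℝ≥0∞)
    (hw : ∀ F : Finset K, (∀ f ∈ F, f ≠ 0) → ∃ X : BChart D A,
      (∀ f ∈ F, ∃ (a : ℤ) (G : Cn n → ℂ), Good D X f a G) ∧ ∃ κ : ℝ, 0 < κ ∧
        ∀ ζ ∈ X.V, ENNReal.ofReal (κ * (‖(fderiv ℂ (X.ψ (zA hA)) ζ).det‖ ^ ((m : ℤ) - 1)) ^ 2) ≤
          w (X.s ζ))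
    (hfin : lintM (zA hA) (fun y => ENNReal.ofReal (‖y g‖ ^ 2) * w y) < ∞) :
    RegAt ℂ R b m (g : K) := by
  classical
  rcases eq_or_ne (g : K) 0 with h0 | h0
  · rw [h0]; exact DivModel.regAt_zero R b m
  obtain ⟨X, hX, κ, hκ, hw'⟩ := hw {(g : K), (D.dw.toMatrix b).det} (by
    intro f hf
    rcases Finset.mem_insert.1 hf with rfl | hf
    · exact h0
    · rw [Finset.mem_singleton.1 hf]; exact DivModel.det_ne_zero _ _)
  obtain ⟨a, G, hG⟩ := hX (g : K) (by simp)
  obtain ⟨c, GJ, hJ⟩ := hX (D.dw.toMatrix b).det (by simp)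
  rw [hD.regAt_iff b hG.hasOrd hJ.hasOrd]
  exact ord_nonneg_of_lintM X (zA hA) b hb hJ g hG m w κ hκ hw' hfin

end et

end Crest.Agent.R276.BC_986
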