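import Mathlib

/-!
Row 276, leaf BC, part 5: algebra of divisorial valuation rings (core).
-/

set_option autoImplicit false
open scoped Topology BigOperators
noncomputable section
namespace Crest.Agent.R276.BC_986

/-- a local domain which dominates a nonzero prime `q` of a Dedekind domain `S` with the same
fraction field is the localisation of `S` at `q` -/
theorem isLocalization_atPrime_of_dedekind {S R K : Type} [CommRing S]
    [IsDedekindDomain S] [CommRing R] [IsLocalRing R] [Field K] [Algebra S R]
    [Algebra S K] [Algebra R K] [IsScalarTower S R K] [IsFractionRing S K]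
    (hinj : Function.Injective (algebraMap R K))
    (hq : (IsLocalRing.maximalIdeal R).comap (algebraMap S R) ≠ ⊥) :
    IsLocalization.AtPrime R ((IsLocalRing.maximalIdeal R).comap (algebraMap S R)) := by
  set q := (IsLocalRing.maximalIdeal R).comap (algebraMap S R) with hqdef
  have hmem : ∀ s : S, s ∉ q → IsUnit (algebraMap S R s) := by
    intro s hs
    rw [hqdef, Ideal.mem_comap, IsLocalRing.mem_maximalIdeal, mem_nonunits_iff, not_not] at hs
    exact hs
  let L := Localization.subalgebra.ofField K q.primeCompl q.primeCompl_le_nonZeroDivisors
  have _ : IsLocalization.AtPrime L q := Localization.subalgebra.isLocalization_ofField K _ _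
  have hL : IsDiscreteValuationRing L :=
    IsLocalization.AtPrime.isDiscreteValuationRing_of_dedekind_domain S hq L
  have hLv : ValuationRing L := inferInstance
  refine (isLocalization_iff _ _).2 ⟨?_, ?_, ?_⟩
  · rintro ⟨s, hs⟩
    exact hmem s hs
  · intro r
    rcases ValuationRing.isInteger_or_isInteger L (algebraMap R K r) with h | h
    · obtain ⟨l, hl⟩ := h
      obtain ⟨a, ⟨b, hb⟩, rfl⟩ := IsLocalization.exists_mk'_eq q.primeCompl l
      refine ⟨(a, ⟨b, hb⟩), ?_⟩
      apply hinj
      have h1 := congrArg (algebraMap L K) (IsLocalization.mk'_spec L a ⟨b, hb⟩)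
      rw [map_mul, hl, ← IsScalarTower.algebraMap_apply, ← IsScalarTower.algebraMap_apply] at h1
      rw [map_mul, ← IsScalarTower.algebraMap_apply, ← IsScalarTower.algebraMap_apply]
      exact h1
    · obtain ⟨l, hl⟩ := h
      obtain ⟨a, ⟨b, hb⟩, rfl⟩ := IsLocalization.exists_mk'_eq q.primeCompl l
      have h1 := congrArg (algebraMap L K) (IsLocalization.mk'_spec L a ⟨b, hb⟩)
      rw [map_mul, hl, ← IsScalarTower.algebraMap_apply, ← IsScalarTower.algebraMap_apply] at h1
      rcases eq_or_ne r 0 with rfl | hr
      · exact ⟨(0, 1), by simp⟩
      have hr' : algebraMap R K r ≠ 0 := by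
        intro h0
        exact hr (hinj (by rw [h0, map_zero]))
      have h2 : r * algebraMap S R a = algebraMap S R b := by
        apply hinj
        rw [map_mul, ← IsScalarTower.algebraMap_apply, ← IsScalarTower.algebraMap_apply, ← h1]
        change _ * (_ * (algebraMap S K b)) = algebraMap S K b
        field_simp
      have h3 : IsUnit (algebraMap S R a) := by
        have h4 : IsUnit (algebraMap S R b) := hmem b hb
        rw [← h2] at h4
        exact isUnit_of_mul_isUnit_right h4
      have ha : a ∈ q.primeCompl := by
        intro h4
        rw [hqdef] at h4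
        have h5 : algebraMap S R a ∈ IsLocalRing.maximalIdeal R := h4
        rw [IsLocalRing.mem_maximalIdeal] at h5
        exact h5 h3
      exact ⟨(b, ⟨a, ha⟩), h2⟩
  · intro x y hxy
    refine ⟨1, ?_⟩
    have h1 := congrArg (algebraMap R K) hxy
    rw [← IsScalarTower.algebraMap_apply, ← IsScalarTower.algebraMap_apply] at h1
    rw [IsFractionRing.injective S K h1]

section core

variable {O R K : Type} [CommRing O] [IsDomain O] [IsDiscreteValuationRing O] [CommRing R]
  [IsDomain R] [IsLocalRing R] [IsIntegrallyClosed R] [Field K] [CharZero (IsLocalRing.ResidueField O)]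
  [Algebra O R]
  [Algebra O K] [Algebra R K] [IsScalarTower O R K] [IsFractionRing R K]
  [IsLocalHom (algebraMap O R)] (hinj : Function.Injective (algebraMap O K))
  (F : Type) [Field F] [Algebra O F] [IsFractionRing O F] [Algebra F K] [IsScalarTower O F K]
  [FiniteDimensional F K]

include F hinj in
/-- the main properties of a local integrally closed domain `R` with fraction field `K`, finite
over `F = Frac O`, which dominates the discrete valuation ring `O` -/
theorem core_props : IsDiscreteValuationRing R ∧ Algebra.EssFiniteType O R ∧
    Algebra.IsAlgebraic (IsLocalRing.ResidueField O) (IsLocalRing.ResidueField R) ∧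
    ((IsLocalRing.maximalIdeal O).map (algebraMap O R) = IsLocalRing.maximalIdeal R →
      Algebra.FormallyEtale O R) := by
  have _ : CharZero O := by
    refine ⟨fun a b h => ?_⟩
    have h1 := congrArg (algebraMap O (IsLocalRing.ResidueField O)) h
    rw [map_natCast, map_natCast] at h1
    exact_mod_cast h1
  have _ : CharZero F := charZero_of_injective_algebraMap (IsFractionRing.injective O F)
  have _ : CharZero K := charZero_of_injective_algebraMap hinj
  have _ : Algebra.IsSeparable F K := inferInstance
  let S := integralClosure O K
  have _ : IsDedekindDomain S := integralClosure.isDedekindDomain O F K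
  have _ : IsFractionRing S K := integralClosure.isFractionRing_of_finite_extension F K
  have hfin : Module.Finite O S := IsIntegralClosure.finite O F K S
  have _ : Module.IsTorsionFree O K := Module.isTorsionFree_iff_algebraMap_injective.2 hinj
  have hfree : Module.Free O S := IsIntegralClosure.module_free O F K S
  have hinjR : Function.Injective (algebraMap R K) := IsFractionRing.injective R K
  -- `S ⊆ R`
  have hSR : ∀ s : S, ∃ r : R, algebraMap R K r = s := by
    intro s
    have h1 : IsIntegral O (s : K) := s.2
    have h2 : IsIntegral R (s : K) := h1.tower_top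
    exact IsIntegrallyClosed.isIntegral_iff.1 h2
  choose f hf using hSR
  let φ : S →+* R :=
    { toFun := f
      map_one' := hinjR (by rw [hf, map_one]; rfl)
      map_mul' := fun a b => hinjR (by rw [hf, map_mul, hf, hf]; rfl)
      map_zero' := hinjR (by rw [hf, map_zero]; rfl)
      map_add' := fun a b => hinjR (by rw [hf, map_add, hf, hf]; rfl) }
  let _ : Algebra S R := φ.toAlgebra
  have _ : IsScalarTower S R K := IsScalarTower.of_algebraMap_eq fun s => (hf s).symm
  have _ : IsScalarTower O S R := IsScalarTower.of_algebraMap_eq fun s => by
    apply hinjR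
    rw [← IsScalarTower.algebraMap_apply, ← IsScalarTower.algebraMap_apply,
      ← IsScalarTower.algebraMap_apply]
  set q := (IsLocalRing.maximalIdeal R).comap (algebraMap S R) with hqdef
  have hq : q ≠ ⊥ := by
    intro h
    obtain ⟨π, hπ⟩ := IsDiscreteValuationRing.exists_irreducible O
    have h1 : algebraMap O S π ∈ q := by
      rw [hqdef, Ideal.mem_comap, ← IsScalarTower.algebraMap_apply, IsLocalRing.mem_maximalIdeal,
        mem_nonunits_iff, isUnit_map_iff]
      exact hπ.not_isUnit
    rw [h, Ideal.mem_bot] at h1
    have h2 := congrArg (algebraMap S K) h1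
    rw [map_zero, ← IsScalarTower.algebraMap_apply] at h2
    exact hπ.ne_zero (hinj (by rw [h2, map_zero]))
  have hloc : IsLocalization.AtPrime R q := isLocalization_atPrime_of_dedekind hinjR hq
  have hDVR : IsDiscreteValuationRing R :=
    IsLocalization.AtPrime.isDiscreteValuationRing_of_dedekind_domain S hq R
  have _ : Algebra.EssFiniteType S R := Algebra.EssFiniteType.of_isLocalization R q.primeCompl
  have hess : Algebra.EssFiniteType O R := Algebra.EssFiniteType.comp O S R
  have halg : Algebra.IsAlgebraic (IsLocalRing.ResidueField O) (IsLocalRing.ResidueField R) := by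
    constructor
    intro x
    obtain ⟨r, rfl⟩ := IsLocalRing.residue_surjective x
    obtain ⟨a, b, rfl⟩ := IsLocalization.exists_mk'_eq q.primeCompl r
    have hint : ∀ s : S, IsAlgebraic (IsLocalRing.ResidueField O)
        (IsLocalRing.residue R (algebraMap S R s)) := by
      intro s
      have h1 : IsIntegral O s := Algebra.IsIntegral.isIntegral s
      have h2 : IsIntegral O (IsLocalRing.residue R (algebraMap S R s)) := by
        have h3 := h1.map (IsScalarTower.toAlgHom O S R)
        exact h3.map (IsScalarTower.toAlgHom O R (IsLocalRing.ResidueField R))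
      exact (h2.tower_top (A := IsLocalRing.ResidueField O)).isAlgebraic
    have h1 := IsLocalization.mk'_spec R a b
    have h2 := congrArg (IsLocalRing.residue R) h1
    rw [map_mul] at h2
    have hb : IsLocalRing.residue R (algebraMap S R b) ≠ 0 := by
      rw [Ne, IsLocalRing.residue_eq_zero_iff]
      exact b.2
    have h3 : IsLocalRing.residue R (IsLocalization.mk' R a b) =
        IsLocalRing.residue R (algebraMap S R a) * (IsLocalRing.residue R (algebraMap S R b))⁻¹ := by
      rw [← h2, mul_assoc, mul_inv_cancel₀ hb, mul_one]
    rw [h3]
    exact (hint a).mul (hint b).inv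
  refine ⟨hDVR, hess, halg, fun hmax => ?_⟩
  have _ : Algebra.IsSeparable (IsLocalRing.ResidueField O) (IsLocalRing.ResidueField R) :=
    inferInstance
  have hunr : Algebra.FormallyUnramified O R :=
    Algebra.FormallyUnramified.of_map_maximalIdeal hmax
  let e : Localization.AtPrime q ≃ₐ[S] R :=
    IsLocalization.algEquiv q.primeCompl (Localization.AtPrime q) R
  let e' : Localization.AtPrime q ≃ₐ[O] R := e.restrictScalars O
  have _ : Algebra.IsUnramifiedAt O q := Algebra.FormallyUnramified.of_equiv e'.symm
  have _ : Algebra.FinitePresentation O S := Algebra.FinitePresentation.of_finiteType.1 inferInstance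
  have h1 : Algebra.IsEtaleAt O q := Algebra.IsEtaleAt.of_isUnramifiedAt_of_flat q
  exact Algebra.FormallyEtale.of_equiv e'

end core

end Crest.Agent.R276.BC_986
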