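import Mathlib
import Crest.Agent.R276.BC5_986

/-!
Row 276, leaf BC, part 6: adapted coordinates of a divisorial valuation ring.
-/

set_option autoImplicit false

open scoped Topology BigOperators
open MvPolynomial

noncomputable section

namespace Crest.Agent.R276.BC_986

variable {n : ℕ} {K : Type} [Field K] [Algebra ℂ K]

/-- `x` are adapted coordinates of the valuation ring `R`: `x i₀ ∈ m_R` and the residues of the
others are algebraically independent -/
structure Adap (R : ValuationSubring K) (x : Fin n → K) (i₀ : Fin n) : Prop where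
  unit : ∀ P : MvPolynomial (Fin n) ℂ, ¬ X i₀ ∣ P → R.valuation (aeval x P) = 1
  lt : R.valuation (x i₀) < 1
  ne : x i₀ ≠ 0

namespace Adap

variable {R : ValuationSubring K} {x : Fin n → K} {i₀ : Fin n}

lemma exists_pow_mul {P : MvPolynomial (Fin n) ℂ} (hP : P ≠ 0) (i₀ : Fin n) :
    ∃ (k : ℕ) (Q : MvPolynomial (Fin n) ℂ), ¬ X i₀ ∣ Q ∧ P = X i₀ ^ k * Q := by
  have h1 : FiniteMultiplicity (X i₀ : MvPolynomial (Fin n) ℂ) P :=
    FiniteMultiplicity.of_prime_left X_prime hP
  obtain ⟨c, hc, h2⟩ := h1.exists_eq_pow_mul_and_not_dvd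
  exact ⟨_, c, h2, hc⟩

lemma val_aeval (h : Adap R x i₀) {P : MvPolynomial (Fin n) ℂ} {k : ℕ}
    {Q : MvPolynomial (Fin n) ℂ} (hQ : ¬ X i₀ ∣ Q) (hP : P = X i₀ ^ k * Q) :
    R.valuation (aeval x P) = R.valuation (x i₀) ^ k := by
  rw [hP, map_mul, map_pow, aeval_X, map_mul, map_pow, h.unit Q hQ, mul_one]

lemma injective (h : Adap R x i₀) : Function.Injective (aeval x : MvPolynomial (Fin n) ℂ →ₐ[ℂ] K) := by
  rw [injective_iff_map_eq_zero]
  intro P hP
  by_contra hP0
  obtain ⟨k, Q, hQ, h1⟩ := exists_pow_mul hP0 i₀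
  have h2 := h.val_aeval hQ h1
  rw [hP, map_zero] at h2
  have h3 : R.valuation (x i₀) ^ k ≠ 0 := pow_ne_zero _ (by simpa using h.ne)
  exact h3 h2.symm

lemma algebraicIndependent (h : Adap R x i₀) : AlgebraicIndependent ℂ x := h.injective

lemma mem (h : Adap R x i₀) (P : MvPolynomial (Fin n) ℂ) : aeval x P ∈ R := by
  rw [← R.valuation_le_one_iff]
  rcases eq_or_ne P 0 with rfl | hP
  · simp
  obtain ⟨k, Q, hQ, h1⟩ := exists_pow_mul hP i₀
  rw [h.val_aeval hQ h1]
  exact pow_le_one' h.lt.le k

lemma mem_x (h : Adap R x i₀) (i : Fin n) : x i ∈ R := by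
  have := h.mem (X i)
  rwa [aeval_X] at this

/-- polynomials in the adapted coordinates are elements of `R` -/
def toR (h : Adap R x i₀) : MvPolynomial (Fin n) ℂ →+* R :=
  ((aeval x : MvPolynomial (Fin n) ℂ →ₐ[ℂ] K) : MvPolynomial (Fin n) ℂ →+* K).codRestrict R
    h.mem

lemma coe_toR (h : Adap R x i₀) (P : MvPolynomial (Fin n) ℂ) : (h.toR P : K) = aeval x P := rfl

/-- the center of `R` in the polynomial ring is `(x i₀)` -/
lemma comap_maximalIdeal (h : Adap R x i₀) :
    (IsLocalRing.maximalIdeal R).comap h.toR = Ideal.span {X i₀} := by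
  ext P
  rw [Ideal.mem_comap, Ideal.mem_span_singleton, ValuationSubring.valuation_lt_one_iff,
    h.coe_toR]
  constructor
  · intro h1
    by_contra h2
    rw [h.unit P h2] at h1
    exact lt_irrefl _ h1
  · rintro ⟨Q, rfl⟩
    rw [map_mul, map_mul, aeval_X]
    have h1 : R.valuation (aeval x Q) ≤ 1 := (R.valuation_le_one_iff _).2 (h.mem Q)
    calc R.valuation (x i₀) * R.valuation (aeval x Q) ≤ R.valuation (x i₀) * 1 := by gcongr
      _ = R.valuation (x i₀) := mul_one _
      _ < 1 := h.lt

lemma isUnit_toR (h : Adap R x i₀) {P : MvPolynomial (Fin n) ℂ} (hP : ¬ X i₀ ∣ P) :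
    IsUnit (h.toR P) := by
  rw [ValuationSubring.valuation_eq_one_iff, h.coe_toR]
  exact h.unit P hP

lemma isAlgebraic (hx : IsTranscendenceBasis ℂ x) :
    letI : Algebra (MvPolynomial (Fin n) ℂ) K :=
      ((aeval x : MvPolynomial (Fin n) ℂ →ₐ[ℂ] K) : MvPolynomial (Fin n) ℂ →+* K).toAlgebra
    Algebra.IsAlgebraic (MvPolynomial (Fin n) ℂ) K := by
  let _ : Algebra (MvPolynomial (Fin n) ℂ) K :=
    ((aeval x : MvPolynomial (Fin n) ℂ →ₐ[ℂ] K) : MvPolynomial (Fin n) ℂ →+* K).toAlgebra
  have h1 := hx.isAlgebraic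
  let f : MvPolynomial (Fin n) ℂ →+* Algebra.adjoin ℂ (Set.range x) :=
    ((aeval x : MvPolynomial (Fin n) ℂ →ₐ[ℂ] K) : MvPolynomial (Fin n) ℂ →+* K).codRestrict
      (Algebra.adjoin ℂ (Set.range x)) (fun P => by
        rw [Algebra.adjoin_range_eq_range_aeval]
        exact ⟨P, rfl⟩)
  have hf : Function.Surjective f := by
    rintro ⟨a, ha⟩
    rw [Algebra.adjoin_range_eq_range_aeval] at ha
    obtain ⟨P, rfl⟩ := ha
    exact ⟨P, rfl⟩
  exact Algebra.IsAlgebraic.of_ringHom_of_comp_eq (S := Algebra.adjoin ℂ (Set.range x)) (B := K)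
    f (RingHom.id K) hf Function.injective_id rfl

/-- **structure of divisorial valuation rings**, with a localisation `O` of the polynomial ring -/
theorem props_aux (h : Adap R x i₀) [hK : Algebra.EssFiniteType ℂ K]
    (hx : IsTranscendenceBasis ℂ x) (p : Ideal (MvPolynomial (Fin n) ℂ)) [hpp : p.IsPrime]
    (hp : p = Ideal.span {X i₀}) (O : Type) [CommRing O] [Algebra (MvPolynomial (Fin n) ℂ) O]
    [IsLocalization.AtPrime O p] [Algebra ℂ O] [IsScalarTower ℂ (MvPolynomial (Fin n) ℂ) O] :
    letI : Algebra (MvPolynomial (Fin n) ℂ) R := h.toR.toAlgebra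
    IsDiscreteValuationRing R ∧ Algebra.EssFiniteType (MvPolynomial (Fin n) ℂ) R ∧
      (IsLocalRing.maximalIdeal R = Ideal.span {h.toR (X i₀)} →
        Algebra.FormallyEtale (MvPolynomial (Fin n) ℂ) R) := by
  let _ : Algebra (MvPolynomial (Fin n) ℂ) R := h.toR.toAlgebra
  let _ : Algebra (MvPolynomial (Fin n) ℂ) K :=
    ((aeval x : MvPolynomial (Fin n) ℂ →ₐ[ℂ] K) : MvPolynomial (Fin n) ℂ →+* K).toAlgebra
  have _ : IsScalarTower (MvPolynomial (Fin n) ℂ) R K := IsScalarTower.of_algebraMap_eq fun _ => rfl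
  have _ : IsScalarTower ℂ (MvPolynomial (Fin n) ℂ) K := IsScalarTower.of_algebraMap_eq fun c =>
    ((aeval x : MvPolynomial (Fin n) ℂ →ₐ[ℂ] K).commutes c).symm
  have hPK : Function.Injective (algebraMap (MvPolynomial (Fin n) ℂ) K) := h.injective
  have halg : Algebra.IsAlgebraic (MvPolynomial (Fin n) ℂ) K := isAlgebraic hx
  have hunit : ∀ y : p.primeCompl, IsUnit (h.toR y) := by
    intro y
    apply h.isUnit_toR
    rw [← Ideal.mem_span_singleton, ← hp]
    exact y.2
  have hloc : IsLocalRing O := IsLocalization.AtPrime.isLocalRing O p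
  have hnoeth : IsNoetherianRing O := IsLocalization.isNoetherianRing p.primeCompl O inferInstance
  let _ : Algebra O R := (IsLocalization.lift (M := p.primeCompl) (S := O) (g := h.toR) hunit).toAlgebra
  have _ : IsScalarTower (MvPolynomial (Fin n) ℂ) O R := IsScalarTower.of_algebraMap_eq fun P =>
    (IsLocalization.lift_eq (M := p.primeCompl) (S := O) (g := h.toR) hunit P).symm
  let _ : Algebra O K := ((algebraMap R K).comp (algebraMap O R)).toAlgebra
  have _ : IsScalarTower O R K := IsScalarTower.of_algebraMap_eq fun _ => rfl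
  have _ : IsScalarTower (MvPolynomial (Fin n) ℂ) O K := IsScalarTower.of_algebraMap_eq fun P => by
    rw [IsScalarTower.algebraMap_apply O R K, ← IsScalarTower.algebraMap_apply _ O R,
      ← IsScalarTower.algebraMap_apply _ R K]
  have _ : IsScalarTower ℂ O K := IsScalarTower.of_algebraMap_eq fun c => by
    rw [IsScalarTower.algebraMap_apply ℂ (MvPolynomial (Fin n) ℂ) O,
      ← IsScalarTower.algebraMap_apply (MvPolynomial (Fin n) ℂ) O K,
      ← IsScalarTower.algebraMap_apply]
  have hOK : Function.Injective (algebraMap O K) := by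
    rw [injective_iff_map_eq_zero]
    intro o ho
    obtain ⟨a, b, rfl⟩ := IsLocalization.exists_mk'_eq p.primeCompl o
    have h1 := congrArg (algebraMap O K) (IsLocalization.mk'_spec O a b)
    rw [map_mul, ho, zero_mul, ← IsScalarTower.algebraMap_apply] at h1
    have h2 : a = 0 := hPK (by rw [← h1, map_zero])
    rw [h2, IsLocalization.mk'_zero]
  have hOdom : IsDomain O := hOK.isDomain _
  have hmaxO : IsLocalRing.maximalIdeal O =
      Ideal.span {algebraMap (MvPolynomial (Fin n) ℂ) O (X i₀)} := by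
    have h1 : p.map (algebraMap (MvPolynomial (Fin n) ℂ) O) =
        Ideal.span {algebraMap (MvPolynomial (Fin n) ℂ) O (X i₀)} := by
      rw [hp, Ideal.map_span, Set.image_singleton]
    rw [← IsLocalization.AtPrime.map_eq_maximalIdeal p O]
    exact h1
  have hnf : ¬ IsField O := by
    intro hf
    have h1 := (IsLocalRing.isField_iff_maximalIdeal_eq).1 hf
    rw [hmaxO, Ideal.span_singleton_eq_bot] at h1
    have h2 := congrArg (algebraMap O K) h1
    rw [map_zero, ← IsScalarTower.algebraMap_apply] at h2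
    exact X_ne_zero (R := ℂ) i₀ (hPK (by rw [h2, map_zero]))
  have hDVRO : IsDiscreteValuationRing O := by
    have h1 : (IsLocalRing.maximalIdeal O).IsPrincipal := by
      rw [hmaxO]; infer_instance
    exact ((IsDiscreteValuationRing.TFAE O hnf).out 4 0).mp h1
  have hlh : IsLocalHom (algebraMap O R) := by
    refine ⟨fun o ho => ?_⟩
    obtain ⟨a, b, rfl⟩ := IsLocalization.exists_mk'_eq p.primeCompl o
    have h1 := congrArg (algebraMap O R) (IsLocalization.mk'_spec O a b)
    rw [map_mul, ← IsScalarTower.algebraMap_apply, ← IsScalarTower.algebraMap_apply] at h1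
    have h2 : IsUnit (h.toR a) := by
      have : h.toR a = algebraMap _ R a := rfl
      rw [this, ← h1]
      exact ho.mul (hunit b)
    rw [IsLocalization.AtPrime.isUnit_mk'_iff O p]
    intro ha
    have ha' : a ∈ p := ha
    rw [hp, ← h.comap_maximalIdeal] at ha'
    exact (IsLocalRing.mem_maximalIdeal _).1 ha' h2
  have hcz : CharZero (IsLocalRing.ResidueField O) :=
    charZero_of_injective_algebraMap (algebraMap ℂ (IsLocalRing.ResidueField O)).injective
  have hfaith : FaithfulSMul O K := (faithfulSMul_iff_algebraMap_injective O K).2 hOK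
  let _ : Algebra (FractionRing O) K := FractionRing.liftAlgebra O K
  have _ : IsScalarTower O (FractionRing O) K := FractionRing.isScalarTower_liftAlgebra O K
  have _ : IsScalarTower ℂ (FractionRing O) K := inferInstance
  have _ : IsScalarTower (MvPolynomial (Fin n) ℂ) (FractionRing O) K := inferInstance
  have _ : Algebra.EssFiniteType (FractionRing O) K := Algebra.EssFiniteType.of_comp ℂ _ K
  have hPF : Function.Injective (algebraMap (MvPolynomial (Fin n) ℂ) (FractionRing O)) := by
    intro a b hab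
    apply hPK
    rw [IsScalarTower.algebraMap_apply (MvPolynomial (Fin n) ℂ) (FractionRing O) K, hab,
      ← IsScalarTower.algebraMap_apply (MvPolynomial (Fin n) ℂ) (FractionRing O) K]
  have _ : Algebra.IsAlgebraic (FractionRing O) K :=
    Algebra.IsAlgebraic.extendScalars (R := MvPolynomial (Fin n) ℂ) hPF
  have _ : FiniteDimensional (FractionRing O) K :=
    Algebra.finite_of_essFiniteType_of_isAlgebraic
  obtain ⟨h1, h2, h3, h4⟩ := core_props (O := O) (R := R) (K := K) hOK (FractionRing O)
  refine ⟨h1, ?_, ?_⟩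
  · have _ : Algebra.EssFiniteType (MvPolynomial (Fin n) ℂ) O :=
      Algebra.EssFiniteType.of_isLocalization O p.primeCompl
    exact Algebra.EssFiniteType.comp _ O R
  · intro hm
    have _ : Algebra.FormallyEtale O R := by
      apply h4
      rw [hmaxO, hm, Ideal.map_span, Set.image_singleton, ← IsScalarTower.algebraMap_apply]
      rfl
    have _ : Algebra.FormallyEtale (MvPolynomial (Fin n) ℂ) O :=
      Algebra.FormallyEtale.of_isLocalization p.primeCompl
    exact Algebra.FormallyEtale.comp _ O R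

/-- **structure of divisorial valuation rings** -/
theorem props (h : Adap R x i₀) [hK : Algebra.EssFiniteType ℂ K] (hx : IsTranscendenceBasis ℂ x) :
    letI : Algebra (MvPolynomial (Fin n) ℂ) R := h.toR.toAlgebra
    IsDiscreteValuationRing R ∧ Algebra.EssFiniteType (MvPolynomial (Fin n) ℂ) R ∧
      (IsLocalRing.maximalIdeal R = Ideal.span {h.toR (X i₀)} →
        Algebra.FormallyEtale (MvPolynomial (Fin n) ℂ) R) := by
  have hpp : (Ideal.span {X i₀} : Ideal (MvPolynomial (Fin n) ℂ)).IsPrime :=
    (Ideal.span_singleton_prime (X_ne_zero i₀)).2 X_prime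
  exact h.props_aux hx (Ideal.span {X i₀}) rfl
    (Localization.AtPrime (Ideal.span {X i₀} : Ideal (MvPolynomial (Fin n) ℂ)))

end Adap

end Crest.Agent.R276.BC_986
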