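import Mathlib
import Crest.Agent.R276.BC4_986
import Crest.Agent.R276.BC6_986

/-!
Row 276, leaf BC, part 7: every divisorial valuation ring has a divisorial model.
-/

set_option autoImplicit false

open scoped Topology BigOperators
open MvPolynomial

noncomputable section

namespace Crest.Agent.R276.BC_986

open Crest.Agent.R276.FKDefs_779

section poly

lemma exists_decomp {m : ℕ} (P : MvPolynomial (Fin (m + 1)) ℂ) :
    ∃ (q : MvPolynomial (Fin m) ℂ) (Q : MvPolynomial (Fin (m + 1)) ℂ),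
      P = rename Fin.succ q + X 0 * Q := by
  induction P using MvPolynomial.induction_on with
  | C a => exact ⟨C a, 0, by simp⟩
  | add p₁ p₂ h₁ h₂ =>
    obtain ⟨q₁, Q₁, e₁⟩ := h₁
    obtain ⟨q₂, Q₂, e₂⟩ := h₂
    exact ⟨q₁ + q₂, Q₁ + Q₂, by rw [e₁, e₂, map_add]; ring⟩
  | mul_X p i h =>
    obtain ⟨q, Q, e⟩ := h
    refine Fin.cases ?_ (fun j => ?_) i
    · exact ⟨0, p, by rw [map_zero]; ring⟩
    · exact ⟨q * X j, Q * X j.succ, by rw [e, map_mul, rename_X]; ring⟩

variable {K : Type} [Field K] [Algebra ℂ K]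

lemma aeval_mem {n : ℕ} {R : ValuationSubring K} (halg : ∀ c : ℂ, algebraMap ℂ K c ∈ R)
    {x : Fin n → K} (hx : ∀ i, x i ∈ R) (P : MvPolynomial (Fin n) ℂ) : aeval x P ∈ R := by
  induction P using MvPolynomial.induction_on with
  | C a => rw [aeval_C]; exact halg a
  | add p₁ p₂ h₁ h₂ => rw [map_add]; exact R.add_mem _ _ h₁ h₂
  | mul_X p i h => rw [map_mul, aeval_X]; exact R.mul_mem _ _ h (hx i)

lemma adap_cons {m : ℕ} {R : ValuationSubring K} (halg : ∀ c : ℂ, algebraMap ℂ K c ∈ R)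
    {x' : Fin m → K} (hx' : ∀ i, x' i ∈ R)
    (hres : ∀ P : MvPolynomial (Fin m) ℂ, P ≠ 0 → R.valuation (aeval x' P) = 1) {t : K}
    (ht : R.valuation t < 1) (ht0 : t ≠ 0) : Adap R (Fin.cons t x' : Fin (m + 1) → K) 0 := by
  refine ⟨?_, by simpa using ht, by simpa using ht0⟩
  intro P hP
  obtain ⟨q, Q, rfl⟩ := exists_decomp P
  have hq : q ≠ 0 := by
    rintro rfl
    apply hP
    rw [map_zero, zero_add]
    exact dvd_mul_right _ _
  have htR : t ∈ R := by rw [← R.valuation_le_one_iff]; exact ht.le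
  have hx : ∀ i, (Fin.cons t x' : Fin (m + 1) → K) i ∈ R := by
    intro i
    refine Fin.cases ?_ (fun j => ?_) i
    · simpa using htR
    · simpa using hx' j
  have h1 : aeval (Fin.cons t x' : Fin (m + 1) → K) (rename Fin.succ q) = aeval x' q := by
    rw [aeval_rename]
    congr 1
  have h2 : R.valuation (aeval (Fin.cons t x' : Fin (m + 1) → K) (X 0 * Q)) < 1 := by
    rw [map_mul, map_mul, aeval_X, Fin.cons_zero]
    have h3 : R.valuation (aeval (Fin.cons t x' : Fin (m + 1) → K) Q) ≤ 1 :=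
      (R.valuation_le_one_iff _).2 (aeval_mem halg hx Q)
    calc R.valuation t * R.valuation (aeval (Fin.cons t x' : Fin (m + 1) → K) Q)
        ≤ R.valuation t * 1 := by gcongr
      _ = R.valuation t := mul_one _
      _ < 1 := ht
  rw [map_add, h1, Valuation.map_add_eq_of_lt_left]
  · exact hres q hq
  · rw [hres q hq]; exact h2

/-- a divisorial valuation ring has adapted coordinates whose first member is a uniformiser -/
theorem exists_adap {n : ℕ} [Algebra.EssFiniteType ℂ K] (htr : Algebra.trdeg ℂ K = n)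
    {R : ValuationSubring K} (hR : IsDiv ℂ n R) : ∃ (x : Fin n → K) (i₀ : Fin n),
      ∃ h : Adap R x i₀, IsTranscendenceBasis ℂ x ∧
        IsLocalRing.maximalIdeal R = Ideal.span {h.toR (X i₀)} := by
  obtain ⟨t0, ht0, ht1⟩ : ∃ t0 : K, t0 ≠ 0 ∧ R.valuation t0 < 1 := by
    by_contra hcon
    push Not at hcon
    apply hR.ne_top
    rw [eq_top_iff]
    intro a _
    rcases eq_or_ne a 0 with rfl | ha
    · exact R.zero_mem
    have h1 := hcon a⁻¹ (inv_ne_zero ha)
    rw [map_inv₀, one_le_inv₀ (by rw [Valuation.pos_iff]; exact ha)] at h1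
    exact (R.valuation_le_one_iff _).1 h1
  obtain ⟨x', hx', hres⟩ := hR.res
  rcases n with _ | m
  · exfalso
    have h1 : Algebra.IsAlgebraic ℂ K := by
      rw [← trdeg_eq_zero_iff, htr]; simp
    have h2 : Function.Bijective (algebraMap ℂ K) := IsAlgClosed.algebraMap_bijective_of_isIntegral
    apply hR.ne_top
    rw [eq_top_iff]
    intro a _
    obtain ⟨c, rfl⟩ := h2.2 a
    exact hR.alg c
  have hbasis : ∀ {t : K}, (h : Adap R (Fin.cons t x' : Fin (m + 1) → K) 0) →
      IsTranscendenceBasis ℂ (Fin.cons t x' : Fin (m + 1) → K) := by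
    intro t h
    refine AlgebraicIndependent.isTranscendenceBasis_of_trdeg_le_of_finite
      h.algebraicIndependent ?_
    rw [htr]
    simp
  have h0 := adap_cons hR.alg hx' hres ht1 ht0
  have hDVR := (h0.props (hbasis h0)).1
  obtain ⟨π, hπ⟩ := IsDiscreteValuationRing.exists_irreducible R
  have hπ1 : R.valuation (π : K) < 1 := by
    rw [← ValuationSubring.valuation_lt_one_iff, IsLocalRing.mem_maximalIdeal]
    exact hπ.not_isUnit
  have hπ0 : (π : K) ≠ 0 := by
    intro h
    exact hπ.ne_zero (Subtype.ext h)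
  have h1 := adap_cons hR.alg hx' hres hπ1 hπ0
  refine ⟨Fin.cons (π : K) x', 0, h1, hbasis h1, ?_⟩
  rw [hπ.maximalIdeal_eq]
  congr 2
  apply Subtype.ext
  rw [h1.coe_toR, aeval_X, Fin.cons_zero]

/-- assembly of the model -/
theorem divModel_of_ring {n : ℕ} {R : ValuationSubring K}
    {x : Fin n → K} {i₀ : Fin n} (h : Adap R x i₀) (A : Type) [CommRing A]
    [Algebra (MvPolynomial (Fin n) ℂ) A] [Algebra ℂ A] [IsScalarTower ℂ (MvPolynomial (Fin n) ℂ) A]
    (het : Algebra.Etale (MvPolynomial (Fin n) ℂ) A) (ρ : A →+* R) (hρ : Function.Injective ρ)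
    (hρP : ∀ P, ρ (algebraMap (MvPolynomial (Fin n) ℂ) A P) = h.toR P)
    (hdiv : ∀ a, ρ a ∈ IsLocalRing.maximalIdeal R →
      algebraMap (MvPolynomial (Fin n) ℂ) A (X i₀) ∣ a)
    (hfrac : ∀ r : R, ∃ a b : A, ρ b ≠ 0 ∧ r * ρ b = ρ a) :
    ∃ D : DivModel n K, D.ModelOf R ∧ D.i₀ = i₀ ∧ ∀ i, algebraMap D.A K (D.w i) = x i := by
  let _ : Algebra A K := ((algebraMap R K).comp ρ).toAlgebra
  have hAK : ∀ a : A, algebraMap A K a = (ρ a : K) := fun _ => rfl
  have hinj : Function.Injective (algebraMap A K) := by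
    intro a b hab
    exact hρ (Subtype.ext hab)
  have hdom : IsDomain A := hinj.isDomain _
  have htow : IsScalarTower ℂ A K := IsScalarTower.of_algebraMap_eq fun c => by
    rw [IsScalarTower.algebraMap_apply ℂ (MvPolynomial (Fin n) ℂ) A, hAK, hρP, h.coe_toR]
    exact ((aeval x : MvPolynomial (Fin n) ℂ →ₐ[ℂ] K).commutes c).symm
  have hfaith : FaithfulSMul A K := (faithfulSMul_iff_algebraMap_injective A K).2 hinj
  have hfr : IsFractionRing A K := by
    refine IsFractionRing.of_field A K fun z => ?_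
    obtain ⟨r₁, r₂, hr₂, hz⟩ := IsFractionRing.div_surjective (A := R) z
    obtain ⟨a₁, b₁, hb₁, e₁⟩ := hfrac r₁
    obtain ⟨a₂, b₂, hb₂, e₂⟩ := hfrac r₂
    have hr₂0 : (r₂ : K) ≠ 0 := by
      intro h0
      exact nonZeroDivisors.ne_zero hr₂ (Subtype.ext h0)
    have hb₁' : (ρ b₁ : K) ≠ 0 := fun h0 => hb₁ (Subtype.ext h0)
    have hb₂' : (ρ b₂ : K) ≠ 0 := fun h0 => hb₂ (Subtype.ext h0)
    have e₁' : (r₁ : K) * ρ b₁ = ρ a₁ := congrArg Subtype.val e₁
    have e₂' : (r₂ : K) * ρ b₂ = ρ a₂ := congrArg Subtype.val e₂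
    refine ⟨a₁ * b₂, a₂ * b₁, ?_⟩
    rw [← hz, map_mul, map_mul, hAK, hAK, hAK, hAK, ← e₁', ← e₂']
    change (r₁ : K) / (r₂ : K) = _
    field_simp
  have hft : Algebra.FiniteType ℂ A := by
    have h1 : Algebra.FiniteType (MvPolynomial (Fin n) ℂ) A := inferInstance
    exact Algebra.FiniteType.trans (S := MvPolynomial (Fin n) ℂ) inferInstance h1
  set w : Fin n → A := fun i => algebraMap (MvPolynomial (Fin n) ℂ) A (X i) with hw
  have haev : ((aeval w : MvPolynomial (Fin n) ℂ →ₐ[ℂ] A) : MvPolynomial (Fin n) ℂ →+* A) =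
      algebraMap (MvPolynomial (Fin n) ℂ) A := by
    apply MvPolynomial.ringHom_ext
    · intro c
      have h1 : algebraMap (MvPolynomial (Fin n) ℂ) A (C c) = algebraMap ℂ A c := by
        rw [IsScalarTower.algebraMap_apply ℂ (MvPolynomial (Fin n) ℂ) A]; rfl
      rw [h1]
      simp
    · intro i
      simp [hw]
  have hetw : RingHom.Etale ((aeval w : MvPolynomial (Fin n) ℂ →ₐ[ℂ] A) :
      MvPolynomial (Fin n) ℂ →+* A) := by
    rw [haev]
    exact (RingHom.etale_algebraMap).2 het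
  have hwR : ∀ i, algebraMap A K (w i) = x i := by
    intro i
    rw [hAK, hw, hρP, h.coe_toR, aeval_X]
  have htmem : ρ (w i₀) ∈ IsLocalRing.maximalIdeal R := by
    rw [ValuationSubring.valuation_lt_one_iff]
    have : (ρ (w i₀) : K) = x i₀ := hwR i₀
    rw [this]
    exact h.lt
  have hdvd : ∀ a, w i₀ ∣ a ↔ ρ a ∈ IsLocalRing.maximalIdeal R := by
    intro a
    refine ⟨?_, hdiv a⟩
    rintro ⟨b, rfl⟩
    rw [map_mul]
    exact Ideal.mul_mem_right _ _ htmem
  have hprime : Prime (w i₀) := by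
    refine ⟨?_, ?_, ?_⟩
    · intro h0
      have := hwR i₀
      rw [h0, map_zero] at this
      exact h.ne this.symm
    · intro hu
      exact (IsLocalRing.mem_maximalIdeal _).1 htmem (hu.map ρ)
    · intro a b hab
      rw [hdvd, map_mul] at hab
      rw [hdvd, hdvd]
      exact (IsLocalRing.maximalIdeal.isMaximal R).isPrime.mem_or_mem hab
  let D : DivModel n K :=
    { A := A, ft := hft, w := w, etale := hetw, i₀ := i₀, prime := hprime }
  refine ⟨D, ⟨?_, ?_⟩, rfl, hwR⟩
  · intro a ha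
    have h1 : ¬ ρ a ∈ IsLocalRing.maximalIdeal R := fun h2 => ha (hdiv a h2)
    rw [IsLocalRing.mem_maximalIdeal, mem_nonunits_iff, not_not,
      ValuationSubring.valuation_eq_one_iff] at h1
    exact h1
  · have h1 := h.lt
    rw [← hwR i₀] at h1
    exact h1

/-- a finitely generated algebra whose localisation is `R` -/
theorem divModel_of_loc {n : ℕ} {R : ValuationSubring K}
    {x : Fin n → K} {i₀ : Fin n} (h : Adap R x i₀) (C L : Type) [CommRing C] [CommRing L]
    [Algebra (MvPolynomial (Fin n) ℂ) C] [Algebra C L] [Algebra (MvPolynomial (Fin n) ℂ) L]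
    [IsScalarTower (MvPolynomial (Fin n) ℂ) C L] (ι : C →+* R) (hι : Function.Injective ι)
    (hιP : ∀ P, ι (algebraMap (MvPolynomial (Fin n) ℂ) C P) = h.toR P)
    (f g : C) (hf : IsUnit (ι f)) (hg : IsUnit (ι g)) [IsLocalization.Away (f * g) L]
    (het : Algebra.Etale (MvPolynomial (Fin n) ℂ) L)
    (hdiv : ∀ c, ι c ∈ IsLocalRing.maximalIdeal R →
      algebraMap (MvPolynomial (Fin n) ℂ) C (X i₀) ∣ g * c)
    (hfrac : ∀ r : R, ∃ a b : C, ι b ≠ 0 ∧ r * ι b = ι a) :
    ∃ D : DivModel n K, D.ModelOf R ∧ D.i₀ = i₀ ∧ ∀ i, algebraMap D.A K (D.w i) = x i := by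
  have hu : IsUnit (ι (f * g)) := by rw [map_mul]; exact hf.mul hg
  let ρ : L →+* R := IsLocalization.Away.lift (f * g) hu
  have hρC : ∀ c : C, ρ (algebraMap C L c) = ι c := fun c =>
    IsLocalization.Away.lift_eq (f * g) hu c
  have hsurj : ∀ a : L, ∃ (k : ℕ) (c : C),
      a * algebraMap C L (f * g) ^ k = algebraMap C L c := fun a =>
    IsLocalization.Away.surj (f * g) a
  have hunit : IsUnit (algebraMap C L (f * g)) :=
    IsLocalization.Away.algebraMap_isUnit (f * g)
  let _ : Algebra ℂ L :=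
    ((algebraMap (MvPolynomial (Fin n) ℂ) L).comp
      (algebraMap ℂ (MvPolynomial (Fin n) ℂ))).toAlgebra
  have _ : IsScalarTower ℂ (MvPolynomial (Fin n) ℂ) L :=
    IsScalarTower.of_algebraMap_eq fun _ => rfl
  refine divModel_of_ring h L het ρ ?_ ?_ ?_ ?_
  · rw [injective_iff_map_eq_zero]
    intro a ha
    obtain ⟨k, c, hc⟩ := hsurj a
    have h1 := congrArg ρ hc
    rw [map_mul, ha, zero_mul, hρC] at h1
    have h2 : c = 0 := hι (by rw [← h1, map_zero])
    rw [h2, map_zero] at hc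
    exact ((hunit.pow k).mul_left_eq_zero).1 hc
  · intro P
    rw [IsScalarTower.algebraMap_apply (MvPolynomial (Fin n) ℂ) C L, hρC, hιP]
  · intro a ha
    obtain ⟨k, c, hc⟩ := hsurj a
    have h1 : ι c ∈ IsLocalRing.maximalIdeal R := by
      rw [← hρC, ← hc, map_mul]
      exact Ideal.mul_mem_right _ _ ha
    obtain ⟨d, hd⟩ := hdiv c h1
    have h2 := congrArg (algebraMap C L) hd
    rw [map_mul, map_mul, ← hc,
      ← IsScalarTower.algebraMap_apply (MvPolynomial (Fin n) ℂ) C L] at h2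
    have hgu : IsUnit (algebraMap C L g) := by
      rw [map_mul] at hunit
      exact isUnit_of_mul_isUnit_right hunit
    have h3 : algebraMap (MvPolynomial (Fin n) ℂ) L (X i₀) ∣
        a * (algebraMap C L g * algebraMap C L (f * g) ^ k) := by
      refine ⟨algebraMap C L d, ?_⟩
      rw [← h2]; ring
    exact ((hgu.mul (hunit.pow k)).dvd_mul_right).1 h3
  · intro r
    obtain ⟨a, b, hb, h1⟩ := hfrac r
    exact ⟨algebraMap C L a, algebraMap C L b, by rw [hρC]; exact hb, by rw [hρC, hρC]; exact h1⟩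

/-- the same, from an algebra `C` of finite type over the polynomial ring with `C_q = R` -/
theorem divModel_of_fin {n : ℕ} {R : ValuationSubring K}
    {x : Fin n → K} {i₀ : Fin n} (h : Adap R x i₀)
    (hmax : IsLocalRing.maximalIdeal R = Ideal.span {h.toR (X i₀)})
    [Algebra (MvPolynomial (Fin n) ℂ) R] (hPR : algebraMap (MvPolynomial (Fin n) ℂ) R = h.toR)
    [Algebra.FormallyEtale (MvPolynomial (Fin n) ℂ) R]
    (C : Type) [CommRing C]
    [Algebra (MvPolynomial (Fin n) ℂ) C] [hft : Algebra.FiniteType (MvPolynomial (Fin n) ℂ) C]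
    [Algebra C R] [IsScalarTower (MvPolynomial (Fin n) ℂ) C R]
    (hCR : Function.Injective (algebraMap C R)) (q : Ideal C) [hqp : q.IsPrime]
    (hqu : ∀ c : C, c ∉ q ↔ IsUnit (algebraMap C R c)) [hloc : IsLocalization.AtPrime R q] :
    ∃ D : DivModel n K, D.ModelOf R ∧ D.i₀ = i₀ ∧ ∀ i, algebraMap D.A K (D.w i) = x i := by
  have hmem : ∀ c : C, c ∈ q ↔ algebraMap C R c ∈ IsLocalRing.maximalIdeal R := by
    intro c
    rw [IsLocalRing.mem_maximalIdeal, mem_nonunits_iff, ← hqu, not_not]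
  have hnC : IsNoetherianRing C :=
    Algebra.FiniteType.isNoetherianRing (MvPolynomial (Fin n) ℂ) C
  have hfp : Algebra.FinitePresentation (MvPolynomial (Fin n) ℂ) C :=
    Algebra.FinitePresentation.of_finiteType.1 hft
  -- étale
  have hetq : Algebra.IsEtaleAt (MvPolynomial (Fin n) ℂ) q := by
    let e : Localization.AtPrime q ≃ₐ[C] R :=
      IsLocalization.algEquiv q.primeCompl (Localization.AtPrime q) R
    exact Algebra.FormallyEtale.of_equiv (e.restrictScalars (MvPolynomial (Fin n) ℂ)).symm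
  obtain ⟨f, hf, hetf⟩ := Algebra.exists_etale_of_isEtaleAt (R := MvPolynomial (Fin n) ℂ) q
  -- the divisor
  set t : C := algebraMap (MvPolynomial (Fin n) ℂ) C (X i₀) with ht
  have htR : algebraMap C R t = h.toR (X i₀) := by
    rw [ht, ← IsScalarTower.algebraMap_apply (MvPolynomial (Fin n) ℂ) C R, hPR]
  have hg : ∃ g : C, g ∉ q ∧ ∀ c ∈ q, t ∣ g * c := by
    have h1 : ∀ c : C, ∃ b : C, b ∉ q ∧ (c ∈ q → t ∣ b * c) := by
      intro c
      by_cases hc : c ∈ q
      · have h2 : algebraMap C R c ∈ IsLocalRing.maximalIdeal R := (hmem c).1 hc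
        rw [hmax, Ideal.mem_span_singleton] at h2
        obtain ⟨r, hr⟩ := h2
        obtain ⟨a, b, rfl⟩ := IsLocalization.exists_mk'_eq q.primeCompl r
        refine ⟨b, b.2, fun _ => ⟨a, ?_⟩⟩
        apply hCR
        rw [map_mul, map_mul, hr, htR, ← IsLocalization.mk'_spec R a b]
        ring
      · exact ⟨1, (hqu 1).2 (by simp), fun h => absurd h hc⟩
    choose b hb hb' using h1
    obtain ⟨S, hS⟩ := (isNoetherianRing_iff_ideal_fg C).1 hnC q
    refine ⟨∏ c ∈ S, b c, ?_, ?_⟩
    · intro h2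
      obtain ⟨c, _, hc⟩ := (hqp.prod_mem_iff).1 h2
      exact hb c hc
    · intro c hc
      rw [← hS] at hc
      refine Submodule.span_induction ?_ ?_ ?_ ?_ hc
      · intro c' hc'
        have h3 : c' ∈ q := by rw [← hS]; exact Ideal.subset_span hc'
        have h4 : b c' ∣ ∏ c ∈ S, b c := Finset.dvd_prod_of_mem b hc'
        exact (hb' c' h3).trans (mul_dvd_mul_right h4 c')
      · simp
      · intro a a' _ _ h1 h2
        rw [mul_add]
        exact dvd_add h1 h2
      · intro a c' _ h1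
        rw [smul_eq_mul, mul_left_comm]
        exact h1.mul_left a
  obtain ⟨g, hg, hg'⟩ := hg
  have hetA : Algebra.Etale (MvPolynomial (Fin n) ℂ) (Localization.Away (f * g)) := by
    rw [← Algebra.basicOpen_subset_etaleLocus_iff_etale]
    exact Set.Subset.trans (PrimeSpectrum.basicOpen_mul_le_left f g)
      (Algebra.basicOpen_subset_etaleLocus_iff_etale.2 hetf)
  refine divModel_of_loc h C (Localization.Away (f * g)) (algebraMap C R) hCR ?_ f g
    ((hqu f).1 hf) ((hqu g).1 hg) hetA ?_ ?_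
  · intro P
    rw [← IsScalarTower.algebraMap_apply (MvPolynomial (Fin n) ℂ) C R, hPR]
  · intro c hc
    exact hg' c ((hmem c).2 hc)
  · intro r
    obtain ⟨a, b, rfl⟩ := IsLocalization.exists_mk'_eq q.primeCompl r
    exact ⟨a, b, ((hqu b).1 b.2).ne_zero, IsLocalization.mk'_spec R a b⟩

/-- **Models of divisorial valuation rings** -/
theorem exists_divModel_of_adap {n : ℕ} [hK : Algebra.EssFiniteType ℂ K] {R : ValuationSubring K}
    {x : Fin n → K} {i₀ : Fin n} (h : Adap R x i₀) (hx : IsTranscendenceBasis ℂ x)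
    (hmax : IsLocalRing.maximalIdeal R = Ideal.span {h.toR (X i₀)}) :
    ∃ D : DivModel n K, D.ModelOf R ∧ D.i₀ = i₀ ∧ ∀ i, algebraMap D.A K (D.w i) = x i := by
  let _ : Algebra (MvPolynomial (Fin n) ℂ) R := h.toR.toAlgebra
  obtain ⟨hDVR, hess, het⟩ := h.props hx
  have het := het hmax
  -- the subalgebra
  let C := Algebra.EssFiniteType.subalgebra (MvPolynomial (Fin n) ℂ) R
  let q : Ideal C := (IsLocalRing.maximalIdeal R).comap (algebraMap C R)
  have hqu : ∀ c : C, c ∉ q ↔ IsUnit (algebraMap C R c) := by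
    intro c
    rw [Ideal.mem_comap, IsLocalRing.mem_maximalIdeal, mem_nonunits_iff, not_not]
  have hqp : q.IsPrime := Ideal.comap_isPrime _ _
  have hloc : IsLocalization.AtPrime R q := by
    have h1 : Algebra.EssFiniteType.submonoid (MvPolynomial (Fin n) ℂ) R = q.primeCompl := by
      ext c
      exact (hqu c).symm
    have h2 := Algebra.EssFiniteType.isLocalization (R := MvPolynomial (Fin n) ℂ) (S := R)
    rw [h1] at h2
    exact h2
  have hCR : Function.Injective (algebraMap C R) := Subtype.val_injective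
  exact divModel_of_fin h hmax rfl C hCR q hqu

/-- **every divisorial valuation ring of a finitely generated field over `ℂ` has a model** -/
theorem exists_divModel {n : ℕ} [Algebra.EssFiniteType ℂ K] (htr : Algebra.trdeg ℂ K = n)
    {R : ValuationSubring K} (hR : IsDiv ℂ n R) : ∃ D : DivModel n K, D.ModelOf R := by
  obtain ⟨x, i₀, h, hx, hmax⟩ := exists_adap htr hR
  obtain ⟨D, hD, -⟩ := exists_divModel_of_adap h hx hmax
  exact ⟨D, hD⟩

end poly

end Crest.Agent.R276.BC_986
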