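import Mathlib

/-!
# Row 276, MOD-BN (helper143), part 0: elimination (Nullstellensatz over a domain) and the
Bertini–Noether theorem: an absolutely irreducible polynomial over a domain `A` stays irreducible
under all ring homs `z : A → k` to fields with `z a ≠ 0`, for some `a ≠ 0`.
-/

set_option autoImplicit false

noncomputable section

open MvPolynomial

namespace Crest.Agent.R276.BN0_143

universe u

section elim

attribute [local instance] MvPolynomial.algebraMvPolynomial

variable {A : Type*} [CommRing A] [IsDomain A]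

/-- ELIM: a system of polynomial equations over a domain `A` without solution in the algebraic
closure of the fraction field has no solution over `z : A → k` if `z a ≠ 0`. -/
theorem elim {σ : Type*} [Finite σ] (L : Type*) [Field L] [Algebra A L] [IsFractionRing A L]
    (Lb : Type*) [Field Lb] [Algebra L Lb] [IsAlgClosed Lb] (S : Set (MvPolynomial σ A))
    (h : ∀ v : σ → Lb, ∃ p ∈ S, MvPolynomial.eval₂ ((algebraMap L Lb).comp (algebraMap A L)) v p
      ≠ 0) :
    ∃ a : A, a ≠ 0 ∧ ∀ (k : Type u) [Field k] (z : A →+* k), z a ≠ 0 → ∀ v : σ → k,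
      ∃ p ∈ S, MvPolynomial.eval₂ z v p ≠ 0 := by
  classical
  let I : Ideal (MvPolynomial σ L) := (Ideal.span S).map (MvPolynomial.map (algebraMap A L))
  have hI : I = ⊤ := by
    by_contra hne
    obtain ⟨m, hm, hle⟩ := Ideal.exists_le_maximal I hne
    let F := MvPolynomial σ L ⧸ m
    let _ : Field F := Ideal.Quotient.field m
    let π : MvPolynomial σ L →ₐ[L] F := Ideal.Quotient.mkₐ L m
    have hft : Algebra.FiniteType L F := Algebra.FiniteType.of_surjective π
      (Ideal.Quotient.mkₐ_surjective L m)
    have hfin : Module.Finite L F := finite_of_finite_type_of_isJacobsonRing L F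
    have : Algebra.IsAlgebraic L F := Algebra.IsAlgebraic.of_finite L F
    let φ : F →ₐ[L] Lb := IsAlgClosed.lift
    obtain ⟨p, hp, hpv⟩ := h (fun i => φ (π (X i)))
    apply hpv
    have h1 : MvPolynomial.eval₂ ((algebraMap L Lb).comp (algebraMap A L))
        (fun i => φ (π (X i))) p = φ (π (MvPolynomial.map (algebraMap A L) p)) := by
      have h2 : φ (π (MvPolynomial.map (algebraMap A L) p)) =
          MvPolynomial.aeval (fun i => φ (π (X i))) (MvPolynomial.map (algebraMap A L) p) := by
        have h3 : (φ.comp π) = MvPolynomial.aeval (fun i => φ (π (X i))) := by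
          apply MvPolynomial.algHom_ext
          intro i
          rw [AlgHom.comp_apply, MvPolynomial.aeval_X]
        exact congrArg (fun f : MvPolynomial σ L →ₐ[L] Lb =>
          f (MvPolynomial.map (algebraMap A L) p)) h3
      rw [h2, MvPolynomial.aeval_def, MvPolynomial.eval₂_map]
    rw [h1]
    have h5 : MvPolynomial.map (algebraMap A L) p ∈ m :=
      hle (Ideal.mem_map_of_mem _ (Ideal.subset_span hp))
    have h6 : π (MvPolynomial.map (algebraMap A L) p) = 0 :=
      Ideal.Quotient.eq_zero_iff_mem.2 h5
    rw [h6, map_zero]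
  have h1 : (1 : MvPolynomial σ L) ∈ I := by rw [hI]; trivial
  have hloc : IsLocalization ((nonZeroDivisors A).map (C : A →+* MvPolynomial σ A))
      (MvPolynomial σ L) := MvPolynomial.isLocalization (nonZeroDivisors A) L
  have h2 := (IsLocalization.mem_map_algebraMap_iff
    ((nonZeroDivisors A).map (C : A →+* MvPolynomial σ A)) (MvPolynomial σ L)
    (I := Ideal.span S) (z := 1)).1 h1
  obtain ⟨⟨⟨x, hx⟩, ⟨y, hy⟩⟩, hxy⟩ := h2
  obtain ⟨a, ha, rfl⟩ := hy
  have hinj : Function.Injective (algebraMap (MvPolynomial σ A) (MvPolynomial σ L)) := by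
    show Function.Injective (MvPolynomial.map (algebraMap A L))
    exact MvPolynomial.map_injective _ (IsFractionRing.injective A L)
  simp only [one_mul] at hxy
  have hCa : (C : A →+* MvPolynomial σ A) a ∈ Ideal.span S := by
    have := hinj hxy
    rw [this]
    exact hx
  refine ⟨a, nonZeroDivisors.ne_zero ha, ?_⟩
  intro k _ z hz v
  by_contra hall
  push Not at hall
  have hle : Ideal.span S ≤ RingHom.ker (MvPolynomial.eval₂Hom z v) := by
    rw [Ideal.span_le]
    intro p hp
    exact hall p hp
  have h7 := hle hCa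
  rw [RingHom.mem_ker, MvPolynomial.coe_eval₂Hom, MvPolynomial.eval₂_C] at h7
  exact hz h7

end elim

section generic

variable {τ : Type*} [Finite τ]

/-- exponents of degree at most `D` -/
abbrev Ex (τ : Type*) (D : ℕ) : Type _ := {α : τ →₀ ℕ // α.degree ≤ D}

instance (D : ℕ) : Finite (Ex τ D) := (Finsupp.finite_of_degree_le (σ := τ) D).to_subtype

instance (D : ℕ) : Fintype (Ex τ D) := Fintype.ofFinite _

/-- the polynomial with coefficients `v` in degrees `≤ d` (`d ≤ D`). -/
def gen {R : Type*} [CommRing R] (D d : ℕ) (v : Ex τ D → R) : MvPolynomial τ R :=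
  ∑ α : Ex τ D, monomial α.1 (if α.1.degree ≤ d then v α else 0)

theorem map_gen {R R' : Type*} [CommRing R] [CommRing R'] (f : R →+* R') (D d : ℕ)
    (v : Ex τ D → R) : MvPolynomial.map f (gen D d v) = gen D d (fun α => f (v α)) := by
  rw [gen, gen, map_sum]
  refine Finset.sum_congr rfl fun α _ => ?_
  rw [MvPolynomial.map_monomial]
  split_ifs
  · rfl
  · rw [map_zero]

theorem totalDegree_gen_le {R : Type*} [CommRing R] (D d : ℕ) (v : Ex τ D → R) :
    (gen D d v).totalDegree ≤ d := by
  refine totalDegree_finsetSum_le fun α _ => ?_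
  split_ifs with h
  · refine (totalDegree_monomial_le _ _).trans ?_
    exact h
  · rw [monomial_zero, totalDegree_zero]
    exact Nat.zero_le _

theorem gen_coeff {R : Type*} [CommRing R] (D d : ℕ) (hd : d ≤ D) (q : MvPolynomial τ R)
    (hq : q.totalDegree ≤ d) : gen D d (fun α => q.coeff α.1) = q := by
  classical
  ext β
  rw [gen, coeff_sum]
  by_cases hβ : β.degree ≤ D
  · rw [Finset.sum_eq_single (⟨β, hβ⟩ : Ex τ D)]
    · rw [coeff_monomial, if_pos rfl]
      split_ifs with h
      · rfl
      · by_contra hne
        apply h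
        have h1 := le_totalDegree (mem_support_iff.2 (Ne.symm hne))
        exact le_trans h1 hq
    · intro α _ hα
      rw [coeff_monomial, if_neg]
      intro h
      exact hα (Subtype.ext h)
    · intro h
      exact absurd (Finset.mem_univ _) h
  · rw [Finset.sum_eq_zero]
    · by_contra hne
      apply hβ
      have h1 := le_totalDegree (mem_support_iff.2 (Ne.symm hne))
      exact le_trans h1 (hq.trans hd)
    · intro α _
      rw [coeff_monomial, if_neg]
      intro h
      apply hβ
      rw [← h]
      exact α.2

/-- the generic factorisation `P = Q R`, `deg Q ≤ d`, `deg R ≤ D - d` -/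
def gq {A : Type*} [CommRing A] (P : MvPolynomial τ A) (D d : ℕ) :
    MvPolynomial τ (MvPolynomial (Ex τ D ⊕ Ex τ D) A) :=
  gen D d (fun α => X (Sum.inl α)) * gen D (D - d) (fun α => X (Sum.inr α)) -
    MvPolynomial.map C P

theorem key {A : Type*} [CommRing A] (P : MvPolynomial τ A) (D d : ℕ) {R : Type*} [CommRing R]
    (g : A →+* R) (v : Ex τ D ⊕ Ex τ D → R) :
    (∀ p ∈ Set.range (fun γ => (gq P D d).coeff γ), MvPolynomial.eval₂ g v p = 0) ↔
      gen D d (fun α => v (Sum.inl α)) * gen D (D - d) (fun α => v (Sum.inr α)) =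
        MvPolynomial.map g P := by
  have h1 : MvPolynomial.map (eval₂Hom g v) (gq P D d) =
      gen D d (fun α => v (Sum.inl α)) * gen D (D - d) (fun α => v (Sum.inr α)) -
      MvPolynomial.map g P := by
    rw [gq, map_sub, map_mul, map_gen, map_gen, MvPolynomial.map_map]
    congr 2
    · simp
    · simp
    · congr 1
      ext a
      simp
  rw [← sub_eq_zero, ← h1]
  constructor
  · intro h
    ext γ
    rw [coeff_map, coeff_zero]
    exact h _ ⟨γ, rfl⟩
  · rintro h p ⟨γ, rfl⟩
    have h2 := congrArg (coeff γ) h
    rw [coeff_map, coeff_zero] at h2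
    exact h2

omit [Finite τ] in
theorem isUnit_of_deg {k : Type*} [Field k] (q : MvPolynomial τ k) (h0 : q ≠ 0)
    (hq : q.totalDegree = 0) : IsUnit q := by
  rw [isUnit_iff_totalDegree_of_isReduced]
  refine ⟨?_, hq⟩
  rw [totalDegree_eq_zero_iff_eq_C] at hq
  rw [isUnit_iff_ne_zero]
  intro h
  apply h0
  rw [hq, h, C_0]

omit [Finite τ] in
theorem deg_of_isUnit {k : Type*} [Field k] (q : MvPolynomial τ k) (hq : IsUnit q) :
    q.totalDegree = 0 := (isUnit_iff_totalDegree_of_isReduced.1 hq).2

/-- BERTINI–NOETHER: an absolutely irreducible polynomial over a domain stays irreducible under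
`z : A → k` when `z a ≠ 0`. -/
theorem irreducible_spread {A : Type*} [CommRing A] [IsDomain A] (L : Type*) [Field L] [Algebra A L]
    [IsFractionRing A L] (Lb : Type*) [Field Lb] [Algebra L Lb] [IsAlgClosed Lb]
    (P : MvPolynomial τ A)
    (hP : Irreducible (MvPolynomial.map ((algebraMap L Lb).comp (algebraMap A L)) P)) :
    ∃ a : A, a ≠ 0 ∧ ∀ (k : Type u) [Field k] (z : A →+* k), z a ≠ 0 →
      Irreducible (MvPolynomial.map z P) := by
  classical
  set f : A →+* Lb := (algebraMap L Lb).comp (algebraMap A L) with hf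
  have hfinj : Function.Injective f :=
    (FaithfulSMul.algebraMap_injective L Lb).comp (IsFractionRing.injective A L)
  set D := P.totalDegree with hD
  have hP0 : P ≠ 0 := by
    rintro rfl
    rw [map_zero] at hP
    exact hP.ne_zero rfl
  have hDf : (MvPolynomial.map f P).totalDegree = D := by
    show (MvPolynomial.map f P).support.sup (fun s => s.sum fun _ e => e) =
      P.support.sup (fun s => s.sum fun _ e => e)
    rw [support_map_of_injective _ hfinj]
  -- leading coefficient
  obtain ⟨α₀, hα₀, hα₀D⟩ : ∃ α ∈ P.support, α.degree = D := by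
    have hne : P.support.Nonempty := by
      rwa [Finset.nonempty_iff_ne_empty, Ne, support_eq_empty]
    obtain ⟨α, hα, h⟩ := Finset.exists_mem_eq_sup P.support hne
      (fun s : τ →₀ ℕ => s.sum fun _ e => e)
    exact ⟨α, hα, h.symm⟩
  have hD1 : 1 ≤ D := by
    by_contra h
    have h0 : D = 0 := by omega
    exact hP.not_isUnit (isUnit_of_deg _ hP.ne_zero (hDf.trans h0))
  -- elimination for every splitting of the degree
  have hel : ∀ d : ℕ, ∃ a : A, a ≠ 0 ∧ (1 ≤ d → d < D → ∀ (k : Type u) [Field k] (z : A →+* k),
      z a ≠ 0 → ∀ v : Ex τ D ⊕ Ex τ D → k,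
      gen D d (fun α => v (Sum.inl α)) * gen D (D - d) (fun α => v (Sum.inr α)) ≠
        MvPolynomial.map z P) := by
    intro d
    by_cases hd : 1 ≤ d ∧ d < D
    · obtain ⟨a, ha, h⟩ := elim.{u} L Lb (Set.range (fun γ => (gq P D d).coeff γ)) (by
        intro v
        by_contra hall
        push Not at hall
        have h1 := (key P D d f v).1 hall
        rcases hP.isUnit_or_isUnit h1.symm with h2 | h2
        · have h3 := deg_of_isUnit _ h2
          have h4 : (MvPolynomial.map f P).totalDegree ≤ 0 + (D - d) := by
            rw [← h1]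
            refine (totalDegree_mul _ _).trans ?_
            exact add_le_add h3.le (totalDegree_gen_le _ _ _)
          omega
        · have h3 := deg_of_isUnit _ h2
          have h4 : (MvPolynomial.map f P).totalDegree ≤ d + 0 := by
            rw [← h1]
            refine (totalDegree_mul _ _).trans ?_
            exact add_le_add (totalDegree_gen_le _ _ _) h3.le
          omega)
      refine ⟨a, ha, fun _ _ k _ z hz v hv => ?_⟩
      obtain ⟨p, hp, hpv⟩ := h k z hz v
      exact hpv ((key P D d z v).2 hv p hp)
    · exact ⟨1, one_ne_zero, fun h1 h2 => absurd ⟨h1, h2⟩ hd⟩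
  choose a ha h using hel
  refine ⟨P.coeff α₀ * ∏ d ∈ Finset.range D, a d, mul_ne_zero (mem_support_iff.1 hα₀)
    (Finset.prod_ne_zero_iff.2 fun d _ => ha d), ?_⟩
  intro k _ z hz
  rw [map_mul, map_prod, mul_ne_zero_iff, Finset.prod_ne_zero_iff] at hz
  have hDz : (MvPolynomial.map z P).totalDegree = D := by
    apply le_antisymm
    · refine Finset.sup_le fun s hs => ?_
      exact (le_totalDegree (support_map_subset _ _ hs))
    · rw [← hα₀D]
      exact le_totalDegree (mem_support_iff.2 (by rw [coeff_map]; exact hz.1))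
  refine ⟨fun hu => ?_, fun q r hqr => ?_⟩
  · have := deg_of_isUnit _ hu
    omega
  · have hq0 : q ≠ 0 := by
      rintro rfl
      rw [zero_mul] at hqr
      rw [hqr, totalDegree_zero] at hDz
      omega
    have hr0 : r ≠ 0 := by
      rintro rfl
      rw [mul_zero] at hqr
      rw [hqr, totalDegree_zero] at hDz
      omega
    have hsum : q.totalDegree + r.totalDegree = D := by
      rw [← totalDegree_mul_of_isDomain hq0 hr0, ← hqr, hDz]
    by_cases hq : q.totalDegree = 0
    · exact Or.inl (isUnit_of_deg _ hq0 hq)
    by_cases hr : r.totalDegree = 0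
    · exact Or.inr (isUnit_of_deg _ hr0 hr)
    exfalso
    have h1 := h q.totalDegree (by omega) (by omega) k z (hz.2 _ (Finset.mem_range.2 (by omega)))
      (Sum.elim (fun α => q.coeff α.1) (fun α => r.coeff α.1))
    apply h1
    simp only [Sum.elim_inl, Sum.elim_inr]
    rw [gen_coeff D _ (by omega) q le_rfl, gen_coeff D _ (by omega) r (by omega), hqr]

end generic

end Crest.Agent.R276.BN0_143
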