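import Mathlib

/-!
# Row 276, MOD-BN (helper143), part 1: if `L` is algebraically closed in `K` (char. 0) then an
irreducible polynomial over `L` defining a subfield of `K` is absolutely irreducible.
-/

set_option autoImplicit false

noncomputable section

open MvPolynomial

namespace Crest.Agent.R276.BN1_143

universe v

variable {L : Type*} {K : Type v} [Field L] [Field K] [Algebra L K]

/-- `L` is algebraically closed in `K` -/
def AC (L K : Type*) [Field L] [Field K] [Algebra L K] : Prop :=
  ∀ a : K, IsAlgebraic L a → ∃ c : L, algebraMap L K c = a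

/-- minimal polynomials over `L` stay irreducible over `K` -/
theorem irreducible_map (h : AC L K) {m : Polynomial L} (hm : m.Monic) (hi : Irreducible m) :
    Irreducible (m.map (algebraMap L K)) := by
  have hmK : (m.map (algebraMap L K)).Monic := hm.map _
  have hne1 : m.map (algebraMap L K) ≠ 1 := by
    intro h1
    apply hi.not_isUnit
    have : m = 1 := by
      apply Polynomial.map_injective _ (algebraMap L K).injective
      rw [h1, Polynomial.map_one]
    rw [this]
    exact isUnit_one
  rw [hmK.irreducible_iff_natDegree']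
  refine ⟨hne1, ?_⟩
  intro f g hf hg hfg hdeg
  have h1 := integralClosure.mem_lifts_of_monic_of_dvd_map K hm hg ⟨f, by rw [← hfg, mul_comm]⟩
  rw [Polynomial.lifts_iff_coeff_lifts] at h1
  have h2 : g ∈ Polynomial.lifts (algebraMap L K) := by
    rw [Polynomial.lifts_iff_coeff_lifts]
    intro n
    obtain ⟨c, hc⟩ := h1 n
    have hc2 : IsAlgebraic L (g.coeff n) := by
      rw [← hc]
      exact IsIntegral.isAlgebraic c.2
    obtain ⟨c', hc'⟩ := h _ hc2
    exact ⟨c', hc'⟩
  obtain ⟨g0, hg0, hdeg0, hmon⟩ := Polynomial.lifts_and_natDegree_eq_and_monic h2 hg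
  have hdvd : g0 ∣ m := by
    rw [← Polynomial.map_dvd_map' (algebraMap L K), hg0, ← hfg]
    exact Dvd.intro_left f rfl
  obtain ⟨q, hq⟩ := hdvd
  have h3 : 0 < g.natDegree ∧ g.natDegree < m.natDegree := by
    have h4 := Finset.mem_Ioc.1 hdeg
    rw [hm.natDegree_map] at h4
    refine ⟨h4.1, ?_⟩
    have := h4.2
    omega
  rcases hi.isUnit_or_isUnit hq with hu | hu
  · have := Polynomial.natDegree_eq_zero_of_isUnit hu
    omega
  · have h5 := Polynomial.natDegree_eq_zero_of_isUnit hu
    have h6 : m.natDegree = g0.natDegree + q.natDegree := by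
      rw [hq]
      apply Polynomial.natDegree_mul
      · exact hmon.ne_zero
      · rintro rfl
        exact hu.ne_zero rfl
    omega

section main

variable {τ : Type*}

/-- the `L`-coordinates of a polynomial over a finite extension with a power basis -/
def comp {E : Type*} [Field E] [Algebra L E] (pb : PowerBasis L E) (F : MvPolynomial τ E)
    (j : Fin pb.dim) : MvPolynomial τ L :=
  ∑ α ∈ F.support, monomial α (pb.basis.repr (coeff α F) j)

theorem sum_comp {E : Type*} [Field E] [Algebra L E] (pb : PowerBasis L E)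
    (F : MvPolynomial τ E) :
    F = ∑ j : Fin pb.dim, C (pb.gen ^ (j : ℕ)) * MvPolynomial.map (algebraMap L E) (comp pb F j) := by
  have h1 : ∀ j : Fin pb.dim, C (pb.gen ^ (j : ℕ)) * MvPolynomial.map (algebraMap L E) (comp pb F j)
      = ∑ α ∈ F.support, monomial α (pb.basis.repr (coeff α F) j • pb.basis j) := by
    intro j
    rw [comp, map_sum, Finset.mul_sum]
    refine Finset.sum_congr rfl fun α _ => ?_
    rw [MvPolynomial.map_monomial, C_mul_monomial, PowerBasis.basis_eq_pow, Algebra.smul_def,
      mul_comm]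
  rw [Finset.sum_congr rfl fun j _ => h1 j, Finset.sum_comm]
  conv_lhs => rw [F.as_sum]
  refine Finset.sum_congr rfl fun α _ => ?_
  rw [← map_sum, pb.basis.sum_repr]

theorem deg_map {R S : Type*} [Field R] [Field S] (f : R →+* S) (q : MvPolynomial τ R) :
    (MvPolynomial.map f q).totalDegree = q.totalDegree := by
  show (MvPolynomial.map f q).support.sup (fun s => s.sum fun _ e => e) =
    q.support.sup (fun s => s.sum fun _ e => e)
  rw [support_map_of_injective _ f.injective]

theorem isUnit_of_deg {k : Type*} [Field k] (q : MvPolynomial τ k) (h0 : q ≠ 0)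
    (hq : q.totalDegree = 0) : IsUnit q := by
  rw [isUnit_iff_totalDegree_of_isReduced]
  refine ⟨?_, hq⟩
  rw [totalDegree_eq_zero_iff_eq_C] at hq
  rw [isUnit_iff_ne_zero]
  intro h
  apply h0
  rw [hq, h, C_0]

theorem deg_of_isUnit {k : Type*} [Field k] (q : MvPolynomial τ k) (hq : IsUnit q) :
    q.totalDegree = 0 := (isUnit_iff_totalDegree_of_isReduced.1 hq).2

/-- the case of a finite extension `E / L`: the kernel of `E[x] → K ⊗ E` is generated by `P` -/
theorem ext_kernel [CharZero L] (h : AC L K) (P : MvPolynomial τ L)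
    (φ : MvPolynomial τ L →ₐ[L] K) (hker : ∀ F, φ F = 0 ↔ P ∣ F)
    (E : Type*) [Field E] [Algebra L E] [FiniteDimensional L E] :
    ∃ (K' : Type v) (_ : Field K') (ψ : MvPolynomial τ E →+* K'),
      ∀ F, ψ F = 0 ↔ MvPolynomial.map (algebraMap L E) P ∣ F := by
  classical
  let pb : PowerBasis L E := Field.powerBasisOfFiniteOfSeparable L E
  have hint : IsIntegral L pb.gen := IsIntegral.of_finite L pb.gen
  let m := minpoly L pb.gen
  have hm : m.Monic := minpoly.monic hint
  have hirr := irreducible_map h hm (minpoly.irreducible hint)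
  have hmK : (m.map (algebraMap L K)).Monic := hm.map _
  have : Fact (Irreducible (m.map (algebraMap L K))) := ⟨hirr⟩
  let K' := AdjoinRoot (m.map (algebraMap L K))
  let pbK : PowerBasis K K' := AdjoinRoot.powerBasis' hmK
  have hgen : pbK.gen = AdjoinRoot.root (m.map (algebraMap L K)) := AdjoinRoot.powerBasis'_gen hmK
  have hdim : pbK.dim = pb.dim := by
    rw [AdjoinRoot.powerBasis'_dim, hm.natDegree_map]
    exact pb.natDegree_minpoly
  have hroot : Polynomial.aeval (AdjoinRoot.root (m.map (algebraMap L K))) (minpoly L pb.gen) = 0 := by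
    have h1 := AdjoinRoot.eval₂_root (m.map (algebraMap L K))
    rw [Polynomial.eval₂_map] at h1
    exact h1
  let ι : E →ₐ[L] K' := pb.lift (AdjoinRoot.root (m.map (algebraMap L K))) hroot
  have hιgen : ι pb.gen = pbK.gen := by
    rw [hgen]
    exact pb.lift_gen _ hroot
  let ψ : MvPolynomial τ E →+* K' := MvPolynomial.eval₂Hom (ι : E →+* K')
    (fun i => algebraMap K K' (φ (X i)))
  have hψmap : ∀ F : MvPolynomial τ L, ψ (MvPolynomial.map (algebraMap L E) F) =
      algebraMap K K' (φ F) := by
    intro F
    have h1 : (ψ.comp (MvPolynomial.map (algebraMap L E))) =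
        (algebraMap K K').comp (φ : MvPolynomial τ L →+* K) := by
      apply MvPolynomial.ringHom_ext
      · intro a
        simp only [RingHom.comp_apply, MvPolynomial.map_C, ψ, coe_eval₂Hom, eval₂_C]
        have h2 : (φ : MvPolynomial τ L →+* K) (C a) = algebraMap L K a := φ.commutes a
        rw [h2]
        show ι (algebraMap L E a) = _
        rw [ι.commutes, ← IsScalarTower.algebraMap_apply]
      · intro i
        simp [ψ]
    exact congrArg (fun f : MvPolynomial τ L →+* K' => f F) h1
  refine ⟨K', inferInstance, ψ, fun F => ⟨fun hF => ?_, ?_⟩⟩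
  · have h1 := sum_comp pb F
    have h2 : ψ F = ∑ j : Fin pb.dim, φ (comp pb F j) • pbK.gen ^ (j : ℕ) := by
      conv_lhs => rw [h1]
      rw [map_sum]
      refine Finset.sum_congr rfl fun j _ => ?_
      rw [map_mul, hψmap, Algebra.smul_def, mul_comm]
      congr 1
      show MvPolynomial.eval₂Hom (ι : E →+* K') _ (C (pb.gen ^ (j : ℕ))) = _
      rw [coe_eval₂Hom, eval₂_C]
      show ι (pb.gen ^ (j : ℕ)) = _
      rw [map_pow, hιgen]
    rw [hF] at h2
    have hli := pbK.basis.linearIndependent
    rw [Fintype.linearIndependent_iff] at hli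
    have h3 : ∀ j : Fin pb.dim, φ (comp pb F j) = 0 := by
      intro j
      have h4 := hli (fun i : Fin pbK.dim => φ (comp pb F (Fin.cast hdim i))) (by
        rw [h2]
        symm
        refine Fintype.sum_equiv (finCongr hdim.symm) _ _ fun i => ?_
        rw [PowerBasis.basis_eq_pow]
        rfl) (Fin.cast hdim.symm j)
      exact h4
    rw [h1]
    refine Finset.dvd_sum fun j _ => ?_
    apply Dvd.dvd.mul_left
    exact map_dvd _ ((hker _).1 (h3 j))
  · rintro ⟨G, rfl⟩
    rw [map_mul, hψmap, (hker P).2 (dvd_refl P), map_zero, zero_mul]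

/-- IRREDUCIBLE + `L` ALGEBRAICALLY CLOSED in the function field ⟹ ABSOLUTELY IRREDUCIBLE -/
theorem abs_irreducible [CharZero L] (h : AC L K) (P : MvPolynomial τ L) (hP0 : P ≠ 0)
    (φ : MvPolynomial τ L →ₐ[L] K) (hker : ∀ F, φ F = 0 ↔ P ∣ F)
    (Lb : Type*) [Field Lb] [Algebra L Lb] [Algebra.IsAlgebraic L Lb] :
    Irreducible (MvPolynomial.map (algebraMap L Lb) P) := by
  classical
  refine ⟨fun hu => ?_, fun Q R hQR => ?_⟩
  · have h1 := deg_of_isUnit _ hu
    rw [deg_map] at h1
    have h2 := isUnit_of_deg P hP0 h1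
    have h3 : φ 1 = 0 := (hker 1).2 h2.dvd
    rw [map_one] at h3
    exact one_ne_zero h3
  · let S : Set Lb := (Q.coeffs : Set Lb) ∪ R.coeffs
    have hSf : S.Finite := (Finset.finite_toSet _).union (Finset.finite_toSet _)
    have : Finite S := hSf.to_subtype
    let E := IntermediateField.adjoin L S
    have : FiniteDimensional L E := IntermediateField.finiteDimensional_adjoin
      (fun x _ => Algebra.IsIntegral.isIntegral x)
    have hsub : S ⊆ Set.range (algebraMap E Lb) := by
      intro x hx
      exact ⟨⟨x, IntermediateField.subset_adjoin L S hx⟩, rfl⟩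
    obtain ⟨Q', hQ'⟩ : Q ∈ Set.range (MvPolynomial.map (algebraMap E Lb)) :=
      mem_range_map_iff_coeffs_subset.2 (Set.subset_union_left.trans hsub)
    obtain ⟨R', hR'⟩ : R ∈ Set.range (MvPolynomial.map (algebraMap E Lb)) :=
      mem_range_map_iff_coeffs_subset.2 (Set.subset_union_right.trans hsub)
    have hPE : MvPolynomial.map (algebraMap L E) P = Q' * R' := by
      apply MvPolynomial.map_injective _ (algebraMap E Lb).injective
      rw [map_mul, hQ', hR', ← hQR, MvPolynomial.map_map, ← IsScalarTower.algebraMap_eq]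
    obtain ⟨K', _, ψ, hψ⟩ := ext_kernel h P φ hker E
    have hPE0 : MvPolynomial.map (algebraMap L E) P ≠ 0 := by
      intro h0
      apply hP0
      apply MvPolynomial.map_injective _ (algebraMap L E).injective
      rw [h0, map_zero]
    have hQ0 : Q' ≠ 0 := by
      rintro rfl
      rw [zero_mul] at hPE
      exact hPE0 hPE
    have hR0 : R' ≠ 0 := by
      rintro rfl
      rw [mul_zero] at hPE
      exact hPE0 hPE
    have hdeg := totalDegree_mul_of_isDomain hQ0 hR0
    have h0 : ψ Q' * ψ R' = 0 := by
      rw [← map_mul, ← hPE]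
      exact (hψ _).2 (dvd_refl _)
    rcases mul_eq_zero.1 h0 with h1 | h1
    · right
      have h2 := totalDegree_le_of_dvd_of_isDomain ((hψ _).1 h1) hQ0
      rw [hPE, hdeg] at h2
      rw [← hR']
      exact (isUnit_of_deg R' hR0 (by omega)).map _
    · left
      have h2 := totalDegree_le_of_dvd_of_isDomain ((hψ _).1 h1) hR0
      rw [hPE, hdeg] at h2
      rw [← hQ']
      exact (isUnit_of_deg Q' hQ0 (by omega)).map _

end main

end Crest.Agent.R276.BN1_143
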