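import Mathlib

/-!
# Row 276, MOD-BN (helper143), part 2: kernels of evaluation maps over UFDs
-/

set_option autoImplicit false

noncomputable section

namespace Crest.Agent.R276.BN2_143

open Polynomial

/-- Let `R` be a UFD, `P ∈ R[T]` irreducible of positive degree and `θ` a root of `P` in an
`R`-algebra `C ⊇ R` (any commutative ring). Then `P` generates the kernel of `R[T] → C`. -/
theorem ker_iff {R E : Type*} [CommRing R] [IsDomain R] [UniqueFactorizationMonoid R] [CommRing E]
    [Algebra R E] (hinj : Function.Injective (algebraMap R E)) (P : R[X]) (hP : Irreducible P)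
    (hdeg : P.natDegree ≠ 0) (θ : E) (hθ : aeval θ P = 0) (G : R[X]) :
    aeval θ G = 0 ↔ P ∣ G := by
  classical
  constructor
  · intro hG
    by_contra hndvd
    let _ : StrongNormalizationMonoid R := UniqueFactorizationMonoid.strongNormalizationMonoid
    let _ : NormalizedGCDMonoid R := UniqueFactorizationMonoid.toNormalizedGCDMonoid R
    have hprim : P.IsPrimitive := hP.isPrimitive hdeg
    let F := FractionRing R
    have hPF : Irreducible (P.map (algebraMap R F)) :=
      (hprim.irreducible_iff_irreducible_map_fraction_map (K := F)).1 hP
    have hnd : ¬ P.map (algebraMap R F) ∣ G.map (algebraMap R F) := by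
      intro h
      apply hndvd
      by_cases hG0 : G = 0
      · rw [hG0]; exact dvd_zero _
      -- reduce to the primitive part
      have h1 : G = C G.content * G.primPart := G.eq_C_content_mul_primPart
      have hc : G.content ≠ 0 := by rwa [Ne, content_eq_zero_iff]
      have h2 : P.map (algebraMap R F) ∣ G.primPart.map (algebraMap R F) := by
        rw [h1, Polynomial.map_mul, Polynomial.map_C] at h
        have hu : IsUnit (C (algebraMap R F G.content)) := by
          rw [Polynomial.isUnit_C, isUnit_iff_ne_zero]
          exact (map_ne_zero_iff _ (IsFractionRing.injective R F)).2 hc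
        exact (hu.dvd_mul_left).1 h
      have h3 := hprim.dvd_of_fraction_map_dvd_fraction_map (K := F) h2
      rw [h1]
      exact h3.mul_left _
    have hcop : IsCoprime (P.map (algebraMap R F)) (G.map (algebraMap R F)) :=
      (hPF.coprime_iff_not_dvd).2 hnd
    obtain ⟨U, V, hUV⟩ := hcop
    obtain ⟨u, hu, hU⟩ := IsLocalization.integerNormalization_spec (nonZeroDivisors R) U
    obtain ⟨v, hv, hV⟩ := IsLocalization.integerNormalization_spec (nonZeroDivisors R) V
    set U' := IsLocalization.integerNormalization (nonZeroDivisors R) U
    set V' := IsLocalization.integerNormalization (nonZeroDivisors R) V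
    have hid : C (u * v) = C v * U' * P + C u * V' * G := by
      apply Polynomial.map_injective (algebraMap R F) (IsFractionRing.injective R F)
      simp only [Polynomial.map_add, Polynomial.map_mul, Polynomial.map_C]
      rw [hU, hV, Algebra.smul_def, Algebra.smul_def, IsScalarTower.algebraMap_apply R F F[X],
        IsScalarTower.algebraMap_apply R F F[X], Polynomial.algebraMap_eq]
      rw [map_mul, C_mul]
      linear_combination (-C (algebraMap R F u) * C (algebraMap R F v)) * hUV
    have h4 := congrArg (aeval θ) hid
    rw [map_add, map_mul _ _ P, map_mul _ _ G, hθ, hG, mul_zero, mul_zero, add_zero, aeval_C]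
      at h4
    have h5 : u * v = 0 := hinj (by rw [h4, map_zero])
    rcases mul_eq_zero.1 h5 with h6 | h6
    · exact nonZeroDivisors.ne_zero hu h6
    · exact nonZeroDivisors.ne_zero hv h6
  · rintro ⟨H, rfl⟩
    rw [map_mul, hθ, zero_mul]

end Crest.Agent.R276.BN2_143
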