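import Crest.Agent.R276.BN0_143
import Crest.Agent.R276.BN1_143
import Crest.Agent.R276.BN2_143

/-!
# Row 276, MOD-BN (helper143), part 3: for `B` étale over `A[x]`, `Frac A` algebraically closed in
`Frac B`: the fibres `k ⊗[A] B` are domains over a dense open subset of `A`.
-/

set_option autoImplicit false

noncomputable section

namespace Crest.Agent.R276.BN3_143

open Polynomial TensorProduct

universe u

theorem isDomain_of {R E : Type*} [CommRing R] [IsDomain R] [UniqueFactorizationMonoid R]
    [CommRing E] [Nontrivial E] [Algebra R E] (htf : ∀ (r : R) (u : E), r ≠ 0 → r • u = 0 → u = 0)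
    (P : R[X]) (hP : Irreducible P) (hdeg : P.natDegree ≠ 0) (θ : E) (hθ : aeval θ P = 0)
    (c : R) (hc : c ≠ 0) (hgen : ∀ u : E, ∃ (N : ℕ) (Q : R[X]), c ^ N • u = aeval θ Q) :
    IsDomain E := by
  have hinj : Function.Injective (algebraMap R E) := by
    rw [injective_iff_map_eq_zero]
    intro r hr
    by_contra hne
    have h1 := htf r 1 hne (by rw [Algebra.smul_def, hr, zero_mul])
    exact one_ne_zero h1
  have hprime : Prime P := hP.prime
  have : NoZeroDivisors E := by
    refine ⟨fun {u v} huv => ?_⟩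
    obtain ⟨N, Q, hQ⟩ := hgen u
    obtain ⟨N', Q', hQ'⟩ := hgen v
    have h1 : aeval θ (Q * Q') = 0 := by
      rw [map_mul, ← hQ, ← hQ', smul_mul_smul_comm, huv, smul_zero]
    have h2 := (BN2_143.ker_iff hinj P hP hdeg θ hθ _).1 h1
    rcases hprime.dvd_or_dvd h2 with h3 | h3
    · left
      have h4 := (BN2_143.ker_iff hinj P hP hdeg θ hθ _).2 h3
      rw [← hQ] at h4
      exact htf _ _ (pow_ne_zero _ hc) h4
    · right
      have h4 := (BN2_143.ker_iff hinj P hP hdeg θ hθ _).2 h3
      rw [← hQ'] at h4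
      exact htf _ _ (pow_ne_zero _ hc) h4
  exact NoZeroDivisors.to_isDomain E

section nontriv

variable {A B : Type*} [CommRing A] [IsDomain A] [CommRing B] [IsDomain B] [Algebra A B]

theorem nontrivial_spread [Algebra.FinitePresentation A B] [Module.Flat A B]
    (hinj : Function.Injective (algebraMap A B)) :
    ∃ a : A, a ≠ 0 ∧ ∀ (k : Type u) [Field k] [Algebra A k], algebraMap A k a ≠ 0 →
      Nontrivial (k ⊗[A] B) := by
  have hopen := (PrimeSpectrum.isOpenMap_comap_of_hasGoingDown_of_finitePresentation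
    (R := A) (S := B)).isOpen_range
  have hmem : (⊥ : PrimeSpectrum A) ∈ Set.range (PrimeSpectrum.comap (algebraMap A B)) := by
    refine ⟨⊥, ?_⟩
    apply PrimeSpectrum.ext
    show Ideal.comap (algebraMap A B) ⊥ = ⊥
    exact (RingHom.injective_iff_ker_eq_bot _).1 hinj
  obtain ⟨s, ⟨a, rfl⟩, has, hsub⟩ :=
    PrimeSpectrum.isTopologicalBasis_basic_opens.isOpen_iff.1 hopen _ hmem
  refine ⟨a, ?_, ?_⟩
  · intro h0
    apply (PrimeSpectrum.mem_basicOpen a _).1 has
    rw [h0]
    exact Ideal.zero_mem _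
  · intro k _ _ hk
    obtain ⟨p, hpd⟩ : ∃ p : PrimeSpectrum A, p.asIdeal = RingHom.ker (algebraMap A k) :=
      ⟨⟨RingHom.ker (algebraMap A k), RingHom.ker_isPrime _⟩, rfl⟩
    have hp : p ∈ Set.range (PrimeSpectrum.comap (algebraMap A B)) := by
      apply hsub
      exact (PrimeSpectrum.mem_basicOpen a p).2 (fun h => hk (by rw [hpd] at h; exact h))
    have h1 := (PrimeSpectrum.nontrivial_iff_mem_rangeComap (R := A) (S := B) p).2 hp
    let κ := p.asIdeal.ResidueField
    let f : κ →+* k := Ideal.ResidueField.lift p.asIdeal (algebraMap A k) (le_of_eq hpd) (by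
      intro x hx
      rw [Submonoid.mem_comap, IsUnit.mem_submonoid_iff, isUnit_iff_ne_zero]
      intro h
      apply hx
      rw [hpd]
      exact h)
    let _ : Algebra κ k := f.toAlgebra
    have : IsScalarTower A κ k := IsScalarTower.of_algebraMap_eq fun x => by
      show _ = f (algebraMap A κ x)
      rw [Ideal.ResidueField.lift_algebraMap]
    have : Nontrivial (k ⊗[κ] (κ ⊗[A] B)) := Module.FaithfullyFlat.lTensor_nontrivial κ k _
    exact (TensorProduct.AlgebraTensorModule.cancelBaseChange A κ k k B).symm.toEquiv.nontrivial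

end nontriv

section torsion

theorem torsionFree {ι : Type*} {A B k : Type*} [CommRing A] [CommRing B] [Algebra A B] [Field k]
    [Algebra A k] [Algebra (MvPolynomial ι A) B] [IsScalarTower A (MvPolynomial ι A) B]
    [Module.Flat (MvPolynomial ι A) B] (x : ι → B)
    (hx : ∀ i, algebraMap (MvPolynomial ι A) B (MvPolynomial.X i) = x i) (r : MvPolynomial ι k)
    (hr : r ≠ 0) (u : k ⊗[A] B)
    (hu : MvPolynomial.aeval (fun i => (1 : k) ⊗ₜ[A] x i) r * u = 0) : u = 0 := by
  let e0 : k ⊗[A] MvPolynomial ι A ≃ₐ[k] MvPolynomial ι k := MvPolynomial.algebraTensorAlgEquiv A k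
  let c0 : k ⊗[A] MvPolynomial ι A ≃ₐ[A] MvPolynomial ι A ⊗[A] k := Algebra.TensorProduct.comm A _ _
  let e : B ⊗[MvPolynomial ι A] (MvPolynomial ι A ⊗[A] k) ≃ₐ[B] B ⊗[A] k :=
    Algebra.TensorProduct.cancelBaseChange A (MvPolynomial ι A) B B k
  let c1 : B ⊗[A] k ≃ₐ[A] k ⊗[A] B := Algebra.TensorProduct.comm A _ _
  let r1 : MvPolynomial ι A ⊗[A] k := c0 (e0.symm r)
  have hΦ : ∀ q : MvPolynomial ι k, c1 (e (1 ⊗ₜ c0 (e0.symm q))) =
      MvPolynomial.aeval (fun i => (1 : k) ⊗ₜ[A] x i) q := by
    intro q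
    let Φ : MvPolynomial ι k →+* k ⊗[A] B :=
      (c1.toRingEquiv.toRingHom.comp e.toRingEquiv.toRingHom).comp
        ((Algebra.TensorProduct.includeRight :
          (MvPolynomial ι A ⊗[A] k) →ₐ[MvPolynomial ι A]
            B ⊗[MvPolynomial ι A] (MvPolynomial ι A ⊗[A] k)).toRingHom.comp
          (c0.toRingEquiv.toRingHom.comp e0.symm.toRingEquiv.toRingHom))
    have h1 : Φ = (MvPolynomial.aeval (fun i => (1 : k) ⊗ₜ[A] x i) :
        MvPolynomial ι k →ₐ[k] k ⊗[A] B).toRingHom := by
      apply MvPolynomial.ringHom_ext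
      · intro c
        show c1 (e (1 ⊗ₜ c0 (e0.symm (MvPolynomial.C c)))) =
          MvPolynomial.aeval (fun i => (1 : k) ⊗ₜ[A] x i) (MvPolynomial.C c)
        have h2 : e0.symm (MvPolynomial.C c) = c ⊗ₜ 1 := by
          rw [AlgEquiv.symm_apply_eq]
          rw [MvPolynomial.algebraTensorAlgEquiv_tmul, map_one, MvPolynomial.smul_eq_C_mul, mul_one]
        rw [h2, Algebra.TensorProduct.comm_tmul, Algebra.TensorProduct.cancelBaseChange_tmul,
          one_smul, Algebra.TensorProduct.comm_tmul, MvPolynomial.aeval_C]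
        rfl
      · intro i
        show c1 (e (1 ⊗ₜ c0 (e0.symm (MvPolynomial.X i)))) =
          MvPolynomial.aeval (fun i => (1 : k) ⊗ₜ[A] x i) (MvPolynomial.X i)
        rw [MvPolynomial.algebraTensorAlgEquiv_symm_X, Algebra.TensorProduct.comm_tmul,
          Algebra.TensorProduct.cancelBaseChange_tmul, Algebra.TensorProduct.comm_tmul,
          MvPolynomial.aeval_X, Algebra.smul_def, hx, mul_one]
    exact congrArg (fun f : MvPolynomial ι k →+* k ⊗[A] B => f q) h1
  have hinj : Function.Injective (LinearMap.mulLeft (MvPolynomial ι A) r1) := by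
    rw [injective_iff_map_eq_zero]
    intro w hw
    have h1 : r1 * w = 0 := hw
    have h2 : r * e0 (c0.symm w) = 0 := by
      have h3 := congrArg (fun t => e0 (c0.symm t)) h1
      simp only [map_mul, map_zero, r1, AlgEquiv.symm_apply_apply, AlgEquiv.apply_symm_apply] at h3
      exact h3
    rcases mul_eq_zero.1 h2 with h4 | h4
    · exact absurd h4 hr
    · have h5 : c0.symm w = 0 := by
        apply e0.injective
        rw [h4, map_zero]
      apply c0.symm.injective
      rw [h5, map_zero]
  have hflat := Module.Flat.lTensor_preserves_injective_linearMap (M := B) _ hinj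
  have hmul : LinearMap.lTensor B (LinearMap.mulLeft (MvPolynomial ι A) r1) =
      LinearMap.mulLeft (MvPolynomial ι A)
        ((1 : B) ⊗ₜ[MvPolynomial ι A] r1 : B ⊗[MvPolynomial ι A] (MvPolynomial ι A ⊗[A] k)) := by
    apply TensorProduct.ext'
    intro a b
    rw [LinearMap.lTensor_tmul, LinearMap.mulLeft_apply, LinearMap.mulLeft_apply,
      Algebra.TensorProduct.tmul_mul_tmul, one_mul]
  have h6 : (1 ⊗ₜ r1) * e.symm (c1.symm u) = 0 := by
    apply e.injective
    apply c1.injective
    rw [map_mul, map_mul, hΦ r, AlgEquiv.apply_symm_apply, AlgEquiv.apply_symm_apply, hu,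
      map_zero, map_zero]
  have h8 : LinearMap.lTensor B (LinearMap.mulLeft (MvPolynomial ι A) r1)
      (e.symm (c1.symm u)) = 0 := by
    rw [hmul]
    exact h6
  have h7 := hflat (h8.trans (map_zero _).symm)
  apply c1.symm.injective
  apply e.symm.injective
  rw [h7, map_zero, map_zero]

end torsion

section gens

variable {ι A B : Type*} [CommRing A] [CommRing B] [Algebra A B]
  [Algebra (MvPolynomial ι A) B] [IsScalarTower A (MvPolynomial ι A) B]

/-- clearing denominators on generators is enough -/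
theorem gen_of_generators (θ : B) (G : Finset B) (hG : Algebra.adjoin A (G : Set B) = ⊤)
    (h : ∀ b ∈ G, ∃ (c : MvPolynomial ι A) (Q : (MvPolynomial ι A)[X]), c ≠ 0 ∧
      algebraMap _ B c * b = aeval θ Q) [IsDomain A] :
    ∃ c : MvPolynomial ι A, c ≠ 0 ∧ ∀ b : B, ∃ (N : ℕ) (Q : (MvPolynomial ι A)[X]),
      algebraMap _ B c ^ N * b = aeval θ Q := by
  classical
  choose! cf Qf h0 h1 using h
  refine ⟨∏ b ∈ G, cf b, Finset.prod_ne_zero_iff.2 fun b hb => h0 b hb, fun b => ?_⟩
  set c := ∏ b ∈ G, cf b with hc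
  have hb : b ∈ Algebra.adjoin A (G : Set B) := by rw [hG]; trivial
  have hstep : ∀ (b : B) (N : ℕ) (Q : (MvPolynomial ι A)[X]) (M : ℕ),
      algebraMap _ B c ^ N * b = aeval θ Q →
      algebraMap _ B c ^ (M + N) * b = aeval θ (C (c ^ M) * Q) := by
    intro b N Q M hQ
    rw [map_mul, ← hQ, aeval_C, map_pow, pow_add, mul_assoc]
  induction hb using Algebra.adjoin_induction with
  | mem b hb =>
    refine ⟨1, C (∏ b' ∈ G.erase b, cf b') * Qf b, ?_⟩
    rw [map_mul, ← h1 b hb, aeval_C, pow_one, hc, ← Finset.mul_prod_erase G cf hb, map_mul]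
    ring
  | algebraMap a =>
    refine ⟨0, C (MvPolynomial.C a), ?_⟩
    rw [pow_zero, one_mul, aeval_C, IsScalarTower.algebraMap_apply A (MvPolynomial ι A) B]
    rfl
  | add b b' _ _ ih ih' =>
    obtain ⟨N, Q, hQ⟩ := ih
    obtain ⟨N', Q', hQ'⟩ := ih'
    refine ⟨N' + N, C (c ^ N') * Q + C (c ^ N) * Q', ?_⟩
    rw [mul_add, hstep b N Q N' hQ, add_comm N' N, hstep b' N' Q' N hQ', map_add]
  | mul b b' _ _ ih ih' =>
    obtain ⟨N, Q, hQ⟩ := ih
    obtain ⟨N', Q', hQ'⟩ := ih'
    refine ⟨N + N', Q * Q', ?_⟩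
    rw [map_mul, ← hQ, ← hQ', pow_add]
    ring

end gens

section opt

variable {ι : Type*}

theorem opt_map {A k : Type*} [CommRing A] [CommRing k] (z : A →+* k)
    (F : MvPolynomial (Option ι) A) :
    MvPolynomial.optionEquivLeft k ι (MvPolynomial.map z F) =
      (MvPolynomial.optionEquivLeft A ι F).map (MvPolynomial.map z) := by
  have h : ((MvPolynomial.optionEquivLeft k ι).toRingEquiv.toRingHom).comp (MvPolynomial.map z) =
      (Polynomial.mapRingHom (MvPolynomial.map z)).comp
        ((MvPolynomial.optionEquivLeft A ι).toRingEquiv.toRingHom) := by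
    apply MvPolynomial.ringHom_ext
    · intro a
      show MvPolynomial.optionEquivLeft k ι (MvPolynomial.map z (MvPolynomial.C a)) =
        (MvPolynomial.optionEquivLeft A ι (MvPolynomial.C a)).map (MvPolynomial.map z)
      rw [MvPolynomial.map_C, MvPolynomial.optionEquivLeft_C, MvPolynomial.optionEquivLeft_C,
        Polynomial.map_C, MvPolynomial.map_C]
    · intro o
      show MvPolynomial.optionEquivLeft k ι (MvPolynomial.map z (MvPolynomial.X o)) =
        (MvPolynomial.optionEquivLeft A ι (MvPolynomial.X o)).map (MvPolynomial.map z)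
      rw [MvPolynomial.map_X]
      cases o with
      | none =>
        rw [MvPolynomial.optionEquivLeft_X_none, MvPolynomial.optionEquivLeft_X_none,
          Polynomial.map_X]
      | some i =>
        rw [MvPolynomial.optionEquivLeft_X_some, MvPolynomial.optionEquivLeft_X_some,
          Polynomial.map_C, MvPolynomial.map_X]
  exact congrArg (fun f : MvPolynomial (Option ι) A →+* (MvPolynomial ι k)[X] => f F) h

theorem opt_aeval {A E : Type*} [CommRing A] [CommRing E] [Algebra A E]
    [Algebra (MvPolynomial ι A) E] [IsScalarTower A (MvPolynomial ι A) E] (x : ι → E)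
    (hx : ∀ i, algebraMap (MvPolynomial ι A) E (MvPolynomial.X i) = x i) (θ : E)
    (F : MvPolynomial (Option ι) A) :
    aeval θ (MvPolynomial.optionEquivLeft A ι F) =
      MvPolynomial.aeval (fun o : Option ι => o.elim θ x) F := by
  have h : (((aeval θ : (MvPolynomial ι A)[X] →ₐ[MvPolynomial ι A] E).restrictScalars A).comp
      (MvPolynomial.optionEquivLeft A ι).toAlgHom) =
      MvPolynomial.aeval (fun o : Option ι => o.elim θ x) := by
    apply MvPolynomial.algHom_ext
    intro o
    show aeval θ (MvPolynomial.optionEquivLeft A ι (MvPolynomial.X o)) = _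
    cases o with
    | none => rw [MvPolynomial.optionEquivLeft_X_none, aeval_X, MvPolynomial.aeval_X]; rfl
    | some i =>
      rw [MvPolynomial.optionEquivLeft_X_some, aeval_C, hx, MvPolynomial.aeval_X]; rfl
  exact congrArg (fun f : MvPolynomial (Option ι) A →ₐ[A] E => f F) h

end opt

section basech

variable {ι A B : Type*} [CommRing A] [CommRing B] [Algebra A B]

theorem ev_map {k : Type*} [Field k] [Algebra A k] {σ : Type*} (y : σ → B)
    (F : MvPolynomial σ A) :
    MvPolynomial.aeval (fun i => (1 : k) ⊗ₜ[A] y i) (MvPolynomial.map (algebraMap A k) F) =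
      (1 : k) ⊗ₜ[A] MvPolynomial.aeval y F := by
  rw [MvPolynomial.aeval_map_algebraMap]
  exact MvPolynomial.aeval_one_tmul (R := A) (N := k) (S := B) y F

/-- the generation property after base change -/
theorem gen_baseChange {k : Type*} [Field k] [Algebra A k] (x : ι → B) (θ : B)
    (c : MvPolynomial ι A)
    (h : ∀ b : B, ∃ (N : ℕ) (Q : MvPolynomial (Option ι) A),
      MvPolynomial.aeval x c ^ N * b = MvPolynomial.aeval (fun o : Option ι => o.elim θ x) Q)
    (u : k ⊗[A] B) : ∃ (N : ℕ) (Q : MvPolynomial (Option ι) k),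
      MvPolynomial.aeval (fun i => (1 : k) ⊗ₜ[A] x i) (MvPolynomial.map (algebraMap A k) c) ^ N * u =
        MvPolynomial.aeval (fun o : Option ι => o.elim ((1 : k) ⊗ₜ[A] θ)
          (fun i => (1 : k) ⊗ₜ[A] x i)) Q := by
  set ck := MvPolynomial.aeval (fun i => (1 : k) ⊗ₜ[A] x i)
    (MvPolynomial.map (algebraMap A k) c) with hck
  have hc1 : ck = (1 : k) ⊗ₜ[A] MvPolynomial.aeval x c := ev_map x c
  have hstep : ∀ (u : k ⊗[A] B) (N : ℕ) (Q : MvPolynomial (Option ι) k) (M : ℕ),
      ck ^ N * u = MvPolynomial.aeval (fun o : Option ι => o.elim ((1 : k) ⊗ₜ[A] θ)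
          (fun i => (1 : k) ⊗ₜ[A] x i)) Q →
      ck ^ (M + N) * u = MvPolynomial.aeval (fun o : Option ι => o.elim ((1 : k) ⊗ₜ[A] θ)
          (fun i => (1 : k) ⊗ₜ[A] x i))
          ((MvPolynomial.rename some (MvPolynomial.map (algebraMap A k) c)) ^ M * Q) := by
    intro u N Q M hQ
    rw [map_mul, ← hQ, map_pow, MvPolynomial.aeval_rename, pow_add, mul_assoc]
    rfl
  induction u using TensorProduct.induction_on with
  | zero => exact ⟨0, 0, by simp⟩
  | add u v hu hv =>
    obtain ⟨N, Q, hQ⟩ := hu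
    obtain ⟨N', Q', hQ'⟩ := hv
    refine ⟨N' + N,
      (MvPolynomial.rename some) ((MvPolynomial.map (algebraMap A k)) c) ^ N' * Q +
      (MvPolynomial.rename some) ((MvPolynomial.map (algebraMap A k)) c) ^ N * Q', ?_⟩
    rw [mul_add, hstep u N Q N' hQ, add_comm N' N, hstep v N' Q' N hQ', ← map_add]
  | tmul s b =>
    obtain ⟨N, Q, hQ⟩ := h b
    refine ⟨N, MvPolynomial.C s * MvPolynomial.map (algebraMap A k) Q, ?_⟩
    rw [map_mul, MvPolynomial.aeval_C, hc1, Algebra.TensorProduct.tmul_pow, one_pow,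
      Algebra.TensorProduct.tmul_mul_tmul, one_mul, hQ]
    have h2 : (fun o : Option ι => o.elim ((1 : k) ⊗ₜ[A] θ) (fun i => (1 : k) ⊗ₜ[A] x i)) =
        fun o : Option ι => (1 : k) ⊗ₜ[A] (o.elim θ x) := by
      funext o
      cases o <;> rfl
    rw [h2, ev_map, Algebra.TensorProduct.algebraMap_apply, Algebra.TensorProduct.tmul_mul_tmul,
      one_mul]
    simp

end basech

section theta

variable {ι : Type} {A B : Type u} [CommRing A] [IsDomain A] [CharZero A] [CommRing B] [IsDomain B]
  [Algebra (MvPolynomial ι A) B]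

open IntermediateField in
theorem exists_theta' (K : Type u) [Field K] [Algebra B K] [IsFractionRing B K]
    [Algebra (MvPolynomial ι A) K] [IsScalarTower (MvPolynomial ι A) B K]
    [Algebra.FormallyUnramified (MvPolynomial ι A) B]
    [Algebra.FiniteType (MvPolynomial ι A) B] [Module.Flat (MvPolynomial ι A) B] :
    ∃ θ : B, (∀ b : B, IsAlgebraic (MvPolynomial ι A) b) ∧ ∀ b : B, ∃ (c : MvPolynomial ι A) (Q : (MvPolynomial ι A)[X]), c ≠ 0 ∧
      algebraMap _ B c * b = aeval θ Q := by
  classical
  have hinjB : Function.Injective (algebraMap (MvPolynomial ι A) B) := by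
    rw [injective_iff_map_eq_zero]
    intro r hr
    by_contra hne
    have h1 : r • (1 : B) = 0 := by rw [Algebra.smul_def, hr, zero_mul]
    rcases smul_eq_zero.1 h1 with h2 | h2
    · exact hne h2
    · exact one_ne_zero h2
  have hinjK : Function.Injective (algebraMap (MvPolynomial ι A) K) := by
    rw [IsScalarTower.algebraMap_eq (MvPolynomial ι A) B K]
    exact (IsFractionRing.injective B K).comp hinjB
  have : FaithfulSMul (MvPolynomial ι A) K := (faithfulSMul_iff_algebraMap_injective _ _).2 hinjK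
  have : FaithfulSMul (MvPolynomial ι A) B := (faithfulSMul_iff_algebraMap_injective _ _).2 hinjB
  let F0 := FractionRing (MvPolynomial ι A)
  let _ : Algebra F0 K := FractionRing.liftAlgebra _ K
  have : IsScalarTower (MvPolynomial ι A) F0 K := FractionRing.isScalarTower_liftAlgebra _ K
  have h1 : Algebra.FormallyUnramified B K := Algebra.FormallyUnramified.of_isLocalization
    (nonZeroDivisors B)
  have h2 : Algebra.FormallyUnramified (MvPolynomial ι A) K :=
    Algebra.FormallyUnramified.comp (MvPolynomial ι A) B K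
  have h3 : Algebra.FormallyUnramified F0 K :=
    Algebra.FormallyUnramified.of_restrictScalars (MvPolynomial ι A) F0 K
  have h4 : Algebra.EssFiniteType B K := Algebra.EssFiniteType.of_isLocalization K
    (nonZeroDivisors B)
  have h5 : Algebra.EssFiniteType (MvPolynomial ι A) K :=
    Algebra.EssFiniteType.comp (MvPolynomial ι A) B K
  have h6 : Algebra.EssFiniteType F0 K := Algebra.EssFiniteType.of_comp (MvPolynomial ι A) F0 K
  have h7 : Module.Finite F0 K := Algebra.FormallyUnramified.finite_of_free F0 K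
  have : CharZero F0 := inferInstance
  obtain ⟨α, hα⟩ := Field.exists_primitive_element F0 K
  obtain ⟨b0, s0, hs0, hbs⟩ := IsFractionRing.div_surjective (A := B) α
  have halgK : Algebra.IsAlgebraic F0 K := Algebra.IsAlgebraic.of_finite F0 K
  have halgK' : Algebra.IsAlgebraic (MvPolynomial ι A) K :=
    (IsFractionRing.comap_isAlgebraic_iff (A := MvPolynomial ι A) (K := F0) (C := K)).2 halgK
  have halgB : IsAlgebraic (MvPolynomial ι A) s0 := by
    have := halgK'.isAlgebraic (algebraMap B K s0)
    exact (isAlgebraic_algebraMap_iff (IsFractionRing.injective B K)).1 this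
  obtain ⟨c0, hc0, t0, ht0⟩ := halgB.exists_nonzero_dvd hs0
  set θ := b0 * t0 with hθ
  have hs0' : algebraMap B K s0 ≠ 0 := by
    exact (map_ne_zero_iff _ (IsFractionRing.injective B K)).2 (nonZeroDivisors.ne_zero hs0)
  have hθα : algebraMap B K θ = algebraMap (MvPolynomial ι A) K c0 * α := by
    rw [← hbs, IsScalarTower.algebraMap_apply (MvPolynomial ι A) B K, ht0, hθ, map_mul, map_mul]
    field_simp
  refine ⟨θ, ?_, fun b => ?_⟩
  · intro b
    exact (isAlgebraic_algebraMap_iff (IsFractionRing.injective B K)).1 (halgK'.isAlgebraic _)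
  have htop : F0⟮algebraMap B K θ⟯ = ⊤ := by
    rw [eq_top_iff, ← hα, adjoin_simple_le_iff]
    have h8 : α = (algebraMap F0 K (algebraMap _ F0 c0))⁻¹ * algebraMap B K θ := by
      rw [hθα, ← IsScalarTower.algebraMap_apply]
      have : algebraMap (MvPolynomial ι A) K c0 ≠ 0 := (map_ne_zero_iff _ hinjK).2 hc0
      field_simp
    rw [h8]
    exact mul_mem (inv_mem (IntermediateField.algebraMap_mem _ _)) (mem_adjoin_simple_self F0 _)
  have hmem : algebraMap B K b ∈ F0⟮algebraMap B K θ⟯ := by rw [htop]; trivial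
  rw [← IntermediateField.mem_toSubalgebra, IntermediateField.adjoin_simple_toSubalgebra_of_isAlgebraic
    (halgK.isAlgebraic _), Algebra.adjoin_singleton_eq_range_aeval] at hmem
  obtain ⟨q, hq⟩ := hmem
  obtain ⟨c, hc, hcq⟩ := IsLocalization.integerNormalization_spec
    (nonZeroDivisors (MvPolynomial ι A)) q
  refine ⟨c, IsLocalization.integerNormalization (nonZeroDivisors (MvPolynomial ι A)) q,
    nonZeroDivisors.ne_zero hc, ?_⟩
  apply IsFractionRing.injective B K
  have hq' : aeval (algebraMap B K θ) q = algebraMap B K b := hq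
  have hcq2 : algebraMap (MvPolynomial ι A) K c * aeval (algebraMap B K θ) q =
      aeval (algebraMap B K θ) (IsLocalization.integerNormalization
        (nonZeroDivisors (MvPolynomial ι A)) q) := by
    have h9 := congrArg (aeval (algebraMap B K θ)) hcq
    rw [aeval_map_algebraMap] at h9
    rw [h9]
    have h10 : c • q = C (algebraMap _ F0 c) * q := by
      rw [Algebra.smul_def]
      rfl
    have h11 : ∀ y : K, aeval y (C (algebraMap _ F0 c) * q) =
        algebraMap (MvPolynomial ι A) K c * aeval y q := by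
      intro y
      rw [map_mul, aeval_C, ← IsScalarTower.algebraMap_apply]
    rw [h10, h11]
  rw [map_mul, ← hq', ← IsScalarTower.algebraMap_apply, hcq2, aeval_algebraMap_apply]

theorem exists_theta [Algebra.FormallyUnramified (MvPolynomial ι A) B]
    [Algebra.FiniteType (MvPolynomial ι A) B] [Module.Flat (MvPolynomial ι A) B] :
    ∃ θ : B, (∀ b : B, IsAlgebraic (MvPolynomial ι A) b) ∧ ∀ b : B, ∃ (c : MvPolynomial ι A) (Q : (MvPolynomial ι A)[X]), c ≠ 0 ∧
      algebraMap _ B c * b = aeval θ Q :=
  exists_theta' (FractionRing B)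

end theta

section final

theorem exists_prime_factor {R E : Type*} [CommRing R] [IsDomain R] [UniqueFactorizationMonoid R]
    [CommRing E] [IsDomain E] (φ : R →+* E) {G : R} (hG : G ≠ 0) (h : φ G = 0) :
    ∃ P, Prime P ∧ φ P = 0 := by
  obtain ⟨f, hf, u, hu⟩ := UniqueFactorizationMonoid.exists_prime_factors G hG
  have h1 : φ f.prod = 0 := by
    rw [← hu, map_mul] at h
    rcases mul_eq_zero.1 h with h2 | h2
    · exact h2
    · exact absurd h2 (u.isUnit.map φ).ne_zero
  rw [map_multiset_prod, Multiset.prod_eq_zero_iff, Multiset.mem_map] at h1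
  obtain ⟨P, hP, hP0⟩ := h1
  exact ⟨P, hf P hP, hP0⟩

end final

end Crest.Agent.R276.BN3_143
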