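import Mathlib
import Crest.Agent.R276.BC2_986

/-!
Row 276, leaf BC-REL (helper590), part 0: boundary charts at a PRESCRIBED general point.

`exists_bchart_at` : for a finite set `F ⊆ K^*` there is `g₀` not vanishing on the divisor such
that at every point `y` of the divisor with `g₀(y) ≠ 0` there are arbitrarily small boundary charts
centred at `y` for which all `f ∈ F` are good.
-/

set_option autoImplicit false

open scoped Topology BigOperators
open Set Metric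

noncomputable section

namespace Crest.Agent.R276.BR_590

open Crest.Agent.R271.Defs710 Crest.Agent.R271.Bd741 Crest.Agent.R276.BC_986

variable {n : ℕ} {K : Type} [Field K] [Algebra ℂ K]

/-- the points where finitely many functions have their generic order -/
lemma exists_generic_fun (D : DivModel n K) (F : Finset K) (hF : ∀ f ∈ F, f ≠ 0) :
    ∃ g : D.A, ¬ D.t ∣ g ∧ ∀ y : D.A →ₐ[ℂ] ℂ, y g ≠ 0 → ∀ f ∈ F, ∀ a, D.HasOrd f a →
      OrdAt y D.t f a := by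
  classical
  have h1 : ∀ f : K, ∃ h : D.A, ¬ D.t ∣ h ∧ ∀ y : D.A →ₐ[ℂ] ℂ, f ∈ F → y h ≠ 0 →
      ∀ a, D.HasOrd f a → OrdAt y D.t f a := by
    intro f
    by_cases hf : f ∈ F
    · obtain ⟨a, ha⟩ := D.exists_hasOrd f (hF f hf)
      obtain ⟨u, v, hu, hv, h⟩ := ha
      refine ⟨u * v, D.not_dvd_mul hu hv, fun y _ hy a' ha' => ?_⟩
      have e : a' = a := D.hasOrd_unique ha' ⟨u, v, hu, hv, h⟩
      subst e
      rw [map_mul] at hy
      exact ⟨u, v, left_ne_zero_of_mul hy, right_ne_zero_of_mul hy, h⟩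
    · exact ⟨1, fun h => D.prime.not_isUnit (isUnit_of_dvd_one h), fun y h => absurd h hf⟩
  choose h hh hh' using h1
  refine ⟨∏ f ∈ F, h f, ?_, fun y hy f hf a ha => ?_⟩
  · intro hd
    obtain ⟨f, _, hf⟩ := (D.t_prime.dvd_finsetProd_iff _).1 hd
    exact hh f hf
  · rw [map_prod] at hy
    exact hh' f y hf (Finset.prod_ne_zero_iff.1 hy f hf) a ha

variable (D : DivModel n K) {B : Type} [CommRing B] [IsDomain B] [Algebra ℂ B]
  [Algebra B K] [IsScalarTower ℂ B K] [IsFractionRing B K]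

/-- **Existence of boundary charts** at a prescribed general point. -/
theorem exists_bchart_at (hB : Algebra.FiniteType ℂ B) (F : Finset K) (hF : ∀ f ∈ F, f ≠ 0) :
    ∃ g₀ : D.A, ¬ D.t ∣ g₀ ∧ ∀ y : D.A →ₐ[ℂ] ℂ, y D.t = 0 → y g₀ ≠ 0 →
      ∀ g : D.A, y g ≠ 0 → ∀ ε : ℝ, 0 < ε →
      ∃ X : BChart D B, X.y = y ∧ X.r ≤ ε ∧ (∀ ζ ∈ ball (0 : Cn n) X.r, X.C.s ζ g ≠ 0) ∧
        ∀ f ∈ F, ∃ (a : ℤ) (G : Cn n → ℂ), D.HasOrd f a ∧ Good D X f a G := by
  classical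
  have hinjA := D.inj
  have hinjB : Function.Injective (algebraMap B K) := IsFractionRing.injective B K
  obtain ⟨q, hq0, hq⟩ := exists_denom (A := D.A) (B := B) K hB
  have hqK : algebraMap D.A K q ≠ 0 := fun h => hq0 (hinjA (by rw [h, map_zero]))
  -- `w` in terms of `B`
  obtain ⟨⟨b0, hb0⟩, hb0'⟩ := IsLocalization.exist_integer_multiples_of_finite (nonZeroDivisors B)
    (fun i => algebraMap D.A K (D.w i))
  have hb00 : b0 ≠ 0 := nonZeroDivisors.ne_zero hb0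
  have hcw : ∀ i, ∃ cw : B, algebraMap B K cw =
      algebraMap B K b0 * algebraMap D.A K (D.w i) := by
    intro i
    obtain ⟨cw, hcw⟩ := hb0' i
    refine ⟨cw, ?_⟩
    rw [hcw, Algebra.smul_def]
  choose cw hcw using hcw
  obtain ⟨M0, u0, hu0⟩ := hq b0
  have hb0K : algebraMap B K b0 ≠ 0 := fun h => hb00 (hinjB (by rw [h, map_zero]))
  set F' : Finset K := insert (algebraMap D.A K q) (insert (algebraMap B K b0) F) with hF'
  have hF'0 : ∀ f ∈ F', f ≠ 0 := by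
    intro f hf
    rcases Finset.mem_insert.1 hf with rfl | hf
    · exact hqK
    · rcases Finset.mem_insert.1 hf with rfl | hf
      · exact hb0K
      · exact hF f hf
  obtain ⟨g₀, hg₀, hgen⟩ := exists_generic_fun D F' hF'0
  refine ⟨g₀, hg₀, fun y hyt hyg₀ g hyg ε hε => ?_⟩
  have hy := hgen y hyg₀
  obtain ⟨C⟩ := Crest.Agent.R271.Rd692.nonempty_chart D.w D.etale y
  have hcont : ∀ f : D.A, ContinuousAt (fun ζ => C.s ζ f) 0 := fun f =>
    (C.anal f 0 (mem_ball_self C.r_pos)).continuousAt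
  have hs0 : ∀ f, C.s 0 f = y f := by rw [C.s_zero]; exact fun _ => rfl
  -- the elements of `F'` are good on a common polydisc
  have hgood : ∀ f ∈ F',
      ∃ (a : ℤ) (G : Cn n → ℂ) (ρ : ℝ), D.HasOrd f a ∧ 0 < ρ ∧ ρ ≤ C.r ∧
      ∃ u₀ v₀ : D.A, f * algebraMap D.A K v₀ = algebraMap D.A K D.t ^ a * algebraMap D.A K u₀ ∧
      ∀ ζ ∈ ball (0 : Cn n) ρ, C.s ζ u₀ ≠ 0 ∧ C.s ζ v₀ ≠ 0 ∧ G ζ * C.s ζ v₀ = C.s ζ u₀ := by
    intro f hf
    obtain ⟨a, ha⟩ := D.exists_hasOrd f (hF'0 f hf)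
    obtain ⟨G, ρ, h1, h2, h3⟩ := eventually_good D C (hy f hf a ha)
    exact ⟨a, G, ρ, ha, h1, h2, h3⟩
  choose! aa GG ρρ hord hρ0 hρC uu vv huv hGeq using hgood
  obtain ⟨ρg, hρg, hρg'⟩ : ∃ ρ > 0, ∀ ζ ∈ ball (0 : Cn n) ρ, C.s ζ g ≠ 0 := by
    have h1 : ∀ᶠ ζ in 𝓝 (0 : Cn n), C.s ζ g ≠ 0 :=
      (hcont g).eventually_ne (by simp only [hs0]; exact hyg)
    exact Metric.eventually_nhds_iff_ball.1 h1
  obtain ⟨r, hr0, hrε, hrg, hrC, hrρ⟩ : ∃ r : ℝ, 0 < r ∧ r ≤ ε ∧ r ≤ ρg ∧ r ≤ C.r ∧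
      ∀ f ∈ F', r ≤ ρρ f := by
    have hne : F'.Nonempty := Finset.insert_nonempty _ _
    set r1 := F'.inf' hne ρρ with hr1
    have h1 : 0 < r1 := by
      rw [hr1, Finset.lt_inf'_iff]
      exact hρ0
    refine ⟨min (min ε ρg) (min C.r r1), lt_min (lt_min hε hρg) (lt_min C.r_pos h1),
      (min_le_left _ _).trans (min_le_left _ _), (min_le_left _ _).trans (min_le_right _ _),
      (min_le_right _ _).trans (min_le_left _ _), fun f hf => ?_⟩
    exact ((min_le_right _ _).trans (min_le_right _ _)).trans (Finset.inf'_le _ hf)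
  have hst : ∀ ζ ∈ ball (0 : Cn n) r, C.s ζ D.t = ζ D.i₀ := by
    intro ζ hζ
    have h := C.s_z ζ (ball_subset_ball hrC hζ) D.i₀
    have h2 : y (D.w D.i₀) = 0 := hyt
    rw [h2, zero_add] at h
    exact h
  -- every element of `A` which is in the list has no zeros off `t = 0`
  have hGA : ∀ u : D.A, algebraMap D.A K u ∈ F' → ∀ ζ ∈ ball (0 : Cn n) r, ζ D.i₀ ≠ 0 →
      C.s ζ u ≠ 0 := by
    intro u hu ζ hζ hζ0
    obtain ⟨h1, h2, -⟩ := hGeq _ hu ζ (ball_subset_ball (hrρ _ hu) hζ)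
    have h3 := a_zpow D.inj (by rw [hst ζ hζ]; exact hζ0) D.tK_ne (huv _ hu)
    rw [hst ζ hζ] at h3
    intro h0
    rw [h0, zero_mul] at h3
    exact (mul_ne_zero (zpow_ne_zero _ hζ0) h1) h3.symm
  have hqne : ∀ ζ ∈ ball (0 : Cn n) r, ζ D.i₀ ≠ 0 → C.s ζ q ≠ 0 :=
    hGA q (Finset.mem_insert_self _ _)
  -- the section
  have hex : ∀ ζ : Cn n, ∃ p : B →ₐ[ℂ] ℂ, ζ ∈ ball (0 : Cn n) r → ζ D.i₀ ≠ 0 →
      ∀ (b : B) (u v : D.A), algebraMap B K b * algebraMap D.A K v = algebraMap D.A K u →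
      p b * C.s ζ v = C.s ζ u := by
    intro ζ
    by_cases h : ζ ∈ ball (0 : Cn n) r ∧ ζ D.i₀ ≠ 0
    · obtain ⟨p, hp⟩ := exists_pt hinjA q hq (C.s ζ) (hqne ζ h.1 h.2)
      exact ⟨p, fun _ _ => hp⟩
    · by_cases hne : ∃ ζ' : Cn n, ζ' ∈ ball (0 : Cn n) r ∧ ζ' D.i₀ ≠ 0
      · obtain ⟨ζ', h1, h2⟩ := hne
        obtain ⟨p, hp⟩ := exists_pt hinjA q hq (C.s ζ') (hqne ζ' h1 h2)
        exact ⟨p, fun h1 h2 => absurd ⟨h1, h2⟩ h⟩
      · exfalso
        apply hne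
        refine ⟨Pi.single D.i₀ (r / 2 : ℝ), ?_, ?_⟩
        · rw [mem_ball_zero_iff, Pi.norm_single]
          simp only [Complex.norm_real, Real.norm_eq_abs]
          rw [abs_of_pos (by positivity)]
          linarith
        · rw [Pi.single_eq_same]
          simp [hr0.ne']
  choose s' hs' using hex
  -- injectivity
  have hinj : InjOn s' (ball (0 : Cn n) r ∩ {ζ | ζ D.i₀ ≠ 0}) := by
    intro ζ hζ ζ' hζ' heq
    have key : ∀ ζ ∈ ball (0 : Cn n) r ∩ {ζ : Cn n | ζ D.i₀ ≠ 0},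
        s' ζ b0 ≠ 0 ∧ ∀ i, s' ζ (cw i) = s' ζ b0 * C.s ζ (D.w i) := by
      intro ζ hζ
      have h2 := hqne ζ hζ.1 hζ.2
      have e1 := hs' ζ hζ.1 hζ.2 b0 u0 (q ^ M0) (by rw [map_pow]; exact hu0)
      have hb : s' ζ b0 ≠ 0 := by
        intro h
        rw [h, zero_mul] at e1
        have hmem : algebraMap B K b0 ∈ F' :=
          Finset.mem_insert_of_mem (Finset.mem_insert_self _ _)
        obtain ⟨g1, g2, -⟩ := hGeq _ hmem ζ (ball_subset_ball (hrρ _ hmem) hζ.1)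
        have h3 : algebraMap D.A K u0 * algebraMap D.A K (vv (algebraMap B K b0)) =
            algebraMap D.A K D.t ^ aa (algebraMap B K b0) *
              algebraMap D.A K (uu (algebraMap B K b0) * q ^ M0) := by
          rw [map_mul, ← mul_assoc, ← huv _ hmem, ← hu0, map_pow]; ring
        have h4 := a_zpow D.inj (by rw [hst ζ hζ.1]; exact hζ.2) D.tK_ne h3
        rw [← e1, zero_mul, map_mul, map_pow] at h4
        refine absurd h4.symm (mul_ne_zero (zpow_ne_zero _ ?_) (mul_ne_zero g1 (pow_ne_zero _ h2)))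
        rw [hst ζ hζ.1]; exact hζ.2
      refine ⟨hb, fun i => ?_⟩
      have e2 := hs' ζ hζ.1 hζ.2 (cw i) (u0 * D.w i) (q ^ M0) (by
        rw [hcw, map_pow, map_mul, ← hu0]; ring)
      rw [map_mul, ← e1, map_pow] at e2
      have hqp : (C.s ζ q) ^ M0 ≠ 0 := pow_ne_zero _ h2
      have : s' ζ (cw i) * (C.s ζ q) ^ M0 =
          (s' ζ b0 * C.s ζ (D.w i)) * (C.s ζ q) ^ M0 := by
        rw [e2]; ring
      exact mul_right_cancel₀ hqp this
    obtain ⟨k1, k2⟩ := key ζ hζ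
    obtain ⟨k1', k2'⟩ := key ζ' hζ'
    funext i
    have e1 := k2 i
    have e2 := k2' i
    rw [← heq, e1] at e2
    have e3 := mul_left_cancel₀ k1 e2
    rw [C.s_z ζ (ball_subset_ball hrC hζ.1) i, C.s_z ζ' (ball_subset_ball hrC hζ'.1) i] at e3
    exact add_left_cancel e3
  let X : BChart D B :=
    { y := y, C := C, y_t := hyt, r := r, r_pos := hr0, r_le := hrC, s := s', q := q,
      q_ne := hqne, q_spec := hq, spec := hs', inj := hinj }
  refine ⟨X, rfl, hrε, fun ζ hζ => hρg' ζ (ball_subset_ball hrg hζ), fun f hf => ?_⟩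
  have hf' : f ∈ F' :=
    Finset.mem_insert_of_mem (Finset.mem_insert_of_mem hf)
  exact ⟨aa f, GG f, hord f hf', ⟨uu f, vv f, huv f hf', fun ζ hζ =>
    hGeq f hf' ζ (ball_subset_ball (hrρ f hf') hζ)⟩⟩

end Crest.Agent.R276.BR_590
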