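import Mathlib
import Crest.Agent.R271.Defs_710

/-!
Row 276, leaf BC-REL (helper590), part 1: the coordinate `τ = t G^{1/e}`.

`exists_root_coord` : if `G` is holomorphic without zeros near `0 ∈ ℂⁿ` and `e ≥ 1`, there is a
local biholomorphic map `Ξ` (new coordinates `ξ`, old coordinates `ζ = Ξ ξ`) with `ζ i = ξ i` for
`i ≠ i₀` and `ζ_{i₀}^e G(ζ) = ξ_{i₀}^e`.
-/

set_option autoImplicit false

open scoped Topology BigOperators ContDiff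
open Set Metric Filter

noncomputable section

namespace Crest.Agent.R276.BR_590

open Crest.Agent.R271.Defs710

/-- a holomorphic `e`-th root near the centre -/
lemma exists_root {n : ℕ} {G : Cn n → ℂ} (hG : AnalyticAt ℂ G 0) (hne : G 0 ≠ 0) (e : ℕ)
    (he : e ≠ 0) : ∃ H : Cn n → ℂ, AnalyticAt ℂ H 0 ∧ (∀ ζ, H ζ ≠ 0) ∧
      ∀ᶠ ζ in 𝓝 0, H ζ ^ e = G ζ := by
  refine ⟨fun ζ => Complex.exp ((Complex.log (G ζ / G 0) + Complex.log (G 0)) / e), ?_,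
    fun ζ => Complex.exp_ne_zero _, ?_⟩
  · have h1 : AnalyticAt ℂ (fun ζ => G ζ / G 0) 0 := hG.div analyticAt_const hne
    have h2 : AnalyticAt ℂ (fun ζ => Complex.log (G ζ / G 0)) 0 := by
      apply h1.clog
      rw [div_self hne]
      exact Complex.one_mem_slitPlane
    have he' : (e : ℂ) ≠ 0 := by exact_mod_cast he
    exact ((h2.add analyticAt_const).div analyticAt_const he').cexp
  · filter_upwards [hG.continuousAt.eventually_ne hne] with ζ hζ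
    have he' : (e : ℂ) ≠ 0 := by exact_mod_cast he
    rw [← Complex.exp_nat_mul, mul_div_cancel₀ _ he', Complex.exp_add, Complex.exp_log,
      Complex.exp_log hne, div_mul_cancel₀ _ hne]
    exact div_ne_zero hζ hne

theorem exists_root_coord {n : ℕ} (i₀ : Fin n) {G : Cn n → ℂ} {r : ℝ} (hr : 0 < r)
    (hG : AnalyticOnNhd ℂ G (ball 0 r)) (hne : G 0 ≠ 0) (e : ℕ) (he : e ≠ 0) (ε : ℝ)
    (hε : 0 < ε) :
    ∃ (ρ : ℝ) (Ξ : Cn n → Cn n) (E : Cn n → ℂ), 0 < ρ ∧ ρ ≤ ε ∧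
      AnalyticOnNhd ℂ Ξ (ball 0 ρ) ∧ MapsTo Ξ (ball 0 ρ) (ball 0 r) ∧ InjOn Ξ (ball 0 ρ) ∧
      (∀ ξ ∈ ball (0 : Cn n) ρ, (fderiv ℂ Ξ ξ).det ≠ 0) ∧
      (∀ ξ ∈ ball (0 : Cn n) ρ, ∀ i, i ≠ i₀ → Ξ ξ i = ξ i) ∧
      AnalyticOnNhd ℂ E (ball 0 ρ) ∧
      (∀ ξ ∈ ball (0 : Cn n) ρ, E ξ ≠ 0 ∧ Ξ ξ i₀ = ξ i₀ * E ξ ∧
        (Ξ ξ i₀) ^ e * G (Ξ ξ) = ξ i₀ ^ e) ∧ Ξ 0 = 0 := by
  have hG0 : AnalyticAt ℂ G 0 := hG 0 (mem_ball_self hr)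
  obtain ⟨H, hH, hH0, hHe⟩ := exists_root hG0 hne e he
  let Θ : Cn n → Cn n := fun ζ i => if i = i₀ then ζ i₀ * H ζ else ζ i
  have hproj : ∀ (i : Fin n) (ζ : Cn n), AnalyticAt ℂ (fun ζ : Cn n => ζ i) ζ := fun i ζ =>
    (ContinuousLinearMap.proj (R := ℂ) (φ := fun _ : Fin n => ℂ) i).analyticAt ζ
  have hΘan : ∀ ζ, AnalyticAt ℂ H ζ → AnalyticAt ℂ Θ ζ := by
    intro ζ hζ
    rw [analyticAt_pi_iff]
    intro i
    by_cases hi : i = i₀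
    · simp only [if_pos hi]
      exact (hproj i₀ ζ).mul hζ
    · simp only [if_neg hi]
      exact hproj i ζ
  have hΘ0 : Θ 0 = 0 := by
    funext i
    simp [Θ]
  let c : Fin n → ℂˣ := fun i => if i = i₀ then Units.mk0 (H 0) (hH0 0) else 1
  let Θ' : Cn n ≃L[ℂ] Cn n :=
    ContinuousLinearEquiv.piCongrRight fun i => ContinuousLinearEquiv.unitsEquivAut ℂ (c i)
  have hΘ' : HasFDerivAt Θ (Θ' : Cn n →L[ℂ] Cn n) 0 := by
    rw [hasFDerivAt_pi']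
    intro i
    by_cases hi : i = i₀
    · subst hi
      have h1 : HasFDerivAt (fun ζ : Cn n => ζ i * H ζ)
          ((0 : Cn n) i • fderiv ℂ H 0 + H 0 •
            (ContinuousLinearMap.proj (R := ℂ) (φ := fun _ : Fin n => ℂ) i)) 0 :=
        HasFDerivAt.fun_mul (hasFDerivAt_apply i (0 : Cn n)) hH.differentiableAt.hasFDerivAt
      have h2 : (fun ζ : Cn n => Θ ζ i) = fun ζ => ζ i * H ζ := by
        funext ζ; simp [Θ]
      rw [h2]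
      convert! h1 using 1
      ext v
      simp [Θ', c, mul_comm]
    · have h2 : (fun ζ : Cn n => Θ ζ i) = fun ζ => ζ i := by
        funext ζ; simp [Θ, hi]
      rw [h2]
      convert! hasFDerivAt_apply (𝕜 := ℂ) i (0 : Cn n) using 1
      ext v
      simp [Θ', c, hi]
  have hΘc : ContDiffAt ℂ ω Θ 0 := (hΘan 0 hH).contDiffAt
  have hn : (ω : WithTop ℕ∞) ≠ 0 := by simp
  set Ξ : Cn n → Cn n := hΘc.localInverse hΘ' hn with hΞ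
  have hΞ0 : Ξ 0 = 0 := by
    have := hΘc.localInverse_apply_image hΘ' hn
    rwa [hΘ0] at this
  have hΞan : AnalyticAt ℂ Ξ 0 := by
    have h1 := hΘc.to_localInverse hΘ' hn
    rw [hΘ0] at h1
    exact h1.analyticAt
  have hinv : ∀ᶠ ξ in 𝓝 (0 : Cn n), Θ (Ξ ξ) = ξ := by
    have h1 := (hΘc.hasStrictFDerivAt' hΘ' hn).eventually_right_inverse
    rw [hΘ0] at h1
    exact h1
  have hcont : Tendsto Ξ (𝓝 0) (𝓝 0) := by
    have := hΞan.continuousAt.tendsto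
    rwa [hΞ0] at this
  have hev : ∀ᶠ ξ in 𝓝 (0 : Cn n), AnalyticAt ℂ Ξ ξ ∧ Θ (Ξ ξ) = ξ ∧ Ξ ξ ∈ ball (0 : Cn n) r ∧
      AnalyticAt ℂ H (Ξ ξ) ∧ H (Ξ ξ) ^ e = G (Ξ ξ) :=
    hΞan.eventually_analyticAt.and (hinv.and ((hcont.eventually (ball_mem_nhds 0 hr)).and
      ((hcont.eventually hH.eventually_analyticAt).and (hcont.eventually hHe))))
  obtain ⟨ρ₁, hρ₁, hball⟩ := Metric.eventually_nhds_iff_ball.1 hev
  set ρ := min ρ₁ ε with hρ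
  have hball' : ∀ ξ ∈ ball (0 : Cn n) ρ, AnalyticAt ℂ Ξ ξ ∧ Θ (Ξ ξ) = ξ ∧
      Ξ ξ ∈ ball (0 : Cn n) r ∧ AnalyticAt ℂ H (Ξ ξ) ∧ H (Ξ ξ) ^ e = G (Ξ ξ) :=
    fun ξ hξ => hball ξ (ball_subset_ball (min_le_left _ _) hξ)
  have hcoord : ∀ ξ ∈ ball (0 : Cn n) ρ, ξ i₀ = Ξ ξ i₀ * H (Ξ ξ) := by
    intro ξ hξ
    have h1 := congrFun (hball' ξ hξ).2.1 i₀
    simp only [Θ, if_true] at h1
    exact h1.symm
  refine ⟨ρ, Ξ, fun ξ => (H (Ξ ξ))⁻¹, lt_min hρ₁ hε, min_le_right _ _,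
    fun ξ hξ => (hball' ξ hξ).1, fun ξ hξ => (hball' ξ hξ).2.2.1, ?_, ?_, ?_, ?_, ?_, hΞ0⟩
  · intro ξ hξ ξ' hξ' h
    rw [← (hball' ξ hξ).2.1, ← (hball' ξ' hξ').2.1, h]
  · intro ξ hξ
    obtain ⟨h1, h2, h3, h4, h5⟩ := hball' ξ hξ
    have h6 : (fun ξ => Θ (Ξ ξ)) =ᶠ[𝓝 ξ] id := by
      filter_upwards [isOpen_ball.mem_nhds hξ] with ξ' hξ'
      exact (hball' ξ' hξ').2.1
    have h7 : fderiv ℂ (fun ξ => Θ (Ξ ξ)) ξ = (fderiv ℂ Θ (Ξ ξ)).comp (fderiv ℂ Ξ ξ) :=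
      fderiv_comp ξ (hΘan _ h4).differentiableAt h1.differentiableAt
    rw [h6.fderiv_eq, fderiv_id] at h7
    intro h0
    have h8 : LinearMap.det (ContinuousLinearMap.id ℂ (Cn n) : Cn n →ₗ[ℂ] Cn n) =
        LinearMap.det (((fderiv ℂ Θ (Ξ ξ) : Cn n →L[ℂ] Cn n) : Cn n →ₗ[ℂ] Cn n) ∘ₗ
          ((fderiv ℂ Ξ ξ : Cn n →L[ℂ] Cn n) : Cn n →ₗ[ℂ] Cn n)) := by
      rw [h7]; rfl
    rw [LinearMap.det_comp, ContinuousLinearMap.coe_id, LinearMap.det_id] at h8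
    rw [ContinuousLinearMap.det] at h0
    rw [h0, mul_zero] at h8
    exact one_ne_zero h8
  · intro ξ hξ i hi
    have h1 := congrFun (hball' ξ hξ).2.1 i
    simp only [Θ, if_neg hi] at h1
    exact h1
  · intro ξ hξ
    obtain ⟨h1, h2, h3, h4, h5⟩ := hball' ξ hξ
    exact (AnalyticAt.comp h4 h1).inv (hH0 _)
  · intro ξ hξ
    obtain ⟨h1, h2, h3, h4, h5⟩ := hball' ξ hξ
    refine ⟨inv_ne_zero (hH0 _), ?_, ?_⟩
    · have := hcoord ξ hξ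
      rw [this]
      field_simp [hH0 (Ξ ξ)]
    · rw [← h5, ← mul_pow, ← hcoord ξ hξ]

end Crest.Agent.R276.BR_590
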