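import Mathlib
import Crest.Agent.R276.BR1_590
import Crest.Agent.R276.BR0_590
import Crest.Agent.R276.BC3_986

/-!
Row 276, leaf BC-REL (helper590), part 2: analytic boundary charts.

`ACh n i₀ B` : an analytic boundary chart of `Hom(B,ℂ)`: coordinates `ξ` in a polydisc of radius
`ρ` around `0 ∈ ℂⁿ`, the divisor is `ξ i₀ = 0`.  `GoodA X f a G`: `f = ξ_{i₀}^a G`, `G` holomorphic
without zeros on the whole polydisc.  `ofRoot` : a boundary chart (986) after the change of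
coordinates `τ = t u^{1/e}`.
-/

set_option autoImplicit false

open scoped Topology BigOperators ENNReal
open Set Metric MeasureTheory

noncomputable section

namespace Crest.Agent.R276.BR_590

open Crest.Agent.R271.Defs710 Crest.Agent.R271.Bd741 Crest.Agent.R276.BC_986
open Crest.Agent.R271.Rd692 (Pt pr)

/-! ### determinants of analytic families -/

lemma det_eq_matrix {n : ℕ} (A : Cn n →L[ℂ] Cn n) :
    A.det = (Matrix.of fun k l => A (Pi.single l 1) k).det := by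
  rw [ContinuousLinearMap.det, ← LinearMap.det_toMatrix']
  congr 1

lemma analyticAt_det {E : Type*} [NormedAddCommGroup E] [NormedSpace ℂ E] {ι : Type*} [Fintype ι]
    [DecidableEq ι] {M : E → Matrix ι ι ℂ} {x : E} (h : ∀ k l, AnalyticAt ℂ (fun y => M y k l) x) :
    AnalyticAt ℂ (fun y => (M y).det) x := by
  have h1 : (fun y => (M y).det) = fun y => ∑ σ : Equiv.Perm ι,
      ((Equiv.Perm.sign σ : ℤ) : ℂ) * ∏ i, M y (σ i) i := by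
    funext y
    rw [Matrix.det_apply']
  rw [h1]
  refine Finset.analyticAt_fun_sum _ fun σ _ => ?_
  refine analyticAt_const.mul ?_
  exact Finset.analyticAt_fun_prod _ fun i _ => h _ _

lemma fderiv_pi_apply {n : ℕ} {E : Type*} [NormedAddCommGroup E] [NormedSpace ℂ E]
    {Ξ : E → Cn n} {x : E} (h : DifferentiableAt ℂ Ξ x) (v : E) (i : Fin n) :
    fderiv ℂ Ξ x v i = fderiv ℂ (fun ξ => Ξ ξ i) x v := by
  have h2 := (hasFDerivAt_pi'.1 h.hasFDerivAt) i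
  rw [h2.fderiv]
  rfl

lemma analyticAt_det_fderiv {n : ℕ} {Ξ : Cn n → Cn n} {ξ : Cn n} (h : AnalyticAt ℂ Ξ ξ) :
    AnalyticAt ℂ (fun ξ => (fderiv ℂ Ξ ξ).det) ξ := by
  have h1 : (fun ξ => (fderiv ℂ Ξ ξ).det) =
      fun ξ => (Matrix.of fun k l => fderiv ℂ Ξ ξ (Pi.single l 1) k).det := by
    funext ξ
    exact det_eq_matrix _
  rw [h1]
  refine analyticAt_det fun k l => ?_
  have h2 : AnalyticAt ℂ (fderiv ℂ Ξ) ξ := h.fderiv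
  have h3 : AnalyticAt ℂ (fun ξ => fderiv ℂ Ξ ξ (Pi.single l 1)) ξ :=
    (ContinuousLinearMap.apply ℂ (Cn n) (Pi.single l 1 : Cn n)).analyticAt _ |>.comp h2
  exact (analyticAt_pi_iff.1 h3) k

/-! ### analytic boundary charts -/

/-- analytic boundary chart of `Hom(B,ℂ)` -/
structure ACh (n : ℕ) (i₀ : Fin n) (B : Type) [CommRing B] [Algebra ℂ B] where
  ρ : ℝ
  ρ_pos : 0 < ρ
  s : Cn n → (B →ₐ[ℂ] ℂ)
  inj : InjOn s (ball (0 : Cn n) ρ ∩ {ξ | ξ i₀ ≠ 0})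
  anal : ∀ b : B, AnalyticOnNhd ℂ (fun ξ => s ξ b) (ball (0 : Cn n) ρ ∩ {ξ | ξ i₀ ≠ 0})

namespace ACh

variable {n : ℕ} {i₀ : Fin n} {B : Type} [CommRing B] [Algebra ℂ B] (X : ACh n i₀ B)

/-- the polydisc minus the divisor -/
def V : Set (Cn n) := ball (0 : Cn n) X.ρ ∩ {ξ | ξ i₀ ≠ 0}

lemma isOpen_V : IsOpen X.V :=
  isOpen_ball.inter (isOpen_ne_fun (continuous_apply _) continuous_const)

/-- the chart followed by functions `z` on `Hom(B,ℂ)` -/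
def ψ {k : ℕ} (z : Fin k → B) (ξ : Cn n) : Cn k := fun i => X.s ξ (z i)

lemma analyticAt_ψ {k : ℕ} (z : Fin k → B) {ξ : Cn n} (hξ : ξ ∈ X.V) :
    AnalyticAt ℂ (X.ψ z) ξ := analyticAt_pi_iff.2 fun i => X.anal (z i) ξ hξ

lemma hasStrictFDerivAt_ψ {k : ℕ} (z : Fin k → B) {ξ : Cn n} (hξ : ξ ∈ X.V) :
    HasStrictFDerivAt (X.ψ z) (fderiv ℂ (X.ψ z) ξ) ξ := (X.analyticAt_ψ z hξ).hasStrictFDerivAt

lemma continuousOn_s : ContinuousOn (X.s : Cn n → Pt B) X.V := by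
  rw [Crest.Agent.R271.Rd692.continuousOn_iff_ev]
  intro b ζ hζ
  exact (X.anal b ζ hζ).continuousAt.continuousWithinAt

/-- shrink the polydisc -/
def shrink (ρ : ℝ) (hρ : 0 < ρ) (hρr : ρ ≤ X.ρ) : ACh n i₀ B where
  ρ := ρ
  ρ_pos := hρ
  s := X.s
  inj := X.inj.mono (inter_subset_inter_left _ (ball_subset_ball hρr))
  anal := fun b => (X.anal b).mono (inter_subset_inter_left _ (ball_subset_ball hρr))

/-- change of variables, lower bound -/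
theorem lintM_ge (z : Fin n → B) (hdet : ∀ ξ ∈ X.V, (fderiv ℂ (X.ψ z) ξ).det ≠ 0)
    (g : (B →ₐ[ℂ] ℂ) → ℝ≥0∞) :
    ∫⁻ ξ in X.V, g (X.s ξ) * ENNReal.ofReal (‖(fderiv ℂ (X.ψ z) ξ).det‖ ^ 2) ≤ lintM z g :=
  Crest.Agent.R271.Bd741.lintM_ge z X.V X.isOpen_V X.s X.inj (fun ξ => fderiv ℂ (X.ψ z) ξ)
    (fun _ hξ => X.hasStrictFDerivAt_ψ z hξ) hdet g

/-- `f = ξ_{i₀}^a G` in the chart, `G` holomorphic without zeros on the polydisc -/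
structure GoodA {K : Type} [Field K] [Algebra B K] (f : K) (a : ℤ) (G : Cn n → ℂ) : Prop where
  an : AnalyticOnNhd ℂ G (ball (0 : Cn n) X.ρ)
  ne : ∀ ξ ∈ ball (0 : Cn n) X.ρ, G ξ ≠ 0
  eq : ∀ ξ ∈ X.V, ∀ b₁ b₂ : B, f * algebraMap B K b₂ = algebraMap B K b₁ →
    X.s ξ b₁ = ξ i₀ ^ a * G ξ * X.s ξ b₂

/-- the Jacobian determinant with respect to `z` is `ξ_{i₀}^c J` -/
structure JacA (z : Fin n → B) (c : ℤ) (J : Cn n → ℂ) : Prop where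
  an : AnalyticOnNhd ℂ J (ball (0 : Cn n) X.ρ)
  ne : ∀ ξ ∈ ball (0 : Cn n) X.ρ, J ξ ≠ 0
  eq : ∀ ξ ∈ X.V, (fderiv ℂ (X.ψ z) ξ).det = ξ i₀ ^ c * J ξ

variable {X}

lemma GoodA.eq₁ {K : Type} [Field K] [Algebra B K] {f : K} {a : ℤ} {G : Cn n → ℂ}
    (h : X.GoodA f a G) {ξ : Cn n} (hξ : ξ ∈ X.V) (b : B) (hb : algebraMap B K b = f) :
    X.s ξ b = ξ i₀ ^ a * G ξ := by
  have := h.eq ξ hξ b 1 (by rw [map_one, mul_one, hb])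
  rwa [map_one, mul_one] at this

lemma GoodA.shrink {K : Type} [Field K] [Algebra B K] {f : K} {a : ℤ} {G : Cn n → ℂ}
    (h : X.GoodA f a G) (ρ : ℝ) (hρ : 0 < ρ) (hρr : ρ ≤ X.ρ) :
    (X.shrink ρ hρ hρr).GoodA f a G where
  an := h.an.mono (ball_subset_ball hρr)
  ne := fun ξ hξ => h.ne ξ (ball_subset_ball hρr hξ)
  eq := fun ξ hξ => h.eq ξ ⟨ball_subset_ball hρr hξ.1, hξ.2⟩

lemma JacA.shrink {z : Fin n → B} {c : ℤ} {J : Cn n → ℂ} (h : X.JacA z c J)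
    (ρ : ℝ) (hρ : 0 < ρ) (hρr : ρ ≤ X.ρ) : (X.shrink ρ hρ hρr).JacA z c J where
  an := h.an.mono (ball_subset_ball hρr)
  ne := fun ξ hξ => h.ne ξ (ball_subset_ball hρr hξ)
  eq := fun ξ hξ => h.eq ξ ⟨ball_subset_ball hρr hξ.1, hξ.2⟩

lemma JacA.det_ne {z : Fin n → B} {c : ℤ} {J : Cn n → ℂ} (h : X.JacA z c J) {ξ : Cn n}
    (hξ : ξ ∈ X.V) : (fderiv ℂ (X.ψ z) ξ).det ≠ 0 := by
  rw [h.eq ξ hξ]
  exact mul_ne_zero (zpow_ne_zero _ hξ.2) (h.ne ξ hξ.1)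

end ACh

/-! ### the change of coordinates `τ = t u^{1/e}` -/

/-- the data of `exists_root_coord` -/
structure Root {n : ℕ} (i₀ : Fin n) (r : ℝ) (G : Cn n → ℂ) (e : ℕ) where
  ρ : ℝ
  Ξ : Cn n → Cn n
  E : Cn n → ℂ
  ρ_pos : 0 < ρ
  an : AnalyticOnNhd ℂ Ξ (ball 0 ρ)
  maps : MapsTo Ξ (ball 0 ρ) (ball 0 r)
  inj : InjOn Ξ (ball 0 ρ)
  det : ∀ ξ ∈ ball (0 : Cn n) ρ, (fderiv ℂ Ξ ξ).det ≠ 0
  coord : ∀ ξ ∈ ball (0 : Cn n) ρ, ∀ i, i ≠ i₀ → Ξ ξ i = ξ i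
  anE : AnalyticOnNhd ℂ E (ball 0 ρ)
  ne : ∀ ξ ∈ ball (0 : Cn n) ρ, E ξ ≠ 0
  eq : ∀ ξ ∈ ball (0 : Cn n) ρ, Ξ ξ i₀ = ξ i₀ * E ξ
  pow : ∀ ξ ∈ ball (0 : Cn n) ρ, (Ξ ξ i₀) ^ e * G (Ξ ξ) = ξ i₀ ^ e
  zero : Ξ 0 = 0

lemma exists_rootS {n : ℕ} (i₀ : Fin n) {G : Cn n → ℂ} {r : ℝ} (hr : 0 < r)
    (hG : AnalyticOnNhd ℂ G (ball 0 r)) (hne : G 0 ≠ 0) (e : ℕ) (he : e ≠ 0) (ε : ℝ)
    (hε : 0 < ε) : ∃ T : Root i₀ r G e, T.ρ ≤ ε := by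
  obtain ⟨ρ, Ξ, E, h1, h2, h3, h4, h5, h6, h7, h8, h9, h10⟩ :=
    exists_root_coord i₀ hr hG hne e he ε hε
  exact ⟨⟨ρ, Ξ, E, h1, h3, h4, h5, h6, h7, h8, fun ξ hξ => (h9 ξ hξ).1,
    fun ξ hξ => (h9 ξ hξ).2.1, fun ξ hξ => (h9 ξ hξ).2.2, h10⟩, h2⟩

section ofRoot

variable {n : ℕ} {K : Type} [Field K] [Algebra ℂ K] {D : DivModel n K} {B : Type} [CommRing B]
  [Algebra ℂ B] [Algebra B K] (X : BChart D B) {G : Cn n → ℂ} {e : ℕ} (T : Root D.i₀ X.r G e)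

lemma root_mem_V {ξ : Cn n} (h1 : ξ ∈ ball (0 : Cn n) T.ρ) (h2 : ξ D.i₀ ≠ 0) : T.Ξ ξ ∈ X.V := by
  refine ⟨T.maps h1, ?_⟩
  change T.Ξ ξ D.i₀ ≠ 0
  rw [T.eq ξ h1]
  exact mul_ne_zero h2 (T.ne ξ h1)

/-- the boundary chart in the coordinates `ξ` -/
def ofRoot : ACh n D.i₀ B where
  ρ := T.ρ
  ρ_pos := T.ρ_pos
  s := fun ξ => X.s (T.Ξ ξ)
  inj := by
    intro ξ hξ ξ' hξ' h
    exact T.inj hξ.1 hξ'.1 (X.inj (root_mem_V X T hξ.1 hξ.2) (root_mem_V X T hξ'.1 hξ'.2) h)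
  anal := by
    intro b ξ hξ
    exact AnalyticAt.comp (X.anal b _ (root_mem_V X T hξ.1 hξ.2)) (T.an ξ hξ.1)

lemma ofRoot_s (ξ : Cn n) : (ofRoot X T).s ξ = X.s (T.Ξ ξ) := rfl

lemma analyticAt_zpow {E : Type*} [NormedAddCommGroup E] [NormedSpace ℂ E] {f : E → ℂ} {x : E}
    (hf : AnalyticAt ℂ f x) (h0 : f x ≠ 0) (a : ℤ) : AnalyticAt ℂ (fun y => f y ^ a) x :=
  hf.zpow h0

theorem Good.ofRoot {f : K} {a : ℤ} {G' : Cn n → ℂ} (h : Good D X f a G') :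
    (ofRoot X T).GoodA f a (fun ξ => T.E ξ ^ a * G' (T.Ξ ξ)) where
  an := fun ξ hξ => ((T.anE ξ hξ).zpow (T.ne ξ hξ)).mul
    (AnalyticAt.comp (h.anal _ (T.maps hξ)) (T.an ξ hξ))
  ne := fun ξ hξ => mul_ne_zero (zpow_ne_zero _ (T.ne ξ hξ)) (h.ne _ (T.maps hξ))
  eq := by
    intro ξ hξ b₁ b₂ hb
    have h1 := h.eq₂ (root_mem_V X T hξ.1 hξ.2) b₁ b₂ hb
    rw [ofRoot_s, h1, T.eq ξ hξ.1, mul_zpow]
    ring

theorem Good.ofRoot_jac (z : Fin n → B) (b : Fin n → Ω[K⁄ℂ])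
    (hb : ∀ j, b j = KaehlerDifferential.D ℂ K (algebraMap B K (z j))) {c : ℤ} {GJ : Cn n → ℂ}
    (hJ : Good D X (D.dw.toMatrix b).det c GJ) :
    (BR_590.ofRoot X T).JacA z c
      (fun ξ => T.E ξ ^ c * GJ (T.Ξ ξ) * (fderiv ℂ T.Ξ ξ).det) where
  an := fun ξ hξ => (((T.anE ξ hξ).zpow (T.ne ξ hξ)).mul
    (AnalyticAt.comp (hJ.anal _ (T.maps hξ)) (T.an ξ hξ))).mul (analyticAt_det_fderiv (T.an ξ hξ))
  ne := fun ξ hξ => mul_ne_zero (mul_ne_zero (zpow_ne_zero _ (T.ne ξ hξ)) (hJ.ne _ (T.maps hξ)))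
    (T.det ξ hξ)
  eq := by
    intro ξ hξ
    have hV := root_mem_V X T hξ.1 hξ.2
    have h1 : fderiv ℂ ((BR_590.ofRoot X T).ψ z) ξ =
        (fderiv ℂ (X.ψ z) (T.Ξ ξ)).comp (fderiv ℂ T.Ξ ξ) :=
      fderiv_comp ξ (X.analyticAt_ψ z hV).differentiableAt (T.an ξ hξ.1).differentiableAt
    have h2 : (fderiv ℂ ((BR_590.ofRoot X T).ψ z) ξ).det =
        (fderiv ℂ (X.ψ z) (T.Ξ ξ)).det * (fderiv ℂ T.Ξ ξ).det := by
      rw [h1]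
      exact LinearMap.det_comp _ _
    rw [h2, X.det_eq z b hb hJ hV, T.eq ξ hξ.1, mul_zpow]
    ring

end ofRoot

end Crest.Agent.R276.BR_590
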