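import Mathlib
import Crest.Agent.R276.BR2_590

/-!
Row 276, leaf BC-REL (helper590), part 3: relative analytic charts.

`j : BL → BK` a homomorphism of `ℂ`-algebras, `M_K = Hom(BK,ℂ) → M_L = Hom(BL,ℂ)`.
* `lintF j xt z g` : the integral of `g` over the fibre `M_z` with respect to the coordinates `xt`;
* `RCh` : an analytic boundary chart of `M_K` in coordinates `ξ = (a, x) ∈ ℂᵐ × ℂʳ` such that the
  point of `M_L` under `s ξ` only depends on `a`;
* `leaf_ge` : change of variables on the fibres;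
* `det_block` : the Jacobian is the product of the base Jacobian and the fibre Jacobian.
-/

set_option autoImplicit false

open scoped Topology BigOperators ENNReal
open Set Metric MeasureTheory

noncomputable section

namespace Crest.Agent.R276.BR_590

open Crest.Agent.R271.Defs710 Crest.Agent.R271.Bd741 Crest.Agent.R276.BC_986
open Crest.Agent.R271.Rd692 (Pt pr)

section fibres

variable {BL BK : Type} [CommRing BL] [Algebra ℂ BL] [CommRing BK] [Algebra ℂ BK]
  (j : BL →ₐ[ℂ] BK) {r : ℕ}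

/-- the fibre of `Hom(BK,ℂ) → Hom(BL,ℂ)` over `z` -/
abbrev Fb (z : BL →ₐ[ℂ] ℂ) : Type := {y : BK →ₐ[ℂ] ℂ // y.comp j = z}

/-- the coordinates on the fibre -/
def pF (z : BL →ₐ[ℂ] ℂ) (xt : Fin r → BK) (y : Fb j z) : Cn r := fun k => y.1 (xt k)

/-- the integral over the fibre over `z` -/
def lintF (xt : Fin r → BK) (z : BL →ₐ[ℂ] ℂ) (g : (BK →ₐ[ℂ] ℂ) → ℝ≥0∞) : ℝ≥0∞ :=
  ∫⁻ v : Cn r, ∑' y : {y : Fb j z // pF j z xt y = v}, g y.1.1

lemma lintF_mono (xt : Fin r → BK) (z : BL →ₐ[ℂ] ℂ) {g g' : (BK →ₐ[ℂ] ℂ) → ℝ≥0∞}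
    (h : ∀ y : BK →ₐ[ℂ] ℂ, y.comp j = z → g y ≤ g' y) : lintF j xt z g ≤ lintF j xt z g' :=
  lintegral_mono fun _ => ENNReal.tsum_le_tsum fun y => h y.1.1 y.1.2

/-- the fibre integral as `lintM` of a ring `Bz` which represents the fibre (for instance
`Bz = ℂ ⊗ BK`) -/
theorem lintF_eq_lintM {Bz : Type} [CommRing Bz] [Algebra ℂ Bz] (p : BK →ₐ[ℂ] Bz)
    (xt : Fin r → BK) (z : BL →ₐ[ℂ] ℂ) (hp : ∀ y : Bz →ₐ[ℂ] ℂ, (y.comp p).comp j = z)
    (hb : Function.Bijective fun y : Bz →ₐ[ℂ] ℂ => (⟨y.comp p, hp y⟩ : Fb j z))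
    (g : (BK →ₐ[ℂ] ℂ) → ℝ≥0∞) :
    lintF j xt z g = lintM (fun k => p (xt k)) (fun y => g (y.comp p)) := by
  unfold lintF lintM
  refine lintegral_congr fun v => ?_
  let E : (Bz →ₐ[ℂ] ℂ) ≃ Fb j z := Equiv.ofBijective _ hb
  let E' : {y : Bz →ₐ[ℂ] ℂ // ∀ k, y (p (xt k)) = v k} ≃ {y : Fb j z // pF j z xt y = v} :=
    E.subtypeEquiv fun y => ⟨fun h => funext h, fun h k => congrFun h k⟩
  exact (E'.tsum_eq (fun y : {y : Fb j z // pF j z xt y = v} => g y.1.1)).symm

end fibres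

/-- `(a, x) ∈ ℂᵐ × ℂʳ` as a point of `ℂ^(m+r)` -/
def cat {m r : ℕ} (a : Cn m) (x : Cn r) : Cn (m + r) := Fin.append a x

/-- the base part -/
def bs {m r : ℕ} (ξ : Cn (m + r)) : Cn m := fun i => ξ (Fin.castAdd r i)

/-- the fibre part -/
def fb {m r : ℕ} (ξ : Cn (m + r)) : Cn r := fun i => ξ (Fin.natAdd m i)

section cat

variable {m r : ℕ}

@[simp] lemma bs_cat (a : Cn m) (x : Cn r) : bs (cat a x) = a := by
  funext i; simp [bs, cat]

@[simp] lemma fb_cat (a : Cn m) (x : Cn r) : fb (cat a x) = x := by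
  funext i; simp [fb, cat]

@[simp] lemma cat_bs_fb (ξ : Cn (m + r)) : cat (bs ξ) (fb ξ) = ξ := by
  funext i
  refine Fin.addCases (fun i => ?_) (fun i => ?_) i <;> simp [bs, fb, cat]

@[simp] lemma cat_castAdd (a : Cn m) (x : Cn r) (i : Fin m) : cat a x (Fin.castAdd r i) = a i := by
  simp [cat]

@[simp] lemma cat_natAdd (a : Cn m) (x : Cn r) (i : Fin r) : cat a x (Fin.natAdd m i) = x i := by
  simp [cat]

lemma norm_cat_lt {a : Cn m} {x : Cn r} {ρ : ℝ} (hρ : 0 < ρ) :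
    ‖cat a x‖ < ρ ↔ ‖a‖ < ρ ∧ ‖x‖ < ρ := by
  rw [pi_norm_lt_iff hρ, pi_norm_lt_iff hρ, pi_norm_lt_iff hρ]
  constructor
  · intro h
    exact ⟨fun i => by simpa using h (Fin.castAdd r i), fun i => by simpa using h (Fin.natAdd m i)⟩
  · rintro ⟨h1, h2⟩ i
    refine Fin.addCases (fun i => ?_) (fun i => ?_) i
    · simpa using h1 i
    · simpa using h2 i

lemma norm_bs_le (ξ : Cn (m + r)) : ‖bs ξ‖ ≤ ‖ξ‖ := by
  rw [pi_norm_le_iff_of_nonneg (norm_nonneg _)]
  exact fun i => norm_le_pi_norm ξ _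

lemma norm_fb_le (ξ : Cn (m + r)) : ‖fb ξ‖ ≤ ‖ξ‖ := by
  rw [pi_norm_le_iff_of_nonneg (norm_nonneg _)]
  exact fun i => norm_le_pi_norm ξ _

/-- the inclusion of the fibre directions -/
def inr (m r : ℕ) : Cn r →L[ℂ] Cn (m + r) :=
  ContinuousLinearMap.pi fun i => Fin.addCases (fun _ => (0 : Cn r →L[ℂ] ℂ))
    (fun k => ContinuousLinearMap.proj k) i

/-- the inclusion of the base directions -/
def inl (m r : ℕ) : Cn m →L[ℂ] Cn (m + r) :=
  ContinuousLinearMap.pi fun i => Fin.addCases (fun k => ContinuousLinearMap.proj k)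
    (fun _ => (0 : Cn m →L[ℂ] ℂ)) i

lemma inr_apply (x : Cn r) : inr m r x = cat 0 x := by
  funext i
  refine Fin.addCases (fun i => ?_) (fun i => ?_) i <;> simp [inr]

lemma inl_apply (a : Cn m) : inl m r a = cat a 0 := by
  funext i
  refine Fin.addCases (fun i => ?_) (fun i => ?_) i <;> simp [inl]

lemma cat_eq (a : Cn m) (x : Cn r) : cat a x = inl m r a + inr m r x := by
  rw [inl_apply, inr_apply]
  funext i
  refine Fin.addCases (fun i => ?_) (fun i => ?_) i <;> simp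

lemma inr_single (l : Fin r) : inr m r (Pi.single l 1) = Pi.single (Fin.natAdd m l) 1 := by
  rw [inr_apply]
  funext i
  refine Fin.addCases (fun i => ?_) (fun i => ?_) i
  · simp only [cat_castAdd, Pi.zero_apply]
    rw [Pi.single_eq_of_ne]
    intro h
    have := congrArg Fin.val h
    simp at this
    omega
  · simp only [cat_natAdd]
    by_cases h : i = l
    · subst h; simp
    · rw [Pi.single_eq_of_ne h, Pi.single_eq_of_ne]
      intro h'
      exact h ((Fin.natAdd_injective r m) h')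

lemma inl_single (l : Fin m) : inl m r (Pi.single l 1) = Pi.single (Fin.castAdd r l) 1 := by
  rw [inl_apply]
  funext i
  refine Fin.addCases (fun i => ?_) (fun i => ?_) i
  · simp only [cat_castAdd]
    by_cases h : i = l
    · subst h; simp
    · rw [Pi.single_eq_of_ne h, Pi.single_eq_of_ne]
      intro h'
      exact h ((Fin.castAdd_injective m r) h')
  · simp only [cat_natAdd, Pi.zero_apply]
    rw [Pi.single_eq_of_ne]
    intro h
    have := congrArg Fin.val h
    simp at this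
    omega

lemma hasFDerivAt_cat (a : Cn m) (x : Cn r) :
    HasFDerivAt (fun x : Cn r => cat a x) (inr m r) x := by
  have h : (fun x : Cn r => cat a x) = fun x => inl m r a + inr m r x := by
    funext x; exact cat_eq a x
  rw [h]
  exact (inr m r).hasFDerivAt.const_add _

lemma continuous_cat (a : Cn m) : Continuous (fun x : Cn r => cat a x) := by
  have h : (fun x : Cn r => cat a x) = fun x => inl m r a + inr m r x := by
    funext x; exact cat_eq a x
  rw [h]
  exact continuous_const.add (inr m r).continuous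

lemma analyticAt_cat (a : Cn m) (x : Cn r) : AnalyticAt ℂ (fun x : Cn r => cat a x) x := by
  have h : (fun x : Cn r => cat a x) = fun x => inl m r a + inr m r x := by
    funext x; exact cat_eq a x
  rw [h]
  exact analyticAt_const.add ((inr m r).analyticAt x)

end cat

/-- relative analytic boundary chart -/
structure RCh (m r : ℕ) (i₀ : Fin (m + r)) {BL BK : Type} [CommRing BL] [Algebra ℂ BL]
    [CommRing BK] [Algebra ℂ BK] (j : BL →ₐ[ℂ] BK) extends ACh (m + r) i₀ BK where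
  /-- the base point -/
  sL : Cn m → (BL →ₐ[ℂ] ℂ)
  fib : ∀ ξ ∈ ball (0 : Cn (m + r)) ρ ∩ {ξ | ξ i₀ ≠ 0}, (s ξ).comp j = sL (bs ξ)

namespace RCh

variable {m r : ℕ} {i₀ : Fin (m + r)} {BL BK : Type} [CommRing BL] [Algebra ℂ BL]
    [CommRing BK] [Algebra ℂ BK] {j : BL →ₐ[ℂ] BK} (X : RCh m r i₀ j)

/-- the polydisc minus the divisor -/
def V : Set (Cn (m + r)) := X.toACh.V

lemma fib' {ξ : Cn (m + r)} (hξ : ξ ∈ X.V) (b : BL) : X.s ξ (j b) = X.sL (bs ξ) b := by
  rw [← X.fib ξ hξ]; rfl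

/-- shrink the polydisc -/
def shrink (ρ : ℝ) (hρ : 0 < ρ) (hρr : ρ ≤ X.ρ) : RCh m r i₀ j where
  toACh := X.toACh.shrink ρ hρ hρr
  sL := X.sL
  fib := fun ξ hξ => X.fib ξ ⟨ball_subset_ball hρr hξ.1, hξ.2⟩

/-- the fibre Jacobian of the coordinates `xt` -/
def Jrel (xt : Fin r → BK) (ξ : Cn (m + r)) : ℂ :=
  (Matrix.of fun k l : Fin r => fderiv ℂ (fun ξ => X.s ξ (xt k)) ξ
    (Pi.single (Fin.natAdd m l) 1)).det

/-- the base Jacobian of functions `zL` -/
def Jbs (zL : Fin m → BL) (ξ : Cn (m + r)) : ℂ :=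
  (Matrix.of fun k l : Fin m => fderiv ℂ (fun ξ => X.s ξ (j (zL k))) ξ
    (Pi.single (Fin.castAdd r l) 1)).det

/-- the leaf (coordinate slice) over `a` -/
def leaf (a : Cn m) : Set (Cn r) := {x | cat a x ∈ X.V}

lemma isOpen_leaf (a : Cn m) : IsOpen (X.leaf a) :=
  X.toACh.isOpen_V.preimage (continuous_cat a)

/-- change of variables in the fibre over `sL a` -/
theorem leaf_ge (xt : Fin r → BK) (a : Cn m)
    (hJ : ∀ x ∈ X.leaf a, X.Jrel xt (cat a x) ≠ 0) (g : (BK →ₐ[ℂ] ℂ) → ℝ≥0∞) :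
    ∫⁻ x in X.leaf a, g (X.s (cat a x)) * ENNReal.ofReal (‖X.Jrel xt (cat a x)‖ ^ 2) ≤
      lintF j xt (X.sL a) g := by
  classical
  rcases (X.leaf a).eq_empty_or_nonempty with he | ⟨x₀, hx₀⟩
  · rw [he]; simp
  have hfib : ∀ x ∈ X.leaf a, (X.s (cat a x)).comp j = X.sL a := by
    intro x hx
    have := X.fib (cat a x) hx
    rwa [bs_cat] at this
  let σ : Cn r → Fb j (X.sL a) := fun x =>
    if h : x ∈ X.leaf a then ⟨X.s (cat a x), hfib x h⟩ else ⟨X.s (cat a x₀), hfib x₀ hx₀⟩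
  have hσ : ∀ x ∈ X.leaf a, (σ x).1 = X.s (cat a x) := by
    intro x hx
    simp only [σ, dif_pos hx]
  have hinj : InjOn σ (X.leaf a) := by
    intro x hx x' hx' h
    have h1 : X.s (cat a x) = X.s (cat a x') := by rw [← hσ x hx, ← hσ x' hx', h]
    have h2 := X.inj hx hx' h1
    have h3 := congrArg fb h2
    simpa using h3
  have han : ∀ x ∈ X.leaf a, AnalyticAt ℂ (fun x k => X.s (cat a x) (xt k)) x := by
    intro x hx
    rw [analyticAt_pi_iff]
    intro k
    exact AnalyticAt.comp (g := fun ξ => X.s ξ (xt k)) (f := fun x => cat a x)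
      (X.anal (xt k) _ hx) (analyticAt_cat a x)
  let φ' : Cn r → (Cn r →L[ℂ] Cn r) := fun x => fderiv ℂ (fun x k => X.s (cat a x) (xt k)) x
  have hφ : ∀ x ∈ X.leaf a, HasStrictFDerivAt (fun x => pF j (X.sL a) xt (σ x)) (φ' x) x := by
    intro x hx
    refine (han x hx).hasStrictFDerivAt.congr_of_eventuallyEq ?_
    filter_upwards [(X.isOpen_leaf a).mem_nhds hx] with x' hx'
    funext k
    simp only [pF, hσ x' hx']
  have hdet : ∀ x ∈ X.leaf a, (φ' x).det = X.Jrel xt (cat a x) := by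
    intro x hx
    rw [det_eq_matrix]
    unfold Jrel
    congr 1
    ext k l
    simp only [Matrix.of_apply, φ']
    rw [fderiv_pi_apply (han x hx).differentiableAt]
    have h1 : fderiv ℂ (fun x => X.s (cat a x) (xt k)) x =
        (fderiv ℂ (fun ξ => X.s ξ (xt k)) (cat a x)).comp (inr m r) := by
      have := ((X.anal (xt k) _ hx).differentiableAt.hasFDerivAt.comp x (hasFDerivAt_cat a x))
      exact this.fderiv
    rw [h1, ContinuousLinearMap.comp_apply, inr_single]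
  have key := lintegral_fibre_ge (pF j (X.sL a) xt) (X.leaf a) (X.isOpen_leaf a) σ hinj φ' hφ
    (fun x hx => by rw [hdet x hx]; exact hJ x hx) (fun y => g y.1)
  refine le_trans (le_of_eq ?_) key
  refine setLIntegral_congr_fun (X.isOpen_leaf a).measurableSet fun x hx => ?_
  change _ = g (σ x).1 * _
  rw [hdet x hx, hσ x hx]

lemma fderiv_base_natAdd {ξ : Cn (m + r)} (hξ : ξ ∈ X.V) (b : BL) (l : Fin r) :
    fderiv ℂ (fun ξ => X.s ξ (j b)) ξ (Pi.single (Fin.natAdd m l) 1) = 0 := by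
  have han := X.anal (j b) ξ hξ
  -- the function is constant along the leaf
  have h1 : (fun x : Cn r => X.s (cat (bs ξ) x) (j b)) =ᶠ[𝓝 (fb ξ)]
      fun _ => X.sL (bs ξ) b := by
    have hx : fb ξ ∈ X.leaf (bs ξ) := by
      change cat (bs ξ) (fb ξ) ∈ X.V
      rwa [cat_bs_fb]
    filter_upwards [(X.isOpen_leaf (bs ξ)).mem_nhds hx] with x hx'
    rw [X.fib' hx', bs_cat]
  have h2 : HasFDerivAt (fun x : Cn r => X.s (cat (bs ξ) x) (j b))
      ((fderiv ℂ (fun ξ => X.s ξ (j b)) ξ).comp (inr m r)) (fb ξ) := by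
    have h3 : HasFDerivAt (fun ξ => X.s ξ (j b)) (fderiv ℂ (fun ξ => X.s ξ (j b)) ξ)
        (cat (bs ξ) (fb ξ)) := by
      rw [cat_bs_fb]; exact han.differentiableAt.hasFDerivAt
    exact h3.comp (fb ξ) (hasFDerivAt_cat (bs ξ) (fb ξ))
  have h4 := h1.fderiv_eq (𝕜 := ℂ)
  have h6 : fderiv ℂ (fun _ : Cn r => X.sL (bs ξ) b) (fb ξ) = 0 := fderiv_const_apply _
  rw [h2.fderiv, h6] at h4
  have h5 := congrArg (fun A : Cn r →L[ℂ] ℂ => A (Pi.single l 1)) h4
  simp only [ContinuousLinearMap.comp_apply, inr_single] at h5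
  exact h5

/-- **the Jacobian determinant is block triangular** -/
theorem det_block (zL : Fin m → BL) (xt : Fin r → BK) {ξ : Cn (m + r)} (hξ : ξ ∈ X.V) :
    (fderiv ℂ (X.toACh.ψ (Fin.append (fun i => j (zL i)) xt)) ξ).det =
      X.Jbs zL ξ * X.Jrel xt ξ := by
  set z : Fin (m + r) → BK := Fin.append (fun i => j (zL i)) xt with hz
  have han := X.toACh.analyticAt_ψ z hξ
  rw [det_eq_matrix]
  set Mx : Matrix (Fin (m + r)) (Fin (m + r)) ℂ :=
    Matrix.of fun k l => fderiv ℂ (X.toACh.ψ z) ξ (Pi.single l 1) k with hM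
  have hMe : ∀ k l, Mx k l = fderiv ℂ (fun ξ => X.s ξ (z k)) ξ (Pi.single l 1) := by
    intro k l
    rw [hM, Matrix.of_apply, fderiv_pi_apply han.differentiableAt]
    rfl
  have h1 : Mx.det = (Matrix.reindex finSumFinEquiv.symm finSumFinEquiv.symm Mx).det := by
    rw [Matrix.det_reindex_self]
  have h2 : Matrix.reindex finSumFinEquiv.symm finSumFinEquiv.symm Mx =
      Matrix.fromBlocks
        (Matrix.of fun k l : Fin m => fderiv ℂ (fun ξ => X.s ξ (j (zL k))) ξ
          (Pi.single (Fin.castAdd r l) 1)) 0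
        (Matrix.of fun (k : Fin r) (l : Fin m) => fderiv ℂ (fun ξ => X.s ξ (xt k)) ξ
          (Pi.single (Fin.castAdd r l) 1))
        (Matrix.of fun k l : Fin r => fderiv ℂ (fun ξ => X.s ξ (xt k)) ξ
          (Pi.single (Fin.natAdd m l) 1)) := by
    ext k l
    rcases k with k | k <;> rcases l with l | l
    · simp [hMe, hz]
    · simp only [Matrix.reindex_apply, Equiv.symm_symm, Matrix.submatrix_apply,
        finSumFinEquiv_apply_left, finSumFinEquiv_apply_right, hMe, hz, Fin.append_left,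
        Matrix.fromBlocks_apply₁₂, Matrix.zero_apply]
      exact X.fderiv_base_natAdd hξ (zL k) l
    · simp [hMe, hz]
    · simp [hMe, hz]
  rw [h1, h2, Matrix.det_fromBlocks_zero₁₂]
  rfl

end RCh

end Crest.Agent.R276.BR_590
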