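import Mathlib
import Crest.Agent.R276.BR3_590

/-!
Row 276, leaf BC-REL (helper590), part 4: relative boundary charts at a VERTICAL divisor.

`VData` : algebraic data at a divisorial valuation ring `R` of `K` such that `R ∩ L` is divisorial:
`w₁ = t^e u` (`w₁` uniformiser of `R ∩ L`, `t` uniformiser of `R`, `u` a unit of `R`), coordinates
`(t, w₂, …, w_m, x₁, …, x_r)`.

`exists_vchart` : analytic coordinates `ξ = (τ, w₂, …, w_m, x₁, …, x_r)` on a polydisc with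
`τ^e = w₁`; the point of `M_L` under `s ξ` is `s_L (τ^e, w₂, …, w_m)`.
-/

set_option autoImplicit false

open scoped Topology BigOperators ENNReal
open Set Metric MeasureTheory Filter

noncomputable section

namespace Crest.Agent.R276.BR_590

open Crest.Agent.R271.Defs710 Crest.Agent.R271.Bd741 Crest.Agent.R276.BC_986
open Crest.Agent.R271.Rd692 (Pt pr)

/-- `a ↦ (a₁, …, a_i^e, …, a_m)` -/
def pe {m : ℕ} (i : Fin m) (e : ℕ) (a : Cn m) : Cn m := fun k => if k = i then a k ^ e else a k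

section pe

variable {m : ℕ} (i : Fin m) (e : ℕ)

lemma pe_self (a : Cn m) : pe i e a i = a i ^ e := by simp [pe]

lemma pe_of_ne (a : Cn m) {k : Fin m} (h : k ≠ i) : pe i e a k = a k := by simp [pe, h]

lemma hasFDerivAt_pe (a : Cn m) : HasFDerivAt (pe i e)
    (ContinuousLinearMap.pi fun k => (if k = i then ((e : ℂ) * a k ^ (e - 1)) else 1) •
      (ContinuousLinearMap.proj k : Cn m →L[ℂ] ℂ)) a := by
  rw [hasFDerivAt_pi']
  intro k
  by_cases h : k = i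
  · have h1 : (fun a : Cn m => pe i e a k) = fun a => a k ^ e := by
      funext a; simp [pe, h]
    rw [h1]
    have h2 := (hasFDerivAt_apply (𝕜 := ℂ) k a).pow e
    convert! h2 using 1
    ext v
    simp [h]
  · have h1 : (fun a : Cn m => pe i e a k) = fun a => a k := by
      funext a; simp [pe, h]
    rw [h1]
    convert! hasFDerivAt_apply (𝕜 := ℂ) k a using 1
    ext v
    simp [h]

lemma analyticAt_pe (a : Cn m) : AnalyticAt ℂ (pe i e) a := by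
  rw [analyticAt_pi_iff]
  intro k
  have hk : AnalyticAt ℂ (fun a : Cn m => a k) a :=
    (ContinuousLinearMap.proj (R := ℂ) (φ := fun _ : Fin m => ℂ) k).analyticAt a
  by_cases h : k = i
  · have h1 : (fun a : Cn m => pe i e a k) = fun a => a k ^ e := by
      funext a; simp [pe, h]
    rw [h1]
    exact hk.pow e
  · have h1 : (fun a : Cn m => pe i e a k) = fun a => a k := by
      funext a; simp [pe, h]
    rw [h1]
    exact hk

lemma norm_pe_lt {a : Cn m} {ρ : ℝ} (he : e ≠ 0) (hρ : 0 < ρ) (hρ1 : ρ ≤ 1) (ha : ‖a‖ < ρ) :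
    ‖pe i e a‖ < ρ := by
  rw [pi_norm_lt_iff hρ] at ha ⊢
  intro k
  by_cases h : k = i
  · subst h
    rw [pe_self, norm_pow]
    have h1 : ‖a k‖ ≤ 1 := (ha k).le.trans hρ1
    calc ‖a k‖ ^ e ≤ ‖a k‖ ^ 1 :=
          pow_le_pow_of_le_one (norm_nonneg _) h1 (Nat.one_le_iff_ne_zero.2 he)
      _ < ρ := by rw [pow_one]; exact ha k
  · rw [pe_of_ne i e a h]
    exact ha k

end pe

/-- shrink the domain of a root coordinate -/
def Root.shrink {n : ℕ} {i₀ : Fin n} {r : ℝ} {G : Cn n → ℂ} {e : ℕ} (T : Root i₀ r G e) (ρ : ℝ)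
    (hρ : 0 < ρ) (hρT : ρ ≤ T.ρ) : Root i₀ r G e where
  ρ := ρ
  Ξ := T.Ξ
  E := T.E
  ρ_pos := hρ
  an := T.an.mono (ball_subset_ball hρT)
  maps := T.maps.mono_left (ball_subset_ball hρT)
  inj := T.inj.mono (ball_subset_ball hρT)
  det := fun ξ hξ => T.det ξ (ball_subset_ball hρT hξ)
  coord := fun ξ hξ => T.coord ξ (ball_subset_ball hρT hξ)
  anE := T.anE.mono (ball_subset_ball hρT)
  ne := fun ξ hξ => T.ne ξ (ball_subset_ball hρT hξ)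
  eq := fun ξ hξ => T.eq ξ (ball_subset_ball hρT hξ)
  pow := fun ξ hξ => T.pow ξ (ball_subset_ball hρT hξ)
  zero := T.zero

/-- algebraic data at a divisorial valuation of `K` which is divisorial on `L` -/
structure VData (m r : ℕ) (L K : Type) [Field L] [Algebra ℂ L] [Field K] [Algebra ℂ K]
    [Algebra L K] where
  DL : DivModel m L
  D : DivModel (m + r) K
  ι : DL.A →ₐ[ℂ] D.A
  ι_K : ∀ a, algebraMap D.A K (ι a) = algebraMap L K (algebraMap DL.A L a)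
  i₀_eq : D.i₀ = Fin.castAdd r DL.i₀
  base : ∀ i, i ≠ DL.i₀ → D.w (Fin.castAdd r i) = ι (DL.w i)
  e : ℕ
  e_ne : e ≠ 0
  u : D.A
  u_nd : ¬ D.t ∣ u
  ram : ι DL.t = D.t ^ e * u
  lies : ∀ a : DL.A, D.t ∣ ι a → DL.t ∣ a

/-- a relative boundary chart at a vertical divisor -/
structure VChart {m r : ℕ} {L K : Type} [Field L] [Algebra ℂ L] [Field K] [Algebra ℂ K]
    [Algebra L K] (V : VData m r L K) {BL BK : Type} [CommRing BL] [Algebra ℂ BL] [Algebra BL L]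
    [CommRing BK] [Algebra ℂ BK] [Algebra BK K] (j : BL →ₐ[ℂ] BK) where
  /-- the boundary chart of the base -/
  XL : BChart V.DL BL
  /-- the (algebraic) boundary chart of `M_K` -/
  X0 : BChart V.D BK
  /-- the change of coordinates `τ = t u^{1/e}` -/
  T : Root V.D.i₀ X0.r (fun ζ => X0.C.s ζ V.u) V.e
  ρ_le_one : T.ρ ≤ 1
  ρ_le : T.ρ ≤ XL.r
  fib : ∀ ξ ∈ ball (0 : Cn (m + r)) T.ρ ∩ {ξ | ξ V.D.i₀ ≠ 0},
      (X0.s (T.Ξ ξ)).comp j = XL.s (pe V.DL.i₀ V.e (bs ξ))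

/-- the relative analytic chart -/
def VChart.X {m r : ℕ} {L K : Type} [Field L] [Algebra ℂ L] [Field K] [Algebra ℂ K]
    [Algebra L K] {V : VData m r L K} {BL BK : Type} [CommRing BL] [Algebra ℂ BL] [Algebra BL L]
    [CommRing BK] [Algebra ℂ BK] [Algebra BK K] {j : BL →ₐ[ℂ] BK} (W : VChart V j) :
    RCh m r V.D.i₀ j where
  toACh := ofRoot W.X0 W.T
  sL := fun a => W.XL.s (pe V.DL.i₀ V.e a)
  fib := W.fib

section exist

variable {m r : ℕ} {L K : Type} [Field L] [Algebra ℂ L] [Field K] [Algebra ℂ K]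
    [Algebra L K] (V : VData m r L K) {BL BK : Type}
    [CommRing BL] [Algebra ℂ BL] [Algebra BL L]
    [CommRing BK] [Algebra ℂ BK] [Algebra BK K]

/-- **Existence of relative boundary charts**, vertical case: for every boundary chart `X` of `M_K`
on which `u` has no zeros and every boundary chart `XL` of `M_L` with centre under the centre of
`X`. -/
theorem exists_vchart_of (j : BL →ₐ[ℂ] BK)
    (hj : ∀ b : BL, algebraMap BK K (j b) = algebraMap L K (algebraMap BL L b))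
    (X : BChart V.D BK) (XL : BChart V.DL BL) (hXLy : XL.y = X.y.comp V.ι)
    (hXu : ∀ ζ ∈ ball (0 : Cn (m + r)) X.r, X.C.s ζ V.u ≠ 0) (ε : ℝ) (hε : 0 < ε) :
    ∃ W : VChart V j, W.X0 = X ∧ W.XL = XL ∧ W.T.ρ ≤ ε := by
  classical
  -- the root coordinate
  have hGan : AnalyticOnNhd ℂ (fun ζ => X.C.s ζ V.u) (ball 0 X.r) := X.analA V.u
  have hG0 : X.C.s 0 V.u ≠ 0 := hXu 0 (mem_ball_self X.r_pos)
  obtain ⟨T₀, hT₀⟩ := exists_rootS V.D.i₀ X.r_pos hGan hG0 V.e V.e_ne (min (min ε 1) XL.r)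
    (lt_min (lt_min hε one_pos) XL.r_pos)
  -- the base point
  obtain ⟨S, δ, hδ, hS⟩ := XL.C.surj
  have hcont : ∀ b : V.DL.A, ContinuousAt (fun ξ => X.C.s (T₀.Ξ ξ) (V.ι b)) 0 := by
    intro b
    have h1 : ContinuousAt (fun ζ => X.C.s ζ (V.ι b)) (T₀.Ξ 0) := by
      rw [T₀.zero]
      exact (X.analA (V.ι b) 0 (mem_ball_self X.r_pos)).continuousAt
    exact ContinuousAt.comp (g := fun ζ => X.C.s ζ (V.ι b)) (f := T₀.Ξ) h1
      (T₀.an 0 (mem_ball_self T₀.ρ_pos)).continuousAt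
  have hval0 : ∀ b : V.DL.A, X.C.s (T₀.Ξ 0) (V.ι b) = XL.y b := by
    intro b
    rw [T₀.zero, X.C.s_zero, hXLy]
    rfl
  have hev : ∀ᶠ ξ in 𝓝 (0 : Cn (m + r)), ∀ b ∈ S, ‖X.C.s (T₀.Ξ ξ) (V.ι b) - XL.y b‖ < δ := by
    rw [Filter.eventually_all_finset]
    intro b _
    have h1 : ContinuousAt (fun ξ => ‖X.C.s (T₀.Ξ ξ) (V.ι b) - XL.y b‖) 0 :=
      ((hcont b).sub continuousAt_const).norm
    refine h1.eventually (gt_mem_nhds ?_)
    simp only [hval0, sub_self, norm_zero]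
    exact hδ
  obtain ⟨ρ₁, hρ₁, hball⟩ := Metric.eventually_nhds_iff_ball.1 hev
  set ρ := min ρ₁ T₀.ρ with hρdef
  have hρ0 : 0 < ρ := lt_min hρ₁ T₀.ρ_pos
  set T := T₀.shrink ρ hρ0 (min_le_right _ _) with hT
  have hTρ : T.ρ = ρ := rfl
  have hTΞ : T.Ξ = T₀.Ξ := rfl
  have hρmin : ρ ≤ min (min ε 1) XL.r := (min_le_right _ _).trans hT₀
  -- comparison of the points of the models
  have hpt : ∀ ξ ∈ ball (0 : Cn (m + r)) ρ,
      (X.C.s (T.Ξ ξ)).comp V.ι = XL.C.s (pe V.DL.i₀ V.e (bs ξ)) := by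
    intro ξ hξ
    have hξ₁ : ξ ∈ ball (0 : Cn (m + r)) ρ₁ := ball_subset_ball (min_le_left _ _) hξ
    have h1 := hS ((X.C.s (T.Ξ ξ)).comp V.ι) (fun b hb => hball ξ hξ₁ b hb)
    have hmaps : T.Ξ ξ ∈ ball (0 : Cn (m + r)) X.r := T.maps hξ
    rw [h1]
    congr 1
    funext i
    by_cases hi : i = V.DL.i₀
    · subst hi
      rw [pe_self]
      have e1 : XL.y (V.DL.w V.DL.i₀) = 0 := XL.y_t
      rw [e1, sub_zero]
      change X.C.s (T.Ξ ξ) (V.ι V.DL.t) = _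
      rw [V.ram, map_mul, map_pow, X.s_t hmaps, T.pow ξ hξ]
      rw [V.i₀_eq]
      rfl
    · rw [pe_of_ne _ _ _ hi]
      have e1 : XL.y (V.DL.w i) = X.y (V.D.w (Fin.castAdd r i)) := by
        rw [hXLy, V.base i hi]; rfl
      rw [e1]
      change X.C.s (T.Ξ ξ) (V.ι (V.DL.w i)) - _ = _
      rw [← V.base i hi, X.s_w hmaps, add_sub_cancel_left, T.coord ξ hξ]
      · rfl
      · rw [V.i₀_eq]
        intro h
        exact hi ((Fin.castAdd_injective m r) h)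
  have hmem : ∀ ξ ∈ ball (0 : Cn (m + r)) ρ, ξ V.D.i₀ ≠ 0 →
      pe V.DL.i₀ V.e (bs ξ) ∈ XL.V := by
    intro ξ hξ hξ0
    have hρ1 : ρ ≤ 1 := (hρmin.trans (min_le_left _ _)).trans (min_le_right _ _)
    have hρr : ρ ≤ XL.r := hρmin.trans (min_le_right _ _)
    refine ⟨?_, ?_⟩
    · rw [mem_ball_zero_iff] at hξ ⊢
      exact (norm_pe_lt _ _ V.e_ne hρ0 hρ1 ((norm_bs_le ξ).trans_lt hξ)).trans_le hρr
    · change pe V.DL.i₀ V.e (bs ξ) V.DL.i₀ ≠ 0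
      rw [pe_self]
      refine pow_ne_zero _ ?_
      rw [V.i₀_eq] at hξ0
      exact hξ0
  have hfib : ∀ ξ ∈ ball (0 : Cn (m + r)) ρ ∩ {ξ | ξ V.D.i₀ ≠ 0},
      (X.s (T.Ξ ξ)).comp j = XL.s (pe V.DL.i₀ V.e (bs ξ)) := by
    rintro ξ ⟨hξ, hξ0⟩
    apply AlgHom.ext
    intro b
    have hV := root_mem_V X T hξ hξ0
    have h1 : IsVal (X.C.s (T.Ξ ξ)) (algebraMap BK K (j b)) (X.s (T.Ξ ξ) (j b)) :=
      X.isVal_s hV (j b)
    obtain ⟨u, v, e1, e2, e3⟩ := XL.isVal_s (hmem ξ hξ hξ0) b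
    have hp := hpt ξ hξ
    have hpa : ∀ a : V.DL.A, XL.C.s (pe V.DL.i₀ V.e (bs ξ)) a = X.C.s (T.Ξ ξ) (V.ι a) := by
      intro a
      rw [← hp]; rfl
    have h2 : IsVal (X.C.s (T.Ξ ξ)) (algebraMap BK K (j b))
        (XL.s (pe V.DL.i₀ V.e (bs ξ)) b) := by
      refine ⟨V.ι u, V.ι v, ?_, ?_, ?_⟩
      · rw [← hpa]; exact e1
      · rw [hj, V.ι_K, V.ι_K, ← map_mul, e2]
      · rw [← hpa, ← hpa]; exact e3
    exact h1.unique V.D.inj h2
  exact ⟨⟨XL, X, T, (hρmin.trans (min_le_left _ _)).trans (min_le_right _ _),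
    hρmin.trans (min_le_right _ _), hfib⟩, rfl, rfl,
    (hρmin.trans (min_le_left _ _)).trans (min_le_left _ _)⟩

end exist

namespace VChart

variable {m r : ℕ} {L K : Type} [Field L] [Algebra ℂ L] [Field K] [Algebra ℂ K]
    [Algebra L K] {V : VData m r L K} {BL BK : Type} [CommRing BL] [Algebra ℂ BL] [Algebra BL L]
    [CommRing BK] [Algebra ℂ BK] [Algebra BK K] {j : BL →ₐ[ℂ] BK} (W : VChart V j)

lemma X_ρ : W.X.ρ = W.T.ρ := rfl

lemma X_s (ξ : Cn (m + r)) : W.X.s ξ = W.X0.s (W.T.Ξ ξ) := rfl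

lemma X_sL (a : Cn m) : W.X.sL a = W.XL.s (pe V.DL.i₀ V.e a) := rfl

/-- the base point of the points of the chart is in the chart of the base -/
lemma pe_mem {ξ : Cn (m + r)} (hξ : ξ ∈ W.X.V) : pe V.DL.i₀ V.e (bs ξ) ∈ W.XL.V := by
  have h1 : ξ ∈ ball (0 : Cn (m + r)) W.T.ρ := hξ.1
  have h2 : ξ V.D.i₀ ≠ 0 := hξ.2
  refine ⟨?_, ?_⟩
  · rw [mem_ball_zero_iff] at h1 ⊢
    exact (norm_pe_lt _ _ V.e_ne W.T.ρ_pos W.ρ_le_one
      ((norm_bs_le ξ).trans_lt h1)).trans_le W.ρ_le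
  · change pe V.DL.i₀ V.e (bs ξ) V.DL.i₀ ≠ 0
    rw [pe_self]
    refine pow_ne_zero _ ?_
    rw [V.i₀_eq] at h2
    exact h2

lemma good {f : K} {a : ℤ} {G : Cn (m + r) → ℂ} (h : Good V.D W.X0 f a G) :
    W.X.GoodA f a (fun ξ => W.T.E ξ ^ a * G (W.T.Ξ ξ)) := Good.ofRoot W.X0 W.T h

lemma jac (z : Fin (m + r) → BK) (b : Fin (m + r) → Ω[K⁄ℂ])
    (hb : ∀ j, b j = KaehlerDifferential.D ℂ K (algebraMap BK K (z j))) {c : ℤ}
    {GJ : Cn (m + r) → ℂ} (hJ : Good V.D W.X0 (V.D.dw.toMatrix b).det c GJ) :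
    W.X.JacA z c (fun ξ => W.T.E ξ ^ c * GJ (W.T.Ξ ξ) * (fderiv ℂ W.T.Ξ ξ).det) :=
  Good.ofRoot_jac W.X0 W.T z b hb hJ

/-- the base Jacobian -/
theorem Jbs_eq (zL : Fin m → BL) {ξ : Cn (m + r)} (hξ : ξ ∈ W.X.V) :
    W.X.Jbs zL ξ = (fderiv ℂ (W.XL.ψ zL) (pe V.DL.i₀ V.e (bs ξ))).det *
      ((V.e : ℂ) * ξ V.D.i₀ ^ (V.e - 1)) := by
  have hV := W.pe_mem hξ
  have han := W.XL.analyticAt_ψ zL hV
  -- the composite
  have hbs : HasFDerivAt (fun ξ : Cn (m + r) => bs ξ)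
      (ContinuousLinearMap.pi fun i => ContinuousLinearMap.proj (Fin.castAdd r i)) ξ :=
    (ContinuousLinearMap.pi (R := ℂ) (φ := fun _ : Fin m => ℂ)
      fun i : Fin m => (ContinuousLinearMap.proj (Fin.castAdd r i) : Cn (m + r) →L[ℂ] ℂ)).hasFDerivAt
  have hcomp : ∀ k : Fin m, HasFDerivAt (fun ξ => W.X.s ξ (j (zL k)))
      ((((ContinuousLinearMap.proj k : Cn m →L[ℂ] ℂ).comp
        (fderiv ℂ (W.XL.ψ zL) (pe V.DL.i₀ V.e (bs ξ)))).comp
        (ContinuousLinearMap.pi fun k => (if k = V.DL.i₀ then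
          ((V.e : ℂ) * bs ξ k ^ (V.e - 1)) else 1) •
          (ContinuousLinearMap.proj k : Cn m →L[ℂ] ℂ))).comp
        (ContinuousLinearMap.pi fun i => ContinuousLinearMap.proj (Fin.castAdd r i))) ξ := by
    intro k
    have h1 : HasFDerivAt (fun a : Cn m => W.XL.ψ zL a k)
        ((ContinuousLinearMap.proj k : Cn m →L[ℂ] ℂ).comp
        (fderiv ℂ (W.XL.ψ zL) (pe V.DL.i₀ V.e (bs ξ)))) (pe V.DL.i₀ V.e (bs ξ)) :=
      (hasFDerivAt_pi'.1 han.differentiableAt.hasFDerivAt) k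
    have h2 := (h1.comp (bs ξ) (hasFDerivAt_pe V.DL.i₀ V.e (bs ξ))).comp ξ hbs
    refine h2.congr_of_eventuallyEq ?_
    filter_upwards [W.X.toACh.isOpen_V.mem_nhds hξ] with ξ' hξ'
    exact W.X.fib' hξ' (zL k)
  have hmat : (Matrix.of fun k l : Fin m => fderiv ℂ (fun ξ => W.X.s ξ (j (zL k))) ξ
      (Pi.single (Fin.castAdd r l) 1)) =
      (Matrix.of fun k l => fderiv ℂ (W.XL.ψ zL) (pe V.DL.i₀ V.e (bs ξ)) (Pi.single l 1) k) *
      Matrix.diagonal fun l => if l = V.DL.i₀ then ((V.e : ℂ) * bs ξ l ^ (V.e - 1)) else 1 := by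
    ext k l
    rw [Matrix.mul_diagonal, Matrix.of_apply, Matrix.of_apply, (hcomp k).fderiv]
    simp only [ContinuousLinearMap.comp_apply, ContinuousLinearMap.proj_apply]
    have e1 : (ContinuousLinearMap.pi fun i => ContinuousLinearMap.proj (Fin.castAdd r i) :
        Cn (m + r) →L[ℂ] Cn m) (Pi.single (Fin.castAdd r l) 1) = Pi.single l 1 := by
      funext i
      simp only [ContinuousLinearMap.coe_pi', ContinuousLinearMap.proj_apply]
      by_cases h : i = l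
      · subst h; simp
      · rw [Pi.single_eq_of_ne h, Pi.single_eq_of_ne]
        intro h'
        exact h ((Fin.castAdd_injective m r) h')
    rw [e1]
    have e2 : (ContinuousLinearMap.pi fun k => (if k = V.DL.i₀ then
          ((V.e : ℂ) * bs ξ k ^ (V.e - 1)) else 1) •
          (ContinuousLinearMap.proj k : Cn m →L[ℂ] ℂ)) (Pi.single l 1) =
        (if l = V.DL.i₀ then ((V.e : ℂ) * bs ξ l ^ (V.e - 1)) else 1) •
          (Pi.single l 1 : Cn m) := by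
      funext i
      change (if i = V.DL.i₀ then ((V.e : ℂ) * bs ξ i ^ (V.e - 1)) else 1) •
        ((Pi.single l (1 : ℂ) : Cn m) i) = _
      by_cases h : i = l
      · subst h; simp
      · simp [Pi.single_eq_of_ne h]
    rw [e2, map_smul, Pi.smul_apply, smul_eq_mul, mul_comm]
  unfold RCh.Jbs
  rw [hmat, Matrix.det_mul, ← det_eq_matrix, Matrix.det_diagonal]
  congr 1
  rw [Finset.prod_ite_eq' Finset.univ V.DL.i₀ (fun l => (V.e : ℂ) * bs ξ l ^ (V.e - 1))]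
  simp only [Finset.mem_univ, if_true]
  rw [V.i₀_eq]
  rfl

/-- **The fibre Jacobian**: `Jrel = τ^{c - e c_L - (e-1)} · (zero free)`, `c`, `c_L` the orders of
the Jacobians of the models of `K`, `L`. -/
theorem exists_Jrel (zL : Fin m → BL) (xt : Fin r → BK) (bL : Fin m → Ω[L⁄ℂ])
    (hbL : ∀ i, bL i = KaehlerDifferential.D ℂ L (algebraMap BL L (zL i)))
    (b : Fin (m + r) → Ω[K⁄ℂ])
    (hb : ∀ i, b i = KaehlerDifferential.D ℂ K (algebraMap BK K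
      (Fin.append (fun i => j (zL i)) xt i)))
    {cL : ℤ} {GB : Cn m → ℂ} (hJL : Good V.DL W.XL (V.DL.dw.toMatrix bL).det cL GB)
    {c : ℤ} {GJ : Cn (m + r) → ℂ} (hJ : Good V.D W.X0 (V.D.dw.toMatrix b).det c GJ) :
    ∃ J : Cn (m + r) → ℂ, AnalyticOnNhd ℂ J (ball 0 W.X.ρ) ∧ (∀ ξ ∈ ball 0 W.X.ρ, J ξ ≠ 0) ∧
      ∀ ξ ∈ W.X.V, W.X.Jrel xt ξ = ξ V.D.i₀ ^ (c - V.e * cL - (V.e - 1)) * J ξ := by
  have hjac := W.jac (Fin.append (fun i => j (zL i)) xt) b hb hJ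
  have hmaps : ∀ ξ ∈ ball (0 : Cn (m + r)) W.X.ρ, pe V.DL.i₀ V.e (bs ξ) ∈ ball 0 W.XL.r := by
    intro ξ h1
    rw [mem_ball_zero_iff] at h1 ⊢
    exact (norm_pe_lt _ _ V.e_ne W.T.ρ_pos W.ρ_le_one
      ((norm_bs_le ξ).trans_lt h1)).trans_le W.ρ_le
  have hGBan : ∀ ξ ∈ ball (0 : Cn (m + r)) W.X.ρ,
      AnalyticAt ℂ (fun ξ => GB (pe V.DL.i₀ V.e (bs ξ))) ξ := by
    intro ξ hξ
    have h1 : AnalyticAt ℂ (fun ξ : Cn (m + r) => bs ξ) ξ :=
      (ContinuousLinearMap.pi (R := ℂ) (φ := fun _ : Fin m => ℂ)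
        fun i : Fin m => (ContinuousLinearMap.proj (Fin.castAdd r i) : Cn (m + r) →L[ℂ] ℂ)).analyticAt ξ
    have h2 : AnalyticAt ℂ (fun ξ : Cn (m + r) => pe V.DL.i₀ V.e (bs ξ)) ξ :=
      AnalyticAt.comp (g := pe V.DL.i₀ V.e) (analyticAt_pe _ _ _) h1
    exact AnalyticAt.comp (g := GB) (f := fun ξ : Cn (m + r) => pe V.DL.i₀ V.e (bs ξ))
      (hJL.anal _ (hmaps ξ hξ)) h2
  have heC : (V.e : ℂ) ≠ 0 := by exact_mod_cast V.e_ne
  refine ⟨fun ξ => (W.T.E ξ ^ c * GJ (W.T.Ξ ξ) * (fderiv ℂ W.T.Ξ ξ).det) /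
      ((V.e : ℂ) * GB (pe V.DL.i₀ V.e (bs ξ))), fun ξ hξ => ?_, fun ξ hξ => ?_, fun ξ hξ => ?_⟩
  · exact (hjac.an ξ hξ).div (analyticAt_const.mul (hGBan ξ hξ))
      (mul_ne_zero heC (hJL.ne _ (hmaps ξ hξ)))
  · exact div_ne_zero (hjac.ne ξ hξ) (mul_ne_zero heC (hJL.ne _ (hmaps ξ hξ)))
  · have h1 := W.X.det_block zL xt hξ
    rw [hjac.eq ξ hξ, W.Jbs_eq zL hξ, W.XL.det_eq zL bL hbL hJL (W.pe_mem hξ), pe_self] at h1
    have hξ0 : ξ V.D.i₀ ≠ 0 := hξ.2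
    have hbsi : bs ξ V.DL.i₀ = ξ V.D.i₀ := by rw [V.i₀_eq]; rfl
    rw [hbsi] at h1
    have hGB := hJL.ne _ (hmaps ξ hξ.1)
    have he1 : ((V.e : ℤ) - 1) = ((V.e - 1 : ℕ) : ℤ) := by
      have := Nat.one_le_iff_ne_zero.2 V.e_ne
      push_cast [Nat.cast_sub this]; ring
    have e2 : ξ V.D.i₀ ^ c = ξ V.D.i₀ ^ (c - V.e * cL - (V.e - 1)) *
        ((ξ V.D.i₀ ^ V.e) ^ cL * ξ V.D.i₀ ^ (V.e - 1)) := by
      rw [he1, ← zpow_natCast (ξ V.D.i₀) (V.e - 1), ← zpow_natCast (ξ V.D.i₀) V.e, ← zpow_mul,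
        ← zpow_add₀ hξ0, ← zpow_add₀ hξ0]
      congr 1
      ring
    have h3 : ξ V.D.i₀ ^ V.e ≠ 0 := pow_ne_zero _ hξ0
    have h4 : (ξ V.D.i₀ ^ V.e) ^ cL ≠ 0 := zpow_ne_zero _ h3
    have h5 : ξ V.D.i₀ ^ (V.e - 1) ≠ 0 := pow_ne_zero _ hξ0
    rw [e2] at h1
    set P := W.T.E ξ ^ c * GJ (W.T.Ξ ξ) * (fderiv ℂ W.T.Ξ ξ).det with hP
    set Q := ξ V.D.i₀ ^ (c - V.e * cL - (V.e - 1)) with hQ
    have h6 : Q * P * ((ξ V.D.i₀ ^ V.e) ^ cL * ξ V.D.i₀ ^ (V.e - 1)) =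
        W.X.Jrel xt ξ * (V.e * GB (pe V.DL.i₀ V.e (bs ξ))) *
          ((ξ V.D.i₀ ^ V.e) ^ cL * ξ V.D.i₀ ^ (V.e - 1)) := by
      linear_combination h1
    have h7 := mul_right_cancel₀ (mul_ne_zero h4 h5) h6
    rw [← mul_div_assoc, eq_div_iff (mul_ne_zero heC hGB), h7]

end VChart

end Crest.Agent.R276.BR_590
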