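import Mathlib
import Crest.Agent.R276.BC4_986

/-!
Row 276, leaf BC-REL (helper590), part 5: localisation of divisorial models.

`DivModel.exists_away`   : `D.A[1/g]`, `t ∤ g`, is again a divisorial model (of the same `R`);
`ModelOf.exists_contain` : for a ring `A₀` of finite type with image in `R` there is a localisation
of `D` whose ring contains `A₀`.
-/

set_option autoImplicit false

open scoped Topology BigOperators
open Set Metric

noncomputable section

namespace Crest.Agent.R276.BR_590

open Crest.Agent.R271.Defs710 Crest.Agent.R271.Bd741 Crest.Agent.R276.BC_986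
open Crest.Agent.R276.FKDefs_779

variable {n : ℕ} {K : Type} [Field K] [Algebra ℂ K]

/-- `D'` is a localisation of the divisorial model `D` at one element -/
structure IsAway (D D' : DivModel n K) (φ : D.A →ₐ[ℂ] D'.A) (g : D.A) : Prop where
  map : ∀ a, algebraMap D'.A K (φ a) = algebraMap D.A K a
  i₀ : D'.i₀ = D.i₀
  w : ∀ i, D'.w i = φ (D.w i)
  unit : IsUnit (φ g)
  surj : ∀ x : D'.A, ∃ (a : D.A) (k : ℕ), x * φ g ^ k = φ a
  dvd : ∀ a, D'.t ∣ φ a ↔ D.t ∣ a

theorem DivModel.exists_away (D : DivModel n K) (g : D.A) (hg : ¬ D.t ∣ g) :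
    ∃ (D' : DivModel n K) (φ : D.A →ₐ[ℂ] D'.A), IsAway D D' φ g := by
  classical
  have hg0 : g ≠ 0 := fun h => hg (h ▸ dvd_zero _)
  have hgK : algebraMap D.A K g ≠ 0 := fun h => hg0 (D.inj (by rw [h, map_zero]))
  have hpow : Submonoid.powers g ≤ nonZeroDivisors D.A := by
    rintro _ ⟨k, rfl⟩
    exact mem_nonZeroDivisors_iff_ne_zero.2 (pow_ne_zero _ hg0)
  let A' := Localization.Away g
  have hdom : IsDomain A' := IsLocalization.isDomain_localization hpow
  have hunit : IsUnit (algebraMap D.A K g) := isUnit_iff_ne_zero.2 hgK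
  let algK' : Algebra A' K := (IsLocalization.Away.lift (S := A') g hunit).toAlgebra
  have hmapK : ∀ a : D.A, algebraMap A' K (algebraMap D.A A' a) = algebraMap D.A K a := fun a =>
    IsLocalization.Away.lift_eq g hunit a
  have tow1 : IsScalarTower D.A A' K := IsScalarTower.of_algebraMap_eq fun a => (hmapK a).symm
  have tow : IsScalarTower ℂ A' K := by
    refine IsScalarTower.of_algebraMap_eq fun c => ?_
    rw [IsScalarTower.algebraMap_apply ℂ D.A A', hmapK, ← IsScalarTower.algebraMap_apply ℂ D.A K]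
  have hfrac : IsFractionRing A' K :=
    IsFractionRing.isFractionRing_of_isDomain_of_isLocalization (Submonoid.powers g) A' K
  have hft0 : Algebra.FiniteType ℂ D.A := D.ft
  have hft1 : Algebra.FiniteType D.A A' := IsLocalization.finiteType_of_monoid_fg (Submonoid.powers g) A'
  have hft : Algebra.FiniteType ℂ A' := hft0.trans hft1
  have hinj : Function.Injective (algebraMap D.A A') := IsLocalization.injective A' hpow
  have hgu : IsUnit (algebraMap D.A A' g) := IsLocalization.Away.algebraMap_isUnit g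
  have hsurj : ∀ x : A', ∃ (a : D.A) (k : ℕ), x * algebraMap D.A A' g ^ k = algebraMap D.A A' a := by
    intro x
    obtain ⟨k, a, h⟩ := IsLocalization.Away.surj g x
    exact ⟨a, k, h⟩
  -- étale
  have het : RingHom.Etale ((MvPolynomial.aeval (fun i => algebraMap D.A A' (D.w i)) :
      MvPolynomial (Fin n) ℂ →ₐ[ℂ] A') : MvPolynomial (Fin n) ℂ →+* A') := by
    have h1 : ((MvPolynomial.aeval (fun i => algebraMap D.A A' (D.w i)) :
        MvPolynomial (Fin n) ℂ →ₐ[ℂ] A') : MvPolynomial (Fin n) ℂ →+* A') =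
        (algebraMap D.A A').comp ((MvPolynomial.aeval D.w : MvPolynomial (Fin n) ℂ →ₐ[ℂ] D.A) :
          MvPolynomial (Fin n) ℂ →+* D.A) := by
      apply MvPolynomial.ringHom_ext
      · intro c
        simp only [RingHom.coe_coe, MvPolynomial.aeval_C, RingHom.comp_apply]
        rw [IsScalarTower.algebraMap_apply ℂ D.A A']
      · intro i
        simp
    rw [h1]
    refine RingHom.Etale.stableUnderComposition _ _ D.etale ?_
    exact RingHom.etale_algebraMap.2 (Algebra.Etale.of_isLocalizationAway g)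
  -- divisibility
  have hdvd : ∀ a : D.A, algebraMap D.A A' (D.w D.i₀) ∣ algebraMap D.A A' a ↔ D.t ∣ a := by
    intro a
    constructor
    · rintro ⟨x, hx⟩
      obtain ⟨b, k, hb⟩ := hsurj x
      have h1 : algebraMap D.A A' (a * g ^ k) = algebraMap D.A A' (D.t * b) := by
        rw [map_mul, map_pow, hx, map_mul, ← hb]
        change algebraMap D.A A' D.t * x * _ = _
        ring
      have h2 : D.t ∣ a * g ^ k := ⟨b, hinj h1⟩
      rcases D.t_prime.dvd_or_dvd h2 with h | h
      · exact h
      · exact absurd (D.t_prime.dvd_of_dvd_pow h) hg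
    · rintro ⟨b, rfl⟩
      rw [map_mul]
      exact dvd_mul_right _ _
  have hprime : Prime (algebraMap D.A A' (D.w D.i₀)) := by
    refine ⟨?_, ?_, ?_⟩
    · intro h
      exact D.t_ne (hinj (by rw [map_zero]; exact h))
    · intro h
      have h1 : algebraMap D.A A' (D.w D.i₀) ∣ algebraMap D.A A' 1 := h.dvd
      rw [hdvd] at h1
      exact D.t_prime.not_isUnit (isUnit_of_dvd_one h1)
    · intro x y hxy
      obtain ⟨a, k, ha⟩ := hsurj x
      obtain ⟨b, l, hb⟩ := hsurj y
      have h1 : algebraMap D.A A' (D.w D.i₀) ∣ algebraMap D.A A' (a * b) := by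
        rw [map_mul, ← ha, ← hb]
        have : x * algebraMap D.A A' g ^ k * (y * algebraMap D.A A' g ^ l) =
          x * y * (algebraMap D.A A' g ^ k * algebraMap D.A A' g ^ l) := by ring
        rw [this]
        exact hxy.mul_right _
      rw [hdvd] at h1
      rcases D.t_prime.dvd_or_dvd h1 with h | h
      · left
        rw [← hdvd, ← ha] at h
        exact (IsUnit.dvd_mul_right (hgu.pow k)).1 h
      · right
        rw [← hdvd, ← hb] at h
        exact (IsUnit.dvd_mul_right (hgu.pow l)).1 h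
  let D' : DivModel n K :=
    { A := A'
      ft := hft
      w := fun i => algebraMap D.A A' (D.w i)
      etale := het
      i₀ := D.i₀
      prime := hprime }
  exact ⟨D', IsScalarTower.toAlgHom ℂ D.A A',
    { map := hmapK
      i₀ := rfl
      w := fun i => rfl
      unit := hgu
      surj := hsurj
      dvd := hdvd }⟩

namespace IsAway

variable {D D' : DivModel n K} {φ : D.A →ₐ[ℂ] D'.A} {g : D.A} (h : IsAway D D' φ g)

include h

lemma t_eq : D'.t = φ D.t := by
  unfold DivModel.t
  rw [h.i₀, h.w]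

lemma not_dvd {a : D.A} (ha : ¬ D.t ∣ a) : ¬ D'.t ∣ φ a := fun h' => ha ((h.dvd a).1 h')

/-- same valuation ring -/
lemma modelOf {R : ValuationSubring K} (hD : D.ModelOf R) : D'.ModelOf R := by
  refine ⟨fun x hx => ?_, ?_⟩
  · obtain ⟨a, k, ha⟩ := h.surj x
    have h1 : ¬ D.t ∣ a := by
      intro h2
      rw [← h.dvd, ← ha] at h2
      exact hx ((IsUnit.dvd_mul_right (h.unit.pow k)).1 h2)
    have hg : ¬ D.t ∣ g := by
      intro h2
      rw [← h.dvd] at h2
      exact D'.t_prime.not_isUnit (isUnit_of_dvd_unit h2 h.unit)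
    have h3 := congrArg (fun y => R.valuation (algebraMap D'.A K y)) ha
    simp only [map_mul, map_pow, h.map, hD.unit g hg, one_pow, mul_one, hD.unit a h1] at h3
    exact h3
  · rw [h.t_eq, h.map]
    exact hD.lt

/-- composition of localisations is a localisation in the sense that matters to us -/
lemma hasOrd {f : K} {a : ℤ} (hf : D.HasOrd f a) : D'.HasOrd f a := by
  obtain ⟨u, v, hu, hv, h1⟩ := hf
  exact ⟨φ u, φ v, h.not_dvd hu, h.not_dvd hv, by rw [h.map, h.map, h.t_eq, h.map]; exact h1⟩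

end IsAway

/-- a ring of finite type in `R` is contained in the ring of a localisation of the model -/
theorem exists_contain {D : DivModel n K} {R : ValuationSubring K} (hD : D.ModelOf R)
    (A₀ : Type) [CommRing A₀] [Algebra ℂ A₀] [Algebra A₀ K] [IsScalarTower ℂ A₀ K]
    (hft : Algebra.FiniteType ℂ A₀) (hR : ∀ a : A₀, algebraMap A₀ K a ∈ R) :
    ∃ (g : D.A) (D' : DivModel n K) (φ : D.A →ₐ[ℂ] D'.A) (ι : A₀ →ₐ[ℂ] D'.A),
      ¬ D.t ∣ g ∧ IsAway D D' φ g ∧ ∀ a, algebraMap D'.A K (ι a) = algebraMap A₀ K a := by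
  classical
  obtain ⟨S, hS⟩ := hft.out
  have h1 : ∀ a : A₀, ∃ u v : D.A, ¬ D.t ∣ v ∧
      algebraMap A₀ K a * algebraMap D.A K v = algebraMap D.A K u := fun a =>
    hD.exists_frac (hR a)
  choose u v hv huv using h1
  have hg : ¬ D.t ∣ ∏ a ∈ S, v a := by
    intro hd
    obtain ⟨f, _, hf⟩ := (D.t_prime.dvd_finsetProd_iff _).1 hd
    exact hv f hf
  obtain ⟨D', φ, h⟩ := DivModel.exists_away D _ hg
  let i' : D'.A →ₐ[ℂ] K := IsScalarTower.toAlgHom ℂ D'.A K
  let i₀ : A₀ →ₐ[ℂ] K := IsScalarTower.toAlgHom ℂ A₀ K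
  have hle : i₀.range ≤ i'.range := by
    rw [← Algebra.map_top, ← hS, AlgHom.map_adjoin, Algebra.adjoin_le_iff]
    rintro _ ⟨a, ha, rfl⟩
    have hu : IsUnit (φ (v a)) := by
      have h2 := h.unit
      rw [← Finset.mul_prod_erase S v ha, map_mul] at h2
      exact isUnit_of_mul_isUnit_left h2
    obtain ⟨c, hc⟩ := hu.exists_right_inv
    refine ⟨φ (u a) * c, ?_⟩
    change algebraMap D'.A K (φ (u a) * c) = algebraMap A₀ K a
    have hcK : algebraMap D'.A K (φ (v a)) * algebraMap D'.A K c = 1 := by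
      rw [← map_mul, hc, map_one]
    rw [map_mul, h.map, ← huv, mul_assoc, ← h.map (v a), hcK, mul_one]
  have hinj : Function.Injective i' := D'.inj
  let ιr : A₀ →ₐ[ℂ] i'.range := i₀.codRestrict i'.range fun a => hle ⟨a, rfl⟩
  let ι : A₀ →ₐ[ℂ] D'.A := ((AlgEquiv.ofInjective i' hinj).symm : i'.range →ₐ[ℂ] D'.A).comp ιr
  refine ⟨_, D', φ, ι, hg, h, fun a => ?_⟩
  have h2 : AlgEquiv.ofInjective i' hinj (ι a) = ιr a := by
    change AlgEquiv.ofInjective i' hinj ((AlgEquiv.ofInjective i' hinj).symm (ιr a)) = ιr a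
    rw [AlgEquiv.apply_symm_apply]
  have h3 := congrArg Subtype.val h2
  exact h3

end Crest.Agent.R276.BR_590
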