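import Crest.Agent.R276.DivVal10_858

/-! # Row 276, helper858: divisorial valuations, part 11: counting and restriction. -/

set_option autoImplicit false

noncomputable section

namespace Crest.Agent.R276.DivVal_858

open IsLocalRing MvPolynomial Crest.Agent.R276.FKDefs_779 Cardinal

section Count

universe u

theorem exists_fin_of_le_trdeg (A : Type*) (B : Type u) [Field A] [Field B] [Algebra A B] {q : ℕ}
    (h : (q : Cardinal) ≤ Algebra.trdeg A B) : ∃ x : Fin q → B, AlgebraicIndependent A x := by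
  obtain ⟨s, hs⟩ := exists_isTranscendenceBasis A B
  have h1 : Cardinal.mk s = Algebra.trdeg A B := hs.cardinalMk_eq_trdeg
  have h2 : (q : Cardinal) ≤ Cardinal.mk s := by rw [h1]; exact h
  have h3 : Cardinal.mk (ULift.{u} (Fin q)) ≤ Cardinal.mk s := by
    rw [Cardinal.mk_uLift, Cardinal.mk_fin, Cardinal.lift_natCast]
    exact h2
  obtain ⟨f⟩ := (Cardinal.le_def _ _).mp h3
  exact ⟨fun i => (f ⟨i⟩ : B), hs.1.comp (fun i => f ⟨i⟩)
    (fun i j hij => congrArg ULift.down (f.injective hij))⟩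

theorem exists_fin_basis (A B : Type*) [Field A] [Field B] [Algebra A B] {q : ℕ}
    (h : Algebra.trdeg A B = q) : ∃ x : Fin q → B, IsTranscendenceBasis A x := by
  obtain ⟨x, hx⟩ := exists_fin_of_le_trdeg A B h.ge
  refine ⟨x, hx.isTranscendenceBasis_of_lift_trdeg_le_of_finite ?_⟩
  rw [h]
  simp

variable {k K : Type*} [Field k] [Field K] [Algebra k K] {R : ValuationSubring K}

/-- a residually independent family on `R ≠ ⊤` has at most `trdeg - 1` elements. -/
theorem ResInd.succ_le {n q : ℕ} (hn : Algebra.trdeg k K = n)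
    (hk : ∀ c : k, algebraMap k K c ∈ R) (hne : R ≠ ⊤)
    {x : Fin q → K} (hx : ResInd k R x) : q + 1 ≤ n := by
  have hdiv : IsDiv k (q + 1) R := ⟨hk, hne, x, hx.1, hx.2⟩
  obtain ⟨x', t, h⟩ := exists_adapted R hdiv
  have h1 := h.algInd.lift_cardinalMk_le_trdeg
  rw [hn] at h1
  simpa using h1

theorem ResInd.le {n q : ℕ} (hn : Algebra.trdeg k K = n)
    {x : Fin q → K} (hx : ResInd k R x) : q ≤ n := by
  have h1 := hx.algInd.lift_cardinalMk_le_trdeg
  rw [hn] at h1
  simpa using h1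

variable [Algebra k R] (hkR : ∀ c : k, ((algebraMap k R c : R) : K) = algebraMap k K c)
include hkR

theorem exists_resInd_of_le_trdeg {q : ℕ} (h : (q : Cardinal) ≤ Algebra.trdeg k (ResidueField R)) :
    ∃ x : Fin q → K, ResInd k R x := by
  obtain ⟨x, hx⟩ := exists_fin_of_le_trdeg k (ResidueField R) h
  choose y hy using fun i => residue_surjective (R := R) (x i)
  refine ⟨fun i => (y i : K), (resInd_iff hkR y).mpr ?_⟩
  have : (fun i => residue R (y i)) = x := funext hy
  rw [this]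
  exact hx

theorem trdeg_residueField_le {n : ℕ} (hn : Algebra.trdeg k K = n) :
    ∃ a : ℕ, Algebra.trdeg k (ResidueField R) = a ∧ a ≤ n := by
  have hlt : Algebra.trdeg k (ResidueField R) ≤ n := by
    by_contra h
    have h2 : ((n + 1 : ℕ) : Cardinal) ≤ Algebra.trdeg k (ResidueField R) := by
      rw [Nat.cast_succ]
      exact Order.succ_le_of_lt (not_le.mp h) |>.trans' (by rw [Cardinal.succ_natCast])
    obtain ⟨x, hx⟩ := exists_resInd_of_le_trdeg hkR h2
    have := hx.le hn
    omega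
  have h3 : Algebra.trdeg k (ResidueField R) < ℵ₀ := hlt.trans_lt (Cardinal.natCast_lt_aleph0)
  obtain ⟨a, ha⟩ := Cardinal.lt_aleph0.mp h3
  refine ⟨a, ha, ?_⟩
  rw [ha] at hlt
  exact_mod_cast hlt

theorem trdeg_residueField_add_one_le {n : ℕ} (hn : Algebra.trdeg k K = n) (hne : R ≠ ⊤) :
    ∃ a : ℕ, Algebra.trdeg k (ResidueField R) = a ∧ a + 1 ≤ n := by
  obtain ⟨a, ha, -⟩ := trdeg_residueField_le hkR hn
  refine ⟨a, ha, ?_⟩
  obtain ⟨x, hx⟩ := exists_resInd_of_le_trdeg hkR ha.ge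
  exact hx.succ_le hn (fun c => by rw [← hkR c]; exact (algebraMap k R c).2) hne

theorem trdeg_residueField_of_isDiv {n : ℕ} (hn : Algebra.trdeg k K = n) (hR : IsDiv k n R) :
    Algebra.trdeg k (ResidueField R) = (n - 1 : ℕ) := by
  obtain ⟨a, ha, han⟩ := trdeg_residueField_add_one_le hkR hn hR.ne_top
  obtain ⟨x, hx, hres⟩ := hR.res
  have h1 : ResInd k R (fun i => (((⟨x i, hx i⟩ : R)) : K)) := ⟨hx, hres⟩
  have h2 := ((resInd_iff hkR (fun i => (⟨x i, hx i⟩ : R))).mp h1).lift_cardinalMk_le_trdeg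
  rw [ha] at h2 ⊢
  have h3 : n - 1 ≤ a := by simpa using h2
  congr 1
  omega

end Count

end Crest.Agent.R276.DivVal_858
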