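import Mathlib
import Crest.Agent.R276.BR4_590

/-!
Row 276, leaf BC-REL (helper590), part 7: towers of root coordinates.

`Root.one`        : the trivial change of coordinates;
`Root.exists_inv` : inverse of a root coordinate near the centre;
`vstep`           : over a chart of `M_L` which already carries a root coordinate there is a root
                    coordinate on the chart of `M_K` with `f (s_K ξ) = s_L (ξ₁, …, ξ_i^e, …, ξ_m)`.
-/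

set_option autoImplicit false

open scoped Topology BigOperators ENNReal ContDiff
open Set Metric MeasureTheory Filter

noncomputable section

namespace Crest.Agent.R276.BR_590

open Crest.Agent.R271.Defs710 Crest.Agent.R271.Bd741 Crest.Agent.R276.BC_986
open Crest.Agent.R271.Rd692 (Pt pr)

lemma analyticAt_coord {n : ℕ} (i : Fin n) (ζ : Cn n) : AnalyticAt ℂ (fun ζ : Cn n => ζ i) ζ :=
  (ContinuousLinearMap.proj (R := ℂ) (φ := fun _ : Fin n => ℂ) i).analyticAt ζ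

/-- the trivial change of coordinates -/
def Root.one {n : ℕ} (i₀ : Fin n) (r : ℝ) (hr : 0 < r) : Root i₀ r (fun _ => 1) 1 where
  ρ := r
  Ξ := id
  E := fun _ => 1
  ρ_pos := hr
  an := analyticOnNhd_id
  maps := fun _ h => h
  inj := fun _ _ _ _ h => h
  det := by
    intro ξ _
    rw [fderiv_id]
    simp [ContinuousLinearMap.det]
  coord := fun _ _ _ _ => rfl
  anE := analyticOnNhd_const
  ne := fun _ _ => one_ne_zero
  eq := fun ξ _ => by simp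
  pow := fun ξ _ => by simp
  zero := rfl

/-- `ζ` with `ζ_{i₀}` multiplied by `H ζ` -/
def th {n : ℕ} (i₀ : Fin n) (H : Cn n → ℂ) (ζ : Cn n) : Cn n :=
  fun i => if i = i₀ then ζ i * H ζ else ζ i

section th

variable {n : ℕ} (i₀ : Fin n) (H : Cn n → ℂ)

lemma th_self (ζ : Cn n) : th i₀ H ζ i₀ = ζ i₀ * H ζ := by simp [th]

lemma th_of_ne (ζ : Cn n) {i : Fin n} (h : i ≠ i₀) : th i₀ H ζ i = ζ i := by simp [th, h]

lemma th_zero : th i₀ H 0 = 0 := by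
  funext i
  by_cases h : i = i₀
  · subst h; simp [th_self]
  · simp [th_of_ne i₀ H 0 h]

lemma analyticAt_th {ζ : Cn n} (h : AnalyticAt ℂ H ζ) : AnalyticAt ℂ (th i₀ H) ζ := by
  rw [analyticAt_pi_iff]
  intro i
  by_cases hi : i = i₀
  · subst hi
    have : (fun ζ : Cn n => th i H ζ i) = fun ζ => ζ i * H ζ := by
      funext ζ; exact th_self i H ζ
    rw [this]
    exact (analyticAt_coord i ζ).mul h
  · have : (fun ζ : Cn n => th i₀ H ζ i) = fun ζ => ζ i := by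
      funext ζ; exact th_of_ne i₀ H ζ hi
    rw [this]
    exact analyticAt_coord i ζ

end th

/-- **the inverse of a root coordinate** -/
theorem Root.exists_inv {n : ℕ} {i₀ : Fin n} {r : ℝ} {G : Cn n → ℂ} {e : ℕ} (T : Root i₀ r G e) :
    ∃ H : Cn n → ℂ, AnalyticAt ℂ H 0 ∧ H 0 ≠ 0 ∧
      ∀ᶠ ζ in 𝓝 (0 : Cn n), th i₀ H ζ ∈ ball (0 : Cn n) T.ρ ∧ T.Ξ (th i₀ H ζ) = ζ := by
  have h0 : (0 : Cn n) ∈ ball (0 : Cn n) T.ρ := mem_ball_self T.ρ_pos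
  have han := T.an 0 h0
  have hdet := T.det 0 h0
  have hu : IsUnit (fderiv ℂ T.Ξ 0 : Cn n →ₗ[ℂ] Cn n) := by
    rw [LinearMap.isUnit_iff_isUnit_det, isUnit_iff_ne_zero]; exact hdet
  let L : Cn n ≃L[ℂ] Cn n := ContinuousLinearEquiv.ofBijective (fderiv ℂ T.Ξ 0)
    (LinearMap.ker_eq_bot.2 ((Module.End.isUnit_iff _).1 hu).1)
    (LinearMap.range_eq_top.2 ((Module.End.isUnit_iff _).1 hu).2)
  have hL : (L : Cn n →L[ℂ] Cn n) = fderiv ℂ T.Ξ 0 := ContinuousLinearEquiv.coe_ofBijective _ _ _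
  have hd : HasFDerivAt T.Ξ (L : Cn n →L[ℂ] Cn n) 0 := by
    rw [hL]; exact han.differentiableAt.hasFDerivAt
  have hc : ContDiffAt ℂ ω T.Ξ 0 := han.contDiffAt
  have hn : (ω : WithTop ℕ∞) ≠ 0 := by simp
  set Ψ : Cn n → Cn n := hc.localInverse hd hn with hΨ
  have hΨ0 : Ψ 0 = 0 := by
    have := hc.localInverse_apply_image hd hn
    rwa [T.zero] at this
  have hΨan : AnalyticAt ℂ Ψ 0 := by
    have h1 := hc.to_localInverse hd hn
    rw [T.zero] at h1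
    exact h1.analyticAt
  have hinv : ∀ᶠ ξ in 𝓝 (0 : Cn n), T.Ξ (Ψ ξ) = ξ := by
    have h1 := (hc.hasStrictFDerivAt' hd hn).eventually_right_inverse
    rw [T.zero] at h1
    exact h1
  have hcont : Tendsto Ψ (𝓝 0) (𝓝 0) := by
    have := hΨan.continuousAt.tendsto
    rwa [hΨ0] at this
  refine ⟨fun ζ => (T.E (Ψ ζ))⁻¹, ?_, ?_, ?_⟩
  · refine AnalyticAt.inv ?_ ?_
    · refine AnalyticAt.comp (g := T.E) (f := Ψ) ?_ hΨan
      rw [hΨ0]; exact T.anE 0 h0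
    · simp only [hΨ0]; exact T.ne 0 h0
  · simp only [hΨ0]
    exact inv_ne_zero (T.ne 0 h0)
  · filter_upwards [hinv, hcont.eventually (ball_mem_nhds 0 T.ρ_pos)] with ζ h1 h2
    have h3 : th i₀ (fun ζ => (T.E (Ψ ζ))⁻¹) ζ = Ψ ζ := by
      funext i
      by_cases hi : i = i₀
      · subst hi
        rw [th_self]
        have h4 := T.eq _ h2
        rw [h1] at h4
        rw [h4, mul_assoc, mul_inv_cancel₀ (T.ne _ h2), mul_one]
      · rw [th_of_ne _ _ _ hi]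
        have h4 := T.coord _ h2 i hi
        rw [h1] at h4
        exact h4
    rw [h3]
    exact ⟨h2, h1⟩

/-- the coordinates of the base point -/
def zm {m : ℕ} (r : ℕ) (i₁ : Fin m) (e : ℕ) (g : Cn (m + r) → ℂ) (ζ : Cn (m + r)) : Cn m :=
  fun i => if i = i₁ then ζ (Fin.castAdd r i) ^ e * g ζ else ζ (Fin.castAdd r i)

section zm

variable {m r : ℕ} (i₁ : Fin m) (e : ℕ) (g : Cn (m + r) → ℂ)

lemma zm_self (ζ : Cn (m + r)) : zm r i₁ e g ζ i₁ = ζ (Fin.castAdd r i₁) ^ e * g ζ := by simp [zm]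

lemma zm_of_ne (ζ : Cn (m + r)) {i : Fin m} (h : i ≠ i₁) :
    zm r i₁ e g ζ i = ζ (Fin.castAdd r i) := by simp [zm, h]

lemma zm_zero (he : e ≠ 0) : zm r i₁ e g 0 = 0 := by
  funext i
  by_cases h : i = i₁
  · subst h; simp [zm_self, he]
  · simp [zm_of_ne i₁ e g 0 h]

lemma analyticAt_zm {ζ : Cn (m + r)} (h : AnalyticAt ℂ g ζ) : AnalyticAt ℂ (zm r i₁ e g) ζ := by
  rw [analyticAt_pi_iff]
  intro i
  by_cases hi : i = i₁
  · subst hi
    have : (fun ζ : Cn (m + r) => zm r i e g ζ i) = fun ζ => ζ (Fin.castAdd r i) ^ e * g ζ := by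
      funext ζ; exact zm_self i e g ζ
    rw [this]
    exact ((analyticAt_coord _ ζ).pow e).mul h
  · have : (fun ζ : Cn (m + r) => zm r i₁ e g ζ i) = fun ζ => ζ (Fin.castAdd r i) := by
      funext ζ; exact zm_of_ne i₁ e g ζ hi
    rw [this]
    exact analyticAt_coord _ ζ

end zm

section step

variable {m r : ℕ} {L K : Type} [Field L] [Algebra ℂ L] [Field K] [Algebra ℂ K]
    [Algebra L K] (V : VData m r L K) {BL BK : Type}
    [CommRing BL] [Algebra ℂ BL] [Algebra BL L]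
    [CommRing BK] [Algebra ℂ BK] [Algebra BK K]

/-- the base point of the points of a boundary chart, vertical case -/
theorem vbase (j : BL →ₐ[ℂ] BK)
    (hj : ∀ b : BL, algebraMap BK K (j b) = algebraMap L K (algebraMap BL L b))
    (X : BChart V.D BK) (XL : BChart V.DL BL) (hXLy : XL.y = X.y.comp V.ι)
    (hXu : X.y V.u ≠ 0) : ∃ ρ : ℝ, 0 < ρ ∧ ρ ≤ X.r ∧ ∀ ζ ∈ ball (0 : Cn (m + r)) ρ,
      X.C.s ζ V.u ≠ 0 ∧
      zm r V.DL.i₀ V.e (fun ζ => X.C.s ζ V.u) ζ ∈ ball (0 : Cn m) XL.r ∧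
      (X.C.s ζ).comp V.ι = XL.C.s (zm r V.DL.i₀ V.e (fun ζ => X.C.s ζ V.u) ζ) ∧
      (ζ V.D.i₀ ≠ 0 → zm r V.DL.i₀ V.e (fun ζ => X.C.s ζ V.u) ζ ∈ XL.V ∧
        (X.s ζ).comp j = XL.s (zm r V.DL.i₀ V.e (fun ζ => X.C.s ζ V.u) ζ)) := by
  classical
  set g : Cn (m + r) → ℂ := fun ζ => X.C.s ζ V.u with hg
  obtain ⟨S, δ, hδ, hS⟩ := XL.C.surj
  have h0 : (0 : Cn (m + r)) ∈ ball (0 : Cn (m + r)) X.r := mem_ball_self X.r_pos
  have hcont : ∀ b : V.D.A, ContinuousAt (fun ζ => X.C.s ζ b) 0 := fun b =>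
    (X.analA b 0 h0).continuousAt
  have hval0 : ∀ b : V.DL.A, X.C.s 0 (V.ι b) = XL.y b := by
    intro b
    rw [X.C.s_zero, hXLy]; rfl
  have hev1 : ∀ᶠ ζ in 𝓝 (0 : Cn (m + r)), ∀ b ∈ S, ‖X.C.s ζ (V.ι b) - XL.y b‖ < δ := by
    rw [Filter.eventually_all_finset]
    intro b _
    have h1 : ContinuousAt (fun ζ => ‖X.C.s ζ (V.ι b) - XL.y b‖) 0 :=
      ((hcont (V.ι b)).sub continuousAt_const).norm
    refine h1.eventually (gt_mem_nhds ?_)
    simp only [hval0, sub_self, norm_zero]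
    exact hδ
  have hev2 : ∀ᶠ ζ in 𝓝 (0 : Cn (m + r)), zm r V.DL.i₀ V.e g ζ ∈ ball (0 : Cn m) XL.r := by
    have h1 : ContinuousAt (zm r V.DL.i₀ V.e g) 0 :=
      (analyticAt_zm _ _ _ (X.analA V.u 0 h0)).continuousAt
    refine h1.eventually (isOpen_ball.mem_nhds ?_)
    rw [zm_zero _ _ _ V.e_ne]
    exact mem_ball_self XL.r_pos
  have hev3 : ∀ᶠ ζ in 𝓝 (0 : Cn (m + r)), X.C.s ζ V.u ≠ 0 := by
    refine (hcont V.u).eventually_ne ?_
    rw [X.C.s_zero]; exact hXu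
  obtain ⟨ρ₁, hρ₁, hball⟩ := Metric.eventually_nhds_iff_ball.1 (hev1.and (hev2.and hev3))
  refine ⟨min ρ₁ X.r, lt_min hρ₁ X.r_pos, min_le_right _ _, fun ζ hζ => ?_⟩
  obtain ⟨k1, k2, k3⟩ := hball ζ (ball_subset_ball (min_le_left _ _) hζ)
  have hζX : ζ ∈ ball (0 : Cn (m + r)) X.r := ball_subset_ball (min_le_right _ _) hζ
  have hpt : (X.C.s ζ).comp V.ι = XL.C.s (zm r V.DL.i₀ V.e g ζ) := by
    have h1 := hS ((X.C.s ζ).comp V.ι) k1
    rw [h1]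
    congr 1
    funext i
    by_cases hi : i = V.DL.i₀
    · subst hi
      rw [zm_self]
      have e1 : XL.y (V.DL.w V.DL.i₀) = 0 := XL.y_t
      rw [e1, sub_zero]
      change X.C.s ζ (V.ι V.DL.t) = _
      rw [V.ram, map_mul, map_pow, X.s_t hζX, V.i₀_eq]
    · rw [zm_of_ne _ _ _ _ hi]
      have e1 : XL.y (V.DL.w i) = X.y (V.D.w (Fin.castAdd r i)) := by
        rw [hXLy, V.base i hi]; rfl
      rw [e1]
      change X.C.s ζ (V.ι (V.DL.w i)) - _ = _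
      rw [← V.base i hi, X.s_w hζX, add_sub_cancel_left]
  refine ⟨k3, k2, hpt, fun hζ0 => ?_⟩
  have hzV : zm r V.DL.i₀ V.e g ζ ∈ XL.V := by
    refine ⟨k2, ?_⟩
    change zm r V.DL.i₀ V.e g ζ V.DL.i₀ ≠ 0
    rw [zm_self]
    rw [V.i₀_eq] at hζ0
    exact mul_ne_zero (pow_ne_zero _ hζ0) k3
  refine ⟨hzV, ?_⟩
  apply AlgHom.ext
  intro b
  have h1 : IsVal (X.C.s ζ) (algebraMap BK K (j b)) (X.s ζ (j b)) := X.isVal_s ⟨hζX, hζ0⟩ (j b)
  obtain ⟨u, v, e1, e2, e3⟩ := XL.isVal_s hzV b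
  have hpa : ∀ a : V.DL.A, XL.C.s (zm r V.DL.i₀ V.e g ζ) a = X.C.s ζ (V.ι a) := by
    intro a
    rw [← hpt]; rfl
  have h2 : IsVal (X.C.s ζ) (algebraMap BK K (j b)) (XL.s (zm r V.DL.i₀ V.e g ζ) b) := by
    refine ⟨V.ι u, V.ι v, ?_, ?_, ?_⟩
    · rw [← hpa]; exact e1
    · rw [hj, V.ι_K, V.ι_K, ← map_mul, e2]
    · rw [← hpa, ← hpa]; exact e3
  exact h1.unique V.D.inj h2

/-- **the step**: over a chart of `M_L` with a root coordinate there is a root coordinate on the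
chart of `M_K` -/
theorem vstep (j : BL →ₐ[ℂ] BK)
    (hj : ∀ b : BL, algebraMap BK K (j b) = algebraMap L K (algebraMap BL L b))
    (X : BChart V.D BK) (XL : BChart V.DL BL) (hXLy : XL.y = X.y.comp V.ι)
    (hXu : X.y V.u ≠ 0) {G₁ : Cn m → ℂ} {eL : ℕ} (TL : Root V.DL.i₀ XL.r G₁ eL)
    (ε : ℝ) (hε : 0 < ε) : ∃ (r' : ℝ) (hr' : 0 < r') (hle : r' ≤ X.r) (G : Cn (m + r) → ℂ)
      (T : Root V.D.i₀ (X.shrink r' hr' hle).r G V.e), T.ρ ≤ ε ∧
      ∀ ξ ∈ ball (0 : Cn (m + r)) T.ρ, pe V.DL.i₀ V.e (bs ξ) ∈ ball (0 : Cn m) TL.ρ ∧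
        (ξ V.D.i₀ ≠ 0 →
          (X.s (T.Ξ ξ)).comp j = XL.s (TL.Ξ (pe V.DL.i₀ V.e (bs ξ)))) := by
  classical
  obtain ⟨ρ₀, hρ₀, hρ₀X, hbase⟩ := vbase V j hj X XL hXLy hXu
  obtain ⟨H, hHan, hH0, hHinv⟩ := TL.exists_inv
  set g : Cn (m + r) → ℂ := fun ζ => X.C.s ζ V.u with hg
  set Z : Cn (m + r) → Cn m := zm r V.DL.i₀ V.e g with hZ
  have h0 : (0 : Cn (m + r)) ∈ ball (0 : Cn (m + r)) X.r := mem_ball_self X.r_pos
  have hgan : AnalyticAt ℂ g 0 := X.analA V.u 0 h0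
  have hZan : AnalyticAt ℂ Z 0 := analyticAt_zm _ _ _ hgan
  have hZ0 : Z 0 = 0 := zm_zero _ _ _ V.e_ne
  have hZt : Tendsto Z (𝓝 0) (𝓝 0) := by
    have := hZan.continuousAt.tendsto
    rwa [hZ0] at this
  have hGan : AnalyticAt ℂ (fun ζ => g ζ * H (Z ζ)) 0 := by
    refine hgan.mul (AnalyticAt.comp (g := H) (f := Z) ?_ hZan)
    rw [hZ0]; exact hHan
  have hG0 : g 0 * H (Z 0) ≠ 0 := by
    rw [hZ0]
    refine mul_ne_zero ?_ hH0
    change X.C.s 0 V.u ≠ 0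
    rw [X.C.s_zero]; exact hXu
  -- shrink `X`
  obtain ⟨ρ₁, hρ₁, hball⟩ := Metric.eventually_nhds_iff_ball.1
    (hGan.eventually_analyticAt.and (hZt.eventually hHinv))
  set r' := min ρ₀ ρ₁ with hr'def
  have hr' : 0 < r' := lt_min hρ₀ hρ₁
  have hle : r' ≤ X.r := (min_le_left _ _).trans hρ₀X
  have hGan' : AnalyticOnNhd ℂ (fun ζ => g ζ * H (Z ζ)) (ball 0 (X.shrink r' hr' hle).r) := by
    intro ζ hζ
    exact (hball ζ (ball_subset_ball (min_le_right _ _) hζ)).1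
  obtain ⟨T₀, hT₀⟩ := exists_rootS V.D.i₀ (X.shrink r' hr' hle).r_pos hGan' hG0 V.e V.e_ne
    (min ε (min 1 TL.ρ)) (lt_min hε (lt_min one_pos TL.ρ_pos))
  refine ⟨r', hr', hle, _, T₀, hT₀.trans (min_le_left _ _), fun ξ hξ => ?_⟩
  have hT1 : T₀.ρ ≤ 1 := (hT₀.trans (min_le_right _ _)).trans (min_le_left _ _)
  have hTL : T₀.ρ ≤ TL.ρ := (hT₀.trans (min_le_right _ _)).trans (min_le_right _ _)
  refine ⟨?_, fun hξ0 => ?_⟩
  · rw [mem_ball_zero_iff] at hξ ⊢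
    exact (norm_pe_lt _ _ V.e_ne T₀.ρ_pos hT1 ((norm_bs_le ξ).trans_lt hξ)).trans_le hTL
  · have hmaps : T₀.Ξ ξ ∈ ball (0 : Cn (m + r)) r' := T₀.maps hξ
    have hζ₀ : T₀.Ξ ξ ∈ ball (0 : Cn (m + r)) ρ₀ := ball_subset_ball (min_le_left _ _) hmaps
    have hζ₁ : T₀.Ξ ξ ∈ ball (0 : Cn (m + r)) ρ₁ := ball_subset_ball (min_le_right _ _) hmaps
    have hζ0 : T₀.Ξ ξ V.D.i₀ ≠ 0 := by
      rw [T₀.eq ξ hξ]
      exact mul_ne_zero hξ0 (T₀.ne ξ hξ)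
    obtain ⟨-, -, -, k4⟩ := hbase (T₀.Ξ ξ) hζ₀
    obtain ⟨-, k5⟩ := k4 hζ0
    obtain ⟨-, k6⟩ := (hball (T₀.Ξ ξ) hζ₁).2
    rw [k5]
    congr 1
    -- `TL.Ξ (pe (bs ξ)) = Z (T₀.Ξ ξ)`
    have h1 : pe V.DL.i₀ V.e (bs ξ) = th V.DL.i₀ H (Z (T₀.Ξ ξ)) := by
      funext i
      by_cases hi : i = V.DL.i₀
      · subst hi
        rw [pe_self, th_self]
        have h2 : Z (T₀.Ξ ξ) V.DL.i₀ = T₀.Ξ ξ (Fin.castAdd r V.DL.i₀) ^ V.e * g (T₀.Ξ ξ) :=
          zm_self _ _ _ _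
        rw [h2]
        have h3 := T₀.pow ξ hξ
        have e3 : ∀ v : Cn (m + r), v V.D.i₀ = v (Fin.castAdd r V.DL.i₀) := fun v => by
          rw [V.i₀_eq]
        rw [e3 (T₀.Ξ ξ), e3 ξ] at h3
        change ξ (Fin.castAdd r V.DL.i₀) ^ V.e = _
        rw [← h3]
        ring
      · rw [pe_of_ne _ _ _ hi, th_of_ne _ _ _ hi]
        have h2 : Z (T₀.Ξ ξ) i = T₀.Ξ ξ (Fin.castAdd r i) := zm_of_ne _ _ _ _ hi
        rw [h2, T₀.coord ξ hξ]
        · rfl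
        · rw [V.i₀_eq]
          intro h
          exact hi ((Fin.castAdd_injective m r) h)
    rw [h1]
    exact k6.symm

end step

end Crest.Agent.R276.BR_590
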