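import Mathlib
import Crest.Agent.R276.BR7_590

/-!
Row 276, leaf BC-REL (helper590), part 8: Jacobians of relative charts over ANY analytic chart of
the base, comparison of charts.
-/

set_option autoImplicit false

open scoped Topology BigOperators ENNReal ContDiff
open Set Metric MeasureTheory Filter

noncomputable section

namespace Crest.Agent.R276.BR_590

open Crest.Agent.R271.Defs710 Crest.Agent.R271.Bd741 Crest.Agent.R276.BC_986
open Crest.Agent.R271.Rd692 (Pt pr)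

section jac

variable {m r : ℕ} {BL BK : Type} [CommRing BL] [Algebra ℂ BL] [CommRing BK] [Algebra ℂ BK]
  {i₀ : Fin (m + r)} {j : BL →ₐ[ℂ] BK}

/-- **base Jacobian**, vertical case: the relative chart `X` lies over the analytic chart `Y` of the
base by `ξ ↦ (ξ₁, …, ξ_i^e, …, ξ_m)` -/
theorem Jbs_vert (X : RCh m r i₀ j) {i₁ : Fin m} (hi : i₀ = Fin.castAdd r i₁) (e : ℕ)
    (Y : ACh m i₁ BL) (hV : ∀ ξ ∈ X.V, pe i₁ e (bs ξ) ∈ Y.V)
    (hs : ∀ ξ ∈ X.V, X.sL (bs ξ) = Y.s (pe i₁ e (bs ξ))) (zL : Fin m → BL)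
    {ξ : Cn (m + r)} (hξ : ξ ∈ X.V) :
    X.Jbs zL ξ = (fderiv ℂ (Y.ψ zL) (pe i₁ e (bs ξ))).det * ((e : ℂ) * ξ i₀ ^ (e - 1)) := by
  have han := Y.analyticAt_ψ zL (hV ξ hξ)
  have hbs : HasFDerivAt (fun ξ : Cn (m + r) => bs ξ)
      (ContinuousLinearMap.pi fun i => ContinuousLinearMap.proj (Fin.castAdd r i)) ξ :=
    (ContinuousLinearMap.pi (R := ℂ) (φ := fun _ : Fin m => ℂ)
      fun i : Fin m => (ContinuousLinearMap.proj (Fin.castAdd r i) : Cn (m + r) →L[ℂ] ℂ)).hasFDerivAt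
  have hcomp : ∀ k : Fin m, HasFDerivAt (fun ξ => X.s ξ (j (zL k)))
      ((((ContinuousLinearMap.proj k : Cn m →L[ℂ] ℂ).comp
        (fderiv ℂ (Y.ψ zL) (pe i₁ e (bs ξ)))).comp
        (ContinuousLinearMap.pi fun k => (if k = i₁ then
          ((e : ℂ) * bs ξ k ^ (e - 1)) else 1) •
          (ContinuousLinearMap.proj k : Cn m →L[ℂ] ℂ))).comp
        (ContinuousLinearMap.pi fun i => ContinuousLinearMap.proj (Fin.castAdd r i))) ξ := by
    intro k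
    have h1 : HasFDerivAt (fun a : Cn m => Y.ψ zL a k)
        ((ContinuousLinearMap.proj k : Cn m →L[ℂ] ℂ).comp
        (fderiv ℂ (Y.ψ zL) (pe i₁ e (bs ξ)))) (pe i₁ e (bs ξ)) :=
      (hasFDerivAt_pi'.1 han.differentiableAt.hasFDerivAt) k
    have h2 := (h1.comp (bs ξ) (hasFDerivAt_pe i₁ e (bs ξ))).comp ξ hbs
    refine h2.congr_of_eventuallyEq ?_
    filter_upwards [X.toACh.isOpen_V.mem_nhds hξ] with ξ' hξ'
    have h3 := X.fib' hξ' (zL k)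
    rw [h3, hs ξ' hξ']
    rfl
  have hmat : (Matrix.of fun k l : Fin m => fderiv ℂ (fun ξ => X.s ξ (j (zL k))) ξ
      (Pi.single (Fin.castAdd r l) 1)) =
      (Matrix.of fun k l => fderiv ℂ (Y.ψ zL) (pe i₁ e (bs ξ)) (Pi.single l 1) k) *
      Matrix.diagonal fun l => if l = i₁ then ((e : ℂ) * bs ξ l ^ (e - 1)) else 1 := by
    ext k l
    rw [Matrix.mul_diagonal, Matrix.of_apply, Matrix.of_apply, (hcomp k).fderiv]
    simp only [ContinuousLinearMap.comp_apply, ContinuousLinearMap.proj_apply]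
    have e1 : (ContinuousLinearMap.pi fun i => ContinuousLinearMap.proj (Fin.castAdd r i) :
        Cn (m + r) →L[ℂ] Cn m) (Pi.single (Fin.castAdd r l) 1) = Pi.single l 1 := by
      funext i
      simp only [ContinuousLinearMap.coe_pi', ContinuousLinearMap.proj_apply]
      by_cases h : i = l
      · subst h; simp
      · rw [Pi.single_eq_of_ne h, Pi.single_eq_of_ne]
        intro h'
        exact h ((Fin.castAdd_injective m r) h')
    rw [e1]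
    have e2 : (ContinuousLinearMap.pi fun k => (if k = i₁ then
          ((e : ℂ) * bs ξ k ^ (e - 1)) else 1) •
          (ContinuousLinearMap.proj k : Cn m →L[ℂ] ℂ)) (Pi.single l 1) =
        (if l = i₁ then ((e : ℂ) * bs ξ l ^ (e - 1)) else 1) •
          (Pi.single l 1 : Cn m) := by
      funext i
      change (if i = i₁ then ((e : ℂ) * bs ξ i ^ (e - 1)) else 1) •
        ((Pi.single l (1 : ℂ) : Cn m) i) = _
      by_cases h : i = l
      · subst h; simp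
      · simp [Pi.single_eq_of_ne h]
    rw [e2, map_smul, Pi.smul_apply, smul_eq_mul, mul_comm]
  unfold RCh.Jbs
  rw [hmat, Matrix.det_mul, ← det_eq_matrix, Matrix.det_diagonal]
  congr 1
  rw [Finset.prod_ite_eq' Finset.univ i₁ (fun l => (e : ℂ) * bs ξ l ^ (e - 1))]
  simp only [Finset.mem_univ, if_true]
  rw [hi]
  rfl

/-- **the fibre Jacobian**, vertical case -/
theorem Jrel_vert (X : RCh m r i₀ j) {i₁ : Fin m} (hi : i₀ = Fin.castAdd r i₁) {e : ℕ}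
    (he : e ≠ 0) (hρ1 : X.ρ ≤ 1) (Y : ACh m i₁ BL) (hρ : X.ρ ≤ Y.ρ)
    (hs : ∀ ξ ∈ X.V, X.sL (bs ξ) = Y.s (pe i₁ e (bs ξ))) (zL : Fin m → BL) (xt : Fin r → BK)
    {cL : ℤ} {JL : Cn m → ℂ} (hJL : Y.JacA zL cL JL) {c : ℤ} {JK : Cn (m + r) → ℂ}
    (hJK : X.toACh.JacA (Fin.append (fun i => j (zL i)) xt) c JK) :
    ∃ J : Cn (m + r) → ℂ, AnalyticOnNhd ℂ J (ball 0 X.ρ) ∧ (∀ ξ ∈ ball 0 X.ρ, J ξ ≠ 0) ∧
      ∀ ξ ∈ X.V, X.Jrel xt ξ = ξ i₀ ^ (c - e * cL - (e - 1)) * J ξ := by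
  have hmaps : ∀ ξ ∈ ball (0 : Cn (m + r)) X.ρ, pe i₁ e (bs ξ) ∈ ball 0 Y.ρ := by
    intro ξ h1
    rw [mem_ball_zero_iff] at h1 ⊢
    exact (norm_pe_lt _ _ he X.ρ_pos hρ1 ((norm_bs_le ξ).trans_lt h1)).trans_le hρ
  have hV : ∀ ξ ∈ X.V, pe i₁ e (bs ξ) ∈ Y.V := by
    intro ξ hξ
    refine ⟨hmaps ξ hξ.1, ?_⟩
    change pe i₁ e (bs ξ) i₁ ≠ 0
    rw [pe_self]
    refine pow_ne_zero _ ?_
    have h2 : ξ i₀ ≠ 0 := hξ.2
    rw [hi] at h2
    exact h2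
  have hGBan : ∀ ξ ∈ ball (0 : Cn (m + r)) X.ρ,
      AnalyticAt ℂ (fun ξ => JL (pe i₁ e (bs ξ))) ξ := by
    intro ξ hξ
    have h1 : AnalyticAt ℂ (fun ξ : Cn (m + r) => bs ξ) ξ :=
      (ContinuousLinearMap.pi (R := ℂ) (φ := fun _ : Fin m => ℂ)
        fun i : Fin m => (ContinuousLinearMap.proj (Fin.castAdd r i) : Cn (m + r) →L[ℂ] ℂ)).analyticAt ξ
    have h2 : AnalyticAt ℂ (fun ξ : Cn (m + r) => pe i₁ e (bs ξ)) ξ :=
      AnalyticAt.comp (g := pe i₁ e) (analyticAt_pe _ _ _) h1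
    exact AnalyticAt.comp (g := JL) (f := fun ξ : Cn (m + r) => pe i₁ e (bs ξ))
      (hJL.an _ (hmaps ξ hξ)) h2
  have heC : (e : ℂ) ≠ 0 := by exact_mod_cast he
  refine ⟨fun ξ => JK ξ / ((e : ℂ) * JL (pe i₁ e (bs ξ))), fun ξ hξ => ?_, fun ξ hξ => ?_,
    fun ξ hξ => ?_⟩
  · exact (hJK.an ξ hξ).div (analyticAt_const.mul (hGBan ξ hξ))
      (mul_ne_zero heC (hJL.ne _ (hmaps ξ hξ)))
  · exact div_ne_zero (hJK.ne ξ hξ) (mul_ne_zero heC (hJL.ne _ (hmaps ξ hξ)))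
  · have h1 := X.det_block zL xt hξ
    rw [hJK.eq ξ hξ, Jbs_vert X hi e Y hV hs zL hξ, hJL.eq _ (hV ξ hξ), pe_self] at h1
    have hξ0 : ξ i₀ ≠ 0 := hξ.2
    have hbsi : bs ξ i₁ = ξ i₀ := by rw [hi]; rfl
    rw [hbsi] at h1
    have hGB := hJL.ne _ (hmaps ξ hξ.1)
    have he1 : ((e : ℤ) - 1) = ((e - 1 : ℕ) : ℤ) := by
      have := Nat.one_le_iff_ne_zero.2 he
      push_cast [Nat.cast_sub this]; ring
    have e2 : ξ i₀ ^ c = ξ i₀ ^ (c - e * cL - (e - 1)) *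
        ((ξ i₀ ^ e) ^ cL * ξ i₀ ^ (e - 1)) := by
      rw [he1, ← zpow_natCast (ξ i₀) (e - 1), ← zpow_natCast (ξ i₀) e, ← zpow_mul,
        ← zpow_add₀ hξ0, ← zpow_add₀ hξ0]
      congr 1
      ring
    have h3 : ξ i₀ ^ e ≠ 0 := pow_ne_zero _ hξ0
    have h4 : (ξ i₀ ^ e) ^ cL ≠ 0 := zpow_ne_zero _ h3
    have h5 : ξ i₀ ^ (e - 1) ≠ 0 := pow_ne_zero _ hξ0
    rw [e2] at h1
    set Q := ξ i₀ ^ (c - e * cL - (e - 1)) with hQ
    have h6 : Q * JK ξ * ((ξ i₀ ^ e) ^ cL * ξ i₀ ^ (e - 1)) =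
        X.Jrel xt ξ * (e * JL (pe i₁ e (bs ξ))) *
          ((ξ i₀ ^ e) ^ cL * ξ i₀ ^ (e - 1)) := by
      linear_combination h1
    have h7 := mul_right_cancel₀ (mul_ne_zero h4 h5) h6
    rw [← mul_div_assoc, eq_div_iff (mul_ne_zero heC hGB), h7]

/-- base Jacobian in the horizontal case, `C` a chart of the base (without divisor) for the
coordinates `zL` -/
theorem Jbs_hor (X : RCh m r i₀ j) (zL : Fin m → BL) {y : BL →ₐ[ℂ] ℂ} (C : Chart zL y)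
    (hρ : X.ρ ≤ C.r) (hs : ∀ ξ ∈ X.V, X.sL (bs ξ) = C.s (bs ξ)) {ξ : Cn (m + r)} (hξ : ξ ∈ X.V) :
    X.Jbs zL ξ = 1 := by
  have h1 : ∀ k : Fin m, (fun ξ => X.s ξ (j (zL k))) =ᶠ[𝓝 ξ]
      fun ξ => y (zL k) + ξ (Fin.castAdd r k) := by
    intro k
    filter_upwards [X.toACh.isOpen_V.mem_nhds hξ] with ξ' hξ'
    have h3 := X.fib' hξ' (zL k)
    rw [h3, hs ξ' hξ']
    have hb : bs ξ' ∈ ball (0 : Cn m) C.r := by
      have h4 : ξ' ∈ ball (0 : Cn (m + r)) X.ρ := hξ'.1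
      rw [mem_ball_zero_iff] at h4 ⊢
      exact ((norm_bs_le ξ').trans_lt h4).trans_le hρ
    exact C.s_z _ hb k
  have h2 : ∀ k : Fin m, fderiv ℂ (fun ξ => X.s ξ (j (zL k))) ξ =
      (ContinuousLinearMap.proj (Fin.castAdd r k) : Cn (m + r) →L[ℂ] ℂ) := by
    intro k
    rw [(h1 k).fderiv_eq, fderiv_const_add]
    exact (ContinuousLinearMap.proj (R := ℂ) (φ := fun _ : Fin (m + r) => ℂ)
      (Fin.castAdd r k)).fderiv
  unfold RCh.Jbs
  have h3 : (Matrix.of fun k l : Fin m => fderiv ℂ (fun ξ => X.s ξ (j (zL k))) ξ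
      (Pi.single (Fin.castAdd r l) 1)) = 1 := by
    ext k l
    rw [Matrix.of_apply, h2 k, ContinuousLinearMap.proj_apply]
    by_cases h : k = l
    · subst h; simp
    · rw [Matrix.one_apply_ne h, Pi.single_eq_of_ne]
      intro h'
      exact h ((Fin.castAdd_injective m r) h')
  rw [h3, Matrix.det_one]

/-- the fibre Jacobian in the horizontal case is the Jacobian -/
theorem Jrel_hor (X : RCh m r i₀ j) (zL : Fin m → BL) {y : BL →ₐ[ℂ] ℂ} (C : Chart zL y)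
    (hρ : X.ρ ≤ C.r) (hs : ∀ ξ ∈ X.V, X.sL (bs ξ) = C.s (bs ξ)) (xt : Fin r → BK)
    {ξ : Cn (m + r)} (hξ : ξ ∈ X.V) : X.Jrel xt ξ =
      (fderiv ℂ (X.toACh.ψ (Fin.append (fun i => j (zL i)) xt)) ξ).det := by
  rw [X.det_block zL xt hξ, Jbs_hor X zL C hρ hs hξ, one_mul]

end jac

section compare

variable {n : ℕ} {K : Type} [Field K] [Algebra ℂ K] {D : DivModel n K} {B : Type} [CommRing B]
  [Algebra ℂ B] [Algebra B K]

/-- a small algebraic chart is contained in the chart with the root coordinate; the Jacobians are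
comparable -/
theorem exists_small (X : BChart D B) {G : Cn n → ℂ} {e : ℕ} (T : Root D.i₀ X.r G e)
    (z : Fin n → B) {δ : ℝ} (hδ : 0 < δ) (hδT : δ < T.ρ) : ∃ (ρ : ℝ) (C : ℝ), 0 < ρ ∧ ρ ≤ X.r ∧
      ∀ ζ ∈ ball (0 : Cn n) ρ, ζ D.i₀ ≠ 0 → ∃ η ∈ ball (0 : Cn n) δ, η D.i₀ ≠ 0 ∧
        T.Ξ η = ζ ∧
        ‖(fderiv ℂ (X.ψ z) ζ).det‖ ≤ C * ‖(fderiv ℂ ((ofRoot X T).ψ z) η).det‖ := by
  obtain ⟨H, hHan, hH0, hHinv⟩ := T.exists_inv
  have h1 : Tendsto (th D.i₀ H) (𝓝 0) (𝓝 0) := by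
    have := (analyticAt_th D.i₀ H hHan).continuousAt.tendsto
    rwa [th_zero] at this
  -- lower bound for the Jacobian of `Ξ`
  have hsub : closedBall (0 : Cn n) δ ⊆ ball (0 : Cn n) T.ρ := closedBall_subset_ball hδT
  have hc : ContinuousOn (fun ξ => ‖(fderiv ℂ T.Ξ ξ).det‖) (closedBall (0 : Cn n) δ) :=
    fun ξ hξ => (analyticAt_det_fderiv (T.an ξ (hsub hξ))).continuousAt.norm.continuousWithinAt
  obtain ⟨ξ₀, hξ₀, hmin⟩ := (isCompact_closedBall (0 : Cn n) δ).exists_isMinOn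
    ⟨0, mem_closedBall_self hδ.le⟩ hc
  have hm : 0 < ‖(fderiv ℂ T.Ξ ξ₀).det‖ := norm_pos_iff.2 (T.det ξ₀ (hsub hξ₀))
  obtain ⟨ρ₁, hρ₁, hball⟩ := Metric.eventually_nhds_iff_ball.1
    (hHinv.and ((h1.eventually (ball_mem_nhds 0 hδ)).and
      (hHan.continuousAt.eventually_ne hH0)))
  refine ⟨min ρ₁ X.r, ‖(fderiv ℂ T.Ξ ξ₀).det‖⁻¹, lt_min hρ₁ X.r_pos, min_le_right _ _,
    fun ζ hζ hζ0 => ?_⟩
  obtain ⟨⟨k1, k2⟩, k3, k4⟩ := hball ζ (ball_subset_ball (min_le_left _ _) hζ)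
  have hη0 : th D.i₀ H ζ D.i₀ ≠ 0 := by
    rw [th_self]
    exact mul_ne_zero hζ0 k4
  refine ⟨th D.i₀ H ζ, k3, hη0, k2, ?_⟩
  have hV := root_mem_V X T k1 hη0
  have h2 : fderiv ℂ ((ofRoot X T).ψ z) (th D.i₀ H ζ) =
      (fderiv ℂ (X.ψ z) (T.Ξ (th D.i₀ H ζ))).comp (fderiv ℂ T.Ξ (th D.i₀ H ζ)) :=
    fderiv_comp _ (X.analyticAt_ψ z hV).differentiableAt (T.an _ k1).differentiableAt
  have h3 : (fderiv ℂ ((ofRoot X T).ψ z) (th D.i₀ H ζ)).det =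
      (fderiv ℂ (X.ψ z) ζ).det * (fderiv ℂ T.Ξ (th D.i₀ H ζ)).det := by
    rw [h2, k2]
    exact LinearMap.det_comp _ _
  rw [h3, norm_mul]
  have h4 : ‖(fderiv ℂ T.Ξ ξ₀).det‖ ≤ ‖(fderiv ℂ T.Ξ (th D.i₀ H ζ)).det‖ :=
    hmin (ball_subset_closedBall k3)
  rw [mul_comm, mul_assoc]
  nth_rewrite 1 [← mul_one ‖(fderiv ℂ (X.ψ z) ζ).det‖]
  refine mul_le_mul_of_nonneg_left ?_ (norm_nonneg _)
  rw [← div_eq_mul_inv, one_le_div hm]
  exact h4

end compare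

/-! ### horizontal charts -/

/-- algebraic data at a divisorial valuation of `K` whose valuation ring contains `L`; `BL` is the
ring of an étale chart of `L` with coordinates `zL` -/
structure HData (m r : ℕ) (L K : Type) [Field L] [Algebra ℂ L] [Field K] [Algebra ℂ K]
    [Algebra L K] (BL : Type) [CommRing BL] [Algebra ℂ BL] [Algebra BL L] (zL : Fin m → BL) where
  D : DivModel (m + r) K
  ι : BL →ₐ[ℂ] D.A
  ι_K : ∀ a, algebraMap D.A K (ι a) = algebraMap L K (algebraMap BL L a)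
  k₀ : Fin r
  i₀_eq : D.i₀ = Fin.natAdd m k₀
  base : ∀ i, D.w (Fin.castAdd r i) = ι (zL i)

section hor

variable {m r : ℕ} {L K : Type} [Field L] [Algebra ℂ L] [Field K] [Algebra ℂ K]
    [Algebra L K] {BL : Type} [CommRing BL] [Algebra ℂ BL] [Algebra BL L] {zL : Fin m → BL}
    (V : HData m r L K BL zL) {BK : Type} [CommRing BK] [Algebra ℂ BK] [Algebra BK K]

/-- the base point of the points of a boundary chart, horizontal case -/
theorem hbase (j : BL →ₐ[ℂ] BK)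
    (hj : ∀ b : BL, algebraMap BK K (j b) = algebraMap L K (algebraMap BL L b))
    (X : BChart V.D BK) (C : Chart zL (X.y.comp V.ι)) : ∃ ρ : ℝ, 0 < ρ ∧ ρ ≤ X.r ∧ ρ ≤ C.r ∧
      ∀ ζ ∈ ball (0 : Cn (m + r)) ρ, (X.C.s ζ).comp V.ι = C.s (bs ζ) ∧
      (ζ V.D.i₀ ≠ 0 → (X.s ζ).comp j = C.s (bs ζ)) := by
  classical
  obtain ⟨S, δ, hδ, hS⟩ := C.surj
  have h0 : (0 : Cn (m + r)) ∈ ball (0 : Cn (m + r)) X.r := mem_ball_self X.r_pos
  have hcont : ∀ b : V.D.A, ContinuousAt (fun ζ => X.C.s ζ b) 0 := fun b =>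
    (X.analA b 0 h0).continuousAt
  have hval0 : ∀ b : BL, X.C.s 0 (V.ι b) = X.y.comp V.ι b := by
    intro b
    rw [X.C.s_zero]; rfl
  have hev1 : ∀ᶠ ζ in 𝓝 (0 : Cn (m + r)), ∀ b ∈ S, ‖X.C.s ζ (V.ι b) - X.y.comp V.ι b‖ < δ := by
    rw [Filter.eventually_all_finset]
    intro b _
    have h1 : ContinuousAt (fun ζ => ‖X.C.s ζ (V.ι b) - X.y.comp V.ι b‖) 0 :=
      ((hcont (V.ι b)).sub continuousAt_const).norm
    refine h1.eventually (gt_mem_nhds ?_)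
    simp only [hval0, sub_self, norm_zero]
    exact hδ
  obtain ⟨ρ₁, hρ₁, hball⟩ := Metric.eventually_nhds_iff_ball.1 hev1
  refine ⟨min ρ₁ (min X.r C.r), lt_min hρ₁ (lt_min X.r_pos C.r_pos),
    (min_le_right _ _).trans (min_le_left _ _), (min_le_right _ _).trans (min_le_right _ _),
    fun ζ hζ => ?_⟩
  have k1 := hball ζ (ball_subset_ball (min_le_left _ _) hζ)
  have hζX : ζ ∈ ball (0 : Cn (m + r)) X.r :=
    ball_subset_ball ((min_le_right _ _).trans (min_le_left _ _)) hζ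
  have hpt : (X.C.s ζ).comp V.ι = C.s (bs ζ) := by
    have h1 := hS ((X.C.s ζ).comp V.ι) k1
    rw [h1]
    congr 1
    funext i
    change X.C.s ζ (V.ι (zL i)) - X.y (V.ι (zL i)) = _
    rw [← V.base i, X.s_w hζX, add_sub_cancel_left]
    rfl
  refine ⟨hpt, fun hζ0 => ?_⟩
  apply AlgHom.ext
  intro b
  have h1 : IsVal (X.C.s ζ) (algebraMap BK K (j b)) (X.s ζ (j b)) := X.isVal_s ⟨hζX, hζ0⟩ (j b)
  have h2 : IsVal (X.C.s ζ) (algebraMap BK K (j b)) (C.s (bs ζ) b) := by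
    rw [hj, ← V.ι_K, ← hpt]
    exact isVal_algebraMap (V.ι b)
  exact h1.unique V.D.inj h2

/-- charts of two étale rings -/
theorem chart_comp {ρ' a : ℕ} {BT BL : Type} [CommRing BT] [Algebra ℂ BT] [CommRing BL]
    [Algebra ℂ BL] (j : BT →ₐ[ℂ] BL) {zT : Fin ρ' → BT} {zL : Fin (ρ' + a) → BL}
    (hz : ∀ i, zL (Fin.castAdd a i) = j (zT i)) {y : BL →ₐ[ℂ] ℂ} (C : Chart zL y)
    (CT : Chart zT (y.comp j)) : ∃ ρ : ℝ, 0 < ρ ∧ ρ ≤ C.r ∧ ρ ≤ CT.r ∧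
      ∀ ζ ∈ ball (0 : Cn (ρ' + a)) ρ, (C.s ζ).comp j = CT.s (bs ζ) := by
  classical
  obtain ⟨S, δ, hδ, hS⟩ := CT.surj
  have h0 : (0 : Cn (ρ' + a)) ∈ ball (0 : Cn (ρ' + a)) C.r := mem_ball_self C.r_pos
  have hval0 : ∀ b : BT, C.s 0 (j b) = y.comp j b := by
    intro b
    rw [C.s_zero]; rfl
  have hev1 : ∀ᶠ ζ in 𝓝 (0 : Cn (ρ' + a)), ∀ b ∈ S, ‖C.s ζ (j b) - y.comp j b‖ < δ := by
    rw [Filter.eventually_all_finset]
    intro b _
    have h1 : ContinuousAt (fun ζ => ‖C.s ζ (j b) - y.comp j b‖) 0 :=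
      ((C.anal (j b) 0 h0).continuousAt.sub continuousAt_const).norm
    refine h1.eventually (gt_mem_nhds ?_)
    simp only [hval0, sub_self, norm_zero]
    exact hδ
  obtain ⟨ρ₁, hρ₁, hball⟩ := Metric.eventually_nhds_iff_ball.1 hev1
  refine ⟨min ρ₁ (min C.r CT.r), lt_min hρ₁ (lt_min C.r_pos CT.r_pos),
    (min_le_right _ _).trans (min_le_left _ _), (min_le_right _ _).trans (min_le_right _ _),
    fun ζ hζ => ?_⟩
  have k1 := hball ζ (ball_subset_ball (min_le_left _ _) hζ)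
  have hζX : ζ ∈ ball (0 : Cn (ρ' + a)) C.r :=
    ball_subset_ball ((min_le_right _ _).trans (min_le_left _ _)) hζ
  have h1 := hS ((C.s ζ).comp j) k1
  rw [h1]
  congr 1
  funext i
  change C.s ζ (j (zT i)) - y (j (zT i)) = _
  rw [← hz i, C.s_z ζ hζX, add_sub_cancel_left]
  rfl

end hor

end Crest.Agent.R276.BR_590
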