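import Mathlib
import Crest.Agent.R276.BR5_590
import Crest.Agent.R276.BR8_590

/-!
Row 276, leaf BC-REL (helper590), part 9: existence of the relative algebraic data.

`exists_vext` : from divisorial models `DL`, `D` with shared coordinates (858's R0-V) to a vertical
                datum over `DL` (`D.A` is enlarged to contain `DL.A`);
`exists_hdata`: the same for `R ⊇ L`.
-/

set_option autoImplicit false

open scoped Topology BigOperators ENNReal ContDiff
open Set Metric MeasureTheory Filter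

noncomputable section

namespace Crest.Agent.R276.BR_590

open Crest.Agent.R271.Defs710 Crest.Agent.R271.Bd741 Crest.Agent.R276.BC_986

/-- a vertical datum over a given divisorial model of `L` -/
structure VExt {m : ℕ} {L : Type} [Field L] [Algebra ℂ L] (DL : DivModel m L) (r : ℕ) (K : Type)
    [Field K] [Algebra ℂ K] [Algebra L K] where
  D : DivModel (m + r) K
  ι : DL.A →ₐ[ℂ] D.A
  ι_K : ∀ a, algebraMap D.A K (ι a) = algebraMap L K (algebraMap DL.A L a)
  i₀_eq : D.i₀ = Fin.castAdd r DL.i₀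
  base : ∀ i, i ≠ DL.i₀ → D.w (Fin.castAdd r i) = ι (DL.w i)
  e : ℕ
  e_ne : e ≠ 0
  u : D.A
  u_nd : ¬ D.t ∣ u
  ram : ι DL.t = D.t ^ e * u
  lies : ∀ a : DL.A, D.t ∣ ι a → DL.t ∣ a

/-- the vertical datum -/
def VExt.V {m : ℕ} {L : Type} [Field L] [Algebra ℂ L] {DL : DivModel m L} {r : ℕ} {K : Type}
    [Field K] [Algebra ℂ K] [Algebra L K] (E : VExt DL r K) : VData m r L K where
  DL := DL
  D := E.D
  ι := E.ι
  ι_K := E.ι_K
  i₀_eq := E.i₀_eq
  base := E.base
  e := E.e
  e_ne := E.e_ne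
  u := E.u
  u_nd := E.u_nd
  ram := E.ram
  lies := E.lies

section exist

variable {m r : ℕ} {L K : Type} [Field L] [Algebra ℂ L] [Field K] [Algebra ℂ K]
  [Algebra L K] [IsScalarTower ℂ L K]

/-- **vertical data**: `D.A` is enlarged to contain `DL.A` -/
theorem exists_vext {R : ValuationSubring K} (DL : DivModel m L) (D : DivModel (m + r) K)
    (hDL : DL.ModelOf (R.comap (algebraMap L K))) (hD : D.ModelOf R)
    (hi : D.i₀ = Fin.castAdd r DL.i₀)
    (hw : ∀ i, i ≠ DL.i₀ → algebraMap D.A K (D.w (Fin.castAdd r i)) =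
      algebraMap L K (algebraMap DL.A L (DL.w i))) {e : ℕ} (he : 0 < e) {u : K}
    (hu : R.valuation u = 1)
    (hram : algebraMap L K (algebraMap DL.A L DL.t) = (algebraMap D.A K D.t) ^ e * u) :
    ∃ (E : VExt DL r K) (g : D.A) (φ : D.A →ₐ[ℂ] E.D.A), ¬ D.t ∣ g ∧ IsAway D E.D φ g ∧
      E.D.ModelOf R ∧ E.e = e := by
  classical
  -- a ring of finite type which contains `DL.A`, `u`
  let i₁ : DL.A →ₐ[ℂ] K := (IsScalarTower.toAlgHom ℂ L K).comp (IsScalarTower.toAlgHom ℂ DL.A L)
  have hi₁ : ∀ a, i₁ a = algebraMap L K (algebraMap DL.A L a) := fun _ => rfl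
  let A₀ : Subalgebra ℂ K := i₁.range ⊔ Algebra.adjoin ℂ {u}
  have hfg1 : i₁.range.FG := by
    have h1 : (⊤ : Subalgebra ℂ DL.A).FG := DL.ft.out
    have h2 := h1.map i₁
    rwa [Algebra.map_top] at h2
  have hfg2 : (Algebra.adjoin ℂ ({u} : Set K)).FG :=
    ⟨{u}, by simp⟩
  have hfg : A₀.FG := hfg1.sup hfg2
  have hft : Algebra.FiniteType ℂ A₀ := (Subalgebra.fg_iff_finiteType A₀).1 hfg
  have hcR : ∀ c : ℂ, algebraMap ℂ K c ∈ R := by
    intro c
    rw [IsScalarTower.algebraMap_apply ℂ D.A K]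
    exact hD.mem _
  let RS : Subalgebra ℂ K :=
    { carrier := R
      mul_mem' := fun ha hb => R.mul_mem _ _ ha hb
      one_mem' := R.one_mem
      add_mem' := fun ha hb => R.add_mem _ _ ha hb
      zero_mem' := R.zero_mem
      algebraMap_mem' := hcR }
  have hleR : A₀ ≤ RS := by
    refine sup_le ?_ ?_
    · rintro _ ⟨a, rfl⟩
      change i₁ a ∈ R
      rw [hi₁]
      exact hDL.mem a
    · rw [Algebra.adjoin_le_iff]
      intro x hx
      rw [Set.mem_singleton_iff] at hx
      rw [hx]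
      change u ∈ R
      rw [← R.valuation_le_one_iff, hu]
  obtain ⟨g, D', φ, ι', hg, hA, hι'⟩ := exists_contain hD A₀ hft (fun a => hleR a.2)
  have hD' := hA.modelOf hD
  have hmem1 : ∀ a : DL.A, i₁ a ∈ A₀ := fun a =>
    (le_sup_left : i₁.range ≤ A₀) ⟨a, rfl⟩
  have hmem2 : u ∈ A₀ := (le_sup_right : Algebra.adjoin ℂ ({u} : Set K) ≤ A₀)
    (Algebra.subset_adjoin (Set.mem_singleton u))
  let ι : DL.A →ₐ[ℂ] D'.A := ι'.comp (i₁.codRestrict A₀ hmem1)
  let u' : D'.A := ι' ⟨u, hmem2⟩
  have hιK : ∀ a, algebraMap D'.A K (ι a) = algebraMap L K (algebraMap DL.A L a) := by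
    intro a
    exact hι' ⟨i₁ a, hmem1 a⟩
  have huK : algebraMap D'.A K u' = u := hι' ⟨u, hmem2⟩
  have ht : algebraMap D'.A K D'.t = algebraMap D.A K D.t := by rw [hA.t_eq, hA.map]
  refine ⟨⟨D', ι, hιK, hA.i₀.trans hi, ?_, e, he.ne', u', ?_, ?_, ?_⟩, g, φ, hg, hA, hD', rfl⟩
  · intro i hi'
    apply D'.inj
    rw [hA.w, hA.map, hw i hi', hιK]
  · intro hd
    obtain ⟨c, hc⟩ := hd
    have h1 := congrArg (fun x => R.valuation (algebraMap D'.A K x)) hc
    simp only [huK, hu, map_mul] at h1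
    have h2 := hD'.val_le_one c
    have h3 := hD'.lt
    have h4 : R.valuation (algebraMap D'.A K D'.t) * R.valuation (algebraMap D'.A K c) < 1 :=
      lt_of_le_of_lt (mul_le_of_le_one_right' h2) h3
    rw [← h1] at h4
    exact lt_irrefl _ h4
  · apply D'.inj
    rw [hιK, hram, map_mul, map_pow, ht, huK]
  · intro a ha
    by_contra hna
    have h1 := hDL.unit a hna
    -- both `a` and `a⁻¹` are in `R ∩ L`
    have h2 : (algebraMap DL.A L a)⁻¹ ∈ R.comap (algebraMap L K) := by
      rw [← ValuationSubring.valuation_le_one_iff, map_inv₀, h1, inv_one]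
    rw [ValuationSubring.mem_comap, map_inv₀] at h2
    obtain ⟨c, hc⟩ := ha
    have h3 := congrArg (fun x => R.valuation (algebraMap D'.A K x)) hc
    simp only [hιK, map_mul] at h3
    have h4 : R.valuation (algebraMap L K (algebraMap DL.A L a)) < 1 := by
      rw [h3]
      exact lt_of_le_of_lt (mul_le_of_le_one_right' (hD'.val_le_one c)) hD'.lt
    rw [← R.valuation_le_one_iff, map_inv₀] at h2
    have ha0 : algebraMap L K (algebraMap DL.A L a) ≠ 0 := by
      intro h0
      have h5 : algebraMap DL.A L a = 0 := (algebraMap L K).injective (by rw [h0, map_zero])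
      have h6 : a = 0 := DL.inj (by rw [h5, map_zero])
      exact hna (h6 ▸ dvd_zero _)
    have h5 : 0 < R.valuation (algebraMap L K (algebraMap DL.A L a)) := by
      rw [Valuation.pos_iff]; exact ha0
    have h6 := (inv_le_one₀ h5).1 h2
    exact absurd (lt_of_le_of_lt h6 h4) (lt_irrefl _)

/-- **horizontal data** -/
theorem exists_hdata {R : ValuationSubring K} (hL : ∀ c : L, algebraMap L K c ∈ R)
    {BL : Type} [CommRing BL] [Algebra ℂ BL] [Algebra BL L] [IsScalarTower ℂ BL L]
    (hft : Algebra.FiniteType ℂ BL) (zL : Fin m → BL) (D : DivModel (m + r) K)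
    (hD : D.ModelOf R) (k₀ : Fin r) (hi : D.i₀ = Fin.natAdd m k₀)
    (hw : ∀ i, algebraMap D.A K (D.w (Fin.castAdd r i)) =
      algebraMap L K (algebraMap BL L (zL i))) :
    ∃ (E : HData m r L K BL zL) (g : D.A) (φ : D.A →ₐ[ℂ] E.D.A), ¬ D.t ∣ g ∧
      IsAway D E.D φ g ∧ E.D.ModelOf R := by
  classical
  let algBK : Algebra BL K := ((algebraMap L K).comp (algebraMap BL L)).toAlgebra
  have tow1 : IsScalarTower BL L K := IsScalarTower.of_algebraMap_eq fun _ => rfl
  have tow2 : IsScalarTower ℂ BL K := by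
    refine IsScalarTower.of_algebraMap_eq fun c => ?_
    rw [IsScalarTower.algebraMap_apply BL L K, ← IsScalarTower.algebraMap_apply ℂ BL L,
      ← IsScalarTower.algebraMap_apply ℂ L K]
  obtain ⟨g, D', φ, ι, hg, hA, hι⟩ := exists_contain hD BL hft (fun a => hL _)
  have hιK : ∀ a, algebraMap D'.A K (ι a) = algebraMap L K (algebraMap BL L a) := hι
  refine ⟨⟨D', ι, hιK, k₀, hA.i₀.trans hi, ?_⟩, g, φ, hg, hA, hA.modelOf hD⟩
  intro i
  apply D'.inj
  rw [hA.w, hA.map, hw i, hιK]

omit [IsScalarTower ℂ L K] in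
/-- nonzero elements of the base are units along a horizontal divisor -/
lemma HData.nd {BL : Type} [CommRing BL] [Algebra ℂ BL] [Algebra BL L]
    (hinj : Function.Injective (algebraMap BL L)) {zL : Fin m → BL}
    (E : HData m r L K BL zL) {R : ValuationSubring K} (hD : E.D.ModelOf R)
    (hL : ∀ c : L, algebraMap L K c ∈ R) {a : BL} (ha : a ≠ 0) : ¬ E.D.t ∣ E.ι a := by
  rintro ⟨c, hc⟩
  have h3 := congrArg (fun x => R.valuation (algebraMap E.D.A K x)) hc
  simp only [E.ι_K, map_mul] at h3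
  have h4 : R.valuation (algebraMap L K (algebraMap BL L a)) < 1 := by
    rw [h3]
    exact lt_of_le_of_lt (mul_le_of_le_one_right' (hD.val_le_one c)) hD.lt
  have ha0 : algebraMap L K (algebraMap BL L a) ≠ 0 := by
    intro h0
    have h5 : algebraMap BL L a = 0 := (algebraMap L K).injective (by rw [h0, map_zero])
    exact ha (hinj (by rw [h5, map_zero]))
  have h2 := hL (algebraMap BL L a)⁻¹
  rw [map_inv₀, ← R.valuation_le_one_iff, map_inv₀] at h2
  have h5 : 0 < R.valuation (algebraMap L K (algebraMap BL L a)) := by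
    rw [Valuation.pos_iff]; exact ha0
  have h6 := (inv_le_one₀ h5).1 h2
  exact absurd (lt_of_le_of_lt h6 h4) (lt_irrefl _)

end exist

end Crest.Agent.R276.BR_590
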