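import Mathlib

/-!
# R276, leaf BCQ (helper828), part A: continuation of sections of a local homeomorphism

`exists_sec`: if every section through `x₀` over a ball of radius `≤ ρ` has its values in a fixed
compact set then there is a section over the ball of radius `ρ`.
-/

set_option autoImplicit false
set_option linter.unusedSectionVars false

noncomputable section

open Set Filter Topology Metric

namespace Crest.Agent.R276.Bcq_828

variable {X E : Type*} [TopologicalSpace X] [NormedAddCommGroup E] [NormedSpace ℝ E]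

/-- `s` is a section of `p` over `S` -/
def IsSec (p : X → E) (S : Set E) (s : E → X) : Prop :=
  ContinuousOn s S ∧ ∀ w ∈ S, p (s w) = w

lemma IsSec.mono {p : X → E} {S T : Set E} {s : E → X} (h : IsSec p T s) (hST : S ⊆ T) :
    IsSec p S s := ⟨h.1.mono hST, fun w hw => h.2 w (hST hw)⟩

/-- sections over a preconnected set agree if they agree at a point -/
lemma IsSec.eqOn [T2Space X] {p : X → E} (hp : IsLocalHomeomorph p) {S : Set E}
    (hS : IsPreconnected S) {s t : E → X} (hs : IsSec p S s) (ht : IsSec p S t) {w₀ : E}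
    (hw₀ : w₀ ∈ S) (h : s w₀ = t w₀) : EqOn s t S := by
  refine (T2Space.isSeparatedMap p).eqOn_of_comp_eqOn hp.isLocallyInjective hS hs.1 ht.1 ?_ hw₀ h
  intro w hw
  simp only [Function.comp_apply]
  rw [hs.2 w hw, ht.2 w hw]

lemma exists_loc_sec {p : X → E} (hp : IsLocalHomeomorph p) (x : X) : ∃ (ε : ℝ) (U : Set X),
    0 < ε ∧ U ∈ 𝓝 x ∧ ∀ y ∈ U, ∃ s : E → X, IsSec p (ball (p y) ε) s ∧ s (p y) = y := by
  obtain ⟨e, hx, he⟩ := hp x
  have hex : p x ∈ e.target := by rw [he]; exact e.map_source hx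
  obtain ⟨r, hr, hb⟩ := Metric.isOpen_iff.1 e.open_target (p x) hex
  refine ⟨r / 2, e.source ∩ p ⁻¹' ball (p x) (r / 2), by positivity, ?_, ?_⟩
  · exact Filter.inter_mem (e.open_source.mem_nhds hx)
      (hp.continuous.continuousAt.preimage_mem_nhds (ball_mem_nhds _ (by positivity)))
  · rintro y ⟨hy1, hy2⟩
    have hsub : ball (p y) (r / 2) ⊆ e.target := fun z hz => hb (by
      rw [mem_preimage, mem_ball] at hy2
      rw [mem_ball] at hz ⊢
      calc dist z (p x) ≤ dist z (p y) + dist (p y) (p x) := dist_triangle _ _ _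
        _ < r := by linarith)
    refine ⟨e.symm, ⟨e.symm.continuousOn.mono hsub, fun w hw => ?_⟩, ?_⟩
    · rw [he]; exact e.right_inv (hsub hw)
    · rw [he]; exact e.left_inv hy1

/-- uniform local sections over a compact set -/
lemma exists_unif_sec {p : X → E} (hp : IsLocalHomeomorph p) {K : Set X} (hK : IsCompact K) :
    ∃ ε : ℝ, 0 < ε ∧ ∀ x ∈ K, ∃ s : E → X, IsSec p (ball (p x) ε) s ∧ s (p x) = x := by
  refine hK.induction_on (p := fun S => ∃ ε : ℝ, 0 < ε ∧ ∀ x ∈ S, ∃ s : E → X,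
    IsSec p (ball (p x) ε) s ∧ s (p x) = x) ?_ ?_ ?_ ?_
  · exact ⟨1, one_pos, by simp⟩
  · rintro s t hst ⟨r, hr, h⟩
    exact ⟨r, hr, fun x hx => h x (hst hx)⟩
  · rintro s t ⟨r, hr, h⟩ ⟨r', hr', h'⟩
    refine ⟨min r r', lt_min hr hr', fun x hx => ?_⟩
    rcases hx with hx | hx
    · obtain ⟨s, h1, h2⟩ := h x hx
      exact ⟨s, h1.mono (ball_subset_ball (min_le_left _ _)), h2⟩
    · obtain ⟨s, h1, h2⟩ := h' x hx
      exact ⟨s, h1.mono (ball_subset_ball (min_le_right _ _)), h2⟩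
  · intro x _
    obtain ⟨ε, U, hε, hU, h⟩ := exists_loc_sec hp x
    exact ⟨U, mem_nhdsWithin_of_mem_nhds hU, ε, hε, h⟩

/-- extension of a section over a ball by local sections of uniform radius -/
lemma IsSec.extend [T2Space X] {p : X → E} (hp : IsLocalHomeomorph p) {z₀ : E} {R R' ε : ℝ}
    (hR : 0 < R) (hRR' : R < R') (hε : R' - R < ε) {s : E → X} (hs : IsSec p (ball z₀ R) s)
    (ht : ∀ v ∈ ball z₀ R, ∃ t : E → X, IsSec p (ball v ε) t ∧ t v = s v) :
    ∃ s' : E → X, IsSec p (ball z₀ R') s' ∧ s' z₀ = s z₀ := by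
  have hε0 : 0 < ε := by linarith
  have hR' : 0 < R' := hR.trans hRR'
  have : Nonempty X := ⟨s z₀⟩
  choose! t ht1 ht2 using ht
  -- `t v = s` on the intersection of the balls
  have hts : ∀ v ∈ ball z₀ R, EqOn (t v) s (ball v ε ∩ ball z₀ R) := by
    intro v hv
    refine IsSec.eqOn hp ?_ ((ht1 v hv).mono inter_subset_left) (hs.mono inter_subset_right)
      ⟨mem_ball_self hε0, hv⟩ (ht2 v hv)
    exact ((convex_ball v ε).inter (convex_ball z₀ R)).isPreconnected
  -- `t v = t v'` on the intersection of the balls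
  have htt : ∀ v ∈ ball z₀ R, ∀ v' ∈ ball z₀ R, EqOn (t v) (t v') (ball v ε ∩ ball v' ε) := by
    intro v hv v' hv' w hw
    have hd : dist v v' < 2 * ε := by
      have h1 := hw.1
      have h2 := hw.2
      rw [mem_ball] at h1 h2
      calc dist v v' ≤ dist v w + dist w v' := dist_triangle _ _ _
        _ < 2 * ε := by rw [dist_comm v w]; linarith
    have hm1 : midpoint ℝ v v' ∈ ball v ε := by
      rw [mem_ball, dist_midpoint_left]
      simp only [Real.norm_ofNat]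
      linarith
    have hm2 : midpoint ℝ v v' ∈ ball v' ε := by
      rw [mem_ball, dist_midpoint_right]
      simp only [Real.norm_ofNat]
      linarith
    have hm3 : midpoint ℝ v v' ∈ ball z₀ R := (convex_ball z₀ R).midpoint_mem hv hv'
    have h4 : t v (midpoint ℝ v v') = t v' (midpoint ℝ v v') :=
      (hts v hv ⟨hm1, hm3⟩).trans (hts v' hv' ⟨hm2, hm3⟩).symm
    exact IsSec.eqOn hp ((convex_ball v ε).inter (convex_ball v' ε)).isPreconnected
      ((ht1 v hv).mono inter_subset_left) ((ht1 v' hv').mono inter_subset_right) ⟨hm1, hm2⟩ h4 hw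
  -- the retraction
  let v : E → E := fun w => z₀ + (R / R') • (w - z₀)
  have hvc : Continuous v := by fun_prop
  have hfr : 0 < R / R' := by positivity
  have hv1 : ∀ w ∈ ball z₀ R', v w ∈ ball z₀ R := by
    intro w hw
    rw [mem_ball, dist_eq_norm] at hw ⊢
    have h1 : v w - z₀ = (R / R') • (w - z₀) := by simp [v]
    rw [h1, norm_smul, Real.norm_of_nonneg hfr.le]
    calc R / R' * ‖w - z₀‖ < R / R' * R' := by gcongr
      _ = R := by field_simp
  have hv2 : ∀ w ∈ ball z₀ R', w ∈ ball (v w) ε := by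
    intro w hw
    rw [mem_ball, dist_eq_norm] at hw ⊢
    have h1 : w - v w = (1 - R / R') • (w - z₀) := by
      simp only [v]
      module
    have h2 : 0 < 1 - R / R' := by
      rw [sub_pos, div_lt_one hR']; exact hRR'
    rw [h1, norm_smul, Real.norm_of_nonneg h2.le]
    calc (1 - R / R') * ‖w - z₀‖ ≤ (1 - R / R') * R' := by gcongr
      _ = R' - R := by field_simp
      _ < ε := hε
  refine ⟨fun w => t (v w) w, ⟨?_, ?_⟩, ?_⟩
  · intro w hw
    have h1 : (fun w => t (v w) w) =ᶠ[𝓝 w] t (v w) := by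
      have e1 : ∀ᶠ w' in 𝓝 w, w' ∈ ball z₀ R' := isOpen_ball.mem_nhds hw
      have e2 : ∀ᶠ w' in 𝓝 w, w' ∈ ball (v w) ε := isOpen_ball.mem_nhds (hv2 w hw)
      filter_upwards [e1, e2] with w' h1 h2
      exact htt (v w') (hv1 w' h1) (v w) (hv1 w hw) ⟨hv2 w' h1, h2⟩
    have h2 : ContinuousAt (t (v w)) w :=
      (ht1 (v w) (hv1 w hw)).1.continuousAt (isOpen_ball.mem_nhds (hv2 w hw))
    exact (h2.congr h1.symm).continuousWithinAt
  · intro w hw
    exact (ht1 (v w) (hv1 w hw)).2 w (hv2 w hw)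
  · have h1 : v z₀ = z₀ := by simp [v]
    change t (v z₀) z₀ = s z₀
    rw [h1]
    exact ht2 z₀ (mem_ball_self hR)

/-- **continuation**: if, for every `R < ρ`, all sections through `x₀` over the ball of radius `R`
have values in a compact set, then there is a section over the ball of radius `ρ` -/
theorem exists_sec' [T2Space X] {p : X → E} (hp : IsLocalHomeomorph p) (x₀ : X) {ρ : ℝ}
    (hρ : 0 < ρ)
    (h : ∀ R, 0 < R → R < ρ → ∃ K : Set X, IsCompact K ∧ ∀ s : E → X,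
      IsSec p (ball (p x₀) R) s → s (p x₀) = x₀ → ∀ w ∈ ball (p x₀) R, s w ∈ K) :
    ∃ s : E → X, IsSec p (ball (p x₀) ρ) s ∧ s (p x₀) = x₀ := by
  set z₀ := p x₀ with hz₀
  let T : Set ℝ := {R | 0 < R ∧ R ≤ ρ ∧ ∃ s : E → X, IsSec p (ball z₀ R) s ∧ s z₀ = x₀}
  have hT0 : T.Nonempty := by
    obtain ⟨ε, U, hε, hU, h⟩ := exists_loc_sec hp x₀
    obtain ⟨s, h1, h2⟩ := h x₀ (mem_of_mem_nhds hU)
    exact ⟨min ε ρ, lt_min hε hρ, min_le_right _ _, s,
      h1.mono (ball_subset_ball (min_le_left _ _)), h2⟩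
  have hTb : BddAbove T := ⟨ρ, fun R hR => hR.2.1⟩
  set R₀ := sSup T with hR₀
  have hR₀ρ : R₀ ≤ ρ := csSup_le hT0 fun R hR => hR.2.1
  have hR₀0 : 0 < R₀ := by
    obtain ⟨R, hR⟩ := hT0
    exact hR.1.trans_le (le_csSup hTb hR)
  have hT : ∀ R ∈ T, ∃ s : E → X, IsSec p (ball z₀ R) s ∧ s z₀ = x₀ := fun R hR => hR.2.2
  have : Nonempty X := ⟨x₀⟩
  choose! s hs1 hs2 using hT
  have hagree : ∀ R ∈ T, ∀ R' ∈ T, R ≤ R' → EqOn (s R) (s R') (ball z₀ R) := by
    intro R hR R' hR' hle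
    exact IsSec.eqOn hp (convex_ball z₀ R).isPreconnected (hs1 R hR)
      ((hs1 R' hR').mono (ball_subset_ball hle)) (mem_ball_self hR.1)
      ((hs2 R hR).trans (hs2 R' hR').symm)
  have hagree' : ∀ R ∈ T, ∀ R' ∈ T, ∀ w, w ∈ ball z₀ R → w ∈ ball z₀ R' → s R w = s R' w := by
    intro R hR R' hR' w hw hw'
    rcases le_total R R' with hle | hle
    · exact hagree R hR R' hR' hle hw
    · exact (hagree R' hR' R hR hle hw').symm
  have hex : ∀ w ∈ ball z₀ R₀, ∃ R ∈ T, w ∈ ball z₀ R := by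
    intro w hw
    rw [mem_ball] at hw
    obtain ⟨R, hR, hlt⟩ := exists_lt_of_lt_csSup hT0 hw
    exact ⟨R, hR, hlt⟩
  choose! Rw hRw1 hRw2 using hex
  let s₀ : E → X := fun w => s (Rw w) w
  have hs₀ : ∀ R ∈ T, ∀ w ∈ ball z₀ R, s₀ w = s R w := by
    intro R hR w hw
    have hw0 : w ∈ ball z₀ R₀ := ball_subset_ball (le_csSup hTb hR) hw
    exact hagree' _ (hRw1 w hw0) R hR w (hRw2 w hw0) hw
  have hsec₀ : IsSec p (ball z₀ R₀) s₀ := by
    refine ⟨fun w hw => ?_, fun w hw => ?_⟩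
    · have hR := hRw1 w hw
      have hwR := hRw2 w hw
      have h1 : s₀ =ᶠ[𝓝 w] s (Rw w) := by
        filter_upwards [isOpen_ball.mem_nhds hwR] with w' hw'
        exact hs₀ _ hR w' hw'
      have h2 : ContinuousAt (s (Rw w)) w :=
        (hs1 _ hR).1.continuousAt (isOpen_ball.mem_nhds hwR)
      exact (h2.congr h1.symm).continuousWithinAt
    · exact (hs1 _ (hRw1 w hw)).2 w (hRw2 w hw)
  have hs₀0 : s₀ z₀ = x₀ := hs2 _ (hRw1 z₀ (mem_ball_self hR₀0))
  rcases hR₀ρ.eq_or_lt with heq | hlt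
  · rw [← heq]
    exact ⟨s₀, hsec₀, hs₀0⟩
  · exfalso
    obtain ⟨K, hK, hK'⟩ := h R₀ hR₀0 hlt
    have hKs : ∀ w ∈ ball z₀ R₀, s₀ w ∈ K := hK' s₀ hsec₀ hs₀0
    obtain ⟨ε, hε, hloc⟩ := exists_unif_sec hp hK
    have hR' : R₀ < min (R₀ + ε / 2) ρ := lt_min (by linarith) hlt
    obtain ⟨s', h1, h2⟩ := IsSec.extend hp hR₀0 hR' (ε := ε)
      (by have := min_le_left (R₀ + ε / 2) ρ; linarith) hsec₀ (by
        intro v hv
        obtain ⟨t, ht1, ht2⟩ := hloc (s₀ v) (hKs v hv)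
        rw [hsec₀.2 v hv] at ht1 ht2
        exact ⟨t, ht1, ht2⟩)
    have hmem : min (R₀ + ε / 2) ρ ∈ T :=
      ⟨hR₀0.trans hR', min_le_right _ _, s', h1, h2.trans hs₀0⟩
    exact absurd (le_csSup hTb hmem) (not_le.2 hR')

/-- **continuation**: if all sections through `x₀` over balls of radius `≤ ρ` have values in a
compact set, then there is a section over the ball of radius `ρ` -/
theorem exists_sec [T2Space X] {p : X → E} (hp : IsLocalHomeomorph p) (x₀ : X) {ρ : ℝ}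
    (hρ : 0 < ρ) {K : Set X} (hK : IsCompact K)
    (h : ∀ R, 0 < R → R ≤ ρ → ∀ s : E → X, IsSec p (ball (p x₀) R) s → s (p x₀) = x₀ →
      ∀ w ∈ ball (p x₀) R, s w ∈ K) :
    ∃ s : E → X, IsSec p (ball (p x₀) ρ) s ∧ s (p x₀) = x₀ :=
  exists_sec' hp x₀ hρ fun R hR hRρ => ⟨K, hK, h R hR hRρ.le⟩

end Crest.Agent.R276.Bcq_828
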