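import Mathlib
import Crest.Agent.R276.BcqA_828
import Crest.Agent.R271.Growth_255
import Crest.Agent.R271.Bd3_741
import Crest.Agent.R271.Rd6_692

/-!
# R276, leaf BCQ (helper828), part B: charts of polynomial radius for étale algebras

`exists_qchart`: `A` étale over `ℂ[w]`, generated by `a i`: the point `y` of `Hom(A,ℂ)` has a chart
of radius `c (1 + ∑ |y (a i)|²)^{-κ}` on which `1 + ∑ |a i|²` is at most doubled.
-/

set_option autoImplicit false

noncomputable section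

open Set Filter Topology Metric

namespace Crest.Agent.R276.Bcq_828

open Crest.Agent.R271.Defs710 Crest.Agent.R271.Rd692 Crest.Agent.R271.Alg255
open Crest.Agent.R271.Bd741

variable {n : ℕ} {A : Type} [CommRing A] [Algebra ℂ A] {w : Fin n → A}

/-- a section is, near every point, given by the chart at this point -/
lemma sec_eventually {S : Cn n → Pt A} {U : Set (Cn n)} (hU : IsOpen U)
    (hS : IsSec (pr w) U S) {v : Cn n} (hv : v ∈ U) {y' : Pt A} (C' : Chart w y')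
    (h : S v = y') : ∀ᶠ v' in 𝓝 v, S v' = C'.s (v' - v) := by
  subst h
  obtain ⟨T, ε, hε, hT⟩ := C'.surj
  have h1 : ContinuousAt S v := hS.1.continuousAt (hU.mem_nhds hv)
  have h2 := h1.eventually (mem_nhds_of_finset (S v) T hε)
  filter_upwards [h2, hU.mem_nhds hv] with v' h3 h4
  have h5 := hT (S v') h3
  have h6 : (fun i => S v' (w i) - S v (w i)) = v' - v := by
    have e1 := hS.2 v' h4
    have e2 := hS.2 v hv
    funext i
    have e3 := congrFun e1 i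
    have e4 := congrFun e2 i
    simp only [pr_apply] at e3 e4
    rw [e3, e4]
    rfl
  rw [h6] at h5
  exact h5

/-- a section over a ball is a chart -/
theorem exists_chart_of_sec (hch : ∀ y : Pt A, Nonempty (Chart w y)) (y : Pt A) {R : ℝ}
    (hR : 0 < R) {S : Cn n → Pt A} (hS : IsSec (pr w) (ball (pr w y) R) S)
    (h0 : S (pr w y) = y) : ∃ C : Chart w y, C.r = R ∧ ∀ ζ, C.s ζ = S (pr w y + ζ) := by
  have hmem : ∀ ζ ∈ ball (0 : Cn n) R, pr w y + ζ ∈ ball (pr w y) R := by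
    intro ζ hζ
    simpa [Metric.mem_ball, dist_eq_norm] using hζ
  refine ⟨⟨R, hR, fun ζ => S (pr w y + ζ), by simp [h0], ?_, ?_, ?_⟩, rfl, fun _ => rfl⟩
  · intro ζ hζ i
    have h1 := congrFun (hS.2 _ (hmem ζ hζ)) i
    simpa using h1
  · intro b ζ hζ
    obtain ⟨C'⟩ := hch (S (pr w y + ζ))
    have h1 := sec_eventually isOpen_ball hS (hmem ζ hζ) C' rfl
    have h2 : ContinuousAt (fun ζ' : Cn n => pr w y + ζ') ζ := by fun_prop
    have h3 : ∀ᶠ ζ' in 𝓝 ζ, S (pr w y + ζ') = C'.s (pr w y + ζ' - (pr w y + ζ)) :=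
      h2.eventually h1
    have h4 : (fun ζ' => S (pr w y + ζ') b) =ᶠ[𝓝 ζ] fun ζ' => C'.s (ζ' - ζ) b := by
      filter_upwards [h3] with ζ' h5
      rw [h5]
      congr 2
      abel
    rw [analyticAt_congr h4]
    have h5 : AnalyticAt ℂ (fun ζ' => C'.s ζ' b) (ζ - ζ) := by
      rw [sub_self]
      exact C'.anal b 0 (mem_ball_self C'.r_pos)
    have h6 : AnalyticAt ℂ (fun ζ' : Cn n => ζ' - ζ) ζ := analyticAt_id.sub analyticAt_const
    exact AnalyticAt.comp (g := fun ζ' => C'.s ζ' b) (f := fun ζ' : Cn n => ζ' - ζ) h5 h6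
  · classical
    obtain ⟨C0⟩ := hch y
    obtain ⟨T, ε, hε, hT⟩ := C0.surj
    have h1 := sec_eventually isOpen_ball hS (mem_ball_self hR) C0 h0
    obtain ⟨δ, hδ, h2⟩ := Metric.eventually_nhds_iff_ball.1 h1
    refine ⟨T ∪ Finset.univ.image w, min ε δ, lt_min hε hδ, fun y' hy' => ?_⟩
    have h3 : y' = C0.s (fun i => y' (w i) - y (w i)) := by
      apply hT
      intro b hb
      exact (hy' b (Finset.mem_union_left _ hb)).trans_le (min_le_left _ _)
    have h4 : pr w y' ∈ ball (pr w y) δ := by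
      rw [mem_ball, dist_pi_lt_iff hδ]
      intro i
      rw [dist_eq_norm]
      exact (hy' (w i) (Finset.mem_union_right _ (by simp))).trans_le (min_le_right _ _)
    have h5 := h2 _ h4
    have h6 : pr w y' - pr w y = fun i => y' (w i) - y (w i) := rfl
    rw [h6, ← h3] at h5
    have h7 : pr w y + (fun i => y' (w i) - y (w i)) = pr w y' := by
      rw [← h6]; abel
    rw [h7]
    exact h5.symm

lemma clm_apply_eq_sum (L : Cn n →L[ℂ] ℂ) (ζ : Cn n) :
    L ζ = ∑ j, ζ j * L (Pi.single j 1) := by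
  have h4 : ζ = ∑ j, ζ j • (Pi.single j (1 : ℂ) : Cn n) := by
    conv_lhs => rw [← Finset.univ_sum_single ζ]
    refine Finset.sum_congr rfl fun j _ => ?_
    rw [← Pi.single_smul, smul_eq_mul, mul_one]
  conv_lhs => rw [h4, map_sum]
  refine Finset.sum_congr rfl fun j _ => ?_
  rw [map_smul, smul_eq_mul]

/-- derivative of a regular function along a ray in a chart -/
lemma hasDerivAt_ray (het : RingHom.Etale ((MvPolynomial.aeval w :
    MvPolynomial (Fin n) ℂ →ₐ[ℂ] A) : MvPolynomial (Fin n) ℂ →+* A))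
    (Δ : Fin n → Derivation ℂ A A) (hΔ : ∀ i j, Δ j (w i) = if i = j then 1 else 0)
    {y : Pt A} (C : Chart w y) {ζ : Cn n} {t : ℝ} (ht : t • ζ ∈ ball (0 : Cn n) C.r) (f : A) :
    HasDerivAt (fun t : ℝ => C.s (t • ζ) f) (∑ j, ζ j * C.s (t • ζ) (Δ j f)) t := by
  have h1 : HasFDerivAt (fun ζ' => C.s ζ' f) (fderiv ℂ (fun ζ' => C.s ζ' f) (t • ζ)) (t • ζ) :=
    (C.anal f _ ht).differentiableAt.hasFDerivAt
  have h2 : HasDerivAt (fun t : ℝ => t • ζ) ζ t := by
    simpa using (hasDerivAt_id t).smul_const ζ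
  have h3 := (h1.restrictScalars ℝ).comp_hasDerivAt t h2
  convert! h3 using 1
  change _ = fderiv ℂ (fun ζ' => C.s ζ' f) (t • ζ) ζ
  rw [clm_apply_eq_sum]
  refine Finset.sum_congr rfl fun j _ => ?_
  rw [chart_deriv w het Δ hΔ C _ ht j f]

/-- the a priori estimate -/
theorem apriori (het : RingHom.Etale ((MvPolynomial.aeval w :
    MvPolynomial (Fin n) ℂ →ₐ[ℂ] A) : MvPolynomial (Fin n) ℂ →+* A))
    (Δ : Fin n → Derivation ℂ A A) (hΔ : ∀ i j, Δ j (w i) = if i = j then 1 else 0)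
    {N : ℕ} (a : Fin N → A) {M : ℝ} (hM0 : 0 ≤ M) {κ : ℕ}
    (hM : ∀ i j, ∀ y : Pt A, ‖y (Δ j (a i))‖ ≤ M * oz a y ^ κ) {y : Pt A} (C : Chart w y)
    (hr : C.r * (n * (M * (2 * oz a y) ^ κ)) * (8 * (N + 1)) ≤ 1) :
    ∀ ζ ∈ ball (0 : Cn n) C.r, oz a (C.s ζ) ≤ 2 * oz a y := by
  intro ζ hζ
  have hζr : ‖ζ‖ < C.r := by simpa using hζ
  have hu1 : 1 ≤ oz a y := one_le_oz a y
  have hmem : ∀ t ∈ Icc (0 : ℝ) 1, t • ζ ∈ ball (0 : Cn n) C.r := by
    intro t ht
    rw [mem_ball_zero_iff, norm_smul, Real.norm_of_nonneg ht.1]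
    calc t * ‖ζ‖ ≤ 1 * ‖ζ‖ := by gcongr; exact ht.2
      _ < C.r := by rw [one_mul]; exact hζr
  let φ : ℝ → ℝ := fun t => oz a (C.s (t • ζ))
  have hφc : ContinuousOn φ (Icc 0 1) := by
    intro t ht
    have h1 : ∀ i, ContinuousAt (fun t : ℝ => C.s (t • ζ) (a i)) t := fun i =>
      (hasDerivAt_ray het Δ hΔ C (hmem t ht) (a i)).continuousAt
    have h2 : ContinuousAt φ t := by
      apply ContinuousAt.add continuousAt_const
      exact tendsto_finsetSum _ fun i _ => ((h1 i).norm.pow 2)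
    exact h2.continuousWithinAt
  have key : ∀ t ∈ Icc (0 : ℝ) 1, φ t < 2 * oz a y := by
    by_contra hcon
    push Not at hcon
    obtain ⟨t₁, ht₁, hφ₁⟩ := hcon
    have hcomp : IsCompact (Icc (0 : ℝ) 1 ∩ φ ⁻¹' Ici (2 * oz a y)) := by
      have h1 : IsClosed (Icc (0 : ℝ) 1 ∩ φ ⁻¹' Ici (2 * oz a y)) :=
        hφc.preimage_isClosed_of_isClosed isClosed_Icc isClosed_Ici
      exact isCompact_Icc.of_isClosed_subset h1 inter_subset_left
    obtain ⟨t₀, ht₀, hmin⟩ := hcomp.exists_isLeast ⟨t₁, ht₁, hφ₁⟩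
    have ht₀1 : t₀ ∈ Icc (0 : ℝ) 1 := ht₀.1
    have hφ₀ : 2 * oz a y ≤ φ t₀ := ht₀.2
    have hlt : ∀ t ∈ Ico (0 : ℝ) t₀, φ t < 2 * oz a y := by
      intro t ht
      by_contra hge
      push Not at hge
      have h1 : t ∈ Icc (0 : ℝ) 1 ∩ φ ⁻¹' Ici (2 * oz a y) :=
        ⟨⟨ht.1, ht.2.le.trans ht₀1.2⟩, hge⟩
      exact absurd (hmin h1) (not_le.2 ht.2)
    set δ : ℝ := C.r * (n * (M * (2 * oz a y) ^ κ)) with hδ
    have hδ0 : 0 ≤ δ := by
      have := C.r_pos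
      positivity
    have hb : ∀ i, ‖C.s (t₀ • ζ) (a i) - y (a i)‖ ≤ δ := by
      intro i
      have h1 : ∀ t ∈ Icc (0 : ℝ) t₀, HasDerivWithinAt (fun t : ℝ => C.s (t • ζ) (a i))
          (∑ j, ζ j * C.s (t • ζ) (Δ j (a i))) (Icc 0 t₀) t := fun t ht =>
        (hasDerivAt_ray het Δ hΔ C (hmem t ⟨ht.1, ht.2.trans ht₀1.2⟩) (a i)).hasDerivWithinAt
      have h2 : ∀ t ∈ Ico (0 : ℝ) t₀, ‖∑ j, ζ j * C.s (t • ζ) (Δ j (a i))‖ ≤ δ := by
        intro t ht
        have h3 : ∀ j, ‖ζ j * C.s (t • ζ) (Δ j (a i))‖ ≤ C.r * (M * (2 * oz a y) ^ κ) := by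
          intro j
          rw [norm_mul]
          have h4 : ‖ζ j‖ ≤ C.r := (norm_le_pi_norm ζ j).trans hζr.le
          have h5 : ‖C.s (t • ζ) (Δ j (a i))‖ ≤ M * (2 * oz a y) ^ κ := by
            refine (hM i j _).trans ?_
            have h6 : oz a (C.s (t • ζ)) ≤ 2 * oz a y := (hlt t ht).le
            have h7 : 0 ≤ oz a (C.s (t • ζ)) := zero_le_one.trans (one_le_oz _ _)
            gcongr
          exact mul_le_mul h4 h5 (norm_nonneg _) C.r_pos.le
        calc ‖∑ j, ζ j * C.s (t • ζ) (Δ j (a i))‖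
            ≤ ∑ j : Fin n, C.r * (M * (2 * oz a y) ^ κ) := norm_sum_le_of_le _ fun j _ => h3 j
          _ = δ := by
            rw [Finset.sum_const, Finset.card_univ, Fintype.card_fin, nsmul_eq_mul, hδ]; ring
      have h3 := norm_image_sub_le_of_norm_deriv_le_segment' h1 h2 t₀ ⟨ht₀1.1, le_rfl⟩
      simp only [zero_smul, C.s_zero, sub_zero] at h3
      refine h3.trans ?_
      calc δ * t₀ ≤ δ * 1 := by gcongr; exact ht₀1.2
        _ = δ := mul_one δ
    have hδs : δ * (8 * (N + 1)) ≤ 1 := hr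
    have hN0 : (0 : ℝ) ≤ N := Nat.cast_nonneg N
    have hδ1 : δ ≤ 1 / 8 := by nlinarith
    have hδ2 : δ * N ≤ 1 / 8 := by nlinarith
    have h9 : φ t₀ < 2 * oz a y := by
      have h1 : ∀ i, ‖C.s (t₀ • ζ) (a i)‖ ^ 2 ≤ ‖y (a i)‖ ^ 2 + δ * (2 * oz a y + 1) := by
        intro i
        have h2 : ‖C.s (t₀ • ζ) (a i)‖ ≤ ‖y (a i)‖ + δ := by
          calc ‖C.s (t₀ • ζ) (a i)‖ = ‖y (a i) + (C.s (t₀ • ζ) (a i) - y (a i))‖ := by
                congr 1; ring
            _ ≤ ‖y (a i)‖ + ‖C.s (t₀ • ζ) (a i) - y (a i)‖ := norm_add_le _ _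
            _ ≤ _ := by have := hb i; linarith
        have h3 : ‖y (a i)‖ ≤ oz a y := by
          have h4 : ‖y (a i)‖ ^ 2 ≤ ∑ i, ‖y (a i)‖ ^ 2 :=
            Finset.single_le_sum (f := fun i => ‖y (a i)‖ ^ 2) (fun i _ => by positivity)
              (Finset.mem_univ i)
          unfold oz
          nlinarith [sq_nonneg (‖y (a i)‖ - 1)]
        calc ‖C.s (t₀ • ζ) (a i)‖ ^ 2 ≤ (‖y (a i)‖ + δ) ^ 2 := by gcongr
          _ = ‖y (a i)‖ ^ 2 + δ * (2 * ‖y (a i)‖ + δ) := by ring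
          _ ≤ _ := by
            gcongr
            linarith
      have h2 : φ t₀ ≤ oz a y + (δ * N) * (2 * oz a y + 1) := by
        simp only [φ, oz]
        calc 1 + ∑ i, ‖C.s (t₀ • ζ) (a i)‖ ^ 2
            ≤ 1 + ∑ i : Fin N, (‖y (a i)‖ ^ 2 + δ * (2 * oz a y + 1)) := by
              gcongr with i _
              exact h1 i
          _ = 1 + ∑ i : Fin N, ‖y (a i)‖ ^ 2 + (δ * N) * (2 * oz a y + 1) := by
              rw [Finset.sum_add_distrib, Finset.sum_const, Finset.card_univ, Fintype.card_fin,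
                nsmul_eq_mul]
              ring
      have h3 : (δ * N) * (2 * oz a y + 1) ≤ 1 / 8 * (2 * oz a y + 1) := by gcongr
      linarith
    linarith
  have := key 1 ⟨zero_le_one, le_rfl⟩
  simp only [φ, one_smul] at this
  exact this.le

/-- every regular function has polynomial growth w.r.t. generators -/
lemma PG_all {N : ℕ} {a : Fin N → A} (ha : Algebra.adjoin ℂ (Set.range a) = ⊤) (b : A) :
    PG a b := PG.adjoin (by rw [ha]; trivial)

/-- finitely many functions have a common growth bound -/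
lemma PG_unif {ι : Type*} [Finite ι] {N : ℕ} {a : Fin N → A} (f : ι → A)
    (h : ∀ i, PG a (f i)) : ∃ (M : ℝ) (κ : ℕ), 0 ≤ M ∧ ∀ i, ∀ y : Pt A,
      ‖y (f i)‖ ≤ M * oz a y ^ κ := by
  have := Fintype.ofFinite ι
  choose C K hC h1 using h
  refine ⟨∑ i, C i, ∑ i, K i, Finset.sum_nonneg fun i _ => hC i, fun i y => ?_⟩
  refine (h1 i y).trans ?_
  have h2 : C i ≤ ∑ i, C i := Finset.single_le_sum (f := C) (fun i _ => hC i) (Finset.mem_univ i)
  have h3 : K i ≤ ∑ i, K i :=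
    Finset.single_le_sum (f := K) (fun i _ => Nat.zero_le _) (Finset.mem_univ i)
  have h4 := one_le_oz a y
  calc C i * oz a y ^ K i ≤ (∑ i, C i) * oz a y ^ (∑ i, K i) := by
        apply mul_le_mul h2 (pow_le_pow_right₀ h4 h3) (by positivity)
        exact Finset.sum_nonneg fun i _ => hC i

/-- **charts of polynomial radius** -/
theorem exists_qchart (het : RingHom.Etale ((MvPolynomial.aeval w :
    MvPolynomial (Fin n) ℂ →ₐ[ℂ] A) : MvPolynomial (Fin n) ℂ →+* A)) {N : ℕ} (a : Fin N → A)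
    (ha : Algebra.adjoin ℂ (Set.range a) = ⊤) :
    ∃ (c : ℝ) (κ : ℕ), 0 < c ∧ c ≤ 1 ∧ ∀ (y : Pt A) (R : ℝ), 0 < R → R * oz a y ^ κ ≤ c →
      ∃ C : Chart w y, C.r = R ∧ ∀ ζ ∈ ball (0 : Cn n) C.r, oz a (C.s ζ) ≤ 2 * oz a y := by
  obtain ⟨Δ, hΔ⟩ := exists_coord_deriv w het
  obtain ⟨M, κ, hM0, hM⟩ := PG_unif (ι := Fin N × Fin n) (fun p => Δ p.2 (a p.1))
    (fun p => PG_all ha _)
  have hch : ∀ y : Pt A, Nonempty (Chart w y) := fun y => nonempty_chart w het y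
  have hlh := isLocalHomeomorph_pr hch
  set Q : ℝ := n * (M * 2 ^ κ) * (8 * (N + 1)) + 1 with hQ
  have hQ1 : 1 ≤ Q := by
    have : 0 ≤ (n : ℝ) * (M * 2 ^ κ) * (8 * (N + 1)) := by positivity
    linarith
  refine ⟨1 / Q, κ, by positivity, ?_, ?_⟩
  · rw [div_le_one (by positivity)]; exact hQ1
  intro y R hR hRc
  have hu := one_le_oz a y
  have hest : ∀ R', 0 < R' → R' ≤ R → ∀ C : Chart w y, C.r = R' →
      ∀ ζ ∈ ball (0 : Cn n) C.r, oz a (C.s ζ) ≤ 2 * oz a y := by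
    intro R' hR' hR'R C hC
    refine apriori het Δ hΔ a hM0 (fun i j y => hM (i, j) y) C ?_
    rw [hC]
    have h1 : R' * oz a y ^ κ ≤ 1 / Q := le_trans (by gcongr) hRc
    rw [le_div_iff₀ (by positivity)] at h1
    have h2 : R' * (n * (M * (2 * oz a y) ^ κ)) * (8 * (N + 1)) =
        (R' * oz a y ^ κ) * (Q - 1) := by
      rw [hQ, mul_pow]; ring
    rw [h2]
    have h3 : 0 ≤ R' * oz a y ^ κ := by positivity
    nlinarith
  have hK : IsCompact {y' : Pt A | ∑ i, ‖y' (a i)‖ ^ 2 ≤ 2 * oz a y} :=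
    isCompact_sublevel a ha _
  obtain ⟨S, hS, hS0⟩ := exists_sec hlh y hR hK (by
    intro R' hR' hR'R S hS hS0 v hv
    obtain ⟨C, hC, hCs⟩ := exists_chart_of_sec hch y hR' hS hS0
    have h1 := hest R' hR' hR'R C hC (v - pr w y) (by
      rw [hC, mem_ball_zero_iff, ← dist_eq_norm]; exact hv)
    rw [hCs, add_sub_cancel] at h1
    unfold oz at h1
    change ∑ i, ‖S v (a i)‖ ^ 2 ≤ 2 * oz a y
    unfold oz
    linarith)
  obtain ⟨C, hC, hCs⟩ := exists_chart_of_sec hch y hR hS hS0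
  exact ⟨C, hC, hest R hR le_rfl C hC⟩

end Crest.Agent.R276.Bcq_828
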