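import Mathlib
import Crest.Agent.R276.BcqB_828
import Crest.Agent.R276.BC4_986
import Crest.Agent.R276.Mod3_987
import Crest.Agent.R276.CntDefs_857
import Crest.Agent.R276.FKB1_594

/-!
# R276, leaf BCQ (helper828), part C: the divisor

* `Mdl.pcov` : the points of a model of 987 are a finite covering `PCov` of `{h ≠ 0}`;
* `DivMdl D` : a model `M` of the divisor `t = 0` of a divisorial model `D` of 986,
  `ι : D.A → M.B` the restriction of functions; `exists_divMdl`.
-/

set_option autoImplicit false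

noncomputable section

open Set Filter Topology Metric

namespace Crest.Agent.R276.Bcq_828

open Crest.Agent.R271.Defs710 Crest.Agent.R271.Rd692 Crest.Agent.R271.Alg255
open Crest.Agent.R271.Bd741 Crest.Agent.R271.Ho51
open Crest.Agent.R276.BC_986 Crest.Agent.R276.Mod1_987 Crest.Agent.R276.CntDefs_857

/-! ### finite coverings of polydiscs -/

section pcov

variable {n : ℕ} {K : Type} [Field K] [Algebra ℂ K]

/-- the sheets over a polydisc in `{h ≠ 0}` -/
theorem mdl_ev (M : Mdl K n) (z : Fin n → ℂ) (r : ℝ) (hr : 0 < r)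
    (hh : ∀ w ∈ ball z r, MvPolynomial.eval w M.h ≠ 0) :
    ∃ s : Fin M.deg → OpenPartialHomeomorph M.Pts (Fin n → ℂ),
      (∀ i, IsCh (s i) ∧ (s i).target = ball z r) ∧
      (∀ i j, i ≠ j → Disjoint (s i).source (s j).source) ∧
      (cp ⁻¹' ball z r : Set M.Pts) = ⋃ i, (s i).source := by
  classical
  have hlh := isLocalHomeomorph_pr M.hch
  -- sections through the points over `z`
  have hsec : ∀ y : M.Pts, M.pz y = z → ∃ C : Chart M.z y, C.r = r := by
    intro y hy
    obtain ⟨S, hS, hS0⟩ := exists_sec' hlh y hr (by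
      intro R hR hRr
      refine ⟨M.pz ⁻¹' closedBall z R, M.isCompact_preimage (isCompact_closedBall z R) ?_, ?_⟩
      · intro ζ hζ
        exact hh ζ (closedBall_subset_ball hRr hζ)
      · intro S hS _ v hv
        change pr M.z (S v) ∈ closedBall z R
        rw [hS.2 v hv]
        rw [show pr M.z y = z from hy] at hv
        exact ball_subset_closedBall hv)
    obtain ⟨C, hC, _⟩ := exists_chart_of_sec M.hch y hr hS hS0
    exact ⟨C, hC⟩
  choose C hC using hsec
  obtain ⟨hcard, hfin⟩ := M.card_fib (hh z (mem_ball_self hr))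
  -- enumeration of the fibre
  let e : Fin M.deg ≃ {y : M.Pts // M.pz y = z} :=
    (finCongr hcard.symm).trans (Finite.equivFin {y : M.Pts // M.pz y = z}).symm
  let s : Fin M.deg → OpenPartialHomeomorph M.Pts (Fin n → ℂ) := fun i =>
    chartHomeo M.hch (C (e i).1 (e i).2)
  have hIsCh : ∀ i, IsCh (s i) := fun i => rfl
  have htgt : ∀ i, (s i).target = ball z r := by
    intro i
    change ball (pr M.z (e i).1) (C (e i).1 (e i).2).r = ball z r
    rw [hC, show pr M.z (e i).1 = z from (e i).2]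
  have hinj : ∀ i j, ∀ ζ ∈ ball z r, (s i).symm ζ = (s j).symm ζ → i = j := by
    intro i j ζ hζ h
    have h1 : IsSec (cp : M.Pts → (Fin n → ℂ)) (ball z r) (s i).symm :=
      ⟨by rw [← htgt i]; exact (s i).symm.continuousOn, fun w hw => (hIsCh i).cp_symm
        (by rw [htgt i]; exact hw)⟩
    have h2 : IsSec (cp : M.Pts → (Fin n → ℂ)) (ball z r) (s j).symm :=
      ⟨by rw [← htgt j]; exact (s j).symm.continuousOn, fun w hw => (hIsCh j).cp_symm
        (by rw [htgt j]; exact hw)⟩
    have h3 := IsSec.eqOn (cp_lh (M := M.Pts)) (convex_ball z r).isPreconnected h1 h2 hζ h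
      (mem_ball_self hr)
    have h4 : ∀ i, (s i).symm z = (e i).1 := by
      intro i
      have h5 : (e i).1 ∈ (s i).source := self_mem_sheet _
      have h6 := (hIsCh i).symm_cp h5
      rwa [show cp (e i).1 = z from (e i).2] at h6
    rw [h4, h4] at h3
    exact e.injective (Subtype.ext h3)
  refine ⟨s, fun i => ⟨hIsCh i, htgt i⟩, ?_, ?_⟩
  · intro i j hij
    rw [Set.disjoint_left]
    intro y hy1 hy2
    apply hij
    refine hinj i j (cp y) ?_ ?_
    · rw [← htgt i]; exact (hIsCh i).cp_mem hy1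
    · rw [(hIsCh i).symm_cp hy1, (hIsCh j).symm_cp hy2]
  · ext y
    simp only [mem_preimage, mem_iUnion]
    constructor
    · intro hy
      obtain ⟨hcard', hfin'⟩ := M.card_fib (hh _ hy)
      let g : Fin M.deg → {y' : M.Pts // M.pz y' = cp y} := fun i =>
        ⟨(s i).symm (cp y), (hIsCh i).cp_symm (by rw [htgt i]; exact hy)⟩
      have hg : Function.Injective g := by
        intro i j h
        exact hinj i j (cp y) hy (congrArg Subtype.val h)
      have hg' : Function.Bijective g := by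
        have := Fintype.ofFinite {y' : M.Pts // M.pz y' = cp y}
        rw [Fintype.bijective_iff_injective_and_card]
        refine ⟨hg, ?_⟩
        rw [Fintype.card_fin, ← Nat.card_eq_fintype_card, hcard']
      obtain ⟨i, hi⟩ := hg'.2 ⟨y, rfl⟩
      refine ⟨i, ?_⟩
      have h1 : (s i).symm (cp y) = y := congrArg Subtype.val hi
      rw [← h1]
      exact (s i).map_target (by rw [htgt i]; exact hy)
    · rintro ⟨i, hi⟩
      rw [← htgt i]
      exact (hIsCh i).cp_mem hi

/-- the points of a model form a finite covering of `{h ≠ 0}` -/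
def pcov (M : Mdl K n) : PCov n M.Pts where
  h := M.h
  k := M.deg
  hk := M.deg_pos
  h0 := M.h_ne
  hne := M.eval_h_ne
  ev := mdl_ev M

@[simp] lemma pcov_h (M : Mdl K n) : (pcov M).h = M.h := rfl

@[simp] lemma pcov_k (M : Mdl K n) : (pcov M).k = M.deg := rfl

end pcov

/-! ### the divisor -/

section div

variable {d : ℕ} {K : Type} [Field K] [Algebra ℂ K] (D : DivModel (d + 1) K)

/-- the ideal of the divisor -/
abbrev dI : Ideal D.A := Ideal.span {D.t}

instance dI_prime : (dI D).IsPrime := (Ideal.span_singleton_prime D.t_ne).2 D.prime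

/-- the function field of the divisor -/
abbrev LL : Type := FractionRing (D.A ⧸ dI D)

/-- restriction of regular functions to the divisor -/
def res : D.A →ₐ[ℂ] LL D :=
  (IsScalarTower.toAlgHom ℂ (D.A ⧸ dI D) (LL D)).comp (Ideal.Quotient.mkₐ ℂ (dI D))

lemma res_apply (a : D.A) : res D a = algebraMap (D.A ⧸ dI D) (LL D) (Ideal.Quotient.mk (dI D) a) :=
  rfl

lemma res_eq_zero_iff (a : D.A) : res D a = 0 ↔ D.t ∣ a := by
  rw [res_apply, map_eq_zero_iff _ (IsFractionRing.injective (D.A ⧸ dI D) (LL D)),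
    Ideal.Quotient.eq_zero_iff_mem, Ideal.mem_span_singleton]

lemma res_t : res D D.t = 0 := (res_eq_zero_iff D _).2 dvd_rfl

instance : Algebra.EssFiniteType ℂ (LL D) := by
  have h1 : Algebra.FiniteType ℂ D.A := D.ft
  have h2 : Algebra.FiniteType ℂ (D.A ⧸ dI D) :=
    Algebra.FiniteType.of_surjective (Ideal.Quotient.mkₐ ℂ (dI D))
      (Ideal.Quotient.mkₐ_surjective ℂ (dI D))
  have h3 : Algebra.EssFiniteType (D.A ⧸ dI D) (LL D) :=
    Algebra.EssFiniteType.of_isLocalization _ (nonZeroDivisors (D.A ⧸ dI D))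
  exact Algebra.EssFiniteType.comp ℂ (D.A ⧸ dI D) (LL D)

lemma dI_height : (dI D).height = 1 := by
  have h1 : (dI D).height ≤ 1 := by
    have : Submodule.IsPrincipal (dI D) := ⟨⟨D.t, rfl⟩⟩
    exact Ideal.height_le_one_of_isPrincipal_of_mem_minimalPrimes (dI D) (dI D)
      (by rw [Ideal.minimalPrimes_eq_subsingleton_self]; rfl)
  have h2 : (dI D).height ≠ 0 := by
    intro h0
    have h3 : dI D = ⊥ := Ideal.height_eq_zero_iff_eq_bot.1 h0
    have h4 : D.t ∈ (⊥ : Ideal D.A) := by
      rw [← h3]; exact Ideal.mem_span_singleton_self _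
    exact D.t_ne (by simpa using h4)
  exact le_antisymm h1 (Order.one_le_iff_ne_zero.2 h2)

/-- the coordinates of the divisor are a transcendence basis of its function field -/
theorem isTranscendenceBasis_res (h0 : D.i₀ = 0) :
    IsTranscendenceBasis ℂ (fun j : Fin d => res D (D.w j.succ)) := by
  obtain ⟨j₀, h1, h2⟩ := FKB1_594.trdeg_quotient D.w D.etale (dI D) (dI_height D)
  have hj₀ : j₀ = 0 := by
    by_contra hne
    have h3 := h1.ne_zero ⟨0, fun h => hne h.symm⟩
    apply h3
    change Ideal.Quotient.mk (dI D) (D.w 0) = 0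
    rw [← h0, Ideal.Quotient.eq_zero_iff_mem]
    exact Ideal.mem_span_singleton_self _
  subst hj₀
  have h3 : AlgebraicIndependent ℂ (fun j : Fin d => Ideal.Quotient.mk (dI D) (D.w j.succ)) :=
    h1.comp (fun j : Fin d => (⟨j.succ, Fin.succ_ne_zero j⟩ : {i : Fin (d + 1) // i ≠ 0}))
      (fun i j h => Fin.succ_injective _ (congrArg Subtype.val h))
  have h4 : Algebra.trdeg ℂ (D.A ⧸ dI D) = d := by
    have h5 : Algebra.trdeg ℂ (D.A ⧸ dI D) + 1 = (d : Cardinal) + 1 := by
      rw [h2]; push_cast; rfl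
    exact (Cardinal.add_one_inj).1 h5
  have h5 : IsTranscendenceBasis ℂ
      (fun j : Fin d => Ideal.Quotient.mk (dI D) (D.w j.succ)) := by
    refine h3.isTranscendenceBasis_of_trdeg_le_of_finite ?_
    rw [h4, Cardinal.mk_fin]
  have h6 : Algebra.IsAlgebraic (D.A ⧸ dI D) (LL D) :=
    IsLocalization.isAlgebraic _ (nonZeroDivisors (D.A ⧸ dI D))
  exact h5.algebraMap_comp (A := LL D)

/-- a model of the divisor -/
structure DivMdl where
  /-- the model of 987 -/
  M : Mdl (LL D) d
  z_eq : ∀ j, (M.z j : LL D) = res D (D.w j.succ)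
  mem : ∀ a : D.A, res D a ∈ M.B

namespace DivMdl

variable {D} (X : DivMdl D)

/-- restriction of functions -/
def ι : D.A →ₐ[ℂ] X.M.B := (res D).codRestrict X.M.B X.mem

@[simp] lemma coe_ι (a : D.A) : (X.ι a : LL D) = res D a := rfl

lemma ι_w (j : Fin d) : X.ι (D.w j.succ) = X.M.z j := Subtype.ext (X.z_eq j).symm

lemma ι_eq_zero_iff (a : D.A) : X.ι a = 0 ↔ D.t ∣ a := by
  rw [← res_eq_zero_iff, ← X.coe_ι]
  exact ⟨fun h => by rw [h]; rfl, fun h => Subtype.ext h⟩

@[simp] lemma ι_t : X.ι D.t = 0 := (X.ι_eq_zero_iff _).2 dvd_rfl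

/-- the point of the model `D` -/
def pA (y : X.M.Pts) : Pt D.A := y.comp X.ι

@[simp] lemma pA_apply (y : X.M.Pts) (a : D.A) : X.pA y a = y (X.ι a) := rfl

lemma pA_t (y : X.M.Pts) : X.pA y D.t = 0 := by simp

lemma pA_succ (y : X.M.Pts) (j : Fin d) : X.pA y (D.w j.succ) = cp y j := by
  rw [pA_apply, X.ι_w]; rfl

end DivMdl

/-- existence of models of the divisor, with finitely many prescribed units; every sufficiently
divisible `h` is allowed -/
theorem exists_divMdl (h0 : D.i₀ = 0) (S : Finset D.A) :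
    ∃ g : MvPolynomial (Fin d) ℂ, g ≠ 0 ∧ ∀ h : MvPolynomial (Fin d) ℂ, h ≠ 0 → g ∣ h →
      ∃ X : DivMdl D, X.M.h = h ∧ ∀ s ∈ S, ¬ D.t ∣ s → IsUnit (X.ι s) := by
  classical
  obtain ⟨G, hG⟩ := D.ft.out
  obtain ⟨g, hg0, hg⟩ := exists_mdl (fun j : Fin d => res D (D.w j.succ))
    (isTranscendenceBasis_res D h0) ((G ∪ S).image (res D))
  refine ⟨g, hg0, fun h hh0 hgh => ?_⟩
  obtain ⟨M, hMh, hMz, hMS⟩ := hg h hh0 hgh
  have hmem : ∀ a : D.A, res D a ∈ M.B := by
    intro a
    have ha : a ∈ Algebra.adjoin ℂ (G : Set D.A) := by rw [hG]; trivial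
    have h1 : Algebra.adjoin ℂ (G : Set D.A) ≤ M.B.comap (res D) := by
      rw [Algebra.adjoin_le_iff]
      intro x hx
      refine (hMS (res D x) ?_).1
      exact Finset.mem_image_of_mem _ (Finset.mem_union_left _ hx)
    exact h1 ha
  let X : DivMdl D := ⟨M, hMz, hmem⟩
  refine ⟨X, hMh, fun s hs hts => ?_⟩
  have h1 := (hMS (res D s) (Finset.mem_image_of_mem _ (Finset.mem_union_right _ hs))).2
  have h2 : res D s ≠ 0 := fun h => hts ((res_eq_zero_iff D s).1 h)
  refine IsUnit.of_mul_eq_one (⟨(res D s)⁻¹, h1⟩ : M.B) ?_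
  apply Subtype.ext
  exact mul_inv_cancel₀ h2

end div

end Crest.Agent.R276.Bcq_828
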