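import Mathlib
import Crest.Agent.R276.BcqC_828

/-!
# R276, leaf BCQ (helper828), part D: sections of polynomial radius over the divisor

* `r0 h z = min 1 |h z| / (1 + |z|)`, `PB` polynomial bounds (in `1 / r0`) on the divisor;
* `QS D X S` : charts of the model `D` at all points of the divisor `X`, of radius `radf h c κ`;
  the elements of `S` have no zeros there; all values are polynomially bounded;
* `exists_QS`.
-/

set_option autoImplicit false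

noncomputable section

open Set Filter Topology Metric

namespace Crest.Agent.R276.Bcq_828

open Crest.Agent.R271.Defs710 Crest.Agent.R271.Rd692 Crest.Agent.R271.Alg255
open Crest.Agent.R271.Bd741 Crest.Agent.R271.Ho51
open Crest.Agent.R276.BC_986 Crest.Agent.R276.Mod1_987 Crest.Agent.R276.CntDefs_857

/-! ### the basic radius -/

/-- `min 1 |h z| / (1 + |z|)` -/
def r0 {d : ℕ} (h : MvPolynomial (Fin d) ℂ) (z : Fin d → ℂ) : ℝ :=
  min 1 ‖MvPolynomial.eval z h‖ / (1 + ‖z‖)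

lemma radf_eq {d : ℕ} (h : MvPolynomial (Fin d) ℂ) (c : ℝ) (κ : ℕ) (z : Fin d → ℂ) :
    radf h c κ z = c * r0 h z ^ κ := rfl

lemma r0_pos {d : ℕ} {h : MvPolynomial (Fin d) ℂ} {z : Fin d → ℂ}
    (hz : MvPolynomial.eval z h ≠ 0) : 0 < r0 h z := by
  unfold r0
  have := norm_pos_iff.2 hz
  positivity

lemma r0_nonneg {d : ℕ} (h : MvPolynomial (Fin d) ℂ) (z : Fin d → ℂ) : 0 ≤ r0 h z := by
  unfold r0
  positivity

lemma r0_le_one {d : ℕ} (h : MvPolynomial (Fin d) ℂ) (z : Fin d → ℂ) : r0 h z ≤ 1 := by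
  unfold r0
  rw [div_le_one (by positivity)]
  have := min_le_left 1 ‖MvPolynomial.eval z h‖
  have := norm_nonneg z
  linarith

lemma radf_mono {d : ℕ} {h : MvPolynomial (Fin d) ℂ} {c c' : ℝ} {κ κ' : ℕ} {z : Fin d → ℂ}
    (hc0 : 0 ≤ c') (hc : c' ≤ c) (hκ : κ ≤ κ') : radf h c' κ' z ≤ radf h c κ z := by
  rw [radf_eq, radf_eq]
  have h1 := pow_le_pow_of_le_one (r0_nonneg h z) (r0_le_one h z) hκ
  have h2 : 0 ≤ r0 h z ^ κ := pow_nonneg (r0_nonneg h z) κ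
  have h3 : 0 ≤ r0 h z ^ κ' := pow_nonneg (r0_nonneg h z) κ'
  calc c' * r0 h z ^ κ' ≤ c' * r0 h z ^ κ := by gcongr
    _ ≤ c * r0 h z ^ κ := by gcongr

/-! ### polynomial bounds -/

section pb

variable {L : Type} [Field L] [Algebra ℂ L] {d : ℕ} (M : Mdl L d)

/-- the basic radius at a point -/
def rr (y : M.Pts) : ℝ := r0 M.h (cp y)

lemma rr_pos (y : M.Pts) : 0 < rr M y := r0_pos (M.eval_h_ne y)

lemma rr_le_one (y : M.Pts) : rr M y ≤ 1 := r0_le_one _ _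

/-- polynomial bound in `1 / rr` -/
def PB (φ : M.Pts → ℝ) : Prop := ∃ (C : ℝ) (k : ℕ), 0 < C ∧ ∀ y, φ y * rr M y ^ k ≤ C

variable {M} {φ ψ : M.Pts → ℝ}

lemma PB.const (c : ℝ) : PB M fun _ => c :=
  ⟨|c| + 1, 0, by positivity, fun y => by rw [pow_zero, mul_one]; linarith [le_abs_self c]⟩

lemma PB.mono (hψ : PB M ψ) (h : ∀ y, φ y ≤ ψ y) : PB M φ := by
  obtain ⟨C, k, hC, h1⟩ := hψ
  refine ⟨C, k, hC, fun y => le_trans ?_ (h1 y)⟩
  exact mul_le_mul_of_nonneg_right (h y) (pow_nonneg (rr_pos M y).le k)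

/-- raise the exponent -/
lemma PB.raise {C : ℝ} {k l : ℕ} (hC : 0 ≤ C) (hkl : k ≤ l) {y : M.Pts}
    (h : φ y * rr M y ^ k ≤ C) : φ y * rr M y ^ l ≤ C := by
  obtain ⟨m, rfl⟩ := Nat.exists_eq_add_of_le hkl
  have h1 : rr M y ^ m ≤ 1 := pow_le_one₀ (rr_pos M y).le (rr_le_one M y)
  have h2 : 0 ≤ rr M y ^ m := pow_nonneg (rr_pos M y).le m
  calc φ y * rr M y ^ (k + m) = (φ y * rr M y ^ k) * rr M y ^ m := by rw [pow_add]; ring
    _ ≤ C * rr M y ^ m := by gcongr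
    _ ≤ C * 1 := by gcongr
    _ = C := mul_one C

lemma PB.add (hφ : PB M φ) (hψ : PB M ψ) : PB M fun y => φ y + ψ y := by
  obtain ⟨C, k, hC, h1⟩ := hφ
  obtain ⟨C', k', hC', h2⟩ := hψ
  refine ⟨C + C', k + k', by positivity, fun y => ?_⟩
  have e1 := PB.raise (φ := φ) hC.le (Nat.le_add_right k k') (h1 y)
  have e2 := PB.raise (φ := ψ) hC'.le (Nat.le_add_left k' k) (h2 y)
  rw [add_mul]
  linarith

lemma PB.mul (hφ : PB M φ) (hψ : PB M ψ) (h0 : ∀ y, 0 ≤ ψ y) : PB M fun y => φ y * ψ y := by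
  obtain ⟨C, k, hC, h1⟩ := hφ
  obtain ⟨C', k', hC', h2⟩ := hψ
  refine ⟨C * C', k + k', by positivity, fun y => ?_⟩
  have e1 : 0 ≤ ψ y * rr M y ^ k' := mul_nonneg (h0 y) (pow_nonneg (rr_pos M y).le _)
  calc φ y * ψ y * rr M y ^ (k + k') = (φ y * rr M y ^ k) * (ψ y * rr M y ^ k') := by
        rw [pow_add]; ring
    _ ≤ C * (ψ y * rr M y ^ k') := by gcongr; exact h1 y
    _ ≤ C * C' := by gcongr; exact h2 y

lemma PB.pow (hφ : PB M φ) (h0 : ∀ y, 0 ≤ φ y) (k : ℕ) : PB M fun y => φ y ^ k := by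
  induction k with
  | zero => simpa using PB.const (M := M) 1
  | succ k ih => simp only [pow_succ]; exact ih.mul hφ h0

lemma PB.sum {ι : Type*} (s : Finset ι) {f : ι → M.Pts → ℝ} (h : ∀ i ∈ s, PB M (f i)) :
    PB M fun y => ∑ i ∈ s, f i y := by
  classical
  induction s using Finset.induction_on with
  | empty => simpa using PB.const (M := M) 0
  | insert a s ha ih =>
    simp only [Finset.sum_insert ha]
    exact (h a (by simp)).add (ih fun i hi => h i (by simp [hi]))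

variable (M) in
/-- values of regular functions are polynomially bounded -/
theorem PB_val (b : M.B) : PB M fun y => ‖y b‖ := by
  obtain ⟨C, k, l, hC, h⟩ := M.growth b
  refine ⟨C * (d + 1) ^ k + 1, 2 * k + l, by positivity, fun y => ?_⟩
  have h1 := h y
  set H := ‖MvPolynomial.eval (M.pz y) M.h‖ with hH
  set Z := 1 + ‖(cp y : Fin d → ℂ)‖ with hZ
  have hZ1 : 1 ≤ Z := by have := norm_nonneg (cp y : Fin d → ℂ); linarith
  have hH0 : 0 < H := norm_pos_iff.2 (M.eval_h_ne y)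
  have hr : rr M y = min 1 H / Z := rfl
  have hm0 : 0 < min 1 H := lt_min one_pos hH0
  have h2 : 1 + ∑ i, ‖y (M.z i)‖ ^ 2 ≤ (d + 1) * Z ^ 2 := by
    have h3 : ∀ i : Fin d, ‖y (M.z i)‖ ^ 2 ≤ Z ^ 2 := by
      intro i
      have h4 : ‖y (M.z i)‖ ≤ Z := by
        have := norm_le_pi_norm (cp y : Fin d → ℂ) i
        have h5 : (cp y : Fin d → ℂ) i = y (M.z i) := rfl
        rw [h5] at this
        linarith
      gcongr
    calc 1 + ∑ i, ‖y (M.z i)‖ ^ 2 ≤ Z ^ 2 + ∑ _i : Fin d, Z ^ 2 :=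
          add_le_add (by nlinarith) (Finset.sum_le_sum fun i _ => h3 i)
      _ = (d + 1) * Z ^ 2 := by
          rw [Finset.sum_const, Finset.card_univ, Fintype.card_fin, nsmul_eq_mul]; ring
  have h3 : H ^ l * ‖y b‖ ≤ C * ((d + 1) * Z ^ 2) ^ k := by
    refine h1.trans ?_
    have : 0 ≤ 1 + ∑ i, ‖y (M.z i)‖ ^ 2 := by positivity
    gcongr
  have h4 : (min 1 H) ^ l * ‖y b‖ ≤ C * ((d + 1) * Z ^ 2) ^ k := by
    refine le_trans ?_ h3
    gcongr
    exact min_le_right _ _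
  have h5 : (min 1 H) ^ (2 * k) ≤ 1 := pow_le_one₀ hm0.le (min_le_left _ _)
  have h6 : 1 ≤ Z ^ l := one_le_pow₀ hZ1
  rw [hr, div_pow, ← mul_div_assoc, div_le_iff₀ (by positivity)]
  calc ‖y b‖ * min 1 H ^ (2 * k + l) = min 1 H ^ (2 * k) * (min 1 H ^ l * ‖y b‖) := by
        rw [pow_add]; ring
    _ ≤ 1 * (C * ((d + 1) * Z ^ 2) ^ k) := by gcongr
    _ = C * (d + 1) ^ k * Z ^ (2 * k) * 1 := by rw [mul_pow, ← pow_mul]; ring
    _ ≤ C * (d + 1) ^ k * Z ^ (2 * k) * Z ^ l := by gcongr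
    _ = C * (d + 1) ^ k * Z ^ (2 * k + l) := by rw [pow_add]; ring
    _ ≤ (C * (d + 1) ^ k + 1) * Z ^ (2 * k + l) := by gcongr; linarith

/-- a unit is polynomially bounded from below -/
theorem PB_unit {b : M.B} (hb : IsUnit b) : PB M fun y => ‖y b‖⁻¹ := by
  obtain ⟨u, rfl⟩ := hb
  refine (PB_val M (u⁻¹ : M.Bˣ)).mono fun y => le_of_eq ?_
  rw [← norm_inv]
  congr 1
  apply inv_eq_of_mul_eq_one_right
  rw [← map_mul, ← Units.val_mul, mul_inv_cancel, Units.val_one, map_one]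

/-- small radii -/
theorem PB.rad (hφ : PB M φ) {ε : ℝ} (hε : 0 < ε) : ∃ (c₀ : ℝ) (κ₀ : ℕ), 0 < c₀ ∧
    ∀ (c : ℝ) (κ : ℕ), 0 ≤ c → c ≤ c₀ → κ₀ ≤ κ → ∀ y, radf M.h c κ (cp y) * φ y ≤ ε := by
  obtain ⟨C, k, hC, h⟩ := hφ
  refine ⟨ε / C, k, by positivity, fun c κ hc0 hc hκ y => ?_⟩
  have h1 := PB.raise (φ := φ) hC.le hκ (h y)
  rw [radf_eq]
  calc c * r0 M.h (cp y) ^ κ * φ y = c * (φ y * rr M y ^ κ) := by rw [rr]; ring
    _ ≤ c * C := by gcongr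
    _ ≤ ε / C * C := by gcongr
    _ = ε := by field_simp

lemma rr_pow_le_of_rad {c : ℝ} {κ k : ℕ} (hc1 : c ≤ 1) (hκ : 1 ≤ κ) {y : M.Pts} :
    radf M.h c κ (cp y) ^ k ≤ rr M y ^ k ∨ c < 0 := by
  rcases lt_or_ge c 0 with h | h
  · exact Or.inr h
  · left
    have h1 : radf M.h c κ (cp y) ≤ rr M y := by
      rw [radf_eq]
      calc c * r0 M.h (cp y) ^ κ ≤ 1 * r0 M.h (cp y) ^ 1 := by
            apply mul_le_mul hc1 (pow_le_pow_of_le_one (r0_nonneg _ _) (r0_le_one _ _) hκ)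
              (pow_nonneg (r0_nonneg _ _) _) zero_le_one
        _ = rr M y := by rw [one_mul, pow_one]; rfl
    have h2 : 0 ≤ radf M.h c κ (cp y) := by
      rw [radf_eq]; exact mul_nonneg h (pow_nonneg (r0_nonneg _ _) _)
    exact pow_le_pow_left₀ h2 h1 k

end pb

/-! ### Lipschitz estimate in a chart -/

section lip

variable {n : ℕ} {A : Type} [CommRing A] [Algebra ℂ A] {w : Fin n → A}

theorem chart_lip (het : RingHom.Etale ((MvPolynomial.aeval w :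
    MvPolynomial (Fin n) ℂ →ₐ[ℂ] A) : MvPolynomial (Fin n) ℂ →+* A)) {N : ℕ} {a : Fin N → A}
    (ha : Algebra.adjoin ℂ (Set.range a) = ⊤) (f : A) :
    ∃ (M : ℝ) (κ : ℕ), 0 ≤ M ∧ ∀ (y : Pt A) (C : Chart w y),
      (∀ ζ ∈ ball (0 : Cn n) C.r, oz a (C.s ζ) ≤ 2 * oz a y) →
      ∀ ζ ∈ ball (0 : Cn n) C.r, ‖C.s ζ f - y f‖ ≤ ‖ζ‖ * (M * oz a y ^ κ) := by
  obtain ⟨Δ, hΔ⟩ := exists_coord_deriv w het
  obtain ⟨M, κ, hM0, hM⟩ := PG_unif (ι := Fin n) (fun j => Δ j f) (fun j => PG_all ha _)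
  refine ⟨n * M * 2 ^ κ, κ, by positivity, fun y C hC ζ hζ => ?_⟩
  have hζr : ‖ζ‖ < C.r := by simpa using hζ
  have hmem : ∀ t ∈ Icc (0 : ℝ) 1, t • ζ ∈ ball (0 : Cn n) C.r := by
    intro t ht
    rw [mem_ball_zero_iff, norm_smul, Real.norm_of_nonneg ht.1]
    calc t * ‖ζ‖ ≤ 1 * ‖ζ‖ := by gcongr; exact ht.2
      _ < C.r := by rw [one_mul]; exact hζr
  have h1 : ∀ t ∈ Icc (0 : ℝ) 1, HasDerivWithinAt (fun t : ℝ => C.s (t • ζ) f)
      (∑ j, ζ j * C.s (t • ζ) (Δ j f)) (Icc 0 1) t := fun t ht =>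
    (hasDerivAt_ray het Δ hΔ C (hmem t ht) f).hasDerivWithinAt
  have h2 : ∀ t ∈ Ico (0 : ℝ) 1, ‖∑ j, ζ j * C.s (t • ζ) (Δ j f)‖ ≤
      ‖ζ‖ * (n * M * 2 ^ κ * oz a y ^ κ) := by
    intro t ht
    have h3 : ∀ j, ‖ζ j * C.s (t • ζ) (Δ j f)‖ ≤ ‖ζ‖ * (M * (2 * oz a y) ^ κ) := by
      intro j
      rw [norm_mul]
      have h5 : ‖C.s (t • ζ) (Δ j f)‖ ≤ M * (2 * oz a y) ^ κ := by
        refine (hM j _).trans ?_
        have h6 := hC _ (hmem t ⟨ht.1, ht.2.le⟩)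
        have h7 : 0 ≤ oz a (C.s (t • ζ)) := zero_le_one.trans (one_le_oz _ _)
        gcongr
      exact mul_le_mul (norm_le_pi_norm ζ j) h5 (norm_nonneg _) (norm_nonneg _)
    calc ‖∑ j, ζ j * C.s (t • ζ) (Δ j f)‖
        ≤ ∑ j : Fin n, ‖ζ‖ * (M * (2 * oz a y) ^ κ) := norm_sum_le_of_le _ fun j _ => h3 j
      _ = _ := by
        rw [Finset.sum_const, Finset.card_univ, Fintype.card_fin, nsmul_eq_mul, mul_pow]; ring
  have h3 := norm_image_sub_le_of_norm_deriv_le_segment' h1 h2 1 ⟨zero_le_one, le_rfl⟩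
  simp only [zero_smul, one_smul, C.s_zero, sub_zero, mul_one] at h3
  exact h3

/-- the chart with a smaller radius -/
def chShrink {y : Pt A} (C : Chart w y) (ρ : ℝ) (hρ : 0 < ρ) (h : ρ ≤ C.r) : Chart w y where
  r := ρ
  r_pos := hρ
  s := C.s
  s_zero := C.s_zero
  s_z := fun ζ hζ => C.s_z ζ (ball_subset_ball h hζ)
  anal := fun b ζ hζ => C.anal b ζ (ball_subset_ball h hζ)
  surj := C.surj

@[simp] lemma chShrink_s {y : Pt A} (C : Chart w y) (ρ : ℝ) (hρ : 0 < ρ) (h : ρ ≤ C.r) :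
    (chShrink C ρ hρ h).s = C.s := rfl

@[simp] lemma chShrink_r {y : Pt A} (C : Chart w y) (ρ : ℝ) (hρ : 0 < ρ) (h : ρ ≤ C.r) :
    (chShrink C ρ hρ h).r = ρ := rfl

end lip

/-! ### sections over the divisor -/

section qs

variable {d : ℕ} {K : Type} [Field K] [Algebra ℂ K] {D : DivModel (d + 1) K}

/-- sections of polynomial radius over the divisor -/
structure QS (D : DivModel (d + 1) K) (X : DivMdl D) (S : Finset D.A) where
  c : ℝ
  c_pos : 0 < c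
  c_le : c ≤ 1
  κ : ℕ
  κ_pos : 1 ≤ κ
  /-- the charts of the model at the points of the divisor -/
  ch : ∀ y : X.M.Pts, Chart D.w (X.pA y)
  r_eq : ∀ y, (ch y).r = radf X.M.h c κ (cp y)
  hball : ∀ y : X.M.Pts, ∀ v ∈ ball (cp y) (radf X.M.h c κ (cp y)), MvPolynomial.eval v X.M.h ≠ 0
  unit : ∀ u ∈ S, IsUnit (X.ι u)
  low : ∀ u ∈ S, ∀ y, ∀ ζ ∈ ball (0 : Cn (d + 1)) (ch y).r, ‖X.pA y u‖ / 2 ≤ ‖(ch y).s ζ u‖
  up : ∀ a : D.A, ∃ (C : ℝ) (k : ℕ), 0 < C ∧ ∀ y, ∀ ζ ∈ ball (0 : Cn (d + 1)) (ch y).r,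
    ‖(ch y).s ζ a‖ * rr X.M y ^ k ≤ C

/-- existence of the sections -/
theorem exists_QS (X : DivMdl D) (S : Finset D.A) (hS : ∀ s ∈ S, IsUnit (X.ι s)) :
    Nonempty (QS D X S) := by
  classical
  obtain ⟨N, a, ha⟩ := exists_gens D.ft
  obtain ⟨N', a', ha'⟩ := exists_gens X.M.ft
  obtain ⟨cA, κA, hcA, -, hA⟩ := exists_qchart D.etale a ha
  obtain ⟨cB, κB, hcB, -, hB⟩ := exists_qchart X.M.het a' ha'
  -- the growth functions
  have hozA : PB X.M fun y => oz a (X.pA y) := by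
    unfold oz
    refine (PB.const 1).add (PB.sum _ fun i _ => ?_)
    exact (PB_val X.M (X.ι (a i))).pow (fun _ => norm_nonneg _) 2
  have hozB : PB X.M fun y => oz a' y := by
    unfold oz
    refine (PB.const 1).add (PB.sum _ fun i _ => ?_)
    exact (PB_val X.M (a' i)).pow (fun _ => norm_nonneg _) 2
  have hozA0 : ∀ y, 0 ≤ oz a (X.pA y) := fun y => zero_le_one.trans (one_le_oz _ _)
  have hozB0 : ∀ y : X.M.Pts, 0 ≤ oz a' y := fun y => zero_le_one.trans (one_le_oz _ _)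
  obtain ⟨c1, κ1, hc1, h1⟩ := (hozA.pow hozA0 κA).rad hcA
  obtain ⟨c2, κ2, hc2, h2⟩ := (hozB.pow hozB0 κB).rad hcB
  choose Mf κf hMf0 hMf using chart_lip D.etale ha
  have hlow : PB X.M fun y => ∑ u ∈ S, (Mf u * oz a (X.pA y) ^ κf u) * ‖X.pA y u‖⁻¹ := by
    refine PB.sum _ fun u hu => ?_
    refine PB.mul ?_ (PB_unit (hS u hu)) (fun _ => by positivity)
    exact (PB.const (Mf u)).mul (hozA.pow hozA0 _) (fun y => pow_nonneg (hozA0 y) _)
  obtain ⟨c3, κ3, hc3, h3⟩ := hlow.rad (ε := 1 / 2) (by norm_num)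
  set c := min 1 (min c1 (min c2 c3)) with hc
  set κ := 1 + κ1 + κ2 + κ3 with hκ
  have hc0 : 0 < c := lt_min one_pos (lt_min hc1 (lt_min hc2 hc3))
  have e1 : c ≤ c1 := (min_le_right _ _).trans (min_le_left _ _)
  have e2 : c ≤ c2 := (min_le_right _ _).trans ((min_le_right _ _).trans (min_le_left _ _))
  have e3 : c ≤ c3 := (min_le_right _ _).trans ((min_le_right _ _).trans (min_le_right _ _))
  have hrad0 : ∀ y : X.M.Pts, 0 < radf X.M.h c κ (cp y) := fun y => by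
    rw [radf_eq]; exact mul_pos hc0 (pow_pos (rr_pos X.M y) _)
  have hchart : ∀ y : X.M.Pts, ∃ C : Chart D.w (X.pA y), C.r = radf X.M.h c κ (cp y) ∧
      ∀ ζ ∈ ball (0 : Cn (d + 1)) C.r, oz a (C.s ζ) ≤ 2 * oz a (X.pA y) := fun y =>
    hA (X.pA y) _ (hrad0 y) (h1 c κ hc0.le e1 (by omega) y)
  choose C hCr hC2 using hchart
  refine ⟨⟨c, hc0, min_le_left _ _, κ, by omega, C, hCr, ?_, hS, ?_, ?_⟩⟩
  · intro y v hv
    obtain ⟨C', hC'r, -⟩ := hB y _ (hrad0 y) (h2 c κ hc0.le e2 (by omega) y)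
    have hv' : v - cp y ∈ ball (0 : Cn d) C'.r := by
      rw [hC'r, mem_ball_zero_iff, ← dist_eq_norm]
      exact hv
    have h4 : X.M.pz (C'.s (v - cp y)) = v := by
      change pr X.M.z (C'.s (v - cp y)) = v
      rw [chart_pr C' hv']
      change cp y + (v - cp y) = v
      abel
    rw [← h4]
    exact X.M.eval_h_ne _
  · intro u hu y ζ hζ
    have h4 := hMf u (X.pA y) (C y) (hC2 y) ζ hζ
    have hζr : ‖ζ‖ ≤ radf X.M.h c κ (cp y) := by
      have : ‖ζ‖ < (C y).r := by simpa using hζ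
      rw [← hCr]; exact this.le
    have h5 := h3 c κ hc0.le e3 (by omega) y
    have hu0 : X.pA y u ≠ 0 := ((hS u hu).map (y : X.M.B →+* ℂ)).ne_zero
    have hu1 : 0 < ‖X.pA y u‖ := norm_pos_iff.2 hu0
    have h6 : (Mf u * oz a (X.pA y) ^ κf u) * ‖X.pA y u‖⁻¹ ≤
        ∑ u ∈ S, (Mf u * oz a (X.pA y) ^ κf u) * ‖X.pA y u‖⁻¹ :=
      Finset.single_le_sum (f := fun u => (Mf u * oz a (X.pA y) ^ κf u) * ‖X.pA y u‖⁻¹)
        (fun u _ => mul_nonneg (mul_nonneg (hMf0 u) (pow_nonneg (hozA0 y) _)) (by positivity)) hu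
    have h7 : radf X.M.h c κ (cp y) * ((Mf u * oz a (X.pA y) ^ κf u) * ‖X.pA y u‖⁻¹) ≤ 1 / 2 :=
      le_trans (mul_le_mul_of_nonneg_left h6 (hrad0 y).le) h5
    have h8 : ‖ζ‖ * (Mf u * oz a (X.pA y) ^ κf u) ≤ ‖X.pA y u‖ / 2 := by
      have h9 : radf X.M.h c κ (cp y) * (Mf u * oz a (X.pA y) ^ κf u) ≤ ‖X.pA y u‖ / 2 := by
        have h10 : radf X.M.h c κ (cp y) * (Mf u * oz a (X.pA y) ^ κf u) =
            (radf X.M.h c κ (cp y) * ((Mf u * oz a (X.pA y) ^ κf u) * ‖X.pA y u‖⁻¹)) *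
              ‖X.pA y u‖ := by field_simp
        rw [h10]
        calc _ ≤ 1 / 2 * ‖X.pA y u‖ := by gcongr
          _ = _ := by ring
      refine le_trans ?_ h9
      exact mul_le_mul_of_nonneg_right hζr (mul_nonneg (hMf0 u) (pow_nonneg (hozA0 y) _))
    have h9 : ‖X.pA y u‖ ≤ ‖(C y).s ζ u‖ + ‖(C y).s ζ u - X.pA y u‖ := by
      have := norm_sub_norm_le (X.pA y u) ((C y).s ζ u)
      rw [norm_sub_rev] at this
      linarith
    linarith
  · intro b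
    obtain ⟨M, k, hM0, hM⟩ := PG_all ha b
    have h4 : PB X.M fun y => M * (2 * oz a (X.pA y)) ^ k := by
      refine (PB.const M).mul ?_ (fun y => pow_nonneg (by have := hozA0 y; linarith) _)
      exact ((PB.const 2).mul hozA hozA0).pow (fun y => by have := hozA0 y; linarith) _
    obtain ⟨C', k', hC', h5⟩ := h4
    refine ⟨C', k', hC', fun y ζ hζ => le_trans ?_ (h5 y)⟩
    have h6 : ‖(C y).s ζ b‖ ≤ M * (2 * oz a (X.pA y)) ^ k := by
      refine (hM _).trans ?_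
      have h7 := hC2 y ζ hζ
      have h8 : 0 ≤ oz a ((C y).s ζ) := zero_le_one.trans (one_le_oz _ _)
      gcongr
    exact mul_le_mul_of_nonneg_right h6 (pow_nonneg (rr_pos X.M y).le _)

end qs

end Crest.Agent.R276.Bcq_828
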