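import Mathlib
import Crest.Agent.R276.BcqD_828

/-!
# R276, leaf BCQ (helper828), part E: the boundary charts

* `QS.shrink`, `QS.compat` : smaller radii; compatibility of the sections;
* `QB Q B` : the points of `Hom(B,ℂ)` given by the sections (`B ⊆ K` of finite type);
* `QGood Q f a G` : `f = ζ₀^a G` with polynomial bounds of `G` and `1/G`.
-/

set_option autoImplicit false

noncomputable section

open Set Filter Topology Metric

namespace Crest.Agent.R276.Bcq_828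

open Crest.Agent.R271.Defs710 Crest.Agent.R271.Rd692 Crest.Agent.R271.Alg255
open Crest.Agent.R271.Bd741 Crest.Agent.R271.Ho51
open Crest.Agent.R276.BC_986 Crest.Agent.R276.Mod1_987 Crest.Agent.R276.CntDefs_857

variable {d : ℕ} {K : Type} [Field K] [Algebra ℂ K] {D : DivModel (d + 1) K}
  {X : DivMdl D} {S : Finset D.A}

namespace QS

variable (Q : QS D X S)

/-- the radius -/
def r (y : X.M.Pts) : ℝ := radf X.M.h Q.c Q.κ (cp y)

/-- the sections -/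
def s (y : X.M.Pts) : Cn (d + 1) → Pt D.A := (Q.ch y).s

lemma ch_r (y : X.M.Pts) : (Q.ch y).r = Q.r y := Q.r_eq y

lemma r_pos (y : X.M.Pts) : 0 < Q.r y := by rw [← ch_r]; exact (Q.ch y).r_pos

@[simp] lemma s_zero (y : X.M.Pts) : Q.s y 0 = X.pA y := (Q.ch y).s_zero

lemma s_z {y : X.M.Pts} {ζ : Cn (d + 1)} (hζ : ζ ∈ ball (0 : Cn (d + 1)) (Q.r y))
    (i : Fin (d + 1)) : Q.s y ζ (D.w i) = X.pA y (D.w i) + ζ i :=
  (Q.ch y).s_z ζ (by rw [ch_r]; exact hζ) i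

lemma s_t (h0 : D.i₀ = 0) {y : X.M.Pts} {ζ : Cn (d + 1)}
    (hζ : ζ ∈ ball (0 : Cn (d + 1)) (Q.r y)) : Q.s y ζ D.t = ζ 0 := by
  have h := Q.s_z hζ D.i₀
  have h1 : X.pA y (D.w D.i₀) = 0 := X.pA_t y
  rw [h1, zero_add, h0] at h
  rw [DivModel.t, h0]
  exact h

lemma s_succ {y : X.M.Pts} {ζ : Cn (d + 1)} (hζ : ζ ∈ ball (0 : Cn (d + 1)) (Q.r y))
    (j : Fin d) : Q.s y ζ (D.w j.succ) = cp y j + ζ j.succ := by
  rw [Q.s_z hζ, X.pA_succ]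

lemma anal (y : X.M.Pts) (a : D.A) :
    AnalyticOnNhd ℂ (fun ζ => Q.s y ζ a) (ball (0 : Cn (d + 1)) (Q.r y)) := by
  rw [← ch_r]; exact (Q.ch y).anal a

lemma low' {u : D.A} (hu : u ∈ S) (y : X.M.Pts) {ζ : Cn (d + 1)}
    (hζ : ζ ∈ ball (0 : Cn (d + 1)) (Q.r y)) : ‖X.pA y u‖ / 2 ≤ ‖Q.s y ζ u‖ :=
  Q.low u hu y ζ (by rw [ch_r]; exact hζ)

include Q in
lemma pA_ne {u : D.A} (hu : u ∈ S) (y : X.M.Pts) : X.pA y u ≠ 0 :=
  ((Q.unit u hu).map (y : X.M.B →+* ℂ)).ne_zero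

lemma ne {u : D.A} (hu : u ∈ S) (y : X.M.Pts) {ζ : Cn (d + 1)}
    (hζ : ζ ∈ ball (0 : Cn (d + 1)) (Q.r y)) : Q.s y ζ u ≠ 0 := by
  have h1 := Q.low' hu y hζ
  have h2 := norm_pos_iff.2 (Q.pA_ne hu y)
  exact norm_pos_iff.1 (lt_of_lt_of_le (by linarith) h1)

lemma up' (a : D.A) : ∃ (C : ℝ) (k : ℕ), 0 < C ∧ ∀ y, ∀ ζ ∈ ball (0 : Cn (d + 1)) (Q.r y),
    ‖Q.s y ζ a‖ * rr X.M y ^ k ≤ C := by
  obtain ⟨C, k, hC, h⟩ := Q.up a
  exact ⟨C, k, hC, fun y ζ hζ => h y ζ (by rw [ch_r]; exact hζ)⟩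

lemma low_inv {u : D.A} (hu : u ∈ S) : ∃ (C : ℝ) (k : ℕ), 0 < C ∧
    ∀ y, ∀ ζ ∈ ball (0 : Cn (d + 1)) (Q.r y), ‖Q.s y ζ u‖⁻¹ * rr X.M y ^ k ≤ C := by
  obtain ⟨C, k, hC, h⟩ := PB_unit (Q.unit u hu)
  refine ⟨2 * C, k, by positivity, fun y ζ hζ => ?_⟩
  have h1 := Q.low' hu y hζ
  have h2 : 0 < ‖X.pA y u‖ := norm_pos_iff.2 (Q.pA_ne hu y)
  have h3 : ‖Q.s y ζ u‖⁻¹ ≤ 2 * ‖X.pA y u‖⁻¹ := by
    calc ‖Q.s y ζ u‖⁻¹ ≤ (‖X.pA y u‖ / 2)⁻¹ := inv_anti₀ (by positivity) h1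
      _ = 2 * ‖X.pA y u‖⁻¹ := by field_simp
  have h4 : 0 ≤ rr X.M y ^ k := pow_nonneg (rr_pos X.M y).le k
  calc ‖Q.s y ζ u‖⁻¹ * rr X.M y ^ k ≤ 2 * ‖X.pA y u‖⁻¹ * rr X.M y ^ k := by gcongr
    _ = 2 * (‖X.pA y u‖⁻¹ * rr X.M y ^ k) := by ring
    _ ≤ 2 * C := by gcongr; exact h y

lemma radf_le_ch {c : ℝ} {κ : ℕ} (hc0 : 0 < c) (hc : c ≤ Q.c) (hκ : Q.κ ≤ κ) (y : X.M.Pts) :
    radf X.M.h c κ (cp y) ≤ (Q.ch y).r := by
  rw [Q.r_eq]; exact radf_mono hc0.le hc hκ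

lemma _root_.Crest.Agent.R276.Bcq_828.radf_pos {L : Type} [Field L] [Algebra ℂ L] {M : Mdl L d}
    {c : ℝ} (hc0 : 0 < c) (κ : ℕ) (y : M.Pts) : 0 < radf M.h c κ (cp y) := by
  rw [radf_eq]
  exact mul_pos hc0 (pow_pos (r0_pos (M.eval_h_ne y)) _)

/-- smaller radii -/
def shrink (c : ℝ) (κ : ℕ) (hc0 : 0 < c) (hc : c ≤ Q.c) (hκ : Q.κ ≤ κ) : QS D X S where
  c := c
  c_pos := hc0
  c_le := hc.trans Q.c_le
  κ := κ
  κ_pos := Q.κ_pos.trans hκ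
  ch y := chShrink (Q.ch y) (radf X.M.h c κ (cp y)) (radf_pos hc0 κ y)
    (Q.radf_le_ch hc0 hc hκ y)
  r_eq y := rfl
  hball y := fun v hv => Q.hball y v (ball_subset_ball (radf_mono hc0.le hc hκ) hv)
  unit := Q.unit
  low u hu y := fun ζ hζ => Q.low u hu y ζ (ball_subset_ball (Q.radf_le_ch hc0 hc hκ y) hζ)
  up a := by
    obtain ⟨C, k, hC, h⟩ := Q.up a
    exact ⟨C, k, hC, fun y ζ hζ => h y ζ (ball_subset_ball (Q.radf_le_ch hc0 hc hκ y) hζ)⟩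

lemma shrink_s (c : ℝ) (κ : ℕ) (hc0 : 0 < c) (hc : c ≤ Q.c) (hκ : Q.κ ≤ κ) (y : X.M.Pts) :
    (Q.shrink c κ hc0 hc hκ).s y = Q.s y := rfl

lemma shrink_r (c : ℝ) (κ : ℕ) (hc0 : 0 < c) (hc : c ≤ Q.c) (hκ : Q.κ ≤ κ) (y : X.M.Pts) :
    (Q.shrink c κ hc0 hc hκ).r y = radf X.M.h c κ (cp y) := rfl

lemma shrink_r_le (c : ℝ) (κ : ℕ) (hc0 : 0 < c) (hc : c ≤ Q.c) (hκ : Q.κ ≤ κ) (y : X.M.Pts) :
    (Q.shrink c κ hc0 hc hκ).r y ≤ Q.r y := radf_mono hc0.le hc hκ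

/-! ### compatibility -/

lemma pr_pA (h0 : D.i₀ = 0) (y : X.M.Pts) :
    pr D.w (X.pA y) = Fin.cons (0 : ℂ) (cp y : Fin d → ℂ) := by
  funext i
  refine Fin.cases ?_ (fun j => ?_) i
  · rw [Fin.cons_zero, pr_apply]
    have := X.pA_t y
    rwa [DivModel.t, h0] at this
  · rw [Fin.cons_succ, pr_apply, X.pA_succ]

lemma isSec (y : X.M.Pts) : IsSec (pr D.w) (ball (pr D.w (X.pA y)) (Q.r y))
    (fun v => Q.s y (v - pr D.w (X.pA y))) := by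
  have hmem : ∀ v ∈ ball (pr D.w (X.pA y)) (Q.r y),
      v - pr D.w (X.pA y) ∈ ball (0 : Cn (d + 1)) (Q.ch y).r := by
    intro v hv
    rw [ch_r, mem_ball_zero_iff, ← dist_eq_norm]
    exact hv
  refine ⟨fun v hv => ?_, fun v hv => ?_⟩
  · have h1 := chart_continuousAt (Q.ch y) (hmem v hv)
    have h2 : ContinuousAt (fun v : Cn (d + 1) => v - pr D.w (X.pA y)) v := by fun_prop
    exact (ContinuousAt.comp (g := ((Q.ch y).s : Cn (d + 1) → Pt D.A))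
      (f := fun v : Cn (d + 1) => v - pr D.w (X.pA y)) h1 h2).continuousWithinAt
  · change pr D.w ((Q.ch y).s (v - pr D.w (X.pA y))) = v
    rw [chart_pr (Q.ch y) (hmem v hv)]
    abel

/-- the section at `y` restricted to the divisor -/
lemma s_divisor (h0 : D.i₀ = 0) {y : X.M.Pts} {e : OpenPartialHomeomorph X.M.Pts (Fin d → ℂ)}
    (he : IsCh e) (hy : y ∈ e.source) (het : e.target = ball (cp y) (Q.r y)) {y' : X.M.Pts}
    (hy' : y' ∈ e.source) : Q.s y (Fin.cons 0 (cp y' - cp y)) = X.pA y' := by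
  have hch : ∀ y : Pt D.A, Nonempty (Chart D.w y) := fun y => nonempty_chart D.w D.etale y
  have hlh := isLocalHomeomorph_pr hch
  have hmem : ∀ v ∈ ball (cp y : Fin d → ℂ) (Q.r y),
      (Fin.cons (0 : ℂ) (v - cp y) : Cn (d + 1)) ∈ ball (0 : Cn (d + 1)) (Q.ch y).r := by
    intro v hv
    rw [ch_r, mem_ball_zero_iff, pi_norm_lt_iff (Q.r_pos y)]
    intro i
    refine Fin.cases ?_ (fun j => ?_) i
    · rw [Fin.cons_zero, norm_zero]; exact Q.r_pos y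
    · rw [Fin.cons_succ]
      rw [mem_ball, dist_eq_norm] at hv
      exact (norm_le_pi_norm _ j).trans_lt hv
  have hcons : Continuous fun v : Fin d → ℂ => (Fin.cons (0 : ℂ) (v - cp y) : Cn (d + 1)) := by
    apply continuous_pi
    intro i
    refine Fin.cases ?_ (fun j => ?_) i
    · simp only [Fin.cons_zero]; exact continuous_const
    · simp only [Fin.cons_succ]; fun_prop
  have h1 : EqOn (fun v : Fin d → ℂ => Q.s y (Fin.cons 0 (v - cp y)))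
      (fun v => X.pA (e.symm v)) (ball (cp y) (Q.r y)) := by
    refine (T2Space.isSeparatedMap (pr D.w)).eqOn_of_comp_eqOn hlh.isLocallyInjective
      (convex_ball (cp y : Fin d → ℂ) (Q.r y)).isPreconnected ?_ ?_ ?_
      (mem_ball_self (Q.r_pos y)) ?_
    · intro v hv
      have h2 := chart_continuousAt (Q.ch y) (hmem v hv)
      exact (ContinuousAt.comp (g := ((Q.ch y).s : Cn (d + 1) → Pt D.A))
        (f := fun v : Fin d → ℂ => (Fin.cons (0 : ℂ) (v - cp y) : Cn (d + 1))) h2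
        hcons.continuousAt).continuousWithinAt
    · have h2 : ContinuousOn e.symm (ball (cp y) (Q.r y)) := by
        rw [← het]; exact e.symm.continuousOn
      rw [continuousOn_iff_ev]
      intro a
      exact (continuous_ev (X.ι a)).comp_continuousOn h2
    · intro v hv
      have h2 : pr D.w (Q.s y (Fin.cons 0 (v - cp y))) =
          pr D.w (X.pA y) + Fin.cons 0 (v - cp y) := chart_pr (Q.ch y) (hmem v hv)
      have h3 : cp (e.symm v) = v := he.cp_symm (by rw [het]; exact hv)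
      simp only [Function.comp_apply]
      rw [h2, pr_pA h0, pr_pA h0, h3]
      funext i
      refine Fin.cases ?_ (fun j => ?_) i
      · simp
      · simp
    · have h2 : (Fin.cons (0 : ℂ) (cp y - cp y : Fin d → ℂ) : Cn (d + 1)) = 0 := by
        funext i
        refine Fin.cases ?_ (fun j => ?_) i
        · simp
        · simp
      change Q.s y (Fin.cons 0 (cp y - cp y)) = X.pA (e.symm (cp y))
      rw [h2, Q.s_zero, he.symm_cp hy]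
  have h2 : cp y' ∈ ball (cp y : Fin d → ℂ) (Q.r y) := by
    rw [← het]; exact he.cp_mem hy'
  have h3 := h1 h2
  simp only at h3
  rw [h3, he.symm_cp hy']

/-- **compatibility of the sections** -/
theorem compat (h0 : D.i₀ = 0) {y : X.M.Pts} {e : OpenPartialHomeomorph X.M.Pts (Fin d → ℂ)}
    (he : IsCh e) (hy : y ∈ e.source) (het : e.target = ball (cp y) (Q.r y)) {y' : X.M.Pts}
    (hy' : y' ∈ e.source) {q : Cn (d + 1)} (hq : q ∈ ball (0 : Cn (d + 1)) (Q.r y'))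
    (hq' : q + Fin.cons 0 (cp y' - cp y) ∈ ball (0 : Cn (d + 1)) (Q.r y)) :
    Q.s y' q = Q.s y (q + Fin.cons 0 (cp y' - cp y)) := by
  have hch : ∀ y : Pt D.A, Nonempty (Chart D.w y) := fun y => nonempty_chart D.w D.etale y
  have hlh := isLocalHomeomorph_pr hch
  have hdiff : pr D.w (X.pA y') - pr D.w (X.pA y) =
      (Fin.cons (0 : ℂ) (cp y' - cp y : Fin d → ℂ) : Cn (d + 1)) := by
    rw [pr_pA h0, pr_pA h0]
    funext i
    refine Fin.cases ?_ (fun j => ?_) i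
    · simp
    · simp
  have hy'b : pr D.w (X.pA y') ∈ ball (pr D.w (X.pA y)) (Q.r y) := by
    rw [mem_ball, dist_eq_norm, hdiff, pi_norm_lt_iff (Q.r_pos y)]
    have h2 : cp y' ∈ ball (cp y : Fin d → ℂ) (Q.r y) := by
      rw [← het]; exact he.cp_mem hy'
    rw [mem_ball, dist_eq_norm] at h2
    intro i
    refine Fin.cases ?_ (fun j => ?_) i
    · rw [Fin.cons_zero, norm_zero]; exact Q.r_pos y
    · rw [Fin.cons_succ]
      exact (norm_le_pi_norm _ j).trans_lt h2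
  have h1 := IsSec.eqOn hlh (S := ball (pr D.w (X.pA y')) (Q.r y') ∩
      ball (pr D.w (X.pA y)) (Q.r y))
    ((convex_ball _ _).inter (convex_ball _ _)).isPreconnected
    ((Q.isSec y').mono inter_subset_left) ((Q.isSec y).mono inter_subset_right)
    (w₀ := pr D.w (X.pA y')) ⟨mem_ball_self (Q.r_pos y'), hy'b⟩ (by
      simp only [sub_self, s_zero]
      rw [hdiff]
      exact (Q.s_divisor h0 he hy het hy').symm)
  have h2 : pr D.w (X.pA y') + q ∈ ball (pr D.w (X.pA y')) (Q.r y') ∩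
      ball (pr D.w (X.pA y)) (Q.r y) := by
    constructor
    · rw [mem_ball, dist_eq_norm, add_sub_cancel_left]
      simpa using hq
    · rw [mem_ball, dist_eq_norm]
      have h3 : pr D.w (X.pA y') + q - pr D.w (X.pA y) =
          q + Fin.cons 0 (cp y' - cp y) := by rw [← hdiff]; abel
      rw [h3]
      simpa using hq'
  have h3 := h1 h2
  simp only [add_sub_cancel_left] at h3
  rw [h3]
  congr 1
  rw [← hdiff]
  abel

end QS

/-! ### good rational functions -/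

/-- `f = ζ₀^a G_y(ζ)`, `G_y` holomorphic on the polydisc, `G_y` and `1 / G_y` polynomially
bounded -/
structure QGood (Q : QS D X S) (f : K) (a : ℤ) (G : X.M.Pts → Cn (d + 1) → ℂ) : Prop where
  anal : ∀ y, AnalyticOnNhd ℂ (G y) (ball (0 : Cn (d + 1)) (Q.r y))
  wit : ∃ u v : D.A, f * algebraMap D.A K v = algebraMap D.A K D.t ^ a * algebraMap D.A K u ∧
    ∀ y, ∀ ζ ∈ ball (0 : Cn (d + 1)) (Q.r y), Q.s y ζ u ≠ 0 ∧ Q.s y ζ v ≠ 0 ∧
      G y ζ * Q.s y ζ v = Q.s y ζ u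
  up : ∃ (C : ℝ) (k : ℕ), 0 < C ∧ ∀ y, ∀ ζ ∈ ball (0 : Cn (d + 1)) (Q.r y),
    ‖G y ζ‖ * rr X.M y ^ k ≤ C
  low : ∃ (C : ℝ) (k : ℕ), 0 < C ∧ ∀ y, ∀ ζ ∈ ball (0 : Cn (d + 1)) (Q.r y),
    ‖G y ζ‖⁻¹ * rr X.M y ^ k ≤ C

lemma mul_bound {p q ρ C C' : ℝ} {k k' : ℕ} (hq : 0 ≤ q) (hρ : 0 ≤ ρ) (hC : 0 ≤ C)
    (h1 : p * ρ ^ k ≤ C) (h2 : q * ρ ^ k' ≤ C') : p * q * ρ ^ (k + k') ≤ C * C' := by
  have e1 : 0 ≤ q * ρ ^ k' := mul_nonneg hq (pow_nonneg hρ _)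
  calc p * q * ρ ^ (k + k') = (p * ρ ^ k) * (q * ρ ^ k') := by rw [pow_add]; ring
    _ ≤ C * (q * ρ ^ k') := by gcongr
    _ ≤ C * C' := by gcongr

/-- existence -/
theorem exists_QGood (Q : QS D X S) {f : K} {a : ℤ} {u v : D.A} (hu : u ∈ S) (hv : v ∈ S)
    (h : f * algebraMap D.A K v = algebraMap D.A K D.t ^ a * algebraMap D.A K u) :
    ∃ G, QGood Q f a G := by
  refine ⟨fun y ζ => Q.s y ζ u / Q.s y ζ v, ⟨?_, ⟨u, v, h, ?_⟩, ?_, ?_⟩⟩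
  · intro y ζ hζ
    exact (Q.anal y u ζ hζ).div (Q.anal y v ζ hζ) (Q.ne hv y hζ)
  · intro y ζ hζ
    have h1 := Q.ne hv y hζ
    exact ⟨Q.ne hu y hζ, h1, by field_simp⟩
  · obtain ⟨C, k, hC, h1⟩ := Q.up' u
    obtain ⟨C', k', hC', h2⟩ := Q.low_inv hv
    refine ⟨C * C', k + k', by positivity, fun y ζ hζ => ?_⟩
    rw [div_eq_mul_inv, norm_mul, norm_inv]
    exact mul_bound (by positivity) (rr_pos X.M y).le hC.le (h1 y ζ hζ) (h2 y ζ hζ)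
  · obtain ⟨C, k, hC, h1⟩ := Q.up' v
    obtain ⟨C', k', hC', h2⟩ := Q.low_inv hu
    refine ⟨C * C', k + k', by positivity, fun y ζ hζ => ?_⟩
    rw [norm_div, inv_div, div_eq_mul_inv]
    exact mul_bound (by positivity) (rr_pos X.M y).le hC.le (h1 y ζ hζ) (h2 y ζ hζ)

namespace QGood

variable {Q : QS D X S} {f : K} {a : ℤ} {G : X.M.Pts → Cn (d + 1) → ℂ}

lemma ne (h : QGood Q f a G) {y : X.M.Pts} {ζ : Cn (d + 1)}
    (hζ : ζ ∈ ball (0 : Cn (d + 1)) (Q.r y)) : G y ζ ≠ 0 := by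
  obtain ⟨u, v, _, h2⟩ := h.wit
  obtain ⟨e1, e2, e3⟩ := h2 y ζ hζ
  intro h0
  rw [h0, zero_mul] at e3
  exact e1 e3.symm

lemma isVal (h0 : D.i₀ = 0) (h : QGood Q f a G) {y : X.M.Pts} {ζ : Cn (d + 1)}
    (hζ : ζ ∈ ball (0 : Cn (d + 1)) (Q.r y)) (hζ0 : ζ 0 ≠ 0) :
    IsVal (Q.s y ζ) f (ζ 0 ^ a * G y ζ) := by
  obtain ⟨u₀, v₀, h1, h2⟩ := h.wit
  obtain ⟨e1, e2, e3⟩ := h2 y ζ hζ
  have ht : Q.s y ζ D.t = ζ 0 := Q.s_t h0 hζ
  obtain ⟨N, hN | hN⟩ := Int.eq_nat_or_neg a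
  · refine ⟨D.t ^ N * u₀, v₀, e2, ?_, ?_⟩
    · rw [h1, hN, zpow_natCast, map_mul, map_pow]
    · rw [map_mul, map_pow, ht, ← e3, hN, zpow_natCast]; ring
  · refine ⟨u₀, D.t ^ N * v₀, ?_, ?_, ?_⟩
    · rw [map_mul, map_pow, ht]
      exact mul_ne_zero (pow_ne_zero _ hζ0) e2
    · have htK := D.tK_ne
      rw [map_mul, map_pow]
      calc f * (algebraMap D.A K D.t ^ N * algebraMap D.A K v₀)
          = algebraMap D.A K D.t ^ N * (f * algebraMap D.A K v₀) := by ring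
        _ = algebraMap D.A K u₀ := by
          rw [h1, hN, zpow_neg, zpow_natCast]; field_simp
    · rw [map_mul, map_pow, ht, ← e3, hN, zpow_neg, zpow_natCast]
      field_simp

/-- at every point of the polydisc if the order is `≥ 0` -/
lemma isVal' (h0 : D.i₀ = 0) {a : ℕ} (h : QGood Q f a G) {y : X.M.Pts} {ζ : Cn (d + 1)}
    (hζ : ζ ∈ ball (0 : Cn (d + 1)) (Q.r y)) :
    IsVal (Q.s y ζ) f (ζ 0 ^ a * G y ζ) := by
  obtain ⟨u₀, v₀, h1, h2⟩ := h.wit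
  obtain ⟨e1, e2, e3⟩ := h2 y ζ hζ
  have ht : Q.s y ζ D.t = ζ 0 := Q.s_t h0 hζ
  refine ⟨D.t ^ a * u₀, v₀, e2, ?_, ?_⟩
  · rw [h1, zpow_natCast, map_mul, map_pow]
  · rw [map_mul, map_pow, ht, ← e3]; ring

lemma shrink (h : QGood Q f a G) (c : ℝ) (κ : ℕ) (hc0 : 0 < c) (hc : c ≤ Q.c) (hκ : Q.κ ≤ κ) :
    QGood (Q.shrink c κ hc0 hc hκ) f a G := by
  have hsub : ∀ y, ball (0 : Cn (d + 1)) ((Q.shrink c κ hc0 hc hκ).r y) ⊆
      ball (0 : Cn (d + 1)) (Q.r y) := fun y => ball_subset_ball (Q.shrink_r_le c κ hc0 hc hκ y)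
  obtain ⟨u, v, h1, h2⟩ := h.wit
  obtain ⟨C, k, hC, h3⟩ := h.up
  obtain ⟨C', k', hC', h4⟩ := h.low
  exact ⟨fun y ζ hζ => h.anal y ζ (hsub y hζ), ⟨u, v, h1, fun y ζ hζ => h2 y ζ (hsub y hζ)⟩,
    ⟨C, k, hC, fun y ζ hζ => h3 y ζ (hsub y hζ)⟩, ⟨C', k', hC', fun y ζ hζ => h4 y ζ (hsub y hζ)⟩⟩

end QGood

end Crest.Agent.R276.Bcq_828
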