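import Mathlib
import Crest.Agent.R276.BcqE_828

/-!
# R276, leaf BCQ (helper828), part F: points of `Hom(B,ℂ)` from the sections; the jacobian

* `QB Q B` : the points `σ y ζ` of `Hom(B,ℂ)`, `B ⊆ K` of finite type, `ζ₀ ≠ 0`; `exists_QB`;
* `QB.bound` : polynomial bounds of the values of `b ∈ B`;
* `QB.det_eq` : the jacobian of the chart is `ζ₀^c G`;
* `exists_basis_B` : `dz` is a basis of `Ω[K⁄ℂ]` if `z` is étale on `B`, `K` algebraic over `B`.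
-/

set_option autoImplicit false

noncomputable section

open Set Filter Topology Metric

namespace Crest.Agent.R276.Bcq_828

open Crest.Agent.R271.Defs710 Crest.Agent.R271.Rd692 Crest.Agent.R271.Alg255
open Crest.Agent.R271.Bd741 Crest.Agent.R271.Ho51
open Crest.Agent.R276.BC_986 Crest.Agent.R276.Mod1_987 Crest.Agent.R276.CntDefs_857

variable {d : ℕ} {K : Type} [Field K] [Algebra ℂ K] {D : DivModel (d + 1) K}
  {X : DivMdl D} {S : Finset D.A}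

lemma mem_PS_iff {r : ℝ} (hr : 0 < r) {q : Cn (d + 1)} :
    q ∈ PS d r ↔ q ∈ ball (0 : Cn (d + 1)) r ∧ q 0 ≠ 0 := by
  rw [mem_ball_zero_iff, pi_norm_lt_iff hr]
  exact ⟨fun h => ⟨h.2, h.1⟩, fun h => ⟨h.2, h.1⟩⟩

lemma isOpen_PS (r : ℝ) : IsOpen (PS d r) := by
  have h : PS d r = {q : Cn (d + 1) | q 0 ≠ 0} ∩ ⋂ i, {q | ‖q i‖ < r} := by
    ext q
    simp [PS]
  rw [h]
  apply IsOpen.inter
  · exact isOpen_ne_fun (continuous_apply _) continuous_const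
  · exact isOpen_iInter_of_finite fun i => isOpen_lt (by fun_prop) continuous_const

/-- points of `Hom(B,ℂ)` from the sections -/
structure QB (Q : QS D X S) (B : Type) [CommRing B] [Algebra ℂ B] [Algebra B K] where
  q : D.A
  k : ℕ
  u : D.A
  q_eq : q = D.t ^ k * u
  hu : u ∈ S
  q_spec : ∀ b : B, ∃ (m : ℕ) (a : D.A),
    algebraMap B K b * algebraMap D.A K q ^ m = algebraMap D.A K a
  σ : X.M.Pts → Cn (d + 1) → Pt B
  spec : ∀ y, ∀ ζ ∈ PS d (Q.r y), ∀ (b : B) (u v : D.A),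
    algebraMap B K b * algebraMap D.A K v = algebraMap D.A K u →
    σ y ζ b * Q.s y ζ v = Q.s y ζ u

section exist

variable {B : Type} [CommRing B] [Algebra ℂ B] [Algebra B K]

lemma q_ne_aux (h0 : D.i₀ = 0) (Q : QS D X S) {q : D.A} {k : ℕ} {u : D.A}
    (hqu : q = D.t ^ k * u) (hu : u ∈ S) {y : X.M.Pts} {ζ : Cn (d + 1)}
    (hζ : ζ ∈ PS d (Q.r y)) : Q.s y ζ q ≠ 0 := by
  rw [mem_PS_iff (Q.r_pos y)] at hζ
  rw [hqu, map_mul, map_pow, Q.s_t h0 hζ.1]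
  exact mul_ne_zero (pow_ne_zero _ hζ.2) (Q.ne hu y hζ.1)

theorem exists_QB [IsScalarTower ℂ B K] (h0 : D.i₀ = 0) (Q : QS D X S) {q : D.A} {k : ℕ}
    {u : D.A} (hqu : q = D.t ^ k * u) (hu : u ∈ S)
    (hq : ∀ b : B, ∃ (m : ℕ) (a : D.A),
      algebraMap B K b * algebraMap D.A K q ^ m = algebraMap D.A K a) :
    ∃ P : QB Q B, P.q = q := by
  classical
  have hinj := D.inj
  -- existence of a point
  obtain ⟨y₁⟩ : Nonempty X.M.Pts := inferInstance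
  have hr := Q.r_pos y₁
  have hmem : (Pi.single 0 ((Q.r y₁ / 2 : ℝ) : ℂ) : Cn (d + 1)) ∈ PS d (Q.r y₁) := by
    rw [mem_PS_iff hr]
    constructor
    · rw [mem_ball_zero_iff, Pi.norm_single]
      simp only [Complex.norm_real, Real.norm_eq_abs]
      rw [abs_of_pos (by positivity)]
      linarith
    · rw [Pi.single_eq_same]
      simp [hr.ne']
  have hne : Nonempty (Pt B) := by
    obtain ⟨p, _⟩ := exists_pt hinj q hq (Q.s y₁ _) (q_ne_aux h0 Q hqu hu hmem)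
    exact ⟨p⟩
  have hex : ∀ (y : X.M.Pts) (ζ : Cn (d + 1)), ∃ p : Pt B, ζ ∈ PS d (Q.r y) →
      ∀ (b : B) (u v : D.A), algebraMap B K b * algebraMap D.A K v = algebraMap D.A K u →
      p b * Q.s y ζ v = Q.s y ζ u := by
    intro y ζ
    by_cases h : ζ ∈ PS d (Q.r y)
    · obtain ⟨p, hp⟩ := exists_pt hinj q hq (Q.s y ζ) (q_ne_aux h0 Q hqu hu h)
      exact ⟨p, fun _ => hp⟩
    · obtain ⟨p⟩ := hne
      exact ⟨p, fun h' => absurd h' h⟩
  choose σ hσ using hex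
  exact ⟨⟨q, k, u, hqu, hu, hq, σ, hσ⟩, rfl⟩

end exist

namespace QB

variable {Q : QS D X S} {B : Type} [CommRing B] [Algebra ℂ B] [Algebra B K] (P : QB Q B)

lemma q_ne (h0 : D.i₀ = 0) {y : X.M.Pts} {ζ : Cn (d + 1)} (hζ : ζ ∈ PS d (Q.r y)) :
    Q.s y ζ P.q ≠ 0 := q_ne_aux h0 Q P.q_eq P.hu hζ

/-- smaller radii -/
def shrink (c : ℝ) (κ : ℕ) (hc0 : 0 < c) (hc : c ≤ Q.c) (hκ : Q.κ ≤ κ) :
    QB (Q.shrink c κ hc0 hc hκ) B where
  q := P.q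
  k := P.k
  u := P.u
  q_eq := P.q_eq
  hu := P.hu
  q_spec := P.q_spec
  σ := P.σ
  spec := fun y ζ hζ => P.spec y ζ ⟨hζ.1, fun i => (hζ.2 i).trans_le
    (Q.shrink_r_le c κ hc0 hc hκ y)⟩

lemma shrink_σ (c : ℝ) (κ : ℕ) (hc0 : 0 < c) (hc : c ≤ Q.c) (hκ : Q.κ ≤ κ) :
    (P.shrink c κ hc0 hc hκ).σ = P.σ := rfl

/-- the values of `b ∈ B` are the values of the rational function `b` -/
lemma isVal (h0 : D.i₀ = 0) {y : X.M.Pts} {ζ : Cn (d + 1)} (hζ : ζ ∈ PS d (Q.r y)) (b : B) :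
    IsVal (Q.s y ζ) (algebraMap B K b) (P.σ y ζ b) := by
  obtain ⟨m, a, h⟩ := P.q_spec b
  refine ⟨a, P.q ^ m, ?_, by rw [map_pow]; exact h, ?_⟩
  · rw [map_pow]; exact pow_ne_zero _ (P.q_ne h0 hζ)
  · exact P.spec y ζ hζ b a (P.q ^ m) (by rw [map_pow]; exact h)

/-- the point is determined by the section -/
lemma σ_eq (h0 : D.i₀ = 0) {y y' : X.M.Pts} {ζ ζ' : Cn (d + 1)} (hζ : ζ ∈ PS d (Q.r y))
    (hζ' : ζ' ∈ PS d (Q.r y')) (h : Q.s y ζ = Q.s y' ζ') : P.σ y ζ = P.σ y' ζ' := by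
  ext b
  have h1 := P.isVal h0 hζ b
  have h2 := P.isVal h0 hζ' b
  rw [h] at h1
  exact h1.unique D.inj h2

/-- **compatibility** -/
theorem compat (h0 : D.i₀ = 0) {y : X.M.Pts} {e : OpenPartialHomeomorph X.M.Pts (Fin d → ℂ)}
    (he : IsCh e) (hy : y ∈ e.source) (het : e.target = ball (cp y) (Q.r y)) {y' : X.M.Pts}
    (hy' : y' ∈ e.source) {q : Cn (d + 1)} (hq : q ∈ PS d (Q.r y'))
    (hq' : q + Fin.cons 0 (cp y' - cp y) ∈ PS d (Q.r y)) :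
    P.σ y' q = P.σ y (q + Fin.cons 0 (cp y' - cp y)) :=
  P.σ_eq h0 hq hq' (Q.compat h0 he hy het hy' ((mem_PS_iff (Q.r_pos y')).1 hq).1
    ((mem_PS_iff (Q.r_pos y)).1 hq').1)

/-- regular functions are holomorphic in the charts -/
lemma anal (h0 : D.i₀ = 0) (y : X.M.Pts) (b : B) :
    AnalyticOnNhd ℂ (fun ζ => P.σ y ζ b) (PS d (Q.r y)) := by
  intro ζ hζ
  obtain ⟨m, a, h⟩ := P.q_spec b
  have h1 : (fun ζ => P.σ y ζ b) =ᶠ[𝓝 ζ] fun ζ => Q.s y ζ a / (Q.s y ζ P.q) ^ m := by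
    filter_upwards [(isOpen_PS (Q.r y)).mem_nhds hζ] with ζ' hζ'
    have h2 := P.spec y ζ' hζ' b a (P.q ^ m) (by rw [map_pow]; exact h)
    have h3 : (Q.s y ζ' P.q) ^ m ≠ 0 := pow_ne_zero _ (P.q_ne h0 hζ')
    rw [eq_div_iff h3, ← h2, map_pow]
  rw [analyticAt_congr h1]
  have hζb := ((mem_PS_iff (Q.r_pos y)).1 hζ).1
  exact (Q.anal y a ζ hζb).div ((Q.anal y P.q ζ hζb).pow m) (pow_ne_zero _ (P.q_ne h0 hζ))

lemma continuousOn (h0 : D.i₀ = 0) (y : X.M.Pts) : ContinuousOn (P.σ y) (PS d (Q.r y)) := by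
  rw [continuousOn_iff_ev]
  intro b ζ hζ
  exact (P.anal h0 y b ζ hζ).continuousAt.continuousWithinAt

/-- **polynomial bounds** of the values of `b ∈ B` -/
theorem bound (h0 : D.i₀ = 0) (b : B) : ∃ (C : ℝ) (m k : ℕ), 0 < C ∧ ∀ y,
    ∀ ζ ∈ PS d (Q.r y), ‖P.σ y ζ b‖ * ‖ζ 0‖ ^ m * rr X.M y ^ k ≤ C := by
  obtain ⟨m, a, h⟩ := P.q_spec b
  obtain ⟨C, k, hC, h1⟩ := Q.up' a
  obtain ⟨C', k', hC', h2⟩ := Q.low_inv P.hu
  refine ⟨C * C' ^ m, P.k * m, k + k' * m, by positivity, fun y ζ hζ => ?_⟩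
  have hζb := ((mem_PS_iff (Q.r_pos y)).1 hζ).1
  have h3 := P.spec y ζ hζ b a (P.q ^ m) (by rw [map_pow]; exact h)
  rw [map_pow, P.q_eq, map_mul, map_pow, Q.s_t h0 hζb] at h3
  have hu := Q.ne P.hu y hζb
  have hu' : 0 < ‖Q.s y ζ P.u‖ := norm_pos_iff.2 hu
  have h4 : ‖P.σ y ζ b‖ * ‖ζ 0‖ ^ (P.k * m) = ‖Q.s y ζ a‖ * (‖Q.s y ζ P.u‖⁻¹) ^ m := by
    rw [← h3, norm_mul, norm_pow, norm_mul, norm_pow, mul_pow, ← pow_mul, inv_pow]
    have h5 : ‖Q.s y ζ P.u‖ ^ m ≠ 0 := pow_ne_zero _ hu'.ne'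
    field_simp
  rw [h4]
  have h5 : (‖Q.s y ζ P.u‖⁻¹) ^ m * rr X.M y ^ (k' * m) ≤ C' ^ m := by
    rw [pow_mul, ← mul_pow]
    exact pow_le_pow_left₀ (mul_nonneg (by positivity) (pow_nonneg (rr_pos X.M y).le _))
      (h2 y ζ hζb) m
  exact mul_bound (by positivity) (rr_pos X.M y).le hC.le (h1 y ζ hζb) h5

/-- value of a good regular function -/
theorem val_good (h0 : D.i₀ = 0) {f : K} {a : ℤ} {G : X.M.Pts → Cn (d + 1) → ℂ}
    (hG : QGood Q f a G) {y : X.M.Pts} {ζ : Cn (d + 1)} (hζ : ζ ∈ PS d (Q.r y)) {b : B}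
    (hb : algebraMap B K b = f) : P.σ y ζ b = ζ 0 ^ a * G y ζ := by
  have h1 := (mem_PS_iff (Q.r_pos y)).1 hζ
  have h2 := P.isVal h0 hζ b
  rw [hb] at h2
  exact h2.unique D.inj (hG.isVal h0 h1.1 h1.2)

/-- quotients -/
theorem val_good₂ (h0 : D.i₀ = 0) {f : K} {a : ℤ} {G : X.M.Pts → Cn (d + 1) → ℂ}
    (hG : QGood Q f a G) {y : X.M.Pts} {ζ : Cn (d + 1)} (hζ : ζ ∈ PS d (Q.r y)) {b₁ b₂ : B}
    (hb : f * algebraMap B K b₂ = algebraMap B K b₁) :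
    P.σ y ζ b₁ = ζ 0 ^ a * G y ζ * P.σ y ζ b₂ := by
  have h1 := (mem_PS_iff (Q.r_pos y)).1 hζ
  have h2 := (hG.isVal h0 h1.1 h1.2).mul (P.isVal h0 hζ b₂)
  rw [hb] at h2
  exact (P.isVal h0 hζ b₁).unique D.inj h2

/-! ### the jacobian -/

/-- derivatives of the regular functions of `B` in the chart -/
lemma isVal_fderiv_σ (h0 : D.i₀ = 0) {y : X.M.Pts} {ζ : Cn (d + 1)} (hζ : ζ ∈ PS d (Q.r y))
    (b : B) (j : Fin (d + 1)) :
    IsVal (Q.s y ζ) (D.dw.repr (KaehlerDifferential.D ℂ K (algebraMap B K b)) j)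
      (fderiv ℂ (fun ζ => P.σ y ζ b) ζ (Pi.single j 1)) := by
  have hζb := ((mem_PS_iff (Q.r_pos y)).1 hζ).1
  refine (isVal_fderiv (Q.ch y) (by rw [Q.ch_r]; exact hζb) ?_).2 j
  filter_upwards [(isOpen_PS (Q.r y)).mem_nhds hζ] with ζ' hζ'
  exact P.isVal h0 hζ' b

/-- the chart followed by coordinates -/
def ψ (z : Fin (d + 1) → B) (y : X.M.Pts) (ζ : Cn (d + 1)) : Cn (d + 1) := fun i => P.σ y ζ (z i)

lemma analyticAt_ψ (h0 : D.i₀ = 0) (z : Fin (d + 1) → B) {y : X.M.Pts} {ζ : Cn (d + 1)}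
    (hζ : ζ ∈ PS d (Q.r y)) : AnalyticAt ℂ (P.ψ z y) ζ :=
  analyticAt_pi_iff.2 fun i => P.anal h0 y (z i) ζ hζ

lemma fderiv_ψ_apply (h0 : D.i₀ = 0) (z : Fin (d + 1) → B) {y : X.M.Pts} {ζ : Cn (d + 1)}
    (hζ : ζ ∈ PS d (Q.r y)) (v : Cn (d + 1)) (i : Fin (d + 1)) :
    fderiv ℂ (P.ψ z y) ζ v i = fderiv ℂ (fun ζ => P.σ y ζ (z i)) ζ v := by
  have h1 : HasFDerivAt (P.ψ z y) (fderiv ℂ (P.ψ z y) ζ) ζ :=
    (P.analyticAt_ψ h0 z hζ).differentiableAt.hasFDerivAt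
  have h2 := (hasFDerivAt_pi'.1 h1) i
  have h3 := h2.fderiv
  have h4 : (fun x => P.ψ z y x i) = fun ζ => P.σ y ζ (z i) := rfl
  rw [h4] at h3
  rw [h3]
  rfl

/-- **the Jacobian of the chart** is the value of the change of bases of differential forms -/
theorem isVal_det (h0 : D.i₀ = 0) (z : Fin (d + 1) → B) (b : Fin (d + 1) → Ω[K⁄ℂ])
    (hb : ∀ j, b j = KaehlerDifferential.D ℂ K (algebraMap B K (z j))) {y : X.M.Pts}
    {ζ : Cn (d + 1)} (hζ : ζ ∈ PS d (Q.r y)) :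
    IsVal (Q.s y ζ) (D.dw.toMatrix b).det (fderiv ℂ (P.ψ z y) ζ).det := by
  have e1 : (fderiv ℂ (P.ψ z y) ζ).det =
      (LinearMap.toMatrix' (fderiv ℂ (P.ψ z y) ζ :
        Cn (d + 1) →ₗ[ℂ] Cn (d + 1))).transpose.det := by
    rw [Matrix.det_transpose, ContinuousLinearMap.det, ← LinearMap.det_toMatrix']
  rw [e1]
  apply IsVal.det
  intro j i
  rw [Module.Basis.toMatrix_apply, hb, Matrix.transpose_apply, LinearMap.toMatrix'_apply]
  have h := P.isVal_fderiv_σ h0 hζ (z i) j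
  rw [← P.fderiv_ψ_apply h0 z hζ] at h
  simpa using h

/-- the Jacobian as `t^c` times a unit -/
theorem det_eq (h0 : D.i₀ = 0) (z : Fin (d + 1) → B) (b : Fin (d + 1) → Ω[K⁄ℂ])
    (hb : ∀ j, b j = KaehlerDifferential.D ℂ K (algebraMap B K (z j))) {c : ℤ}
    {G : X.M.Pts → Cn (d + 1) → ℂ} (hG : QGood Q (D.dw.toMatrix b).det c G) {y : X.M.Pts}
    {ζ : Cn (d + 1)} (hζ : ζ ∈ PS d (Q.r y)) :
    (fderiv ℂ (P.ψ z y) ζ).det = ζ 0 ^ c * G y ζ := by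
  have h1 := (mem_PS_iff (Q.r_pos y)).1 hζ
  exact (P.isVal_det h0 z b hb hζ).unique D.inj (hG.isVal h0 h1.1 h1.2)

theorem det_ne (h0 : D.i₀ = 0) (z : Fin (d + 1) → B) (b : Fin (d + 1) → Ω[K⁄ℂ])
    (hb : ∀ j, b j = KaehlerDifferential.D ℂ K (algebraMap B K (z j))) {c : ℤ}
    {G : X.M.Pts → Cn (d + 1) → ℂ} (hG : QGood Q (D.dw.toMatrix b).det c G) {y : X.M.Pts}
    {ζ : Cn (d + 1)} (hζ : ζ ∈ PS d (Q.r y)) : (fderiv ℂ (P.ψ z y) ζ).det ≠ 0 := by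
  have h1 := (mem_PS_iff (Q.r_pos y)).1 hζ
  rw [P.det_eq h0 z b hb hG hζ]
  exact mul_ne_zero (zpow_ne_zero _ h1.2) (hG.ne h1.1)

end QB

/-! ### the basis `dz` -/

/-- `dz` is a basis of `Ω[K⁄ℂ]` -/
theorem exists_basis_B {n : ℕ} {B : Type} [CommRing B] [IsDomain B] [Algebra ℂ B] [Algebra B K]
    [IsScalarTower ℂ B K] (hinj : Function.Injective (algebraMap B K))
    [Algebra.IsAlgebraic B K] (z : Fin n → B)
    (het : RingHom.Etale ((MvPolynomial.aeval z : MvPolynomial (Fin n) ℂ →ₐ[ℂ] B) :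
      MvPolynomial (Fin n) ℂ →+* B)) : ∃ b : Module.Basis (Fin n) K (Ω[K⁄ℂ]),
    ∀ j, b j = KaehlerDifferential.D ℂ K (algebraMap B K (z j)) := by
  have : FaithfulSMul B K := (faithfulSMul_iff_algebraMap_injective B K).2 hinj
  let _ : Algebra (FractionRing B) K := FractionRing.liftAlgebra B K
  have _ : IsScalarTower B (FractionRing B) K := FractionRing.isScalarTower_liftAlgebra B K
  have _ : IsScalarTower ℂ (FractionRing B) K := by
    refine IsScalarTower.of_algebraMap_eq fun c => ?_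
    rw [IsScalarTower.algebraMap_apply ℂ B K, IsScalarTower.algebraMap_apply ℂ B (FractionRing B),
      ← IsScalarTower.algebraMap_apply B (FractionRing B) K]
  have _ : Algebra.IsAlgebraic (FractionRing B) K :=
    (IsFractionRing.comap_isAlgebraic_iff (A := B) (K := FractionRing B) (C := K)).1 inferInstance
  have : CharZero (FractionRing B) := by
    have h1 : CharZero ℂ := inferInstance
    exact charZero_of_injective_algebraMap (algebraMap ℂ (FractionRing B)).injective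
  have _ : Algebra.IsSeparable (FractionRing B) K := inferInstance
  have _ : Algebra.FormallyEtale (FractionRing B) K :=
    Algebra.FormallyEtale.of_isSeparable (FractionRing B) K
  have h1 := Crest.Agent.R271.Bs960.ECoord.fe (w := z) het
  have h2 := h1.loc (S := B) (T := FractionRing B) (nonZeroDivisors B)
  have h3 := h2.comp (S := FractionRing B) (T := K)
  obtain ⟨b, hb⟩ := Crest.Agent.R271.Bs960.exists_basis_of_formallyEtale _ h3
  refine ⟨b, fun j => ?_⟩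
  rw [hb, ← IsScalarTower.algebraMap_apply B (FractionRing B) K]

end Crest.Agent.R276.Bcq_828
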