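import Mathlib
import Crest.Agent.R276.BcqF_828
import Crest.Agent.R271.Rd7_692

/-!
# R276, leaf BCQ (helper828), part G: change of variables with multiplicity

`lintegral_le_mult` : `∫_V f(σ q) |J|² dq ≤ N ∫_M f dμ` if `σ : V → M` is holomorphic, locally
biholomorphic, at most `N` to one.
-/

set_option autoImplicit false

noncomputable section

open Set Filter Topology Metric MeasureTheory
open scoped ENNReal

namespace Crest.Agent.R276.Bcq_828

open Crest.Agent.R271.Defs710 Crest.Agent.R271.Rd692 Crest.Agent.R271.Alg255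
open Crest.Agent.R271.Bd741 Crest.Agent.R271.Ho51

lemma finset_sum_lintegral_le {α ι : Type*} [MeasurableSpace α] (μ : Measure α) (s : Finset ι)
    (g : ι → α → ℝ≥0∞) : ∑ i ∈ s, ∫⁻ x, g i x ∂μ ≤ ∫⁻ x, ∑ i ∈ s, g i x ∂μ := by
  classical
  induction s using Finset.induction_on with
  | empty => simp
  | insert a s ha ih =>
    simp only [Finset.sum_insert ha]
    calc ∫⁻ x, g a x ∂μ + ∑ i ∈ s, ∫⁻ x, g i x ∂μ
        ≤ ∫⁻ x, g a x ∂μ + ∫⁻ x, ∑ i ∈ s, g i x ∂μ := by gcongr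
      _ ≤ ∫⁻ x, (g a x + ∑ i ∈ s, g i x) ∂μ := le_lintegral_add _ _

lemma tsum_lintegral_le {α ι : Type*} [MeasurableSpace α] (μ : Measure α)
    (g : ι → α → ℝ≥0∞) : ∑' i, ∫⁻ x, g i x ∂μ ≤ ∫⁻ x, ∑' i, g i x ∂μ := by
  rw [ENNReal.tsum_eq_iSup_sum]
  refine iSup_le fun s => (finset_sum_lintegral_le μ s g).trans ?_
  exact lintegral_mono fun x => ENNReal.sum_le_tsum s

variable {n : ℕ} {M : Type*} [TopologicalSpace M] [RDom n M]

/-- change of variables for a locally biholomorphic map which is at most `N` to one -/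
theorem lintegral_le_mult [MeasurableSpace M] [BorelSpace M] [SecondCountableTopology M]
    {μ : Measure M} (hμ : IsLeb μ) {V : Set (Cn n)} (hV : IsOpen V) {σ : Cn n → M}
    {ψ' : Cn n → (Cn n →L[ℂ] Cn n)}
    (hψ : ∀ q ∈ V, HasStrictFDerivAt (fun q => (cp (σ q) : Cn n)) (ψ' q) q)
    (hdet : ∀ q ∈ V, (ψ' q).det ≠ 0) {N : ℕ}
    (hN : ∀ x : M, {q | q ∈ V ∧ σ q = x}.encard ≤ N) {f : M → ℝ≥0∞} (hf : Measurable f) :
    ∫⁻ q in V, f (σ q) * ENNReal.ofReal (‖(ψ' q).det‖ ^ 2) ≤ N * ∫⁻ x, f x ∂μ := by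
  classical
  set ψ : Cn n → Cn n := fun q => cp (σ q) with hψdef
  -- local injectivity
  have hinj : ∀ q ∈ V, ∃ U : Set (Cn n), IsOpen U ∧ q ∈ U ∧ InjOn ψ U := by
    intro q hq
    let e' := (ψ' q).toContinuousLinearEquivOfDetNeZero (hdet q hq)
    have he' : (e' : Cn n →L[ℂ] Cn n) = ψ' q :=
      ContinuousLinearMap.coe_toContinuousLinearEquivOfDetNeZero _ _
    have hd : HasStrictFDerivAt ψ (e' : Cn n →L[ℂ] Cn n) q := by
      rw [he']; exact hψ q hq
    set h := hd.toOpenPartialHomeomorph ψ with hh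
    refine ⟨h.source, h.open_source, hd.mem_toOpenPartialHomeomorph_source, ?_⟩
    have := h.injOn
    rwa [hd.toOpenPartialHomeomorph_coe] at this
  choose! U hUo hUm hUi using hinj
  obtain ⟨T, hTV, hTc, hTcov⟩ : ∃ T ⊆ V, T.Countable ∧ V ⊆ ⋃ x ∈ T, U x :=
    TopologicalSpace.countable_cover_nhdsWithin
      (f := U) (s := V) (fun x hx => mem_nhdsWithin_of_mem_nhds ((hUo x hx).mem_nhds (hUm x hx)))
  rcases T.eq_empty_or_nonempty with hTe | hTne
  · have hVe : V = ∅ := by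
      apply Set.eq_empty_of_subset_empty
      simpa [hTe] using hTcov
    simp [hVe]
  obtain ⟨u, hu⟩ := hTc.exists_eq_range hTne
  have huT : ∀ i, u i ∈ V := fun i => hTV (hu ▸ mem_range_self i)
  set E : ℕ → Set (Cn n) := disjointed fun i => U (u i) ∩ V with hE
  have hEm : ∀ i, MeasurableSet (E i) := fun i =>
    MeasurableSet.disjointed (fun i => ((hUo _ (huT i)).inter hV).measurableSet) i
  have hEU' : ∀ i, E i ⊆ U (u i) ∩ V := fun i => disjointed_subset _ i
  have hEU : ∀ i, E i ⊆ U (u i) := fun i => (hEU' i).trans inter_subset_left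
  have hEV : ∀ i, E i ⊆ V := fun i => (hEU' i).trans inter_subset_right
  have hEd : Pairwise (Function.onFun Disjoint E) := disjoint_disjointed _
  have hEun : ⋃ i, E i = V := by
    rw [hE, iUnion_disjointed]
    apply Subset.antisymm
    · exact iUnion_subset fun i => inter_subset_right
    · intro x hx
      have := hTcov hx
      simp only [mem_iUnion] at this
      obtain ⟨y, hy, hxy⟩ := this
      rw [hu] at hy
      obtain ⟨i, rfl⟩ := hy
      exact mem_iUnion.2 ⟨i, hxy, hx⟩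
  -- the fibre sums
  let g : ℕ → Cn n → ℝ≥0∞ := fun i η => ∑' x : {x : M // cp x = η}, (σ '' E i).indicator f x.1
  have hg : ∀ i, ∀ q ∈ E i, f (σ q) ≤ g i (ψ q) := by
    intro i q hq
    have h0 : σ q ∈ σ '' E i := ⟨q, hq, rfl⟩
    have h1 : (σ '' E i).indicator f (σ q) = f (σ q) := Set.indicator_of_mem h0 _
    rw [← h1]
    exact ENNReal.le_tsum (⟨σ q, rfl⟩ : {x : M // cp x = ψ q})
  have hpiece : ∀ i, ∫⁻ q in E i, f (σ q) * ENNReal.ofReal (‖(ψ' q).det‖ ^ 2) ≤
      ∫⁻ η, g i η := by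
    intro i
    have h1 := lintegral_image_eq_lintegral_abs_det_fderiv_mul (volume : Measure (Cn n)) (hEm i)
      (f' := fun q => (ψ' q).restrictScalars ℝ)
      (fun q hq => ((hψ q (hEV i hq)).hasFDerivAt.restrictScalars ℝ).hasFDerivWithinAt)
      ((hUi _ (huT i)).mono (hEU i)) (g i)
    calc ∫⁻ q in E i, f (σ q) * ENNReal.ofReal (‖(ψ' q).det‖ ^ 2)
        ≤ ∫⁻ q in E i, ENNReal.ofReal |((ψ' q).restrictScalars ℝ).det| * g i (ψ q) := by
          refine setLIntegral_mono' (hEm i) fun q hq => ?_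
          rw [abs_det_real, mul_comm]
          gcongr
          exact hg i q hq
      _ = ∫⁻ η in ψ '' E i, g i η := h1.symm
      _ ≤ ∫⁻ η, g i η := setLIntegral_le_lintegral _ _
  have hsum : ∀ η, ∑' i, g i η ≤ N * ∑' x : {x : M // cp x = η}, f x.1 := by
    intro η
    simp only [g]
    rw [ENNReal.tsum_comm, ← ENNReal.tsum_mul_left]
    refine ENNReal.tsum_le_tsum fun x => ?_
    -- the number of `i` with `x ∈ σ (E i)`
    let I : Set ℕ := {i | x.1 ∈ σ '' E i}
    have h1 : ∑' i, (σ '' E i).indicator f x.1 = ∑' _ : I, f x.1 := by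
      rw [tsum_subtype I (fun _ => f x.1)]
      apply tsum_congr
      intro i
      by_cases hi : x.1 ∈ σ '' E i
      · rw [Set.indicator_of_mem hi, Set.indicator_of_mem (show i ∈ I from hi)]
      · rw [Set.indicator_of_notMem hi, Set.indicator_of_notMem (show i ∉ I from hi)]
    have h2 : I.encard ≤ N := by
      refine le_trans ?_ (hN x.1)
      choose! q hq1 hq2 using fun i (hi : i ∈ I) => hi
      refine Set.encard_le_encard_of_injOn (f := q) (fun i hi => ⟨hEV i (hq1 i hi), hq2 i hi⟩) ?_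
      intro i hi j hj hij
      by_contra hne
      have h3 := Set.disjoint_left.mp (hEd hne) (hq1 i hi)
      apply h3
      rw [hij]
      exact hq1 j hj
    rw [h1, ENNReal.tsum_const]
    gcongr
    calc ((ENat.card I : ℕ∞) : ℝ≥0∞) ≤ ((N : ℕ∞) : ℝ≥0∞) := by
          exact_mod_cast h2
      _ = (N : ℝ≥0∞) := by simp
  calc ∫⁻ q in V, f (σ q) * ENNReal.ofReal (‖(ψ' q).det‖ ^ 2)
      = ∑' i, ∫⁻ q in E i, f (σ q) * ENNReal.ofReal (‖(ψ' q).det‖ ^ 2) := by
        rw [← hEun, lintegral_iUnion hEm hEd]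
    _ ≤ ∑' i, ∫⁻ η, g i η := ENNReal.tsum_le_tsum hpiece
    _ ≤ ∫⁻ η, ∑' i, g i η := tsum_lintegral_le _ _
    _ ≤ ∫⁻ η, N * ∑' x : {x : M // cp x = η}, f x.1 := lintegral_mono hsum
    _ = N * ∫⁻ η : Cn n, ∑' x : {x : M // cp x = η}, f x.1 :=
        lintegral_const_mul' _ _ (ENNReal.natCast_ne_top N)
    _ = N * ∫⁻ x, f x ∂μ := by rw [lintegral_eq_fibre hμ hf]

end Crest.Agent.R276.Bcq_828
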