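import Mathlib
import Crest.Agent.R276.BcqF_828
import Crest.Agent.R276.BcqG_828

/-!
# R276, leaf BCQ (helper828), part H: the boundary charts `DChart`

`BD D B z F` : the complete data (divisor `X`, sections `Q`, points `P`, multiplicity `N`,
jacobian, the finitely many good functions `f ∈ F`); `exists_BD`.
`BD.dchart` : the structure `DChart (Hom(B,ℂ)) E μ` of `CntDefs_857`, for all small radii.
-/

set_option autoImplicit false

noncomputable section

open Set Filter Topology Metric MeasureTheory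
open scoped ENNReal

namespace Crest.Agent.R276.Bcq_828

open Crest.Agent.R271.Defs710 Crest.Agent.R271.Rd692 Crest.Agent.R271.Alg255
open Crest.Agent.R271.Bd741 Crest.Agent.R271.Ho51
open Crest.Agent.R276.BC_986 Crest.Agent.R276.Mod1_987 Crest.Agent.R276.CntDefs_857

variable {d : ℕ} {K : Type} [Field K] [Algebra ℂ K]

/-! ### multiplicity -/

section mult

variable {D : DivModel (d + 1) K} {X : DivMdl D} {S : Finset D.A} {Q : QS D X S}
  {B : Type} [CommRing B] [Algebra ℂ B] [Algebra B K] (P : QB Q B)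

/-- a polynomial relation over `B` of an element of `D.A` holds for the values -/
lemma QB.eval_eq_zero (h0 : D.i₀ = 0) {p : Polynomial B} {a : D.A}
    (hp : Polynomial.aeval (algebraMap D.A K a) p = 0) {y : X.M.Pts} {ζ : Cn (d + 1)}
    (hζ : ζ ∈ PS d (Q.r y)) :
    (p.map ((P.σ y ζ : Pt B) : B →+* ℂ)).eval (Q.s y ζ a) = 0 := by
  have h1 : IsVal (Q.s y ζ) (Polynomial.aeval (algebraMap D.A K a) p)
      (∑ i ∈ Finset.range (p.natDegree + 1), P.σ y ζ (p.coeff i) * Q.s y ζ a ^ i) := by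
    rw [Polynomial.aeval_eq_sum_range]
    refine IsVal.sum _ fun i _ => ?_
    rw [Algebra.smul_def]
    exact (P.isVal h0 hζ _).mul ((isVal_algebraMap a).pow i)
  rw [hp] at h1
  have h2 := h1.unique D.inj isVal_zero
  rw [Polynomial.eval_map, Polynomial.eval₂_eq_sum_range]
  exact h2

/-- finite multiplicity -/
theorem QB.mult (h0 : D.i₀ = 0) (p : Fin (d + 1) → Polynomial B)
    (hp : ∀ i, Polynomial.aeval (algebraMap D.A K (D.w i)) (p i) = 0)
    (hlc : ∀ i, ∀ y, ∀ ζ ∈ PS d (Q.r y), P.σ y ζ (p i).leadingCoeff ≠ 0) (y : X.M.Pts)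
    (x : Pt B) : {q | q ∈ PS d (Q.r y) ∧ P.σ y q = x}.encard ≤
      ((∏ i, (p i).natDegree : ℕ) : ℕ∞) := by
  classical
  rcases Set.eq_empty_or_nonempty {q | q ∈ PS d (Q.r y) ∧ P.σ y q = x} with he | ⟨q₀, hq₀, hq₀x⟩
  · rw [he, Set.encard_empty]; exact zero_le
  let R : Fin (d + 1) → Finset ℂ := fun i =>
    (((p i).map (x : B →+* ℂ)).roots.toFinset).image fun c => c - X.pA y (D.w i)
  have hne : ∀ i, (p i).map (x : B →+* ℂ) ≠ 0 := by
    intro i h
    have h1 := hlc i y q₀ hq₀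
    rw [hq₀x] at h1
    apply h1
    have h2 := congrArg (fun P => Polynomial.coeff P (p i).natDegree) h
    simpa using h2
  have hR : ∀ i, (R i).card ≤ (p i).natDegree := by
    intro i
    calc (R i).card ≤ (((p i).map (x : B →+* ℂ)).roots.toFinset).card := Finset.card_image_le
      _ ≤ Multiset.card ((p i).map (x : B →+* ℂ)).roots := Multiset.toFinset_card_le _
      _ ≤ ((p i).map (x : B →+* ℂ)).natDegree := Polynomial.card_roots' _
      _ ≤ (p i).natDegree := Polynomial.natDegree_map_le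
  have hsub : {q | q ∈ PS d (Q.r y) ∧ P.σ y q = x} ⊆ (Fintype.piFinset R : Set (Cn (d + 1))) := by
    rintro q ⟨hq, hqx⟩
    rw [Finset.mem_coe, Fintype.mem_piFinset]
    intro i
    simp only [R, Finset.mem_image, Multiset.mem_toFinset]
    refine ⟨Q.s y q (D.w i), ?_, ?_⟩
    · rw [Polynomial.mem_roots (hne i), Polynomial.IsRoot.def, ← hqx]
      exact P.eval_eq_zero h0 (hp i) hq
    · rw [Q.s_z ((mem_PS_iff (Q.r_pos y)).1 hq).1]; ring
  calc {q | q ∈ PS d (Q.r y) ∧ P.σ y q = x}.encard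
      ≤ (Fintype.piFinset R : Set (Cn (d + 1))).encard := Set.encard_le_encard hsub
    _ = ((Fintype.piFinset R).card : ℕ∞) := Set.encard_coe_eq_coe_finsetCard _
    _ ≤ ((∏ i, (p i).natDegree : ℕ) : ℕ∞) := by
      rw [Fintype.card_piFinset]
      exact_mod_cast Finset.prod_le_prod' fun i _ => hR i

end mult

/-! ### the complete data -/

/-- the complete data of boundary charts of `Hom(B,ℂ)` along the divisor of `D` -/
structure BD (D : DivModel (d + 1) K) (B : Type) [CommRing B] [Algebra ℂ B] [Algebra B K]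
    (z : Fin (d + 1) → B) (F : Finset K) where
  /-- the divisor -/
  X : DivMdl D
  S : Finset D.A
  /-- the sections of the model `D` -/
  Q : QS D X S
  /-- the charts of `Hom(B,ℂ)` -/
  P : QB Q B
  h0 : D.i₀ = 0
  b : Module.Basis (Fin (d + 1)) K (Ω[K⁄ℂ])
  hb : ∀ j, b j = KaehlerDifferential.D ℂ K (algebraMap B K (z j))
  N : ℕ
  hN : ∀ (y : X.M.Pts) (x : Pt B), {q | q ∈ PS d (Q.r y) ∧ P.σ y q = x}.encard ≤ N
  /-- order of the jacobian -/
  cJ : ℤ
  GJ : X.M.Pts → Cn (d + 1) → ℂ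
  ordJ : D.HasOrd (D.dw.toMatrix b).det cJ
  goodJ : QGood Q (D.dw.toMatrix b).det cJ GJ
  good : ∀ f ∈ F, ∃ (a : ℤ) (G : X.M.Pts → Cn (d + 1) → ℂ), D.HasOrd f a ∧ QGood Q f a G

/-- **existence of the boundary charts** -/
theorem exists_BD (D : DivModel (d + 1) K) (h0 : D.i₀ = 0) (B : Type) [CommRing B] [IsDomain B]
    [Algebra ℂ B] [Algebra B K] [IsScalarTower ℂ B K]
    (hinj : Function.Injective (algebraMap B K)) [Algebra.IsAlgebraic B K]
    (hB : Algebra.FiniteType ℂ B) (z : Fin (d + 1) → B)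
    (het : RingHom.Etale ((MvPolynomial.aeval z : MvPolynomial (Fin (d + 1)) ℂ →ₐ[ℂ] B) :
      MvPolynomial (Fin (d + 1)) ℂ →+* B)) (F : Finset K) (hF : ∀ f ∈ F, f ≠ 0) :
    ∃ g : MvPolynomial (Fin d) ℂ, g ≠ 0 ∧ ∀ h : MvPolynomial (Fin d) ℂ, h ≠ 0 → g ∣ h →
      ∃ R : BD D B z F, R.X.M.h = h := by
  classical
  obtain ⟨b, hb⟩ := exists_basis_B hinj z het
  -- the common denominator
  obtain ⟨q, hq0, hq⟩ := exists_denom (A := D.A) (B := B) K hB
  obtain ⟨k, uq, huq, hquq⟩ := D.exists_pow_mul q hq0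
  -- algebraic relations
  have hp : ∀ i, ∃ p : Polynomial B, p ≠ 0 ∧
      Polynomial.aeval (algebraMap D.A K (D.w i)) p = 0 := fun i =>
    Algebra.IsAlgebraic.isAlgebraic (R := B) (algebraMap D.A K (D.w i))
  choose p hp0 hp using hp
  -- the good functions
  set F' : Finset K := insert (D.dw.toMatrix b).det
    (F ∪ Finset.univ.image fun i => algebraMap B K (p i).leadingCoeff) with hF'
  have hF'0 : ∀ f ∈ F', f ≠ 0 := by
    intro f hf
    rw [hF', Finset.mem_insert, Finset.mem_union, Finset.mem_image] at hf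
    rcases hf with rfl | hf | ⟨i, _, rfl⟩
    · exact DivModel.det_ne_zero _ _
    · exact hF f hf
    · intro h
      exact hp0 i (Polynomial.leadingCoeff_eq_zero.1 (hinj (by rw [h, map_zero])))
  have hord : ∀ f : K, ∃ (a : ℤ) (u v : D.A), f ∈ F' → ¬ D.t ∣ u ∧ ¬ D.t ∣ v ∧
      f * algebraMap D.A K v = algebraMap D.A K D.t ^ a * algebraMap D.A K u := by
    intro f
    by_cases hf : f ∈ F'
    · obtain ⟨a, u, v, h1, h2, h3⟩ := D.exists_hasOrd f (hF'0 f hf)
      exact ⟨a, u, v, fun _ => ⟨h1, h2, h3⟩⟩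
    · exact ⟨0, 0, 0, fun h => absurd h hf⟩
  choose aa uu vv hord using hord
  set S : Finset D.A := insert uq (F'.image uu ∪ F'.image vv) with hS
  have hSt : ∀ s ∈ S, ¬ D.t ∣ s := by
    intro s hs
    rw [hS, Finset.mem_insert, Finset.mem_union, Finset.mem_image, Finset.mem_image] at hs
    rcases hs with rfl | ⟨f, hf, rfl⟩ | ⟨f, hf, rfl⟩
    · exact huq
    · exact (hord f hf).1
    · exact (hord f hf).2.1
  obtain ⟨g, hg0, hg⟩ := exists_divMdl D h0 S
  refine ⟨g, hg0, fun h hh0 hgh => ?_⟩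
  obtain ⟨X, hXh, hXu⟩ := hg h hh0 hgh
  obtain ⟨Q⟩ := exists_QS X S (fun s hs => hXu s hs (hSt s hs))
  obtain ⟨P, hPq⟩ := exists_QB (B := B) h0 Q hquq (by rw [hS]; exact Finset.mem_insert_self _ _) hq
  have hgood : ∀ f ∈ F', ∃ (a : ℤ) (G : X.M.Pts → Cn (d + 1) → ℂ), D.HasOrd f a ∧
      QGood Q f a G := by
    intro f hf
    obtain ⟨h1, h2, h3⟩ := hord f hf
    obtain ⟨G, hG⟩ := exists_QGood Q (f := f) (a := aa f) (u := uu f) (v := vv f)
      (by rw [hS]; exact Finset.mem_insert_of_mem (Finset.mem_union_left _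
        (Finset.mem_image_of_mem _ hf)))
      (by rw [hS]; exact Finset.mem_insert_of_mem (Finset.mem_union_right _
        (Finset.mem_image_of_mem _ hf))) h3
    exact ⟨aa f, G, ⟨uu f, vv f, h1, h2, h3⟩, hG⟩
  obtain ⟨cJ, GJ, hJ1, hJ2⟩ := hgood (D.dw.toMatrix b).det (by
    rw [hF']; exact Finset.mem_insert_self _ _)
  have hlc : ∀ i, ∀ y, ∀ ζ ∈ PS d (Q.r y), P.σ y ζ (p i).leadingCoeff ≠ 0 := by
    intro i y ζ hζ
    obtain ⟨a, G, -, hG⟩ := hgood (algebraMap B K (p i).leadingCoeff) (by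
      rw [hF']
      exact Finset.mem_insert_of_mem (Finset.mem_union_right _
        (Finset.mem_image_of_mem _ (Finset.mem_univ i))))
    have h1 := (mem_PS_iff (Q.r_pos y)).1 hζ
    rw [P.val_good h0 hG hζ rfl]
    exact mul_ne_zero (zpow_ne_zero _ h1.2) (hG.ne h1.1)
  refine ⟨⟨X, S, Q, P, h0, b, hb, ∏ i, (p i).natDegree, P.mult h0 p hp hlc, cJ, GJ, hJ1, hJ2,
    fun f hf => hgood f ?_⟩, hXh⟩
  rw [hF']
  exact Finset.mem_insert_of_mem (Finset.mem_union_left _ hf)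

namespace BD

variable {D : DivModel (d + 1) K} {B : Type} [CommRing B] [Algebra ℂ B] [Algebra B K]
  {z : Fin (d + 1) → B} {F : Finset K} (R : BD D B z F)

/-- smaller radii -/
def shrink (c : ℝ) (κ : ℕ) (hc0 : 0 < c) (hc : c ≤ R.Q.c) (hκ : R.Q.κ ≤ κ) : BD D B z F where
  X := R.X
  S := R.S
  Q := R.Q.shrink c κ hc0 hc hκ
  P := R.P.shrink c κ hc0 hc hκ
  h0 := R.h0
  b := R.b
  hb := R.hb
  N := R.N
  hN := fun y x => by
    have hsub : {q | q ∈ PS d ((R.Q.shrink c κ hc0 hc hκ).r y) ∧ R.P.σ y q = x} ⊆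
        {q | q ∈ PS d (R.Q.r y) ∧ R.P.σ y q = x} := fun q hq => ⟨⟨hq.1.1, fun i =>
      (hq.1.2 i).trans_le (R.Q.shrink_r_le c κ hc0 hc hκ y)⟩, hq.2⟩
    exact (Set.encard_le_encard hsub).trans (R.hN y x)
  cJ := R.cJ
  GJ := R.GJ
  ordJ := R.ordJ
  goodJ := R.goodJ.shrink c κ hc0 hc hκ
  good := fun f hf => by
    obtain ⟨a, G, h1, h2⟩ := R.good f hf
    exact ⟨a, G, h1, h2.shrink c κ hc0 hc hκ⟩

/-- the space of the divisor -/
abbrev E : Type := R.X.M.Pts

section dchart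

variable [RDom (d + 1) (B →ₐ[ℂ] ℂ)]

lemma cp_σ (hcp : ∀ x : B →ₐ[ℂ] ℂ, (cp x : Fin (d + 1) → ℂ) = fun i => x (z i)) (y : R.E) :
    (fun q => (cp (R.P.σ y q) : Fin (d + 1) → ℂ)) = R.P.ψ z y := by
  funext q
  rw [hcp]
  rfl

/-- **the boundary charts** -/
def dchart (hcp : ∀ x : B →ₐ[ℂ] ℂ, (cp x : Fin (d + 1) → ℂ) = fun i => x (z i))
    (hft : Algebra.FiniteType ℂ B) {μ : Measure (B →ₐ[ℂ] ℂ)} (hμ : IsLeb μ) :
    DChart (B →ₐ[ℂ] ℂ) R.E μ where
  cov := pcov R.X.M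
  c := R.Q.c
  hc0 := R.Q.c_pos
  hc1 := R.Q.c_le
  κ := R.Q.κ
  hball := R.Q.hball
  conn := isPreconnected_univ
  σ := R.P.σ
  cont := fun y => R.P.continuousOn R.h0 y
  hol := fun y => by
    rw [R.cp_σ hcp y]
    intro q hq
    exact (R.P.analyticAt_ψ R.h0 z hq).differentiableAt.differentiableWithinAt
  jac := fun y q hq => by
    rw [R.cp_σ hcp y]
    exact R.P.det_ne R.h0 z R.b R.hb R.goodJ hq
  N := R.N
  mult := fun y f hf => by
    have hsc : SecondCountableTopology (B →ₐ[ℂ] ℂ) := secondCountable_of_ft hft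
    rw [R.cp_σ hcp y]
    refine lintegral_le_mult hμ (isOpen_PS _) (σ := R.P.σ y)
      (ψ' := fun q => fderiv ℂ (R.P.ψ z y) q) ?_ ?_ (R.hN y) hf
    · intro q hq
      rw [R.cp_σ hcp y]
      exact (R.P.analyticAt_ψ R.h0 z hq).hasStrictFDerivAt
    · intro q hq
      exact R.P.det_ne R.h0 z R.b R.hb R.goodJ hq
  compat := fun y e he hy het y' hy' q hq hq' => R.P.compat R.h0 he hy het hy' hq hq'

variable (hcp : ∀ x : B →ₐ[ℂ] ℂ, (cp x : Fin (d + 1) → ℂ) = fun i => x (z i))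
    (hft : Algebra.FiniteType ℂ B) {μ : Measure (B →ₐ[ℂ] ℂ)} (hμ : IsLeb μ)

@[simp] lemma dchart_σ : (R.dchart hcp hft hμ).σ = R.P.σ := rfl

@[simp] lemma dchart_r (y : R.E) : (R.dchart hcp hft hμ).r y = R.Q.r y := rfl

@[simp] lemma dchart_cov : (R.dchart hcp hft hμ).cov = pcov R.X.M := rfl

/-- the jacobian -/
lemma dchart_J {y : R.E} {q : Fin (d + 1) → ℂ} (hq : q ∈ PS d (R.Q.r y)) :
    (R.dchart hcp hft hμ).J y q = q 0 ^ R.cJ * R.GJ y q := by
  unfold DChart.J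
  rw [dchart_σ, R.cp_σ hcp y]
  exact R.P.det_eq R.h0 z R.b R.hb R.goodJ hq

end dchart

end BD

end Crest.Agent.R276.Bcq_828
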