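import Mathlib
import Crest.Agent.R276.BcqH_828

/-!
# R276, leaf BCQ (helper828), part I: models, normalisation of the index, polynomial bounds

* `exists_bd_mdl`, `BD.dchartM` : the case of a model `M : Mdl K (d+1)` of 987;
* `normD D` : the coordinate of the divisor becomes the coordinate `0`;
* bounds in terms of `1 / r`, `r` the radius of the boundary chart.
-/

set_option autoImplicit false

noncomputable section

open Set Filter Topology Metric MeasureTheory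
open scoped ENNReal

namespace Crest.Agent.R276.Bcq_828

open Crest.Agent.R271.Defs710 Crest.Agent.R271.Rd692 Crest.Agent.R271.Alg255
open Crest.Agent.R271.Bd741 Crest.Agent.R271.Ho51
open Crest.Agent.R276.BC_986 Crest.Agent.R276.Mod1_987 Crest.Agent.R276.CntDefs_857

variable {d : ℕ} {K : Type} [Field K] [Algebra ℂ K]

/-! ### models of 987 -/

/-- boundary charts of a model -/
theorem exists_bd_mdl (D : DivModel (d + 1) K) (h0 : D.i₀ = 0) (M : Mdl K (d + 1))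
    (F : Finset K) (hF : ∀ f ∈ F, f ≠ 0) :
    ∃ g : MvPolynomial (Fin d) ℂ, g ≠ 0 ∧ ∀ h : MvPolynomial (Fin d) ℂ, h ≠ 0 → g ∣ h →
      ∃ R : BD D M.B M.z F, R.X.M.h = h := by
  have : Algebra.IsAlgebraic M.B K := IsLocalization.isAlgebraic _ (nonZeroDivisors M.B)
  exact exists_BD D h0 M.B Subtype.val_injective M.ft M.z M.het F hF

/-- the boundary charts of a model -/
def BD.dchartM {D : DivModel (d + 1) K} {M : Mdl K (d + 1)} {F : Finset K}
    (R : BD D M.B M.z F) {μ : Measure M.Pts} (hμ : IsLeb μ) : DChart M.Pts R.E μ :=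
  R.dchart (fun _ => rfl) M.ft hμ

/-! ### the index of the divisor -/

/-- étaleness is preserved by a permutation of the coordinates -/
lemma etale_perm {A : Type} [CommRing A] [Algebra ℂ A] {n : ℕ} {w : Fin n → A}
    (het : RingHom.Etale ((MvPolynomial.aeval w : MvPolynomial (Fin n) ℂ →ₐ[ℂ] A) :
      MvPolynomial (Fin n) ℂ →+* A)) (e : Equiv.Perm (Fin n)) :
    RingHom.Etale ((MvPolynomial.aeval (w ∘ e) : MvPolynomial (Fin n) ℂ →ₐ[ℂ] A) :
      MvPolynomial (Fin n) ℂ →+* A) := by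
  have h1 : ((MvPolynomial.aeval (w ∘ e) : MvPolynomial (Fin n) ℂ →ₐ[ℂ] A) :
      MvPolynomial (Fin n) ℂ →+* A) =
      ((MvPolynomial.aeval w : MvPolynomial (Fin n) ℂ →ₐ[ℂ] A) :
        MvPolynomial (Fin n) ℂ →+* A).comp
        ((MvPolynomial.rename e : MvPolynomial (Fin n) ℂ →ₐ[ℂ] MvPolynomial (Fin n) ℂ) :
          MvPolynomial (Fin n) ℂ →+* MvPolynomial (Fin n) ℂ) := by
    apply MvPolynomial.ringHom_ext
    · intro r; simp
    · intro i; simp
  have h2 : RingHom.Etale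
      ((MvPolynomial.rename e : MvPolynomial (Fin n) ℂ →ₐ[ℂ] MvPolynomial (Fin n) ℂ) :
          MvPolynomial (Fin n) ℂ →+* MvPolynomial (Fin n) ℂ) := by
    apply RingHom.Etale.of_bijective
    exact (MvPolynomial.renameEquiv ℂ e).bijective
  rw [h1]
  exact RingHom.Etale.stableUnderComposition _ _ h2 het

/-- the normalised model: `i₀ = 0` -/
def normD (D : DivModel (d + 1) K) : DivModel (d + 1) K where
  A := D.A
  ft := D.ft
  w := D.w ∘ Equiv.swap 0 D.i₀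
  etale := etale_perm D.etale _
  i₀ := 0
  prime := by
    simp only [Function.comp_apply, Equiv.swap_apply_left]
    exact D.prime

@[simp] lemma normD_i₀ (D : DivModel (d + 1) K) : (normD D).i₀ = 0 := rfl

lemma normD_t (D : DivModel (d + 1) K) : (normD D).t = D.t := by
  change D.w (Equiv.swap 0 D.i₀ 0) = D.w D.i₀
  rw [Equiv.swap_apply_left]

lemma normD_hasOrd (D : DivModel (d + 1) K) (f : K) (a : ℤ) :
    (normD D).HasOrd f a ↔ D.HasOrd f a := by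
  unfold DivModel.HasOrd
  rw [normD_t]
  exact Iff.rfl

lemma normD_modelOf (D : DivModel (d + 1) K) {R : ValuationSubring K} (h : D.ModelOf R) :
    (normD D).ModelOf R := by
  constructor
  · intro a ha
    rw [normD_t] at ha
    exact h.unit a ha
  · rw [normD_t]
    exact h.lt

/-! ### bounds in terms of the radius -/

section bounds

variable {D : DivModel (d + 1) K} {X : DivMdl D} {S : Finset D.A} (Q : QS D X S)

lemma QS.r_le_rr (y : X.M.Pts) : Q.r y ≤ rr X.M y := by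
  unfold QS.r
  rw [radf_eq]
  calc Q.c * r0 X.M.h (cp y) ^ Q.κ ≤ 1 * r0 X.M.h (cp y) ^ 1 := by
        apply mul_le_mul Q.c_le (pow_le_pow_of_le_one (r0_nonneg _ _) (r0_le_one _ _) Q.κ_pos)
          (pow_nonneg (r0_nonneg _ _) _) zero_le_one
    _ = rr X.M y := by rw [one_mul, pow_one]; rfl

lemma QS.r_le_one (y : X.M.Pts) : Q.r y ≤ 1 := (Q.r_le_rr y).trans (rr_le_one _ _)

/-- from `rr` to the radius -/
lemma QS.le_of_mul_rr {φ C : ℝ} {k : ℕ} (y : X.M.Pts) (hφ : 0 ≤ φ)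
    (h : φ * rr X.M y ^ k ≤ C) : φ ≤ C * (1 / Q.r y) ^ k := by
  have hr := Q.r_pos y
  have h1 : Q.r y ^ k ≤ rr X.M y ^ k := pow_le_pow_left₀ hr.le (Q.r_le_rr y) k
  have h2 : φ * Q.r y ^ k ≤ C := le_trans (by gcongr) h
  rw [one_div, inv_pow, ← div_eq_mul_inv, le_div_iff₀ (by positivity)]
  exact h2

/-- values of the functions of the model -/
theorem QS.bound_s (a : D.A) : ∃ (C : ℝ) (k : ℕ), 0 < C ∧ ∀ y,
    ∀ ζ ∈ ball (0 : Cn (d + 1)) (Q.r y), ‖Q.s y ζ a‖ ≤ C * (1 / Q.r y) ^ k := by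
  obtain ⟨C, k, hC, h⟩ := Q.up' a
  exact ⟨C, k, hC, fun y ζ hζ => Q.le_of_mul_rr y (norm_nonneg _) (h y ζ hζ)⟩

variable {Q}

/-- two sided bounds for the unit part of a good function -/
theorem QGood.bound {f : K} {a : ℤ} {G : X.M.Pts → Cn (d + 1) → ℂ} (hG : QGood Q f a G) :
    ∃ (C : ℝ) (k : ℕ), 1 ≤ C ∧ ∀ y, ∀ ζ ∈ ball (0 : Cn (d + 1)) (Q.r y),
      C⁻¹ * Q.r y ^ k ≤ ‖G y ζ‖ ∧ ‖G y ζ‖ ≤ C * (1 / Q.r y) ^ k := by
  obtain ⟨C, k, hC, h⟩ := hG.up
  obtain ⟨C', k', hC', h'⟩ := hG.low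
  refine ⟨1 + C + C', k + k', by linarith, fun y ζ hζ => ?_⟩
  have hr := Q.r_pos y
  have hr1 := Q.r_le_one y
  have h1r : 1 ≤ 1 / Q.r y := by rw [le_div_iff₀ hr]; linarith
  have hG0 : 0 < ‖G y ζ‖ := norm_pos_iff.2 (hG.ne hζ)
  constructor
  · have h1 := Q.le_of_mul_rr y (by positivity) (h' y ζ hζ)
    have h2 : ‖G y ζ‖⁻¹ ≤ (1 + C + C') * (1 / Q.r y) ^ (k + k') := by
      refine h1.trans ?_
      have : (1 / Q.r y) ^ k' ≤ (1 / Q.r y) ^ (k + k') := pow_le_pow_right₀ h1r (by omega)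
      gcongr
      linarith
    have h3 := inv_anti₀ (by positivity) h2
    rw [inv_inv] at h3
    refine le_trans (le_of_eq ?_) h3
    rw [mul_inv, one_div, inv_pow, inv_inv]
  · refine (Q.le_of_mul_rr y (norm_nonneg _) (h y ζ hζ)).trans ?_
    have : (1 / Q.r y) ^ k ≤ (1 / Q.r y) ^ (k + k') := pow_le_pow_right₀ h1r (by omega)
    gcongr
    linarith

lemma Sh_subset_PS {r : ℝ} (hr : 0 < r) : Sh d r ⊆ PS d r := by
  rintro q ⟨h1, h2, h3⟩
  refine ⟨fun h => ?_, fun i => ?_⟩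
  · rw [h, norm_zero] at h1; linarith
  · refine Fin.cases ?_ (fun j => ?_) i
    · linarith
    · have := h3 j; linarith

variable {B : Type} [CommRing B] [Algebra ℂ B] [Algebra B K] (P : QB Q B)

/-- values of `b ∈ B` on the punctured polydisc -/
theorem QB.bound_PS (h0 : D.i₀ = 0) (b : B) : ∃ (C : ℝ) (m k : ℕ), 0 < C ∧ ∀ y,
    ∀ ζ ∈ PS d (Q.r y), ‖P.σ y ζ b‖ ≤ C * (1 / ‖ζ 0‖) ^ m * (1 / Q.r y) ^ k := by
  obtain ⟨C, m, k, hC, h⟩ := P.bound h0 b
  refine ⟨C, m, k, hC, fun y ζ hζ => ?_⟩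
  have hζ0 : 0 < ‖ζ 0‖ := norm_pos_iff.2 hζ.1
  have h1 := Q.le_of_mul_rr y (by positivity) (h y ζ hζ)
  rw [one_div ‖ζ 0‖, inv_pow, mul_right_comm, ← div_eq_mul_inv, le_div_iff₀ (by positivity)]
  exact h1

/-- values of `b ∈ B` on the shell -/
theorem QB.bound_Sh (h0 : D.i₀ = 0) (b : B) : ∃ (C : ℝ) (k : ℕ), 0 < C ∧ ∀ y,
    ∀ ζ ∈ Sh d (Q.r y), ‖P.σ y ζ b‖ ≤ C * (1 / Q.r y) ^ k := by
  obtain ⟨C, m, k, hC, h⟩ := P.bound_PS h0 b
  refine ⟨C * 4 ^ m, m + k, by positivity, fun y ζ hζ => ?_⟩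
  have hr := Q.r_pos y
  have h1 := h y ζ (Sh_subset_PS hr hζ)
  have hζ0 : Q.r y / 4 < ‖ζ 0‖ := hζ.1
  have h2 : 1 / ‖ζ 0‖ ≤ 4 * (1 / Q.r y) := by
    rw [div_le_iff₀ (by linarith)]
    have : 4 * (1 / Q.r y) * (Q.r y / 4) = 1 := by field_simp
    nlinarith [one_div_pos.2 hr]
  calc ‖P.σ y ζ b‖ ≤ C * (1 / ‖ζ 0‖) ^ m * (1 / Q.r y) ^ k := h1
    _ ≤ C * (4 * (1 / Q.r y)) ^ m * (1 / Q.r y) ^ k := by gcongr
    _ = C * 4 ^ m * (1 / Q.r y) ^ (m + k) := by rw [mul_pow, pow_add]; ring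

end bounds

/-! ### logarithmic bounds -/

lemma log_le_of_le {v C r : ℝ} {k : ℕ} (hv : 0 < v) (hC : 1 ≤ C) (hr : 0 < r) (hr1 : r ≤ 1)
    (h : v ≤ C * (1 / r) ^ k) : Real.log v ≤ (Real.log C + k) * (1 + Real.log (1 / r)) := by
  have h1r : 1 ≤ 1 / r := by rw [le_div_iff₀ hr]; linarith
  have hl : 0 ≤ Real.log (1 / r) := Real.log_nonneg h1r
  have hC0 : 0 ≤ Real.log C := Real.log_nonneg hC
  have h1 : Real.log v ≤ Real.log C + k * Real.log (1 / r) := by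
    calc Real.log v ≤ Real.log (C * (1 / r) ^ k) := Real.log_le_log hv h
      _ = _ := by rw [Real.log_mul (by positivity) (by positivity), Real.log_pow]
  have hk : (0 : ℝ) ≤ k := Nat.cast_nonneg k
  nlinarith [mul_nonneg hC0 hl]

/-- polynomial bounds give logarithmic bounds -/
lemma exists_log_bound {C : ℝ} (hC : 0 < C) (k : ℕ) : ∃ A : ℝ, 1 ≤ A ∧ ∀ (v r : ℝ), 0 ≤ v →
    0 < r → r ≤ 1 → v ≤ C * (1 / r) ^ k → Real.log v ≤ A * (1 + Real.log (1 / r)) := by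
  refine ⟨1 + Real.log (1 + C) + k, ?_, fun v r hv hr hr1 h => ?_⟩
  · have : 0 ≤ Real.log (1 + C) := Real.log_nonneg (by linarith)
    have : (0 : ℝ) ≤ k := Nat.cast_nonneg k
    linarith
  have h1r : 1 ≤ 1 / r := by rw [le_div_iff₀ hr]; linarith
  have hl : 0 ≤ Real.log (1 / r) := Real.log_nonneg h1r
  have hC0 : 0 ≤ Real.log (1 + C) := Real.log_nonneg (by linarith)
  have hk : (0 : ℝ) ≤ k := Nat.cast_nonneg k
  rcases hv.eq_or_lt with rfl | hv
  · rw [Real.log_zero]; positivity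
  have h1 : v ≤ (1 + C) * (1 / r) ^ k := h.trans (by gcongr; linarith)
  have h2 := log_le_of_le hv (by linarith) hr hr1 h1
  nlinarith

/-- logarithmic bound of a good function on the shell, both sides -/
theorem QGood.log_bound {D : DivModel (d + 1) K} {X : DivMdl D} {S : Finset D.A} {Q : QS D X S}
    {f : K} {a : ℤ} {G : X.M.Pts → Cn (d + 1) → ℂ} (hG : QGood Q f a G) :
    ∃ A : ℝ, 0 ≤ A ∧ ∀ y, ∀ ζ ∈ Sh d (Q.r y),
      |Real.log (‖ζ 0 ^ a * G y ζ‖ ^ 2)| ≤ A * (1 + Real.log (1 / Q.r y)) := by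
  obtain ⟨C, k, hC, h⟩ := hG.bound
  have hlC := Real.log_nonneg hC
  have hk : (0 : ℝ) ≤ k := Nat.cast_nonneg k
  refine ⟨2 * (2 * |(a : ℝ)| + (Real.log C + k)), by positivity, fun y ζ hζ => ?_⟩
  have hr := Q.r_pos y
  have hr1 := Q.r_le_one y
  have h1r : 1 ≤ 1 / Q.r y := by rw [le_div_iff₀ hr]; linarith
  set L := Real.log (1 / Q.r y) with hL
  have hL0 : 0 ≤ L := Real.log_nonneg h1r
  have hζb := ((mem_PS_iff hr).1 (Sh_subset_PS hr hζ)).1
  obtain ⟨e1, e2⟩ := h y ζ hζb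
  have hG0 : 0 < ‖G y ζ‖ := norm_pos_iff.2 (hG.ne hζb)
  have h1 : 0 < ‖ζ 0‖ := by have := hζ.1; linarith
  have h2 : ‖ζ 0‖ ≤ 1 := by have := hζ.2.1; linarith
  -- the coordinate
  have e3 : |Real.log ‖ζ 0‖| ≤ 2 * (1 + L) := by
    rw [abs_le]
    constructor
    · have h3 : Real.log (Q.r y / 4) ≤ Real.log ‖ζ 0‖ :=
        Real.log_le_log (by positivity) hζ.1.le
      have h4 : Real.log (Q.r y / 4) = -L - Real.log 4 := by
        rw [Real.log_div hr.ne' (by norm_num), hL, one_div, Real.log_inv]; ring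
      have h5 : Real.log 4 ≤ 2 := by
        have h6 : (4 : ℝ) = 2 ^ 2 := by norm_num
        rw [h6, Real.log_pow]
        have := Real.log_two_lt_d9
        push_cast
        linarith
      linarith
    · have := Real.log_nonpos h1.le h2
      linarith
  -- the unit
  have e4 : |Real.log ‖G y ζ‖| ≤ (Real.log C + k) * (1 + L) := by
    rw [abs_le]
    constructor
    · have h3 : ‖G y ζ‖⁻¹ ≤ C * (1 / Q.r y) ^ k := by
        have h4 := inv_anti₀ (by positivity) e1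
        refine h4.trans (le_of_eq ?_)
        rw [mul_inv, inv_inv, one_div, inv_pow]
      have h4 := log_le_of_le (inv_pos.2 hG0) hC hr hr1 h3
      rw [Real.log_inv] at h4
      linarith
    · exact log_le_of_le hG0 hC hr hr1 e2
  have e5 : Real.log (‖ζ 0 ^ a * G y ζ‖ ^ 2) = 2 * (a * Real.log ‖ζ 0‖ + Real.log ‖G y ζ‖) := by
    rw [Real.log_pow, norm_mul, norm_zpow, Real.log_mul (zpow_ne_zero _ h1.ne') hG0.ne',
      Real.log_zpow]
    push_cast
    ring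
  rw [e5, abs_mul, abs_of_pos (by norm_num : (0 : ℝ) < 2)]
  calc 2 * |a * Real.log ‖ζ 0‖ + Real.log ‖G y ζ‖|
      ≤ 2 * (|(a : ℝ)| * |Real.log ‖ζ 0‖| + |Real.log ‖G y ζ‖|) := by
        have := abs_add_le (a * Real.log ‖ζ 0‖) (Real.log ‖G y ζ‖)
        rw [abs_mul] at this
        linarith
    _ ≤ 2 * (|(a : ℝ)| * (2 * (1 + L)) + (Real.log C + k) * (1 + L)) := by gcongr
    _ = _ := by ring

/-- the jacobian of the boundary charts on the shell -/
theorem BD.log_J {D : DivModel (d + 1) K} {B : Type} [CommRing B] [Algebra ℂ B] [Algebra B K]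
    {z : Fin (d + 1) → B} {F : Finset K} (R : BD D B z F) [RDom (d + 1) (B →ₐ[ℂ] ℂ)]
    (hcp : ∀ x : B →ₐ[ℂ] ℂ, (cp x : Fin (d + 1) → ℂ) = fun i => x (z i))
    (hft : Algebra.FiniteType ℂ B) {μ : Measure (B →ₐ[ℂ] ℂ)} (hμ : IsLeb μ) :
    ∃ A : ℝ, 0 ≤ A ∧ ∀ y, ∀ q ∈ Sh d ((R.dchart hcp hft hμ).r y),
      |Real.log (‖(R.dchart hcp hft hμ).J y q‖ ^ 2)| ≤
        A * (1 + Real.log (1 / (R.dchart hcp hft hμ).r y)) := by
  obtain ⟨A, hA, h⟩ := R.goodJ.log_bound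
  refine ⟨A, hA, fun y q hq => ?_⟩
  rw [dchart_r] at hq ⊢
  rw [R.dchart_J hcp hft hμ (Sh_subset_PS (R.Q.r_pos y) hq)]
  exact h y q hq

/-- the values of `b ∈ B` on the shell, logarithmic form -/
theorem QB.log_bound_Sh {D : DivModel (d + 1) K} {X : DivMdl D} {S : Finset D.A} {Q : QS D X S}
    {B : Type} [CommRing B] [Algebra ℂ B] [Algebra B K] (P : QB Q B) (h0 : D.i₀ = 0) (b : B) :
    ∃ A : ℝ, 1 ≤ A ∧ ∀ y, ∀ ζ ∈ Sh d (Q.r y),
      Real.log (1 + ‖P.σ y ζ b‖) ≤ A * (1 + Real.log (1 / Q.r y)) := by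
  obtain ⟨C, k, hC, h⟩ := P.bound_Sh h0 b
  obtain ⟨A, hA, h1⟩ := exists_log_bound (C := 1 + C) (by positivity) k
  refine ⟨A, hA, fun y ζ hζ => h1 _ _ (by positivity) (Q.r_pos y) (Q.r_le_one y) ?_⟩
  have h1r : 1 ≤ 1 / Q.r y := by
    rw [le_div_iff₀ (Q.r_pos y)]; linarith [Q.r_le_one y]
  have h2 : 1 ≤ (1 / Q.r y) ^ k := one_le_pow₀ h1r
  have h3 := h y ζ hζ
  linarith

end Crest.Agent.R276.Bcq_828
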