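import Crest.Agent.R276.CntA_857

/-!
# R276, leaf COUNT (helper857), part B: growth of the coefficients

`pg`: the coefficients have polynomial growth of degree `O(n t + n)`;
`gr`: the leading coefficient has growth `O(n)` in the metric `e^{-n t τ}`.
-/

set_option autoImplicit false

noncomputable section

open Set Filter Topology MeasureTheory Metric

namespace Crest.Agent.R276.CntB_857

open Crest.Agent.R271.Ho51 Crest.Agent.R276.CntDefs_857 Crest.Agent.R276.SliA_217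
  Crest.Agent.R276.CntA_857

variable {d : ℕ} {M E : Type*} [TopologicalSpace M] [RDom (d + 1) M] [MeasurableSpace M]
    {μ : Measure M} [TopologicalSpace E] [RDom d E]

/-- growth of the weights on the shells (all that is needed at a good divisor) -/
structure Gro (D : DChart M E μ) (φ ψ : M → ℝ) (k : ℤ) where
  C : ℝ
  hC : 1 ≤ C
  g1 : ∀ y, ∀ q ∈ Sh d (D.r y), D.phW φ y q ≤ C * (1 + Real.log (1 / D.r y))
  g2 : ∀ y, ∀ q ∈ Sh d (D.r y), D.psI ψ k y q ≤ C * (1 + Real.log (1 / D.r y))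

/-- the growth data of `Full` -/
def _root_.Crest.Agent.R276.CntDefs_857.Full.gro {D : DChart M E μ} {φ ψ : M → ℝ} {k : ℤ} {ρ : ℕ}
    (P : Full D φ ψ k ρ) : Gro D φ ψ k := ⟨P.C, P.hC, P.g1, P.g2⟩

omit [TopologicalSpace M] [RDom (d + 1) M] [MeasurableSpace M] [TopologicalSpace E] [RDom d E] in
/-- mean value inequality on the shell, at the points of the central circle -/
theorem shell_mean {r : ℝ} (hr : 0 < r) {f : (Fin (d + 1) → ℂ) → ℂ}
    (hf : DifferentiableOn ℂ f (Sh d r)) {x : ℂ} (hx : ‖x‖ = r / 2) {I : ℝ} (hI : 0 ≤ I)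
    (hL : ∫⁻ q in Sh d r, ENNReal.ofReal (‖f q‖ ^ 2) ≤ ENNReal.ofReal I) :
    ‖f (Fin.cons x 0)‖ ^ 2 ≤ I * (10 / r) ^ (2 * (d + 1)) := by
  have h1 := Crest.Agent.R271.RExt747.submean (isOpen_Sh r) hf (closedBall_subset_Sh hr hx)
  have h2 : ∫⁻ y in closedBall (Fin.cons x 0 : Fin (d + 1) → ℂ) (r / 5), ‖f y‖ₑ ^ 2 ≤
      ENNReal.ofReal I := by
    refine (lintegral_mono_set (closedBall_subset_Sh hr hx)).trans ?_
    refine le_trans (le_of_eq ?_) hL
    refine lintegral_congr fun q => ?_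
    rw [ENNReal.ofReal_pow (norm_nonneg _), ofReal_norm]
  have h3 : ENNReal.ofReal ((r / 10) ^ (2 * (d + 1))) ≤
      volume (closedBall (Fin.cons x 0 : Fin (d + 1) → ℂ) (r / 5)) := by
    rw [volume_pi_closedBall _ (by positivity)]
    simp only [Complex.volume_closedBall]
    rw [Finset.prod_const, Finset.card_univ, Fintype.card_fin, pow_mul,
      ENNReal.ofReal_pow (by positivity)]
    refine pow_le_pow_left₀ (zero_le) ?_ _
    rw [← ENNReal.ofReal_pow (by positivity), ← ENNReal.ofReal_coe_nnreal,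
      ← ENNReal.ofReal_mul (by positivity)]
    refine ENNReal.ofReal_le_ofReal ?_
    have h5 : (1 : ℝ) ≤ (NNReal.pi : ℝ) := by
      rw [NNReal.coe_real_pi]; linarith [Real.pi_gt_three]
    have h6 : 0 ≤ (r / 5) ^ 2 := by positivity
    nlinarith
  have h4 : ENNReal.ofReal ((r / 10) ^ (2 * (d + 1)) * ‖f (Fin.cons x 0)‖ ^ 2) ≤
      ENNReal.ofReal I := by
    rw [ENNReal.ofReal_mul (by positivity)]
    refine le_trans ?_ (h1.trans h2)
    rw [ENNReal.ofReal_pow (norm_nonneg _), ofReal_norm]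
    gcongr
  rw [ENNReal.ofReal_le_ofReal_iff hI] at h4
  have h5 : (10 / r) ^ (2 * (d + 1)) = ((r / 10) ^ (2 * (d + 1)))⁻¹ := by
    rw [← inv_pow, inv_div]
  rw [h5, ← div_eq_mul_inv, le_div_iff₀ (by positivity), mul_comm]
  exact h4


theorem norm_avg_le {f : ℂ → ℂ} {s K : ℝ} (hs : 0 < s) (h : ∀ x, ‖x‖ = s → ‖f x‖ ≤ K) :
    ‖Real.circleAverage f 0 s‖ ≤ K := by
  rw [Real.circleAverage_def, norm_smul]
  have h2 : ‖∫ θ in (0 : ℝ)..2 * Real.pi, f (circleMap 0 s θ)‖ ≤ K * |2 * Real.pi - 0| := by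
    apply intervalIntegral.norm_integral_le_of_norm_le_const
    intro θ _
    exact h _ (by rw [norm_circleMap_zero, abs_of_pos hs])
  rw [sub_zero, abs_of_pos (by positivity)] at h2
  calc ‖(2 * Real.pi)⁻¹‖ * ‖∫ θ in (0 : ℝ)..2 * Real.pi, f (circleMap 0 s θ)‖
      ≤ (2 * Real.pi)⁻¹ * (K * (2 * Real.pi)) := by
        rw [Real.norm_eq_abs, abs_of_pos (by positivity)]
        gcongr
    _ = K := by field_simp

variable (D : DChart M E μ)

/-- the basic estimate -/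
theorem core [BorelSpace M] {φ ψ : M → ℝ} (hφ : Measurable φ) (hψ : Measurable ψ)
    {n t : ℕ} {k : ℤ} {F : M → ℂ} (hF : F ∈ V μ hφ hψ n t) (y : E)
    {g : (Fin (d + 1) → ℂ) → ℂ} (hg : DifferentiableOn ℂ g (Sh d (D.r y))) {K : ℝ} (hK : 0 ≤ K)
    (hb : ∀ q ∈ Sh d (D.r y), ‖g q‖ ^ 2 ≤ K * (‖D.fI n t k F y q‖ ^ 2 *
      Real.exp (-(((n : ℝ) - 1) * D.phW φ y q + n * t * D.psI ψ k y q))))
    {x : ℂ} (hx : ‖x‖ = D.r y / 2) :
    ‖g (Fin.cons x 0)‖ ^ 2 ≤
      K * (D.N * (nrm μ φ ψ n t F).toReal) * (10 / D.r y) ^ (2 * (d + 1)) := by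
  have hr := r_pos D y
  refine shell_mean hr hg hx (by positivity) ?_
  have h1 : ∫⁻ q in Sh d (D.r y), ENNReal.ofReal (‖g q‖ ^ 2) ≤
      ∫⁻ q in Sh d (D.r y), ENNReal.ofReal K * ENNReal.ofReal (‖D.fI n t k F y q‖ ^ 2 *
      Real.exp (-(((n : ℝ) - 1) * D.phW φ y q + n * t * D.psI ψ k y q))) := by
    refine setLIntegral_mono' (isOpen_Sh _).measurableSet fun q hq => ?_
    rw [← ENNReal.ofReal_mul hK]
    exact ENNReal.ofReal_le_ofReal (hb q hq)
  refine h1.trans ?_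
  rw [lintegral_const_mul' _ _ ENNReal.ofReal_ne_top, ENNReal.ofReal_mul hK]
  gcongr
  refine (lintegral_mono_set (Sh_subset hr)).trans ((chart_norm D hφ hψ n t k hF.1 y).trans ?_)
  rw [ENNReal.ofReal_mul (Nat.cast_nonneg _), ENNReal.ofReal_toReal hF.2.ne]
  simp

theorem exp_log_le {C r : ℝ} {m : ℕ} (hr : 0 < r) (hr1 : r ≤ 1) :
    Real.exp (m * (C * (1 + Real.log (1 / r)))) ≤ Real.exp (m * ⌈C⌉₊) * (1 / r) ^ (m * ⌈C⌉₊) := by
  have hL : 0 ≤ Real.log (1 / r) := Real.log_nonneg (by rw [le_div_iff₀ hr]; linarith)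
  have h1 : (1 / r) ^ (m * ⌈C⌉₊) = Real.exp ((m * ⌈C⌉₊ : ℕ) * Real.log (1 / r)) := by
    rw [← Real.log_pow, Real.exp_log (by positivity)]
  rw [h1, ← Real.exp_add]
  apply Real.exp_le_exp.2
  have h2 : C ≤ ⌈C⌉₊ := Nat.le_ceil C
  have h3 : C * (1 + Real.log (1 / r)) ≤ ⌈C⌉₊ * (1 + Real.log (1 / r)) := by gcongr
  have h4 : (m : ℝ) * (C * (1 + Real.log (1 / r))) ≤ m * (⌈C⌉₊ * (1 + Real.log (1 / r))) := by
    gcongr
  refine h4.trans (le_of_eq ?_)
  push_cast
  ring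

/-- `(r/2)^{-l} ≤ (2/r)^{|l|}` -/
theorem zpow_half_le {r : ℝ} (hr : 0 < r) (hr1 : r ≤ 1) (l : ℤ) :
    (r / 2) ^ (-l) ≤ (2 / r) ^ l.natAbs := by
  have h1 : (r / 2) ^ (-l) = (2 / r) ^ l := by
    rw [zpow_neg, ← inv_zpow, inv_div]
  rw [h1, ← zpow_natCast]
  exact zpow_le_zpow_right₀ (by rw [le_div_iff₀ hr]; linarith) Int.le_natAbs

/-- **polynomial growth of the coefficients** -/
theorem pg [BorelSpace M] {φ ψ : M → ℝ} (hφ : Measurable φ) (hψ : Measurable ψ) {k : ℤ}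
    (G : Gro D φ ψ k) : ∃ A : ℕ, ∀ n t : ℕ, 1 ≤ n → ∀ l : ℤ, ∀ F ∈ V μ hφ hψ n t,
      ∃ C' : ℝ, ∀ y, ‖co D n t k F l y‖ ≤ C' * (1 / D.r y) ^ (A * (n * t + n + l.natAbs + 1)) := by
  set c := ⌈G.C⌉₊ with hc
  refine ⟨c + d + 1, fun n t hn l F hF => ?_⟩
  set Q := (nrm μ φ ψ n t F).toReal with hQ
  set B : ℝ := 2 ^ (2 * l.natAbs) * (Real.exp ((n - 1 + n * t : ℕ) * c) * (D.N * Q) *
    10 ^ (2 * (d + 1))) with hB
  have hB0 : 0 ≤ B := by positivity
  refine ⟨Real.sqrt B, fun y => ?_⟩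
  have hr := r_pos D y
  have hr1 := r_le_one D y
  set r := D.r y with hrdef
  have h1r : 1 ≤ 1 / r := by rw [le_div_iff₀ hr]; linarith
  have hnR : ((n - 1 : ℕ) : ℝ) = (n : ℝ) - 1 := by push_cast [Nat.cast_sub hn]; ring
  -- pointwise bound
  have h1 : ∀ x : ℂ, ‖x‖ = r / 2 → ‖D.fI n t k F y (Fin.cons x 0)‖ ^ 2 ≤
      Real.exp ((n - 1 + n * t : ℕ) * c) * (1 / r) ^ ((n - 1 + n * t) * c) * (D.N * Q) *
        (10 / r) ^ (2 * (d + 1)) := by
    intro x hx
    refine core D hφ hψ (k := k) hF y ((diff_fI D n t k hF.1 y).mono (Sh_subset hr))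
      (by positivity) ?_ hx
    intro q hq
    have h2 : 1 ≤ Real.exp ((n - 1 + n * t : ℕ) * c) * (1 / r) ^ ((n - 1 + n * t) * c) *
        Real.exp (-(((n : ℝ) - 1) * D.phW φ y q + n * t * D.psI ψ k y q)) := by
      have h3 := exp_log_le (C := G.C) (m := n - 1 + n * t) hr hr1
      rw [← hc] at h3
      have h4 : Real.exp (((n : ℝ) - 1) * D.phW φ y q + n * t * D.psI ψ k y q) ≤
          Real.exp ((n - 1 + n * t : ℕ) * (G.C * (1 + Real.log (1 / r)))) := by
        apply Real.exp_le_exp.2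
        have h5 := G.g1 y q hq
        have h6 := G.g2 y q hq
        have h7 : ((n : ℝ) - 1) * D.phW φ y q ≤ ((n : ℝ) - 1) * (G.C * (1 + Real.log (1 / r))) := by
          apply mul_le_mul_of_nonneg_left h5
          rw [← hnR]; positivity
        have h8 : (n : ℝ) * t * D.psI ψ k y q ≤ n * t * (G.C * (1 + Real.log (1 / r))) := by
          apply mul_le_mul_of_nonneg_left h6
          positivity
        rw [Nat.cast_add, hnR]
        push_cast
        linarith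
      rw [Real.exp_neg]
      rw [le_mul_inv_iff₀ (Real.exp_pos _), one_mul]
      exact h4.trans h3
    have h9 : 0 ≤ ‖D.fI n t k F y q‖ ^ 2 := by positivity
    calc ‖D.fI n t k F y q‖ ^ 2 = ‖D.fI n t k F y q‖ ^ 2 * 1 := by ring
      _ ≤ ‖D.fI n t k F y q‖ ^ 2 * (Real.exp ((n - 1 + n * t : ℕ) * c) *
          (1 / r) ^ ((n - 1 + n * t) * c) *
          Real.exp (-(((n : ℝ) - 1) * D.phW φ y q + n * t * D.psI ψ k y q))) := by gcongr
      _ = _ := by ring
  -- the average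
  have h2 : ‖co D n t k F l y‖ ≤ Real.sqrt B * (1 / r) ^ ((c + d + 1) *
      (n * t + n + l.natAbs + 1)) := by
    unfold co
    refine norm_avg_le (by positivity) fun x hx => ?_
    rw [← hrdef] at hx
    rw [norm_mul, norm_zpow, hx]
    have h3 : (‖D.fI n t k F y (Fin.cons x 0)‖ * (r / 2) ^ (-l)) ^ 2 ≤
        B * ((1 / r) ^ ((c + d + 1) * (n * t + n + l.natAbs + 1))) ^ 2 := by
      rw [mul_pow]
      have h4 : ((r / 2) ^ (-l)) ^ 2 ≤ 2 ^ (2 * l.natAbs) * (1 / r) ^ (2 * l.natAbs) := by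
        have h5 := zpow_half_le hr hr1 l
        have h6 : 0 ≤ (r / 2) ^ (-l) := by positivity
        calc ((r / 2) ^ (-l)) ^ 2 ≤ ((2 / r) ^ l.natAbs) ^ 2 := by gcongr
          _ = 2 ^ (2 * l.natAbs) * (1 / r) ^ (2 * l.natAbs) := by
            rw [← pow_mul, ← mul_pow, mul_comm l.natAbs 2]; congr 1; ring
      calc ‖D.fI n t k F y (Fin.cons x 0)‖ ^ 2 * ((r / 2) ^ (-l)) ^ 2
          ≤ (Real.exp ((n - 1 + n * t : ℕ) * c) * (1 / r) ^ ((n - 1 + n * t) * c) * (D.N * Q) *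
            (10 / r) ^ (2 * (d + 1))) * (2 ^ (2 * l.natAbs) * (1 / r) ^ (2 * l.natAbs)) := by
            gcongr
            exact h1 x hx
        _ = B * (1 / r) ^ ((n - 1 + n * t) * c + 2 * (d + 1) + 2 * l.natAbs) := by
            rw [hB, show (10 / r : ℝ) = 10 * (1 / r) by ring, mul_pow, pow_add, pow_add]; ring
        _ ≤ B * (1 / r) ^ (((c + d + 1) * (n * t + n + l.natAbs + 1)) * 2) := by
            have h7 : (n - 1 + n * t) * c ≤ c * (n * t + n + l.natAbs + 1) := by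
              rw [mul_comm]; exact Nat.mul_le_mul_left c (by omega)
            have h8 : (d + 1) + l.natAbs ≤ (d + 1) * (n * t + n + l.natAbs + 1) := by
              nlinarith [Nat.zero_le (d * l.natAbs), Nat.zero_le ((d + 1) * (n * t + n))]
            have h9 : (n - 1 + n * t) * c + 2 * (d + 1) + 2 * l.natAbs ≤
                ((c + d + 1) * (n * t + n + l.natAbs + 1)) * 2 := by
              have h10 : (c + d + 1) * (n * t + n + l.natAbs + 1) =
                c * (n * t + n + l.natAbs + 1) + (d + 1) * (n * t + n + l.natAbs + 1) := by ring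
              omega
            exact mul_le_mul_of_nonneg_left (pow_le_pow_right₀ h1r h9) hB0
        _ = _ := by rw [pow_mul]
    have h10 : 0 ≤ (1 / r) ^ ((c + d + 1) * (n * t + n + l.natAbs + 1)) := by positivity
    refine (pow_le_pow_iff_left₀ (by positivity) (by positivity) two_ne_zero).1 ?_
    rw [mul_pow (Real.sqrt B), Real.sq_sqrt hB0]
    exact h3
  exact h2

end Crest.Agent.R276.CntB_857
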