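import Mathlib
import Crest.Agent.R276.SkelDefs_220
import Crest.Agent.R276.CntB_857
import Crest.Agent.R276.BC4_986
import Crest.Agent.R276.Mod4_987

/-!
# R276, leaf C4-GLUE (helper804): the inputs of `SkelDefs_220.C4`

`DLog` : two-sided bounds of the CY norm `D` on tower charts (the exponent may depend on the chart).
`CD`   : the counting data along one divisorial valuation ring `R` of `K` with `R ∩ T ≠ T`.
-/

set_option autoImplicit false

open Set Filter Topology MeasureTheory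

noncomputable section

namespace Crest.Agent.R276.C4GDefs_804

open Crest.Agent.R271 Crest.Agent.R271.Rd692 Crest.Agent.R271.Ho51
open Crest.Agent.R271.Defs710 hiding glue
open Crest.Agent.R276.Mod1_987 Crest.Agent.R276.FKDefs_779
open Crest.Agent.R276.BC_986 (DivModel)
open Crest.Agent.R276.CntDefs_857 Crest.Agent.R276.CntB_857
open Crest.Agent.R276.SkelDefs_220 hiding ModelOf

section dlog

variable {T L K : Type} [Field T] [Field L] [Field K] [Algebra ℂ T] [Algebra ℂ L] [Algebra ℂ K]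
  [Algebra T L] [Algebra L K] [IsScalarTower ℂ T L] [IsScalarTower ℂ L K] {ρ a r : ℕ}
  {MT : Mdl T ρ} {ML : Mdl L (ρ + a)} {MK : Mdl K (ρ + a + r)}

/-- **(DLOG)** `|τ|^{2k} / C ≤ D ≤ C |τ|^{2k} (1 + |log |τ||)^N` on smaller polydiscs of every good
tower chart for which `R ∩ L` is divisorial; the exponent `k` may depend on the chart. -/
def DLog (H₁ : Rel MT ML) (H₂ : Rel ML MK) (D : ML.Pts → ℝ) : Prop :=
  ∀ R : ValuationSubring K, IsDiv ℂ (ρ + a + r) R →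
    ∃ (F : Finset K) (FL : Finset L), (∀ f ∈ F, f ≠ 0) ∧ (∀ f ∈ FL, f ≠ 0) ∧
      ∀ Y : TChart H₁ H₂ R, Y.Dict → Y.Good F → Y.GoodL FL →
        ∀ i : Fin (ρ + a), low (some Y.i₀) = some i →
        ∃ k : ℝ, ∀ δ' < Y.δ, ∃ (C : ℝ) (N : ℕ), ∀ η ∈ PD δ' (low (some Y.i₀)),
          ‖η i‖ ^ (2 * k) ≤ C * D (Y.cL.s η) ∧
          D (Y.cL.s η) ≤ C * ‖η i‖ ^ (2 * k) * (1 + |Real.log ‖η i‖|) ^ N

end dlog

section cd

variable {T L K : Type} [Field T] [Field L] [Field K] [Algebra ℂ T] [Algebra ℂ L] [Algebra ℂ K]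
  [Algebra T L] [Algebra L K] {d : ℕ}

/-- the restriction of `R` to `T` -/
def RT (T : Type) {L K : Type} [Field T] [Field L] [Field K] [Algebra T L] [Algebra L K]
    (R : ValuationSubring K) : ValuationSubring T :=
  (R.comap (algebraMap L K)).comap (algebraMap T L)

/-- counting data for the weights `φ`, `ψ` of `M_T` along `R`, `R ∩ T ≠ T` -/
structure CD (MT : Mdl T (d + 1)) (μ : Measure MT.Pts)
    (φ ψ : MT.Pts → ℝ) (ν : ℕ) (R : ValuationSubring K) where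
  /-- the divisor of the multisection and the charts of `M_T` -/
  E : Type
  [top : TopologicalSpace E]
  [rdom : RDom d E]
  D : DChart MT.Pts E μ
  k : ℤ
  /-- bad or good divisor -/
  alt : (0 < ν ∧ Nonempty (Full D φ ψ k (ν - 1)) ∧ Gen D φ ψ k 1) ∨
    (Nonempty (Gro D φ ψ k) ∧ Gen D φ ψ k 0)
  /-- lower bound of `ψ` near ONE point of the divisor -/
  low : ∃ (y : E) (ε C : ℝ) (N : ℕ), 0 < ε ∧ ∀ q ∈ PS d ε,
    Real.exp (-D.psI ψ k y q) ≤ C * (1 + |Real.log ‖q 0‖|) ^ N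
  /-- a model of `R ∩ T` -/
  DT : DivModel (d + 1) T
  model : DT.ModelOf (RT T (L := L) R)
  /-- `t_T = t_L^e w`, `w` regular at `R` -/
  e : ℕ
  e_pos : 0 < e
  tL : L
  tL_mem : algebraMap L K tL ∈ R
  tL_inv : (algebraMap L K tL)⁻¹ ∉ R
  ram : ∃ w : K, w ∈ R ∧
    algebraMap L K (algebraMap T L (algebraMap DT.A T DT.t)) = algebraMap L K tL ^ e * w
  /-- `dz = g dw`, `g` of order `cJ` -/
  cJ : ℤ
  ordJ : ∀ b : Module.Basis (Fin (d + 1)) T (Ω[T⁄ℂ]),
    (∀ i, b i = KaehlerDifferential.D ℂ T (MT.z i : T)) → DT.HasOrd (DT.dw.toMatrix b).det cJ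
  /-- orders of regular functions and of the Jacobian near general points of the divisor -/
  val : ∀ (f : MT.B) (m : ℤ), DT.HasOrd (f : T) m → ∃ O : Set E, IsOpen O ∧ O.Nonempty ∧
    ∀ y ∈ O, ∃ ε c C : ℝ, 0 < ε ∧ 0 < c ∧ ε ≤ D.r y ∧ ∀ q ∈ PS d ε,
      c * ‖q 0‖ ^ (e * m) ≤ ‖D.σ y q f‖ ∧ ‖D.σ y q f‖ ≤ C * ‖q 0‖ ^ (e * m) ∧
      c * ‖q 0‖ ^ (e * (cJ + 1) - 1) ≤ ‖D.J y q‖

attribute [instance] CD.top CD.rdom

end cd

end Crest.Agent.R276.C4GDefs_804
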