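import Mathlib
import Crest.Agent.R276.C1bdA_986
import Crest.Agent.R276.AcOpen_89
import Crest.Agent.R276.BR3_590
import Crest.Agent.R276.Sub_185

/-!
# Row 276 (helper986), W1-BD part B: leaves of a chart of `M_K` adapted to `M_K → M_L`

* `jL X ζ` : fibre Jacobian of the chart `X : AC MK δ (some i₀)` (`= TChart.jF`);
* `Lf` : domain of a leaf; `Ls` : `s`-fold product of a leaf;
* `fintS_ge` : `∫_{Ls} g(Σ x) |∏ jL|² ≤ H.fintS s z g`;
* `HolFS` : holomorphic functions on the `s`-fold fibre product, `HolFS.comp`;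
* `core` : the weighted sub-mean value estimate.
-/

set_option autoImplicit false
set_option linter.unusedSectionVars false

open Set Filter Topology MeasureTheory Metric
open scoped ENNReal BigOperators

noncomputable section

namespace Crest.Agent.R276.C1bd_986

open Crest.Agent.R271 Crest.Agent.R271.Defs710 Crest.Agent.R271.Rd692 Crest.Agent.R271.Ho51
open Crest.Agent.R276.Mod1_987 Crest.Agent.R276.SkelDefs_220
open Crest.Agent.R276.AcOpen_89 Crest.Agent.R276.BR_590

variable {L K : Type} [Field L] [Field K] [Algebra ℂ L] [Algebra ℂ K] [Algebra L K]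
  [IsScalarTower ℂ L K] {m r : ℕ} {ML : Mdl L m} {MK : Mdl K (m + r)} {δ : ℝ}
  {i₀ : Option (Fin (m + r))}

/-- fibre coordinates of a point -/
def fc (y : MK.Pts) : Cn r := fun j => MK.pz y (Fin.natAdd m j)

/-- fibre Jacobian of the chart -/
def jL (X : AC MK δ i₀) (ζ : Cn (m + r)) : ℂ :=
  (fderiv ℂ (fun (x : Cn r) (j : Fin r) =>
    MK.pz (X.s (Fin.append (fun i => ζ (Fin.castAdd r i)) x)) (Fin.natAdd m j))
    (fun j => ζ (Fin.natAdd m j))).det

variable (δ i₀) in
/-- domain of the leaf over `b` -/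
def Lf (b : Cn m) : Set (Cn r) := {x | cat b x ∈ PD δ i₀}

lemma isOpen_Lf (b : Cn m) : IsOpen (Lf δ i₀ b) := (isOpen_PD δ i₀).preimage (continuous_cat b)

/-- the fibre coordinates in the leaf -/
def Xb (X : AC MK δ i₀) (b : Cn m) (x : Cn r) : Cn r := fc (X.s (cat b x))

lemma analyticAt_Xb (X : AC MK δ i₀) {b : Cn m} {x : Cn r} (hx : x ∈ Lf δ i₀ b) :
    AnalyticAt ℂ (Xb X b) x := by
  refine analyticAt_pi_iff.2 fun j => ?_
  exact (X.anal (MK.z (Fin.natAdd m j)) (cat b x) hx).comp (analyticAt_cat b x)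

lemma jL_cat (X : AC MK δ i₀) (b : Cn m) (x : Cn r) :
    jL X (cat b x) = (fderiv ℂ (Xb X b) x).det := by
  have h1 : (fun i => cat b x (Fin.castAdd r i)) = b := bs_cat b x
  have h2 : (fun j => cat b x (Fin.natAdd m j)) = x := fb_cat b x
  unfold jL
  rw [h1, h2]
  rfl

lemma analyticAt_jL_cat (X : AC MK δ i₀) {b : Cn m} {x : Cn r} (hx : x ∈ Lf δ i₀ b) :
    AnalyticAt ℂ (fun x => jL X (cat b x)) x := by
  have h1 : (fun x => jL X (cat b x)) = fun x => (fderiv ℂ (Xb X b) x).det := by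
    funext x; exact jL_cat X b x
  rw [h1]
  exact analyticAt_det_fderiv (analyticAt_Xb X hx)

/-! ### `s`-fold products -/

variable {s : ℕ}

variable (δ i₀ s) in
/-- the `s`-fold product of the leaf over `b` -/
def Ls (b : Cn m) : Set (Fin s → Cn r) := {x | ∀ i, x i ∈ Lf δ i₀ b}

lemma isOpen_Ls (b : Cn m) : IsOpen (Ls δ i₀ s b) := by
  have : Ls δ i₀ s b = ⋂ i, (fun x : Fin s → Cn r => x i) ⁻¹' Lf δ i₀ b := by
    ext x; simp [Ls]
  rw [this]
  exact isOpen_iInter_of_finite fun i => (isOpen_Lf b).preimage (continuous_apply i)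

/-- the product of the charts of the leaf -/
def Sg (X : AC MK δ i₀) (b : Cn m) (x : Fin s → Cn r) : Fin s → MK.Pts :=
  fun i => X.s (cat b (x i))

/-- the product of the fibre Jacobians -/
def JS (X : AC MK δ i₀) (b : Cn m) (x : Fin s → Cn r) : ℂ := ∏ i, jL X (cat b (x i))

lemma Sg_injOn (X : AC MK δ i₀) (b : Cn m) : InjOn (Sg (s := s) X b) (Ls δ i₀ s b) := by
  intro x hx y hy hxy
  funext i
  have h1 := X.inj (hx i) (hy i) (congrFun hxy i)
  have h2 := congrArg fb h1
  simpa using h2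

/-- derivative of the product -/
def DS (X : AC MK δ i₀) (b : Cn m) (x : Fin s → Cn r) : (Fin s → Cn r) →L[ℂ] (Fin s → Cn r) :=
  ContinuousLinearMap.pi fun i => (fderiv ℂ (Xb X b) (x i)).comp (ContinuousLinearMap.proj i)

lemma hasStrict_Sg (X : AC MK δ i₀) {b : Cn m} {x : Fin s → Cn r} (hx : x ∈ Ls δ i₀ s b) :
    HasStrictFDerivAt (fun x => fun i => fc (Sg X b x i)) (DS X b x) x := by
  refine hasStrictFDerivAt_pi.2 fun i => ?_
  have h1 := (analyticAt_Xb X (hx i)).hasStrictFDerivAt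
  exact h1.comp x (ContinuousLinearMap.proj (R := ℂ) (φ := fun _ : Fin s => Cn r) i).hasStrictFDerivAt

lemma det_DS (X : AC MK δ i₀) (b : Cn m) (x : Fin s → Cn r) : (DS X b x).det = JS X b x := by
  unfold DS JS
  rw [ContinuousLinearMap.det_pi]
  exact Finset.prod_congr rfl fun i _ => (jL_cat X b (x i)).symm

instance haar_pi (s r : ℕ) : (volume : Measure (Fin s → Cn r)).IsAddHaarMeasure := by
  have h1 : (volume : Measure (Cn r)).IsAddHaarMeasure := by
    show (Measure.pi fun _ : Fin r => (volume : Measure ℂ)).IsAddHaarMeasure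
    infer_instance
  have h2 : ∀ _ : Fin s, (volume : Measure (Cn r)).IsAddHaarMeasure := fun _ => h1
  exact Measure.pi.isAddHaarMeasure (fun _ : Fin s => (volume : Measure (Cn r)))

/-- **change of variables on the `s`-fold fibre product** -/
theorem fintS_ge (H : Rel ML MK) (X : AC MK δ i₀) {b : Cn m} {z : ML.Pts}
    (hz : ∀ x ∈ Lf δ i₀ b, H.f (X.s (cat b x)) = z)
    (hJ : ∀ x ∈ Lf δ i₀ b, jL X (cat b x) ≠ 0) (g : (Fin s → MK.Pts) → ℝ≥0∞) :
    ∫⁻ x in Ls δ i₀ s b, g (Sg X b x) * ‖JS X b x‖ₑ ^ 2 ≤ H.fintS s z g := by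
  classical
  set F : Set (Fin s → MK.Pts) := {y | ∀ i, H.f (y i) = z} with hF
  have h1 := fibre_ge (E := Fin s → Cn r) volume (M := Fin s → MK.Pts)
    (fun y i => fc (y i)) (Ls δ i₀ s b) (isOpen_Ls b) (Sg X b) (Sg_injOn X b) (DS X b)
    (fun x hx => hasStrict_Sg X hx)
    (fun x hx => by
      rw [det_DS]
      exact Finset.prod_ne_zero_iff.2 fun i _ => hJ _ (hx i)) (F.indicator g)
  have h2 : ∫⁻ x in Ls δ i₀ s b, g (Sg X b x) * ‖JS X b x‖ₑ ^ 2 =
      ∫⁻ x in Ls δ i₀ s b, (F.indicator g) (Sg X b x) * ENNReal.ofReal (‖(DS X b x).det‖ ^ 2) := by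
    refine setLIntegral_congr_fun (isOpen_Ls b).measurableSet fun x hx => ?_
    have h3 : Sg X b x ∈ F := fun i => hz _ (hx i)
    simp only [indicator_of_mem h3, det_DS]
    rw [← ofReal_norm, ENNReal.ofReal_pow (norm_nonneg _)]
  rw [h2]
  refine h1.trans (le_of_eq ?_)
  unfold Rel.fintS
  refine lintegral_congr fun x => ?_
  have e1 := tsum_subtype {y : Fin s → MK.Pts | (fun i => fc (y i)) = x} (F.indicator g)
  have e2 := tsum_subtype {y : Fin s → MK.Pts | (∀ i, H.f (y i) = z) ∧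
    ∀ i, (fun j => MK.pz (y i) (Fin.natAdd m j)) = x i} g
  refine e1.trans (Eq.trans ?_ e2.symm)
  refine tsum_congr fun y => ?_
  by_cases ha : (fun i => fc (y i)) = x
  · rw [indicator_of_mem (show y ∈ {y : Fin s → MK.Pts | (fun i => fc (y i)) = x} from ha)]
    by_cases hb : y ∈ F
    · rw [indicator_of_mem hb, indicator_of_mem]
      exact ⟨hb, fun i => congrFun ha i⟩
    · rw [indicator_of_notMem hb, indicator_of_notMem]
      exact fun h => hb h.1
  · rw [indicator_of_notMem (show y ∉ {y : Fin s → MK.Pts | (fun i => fc (y i)) = x} from ha),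
      indicator_of_notMem]
    exact fun h => ha (funext h.2)

/-! ### holomorphic functions on the `s`-fold fibre product -/

/-- holomorphic on the `s`-fold product of the fibre over `z` -/
def HolFS (H : Rel ML MK) (s : ℕ) (z : ML.Pts) (τ : (Fin s → MK.Pts) → ℂ) : Prop :=
  ∀ y : Fin s → MK.Pts, (∀ i, H.f (y i) = z) →
    AnalyticAt ℂ (fun x : Fin s → Cn r => τ fun i => (ch (y i)).symm (Fin.append (ML.pz z) (x i)))
      fun i => fc (y i)

lemma pz_f (H : Rel ML MK) (y : MK.Pts) (i : Fin m) :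
    ML.pz (H.f y) i = MK.pz y (Fin.castAdd r i) := by
  show y (H.incl (ML.z i)) = y (MK.z (Fin.castAdd r i))
  congr 1
  apply Subtype.ext
  exact (H.coord i).symm

lemma append_fc (H : Rel ML MK) (y : MK.Pts) : Fin.append (ML.pz (H.f y)) (fc y) = MK.pz y := by
  funext i
  refine Fin.addCases (fun i => ?_) (fun i => ?_) i
  · rw [Fin.append_left, pz_f]
  · rw [Fin.append_right]; rfl

/-- a holomorphic function on the `s`-fold fibre product is analytic in the leaf coordinates -/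
theorem HolFS.comp {H : Rel ML MK} {X : AC MK δ i₀} {b : Cn m} {z : ML.Pts}
    (hz : ∀ x ∈ Lf δ i₀ b, H.f (X.s (cat b x)) = z) {τ : (Fin s → MK.Pts) → ℂ}
    (hτ : HolFS H s z τ) {x : Fin s → Cn r} (hx : x ∈ Ls δ i₀ s b) :
    AnalyticAt ℂ (fun x => τ (Sg X b x)) x := by
  have h1 := hτ (Sg X b x) (fun i => hz _ (hx i))
  have h2 : AnalyticAt ℂ (fun x' : Fin s → Cn r => fun i => fc (Sg X b x' i)) x := by
    refine analyticAt_pi_iff.2 fun i => ?_
    exact AnalyticAt.comp (g := Xb X b) (f := fun x' : Fin s → Cn r => x' i)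
      (analyticAt_Xb X (hx i))
      ((ContinuousLinearMap.proj (R := ℂ) (φ := fun _ : Fin s => Cn r) i).analyticAt x)
  have h3 := AnalyticAt.comp (g := fun x' : Fin s → Cn r =>
      τ fun i => (ch (Sg X b x i)).symm (Fin.append (ML.pz z) (x' i)))
    (f := fun x' : Fin s → Cn r => fun i => fc (Sg X b x' i)) h1 h2
  refine h3.congr ?_
  have h4 : ∀ i : Fin s, ∀ᶠ x' : Fin s → Cn r in 𝓝 x,
      X.s (cat b (x' i)) = (ch (X.s (cat b (x i)))).symm (MK.pz (X.s (cat b (x' i)))) := by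
    intro i
    have h5 : Tendsto (fun x' : Fin s → Cn r => cat b (x' i)) (𝓝 x) (𝓝 (cat b (x i))) :=
      ((continuous_cat b).comp (continuous_apply i)).continuousAt
    exact h5.eventually (eventually_ch X (hx i))
  filter_upwards [eventually_all.2 h4, (isOpen_Ls b).mem_nhds hx] with x' h6 h7
  show τ (fun i => (ch (Sg X b x i)).symm (Fin.append (ML.pz z) (fc (Sg X b x' i)))) = _
  congr 1
  funext i
  have h8 : H.f (X.s (cat b (x' i))) = z := hz _ (h7 i)
  have h9 := append_fc H (X.s (cat b (x' i)))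
  rw [h8] at h9
  show (ch (X.s (cat b (x i)))).symm (Fin.append (ML.pz z) (fc (X.s (cat b (x' i))))) =
    X.s (cat b (x' i))
  rw [h9]
  exact (h6 i).symm

end Crest.Agent.R276.C1bd_986
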