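import Mathlib
import Crest.Agent.R276.C1bdB_986

/-!
# Row 276 (helper986), W1-BD part C: the weighted sub-mean value estimate on a leaf
-/

set_option autoImplicit false
set_option linter.unusedSectionVars false

open Set Filter Topology MeasureTheory Metric
open scoped ENNReal BigOperators

noncomputable section

namespace Crest.Agent.R276.C1bd_986

open Crest.Agent.R271 Crest.Agent.R271.Defs710 Crest.Agent.R271.Rd692 Crest.Agent.R271.Ho51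
open Crest.Agent.R276.Mod1_987 Crest.Agent.R276.SkelDefs_220
open Crest.Agent.R276.AcOpen_89 Crest.Agent.R276.BR_590

/-- `‖A J^N‖^(2/N) = ‖A‖^(2/N) ‖J‖²` -/
lemma enorm_pow_rpow {A J : ℂ} {N : ℕ} (hN : 0 < N) :
    ‖A * J ^ N‖ₑ ^ (2 / (N : ℝ)) = ‖A‖ₑ ^ (2 / (N : ℝ)) * ‖J‖ₑ ^ 2 := by
  have hN0 : (N : ℝ) ≠ 0 := by positivity
  rw [enorm_mul, enorm_pow, ENNReal.mul_rpow_of_nonneg _ _ (by positivity),
    ← ENNReal.rpow_natCast, ← ENNReal.rpow_mul, mul_div_cancel₀ _ hN0,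
    ← ENNReal.rpow_natCast ‖J‖ₑ 2]
  norm_num

/-- exponents of the weighted estimate -/
lemma enorm_weight {T A J : ℂ} (hJ : J ≠ 0) {N N' N₁ : ℕ} (hN' : 0 < N') {ε : ℝ}
    (hN₁ : (N₁ : ℝ) = N' * (1 + ε * N)) :
    ‖T * J ^ N₁‖ₑ ^ (2 / (N' : ℝ)) * ‖A * J ^ N‖ₑ ^ (-(2 * ε)) =
      ‖T‖ₑ ^ (2 / (N' : ℝ)) * ‖A‖ₑ ^ (-(2 * ε)) * ‖J‖ₑ ^ 2 := by
  have hN0 : (N' : ℝ) ≠ 0 := by positivity
  have hJ0 : ‖J‖ₑ ≠ 0 := by simpa using hJ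
  have hJt : ‖J‖ₑ ≠ ∞ := enorm_ne_top
  have e1 : ‖T * J ^ N₁‖ₑ ^ (2 / (N' : ℝ)) = ‖T‖ₑ ^ (2 / (N' : ℝ)) * ‖J‖ₑ ^ (2 * (1 + ε * N)) := by
    rw [enorm_mul, enorm_pow, ENNReal.mul_rpow_of_nonneg _ _ (by positivity),
      ← ENNReal.rpow_natCast, ← ENNReal.rpow_mul, hN₁]
    congr 2
    field_simp
  have e2 : ‖A * J ^ N‖ₑ ^ (-(2 * ε)) = ‖A‖ₑ ^ (-(2 * ε)) * ‖J‖ₑ ^ (-(2 * ε * N)) := by
    rw [enorm_mul, enorm_pow, ENNReal.mul_rpow_of_ne_top enorm_ne_top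
      (ENNReal.pow_ne_top enorm_ne_top), ← ENNReal.rpow_natCast, ← ENNReal.rpow_mul]
    congr 2
    ring
  rw [e1, e2]
  have e3 : ‖J‖ₑ ^ (2 * (1 + ε * N)) * ‖J‖ₑ ^ (-(2 * ε * N)) = ‖J‖ₑ ^ 2 := by
    rw [← ENNReal.rpow_add _ _ hJ0 hJt, ← ENNReal.rpow_natCast ‖J‖ₑ 2]
    congr 1
    push_cast
    ring
  rw [← e3]
  ring

variable {L K : Type} [Field L] [Field K] [Algebra ℂ L] [Algebra ℂ K] [Algebra L K]
  [IsScalarTower ℂ L K] {m r : ℕ} {ML : Mdl L m} {MK : Mdl K (m + r)} {δ : ℝ}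
  {i₀ : Option (Fin (m + r))} {s : ℕ}

/-- **the estimate on one leaf** -/
theorem core (H : Rel ML MK) (X : AC MK δ i₀) {b : Cn m} {z : ML.Pts}
    (hz : ∀ x ∈ Lf δ i₀ b, H.f (X.s (cat b x)) = z)
    (hJ : ∀ x ∈ Lf δ i₀ b, jL X (cat b x) ≠ 0) {N N' N₁ : ℕ} (hN : 0 < N) (hN' : 0 < N')
    {ε : ℝ} (hε : 0 ≤ ε) (hN₁ : (N₁ : ℝ) = N' * (1 + ε * N)) (u : Fin s → MK.B) {Dz : ℝ≥0∞}
    (hD0 : Dz ≠ 0) (hDt : Dz ≠ ∞)
    (hD : H.fintS s z (fun y => ‖dl u y‖ₑ ^ (2 / (N : ℝ))) ≤ Dz)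
    {τ : (Fin s → MK.Pts) → ℂ} {c : Fin s → Cn r} {ρ : ℝ} (hρ : 0 < ρ) (hc : c ∈ Ls δ i₀ s b)
    (hnull : volume (ball c (2 * ρ) \ Ls δ i₀ s b) = 0)
    {f g : (Fin s → Cn r) → ℂ} (hf : DifferentiableOn ℂ f (ball c (2 * ρ)))
    (hg : DifferentiableOn ℂ g (ball c (2 * ρ)))
    (hfe : ∀ x ∈ ball c (2 * ρ), x ∈ Ls δ i₀ s b → f x = τ (Sg X b x) * JS X b x ^ N₁)
    (hge : ∀ x ∈ ball c (2 * ρ), x ∈ Ls δ i₀ s b → g x = dl u (Sg X b x) * JS X b x ^ N) :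
    ‖τ (Sg X b c) * JS X b c ^ N₁‖ₑ ^ (2 / (N' : ℝ)) *
        (volume (ball (0 : Fin s → Cn r) ρ) * volume (ball (0 : Fin s → Cn r) ρ) ^ (ε * N)) ≤
      Dz ^ (ε * N) *
        H.fintS s z (fun y => ‖τ y‖ₑ ^ (2 / (N' : ℝ)) * ‖dl u y‖ₑ ^ (-(2 * ε))) := by
  have hN0 : (0 : ℝ) < N := by positivity
  have hN'0 : (0 : ℝ) < N' := by positivity
  have hae : ∀ (A : Set (Fin s → Cn r)) (G : (Fin s → Cn r) → ℝ≥0∞), MeasurableSet A →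
      A ⊆ ball c (2 * ρ) → ∫⁻ x in A, G x = ∫⁻ x in A ∩ Ls δ i₀ s b, G x := by
    intro A G hA hAs
    refine (setLIntegral_congr ?_).symm
    refine (ae_eq_set).2 ⟨?_, ?_⟩
    · refine measure_mono_null (fun x hx => ?_) (measure_empty (μ := volume))
      exact absurd hx.1.1 hx.2
    · refine measure_mono_null (fun x hx => ?_) hnull
      exact ⟨hAs hx.1, fun h => hx.2 ⟨hx.1, h⟩⟩
  have hJS : ∀ x ∈ Ls δ i₀ s b, JS X b x ≠ 0 := fun x hx =>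
    Finset.prod_ne_zero_iff.2 fun i _ => hJ _ (hx i)
  have hcb : c ∈ ball c (2 * ρ) := mem_ball_self (by positivity)
  have hsub : ball c ρ ⊆ ball c (2 * ρ) := ball_subset_ball (by linarith)
  -- the integral of `g`
  have hD' : ∫⁻ w in ball c (2 * ρ), ‖g w‖ₑ ^ (2 / (N : ℝ)) ≤ Dz := by
    rw [hae _ _ measurableSet_ball Subset.rfl]
    calc ∫⁻ w in ball c (2 * ρ) ∩ Ls δ i₀ s b, ‖g w‖ₑ ^ (2 / (N : ℝ))
        = ∫⁻ w in ball c (2 * ρ) ∩ Ls δ i₀ s b,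
            ‖dl u (Sg X b w)‖ₑ ^ (2 / (N : ℝ)) * ‖JS X b w‖ₑ ^ 2 := by
          refine setLIntegral_congr_fun
            (measurableSet_ball.inter (isOpen_Ls b).measurableSet) fun w hw => ?_
          rw [hge w hw.1 hw.2, enorm_pow_rpow hN]
      _ ≤ ∫⁻ w in Ls δ i₀ s b, ‖dl u (Sg X b w)‖ₑ ^ (2 / (N : ℝ)) * ‖JS X b w‖ₑ ^ 2 :=
          lintegral_mono_set inter_subset_right
      _ ≤ H.fintS s z (fun y => ‖dl u y‖ₑ ^ (2 / (N : ℝ))) := fintS_ge H X hz hJ _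
      _ ≤ Dz := hD
  have key := Crest.Agent.R276.Sub_185.weighted (volume : Measure (Fin s → Cn r))
    (f := f) (g := g) (z := c) (ρ := ρ) (hf.mono hsub) hg (p := 2 / (N' : ℝ)) (a := 2 * ε)
    (b := 2 / (N : ℝ)) (by positivity) (by positivity) (by positivity) hD0 hDt hD'
  have hab : 2 * ε / (2 / (N : ℝ)) = ε * N := by field_simp
  rw [hab, hfe c hcb hc] at key
  refine key.trans ?_
  refine mul_le_mul_right ?_ _
  rw [hae _ _ measurableSet_ball hsub]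
  calc ∫⁻ w in ball c ρ ∩ Ls δ i₀ s b, ‖f w‖ₑ ^ (2 / (N' : ℝ)) * ‖g w‖ₑ ^ (-(2 * ε))
      = ∫⁻ w in ball c ρ ∩ Ls δ i₀ s b, (‖τ (Sg X b w)‖ₑ ^ (2 / (N' : ℝ)) *
          ‖dl u (Sg X b w)‖ₑ ^ (-(2 * ε))) * ‖JS X b w‖ₑ ^ 2 := by
        refine setLIntegral_congr_fun
          (measurableSet_ball.inter (isOpen_Ls b).measurableSet) fun w hw => ?_
        rw [hfe w (hsub hw.1) hw.2, hge w (hsub hw.1) hw.2,
          enorm_weight (hJS w hw.2) hN' hN₁]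
    _ ≤ ∫⁻ w in Ls δ i₀ s b, (‖τ (Sg X b w)‖ₑ ^ (2 / (N' : ℝ)) *
          ‖dl u (Sg X b w)‖ₑ ^ (-(2 * ε))) * ‖JS X b w‖ₑ ^ 2 :=
        lintegral_mono_set inter_subset_right
    _ ≤ _ := fintS_ge H X hz hJ
        (fun y => ‖τ y‖ₑ ^ (2 / (N' : ℝ)) * ‖dl u y‖ₑ ^ (-(2 * ε)))

/-- analyticity of the product of the Jacobians -/
lemma analyticAt_JS (X : AC MK δ i₀) {b : Cn m} {x : Fin s → Cn r} (hx : x ∈ Ls δ i₀ s b) :
    AnalyticAt ℂ (JS X b) x := by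
  refine Finset.analyticAt_fun_prod _ fun i _ => ?_
  exact AnalyticAt.comp (g := fun x => jL X (cat b x)) (f := fun x' : Fin s → Cn r => x' i)
    (analyticAt_jL_cat X (hx i))
    ((ContinuousLinearMap.proj (R := ℂ) (φ := fun _ : Fin s => Cn r) i).analyticAt x)

/-- evaluation of an element on a factor -/
lemma analyticAt_ev (X : AC MK δ i₀) {b : Cn m} {x : Fin s → Cn r} (hx : x ∈ Ls δ i₀ s b)
    (v : MK.B) (i : Fin s) : AnalyticAt ℂ (fun x => Sg X b x i v) x := by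
  have h1 : AnalyticAt ℂ (fun x : Cn r => X.s (cat b x) v) (x i) :=
    (X.anal v (cat b (x i)) (hx i)).comp (analyticAt_cat b (x i))
  exact AnalyticAt.comp (g := fun x => X.s (cat b x) v) (f := fun x' : Fin s → Cn r => x' i) h1
    ((ContinuousLinearMap.proj (R := ℂ) (φ := fun _ : Fin s => Cn r) i).analyticAt x)

/-- analyticity of `δ` -/
lemma analyticAt_dl (X : AC MK δ i₀) {b : Cn m} {x : Fin s → Cn r} (hx : x ∈ Ls δ i₀ s b)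
    (u : Fin s → MK.B) : AnalyticAt ℂ (fun x => dl u (Sg X b x)) x := by
  unfold dl
  exact analyticAt_det fun i j => analyticAt_ev X hx (u i) j

end Crest.Agent.R276.C1bd_986
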