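import Mathlib
import Crest.Agent.R276.C1bdD_986

/-!
# Row 276 (helper986), W1-BD part E: `c1_bd`, the bound on tower charts
-/

set_option autoImplicit false
set_option linter.unusedSectionVars false

open Set Filter Topology MeasureTheory Metric
open scoped ENNReal BigOperators

noncomputable section

namespace Crest.Agent.R276.C1bd_986

open Crest.Agent.R271 Crest.Agent.R271.Defs710 Crest.Agent.R271.Rd692 Crest.Agent.R271.Ho51
open Crest.Agent.R276.Mod1_987 Crest.Agent.R276.FKDefs_779 Crest.Agent.R276.SkelDefs_220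
open Crest.Agent.R276.AcOpen_89 Crest.Agent.R276.BR_590

lemma low_castAdd {m r : ℕ} (i : Fin m) : low (some (Fin.castAdd r i)) = some i := by
  simp [low]

lemma low_natAdd {m r : ℕ} (j : Fin r) : low (m := m) (some (Fin.natAdd m j)) = none := by
  simp [low]

variable {T L K : Type} [Field T] [Field L] [Field K] [Algebra ℂ T] [Algebra ℂ L] [Algebra ℂ K]
  [Algebra T L] [Algebra L K] [IsScalarTower ℂ T L] [IsScalarTower ℂ L K] {ρ a r : ℕ}
  {MT : Mdl T ρ} {ML : Mdl L (ρ + a)} {MK : Mdl K (ρ + a + r)}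
  {H₁ : Rel MT ML} {H₂ : Rel ML MK} {R : ValuationSubring K}

lemma pw_congr {m r e : ℕ} {i₀ : Option (Fin (m + r))} {ζ ζ' : Cn (m + r)} (h : bs ζ = bs ζ') :
    pw e i₀ ζ = pw e i₀ ζ' := by
  funext j
  have h1 : ζ (Fin.castAdd r j) = ζ' (Fin.castAdd r j) := congrFun h j
  unfold pw
  rw [h1]

lemma fib_tchart (Y : TChart H₁ H₂ R) : ∀ ζ ∈ PD Y.δ (some Y.i₀), ∀ ζ' ∈ PD Y.δ (some Y.i₀),
    bs ζ = bs ζ' → H₂.f (Y.cK.s ζ) = H₂.f (Y.cK.s ζ') := by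
  intro ζ hζ ζ' hζ' h
  rw [Y.compL ζ hζ, Y.compL ζ' hζ', pw_congr h]

lemma jL_tchart (Y : TChart H₁ H₂ R) (ζ : Cn (ρ + a + r)) : jL Y.cK ζ = Y.jF ζ := rfl

lemma f_apply (H : Rel ML MK) (y : MK.Pts) (b : ML.B) : H.f y b = y (H.incl b) := rfl

lemma incl_coe (H : Rel ML MK) (b : ML.B) : ((H.incl b : MK.B) : K) = algebraMap L K b := rfl

/-- if `L` is not contained in `R` then the divisor coordinate of a tower chart which is good for
suitable elements is a base coordinate -/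
theorem exists_exclude (hR : ¬ ∀ c : L, algebraMap L K c ∈ R) :
    ∃ (f : K) (FL : Finset L), f ≠ 0 ∧ (∀ g ∈ FL, g ≠ 0) ∧ ∀ Y : TChart H₁ H₂ R,
      (∃ k, Y.cK.Ord f k) → Y.GoodL FL → ∀ j₀ : Fin r, Y.i₀ ≠ Fin.natAdd (ρ + a) j₀ := by
  classical
  push Not at hR
  obtain ⟨f₀, hf₀⟩ := hR
  have hf0 : f₀ ≠ 0 := by
    rintro rfl
    exact hf₀ (by rw [map_zero]; exact R.zero_mem)
  obtain ⟨β, γ, hγ0, hβγ⟩ := IsFractionRing.div_surjective (A := ML.B) f₀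
  have hγ : (γ : L) ≠ 0 := by
    have := nonZeroDivisors.ne_zero hγ0
    simpa using this
  have hfe : (β : L) = f₀ * γ := by
    rw [← hβγ]
    exact (div_mul_cancel₀ _ hγ).symm
  refine ⟨algebraMap L K f₀, {f₀, (γ : L)}, by simpa using hf0, ?_, ?_⟩
  · intro g hg
    simp only [Finset.mem_insert, Finset.mem_singleton] at hg
    rcases hg with rfl | rfl
    · exact hf0
    · exact hγ
  intro Y hK hL j₀ hj
  obtain ⟨k, hk⟩ := hK
  have hk0 : k < 0 := by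
    by_contra hcon
    push Not at hcon
    exact hf₀ ((Y.ordR _ _ hk).2 hcon)
  have hlow : low (some Y.i₀) = none := by rw [hj]; exact low_natAdd j₀
  have hδ := Y.δ_pos
  have h0PD : (0 : Cn (ρ + a)) ∈ PD Y.δ (low (some Y.i₀)) := by
    refine ⟨by rwa [norm_zero], fun i hi => ?_⟩
    rw [hlow] at hi
    cases hi
  -- the value of `f₀` and `γ` at the base point
  set z₀ := Y.cL.s 0 with hz₀
  have hval : ∀ g ∈ ({f₀, (γ : L)} : Finset L), ∃ w : ℂ, w ≠ 0 ∧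
      ∀ b c : ML.B, (b : L) = g * c → z₀ b = w * z₀ c := by
    intro g hg
    obtain ⟨k', u, ⟨G, _, hG0, hGe⟩, hu⟩ := hL g hg
    refine ⟨u 0, ?_, fun b c hbc => hu 0 h0PD b c hbc⟩
    rw [hGe 0 h0PD]
    refine mul_ne_zero (zpow_ne_zero _ (tau_ne h0PD)) (hG0 0 (mem_ball_self hδ))
  obtain ⟨wf, hwf, hwf'⟩ := hval f₀ (by simp)
  obtain ⟨wγ, hwγ, hwγ'⟩ := hval γ (by simp)
  have hγz : z₀ γ = wγ := by
    have := hwγ' γ 1 (by simp)
    rwa [map_one, mul_one] at this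
  have hβz : z₀ β = wf * z₀ γ := hwf' β γ hfe
  -- the curve
  obtain ⟨u, ⟨G, hG, hG0, hGe⟩, hu⟩ := hk
  set ζt : ℂ → Cn (ρ + a + r) := fun t => cat 0 (Pi.single j₀ t) with hζt
  have hnorm : ∀ t : ℂ, ‖(Pi.single j₀ t : Cn r)‖ = ‖t‖ := fun t => by
    simp [Pi.norm_single]
  have hmem : ∀ t : ℂ, t ≠ 0 → ‖t‖ < Y.δ → ζt t ∈ PD Y.δ (some Y.i₀) := by
    intro t ht htδ
    refine ⟨(norm_cat_lt hδ).2 ⟨by rwa [norm_zero], by rwa [hnorm]⟩, fun i hi => ?_⟩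
    obtain rfl := Option.some.inj hi
    rw [hj, hζt]
    simp only [cat_natAdd, Pi.single_eq_same]
    exact ht
  have hpw : ∀ t, pw Y.e₁ (some Y.i₀) (ζt t) = 0 := by
    intro t
    funext j
    unfold pw
    rw [hlow]
    simp [hζt]
  have hkey : ∀ t : ℂ, t ≠ 0 → ‖t‖ < Y.δ → t ^ k * G (ζt t) = wf := by
    intro t ht htδ
    have hm := hmem t ht htδ
    have h1 : H₂.f (Y.cK.s (ζt t)) = z₀ := by
      rw [Y.compL _ hm, hpw]
    have h2 := hu (ζt t) hm (H₂.incl β) (H₂.incl γ) (by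
      rw [incl_coe, incl_coe, hfe, map_mul])
    rw [← f_apply, ← f_apply, h1, hβz, hγz] at h2
    have h3 := mul_right_cancel₀ hwγ h2
    rw [h3, hGe _ hm]
    congr 2
    show t = ζt t Y.i₀
    rw [hj, hζt]
    simp
  have hcont : ContinuousAt (fun t : ℂ => G (ζt t)) 0 := by
    have h1 : ζt 0 = 0 := by
      funext i
      refine Fin.addCases (fun i => ?_) (fun i => ?_) i <;> simp [hζt]
    have h2 : ContinuousAt ζt 0 := by
      have : Continuous ζt := (continuous_cat 0).comp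
        (ContinuousLinearMap.single ℂ (fun _ : Fin r => ℂ) j₀).continuous
      exact this.continuousAt
    have h3 : ContinuousAt G (ζt 0) := by
      rw [h1]
      exact (hG 0 (mem_ball_self hδ)).continuousAt
    exact h3.comp h2
  have hlim1 : Tendsto (fun t : ℂ => G (ζt t)) (𝓝[≠] 0) (𝓝 (G (ζt 0))) :=
    hcont.tendsto.mono_left nhdsWithin_le_nhds
  obtain ⟨l, hl⟩ := Int.eq_ofNat_of_zero_le (show 0 ≤ -k by omega)
  have hl0 : l ≠ 0 := by rintro rfl; simp at hl; omega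
  have hlim2 : Tendsto (fun t : ℂ => G (ζt t)) (𝓝[≠] 0) (𝓝 0) := by
    have h1 : Tendsto (fun t : ℂ => wf * t ^ l) (𝓝[≠] 0) (𝓝 (wf * 0 ^ l)) :=
      ((continuous_const.mul (continuous_id.pow l)).tendsto 0).mono_left nhdsWithin_le_nhds
    rw [zero_pow hl0, mul_zero] at h1
    refine h1.congr' ?_
    have h2 : ∀ᶠ t : ℂ in 𝓝[≠] 0, ‖t‖ < Y.δ := by
      refine mem_nhdsWithin_of_mem_nhds ?_
      have := ball_mem_nhds (0 : ℂ) hδ
      filter_upwards [this] with t ht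
      simpa using ht
    filter_upwards [h2, self_mem_nhdsWithin] with t ht ht0
    have h3 := hkey t ht0 ht
    rw [← h3]
    have h4 : t ^ k * t ^ l = 1 := by
      rw [← zpow_natCast t l, ← hl, ← zpow_add₀ ht0]
      simp
    calc t ^ k * G (ζt t) * t ^ l = (t ^ k * t ^ l) * G (ζt t) := by ring
      _ = _ := by rw [h4, one_mul]
  have huniq := tendsto_nhds_unique hlim1 hlim2
  have h0 : ζt 0 = 0 := by
    funext i
    refine Fin.addCases (fun i => ?_) (fun i => ?_) i <;> simp [hζt]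
  rw [h0] at huniq
  exact hG0 0 (mem_ball_self hδ) huniq

/-- **the bound `C1.bd` for one function on the `s`-fold fibre** -/
theorem c1_bd (b : Module.Basis (Fin r) K (Ω[K⁄L])) (hb : IsRelBasis MK b) {s N N' N₁ : ℕ}
    (hN : 0 < N) (hN' : 0 < N') {ε : ℝ} (hε : 0 ≤ ε) (hN₁ : (N₁ : ℝ) = N' * (1 + ε * N))
    (u : Fin s → MK.B) (hu : ∀ i, PluriS L b N (u i : K)) {q : ℕ} (v : Fin q → MK.B)
    (hv : ∀ i, PluriS L b N₁ (v i : K)) {D : ML.Pts → ℝ} (hD : IsCY H₂ N u D)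
    (R : ValuationSubring K) :
    ∃ (F : Finset K) (FL : Finset L), (∀ f ∈ F, f ≠ 0) ∧ (∀ f ∈ FL, f ≠ 0) ∧
      ∀ Y : TChart H₁ H₂ R, Y.Dict → Y.Good F → Y.GoodL FL → ∀ δ' < Y.δ,
        ∃ C : ℝ, ∀ ζ ∈ PD δ' (some Y.i₀), ∀ τ : (Fin s → MK.Pts) → ℂ,
          HolFS H₂ s (H₂.f (Y.cK.s ζ)) τ → Cls H₂ v s (H₂.f (Y.cK.s ζ)) τ →
          ‖τ (fun _ => Y.cK.s ζ)‖ₑ ^ (2 / (N' : ℝ)) * ‖Y.jF ζ‖ₑ ^ (2 * s * (1 + ε * N)) ≤
            ENNReal.ofReal C * ENNReal.ofReal (D (H₂.f (Y.cK.s ζ))) ^ (ε * N) *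
              H₂.fintS s (H₂.f (Y.cK.s ζ))
                (fun y => ‖τ y‖ₑ ^ (2 / (N' : ℝ)) * ‖dl u y‖ₑ ^ (-(2 * ε))) := by
  classical
  by_cases hLR : ∀ c : L, algebraMap L K c ∈ R
  · set F : Finset K := ((Finset.univ.image fun i => (u i : K)) ∪
      (Finset.univ.image fun i => (v i : K))).filter (· ≠ 0) with hF
    refine ⟨F, ∅, fun f hf => (Finset.mem_filter.1 hf).2, by simp, ?_⟩
    intro Y hY hYF _ δ' hδ'
    obtain ⟨c, hc, hreg⟩ := hY.JF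
    have hJ : ∀ ζ ∈ PD Y.δ (some Y.i₀), jL Y.cK ζ ≠ 0 := fun ζ hζ => Mono.ne_zero hc hζ
    have hRB : ∀ (w : MK.B) (p : ℕ), ((w : K) ≠ 0 → (w : K) ∈ F) → PluriS L b p (w : K) →
        RegB Y.cK w p := by
      intro w p hw hp
      by_cases h0 : w = 0
      · rw [h0]; exact regB_zero _ _
      have h0' : (w : K) ≠ 0 := by simpa using h0
      obtain ⟨k, hk⟩ := hYF _ (hw h0')
      exact regB_of_ord Y.cK hk hc ((hreg b hb p (w : K) k hk).1 (hp R hLR))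
    by_cases hi : (Y.i₀ : ℕ) < ρ + a
    · obtain ⟨C, hC⟩ := bd_vert H₂ Y.cK (fun i hi' => ⟨⟨Y.i₀, hi⟩, by
        rw [← Option.some.inj hi']; rfl⟩) (fib_tchart Y) hJ hN hN' hε hN₁ u hD hδ'
      exact ⟨C, fun ζ hζ τ hτ _ => hC ζ hζ τ hτ⟩
    · obtain ⟨j₀, hj₀⟩ : ∃ j₀ : Fin r, Y.i₀ = Fin.natAdd (ρ + a) j₀ := by
        refine ⟨⟨Y.i₀ - (ρ + a), by have := Y.i₀.2; omega⟩, ?_⟩
        apply Fin.ext
        simp
        omega
      obtain ⟨C, hC⟩ := bd_hor H₂ (congrArg some hj₀) Y.cK (fib_tchart Y) hJ hN hN' hε hN₁ u hD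
        (fun i => hRB (u i) N (fun h => Finset.mem_filter.2 ⟨Finset.mem_union_left _
          (Finset.mem_image_of_mem _ (Finset.mem_univ i)), h⟩) (hu i))
        (v := v) (fun i => hRB (v i) N₁ (fun h => Finset.mem_filter.2 ⟨Finset.mem_union_right _
          (Finset.mem_image_of_mem _ (Finset.mem_univ i)), h⟩) (hv i)) hδ'
      exact ⟨C, hC⟩
  · obtain ⟨f, FL, hf, hFL, hex⟩ := exists_exclude (H₁ := H₁) (H₂ := H₂) hLR
    refine ⟨{f}, FL, by simpa using hf, hFL, ?_⟩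
    intro Y hY hYF hYL δ' hδ'
    obtain ⟨c, hc, -⟩ := hY.JF
    have hJ : ∀ ζ ∈ PD Y.δ (some Y.i₀), jL Y.cK ζ ≠ 0 := fun ζ hζ => Mono.ne_zero hc hζ
    have hno := hex Y (hYF f (by simp)) hYL
    have hi : (Y.i₀ : ℕ) < ρ + a := by
      by_contra hcon
      refine hno ⟨Y.i₀ - (ρ + a), by have := Y.i₀.2; omega⟩ ?_
      apply Fin.ext
      simp
      omega
    obtain ⟨C, hC⟩ := bd_vert H₂ Y.cK (fun i hi' => ⟨⟨Y.i₀, hi⟩, by
      rw [← Option.some.inj hi']; rfl⟩) (fib_tchart Y) hJ hN hN' hε hN₁ u hD hδ'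
    exact ⟨C, fun ζ hζ τ hτ _ => hC ζ hζ τ hτ⟩

end Crest.Agent.R276.C1bd_986
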