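import Mathlib
import Crest.Agent.R276.C1bdE_986
import Crest.Agent.R273.PsiA_844

/-!
# Row 276 (helper986), W1-BD part F: the field `bd` of `SkelDefs_220.C1`

`S : M_K → ℝ` any function which is `≤ B` at `y` as soon as
`|τ(y,…,y)|^{2/N'} ≤ B ∫_{M_z^s} |τ|^{2/N'} |δ|^{-2ε}` for all `τ` of the class; `ush S` is the upper
semicontinuous regularisation (844).
-/

set_option autoImplicit false
set_option linter.unusedSectionVars false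

open Set Filter Topology MeasureTheory Metric
open scoped ENNReal BigOperators

noncomputable section

namespace Crest.Agent.R276.C1bd_986

open Crest.Agent.R271 Crest.Agent.R271.Defs710 Crest.Agent.R271.Rd692 Crest.Agent.R271.Ho51
open Crest.Agent.R276.Mod1_987 Crest.Agent.R276.FKDefs_779 Crest.Agent.R276.SkelDefs_220
open Crest.Agent.R276.AcOpen_89 Crest.Agent.R276.BR_590

variable {T L K : Type} [Field T] [Field L] [Field K] [Algebra ℂ T] [Algebra ℂ L] [Algebra ℂ K]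
  [Algebra T L] [Algebra L K] [IsScalarTower ℂ T L] [IsScalarTower ℂ L K] {ρ a r : ℕ}
  {MT : Mdl T ρ} {ML : Mdl L (ρ + a)} {MK : Mdl K (ρ + a + r)}
  {H₁ : Rel MT ML} {H₂ : Rel ML MK} {R : ValuationSubring K}

lemma continuous_f {m r : ℕ} {ML : Mdl L m} {MK : Mdl K (m + r)} (H : Rel ML MK) :
    Continuous H.f := by
  rw [continuous_iff_continuousAt]
  intro y
  refine continuousAt_iff_ev.mpr fun b => ?_
  have h1 : (fun y' : MK.Pts => H.f y' b) = fun y' : MK.Pts => y' (H.incl b) := rfl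
  show ContinuousAt (fun y' : MK.Pts => H.f y' b) y
  rw [h1]
  exact (continuous_ev (H.incl b)).continuousAt

lemma continuousAt_jF (Y : TChart H₁ H₂ R) {ζ : Cn (ρ + a + r)} (hζ : ζ ∈ PD Y.δ (some Y.i₀)) :
    ContinuousAt Y.jF ζ := by
  have h1 : AnalyticAt ℂ (jL Y.cK) ζ := by
    have hG : ∀ j : Fin r, AnalyticAt ℂ (fun ζ' : Cn (ρ + a + r) =>
        MK.pz (Y.cK.s ζ') (Fin.natAdd (ρ + a) j)) ζ := fun j =>
      Y.cK.anal (MK.z (Fin.natAdd (ρ + a) j)) ζ hζ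
    have h2 : jL Y.cK =ᶠ[𝓝 ζ] fun ζ' => (Matrix.of fun (i j : Fin r) =>
        fderiv ℂ (fun ζ'' : Cn (ρ + a + r) => MK.pz (Y.cK.s ζ'') (Fin.natAdd (ρ + a) i)) ζ'
          (Pi.single (Fin.natAdd (ρ + a) j) 1)).det := by
      filter_upwards [(isOpen_PD Y.δ (some Y.i₀)).mem_nhds hζ] with ζ' hζ'
      have h3 : jL Y.cK ζ' = (fderiv ℂ (Xb Y.cK (bs ζ')) (fb ζ')).det := by
        have := jL_cat Y.cK (bs ζ') (fb ζ')
        rwa [cat_bs_fb] at this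
      rw [h3, det_eq_matrix]
      congr 1
      ext i j
      simp only [Matrix.of_apply]
      have hx : fb ζ' ∈ Lf Y.δ (some Y.i₀) (bs ζ') := by
        show cat (bs ζ') (fb ζ') ∈ PD Y.δ (some Y.i₀)
        rw [cat_bs_fb]; exact hζ'
      rw [fderiv_pi_apply (analyticAt_Xb Y.cK hx).differentiableAt]
      have h4 : (fun x : Cn r => Xb Y.cK (bs ζ') x i) =
          (fun ζ'' : Cn (ρ + a + r) => MK.pz (Y.cK.s ζ'') (Fin.natAdd (ρ + a) i)) ∘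
            (fun x : Cn r => cat (bs ζ') x) := rfl
      rw [h4, fderiv_comp (fb ζ') (by
        rw [cat_bs_fb]
        exact (Y.cK.anal (MK.z (Fin.natAdd (ρ + a) i)) ζ' hζ').differentiableAt)
        (hasFDerivAt_cat (bs ζ') (fb ζ')).differentiableAt,
        (hasFDerivAt_cat (bs ζ') (fb ζ')).fderiv, cat_bs_fb]
      show fderiv ℂ _ ζ' (inr (ρ + a) r (Pi.single j 1)) = _
      rw [inr_single]
    refine AnalyticAt.congr ?_ h2.symm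
    refine analyticAt_det fun i j => ?_
    have h5 : AnalyticAt ℂ (fderiv ℂ (fun ζ'' : Cn (ρ + a + r) =>
      MK.pz (Y.cK.s ζ'') (Fin.natAdd (ρ + a) i))) ζ := (hG i).fderiv
    exact (ContinuousLinearMap.apply ℂ ℂ
      (Pi.single (Fin.natAdd (ρ + a) j) 1 : Cn (ρ + a + r))).analyticAt _ |>.comp h5
  exact h1.continuousAt

/-- **the field `bd` of `C1`** -/
theorem c1_field (b : Module.Basis (Fin r) K (Ω[K⁄L])) (hb : IsRelBasis MK b) {s N N' N₁ : ℕ}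
    (hN : 0 < N) (hN' : 0 < N') {ε : ℝ} (hε : 0 ≤ ε) (hN₁ : (N₁ : ℝ) = N' * (1 + ε * N))
    (u : Fin s → MK.B) (hu : ∀ i, PluriS L b N (u i : K)) {q : ℕ} (v : Fin q → MK.B)
    (hv : ∀ i, PluriS L b N₁ (v i : K)) {D : ML.Pts → ℝ} (hD : IsCY H₂ N u D)
    (hDc : Continuous D) (S : MK.Pts → ℝ)
    (hS : ∀ (y : MK.Pts) (B : ℝ), 0 ≤ B → (∀ τ : (Fin s → MK.Pts) → ℂ,
      HolFS H₂ s (H₂.f y) τ → Cls H₂ v s (H₂.f y) τ →
      ‖τ (fun _ => y)‖ₑ ^ (2 / (N' : ℝ)) ≤ ENNReal.ofReal B * H₂.fintS s (H₂.f y)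
        (fun y => ‖τ y‖ₑ ^ (2 / (N' : ℝ)) * ‖dl u y‖ₑ ^ (-(2 * ε)))) → S y ≤ B)
    (R : ValuationSubring K) :
    BdK H₁ H₂ R fun Y ζ => Crest.Agent.R273.Reg_844.ush S (Y.cK.s ζ) *
      ‖Y.jF ζ‖ ^ (2 * s * (1 + ε * N)) / D (H₂.f (Y.cK.s ζ)) ^ (ε * N) := by
  obtain ⟨F, FL, hF, hFL, hmain⟩ := c1_bd (H₁ := H₁) (H₂ := H₂) b hb hN hN' hε hN₁ u hu v hv hD R
  refine ⟨F, FL, hF, hFL, fun Y hY hYF hYL δ' hδ' => ?_⟩
  obtain ⟨C, hC⟩ := hmain Y hY hYF hYL ((δ' + Y.δ) / 2) (by linarith)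
  obtain ⟨cK, hcK, -⟩ := hY.JK
  obtain ⟨cF, hcF, -⟩ := hY.JF
  set C' : ℝ := max C 0 with hC'
  have hC'0 : 0 ≤ C' := le_max_right _ _
  refine ⟨C', 0, fun ζ hζ => ?_⟩
  rw [pow_zero, mul_one]
  have hδm : δ' < (δ' + Y.δ) / 2 := by linarith
  have hδm' : (δ' + Y.δ) / 2 < Y.δ := by linarith
  have hζ1 : ζ ∈ PD ((δ' + Y.δ) / 2) (some Y.i₀) := PD_mono hδm.le _ hζ
  have hζ2 : ζ ∈ PD Y.δ (some Y.i₀) := PD_mono hδm'.le _ hζ1
  set e : ℝ := 2 * s * (1 + ε * N) with he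
  have he0 : 0 ≤ e := by positivity
  -- the bound for `S`
  set g : Cn (ρ + a + r) → ℝ := fun ζ => C' * D (H₂.f (Y.cK.s ζ)) ^ (ε * N) / ‖Y.jF ζ‖ ^ e with hg
  have hJ0 : ∀ ζ ∈ PD Y.δ (some Y.i₀), 0 < ‖Y.jF ζ‖ := fun ζ hζ =>
    norm_pos_iff.2 (Mono.ne_zero hcF hζ)
  have hSg : ∀ ζ ∈ PD ((δ' + Y.δ) / 2) (some Y.i₀), S (Y.cK.s ζ) ≤ g ζ := by
    intro ζ hζ
    have hD0 : 0 < D (H₂.f (Y.cK.s ζ)) := (hD _).1
    have hJp : 0 < ‖Y.jF ζ‖ ^ e := Real.rpow_pos_of_pos (hJ0 ζ (PD_mono hδm'.le _ hζ)) _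
    refine hS _ _ (by positivity) fun τ hτ hcls => ?_
    have h1 := hC ζ hζ τ hτ hcls
    set I := H₂.fintS s (H₂.f (Y.cK.s ζ))
      (fun y => ‖τ y‖ₑ ^ (2 / (N' : ℝ)) * ‖dl u y‖ₑ ^ (-(2 * ε))) with hI
    have hJe : ‖Y.jF ζ‖ₑ ^ e = ENNReal.ofReal (‖Y.jF ζ‖ ^ e) := by
      rw [← ofReal_norm, ENNReal.ofReal_rpow_of_nonneg (norm_nonneg _) he0]
    have hDe : ENNReal.ofReal (D (H₂.f (Y.cK.s ζ))) ^ (ε * N) =
        ENNReal.ofReal (D (H₂.f (Y.cK.s ζ)) ^ (ε * N)) := by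
      rw [ENNReal.ofReal_rpow_of_nonneg hD0.le (by positivity)]
    rw [hJe, hDe] at h1
    have hJt : ENNReal.ofReal (‖Y.jF ζ‖ ^ e) ≠ ∞ := ENNReal.ofReal_ne_top
    have hJn : ENNReal.ofReal (‖Y.jF ζ‖ ^ e) ≠ 0 := by
      rw [Ne, ENNReal.ofReal_eq_zero, not_le]; exact hJp
    calc ‖τ (fun _ => Y.cK.s ζ)‖ₑ ^ (2 / (N' : ℝ))
        = ‖τ (fun _ => Y.cK.s ζ)‖ₑ ^ (2 / (N' : ℝ)) * ENNReal.ofReal (‖Y.jF ζ‖ ^ e) *
            (ENNReal.ofReal (‖Y.jF ζ‖ ^ e))⁻¹ := by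
          rw [mul_assoc, ENNReal.mul_inv_cancel hJn hJt, mul_one]
      _ ≤ ENNReal.ofReal C * ENNReal.ofReal (D (H₂.f (Y.cK.s ζ)) ^ (ε * N)) * I *
            (ENNReal.ofReal (‖Y.jF ζ‖ ^ e))⁻¹ := by gcongr
      _ ≤ ENNReal.ofReal C' * ENNReal.ofReal (D (H₂.f (Y.cK.s ζ)) ^ (ε * N)) * I *
            (ENNReal.ofReal (‖Y.jF ζ‖ ^ e))⁻¹ := by
          gcongr
          exact le_max_left _ _
      _ = ENNReal.ofReal (C' * D (H₂.f (Y.cK.s ζ)) ^ (ε * N) / ‖Y.jF ζ‖ ^ e) * I := by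
          rw [ENNReal.ofReal_div_of_pos hJp, ENNReal.ofReal_mul hC'0, ENNReal.div_eq_inv_mul]
          ring
  -- regularisation
  have hgc : ContinuousAt g ζ := by
    have h1 : ContinuousAt (fun ζ => D (H₂.f (Y.cK.s ζ))) ζ :=
      (hDc.comp (continuous_f H₂)).continuousAt.comp (continuousAt_s Y.cK hζ2)
    have h2 : ContinuousAt (fun ζ => ‖Y.jF ζ‖) ζ := (continuousAt_jF Y hζ2).norm
    refine ContinuousAt.div ?_ ?_ (Real.rpow_pos_of_pos (hJ0 ζ hζ2) _).ne'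
    · exact continuousAt_const.mul (h1.rpow_const (Or.inl (hD _).1.ne'))
    · exact h2.rpow_const (Or.inl (hJ0 ζ hζ2).ne')
  have hush : Crest.Agent.R273.Reg_844.ush S (Y.cK.s ζ) ≤ g ζ := by
    refine le_of_forall_gt_imp_ge_of_dense fun c hc => ?_
    refine Crest.Agent.R273.Reg_844.ush_le ?_
    have h1 : ∀ᶠ ζ' in 𝓝 ζ, S (Y.cK.s ζ') ≤ c := by
      filter_upwards [hgc.eventually_lt_const hc,
        (isOpen_PD ((δ' + Y.δ) / 2) (some Y.i₀)).mem_nhds hζ1] with ζ' h2 h3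
      exact (hSg ζ' h3).trans h2.le
    have h4 : Y.cK.J ζ ≠ 0 := Mono.ne_zero hcK hζ2
    have h5 : ∀ᶠ y in map Y.cK.s (𝓝 ζ), S y ≤ c := h1
    rwa [map_nhds_eq Y.cK hζ2 h4] at h5
  have hD0 : 0 < D (H₂.f (Y.cK.s ζ)) ^ (ε * N) := Real.rpow_pos_of_pos (hD _).1 _
  have hJp : 0 < ‖Y.jF ζ‖ ^ e := Real.rpow_pos_of_pos (hJ0 ζ hζ2) _
  rw [div_le_iff₀ hD0]
  calc Crest.Agent.R273.Reg_844.ush S (Y.cK.s ζ) * ‖Y.jF ζ‖ ^ e ≤ g ζ * ‖Y.jF ζ‖ ^ e :=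
        mul_le_mul_of_nonneg_right hush hJp.le
    _ = C' * D (H₂.f (Y.cK.s ζ)) ^ (ε * N) := by
        rw [hg]; field_simp

end Crest.Agent.R276.C1bd_986
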