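import Crest.Agent.R276.CntC_857

/-!
# R276, leaf COUNT (helper857), part D

`coLin`: the coefficients as linear maps; `ext`: if all coefficients of index `< a` vanish, then
`q₀^{-a} fI` extends holomorphically to the polydiscs.
-/

set_option autoImplicit false

noncomputable section

open Set Filter Topology MeasureTheory Metric

namespace Crest.Agent.R276.CntD_857

open Crest.Agent.R271.Ho51 Crest.Agent.R276.CntDefs_857 Crest.Agent.R276.SliA_217
  Crest.Agent.R276.CntA_857 Crest.Agent.R276.CntB_857 Crest.Agent.R276.CntC_857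

/-- Cauchy's formula for a function on a punctured disc without principal part -/
theorem cauchy_punct {F : ℂ → ℂ} {s R : ℝ} (hsR : s < R)
    (hF : ∀ x, x ≠ 0 → ‖x‖ < R → DifferentiableAt ℂ F x)
    (h0 : ∀ m : ℕ, 1 ≤ m → Real.circleAverage (fun x => F x * x ^ m) 0 s = 0) {w : ℂ}
    (hw : w ≠ 0) (hws : ‖w‖ < s) :
    F w = Real.circleAverage (fun x => F x * (x / (x - w))) 0 s := by
  have hw0 : 0 < ‖w‖ := norm_pos_iff.2 hw
  have hs : 0 < s := hw0.trans hws
  -- a small radius
  set s₀ : ℝ := ‖w‖ / 2 with hs₀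
  have hs₀0 : 0 < s₀ := by positivity
  have hs₀w : s₀ < ‖w‖ := half_lt_self hw0
  have hFc : ∀ ρ : ℝ, 0 < ρ → ρ < R → ContinuousOn F (sphere 0 ρ) := by
    intro ρ hρ hρR x hx
    rw [mem_sphere_zero_iff_norm] at hx
    exact (hF x (by intro h; rw [h, norm_zero] at hx; linarith)
      (by rw [hx]; exact hρR)).continuousAt.continuousWithinAt
  -- the average over the small circle vanishes
  have h1 : Real.circleAverage (fun x => F x * (x / (x - w))) 0 s₀ = 0 := by
    have h2 := avg_mul (F := F) (g := fun x => x / (x - w)) (s := s₀) (R := ‖w‖) hs₀0 hs₀w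
      (hFc s₀ hs₀0 (by linarith)) ?_ ?_
    · rw [h2]; simp
    · intro x hx
      rw [mem_ball_zero_iff] at hx
      have hxw : x - w ≠ 0 := by
        intro h
        rw [sub_eq_zero] at h
        rw [h] at hx; exact lt_irrefl _ hx
      have : DifferentiableAt ℂ (fun x : ℂ => x / (x - w)) x := by
        fun_prop (disch := exact hxw)
      exact this.differentiableWithinAt
    · intro m hm
      refine Eq.trans (Eq.symm ?_) (h0 m hm)
      refine avg_annulus hs₀0 (by linarith) fun z hz1 hz2 => ?_
      have hz0 : z ≠ 0 := by intro h; rw [h, norm_zero] at hz1; linarith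
      exact (hF z hz0 (hz2.trans_lt hsR)).mul (differentiableAt_id.pow m)
  -- the difference quotient
  set G : ℂ → ℂ := fun x => x * dslope F w x with hG
  have hG1 : Real.circleAverage G 0 s = Real.circleAverage G 0 s₀ := by
    refine avg_annulus hs₀0 (by linarith) fun z hz1 hz2 => ?_
    have hz0 : z ≠ 0 := by intro h; rw [h, norm_zero] at hz1; linarith
    have h3 : DifferentiableOn ℂ F {x | x ≠ 0 ∧ ‖x‖ < R} := fun x hx =>
      (hF x hx.1 hx.2).differentiableWithinAt
    have h4 : IsOpen {x : ℂ | x ≠ 0 ∧ ‖x‖ < R} := isOpen_ne.inter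
      (isOpen_lt continuous_norm continuous_const)
    have h5 : DifferentiableOn ℂ (dslope F w) {x | x ≠ 0 ∧ ‖x‖ < R} :=
      (Complex.differentiableOn_dslope (h4.mem_nhds ⟨hw, hws.trans hsR⟩)).2 h3
    exact differentiableAt_id.mul
      ((h5 z ⟨hz0, hz2.trans_lt hsR⟩).differentiableAt (h4.mem_nhds ⟨hz0, hz2.trans_lt hsR⟩))
  have hGe : ∀ x : ℂ, x ≠ w → G x = F x * (x / (x - w)) - F w * (x / (x - w)) := by
    intro x hx
    have hxw : x - w ≠ 0 := sub_ne_zero.2 hx
    rw [hG]
    simp only
    rw [dslope_of_ne _ hx, slope_def_field]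
    field_simp
  have hint : ∀ ρ : ℝ, 0 < ρ → ρ < R → ρ ≠ ‖w‖ →
      CircleIntegrable (fun x => F x * (x / (x - w))) 0 ρ ∧
      CircleIntegrable (fun x => F w * (x / (x - w))) 0 ρ := by
    intro ρ hρ hρR hρw
    have h3 : ContinuousOn (fun x : ℂ => x / (x - w)) (sphere 0 ρ) := by
      intro x hx
      rw [mem_sphere_zero_iff_norm] at hx
      have hxw : x - w ≠ 0 := by
        intro h
        rw [sub_eq_zero] at h
        rw [h] at hx; exact hρw hx.symm
      exact (continuousAt_id.div (continuousAt_id.sub continuousAt_const) hxw).continuousWithinAt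
    exact ⟨circ_int hρ ((hFc ρ hρ hρR).mul h3), circ_int hρ (continuousOn_const.mul h3)⟩
  have hav : ∀ ρ : ℝ, 0 < ρ → ρ < R → ρ ≠ ‖w‖ → Real.circleAverage G 0 ρ =
      Real.circleAverage (fun x => F x * (x / (x - w))) 0 ρ -
      F w * Real.circleAverage (fun x => x / (x - w)) 0 ρ := by
    intro ρ hρ hρR hρw
    obtain ⟨i1, i2⟩ := hint ρ hρ hρR hρw
    have h3 : Real.circleAverage G 0 ρ =
        Real.circleAverage (fun x => F x * (x / (x - w)) - F w * (x / (x - w))) 0 ρ := by
      refine Real.circleAverage_congr_sphere (E := ℂ) ?_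
      intro x hx
      rw [abs_of_pos hρ, mem_sphere_zero_iff_norm] at hx
      refine hGe x ?_
      rintro rfl
      exact hρw hx.symm
    rw [h3, Real.circleAverage_fun_sub i1 i2]
    congr 1
    have h4 := Real.circleAverage_fun_smul (a := F w) (f := fun x : ℂ => x / (x - w)) (c := 0)
      (R := ρ)
    simpa [smul_eq_mul] using h4
  have hA1 : Real.circleAverage (fun x : ℂ => x / (x - w)) 0 s₀ = 0 := by
    have h3 : ∀ x ∈ closedBall (0 : ℂ) |s₀|, DifferentiableAt ℂ (fun x : ℂ => x / (x - w)) x := by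
      intro x hx
      rw [mem_closedBall_zero_iff, abs_of_pos hs₀0] at hx
      have hxw : x - w ≠ 0 := by
        intro h
        rw [sub_eq_zero] at h
        rw [h] at hx; linarith
      exact differentiableAt_id.div (differentiableAt_id.sub_const w) hxw
    rw [circleAverage_of_differentiable_on_off_countable countable_empty
      (fun x hx => (h3 x hx).continuousAt.continuousWithinAt)
      (fun x hx => h3 x (ball_subset_closedBall hx.1))]
    simp
  have hA2 : Real.circleAverage (fun x : ℂ => x / (x - w)) 0 s = 1 := by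
    rw [Real.circleAverage_eq_circleIntegral hs.ne']
    have h3 : (∮ z in C((0 : ℂ), s), (z - 0)⁻¹ • (z / (z - w))) = ∮ z in C((0 : ℂ), s), (z - w)⁻¹ := by
      refine circleIntegral.integral_congr hs.le fun z hz => ?_
      rw [mem_sphere_zero_iff_norm] at hz
      have hz0 : z ≠ 0 := by intro h; rw [h, norm_zero] at hz; linarith
      have hzw : z - w ≠ 0 := by
        intro h
        rw [sub_eq_zero] at h
        rw [h] at hz; linarith
      simp only [sub_zero, smul_eq_mul]
      field_simp
    rw [h3, circleIntegral.integral_sub_inv_of_mem_ball (by rw [mem_ball_zero_iff]; exact hws)]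
    rw [smul_eq_mul, inv_mul_cancel₀]
    simp [Real.pi_ne_zero]
  have h6 := hav s hs hsR hws.ne'
  have h7 := hav s₀ hs₀0 (by linarith) hs₀w.ne
  rw [hA2] at h6
  rw [hA1, h1] at h7
  rw [h6, h7] at hG1
  linear_combination -hG1

/-- extension of locally square integrable functions on a punctured polydisc -/
theorem ext_PS' {d : ℕ} {r : ℝ} {f : (Fin (d + 1) → ℂ) → ℂ} (hr : 0 < r)
    (hf : DifferentiableOn ℂ f (PS d r)) (hL : ∀ r' < r, ∫⁻ q in PS d r', ‖f q‖ₑ ^ 2 < ⊤) :
    ∃ g : (Fin (d + 1) → ℂ) → ℂ, DifferentiableOn ℂ g (ball 0 r) ∧ ∀ q ∈ PS d r, g q = f q := by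
  have h1 : ∀ ρ : ℝ, 0 < ρ → ball (0 : Fin (d + 1) → ℂ) ρ ∩ {z | z 0 ≠ 0} = PS d ρ := by
    intro ρ hρ
    ext q
    rw [mem_inter_iff, mem_ball_zero_iff, pi_norm_lt_iff hρ]
    exact and_comm
  have hD : AnalyticOnNhd ℂ (fun z : Fin (d + 1) → ℂ => z 0) (ball 0 r) :=
    fun z _ => (ContinuousLinearMap.proj (R := ℂ) (φ := fun _ : Fin (d + 1) => ℂ) 0).analyticAt z
  have hne : ∀ a ∈ ball (0 : Fin (d + 1) → ℂ) r,
      ¬ (∀ᶠ z in 𝓝 a, (fun z : Fin (d + 1) → ℂ => z 0) z = 0) := by
    intro a _ h
    have h2 : ContinuousAt (fun s : ℂ => a + s • (Pi.single 0 1 : Fin (d + 1) → ℂ)) 0 := by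
      fun_prop
    have h3 : ∀ᶠ s : ℂ in 𝓝 0, (a + s • (Pi.single 0 1 : Fin (d + 1) → ℂ)) 0 = 0 :=
      h2.eventually (p := fun z : Fin (d + 1) → ℂ => z 0 = 0) (by simpa using h)
    have h4 : a 0 = 0 := by simpa using h.self_of_nhds
    have h5 : ∀ᶠ s : ℂ in 𝓝 0, s = 0 := by
      filter_upwards [h3] with s hs
      simpa [h4] using hs
    have h6 : ∀ᶠ s : ℂ in 𝓝[≠] 0, s = 0 := h5.filter_mono nhdsWithin_le_nhds
    have h7 : ∀ᶠ s : ℂ in 𝓝[≠] 0, s ≠ 0 := self_mem_nhdsWithin
    obtain ⟨s, hs, hs'⟩ := (h6.and h7).exists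
    exact hs' hs
  obtain ⟨g, hg, hgf⟩ := Crest.Agent.R271.RExt747.riemann_ext (f := f) isOpen_ball hD hne
    (by rw [h1 r hr]; exact hf) (fun a ha => by
      rw [mem_ball_zero_iff] at ha
      have h0 : 0 < (‖a‖ + r) / 2 := by positivity
      refine ⟨ball 0 ((‖a‖ + r) / 2), isOpen_ball.mem_nhds ?_, ?_⟩
      · rw [mem_ball_zero_iff]; linarith
      · rw [h1 _ h0]; exact hL _ (by linarith))
  refine ⟨g, hg, fun q hq => hgf q ?_ hq.1⟩
  rw [← h1 r hr] at hq
  exact hq.1

variable {d : ℕ} {M E : Type*} [TopologicalSpace M] [RDom (d + 1) M] [MeasurableSpace M]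
    {μ : Measure M} [TopologicalSpace E] [RDom d E]

variable (D : DChart M E μ)

/-- **extension**: if the coefficients of index `< a` vanish then `q₀^{-a} fI` is holomorphic on
the whole polydisc -/
theorem ext (n t : ℕ) (k : ℤ) {F : M → ℂ} (hF : Hol F) {a : ℤ}
    (hvan : ∀ l' < a, co D n t k F l' = 0) (y : E) :
    ∃ g : (Fin (d + 1) → ℂ) → ℂ, DifferentiableOn ℂ g (ball 0 (D.r y)) ∧
      ∀ q ∈ PS d (D.r y), D.fI n t k F y q = (q 0) ^ a * g q := by
  have hr := r_pos D y
  set f : (Fin (d + 1) → ℂ) → ℂ := fun q => D.fI n t k F y q * (q 0) ^ (-a) with hf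
  have hfd : DifferentiableOn ℂ f (PS d (D.r y)) := by
    refine (diff_fI D n t k hF y).mul ?_
    intro q hq
    have h1 : DifferentiableAt ℂ (fun q : Fin (d + 1) → ℂ => q 0) q := differentiableAt_apply 0 q
    exact ((differentiableAt_zpow.2 (Or.inl hq.1)).comp q h1).differentiableWithinAt
  have hcons : ∀ q : Fin (d + 1) → ℂ, q = Fin.cons (q 0) (fun i => q i.succ) := by
    intro q
    funext i
    refine Fin.cases ?_ (fun j => ?_) i <;> simp
  obtain ⟨g, hg, hgf⟩ := ext_PS' hr hfd (fun r' hr' => by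
    rcases le_or_gt r' 0 with h0 | h0
    · have : PS d r' = ∅ := by
        ext q
        simp only [mem_empty_iff_false, iff_false]
        intro hq
        have := hq.2 0
        linarith [norm_nonneg (q 0)]
      rw [this]; simp
    set K : Set (Fin (d + 1) → ℂ) := {q | r' / 2 ≤ ‖q 0‖ ∧ ∀ i, ‖q i‖ ≤ r'} with hK
    have hKc : IsCompact K := by
      have h1 : K = closedBall 0 r' ∩ {q | r' / 2 ≤ ‖q 0‖} := by
        ext q
        rw [mem_inter_iff, mem_closedBall_zero_iff, pi_norm_le_iff_of_nonneg h0.le]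
        exact and_comm
      rw [h1]
      exact (isCompact_closedBall _ _).inter_right
        (isClosed_le continuous_const (continuous_norm.comp (continuous_apply 0)))
    have hKs : K ⊆ PS d (D.r y) := by
      rintro q ⟨h1, h2⟩
      refine ⟨fun h => ?_, fun i => (h2 i).trans_lt hr'⟩
      rw [h, norm_zero] at h1
      linarith
    obtain ⟨B, hB⟩ := hKc.exists_bound_of_continuousOn (hfd.continuousOn.mono hKs)
    have hBf : ∀ q ∈ PS d r', ‖f q‖ ≤ 2 * B := by
      intro q hq
      have hBnn : 0 ≤ B := by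
        refine (norm_nonneg _).trans (hB (Fin.cons (r' : ℂ) 0) ⟨?_, fun i => ?_⟩)
        · simp only [Fin.cons_zero, Complex.norm_real, Real.norm_eq_abs, abs_of_pos h0]
          linarith
        · refine Fin.cases ?_ (fun j => ?_) i
          · simp [abs_of_pos h0]
          · simpa using h0.le
      rcases le_or_gt (r' / 2) ‖q 0‖ with h1 | h1
      · have := hB q ⟨h1, fun i => (hq.2 i).le⟩
        linarith
      set v : Fin d → ℂ := fun i => q i.succ with hv
      have hq' : q = Fin.cons (q 0) v := hcons q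
      have hvr : ‖v‖ < D.r y := by
        rw [pi_norm_lt_iff hr]
        exact fun i => (hq.2 i.succ).trans hr'
      obtain ⟨e, he, hye, het⟩ := exists_chart D y
      have hw : cp y + v ∈ e.target := by
        rw [het, mem_ball, dist_eq_norm, add_sub_cancel_left]
        exact hvr
      have hcz : ∀ l' < a, coL D n t k F l' y r' v = 0 := by
        intro l' hl'
        have h2 := co_symm D n t k hF l' he hye het (e.map_target hw) h0 hr'
        rw [he.cp_symm hw, add_sub_cancel_left] at h2
        rw [← h2, hvan l' hl']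
        rfl
      have h3 := cauchy_punct (F := fun x => D.fI n t k F y (Fin.cons x v) * x ^ (-a))
        (s := r') (R := D.r y) hr' (fun x hx hxr => diffAt_x D n t k hF a y hvr hx hxr) ?_
        (w := q 0) hq.1 (by linarith)
      · have h4 : f q = D.fI n t k F y (Fin.cons (q 0) v) * (q 0) ^ (-a) := by
          rw [hf]; simp only; rw [← hq']
        rw [h4, h3]
        refine norm_avg_le h0 fun x hx => ?_
        have h5 : (Fin.cons x v : Fin (d + 1) → ℂ) ∈ K := by
          refine ⟨?_, fun i => ?_⟩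
          · simp only [Fin.cons_zero, hx]; linarith
          · refine Fin.cases ?_ (fun j => ?_) i
            · simp [hx]
            · simpa using (hq.2 j.succ).le
        have h6 := hB _ h5
        simp only [hf, Fin.cons_zero] at h6
        have h7 : ‖x / (x - q 0)‖ ≤ 2 := by
          rw [norm_div, hx]
          have h8 : r' / 2 ≤ ‖x - q 0‖ := by
            have := norm_sub_norm_le x (q 0)
            rw [hx] at this
            linarith
          rw [div_le_iff₀ (by linarith)]
          linarith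
        rw [norm_mul]
        calc _ ≤ B * 2 := mul_le_mul h6 h7 (norm_nonneg _) hBnn
          _ = 2 * B := mul_comm _ _
      · intro m hm
        refine Eq.trans ?_ (hcz (a - m) (by omega))
        unfold coL
        refine Real.circleAverage_congr_sphere (E := ℂ) ?_
        intro x hx
        rw [abs_of_pos h0, mem_sphere_zero_iff_norm] at hx
        have hx0 : x ≠ 0 := by
          intro h; rw [h, norm_zero] at hx; linarith
        simp only
        rw [mul_assoc, ← zpow_natCast, ← zpow_add₀ hx0]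
        congr 2; ring
    calc ∫⁻ q in PS d r', ‖f q‖ₑ ^ 2 ≤ ∫⁻ _q in PS d r', ENNReal.ofReal ((2 * B) ^ 2) := by
          refine setLIntegral_mono' (isOpen_PS _).measurableSet fun q hq => ?_
          rw [← ofReal_norm, ← ENNReal.ofReal_pow (norm_nonneg _)]
          exact ENNReal.ofReal_le_ofReal (pow_le_pow_left₀ (norm_nonneg _) (hBf q hq) 2)
      _ = ENNReal.ofReal ((2 * B) ^ 2) * volume (PS d r') := by rw [setLIntegral_const]
      _ < ⊤ := by
          refine ENNReal.mul_lt_top ENNReal.ofReal_lt_top ?_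
          refine lt_of_le_of_lt (measure_mono ?_)
            (measure_ball_lt_top (x := (0 : Fin (d + 1) → ℂ)) (r := r'))
          intro q hq
          rw [mem_ball_zero_iff, pi_norm_lt_iff h0]
          exact hq.2)
  refine ⟨g, hg, fun q hq => ?_⟩
  rw [hgf q hq, hf]
  simp only
  rw [mul_comm, mul_assoc, ← zpow_add₀ hq.1]
  simp

theorem co_int (n t : ℕ) (k : ℤ) {F : M → ℂ} (hF : Hol F) (l : ℤ) (y : E) :
    CircleIntegrable (fun x : ℂ => D.fI n t k F y (Fin.cons x 0) * x ^ (-l)) 0 (D.r y / 2) := by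
  have hr := r_pos D y
  refine circ_int (by positivity) fun x hx => ?_
  rw [mem_sphere_zero_iff_norm] at hx
  refine (diffAt_x D n t k hF l y (by simpa using hr) ?_ ?_).continuousAt.continuousWithinAt
  · intro h; rw [h, norm_zero] at hx; linarith
  · rw [hx]; linarith

/-- the coefficients as linear maps -/
def coLin (n t : ℕ) (k : ℤ) (l : ℤ) : HolS M →ₗ[ℂ] (E → ℂ) where
  toFun F := co D n t k F.1 l
  map_add' F G := by
    funext y
    have h1 : (fun x : ℂ => D.fI n t k (F + G).1 y (Fin.cons x 0) * x ^ (-l)) =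
        fun x : ℂ => D.fI n t k F.1 y (Fin.cons x 0) * x ^ (-l) +
          D.fI n t k G.1 y (Fin.cons x 0) * x ^ (-l) := by
      funext x
      simp only [DChart.fI, Submodule.coe_add, Pi.add_apply]
      ring
    unfold co
    rw [h1, Real.circleAverage_fun_add (co_int D n t k F.2 l y) (co_int D n t k G.2 l y)]
    rfl
  map_smul' c F := by
    funext y
    have h1 : (fun x : ℂ => D.fI n t k (c • F).1 y (Fin.cons x 0) * x ^ (-l)) =
        fun x : ℂ => c • (D.fI n t k F.1 y (Fin.cons x 0) * x ^ (-l)) := by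
      funext x
      simp only [DChart.fI, Submodule.coe_smul, Pi.smul_apply, smul_eq_mul]
      ring
    unfold co
    rw [h1, Real.circleAverage_fun_smul]
    rfl

@[simp] theorem coLin_apply (n t : ℕ) (k : ℤ) (l : ℤ) (F : HolS M) :
    coLin D n t k l F = co D n t k F.1 l := rfl

end Crest.Agent.R276.CntD_857
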