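import Crest.Agent.R276.BR3_590
import Crest.Agent.R276.SkelDefs_220

/-!
# Row 276, EndC (helper723), part 1: calculus on tower charts

* `det_tri` : block triangular Jacobians;
* `LogB` : products, powers, pull back by `pw`;
* `TChart.J_L`, `TChart.J_K` : the Jacobians of a tower chart.
-/

set_option autoImplicit false
set_option linter.unusedSectionVars false

noncomputable section

open Set Filter Topology MeasureTheory
open scoped ENNReal

namespace Crest.Agent.R276.EndC_723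

open Crest.Agent.R271 Crest.Agent.R271.Defs710 Crest.Agent.R271.Ho51 Crest.Agent.R271.Rd692
open Crest.Agent.R276.FKDefs_779 Crest.Agent.R276.BC_986
open Crest.Agent.R276.Mod1_987 Crest.Agent.R276.EngU_29 Crest.Agent.R276.SkelDefs_220
open Crest.Agent.R276.BR_590 (cat bs fb bs_cat fb_cat cat_bs_fb inr inl hasFDerivAt_cat inr_single
  inl_single det_eq_matrix fderiv_pi_apply cat_castAdd cat_natAdd)

/-! ### determinants -/

section det

variable {m r : ℕ}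

/-- `bs` as a continuous linear map -/
def bsL (m r : ℕ) : Cn (m + r) →L[ℂ] Cn m :=
  ContinuousLinearMap.pi fun i => ContinuousLinearMap.proj (Fin.castAdd r i)

/-- `fb` as a continuous linear map -/
def fbL (m r : ℕ) : Cn (m + r) →L[ℂ] Cn r :=
  ContinuousLinearMap.pi fun i => ContinuousLinearMap.proj (Fin.natAdd m i)

lemma bsL_apply (ξ : Cn (m + r)) : bsL m r ξ = bs ξ := rfl

lemma fbL_apply (ξ : Cn (m + r)) : fbL m r ξ = fb ξ := rfl

theorem det_tri {F : Cn (m + r) → Cn (m + r)} {G : Cn m → Cn m} {ξ : Cn (m + r)}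
    (hF : DifferentiableAt ℂ F ξ) (hG : DifferentiableAt ℂ G (bs ξ))
    (h : ∀ᶠ ζ in 𝓝 ξ, bs (F ζ) = G (bs ζ)) :
    (fderiv ℂ F ξ).det = (fderiv ℂ G (bs ξ)).det *
      (fderiv ℂ (fun x => fb (F (cat (bs ξ) x))) (fb ξ)).det := by
  have e1 : HasFDerivAt (fun ζ => bs (F ζ)) ((bsL m r).comp (fderiv ℂ F ξ)) ξ :=
    (bsL m r).hasFDerivAt.comp ξ hF.hasFDerivAt
  have e2 : HasFDerivAt (fun ζ => G (bs ζ)) ((fderiv ℂ G (bs ξ)).comp (bsL m r)) ξ :=
    HasFDerivAt.comp (g := G) ξ hG.hasFDerivAt (bsL m r).hasFDerivAt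
  have e3 : (bsL m r).comp (fderiv ℂ F ξ) = (fderiv ℂ G (bs ξ)).comp (bsL m r) :=
    (e1.congr_of_eventuallyEq (h.mono fun ζ hζ => hζ.symm)).unique e2
  have e4 : HasFDerivAt (fun x => fb (F (cat (bs ξ) x)))
      ((fbL m r).comp ((fderiv ℂ F ξ).comp (inr m r))) (fb ξ) := by
    have h3 : HasFDerivAt F (fderiv ℂ F ξ) (cat (bs ξ) (fb ξ)) := by
      rw [cat_bs_fb]; exact hF.hasFDerivAt
    exact (fbL m r).hasFDerivAt.comp (fb ξ) (h3.comp (fb ξ) (hasFDerivAt_cat (bs ξ) (fb ξ)))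
  have e5 : ∀ (v : Cn (m + r)) (k : Fin m), fderiv ℂ F ξ v (Fin.castAdd r k) =
      fderiv ℂ G (bs ξ) (bs v) k := fun v k =>
    congrFun (congrArg (fun A : Cn (m + r) →L[ℂ] Cn m => A v) e3) k
  rw [e4.fderiv, det_eq_matrix (fderiv ℂ F ξ), det_eq_matrix (fderiv ℂ G (bs ξ)), det_eq_matrix]
  set Mx : Matrix (Fin (m + r)) (Fin (m + r)) ℂ :=
    Matrix.of fun k l => fderiv ℂ F ξ (Pi.single l 1) k with hM
  have h1 : Mx.det = (Matrix.reindex finSumFinEquiv.symm finSumFinEquiv.symm Mx).det := by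
    rw [Matrix.det_reindex_self]
  have b1 : ∀ l : Fin m, bs (Pi.single (Fin.castAdd r l) (1 : ℂ) : Cn (m + r)) =
      (Pi.single l 1 : Cn m) := by
    intro l
    funext k
    change (Pi.single (Fin.castAdd r l) (1 : ℂ) : Cn (m + r)) (Fin.castAdd r k) = _
    by_cases hk : k = l
    · subst hk; simp
    · rw [Pi.single_eq_of_ne hk, Pi.single_eq_of_ne]
      intro h'
      exact hk ((Fin.castAdd_injective m r) h')
  have b2 : ∀ l : Fin r, bs (Pi.single (Fin.natAdd m l) (1 : ℂ) : Cn (m + r)) = 0 := by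
    intro l
    funext k
    change (Pi.single (Fin.natAdd m l) (1 : ℂ) : Cn (m + r)) (Fin.castAdd r k) = _
    rw [Pi.single_eq_of_ne]
    · rfl
    · intro h'
      have := congrArg Fin.val h'
      simp at this
      omega
  have h2 : Matrix.reindex finSumFinEquiv.symm finSumFinEquiv.symm Mx =
      Matrix.fromBlocks
        (Matrix.of fun k l : Fin m => fderiv ℂ G (bs ξ) (Pi.single l 1) k) 0
        (Matrix.of fun (k : Fin r) (l : Fin m) => fderiv ℂ F ξ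
          (Pi.single (Fin.castAdd r l) 1) (Fin.natAdd m k))
        (Matrix.of fun k l : Fin r => (fbL m r).comp ((fderiv ℂ F ξ).comp (inr m r))
          (Pi.single l 1) k) := by
    ext k l
    rcases k with k | k <;> rcases l with l | l
    · simp only [Matrix.reindex_apply, Equiv.symm_symm, Matrix.submatrix_apply,
        finSumFinEquiv_apply_left, Matrix.fromBlocks_apply₁₁, Matrix.of_apply, hM]
      rw [e5, b1]
    · simp only [Matrix.reindex_apply, Equiv.symm_symm, Matrix.submatrix_apply,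
        finSumFinEquiv_apply_left, finSumFinEquiv_apply_right, Matrix.fromBlocks_apply₁₂,
        Matrix.zero_apply, Matrix.of_apply, hM]
      rw [e5, b2, map_zero, Pi.zero_apply]
    · simp [hM]
    · simp only [Matrix.reindex_apply, Equiv.symm_symm, Matrix.submatrix_apply,
        finSumFinEquiv_apply_right, Matrix.fromBlocks_apply₂₂, Matrix.of_apply, hM,
        ContinuousLinearMap.comp_apply, inr_single, fbL_apply]
      rfl
  rw [h1, h2, Matrix.det_fromBlocks_zero₁₂]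

/-- `ζ ↦ ζ` with the coordinate `i` raised to the power `e` -/
def pwB (e : ℕ) (i : Option (Fin m)) (ζ : Cn m) : Cn m := fun j =>
  if i = some j then ζ j ^ e else ζ j

lemma hasFDerivAt_pwB (e : ℕ) (i : Option (Fin m)) (ζ : Cn m) :
    HasFDerivAt (pwB e i) (ContinuousLinearMap.pi fun j =>
      (if i = some j then (e : ℂ) * ζ j ^ (e - 1) else 1) • ContinuousLinearMap.proj (R := ℂ)
        (φ := fun _ : Fin m => ℂ) j) ζ := by
  rw [hasFDerivAt_pi]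
  intro j
  have hp : HasFDerivAt (fun ζ : Cn m => ζ j) (ContinuousLinearMap.proj (R := ℂ)
        (φ := fun _ : Fin m => ℂ) j) ζ :=
    (ContinuousLinearMap.proj (R := ℂ) (φ := fun _ : Fin m => ℂ) j).hasFDerivAt
  by_cases hj : i = some j
  · simp only [pwB, if_pos hj]
    have h1 := hp.pow e
    refine h1.congr_fderiv ?_
    ext v
    simp
  · simp only [pwB, if_neg hj, one_smul]
    exact hp

lemma det_pwB_le (e : ℕ) (i : Option (Fin m)) (ζ : Cn m) (he : 0 < e) (hζ : ‖ζ‖ < 1) :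
    ‖(fderiv ℂ (pwB e i) ζ).det‖ ≤ e := by
  rw [(hasFDerivAt_pwB e i ζ).fderiv, det_eq_matrix]
  have h1 : (Matrix.of fun k l : Fin m => (ContinuousLinearMap.pi fun j =>
      (if i = some j then (e : ℂ) * ζ j ^ (e - 1) else 1) • ContinuousLinearMap.proj (R := ℂ)
        (φ := fun _ : Fin m => ℂ) j) (Pi.single l 1) k) =
      Matrix.diagonal fun j => (if i = some j then (e : ℂ) * ζ j ^ (e - 1) else 1) := by
    ext k l
    rw [Matrix.of_apply, Matrix.diagonal_apply, ContinuousLinearMap.pi_apply,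
      smul_apply, ContinuousLinearMap.proj_apply]
    by_cases hkl : k = l
    · subst hkl; simp
    · rw [if_neg hkl, Pi.single_eq_of_ne hkl, smul_zero]
  rw [h1, Matrix.det_diagonal, norm_prod]
  rcases i with _ | i
  · simp only [reduceCtorEq, if_false, norm_one, Finset.prod_const_one]
    exact_mod_cast he
  · have h2 : ∀ j : Fin m, ‖(if some i = some j then (e : ℂ) * ζ j ^ (e - 1) else 1)‖ =
        if j = i then ‖(e : ℂ) * ζ i ^ (e - 1)‖ else 1 := by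
      intro j
      by_cases hj : j = i
      · subst hj; simp
      · rw [if_neg hj, if_neg, norm_one]
        intro h; exact hj (Option.some.inj h).symm
    rw [Finset.prod_congr rfl fun j _ => h2 j, Finset.prod_ite_eq' Finset.univ i,
      if_pos (Finset.mem_univ i), norm_mul, norm_pow, Complex.norm_natCast]
    have h3 : ‖ζ i‖ ≤ 1 := (norm_le_pi_norm ζ i).trans hζ.le
    have h4 : ‖ζ i‖ ^ (e - 1) ≤ 1 := pow_le_one₀ (norm_nonneg _) h3
    have h5 : (0 : ℝ) ≤ e := Nat.cast_nonneg e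
    nlinarith

lemma pw_eq (e : ℕ) (i₀ : Option (Fin (m + r))) (ζ : Cn (m + r)) :
    pw e i₀ ζ = pwB e (low i₀) (bs ζ) := rfl

end det

/-! ### punctured polydiscs and logarithmic bounds -/

section logb

variable {n : ℕ} {δ : ℝ} {i₀ : Option (Fin n)} {u v : Cn n → ℝ}

lemma PD_mono {δ' : ℝ} (h : δ' ≤ δ) : PD δ' i₀ ⊆ PD δ i₀ := fun _ hζ =>
  ⟨hζ.1.trans_le h, hζ.2⟩

lemma isOpen_PD : IsOpen (PD δ i₀) := by
  have h1 : PD δ i₀ = {ζ : Cn n | ‖ζ‖ < δ} ∩ {ζ | ∀ i, i₀ = some i → ζ i ≠ 0} := rfl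
  rw [h1]
  refine IsOpen.inter (isOpen_lt continuous_norm continuous_const) ?_
  rcases i₀ with _ | i
  · simp
  · have h2 : {ζ : Cn n | ∀ j, some i = some j → ζ j ≠ 0} = {ζ | ζ i ≠ 0} := by
      ext ζ
      simp only [Set.mem_ofPred_eq, Option.some.injEq]
      constructor
      · intro h; exact h i rfl
      · rintro h j rfl; exact h
    rw [h2]
    exact isOpen_ne.preimage (continuous_apply i)

/-- the logarithmic factor -/
def lf (i₀ : Option (Fin n)) (ζ : Cn n) : ℝ := 1 + |Real.log ‖tau i₀ ζ‖|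

lemma one_le_lf (ζ : Cn n) : 1 ≤ lf i₀ ζ := by
  unfold lf
  have := abs_nonneg (Real.log ‖tau i₀ ζ‖)
  linarith

lemma logB_iff : LogB δ i₀ u ↔ ∀ δ' < δ, ∃ (C : ℝ) (k : ℕ), 0 ≤ C ∧ ∀ ζ ∈ PD δ' i₀,
    u ζ ≤ C * lf i₀ ζ ^ k := by
  constructor
  · intro h δ' hδ'
    obtain ⟨C, k, hC⟩ := h δ' hδ'
    refine ⟨max C 0, k, le_max_right _ _, fun ζ hζ => (hC ζ hζ).trans ?_⟩
    have h1 : 0 ≤ lf i₀ ζ ^ k := by
      have := one_le_lf (i₀ := i₀) ζ
      positivity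
    exact mul_le_mul_of_nonneg_right (le_max_left _ _) h1
  · intro h δ' hδ'
    obtain ⟨C, k, -, hC⟩ := h δ' hδ'
    exact ⟨C, k, hC⟩

lemma logB_mul (hu : LogB δ i₀ u) (hv : LogB δ i₀ v) (hv0 : ∀ ζ ∈ PD δ i₀, 0 ≤ v ζ) : LogB δ i₀ (fun ζ => u ζ * v ζ) := by
  rw [logB_iff] at hu hv ⊢
  intro δ' hδ'
  obtain ⟨C, k, hC, h1⟩ := hu δ' hδ'
  obtain ⟨C', k', hC', h2⟩ := hv δ' hδ'
  refine ⟨C * C', k + k', mul_nonneg hC hC', fun ζ hζ => ?_⟩
  have hl := one_le_lf (i₀ := i₀) ζ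
  have hl0 : 0 ≤ lf i₀ ζ := by linarith
  calc u ζ * v ζ ≤ (C * lf i₀ ζ ^ k) * (C' * lf i₀ ζ ^ k') :=
        mul_le_mul (h1 ζ hζ) (h2 ζ hζ) (hv0 ζ (PD_mono hδ'.le hζ)) (by positivity)
    _ = C * C' * lf i₀ ζ ^ (k + k') := by ring

lemma logB_rpow (hu : LogB δ i₀ u) (hu0 : ∀ ζ ∈ PD δ i₀, 0 ≤ u ζ) {a : ℝ} (ha : 0 ≤ a) :
    LogB δ i₀ (fun ζ => u ζ ^ a) := by
  rw [logB_iff] at hu ⊢
  intro δ' hδ'
  obtain ⟨C, k, hC, h1⟩ := hu δ' hδ'
  refine ⟨C ^ a, ⌈k * a⌉₊, Real.rpow_nonneg hC _, fun ζ hζ => ?_⟩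
  have hl := one_le_lf (i₀ := i₀) ζ
  have hl0 : 0 ≤ lf i₀ ζ := by linarith
  calc u ζ ^ a ≤ (C * lf i₀ ζ ^ k) ^ a :=
        Real.rpow_le_rpow (hu0 ζ (PD_mono hδ'.le hζ)) (h1 ζ hζ) ha
    _ = C ^ a * lf i₀ ζ ^ (k * a : ℝ) := by
        rw [Real.mul_rpow hC (by positivity), ← Real.rpow_natCast, ← Real.rpow_mul hl0]
    _ ≤ C ^ a * lf i₀ ζ ^ ⌈k * a⌉₊ := by
        have h2 : lf i₀ ζ ^ (k * a : ℝ) ≤ lf i₀ ζ ^ ⌈k * a⌉₊ := by
          rw [← Real.rpow_natCast (lf i₀ ζ) ⌈k * a⌉₊]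
          exact Real.rpow_le_rpow_of_exponent_le hl (Nat.le_ceil _)
        exact mul_le_mul_of_nonneg_left h2 (Real.rpow_nonneg hC _)

lemma logB_mono (hv : LogB δ i₀ v) {c : ℝ} (hc : 0 ≤ c) (h : ∀ ζ ∈ PD δ i₀, u ζ ≤ c * v ζ) :
    LogB δ i₀ u := by
  rw [logB_iff] at hv ⊢
  intro δ' hδ'
  obtain ⟨C, k, hC, h1⟩ := hv δ' hδ'
  refine ⟨c * C, k, mul_nonneg hc hC, fun ζ hζ => (h ζ (PD_mono hδ'.le hζ)).trans ?_⟩
  rw [mul_assoc]
  exact mul_le_mul_of_nonneg_left (h1 ζ hζ) hc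

end logb

section pw

variable {m r : ℕ} {δ : ℝ} {i₀ : Option (Fin (m + r))}

lemma low_eq_some {j : Fin m} (h : low i₀ = some j) : i₀ = some (Fin.castAdd r j) := by
  unfold low at h
  rcases i₀ with _ | i
  · simp at h
  · simp only [Option.bind_some] at h
    split_ifs at h with h1
    have h2 := Option.some.inj h
    rw [← h2]
    rfl

lemma pw_mem (hδ : δ ≤ 1) {e : ℕ} (he : 0 < e) {ζ : Cn (m + r)} (hζ : ζ ∈ PD δ i₀) :
    pw e i₀ ζ ∈ PD δ (low i₀) := by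
  have hδ0 : 0 < δ := (norm_nonneg _).trans_lt hζ.1
  refine ⟨?_, fun j hj => ?_⟩
  · rw [pi_norm_lt_iff hδ0]
    intro j
    have h1 : ‖ζ (Fin.castAdd r j)‖ < δ := (norm_le_pi_norm ζ _).trans_lt hζ.1
    unfold pw
    split_ifs with h
    · rw [norm_pow]
      exact (pow_le_of_le_one (norm_nonneg _) (h1.le.trans hδ) he.ne').trans_lt h1
    · exact h1
  · unfold pw
    rw [if_pos hj]
    exact pow_ne_zero _ (hζ.2 _ (low_eq_some hj))

lemma lf_pw_le {e : ℕ} (he : 0 < e) (ζ : Cn (m + r)) :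
    lf (low i₀) (pw e i₀ ζ) ≤ e * lf i₀ ζ := by
  have he1 : (1 : ℝ) ≤ e := by exact_mod_cast he
  have hl := one_le_lf (i₀ := i₀) ζ
  rcases hlow : (low i₀ : Option (Fin m)) with _ | j
  · have h1 : lf (none : Option (Fin m)) (pw e i₀ ζ) = 1 := by
      unfold lf tau
      simp
    rw [h1]
    nlinarith
  · have hi := low_eq_some hlow
    have h1 : lf (some j) (pw e i₀ ζ) = 1 + e * |Real.log ‖tau i₀ ζ‖| := by
      unfold lf
      have h2 : tau (some j) (pw e i₀ ζ) = tau i₀ ζ ^ e := by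
        unfold pw
        rw [hi]
        change (if low (some (Fin.castAdd r j)) = some j then _ else _) = _
        rw [← hi, if_pos hlow]
        simp only [hi]
        rfl
      rw [h2, norm_pow, Real.log_pow, abs_mul, Nat.abs_cast]
    rw [h1]
    unfold lf
    have := abs_nonneg (Real.log ‖tau i₀ ζ‖)
    nlinarith

lemma logB_pw (hδ : δ ≤ 1) {u : Cn m → ℝ} (hu : LogB δ (low i₀) u) {e : ℕ} (he : 0 < e) :
    LogB δ i₀ (fun ζ => u (pw e i₀ ζ)) := by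
  rw [logB_iff] at hu ⊢
  intro δ' hδ'
  obtain ⟨C, k, hC, h1⟩ := hu δ' hδ'
  refine ⟨C * e ^ k, k, by positivity, fun ζ hζ => ?_⟩
  refine (h1 _ (pw_mem (hδ'.le.trans hδ) he hζ)).trans ?_
  rw [mul_assoc, ← mul_pow]
  have h2 := lf_pw_le (i₀ := i₀) he ζ
  have h3 := one_le_lf (i₀ := (low i₀ : Option (Fin m))) (pw e i₀ ζ)
  have h4 : 0 ≤ lf (low i₀ : Option (Fin m)) (pw e i₀ ζ) := by linarith
  gcongr

end pw

/-! ### Jacobians of charts -/

section ac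

variable {K : Type} [Field K] [Algebra ℂ K] {n : ℕ} {M : Mdl K n} {δ : ℝ} {i₀ : Option (Fin n)}

lemma ac_diff (X : AC M δ i₀) {ζ : Cn n} (hζ : ζ ∈ PD δ i₀) :
    DifferentiableAt ℂ (fun ζ => M.pz (X.s ζ)) ζ := by
  rw [differentiableAt_pi]
  intro i
  exact (X.anal (M.z i) ζ hζ).differentiableAt

end ac

section rel

variable {L K : Type} [Field L] [Field K] [Algebra ℂ L] [Algebra ℂ K] [Algebra L K]
  [IsScalarTower ℂ L K] {m r : ℕ} {ML : Mdl L m} {MK : Mdl K (m + r)}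

lemma rel_pz (H : Rel ML MK) (y : MK.Pts) : bs (MK.pz y) = ML.pz (H.f y) := by
  funext i
  change y (MK.z (Fin.castAdd r i)) = y (H.incl (ML.z i))
  congr 1
  exact Subtype.ext (H.coord i)

end rel

section tower

variable {T L K : Type} [Field T] [Field L] [Field K] [Algebra ℂ T] [Algebra ℂ L] [Algebra ℂ K]
  [Algebra T L] [Algebra L K] [IsScalarTower ℂ T L] [IsScalarTower ℂ L K] {ρ a r : ℕ}
  {MT : Mdl T ρ} {ML : Mdl L (ρ + a)} {MK : Mdl K (ρ + a + r)} {H₁ : Rel MT ML} {H₂ : Rel ML MK}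
  {R : ValuationSubring K} (Y : TChart H₁ H₂ R)

theorem J_L {η : Cn (ρ + a)} (hη : η ∈ PD Y.δ (low (some Y.i₀))) :
    Y.cL.J η = Y.jN η * Y.jG η := by
  set F : Cn (ρ + a) → Cn (ρ + a) := fun η => ML.pz (Y.cL.s η) with hF
  have hFd := ac_diff Y.cL hη
  have hcat : HasFDerivAt (fun x : Cn ρ => cat x (fb η)) (inl ρ a) (bs η) := by
    have h : (fun x : Cn ρ => cat x (fb η)) = fun x => inl ρ a x + inr ρ a (fb η) := by
      funext x; exact BR_590.cat_eq x _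
    rw [h]
    exact (inl ρ a).hasFDerivAt.add_const _
  have hG : DifferentiableAt ℂ (fun x : Cn ρ => bs (F (cat x (fb η)))) (bs η) := by
    have h1 : DifferentiableAt ℂ F (cat (bs η) (fb η)) := by rw [cat_bs_fb]; exact hFd
    exact (bsL ρ a).differentiableAt.comp (bs η) (h1.comp (bs η) hcat.differentiableAt)
  refine det_tri hFd hG ?_
  have hopen := (isOpen_PD (δ := Y.δ) (i₀ := low (some Y.i₀))).mem_nhds hη
  have hc : Tendsto (fun ζ : Cn (ρ + a) => cat (bs ζ) (fb η)) (𝓝 η) (𝓝 η) := by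
    have h1 : ContinuousAt (fun ζ : Cn (ρ + a) => cat (bs ζ) (fb η)) η := by
      have h2 : ContinuousAt (fun x : Cn ρ => cat x (fb η)) (bs η) := hcat.continuousAt
      exact ContinuousAt.comp (g := fun x : Cn ρ => cat x (fb η)) h2 (bsL ρ a).continuous.continuousAt
    have h3 : (fun ζ : Cn (ρ + a) => cat (bs ζ) (fb η)) η = η := cat_bs_fb η
    unfold ContinuousAt at h1
    rwa [h3] at h1
  filter_upwards [hopen, hc hopen] with ζ h1 h2
  have e1 : bs (F ζ) = MT.pz (Y.cT.s (pw Y.e₂ (low (some Y.i₀)) ζ)) := by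
    rw [hF]
    simp only
    rw [rel_pz H₁, Y.compT ζ h1]
  have e2 : bs (F (cat (bs ζ) (fb η))) =
      MT.pz (Y.cT.s (pw Y.e₂ (low (some Y.i₀)) (cat (bs ζ) (fb η)))) := by
    rw [hF]
    simp only
    rw [rel_pz H₁, Y.compT _ h2]
  refine e1.trans (Eq.trans ?_ e2.symm)
  rw [pw_eq, pw_eq, bs_cat]

theorem J_K {ζ : Cn (ρ + a + r)} (hζ : ζ ∈ PD Y.δ (some Y.i₀)) :
    Y.cK.J ζ = Y.cL.J (Y.π ζ) *
      (fderiv ℂ (pwB Y.e₁ (low (some Y.i₀))) (bs ζ)).det * Y.jF ζ := by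
  set F : Cn (ρ + a + r) → Cn (ρ + a + r) := fun ζ => MK.pz (Y.cK.s ζ) with hF
  have hFd := ac_diff Y.cK hζ
  have hπ : pw Y.e₁ (some Y.i₀) ζ ∈ PD Y.δ (low (some Y.i₀)) := pw_mem Y.δ_lt.le Y.e₁_pos hζ
  have hA : DifferentiableAt ℂ (fun η => ML.pz (Y.cL.s η)) (pwB Y.e₁ (low (some Y.i₀)) (bs ζ)) :=
    ac_diff Y.cL hπ
  have hp := hasFDerivAt_pwB Y.e₁ (low (some Y.i₀) : Option (Fin (ρ + a))) (bs ζ)
  have hcomp := hA.hasFDerivAt.comp (bs ζ) hp.differentiableAt.hasFDerivAt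
  have hG : DifferentiableAt ℂ ((fun η => ML.pz (Y.cL.s η)) ∘ pwB Y.e₁ (low (some Y.i₀)))
      (bs ζ) := hcomp.differentiableAt
  have h1 := det_tri (F := F) hFd hG (by
    have hopen := (isOpen_PD (δ := Y.δ) (i₀ := some Y.i₀)).mem_nhds hζ
    filter_upwards [hopen] with ζ' h1
    rw [hF]
    simp only
    rw [rel_pz H₂, Y.compL ζ' h1]
    rfl)
  have h2 : (fderiv ℂ ((fun η => ML.pz (Y.cL.s η)) ∘ pwB Y.e₁ (low (some Y.i₀))) (bs ζ)).det =
      Y.cL.J (Y.π ζ) * (fderiv ℂ (pwB Y.e₁ (low (some Y.i₀))) (bs ζ)).det := by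
    rw [hcomp.fderiv]
    exact LinearMap.det_comp _ _
  rw [h2] at h1
  exact h1

theorem norm_J_K_le {ζ : Cn (ρ + a + r)} (hζ : ζ ∈ PD Y.δ (some Y.i₀)) :
    ‖Y.cK.J ζ‖ ≤ Y.e₁ * (‖Y.cL.J (Y.π ζ)‖ * ‖Y.jF ζ‖) := by
  rw [J_K Y hζ, norm_mul, norm_mul]
  have h1 : ‖bs ζ‖ < 1 := (BR_590.norm_bs_le ζ).trans_lt (hζ.1.trans Y.δ_lt)
  have h2 := det_pwB_le Y.e₁ (low (some Y.i₀) : Option (Fin (ρ + a))) (bs ζ) Y.e₁_pos h1
  calc ‖Y.cL.J (Y.π ζ)‖ * ‖(fderiv ℂ (pwB Y.e₁ (low (some Y.i₀))) (bs ζ)).det‖ * ‖Y.jF ζ‖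
      ≤ ‖Y.cL.J (Y.π ζ)‖ * Y.e₁ * ‖Y.jF ζ‖ := by gcongr
    _ = _ := by ring

end tower

end Crest.Agent.R276.EndC_723
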