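import Crest.Agent.R276.SkelDefs_220

/-!
# Row 276, W2 (helper748): frozen statements of the pieces of (C2)

`b₂` := usc hull of `z ↦ sup {|s z|² : s holomorphic on the slice {t = t(z)}, nW s ≤ 1}`.
-/

set_option autoImplicit false

open Set Filter Topology MeasureTheory
open scoped ENNReal

noncomputable section

namespace Crest.Agent.R276.W2Defs_748

open Crest.Agent.R271 Crest.Agent.R271.Defs710 Crest.Agent.R271.Rd692 Crest.Agent.R271.Ho51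
open Crest.Agent.R276.Mod1_987 Crest.Agent.R276.FKDefs_779 Crest.Agent.R276.BC_986
open Crest.Agent.R276.EngU_29 (LPsh)
open Crest.Agent.R276.BetaDefs_231 Crest.Agent.R276.SkelDefs_220

section one

variable {L : Type} [Field L] [Algebra ℂ L] {ρ a : ℕ} (ML : Mdl L (ρ + a)) {e : ℕ}
  (w : Fin (e + 1) → ML.B) (e₀ : ℕ)

/-- squared norm of `s` on the slice `{t = c}` with weight `W^{-(e₀-1)/e₀}` -/
def nW (c : Cn ρ) (s : ML.Pts → ℂ) : ℝ≥0∞ :=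
  sint ML (eL ρ a) c
    (fun z => ‖s z‖ₑ ^ 2 * ENNReal.ofReal (Wf w z) ^ (-(((e₀ : ℝ) - 1) / e₀)))

/-- `s` is in the unit ball of the slice through `z` -/
def InBall (z : ML.Pts) (s : ML.Pts → ℂ) : Prop :=
  HolS ML (eL ρ a) (tc ML (eL ρ a) z) s ∧ nW ML w e₀ (tc ML (eL ρ a) z) s ≤ 1

/-- (W2-PG) polynomial growth [505] -/
def PgStmt : Prop :=
  ∃ (C : ℝ) (j k : ℕ), ∀ (z : ML.Pts) (s : ML.Pts → ℂ), InBall ML w e₀ z s →
    ‖s z‖ ^ 2 * ‖MvPolynomial.eval (ML.pz z) ML.h‖ ^ j ≤ C * (1 + ∑ i, ‖ML.pz z i‖ ^ 2) ^ k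

end one

section tower

variable {T L K : Type} [Field T] [Field L] [Field K] [Algebra ℂ T] [Algebra ℂ L] [Algebra ℂ K]
  [Algebra T L] [Algebra L K] [IsScalarTower ℂ T L] [IsScalarTower ℂ L K] {ρ a r : ℕ}
  {MT : Mdl T ρ} {ML : Mdl L (ρ + a)} {MK : Mdl K (ρ + a + r)}

/-- the `w_j` are regular as `e₀`-canonical forms at `R ∩ L` -/
def RegW (_H₁ : Rel MT ML) (_H₂ : Rel ML MK) {e : ℕ} (w : Fin (e + 1) → ML.B) (e₀ : ℕ)
    (R : ValuationSubring K) : Prop :=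
  ∀ (b : Module.Basis (Fin (ρ + a)) L (Ω[L⁄ℂ])),
    (∀ j, b j = KaehlerDifferential.D ℂ L (ML.z j)) →
      ∀ j, RegAt ℂ (R.comap (algebraMap L K)) b e₀ (w j : L)

/-- (W2-BD) bound in the frame of a good tower chart [155] -/
def BdStmt (H₁ : Rel MT ML) (H₂ : Rel ML MK) {e : ℕ} (w : Fin (e + 1) → ML.B) (e₀ : ℕ)
    (R : ValuationSubring K) : Prop :=
  ∃ (F : Finset K) (FL : Finset L), (∀ f ∈ F, f ≠ 0) ∧ (∀ f ∈ FL, f ≠ 0) ∧
    ∀ Y : TChart H₁ H₂ R, Y.Dict → Y.Good F → Y.GoodL FL →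
      ∀ δ' < Y.δ, ∃ C : ℝ, ∀ η ∈ PD δ' (low (some Y.i₀)), ∀ s : ML.Pts → ℂ,
        InBall ML w e₀ (Y.cL.s η) s →
          ‖s (Y.cL.s η)‖ ^ 2 * ‖Y.jG η‖ ^ 2 * ‖Y.cL.J η‖ ^ (2 * (e₀ - 1)) ≤ C

end tower

end Crest.Agent.R276.W2Defs_748
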