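import Mathlib
import Crest.Agent.R276.W2Defs_748
import Crest.Agent.R276.W2pg_505
import Crest.Agent.R276.WPack_505
import Crest.Agent.R276.C1bdB_986
import Crest.Agent.R276.BcqF_828
import Crest.Agent.R271.Montel_868

/-!
# R276, leaf W2-BD (helper505): bound of the Bergman kernel of the slices in the frame of a chart

`bdw : BdStmt H₁ H₂ w e₀ R` (W2Defs_748): for `s` in the unit ball of the slice through `s η`:
`|s|² |jG|² |J_L|^{2(e₀-1)} ≤ C`.
Reusable: `leaf_ge` (`∫_leaf g |jL|² ≤ sint`), `submean_hyp` (`L²` mean value inequality across a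
hypersurface), `exists_basis_mdl` (`dz` is a basis of `Ω[K⁄ℂ]` for every model).
-/

set_option autoImplicit false

open Set Filter Topology MeasureTheory Metric
open scoped ENNReal

noncomputable section

namespace Crest.Agent.R276.W2bd_505

open Crest.Agent.R271 Crest.Agent.R271.Rd692 Crest.Agent.R271.Ho51
open Crest.Agent.R271.Defs710 hiding glue
open Crest.Agent.R276.Mod1_987 Crest.Agent.R276.FKDefs_779 Crest.Agent.R276.SkelDefs_220
open Crest.Agent.R276.W2Defs_748 Crest.Agent.R276.AcOpen_89 Crest.Agent.R276.BR_590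
open Crest.Agent.R276.C1bd_986

/-! ### general lemmas -/

/-- the differentials of the coordinates of a model are a basis -/
theorem exists_basis_mdl {K : Type} [Field K] [Algebra ℂ K] {n : ℕ} (M : Mdl K n) :
    ∃ b : Module.Basis (Fin n) K (Ω[K⁄ℂ]), ∀ j, b j = KaehlerDifferential.D ℂ K (M.z j) := by
  have := M.frac
  have h1 : Algebra.IsAlgebraic M.B K := IsLocalization.isAlgebraic K (nonZeroDivisors M.B)
  exact Bcq_828.exists_basis_B (K := K) (B := M.B) (IsFractionRing.injective M.B K) M.z M.het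

/-- hyperplanes are null sets -/
theorem null_hyp {r : ℕ} (j : Fin r) : volume {x : Cn r | x j = 0} = 0 := by
  set l : Cn r →ₗ[ℝ] ℂ := LinearMap.proj (R := ℝ) (φ := fun _ : Fin r => ℂ) j with hl
  have h1 : {x : Cn r | x j = 0} = (LinearMap.ker l : Set (Cn r)) := by
    ext x
    simp [hl]
  rw [h1]
  refine Measure.addHaar_submodule volume (LinearMap.ker l) fun h => ?_
  have h2 : (fun _ => (1 : ℂ) : Cn r) ∈ LinearMap.ker l := by rw [h]; trivial
  rw [LinearMap.mem_ker] at h2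
  simp [hl] at h2

/-- `L²` mean value inequality across a hypersurface -/
theorem submean_hyp {n : ℕ} {F D : Cn n → ℂ} {x₀ : Cn n} {r : ℝ} (hr : 0 < r)
    (hD : AnalyticOnNhd ℂ D (ball x₀ r)) (hnull : volume {x | D x = 0} = 0)
    (hF : DifferentiableOn ℂ F (ball x₀ r ∩ {z | D z ≠ 0})) (hx₀ : D x₀ ≠ 0) {I : ℝ≥0∞}
    (hI : I ≠ ∞) (hfin : ∫⁻ z in ball x₀ r ∩ {z | D z ≠ 0}, ‖F z‖ₑ ^ 2 ≤ I) :
    ‖F x₀‖ₑ ^ 2 * volume (ball (0 : Cn n) r) ≤ I := by
  have hne : ∀ a ∈ ball x₀ r, ¬ (∀ᶠ z in 𝓝 a, D z = 0) := by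
    intro a _ h
    exact (Measure.measure_pos_of_mem_nhds (volume : Measure (Cn n)) h).ne' hnull
  obtain ⟨g, hg, hgF⟩ := RExt747.riemann_ext isOpen_ball hD hne hF (fun a ha =>
    ⟨ball x₀ r, isOpen_ball.mem_nhds ha, lt_of_le_of_lt hfin hI.lt_top⟩)
  have h1 := Montel868.enorm_sq_mul_le hr hg
  rw [hgF x₀ (mem_ball_self hr) hx₀] at h1
  refine h1.trans (le_trans ?_ hfin)
  have hae : ∀ᵐ z : Cn n, D z ≠ 0 := by
    rw [ae_iff]
    simpa using hnull
  have hset : (ball x₀ r ∩ {z | D z ≠ 0} : Set (Cn n)) =ᵐ[volume] (ball x₀ r : Set (Cn n)) := by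
    filter_upwards [hae] with z hz
    apply propext
    constructor
    · intro h
      exact h.1
    · intro h
      exact ⟨h, hz⟩
  rw [← setLIntegral_congr hset]
  have hopen : IsOpen (ball x₀ r ∩ {z | D z ≠ 0}) :=
    hD.continuousOn.isOpen_inter_preimage isOpen_ball isOpen_ne
  refine (setLIntegral_congr_fun hopen.measurableSet fun z hz => ?_).le
  rw [hgF z hz.1 hz.2]

/-! ### leaves of charts of `M_L` -/

section leaf

variable {L : Type} [Field L] [Algebra ℂ L] {ρ a : ℕ} {ML : Mdl L (ρ + a)} {δ : ℝ}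
  {i₀ : Option (Fin (ρ + a))}

theorem xc_eL (y : ML.Pts) : xc ML (eL ρ a) y = fc y := by
  funext j
  simp [xc, fc, eL]

/-- integrals over the slice dominate integrals over the leaves of charts -/
theorem leaf_ge (X : AC ML δ i₀) {b c : Cn ρ}
    (hz : ∀ x ∈ Lf δ i₀ b, tc ML (eL ρ a) (X.s (cat b x)) = c) (g : ML.Pts → ℝ≥0∞) :
    ∫⁻ x in Lf δ i₀ b, g (X.s (cat b x)) * ‖jL X (cat b x)‖ₑ ^ 2 ≤ sint ML (eL ρ a) c g := by
  classical
  set Ω : Set (Cn a) := Lf δ i₀ b ∩ {x | jL X (cat b x) ≠ 0} with hΩ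
  have hcont : ContinuousOn (fun x => jL X (cat b x)) (Lf δ i₀ b) := fun x hx =>
    (analyticAt_jL_cat X hx).continuousAt.continuousWithinAt
  have hΩo : IsOpen Ω := hcont.isOpen_inter_preimage (isOpen_Lf b) isOpen_ne
  set F : Set ML.Pts := {y | tc ML (eL ρ a) y = c} with hF
  have hinj : InjOn (fun x => X.s (cat b x)) Ω := by
    intro x hx y hy hxy
    have h1 := X.inj hx.1 hy.1 hxy
    have h2 := congrArg fb h1
    simpa using h2
  have h1 := fibre_ge (E := Cn a) volume (M := ML.Pts) (fun y => fc y) Ω hΩo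
    (fun x => X.s (cat b x)) hinj (fun x => fderiv ℂ (Xb X b) x)
    (fun x hx => (analyticAt_Xb X hx.1).hasStrictFDerivAt)
    (fun x hx => by
      rw [← jL_cat]
      exact hx.2) (F.indicator g)
  have h2 : ∫⁻ x in Lf δ i₀ b, g (X.s (cat b x)) * ‖jL X (cat b x)‖ₑ ^ 2 =
      ∫⁻ x in Ω, (F.indicator g) (X.s (cat b x)) *
        ENNReal.ofReal (‖(fderiv ℂ (Xb X b) x).det‖ ^ 2) := by
    have h3 : ∫⁻ x in Lf δ i₀ b, g (X.s (cat b x)) * ‖jL X (cat b x)‖ₑ ^ 2 =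
        ∫⁻ x in Lf δ i₀ b, Ω.indicator
          (fun x => g (X.s (cat b x)) * ‖jL X (cat b x)‖ₑ ^ 2) x := by
      refine setLIntegral_congr_fun (isOpen_Lf b).measurableSet fun x hx => ?_
      by_cases h : jL X (cat b x) = 0
      · have h4 : x ∉ Ω := fun h' => h'.2 h
        simp only [indicator_of_notMem h4]
        rw [h]
        simp
      · have h4 : x ∈ Ω := ⟨hx, h⟩
        simp only [indicator_of_mem h4]
    rw [h3, lintegral_indicator hΩo.measurableSet, Measure.restrict_restrict hΩo.measurableSet,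
      inter_eq_left.2 (inter_subset_left)]
    refine setLIntegral_congr_fun hΩo.measurableSet fun x hx => ?_
    have h5 : X.s (cat b x) ∈ F := hz x hx.1
    simp only [indicator_of_mem h5]
    rw [← jL_cat, ← ofReal_norm, ENNReal.ofReal_pow (norm_nonneg _)]
  rw [h2]
  refine h1.trans (le_of_eq ?_)
  unfold sint
  refine lintegral_congr fun x => ?_
  have e1 := tsum_subtype {y : ML.Pts | fc y = x} (F.indicator g)
  have e2 := tsum_subtype {y : ML.Pts | tc ML (eL ρ a) y = c ∧ xc ML (eL ρ a) y = x} g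
  refine e1.trans (Eq.trans ?_ e2.symm)
  refine tsum_congr fun y => ?_
  by_cases ha : fc y = x
  · rw [indicator_of_mem (show y ∈ {y : ML.Pts | fc y = x} from ha)]
    by_cases hb : y ∈ F
    · rw [indicator_of_mem hb, indicator_of_mem]
      exact ⟨hb, (xc_eL y).trans ha⟩
    · rw [indicator_of_notMem hb, indicator_of_notMem]
      exact fun h => hb h.1
  · rw [indicator_of_notMem (show y ∉ {y : ML.Pts | fc y = x} from ha),
      indicator_of_notMem]
    exact fun h => ha ((xc_eL y).symm.trans h.2)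

/-- functions holomorphic on the slice are analytic on the leaves of charts -/
theorem holS_leaf (X : AC ML δ i₀) {b c : Cn ρ}
    (hz : ∀ x ∈ Lf δ i₀ b, tc ML (eL ρ a) (X.s (cat b x)) = c) {s : ML.Pts → ℂ}
    (hs : HolS ML (eL ρ a) c s) {x : Cn a} (hx : x ∈ Lf δ i₀ b) :
    AnalyticAt ℂ (fun x => s (X.s (cat b x))) x := by
  have h1 := hs (X.s (cat b x)) (hz x hx)
  have h2 : AnalyticAt ℂ (Xb X b) x := analyticAt_Xb X hx
  rw [xc_eL] at h1
  have h3 := AnalyticAt.comp (g := fun x' : Cn a => s ((ch (X.s (cat b x))).symm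
    (SkelDefs_220.glue (eL ρ a) c x'))) (f := Xb X b) h1 h2
  refine h3.congr ?_
  have h5 : Tendsto (fun x' : Cn a => cat b x') (𝓝 x) (𝓝 (cat b x)) :=
    (continuous_cat b).continuousAt
  filter_upwards [h5.eventually (eventually_ch X hx), (isOpen_Lf b).mem_nhds hx] with x' h6 h7
  show s ((ch (X.s (cat b x))).symm (SkelDefs_220.glue (eL ρ a) c (Xb X b x'))) = _
  have h8 : SkelDefs_220.glue (eL ρ a) c (Xb X b x') = ML.pz (X.s (cat b x')) := by
    rw [W2pg_505.eq_glue (e := eL ρ a) (X.s (cat b x')), hz x' h7, xc_eL]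
    rfl
  rw [h8, ← h6]

end leaf

/-! ### the frame -/

/-- `W |J|^{2e₀} ≤ C` gives `|J|^{2(e₀-1)} ≤ C^α W^{-α}`, `α = (e₀-1)/e₀` -/
theorem frame_le {e₀ : ℕ} (he : 0 < e₀) {W J C : ℝ≥0∞} (hC0 : C ≠ 0) (hCt : C ≠ ∞) (hWt : W ≠ ∞)
    (h : W * J ^ (2 * e₀) ≤ C) :
    J ^ (2 * (e₀ - 1)) ≤ C ^ (((e₀ : ℝ) - 1) / e₀) * W ^ (-(((e₀ : ℝ) - 1) / e₀)) := by
  have he1 : (1 : ℝ) ≤ e₀ := by exact_mod_cast he
  set α : ℝ := ((e₀ : ℝ) - 1) / e₀ with hα
  have hα0 : 0 ≤ α := div_nonneg (by linarith) (by linarith)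
  have h1 : W ^ α * J ^ (2 * (e₀ - 1)) ≤ C ^ α := by
    have h2 := ENNReal.rpow_le_rpow h hα0
    rw [ENNReal.mul_rpow_of_nonneg _ _ hα0, ← ENNReal.rpow_natCast J (2 * e₀),
      ← ENNReal.rpow_mul] at h2
    have h3 : ((2 * e₀ : ℕ) : ℝ) * α = ((2 * (e₀ - 1) : ℕ) : ℝ) := by
      rw [hα]
      push_cast [Nat.cast_sub he]
      field_simp
    rw [h3, ENNReal.rpow_natCast] at h2
    exact h2
  have hCα0 : C ^ α ≠ 0 := (ENNReal.rpow_pos (pos_iff_ne_zero.2 hC0) hCt).ne'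
  rw [ENNReal.rpow_neg]
  rcases eq_or_ne (W ^ α) 0 with h0 | h0
  · rw [h0, ENNReal.inv_zero, ENNReal.mul_top hCα0]
    exact le_top
  have hWα : W ^ α ≠ ∞ := ENNReal.rpow_ne_top_of_nonneg hα0 hWt
  calc J ^ (2 * (e₀ - 1)) = (W ^ α * (W ^ α)⁻¹) * J ^ (2 * (e₀ - 1)) := by
        rw [ENNReal.mul_inv_cancel h0 hWα, one_mul]
    _ = (W ^ α * J ^ (2 * (e₀ - 1))) * (W ^ α)⁻¹ := by ring
    _ ≤ C ^ α * (W ^ α)⁻¹ := by gcongr

section main

variable {T L K : Type} [Field T] [Field L] [Field K] [Algebra ℂ T] [Algebra ℂ L] [Algebra ℂ K]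
  [Algebra T L] [Algebra L K] [IsScalarTower ℂ T L] [IsScalarTower ℂ L K] {ρ a r : ℕ}
  {MT : Mdl T ρ} {ML : Mdl L (ρ + a)} {MK : Mdl K (ρ + a + r)}
  {H₁ : Rel MT ML} {H₂ : Rel ML MK}

theorem tc_f (H₁ : Rel MT ML) (y : ML.Pts) : tc ML (eL ρ a) y = MT.pz (H₁.f y) := by
  funext i
  rw [pz_f]
  simp [tc, eL]

/-- frame bound of `W` on smaller polydiscs -/
theorem w_bound {e e₀ : ℕ} {w : Fin (e + 1) → ML.B} {R : ValuationSubring K}
    (hreg : RegW H₁ H₂ w e₀ R) (Y : TChart H₁ H₂ R) (hD : Y.Dict)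
    (hGL : ∀ j, (w j : L) ≠ 0 → ∃ k, Y.cL.Ord (w j : L) k) {δ' : ℝ} (hδ' : δ' < Y.δ) :
    ∃ C : ℝ, 1 ≤ C ∧ ∀ η ∈ PD δ' (low (some Y.i₀)),
      Wf w (Y.cL.s η) * ‖Y.cL.J η‖ ^ (2 * e₀) ≤ C := by
  obtain ⟨b, hb⟩ := exists_basis_mdl ML
  have key : ∀ j, ∃ C : ℝ, ∀ η ∈ PD δ' (low (some Y.i₀)),
      ‖Y.cL.s η (w j)‖ ^ 2 * ‖Y.cL.J η‖ ^ (2 * e₀) ≤ C := by
    intro j
    by_cases h0 : (w j : L) = 0
    · refine ⟨0, fun η _ => ?_⟩
      have : w j = 0 := Subtype.ext h0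
      rw [this, map_zero]
      simp
    · obtain ⟨k, hk⟩ := hGL j h0
      obtain ⟨C, hC⟩ := WPack_505.form_bound Y hD hb (hreg b hb j) hk hδ'
      refine ⟨C ^ 2, fun η hη => ?_⟩
      have h1 := hC η hη
      calc ‖Y.cL.s η (w j)‖ ^ 2 * ‖Y.cL.J η‖ ^ (2 * e₀) =
            (‖Y.cL.s η (w j)‖ * ‖Y.cL.J η‖ ^ e₀) ^ 2 := by ring
        _ ≤ C ^ 2 := by gcongr
  choose C hC using key
  refine ⟨max 1 (∑ j, C j), le_max_left _ _, fun η hη => ?_⟩
  show (∑ j, ‖Y.cL.s η (w j)‖ ^ 2) * ‖Y.cL.J η‖ ^ (2 * e₀) ≤ _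
  rw [Finset.sum_mul]
  exact (Finset.sum_le_sum fun j _ => hC j η hη).trans (le_max_right _ _)

/-- the first coordinates are constant on the leaves -/
theorem tc_leaf {R : ValuationSubring K} (Y : TChart H₁ H₂ R) {η : Cn (ρ + a)}
    (hη : η ∈ PD Y.δ (low (some Y.i₀))) :
    ∀ x ∈ Lf Y.δ (low (some Y.i₀)) (bs η),
      tc ML (eL ρ a) (Y.cL.s (cat (bs η) x)) = tc ML (eL ρ a) (Y.cL.s η) := by
  intro x hx
  rw [tc_f H₁, tc_f H₁, Y.compT _ hx, Y.compT _ hη]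
  congr 2
  funext j
  unfold pw
  rw [cat_castAdd]
  rfl

/-- **(W2-BD)** -/
theorem bdw {e e₀ : ℕ} {w : Fin (e + 1) → ML.B} (he : 0 < e₀) {R : ValuationSubring K}
    (hreg : RegW H₁ H₂ w e₀ R) : BdStmt H₁ H₂ w e₀ R := by
  classical
  refine ⟨∅, (Finset.univ.image fun j => (w j : L)).filter (· ≠ 0), by simp, fun f hf =>
    (Finset.mem_filter.1 hf).2, fun Y hD _ hGL δ' hδ' => ?_⟩
  have hGL' : ∀ j, (w j : L) ≠ 0 → ∃ k, Y.cL.Ord (w j : L) k := fun j hj =>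
    hGL (w j : L) (Finset.mem_filter.2 ⟨Finset.mem_image.2 ⟨j, Finset.mem_univ j, rfl⟩, hj⟩)
  set i₁ : Option (Fin (ρ + a)) := low (some Y.i₀) with hi₁
  set α : ℝ := ((e₀ : ℝ) - 1) / e₀ with hα
  have he1 : (1 : ℝ) ≤ e₀ := by exact_mod_cast he
  have hα0 : 0 ≤ α := div_nonneg (by linarith) (by linarith)
  obtain ⟨C₁, hC₁, hW⟩ := w_bound hreg Y hD hGL' (δ' := (δ' + Y.δ) / 2) (by linarith)
  set q : ℝ := (Y.δ - δ') / 2 with hq
  have hq0 : 0 < q := by rw [hq]; linarith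
  set V : ℝ≥0∞ := volume (ball (0 : Cn a) q) with hV
  have hV0 : V ≠ 0 := (measure_ball_pos volume _ hq0).ne'
  have hVt : V ≠ ∞ := measure_ball_lt_top.ne
  have hCe0 : ENNReal.ofReal C₁ ≠ 0 := (ENNReal.ofReal_pos.2 (by linarith)).ne'
  have hCt : ENNReal.ofReal C₁ ^ α ≠ ∞ := ENNReal.rpow_ne_top_of_nonneg hα0 ENNReal.ofReal_ne_top
  refine ⟨(ENNReal.ofReal C₁ ^ α / V).toReal, fun η hη s hs => ?_⟩
  set X := Y.cL with hX
  have hη' : η ∈ PD Y.δ i₁ := PD_mono hδ'.le i₁ hη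
  have hδ0 : 0 < δ' := lt_of_le_of_lt (norm_nonneg η) hη.1
  set b : Cn ρ := bs η with hb
  set x₀ : Cn a := fb η with hx₀
  have hcat : cat b x₀ = η := cat_bs_fb η
  set D : Cn a → ℂ := fun x => tau i₁ (cat b x) with hD'
  -- points of the polydisc
  have hmem : ∀ x ∈ ball x₀ q ∩ {z | D z ≠ 0}, cat b x ∈ PD ((δ' + Y.δ) / 2) i₁ := by
    rintro x ⟨hx1, hx2⟩
    rw [PD_eq]
    refine ⟨?_, hx2⟩
    rw [mem_ball_zero_iff, norm_cat_lt (by linarith)]
    constructor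
    · exact lt_of_le_of_lt (norm_bs_le η) (by linarith [hη.1])
    · have h1 : ‖x - x₀‖ < q := by rwa [mem_ball, dist_eq_norm] at hx1
      have h2 : ‖x₀‖ < δ' := lt_of_le_of_lt (norm_fb_le η) hη.1
      have h3 : ‖x‖ ≤ ‖x - x₀‖ + ‖x₀‖ := by
        have := norm_add_le (x - x₀) x₀
        rwa [sub_add_cancel] at this
      have h4 : q + δ' = (δ' + Y.δ) / 2 := by rw [hq]; ring
      linarith
  have hLf : ball x₀ q ∩ {z | D z ≠ 0} ⊆ Lf Y.δ i₁ b := fun x hx =>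
    PD_mono (by linarith) i₁ (hmem x hx)
  have htc := tc_leaf Y hη'
  -- the function
  set F : Cn a → ℂ := fun x => s (X.s (cat b x)) * (jL X (cat b x) * X.J (cat b x) ^ (e₀ - 1))
    with hF
  have hFd : DifferentiableOn ℂ F (ball x₀ q ∩ {z | D z ≠ 0}) := by
    intro x hx
    have hx' := hLf hx
    have h1 := holS_leaf X htc hs.1 hx'
    have h2 := analyticAt_jL_cat X hx'
    have h3 : AnalyticAt ℂ (fun x => X.J (cat b x)) x :=
      AnalyticAt.comp (g := X.J) (f := fun x => cat b x) (analyticOnNhd_J X _ hx')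
        (analyticAt_cat b x)
    exact (h1.mul (h2.mul (h3.pow (e₀ - 1)))).differentiableAt.differentiableWithinAt
  have hDan : AnalyticOnNhd ℂ D (ball x₀ q) := by
    intro x _
    exact AnalyticAt.comp (g := tau i₁) (f := fun x => cat b x)
      (analyticOnNhd_tau i₁ univ (cat b x) (mem_univ _)) (analyticAt_cat b x)
  have hDx₀ : D x₀ ≠ 0 := by
    show tau i₁ (cat b x₀) ≠ 0
    rw [hcat]
    exact tau_ne hη'
  have hnull : volume {x | D x = 0} = 0 := by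
    rcases h : i₁ with _ | k
    · have : {x : Cn a | D x = 0} = ∅ := by
        ext x
        simp [hD', h, tau]
      rw [this]
      exact measure_empty
    · revert h
      refine Fin.addCases (fun i => ?_) (fun j => ?_) k
      · intro h
        have h1 : ∀ x, D x = D x₀ := by
          intro x
          simp only [hD', h, tau, cat_castAdd]
        have : {x : Cn a | D x = 0} = ∅ := by
          ext x
          simp only [mem_ofPred_eq, mem_empty_iff_false, iff_false]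
          rw [h1 x]
          exact hDx₀
        rw [this]
        exact measure_empty
      · intro h
        have : {x : Cn a | D x = 0} = {x : Cn a | x j = 0} := by
          ext x
          simp only [hD', h, tau, cat_natAdd, mem_ofPred_eq]
        rw [this]
        exact null_hyp j
  -- the integral
  have hint : ∫⁻ x in ball x₀ q ∩ {z | D z ≠ 0}, ‖F x‖ₑ ^ 2 ≤ ENNReal.ofReal C₁ ^ α := by
    set g : ML.Pts → ℝ≥0∞ := fun z => ‖s z‖ₑ ^ 2 * ENNReal.ofReal (Wf w z) ^ (-α) with hg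
    have hopen : IsOpen (ball x₀ q ∩ {z | D z ≠ 0}) :=
      hDan.continuousOn.isOpen_inter_preimage isOpen_ball isOpen_ne
    calc ∫⁻ x in ball x₀ q ∩ {z | D z ≠ 0}, ‖F x‖ₑ ^ 2
        ≤ ∫⁻ x in ball x₀ q ∩ {z | D z ≠ 0}, ENNReal.ofReal C₁ ^ α *
            (g (X.s (cat b x)) * ‖jL X (cat b x)‖ₑ ^ 2) := by
          refine setLIntegral_mono' hopen.measurableSet fun x hx => ?_
          have h1 := hW _ (hmem x hx)
          have h2 : ENNReal.ofReal (Wf w (X.s (cat b x))) * ‖X.J (cat b x)‖ₑ ^ (2 * e₀) ≤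
              ENNReal.ofReal C₁ := by
            rw [← ofReal_norm, ← ENNReal.ofReal_pow (norm_nonneg _),
              ← ENNReal.ofReal_mul (by unfold Wf; positivity)]
            exact ENNReal.ofReal_le_ofReal h1
          have h3 := frame_le he hCe0 ENNReal.ofReal_ne_top ENNReal.ofReal_ne_top h2
          have h4 : ‖F x‖ₑ ^ 2 = ‖s (X.s (cat b x))‖ₑ ^ 2 * ‖jL X (cat b x)‖ₑ ^ 2 *
              ‖X.J (cat b x)‖ₑ ^ (2 * (e₀ - 1)) := by
            simp only [hF, enorm_mul, enorm_pow]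
            ring
          rw [h4]
          calc ‖s (X.s (cat b x))‖ₑ ^ 2 * ‖jL X (cat b x)‖ₑ ^ 2 *
                ‖X.J (cat b x)‖ₑ ^ (2 * (e₀ - 1))
              ≤ ‖s (X.s (cat b x))‖ₑ ^ 2 * ‖jL X (cat b x)‖ₑ ^ 2 *
                (ENNReal.ofReal C₁ ^ α * ENNReal.ofReal (Wf w (X.s (cat b x))) ^ (-α)) := by
                gcongr
            _ = _ := by simp only [hg]; ring
      _ = ENNReal.ofReal C₁ ^ α * ∫⁻ x in ball x₀ q ∩ {z | D z ≠ 0},
            (g (X.s (cat b x)) * ‖jL X (cat b x)‖ₑ ^ 2) := lintegral_const_mul' _ _ hCt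
      _ ≤ ENNReal.ofReal C₁ ^ α * ∫⁻ x in Lf Y.δ i₁ b,
            (g (X.s (cat b x)) * ‖jL X (cat b x)‖ₑ ^ 2) := by
          gcongr
      _ ≤ ENNReal.ofReal C₁ ^ α * 1 := by
          gcongr
          exact (leaf_ge X htc g).trans hs.2
      _ = _ := mul_one _
  have hfin := submean_hyp hq0 hDan hnull hFd hDx₀ hCt hint
  have h5 : ‖F x₀‖ₑ ^ 2 ≤ ENNReal.ofReal C₁ ^ α / V :=
    (ENNReal.le_div_iff_mul_le (Or.inl hV0) (Or.inl hVt)).2 hfin
  have h6 := ENNReal.toReal_mono (ENNReal.div_ne_top hCt hV0) h5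
  rw [ENNReal.toReal_pow, toReal_enorm] at h6
  refine le_trans (le_of_eq ?_) h6
  show _ = ‖s (X.s (cat b x₀)) * (jL X (cat b x₀) * X.J (cat b x₀) ^ (e₀ - 1))‖ ^ 2
  rw [hcat, norm_mul, norm_mul, norm_pow]
  show _ = (‖s (X.s η)‖ * (‖Y.jG η‖ * ‖X.J η‖ ^ (e₀ - 1))) ^ 2
  ring

end main

end Crest.Agent.R276.W2bd_505
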