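import Mathlib
import Crest.Agent.R276.CntD_857
import Crest.Agent.R276.EndC1_723
import Crest.Agent.R276.AcOpen_89
import Crest.Agent.R276.C1bdF_986
import Crest.Agent.R276.W2bd_505

/-!
# R276, leaf C4-GLUE / DESC (helper327): from the boundary charts of `M_T` to the tower charts

* `logB_of_local`: a locally bounded function which is log-bounded near every point of `{τ = 0}` is
  log-bounded;
* `Trans`: comparison of the tower charts with the boundary charts of `M_T`;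
* `loc_bound`, `bdL_of_trans`.
-/

set_option autoImplicit false

noncomputable section

open Set Filter Topology MeasureTheory Metric

namespace Crest.Agent.R276.C4Loc_327

open Crest.Agent.R271 Crest.Agent.R271.Rd692 Crest.Agent.R271.Ho51
open Crest.Agent.R271.Defs710 hiding glue
open Crest.Agent.R276.Mod1_987 Crest.Agent.R276.FKDefs_779
open Crest.Agent.R276.CntDefs_857 Crest.Agent.R276.CntA_857
open Crest.Agent.R276.SkelDefs_220 hiding ModelOf

section logb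

variable {n : ℕ} {δ : ℝ} {i₀ : Option (Fin n)} {u : Cn n → ℝ}

/-- a locally bounded function which is log-bounded near the hyperplane is log-bounded -/
theorem logB_of_local
    (hc : ∀ ζ ∈ PD δ i₀, ∃ U ∈ 𝓝 ζ, ∃ C : ℝ, ∀ η ∈ U, η ∈ PD δ i₀ → u η ≤ C)
    (hl : ∀ ζ : Cn n, ‖ζ‖ < δ → tau i₀ ζ = 0 → ∃ U ∈ 𝓝 ζ, ∃ (C : ℝ) (k : ℕ), ∀ η ∈ U,
      η ∈ PD δ i₀ → u η ≤ C * (1 + |Real.log ‖tau i₀ η‖|) ^ k) :
    LogB δ i₀ u := by
  intro δ' hδ'
  have hK : IsCompact (closedBall (0 : Cn n) δ') := isCompact_closedBall _ _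
  have hmain : ∃ (C : ℝ) (k : ℕ), 0 ≤ C ∧ ∀ η ∈ closedBall (0 : Cn n) δ', η ∈ PD δ i₀ →
      u η ≤ C * (1 + |Real.log ‖tau i₀ η‖|) ^ k := by
    refine hK.induction_on (p := fun s => ∃ (C : ℝ) (k : ℕ), 0 ≤ C ∧ ∀ η ∈ s, η ∈ PD δ i₀ →
      u η ≤ C * (1 + |Real.log ‖tau i₀ η‖|) ^ k) ?_ ?_ ?_ ?_
    · exact ⟨0, 0, le_rfl, fun η hη => absurd hη (notMem_empty η)⟩
    · rintro s t hst ⟨C, k, hC, h⟩
      exact ⟨C, k, hC, fun η hη => h η (hst hη)⟩
    · rintro s t ⟨C, k, hC, h⟩ ⟨C', k', hC', h'⟩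
      refine ⟨C + C', max k k', by positivity, fun η hη hP => ?_⟩
      have h1 : (1 : ℝ) ≤ 1 + |Real.log ‖tau i₀ η‖| := le_add_of_nonneg_right (abs_nonneg _)
      have h2 := pow_le_pow_right₀ h1 (le_max_left k k')
      have h3 := pow_le_pow_right₀ h1 (le_max_right k k')
      have h0 : 0 ≤ (1 + |Real.log ‖tau i₀ η‖|) ^ (max k k') := by positivity
      rcases hη with hη | hη
      · calc u η ≤ C * (1 + |Real.log ‖tau i₀ η‖|) ^ k := h η hη hP
          _ ≤ C * (1 + |Real.log ‖tau i₀ η‖|) ^ (max k k') := mul_le_mul_of_nonneg_left h2 hC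
          _ ≤ _ := mul_le_mul_of_nonneg_right (by linarith) h0
      · calc u η ≤ C' * (1 + |Real.log ‖tau i₀ η‖|) ^ k' := h' η hη hP
          _ ≤ C' * (1 + |Real.log ‖tau i₀ η‖|) ^ (max k k') := mul_le_mul_of_nonneg_left h3 hC'
          _ ≤ _ := mul_le_mul_of_nonneg_right (by linarith) h0
    · intro ζ hζ
      have hζδ : ‖ζ‖ < δ := lt_of_le_of_lt (mem_closedBall_zero_iff.1 hζ) hδ'
      by_cases ht : tau i₀ ζ = 0
      · obtain ⟨U, hU, C, k, h⟩ := hl ζ hζδ ht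
        refine ⟨U, mem_nhdsWithin_of_mem_nhds hU, |C|, k, abs_nonneg C, fun η hη hP => ?_⟩
        exact (h η hη hP).trans (mul_le_mul_of_nonneg_right (le_abs_self C) (by positivity))
      · have hP : ζ ∈ PD δ i₀ := by
          refine ⟨hζδ, fun i hi h0 => ht ?_⟩
          rw [hi]
          exact h0
        obtain ⟨U, hU, C, h⟩ := hc ζ hP
        refine ⟨U, mem_nhdsWithin_of_mem_nhds hU, |C|, 0, abs_nonneg C, fun η hη hP => ?_⟩
        rw [pow_zero, mul_one]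
        exact (h η hη hP).trans (le_abs_self C)
  obtain ⟨C, k, -, h⟩ := hmain
  refine ⟨C, k, fun ζ hζ => h ζ (mem_closedBall_zero_iff.2 hζ.1.le) ⟨hζ.1.trans hδ', hζ.2⟩⟩

theorem locB_of_cont (h : ∀ ζ ∈ PD δ i₀, ContinuousAt u ζ) :
    ∀ ζ ∈ PD δ i₀, ∃ U ∈ 𝓝 ζ, ∃ C : ℝ, ∀ η ∈ U, η ∈ PD δ i₀ → u η ≤ C := by
  intro ζ hζ
  refine ⟨{η | u η < u ζ + 1}, (h ζ hζ).eventually_lt_const (by linarith), u ζ + 1,
    fun η hη _ => le_of_lt hη⟩

theorem isOpen_PD : IsOpen (PD δ i₀) := by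
  have h1 : PD δ i₀ = {ζ : Cn n | ‖ζ‖ < δ} ∩ {ζ | ∀ i, i₀ = some i → ζ i ≠ 0} := rfl
  rw [h1]
  refine (isOpen_lt continuous_norm continuous_const).inter ?_
  cases i₀ with
  | none =>
    have : {ζ : Cn n | ∀ i, (none : Option (Fin n)) = some i → ζ i ≠ 0} = univ := by
      ext ζ
      simp
    rw [this]
    exact isOpen_univ
  | some i =>
    have : {ζ : Cn n | ∀ j, (some i : Option (Fin n)) = some j → ζ j ≠ 0} = {ζ | ζ i ≠ 0} := by
      ext ζ
      simp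
    rw [this]
    exact isOpen_ne_fun (continuous_apply i) continuous_const

end logb

section chart

variable {T L K : Type} [Field T] [Field L] [Field K] [Algebra ℂ T] [Algebra ℂ L] [Algebra ℂ K]
  [Algebra T L] [Algebra L K] [IsScalarTower ℂ T L] [IsScalarTower ℂ L K] {ρ a r : ℕ}
  {MT : Mdl T ρ} {ML : Mdl L (ρ + a)} {MK : Mdl K (ρ + a + r)} {H₁ : Rel MT ML} {H₂ : Rel ML MK}
  {R : ValuationSubring K} (Y : TChart H₁ H₂ R)

open Crest.Agent.R276.BR_590 (cat bs fb cat_bs_fb inl inr det_eq_matrix inl_single)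

theorem jN_eq {η : Cn (ρ + a)} (hη : η ∈ PD Y.δ (low (some Y.i₀))) :
    Y.jN η = (Matrix.of fun k l : Fin ρ => fderiv ℂ (fun ζ => ML.pz (Y.cL.s ζ)) η
      (Pi.single (Fin.castAdd a l) 1) (Fin.castAdd a k)).det := by
  set F : Cn (ρ + a) → Cn (ρ + a) := fun η => ML.pz (Y.cL.s η) with hF
  have hFd := EndC_723.ac_diff Y.cL hη
  have hcat : HasFDerivAt (fun x : Cn ρ => cat x (fb η)) (inl ρ a) (bs η) := by
    have h : (fun x : Cn ρ => cat x (fb η)) = fun x => inl ρ a x + inr ρ a (fb η) := by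
      funext x; exact BR_590.cat_eq x _
    rw [h]
    exact (inl ρ a).hasFDerivAt.add_const _
  have h1 : HasFDerivAt F (fderiv ℂ F η) (cat (bs η) (fb η)) := by
    rw [cat_bs_fb]; exact hFd.hasFDerivAt
  have h2' : HasFDerivAt (fun x : Cn ρ => F (cat x (fb η)))
      ((fderiv ℂ F η).comp (inl ρ a)) (bs η) := HasFDerivAt.comp (g := F) (bs η) h1 hcat
  have h2 : HasFDerivAt (fun x : Cn ρ => bs (F (cat x (fb η))))
      ((EndC_723.bsL ρ a).comp ((fderiv ℂ F η).comp (inl ρ a))) (bs η) :=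
    (EndC_723.bsL ρ a).hasFDerivAt.comp (bs η) h2'
  change (fderiv ℂ (fun x : Cn ρ => bs (F (cat x (fb η)))) (bs η)).det = _
  rw [h2.fderiv, det_eq_matrix]
  congr 1
  ext k l
  simp only [Matrix.of_apply, ContinuousLinearMap.comp_apply, inl_single]
  rfl

theorem contAt_jN {η : Cn (ρ + a)} (hη : η ∈ PD Y.δ (low (some Y.i₀))) :
    ContinuousAt Y.jN η := by
  have h0 := (isOpen_PD (δ := Y.δ) (i₀ := low (some Y.i₀))).mem_nhds hη
  have h1 : Y.jN =ᶠ[𝓝 η] fun η => (Matrix.of fun k l : Fin ρ =>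
      fderiv ℂ (fun ζ => ML.pz (Y.cL.s ζ)) η (Pi.single (Fin.castAdd a l) 1)
        (Fin.castAdd a k)).det := by
    filter_upwards [h0] with ζ hζ using jN_eq Y hζ
  refine ContinuousAt.congr ?_ h1.symm
  have h2 : AnalyticAt ℂ (fderiv ℂ (fun ζ => ML.pz (Y.cL.s ζ))) η :=
    (AcOpen_89.analyticAt_pz Y.cL hη).fderiv
  have h3 : ∀ (v : Cn (ρ + a)) (k : Fin (ρ + a)), ContinuousAt (fun η =>
      fderiv ℂ (fun ζ => ML.pz (Y.cL.s ζ)) η v k) η := by
    intro v k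
    have h4 : ContinuousAt (fun η => fderiv ℂ (fun ζ => ML.pz (Y.cL.s ζ)) η v) η :=
      h2.continuousAt.clm_apply continuousAt_const
    exact continuousAt_pi.1 h4 k
  have h5 : ContinuousAt (fun η => (Matrix.of fun k l : Fin ρ =>
      fderiv ℂ (fun ζ => ML.pz (Y.cL.s ζ)) η (Pi.single (Fin.castAdd a l) 1)
        (Fin.castAdd a k))) η := by
    refine continuousAt_pi.2 fun k => continuousAt_pi.2 fun l => ?_
    exact h3 _ _
  exact (Continuous.matrix_det continuous_id).continuousAt.comp h5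

end chart

end Crest.Agent.R276.C4Loc_327
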