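import Mathlib
import Crest.Agent.R276.C4Loc_327

set_option autoImplicit false

noncomputable section

open Set Filter Topology MeasureTheory Metric

namespace Crest.Agent.R276.C4Loc_327

open Crest.Agent.R271 Crest.Agent.R271.Rd692 Crest.Agent.R271.Ho51
open Crest.Agent.R271.Defs710 hiding glue
open Crest.Agent.R276.Mod1_987 Crest.Agent.R276.FKDefs_779
open Crest.Agent.R276.CntDefs_857 Crest.Agent.R276.CntA_857
open Crest.Agent.R276.SkelDefs_220 hiding ModelOf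

section real

theorem frame_eq {n t : ℕ} (hn : 0 < n) (k : ℤ) {F J x ψ : ℝ} (hF : 0 ≤ F) (hJ : 0 ≤ J)
    (hx : 0 < x) :
    F ^ (2 / (n : ℝ)) * Real.exp (-(t * ψ)) * J ^ 2 =
      (F * J ^ n * x ^ (n * t * k : ℤ)) ^ (2 / (n : ℝ)) *
        Real.exp (-(ψ + k * Real.log (x ^ 2))) ^ t := by
  have hn' : (n : ℝ) ≠ 0 := by positivity
  have h1 : (J ^ n) ^ (2 / (n : ℝ)) = J ^ 2 := by
    rw [← Real.rpow_natCast, ← Real.rpow_mul hJ, mul_div_cancel₀ _ hn', Real.rpow_two]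
  have h2 : (x ^ (n * t * k : ℤ)) ^ (2 / (n : ℝ)) = Real.exp (2 * t * k * Real.log x) := by
    rw [← Real.rpow_intCast, ← Real.rpow_mul hx.le, Real.rpow_def_of_pos hx]
    congr 1
    push_cast
    field_simp
  have h3 : Real.exp (-(ψ + k * Real.log (x ^ 2))) ^ t =
      Real.exp (-(t * ψ)) * Real.exp (-(2 * t * k * Real.log x)) := by
    rw [← Real.exp_nat_mul, ← Real.exp_add, Real.log_pow]
    congr 1
    push_cast
    ring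
  rw [Real.mul_rpow (by positivity) (by positivity), Real.mul_rpow hF (by positivity), h1, h2, h3]
  have h4 : Real.exp (2 * t * k * Real.log x) * Real.exp (-(2 * t * k * Real.log x)) = 1 := by
    rw [← Real.exp_add]; simp
  calc F ^ (2 / (n : ℝ)) * Real.exp (-(t * ψ)) * J ^ 2 =
      F ^ (2 / (n : ℝ)) * J ^ 2 * Real.exp (-(t * ψ)) *
        (Real.exp (2 * t * k * Real.log x) * Real.exp (-(2 * t * k * Real.log x))) := by
        rw [h4]; ring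
    _ = _ := by ring

/-- the log of `x` in terms of the log of `s`, `s ^ N ≤ C x` -/
theorem log_le {x s C : ℝ} {N : ℕ} (hx : 0 < x) (hx1 : x ≤ 1) (hs : 0 < s) (hC : 0 < C)
    (h : s ^ N ≤ C * x) :
    1 + |Real.log x| ≤ (1 + |Real.log C| + N) * (1 + |Real.log s|) := by
  have h1 : N * Real.log s ≤ Real.log C + Real.log x := by
    rw [← Real.log_pow, ← Real.log_mul hC.ne' hx.ne']
    exact Real.log_le_log (by positivity) h
  have h2 : |Real.log x| = -Real.log x := abs_of_nonpos (Real.log_nonpos hx.le hx1)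
  have h3 : -(N * Real.log s) ≤ N * |Real.log s| := by
    have := neg_abs_le (Real.log s)
    have hN : (0 : ℝ) ≤ N := Nat.cast_nonneg N
    nlinarith
  have h4 := le_abs_self (Real.log C)
  have h5 := abs_nonneg (Real.log s)
  have h6 := abs_nonneg (Real.log C)
  have hN : (0 : ℝ) ≤ N := Nat.cast_nonneg N
  rw [h2]
  nlinarith [mul_nonneg h6 h5]

theorem pt_bound {n t : ℕ} (hn : 0 < n) {A N₁ N : ℕ} {κ C C₁ C₂ B : ℝ} (hκ : 0 ≤ κ)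
    (hA : n * A * κ ≤ 1) (hC : 0 < C) (hC₁ : 0 ≤ C₁) (hC₂ : 0 ≤ C₂) (hB : 0 ≤ B) :
    ∃ C' : ℝ, 0 ≤ C' ∧ ∀ x s f P S : ℝ, 0 < x → x ≤ 1 → 0 < s → s ^ N ≤ C * x → 0 ≤ f →
      f ≤ B * x → 0 ≤ P → P ≤ C₁ * (1 + |Real.log x|) ^ N₁ → 0 ≤ S → S * x ^ (2 * A) ≤ C₂ →
      f ^ (2 / (n : ℝ)) * P ^ t * (1 + S) ^ κ ≤ C' * (1 + |Real.log s|) ^ (N₁ * t) := by
  have hn' : (0 : ℝ) < n := by positivity
  set C₃ : ℝ := 1 + |Real.log C| + N with hC₃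
  have hC₃0 : 0 ≤ C₃ := by positivity
  refine ⟨B ^ (2 / (n : ℝ)) * (1 + C₂) ^ κ * C₁ ^ t * C₃ ^ (N₁ * t), by positivity, ?_⟩
  intro x s f P S hx hx1 hs hsx hf hfB hP hPC hS hSC
  have h1 : f ^ (2 / (n : ℝ)) ≤ B ^ (2 / (n : ℝ)) * x ^ (2 / (n : ℝ)) := by
    rw [← Real.mul_rpow hB hx.le]
    exact Real.rpow_le_rpow hf hfB (by positivity)
  have h2 : (1 + S) ^ κ ≤ (1 + C₂) ^ κ * x ^ (-(2 * A * κ)) := by
    have h3 : 1 + S ≤ (1 + C₂) * x ^ (-(2 * A : ℝ)) := by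
      have h4 : x ^ (-(2 * A : ℝ)) = (x ^ (2 * A))⁻¹ := by
        rw [Real.rpow_neg hx.le]
        congr 1
        exact_mod_cast Real.rpow_natCast x (2 * A)
      rw [h4, ← div_eq_mul_inv, le_div_iff₀ (by positivity)]
      have h5 : x ^ (2 * A) ≤ 1 := pow_le_one₀ hx.le hx1
      nlinarith
    calc (1 + S) ^ κ ≤ ((1 + C₂) * x ^ (-(2 * A : ℝ))) ^ κ :=
          Real.rpow_le_rpow (by positivity) h3 hκ
      _ = (1 + C₂) ^ κ * x ^ (-(2 * A * κ)) := by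
          rw [Real.mul_rpow (by positivity) (by positivity), ← Real.rpow_mul hx.le]
          congr 2
          ring
  have h3 : x ^ (2 / (n : ℝ)) * x ^ (-(2 * A * κ)) ≤ 1 := by
    rw [← Real.rpow_add hx]
    refine Real.rpow_le_one hx.le hx1 ?_
    have : 2 / (n : ℝ) + -(2 * A * κ) = 2 / n * (1 - n * A * κ) := by
      field_simp
      ring
    rw [this]
    exact mul_nonneg (by positivity) (by linarith)
  have h4 : P ^ t ≤ C₁ ^ t * (C₃ ^ (N₁ * t) * (1 + |Real.log s|) ^ (N₁ * t)) := by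
    have h5 := log_le hx hx1 hs hC hsx
    calc P ^ t ≤ (C₁ * (1 + |Real.log x|) ^ N₁) ^ t := pow_le_pow_left₀ hP hPC t
      _ = C₁ ^ t * (1 + |Real.log x|) ^ (N₁ * t) := by rw [mul_pow, ← pow_mul]
      _ ≤ C₁ ^ t * (C₃ * (1 + |Real.log s|)) ^ (N₁ * t) := by
          gcongr
      _ = _ := by rw [mul_pow]
  calc f ^ (2 / (n : ℝ)) * P ^ t * (1 + S) ^ κ ≤
      (B ^ (2 / (n : ℝ)) * x ^ (2 / (n : ℝ))) *
        (C₁ ^ t * (C₃ ^ (N₁ * t) * (1 + |Real.log s|) ^ (N₁ * t))) *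
        ((1 + C₂) ^ κ * x ^ (-(2 * A * κ))) := by gcongr
    _ = B ^ (2 / (n : ℝ)) * (1 + C₂) ^ κ * C₁ ^ t * C₃ ^ (N₁ * t) *
        (1 + |Real.log s|) ^ (N₁ * t) * (x ^ (2 / (n : ℝ)) * x ^ (-(2 * A * κ))) := by ring
    _ ≤ B ^ (2 / (n : ℝ)) * (1 + C₂) ^ κ * C₁ ^ t * C₃ ^ (N₁ * t) *
        (1 + |Real.log s|) ^ (N₁ * t) * 1 := by gcongr
    _ = _ := by ring

end real

section main

variable {T L K : Type} [Field T] [Field L] [Field K] [Algebra ℂ T] [Algebra ℂ L] [Algebra ℂ K]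
  [Algebra T L] [Algebra L K] [IsScalarTower ℂ T L] [IsScalarTower ℂ L K] {d a r : ℕ}
  {MT : Mdl T (d + 1)} {ML : Mdl L (d + 1 + a)} {MK : Mdl K (d + 1 + a + r)}
  {E : Type} [TopologicalSpace E] [RDom d E] {μ : Measure MT.Pts}

/-- **(TRANS)**: the tower charts along `R` are contained in the boundary charts `D` of `M_T` -/
def Trans (H₁ : Rel MT ML) (H₂ : Rel ML MK) (R : ValuationSubring K)
    (D : DChart MT.Pts E μ) : Prop :=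
  ∃ (F : Finset K) (FL : Finset L), (∀ f ∈ F, f ≠ 0) ∧ (∀ f ∈ FL, f ≠ 0) ∧
    ∀ Y : TChart H₁ H₂ R, Y.Dict → Y.Good F → Y.GoodL FL →
      ∀ η₀ : Cn (d + 1 + a), ‖η₀‖ < Y.δ → tau (low (some Y.i₀)) η₀ = 0 →
        ∃ (y : E) (C : ℝ) (N : ℕ), 0 < C ∧
          ∀ᶠ η in 𝓝 η₀, η ∈ PD Y.δ (low (some Y.i₀)) → ∃ q ∈ PS d (D.r y / 2),
            H₁.f (Y.cL.s η) = D.σ y q ∧ ‖tau (low (some Y.i₀)) η‖ ^ N ≤ C * ‖q 0‖ ∧
            ‖Y.jN η‖ ≤ C * ‖D.J y q‖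

/-- bound of the metric of `L` at all points of the divisor -/
def Low (D : DChart MT.Pts E μ) (ψ : MT.Pts → ℝ) (k : ℤ) : Prop :=
  ∀ y, ∃ (C : ℝ) (N : ℕ), ∀ q ∈ PS d (D.r y / 2),
    Real.exp (-D.psI ψ k y q) ≤ C * (1 + |Real.log ‖q 0‖|) ^ N

/-- growth of the coordinates of `M_T` in the boundary charts -/
def Grow (D : DChart MT.Pts E μ) (A : ℕ) : Prop :=
  ∀ y, ∃ C : ℝ, ∀ q ∈ PS d (D.r y / 2), ∀ i,
    ‖(cp (D.σ y q) : Cn (d + 1)) i‖ * ‖q 0‖ ^ A ≤ C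

/-- the local bound on one boundary chart -/
theorem chart_bound (D : DChart MT.Pts E μ) {n t : ℕ} (hn : 0 < n) {k : ℤ} {F : MT.Pts → ℂ}
    (hF : Hol F) (hco : ∀ l < (1 : ℤ), co D n t k F l = 0) {ψ : MT.Pts → ℝ} (hlow : Low D ψ k)
    {A : ℕ} (hgr : Grow D A) {κ : ℝ} (hκ : 0 ≤ κ) (hA : n * A * κ ≤ 1) (y : E) {C : ℝ}
    (hC : 0 < C) (N : ℕ) :
    ∃ (C' : ℝ) (N' : ℕ), 0 ≤ C' ∧ ∀ q ∈ PS d (D.r y / 2), ∀ s j : ℝ, 0 < s → 0 ≤ j →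
      s ^ N ≤ C * ‖q 0‖ → j ≤ C * ‖D.J y q‖ →
      ‖F (D.σ y q)‖ ^ (2 / (n : ℝ)) * Real.exp (-(t * ψ (D.σ y q))) * j ^ 2 *
        (1 + ∑ i, ‖(cp (D.σ y q) : Cn (d + 1)) i‖ ^ 2) ^ κ ≤ C' * (1 + |Real.log s|) ^ N' := by
  have hr := r_pos D y
  have hr1 := r_le_one D y
  obtain ⟨g, hg, hfg⟩ := CntD_857.ext D n t k hF hco y
  obtain ⟨C₁, N₁, hC₁⟩ := hlow y
  obtain ⟨C₂, hC₂⟩ := hgr y
  -- `g` is bounded
  obtain ⟨B, hB⟩ := (isCompact_closedBall (0 : Cn (d + 1)) (D.r y / 2)).exists_bound_of_continuousOn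
    (hg.continuousOn.mono (closedBall_subset_ball (by linarith)))
  obtain ⟨C', hC'0, hC'⟩ := pt_bound (t := t) (N₁ := N₁) (N := N) hn hκ hA hC (abs_nonneg C₁)
    (by positivity : (0 : ℝ) ≤ (d + 1 : ℕ) * C₂ ^ 2) (abs_nonneg B)
  refine ⟨C' * C ^ 2, N₁ * t, by positivity, fun q hq s j hs hj hsq hjJ => ?_⟩
  have hx : 0 < ‖q 0‖ := norm_pos_iff.2 hq.1
  have hx1 : ‖q 0‖ ≤ 1 := by have := hq.2 0; linarith
  have hqr : q ∈ PS d (D.r y) := PS_mono (by linarith) hq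
  have hqb : q ∈ closedBall (0 : Cn (d + 1)) (D.r y / 2) := by
    rw [mem_closedBall_zero_iff, pi_norm_le_iff_of_nonneg (by linarith)]
    exact fun i => (hq.2 i).le
  have hf : ‖D.fI n t k F y q‖ ≤ |B| * ‖q 0‖ := by
    rw [hfg q hqr, zpow_one, norm_mul, mul_comm]
    exact mul_le_mul_of_nonneg_right ((hB q hqb).trans (le_abs_self B)) hx.le
  have hfn : ‖D.fI n t k F y q‖ =
      ‖F (D.σ y q)‖ * ‖D.J y q‖ ^ n * ‖q 0‖ ^ (n * t * k : ℤ) := by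
    unfold DChart.fI
    rw [norm_mul, norm_mul, norm_pow, norm_zpow]
  have hsum : (∑ i, ‖(cp (D.σ y q) : Cn (d + 1)) i‖ ^ 2) * ‖q 0‖ ^ (2 * A) ≤
      (d + 1 : ℕ) * C₂ ^ 2 := by
    rw [Finset.sum_mul]
    calc ∑ i, ‖(cp (D.σ y q) : Cn (d + 1)) i‖ ^ 2 * ‖q 0‖ ^ (2 * A) ≤
        ∑ _i : Fin (d + 1), C₂ ^ 2 := by
          refine Finset.sum_le_sum fun i _ => ?_
          have h1 := hC₂ q hq i
          calc ‖(cp (D.σ y q) : Cn (d + 1)) i‖ ^ 2 * ‖q 0‖ ^ (2 * A) =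
              (‖(cp (D.σ y q) : Cn (d + 1)) i‖ * ‖q 0‖ ^ A) ^ 2 := by ring
            _ ≤ C₂ ^ 2 := pow_le_pow_left₀ (by positivity) h1 2
      _ = _ := by simp
  have key := hC' ‖q 0‖ s ‖D.fI n t k F y q‖ (Real.exp (-D.psI ψ k y q))
    (∑ i, ‖(cp (D.σ y q) : Cn (d + 1)) i‖ ^ 2) hx hx1 hs hsq (norm_nonneg _) hf
    (Real.exp_pos _).le
    ((hC₁ q hq).trans (mul_le_mul_of_nonneg_right (le_abs_self _) (by positivity)))
    (by positivity) hsum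
  have hfr := frame_eq (t := t) hn k (norm_nonneg (F (D.σ y q))) (norm_nonneg (D.J y q)) hx
    (ψ := ψ (D.σ y q))
  rw [← hfn] at hfr
  have hpsI : ψ (D.σ y q) + k * Real.log (‖q 0‖ ^ 2) = D.psI ψ k y q := rfl
  rw [hpsI] at hfr
  calc ‖F (D.σ y q)‖ ^ (2 / (n : ℝ)) * Real.exp (-(t * ψ (D.σ y q))) * j ^ 2 *
        (1 + ∑ i, ‖(cp (D.σ y q) : Cn (d + 1)) i‖ ^ 2) ^ κ ≤
      ‖F (D.σ y q)‖ ^ (2 / (n : ℝ)) * Real.exp (-(t * ψ (D.σ y q))) * (C * ‖D.J y q‖) ^ 2 *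
        (1 + ∑ i, ‖(cp (D.σ y q) : Cn (d + 1)) i‖ ^ 2) ^ κ := by gcongr
    _ = (‖F (D.σ y q)‖ ^ (2 / (n : ℝ)) * Real.exp (-(t * ψ (D.σ y q))) * ‖D.J y q‖ ^ 2) *
        (1 + ∑ i, ‖(cp (D.σ y q) : Cn (d + 1)) i‖ ^ 2) ^ κ * C ^ 2 := by ring
    _ = ‖D.fI n t k F y q‖ ^ (2 / (n : ℝ)) * Real.exp (-D.psI ψ k y q) ^ t *
        (1 + ∑ i, ‖(cp (D.σ y q) : Cn (d + 1)) i‖ ^ 2) ^ κ * C ^ 2 := by rw [hfr]
    _ ≤ C' * (1 + |Real.log s|) ^ (N₁ * t) * C ^ 2 := by gcongr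
    _ = _ := by ring

variable {H₁ : Rel MT ML} {H₂ : Rel ML MK} {R : ValuationSubring K}

theorem cp_eq_pz (x : MT.Pts) : (cp x : Cn (d + 1)) = MT.pz x := rfl

/-- **(C4) for `R` with `R ∩ T ≠ T`** -/
theorem bdL_of_cdt {D : DChart MT.Pts E μ} (htr : Trans H₁ H₂ R D) {n t : ℕ} (hn : 0 < n)
    {k : ℤ} {F : MT.Pts → ℂ}
    (hF : Hol F) (hco : ∀ l < (1 : ℤ), co D n t k F l = 0) {ψ : MT.Pts → ℝ}
    (hψ : Continuous ψ) (hlow : Low D ψ k)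
    {A : ℕ} (hgr : Grow D A) {κ : ℝ} (hκ : 0 ≤ κ) (hA : n * A * κ ≤ 1) :
    BdL H₁ H₂ R fun Y η => ‖F (H₁.f (Y.cL.s η))‖ ^ (2 / (n : ℝ)) *
      Real.exp (-(t * ψ (H₁.f (Y.cL.s η)))) * ‖Y.jN η‖ ^ 2 *
      (1 + ∑ i, ‖tc ML (eL (d + 1) a) (Y.cL.s η) i‖ ^ 2) ^ κ := by
  obtain ⟨FK, FL, hFK, hFL, htr⟩ := htr
  refine ⟨FK, FL, hFK, hFL, fun Y hD hG hGL => ?_⟩
  refine logB_of_local (locB_of_cont fun η hη => ?_) fun η₀ hη₀ hτ => ?_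
  · -- continuity
    have hs := AcOpen_89.continuousAt_s Y.cL hη
    have hf : ContinuousAt (fun η => H₁.f (Y.cL.s η)) η :=
      (C1bd_986.continuous_f H₁).continuousAt.comp hs
    have hFc : ContinuousAt (fun η => F (H₁.f (Y.cL.s η))) η :=
      (Hol_cont hF).continuousAt.comp hf
    have hψc : ContinuousAt (fun η => ψ (H₁.f (Y.cL.s η))) η := hψ.continuousAt.comp hf
    have hj := contAt_jN Y hη
    have ht : ∀ i, ContinuousAt (fun η => tc ML (eL (d + 1) a) (Y.cL.s η) i) η := by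
      intro i
      have h1 := (AcOpen_89.analyticAt_pz Y.cL hη).continuousAt
      exact continuousAt_pi.1 h1 _
    have h1 : ContinuousAt (fun η => ‖F (H₁.f (Y.cL.s η))‖ ^ (2 / (n : ℝ))) η :=
      hFc.norm.rpow_const (Or.inr (by positivity))
    have h2 : ContinuousAt (fun η => Real.exp (-(t * ψ (H₁.f (Y.cL.s η))))) η :=
      Real.continuous_exp.continuousAt.comp (continuousAt_const.mul hψc).neg
    have h3 : ContinuousAt (fun η => (1 + ∑ i, ‖tc ML (eL (d + 1) a) (Y.cL.s η) i‖ ^ 2) ^ κ) η := by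
      refine ContinuousAt.rpow_const (continuousAt_const.add ?_) (Or.inr hκ)
      exact tendsto_finsetSum _ fun i _ => ((ht i).norm.pow 2)
    exact ((h1.mul h2).mul (hj.norm.pow 2)).mul h3
  · obtain ⟨y, C, N, hC, hev⟩ := htr Y hD hG hGL η₀ hη₀ hτ
    obtain ⟨C', N', hC', hb⟩ := chart_bound D hn hF hco hlow hgr hκ hA y hC N
    refine ⟨_, hev, C', N', fun η hη hP => ?_⟩
    obtain ⟨q, hq, h1, h2, h3⟩ := hη hP
    have hτ0 : 0 < ‖tau (low (some Y.i₀)) η‖ := norm_pos_iff.2 (AcOpen_89.tau_ne hP)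
    have h4 := hb q hq _ _ hτ0 (norm_nonneg (Y.jN η)) h2 h3
    have h5 : ∀ i, tc ML (eL (d + 1) a) (Y.cL.s η) i = (cp (D.σ y q) : Cn (d + 1)) i := by
      intro i
      rw [W2bd_505.tc_f H₁, cp_eq_pz, h1]
    simp only [h1]
    simp only [h5]
    exact h4

end main

end Crest.Agent.R276.C4Loc_327
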