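import Mathlib
import Crest.Agent.R276.SliG_217

/-!
# R276, leaf CNT-ASM (helper505): the counting step, linear algebra and numbers

A filtration of a space of sections by pole order along finitely many divisors: if the spaces of
leading coefficients are small compared with the space of sections, then there are many sections
without poles (and, more generally, vanishing to any prescribed order).
-/

set_option autoImplicit false

open Module

namespace Crest.Agent.R276.CntAsm_505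

open Crest.Agent.R276.SliG_217

section LinAlg

variable {X Y : Type*} [AddCommGroup X] [Module ℂ X] [AddCommGroup Y] [Module ℂ Y]

/-- the sections whose coefficients of index `< l` vanish -/
def Lt (T : ℤ → X →ₗ[ℂ] Y) (l : ℤ) : Submodule ℂ X := ⨅ l' : {l' : ℤ // l' < l}, LinearMap.ker (T l')

theorem mem_Lt {T : ℤ → X →ₗ[ℂ] Y} {l : ℤ} {x : X} : x ∈ Lt T l ↔ ∀ l' < l, T l' x = 0 := by
  simp [Lt, Submodule.mem_iInf]

theorem Lt_succ (T : ℤ → X →ₗ[ℂ] Y) (l : ℤ) : Lt T (l + 1) = Lt T l ⊓ LinearMap.ker (T l) := by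
  ext x
  rw [Submodule.mem_inf, mem_Lt, mem_Lt, LinearMap.mem_ker]
  constructor
  · intro h
    exact ⟨fun l' hl' => h l' (by omega), h l (by omega)⟩
  · rintro ⟨h1, h2⟩ l' hl'
    rcases lt_or_eq_of_le (Int.lt_add_one_iff.1 hl') with h | h
    · exact h1 l' h
    · rw [h]; exact h2

theorem Lt_anti (T : ℤ → X →ₗ[ℂ] Y) {l m : ℤ} (h : l ≤ m) : Lt T m ≤ Lt T l := by
  intro x hx
  rw [mem_Lt] at hx ⊢
  exact fun l' hl' => hx l' (lt_of_lt_of_le hl' h)

/-- one step -/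
theorem finrank_step (W : Submodule ℂ X) [FiniteDimensional ℂ W] (T : X →ₗ[ℂ] Y) {b : ℕ}
    (h : Bd (W.map T) b) : finrank ℂ W ≤ finrank ℂ (W ⊓ LinearMap.ker T : Submodule ℂ X) + b := by
  have h1 := LinearMap.finrank_range_add_finrank_ker (T.domRestrict W)
  have h2 : finrank ℂ (LinearMap.range (T.domRestrict W)) = finrank ℂ (W.map T) := by
    rw [LinearMap.range_domRestrict]
  have h3 : finrank ℂ (LinearMap.ker (T.domRestrict W)) =
      finrank ℂ (W ⊓ LinearMap.ker T : Submodule ℂ X) := by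
    rw [LinearMap.ker_domRestrict]
    have h4 : Submodule.comap W.subtype (LinearMap.ker T) =
        Submodule.comap W.subtype (W ⊓ LinearMap.ker T) := by
      ext x
      simp
    rw [h4]
    exact (Submodule.comapSubtypeEquivOfLe inf_le_left).finrank_eq
  have h4 := h.2
  omega

/-- one divisor, `m` steps -/
theorem finrank_steps (T : ℤ → X →ₗ[ℂ] Y) (l₀ : ℤ) (b : ℕ → ℕ) :
    ∀ (m : ℕ) (W : Submodule ℂ X) [FiniteDimensional ℂ W], (W ≤ Lt T l₀) →
    (∀ j < m, Bd ((W ⊓ Lt T (l₀ + j)).map (T (l₀ + j))) (b j)) →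
    finrank ℂ W ≤ finrank ℂ (W ⊓ Lt T (l₀ + m) : Submodule ℂ X) + ∑ j ∈ Finset.range m, b j := by
  intro m
  induction m with
  | zero =>
    intro W _ hW _
    have : W ⊓ Lt T (l₀ + ((0 : ℕ) : ℤ)) = W := by simpa using hW
    rw [this]; simp
  | succ m ih =>
    intro W _ hW hb
    have h1 := ih W hW (fun j hj => hb j (by omega))
    have : FiniteDimensional ℂ (W ⊓ Lt T (l₀ + m) : Submodule ℂ X) :=
      Submodule.finiteDimensional_of_le inf_le_left
    have h2 := finrank_step (W ⊓ Lt T (l₀ + m)) (T (l₀ + m)) (hb m (by omega))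
    have h3 : (W ⊓ Lt T (l₀ + ((m + 1 : ℕ) : ℤ)) : Submodule ℂ X) =
        W ⊓ Lt T (l₀ + m) ⊓ LinearMap.ker (T (l₀ + m)) := by
      rw [inf_assoc, ← Lt_succ]
      congr 2
      push_cast
      ring
    rw [h3, Finset.sum_range_succ]
    omega

/-- several divisors -/
theorem finrank_inf {ι : Type*} (A : ι → Submodule ℂ X) (c : ι → ℕ) (V : Submodule ℂ X)
    [FiniteDimensional ℂ V]
    (h : ∀ i, ∀ W : Submodule ℂ X, W ≤ V → finrank ℂ W ≤ finrank ℂ (W ⊓ A i : Submodule ℂ X) + c i)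
    (s : Finset ι) :
    finrank ℂ V ≤ finrank ℂ (V ⊓ s.inf A : Submodule ℂ X) + ∑ i ∈ s, c i := by
  classical
  induction s using Finset.induction_on with
  | empty => rw [Finset.inf_empty, inf_top_eq, Finset.sum_empty, add_zero]
  | insert i s hi ih =>
    have h1 := h i (V ⊓ s.inf A) inf_le_left
    rw [Finset.sum_insert hi, Finset.inf_insert]
    have h2 : (V ⊓ (A i ⊓ s.inf A) : Submodule ℂ X) = V ⊓ s.inf A ⊓ A i := by
      rw [inf_assoc, inf_comm (A i)]
    rw [h2]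
    omega

/-- one divisor, real bounds: `V ≤ Lt T l₀`, the spaces of leading coefficients of index
`l ∈ [l₀, l₀ + m)` have dimension `≤ β`; then for all `W ≤ V`
`dim W ≤ dim (W ⊓ Lt T (l₀ + m)) + m β` -/
theorem finrank_one (T : ℤ → X →ₗ[ℂ] Y) (l₀ : ℤ) (m : ℕ) {V : Submodule ℂ X}
    [FiniteDimensional ℂ V] (hV : V ≤ Lt T l₀) (β : ℝ)
    (hb : ∀ j < m, ∃ b : ℕ, (b : ℝ) ≤ β ∧ Bd ((V ⊓ Lt T (l₀ + j)).map (T (l₀ + j))) b) :
    ∃ c : ℕ, (c : ℝ) ≤ m * β ∧ ∀ W : Submodule ℂ X, W ≤ V →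
      finrank ℂ W ≤ finrank ℂ (W ⊓ Lt T (l₀ + m) : Submodule ℂ X) + c := by
  classical
  choose! b hbβ hbd using hb
  refine ⟨∑ j ∈ Finset.range m, b j, ?_, ?_⟩
  · push_cast
    calc ∑ j ∈ Finset.range m, (b j : ℝ) ≤ ∑ _j ∈ Finset.range m, β :=
          Finset.sum_le_sum fun j hj => hbβ j (Finset.mem_range.1 hj)
      _ = m * β := by rw [Finset.sum_const, Finset.card_range, nsmul_eq_mul]
  · intro W hW
    have : FiniteDimensional ℂ W := Submodule.finiteDimensional_of_le hW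
    refine finrank_steps T l₀ b m W (hW.trans hV) fun j hj => ?_
    exact (hbd j hj).mono (Submodule.map_mono (inf_le_inf_right _ hW))

end LinAlg

/-- a subspace of dimension `m` as a linearly independent family -/
theorem exists_family {X : Type*} [AddCommGroup X] [Module ℂ X] (W : Submodule ℂ X)
    [FiniteDimensional ℂ W] : ∃ f : Fin (finrank ℂ W) → X, LinearIndependent ℂ f ∧ ∀ j, f j ∈ W := by
  refine ⟨fun j => (finBasis ℂ W j : X), ?_, fun j => (finBasis ℂ W j).2⟩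
  exact (finBasis ℂ W).linearIndependent.map' W.subtype (Submodule.ker_subtype W)

/-- **counting**: `X n t` = sections of `nK + ntL`, `T i n t l` = coefficient of index `l` along the
divisor `i`. If there are `≥ c n^(d+1) t^ν` independent sections, the pole order along the bad
divisors is `< n` and the spaces of leading coefficients have dimension `≤ C n^d t^(ν-1)` (bad
divisors), resp. `≤ C' n^d` with `C'` depending on `t` (good divisors, no poles), then for `t` large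
and `n ≥ N(t)` there are `≥ (c/2) n^(d+1) t^ν` independent sections all of whose coefficients of
index `< a` vanish, `a` arbitrary. -/
theorem count {ι : Type*} [Fintype ι] {d ν a : ℕ} {X : ℕ → ℕ → Type*}
    [∀ n t, AddCommGroup (X n t)] [∀ n t, Module ℂ (X n t)] {Y : ι → Type*}
    [∀ i, AddCommGroup (Y i)] [∀ i, Module ℂ (Y i)] (T : ∀ i n t, ℤ → X n t →ₗ[ℂ] Y i)
    {c : ℝ} (hc : 0 < c) {N₀ : ℕ}
    (low : ∀ n ≥ N₀, ∀ t : ℕ, 1 ≤ t → ∃ (m : ℕ) (f : Fin m → X n t), LinearIndependent ℂ f ∧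
      c * (n : ℝ) ^ (d + 1) * (t : ℝ) ^ ν ≤ m)
    (bad : Finset ι) (hν : bad.Nonempty → 0 < ν)
    (van_bad : ∀ i ∈ bad, ∀ n t, ∀ x : X n t, ∀ l : ℤ, l ≤ -n → T i n t l x = 0)
    (van_good : ∀ i ∉ bad, ∀ n t, ∀ x : X n t, ∀ l : ℤ, l < 0 → T i n t l x = 0)
    {C : ℝ}
    (up_bad : ∀ i ∈ bad, ∀ t : ℕ, 1 ≤ t → ∃ N : ℕ, ∀ n ≥ N, ∀ l : ℤ, -n < l → l < a →
      ∃ b : ℕ, (b : ℝ) ≤ C * (n : ℝ) ^ d * (t : ℝ) ^ (ν - 1) ∧
        Bd ((Lt (T i n t) l).map (T i n t l)) b)
    (up_good : ∀ i ∉ bad, ∀ t : ℕ, 1 ≤ t → ∃ (C' : ℝ) (N : ℕ), ∀ n ≥ N, ∀ l : ℤ, 0 ≤ l → l < a →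
      ∃ b : ℕ, (b : ℝ) ≤ C' * (n : ℝ) ^ d ∧ Bd ((Lt (T i n t) l).map (T i n t l)) b) :
    ∃ t₀ : ℕ, ∀ t ≥ t₀, ∃ N : ℕ, ∀ n ≥ N, ∃ (m : ℕ) (f : Fin m → X n t),
      LinearIndependent ℂ f ∧ c / 2 * (n : ℝ) ^ (d + 1) * (t : ℝ) ^ ν ≤ m ∧
      ∀ j i, ∀ l < (a : ℤ), T i n t l (f j) = 0 := by
  classical
  obtain ⟨t₀, ht₀⟩ := exists_nat_ge (8 * (bad.card * |C|) / c)
  refine ⟨max t₀ 1, fun t ht => ?_⟩
  have ht1 : 1 ≤ t := le_trans (le_max_right _ _) ht
  have ht0 : (t₀ : ℝ) ≤ t := by exact_mod_cast le_trans (le_max_left _ _) ht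
  have htp : (1 : ℝ) ≤ t := by exact_mod_cast ht1
  -- choose the constants
  have hub : ∀ i, i ∈ bad → ∃ N : ℕ, ∀ n ≥ N, ∀ l : ℤ, -n < l → l < a →
      ∃ b : ℕ, (b : ℝ) ≤ C * (n : ℝ) ^ d * (t : ℝ) ^ (ν - 1) ∧
        Bd ((Lt (T i n t) l).map (T i n t l)) b := fun i hi => up_bad i hi t ht1
  have hug : ∀ i, i ∉ bad → ∃ (C' : ℝ) (N : ℕ), ∀ n ≥ N, ∀ l : ℤ, 0 ≤ l → l < a →
      ∃ b : ℕ, (b : ℝ) ≤ C' * (n : ℝ) ^ d ∧ Bd ((Lt (T i n t) l).map (T i n t l)) b :=
    fun i hi => up_good i hi t ht1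
  choose! Nb hNb using hub
  choose! C' Ng hNg using hug
  obtain ⟨N₁, hN₁⟩ := exists_nat_ge (4 * (∑ i, a * |C' i|) / c)
  refine ⟨max (max N₀ (max N₁ (max a 1))) (∑ i, (Nb i + Ng i)), fun n hn => ?_⟩
  have hnN0 : N₀ ≤ n := le_trans (le_trans (le_max_left _ _) (le_max_left _ _)) hn
  have hnN1 : N₁ ≤ n := le_trans (le_trans (le_max_left _ _) (le_trans (le_max_right _ _)
    (le_max_left _ _))) hn
  have hna : a ≤ n := le_trans (le_trans (le_max_left _ _) (le_trans (le_max_right _ _)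
    (le_trans (le_max_right _ _) (le_max_left _ _)))) hn
  have hn1 : 1 ≤ n := le_trans (le_trans (le_max_right _ _) (le_trans (le_max_right _ _)
    (le_trans (le_max_right _ _) (le_max_left _ _)))) hn
  have hnS : ∑ i, (Nb i + Ng i) ≤ n := le_trans (le_max_right _ _) hn
  have hnb : ∀ i, Nb i ≤ n := fun i => le_trans (le_trans (Nat.le_add_right _ (Ng i))
    (Finset.single_le_sum (f := fun i => Nb i + Ng i) (fun _ _ => Nat.zero_le _)
      (Finset.mem_univ i))) hnS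
  have hng : ∀ i, Ng i ≤ n := fun i => le_trans (le_trans (Nat.le_add_left _ (Nb i))
    (Finset.single_le_sum (f := fun i => Nb i + Ng i) (fun _ _ => Nat.zero_le _)
      (Finset.mem_univ i))) hnS
  have hnp : (1 : ℝ) ≤ n := by exact_mod_cast hn1
  obtain ⟨m, f, hf, hm⟩ := low n hnN0 t ht1
  set V : Submodule ℂ (X n t) := Submodule.span ℂ (Set.range f) with hVdef
  have hVfd : FiniteDimensional ℂ V := FiniteDimensional.span_of_finite ℂ (Set.finite_range f)
  have hVm : finrank ℂ V = m := by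
    rw [hVdef, finrank_span_eq_card hf, Fintype.card_fin]
  -- bounds for each divisor
  have key : ∀ i, ∃ e : ℕ, (e : ℝ) ≤ (if i ∈ bad then 2 * |C| * (n : ℝ) ^ (d + 1) *
      (t : ℝ) ^ (ν - 1) else a * |C' i| * (n : ℝ) ^ d) ∧ ∀ W : Submodule ℂ (X n t), W ≤ V →
      finrank ℂ W ≤ finrank ℂ (W ⊓ Lt (T i n t) a : Submodule ℂ (X n t)) + e := by
    intro i
    by_cases hi : i ∈ bad
    · have h1 := finrank_one (T i n t) (1 - n : ℤ) (n - 1 + a) (V := V) (by
        intro x _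
        rw [mem_Lt]
        intro l' hl'
        exact van_bad i hi n t x l' (by omega)) (C * (n : ℝ) ^ d * (t : ℝ) ^ (ν - 1)) (by
        intro j hj
        obtain ⟨b, hb1, hb2⟩ := hNb i hi n (hnb i) (1 - n + j) (by omega) (by omega)
        exact ⟨b, hb1, hb2.mono (Submodule.map_mono inf_le_right)⟩)
      obtain ⟨e, he1, he2⟩ := h1
      refine ⟨e, ?_, ?_⟩
      · rw [if_pos hi]
        refine he1.trans ?_
        have h2 : (((n - 1 + a : ℕ) : ℝ)) ≤ 2 * n := by
          have : n - 1 + a ≤ 2 * n := by omega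
          exact_mod_cast this
        calc ((n - 1 + a : ℕ) : ℝ) * (C * (n : ℝ) ^ d * (t : ℝ) ^ (ν - 1))
            ≤ ((n - 1 + a : ℕ) : ℝ) * (|C| * (n : ℝ) ^ d * (t : ℝ) ^ (ν - 1)) := by
              gcongr
              exact le_abs_self C
          _ ≤ (2 * n) * (|C| * (n : ℝ) ^ d * (t : ℝ) ^ (ν - 1)) := by gcongr
          _ = 2 * |C| * (n : ℝ) ^ (d + 1) * (t : ℝ) ^ (ν - 1) := by ring
      · intro W hW
        have h3 := he2 W hW
        have h4 : (1 - n + ((n - 1 + a : ℕ) : ℤ) : ℤ) = (a : ℤ) := by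
          push_cast [Nat.cast_sub hn1]
          ring
        rwa [h4] at h3
    · have h1 := finrank_one (T i n t) 0 a (V := V) (by
        intro x _
        rw [mem_Lt]
        intro l' hl'
        exact van_good i hi n t x l' hl') (C' i * (n : ℝ) ^ d) (by
        intro j hj
        obtain ⟨b, hb1, hb2⟩ := hNg i hi n (hng i) (0 + j) (by omega) (by omega)
        exact ⟨b, hb1, hb2.mono (Submodule.map_mono inf_le_right)⟩)
      obtain ⟨e, he1, he2⟩ := h1
      refine ⟨e, ?_, ?_⟩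
      · rw [if_neg hi]
        refine he1.trans ?_
        calc (a : ℝ) * (C' i * (n : ℝ) ^ d) ≤ a * (|C' i| * (n : ℝ) ^ d) := by
              gcongr
              exact le_abs_self _
          _ = a * |C' i| * (n : ℝ) ^ d := by ring
      · intro W hW
        have h3 := he2 W hW
        rwa [zero_add] at h3
  choose e he1 he2 using key
  have h1 := finrank_inf (fun i => Lt (T i n t) a) e V he2 Finset.univ
  set W : Submodule ℂ (X n t) := V ⊓ Finset.univ.inf fun i => Lt (T i n t) a with hW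
  have hWfd : FiniteDimensional ℂ W := Submodule.finiteDimensional_of_le inf_le_left
  obtain ⟨g, hg1, hg2⟩ := exists_family W
  refine ⟨finrank ℂ W, g, hg1, ?_, ?_⟩
  · have h2 : ((∑ i, e i : ℕ) : ℝ) ≤ c / 2 * (n : ℝ) ^ (d + 1) * (t : ℝ) ^ ν := by
      push_cast
      have h3 : ∀ i, (e i : ℝ) ≤ (if i ∈ bad then 2 * |C| * (n : ℝ) ^ (d + 1) *
          (t : ℝ) ^ (ν - 1) else 0) + a * |C' i| * (n : ℝ) ^ d := by
        intro i
        refine (he1 i).trans ?_
        have h4 : (0 : ℝ) ≤ a * |C' i| * (n : ℝ) ^ d := by positivity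
        have h5 : (0 : ℝ) ≤ 2 * |C| * (n : ℝ) ^ (d + 1) * (t : ℝ) ^ (ν - 1) := by positivity
        split_ifs <;> linarith
      have h4 : ∑ i, (e i : ℝ) ≤ bad.card * (2 * |C| * (n : ℝ) ^ (d + 1) * (t : ℝ) ^ (ν - 1)) +
          (∑ i, a * |C' i|) * (n : ℝ) ^ d := by
        refine (Finset.sum_le_sum fun i _ => h3 i).trans ?_
        rw [Finset.sum_add_distrib, Finset.sum_ite_mem, Finset.univ_inter, Finset.sum_const,
          nsmul_eq_mul, Finset.sum_mul]
      have h5 : bad.card * (2 * |C| * (n : ℝ) ^ (d + 1) * (t : ℝ) ^ (ν - 1)) ≤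
          c / 4 * (n : ℝ) ^ (d + 1) * (t : ℝ) ^ ν := by
        by_cases hb : bad.Nonempty
        · have hν' : (t : ℝ) ^ ν = t * (t : ℝ) ^ (ν - 1) := by
            rw [← pow_succ', Nat.sub_add_cancel (hν hb)]
          have h6 : 8 * (bad.card * |C|) ≤ c * t := by
            have := (div_le_iff₀ hc).1 (ht₀.trans ht0)
            linarith
          rw [hν']
          have h7 : (0 : ℝ) ≤ (n : ℝ) ^ (d + 1) * (t : ℝ) ^ (ν - 1) := by positivity
          nlinarith [mul_le_mul_of_nonneg_right h6 h7]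
        · rw [Finset.not_nonempty_iff_eq_empty.1 hb, Finset.card_empty, Nat.cast_zero, zero_mul]
          positivity
      have h6 : (∑ i, a * |C' i|) * (n : ℝ) ^ d ≤ c / 4 * (n : ℝ) ^ (d + 1) * (t : ℝ) ^ ν := by
        have h7 : 4 * (∑ i, a * |C' i|) ≤ c * n := by
          have := (div_le_iff₀ hc).1 (hN₁.trans (by exact_mod_cast hnN1 : (N₁ : ℝ) ≤ n))
          linarith
        have h8 : (1 : ℝ) ≤ (t : ℝ) ^ ν := one_le_pow₀ htp
        have h9 : (0 : ℝ) ≤ (n : ℝ) ^ d := by positivity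
        calc (∑ i, a * |C' i|) * (n : ℝ) ^ d ≤ (c * n / 4) * (n : ℝ) ^ d := by
              gcongr
              linarith
          _ = c / 4 * (n : ℝ) ^ (d + 1) * 1 := by ring
          _ ≤ c / 4 * (n : ℝ) ^ (d + 1) * (t : ℝ) ^ ν := by gcongr
      linarith
    have h3 : (m : ℝ) ≤ finrank ℂ W + (∑ i, e i : ℕ) := by
      have := h1
      rw [hVm] at this
      exact_mod_cast this
    linarith
  · intro j i l hl
    have h2 : g j ∈ Lt (T i n t) a := by
      have h3 : g j ∈ (Finset.univ.inf fun i => Lt (T i n t) a) := (hg2 j).2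
      rw [Submodule.mem_finsetInf] at h3
      exact h3 i (Finset.mem_univ i)
    exact mem_Lt.1 h2 l hl

end Crest.Agent.R276.CntAsm_505
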