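import Crest.Agent.R276.CntLow2_804
import Crest.Agent.R276.CntDefs_857

/-!
# Row 276, COUNT-LOW in the interface `CntDefs_857` (helper804)

`low_of_good` : smooth psh weights `φ, ψ` and a `Good φ ψ ν` point give
`≥ c₁ N^m t^ν` linearly independent elements of `V_N(t)`.
-/

set_option autoImplicit false
set_option linter.unusedSectionVars false

noncomputable section

open Set Filter Topology Complex MeasureTheory Metric

namespace Crest.Agent.R276.CntLow3_804

open Crest.Agent.R271.Ho51 Crest.Agent.R271.W792 Crest.Agent.R276.CntLowA_804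
open Crest.Agent.R271 Crest.Agent.R276.CntLowB_804 Crest.Agent.R276.CntLowC_804
open Crest.Agent.R276.CntLowD_804 Crest.Agent.R276.CntLowE_804 Crest.Agent.R276.CntLow_804
open Crest.Agent.R276.CntDefs_857

variable {m ν : ℕ} {M : Type} [TopologicalSpace M] [T2Space M] [RDom m M]

/-- holomorphy in a chart from smoothness and `∂̄ = 0`, with the derivative -/
lemma hasFDerivAt_chart {e : OpenPartialHomeomorph M (Fin m → ℂ)} (he : IsCh e) {f : M → ℂ}
    {z : Fin m → ℂ} (hz : z ∈ e.target)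
    (hf : ContDiffAt ℝ (⊤ : ℕ∞) (f ∘ (ch (e.symm z)).symm) (cp (e.symm z)))
    (hdb : ∀ j, db j f (e.symm z) = 0) :
    DifferentiableAt ℂ (f ∘ e.symm) z ∧
      ∀ w, fderiv ℂ (f ∘ e.symm) z w = ∑ j, dz j f (e.symm z) * w j := by
  have hcp : cp (e.symm z) = z := he.cp_symm hz
  have hgerm : (f ∘ (ch (e.symm z)).symm) =ᶠ[𝓝 (cp (e.symm z))] (f ∘ e.symm) :=
    comp_germ (isCh_ch _) he (mem_ch _) (e.map_target hz) f
  have h1 : ContDiffAt ℝ (⊤ : ℕ∞) (f ∘ e.symm) z := by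
    have := hf.congr_of_eventuallyEq hgerm.symm
    rwa [hcp] at this
  have h2 : DifferentiableAt ℝ (f ∘ e.symm) z := h1.differentiableAt (by simp)
  have h3 : ∀ w, fderiv ℝ (f ∘ e.symm) z w = ∑ j, dz j f (e.symm z) * w j := by
    intro w
    rw [← D_symm he hz, D_wirtinger]
    refine Finset.sum_congr rfl fun j _ => ?_
    rw [hdb j]; ring
  have h4 : DifferentiableAt ℂ (f ∘ e.symm) z := by
    refine R266.SCV.differentiableAt_complex_of_real h2 fun v => ?_
    rw [h3, h3, Finset.smul_sum]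
    refine Finset.sum_congr rfl fun j _ => ?_
    simp only [Pi.smul_apply, smul_eq_mul]
    ring
  refine ⟨h4, fun w => ?_⟩
  rw [← R266.SCV.fderiv_real_eq h4, h3]

/-- a matrix with independent rows is surjective -/
lemma surj_of_rows {A : Fin ν → Fin m → ℂ} (hA : LinearIndependent ℂ A) (y : Fin ν → ℂ) :
    ∃ w : Fin m → ℂ, ∀ i, ∑ j, A i j * w j = y i := by
  have h1 : (Matrix.of A).rank = Fintype.card (Fin ν) := LinearIndependent.rank_matrix hA
  have h2 : LinearMap.range (Matrix.of A).mulVecLin = ⊤ := by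
    apply Submodule.eq_top_of_finrank_eq
    rw [← Matrix.rank, h1, Module.finrank_fintype_fun_eq_card]
  have h3 : y ∈ LinearMap.range (Matrix.of A).mulVecLin := by rw [h2]; trivial
  obtain ⟨w, hw⟩ := h3
  exact ⟨w, fun i => by rw [← hw]; rfl⟩

/-- the chart data of a good point -/
theorem exists_LD {φ ψ : M → ℝ} (G : Good φ ψ ν) :
    ∃ S : LD m ν M, Function.Surjective (fderiv ℂ S.β S.z0) ∧
      (∀ z ∈ ball S.z0 S.r, ∀ w, G.c * nsq w ≤ Levi φ (S.e.symm z) w) ∧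
      (∀ z ∈ ball S.z0 S.r, ∀ w, G.c * ∑ i, ‖fderiv ℂ S.β z w i‖ ^ 2 ≤
        Levi ψ (S.e.symm z) w) ∧
      closedBall S.z0 S.r ⊆ S.e.target := by
  set e := ch G.x₀ with he_def
  have he : IsCh e := isCh_ch G.x₀
  have h0 : cp G.x₀ ∈ e.target := he.cp_mem (mem_ch G.x₀)
  have hT : (e.symm ⁻¹' (interior G.U)) ∩ e.target ∈ 𝓝 (cp G.x₀) := by
    refine inter_mem ?_ (e.open_target.mem_nhds h0)
    have h1 : ContinuousAt e.symm (cp G.x₀) := e.symm.continuousAt (by simpa using h0)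
    apply h1.preimage_mem_nhds
    rw [he.symm_cp (mem_ch G.x₀)]
    exact interior_mem_nhds.2 G.hU
  obtain ⟨r, hr, hball⟩ := Metric.nhds_basis_closedBall.mem_iff.1 hT
  have hbU : ∀ z ∈ ball (cp G.x₀) r, e.symm z ∈ G.U ∧ z ∈ e.target := fun z hz =>
    ⟨interior_subset (hball (ball_subset_closedBall hz)).1,
      (hball (ball_subset_closedBall hz)).2⟩
  have hchart : ∀ i, ∀ z ∈ ball (cp G.x₀) r, DifferentiableAt ℂ (G.b i ∘ e.symm) z ∧
      ∀ w, fderiv ℂ (G.b i ∘ e.symm) z w = ∑ j, dz j (G.b i) (e.symm z) * w j := fun i z hz =>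
    hasFDerivAt_chart he (hbU z hz).2 (G.smb i _ (hbU z hz).1)
      (fun j => G.holb i j _ (hbU z hz).1)
  have hfd : ∀ z ∈ ball (cp G.x₀) r, ∀ w i,
      fderiv ℂ (fun z i => G.b i (e.symm z)) z w i = ∑ j, dz j (G.b i) (e.symm z) * w j := by
    intro z hz w i
    have h1 : ∀ i, DifferentiableAt ℂ (fun z => G.b i (e.symm z)) z := fun i => (hchart i z hz).1
    rw [fderiv_pi h1]
    exact (hchart i z hz).2 w
  refine ⟨{ e := e
            he := he
            z0 := cp G.x₀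
            r := r
            hr := hr
            hB := fun z hz => (hbU z hz).2
            β := fun z i => G.b i (e.symm z)
            hβ := ?_ }, ?_, ?_, ?_, ?_⟩
  · intro z hz
    apply DifferentiableAt.differentiableWithinAt
    exact differentiableAt_pi.2 fun i => (hchart i z hz).1
  · intro y
    obtain ⟨w, hw⟩ := surj_of_rows G.ind y
    refine ⟨w, ?_⟩
    funext i
    show fderiv ℂ (fun z i => G.b i (e.symm z)) (cp G.x₀) w i = y i
    rw [hfd _ (mem_ball_self hr)]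
    rw [he.symm_cp (mem_ch G.x₀)]
    exact hw i
  · intro z hz w
    exact G.posφ _ (hbU z hz).1 w
  · intro z hz w
    refine le_trans (le_of_eq ?_) (G.posψ _ (hbU z hz).1 w)
    congr 1
    refine Finset.sum_congr rfl fun i _ => ?_
    rw [hfd z hz w i]
  · exact fun z hz => (hball hz).2

variable [SecondCountableTopology M] [MeasurableSpace M] [BorelSpace M] {μ : Measure M}

/-- **COUNT-LOW** at a good point -/
theorem low_of_good (hμ : IsLeb μ) {ρ : M → ℝ} (hρ : Sm ρ)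
    (hcpt : ∀ c, IsCompact {x | ρ x ≤ c}) (hL : ∀ x w, nsq w ≤ Levi ρ x w)
    {φ : M → ℝ} (hφ : Sm φ) (hφ0 : ∀ x w, 0 ≤ Levi φ x w)
    {ψ : M → ℝ} (hψ : Sm ψ) (hψ0 : ∀ x w, 0 ≤ Levi ψ x w) (G : Good φ ψ ν) :
    ∃ c1 : ℝ, 0 < c1 ∧ ∃ N0 : ℕ, ∀ N : ℕ, N0 ≤ N → ∀ t : ℕ, 1 ≤ t →
      ∃ (k : ℕ) (f : Fin k → M → ℂ), LinearIndependent ℂ f ∧
        (∀ i, Ho51.Hol (f i) ∧ ∫⁻ x, ENNReal.ofReal (‖f i x‖ ^ 2 *
          Real.exp (-(((N : ℝ) - 1) * φ x + N * t * ψ x))) ∂μ < ⊤) ∧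
        c1 * (N : ℝ) ^ m * (t : ℝ) ^ ν ≤ (k : ℝ) := by
  obtain ⟨S, hs, hp, hq, hcl⟩ := exists_LD G
  -- lower bound of `φ`
  have hK : IsCompact (S.e.symm '' closedBall S.z0 S.r) :=
    isCompact_symm_image (isCompact_closedBall _ _) hcl
  obtain ⟨A, hA⟩ := (hK.image hφ.continuous).bddBelow
  have hA' : ∀ z ∈ ball S.z0 S.r, -(-A) ≤ φ (S.e.symm z) := fun z hz => by
    rw [neg_neg]
    exact hA ⟨_, ⟨z, ball_subset_closedBall hz, rfl⟩, rfl⟩
  obtain ⟨c1, hc1, N0, h⟩ := count_low (μ := μ) hμ hρ hcpt hL (φs := fun _ => φ) (fun _ => hφ)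
    (fun _ => antitone_const) (fun _ => hφ0) hψ hψ0 S hs G.hc (fun _ => hp) (fun _ => hA') hq
  refine ⟨c1, hc1, N0, fun N hN t ht => ?_⟩
  obtain ⟨ι, hι, f, hf, hf2, hcard⟩ := h N hN t (by exact_mod_cast ht)
  refine ⟨Fintype.card ι, fun i => f ((Fintype.equivFin ι).symm i), ?_, fun i => ⟨(hf2 _).1, ?_⟩,
    hcard⟩
  · exact hf.comp _ (Fintype.equivFin ι).symm.injective
  · refine lt_of_le_of_lt (le_of_eq ?_) (hf2 ((Fintype.equivFin ι).symm i)).2
    refine lintegral_congr fun x => ?_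
    rw [ciSup_const, ENNReal.ofReal_mul (by positivity)]

end Crest.Agent.R276.CntLow3_804
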