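import Crest.Agent.R276.CntDefs_857

/-!
# R276, leaf CNT-JET (helper691)

`c : PCov d E`.  Holomorphic functions `f` on `E` with `‖f y‖ ≤ C * (radf h cc κ (cp y))⁻¹ ^ D` are
determined on a coordinate slice `{y | cp y i = b i, i ∈ I}` by their values at
`≤ k * (K * (D + 1) + 1) ^ (d - |I|)` points, `K` depending only on `c` and `κ`.

Proof: `S_j(w) = ∑_{cp y = w} f(y)^j` (`j = 1..k`), times `h ^ (κ D j + 1)`, extended by `0` to
`{h = 0}`, is entire on every coordinate line, of polynomial growth of degree `≤ K (D + 1)`.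
-/

set_option autoImplicit false

noncomputable section

open Set Filter Topology Metric

namespace Crest.Agent.R276.CntJet_691

open Crest.Agent.R271.Ho51 Crest.Agent.R276.CntDefs_857

/-! ### one variable -/

/-- derivatives of high order of an entire function of polynomial growth vanish -/
lemma iteratedDeriv_eq_zero {u : ℂ → ℂ} (hu : Differentiable ℂ u) {A : ℝ} {M : ℕ}
    (hg : ∀ t, ‖u t‖ ≤ A * (1 + ‖t‖) ^ M) {n : ℕ} (hn : M < n) : iteratedDeriv n u 0 = 0 := by
  have hA : 0 ≤ A := by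
    have := hg 0
    simp only [norm_zero, add_zero, one_pow, mul_one] at this
    exact (norm_nonneg _).trans this
  have key : ∀ R : ℝ, 1 ≤ R → ‖iteratedDeriv n u 0‖ ≤ (n.factorial * A * 2 ^ M) * R⁻¹ := by
    intro R hR
    have hR0 : 0 < R := by linarith
    have h1 := Complex.norm_iteratedDeriv_le_of_forall_mem_sphere_norm_le (c := 0) (n := n) (C := A * (2 * R) ^ M) hR0
      (hu.diffContOnCl (s := ball (0 : ℂ) R)) (fun z hz => by
        refine (hg z).trans ?_
        have hz' : ‖z‖ = R := by simpa using hz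
        rw [hz']
        gcongr
        linarith)
    refine h1.trans ?_
    obtain ⟨m, rfl⟩ : ∃ m, n = M + 1 + m := ⟨n - (M + 1), by omega⟩
    have h2 : (1 : ℝ) ≤ R ^ m := one_le_pow₀ hR
    rw [mul_pow, div_le_iff₀ (by positivity)]
    have h3 : R ^ (M + 1 + m) = R ^ M * R * R ^ m := by ring
    rw [h3]
    have h4 : (((M + 1 + m).factorial : ℝ) * A * 2 ^ M) * R⁻¹ * (R ^ M * R * R ^ m) =
      ((M + 1 + m).factorial : ℝ) * (A * (2 ^ M * R ^ M)) * R ^ m := by
      field_simp
    rw [h4]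
    exact le_mul_of_one_le_right (by positivity) h2
  have h0 : Tendsto (fun R : ℝ => (n.factorial * A * 2 ^ M) * R⁻¹) atTop (𝓝 0) := by
    simpa using tendsto_inv_atTop_zero.const_mul (n.factorial * A * 2 ^ M)
  have h1 : ‖iteratedDeriv n u 0‖ ≤ 0 := by
    refine ge_of_tendsto h0 ?_
    filter_upwards [eventually_ge_atTop 1] with R hR using key R hR
  simpa using h1

/-- an entire function of polynomial growth of degree `≤ M` with more than `M` zeros vanishes -/
lemma eq_zero_of_growth {u : ℂ → ℂ} (hu : Differentiable ℂ u) {A : ℝ} {M : ℕ}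
    (hg : ∀ t, ‖u t‖ ≤ A * (1 + ‖t‖) ^ M) (G : Finset ℂ) (hG : M < G.card)
    (h0 : ∀ t ∈ G, u t = 0) (t : ℂ) : u t = 0 := by
  classical
  let P : Polynomial ℂ := ∑ n ∈ Finset.range (M + 1),
    Polynomial.C ((n.factorial : ℂ)⁻¹ * iteratedDeriv n u 0) * Polynomial.X ^ n
  have hP : ∀ z, u z = P.eval z := by
    intro z
    have h1 := Complex.taylorSeries_eq_of_entire' 0 z hu
    rw [← h1, tsum_eq_sum (s := Finset.range (M + 1))]
    · simp [P, Polynomial.eval_finsetSum]
    · intro n hn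
      rw [iteratedDeriv_eq_zero hu hg (by simpa using hn)]
      simp
  have hdeg : P.natDegree < G.card := by
    refine lt_of_le_of_lt ?_ hG
    refine Polynomial.natDegree_sum_le_of_forall_le _ _ fun n hn => ?_
    refine (Polynomial.natDegree_C_mul_X_pow_le _ _).trans ?_
    have := Finset.mem_range.1 hn
    omega
  have hP0 : P = 0 := Polynomial.eq_zero_of_natDegree_lt_card_of_eval_eq_zero' P G
    (fun t ht => by rw [← hP]; exact h0 t ht) hdeg
  rw [hP, hP0, Polynomial.eval_zero]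

/-- a family of complex numbers all of whose power sums of order `1..k` vanish is zero -/
lemma eq_zero_of_psum {k : ℕ} (a : Fin k → ℂ)
    (h : ∀ j : ℕ, 1 ≤ j → j ≤ k → ∑ i, a i ^ j = 0) (i : Fin k) : a i = 0 := by
  classical
  -- the polynomial `X * R` with `R` interpolating `1/v` at the non zero values
  let s : Finset ℂ := (Finset.univ.image a).erase 0
  have hs : s.card ≤ k := by
    refine (Finset.card_le_card (Finset.erase_subset _ _)).trans ?_
    refine Finset.card_image_le.trans ?_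
    simp
  let R : Polynomial ℂ := Lagrange.interpolate s id (fun v => v⁻¹)
  have hR : ∀ v ∈ s, R.eval v = v⁻¹ := fun v hv =>
    Lagrange.eval_interpolate_at_node (v := id) (r := fun v : ℂ => v⁻¹) (Set.injOn_id _) hv
  have hRd : R.natDegree < k ∨ s = ∅ := by
    by_cases hse : s = ∅
    · exact Or.inr hse
    · left
      have h1 : R.degree < s.card := Lagrange.degree_interpolate_lt _ (Set.injOn_id _)
      have hpos : 0 < s.card := Finset.card_pos.2 (Finset.nonempty_iff_ne_empty.2 hse)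
      by_cases hR0 : R = 0
      · rw [hR0]; simp; omega
      · rw [Polynomial.degree_eq_natDegree hR0] at h1
        have : R.natDegree < s.card := by exact_mod_cast h1
        omega
  rcases hRd with hRd | hse
  · have h1 : ∑ i, a i * R.eval (a i) = 0 := by
      have h2 : ∀ i, a i * R.eval (a i) = ∑ n ∈ Finset.range k, R.coeff n * a i ^ (n + 1) := by
        intro i
        rw [Polynomial.eval_eq_sum_range' hRd, Finset.mul_sum]
        refine Finset.sum_congr rfl fun n _ => by ring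
      simp only [h2]
      rw [Finset.sum_comm]
      refine Finset.sum_eq_zero fun n hn => ?_
      rw [← Finset.mul_sum, h (n + 1) (by omega) (by have := Finset.mem_range.1 hn; omega), mul_zero]
    have h3 : ∀ i, a i * R.eval (a i) = if a i = 0 then 0 else 1 := by
      intro i
      by_cases hi : a i = 0
      · simp [hi]
      · rw [if_neg hi, hR (a i) (by simp [s, hi])]
        field_simp
    simp only [h3] at h1
    rw [Finset.sum_ite] at h1
    simp only [Finset.sum_const_zero, zero_add, Finset.sum_const, nsmul_eq_mul, mul_one] at h1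
    have h4 : (Finset.univ.filter fun i => ¬ a i = 0).card = 0 := by exact_mod_cast h1
    rw [Finset.card_eq_zero, Finset.filter_eq_empty_iff] at h4
    have := h4 (Finset.mem_univ i)
    simpa using this
  · by_contra hi
    have : a i ∈ s := by simp [s, hi]
    rw [hse] at this
    simp at this

/-! ### polynomials in several variables -/

/-- polynomials have polynomial growth -/
lemma mv_growth {d : ℕ} (h : MvPolynomial (Fin d) ℂ) : ∃ B : ℝ, 1 ≤ B ∧
    ∀ w : Fin d → ℂ, ‖MvPolynomial.eval w h‖ ≤ B * (1 + ‖w‖) ^ h.totalDegree := by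
  refine ⟨1 + ∑ m ∈ h.support, ‖h.coeff m‖,
    le_add_of_nonneg_right (Finset.sum_nonneg fun _ _ => norm_nonneg _), fun w => ?_⟩
  rw [MvPolynomial.eval_eq]
  have h1 : ∀ m ∈ h.support, ‖h.coeff m * ∏ i ∈ m.support, w i ^ m i‖ ≤
      ‖h.coeff m‖ * (1 + ‖w‖) ^ h.totalDegree := by
    intro m hm
    rw [norm_mul]
    refine mul_le_mul_of_nonneg_left ?_ (norm_nonneg _)
    have h2 : ‖∏ i ∈ m.support, w i ^ m i‖ ≤ ∏ i ∈ m.support, (1 + ‖w‖) ^ m i := by
      rw [norm_prod]
      refine Finset.prod_le_prod (fun _ _ => norm_nonneg _) fun i _ => ?_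
      rw [norm_pow]
      have : ‖w i‖ ≤ ‖w‖ := norm_le_pi_norm w i
      gcongr
      linarith
    refine h2.trans ?_
    rw [Finset.prod_pow_eq_pow_sum]
    refine pow_le_pow_right₀ (by linarith [norm_nonneg w]) ?_
    exact MvPolynomial.le_totalDegree hm
  calc ‖∑ m ∈ h.support, h.coeff m * ∏ i ∈ m.support, w i ^ m i‖
      ≤ ∑ m ∈ h.support, ‖h.coeff m‖ * (1 + ‖w‖) ^ h.totalDegree :=
        norm_sum_le_of_le _ h1
    _ = (∑ m ∈ h.support, ‖h.coeff m‖) * (1 + ‖w‖) ^ h.totalDegree := by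
        rw [Finset.sum_mul]
    _ ≤ _ := by
        gcongr
        linarith

lemma norm_update_le {d : ℕ} (w : Fin d → ℂ) (i : Fin d) (t : ℂ) :
    1 + ‖Function.update w i t‖ ≤ (1 + ‖w‖) * (1 + ‖t‖) := by
  have h1 : ‖Function.update w i t‖ ≤ ‖w‖ + ‖t‖ := by
    rw [pi_norm_le_iff_of_nonneg (by positivity)]
    intro a
    by_cases ha : a = i
    · subst ha; simp
    · rw [Function.update_of_ne ha]
      exact (norm_le_pi_norm w a).trans (by linarith [norm_nonneg t])
  have := mul_nonneg (norm_nonneg w) (norm_nonneg t)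
  nlinarith

/-- the restriction of `h` to a coordinate line -/
def lin {d : ℕ} (h : MvPolynomial (Fin d) ℂ) (w : Fin d → ℂ) (i : Fin d) : Polynomial ℂ :=
  MvPolynomial.aeval (fun a => if a = i then Polynomial.X else Polynomial.C (w a)) h

lemma lin_eval {d : ℕ} (h : MvPolynomial (Fin d) ℂ) (w : Fin d → ℂ) (i : Fin d) (t : ℂ) :
    (lin h w i).eval t = MvPolynomial.eval (Function.update w i t) h := by
  unfold lin
  rw [← Polynomial.coe_aeval_eq_eval, ← AlgHom.comp_apply, ← MvPolynomial.aeval_eq_eval]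
  congr 1
  apply MvPolynomial.algHom_ext
  intro a
  simp only [AlgHom.comp_apply, MvPolynomial.aeval_X]
  by_cases ha : a = i
  · subst ha; simp
  · rw [if_neg ha, Function.update_of_ne ha]
    simp

lemma differentiable_update {d : ℕ} (w : Fin d → ℂ) (i : Fin d) :
    Differentiable ℂ (fun t : ℂ => Function.update w i t) := by
  rw [differentiable_pi]
  intro a
  by_cases ha : a = i
  · subst ha; simp
  · simp [Function.update_of_ne ha]

/-- vanishing on a grid -/
lemma grid {d : ℕ} {g : (Fin d → ℂ) → ℂ} {M : ℕ}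
    (hd : ∀ w i, Differentiable ℂ (fun t : ℂ => g (Function.update w i t)))
    (hg : ∀ w i, ∃ A : ℝ, ∀ t, ‖g (Function.update w i t)‖ ≤ A * (1 + ‖t‖) ^ M)
    (G : Finset ℂ) (hG : M < G.card) (I : Finset (Fin d)) (b : Fin d → ℂ)
    (h0 : ∀ w : Fin d → ℂ, (∀ i ∈ I, w i = b i) → (∀ i, i ∉ I → w i ∈ G) → g w = 0)
    (w : Fin d → ℂ) (hw : ∀ i ∈ I, w i = b i) : g w = 0 := by
  classical
  have key : ∀ T : Finset (Fin d), ∀ w : Fin d → ℂ, (∀ i ∈ I, w i = b i) →
      (∀ i, i ∉ I → i ∉ T → w i ∈ G) → g w = 0 := by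
    intro T
    induction T using Finset.induction_on with
    | empty =>
      intro w h1 h2
      exact h0 w h1 fun i hi => h2 i hi (by simp)
    | insert i T hi ih =>
      intro w h1 h2
      by_cases hiI : i ∈ I
      · refine ih w h1 fun a ha haT => h2 a ha ?_
        rw [Finset.mem_insert, not_or]
        exact ⟨fun h => ha (h ▸ hiI), haT⟩
      · obtain ⟨A, hA⟩ := hg w i
        have h3 := eq_zero_of_growth (hd w i) hA G hG (fun t ht => by
          refine ih _ (fun a ha => ?_) (fun a ha haT => ?_)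
          · have : a ≠ i := fun h => hiI (h ▸ ha)
            rw [Function.update_of_ne this]
            exact h1 a ha
          · by_cases hai : a = i
            · subst hai; simpa using ht
            · rw [Function.update_of_ne hai]
              exact h2 a ha (by simp [hai, haT])) (w i)
        simpa using h3
  exact key Finset.univ w hw (fun i _ h => absurd (Finset.mem_univ i) h)

/-! ### the symmetric functions -/

section

variable {d : ℕ} {E : Type*} [TopologicalSpace E] [RDom d E]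

/-- power sum over the fibre -/
def S (f : E → ℂ) (j : ℕ) (w : Fin d → ℂ) : ℂ := ∑ᶠ x ∈ (cp ⁻¹' {w} : Set E), f x ^ j

lemma fibre (c : PCov d E) {z : Fin d → ℂ} (hz : MvPolynomial.eval z c.h ≠ 0) :
    ∃ r : ℝ, 0 < r ∧ ∃ s : Fin c.k → OpenPartialHomeomorph E (Fin d → ℂ),
      (∀ i, IsCh (s i) ∧ (s i).target = ball z r) ∧
      ∀ w ∈ ball z r, Function.Injective (fun i => (s i).symm w) ∧
        (cp ⁻¹' {w} : Set E) = range (fun i => (s i).symm w) := by
  have h1 : ∀ᶠ w in 𝓝 z, MvPolynomial.eval w c.h ≠ 0 :=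
    (MvPolynomial.continuous_eval c.h).continuousAt.eventually_ne hz
  obtain ⟨r, hr, hr1⟩ := Metric.eventually_nhds_iff_ball.1 h1
  obtain ⟨s, hs1, hs2, hs3⟩ := c.ev z r hr hr1
  refine ⟨r, hr, s, hs1, fun w hw => ⟨?_, ?_⟩⟩
  · intro i j hij
    by_contra hne
    have h2 : (s i).symm w ∈ (s i).source := (s i).map_target (by rw [(hs1 i).2]; exact hw)
    have h3 : (s j).symm w ∈ (s j).source := (s j).map_target (by rw [(hs1 j).2]; exact hw)
    have hij' : (s i).symm w = (s j).symm w := hij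
    rw [hij'] at h2
    exact Set.disjoint_left.1 (hs2 i j hne) h2 h3
  · ext x
    simp only [mem_preimage, mem_singleton_iff, mem_range]
    constructor
    · rintro rfl
      have h4 : x ∈ (cp ⁻¹' ball z r : Set E) := hw
      rw [hs3] at h4
      obtain ⟨i, hi⟩ := mem_iUnion.1 h4
      exact ⟨i, (hs1 i).1.symm_cp hi⟩
    · rintro ⟨i, rfl⟩
      exact (hs1 i).1.cp_symm (by rw [(hs1 i).2]; exact hw)

lemma S_eq {f : E → ℂ} {j k : ℕ} {w : Fin d → ℂ} {x : Fin k → E} (hx : Function.Injective x)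
    (hw : (cp ⁻¹' {w} : Set E) = range x) : S f j w = ∑ i, f (x i) ^ j := by
  unfold S
  rw [hw, finsum_mem_range hx, finsum_eq_sum_of_fintype]

lemma S_zero (c : PCov d E) (f : E → ℂ) (j : ℕ) {w : Fin d → ℂ}
    (hw : MvPolynomial.eval w c.h = 0) : S f j w = 0 := by
  unfold S
  have : (cp ⁻¹' {w} : Set E) = ∅ := by
    ext x
    simp only [mem_preimage, mem_singleton_iff, mem_empty_iff_false, iff_false]
    intro hx
    have := c.hne x
    rw [hx] at this
    exact this hw
  rw [this]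
  simp

/-- the growth class -/
def Gw (c : PCov d E) (cc : ℝ) (κ D : ℕ) (f : E → ℂ) : Prop :=
  Hol f ∧ ∃ C : ℝ, ∀ y, ‖f y‖ ≤ C * (radf c.h cc κ (cp y))⁻¹ ^ D

/-- the coordinate slice -/
def Sl (E : Type*) [TopologicalSpace E] [RDom d E] (I : Finset (Fin d)) (b : Fin d → ℂ) : Set E :=
  {y | ∀ i ∈ I, cp y i = b i}

/-- power sum times a power of `h` -/
def gg (c : PCov d E) (κ D : ℕ) (f : E → ℂ) (j : ℕ) (w : Fin d → ℂ) : ℂ :=
  S f j w * MvPolynomial.eval w c.h ^ (κ * D * j + 1)

lemma gg_zero (c : PCov d E) (κ D : ℕ) (f : E → ℂ) (j : ℕ) {w : Fin d → ℂ}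
    (hw : MvPolynomial.eval w c.h = 0) : gg c κ D f j w = 0 := by
  unfold gg
  rw [S_zero c f j hw, zero_mul]

lemma gg_bound (c : PCov d E) {cc : ℝ} (hcc : 0 < cc) {κ D : ℕ} {f : E → ℂ}
    (hf : Gw c cc κ D f) (j : ℕ) : ∃ A : ℝ, 0 ≤ A ∧ ∀ w : Fin d → ℂ,
      ‖gg c κ D f j w‖ ≤ A * (1 + ‖w‖) ^ (κ * D * j) *
        (max 1 ‖MvPolynomial.eval w c.h‖ ^ (κ * D * j) * ‖MvPolynomial.eval w c.h‖) := by
  obtain ⟨C, hC⟩ := hf.2
  refine ⟨c.k * (|C| ^ j * (cc⁻¹ ^ D) ^ j), by positivity, fun w => ?_⟩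
  by_cases hw : MvPolynomial.eval w c.h = 0
  · rw [gg_zero c κ D f j hw, norm_zero]
    positivity
  · obtain ⟨r, hr, s, hs, hfib⟩ := fibre c hw
    obtain ⟨h1, h2⟩ := hfib w (mem_ball_self hr)
    have hcp : ∀ i, cp ((s i).symm w) = w := fun i =>
      (hs i).1.cp_symm (by rw [(hs i).2]; exact mem_ball_self hr)
    set a : ℝ := ‖MvPolynomial.eval w c.h‖ with ha
    have ha0 : 0 < a := norm_pos_iff.2 hw
    set m : ℝ := min 1 a with hm
    have hm0 : 0 < m := lt_min one_pos ha0
    have hw1 : 0 < 1 + ‖w‖ := by positivity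
    have hrad : (radf c.h cc κ w)⁻¹ = cc⁻¹ * ((1 + ‖w‖) / m) ^ κ := by
      unfold radf
      rw [mul_inv, ← inv_pow, inv_div]
    have hS : ‖S f j w‖ ≤ c.k * (|C| * (cc⁻¹ * ((1 + ‖w‖) / m) ^ κ) ^ D) ^ j := by
      rw [S_eq h1 h2]
      refine (norm_sum_le _ _).trans ?_
      have : ∀ i ∈ (Finset.univ : Finset (Fin c.k)), ‖f ((s i).symm w) ^ j‖ ≤
          (|C| * (cc⁻¹ * ((1 + ‖w‖) / m) ^ κ) ^ D) ^ j := by
        intro i _
        rw [norm_pow]
        refine pow_le_pow_left₀ (norm_nonneg _) ?_ _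
        refine (hC _).trans ?_
        rw [hcp i, hrad]
        gcongr
        exact le_abs_self C
      refine (Finset.sum_le_sum this).trans ?_
      simp
    unfold gg
    rw [norm_mul, norm_pow]
    refine (mul_le_mul_of_nonneg_right hS (by positivity)).trans (le_of_eq ?_)
    have hmax : max 1 a = a / m := by
      rw [hm]
      rcases le_total 1 a with h | h
      · rw [min_eq_left h, max_eq_right h, div_one]
      · rw [min_eq_right h, max_eq_left h, div_self ha0.ne']
    rw [hmax]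
    rw [mul_pow, mul_pow, ← pow_mul, mul_pow, ← pow_mul, ← pow_mul, div_pow, div_pow, pow_succ]
    ring

lemma gg_line (c : PCov d E) {cc : ℝ} (hcc : 0 < cc) {κ D : ℕ} {f : E → ℂ}
    (hf : Gw c cc κ D f) (j : ℕ) (w : Fin d → ℂ) (i : Fin d) :
    Differentiable ℂ (fun t : ℂ => gg c κ D f j (Function.update w i t)) := by
  have hup : Differentiable ℂ (fun t : ℂ => Function.update w i t) := differentiable_update w i
  have hev : Differentiable ℂ
      (fun t : ℂ => MvPolynomial.eval (Function.update w i t) c.h) := by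
    have h1 : (fun t : ℂ => MvPolynomial.eval (Function.update w i t) c.h) =
        fun t => (lin c.h w i).eval t := by
      funext t; rw [lin_eval]
    rw [h1]
    exact Polynomial.differentiable _
  -- differentiability where `h ≠ 0`
  have hne : ∀ t : ℂ, MvPolynomial.eval (Function.update w i t) c.h ≠ 0 →
      DifferentiableAt ℂ (fun t : ℂ => gg c κ D f j (Function.update w i t)) t := by
    intro t ht
    obtain ⟨r, hr, s, hs, hfib⟩ := fibre c ht
    have h1 : ∀ᶠ t' in 𝓝 t, Function.update w i t' ∈ ball (Function.update w i t) r :=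
      hup.continuous.continuousAt.eventually_mem (ball_mem_nhds _ hr)
    have h2 : (fun t : ℂ => gg c κ D f j (Function.update w i t)) =ᶠ[𝓝 t]
        fun t => (∑ a, (f ∘ (s a).symm) (Function.update w i t) ^ j) *
          MvPolynomial.eval (Function.update w i t) c.h ^ (κ * D * j + 1) := by
      filter_upwards [h1] with t' ht'
      obtain ⟨h3, h4⟩ := hfib _ ht'
      show S f j _ * _ = _
      rw [S_eq h3 h4]
      rfl
    refine DifferentiableAt.congr_of_eventuallyEq ?_ h2
    refine DifferentiableAt.mul ?_ ((hev t).pow _)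
    refine DifferentiableAt.fun_sum fun a _ => ?_
    refine DifferentiableAt.pow ?_ _
    have h5 : DifferentiableAt ℂ (f ∘ (s a).symm) (Function.update w i t) := by
      refine (hf.1 (s a) (hs a).1).differentiableAt ?_
      rw [(hs a).2]
      exact ball_mem_nhds _ hr
    exact h5.comp t (hup t)
  intro t
  by_cases ht : MvPolynomial.eval (Function.update w i t) c.h ≠ 0
  · exact hne t ht
  push Not at ht
  by_cases hP : lin c.h w i = 0
  · have h1 : (fun t : ℂ => gg c κ D f j (Function.update w i t)) = fun _ => 0 := by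
      funext t'
      refine gg_zero c κ D f j ?_
      rw [← lin_eval, hP, Polynomial.eval_zero]
    rw [h1]
    exact differentiableAt_const _
  -- an isolated zero
  refine (Complex.analyticAt_of_differentiable_on_punctured_nhds_of_continuousAt ?_ ?_).differentiableAt
  · have hfin : (↑(lin c.h w i).roots.toFinset : Set ℂ).Finite := Finset.finite_toSet _
    have h1 : ∀ᶠ t' in 𝓝[≠] t, t' ∉ ((↑(lin c.h w i).roots.toFinset : Set ℂ) \ {t}) := by
      have h2 : ((↑(lin c.h w i).roots.toFinset : Set ℂ) \ {t}).Finite := hfin.sdiff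
      have h3 : ∀ᶠ t' in 𝓝 t, t' ∉ ((↑(lin c.h w i).roots.toFinset : Set ℂ) \ {t}) :=
        h2.isClosed.isOpen_compl.mem_nhds (by simp)
      exact nhdsWithin_le_nhds h3
    filter_upwards [h1, self_mem_nhdsWithin] with t' ht' hne'
    refine hne t' fun h0 => ht' ⟨?_, hne'⟩
    simp only [Finset.mem_coe, Multiset.mem_toFinset]
    rw [Polynomial.mem_roots hP, Polynomial.IsRoot.def, lin_eval, h0]
  · obtain ⟨A, hA, hb⟩ := gg_bound c hcc hf j
    have h0 : gg c κ D f j (Function.update w i t) = 0 := gg_zero c κ D f j ht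
    show Tendsto (fun t : ℂ => gg c κ D f j (Function.update w i t)) (𝓝 t)
      (𝓝 (gg c κ D f j (Function.update w i t)))
    rw [h0]
    have hcont : Continuous (fun t : ℂ => A * (1 + ‖Function.update w i t‖) ^ (κ * D * j) *
        (max 1 ‖MvPolynomial.eval (Function.update w i t) c.h‖ ^ (κ * D * j) *
          ‖MvPolynomial.eval (Function.update w i t) c.h‖)) := by
      have e1 := hup.continuous
      have e2 := hev.continuous
      fun_prop
    have h3 := hcont.tendsto t
    rw [ht, norm_zero, mul_zero, mul_zero] at h3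
    exact squeeze_zero_norm (fun t => hb _) h3

lemma gg_growth (c : PCov d E) {cc : ℝ} (hcc : 0 < cc) {κ D : ℕ} {f : E → ℂ}
    (hf : Gw c cc κ D f) {j : ℕ} {M : ℕ}
    (hM : κ * D * j + (κ * D * j + 1) * c.h.totalDegree ≤ M) (w : Fin d → ℂ) (i : Fin d) :
    ∃ A : ℝ, ∀ t : ℂ, ‖gg c κ D f j (Function.update w i t)‖ ≤ A * (1 + ‖t‖) ^ M := by
  obtain ⟨A, hA, hb⟩ := gg_bound c hcc hf j
  obtain ⟨B, hB, hB1⟩ := mv_growth c.h
  set N := κ * D * j with hN
  set δ := c.h.totalDegree with hδ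
  have hB0 : 0 ≤ B := by linarith
  refine ⟨A * B ^ (N + 1) * (1 + ‖w‖) ^ M, fun t => ?_⟩
  set v := Function.update w i t with hv
  have h1 : 1 ≤ 1 + ‖v‖ := by linarith [norm_nonneg v]
  have h2 : ‖MvPolynomial.eval v c.h‖ ≤ B * (1 + ‖v‖) ^ δ := hB1 v
  have h3 : max 1 ‖MvPolynomial.eval v c.h‖ ≤ B * (1 + ‖v‖) ^ δ := by
    refine max_le ?_ h2
    exact one_le_mul_of_one_le_of_one_le hB (one_le_pow₀ h1)
  calc ‖gg c κ D f j v‖ ≤ A * (1 + ‖v‖) ^ N *
        (max 1 ‖MvPolynomial.eval v c.h‖ ^ N * ‖MvPolynomial.eval v c.h‖) := hb v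
    _ ≤ A * (1 + ‖v‖) ^ N * ((B * (1 + ‖v‖) ^ δ) ^ N * (B * (1 + ‖v‖) ^ δ)) := by gcongr
    _ = A * B ^ (N + 1) * (1 + ‖v‖) ^ (N + (N + 1) * δ) := by ring
    _ ≤ A * B ^ (N + 1) * (1 + ‖v‖) ^ M := by gcongr
    _ ≤ A * B ^ (N + 1) * ((1 + ‖w‖) * (1 + ‖t‖)) ^ M := by
        gcongr
        exact norm_update_le w i t
    _ = A * B ^ (N + 1) * (1 + ‖w‖) ^ M * (1 + ‖t‖) ^ M := by rw [mul_pow]; ring

/-- if the power sums vanish on a grid, `f` vanishes on the slice -/
lemma main (c : PCov d E) {cc : ℝ} (hcc : 0 < cc) {κ D : ℕ} {f : E → ℂ}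
    (hf : Gw c cc κ D f) {M : ℕ} (hM : κ * D * c.k + (κ * D * c.k + 1) * c.h.totalDegree ≤ M)
    (G : Finset ℂ) (hG : M < G.card) (I : Finset (Fin d)) (b : Fin d → ℂ)
    (h0 : ∀ y : E, (∀ i ∈ I, cp y i = b i) → (∀ i, i ∉ I → cp y i ∈ G) → f y = 0) :
    ∀ y ∈ Sl E I b, f y = 0 := by
  intro y hy
  have hy' : ∀ i ∈ I, cp y i = b i := hy
  have hne := c.hne y
  have hg : ∀ j : ℕ, 1 ≤ j → j ≤ c.k → gg c κ D f j (cp y) = 0 := by
    intro j hj1 hj
    refine grid (M := M) (fun w i => gg_line c hcc hf j w i) (fun w i => gg_growth c hcc hf ?_ w i)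
      G hG I b ?_ (cp y) hy'
    · refine le_trans ?_ hM
      gcongr
    · intro w hw1 hw2
      by_cases hw : MvPolynomial.eval w c.h = 0
      · exact gg_zero c κ D f j hw
      · unfold gg
        obtain ⟨r, hr, s, hs, hfib⟩ := fibre c hw
        obtain ⟨h1, h2⟩ := hfib w (mem_ball_self hr)
        rw [S_eq h1 h2, Finset.sum_eq_zero, zero_mul]
        intro a _
        have hcp : cp ((s a).symm w) = w :=
          (hs a).1.cp_symm (by rw [(hs a).2]; exact mem_ball_self hr)
        rw [h0 _ (by rw [hcp]; exact hw1) (by rw [hcp]; exact hw2)]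
        exact zero_pow (by omega)
  obtain ⟨r, hr, s, hs, hfib⟩ := fibre c hne
  obtain ⟨h1, h2⟩ := hfib (cp y) (mem_ball_self hr)
  have h3 : ∀ j : ℕ, 1 ≤ j → j ≤ c.k → ∑ i, f ((s i).symm (cp y)) ^ j = 0 := by
    intro j hj1 hj
    have h4 := hg j hj1 hj
    unfold gg at h4
    rw [S_eq h1 h2] at h4
    rcases mul_eq_zero.1 h4 with h5 | h5
    · exact h5
    · exact absurd h5 (pow_ne_zero _ hne)
  have h6 := eq_zero_of_psum (fun i => f ((s i).symm (cp y))) h3
  have h7 : y ∈ (cp ⁻¹' {cp y} : Set E) := by simp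
  rw [h2] at h7
  obtain ⟨i, hi⟩ := h7
  rw [← hi]
  exact h6 i

/-- the fibres have at most `k` points -/
lemma fibre_finite (c : PCov d E) (w : Fin d → ℂ) : ∃ F : Finset E, F.card ≤ c.k ∧
    ∀ y : E, cp y = w → y ∈ F := by
  classical
  by_cases hw : MvPolynomial.eval w c.h = 0
  · refine ⟨∅, by simp, fun y hy => ?_⟩
    have := c.hne y
    rw [hy] at this
    exact absurd hw this
  · obtain ⟨r, hr, s, hs, hfib⟩ := fibre c hw
    obtain ⟨h1, h2⟩ := hfib w (mem_ball_self hr)
    refine ⟨Finset.univ.image (fun i => (s i).symm w), ?_, fun y hy => ?_⟩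
    · refine Finset.card_image_le.trans ?_
      simp
    · have : y ∈ (cp ⁻¹' {w} : Set E) := hy
      rw [h2] at this
      obtain ⟨i, hi⟩ := this
      exact Finset.mem_image.2 ⟨i, Finset.mem_univ _, hi⟩

/-- **CNT-JET, points version.** -/
theorem exists_points (c : PCov d E) (κ : ℕ) : ∃ K : ℕ, ∀ cc : ℝ, 0 < cc → ∀ (D : ℕ)
    (I : Finset (Fin d)) (b : Fin d → ℂ), ∃ Q : Finset E,
      Q.card ≤ c.k * (K * (D + 1) + 1) ^ (d - I.card) ∧
      (∀ y ∈ Q, y ∈ Sl E I b) ∧
      ∀ f : E → ℂ, Gw c cc κ D f → (∀ y ∈ Q, f y = 0) → ∀ y ∈ Sl E I b, f y = 0 := by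
  classical
  refine ⟨κ * c.k * (1 + c.h.totalDegree) + c.h.totalDegree, fun cc hcc D I b => ?_⟩
  set K := κ * c.k * (1 + c.h.totalDegree) + c.h.totalDegree with hK
  have hM : κ * D * c.k + (κ * D * c.k + 1) * c.h.totalDegree ≤ K * (D + 1) := by
    rw [hK]
    have : (κ * c.k * (1 + c.h.totalDegree) + c.h.totalDegree) * (D + 1) =
      (κ * D * c.k + (κ * D * c.k + 1) * c.h.totalDegree) +
        (κ * c.k * (1 + c.h.totalDegree) + c.h.totalDegree * D) := by ring
    omega
  let G : Finset ℂ := (Finset.range (K * (D + 1) + 1)).image (fun n : ℕ => (n : ℂ))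
  have hGc : G.card = K * (D + 1) + 1 := by
    rw [Finset.card_image_of_injective _ Nat.cast_injective, Finset.card_range]
  let Gr : Finset (Fin d → ℂ) := Fintype.piFinset fun i => if i ∈ I then {b i} else G
  have hGr : Gr.card = (K * (D + 1) + 1) ^ (d - I.card) := by
    rw [Fintype.card_piFinset]
    have h1 : ∀ i, (if i ∈ I then ({b i} : Finset ℂ) else G).card =
        if i ∈ I then 1 else (K * (D + 1) + 1) := by
      intro i
      by_cases hi : i ∈ I
      · simp [hi]
      · simp [hi, hGc]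
    simp only [h1]
    rw [Finset.prod_ite]
    simp only [Finset.prod_const_one, one_mul, Finset.prod_const]
    congr 1
    have h2 : (Finset.univ.filter fun i => i ∉ I) = Iᶜ := by
      ext i; simp
    rw [h2, Finset.card_compl, Fintype.card_fin]
  choose F hF1 hF2 using fibre_finite c
  refine ⟨(Gr.biUnion F).filter (fun y => y ∈ Sl E I b), ?_, ?_, ?_⟩
  · refine (Finset.card_le_card (Finset.filter_subset _ _)).trans ?_
    refine Finset.card_biUnion_le.trans ?_
    refine (Finset.sum_le_sum fun w _ => hF1 w).trans ?_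
    rw [Finset.sum_const, hGr, smul_eq_mul, mul_comm]
  · intro y hy
    exact (Finset.mem_filter.1 hy).2
  · intro f hf hQ
    refine main c hcc hf hM G (by rw [hGc]; omega) I b fun y hy1 hy2 => ?_
    refine hQ y (Finset.mem_filter.2 ⟨Finset.mem_biUnion.2 ⟨cp y, ?_, hF2 (cp y) y rfl⟩, hy1⟩)
    rw [Fintype.mem_piFinset]
    intro i
    by_cases hi : i ∈ I
    · simp [hi, hy1 i hi]
    · simp only [hi, if_false]
      exact hy2 i hi

/-- restriction to the slice -/
def rs (E : Type*) [TopologicalSpace E] [RDom d E] (I : Finset (Fin d)) (b : Fin d → ℂ) :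
    (E → ℂ) →ₗ[ℂ] (Sl E I b → ℂ) :=
  LinearMap.funLeft ℂ ℂ (Subtype.val : Sl E I b → E)

@[simp] lemma rs_apply (I : Finset (Fin d)) (b : Fin d → ℂ) (f : E → ℂ) (y : Sl E I b) :
    rs E I b f y = f y := rfl

/-- **CNT-JET, dimension version.** -/
theorem slice_dim (c : PCov d E) (κ : ℕ) : ∃ K : ℕ, ∀ cc : ℝ, 0 < cc → ∀ (D : ℕ)
    (I : Finset (Fin d)) (b : Fin d → ℂ) (V : Submodule ℂ (E → ℂ)), (∀ f ∈ V, Gw c cc κ D f) →
      Module.Finite ℂ (V.map (rs E I b)) ∧
      Module.finrank ℂ (V.map (rs E I b)) ≤ c.k * (K * (D + 1) + 1) ^ (d - I.card) := by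
  classical
  obtain ⟨K, hK⟩ := exists_points c κ
  refine ⟨K, fun cc hcc D I b V hV => ?_⟩
  obtain ⟨Q, hQ1, hQ2, hQ3⟩ := hK cc hcc D I b
  let L : V.map (rs E I b) →ₗ[ℂ] (Q → ℂ) :=
    { toFun := fun g q => g.1 ⟨q.1, hQ2 q.1 q.2⟩
      map_add' := fun g g' => by funext q; simp
      map_smul' := fun a g => by funext q; simp }
  have hL : Function.Injective L := by
    rw [injective_iff_map_eq_zero]
    rintro ⟨g, hg⟩ hg0
    obtain ⟨f, hfV, rfl⟩ := hg
    have h1 : ∀ y ∈ Q, f y = 0 := by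
      intro y hy
      have := congrFun hg0 ⟨y, hy⟩
      exact this
    have h2 := hQ3 f (hV f hfV) h1
    apply Subtype.ext
    funext y
    exact h2 y.1 y.2
  have hfin : Module.Finite ℂ (V.map (rs E I b)) := Module.Finite.of_injective L hL
  refine ⟨hfin, ?_⟩
  refine (LinearMap.finrank_le_finrank_of_injective hL).trans ?_
  rw [Module.finrank_fintype_fun_eq_card, Fintype.card_coe]
  exact hQ1

end

end Crest.Agent.R276.CntJet_691
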