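import Mathlib
import Crest.Agent.R276.SliH_217
import Crest.Agent.R276.CntJet_691

/-!
# R276, leaf CNT-UP (slice lemma), part I (helper217)

The final upper bound for the spaces of leading coefficients, in the interface `CntDefs_857`.
-/

set_option autoImplicit false
set_option linter.unusedSectionVars false

open Set Filter Topology Metric Module MeasureTheory

namespace Crest.Agent.R276.SliI_217

open Crest.Agent.R271.Ho51 Crest.Agent.R276.CntDefs_857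
open Crest.Agent.R276.SliG_217 Crest.Agent.R276.SliH_217

variable {d : ℕ} {E : Type*} [TopologicalSpace E] [RDom d E]

theorem gw_iff {c : PCov d E} {cc : ℝ} {κ D' : ℕ} {f : E → ℂ} (hf : Hol f)
    (h : ∃ C : ℝ, ∀ y, ‖f y‖ ≤ C * (1 / radf c.h cc κ (cp y)) ^ D') :
    CntJet_691.Gw c cc κ D' f := by
  obtain ⟨C, hC⟩ := h
  refine ⟨hf, C, fun y => ?_⟩
  have := hC y
  rwa [one_div] at this

/-- polynomial growth only: `dim ≤ C (D' + 1)^d` -/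
theorem up_growth (c : PCov d E) (κ : ℕ) : ∃ C0 : ℕ, ∀ cc : ℝ, 0 < cc → ∀ (D' : ℕ)
    (V : Submodule ℂ (E → ℂ)),
    (∀ f ∈ V, Hol f ∧ ∃ C : ℝ, ∀ y, ‖f y‖ ≤ C * (1 / radf c.h cc κ (cp y)) ^ D') →
    Bd V (C0 * (D' + 1) ^ d) := by
  obtain ⟨K, hK⟩ := CntJet_691.slice_dim c κ
  refine ⟨c.k * (K + 1) ^ d, fun cc hcc D' V hV => ?_⟩
  obtain ⟨h1, h2⟩ := hK cc hcc D' ∅ 0 V (fun f hf => gw_iff (hV f hf).1 (hV f hf).2)
  have h3 : Bd V (c.k * (K * (D' + 1) + 1) ^ (d - (∅ : Finset (Fin d)).card)) := by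
    refine Bd.of_map_injective ⟨h1, h2⟩ fun f _ hf => ?_
    funext x
    have : x ∈ CntJet_691.Sl E (∅ : Finset (Fin d)) 0 := by intro i hi; simp at hi
    exact congrFun hf ⟨x, this⟩
  refine h3.le ?_
  simp only [Finset.card_empty, Nat.sub_zero]
  rw [mul_assoc, ← mul_pow]
  gcongr
  nlinarith

variable {M : Type*} [TopologicalSpace M] [RDom (d + 1) M] [MeasurableSpace M] {μ : Measure M}

/-- **upper bound of COUNT** -/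
theorem upCount (D : DChart M E μ) {φ ψ : M → ℝ} {k : ℤ} {ρ : ℕ} (F : Full D φ ψ k ρ)
    (hρ : ρ ≤ d) : ∃ C0 : ℕ, ∀ (k' B' D' : ℕ) (V : Submodule ℂ (E → ℂ)),
    (∀ f ∈ V, Hol f ∧ (∃ C : ℝ, ∀ y, ‖f y‖ ^ 2 * Real.exp (-F.τ y) ^ k' ≤ C * (1 / D.r y) ^ B') ∧
      ∃ C : ℝ, ∀ y, ‖f y‖ ≤ C * (1 / D.r y) ^ D') →
    Bd V (C0 * (B' + 1) ^ (d - ρ) * (D' + 1) ^ ρ) := by
  obtain ⟨C0, hC0⟩ := up_full D F hρ
  obtain ⟨K, hK⟩ := CntJet_691.slice_dim D.cov D.κ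
  refine ⟨C0 ^ (d - ρ) * (D.cov.k * (K + 1) ^ ρ), fun k' B' D' V hV => ?_⟩
  have h1 := hC0 k' B' (D.cov.k * (K * (D' + 1) + 1) ^ ρ) V
    (fun f hf => ⟨(hV f hf).1, (hV f hf).2.1⟩) (by
      intro I hI m
      obtain ⟨h2, h3⟩ := hK D.c D.hc0 D' I (fun i => (m i : ℂ)) V
        (fun f hf => gw_iff (hV f hf).1 (hV f hf).2.2)
      rw [hI, show d - (d - ρ) = ρ by omega] at h3
      exact ⟨h2, h3⟩)
  refine h1.le ?_
  calc (C0 * (B' + 1)) ^ (d - ρ) * (D.cov.k * (K * (D' + 1) + 1) ^ ρ)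
      ≤ (C0 * (B' + 1)) ^ (d - ρ) * (D.cov.k * ((K + 1) * (D' + 1)) ^ ρ) := by
        gcongr
        nlinarith
    _ = C0 ^ (d - ρ) * (D.cov.k * (K + 1) ^ ρ) * (B' + 1) ^ (d - ρ) * (D' + 1) ^ ρ := by
        rw [mul_pow, mul_pow]; ring

/-- the form used in the count: `dim ≤ C n^d t^ρ` -/
theorem upCount_nt (D : DChart M E μ) {φ ψ : M → ℝ} {k : ℤ} {ρ : ℕ} (F : Full D φ ψ k ρ)
    (hρ : ρ ≤ d) (A B : ℕ) : ∃ C1 : ℕ, ∀ (n t : ℕ), 1 ≤ n → 1 ≤ t → ∀ (k' B' D' : ℕ),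
    B' ≤ B * n → D' ≤ A * (n * t) → ∀ V : Submodule ℂ (E → ℂ),
    (∀ f ∈ V, Hol f ∧ (∃ C : ℝ, ∀ y, ‖f y‖ ^ 2 * Real.exp (-F.τ y) ^ k' ≤ C * (1 / D.r y) ^ B') ∧
      ∃ C : ℝ, ∀ y, ‖f y‖ ≤ C * (1 / D.r y) ^ D') →
    Bd V (C1 * n ^ d * t ^ ρ) := by
  obtain ⟨C0, hC0⟩ := upCount D F hρ
  refine ⟨C0 * (B + 1) ^ (d - ρ) * (A + 1) ^ ρ, fun n t hn ht k' B' D' hB hD V hV => ?_⟩
  refine (hC0 k' B' D' V hV).le ?_
  have hnt : 1 ≤ n * t := Nat.mul_pos hn ht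
  have e1 : B' + 1 ≤ (B + 1) * n := by nlinarith
  have e2 : D' + 1 ≤ (A + 1) * (n * t) := by nlinarith
  calc C0 * (B' + 1) ^ (d - ρ) * (D' + 1) ^ ρ
      ≤ C0 * ((B + 1) * n) ^ (d - ρ) * ((A + 1) * (n * t)) ^ ρ := by gcongr
    _ = C0 * (B + 1) ^ (d - ρ) * (A + 1) ^ ρ * (n ^ (d - ρ) * n ^ ρ) * t ^ ρ := by
        rw [mul_pow, mul_pow, mul_pow]; ring
    _ = C0 * (B + 1) ^ (d - ρ) * (A + 1) ^ ρ * n ^ d * t ^ ρ := by
        rw [← pow_add, Nat.sub_add_cancel hρ]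

end Crest.Agent.R276.SliI_217
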