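import Crest.Agent.R276.CntD_857
import Crest.Agent.R276.SliI_217
import Crest.Agent.R276.CntAsm_505
import Crest.Agent.R276.CntLow3_804

/-!
# R276, leaf COUNT (helper857): the counting theorem

For `t ≥ t₀` and `n` large there are many `L²` sections of `nK + ntL` without poles (and vanishing
to any prescribed order) along a finite family of divisors.
-/

set_option autoImplicit false

noncomputable section

open Set Filter Topology MeasureTheory Metric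

namespace Crest.Agent.R276.CntMain_857

open Crest.Agent.R271.Ho51 Crest.Agent.R276.CntDefs_857 Crest.Agent.R276.SliA_217
  Crest.Agent.R276.SliG_217 Crest.Agent.R276.SliI_217 Crest.Agent.R276.CntAsm_505
  Crest.Agent.R276.CntA_857 Crest.Agent.R276.CntB_857 Crest.Agent.R276.CntC_857
  Crest.Agent.R276.CntD_857

variable {d : ℕ} {M : Type} [TopologicalSpace M] [RDom (d + 1) M] [MeasurableSpace M]
    [BorelSpace M] {μ : Measure M}

/-- the sections (zero for `n = 0` or `t = 0`) -/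
def X (μ : Measure M) {φ ψ : M → ℝ} (hφ : Measurable φ) (hψ : Measurable ψ) (n t : ℕ) :
    Submodule ℂ (M → ℂ) := by
  classical
  exact if 1 ≤ n ∧ 1 ≤ t then V μ hφ hψ n t else ⊥

theorem mem_X {φ ψ : M → ℝ} (hφ : Measurable φ) (hψ : Measurable ψ) {n t : ℕ} (hn : 1 ≤ n)
    (ht : 1 ≤ t) {F : M → ℂ} : F ∈ X μ hφ hψ n t ↔ F ∈ V μ hφ hψ n t := by
  unfold X
  rw [if_pos ⟨hn, ht⟩]

theorem X_le {φ ψ : M → ℝ} (hφ : Measurable φ) (hψ : Measurable ψ) (n t : ℕ) :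
    X μ hφ hψ n t ≤ V μ hφ hψ n t := by
  unfold X
  split_ifs
  · exact le_refl _
  · exact bot_le

theorem X_holS {φ ψ : M → ℝ} (hφ : Measurable φ) (hψ : Measurable ψ) (n t : ℕ) :
    X μ hφ hψ n t ≤ HolS M := fun _ hF => (X_le hφ hψ n t hF).1

theorem X_zero {φ ψ : M → ℝ} (hφ : Measurable φ) (hψ : Measurable ψ) {n t : ℕ}
    (h : ¬ (1 ≤ n ∧ 1 ≤ t)) (F : X μ hφ hψ n t) : F = 0 := by
  have h2 : X μ hφ hψ n t = ⊥ := by unfold X; rw [if_neg h]
  have h1 : F.1 ∈ (⊥ : Submodule ℂ (M → ℂ)) := h2 ▸ F.2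
  rw [Submodule.mem_bot] at h1
  exact Subtype.ext h1

variable {ι : Type*} [Fintype ι] {E : ι → Type*} [∀ i, TopologicalSpace (E i)]
  [∀ i, RDom d (E i)]

/-- the coefficient maps -/
def T {φ ψ : M → ℝ} (hφ : Measurable φ) (hψ : Measurable ψ) (D : ∀ i, DChart M (E i) μ)
    (k : ι → ℤ) (i : ι) (n t : ℕ) (l : ℤ) : X μ hφ hψ n t →ₗ[ℂ] (E i → ℂ) :=
  (coLin (D i) n t (k i) l).comp (Submodule.inclusion (X_holS hφ hψ n t))

omit [Fintype ι] in
theorem T_apply {φ ψ : M → ℝ} (hφ : Measurable φ) (hψ : Measurable ψ)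
    (D : ∀ i, DChart M (E i) μ) (k : ι → ℤ) (i : ι) (n t : ℕ) (l : ℤ) (F : X μ hφ hψ n t) :
    T hφ hψ D k i n t l F = co (D i) n t (k i) F.1 l := rfl

omit [MeasurableSpace M] [BorelSpace M] in
/-- the number of differentials -/
theorem nu_le {φ ψ : M → ℝ} {ν : ℕ} (G : Good φ ψ ν) : ν ≤ d + 1 := by
  have h1 := G.ind.fintype_card_le_finrank
  simpa using h1

/-- **the counting theorem** -/
theorem main [T2Space M] [SecondCountableTopology M] (hμ : IsLeb μ) {ρ : M → ℝ} (hρ : Sm ρ)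
    (hcpt : ∀ c, IsCompact {x | ρ x ≤ c}) (hL : ∀ x w, nsq w ≤ Levi ρ x w)
    {φ : M → ℝ} (hφ : Sm φ) (hφ0 : ∀ x w, 0 ≤ Levi φ x w)
    {ψ : M → ℝ} (hψ : Sm ψ) (hψ0 : ∀ x w, 0 ≤ Levi ψ x w) {ν : ℕ} (G : Good φ ψ ν)
    (D : ∀ i, DChart M (E i) μ) (k : ι → ℤ) (bad : Finset ι) (hν : bad.Nonempty → 0 < ν)
    (P : ∀ i ∈ bad, Nonempty (Full (D i) φ ψ (k i) (ν - 1)))
    (hG1 : ∀ i ∈ bad, Gen (D i) φ ψ (k i) 1)
    (Q : ∀ i ∉ bad, Nonempty (Gro (D i) φ ψ (k i)))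
    (hG0 : ∀ i ∉ bad, Gen (D i) φ ψ (k i) 0) (a : ℕ) :
    ∃ c : ℝ, 0 < c ∧ ∃ t₀ : ℕ, ∀ t ≥ t₀, ∃ N : ℕ, ∀ n ≥ N, ∃ (m : ℕ) (f : Fin m → M → ℂ),
      LinearIndependent ℂ f ∧ c * (n : ℝ) ^ (d + 1) * (t : ℝ) ^ ν ≤ m ∧
      ∀ j, f j ∈ V μ hφ.continuous.measurable hψ.continuous.measurable n t ∧
        ∀ i, ∀ l < (a : ℤ), co (D i) n t (k i) (f j) l = 0 := by
  have hφm := hφ.continuous.measurable
  have hψm := hψ.continuous.measurable
  obtain ⟨c, hc, N0, hlow⟩ := CntLow3_804.low_of_good (μ := μ) hμ hρ hcpt hL hφ hφ0 hψ hψ0 G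
  have hνd : ν - 1 ≤ d := by have := nu_le G; omega
  refine ⟨c / 2, by positivity, ?_⟩
  -- the bounds at the bad divisors
  have hbad : ∀ i ∈ bad, ∃ C1 : ℕ, ∀ n t : ℕ, 1 ≤ n → a ≤ n → 1 ≤ t → ∀ l : ℤ, -n < l → l < a →
      Bd ((Lt (T hφm hψm D k i n t) l).map (T hφm hψm D k i n t l))
        (C1 * n ^ d * t ^ (ν - 1)) := by
    intro i hi
    obtain ⟨Pi⟩ := P i hi
    obtain ⟨A, hA⟩ := pg (D i) hφm hψm Pi.gro
    obtain ⟨B, hB⟩ := gr (D i) hφm hψm Pi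
    obtain ⟨C1, hC1⟩ := upCount_nt (D i) Pi hνd (4 * A) (3 * B)
    refine ⟨C1, fun n t hn han ht l hl1 hl2 => ?_⟩
    have hln : l.natAbs ≤ n := by omega
    have hnt : n ≤ n * t := Nat.le_mul_of_pos_right n ht
    refine hC1 n t hn ht (n * t) (B * (n + l.natAbs + 1)) (A * (n * t + n + l.natAbs + 1)) ?_ ?_ _ ?_
    · calc B * (n + l.natAbs + 1) ≤ B * (3 * n) := Nat.mul_le_mul_left B (by omega)
        _ = 3 * B * n := by ring
    · calc A * (n * t + n + l.natAbs + 1) ≤ A * (4 * (n * t)) := Nat.mul_le_mul_left A (by omega)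
        _ = 4 * A * (n * t) := by ring
    · rintro f ⟨F, hF, rfl⟩
      rw [SetLike.mem_coe, mem_Lt] at hF
      have hFV : F.1 ∈ V μ hφm hψm n t := X_le hφm hψm n t F.2
      exact ⟨co_hol (D i) n t (k i) hFV.1 l, hB n t hn l F.1 hFV (fun l' hl' => hF l' hl'),
        hA n t hn l F.1 hFV⟩
  have hgood : ∀ i ∉ bad, ∃ C1 : ℕ, ∀ n t : ℕ, 1 ≤ n → a ≤ n → 1 ≤ t → ∀ l : ℤ, 0 ≤ l → l < a →
      Bd ((Lt (T hφm hψm D k i n t) l).map (T hφm hψm D k i n t l))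
        (C1 * (n * t) ^ d) := by
    intro i hi
    obtain ⟨Qi⟩ := Q i hi
    obtain ⟨A, hA⟩ := pg (D i) hφm hψm Qi
    obtain ⟨C0, hC0⟩ := up_growth (D i).cov (D i).κ
    refine ⟨C0 * (4 * A + 1) ^ d, fun n t hn han ht l hl1 hl2 => ?_⟩
    have hln : l.natAbs ≤ n := by omega
    have hnt : n ≤ n * t := Nat.le_mul_of_pos_right n ht
    refine (hC0 (D i).c (D i).hc0 (A * (n * t + n + l.natAbs + 1)) _ ?_).le ?_
    · rintro f ⟨F, hF, rfl⟩
      have hFV : F.1 ∈ V μ hφm hψm n t := X_le hφm hψm n t F.2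
      exact ⟨co_hol (D i) n t (k i) hFV.1 l, hA n t hn l F.1 hFV⟩
    · have h1 : A * (n * t + n + l.natAbs + 1) + 1 ≤ (4 * A + 1) * (n * t) := by
        have h2 : A * (n * t + n + l.natAbs + 1) ≤ A * (4 * (n * t)) :=
          Nat.mul_le_mul_left A (by omega)
        have h3 : (4 * A + 1) * (n * t) = A * (4 * (n * t)) + n * t := by ring
        omega
      calc C0 * (A * (n * t + n + l.natAbs + 1) + 1) ^ d ≤ C0 * ((4 * A + 1) * (n * t)) ^ d := by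
            gcongr
        _ = C0 * (4 * A + 1) ^ d * (n * t) ^ d := by rw [mul_pow]; ring
  choose! Cb hCb using hbad
  choose! Cg hCg using hgood
  obtain ⟨t₀, ht₀⟩ := count (d := d) (ν := ν) (a := a) (T hφm hψm D k) hc (N₀ := max N0 1)
    (fun n hn t ht => by
      obtain ⟨m, f, hf, hf2, hm⟩ := hlow n (le_trans (le_max_left _ _) hn) t ht
      have hn1 : 1 ≤ n := le_trans (le_max_right _ _) hn
      have hX : ∀ j, f j ∈ X μ hφm hψm n t := fun j =>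
        (mem_X hφm hψm hn1 ht).2 ⟨(hf2 j).1, (hf2 j).2⟩
      refine ⟨m, fun j => ⟨f j, hX j⟩, ?_, hm⟩
      have h1 : (X μ hφm hψm n t).subtype ∘ (fun j => (⟨f j, hX j⟩ : X μ hφm hψm n t)) = f := rfl
      rw [← h1] at hf
      exact LinearIndependent.of_comp _ hf)
    bad hν
    (fun i hi n t F l hl => by
      by_cases h : 1 ≤ n ∧ 1 ≤ t
      · rw [T_apply]
        exact co_van (D i) hφm hψm (hG1 i hi) h.1 (X_le hφm hψm n t F.2) (by
          push_cast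
          omega)
      · rw [X_zero hφm hψm h F, map_zero])
    (fun i hi n t F l hl => by
      by_cases h : 1 ≤ n ∧ 1 ≤ t
      · rw [T_apply]
        exact co_van (D i) hφm hψm (hG0 i hi) h.1 (X_le hφm hψm n t F.2) (by
          push_cast
          omega)
      · rw [X_zero hφm hψm h F, map_zero])
    (C := ((∑ i, Cb i : ℕ) : ℝ))
    (fun i hi t ht => ⟨max a 1, fun n hn l hl1 hl2 => ⟨Cb i * n ^ d * t ^ (ν - 1), by
        have h1 : Cb i ≤ ∑ i, Cb i := Finset.single_le_sum (fun _ _ => Nat.zero_le _)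
          (Finset.mem_univ i)
        have h2 : Cb i * n ^ d * t ^ (ν - 1) ≤ (∑ i, Cb i) * n ^ d * t ^ (ν - 1) := by gcongr
        exact_mod_cast h2,
      hCb i hi n t (le_trans (le_max_right _ _) hn) (le_trans (le_max_left _ _) hn) ht l hl1 hl2⟩⟩)
    (fun i hi t ht => ⟨(Cg i : ℝ) * (t : ℝ) ^ d, max a 1, fun n hn l hl1 hl2 =>
      ⟨Cg i * (n * t) ^ d, by
        push_cast
        rw [mul_pow]
        apply le_of_eq; ring,
      hCg i hi n t (le_trans (le_max_right _ _) hn) (le_trans (le_max_left _ _) hn) ht l hl1 hl2⟩⟩)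
  refine ⟨max t₀ 1, fun t ht => ?_⟩
  obtain ⟨N, hN⟩ := ht₀ t (le_trans (le_max_left _ _) ht)
  refine ⟨max N 1, fun n hn => ?_⟩
  obtain ⟨m, f, hf, hm, hf2⟩ := hN n (le_trans (le_max_left _ _) hn)
  refine ⟨m, fun j => (f j).1, ?_, hm, fun j => ⟨X_le hφm hψm n t (f j).2, fun i l hl => ?_⟩⟩
  · exact hf.map' (X μ hφm hψm n t).subtype (Submodule.ker_subtype _)
  · exact hf2 j i l hl

end Crest.Agent.R276.CntMain_857
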