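import Crest.Agent.R276.OTS2_189
import Crest.Agent.R273.OTX_34

/-!
# Row 276, leaf OT (helper189): the Ohsawa–Takegoshi theorem for hyperplane sections

`M` a Stein Riemann domain over `ℂ^{n+1}` (smooth exhaustion `ρ` with `nsq w ≤ Levi ρ x w`),
`h x = ell a (cp x)`, `D = Hs M a = {h = 0}`.  The constants only depend on `α`.
-/

set_option autoImplicit false
set_option linter.unusedSectionVars false
set_option maxHeartbeats 800000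

noncomputable section

open Set Filter Topology MeasureTheory Metric
open scoped ENNReal

namespace Crest.Agent.R276.OTF_189

open Crest.Agent.R271 Crest.Agent.R271.Ho51 Crest.Agent.R273.Dir73 Crest.Agent.R273.OTU_34
  Crest.Agent.R273.OTD_34 Crest.Agent.R273.OTE_34 Crest.Agent.R273.OTA_34 Crest.Agent.R273.OTX_34
  Crest.Agent.R276.EngU_29 Crest.Agent.R276.LimW_29 Crest.Agent.R273.Reg_844
  Crest.Agent.R276.OTS_189

variable {n : ℕ} {M : Type*} [TopologicalSpace M] [RDom (n + 1) M] [T2Space M]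
  [SecondCountableTopology M] [MeasurableSpace M] [BorelSpace M] {μ : Measure M}
  {a : Fin (n + 1) → ℂ} [MeasurableSpace (Hs M a)] [BorelSpace (Hs M a)] {μD : Measure (Hs M a)}

/-- **Ohsawa–Takegoshi**, psh weight `u` -/
theorem ot_slice_psh (hμ : IsLeb μ) (hμD : IsLeb μD) {ρ : M → ℝ} (hρ : Sm ρ)
    (hcpt : ∀ t : ℝ, IsCompact {x | ρ x ≤ t}) (hL : ∀ x w, nsq w ≤ Levi ρ x w)
    {Ψ Φ : M → ℝ} (hΨ : Sm Ψ) (hΦ : Sm Φ) (hs : ∀ x, ‖ell a (cp x)‖ ^ 2 ≤ Real.exp (Ψ x))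
    {α : ℝ} (hα : 0 < α) (hα1 : α ≤ 1) (hΨ0 : ∀ x w, 0 ≤ Levi Ψ x w)
    (hΦΨ : ∀ x w, α * Levi Ψ x w ≤ Levi Φ x w) {u : M → ℝ} (hu : PSH u) {f : Hs M a → ℂ}
    (hf : Hol f) {K : ℝ≥0∞} (hK : K ≠ ⊤)
    (hint : ∫⁻ y : Hs M a, ENNReal.ofReal (‖f y‖ ^ 2 * Real.exp (-Φ (ι y))) *
      ENNReal.ofReal (Real.exp (-u (ι y))) ∂μD ≤ K) :
    ∃ F : M → ℂ, Hol F ∧ (∀ y : Hs M a, F (ι y) = f y) ∧
      ∫⁻ x, ENNReal.ofReal (‖F x‖ ^ 2) *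
        ENNReal.ofReal (Real.exp (-(Φ x + Ψ x)) * Real.exp (-u x)) ∂μ ≤
          ENNReal.ofReal (Cot α * Real.pi) * K := by
  obtain ⟨F1, hF1, hF1f⟩ := ext_slice hμ hρ hcpt hL hf
  have htube : TubeB μ (fun x => ell a (cp x)) F1 Ψ Φ ρ u (ENNReal.ofReal Real.pi * K) := by
    refine tubeB_slice hμ hμD hρ.continuous hcpt hΨ.continuous hΦ.continuous
      (T7a297.Hol.continuous hF1) (mul_le_mul_right (le_trans (le_of_eq ?_) hint) _)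
    refine lintegral_congr fun y => ?_
    rw [hF1f]
  obtain ⟨F, hF, hF0, hFb⟩ := ot_psh hμ hρ hcpt hL (hol_ell a) ((hol_iff F1).1 hF1) hΨ hΦ hs hα hα1
    hΨ0 hΦΨ hu (ENNReal.mul_ne_top ENNReal.ofReal_ne_top hK) htube
  refine ⟨F, hF, fun y => ?_, hFb.trans (le_of_eq ?_)⟩
  · rw [hF0 _ (ell_ι y), hF1f]
  · rw [← mul_assoc, ← ENNReal.ofReal_mul (Cot_nonneg α)]

/-- **Ohsawa–Takegoshi**, weight `1/b`, `log b` psh (`b = 0` allowed; `x/0 = ⊤`, `0/0 = 0`) -/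
theorem ot_slice (hμ : IsLeb μ) (hμD : IsLeb μD) {ρ : M → ℝ} (hρ : Sm ρ)
    (hcpt : ∀ t : ℝ, IsCompact {x | ρ x ≤ t}) (hL : ∀ x w, nsq w ≤ Levi ρ x w)
    {Ψ Φ : M → ℝ} (hΨ : Sm Ψ) (hΦ : Sm Φ) (hs : ∀ x, ‖ell a (cp x)‖ ^ 2 ≤ Real.exp (Ψ x))
    {α : ℝ} (hα : 0 < α) (hα1 : α ≤ 1) (hΨ0 : ∀ x w, 0 ≤ Levi Ψ x w)
    (hΦΨ : ∀ x w, α * Levi Ψ x w ≤ Levi Φ x w) {b : M → ℝ} (hb : LPsh b) {f : Hs M a → ℂ}
    (hf : Hol f) {K : ℝ≥0∞} (hK : K ≠ ⊤)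
    (hint : ∫⁻ y : Hs M a, ENNReal.ofReal (‖f y‖ ^ 2 * Real.exp (-Φ (ι y))) /
      ENNReal.ofReal (b (ι y)) ∂μD ≤ K) :
    ∃ F : M → ℂ, Hol F ∧ (∀ y : Hs M a, F (ι y) = f y) ∧
      ∫⁻ x, ENNReal.ofReal (‖F x‖ ^ 2 * Real.exp (-(Φ x + Ψ x))) / ENNReal.ofReal (b x) ∂μ ≤
          ENNReal.ofReal (Cot α * Real.pi) * K := by
  obtain ⟨F1, hF1, hF1f⟩ := ext_slice hμ hρ hcpt hL hf
  have htube : ∀ δ : ℝ, 0 < δ → TubeB μ (fun x => ell a (cp x)) F1 Ψ Φ ρ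
      (fun x => Real.log (b x + δ)) (ENNReal.ofReal Real.pi * K) := by
    intro δ hδ
    refine tubeB_slice hμ hμD hρ.continuous hcpt hΨ.continuous hΦ.continuous
      (T7a297.Hol.continuous hF1) (mul_le_mul_right (le_trans (lintegral_mono fun y => ?_) hint) _)
    beta_reduce
    rw [hF1f, ENNReal.div_eq_inv_mul, mul_comm]
    refine mul_le_mul_left ?_ _
    have hb0 := hb.nonneg (ι y)
    rw [Real.exp_neg, Real.exp_log (by positivity), ENNReal.ofReal_inv_of_pos (by positivity)]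
    exact ENNReal.inv_le_inv.2 (ENNReal.ofReal_le_ofReal (by linarith))
  obtain ⟨F, hF, hF0, hFb⟩ := otb hμ hρ hcpt hL (hol_ell a) ((hol_iff F1).1 hF1) hΨ hΦ hs hα hα1
    hΨ0 hΦΨ hb (ENNReal.mul_ne_top ENNReal.ofReal_ne_top hK) htube
  refine ⟨F, hF, fun y => ?_, hFb.trans (le_of_eq ?_)⟩
  · rw [hF0 _ (ell_ι y), hF1f]
  · rw [← mul_assoc, ← ENNReal.ofReal_mul (Cot_nonneg α)]

end Crest.Agent.R276.OTF_189
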