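import Crest.Agent.R276.ExtB_723
import Crest.Agent.R276.OTF_189
import Crest.Agent.R276.LPsh_29

/-!
# Row 276, D-END (helper723): the Ohsawa–Takegoshi and restriction hypotheses are theorems
-/

set_option autoImplicit false
set_option linter.unusedSectionVars false

noncomputable section

open Set Filter Topology MeasureTheory
open scoped ENNReal

namespace Crest.Agent.R276.End_723

open Crest.Agent.R271 Crest.Agent.R271.Defs710 Crest.Agent.R271.Ho51 Crest.Agent.R271.Rd692
open Crest.Agent.R273.Dir73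
open Crest.Agent.R276.FKDefs_779 Crest.Agent.R276.BC_986 Crest.Agent.R276.AB2_590
open Crest.Agent.R276.Mod1_987 Crest.Agent.R276.Ext_723 Crest.Agent.R276.EngU_29

lemma holMap_ι {n : ℕ} {M : Type*} [TopologicalSpace M] [RDom (n + 1) M] {a : Fin (n + 1) → ℂ} :
    PshB_29.HolMap (ι : Hs M a → M) := by
  refine ⟨continuous_ι, fun j e he => ?_⟩
  have h1 : DifferentiableOn ℂ (fun z => gam a z j) e.target :=
    ((differentiable_pi.1 (differentiable_gam a)) j).differentiableOn
  refine h1.congr fun z hz => ?_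
  simp only [Function.comp_apply]
  rw [← gam_cp, he.cp_symm hz]

theorem restrLPsh : RestrLPsh := by
  intro n M _ _ _ a b hb
  exact hb.comp_hol holMap_ι

theorem otSlice : OTSlice := by
  intro n M _ _ _ _ _ _ a _ _ μ ν ρ Ψ Φ b f hμ hν hρ hcpt hL hΨ hΦ hs hΨ0 hΦΨ hb hf hint
  obtain ⟨F, hF, hFf, hFb⟩ := OTF_189.ot_slice hμ hν hρ hcpt hL hΨ hΦ hs one_pos le_rfl hΨ0
    (fun x w => by rw [one_mul]; exact hΦΨ x w) hb hf hint.ne le_rfl
  refine ⟨F, hF, hFf, lt_of_le_of_lt hFb ?_⟩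
  exact ENNReal.mul_lt_top ENNReal.ofReal_lt_top hint

variable {K₀ K : Type} [Field K₀] [Field K] [Algebra ℂ K₀] [Algebra ℂ K] [Algebra K₀ K]
  [IsScalarTower ℂ K₀ K] {r n : ℕ}

/-- **D-END**, without hypotheses -/
theorem kapGeF_end (R : RMdl K₀ K r n) {d q D : ℕ}
    (hD : D = (d + q) + r) {b : Module.Basis (Fin (r + n)) K (Ω[K⁄ℂ])}
    (hb : ∀ i, b i = KaehlerDifferential.D ℂ K (R.MK.zK i))
    (H : ∀ S : Set (ValuationSubring K), S.Finite → (∀ V ∈ S, IsDiv ℂ (r + n) V) →
      Nonempty (EndData R S d q)) : KapGeF ℂ K D :=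
  kapGeF_of_endData R otSlice restrLPsh hD hb H

end Crest.Agent.R276.End_723
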