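import Crest.Agent.R276.EndC1_723
import Crest.Agent.R276.ExtC_723
import Crest.Agent.R276.TowA_849

/-!
# Row 276, EndC (helper723), part 2: growth, plurisubharmonicity and frame bounds of the product weight
-/

set_option autoImplicit false
set_option linter.unusedSectionVars false

noncomputable section

open Set Filter Topology MeasureTheory
open scoped ENNReal

namespace Crest.Agent.R276.EndC_723

open Crest.Agent.R271 Crest.Agent.R271.Defs710 Crest.Agent.R271.Ho51 Crest.Agent.R271.Rd692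
open Crest.Agent.R276.FKDefs_779 Crest.Agent.R276.BC_986
open Crest.Agent.R276.Mod1_987 Crest.Agent.R276.EngU_29 Crest.Agent.R276.SkelDefs_220
open Crest.Agent.R276.BR_590 (cat bs fb bs_cat fb_cat cat_bs_fb)
open Crest.Agent.R276.PshB_29 (HolMap)

/-! ### holomorphic maps between models -/

section holmap

variable {K K' : Type} [Field K] [Field K'] [Algebra ℂ K] [Algebra ℂ K'] {n n' : ℕ}

lemma continuous_comp_hom (M : Mdl K n) (M' : Mdl K' n') (j : M.B →ₐ[ℂ] M'.B) :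
    Continuous (fun y : M'.Pts => (y.comp j : M.Pts)) := by
  rw [continuous_iff_ev]
  intro b
  exact continuous_ev _

theorem holMap_comp (M : Mdl K n) (M' : Mdl K' n') (j : M.B →ₐ[ℂ] M'.B) :
    HolMap (M := M.Pts) (M' := M'.Pts) (fun y : M'.Pts => (y.comp j : M.Pts)) :=
  ⟨continuous_comp_hom M M' j, fun i => M'.hol51_ev (j (M.z i))⟩

end holmap

/-! ### polynomial growth -/

section growth

variable {K : Type} [Field K] [Algebra ℂ K] {n : ℕ} {M : Mdl K n} {b b' : M.Pts → ℝ}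

/-- `1 + ∑ |z_i|²` -/
def zm (M : Mdl K n) (y : M.Pts) : ℝ := 1 + ∑ i, ‖M.pz y i‖ ^ 2

lemma one_le_zm (y : M.Pts) : 1 ≤ zm M y := by
  unfold zm
  have : 0 ≤ ∑ i, ‖M.pz y i‖ ^ 2 := Finset.sum_nonneg fun i _ => by positivity
  linarith

lemma poly_growth (M : Mdl K n) (p : MvPolynomial (Fin n) ℂ) : ∃ (C : ℝ) (k : ℕ), 1 ≤ C ∧
    ∀ y : M.Pts, ‖MvPolynomial.eval (M.pz y) p‖ ≤ C * zm M y ^ k := by
  obtain ⟨C, k, hC, h⟩ := Crest.Agent.R271.AlgD956.PG_aeval M.z p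
  refine ⟨max C 1, k, le_max_right _ _, fun y => ?_⟩
  have h1 := h y
  have h2 : MvPolynomial.eval (M.pz y) p = y (MvPolynomial.aeval M.z p) := by
    rw [← M.apply_az']; rfl
  rw [h2]
  refine h1.trans ?_
  have h3 := one_le_zm y
  have h4 : 0 ≤ zm M y ^ k := by positivity
  exact mul_le_mul_of_nonneg_right (le_max_left _ _) h4

/-- normal form of `PGr`: exponents can be increased -/
lemma pgr_iff : PGr M b ↔ ∃ (C : ℝ) (j k : ℕ), 1 ≤ C ∧ ∀ y : M.Pts,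
    b y * ‖MvPolynomial.eval (M.pz y) M.h‖ ^ j ≤ C * zm M y ^ k := by
  constructor
  · rintro ⟨C, j, k, h⟩
    refine ⟨max C 1, j, k, le_max_right _ _, fun y => (h y).trans ?_⟩
    have h3 := one_le_zm y
    have h4 : 0 ≤ zm M y ^ k := by positivity
    exact mul_le_mul_of_nonneg_right (le_max_left _ _) h4
  · rintro ⟨C, j, k, -, h⟩
    exact ⟨C, j, k, h⟩

lemma pgr_mul (h0' : ∀ y, 0 ≤ b' y) (hb : PGr M b) (hb' : PGr M b') :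
    PGr M (fun y => b y * b' y) := by
  rw [pgr_iff] at hb hb' ⊢
  obtain ⟨C, j, k, hC, h⟩ := hb
  obtain ⟨C', j', k', hC', h'⟩ := hb'
  refine ⟨C * C', j + j', k + k', by nlinarith, fun y => ?_⟩
  have h3 := one_le_zm y
  have h1 := h0' y
  calc b y * b' y * ‖MvPolynomial.eval (M.pz y) M.h‖ ^ (j + j')
      = (b y * ‖MvPolynomial.eval (M.pz y) M.h‖ ^ j) *
        (b' y * ‖MvPolynomial.eval (M.pz y) M.h‖ ^ j') := by ring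
    _ ≤ (C * zm M y ^ k) * (C' * zm M y ^ k') :=
        mul_le_mul (h y) (h' y) (by positivity) (by positivity)
    _ = C * C' * zm M y ^ (k + k') := by ring

lemma pgr_rpow (h0 : ∀ y, 0 ≤ b y) (hb : PGr M b) {a : ℝ} (ha : 0 ≤ a) :
    PGr M (fun y => b y ^ a) := by
  rw [pgr_iff] at hb ⊢
  obtain ⟨C, j, k, hC, h⟩ := hb
  obtain ⟨C', k', hC', h'⟩ := poly_growth M M.h
  set N : ℕ := ⌈(j : ℝ) * a⌉₊ with hN
  set N' : ℕ := ⌈(k : ℝ) * a⌉₊ with hN'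
  have hN1 : (j : ℝ) * a ≤ N := Nat.le_ceil _
  have hN2 : (N : ℝ) - j * a ≤ 1 := by
    have := Nat.ceil_lt_add_one (mul_nonneg (Nat.cast_nonneg j) ha)
    linarith
  refine ⟨C ^ a * C', N, N' + k', ?_, fun y => ?_⟩
  · have := Real.one_le_rpow hC ha
    nlinarith
  have h3 := one_le_zm y
  set H : ℝ := ‖MvPolynomial.eval (M.pz y) M.h‖ with hH
  have hH0 : 0 ≤ H := norm_nonneg _
  have hb0 := h0 y
  have e1 : H ^ N ≤ H ^ ((j : ℝ) * a) * (C' * zm M y ^ k') := by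
    have e2 : H ^ N = H ^ ((j : ℝ) * a) * H ^ ((N : ℝ) - j * a) := by
      rw [← Real.rpow_natCast, ← Real.rpow_add_of_nonneg hH0 (by positivity) (by linarith)]
      congr 1; ring
    rw [e2]
    refine mul_le_mul_of_nonneg_left ?_ (Real.rpow_nonneg hH0 _)
    have e3 : H ≤ C' * zm M y ^ k' := h' y
    have e4 : 1 ≤ C' * zm M y ^ k' := by
      have : 1 ≤ zm M y ^ k' := one_le_pow₀ h3
      nlinarith
    calc H ^ ((N : ℝ) - j * a) ≤ (C' * zm M y ^ k') ^ ((N : ℝ) - j * a) :=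
          Real.rpow_le_rpow hH0 e3 (by linarith)
      _ ≤ (C' * zm M y ^ k') ^ (1 : ℝ) := Real.rpow_le_rpow_of_exponent_le e4 hN2
      _ = _ := Real.rpow_one _
  have e5 : b y ^ a * H ^ ((j : ℝ) * a) ≤ C ^ a * zm M y ^ N' := by
    have e6 : b y ^ a * H ^ ((j : ℝ) * a) = (b y * H ^ j) ^ a := by
      rw [Real.mul_rpow hb0 (by positivity), ← Real.rpow_natCast, ← Real.rpow_mul hH0]
    have e7 : zm M y ^ ((k : ℝ) * a) ≤ zm M y ^ N' := by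
      rw [← Real.rpow_natCast (zm M y) N']
      exact Real.rpow_le_rpow_of_exponent_le h3 (Nat.le_ceil _)
    rw [e6]
    calc (b y * H ^ j) ^ a ≤ (C * zm M y ^ k) ^ a :=
          Real.rpow_le_rpow (by positivity) (h y) ha
      _ = C ^ a * zm M y ^ ((k : ℝ) * a) := by
          rw [Real.mul_rpow (by positivity) (by positivity), ← Real.rpow_natCast,
            ← Real.rpow_mul (by positivity)]
      _ ≤ _ := mul_le_mul_of_nonneg_left e7 (by positivity)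
  calc b y ^ a * H ^ N ≤ b y ^ a * (H ^ ((j : ℝ) * a) * (C' * zm M y ^ k')) :=
        mul_le_mul_of_nonneg_left e1 (Real.rpow_nonneg hb0 _)
    _ = (b y ^ a * H ^ ((j : ℝ) * a)) * (C' * zm M y ^ k') := by ring
    _ ≤ (C ^ a * zm M y ^ N') * (C' * zm M y ^ k') :=
        mul_le_mul_of_nonneg_right e5 (by positivity)
    _ = _ := by ring

lemma pgr_sq (σ : M.B) : PGr M (fun y => ‖y σ‖ ^ 2) := by
  obtain ⟨C, k, l, hC, h⟩ := M.growth σ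
  refine ⟨C ^ 2, 2 * l, 2 * k, fun y => ?_⟩
  have h1 := h y
  have h2 := one_le_zm y
  calc ‖y σ‖ ^ 2 * ‖MvPolynomial.eval (M.pz y) M.h‖ ^ (2 * l)
      = (‖MvPolynomial.eval (M.pz y) M.h‖ ^ l * ‖y σ‖) ^ 2 := by ring
    _ ≤ (C * (1 + ∑ i, ‖y (M.z i)‖ ^ 2) ^ k) ^ 2 := pow_le_pow_left₀ (by positivity) h1 2
    _ = C ^ 2 * (1 + ∑ i, ‖M.pz y i‖ ^ 2) ^ (2 * k) := by
        change (C * (1 + ∑ i, ‖M.pz y i‖ ^ 2) ^ k) ^ 2 = _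
        ring

lemma pgr_add (h0 : ∀ y, 0 ≤ b y) (h0' : ∀ y, 0 ≤ b' y) (hb : PGr M b) (hb' : PGr M b') :
    PGr M (fun y => b y + b' y) := by
  rw [pgr_iff] at hb hb' ⊢
  obtain ⟨C, j, k, hC, h⟩ := hb
  obtain ⟨C', j', k', hC', h'⟩ := hb'
  obtain ⟨c, l, hc, hl⟩ := poly_growth M M.h
  refine ⟨C * c ^ j' + C' * c ^ j, j + j', k + k' + l * j + l * j', ?_, fun y => ?_⟩
  · have h1 : 1 ≤ c ^ j' := one_le_pow₀ hc
    have h2 : 1 ≤ c ^ j := one_le_pow₀ hc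
    nlinarith
  have h3 := one_le_zm y
  set H : ℝ := ‖MvPolynomial.eval (M.pz y) M.h‖ with hH
  have hH0 : 0 ≤ H := norm_nonneg _
  have hb0 := h0 y
  have hb0' := h0' y
  have e1 : ∀ i : ℕ, H ^ i ≤ c ^ i * zm M y ^ (l * i) := by
    intro i
    calc H ^ i ≤ (c * zm M y ^ l) ^ i := pow_le_pow_left₀ hH0 (hl y) i
      _ = _ := by rw [mul_pow, pow_mul]
  have e2 : b y * H ^ (j + j') ≤ C * c ^ j' * zm M y ^ (k + k' + l * j + l * j') := by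
    calc b y * H ^ (j + j') = (b y * H ^ j) * H ^ j' := by ring
      _ ≤ (C * zm M y ^ k) * (c ^ j' * zm M y ^ (l * j')) :=
          mul_le_mul (h y) (e1 j') (by positivity) (by positivity)
      _ = C * c ^ j' * zm M y ^ (k + l * j') := by ring
      _ ≤ _ := mul_le_mul_of_nonneg_left (pow_le_pow_right₀ h3 (by omega)) (by positivity)
  have e3 : b' y * H ^ (j + j') ≤ C' * c ^ j * zm M y ^ (k + k' + l * j + l * j') := by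
    calc b' y * H ^ (j + j') = (b' y * H ^ j') * H ^ j := by ring
      _ ≤ (C' * zm M y ^ k') * (c ^ j * zm M y ^ (l * j)) :=
          mul_le_mul (h' y) (e1 j) (by positivity) (by positivity)
      _ = C' * c ^ j * zm M y ^ (k' + l * j) := by ring
      _ ≤ _ := mul_le_mul_of_nonneg_left (pow_le_pow_right₀ h3 (by omega)) (by positivity)
  calc (b y + b' y) * H ^ (j + j') = b y * H ^ (j + j') + b' y * H ^ (j + j') := by ring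
    _ ≤ _ := by linarith

lemma pgr_sum {ι : Type*} (s : Finset ι) {f : ι → M.Pts → ℝ} (h0 : ∀ i y, 0 ≤ f i y)
    (h : ∀ i, PGr M (f i)) : PGr M (fun y => ∑ i ∈ s, f i y) := by
  classical
  induction s using Finset.induction_on with
  | empty => exact ⟨0, 0, 0, fun y => by simp⟩
  | insert i s hi ih =>
    simp only [Finset.sum_insert hi]
    exact pgr_add (h0 i) (fun y => Finset.sum_nonneg fun j _ => h0 j y) (h i) ih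

end growth

section relgrowth

variable {L K : Type} [Field L] [Field K] [Algebra ℂ L] [Algebra ℂ K] [Algebra L K]
  [IsScalarTower ℂ L K] {m r : ℕ} {ML : Mdl L m} {MK : Mdl K (m + r)}

lemma zm_f_le (H : Rel ML MK) (y : MK.Pts) : zm ML (H.f y) ≤ zm MK y := by
  unfold zm
  rw [Fin.sum_univ_add]
  have h1 : ∀ i : Fin m, ‖ML.pz (H.f y) i‖ ^ 2 = ‖MK.pz y (Fin.castAdd r i)‖ ^ 2 := by
    intro i
    rw [← rel_pz H]
    rfl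
  rw [Finset.sum_congr rfl fun i _ => h1 i]
  have : 0 ≤ ∑ i : Fin r, ‖MK.pz y (Fin.natAdd m i)‖ ^ 2 :=
    Finset.sum_nonneg fun i _ => by positivity
  linarith

lemma pgr_comp (H : Rel ML MK) {b : ML.Pts → ℝ} (hb : PGr ML b) :
    PGr MK (fun y => b (H.f y)) := by
  rw [pgr_iff] at hb ⊢
  obtain ⟨C, j, k, hC, h⟩ := hb
  obtain ⟨g, hg⟩ := H.dvd
  obtain ⟨c, l, hc, hl⟩ := poly_growth MK g
  refine ⟨C * c ^ j, j, k + l * j, ?_, fun y => ?_⟩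
  · have h1 : 1 ≤ c ^ j := one_le_pow₀ hc
    nlinarith
  have h3 := one_le_zm y
  have e1 : ‖MvPolynomial.eval (MK.pz y) MK.h‖ =
      ‖MvPolynomial.eval (ML.pz (H.f y)) ML.h‖ * ‖MvPolynomial.eval (MK.pz y) g‖ := by
    rw [hg, map_mul, norm_mul, MvPolynomial.eval_rename, ← rel_pz H]
    rfl
  have e2 := h (H.f y)
  have e3 := zm_f_le H y
  have e4 := one_le_zm (H.f y)
  rw [e1, mul_pow, ← mul_assoc]
  calc b (H.f y) * ‖MvPolynomial.eval (ML.pz (H.f y)) ML.h‖ ^ j *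
        ‖MvPolynomial.eval (MK.pz y) g‖ ^ j
      ≤ (C * zm ML (H.f y) ^ k) * (c * zm MK y ^ l) ^ j := by
        refine mul_le_mul e2 (pow_le_pow_left₀ (norm_nonneg _) (hl y) j) (by positivity)
          (by positivity)
    _ ≤ (C * zm MK y ^ k) * (c * zm MK y ^ l) ^ j := by gcongr
    _ = _ := by rw [mul_pow, ← pow_mul]; ring

end relgrowth

/-! ### the product weight -/

section prod

variable {L K : Type} [Field L] [Field K] [Algebra ℂ L] [Algebra ℂ K] [Algebra L K]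
  [IsScalarTower ℂ L K] {m r : ℕ} {ML : Mdl L m} {MK : Mdl K (m + r)}

/-- the product weight `b₁^μ · (b₂ |σ|^{2/k} W^x) ∘ f` -/
def B0 (H : Rel ML MK) (b₁ : MK.Pts → ℝ) (b₂ : ML.Pts → ℝ) (σ : ML.B) (k : ℕ) {e : ℕ}
    (w : Fin (e + 1) → ML.B) (μ x : ℝ) (y : MK.Pts) : ℝ :=
  b₁ y ^ μ * (b₂ (H.f y) * ‖H.f y σ‖ ^ (2 / (k : ℝ)) * Wf w (H.f y) ^ x)

lemma Wf_nonneg {e : ℕ} (w : Fin (e + 1) → ML.B) (z : ML.Pts) : 0 ≤ Wf w z :=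
  Finset.sum_nonneg fun i _ => by positivity

variable {H : Rel ML MK} {b₁ : MK.Pts → ℝ} {b₂ : ML.Pts → ℝ} {σ : ML.B} {k : ℕ} {e : ℕ}
    {w : Fin (e + 1) → ML.B} {μ x : ℝ}

lemma B0_nonneg (h1 : ∀ y, 0 ≤ b₁ y) (h2 : ∀ z, 0 ≤ b₂ z) (y : MK.Pts) :
    0 ≤ B0 H b₁ b₂ σ k w μ x y := by
  unfold B0
  have e1 := h1 y
  have e2 := h2 (H.f y)
  have e3 := Wf_nonneg w (H.f y)
  positivity

lemma lpsh_f (H : Rel ML MK) {b : ML.Pts → ℝ} (hb : LPsh b) : LPsh (fun y => b (H.f y)) :=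
  hb.comp_hol (holMap_comp ML MK H.incl)

lemma lpsh_Wf : LPsh (Wf w) :=
  LPsh.sum_hol Finset.univ fun i _ => ML.hol51_ev (w i)

theorem lpsh_B0 (h1 : LPsh b₁) (h2 : LPsh b₂) (hμ : 0 ≤ μ) (hx : 0 ≤ x) :
    LPsh (B0 H b₁ b₂ σ k w μ x) := by
  have e1 := lpsh_f H h2
  have e2 := lpsh_f H (LPsh.of_hol_rpow (ML.hol51_ev σ) (c := 2 / (k : ℝ)) (by positivity))
  have e3 := lpsh_f H ((lpsh_Wf (w := w)).rpow hx)
  exact (h1.rpow hμ).mul ((e1.mul e2).mul e3)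

lemma pgr_Wf : PGr ML (Wf w) :=
  pgr_sum Finset.univ (fun i y => by positivity) fun i => pgr_sq (w i)

theorem pgr_B0 (g1 : PGr MK b₁) (g2 : PGr ML b₂) (h1 : ∀ y, 0 ≤ b₁ y) (h2 : ∀ z, 0 ≤ b₂ z)
    (hμ : 0 ≤ μ) (hx : 0 ≤ x) : PGr MK (B0 H b₁ b₂ σ k w μ x) := by
  have e1 := pgr_rpow h1 g1 hμ
  have e2 : PGr ML (fun z => ‖z σ‖ ^ (2 / (k : ℝ))) := by
    have h := pgr_rpow (M := ML) (b := fun z => ‖z σ‖ ^ 2) (fun y => by positivity) (pgr_sq σ)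
      (a := 1 / (k : ℝ)) (by positivity)
    have h' : (fun y : ML.Pts => (‖y σ‖ ^ 2) ^ (1 / (k : ℝ))) =
        fun z : ML.Pts => ‖z σ‖ ^ (2 / (k : ℝ)) := by
      funext y
      rw [← Real.rpow_natCast, ← Real.rpow_mul (norm_nonneg _)]
      congr 1
      push_cast
      ring
    rwa [h'] at h
  have e3 : PGr ML (fun z => Wf w z ^ x) := pgr_rpow (fun z => Wf_nonneg w z) pgr_Wf hx
  have e4 : PGr ML (fun z => b₂ z * ‖z σ‖ ^ (2 / (k : ℝ)) * Wf w z ^ x) :=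
    pgr_mul (fun z => Real.rpow_nonneg (Wf_nonneg w z) _)
      (pgr_mul (fun z => by positivity) g2 e2) e3
  refine pgr_mul (fun y => ?_) e1 (pgr_comp H e4)
  have := h2 (H.f y)
  have := Wf_nonneg w (H.f y)
  positivity

end prod

/-! ### the frame bound of the product weight -/

lemma alg_id {b1 b2 Wv sg Dv Tv f g nn J εN μ x κ a1 A : ℝ} {t e₀ : ℕ} (hb1 : 0 ≤ b1)
    (hW : 0 ≤ Wv) (hD : 0 < Dv) (hf : 0 ≤ f) (hJ : 0 ≤ J) (he₀ : 0 < e₀)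
    (hJe : J = nn * g) (hμ : μ * εN = t) (hA : A = μ * a1) (hx : x = A / e₀ - 1)
    (hx0 : 0 ≤ x) :
    (b1 * f ^ (2 * a1) / Dv ^ εN) ^ μ * ((b2 * g ^ 2 * J ^ (2 * (e₀ - 1))) *
      (Wv * J ^ (2 * e₀)) ^ x * (sg * nn ^ 2 * Dv ^ (t : ℝ) * Tv ^ κ)) =
    (b1 ^ μ * (b2 * sg * Wv ^ x)) * Tv ^ κ * (f * J) ^ (2 * A) := by
  have he : (0 : ℝ) < e₀ := by exact_mod_cast he₀
  have e1 : (b1 * f ^ (2 * a1) / Dv ^ εN) ^ μ = b1 ^ μ * f ^ (2 * A) / Dv ^ (t : ℝ) := by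
    have h1 : 2 * a1 * μ = 2 * A := by rw [hA]; ring
    have h2 : εN * μ = t := by rw [mul_comm]; exact hμ
    rw [Real.div_rpow (by positivity) (by positivity), Real.mul_rpow hb1 (by positivity),
      ← Real.rpow_mul hf, ← Real.rpow_mul hD.le, h1, h2]
  have hxe : x * e₀ = A - e₀ := by rw [hx]; field_simp
  have e2 : (Wv * J ^ (2 * e₀)) ^ x = Wv ^ x * J ^ (2 * A - 2 * e₀) := by
    have h1 : ((2 * e₀ : ℕ) : ℝ) * x = 2 * A - 2 * e₀ := by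
      push_cast
      linarith
    rw [Real.mul_rpow hW (by positivity), ← Real.rpow_natCast, ← Real.rpow_mul hJ, h1]
  have e3 : J ^ (2 * (e₀ - 1)) * J ^ 2 * J ^ (2 * A - 2 * e₀) = J ^ (2 * A) := by
    rw [← pow_add, ← Real.rpow_natCast]
    have h1 : ((2 * (e₀ - 1) + 2 : ℕ) : ℝ) = 2 * e₀ := by
      have : 2 * (e₀ - 1) + 2 = 2 * e₀ := by omega
      rw [this]; push_cast; ring
    have h2 : 0 ≤ 2 * A - 2 * e₀ := by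
      have : 0 ≤ x * e₀ := by positivity
      linarith
    have h3 : (2 * e₀ : ℝ) + (2 * A - 2 * e₀) = 2 * A := by ring
    rw [h1, ← Real.rpow_add_of_nonneg hJ (by positivity) h2, h3]
  have e4 : (f * J) ^ (2 * A) = f ^ (2 * A) * J ^ (2 * A) := Real.mul_rpow hf hJ
  rw [e1, e2, e4, ← e3]
  have hDt : Dv ^ (t : ℝ) ≠ 0 := (Real.rpow_pos_of_pos hD _).ne'
  have hJ2 : J ^ 2 = nn ^ 2 * g ^ 2 := by rw [hJe]; ring
  rw [hJ2]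
  generalize Dv ^ (t : ℝ) = Dt at hDt ⊢
  generalize b1 ^ μ = B1
  generalize f ^ (2 * A) = Fr
  generalize J ^ (2 * A - 2 * ↑e₀) = Jr
  generalize J ^ (2 * (e₀ - 1)) = Js
  generalize Wv ^ x = Wx
  generalize Tv ^ κ = Tk
  rw [div_mul_eq_mul_div, div_eq_iff hDt]
  ring

section tower

variable {T L K : Type} [Field T] [Field L] [Field K] [Algebra ℂ T] [Algebra ℂ L] [Algebra ℂ K]
  [Algebra T L] [Algebra L K] [IsScalarTower ℂ T L] [IsScalarTower ℂ L K] {ρ a r : ℕ}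
  {MT : Mdl T ρ} {ML : Mdl L (ρ + a)} {MK : Mdl K (ρ + a + r)} {H₁ : Rel MT ML} {H₂ : Rel ML MK}
  {R : ValuationSubring K}

/-- `1 + |t|²` on `M_K` -/
def Tn (H₂ : Rel ML MK) (y : MK.Pts) : ℝ := 1 + ∑ i, ‖tc ML (eL ρ a) (H₂.f y) i‖ ^ 2

lemma one_le_Tn (y : MK.Pts) : 1 ≤ Tn H₂ y := by
  unfold Tn
  have : 0 ≤ ∑ i, ‖tc ML (eL ρ a) (H₂.f y) i‖ ^ 2 := Finset.sum_nonneg fun i _ => by positivity
  linarith

theorem logB_prod (Y : TChart H₁ H₂ R) {b₁ : MK.Pts → ℝ} {b₂ D : ML.Pts → ℝ} {σ : ML.B}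
    {k e N s t e₀ : ℕ} {w : Fin (e + 1) → ML.B} {ε μ x κ A : ℝ} (hD : ∀ z, 0 < D z)
    (he₀ : 0 < e₀) (hμ0 : 0 ≤ μ) (hμ : μ * (ε * N) = t) (hA : A = μ * (s * (1 + ε * N)))
    (hA0 : 0 < A) (hx : x = A / e₀ - 1) (hx0 : 0 ≤ x) (hb₁ : ∀ y, 0 ≤ b₁ y) (hb₂ : ∀ z, 0 ≤ b₂ z)
    (h1 : LogB Y.δ (some Y.i₀) fun ζ => b₁ (Y.cK.s ζ) * ‖Y.jF ζ‖ ^ (2 * s * (1 + ε * N)) /
      D (H₂.f (Y.cK.s ζ)) ^ (ε * N))
    (h2 : LogB Y.δ (low (some Y.i₀)) fun η =>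
      b₂ (Y.cL.s η) * ‖Y.jG η‖ ^ 2 * ‖Y.cL.J η‖ ^ (2 * (e₀ - 1)))
    (h3 : LogB Y.δ (low (some Y.i₀)) fun η => Wf w (Y.cL.s η) * ‖Y.cL.J η‖ ^ (2 * e₀))
    (h4 : LogB Y.δ (low (some Y.i₀)) fun η =>
      ‖Y.cL.s η σ‖ ^ (2 / (k : ℝ)) * ‖Y.jN η‖ ^ 2 * D (Y.cL.s η) ^ (t : ℝ) *
        (1 + ∑ i, ‖tc ML (eL ρ a) (Y.cL.s η) i‖ ^ 2) ^ κ) :
    LogB Y.δ (some Y.i₀) fun ζ => B0 H₂ b₁ b₂ σ k w μ x (Y.cK.s ζ) ^ (1 / A) *
      Tn H₂ (Y.cK.s ζ) ^ (κ / A) * ‖Y.cK.J ζ‖ ^ 2 := by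
  have hTn : ∀ η : Cn (ρ + a), 0 ≤ 1 + ∑ i, ‖tc ML (eL ρ a) (Y.cL.s η) i‖ ^ 2 := by
    intro η
    have : 0 ≤ ∑ i, ‖tc ML (eL ρ a) (Y.cL.s η) i‖ ^ 2 := Finset.sum_nonneg fun i _ => by positivity
    linarith
  have p2 : ∀ η ∈ PD Y.δ (low (some Y.i₀)), 0 ≤
      b₂ (Y.cL.s η) * ‖Y.jG η‖ ^ 2 * ‖Y.cL.J η‖ ^ (2 * (e₀ - 1)) := fun η _ => by
    have := hb₂ (Y.cL.s η); positivity
  have p3 : ∀ η ∈ PD Y.δ (low (some Y.i₀)), 0 ≤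
      Wf w (Y.cL.s η) * ‖Y.cL.J η‖ ^ (2 * e₀) := fun η _ => by
    have := Wf_nonneg w (Y.cL.s η); positivity
  have p4 : ∀ η ∈ PD Y.δ (low (some Y.i₀)), 0 ≤
      ‖Y.cL.s η σ‖ ^ (2 / (k : ℝ)) * ‖Y.jN η‖ ^ 2 * D (Y.cL.s η) ^ (t : ℝ) *
        (1 + ∑ i, ‖tc ML (eL ρ a) (Y.cL.s η) i‖ ^ 2) ^ κ := fun η _ => by
    have e1 := hTn η
    have e2 := (hD (Y.cL.s η)).le
    positivity
  have p1 : ∀ ζ ∈ PD Y.δ (some Y.i₀), 0 ≤ b₁ (Y.cK.s ζ) * ‖Y.jF ζ‖ ^ (2 * s * (1 + ε * N)) /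
      D (H₂.f (Y.cK.s ζ)) ^ (ε * N) := fun ζ _ => by
    have e1 := hb₁ (Y.cK.s ζ)
    have e2 := (hD (H₂.f (Y.cK.s ζ))).le
    positivity
  have q3 := logB_rpow h3 p3 hx0
  have q3' : ∀ η ∈ PD Y.δ (low (some Y.i₀)), 0 ≤
      (Wf w (Y.cL.s η) * ‖Y.cL.J η‖ ^ (2 * e₀)) ^ x := fun η hη => Real.rpow_nonneg (p3 η hη) _
  have q23 := logB_mul h2 q3 q3'
  have q234 := logB_mul q23 h4 p4
  have q := logB_pw Y.δ_lt.le q234 Y.e₁_pos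
  have q1 := logB_rpow h1 p1 hμ0
  have hq := logB_mul q1 q (fun ζ hζ => by
    have hπ := pw_mem Y.δ_lt.le Y.e₁_pos hζ
    exact mul_nonneg (mul_nonneg (p2 _ hπ) (q3' _ hπ)) (p4 _ hπ))
  -- the identity
  have key : ∀ ζ ∈ PD Y.δ (some Y.i₀),
      (b₁ (Y.cK.s ζ) * ‖Y.jF ζ‖ ^ (2 * s * (1 + ε * N)) / D (H₂.f (Y.cK.s ζ)) ^ (ε * N)) ^ μ *
      ((b₂ (Y.cL.s (Y.π ζ)) * ‖Y.jG (Y.π ζ)‖ ^ 2 * ‖Y.cL.J (Y.π ζ)‖ ^ (2 * (e₀ - 1))) *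
        (Wf w (Y.cL.s (Y.π ζ)) * ‖Y.cL.J (Y.π ζ)‖ ^ (2 * e₀)) ^ x *
        (‖Y.cL.s (Y.π ζ) σ‖ ^ (2 / (k : ℝ)) * ‖Y.jN (Y.π ζ)‖ ^ 2 *
          D (Y.cL.s (Y.π ζ)) ^ (t : ℝ) *
          (1 + ∑ i, ‖tc ML (eL ρ a) (Y.cL.s (Y.π ζ)) i‖ ^ 2) ^ κ)) =
      B0 H₂ b₁ b₂ σ k w μ x (Y.cK.s ζ) * Tn H₂ (Y.cK.s ζ) ^ κ *
        (‖Y.jF ζ‖ * ‖Y.cL.J (Y.π ζ)‖) ^ (2 * A) := by
    intro ζ hζ
    have hπ := pw_mem Y.δ_lt.le Y.e₁_pos hζ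
    have hf : H₂.f (Y.cK.s ζ) = Y.cL.s (Y.π ζ) := Y.compL ζ hζ
    unfold B0 Tn
    rw [hf]
    have hexp : (2 * s * (1 + ε * N) : ℝ) = 2 * (s * (1 + ε * N)) := by ring
    rw [hexp]
    refine alg_id (hb₁ _) (Wf_nonneg w _) (hD _) (norm_nonneg _) (norm_nonneg _) he₀ ?_ hμ hA
      hx hx0
    exact (congrArg norm (J_L Y hπ)).trans (norm_mul _ _)
  have hq' := logB_rpow hq (fun ζ hζ => by
    have hπ := pw_mem Y.δ_lt.le Y.e₁_pos hζ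
    exact mul_nonneg (Real.rpow_nonneg (p1 ζ hζ) _)
      (mul_nonneg (mul_nonneg (p2 _ hπ) (q3' _ hπ)) (p4 _ hπ))) (a := 1 / A) (by positivity)
  refine logB_mono hq' (c := (Y.e₁ : ℝ) ^ 2) (by positivity) (fun ζ hζ => ?_)
  have hk := key ζ hζ
  have hB0 := B0_nonneg (H := H₂) (σ := σ) (k := k) (w := w) (μ := μ) (x := x) hb₁ hb₂ (Y.cK.s ζ)
  have hT := one_le_Tn (H₂ := H₂) (Y.cK.s ζ)
  have hT0 : 0 ≤ Tn H₂ (Y.cK.s ζ) := by linarith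
  change _ ≤ (Y.e₁ : ℝ) ^ 2 * ((b₁ (Y.cK.s ζ) * ‖Y.jF ζ‖ ^ (2 * s * (1 + ε * N)) /
    D (H₂.f (Y.cK.s ζ)) ^ (ε * N)) ^ μ *
      ((b₂ (Y.cL.s (Y.π ζ)) * ‖Y.jG (Y.π ζ)‖ ^ 2 * ‖Y.cL.J (Y.π ζ)‖ ^ (2 * (e₀ - 1))) *
        (Wf w (Y.cL.s (Y.π ζ)) * ‖Y.cL.J (Y.π ζ)‖ ^ (2 * e₀)) ^ x *
        (‖Y.cL.s (Y.π ζ) σ‖ ^ (2 / (k : ℝ)) * ‖Y.jN (Y.π ζ)‖ ^ 2 *
          D (Y.cL.s (Y.π ζ)) ^ (t : ℝ) *
          (1 + ∑ i, ‖tc ML (eL ρ a) (Y.cL.s (Y.π ζ)) i‖ ^ 2) ^ κ))) ^ (1 / A)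
  rw [hk]
  have e1 : (B0 H₂ b₁ b₂ σ k w μ x (Y.cK.s ζ) * Tn H₂ (Y.cK.s ζ) ^ κ *
        (‖Y.jF ζ‖ * ‖Y.cL.J (Y.π ζ)‖) ^ (2 * A)) ^ (1 / A) =
      B0 H₂ b₁ b₂ σ k w μ x (Y.cK.s ζ) ^ (1 / A) * Tn H₂ (Y.cK.s ζ) ^ (κ / A) *
        (‖Y.jF ζ‖ * ‖Y.cL.J (Y.π ζ)‖) ^ 2 := by
    rw [Real.mul_rpow (by positivity) (by positivity), Real.mul_rpow hB0 (by positivity),
      ← Real.rpow_mul hT0, ← Real.rpow_mul (by positivity)]
    congr 1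
    · congr 2
      ring
    · have h5 : (2 * A * (1 / A) : ℝ) = ((2 : ℕ) : ℝ) := by
        push_cast
        field_simp
      rw [h5, Real.rpow_natCast]
  rw [e1]
  have e2 := norm_J_K_le Y hζ
  have e3 : ‖Y.cK.J ζ‖ ^ 2 ≤ (Y.e₁ * (‖Y.cL.J (Y.π ζ)‖ * ‖Y.jF ζ‖)) ^ 2 :=
    pow_le_pow_left₀ (norm_nonneg _) e2 2
  calc B0 H₂ b₁ b₂ σ k w μ x (Y.cK.s ζ) ^ (1 / A) * Tn H₂ (Y.cK.s ζ) ^ (κ / A) *
        ‖Y.cK.J ζ‖ ^ 2
      ≤ B0 H₂ b₁ b₂ σ k w μ x (Y.cK.s ζ) ^ (1 / A) * Tn H₂ (Y.cK.s ζ) ^ (κ / A) *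
        (Y.e₁ * (‖Y.cL.J (Y.π ζ)‖ * ‖Y.jF ζ‖)) ^ 2 := by gcongr
    _ = _ := by ring

end tower

end Crest.Agent.R276.EndC_723
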