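import Mathlib
import Crest.Agent.R276.C4LocB_327
import Crest.Agent.R276.C4GDefs_804
import Crest.Agent.R276.CntMain_857
import Crest.Agent.R276.Mod4_987
import Crest.Agent.R276.EndC2_723

/-!
# R276, leaf C4-GLUE (helper804): the counting theorem gives `SkelDefs_220.C4` on one tower

* `CDT`  : counting data along one divisorial valuation ring `R` with `R ∩ T ≠ T` (327's route);
* `ExMem`: `L²` sections are algebraic; `BdInt`: the bound at `R` with `T ⊆ R`;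
* `c4T`  : (C4) for `ρ = d + 1`;  `c4T0`: (C4) if `T ⊆ R` for all divisorial `R` (e.g. `ρ = 0`).
-/

set_option autoImplicit false

open Set Filter Topology MeasureTheory

noncomputable section

namespace Crest.Agent.R276.C4T_804

open Crest.Agent.R271 Crest.Agent.R271.Rd692 Crest.Agent.R271.Ho51
open Crest.Agent.R271.Defs710 hiding glue
open Crest.Agent.R276.Mod1_987 Crest.Agent.R276.FKDefs_779
open Crest.Agent.R276.CntDefs_857 Crest.Agent.R276.CntA_857 Crest.Agent.R276.CntB_857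
open Crest.Agent.R276.SkelDefs_220 hiding ModelOf
open Crest.Agent.R276.C4Loc_327
open Crest.Agent.R276.C4GDefs_804 (RT)

/-- (C2) the `L²` sections are regular functions -/
def ExMem : Prop :=
  ∀ (T : Type) [Field T] [Algebra ℂ T] (d : ℕ) (MT : Mdl T (d + 1)) (μ : Measure MT.Pts), IsLeb μ →
    ∀ (φ ψ : MT.Pts → ℝ) (hφ : Continuous φ) (hψ : Continuous ψ),
    PGr MT (fun y => Real.exp (φ y)) → PGr MT (fun y => Real.exp (ψ y)) →
    ∀ k t : ℕ, 1 ≤ k → ∀ F : MT.Pts → ℂ, F ∈ V μ hφ.measurable hψ.measurable k t →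
      ∃ b : MT.B, ∀ y : MT.Pts, y b = F y

/-- (C4) the bound at the `R` with `T ⊆ R` -/
def BdInt : Prop :=
  ∀ (T L K : Type) [Field T] [Field L] [Field K] [Algebra ℂ T] [Algebra ℂ L] [Algebra ℂ K]
    [Algebra T L] [Algebra L K] [IsScalarTower ℂ T L] [IsScalarTower ℂ L K] (ρ a r : ℕ)
    (MT : Mdl T ρ) (ML : Mdl L (ρ + a)) (MK : Mdl K (ρ + a + r)) (H₁ : Rel MT ML)
    (H₂ : Rel ML MK) (R : ValuationSubring K), IsDiv ℂ (ρ + a + r) R →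
    (∀ x : T, algebraMap L K (algebraMap T L x) ∈ R) → ∀ G : MT.Pts → ℝ, Continuous G →
    (∀ x, 0 ≤ G x) → ∀ κ : ℝ, 0 ≤ κ → BdL H₁ H₂ R fun Y η =>
      G (H₁.f (Y.cL.s η)) * ‖Y.jN η‖ ^ 2 *
        (1 + ∑ i, ‖tc ML (eL ρ a) (Y.cL.s η) i‖ ^ 2) ^ κ

section gen

variable {T L K : Type} [Field T] [Field L] [Field K] [Algebra ℂ T] [Algebra ℂ L] [Algebra ℂ K]
  [Algebra T L] [Algebra L K] [IsScalarTower ℂ T L] [IsScalarTower ℂ L K] {ρ a r : ℕ}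
  {MT : Mdl T ρ} {ML : Mdl L (ρ + a)} {MK : Mdl K (ρ + a + r)}
  {H₁ : Rel MT ML} {H₂ : Rel ML MK} {R : ValuationSubring K}

theorem bdL_congr {v w : (Y : TChart H₁ H₂ R) → Cn (ρ + a) → ℝ} (h : BdL H₁ H₂ R v)
    (hvw : ∀ Y η, w Y η = v Y η) : BdL H₁ H₂ R w := by
  have : w = v := by
    funext Y η
    exact hvw Y η
  rw [this]
  exact h

theorem bdL_const_mul {v : (Y : TChart H₁ H₂ R) → Cn (ρ + a) → ℝ} (h : BdL H₁ H₂ R v) {c : ℝ}
    (hc : 0 ≤ c) : BdL H₁ H₂ R fun Y η => c * v Y η := by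
  obtain ⟨F, FL, hF, hFL, h⟩ := h
  refine ⟨F, FL, hF, hFL, fun Y h1 h2 h3 δ' hδ' => ?_⟩
  obtain ⟨C, k, hb⟩ := h Y h1 h2 h3 δ' hδ'
  refine ⟨c * C, k, fun ζ hζ => ?_⟩
  rw [mul_assoc]
  exact mul_le_mul_of_nonneg_left (hb ζ hζ) hc

/-- the metric: `|σ|^{2/n} D^{tp} = c |F|^{2/n} e^{-t p ψ}` for `σ = b u^{n t p'}`, `p = M₀ p'` -/
theorem sig_eq {n t M0 p' : ℕ} (hn : 0 < n) {f U Dz ψ c : ℝ} (hf : 0 ≤ f) (hU : 0 ≤ U)
    (hu : U ^ 2 * Dz ^ M0 = c * Real.exp (-(M0 * ψ))) :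
    (f * U ^ (n * t * p')) ^ (2 / (n : ℝ)) * Dz ^ ((t * (M0 * p') : ℕ) : ℝ) =
      c ^ (t * p') * (f ^ (2 / (n : ℝ)) * Real.exp (-(t * ((M0 * p' : ℕ) * ψ)))) := by
  have hn' : (n : ℝ) ≠ 0 := by positivity
  have h1 : (U ^ (n * t * p')) ^ (2 / (n : ℝ)) = (U ^ 2) ^ (t * p') := by
    rw [← Real.rpow_natCast U (n * t * p'), ← Real.rpow_mul hU, ← pow_mul,
      ← Real.rpow_natCast U (2 * (t * p'))]
    congr 1
    push_cast
    field_simp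
  have h2 : Dz ^ ((t * (M0 * p') : ℕ) : ℝ) = (Dz ^ M0) ^ (t * p') := by
    rw [Real.rpow_natCast, ← pow_mul]
    congr 1
    ring
  rw [Real.mul_rpow hf (by positivity), h1, h2]
  calc f ^ (2 / (n : ℝ)) * (U ^ 2) ^ (t * p') * (Dz ^ M0) ^ (t * p') =
      f ^ (2 / (n : ℝ)) * (U ^ 2 * Dz ^ M0) ^ (t * p') := by rw [mul_pow]; ring
    _ = f ^ (2 / (n : ℝ)) * (c ^ (t * p') * Real.exp (-(M0 * ψ)) ^ (t * p')) := by
        rw [hu, mul_pow]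
    _ = _ := by
        rw [← Real.exp_nat_mul]
        have : ((t * p' : ℕ) : ℝ) * -(M0 * ψ) = -(t * ((M0 * p' : ℕ) * ψ)) := by
          push_cast; ring
        rw [this]
        ring

/-- the section: `b` regular on `M_T`, `u` a unit of `M_L` -/
def sg (H₁ : Rel MT ML) (b : MT.B) (u : ML.B) (m : ℕ) : ML.B := H₁.incl b * u ^ m

theorem sg_apply (b : MT.B) (u : ML.B) (m : ℕ) (z : ML.Pts) :
    z (sg H₁ b u m) = H₁.f z b * z u ^ m := by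
  unfold sg
  rw [map_mul, map_pow]
  rfl

theorem incl_inj : Function.Injective H₁.incl := by
  intro x y h
  have h1 : ((H₁.incl x : ML.B) : L) = H₁.incl y := by rw [h]
  exact Subtype.ext ((algebraMap T L).injective h1)

theorem sg_ne {b : MT.B} (hb : b ≠ 0) {u : ML.B} (hu : u ≠ 0) (m : ℕ) : sg H₁ b u m ≠ 0 := by
  refine mul_ne_zero (fun h => hb (incl_inj (H₁ := H₁) ?_)) (pow_ne_zero _ hu)
  rw [h, map_zero]

theorem norm_sg {n t M0 p' : ℕ} (hn : 0 < n) {D : ML.Pts → ℝ} {b : MT.B}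
    {u : ML.B} {ψ : MT.Pts → ℝ} {c : ℝ}
    (hu : ∀ z : ML.Pts, ‖z u‖ ^ 2 * D z ^ M0 = c * Real.exp (-(M0 * ψ (H₁.f z)))) (z : ML.Pts) :
    ‖z (sg H₁ b u (n * t * p'))‖ ^ (2 / (n : ℝ)) * D z ^ ((t * (M0 * p') : ℕ) : ℝ) =
      c ^ (t * p') * (‖H₁.f z b‖ ^ (2 / (n : ℝ)) *
        Real.exp (-(t * ((M0 * p' : ℕ) * ψ (H₁.f z))))) := by
  rw [sg_apply, norm_mul, norm_pow]
  exact sig_eq hn (norm_nonneg _) (norm_nonneg _) (hu z)

/-- constancy on the fibres -/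
theorem const_fib {n t M0 p' : ℕ} (hn : 0 < n) {D : ML.Pts → ℝ} {b : MT.B}
    {u : ML.B} {ψ : MT.Pts → ℝ} {c : ℝ}
    (hu : ∀ z : ML.Pts, ‖z u‖ ^ 2 * D z ^ M0 = c * Real.exp (-(M0 * ψ (H₁.f z)))) :
    ∀ᵐ c' : Cn ρ, ∀ y : MT.Pts, MT.pz y = c' → ∃ c₀ : ℝ, ∀ z : ML.Pts, H₁.f z = y →
        ‖z (sg H₁ b u (n * t * p'))‖ ^ (2 / (n : ℝ)) * D z ^ ((t * (M0 * p') : ℕ) : ℝ) = c₀ := by
  refine Eventually.of_forall fun c' y _ => ⟨c ^ (t * p') * (‖y b‖ ^ (2 / (n : ℝ)) *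
        Real.exp (-(t * ((M0 * p' : ℕ) * ψ y)))), fun z hz => ?_⟩
  rw [norm_sg hn hu z, hz]

/-- **(C4) if `T ⊆ R` for all `R`** (for example if `ρ = 0`) -/
theorem c4T0 (hB : BdInt) {D : ML.Pts → ℝ} {ψ : MT.Pts → ℝ} (hψ : Continuous ψ) {M0 : ℕ}
    (hM : 0 < M0) {u : ML.B} {c : ℝ} (hc : 0 < c)
    (hu : ∀ z : ML.Pts, ‖z u‖ ^ 2 * D z ^ M0 = c * Real.exp (-(M0 * ψ (H₁.f z))))
    (S : Set (ValuationSubring K)) (hS : ∀ R ∈ S, IsDiv ℂ (ρ + a + r) R)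
    (hT : ∀ R ∈ S, ∀ x : T, algebraMap L K (algebraMap T L x) ∈ R) (t₀ : ℕ) :
    ∃ t : ℕ, t₀ ≤ t ∧ ∃ (k : ℕ) (σ : ML.B) (κ : ℝ), 0 < k ∧ σ ≠ 0 ∧ 0 < κ ∧
      (∀ R ∈ S, BdL H₁ H₂ R fun Y η =>
        ‖Y.cL.s η σ‖ ^ (2 / (k : ℝ)) * ‖Y.jN η‖ ^ 2 * D (Y.cL.s η) ^ (t : ℝ) *
          (1 + ∑ i, ‖tc ML (eL ρ a) (Y.cL.s η) i‖ ^ 2) ^ κ) ∧
      ∀ᵐ c : Cn ρ, ∀ y : MT.Pts, MT.pz y = c → ∃ c₀ : ℝ, ∀ z : ML.Pts, H₁.f z = y →
        ‖z σ‖ ^ (2 / (k : ℝ)) * D z ^ (t : ℝ) = c₀ := by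
  have hu0 : u ≠ 0 := by
    intro h0
    obtain ⟨z⟩ : Nonempty ML.Pts := inferInstance
    have h1 := hu z
    rw [h0, map_zero, norm_zero] at h1
    have h2 : 0 < c * Real.exp (-(M0 * ψ (H₁.f z))) := by positivity
    rw [← h1] at h2
    simp at h2
  refine ⟨t₀ * (M0 * 1), ?_, 1, sg H₁ 1 u (1 * t₀ * 1), 1, one_pos, sg_ne one_ne_zero hu0 _,
    one_pos, fun R hR => ?_, const_fib one_pos hu⟩
  · calc t₀ = t₀ * 1 := (mul_one _).symm
      _ ≤ t₀ * (M0 * 1) := Nat.mul_le_mul_left _ (by omega)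
  · set G : MT.Pts → ℝ := fun y => c ^ (t₀ * 1) * (‖y (1 : MT.B)‖ ^ (2 / ((1 : ℕ) : ℝ)) *
        Real.exp (-(t₀ * ((M0 * 1 : ℕ) * ψ y)))) with hG
    have hGc : Continuous G := by
      simp only [hG, map_one]
      fun_prop
    refine bdL_congr (hB T L K ρ a r MT ML MK H₁ H₂ R (hS R hR) (hT R hR) G hGc
      (fun y => by positivity) 1 zero_le_one) fun Y η => ?_
    have h1 := norm_sg (b := (1 : MT.B)) (t := t₀) (p' := 1) one_pos hu (Y.cL.s η)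
    simp only [hG]
    rw [← h1]
    ring

end gen

section main

variable {T L K : Type} [Field T] [Field L] [Field K] [Algebra ℂ T] [Algebra ℂ L] [Algebra ℂ K]
  [Algebra T L] [Algebra L K] [IsScalarTower ℂ T L] [IsScalarTower ℂ L K] {d a r : ℕ}
  {MT : Mdl T (d + 1)} {ML : Mdl L (d + 1 + a)} {MK : Mdl K (d + 1 + a + r)}

/-- counting data for the weights `φ`, `ψ` of `M_T` along `R`, `R ∩ T ≠ T` -/
structure CDT (μ : Measure MT.Pts) (φ ψ : MT.Pts → ℝ) (ν : ℕ) (H₁ : Rel MT ML) (H₂ : Rel ML MK)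
    (R : ValuationSubring K) where
  /-- the divisor of the multisection -/
  E : Type
  [top : TopologicalSpace E]
  [rdom : RDom d E]
  D : DChart MT.Pts E μ
  k : ℤ
  /-- bad or good divisor -/
  alt : (0 < ν ∧ Nonempty (Full D φ ψ k (ν - 1)) ∧ Gen D φ ψ k 1) ∨
    (Nonempty (Gro D φ ψ k) ∧ Gen D φ ψ k 0)
  low : Low D ψ k
  A : ℕ
  grow : Grow D A
  trans : Trans H₁ H₂ R D

attribute [instance] CDT.top CDT.rdom

variable {H₁ : Rel MT ML} {H₂ : Rel ML MK}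

/-- **(C4) from the counting data** -/
theorem c4T (hE : ExMem) (hB : BdInt) {D : ML.Pts → ℝ} {φ ψ : MT.Pts → ℝ} (hφ : Sm φ)
    (hψ : Sm ψ) (hφ0 : ∀ x w, 0 ≤ Levi φ x w) (hψ0 : ∀ x w, 0 ≤ Levi ψ x w)
    (hφg : PGr MT (fun y => Real.exp (φ y))) (hψg : PGr MT (fun y => Real.exp (ψ y)))
    {M0 : ℕ} (hM : 0 < M0) {u : ML.B} {c : ℝ} (hc : 0 < c)
    (hu : ∀ z : ML.Pts, ‖z u‖ ^ 2 * D z ^ M0 = c * Real.exp (-(M0 * ψ (H₁.f z))))
    (hdat : ∀ S : Set (ValuationSubring K), S.Finite →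
      (∀ R ∈ S, IsDiv ℂ (d + 1 + a + r) R) →
      (∀ R ∈ S, ∃ x : T, algebraMap L K (algebraMap T L x) ∉ R) →
      ∃ (p : ℕ) (ν : ℕ) (μ : Measure MT.Pts), 0 < p ∧ IsLeb μ ∧
        Nonempty (Good φ (fun y => ((M0 * p : ℕ) : ℝ) * ψ y) ν) ∧
        ∀ R ∈ S, Nonempty (CDT μ φ (fun y => ((M0 * p : ℕ) : ℝ) * ψ y) ν H₁ H₂ R)) :
    C4 H₁ H₂ D := by
  classical
  intro S hSf hSd t₀
  set S' : Set (ValuationSubring K) :=
    {R | R ∈ S ∧ ∃ x : T, algebraMap L K (algebraMap T L x) ∉ R} with hS'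
  have hS'f : S'.Finite := hSf.subset fun R hR => hR.1
  obtain ⟨p, ν, μ, hp, hμ, ⟨G⟩, hCD⟩ := hdat S' hS'f (fun R hR => hSd R hR.1) fun R hR => hR.2
  have : Fintype S' := hS'f.fintype
  set ψp : MT.Pts → ℝ := fun y => ((M0 * p : ℕ) : ℝ) * ψ y with hψp
  have hψps : Sm ψp := (Sm.const _).mulR hψ
  have hψp0 : ∀ x w, 0 ≤ Levi ψp x w := by
    intro x w
    rw [hψp, CntLow_804.Levi_const_mul hψ]
    exact mul_nonneg (Nat.cast_nonneg _) (hψ0 x w)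
  have hψpg : PGr MT (fun y => Real.exp (ψp y)) := by
    have h1 := EndC_723.pgr_rpow (fun y => (Real.exp_pos (ψ y)).le) hψg
      (Nat.cast_nonneg (M0 * p) : (0 : ℝ) ≤ ((M0 * p : ℕ) : ℝ))
    have h2 : (fun y => Real.exp (ψp y)) =
        fun y => Real.exp (ψ y) ^ (((M0 * p : ℕ) : ℝ)) := by
      funext y
      rw [← Real.exp_mul, mul_comm]
    rw [h2]
    exact h1
  have Q : ∀ i : S', CDT μ φ ψp ν H₁ H₂ i.1 := fun i => (hCD i.1 i.2).some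
  obtain ⟨ρ, hρ, hcpt, hL⟩ := MT.exists_rho
  let bad : Finset S' := Finset.univ.filter fun i =>
    0 < ν ∧ Nonempty (Full (Q i).D φ ψp (Q i).k (ν - 1)) ∧ Gen (Q i).D φ ψp (Q i).k 1
  have hbad : ∀ i, i ∈ bad ↔ (0 < ν ∧ Nonempty (Full (Q i).D φ ψp (Q i).k (ν - 1)) ∧
      Gen (Q i).D φ ψp (Q i).k 1) := fun i => by simp [bad]
  have hgood : ∀ i ∉ bad, Nonempty (Gro (Q i).D φ ψp (Q i).k) ∧ Gen (Q i).D φ ψp (Q i).k 0 := by
    intro i hi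
    rcases (Q i).alt with h | h
    · exact absurd ((hbad i).2 h) hi
    · exact h
  obtain ⟨c₀, hc₀, t₁, hmain⟩ := CntMain_857.main (E := fun i : S' => (Q i).E) hμ hρ hcpt hL hφ
    hφ0 hψps hψp0 G (fun i => (Q i).D) (fun i => (Q i).k) bad
    (fun ⟨i, hi⟩ => ((hbad i).1 hi).1) (fun i hi => ((hbad i).1 hi).2.1)
    (fun i hi => ((hbad i).1 hi).2.2) (fun i hi => (hgood i hi).1)
    (fun i hi => (hgood i hi).2) 1
  set t : ℕ := max (max t₀ t₁) 1 with ht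
  obtain ⟨N, hN⟩ := hmain t ((le_max_right _ _).trans (le_max_left _ _))
  set n : ℕ := max N 1 with hn
  have hn1 : 1 ≤ n := le_max_right _ _
  have ht1 : 1 ≤ t := le_max_right _ _
  obtain ⟨m, f, hf, hm, hfV⟩ := hN n (le_max_left _ _)
  have hm0 : 0 < m := by
    have h1 : (0 : ℝ) < m := by
      refine lt_of_lt_of_le ?_ hm
      have h2 : (0 : ℝ) < n := by exact_mod_cast hn1
      have h3 : (0 : ℝ) < t := by exact_mod_cast ht1
      positivity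
    exact_mod_cast h1
  set F : MT.Pts → ℂ := f ⟨0, hm0⟩ with hF
  have hF0 : F ≠ 0 := hf.ne_zero ⟨0, hm0⟩
  obtain ⟨hFV, hFco⟩ := hfV ⟨0, hm0⟩
  have hFhol : Hol F := hFV.1
  obtain ⟨b, hb⟩ := hE T d MT μ hμ φ ψp hφ.continuous hψps.continuous hφg hψpg n t hn1 F hFV
  have hb0 : b ≠ 0 := by
    rintro rfl
    apply hF0
    funext y
    rw [← hb y, map_zero]
    rfl
  have hu0 : u ≠ 0 := by
    intro h0
    obtain ⟨z⟩ : Nonempty ML.Pts := inferInstance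
    have h1 := hu z
    rw [h0, map_zero, norm_zero] at h1
    have h2 : 0 < c * Real.exp (-(M0 * ψ (H₁.f z))) := by positivity
    rw [← h1] at h2
    simp at h2
  -- the exponent `κ`
  set A : ℕ := ∑ i : S', (Q i).A with hA
  set κ : ℝ := ((n : ℝ) * A + 1)⁻¹ with hκ
  have hκ0 : 0 < κ := by positivity
  have hAκ : ∀ i : S', (n : ℝ) * (Q i).A * κ ≤ 1 := by
    intro i
    have h1 : (Q i).A ≤ A := Finset.single_le_sum (f := fun i : S' => (Q i).A)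
      (fun _ _ => Nat.zero_le _) (Finset.mem_univ i)
    have h2 : ((Q i).A : ℝ) ≤ A := by exact_mod_cast h1
    rw [hκ, ← div_eq_mul_inv, div_le_one (by positivity)]
    have h3 : (n : ℝ) * (Q i).A ≤ n * A := mul_le_mul_of_nonneg_left h2 (Nat.cast_nonneg _)
    linarith
  refine ⟨t * (M0 * p), ?_, n, sg H₁ b u (n * t * p), κ, hn1, sg_ne hb0 hu0 _, hκ0,
    fun R hR => ?_, const_fib hn1 hu⟩
  · calc t₀ ≤ t := (le_max_left _ _).trans (le_max_left _ _)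
      _ = t * 1 := (mul_one _).symm
      _ ≤ t * (M0 * p) := Nat.mul_le_mul_left _ (Nat.mul_pos hM hp)
  · have hc' : 0 ≤ c ^ (t * p) := by positivity
    by_cases hRT : ∃ x : T, algebraMap L K (algebraMap T L x) ∉ R
    · have hi : R ∈ S' := ⟨hR, hRT⟩
      have h1 := bdL_of_cdt (Q ⟨R, hi⟩).trans hn1 hFhol
        (fun l hl => hFco ⟨R, hi⟩ l (by simpa using hl)) hψps.continuous (Q ⟨R, hi⟩).low
        (Q ⟨R, hi⟩).grow hκ0.le (hAκ ⟨R, hi⟩) (t := t)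
      refine bdL_congr (bdL_const_mul h1 hc') fun Y η => ?_
      have h2 := norm_sg (b := b) (t := t) (p' := p) hn1 hu (Y.cL.s η)
      rw [hb] at h2
      calc _ = ‖Y.cL.s η (sg H₁ b u (n * t * p))‖ ^ (2 / (n : ℝ)) *
            D (Y.cL.s η) ^ ((t * (M0 * p) : ℕ) : ℝ) * ‖Y.jN η‖ ^ 2 *
            (1 + ∑ i, ‖tc ML (eL (d + 1) a) (Y.cL.s η) i‖ ^ 2) ^ κ := by ring
        _ = _ := by rw [h2]; ring
    · push Not at hRT
      have hG : Continuous fun y : MT.Pts => c ^ (t * p) * (‖F y‖ ^ (2 / (n : ℝ)) *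
          Real.exp (-(t * ψp y))) := by
        refine continuous_const.mul (((Hol_cont hFhol).norm.rpow_const fun _ =>
          Or.inr (by positivity)).mul ?_)
        exact Real.continuous_exp.comp (continuous_const.mul hψps.continuous).neg
      refine bdL_congr (hB T L K (d + 1) a r MT ML MK H₁ H₂ R (hSd R hR) hRT _ hG
        (fun y => by positivity) κ hκ0.le) fun Y η => ?_
      have h2 := norm_sg (b := b) (t := t) (p' := p) hn1 hu (Y.cL.s η)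
      rw [hb] at h2
      calc _ = ‖Y.cL.s η (sg H₁ b u (n * t * p))‖ ^ (2 / (n : ℝ)) *
            D (Y.cL.s η) ^ ((t * (M0 * p) : ℕ) : ℝ) * ‖Y.jN η‖ ^ 2 *
            (1 + ∑ i, ‖tc ML (eL (d + 1) a) (Y.cL.s η) i‖ ^ 2) ^ κ := by ring
        _ = _ := by rw [h2]

end main

end Crest.Agent.R276.C4T_804
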