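import Crest.Agent.R276.TChJ_858

/-! # Row 276, helper858: the relative dictionary at a divisorial `R` (P4 of TCh), orders. -/

set_option autoImplicit false

noncomputable section

namespace Crest.Agent.R276.TCh_858

open Crest.Agent.R276.FKDefs_779 Crest.Agent.R276.BC_986 Crest.Agent.R276.DivVal_858
open Crest.Agent.R276.End0_508 KaehlerDifferential

variable {L K : Type} [Field L] [Field K] [Algebra ℂ L] [Algebra ℂ K] [Algebra L K]
variable [IsScalarTower ℂ L K] {m r : ℕ} {R : ValuationSubring K}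

omit [Algebra ℂ L] [Algebra ℂ K] [IsScalarTower ℂ L K] in
/-- value one in a subfield -/
lemma valuation_comap_eq_one {z : L} (hz : (R.comap (algebraMap L K)).valuation z = 1) :
    R.valuation (algebraMap L K z) = 1 := by
  have hz0 : z ≠ 0 := by
    rintro rfl
    rw [map_zero] at hz
    exact zero_ne_one hz
  have h1 : z ∈ R.comap (algebraMap L K) := by
    rw [← ValuationSubring.valuation_le_one_iff]; exact hz.le
  have h2 : z⁻¹ ∈ R.comap (algebraMap L K) := by
    rw [← ValuationSubring.valuation_le_one_iff, map_inv₀, hz, inv_one]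
  have h3 : R.valuation (algebraMap L K z) ≤ 1 := (R.valuation_le_one_iff _).2 h1
  have h4 : R.valuation (algebraMap L K z⁻¹) ≤ 1 := (R.valuation_le_one_iff _).2 h2
  refine le_antisymm h3 ?_
  rw [map_inv₀, map_inv₀] at h4
  have hpos : 0 < R.valuation (algebraMap L K z) := by
    rw [Valuation.pos_iff]
    exact (map_ne_zero_iff _ (algebraMap L K).injective).mpr hz0
  exact (inv_le_one₀ hpos).mp h4

omit [IsScalarTower ℂ L K] in
/-- the value of an element of the subfield in terms of its order -/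
lemma val_map {D' : DivModel (m + r) K} {DL : DivModel m L}
    (hDL : DL.ModelOf (R.comap (algebraMap L K))) {e : ℕ} {u : K} (hu : R.valuation u = 1)
    (hram : algebraMap L K (algebraMap DL.A L DL.t) = (algebraMap D'.A K D'.t) ^ e * u)
    {z : L} {a : ℤ} (hz : DL.HasOrd z a) :
    R.valuation (algebraMap L K z) = R.valuation (algebraMap D'.A K D'.t) ^ ((e : ℤ) * a) := by
  have h1 : ∃ w : L, (R.comap (algebraMap L K)).valuation w = 1 ∧
      z = (algebraMap DL.A L DL.t) ^ a * w := by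
    have h2 := hDL.val_eq hz
    have ht0 : (algebraMap DL.A L DL.t) ^ a ≠ 0 := zpow_ne_zero _ DL.tK_ne
    refine ⟨z / (algebraMap DL.A L DL.t) ^ a, ?_, (mul_div_cancel₀ _ ht0).symm⟩
    rw [map_div₀, h2, map_zpow₀, div_self]
    exact zpow_ne_zero _ hDL.pos.ne'
  obtain ⟨w, hw, rfl⟩ := h1
  rw [map_mul, map_mul, valuation_comap_eq_one hw, mul_one, map_zpow₀, map_zpow₀, hram, map_mul,
    hu, mul_one, map_pow, ← zpow_natCast, ← zpow_mul]

lemma val_jac {n : ℕ} {D' : DivModel n K} (h : D'.ModelOf R)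
    (b : Module.Basis (Fin n) K (Ω[K⁄ℂ])) {c : ℤ} (hc : D'.HasOrd (D'.dw.toMatrix b).det c) :
    R.valuation (b.toMatrix D'.dw).det = R.valuation (algebraMap D'.A K D'.t) ^ (-c) := by
  have h1 := DivModel.det_toMatrix_mul D'.dw b
  have h2 : (b.toMatrix D'.dw).det = ((D'.dw.toMatrix b).det)⁻¹ :=
    eq_inv_of_mul_eq_one_right h1
  rw [h2, map_inv₀, h.val_eq hc, zpow_neg]

/-- final comparison -/
lemma le_iff {n : ℕ} {D' : DivModel n K} (h : D'.ModelOf R) {J g : K} {cF k : ℤ}
    (hJ : R.valuation J = R.valuation (algebraMap D'.A K D'.t) ^ (-cF)) (hg : D'.HasOrd g k)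
    (q : ℕ) : R.valuation g ≤ R.valuation J ^ q ↔ 0 ≤ k + q * cF := by
  rw [h.val_eq hg, hJ, ← zpow_natCast, ← zpow_mul,
    zpow_le_zpow_iff_right_of_lt_one₀ h.pos h.lt]
  constructor
  · intro h1; linarith [mul_comm (-cF) (q : ℤ), neg_mul cF (q : ℤ), mul_comm cF (q : ℤ)]
  · intro h1; linarith [mul_comm (-cF) (q : ℤ), neg_mul cF (q : ℤ), mul_comm cF (q : ℤ)]

/-- **Dictionary, horizontal case** (`L ⊆ R`). -/
theorem regAt_H {D' : DivModel (m + r) K} (h : D'.ModelOf R) (hL : ∀ z : L, algebraMap L K z ∈ R)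
    (w : Fin m → L)
    (hw : ∀ i, algebraMap D'.A K (D'.w (Fin.castAdd r i)) = algebraMap L K (w i))
    {bL : Module.Basis (Fin m) L (Ω[L⁄ℂ])} {bK : Module.Basis (Fin r) K (Ω[K⁄L])}
    {b : Module.Basis (Fin (m + r)) K (Ω[K⁄ℂ])} (hb : Adapted bL bK b) {c : ℤ}
    (hc : D'.HasOrd (D'.dw.toMatrix b).det c) {g : K} {k : ℤ} (hg : D'.HasOrd g k) (q : ℕ) :
    RegAt L R bK q g ↔ 0 ≤ k + q * c := by
  rw [regAt_iff_of_span bK (fun j => algebraMap D'.A K (D'.w (Fin.natAdd m j))) (fun j => h.mem _)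
    (fun y hy => span_H h w hw hy)]
  refine le_iff h ?_ hg q
  have h1 := hb.jac_tower w (fun j => algebraMap D'.A K (D'.w (Fin.natAdd m j)))
  have h2 : Fin.append (fun i => algebraMap L K (w i))
      (fun j => algebraMap D'.A K (D'.w (Fin.natAdd m j))) = fun i => algebraMap D'.A K (D'.w i) := by
    funext i
    refine Fin.addCases (fun i => ?_) (fun j => ?_) i
    · rw [Fin.append_left, hw]
    · rw [Fin.append_right]
  have h3 : jac ℂ b (fun i => algebraMap D'.A K (D'.w i)) = (b.toMatrix D'.dw).det := by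
    rw [DivModel.jac_change b D'.dw, DivModel.jac_dw, mul_one]
  rw [h2, h3] at h1
  have h4 : jac ℂ bL w ≠ 0 := by
    intro h0
    rw [h0, map_zero, zero_mul] at h1
    exact DivModel.det_ne_zero b D'.dw h1
  have h5 : R.valuation (algebraMap L K (jac ℂ bL w)) = 1 := by
    have e1 : R.valuation (algebraMap L K (jac ℂ bL w)) ≤ 1 := (R.valuation_le_one_iff _).2 (hL _)
    have e2 : R.valuation (algebraMap L K (jac ℂ bL w)⁻¹) ≤ 1 :=
      (R.valuation_le_one_iff _).2 (hL _)
    refine le_antisymm e1 ?_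
    rw [map_inv₀, map_inv₀] at e2
    have hpos : 0 < R.valuation (algebraMap L K (jac ℂ bL w)) := by
      rw [Valuation.pos_iff]
      exact (map_ne_zero_iff _ (algebraMap L K).injective).mpr h4
    exact (inv_le_one₀ hpos).mp e2
  have h6 := congrArg R.valuation h1
  rw [map_mul, h5, one_mul] at h6
  rw [← h6]
  exact val_jac h b hc

/-- **Dictionary, vertical case** (`L ⊄ R`). -/
theorem regAt_V {D' : DivModel (m + r) K} (h : D'.ModelOf R) {DL : DivModel m L}
    (hDL : DL.ModelOf (R.comap (algebraMap L K)))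
    (hi : D'.i₀ = Fin.castAdd r DL.i₀)
    (hw : ∀ i, i ≠ DL.i₀ → algebraMap D'.A K (D'.w (Fin.castAdd r i)) =
      algebraMap L K (algebraMap DL.A L (DL.w i)))
    {e : ℕ} {u : K} (he : 0 < e) (hu : R.valuation u = 1)
    (hram : algebraMap L K (algebraMap DL.A L DL.t) = (algebraMap D'.A K D'.t) ^ e * u)
    {bL : Module.Basis (Fin m) L (Ω[L⁄ℂ])} {bK : Module.Basis (Fin r) K (Ω[K⁄L])}
    {b : Module.Basis (Fin (m + r)) K (Ω[K⁄ℂ])} (hb : Adapted bL bK b)
    {cL : ℤ} (hcL : DL.HasOrd (DL.dw.toMatrix bL).det cL)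
    {c : ℤ} (hc : D'.HasOrd (D'.dw.toMatrix b).det c) {g : K} {k : ℤ} (hg : D'.HasOrd g k)
    (q : ℕ) :
    RegAt L R bK q g ↔ 0 ≤ k + q * (c - e * cL - (e - 1)) := by
  classical
  rw [regAt_iff_of_span bK (fun j => algebraMap D'.A K (D'.w (Fin.natAdd m j))) (fun j => h.mem _)
    (fun y hy => span_V h hi hw he hu hram hy)]
  refine le_iff h ?_ hg q
  set t : K := algebraMap D'.A K D'.t with ht
  have ht0 : t ≠ 0 := D'.tK_ne
  have h1 := hb.jac_tower (fun i => algebraMap DL.A L (DL.w i))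
    (fun j => algebraMap D'.A K (D'.w (Fin.natAdd m j)))
  -- the left hand side
  have h2 : (fun i => D ℂ K (Fin.append (fun i => algebraMap L K (algebraMap DL.A L (DL.w i)))
      (fun j => algebraMap D'.A K (D'.w (Fin.natAdd m j))) i)) =
      Function.update (D'.dw : Fin (m + r) → Ω[K⁄ℂ]) D'.i₀ (D ℂ K (t ^ e * u)) := by
    funext i
    by_cases hii : i = D'.i₀
    · subst hii
      rw [Function.update_self, ← hram, hi, Fin.append_left]
      rfl
    · rw [Function.update_of_ne hii, D'.dw_apply]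
      refine Fin.addCases (fun i hii => ?_) (fun j _ => ?_) i hii
      · rw [Fin.append_left, hw]
        intro h'
        apply hii
        rw [h', hi]
      · rw [Fin.append_right]
  have h3 : jac ℂ b (Fin.append (fun i => algebraMap L K (algebraMap DL.A L (DL.w i)))
      (fun j => algebraMap D'.A K (D'.w (Fin.natAdd m j)))) =
      (b.toMatrix D'.dw).det * D'.dw.repr (D ℂ K (t ^ e * u)) D'.i₀ := by
    rw [DivModel.jac_change b D'.dw]
    congr 1
    unfold jac
    rw [h2, det_update]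
  have huR : u ∈ R := by
    rw [← R.valuation_le_one_iff, hu]
  have h4 : R.valuation (D'.dw.repr (D ℂ K (t ^ e * u)) D'.i₀) = R.valuation t ^ ((e : ℤ) - 1) := by
    obtain ⟨e', rfl⟩ : ∃ e', e = e' + 1 := ⟨e - 1, by omega⟩
    have e1 : D'.dw.repr (D ℂ K (t ^ (e' + 1) * u)) D'.i₀ =
        t ^ e' * (((e' + 1 : ℕ) : K) * u + t * D'.dw.repr (D ℂ K u) D'.i₀) := by
      have e2 : D ℂ K t = D'.dw D'.i₀ := by rw [D'.dw_apply]; rfl
      rw [Derivation.leibniz, Derivation.leibniz_pow, Nat.add_sub_cancel, e2]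
      simp only [map_add, map_smul, Finsupp.add_apply, Finsupp.smul_apply, smul_eq_mul,
        Module.Basis.repr_self, Finsupp.single_eq_same, ← Nat.cast_smul_eq_nsmul K]
      ring
    have e3 : R.valuation (((e' + 1 : ℕ) : K) * u + t * D'.dw.repr (D ℂ K u) D'.i₀) = 1 := by
      have hevR : R.valuation (((e' + 1 : ℕ) : K)) = 1 := by
        have f1 : (((e' + 1 : ℕ) : K)) = algebraMap ℂ K ((e' + 1 : ℕ) : ℂ) := by
          rw [map_natCast]
        have f2 : (((e' + 1 : ℕ) : ℂ)) ≠ 0 := by exact_mod_cast Nat.succ_ne_zero e'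
        have f3 : R.valuation (algebraMap ℂ K ((e' + 1 : ℕ) : ℂ)) ≤ 1 :=
          (R.valuation_le_one_iff _).2 (modelOf_alg h _)
        have f4 : R.valuation (algebraMap ℂ K (((e' + 1 : ℕ) : ℂ)⁻¹)) ≤ 1 :=
          (R.valuation_le_one_iff _).2 (modelOf_alg h _)
        rw [f1]
        refine le_antisymm f3 ?_
        rw [map_inv₀, map_inv₀] at f4
        have hpos : 0 < R.valuation (algebraMap ℂ K ((e' + 1 : ℕ) : ℂ)) := by
          rw [Valuation.pos_iff]
          exact (map_ne_zero_iff _ (algebraMap ℂ K).injective).mpr f2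
        exact (inv_le_one₀ hpos).mp f4
      have f5 : R.valuation (((e' + 1 : ℕ) : K) * u) = 1 := by rw [map_mul, hevR, hu, mul_one]
      have f6 : R.valuation (t * D'.dw.repr (D ℂ K u) D'.i₀) < 1 := by
        rw [map_mul]
        exact mul_lt_one_of_lt_of_le h.lt ((R.valuation_le_one_iff _).2 (h.repr_mem huR _))
      rw [Valuation.map_add_eq_of_lt_left]
      · exact f5
      · rw [f5]; exact f6
    rw [e1, map_mul, e3, mul_one, map_pow]
    push_cast
    rw [add_sub_cancel_right, zpow_natCast]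
  have h5 : DL.HasOrd (jac ℂ bL (fun i => algebraMap DL.A L (DL.w i))) (-cL) := by
    have e1 := DivModel.det_toMatrix_mul DL.dw bL
    have e2 : (bL.toMatrix DL.dw).det = ((DL.dw.toMatrix bL).det)⁻¹ :=
      eq_inv_of_mul_eq_one_right e1
    rw [DivModel.jac_change bL DL.dw, DivModel.jac_dw, mul_one, e2]
    exact hcL.inv
  have h6 := val_map (D' := D') hDL hu hram h5
  have h7 := congrArg R.valuation h1
  rw [h3, map_mul, val_jac h b hc, h4, map_mul, h6, ← ht] at h7
  have hpos : R.valuation t ≠ 0 := h.pos.ne'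
  rw [← zpow_add₀ hpos] at h7
  have h8 : R.valuation (jac L bK fun j => algebraMap D'.A K (D'.w (Fin.natAdd m j))) =
      R.valuation t ^ (-(c - e * cL - (e - 1))) := by
    have h9 : R.valuation t ^ ((e : ℤ) * -cL) ≠ 0 := zpow_ne_zero _ hpos
    apply mul_left_cancel₀ h9
    rw [← h7, ← zpow_add₀ hpos]
    congr 1
    ring
  exact h8

end Crest.Agent.R276.TCh_858
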