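import Crest.Agent.R276.BR4_590
import Crest.Agent.R276.BR5_590
import Crest.Agent.R276.BR6_590
import Crest.Agent.R276.SkelDefs_220
import Crest.Agent.R276.TChK_858

/-! # Row 276, helper858: TCh, part A: wrappers between 986/590's charts and 220's `AC`. -/

set_option autoImplicit false

open scoped Topology BigOperators
open Set Metric Filter

noncomputable section

namespace Crest.Agent.R276.TCh_858

open Crest.Agent.R271.Defs710 Crest.Agent.R271.Bd741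
open Crest.Agent.R276.FKDefs_779 Crest.Agent.R276.BC_986 Crest.Agent.R276.DivVal_858
open Crest.Agent.R276.BR_590 Crest.Agent.R276.Mod1_987
open Crest.Agent.R276.SkelDefs_220 (AC PD tau Mono low pw)

section PD

variable {n : ℕ} {δ : ℝ}

lemma mem_PD_some {i : Fin n} {ζ : Cn n} :
    ζ ∈ PD δ (some i) ↔ ζ ∈ ball (0 : Cn n) δ ∧ ζ i ≠ 0 := by
  rw [mem_ball_zero_iff]
  constructor
  · rintro ⟨h1, h2⟩; exact ⟨h1, h2 i rfl⟩
  · rintro ⟨h1, h2⟩; exact ⟨h1, fun j hj => by cases hj; exact h2⟩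

lemma mem_PD_none {ζ : Cn n} : ζ ∈ PD δ none ↔ ζ ∈ ball (0 : Cn n) δ := by
  rw [mem_ball_zero_iff]
  constructor
  · rintro ⟨h1, -⟩; exact h1
  · intro h1; exact ⟨h1, fun j hj => by cases hj⟩

lemma PD_sub {j : Option (Fin n)} : PD δ j ⊆ ball (0 : Cn n) δ := by
  intro ζ hζ
  rw [mem_ball_zero_iff]
  exact hζ.1

lemma isOpen_PD {j : Option (Fin n)} : IsOpen (PD δ j) := by
  rcases j with _ | i
  · have : PD δ (none : Option (Fin n)) = ball 0 δ := by ext ζ; exact mem_PD_none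
    rw [this]; exact isOpen_ball
  · have : PD δ (some i) = ball (0 : Cn n) δ ∩ {ζ | ζ i ≠ 0} := by ext ζ; exact mem_PD_some
    rw [this]
    exact isOpen_ball.inter (isOpen_ne_fun (continuous_apply _) continuous_const)

end PD

section V

variable {K : Type} [Field K] [Algebra ℂ K] {n : ℕ} (M : Mdl K n) {D : DivModel n K}
  (X : BChart D M.B) {G₀ : Cn n → ℂ} {e : ℕ} (T : Root D.i₀ X.r G₀ e)

/-- the chart `X.s ∘ T.Ξ` as an `AC` -/
def acV {δ : ℝ} (hδ : δ ≤ T.ρ) {j : Option (Fin n)} (hj : j = some D.i₀) : AC M δ j where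
  s := fun ξ => X.s (T.Ξ ξ)
  anal := by
    subst hj
    intro b ξ hξ
    have h1 := mem_PD_some.mp hξ
    exact (ofRoot X T).anal b ξ ⟨ball_subset_ball hδ h1.1, h1.2⟩
  inj := by
    subst hj
    intro ξ hξ ξ' hξ' h
    have h1 := mem_PD_some.mp hξ
    have h2 := mem_PD_some.mp hξ'
    exact (ofRoot X T).inj ⟨ball_subset_ball hδ h1.1, h1.2⟩ ⟨ball_subset_ball hδ h2.1, h2.2⟩ h

@[simp] lemma acV_s {δ : ℝ} (hδ : δ ≤ T.ρ) {j : Option (Fin n)} (hj : j = some D.i₀) (ξ : Cn n) :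
    (acV M X T hδ hj).s ξ = X.s (T.Ξ ξ) := rfl

lemma mono_V {δ : ℝ} {i : Fin n} {j : Option (Fin n)} (hj : j = some i) {u G : Cn n → ℂ} {k : ℤ}
    (hG : AnalyticOnNhd ℂ G (ball 0 δ)) (hG0 : ∀ ζ ∈ ball (0 : Cn n) δ, G ζ ≠ 0)
    (h : ∀ ζ ∈ ball (0 : Cn n) δ, ζ i ≠ 0 → u ζ = ζ i ^ k * G ζ) : Mono δ j u k := by
  subst hj
  refine ⟨G, hG, hG0, fun ζ hζ => ?_⟩
  have h1 := mem_PD_some.mp hζ
  exact h ζ h1.1 h1.2

lemma ord_V {δ : ℝ} (hδ : δ ≤ T.ρ) {j : Option (Fin n)} (hj : j = some D.i₀) {f : K} {a : ℤ}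
    {G' : Cn n → ℂ} (h : Good D X f a G') : (acV M X T hδ hj).Ord f a := by
  have hA := Good.ofRoot X T h
  refine ⟨fun ξ => ξ D.i₀ ^ a * (T.E ξ ^ a * G' (T.Ξ ξ)), mono_V hj
    (hA.an.mono (ball_subset_ball hδ)) (fun ξ hξ => hA.ne ξ (ball_subset_ball hδ hξ))
    (fun ξ _ _ => rfl), ?_⟩
  subst hj
  intro ξ hξ b c hbc
  have h1 := mem_PD_some.mp hξ
  exact hA.eq ξ ⟨ball_subset_ball hδ h1.1, h1.2⟩ b c hbc.symm

lemma J_V {δ : ℝ} (hδ : δ ≤ T.ρ) {j : Option (Fin n)} (hj : j = some D.i₀)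
    (b : Fin n → Ω[K⁄ℂ]) (hb : ∀ i, b i = KaehlerDifferential.D ℂ K (M.z i : K)) {c : ℤ}
    {GJ : Cn n → ℂ} (hJ : Good D X (D.dw.toMatrix b).det c GJ) :
    Mono δ j (acV M X T hδ hj).J c := by
  have hA := Good.ofRoot_jac X T M.z b hb hJ
  refine mono_V hj (hA.an.mono (ball_subset_ball hδ)) (fun ξ hξ => hA.ne ξ (ball_subset_ball hδ hξ))
    (fun ξ h1 h2 => ?_)
  exact hA.eq ξ ⟨ball_subset_ball hδ h1, h2⟩

variable {R : ValuationSubring K}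

theorem hasOrd_of_acOrd (hD : D.ModelOf R) (htr : Algebra.trdeg ℂ K = n) {δ : ℝ} (hδ0 : 0 < δ)
    (hδ : δ ≤ T.ρ) {j : Option (Fin n)} (hj : j = some D.i₀) {f : K} {k : ℤ}
    (h : (acV M X T hδ hj).Ord f k) : D.HasOrd f k := by
  obtain ⟨u, ⟨G, hG, hG0, hu⟩, h2⟩ := h
  subst hj
  refine hasOrd_of_ord hD htr X T hδ0 hδ hG.continuousOn hG0 (fun ξ h3 h4 b c hbc => ?_)
  have h5 : ξ ∈ PD δ (some D.i₀) := mem_PD_some.mpr ⟨h3, h4⟩
  have h6 := h2 ξ h5 b c hbc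
  rw [hu ξ h5] at h6
  exact h6

theorem ordR_V (hD : D.ModelOf R) (htr : Algebra.trdeg ℂ K = n) {δ : ℝ} (hδ0 : 0 < δ)
    (hδ : δ ≤ T.ρ) {j : Option (Fin n)} (hj : j = some D.i₀) {f : K} {k : ℤ}
    (h : (acV M X T hδ hj).Ord f k) : f ∈ R ↔ 0 ≤ k :=
  hD.mem_iff (hasOrd_of_acOrd M X T hD htr hδ0 hδ hj h)

theorem regAt_V_abs (hD : D.ModelOf R) (htr : Algebra.trdeg ℂ K = n) {δ : ℝ} (hδ0 : 0 < δ)
    (hδ : δ ≤ T.ρ) {j : Option (Fin n)} (hj : j = some D.i₀) (b : Module.Basis (Fin n) K (Ω[K⁄ℂ]))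
    {c : ℤ} (hc : D.HasOrd (D.dw.toMatrix b).det c) {g : K} {k : ℤ}
    (h : (acV M X T hδ hj).Ord g k) (m : ℕ) : RegAt ℂ R b m g ↔ 0 ≤ k + m * c :=
  hD.regAt_iff b (hasOrd_of_acOrd M X T hD htr hδ0 hδ hj h) hc m

end V

section H

variable {K : Type} [Field K] [Algebra ℂ K] {n : ℕ} (M : Mdl K n) {y : M.Pts} (C : Chart M.z y)

lemma chart_inj : InjOn C.s (ball (0 : Cn n) C.r) := by
  intro ζ hζ ζ' hζ' h
  funext i
  have h1 := C.s_z ζ hζ i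
  have h2 := C.s_z ζ' hζ' i
  rw [h] at h1
  exact add_left_cancel (h1.symm.trans h2)

/-- an ordinary chart of the model as an `AC` -/
def acH {δ : ℝ} (hδ : δ ≤ C.r) (j : Option (Fin n)) : AC M δ j where
  s := C.s
  anal := fun b ξ hξ => C.anal b ξ (ball_subset_ball hδ (PD_sub hξ))
  inj := (chart_inj M C).mono (fun _ hξ => ball_subset_ball hδ (PD_sub hξ))

@[simp] lemma acH_s {δ : ℝ} (hδ : δ ≤ C.r) (j : Option (Fin n)) (ξ : Cn n) :
    (acH M C hδ j).s ξ = C.s ξ := rfl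

lemma mono_H {δ : ℝ} {j : Option (Fin n)} (hj : j = none) {u : Cn n → ℂ} (k : ℤ)
    (hG : AnalyticOnNhd ℂ u (ball 0 δ)) (hG0 : ∀ ζ ∈ ball (0 : Cn n) δ, u ζ ≠ 0) :
    Mono δ j u k := by
  subst hj
  refine ⟨u, hG, hG0, fun ζ _ => ?_⟩
  change u ζ = 1 ^ k * u ζ
  rw [one_zpow, one_mul]

lemma J_H {δ : ℝ} (hδ : δ ≤ C.r) (j : Option (Fin n)) {ξ : Cn n} (hξ : ξ ∈ ball (0 : Cn n) δ) :
    (acH M C hδ j).J ξ = 1 := by
  unfold SkelDefs_220.AC.J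
  have h1 : (fun ζ : Cn n => M.pz ((acH M C hδ j).s ζ)) =ᶠ[𝓝 ξ] fun ζ => M.pz y + ζ := by
    filter_upwards [isOpen_ball.mem_nhds hξ] with ζ hζ
    funext i
    exact C.s_z ζ (ball_subset_ball hδ hζ) i
  rw [h1.fderiv_eq]
  have h2 : fderiv ℂ (fun ζ : Cn n => M.pz y + ζ) ξ = ContinuousLinearMap.id ℂ (Cn n) := by
    rw [fderiv_const_add]
    exact fderiv_fun_id
  rw [h2]
  exact LinearMap.det_id

lemma Jmono_H {δ : ℝ} (hδ : δ ≤ C.r) {j : Option (Fin n)} (hj : j = none) (k : ℤ) :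
    Mono δ j (acH M C hδ j).J k := by
  subst hj
  refine ⟨fun _ => 1, analyticOnNhd_const, fun _ _ => one_ne_zero, fun ζ hζ => ?_⟩
  rw [J_H M C hδ none (PD_sub hζ)]
  change (1 : ℂ) = 1 ^ k * 1
  rw [one_zpow, one_mul]

/-- `f = b / c` with `b`, `c` without zeros on the chart -/
lemma ord_H {δ : ℝ} (hδ : δ ≤ C.r) {j : Option (Fin n)} (hj : j = none) {f : K} {b₀ c₀ : M.B}
    (hf : (b₀ : K) = f * c₀) (hb : ∀ ζ ∈ ball (0 : Cn n) δ, C.s ζ b₀ ≠ 0)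
    (hc : ∀ ζ ∈ ball (0 : Cn n) δ, C.s ζ c₀ ≠ 0) (k : ℤ) : (acH M C hδ j).Ord f k := by
  refine ⟨fun ζ => C.s ζ b₀ / C.s ζ c₀, mono_H hj k ?_ ?_, ?_⟩
  · intro ζ hζ
    exact (C.anal b₀ ζ (ball_subset_ball hδ hζ)).div (C.anal c₀ ζ (ball_subset_ball hδ hζ)) (hc ζ hζ)
  · intro ζ hζ
    exact div_ne_zero (hb ζ hζ) (hc ζ hζ)
  · intro ζ hζ b c hbc
    have h1 := PD_sub hζ
    have hc0 : (c₀ : K) ≠ 0 := by
      intro h0
      apply hc ζ h1
      have : c₀ = 0 := Subtype.ext h0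
      rw [this, map_zero]
    have h2 : b * c₀ = b₀ * c := by
      apply Subtype.ext
      change (b : K) * c₀ = b₀ * c
      rw [hbc, hf]
      ring
    have h3 := congrArg (C.s ζ) h2
    rw [map_mul, map_mul] at h3
    change C.s ζ b = C.s ζ b₀ / C.s ζ c₀ * C.s ζ c
    field_simp [hc ζ h1]
    linear_combination h3

end H

section pw

variable {m r : ℕ}

lemma low_castAdd (i : Fin m) : low (some (Fin.castAdd r i)) = some i := by
  unfold SkelDefs_220.low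
  rw [Option.bind_some, dif_pos (by simp)]
  rfl

lemma low_natAdd (i : Fin r) : low (some (Fin.natAdd m i)) = (none : Option (Fin m)) := by
  unfold SkelDefs_220.low
  rw [Option.bind_some, dif_neg (by simp)]

lemma low_none : low (none : Option (Fin (m + r))) = (none : Option (Fin m)) := rfl

lemma pw_castAdd (e : ℕ) (i : Fin m) (ζ : Cn (m + r)) :
    pw e (some (Fin.castAdd r i)) ζ = pe i e (bs ζ) := by
  funext j
  unfold SkelDefs_220.pw pe bs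
  rw [low_castAdd]
  by_cases h : j = i
  · subst h; simp
  · rw [if_neg (fun h' => h (Option.some.inj h').symm), if_neg h]

lemma pw_of_low_none (e : ℕ) {j : Option (Fin (m + r))} (hj : low j = none) (ζ : Cn (m + r)) :
    pw e j ζ = bs ζ := by
  funext k
  unfold SkelDefs_220.pw bs
  rw [hj]
  simp

end pw

end Crest.Agent.R276.TCh_858
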