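import Mathlib
import Crest.Agent.R276.TChA_858
import Crest.Agent.R276.WPack_505

/-!
# Row 276 (helper231), TRANS, part A: extension of points along an analytic chart

`exists_ext`: if the generators of `A ⊆ K` have order `≥ 0` on a chart `X` of a model of `K`, the
points of `Hom(A,ℂ)` under the chart extend holomorphically to the full polydisc.
-/

set_option autoImplicit false
set_option linter.unusedSectionVars false
set_option linter.style.haveILetI false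

open Set Filter Topology Metric

noncomputable section

namespace Crest.Agent.R276.TransA_231

open Crest.Agent.R271.Defs710 Crest.Agent.R276.Mod1_987 Crest.Agent.R276.SkelDefs_220
open Crest.Agent.R276.TCh_858 (PD_sub isOpen_PD mem_PD_some mem_PD_none)
open Crest.Agent.R271

/-! ### limits of points -/

/-- a pointwise limit of algebra homomorphisms -/
theorem exists_limit {A : Type*} [CommRing A] [Algebra ℂ A] {ι : Type*} {l : Filter ι} [l.NeBot]
    (p : ι → (A →ₐ[ℂ] ℂ)) (f : A → ℂ) (h : ∀ a, Tendsto (fun i => p i a) l (𝓝 (f a))) :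
    ∃ q : A →ₐ[ℂ] ℂ, ∀ a, q a = f a := by
  refine ⟨{ toFun := f, map_one' := ?_, map_mul' := ?_, map_zero' := ?_, map_add' := ?_,
            commutes' := ?_ }, fun a => rfl⟩
  · refine tendsto_nhds_unique (h 1) ?_
    simp only [map_one]
    exact tendsto_const_nhds
  · intro x y
    refine tendsto_nhds_unique (h (x * y)) ?_
    simp only [map_mul]
    exact (h x).mul (h y)
  · refine tendsto_nhds_unique (h 0) ?_
    simp only [map_zero]
    exact tendsto_const_nhds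
  · intro x y
    refine tendsto_nhds_unique (h (x + y)) ?_
    simp only [map_add]
    exact (h x).add (h y)
  · intro r
    refine tendsto_nhds_unique (h (algebraMap ℂ A r)) ?_
    simp only [AlgHom.commutes]
    exact tendsto_const_nhds

/-! ### density of the punctured polydisc -/

theorem nhdsWithin_PD_neBot {n : ℕ} {δ : ℝ} {i₀ : Option (Fin n)} {ζ : Cn n}
    (hζ : ζ ∈ ball (0 : Cn n) δ) : (𝓝[PD δ i₀] ζ).NeBot := by
  rw [← mem_closure_iff_nhdsWithin_neBot]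
  rcases i₀ with _ | i
  · apply subset_closure
    rw [mem_PD_none]
    exact hζ
  · have h1 : Dense {ζ : Cn n | ζ i ≠ 0} := by
      have h2 : Dense ({0}ᶜ : Set ℂ) := dense_compl_singleton 0
      exact h2.preimage (isOpenMap_eval (X := fun _ : Fin n => ℂ) i)
    have h3 := h1.open_subset_closure_inter (isOpen_ball (x := (0 : Cn n)) (ε := δ)) hζ
    refine closure_mono ?_ h3
    intro x hx
    rw [mem_PD_some]
    exact hx

/-- identity of continuous functions on the ball from the punctured polydisc -/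
theorem eq_of_PD {n : ℕ} {δ : ℝ} {i₀ : Option (Fin n)} {f g : Cn n → ℂ}
    (hf : ContinuousOn f (ball 0 δ)) (hg : ContinuousOn g (ball 0 δ))
    (h : ∀ ζ ∈ PD δ i₀, f ζ = g ζ) {ζ : Cn n} (hζ : ζ ∈ ball (0 : Cn n) δ) : f ζ = g ζ := by
  haveI := nhdsWithin_PD_neBot (i₀ := i₀) hζ
  have h1 : Tendsto f (𝓝[PD δ i₀] ζ) (𝓝 (f ζ)) :=
    (hf.continuousAt (isOpen_ball.mem_nhds hζ)).tendsto.mono_left nhdsWithin_le_nhds
  have h2 : Tendsto g (𝓝[PD δ i₀] ζ) (𝓝 (g ζ)) :=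
    (hg.continuousAt (isOpen_ball.mem_nhds hζ)).tendsto.mono_left nhdsWithin_le_nhds
  refine tendsto_nhds_unique (h1.congr' ?_) h2
  filter_upwards [self_mem_nhdsWithin] with x hx
  exact h x hx

/-! ### the extension -/

section ext

variable {K : Type} [Field K] [Algebra ℂ K] {n : ℕ} {M : Mdl K n} {δ : ℝ} {i₀ : Option (Fin n)}
  (X : AC M δ i₀)

theorem tau_analytic (i₀ : Option (Fin n)) (ζ : Cn n) : AnalyticAt ℂ (fun ζ : Cn n => tau i₀ ζ) ζ := by
  rcases i₀ with _ | i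
  · exact analyticAt_const
  · exact (ContinuousLinearMap.proj (R := ℂ) (φ := fun _ : Fin n => ℂ) i).analyticAt ζ

theorem tau_ne {ζ : Cn n} (h : ζ ∈ PD δ i₀) : tau i₀ ζ ≠ 0 := by
  rcases i₀ with _ | i
  · exact one_ne_zero
  · exact h.2 i rfl

variable {X}

/-- an element of `M.B` of finite order has no zeros on the punctured chart -/
theorem ord_ne {b : M.B} {k : ℤ} (h : X.Ord (b : K) k) {ζ : Cn n} (hζ : ζ ∈ PD δ i₀) :
    X.s ζ b ≠ 0 := by
  obtain ⟨u, ⟨G, hG, hG0, hGu⟩, hu⟩ := h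
  have h1 := hu ζ hζ b 1 (by simp)
  rw [map_one, mul_one] at h1
  rw [h1, hGu ζ hζ]
  exact mul_ne_zero (zpow_ne_zero _ (tau_ne hζ)) (hG0 ζ (PD_sub hζ))

/-- **extension of the points of `A`** -/
theorem exists_ext (hδ : 0 < δ) {A : Type} [CommRing A] [Algebra ℂ A] [Algebra A K]
    [IsScalarTower ℂ A K]
    (Sg : Finset A) (hSg : Algebra.adjoin ℂ (Sg : Set A) = ⊤)
    (hk : ∀ g ∈ Sg, ∃ k : ℕ, X.Ord (algebraMap A K g) k)
    (q : M.B) (hq : ∀ a : A, ∃ (m : ℕ) (b : M.B), algebraMap A K a * (q : K) ^ m = b)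
    {kq : ℤ} (hkq : X.Ord (q : K) kq) :
    ∃ P : Cn n → (A →ₐ[ℂ] ℂ), (∀ a, AnalyticOnNhd ℂ (fun ζ => P ζ a) (ball 0 δ)) ∧
      ∀ ζ ∈ PD δ i₀, ∀ (a : A) (b c : M.B), algebraMap A K a * (c : K) = b →
        P ζ a * X.s ζ c = X.s ζ b := by
  classical
  have hinjB : Function.Injective (algebraMap M.B K) := Subtype.val_injective
  have hq' : ∀ a : A, ∃ (m : ℕ) (b : M.B), algebraMap A K a * algebraMap M.B K q ^ m =
      algebraMap M.B K b := hq
  have hne : ∀ ζ ∈ PD δ i₀, X.s ζ q ≠ 0 := fun ζ hζ => ord_ne hkq hζ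
  have hPD : (PD δ i₀).Nonempty := by
    have h1 := nhdsWithin_PD_neBot (i₀ := i₀) (mem_ball_self hδ : (0 : Cn n) ∈ ball (0 : Cn n) δ)
    rw [← mem_closure_iff_nhdsWithin_neBot] at h1
    exact closure_nonempty_iff.1 ⟨_, h1⟩
  -- the points on the punctured chart
  have hex : ∀ ζ : Cn n, ∃ p : A →ₐ[ℂ] ℂ, ζ ∈ PD δ i₀ → ∀ (a : A) (b c : M.B),
      algebraMap A K a * (c : K) = b → p a * X.s ζ c = X.s ζ b := by
    intro ζ
    by_cases h : ζ ∈ PD δ i₀
    · obtain ⟨p, hp⟩ := Bd741.exists_pt (A := M.B) (B := A) (K := K) hinjB q hq' (X.s ζ) (hne ζ h)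
      exact ⟨p, fun _ => hp⟩
    · obtain ⟨ζ', hζ'⟩ := hPD
      obtain ⟨p, hp⟩ := Bd741.exists_pt (A := M.B) (B := A) (K := K) hinjB q hq' (X.s ζ')
        (hne ζ' hζ')
      exact ⟨p, fun h' => absurd h' h⟩
  choose P₀ hP₀ using hex
  -- the values at the generators
  have hgen : ∀ g : A, ∃ v : Cn n → ℂ, g ∈ Sg → AnalyticOnNhd ℂ v (ball 0 δ) ∧
      ∀ ζ ∈ PD δ i₀, P₀ ζ g = v ζ := by
    intro g
    by_cases hg : g ∈ Sg
    · obtain ⟨k, u, ⟨G, hG, hG0, hGu⟩, hu⟩ := hk g hg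
      refine ⟨fun ζ => tau i₀ ζ ^ k * G ζ, fun _ => ⟨?_, ?_⟩⟩
      · intro ζ hζ
        exact ((tau_analytic i₀ ζ).pow k).mul (hG ζ hζ)
      · intro ζ hζ
        obtain ⟨m, b, hb⟩ := hq g
        have h1 := hP₀ ζ hζ g b (q ^ m) (by rw [← hb]; push_cast; ring)
        have h2 := hu ζ hζ b (q ^ m) (by rw [← hb]; push_cast; ring)
        rw [h2] at h1
        have h3 : X.s ζ (q ^ m) ≠ 0 := by rw [map_pow]; exact pow_ne_zero _ (hne ζ hζ)
        have h4 := mul_right_cancel₀ h3 h1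
        rw [h4, hGu ζ hζ, zpow_natCast]
    · exact ⟨0, fun h => absurd h hg⟩
  choose v hv using hgen
  -- the values at all elements
  have hall : ∀ a : A, ∃ F : Cn n → ℂ, AnalyticOnNhd ℂ F (ball 0 δ) ∧
      ∀ ζ ∈ PD δ i₀, P₀ ζ a = F ζ := by
    intro a
    have ha : a ∈ Algebra.adjoin ℂ (Sg : Set A) := by rw [hSg]; trivial
    induction ha using Algebra.adjoin_induction with
    | mem x hx => exact ⟨v x, hv x hx⟩
    | algebraMap r =>
      exact ⟨fun _ => r, analyticOnNhd_const, fun ζ _ => by rw [AlgHom.commutes]; rfl⟩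
    | add x y _ _ hx hy =>
      obtain ⟨F, hF, hF'⟩ := hx
      obtain ⟨G, hG, hG'⟩ := hy
      exact ⟨fun ζ => F ζ + G ζ, hF.add hG, fun ζ hζ => by rw [map_add, hF' ζ hζ, hG' ζ hζ]⟩
    | mul x y _ _ hx hy =>
      obtain ⟨F, hF, hF'⟩ := hx
      obtain ⟨G, hG, hG'⟩ := hy
      exact ⟨fun ζ => F ζ * G ζ, hF.mul hG, fun ζ hζ => by rw [map_mul, hF' ζ hζ, hG' ζ hζ]⟩
  choose F hF hF' using hall
  -- the extension
  have hlim : ∀ ζ : Cn n, ∃ p : A →ₐ[ℂ] ℂ, ζ ∈ ball (0 : Cn n) δ → ∀ a, p a = F a ζ := by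
    intro ζ
    by_cases h : ζ ∈ ball (0 : Cn n) δ
    · haveI := nhdsWithin_PD_neBot (i₀ := i₀) h
      obtain ⟨p, hp⟩ := exists_limit (l := 𝓝[PD δ i₀] ζ) P₀ (fun a => F a ζ) (by
        intro a
        have h1 : Tendsto (F a) (𝓝[PD δ i₀] ζ) (𝓝 (F a ζ)) :=
          (hF a ζ h).continuousAt.tendsto.mono_left nhdsWithin_le_nhds
        refine h1.congr' ?_
        filter_upwards [self_mem_nhdsWithin] with x hx
        exact (hF' a x hx).symm)
      exact ⟨p, fun _ => hp⟩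
    · exact ⟨P₀ ζ, fun h' => absurd h' h⟩
  choose P hP using hlim
  have hPe : ∀ ζ ∈ PD δ i₀, P ζ = P₀ ζ := by
    intro ζ hζ
    ext a
    rw [hP ζ (PD_sub hζ) a, hF' a ζ hζ]
  refine ⟨P, fun a => ?_, fun ζ hζ a b c h => ?_⟩
  · intro ζ hζ
    refine (hF a ζ hζ).congr ?_
    filter_upwards [isOpen_ball.mem_nhds hζ] with x hx
    exact (hP x hx a).symm
  · rw [hPe ζ hζ]
    exact hP₀ ζ hζ a b c h

/-- an extended point: the values at all `a` of finite order -/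
theorem ext_ord {A : Type} [CommRing A] [Algebra ℂ A] [Algebra A K] [IsScalarTower ℂ A K]
    {P : Cn n → (A →ₐ[ℂ] ℂ)} (hPan : ∀ a, AnalyticOnNhd ℂ (fun ζ => P ζ a) (ball 0 δ))
    (hP : ∀ ζ ∈ PD δ i₀, ∀ (a : A) (b c : M.B), algebraMap A K a * (c : K) = b →
        P ζ a * X.s ζ c = X.s ζ b)
    {q : M.B} {kq : ℤ} (hkq : X.Ord (q : K) kq)
    (hq : ∀ a : A, ∃ (m : ℕ) (b : M.B), algebraMap A K a * (q : K) ^ m = b)
    {a : A} {k : ℕ} (ha : X.Ord (algebraMap A K a) k) :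
    ∃ G : Cn n → ℂ, AnalyticOnNhd ℂ G (ball 0 δ) ∧ (∀ ζ ∈ ball (0 : Cn n) δ, G ζ ≠ 0) ∧
      ∀ ζ ∈ ball (0 : Cn n) δ, P ζ a = tau i₀ ζ ^ k * G ζ := by
  obtain ⟨u, ⟨G, hG, hG0, hGu⟩, hu⟩ := ha
  refine ⟨G, hG, hG0, fun ζ hζ => ?_⟩
  refine eq_of_PD (i₀ := i₀) (hPan a).continuousOn (g := fun ζ => tau i₀ ζ ^ k * G ζ) ?_ ?_ hζ
  · exact fun x hx => (((tau_analytic i₀ x).pow k).mul (hG x hx)).continuousAt.continuousWithinAt
  · intro x hx
    obtain ⟨m, b, hb⟩ := hq a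
    have h1 := hP x hx a b (q ^ m) (by rw [← hb]; push_cast; ring)
    have h2 := hu x hx b (q ^ m) (by rw [← hb]; push_cast; ring)
    rw [h2] at h1
    have h3 : X.s x (q ^ m) ≠ 0 := by rw [map_pow]; exact pow_ne_zero _ (ord_ne hkq hx)
    rw [mul_right_cancel₀ h3 h1, hGu x hx, zpow_natCast]

/-- the values of the elements of `M.B` -/
theorem ext_rel {A : Type} [CommRing A] [Algebra ℂ A] [Algebra A K] [IsScalarTower ℂ A K]
    {P : Cn n → (A →ₐ[ℂ] ℂ)}
    (hP : ∀ ζ ∈ PD δ i₀, ∀ (a : A) (b c : M.B), algebraMap A K a * (c : K) = b →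
        P ζ a * X.s ζ c = X.s ζ b)
    {q : M.B} {kq : ℤ} (hkq : X.Ord (q : K) kq)
    (hq : ∀ a : A, ∃ (m : ℕ) (b : M.B), algebraMap A K a * (q : K) ^ m = b)
    {ζ : Cn n} (hζ : ζ ∈ PD δ i₀) {b : M.B} {u v : A}
    (h : (b : K) * algebraMap A K v = algebraMap A K u) : X.s ζ b * P ζ v = P ζ u := by
  obtain ⟨m, c, hc⟩ := hq v
  obtain ⟨m', c', hc'⟩ := hq u
  have hne := ord_ne hkq hζ
  have e1 := hP ζ hζ v c (q ^ m) (by push_cast; exact hc)
  have e2 := hP ζ hζ u c' (q ^ m') (by push_cast; exact hc')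
  have e3 : b * c * q ^ m' = c' * q ^ m := by
    apply Subtype.ext
    push_cast
    rw [← hc, ← hc', ← h]
    ring
  have e4 := congrArg (X.s ζ) e3
  rw [map_mul, map_mul, map_mul, ← e1, ← e2] at e4
  simp only [map_pow] at e4
  have h5 : (X.s ζ b * P ζ v) * (X.s ζ q ^ m * X.s ζ q ^ m') =
      P ζ u * (X.s ζ q ^ m * X.s ζ q ^ m') := by
    calc _ = X.s ζ b * (P ζ v * X.s ζ q ^ m) * X.s ζ q ^ m' := by ring
      _ = P ζ u * X.s ζ q ^ m' * X.s ζ q ^ m := e4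
      _ = _ := by ring
  exact mul_right_cancel₀ (mul_ne_zero (pow_ne_zero _ hne) (pow_ne_zero _ hne)) h5

end ext

/-! ### local uniqueness in étale coordinates -/

/-- two families of points converging to the same point with equal étale coordinates are
eventually equal -/
theorem etale_unique {B : Type} [CommRing B] [Algebra ℂ B] {n : ℕ} {w : Fin n → B}
    {x₀ : B →ₐ[ℂ] ℂ} (C : Chart w x₀) {Y : Type*} {l : Filter Y} {f g : Y → (B →ₐ[ℂ] ℂ)}
    (hf : ∀ b, Tendsto (fun i => f i b) l (𝓝 (x₀ b)))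
    (hg : ∀ b, Tendsto (fun i => g i b) l (𝓝 (x₀ b)))
    (h : ∀ᶠ i in l, ∀ k, f i (w k) = g i (w k)) : ∀ᶠ i in l, f i = g i := by
  obtain ⟨S, ε, hε, hS⟩ := C.surj
  have h1 : ∀ᶠ i in l, ∀ b ∈ S, ‖f i b - x₀ b‖ < ε := by
    rw [Filter.eventually_all_finset]
    intro b _
    have := (hf b).eventually (ball_mem_nhds _ hε)
    filter_upwards [this] with i hi
    rwa [dist_eq_norm] at hi
  have h2 : ∀ᶠ i in l, ∀ b ∈ S, ‖g i b - x₀ b‖ < ε := by
    rw [Filter.eventually_all_finset]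
    intro b _
    have := (hg b).eventually (ball_mem_nhds _ hε)
    filter_upwards [this] with i hi
    rwa [dist_eq_norm] at hi
  filter_upwards [h, h1, h2] with i hi hi1 hi2
  rw [hS _ hi1, hS _ hi2]
  congr 1
  funext k
  rw [hi k]

end Crest.Agent.R276.TransA_231
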