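import Mathlib
import Crest.Agent.R276.C4Loc_327
import Crest.Agent.R276.TransA_231

/-!
# R276, leaf C4, case `T ⊆ R` (helper563)

On a tower chart along `R ⊇ T` the map `H₁.f ∘ cL.s` extends holomorphically to the full polydisc,
with values in `{h_T ≠ 0}`: every function `G ∘ H₁.f`, `G` continuous on `M_T`, is bounded there.

* `ord_inv`, `ord_zero`;
* `exists_vals`: the coordinates of `M_T` on the chart of `L`;
* `bdL_of_le`, `bdL_int`.
-/

set_option autoImplicit false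

noncomputable section

open Set Filter Topology MeasureTheory Metric

namespace Crest.Agent.R276.C4Triv_563

open Crest.Agent.R271 Crest.Agent.R271.Rd692 Crest.Agent.R271.Ho51
open Crest.Agent.R271.Defs710 hiding glue
open Crest.Agent.R276.Mod1_987 Crest.Agent.R276.FKDefs_779
open Crest.Agent.R276.SkelDefs_220 hiding ModelOf
open Crest.Agent.R276.WPack_505 (ord_apply logB_of_bdd)
open Crest.Agent.R271.Alg255 (az)

/-! ### orders -/

section ord

variable {K : Type} [Field K] [Algebra ℂ K] {n : ℕ} {M : Mdl K n} {δ : ℝ} {i₀ : Option (Fin n)}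

theorem mono_inv {u : Cn n → ℂ} {k : ℤ} (h : Mono δ i₀ u k) :
    Mono δ i₀ (fun ζ => (u ζ)⁻¹) (-k) := by
  obtain ⟨G, h1, h2, h3⟩ := h
  refine ⟨fun ζ => (G ζ)⁻¹, fun ζ hζ => (h1 ζ hζ).inv (h2 ζ hζ), fun ζ hζ => inv_ne_zero (h2 ζ hζ),
    fun ζ hζ => ?_⟩
  simp only
  rw [h3 ζ hζ, mul_inv, zpow_neg]

theorem ord_inv {X : AC M δ i₀} {f : K} (hf : f ≠ 0) {k : ℤ} (h : X.Ord f k) :
    X.Ord f⁻¹ (-k) := by
  obtain ⟨u, hu, hX⟩ := h
  refine ⟨fun ζ => (u ζ)⁻¹, mono_inv hu, fun ζ hζ b c hbc => ?_⟩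
  have h1 : (c : K) = f * b := by rw [hbc, mul_inv_cancel_left₀ hf]
  rw [hX ζ hζ c b h1, inv_mul_cancel_left₀ (AcOpen_89.Mono.ne_zero hu hζ)]

theorem mono_none (hi : i₀ = none) {u : Cn n → ℂ} {k : ℤ} (h : Mono δ i₀ u k) :
    Mono δ i₀ u 0 := by
  subst hi
  obtain ⟨G, h1, h2, h3⟩ := h
  refine ⟨G, h1, h2, fun ζ hζ => ?_⟩
  rw [h3 ζ hζ]
  simp [tau]

/-- a power of `s` with a non zero limit at `0` -/
theorem zpow_lim {k : ℤ} {c : ℂ} (hc : c ≠ 0)
    (h : Tendsto (fun s : ℂ => s ^ k) (𝓝[≠] 0) (𝓝 c)) : k = 0 := by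
  have key : ∀ (m : ℕ) (c : ℂ), 0 < m → c ≠ 0 →
      ¬ Tendsto (fun s : ℂ => s ^ m) (𝓝[≠] 0) (𝓝 c) := by
    intro m c hm hc h
    have h1 : Tendsto (fun s : ℂ => s ^ m) (𝓝[≠] 0) (𝓝 ((0 : ℂ) ^ m)) :=
      ((continuous_pow m).tendsto (0 : ℂ)).mono_left nhdsWithin_le_nhds
    rw [zero_pow hm.ne'] at h1
    exact hc (tendsto_nhds_unique h h1)
  rcases lt_trichotomy k 0 with hk | hk | hk
  · exfalso
    obtain ⟨m, hm⟩ := Int.eq_ofNat_of_zero_le (neg_nonneg.2 hk.le)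
    refine key m c⁻¹ (by omega) (inv_ne_zero hc) ?_
    refine (h.inv₀ hc).congr fun s => ?_
    rw [← zpow_natCast, ← hm, zpow_neg]
  · exact hk
  · exfalso
    obtain ⟨m, hm⟩ := Int.eq_ofNat_of_zero_le hk.le
    refine key m c (by omega) hc ?_
    refine h.congr fun s => ?_
    rw [hm, zpow_natCast]

end ord

section tower

variable {T L K : Type} [Field T] [Field L] [Field K] [Algebra ℂ T] [Algebra ℂ L] [Algebra ℂ K]
  [Algebra T L] [Algebra L K] [IsScalarTower ℂ T L] [IsScalarTower ℂ L K] {ρ a r : ℕ}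
  {MT : Mdl T ρ} {ML : Mdl L (ρ + a)} {MK : Mdl K (ρ + a + r)} {H₁ : Rel MT ML} {H₂ : Rel ML MK}
  {R : ValuationSubring K} (Y : TChart H₁ H₂ R)

/-- elements of `T ⊆ R` have order `0` along `R` -/
theorem ord_zero_K (hT : ∀ x : T, algebraMap L K (algebraMap T L x) ∈ R) {x : T} (hx : x ≠ 0)
    {k : ℤ} (h : Y.cK.Ord (algebraMap L K (algebraMap T L x)) k) : k = 0 := by
  have h0 : algebraMap L K (algebraMap T L x) ≠ 0 := by
    intro h0
    apply hx
    apply (algebraMap T L).injective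
    apply (algebraMap L K).injective
    rw [h0, map_zero, map_zero]
  have h1 := (Y.ordR _ k h).1 (hT x)
  have h2 := (Y.ordR _ (-k) (ord_inv h0 h)).1 (by
    have h3 := hT x⁻¹
    rwa [map_inv₀, map_inv₀] at h3)
  omega

/-- comparison of orders on the charts of `L` and `K` -/
theorem ord_zero_L {b : ML.B} {k : ℤ} (hK : Y.cK.Ord (algebraMap L K (b : L)) 0)
    (hL : Y.cL.Ord (b : L) k) (hlow : low (some Y.i₀) ≠ none) : k = 0 := by
  obtain ⟨j, hj⟩ : ∃ j, low (some Y.i₀) = some j := Option.ne_none_iff_exists'.1 hlow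
  have hi := EndC_723.low_eq_some hj
  have hi₀ : Y.i₀ = Fin.castAdd r j := Option.some.inj hi
  obtain ⟨gL, hL1, hL2, hL3⟩ := ord_apply hL
  obtain ⟨gK, hK1, hK2, hK3⟩ := ord_apply (b := H₂.incl b) (show Y.cK.Ord _ 0 from hK)
  have hδ := Y.δ_pos
  -- the two paths
  set p : ℂ → Cn (ρ + a + r) := fun s => Pi.single Y.i₀ s with hp
  have hpc : Continuous p :=
    continuous_single (A := fun _ : Fin (ρ + a + r) => ℂ) Y.i₀
  have hp0 : p 0 = 0 := Pi.single_zero _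
  set q : ℂ → Cn (ρ + a) := fun s => Pi.single j (s ^ Y.e₁) with hq
  have hqc : Continuous q :=
    (continuous_single (A := fun _ : Fin (ρ + a) => ℂ) j).comp (continuous_pow _)
  have hq0 : q 0 = 0 := by
    rw [hq]
    simp only
    rw [zero_pow Y.e₁_pos.ne', Pi.single_zero]
  have hpw : ∀ s, pw Y.e₁ (some Y.i₀) (p s) = q s := by
    intro s
    funext l
    unfold pw
    rw [hj]
    by_cases hl : j = l
    · subst hl
      rw [if_pos rfl, hp, hq]
      simp only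
      rw [hi₀, Pi.single_eq_same, Pi.single_eq_same]
    · rw [if_neg (fun h => hl (Option.some.inj h)), hp, hq]
      simp only
      rw [hi₀, Pi.single_eq_of_ne, Pi.single_eq_of_ne (Ne.symm hl)]
      intro h
      exact hl ((Fin.castAdd_injective _ _) h).symm
  have hb0 : (0 : Cn (ρ + a + r)) ∈ ball (0 : Cn (ρ + a + r)) Y.δ := mem_ball_self hδ
  have hb0' : (0 : Cn (ρ + a)) ∈ ball (0 : Cn (ρ + a)) Y.δ := mem_ball_self hδ
  have hGK : Tendsto (fun s => gK (p s)) (𝓝[≠] 0) (𝓝 (gK 0)) := by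
    have h1 : ContinuousAt (fun s => gK (p s)) 0 :=
      ContinuousAt.comp (g := gK) (by rw [hp0]; exact (hK1 0 hb0).continuousAt) hpc.continuousAt
    have h2 := h1.tendsto
    simp only [hp0] at h2
    exact h2.mono_left nhdsWithin_le_nhds
  have hGL : Tendsto (fun s => gL (q s)) (𝓝[≠] 0) (𝓝 (gL 0)) := by
    have h1 : ContinuousAt (fun s => gL (q s)) 0 :=
      ContinuousAt.comp (g := gL) (by rw [hq0]; exact (hL1 0 hb0').continuousAt) hqc.continuousAt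
    have h2 := h1.tendsto
    simp only [hq0] at h2
    exact h2.mono_left nhdsWithin_le_nhds
  have hlim : Tendsto (fun s => gK (p s) / gL (q s)) (𝓝[≠] 0) (𝓝 (gK 0 / gL 0)) :=
    hGK.div hGL (hL2 0 hb0')
  have hev : ∀ᶠ s : ℂ in 𝓝[≠] 0, gK (p s) / gL (q s) = s ^ ((Y.e₁ : ℤ) * k) := by
    have h1 : ∀ᶠ s : ℂ in 𝓝 0, p s ∈ ball (0 : Cn (ρ + a + r)) Y.δ :=
      hpc.continuousAt.eventually_mem (by rw [hp0]; exact isOpen_ball.mem_nhds hb0)
    filter_upwards [h1.filter_mono nhdsWithin_le_nhds, self_mem_nhdsWithin] with s hs hs0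
    have hs0' : s ≠ 0 := hs0
    have hPD : p s ∈ PD Y.δ (some Y.i₀) := by
      refine ⟨mem_ball_zero_iff.1 hs, fun i hi => ?_⟩
      have : Y.i₀ = i := Option.some.inj hi
      subst this
      rw [hp]
      simp only
      rw [Pi.single_eq_same]
      exact hs0'
    have hPDq : q s ∈ PD Y.δ (low (some Y.i₀)) := by
      rw [← hpw]
      exact EndC_723.pw_mem Y.δ_lt.le Y.e₁_pos hPD
    have e1 := hK3 _ hPD
    have e2 := hL3 _ hPDq
    simp only at e1 e2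
    have e3 : Y.cK.s (p s) (H₂.incl b) = Y.cL.s (q s) b := by
      have h2 := Y.compL _ hPD
      rw [hpw] at h2
      rw [← h2]
      rfl
    have e4 : tau (low (some Y.i₀)) (q s) = s ^ Y.e₁ := by
      rw [hj]
      change (Pi.single j (s ^ Y.e₁) : Cn (ρ + a)) j = _
      rw [Pi.single_eq_same]
    rw [zpow_zero, one_mul] at e1
    rw [e1, e2, e4] at e3
    rw [e3, mul_div_assoc, div_self (hL2 _ (AcOpen_89.PD_subset_ball _ _ hPDq)), mul_one,
      ← zpow_natCast, ← zpow_mul]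
  have h5 := zpow_lim (div_ne_zero (hK2 0 hb0) (hL2 0 hb0')) (hlim.congr' hev)
  have h6 : (Y.e₁ : ℤ) ≠ 0 := by exact_mod_cast Y.e₁_pos.ne'
  exact (mul_eq_zero.1 h5).resolve_left h6

/-- the values of the units of `B_T` on the chart of `L` extend without zeros -/
theorem exists_val (hT : ∀ x : T, algebraMap L K (algebraMap T L x) ∈ R) {b : MT.B}
    (hb : (b : T) ≠ 0) {kL kK : ℤ} (hL : Y.cL.Ord (algebraMap T L b) kL)
    (hK : Y.cK.Ord (algebraMap L K (algebraMap T L b)) kK) :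
    ∃ G : Cn (ρ + a) → ℂ, AnalyticOnNhd ℂ G (ball 0 Y.δ) ∧ (∀ η ∈ ball (0 : Cn (ρ + a)) Y.δ, G η ≠ 0) ∧
      ∀ η ∈ PD Y.δ (low (some Y.i₀)), H₁.f (Y.cL.s η) b = G η := by
  have h0 := ord_zero_K Y hT hb hK
  subst h0
  have hmono := ord_apply (b := H₁.incl b) (show Y.cL.Ord _ kL from hL)
  have h1 : Mono Y.δ (low (some Y.i₀)) (fun η => Y.cL.s η (H₁.incl b)) 0 := by
    by_cases hlow : low (some Y.i₀) = none
    · exact mono_none hlow hmono
    · have h2 := ord_zero_L Y (b := H₁.incl b) (show Y.cK.Ord _ 0 from hK)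
        (show Y.cL.Ord _ kL from hL) hlow
      rwa [h2] at hmono
  obtain ⟨G, hG1, hG2, hG3⟩ := h1
  refine ⟨G, hG1, hG2, fun η hη => ?_⟩
  have h3 := hG3 η hη
  rw [zpow_zero, one_mul] at h3
  exact h3

open Classical in
/-- **case `T ⊆ R` of (C4)** -/
theorem bdL_of_le (H₁ : Rel MT ML) (H₂ : Rel ML MK) (R : ValuationSubring K)
    (hT : ∀ x : T, algebraMap L K (algebraMap T L x) ∈ R) {G : MT.Pts → ℝ} (hG : Continuous G)
    (κ : ℝ) :
    BdL H₁ H₂ R fun Y η => G (H₁.f (Y.cL.s η)) * ‖Y.jN η‖ ^ 2 *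
      (1 + ∑ i, ‖tc ML (eL ρ a) (Y.cL.s η) i‖ ^ 2) ^ κ := by
  -- the elements
  set hT' : MT.B := az MT.z MT.h with hhT
  have hh0 : (hT' : T) ≠ 0 := by
    intro h0
    have h1 : hT' = 0 := Subtype.ext h0
    have h2 := MT.h_unit
    rw [← hhT, h1] at h2
    exact not_isUnit_zero h2
  have hz0 : ∀ i, (MT.z i : T) ≠ 0 := by
    intro i h0
    have h1 : MT.z i = 0 := Subtype.ext h0
    have h2 : az MT.z (MvPolynomial.X i) = az MT.z 0 := by
      rw [map_zero, ← h1]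
      simp [az]
    exact MvPolynomial.X_ne_zero i (MT.az_injective h2)
  set Bs : Finset T := insert (hT' : T) (Finset.univ.image fun i => (MT.z i : T)) with hBs
  have hBs0 : ∀ x ∈ Bs, x ≠ 0 := by
    intro x hx
    rw [hBs, Finset.mem_insert, Finset.mem_image] at hx
    rcases hx with rfl | ⟨i, -, rfl⟩
    · exact hh0
    · exact hz0 i
  refine ⟨Bs.image fun x => algebraMap L K (algebraMap T L x), Bs.image fun x => algebraMap T L x,
    ?_, ?_, fun Y hD hF hFL => logB_of_bdd fun δ' hδ' => ?_⟩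
  · intro f hf
    obtain ⟨x, hx, rfl⟩ := Finset.mem_image.1 hf
    intro h0
    apply hBs0 x hx
    apply (algebraMap T L).injective
    apply (algebraMap L K).injective
    rw [h0, map_zero, map_zero]
  · intro f hf
    obtain ⟨x, hx, rfl⟩ := Finset.mem_image.1 hf
    intro h0
    apply hBs0 x hx
    apply (algebraMap T L).injective
    rw [h0, map_zero]
  -- the values
  have hval : ∀ b : MT.B, (b : T) ∈ Bs → ∃ G : Cn (ρ + a) → ℂ, AnalyticOnNhd ℂ G (ball 0 Y.δ) ∧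
      (∀ η ∈ ball (0 : Cn (ρ + a)) Y.δ, G η ≠ 0) ∧
      ∀ η ∈ PD Y.δ (low (some Y.i₀)), H₁.f (Y.cL.s η) b = G η := by
    intro b hb
    obtain ⟨kK, hkK⟩ := hF _ (Finset.mem_image.2 ⟨b, hb, rfl⟩)
    obtain ⟨kL, hkL⟩ := hFL _ (Finset.mem_image.2 ⟨b, hb, rfl⟩)
    exact exists_val Y hT (hBs0 _ hb) hkL hkK
  obtain ⟨gh, hgh1, hgh2, hgh3⟩ := hval hT' (Finset.mem_insert_self _ _)
  have hzm : ∀ i, (MT.z i : T) ∈ Bs := fun i =>
    Finset.mem_insert_of_mem (Finset.mem_image.2 ⟨i, Finset.mem_univ _, rfl⟩)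
  choose g hg1 hg2 hg3 using fun i => hval (MT.z i) (hzm i)
  set gg : Cn (ρ + a) → Cn ρ := fun η i => g i η with hgg
  have hggc : ContinuousOn gg (ball 0 Y.δ) := continuousOn_pi.2 fun i => (hg1 i).continuousOn
  have hpz : ∀ η ∈ PD Y.δ (low (some Y.i₀)), MT.pz (H₁.f (Y.cL.s η)) = gg η := by
    intro η hη
    funext i
    exact hg3 i η hη
  have hhe : ∀ η ∈ ball (0 : Cn (ρ + a)) Y.δ, MvPolynomial.eval (gg η) MT.h = gh η := by
    intro η hη
    refine TransA_231.eq_of_PD (i₀ := low (some Y.i₀)) (f := fun η => MvPolynomial.eval (gg η) MT.h)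
      (g := gh) ?_ hgh1.continuousOn ?_ hη
    · exact (MvPolynomial.continuous_eval MT.h).comp_continuousOn hggc
    · intro ζ hζ
      rw [← hpz ζ hζ, ← hgh3 ζ hζ, hhT, MT.apply_az']
  -- compactness
  have hsub : closedBall (0 : Cn (ρ + a)) δ' ⊆ ball 0 Y.δ := closedBall_subset_ball hδ'
  have hK : IsCompact (gg '' closedBall (0 : Cn (ρ + a)) δ') :=
    (isCompact_closedBall _ _).image_of_continuousOn (hggc.mono hsub)
  have hK' : IsCompact (MT.pz ⁻¹' (gg '' closedBall (0 : Cn (ρ + a)) δ')) := by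
    refine MT.isCompact_preimage hK ?_
    rintro _ ⟨η, hη, rfl⟩
    rw [hhe η (hsub hη)]
    exact hgh2 η (hsub hη)
  obtain ⟨C₁, hC₁⟩ := hK'.bddAbove_image hG.continuousOn
  -- the Jacobian
  set jj : Cn (ρ + a) → ℂ := fun η => (Matrix.of fun k l : Fin ρ =>
    fderiv ℂ (g k) η (Pi.single (Fin.castAdd a l) 1)).det with hjj
  have hjN : ∀ η ∈ PD Y.δ (low (some Y.i₀)), Y.jN η = jj η := by
    intro η hη
    rw [C4Loc_327.jN_eq Y hη, hjj]
    congr 1
    ext k l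
    simp only [Matrix.of_apply]
    have h1 : HasFDerivAt (fun ζ => ML.pz (Y.cL.s ζ)) (fderiv ℂ (fun ζ => ML.pz (Y.cL.s ζ)) η) η :=
      (EndC_723.ac_diff Y.cL hη).hasFDerivAt
    have h2 := (ContinuousLinearMap.proj (R := ℂ) (φ := fun _ : Fin (ρ + a) => ℂ)
      (Fin.castAdd a k)).hasFDerivAt.comp η h1
    have h3 : (fun ζ => ML.pz (Y.cL.s ζ) (Fin.castAdd a k)) =ᶠ[𝓝 η] g k := by
      filter_upwards [(AcOpen_89.isOpen_PD Y.δ (low (some Y.i₀))).mem_nhds hη] with ζ hζ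
      rw [← hg3 k ζ hζ]
      change _ = MT.pz (H₁.f (Y.cL.s ζ)) k
      rw [← EndC_723.rel_pz H₁]
      rfl
    have h4 : HasFDerivAt (g k) ((ContinuousLinearMap.proj (R := ℂ) (φ := fun _ : Fin (ρ + a) => ℂ)
      (Fin.castAdd a k)).comp (fderiv ℂ (fun ζ => ML.pz (Y.cL.s ζ)) η)) η :=
      h2.congr_of_eventuallyEq h3.symm
    rw [h4.fderiv]
    rfl
  have hjc : ContinuousOn jj (ball 0 Y.δ) := by
    intro η hη
    refine ContinuousAt.continuousWithinAt ?_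
    have h3 : ∀ (v : Cn (ρ + a)) (k : Fin ρ), ContinuousAt (fun η => fderiv ℂ (g k) η v) η := by
      intro v k
      exact (hg1 k η hη).fderiv.continuousAt.clm_apply continuousAt_const
    rw [hjj]
    simp only [Matrix.det_apply']
    refine tendsto_finsetSum _ fun σ _ => ?_
    refine Tendsto.const_mul _ ?_
    refine tendsto_finsetProd _ fun i _ => ?_
    exact h3 _ _
  -- the product of the last two factors
  have hAc : ContinuousOn (fun η => ‖jj η‖ ^ 2 * (1 + ∑ i, ‖gg η i‖ ^ 2) ^ κ)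
      (closedBall (0 : Cn (ρ + a)) δ') := by
    refine ContinuousOn.mul ((hjc.mono hsub).norm.pow 2) ?_
    refine ContinuousOn.rpow_const ?_ fun η _ => Or.inl (by positivity)
    refine continuousOn_const.add (continuousOn_finsetSum _ fun i _ => ?_)
    exact (((hg1 i).continuousOn.mono hsub).norm.pow 2)
  obtain ⟨C₂, hC₂⟩ := (isCompact_closedBall (0 : Cn (ρ + a)) δ').bddAbove_image hAc
  refine ⟨|C₁| * |C₂|, fun η hη => ?_⟩
  have hηb : η ∈ closedBall (0 : Cn (ρ + a)) δ' := mem_closedBall_zero_iff.2 hη.1.le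
  have hηP : η ∈ PD Y.δ (low (some Y.i₀)) := AcOpen_89.PD_mono hδ'.le _ hη
  have e1 : G (H₁.f (Y.cL.s η)) ≤ |C₁| := by
    refine (hC₁ ⟨_, ?_, rfl⟩).trans (le_abs_self _)
    refine ⟨η, hηb, ?_⟩
    exact (hpz η hηP).symm
  have e2 : ∀ i, tc ML (eL ρ a) (Y.cL.s η) i = gg η i := by
    intro i
    rw [← hpz η hηP, ← EndC_723.rel_pz H₁]
    change ML.pz (Y.cL.s η) (finSumFinEquiv (Sum.inl i)) = _
    rw [finSumFinEquiv_apply_left]
    rfl
  simp only [e2]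
  rw [hjN η hηP, mul_assoc]
  have e3 : ‖jj η‖ ^ 2 * (1 + ∑ i, ‖gg η i‖ ^ 2) ^ κ ≤ |C₂| :=
    (hC₂ ⟨η, hηb, rfl⟩).trans (le_abs_self _)
  have e4 : 0 ≤ ‖jj η‖ ^ 2 * (1 + ∑ i, ‖gg η i‖ ^ 2) ^ κ := by positivity
  calc G (H₁.f (Y.cL.s η)) * (‖jj η‖ ^ 2 * (1 + ∑ i, ‖gg η i‖ ^ 2) ^ κ) ≤
      |C₁| * (‖jj η‖ ^ 2 * (1 + ∑ i, ‖gg η i‖ ^ 2) ^ κ) := mul_le_mul_of_nonneg_right e1 e4
    _ ≤ |C₁| * |C₂| := mul_le_mul_of_nonneg_left e3 (abs_nonneg _)

/-- **(C4) of #3384** -/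
theorem bdL_int (H₁ : Rel MT ML) (H₂ : Rel ML MK) (R : ValuationSubring K)
    (hR : ∀ x : T, algebraMap L K (algebraMap T L x) ∈ R) {G : MT.Pts → ℝ} (hG : Continuous G)
    (_hG0 : ∀ x, 0 ≤ G x) {κ : ℝ} (_hk : 0 ≤ κ) :
    BdL H₁ H₂ R fun Y η => G (H₁.f (Y.cL.s η)) * ‖Y.jN η‖ ^ 2 *
      (1 + ∑ i, ‖tc ML (eL ρ a) (Y.cL.s η) i‖ ^ 2) ^ κ :=
  bdL_of_le H₁ H₂ R hR hG κ

end tower

end Crest.Agent.R276.C4Triv_563
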