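import Mathlib
import Crest.Agent.R276.C4Triv_563
import Crest.Agent.R276.C4T_804

/-!
# R276, leaf C4: `C4T_804.BdInt` (helper563)
-/

set_option autoImplicit false

noncomputable section

namespace Crest.Agent.R276.C4Triv_563

/-- **(C4)**, the bound at the `R` with `T ⊆ R` -/
theorem bdInt : C4T_804.BdInt := by
  intro T L K _ _ _ _ _ _ _ _ _ _ ρ a r MT ML MK H₁ H₂ R _ hT G hG hG0 κ hκ
  exact bdL_int H₁ H₂ R hT hG hG0 hκ

end Crest.Agent.R276.C4Triv_563
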