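import Mathlib
import Crest.Agent.R276.BndA_563
import Crest.Agent.R276.EndTh_659

/-!
# R276, leaf COUNT-GR, part A (helper217)

Operator bounds in Hermitian norms; exponentials of nilpotent matrices; the logarithm of a unipotent
matrix as a universal combination of its powers.
-/

set_option autoImplicit false
set_option linter.unusedSectionVars false

open Set Filter Topology Matrix
open scoped ComplexOrder

namespace Crest.Agent.R276.GrA_217

open Crest.Agent.R276.BndA_563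

variable {ι : Type*} [Fintype ι] [DecidableEq ι]

/-- the norm of `u` for the Hermitian form `K` -/
noncomputable def nrm (K : Matrix ι ι ℂ) (u : ι → ℂ) : ℝ := Real.sqrt (hn K u)

theorem nrm_nonneg (K : Matrix ι ι ℂ) (u : ι → ℂ) : 0 ≤ nrm K u := Real.sqrt_nonneg _

theorem nrm_sq {K : Matrix ι ι ℂ} (hK : K.PosDef) (u : ι → ℂ) : nrm K u ^ 2 = hn K u :=
  Real.sq_sqrt (hn_nonneg hK u)

theorem nrm_add_le {K : Matrix ι ι ℂ} (hK : K.PosDef) (u v : ι → ℂ) :
    nrm K (u + v) ≤ nrm K u + nrm K v := sqrt_hn_add hK u v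

theorem nrm_smul (K : Matrix ι ι ℂ) (c : ℂ) (u : ι → ℂ) : nrm K (c • u) = ‖c‖ * nrm K u := by
  unfold nrm
  rw [hn_smul, Real.sqrt_mul (sq_nonneg _), Real.sqrt_sq (norm_nonneg _)]

theorem nrm_zero (K : Matrix ι ι ℂ) : nrm K 0 = 0 := by simp [nrm, hn_zero]

/-- `A` is bounded by `c` in the norm `K` -/
def Ob (K A : Matrix ι ι ℂ) (c : ℝ) : Prop := ∀ u, nrm K (A *ᵥ u) ≤ c * nrm K u

theorem Ob.mono {K A : Matrix ι ι ℂ} {c c' : ℝ} (h : Ob K A c) (hc : c ≤ c') : Ob K A c' :=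
  fun u => (h u).trans (mul_le_mul_of_nonneg_right hc (nrm_nonneg K u))

theorem Ob.one (K : Matrix ι ι ℂ) : Ob K 1 1 := fun u => by simp

theorem Ob.zero (K : Matrix ι ι ℂ) : Ob K 0 0 := fun u => by simp [nrm_zero]

theorem Ob.mul {K A B : Matrix ι ι ℂ} {a b : ℝ} (ha : 0 ≤ a) (hA : Ob K A a) (hB : Ob K B b) :
    Ob K (A * B) (a * b) := fun u => by
  rw [← Matrix.mulVec_mulVec]
  calc nrm K (A *ᵥ (B *ᵥ u)) ≤ a * nrm K (B *ᵥ u) := hA _
    _ ≤ a * (b * nrm K u) := by gcongr; exact hB u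
    _ = _ := by ring

theorem Ob.add {K A B : Matrix ι ι ℂ} (hK : K.PosDef) {a b : ℝ} (hA : Ob K A a) (hB : Ob K B b) :
    Ob K (A + B) (a + b) := fun u => by
  rw [Matrix.add_mulVec]
  calc _ ≤ _ := nrm_add_le hK _ _
    _ ≤ a * nrm K u + b * nrm K u := add_le_add (hA u) (hB u)
    _ = _ := by ring

theorem Ob.smul {K A : Matrix ι ι ℂ} {a : ℝ} (hA : Ob K A a) (c : ℂ) :
    Ob K (c • A) (‖c‖ * a) := fun u => by
  rw [Matrix.smul_mulVec, nrm_smul, mul_assoc]
  exact mul_le_mul_of_nonneg_left (hA u) (norm_nonneg _)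

theorem Ob.pow {K A : Matrix ι ι ℂ} {a : ℝ} (ha : 0 ≤ a) (hA : Ob K A a) (n : ℕ) :
    Ob K (A ^ n) (a ^ n) := by
  induction n with
  | zero => simpa using Ob.one K
  | succ n ih =>
    rw [pow_succ, pow_succ]
    exact Ob.mul (by positivity) ih hA

theorem Ob.sum {K : Matrix ι ι ℂ} (hK : K.PosDef) {κ : Type*} (s : Finset κ)
    {A : κ → Matrix ι ι ℂ} {a : κ → ℝ} (h : ∀ i ∈ s, Ob K (A i) (a i)) :
    Ob K (∑ i ∈ s, A i) (∑ i ∈ s, a i) := by
  classical
  induction s using Finset.induction_on with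
  | empty => simpa using Ob.zero K
  | insert i s hi ih =>
    rw [Finset.sum_insert hi, Finset.sum_insert hi]
    exact Ob.add hK (h i (Finset.mem_insert_self i s))
      (ih fun j hj => h j (Finset.mem_insert_of_mem hj))

/-- a nilpotent matrix has `L ^ card = 0` -/
theorem pow_card {L : Matrix ι ι ℂ} (h : IsNilpotent L) : L ^ Fintype.card ι = 0 := by
  have h1 : IsNilpotent (Matrix.toLin' L) := by
    obtain ⟨k, hk⟩ := h
    refine ⟨k, ?_⟩
    rw [← Matrix.toLin'_pow, hk, map_zero]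
  have h2 := LinearMap.aeval_self_charpoly (Matrix.toLin' L)
  rw [h1.charpoly_eq_X_pow_finrank] at h2
  simp only [map_pow, Polynomial.aeval_X, Module.finrank_fintype_fun_eq_card] at h2
  rw [← Matrix.toLin'_pow] at h2
  exact (Matrix.toLin' (R := ℂ) (m := ι) (n := ι)).map_eq_zero_iff.1 h2

theorem pow_zero' {L : Matrix ι ι ℂ} (h : IsNilpotent L) {n : ℕ} (hn : Fintype.card ι ≤ n) :
    L ^ n = 0 := pow_eq_zero_of_le hn (pow_card h)

/-- the exponential as a complex sum -/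
theorem exp_eq {L : Matrix ι ι ℂ} (h : IsNilpotent L) {n : ℕ} (hn : Fintype.card ι ≤ n) (s : ℂ) :
    IsNilpotent.exp (s • L) = ∑ i ∈ Finset.range n, (s ^ i / (i.factorial : ℂ)) • L ^ i := by
  have h1 : (s • L) ^ n = 0 := by rw [smul_pow, pow_zero' h hn, smul_zero]
  rw [IsNilpotent.exp_eq_sum h1]
  refine Finset.sum_congr rfl fun i _ => ?_
  rw [smul_pow]
  ext a b
  simp only [Matrix.smul_apply, smul_eq_mul, Rat.smul_def]
  push_cast
  ring

theorem nil_smul {L : Matrix ι ι ℂ} (h : IsNilpotent L) (s : ℂ) : IsNilpotent (s • L) := by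
  obtain ⟨k, hk⟩ := h
  exact ⟨k, by rw [smul_pow, hk, smul_zero]⟩

/-- `E(s) = exp(sL)` -/
noncomputable def EE (L : Matrix ι ι ℂ) (s : ℂ) : Matrix ι ι ℂ := IsNilpotent.exp (s • L)

theorem EE_add {L : Matrix ι ι ℂ} (h : IsNilpotent L) (s t : ℂ) :
    EE L (s + t) = EE L s * EE L t := by
  unfold EE
  rw [add_smul]
  exact IsNilpotent.exp_add_of_commute ((Commute.refl L).smul_left s |>.smul_right t)
    (nil_smul h s) (nil_smul h t)

theorem EE_zero {L : Matrix ι ι ℂ} (h : IsNilpotent L) : EE L 0 = 1 := by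
  unfold EE
  rw [exp_eq h (n := Fintype.card ι + 1) (by omega), Finset.sum_range_succ']
  simp

theorem EE_neg {L : Matrix ι ι ℂ} (h : IsNilpotent L) (s : ℂ) : EE L s * EE L (-s) = 1 := by
  rw [← EE_add h, add_neg_cancel, EE_zero h]

theorem EE_neg' {L : Matrix ι ι ℂ} (h : IsNilpotent L) (s : ℂ) : EE L (-s) * EE L s = 1 := by
  rw [← EE_add h, neg_add_cancel, EE_zero h]

theorem EE_nat {L : Matrix ι ι ℂ} (h : IsNilpotent L) (j : ℕ) : EE L j = EE L 1 ^ j := by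
  induction j with
  | zero => simpa using EE_zero h
  | succ j ih => rw [Nat.cast_succ, EE_add h, ih, pow_succ]

theorem Ob.exp {K L : Matrix ι ι ℂ} (hK : K.PosDef) (h : IsNilpotent L) {c : ℝ} (hc : 0 ≤ c)
    (hL : Ob K L c) (s : ℂ) : Ob K (EE L s) (Real.exp (‖s‖ * c)) := by
  unfold EE
  rw [exp_eq h le_rfl]
  have h1 : Ob K (∑ i ∈ Finset.range (Fintype.card ι), (s ^ i / (i.factorial : ℂ)) • L ^ i)
      (∑ i ∈ Finset.range (Fintype.card ι), ‖s ^ i / (i.factorial : ℂ)‖ * c ^ i) :=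
    Ob.sum hK _ fun i _ => (hL.pow hc i).smul _
  refine h1.mono ?_
  have h2 := Real.sum_le_exp_of_nonneg (x := ‖s‖ * c) (by positivity) (Fintype.card ι)
  refine (le_of_eq ?_).trans h2
  refine Finset.sum_congr rfl fun i _ => ?_
  rw [norm_div, norm_pow, mul_pow, Complex.norm_natCast]
  ring

/-- the coefficients of the logarithm -/
theorem exists_coef (m : ℕ) : ∃ c : Fin (m + 2) → ℂ, ∀ i : Fin (m + 2),
    ∑ j, c j * (j : ℂ) ^ (i : ℕ) = if i = 1 then 1 else 0 := by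
  set V : Matrix (Fin (m + 2)) (Fin (m + 2)) ℂ :=
    Matrix.vandermonde (fun j : Fin (m + 2) => ((j : ℕ) : ℂ)) with hV
  have hdet : V.det ≠ 0 := by
    rw [hV, Matrix.det_vandermonde_ne_zero_iff]
    intro a b hab
    have hab' : ((a : ℕ) : ℂ) = ((b : ℕ) : ℂ) := hab
    exact Fin.ext (by exact_mod_cast hab')
  refine ⟨Pi.single 1 1 ᵥ* V⁻¹, fun i => ?_⟩
  have h1 : (Pi.single 1 1 ᵥ* V⁻¹) ᵥ* V = Pi.single (1 : Fin (m + 2)) (1 : ℂ) := by
    rw [Matrix.vecMul_vecMul, Matrix.nonsing_inv_mul _ (isUnit_iff_ne_zero.2 hdet),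
      Matrix.vecMul_one]
  have h2 := congrFun h1 i
  simp only [Matrix.vecMul, dotProduct, hV, Matrix.vandermonde_apply] at h2
  rw [Pi.single_apply] at h2
  exact h2

/-- the logarithm of a unipotent matrix is a universal combination of its powers -/
theorem log_comb (ι : Type*) [Fintype ι] [DecidableEq ι] :
    ∃ c : Fin (Fintype.card ι + 2) → ℂ, ∀ L : Matrix ι ι ℂ, IsNilpotent L →
      L = ∑ j, c j • EE L 1 ^ (j : ℕ) := by
  obtain ⟨c, hc⟩ := exists_coef (Fintype.card ι)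
  refine ⟨c, fun L hL => ?_⟩
  have h1 : ∀ j : Fin (Fintype.card ι + 2), EE L 1 ^ (j : ℕ) =
      ∑ i : Fin (Fintype.card ι + 2), (((j : ℕ) : ℂ) ^ (i : ℕ) / ((i : ℕ).factorial : ℂ)) •
        L ^ (i : ℕ) := by
    intro j
    rw [← EE_nat hL, EE, exp_eq hL (n := Fintype.card ι + 2) (by omega), Finset.sum_range]
  simp_rw [h1, Finset.smul_sum, smul_smul]
  rw [Finset.sum_comm]
  simp_rw [← Finset.sum_smul]
  have h2 : ∀ i : Fin (Fintype.card ι + 2),
      ∑ j : Fin (Fintype.card ι + 2), c j * (((j : ℕ) : ℂ) ^ (i : ℕ) / ((i : ℕ).factorial : ℂ)) =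
      if i = 1 then 1 else 0 := by
    intro i
    have : ∀ j : Fin (Fintype.card ι + 2),
        c j * (((j : ℕ) : ℂ) ^ (i : ℕ) / ((i : ℕ).factorial : ℂ)) =
        (c j * ((j : ℕ) : ℂ) ^ (i : ℕ)) / ((i : ℕ).factorial : ℂ) := fun j => by ring
    simp_rw [this]
    rw [← Finset.sum_div, hc i]
    split_ifs with h
    · rw [h]; simp
    · simp
  simp_rw [h2]
  simp

/-- bound of `L` from a bound of `exp L` -/
theorem exists_log_bound (ι : Type*) [Fintype ι] [DecidableEq ι] (a : ℝ) (ha : 0 ≤ a) :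
    ∃ b : ℝ, 0 ≤ b ∧ ∀ K L : Matrix ι ι ℂ, K.PosDef → IsNilpotent L → Ob K (EE L 1) a →
      Ob K L b := by
  obtain ⟨c, hc⟩ := log_comb ι
  refine ⟨∑ j, ‖c j‖ * a ^ (j : ℕ), Finset.sum_nonneg fun _ _ => by positivity, ?_⟩
  intro K L hK hL hE
  have h1 : Ob K (∑ j, c j • EE L 1 ^ (j : ℕ)) (∑ j, ‖c j‖ * a ^ (j : ℕ)) :=
    Ob.sum hK _ fun j _ => (hE.pow ha _).smul _
  intro u
  have h2 := h1 u
  rwa [← hc L hL] at h2

end Crest.Agent.R276.GrA_217
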