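import Mathlib
import Crest.Agent.R276.GrA_217

/-!
# R276, leaf COUNT-GR, part B (helper217)

Comparison of Hodge norms on half space domains `{Re q₀ < a, ‖q_i‖ < R}`, with constants independent
of `a` and `R`.
-/

set_option autoImplicit false
set_option linter.unusedSectionVars false

open Set Filter Topology Matrix Metric
open scoped ComplexOrder ContDiff

namespace Crest.Agent.R276.GrB_217

open Crest.Agent.R276.BndA_563 Crest.Agent.R276.VCalc_442 Crest.Agent.R276.GrA_217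

variable {ι : Type*} [Fintype ι] [DecidableEq ι]

section lip

variable {X : Type*} [NormedAddCommGroup X] [NormedSpace ℂ X]
variable {w : ℕ} {U : Set X} {S : Matrix ι ι ℂ} {P : ℕ → X → Matrix ι ι ℂ}

/-- the logarithm of the Hodge norm is Lipschitz on a convex set at distance `ρ` from the boundary -/
theorem log_hn_lip' (h : VHS w U S P) {Q : Set X} (hQ : Convex ℝ Q) {ρ : ℝ} (hρ : 0 < ρ)
    (hsub : ∀ x ∈ Q, ball x ρ ⊆ U) {u : ι → ℂ} (hu : u ≠ 0) {y z : X} (hy : y ∈ Q) (hz : z ∈ Q) :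
    |Real.log (hn (hm w S P y) u) - Real.log (hn (hm w S P z) u)| ≤
      4 * Real.sqrt (CA ι) / ρ * ‖y - z‖ := by
  have hU : ∀ x ∈ Q, x ∈ U := fun x hx => hsub x hx (mem_ball_self hρ)
  have key : ∀ x ∈ Q, DifferentiableAt ℝ (fun y => Real.log (hn (hm w S P y) u)) x ∧
      ‖fderiv ℝ (fun y => Real.log (hn (hm w S P y) u)) x‖ ≤ 4 * Real.sqrt (CA ι) / ρ := by
    intro x hx
    have hpos : 0 < hn (hm w S P x) u := hn_pos (h.hmPos (hU x hx)) hu
    obtain ⟨d1, -⟩ := fderiv_hn h (hU x hx) u 0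
    have d2 : DifferentiableAt ℝ (fun y => Real.log (hn (hm w S P y) u)) x := d1.log hpos.ne'
    refine ⟨d2, ?_⟩
    refine ContinuousLinearMap.opNorm_le_bound _ (by positivity) fun v => ?_
    have e1 : fderiv ℝ (fun y => Real.log (hn (hm w S P y) u)) x v =
        (hn (hm w S P x) u)⁻¹ * fderiv ℝ (fun y => hn (hm w S P y) u) x v := by
      have := (d1.hasFDerivAt.log hpos.ne').fderiv
      rw [this]; rfl
    rw [e1, norm_mul, norm_inv, Real.norm_of_nonneg hpos.le, Real.norm_eq_abs]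
    have h2 := (fderiv_hn h (hU x hx) u v).2
    have h3 := sqrt_gden_le h x v hρ (hsub x hx)
    calc (hn (hm w S P x) u)⁻¹ * |fderiv ℝ (fun y => hn (hm w S P y) u) x v|
        ≤ (hn (hm w S P x) u)⁻¹ * (4 * Real.sqrt (gden w P v x) * hn (hm w S P x) u) := by gcongr
      _ = 4 * Real.sqrt (gden w P v x) := by field_simp
      _ ≤ 4 * (Real.sqrt (CA ι) * ‖v‖ / ρ) := by gcongr
      _ = 4 * Real.sqrt (CA ι) / ρ * ‖v‖ := by ring
  have := hQ.norm_image_sub_le_of_norm_fderiv_le (𝕜 := ℝ) (fun x hx => (key x hx).1)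
    (fun x hx => (key x hx).2) hz hy
  rwa [Real.norm_eq_abs] at this

end lip

variable {d : ℕ}

/-- `{Re q₀ < a, ‖q_i‖ < R}` -/
def HB (d : ℕ) (a R : ℝ) : Set (Fin (d + 1) → ℂ) :=
  {q | (q 0).re < a ∧ ∀ i : Fin d, ‖q i.succ‖ < R}

/-- `{Re q₀ ≤ a - 1/4, ‖q_i‖ ≤ R/2}` -/
def HQ (d : ℕ) (a R : ℝ) : Set (Fin (d + 1) → ℂ) :=
  {q | (q 0).re ≤ a - 1 / 4 ∧ ∀ i : Fin d, ‖q i.succ‖ ≤ R / 2}

theorem isOpen_HB (d : ℕ) (a R : ℝ) : IsOpen (HB d a R) := by
  unfold HB
  rw [ofPred_and, ofPred_forall]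
  refine IsOpen.inter ?_ ?_
  · exact isOpen_lt (Complex.continuous_re.comp (continuous_apply 0)) continuous_const
  · exact isOpen_iInter_of_finite fun i => isOpen_lt (continuous_apply _).norm continuous_const

theorem convex_HB (d : ℕ) (a R : ℝ) : Convex ℝ (HB d a R) := by
  unfold HB
  rw [ofPred_and, ofPred_forall]
  refine Convex.inter ?_ ?_
  · have : Convex ℝ {z : ℂ | z.re < a} := convex_halfSpace_re_lt a
    exact this.is_linear_preimage ((LinearMap.proj (R := ℝ) (φ := fun _ => ℂ) (0 : Fin (d + 1))).isLinear)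
  · refine convex_iInter fun i => ?_
    have : Convex ℝ (ball (0 : ℂ) R) := convex_ball 0 R
    have h2 := this.is_linear_preimage
      ((LinearMap.proj (R := ℝ) (φ := fun _ => ℂ) (i.succ : Fin (d + 1))).isLinear)
    have e : {x : Fin (d + 1) → ℂ | ‖x i.succ‖ < R} =
        (LinearMap.proj (R := ℝ) (φ := fun _ => ℂ) (i.succ : Fin (d + 1))) ⁻¹' ball 0 R := by
      ext q
      simp
    rw [e]
    exact h2

theorem convex_HQ (d : ℕ) (a R : ℝ) : Convex ℝ (HQ d a R) := by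
  unfold HQ
  rw [ofPred_and, ofPred_forall]
  refine Convex.inter ?_ ?_
  · have : Convex ℝ {z : ℂ | z.re ≤ a - 1 / 4} := convex_halfSpace_re_le _
    exact this.is_linear_preimage ((LinearMap.proj (R := ℝ) (φ := fun _ => ℂ) (0 : Fin (d + 1))).isLinear)
  · refine convex_iInter fun i => ?_
    have : Convex ℝ (closedBall (0 : ℂ) (R / 2)) := convex_closedBall 0 _
    have h2 := this.is_linear_preimage
      ((LinearMap.proj (R := ℝ) (φ := fun _ => ℂ) (i.succ : Fin (d + 1))).isLinear)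
    have e : {x : Fin (d + 1) → ℂ | ‖x i.succ‖ ≤ R / 2} =
        (LinearMap.proj (R := ℝ) (φ := fun _ => ℂ) (i.succ : Fin (d + 1))) ⁻¹'
          closedBall 0 (R / 2) := by
      ext q
      simp
    rw [e]
    exact h2

/-- the scaling `(q₀, R q_i)` -/
noncomputable def scl (R : ℝ) (q : Fin (d + 1) → ℂ) : Fin (d + 1) → ℂ :=
  Fin.cons (q 0) (fun i => (R : ℂ) * q i.succ)

@[simp] theorem scl_zero (R : ℝ) (q : Fin (d + 1) → ℂ) : scl R q 0 = q 0 := rfl

@[simp] theorem scl_succ (R : ℝ) (q : Fin (d + 1) → ℂ) (i : Fin d) :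
    scl R q i.succ = (R : ℂ) * q i.succ := rfl

theorem contDiff_scl (R : ℝ) : ContDiff ℂ ∞ (scl (d := d) R) := by
  rw [contDiff_pi]
  intro j
  refine Fin.cases ?_ (fun i => ?_) j
  · simpa using contDiff_apply ℂ ℂ (0 : Fin (d + 1))
  · simp only [scl_succ]
    exact contDiff_const.mul (contDiff_apply ℂ ℂ i.succ)

theorem scl_inv {R : ℝ} (hR : 0 < R) (q : Fin (d + 1) → ℂ) : scl R (scl R⁻¹ q) = q := by
  funext j
  refine Fin.cases ?_ (fun i => ?_) j
  · simp
  · simp only [scl_succ]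
    push_cast
    rw [← mul_assoc, mul_inv_cancel₀ (by exact_mod_cast hR.ne'), one_mul]

/-- the comparison constant -/
noncomputable def K0 (ι : Type*) [Fintype ι] [DecidableEq ι] : ℝ := 8 * Real.sqrt (CA ι)

theorem K0_nonneg : 0 ≤ K0 ι := by unfold K0; positivity

variable {w : ℕ} {S : Matrix ι ι ℂ} {P : ℕ → (Fin (d + 1) → ℂ) → Matrix ι ι ℂ}

theorem HQ_sub {a R : ℝ} (hR : 0 < R) : HQ d a R ⊆ HB d a R := fun q hq =>
  ⟨by have := hq.1; linarith, fun i => by have := hq.2 i; linarith⟩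

/-- **comparison of Hodge norms** -/
theorem nrm_le {a R : ℝ} (hR : 0 < R) (h : VHS w (HB d a R) S P) (u : ι → ℂ)
    {q q' : Fin (d + 1) → ℂ} (hq : q ∈ HQ d a R) (hq' : q' ∈ HQ d a R) :
    nrm (hm w S P q) u ≤ Real.exp (K0 ι * (1 + ‖q 0 - q' 0‖)) * nrm (hm w S P q') u := by
  by_cases hu : u = 0
  · rw [hu, nrm_zero, nrm_zero, mul_zero]
  have h' : VHS w (HB d a 1) S (fun p q => P p (scl R q)) := by
    refine EndTh_659.pull h (isOpen_HB d a 1) (contDiff_scl R).contDiffOn fun q hq => ?_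
    refine ⟨hq.1, fun i => ?_⟩
    rw [scl_succ, norm_mul, Complex.norm_real, Real.norm_of_nonneg hR.le]
    have := hq.2 i
    calc R * ‖q i.succ‖ < R * 1 := by gcongr
      _ = R := mul_one R
  have hs : ∀ {q : Fin (d + 1) → ℂ}, q ∈ HQ d a R → scl R⁻¹ q ∈ HQ d a 1 := by
    intro q hq
    refine ⟨hq.1, fun i => ?_⟩
    rw [scl_succ, norm_mul, Complex.norm_real, norm_inv, Real.norm_of_nonneg hR.le,
      inv_mul_le_iff₀ hR]
    have := hq.2 i
    linarith
  have h1 := log_hn_lip' h' (convex_HQ d a 1) (ρ := 1 / 4) (by norm_num) (by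
    intro x hx y hy
    rw [mem_ball, dist_eq_norm, pi_norm_lt_iff (by norm_num)] at hy
    refine ⟨?_, fun i => ?_⟩
    · have h2 := hy 0
      have h3 := (Complex.abs_re_le_norm ((y - x) 0)).trans_lt h2
      rw [Pi.sub_apply, Complex.sub_re] at h3
      have h4 := (abs_lt.1 h3).2
      have h5 := hx.1
      linarith
    · have h2 := hy i.succ
      have h3 := hx.2 i
      have h4 : ‖y i.succ‖ ≤ ‖(y - x) i.succ‖ + ‖x i.succ‖ := by
        have := norm_add_le ((y - x) i.succ) (x i.succ)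
        simpa using this
      linarith) hu (hs hq) (hs hq')
  have e1 : ∀ q, hm w S (fun p q => P p (scl R q)) (scl R⁻¹ q) = hm w S P q := by
    intro q
    have : hm w S (fun p q => P p (scl R q)) (scl R⁻¹ q) = hm w S P (scl R (scl R⁻¹ q)) := rfl
    rw [this, scl_inv hR]
  rw [e1, e1] at h1
  have h2 : ‖scl R⁻¹ q - scl R⁻¹ q'‖ ≤ 1 + ‖q 0 - q' 0‖ := by
    rw [pi_norm_le_iff_of_nonneg (by positivity)]
    intro j
    refine Fin.cases ?_ (fun i => ?_) j
    · simp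
    · rw [Pi.sub_apply, scl_succ, scl_succ, ← mul_sub, norm_mul, Complex.norm_real, norm_inv,
        Real.norm_of_nonneg hR.le]
      have h3 := hq.2 i
      have h4 := hq'.2 i
      have h5 := norm_sub_le (q i.succ) (q' i.succ)
      calc R⁻¹ * ‖q i.succ - q' i.succ‖ ≤ R⁻¹ * R := by gcongr; linarith
        _ = 1 := inv_mul_cancel₀ hR.ne'
        _ ≤ 1 + ‖q 0 - q' 0‖ := by linarith [norm_nonneg (q 0 - q' 0)]
  have hy0 := hn_pos (h.hmPos (HQ_sub hR hq)) hu
  have hz0 := hn_pos (h.hmPos (HQ_sub hR hq')) hu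
  have h3 : Real.log (hn (hm w S P q) u) ≤
      2 * (K0 ι * (1 + ‖q 0 - q' 0‖)) + Real.log (hn (hm w S P q') u) := by
    have h4 := (abs_le.1 h1).2
    have h5 : 4 * Real.sqrt (CA ι) / (1 / 4) * ‖scl R⁻¹ q - scl R⁻¹ q'‖ ≤
        2 * (K0 ι * (1 + ‖q 0 - q' 0‖)) := by
      unfold K0
      calc 4 * Real.sqrt (CA ι) / (1 / 4) * ‖scl R⁻¹ q - scl R⁻¹ q'‖
          ≤ 4 * Real.sqrt (CA ι) / (1 / 4) * (1 + ‖q 0 - q' 0‖) := by gcongr
        _ = _ := by ring
    linarith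
  have h6 : hn (hm w S P q) u ≤
      Real.exp (K0 ι * (1 + ‖q 0 - q' 0‖)) ^ 2 * hn (hm w S P q') u := by
    calc hn (hm w S P q) u = Real.exp (Real.log (hn (hm w S P q) u)) := (Real.exp_log hy0).symm
      _ ≤ Real.exp (2 * (K0 ι * (1 + ‖q 0 - q' 0‖)) + Real.log (hn (hm w S P q') u)) :=
        Real.exp_le_exp.2 h3
      _ = _ := by rw [Real.exp_add, Real.exp_log hz0, ← Real.exp_nat_mul]; norm_num
  unfold nrm
  calc Real.sqrt (hn (hm w S P q) u)
      ≤ Real.sqrt (Real.exp (K0 ι * (1 + ‖q 0 - q' 0‖)) ^ 2 * hn (hm w S P q') u) :=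
        Real.sqrt_le_sqrt h6
    _ = _ := by rw [Real.sqrt_mul (sq_nonneg _), Real.sqrt_sq (Real.exp_pos _).le]

end Crest.Agent.R276.GrB_217
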