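import Crest.Agent.R276.BdyE_767

/-!
# R276, leaf TWIST (helper767): the normal form of a twisted periodic holomorphic section of
moderate growth on a half space
-/

set_option autoImplicit false
set_option linter.unusedSectionVars false

open Set Filter Topology Metric Complex MeasureTheory
open scoped Real ContDiff ComplexConjugate Nat

noncomputable section

namespace Crest.Agent.R276.Twist_767

open Div_767 Bdy_767

variable {V : Type*} [NormedAddCommGroup V] [NormedSpace ℂ V] [CompleteSpace V]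
variable {E : Type*} [NormedAddCommGroup E] [NormedSpace ℂ E] [FiniteDimensional ℂ E]

/-! ### Riemann extension with parameters -/

/-- **Riemann extension** in the variable `u`, holomorphic in the parameters; the bound is only
needed for each value of the parameters separately. -/
theorem exists_ext {h : ℂ × E → V} {R : ℝ} {W : Set E} (hR : 0 < R) (hW : IsOpen W)
    (hh : AnalyticOnNhd ℂ h ((ball 0 R \ {0}) ×ˢ W))
    (hb : ∀ y ∈ W, ∃ C : ℝ, ∀ᶠ u in 𝓝[≠] (0 : ℂ), ‖h (u, y)‖ ≤ C) :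
    ∃ g : ℂ × E → V, AnalyticOnNhd ℂ g (ball 0 R ×ˢ W) ∧
      ∀ u ∈ ball (0 : ℂ) R, u ≠ 0 → ∀ y ∈ W, g (u, y) = h (u, y) := by
  classical
  set ρ : ℝ := R / 2 with hρ
  have hρ0 : 0 < ρ := by positivity
  have hρR : ρ < R := by rw [hρ]; linarith
  -- the Cauchy integral
  set g0 : ℂ × E → V := fun p => (2 * π * I : ℂ)⁻¹ •
    ∫ θ in (0 : ℝ)..2 * π, (circleMap 0 ρ θ * I) •
      ((circleMap 0 ρ θ - p.1)⁻¹ • h (circleMap 0 ρ θ, p.2)) with hg0
  have hcm : ∀ θ : ℝ, circleMap 0 ρ θ ∈ ball (0 : ℂ) R \ {0} := by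
    intro θ
    refine ⟨?_, ?_⟩
    · rw [mem_ball_zero_iff, norm_circleMap_zero, abs_of_pos hρ0]
      exact hρR
    · exact circleMap_ne_center hρ0.ne'
  have hne : ∀ θ : ℝ, ∀ u ∈ ball (0 : ℂ) ρ, circleMap 0 ρ θ - u ≠ 0 := by
    intro θ u hu h0
    rw [sub_eq_zero] at h0
    rw [mem_ball_zero_iff, ← h0, norm_circleMap_zero, abs_of_pos hρ0] at hu
    exact lt_irrefl _ hu
  have hg0a : AnalyticOnNhd ℂ g0 (ball 0 ρ ×ˢ W) := by
    refine analyticOnNhd_const.smul ?_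
    refine R266.SCV.analyticOnNhd_intervalIntegral
      (f := fun q : (ℂ × E) × ℝ => (circleMap 0 ρ q.2 * I) •
        ((circleMap 0 ρ q.2 - q.1.1)⁻¹ • h (circleMap 0 ρ q.2, q.1.2))) (isOpen_ball.prod hW) ?_ ?_
    · have h1 : ContinuousOn (fun q : (ℂ × E) × ℝ => h (circleMap 0 ρ q.2, q.1.2))
          ((ball 0 ρ ×ˢ W) ×ˢ uIcc 0 (2 * π)) := by
        refine hh.continuousOn.comp ?_ ?_
        · exact Continuous.continuousOn (by
            have := continuous_circleMap (0 : ℂ) ρ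
            fun_prop)
        · rintro ⟨⟨u, y⟩, θ⟩ ⟨⟨_, hy⟩, _⟩
          exact ⟨hcm θ, hy⟩
      have h2 : ContinuousOn (fun q : (ℂ × E) × ℝ => (circleMap 0 ρ q.2 - q.1.1)⁻¹)
          ((ball 0 ρ ×ˢ W) ×ˢ uIcc 0 (2 * π)) := by
        refine ContinuousOn.inv₀ ?_ ?_
        · exact Continuous.continuousOn (by
            have := continuous_circleMap (0 : ℂ) ρ
            fun_prop)
        · rintro ⟨⟨u, y⟩, θ⟩ ⟨⟨hu, _⟩, _⟩
          exact hne θ u hu
      have h3 : ContinuousOn (fun q : (ℂ × E) × ℝ => circleMap 0 ρ q.2 * I)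
          ((ball 0 ρ ×ˢ W) ×ˢ uIcc 0 (2 * π)) :=
        Continuous.continuousOn (by
            have := continuous_circleMap (0 : ℂ) ρ
            fun_prop)
      exact h3.smul (h2.smul h1)
    · intro θ _
      have h1 : DifferentiableOn ℂ (fun x : ℂ × E => (circleMap 0 ρ θ - x.1)⁻¹)
          (ball 0 ρ ×ˢ W) := by
        refine DifferentiableOn.inv (by fun_prop) ?_
        rintro ⟨u, y⟩ ⟨hu, _⟩
        exact hne θ u hu
      have h2 : DifferentiableOn ℂ (fun x : ℂ × E => h (circleMap 0 ρ θ, x.2))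
          (ball 0 ρ ×ˢ W) := by
        refine hh.differentiableOn.comp (by fun_prop) ?_
        rintro ⟨u, y⟩ ⟨_, hy⟩
        exact ⟨hcm θ, hy⟩
      exact (h1.smul h2).const_smul (circleMap 0 ρ θ * I)
  -- pointwise identity
  have key : ∀ y ∈ W, ∀ u ∈ ball (0 : ℂ) ρ, u ≠ 0 → g0 (u, y) = h (u, y) := by
    intro y hy u hu hu0
    obtain ⟨C, hC⟩ := hb y hy
    set k : ℂ → V := fun z => h (z, y) with hk
    have hkd : ∀ z ∈ ball (0 : ℂ) R \ {0}, DifferentiableAt ℂ k z := by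
      intro z hz
      have h1 : DifferentiableAt ℂ h (z, y) := (hh (z, y) ⟨hz, hy⟩).differentiableAt
      exact h1.comp z (f := fun z : ℂ => (z, y)) (by fun_prop)
    obtain ⟨L, hL⟩ : ∃ L, Tendsto k (𝓝[≠] 0) (𝓝 L) := by
      refine ⟨_, tendsto_limUnder_of_differentiable_on_punctured_nhds_of_bounded_under ?_ ?_⟩
      · rw [eventually_nhdsWithin_iff]
        filter_upwards [isOpen_ball.mem_nhds (mem_ball_self hR)] with z hz hz0
        exact hkd z ⟨hz, hz0⟩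
      · refine isBoundedUnder_of_eventually_le (a := C + ‖k 0‖) ?_
        filter_upwards [hC] with z hz
        exact (norm_sub_le _ _).trans (by gcongr)
    set K : ℂ → V := Function.update k 0 L with hK
    have hKne : ∀ z, z ≠ 0 → K z = k z := fun z hz => Function.update_of_ne hz _ _
    have hKc : ContinuousOn K (closedBall 0 ρ) := by
      intro z hz
      rcases eq_or_ne z 0 with rfl | hz0
      · exact (continuousAt_update_same.2 hL).continuousWithinAt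
      · have h1 : K =ᶠ[𝓝 z] k := by
          filter_upwards [isOpen_ne.mem_nhds hz0] with x hx using hKne x hx
        refine ContinuousAt.continuousWithinAt ?_
        refine ((hkd z ⟨?_, hz0⟩).continuousAt).congr h1.symm
        exact closedBall_subset_ball hρR hz
    have h2 := two_pi_I_inv_smul_circleIntegral_sub_inv_smul_of_differentiable_on_off_countable
      (s := {(0 : ℂ)}) (countable_singleton _) hu hKc (fun z hz => by
        have hz0 : z ≠ 0 := hz.2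
        have h1 : K =ᶠ[𝓝 z] k := by
          filter_upwards [isOpen_ne.mem_nhds hz0] with x hx using hKne x hx
        exact (hkd z ⟨ball_subset_ball hρR.le hz.1, hz0⟩).congr_of_eventuallyEq h1)
    rw [hKne u hu0] at h2
    rw [← show k u = h (u, y) from rfl, ← h2]
    simp only [hg0, circleIntegral]
    congr 1
    refine intervalIntegral.integral_congr fun θ _ => ?_
    simp only [deriv_circleMap]
    rw [hKne _ (hcm θ).2]
  -- glue
  refine ⟨fun p => if p.1 ∈ ball (0 : ℂ) ρ then g0 p else h p, ?_, ?_⟩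
  · rintro ⟨u, y⟩ ⟨hu, hy⟩
    by_cases hu1 : u ∈ ball (0 : ℂ) ρ
    · refine (hg0a (u, y) ⟨hu1, hy⟩).congr ?_
      filter_upwards [(isOpen_ball.preimage continuous_fst).mem_nhds
        (show (u, y) ∈ Prod.fst ⁻¹' ball (0 : ℂ) ρ from hu1)] with p hp
      rw [if_pos (show p.1 ∈ ball (0 : ℂ) ρ from hp)]
    · have hu0 : u ≠ 0 := fun h0 => hu1 (by rw [h0]; exact mem_ball_self hρ0)
      refine (hh (u, y) ⟨⟨hu, hu0⟩, hy⟩).congr ?_
      filter_upwards [((isOpen_ne (x := (0 : ℂ))).preimage continuous_fst).mem_nhds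
        (show (u, y) ∈ Prod.fst ⁻¹' {z : ℂ | z ≠ 0} from hu0),
        (hW.preimage continuous_snd).mem_nhds (show (u, y) ∈ Prod.snd ⁻¹' W from hy)] with p hp hp2
      by_cases hp1 : p.1 ∈ ball (0 : ℂ) ρ
      · rw [if_pos hp1]
        exact (key p.2 hp2 p.1 hp1 hp).symm
      · rw [if_neg hp1]
  · intro u hu hu0 y hy
    by_cases hu1 : u ∈ ball (0 : ℂ) ρ
    · simp only [if_pos hu1]
      exact key y hy u hu1 hu0
    · simp only [if_neg hu1]

/-! ### the order along `u = 0` is locally constant -/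

/-- the order of the pole at the parameter value `y` is at most `m` -/
def Q (h : ℂ × E → V) (m : ℕ) (y : E) : Prop :=
  ∃ C : ℝ, ∀ᶠ u in 𝓝[≠] (0 : ℂ), ‖u ^ m • h (u, y)‖ ≤ C

theorem Q.mono {h : ℂ × E → V} {m n : ℕ} {y : E} (hmn : m ≤ n) (hq : Q h m y) : Q h n y := by
  obtain ⟨C, hC⟩ := hq
  refine ⟨C, ?_⟩
  have h1 : ∀ᶠ u in 𝓝[≠] (0 : ℂ), u ∈ ball (0 : ℂ) 1 :=
    nhdsWithin_le_nhds (ball_mem_nhds _ one_pos)
  filter_upwards [hC, h1] with u hu hu1
  rw [mem_ball_zero_iff] at hu1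
  obtain ⟨j, rfl⟩ := Nat.exists_eq_add_of_le hmn
  rw [pow_add, mul_comm, mul_smul, norm_smul, norm_pow]
  calc ‖u‖ ^ j * ‖u ^ m • h (u, y)‖ ≤ 1 * ‖u ^ m • h (u, y)‖ := by
        gcongr
        exact pow_le_one₀ (norm_nonneg _) hu1.le
    _ ≤ C := by rw [one_mul]; exact hu

theorem exists_ext_pow {h : ℂ × E → V} {R : ℝ} {W : Set E} (hR : 0 < R) (hW : IsOpen W)
    (hh : AnalyticOnNhd ℂ h ((ball 0 R \ {0}) ×ˢ W)) {m : ℕ} (hq : ∀ y ∈ W, Q h m y) :
    ∃ g : ℂ × E → V, AnalyticOnNhd ℂ g (ball 0 R ×ˢ W) ∧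
      ∀ u ∈ ball (0 : ℂ) R, u ≠ 0 → ∀ y ∈ W, g (u, y) = u ^ m • h (u, y) := by
  refine exists_ext (h := fun p => p.1 ^ m • h p) hR hW ?_ hq
  exact fun p hp => (analyticAt_fst.pow m).smul (hh p hp)

theorem Q_pred {h : ℂ × E → V} {R : ℝ} {W : Set E} (hR : 0 < R) (hW : IsOpen W)
    (hWc : IsPreconnected W) (hh : AnalyticOnNhd ℂ h ((ball 0 R \ {0}) ×ˢ W)) {m : ℕ}
    (hq : ∀ y ∈ W, Q h (m + 1) y) {y1 : E} (hy1 : y1 ∈ W) (hq1 : ∀ᶠ y in 𝓝 y1, Q h m y) :
    ∀ y ∈ W, Q h m y := by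
  obtain ⟨g, hg, hgh⟩ := exists_ext_pow hR hW hh hq
  have hsl : ∀ {G : ℂ × E → V}, AnalyticOnNhd ℂ G (ball 0 R ×ˢ W) → ∀ y ∈ W,
      ContinuousAt (fun z : ℂ => G (z, y)) 0 := by
    intro G hG y hy
    have h1 : ContinuousAt G ((0 : ℂ), y) := (hG (0, y) ⟨mem_ball_self hR, hy⟩).continuousAt
    exact ContinuousAt.comp (f := fun z : ℂ => (z, y)) h1 (by fun_prop)
  have hball : ∀ᶠ u in 𝓝[≠] (0 : ℂ), u ∈ ball (0 : ℂ) R ∧ u ≠ 0 :=
    inter_mem (nhdsWithin_le_nhds (ball_mem_nhds _ hR)) self_mem_nhdsWithin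
  have hz1 : ∀ᶠ y in 𝓝 y1, g (0, y) = 0 := by
    filter_upwards [hq1, hW.mem_nhds hy1] with y hy hyW
    obtain ⟨C, hC⟩ := hy
    have h1 : Tendsto (fun z : ℂ => g (z, y)) (𝓝[≠] 0) (𝓝 (g (0, y))) :=
      (hsl hg y hyW).tendsto.mono_left nhdsWithin_le_nhds
    have h2 : Tendsto (fun z : ℂ => g (z, y)) (𝓝[≠] 0) (𝓝 0) := by
      rw [tendsto_zero_iff_norm_tendsto_zero]
      have h3 : Tendsto (fun z : ℂ => ‖z‖ * C) (𝓝[≠] 0) (𝓝 0) := by
        have h4 : Tendsto (fun z : ℂ => ‖z‖ * C) (𝓝 0) (𝓝 (‖(0 : ℂ)‖ * C)) :=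
          (continuous_norm.mul_const C).tendsto 0
        rw [norm_zero, zero_mul] at h4
        exact h4.mono_left nhdsWithin_le_nhds
      refine squeeze_zero' (Eventually.of_forall fun _ => norm_nonneg _) ?_ h3
      filter_upwards [hC, hball] with z hz hzb
      rw [hgh z hzb.1 hzb.2 y hyW, pow_succ', mul_smul, norm_smul]
      gcongr
    exact tendsto_nhds_unique h1 h2
  have hz : ∀ y ∈ W, g (0, y) = 0 := by
    have ha : AnalyticOnNhd ℂ (fun y : E => g (0, y)) W := by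
      intro y hy
      exact (hg (0, y) ⟨mem_ball_self hR, hy⟩).comp_of_eq (analyticAt_const.prod analyticAt_id) rfl
    exact ha.eqOn_zero_of_preconnected_of_eventuallyEq_zero hWc hy1 hz1
  obtain ⟨G, hG, hgG⟩ := exists_div hW hg hz
  intro y hy
  refine ⟨‖G (0, y)‖ + 1, ?_⟩
  have h1 : ∀ᶠ z in 𝓝[≠] (0 : ℂ), ‖G (z, y)‖ < ‖G (0, y)‖ + 1 :=
    nhdsWithin_le_nhds ((hsl hG y hy).norm.eventually (gt_mem_nhds (lt_add_one _)))
  filter_upwards [h1, hball] with z hz hzb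
  have h2 : z ^ m • h (z, y) = G (z, y) := by
    have h3 := hgh z hzb.1 hzb.2 y hy
    rw [hgG (z, y) ⟨hzb.1, hy⟩, pow_succ', mul_smul] at h3
    exact (smul_right_injective V hzb.2 h3).symm
  rw [h2]
  exact hz.le

theorem Q_reduce {h : ℂ × E → V} {R : ℝ} {W : Set E} (hR : 0 < R) (hW : IsOpen W)
    (hWc : IsPreconnected W) (hh : AnalyticOnNhd ℂ h ((ball 0 R \ {0}) ×ˢ W)) {m : ℕ}
    {y1 : E} (hy1 : y1 ∈ W) (hq1 : ∀ᶠ y in 𝓝 y1, Q h m y) :
    ∀ n : ℕ, (∀ y ∈ W, Q h n y) → ∀ y ∈ W, Q h m y := by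
  intro n
  induction n with
  | zero => exact fun hq y hy => (hq y hy).mono (Nat.zero_le _)
  | succ n ih =>
    intro hq
    by_cases hnm : n + 1 ≤ m
    · exact fun y hy => (hq y hy).mono hnm
    · refine ih (Q_pred hR hW hWc hh hq hy1 ?_)
      exact hq1.mono fun y hy => hy.mono (by omega)

theorem exists_unif {h : ℂ × E → V} {R : ℝ} {U : Set E} (hR : 0 < R) (hU : IsOpen U)
    (hUc : IsPreconnected U) (hh : AnalyticOnNhd ℂ h ((ball 0 R \ {0}) ×ˢ U))
    (hb : ∀ y ∈ U, ∃ m : ℕ, ∀ᶠ y' in 𝓝 y, Q h m y') : ∃ m : ℕ, ∀ y ∈ U, Q h m y := by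
  rcases U.eq_empty_or_nonempty with rfl | ⟨y0, hy0⟩
  · exact ⟨0, fun y hy => hy.elim⟩
  obtain ⟨m, hm⟩ := hb y0 hy0
  refine ⟨m, ?_⟩
  set A : Set E := {y | ∀ᶠ y' in 𝓝 y, Q h m y'} with hA
  have hAo : IsOpen A := isOpen_iff_mem_nhds.2 fun y hy => hy.eventually_nhds
  have hsub : U ⊆ A := by
    refine hUc.subset_of_closure_inter_subset hAo ⟨y0, hy0, hm⟩ ?_
    rintro y ⟨hyc, hyU⟩
    obtain ⟨n, hn⟩ := hb y hyU
    obtain ⟨ε, hε, hball⟩ := Metric.mem_nhds_iff.1 (inter_mem (hU.mem_nhds hyU) hn)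
    obtain ⟨y1, hy1, hy1b⟩ := (mem_closure_iff_nhds.1 hyc) (ball y ε) (ball_mem_nhds y hε)
    have h1 := Q_reduce (W := ball y ε) hR isOpen_ball (convex_ball y ε).isPreconnected
      (hh.mono (prod_mono_right fun z hz => (hball hz).1)) hy1 hy1b n
      (fun z hz => (hball hz).2)
    exact mem_of_superset (ball_mem_nhds y hε) h1
  exact fun y hy => (hsub hy).self_of_nhds

/-- **the normal form** `h = u ^ k f` with `f (0, ·)` not identically zero -/
theorem exists_order {h : ℂ × E → V} {R : ℝ} {U : Set E} (hR : 0 < R) (hU : IsOpen U)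
    (hUc : IsPreconnected U) (hh : AnalyticOnNhd ℂ h ((ball 0 R \ {0}) ×ˢ U))
    (hb : ∀ y ∈ U, ∃ m : ℕ, ∀ᶠ y' in 𝓝 y, Q h m y')
    (hne : ∃ u ∈ ball (0 : ℂ) R, u ≠ 0 ∧ ∃ y ∈ U, h (u, y) ≠ 0) :
    ∃ (k : ℤ) (f : ℂ × E → V), AnalyticOnNhd ℂ f (ball 0 R ×ˢ U) ∧
      (∀ u ∈ ball (0 : ℂ) R, u ≠ 0 → ∀ y ∈ U, h (u, y) = u ^ k • f (u, y)) ∧
      ∃ y ∈ U, f (0, y) ≠ 0 := by
  classical
  obtain ⟨m, hm⟩ := exists_unif hR hU hUc hh hb
  obtain ⟨g, hg, hgh⟩ := exists_ext_pow hR hU hh hm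
  obtain ⟨u0, hu0, hu00, y0, hy0, hhne⟩ := hne
  have hgne : ¬ ∀ p ∈ ball (0 : ℂ) R ×ˢ U, g p = 0 := by
    intro hz
    have h1 := hz (u0, y0) ⟨hu0, hy0⟩
    rw [hgh u0 hu0 hu00 y0 hy0] at h1
    exact hhne ((smul_eq_zero.1 h1).resolve_left (pow_ne_zero _ hu00))
  have hex : ∃ n : ℕ, ¬ ∃ G : ℂ × E → V, AnalyticOnNhd ℂ G (ball 0 R ×ˢ U) ∧
      ∀ p ∈ ball (0 : ℂ) R ×ˢ U, g p = p.1 ^ n • G p := by
    by_contra hcon
    push Not at hcon
    exact hgne (eq_zero_of_div hg hcon)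
  set n := Nat.find hex with hn
  have hn0 : n ≠ 0 := by
    intro h0
    have h1 := Nat.find_spec hex
    rw [← hn, h0] at h1
    exact h1 ⟨g, hg, fun p _ => by rw [pow_zero, one_smul]⟩
  obtain ⟨n', hn'⟩ := Nat.exists_eq_succ_of_ne_zero hn0
  obtain ⟨f, hf, hgf⟩ := not_not.1 (Nat.find_min hex (m := n') (by omega))
  refine ⟨(n' : ℤ) - m, f, hf, ?_, ?_⟩
  · intro u hu hu0 y hy
    have h1 := hgh u hu hu0 y hy
    rw [hgf (u, y) ⟨hu, hy⟩] at h1
    rw [zpow_sub₀ hu0, zpow_natCast, zpow_natCast, div_eq_inv_mul, mul_smul]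
    simp only at h1
    rw [h1, ← mul_smul, inv_mul_cancel₀ (pow_ne_zero _ hu0), one_smul]
  · by_contra hcon
    push Not at hcon
    obtain ⟨F, hF, hfF⟩ := exists_div hU hf hcon
    refine Nat.find_spec hex ⟨F, hF, fun p hp => ?_⟩
    rw [← hn, hn', hgf p hp, hfF p hp, pow_succ, mul_smul]

/-! ### the twisted periodic section -/

/-- the untwisted section -/
def Fw (N : V →L[ℂ] V) (G : ℂ × E → V) (q : ℂ × E) : V := ex N (-(q.1 / (2 * π * I))) (G q)

theorem norm_pow_apply_le (N : V →L[ℂ] V) (n : ℕ) (v : V) : ‖(N ^ n) v‖ ≤ ‖N‖ ^ n * ‖v‖ := by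
  induction n with
  | zero => simp
  | succ n ih =>
    rw [pow_succ', pow_succ', mul_assoc]
    exact (N.le_opNorm _).trans (mul_le_mul_of_nonneg_left ih (norm_nonneg _))

theorem norm_ex_le' (N : V →L[ℂ] V) (c : ℂ) : ‖ex N c‖ ≤ Real.exp (‖c‖ * ‖N‖) := by
  refine ContinuousLinearMap.opNorm_le_bound _ (Real.exp_pos _).le fun v => ?_
  have h1 : HasSum (fun n : ℕ => (‖c‖ * ‖N‖) ^ n / (n ! : ℝ)) (Real.exp (‖c‖ * ‖N‖)) := by
    rw [Real.exp_eq_exp_ℝ]
    exact NormedSpace.expSeries_div_hasSum_exp (‖c‖ * ‖N‖)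
  refine (ex_hasSum N c v).norm_le_of_bounded (h1.mul_right ‖v‖) fun n => ?_
  rw [norm_smul, norm_mul, norm_inv, norm_pow, Complex.norm_natCast]
  calc (n ! : ℝ)⁻¹ * ‖c‖ ^ n * ‖(N ^ n) v‖ ≤ (n ! : ℝ)⁻¹ * ‖c‖ ^ n * (‖N‖ ^ n * ‖v‖) := by
        gcongr
        exact norm_pow_apply_le N n v
    _ = (‖c‖ * ‖N‖) ^ n / (n ! : ℝ) * ‖v‖ := by
        rw [mul_pow]
        ring

theorem Fw_per {N : V →L[ℂ] V} {R : ℝ} {U : Set E} {G : ℂ × E → V}
    (hper : ∀ q : ℂ × E, q.1.re < Real.log R → q.2 ∈ U →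
      G (q.1 + 2 * π * I, q.2) = ex N 1 (G q)) {q : ℂ × E} (hq : q.1.re < Real.log R)
    (hq2 : q.2 ∈ U) (n : ℤ) : Fw N G (q.1 + n * (2 * π * I), q.2) = Fw N G q := by
  have hre : ∀ n : ℤ, (q.1 + n * (2 * π * I)).re = q.1.re := by
    intro n
    have : ((n : ℂ) * (2 * π * I)).re = 0 := by simp [mul_re, mul_im]
    rw [add_re, this, add_zero]
  have step : ∀ n : ℤ, Fw N G (q.1 + (n + 1 : ℤ) * (2 * π * I), q.2) =
      Fw N G (q.1 + n * (2 * π * I), q.2) := by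
    intro n
    have h1 := hper (q.1 + n * (2 * π * I), q.2) (by simp only; rw [hre]; exact hq) hq2
    have h2 : q.1 + ((n + 1 : ℤ) : ℂ) * (2 * π * I) = q.1 + n * (2 * π * I) + 2 * π * I := by
      push_cast
      ring
    simp only [Fw]
    rw [h2]
    simp only at h1
    rw [h1, ← ex_add_apply]
    congr 2
    field_simp
    ring
  induction n using Int.induction_on with
  | zero => simp
  | succ n ih => rw [step]; exact ih
  | pred n ih =>
    rw [← ih]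
    have h1 := step (-(n : ℤ) - 1)
    rw [sub_add_cancel] at h1
    exact h1.symm

/-- **TWIST**: a holomorphic section on the half space with `G (w + 2 π i, y) = exp (N) G (w, y)`
and of moderate growth is `e ^ {k w} exp ((w / 2 π i) N) f (e ^ w, y)` with `f` holomorphic up to
`u = 0` and `f (0, ·)` not identically zero -/
theorem exists_twist {N : V →L[ℂ] V} {R : ℝ} {U : Set E} {G : ℂ × E → V} (hR : 0 < R)
    (hU : IsOpen U) (hUc : IsPreconnected U)
    (hG : DifferentiableOn ℂ G {q | q.1.re < Real.log R ∧ q.2 ∈ U})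
    (hper : ∀ q : ℂ × E, q.1.re < Real.log R → q.2 ∈ U →
      G (q.1 + 2 * π * I, q.2) = ex N 1 (G q))
    (hgro : ∀ y0 ∈ U, ∃ C A : ℝ, ∀ᶠ y in 𝓝 y0, ∀ w : ℂ, w.re ≤ Real.log R - 1 →
      0 ≤ w.im → w.im ≤ 2 * π → ‖G (w, y)‖ ≤ C * Real.exp (-A * w.re))
    (hne : ∃ q : ℂ × E, q.1.re < Real.log R ∧ q.2 ∈ U ∧ G q ≠ 0) :
    ∃ (k : ℤ) (f : ℂ × E → V), AnalyticOnNhd ℂ f (ball 0 R ×ˢ U) ∧
      (∀ q : ℂ × E, q.1.re < Real.log R → q.2 ∈ U →
        G q = Complex.exp (k * q.1) • om N f q) ∧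
      ∃ y ∈ U, f (0, y) ≠ 0 := by
  have h2pi : (2 * π * I : ℂ) ≠ 0 := two_pi_I_ne_zero
  set h : ℂ × E → V := fun p => Fw N G (Complex.log p.1, p.2) with hh
  have key1 : ∀ w : ℂ, ∀ y ∈ U, w.re < Real.log R → h (Complex.exp w, y) = Fw N G (w, y) := by
    intro w y hy hw
    have h1 : Complex.exp (Complex.log (Complex.exp w)) = Complex.exp w :=
      Complex.exp_log (Complex.exp_ne_zero _)
    obtain ⟨n, hn⟩ := Complex.exp_eq_exp_iff_exists_int.1 h1
    simp only [hh]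
    rw [hn]
    exact Fw_per (q := (w, y)) hper hw hy n
  have hHP : IsOpen {q : ℂ × E | q.1.re < Real.log R ∧ q.2 ∈ U} :=
    (isOpen_lt (continuous_re.comp continuous_fst) continuous_const).inter
      (hU.preimage continuous_snd)
  have hFa : AnalyticOnNhd ℂ (Fw N G) {q : ℂ × E | q.1.re < Real.log R ∧ q.2 ∈ U} := by
    refine R266.SCV.analyticOnNhd_of_differentiableOn hHP ?_
    have h1 : DifferentiableOn ℂ (fun q : ℂ × E => ex N (-(q.1 / (2 * π * I))))
        {q : ℂ × E | q.1.re < Real.log R ∧ q.2 ∈ U} := by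
      have h2 : Differentiable ℂ (fun q : ℂ × E => -(q.1 / (2 * π * I))) := by fun_prop
      exact ((differentiable_ex N).comp h2).differentiableOn
    exact h1.clm_apply hG
  have hlogR : ∀ u : ℂ, u ≠ 0 → ‖u‖ < R → Real.log ‖u‖ < Real.log R := fun u hu0 hu =>
    Real.log_lt_log (norm_pos_iff.2 hu0) hu
  have hha : AnalyticOnNhd ℂ h ((ball 0 R \ {0}) ×ˢ U) := by
    rintro ⟨u0, y0⟩ ⟨⟨hu0, hu00⟩, hy0⟩
    have hu00' : u0 ≠ 0 := hu00
    set l : ℂ → ℂ := fun u => Complex.log (u / u0) + Complex.log u0 with hl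
    have hlexp : ∀ u : ℂ, u ≠ 0 → Complex.exp (l u) = u := by
      intro u hu
      rw [hl]
      simp only
      rw [Complex.exp_add, Complex.exp_log (div_ne_zero hu hu00'), Complex.exp_log hu00',
        div_mul_cancel₀ _ hu00']
    have hlre : ∀ u : ℂ, u ≠ 0 → (l u).re = Real.log ‖u‖ := by
      intro u hu
      have h1 : ‖Complex.exp (l u)‖ = ‖u‖ := by rw [hlexp u hu]
      rw [Complex.norm_exp] at h1
      rw [← h1, Real.log_exp]
    have hl0 : l u0 = Complex.log u0 := by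
      simp only [hl]
      rw [div_self hu00', Complex.log_one, zero_add]
    have hla : AnalyticAt ℂ (fun p : ℂ × E => (l p.1, p.2)) (u0, y0) := by
      refine AnalyticAt.prod ?_ analyticAt_snd
      have h1 : AnalyticAt ℂ l u0 := by
        refine AnalyticAt.add ?_ analyticAt_const
        refine AnalyticAt.clog (analyticAt_id.div analyticAt_const hu00') ?_
        rw [div_self hu00']
        exact Complex.one_mem_slitPlane
      exact h1.comp_of_eq analyticAt_fst rfl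
    have hk : AnalyticAt ℂ (fun p : ℂ × E => Fw N G (l p.1, p.2)) (u0, y0) := by
      refine AnalyticAt.comp_of_eq (hFa (l u0, y0) ⟨?_, hy0⟩) hla rfl
      rw [hlre u0 hu00']
      exact hlogR u0 hu00' (mem_ball_zero_iff.1 hu0)
    refine hk.congr ?_
    filter_upwards [((isOpen_ne (x := (0 : ℂ))).preimage continuous_fst).mem_nhds
        (show (u0, y0) ∈ Prod.fst ⁻¹' {z : ℂ | z ≠ 0} from hu00'),
      ((isOpen_ball (x := (0 : ℂ)) (ε := R)).preimage continuous_fst).mem_nhds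
        (show (u0, y0) ∈ Prod.fst ⁻¹' ball (0 : ℂ) R from hu0),
      (hU.preimage continuous_snd).mem_nhds (show (u0, y0) ∈ Prod.snd ⁻¹' U from hy0)]
      with p hp0 hpR hpU
    have hp0' : p.1 ≠ 0 := hp0
    have h1 := key1 (l p.1) p.2 hpU (by
      rw [hlre _ hp0']
      exact hlogR _ hp0' (mem_ball_zero_iff.1 hpR))
    rw [hlexp _ hp0'] at h1
    exact h1.symm
  have hb : ∀ y0 ∈ U, ∃ m : ℕ, ∀ᶠ y in 𝓝 y0, Q h m y := by
    intro y0 hy0
    obtain ⟨C, A, hCA⟩ := hgro y0 hy0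
    obtain ⟨m, hm⟩ := exists_nat_ge (A + ‖N‖)
    refine ⟨m, ?_⟩
    filter_upwards [hCA, hU.mem_nhds hy0] with y hy hyU
    refine ⟨|C| * Real.exp ‖N‖, ?_⟩
    have hsm : ∀ᶠ u in 𝓝[≠] (0 : ℂ), u ∈ ball (0 : ℂ) (min 1 (R * Real.exp (-1))) ∧ u ≠ 0 :=
      inter_mem (nhdsWithin_le_nhds (ball_mem_nhds _ (by positivity))) self_mem_nhdsWithin
    filter_upwards [hsm] with u hu
    obtain ⟨hu, hu0⟩ := hu
    rw [mem_ball_zero_iff, lt_min_iff] at hu
    have hupos : 0 < ‖u‖ := norm_pos_iff.2 hu0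
    obtain ⟨w, hwe, hwi0, hwi⟩ : ∃ w : ℂ, Complex.exp w = u ∧ 0 ≤ w.im ∧ w.im ≤ 2 * π := by
      rcases le_or_gt 0 (Complex.log u).im with h0 | h0
      · exact ⟨Complex.log u, Complex.exp_log hu0, h0,
          (Complex.log_im_le_pi u).trans (by linarith [Real.pi_pos])⟩
      · refine ⟨Complex.log u + 2 * π * I, ?_, ?_, ?_⟩
        · rw [Complex.exp_add, Complex.exp_log hu0, Complex.exp_two_pi_mul_I, mul_one]
        · have := Complex.neg_pi_lt_log_im u
          simp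
          linarith [Real.pi_pos]
        · simp
          linarith [Real.pi_pos]
    have hwre : w.re = Real.log ‖u‖ := by
      have h1 : ‖Complex.exp w‖ = ‖u‖ := by rw [hwe]
      rw [Complex.norm_exp] at h1
      rw [← h1, Real.log_exp]
    have hexpre : Real.exp w.re = ‖u‖ := by rw [hwre, Real.exp_log hupos]
    have hwre0 : w.re ≤ 0 := by
      rw [hwre]
      exact Real.log_nonpos hupos.le hu.1.le
    have hwreR : w.re ≤ Real.log R - 1 := by
      rw [hwre]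
      have h1 : Real.log ‖u‖ ≤ Real.log (R * Real.exp (-1)) :=
        Real.log_le_log hupos hu.2.le
      rw [Real.log_mul hR.ne' (Real.exp_pos _).ne', Real.log_exp] at h1
      linarith
    have h1 : h (u, y) = Fw N G (w, y) := by
      rw [← hwe]
      exact key1 w y hyU (by linarith)
    rw [h1, norm_smul, norm_pow, ← hexpre, ← Real.exp_nat_mul]
    have h2 : ‖Fw N G (w, y)‖ ≤ Real.exp ((-w.re + 1) * ‖N‖) * (|C| * Real.exp (-A * w.re)) := by
      have h3 : ‖-(w / (2 * π * I))‖ ≤ -w.re + 1 := by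
        rw [norm_neg, norm_div]
        have h4 : ‖(2 * π * I : ℂ)‖ = 2 * π := by
          simp [abs_of_pos Real.pi_pos]
        rw [h4, div_le_iff₀ (by positivity)]
        have h5 : ‖w‖ ≤ |w.re| + |w.im| := Complex.norm_le_abs_re_add_abs_im w
        rw [abs_of_nonpos hwre0, abs_of_nonneg hwi0] at h5
        have h6 : 1 ≤ 2 * π := by linarith [Real.pi_gt_three]
        nlinarith
      calc ‖Fw N G (w, y)‖ ≤ ‖ex N (-(w / (2 * π * I)))‖ * ‖G (w, y)‖ :=
            (ex N (-(w / (2 * π * I)))).le_opNorm _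
        _ ≤ Real.exp (‖-(w / (2 * π * I))‖ * ‖N‖) * (C * Real.exp (-A * w.re)) := by
            gcongr
            · exact norm_ex_le' N _
            · exact hy w hwreR hwi0 hwi
        _ ≤ Real.exp ((-w.re + 1) * ‖N‖) * (|C| * Real.exp (-A * w.re)) := by
            have h7 : C * Real.exp (-A * w.re) ≤ |C| * Real.exp (-A * w.re) := by
              gcongr
              exact le_abs_self C
            have h8 : 0 ≤ |C| * Real.exp (-A * w.re) := by positivity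
            have h9 : Real.exp (‖-(w / (2 * π * I))‖ * ‖N‖) ≤
                Real.exp ((-w.re + 1) * ‖N‖) := by
              gcongr
            calc _ ≤ Real.exp (‖-(w / (2 * π * I))‖ * ‖N‖) * (|C| * Real.exp (-A * w.re)) := by
                  gcongr
              _ ≤ _ := by gcongr
    calc Real.exp (m * w.re) * ‖Fw N G (w, y)‖
        ≤ Real.exp (m * w.re) *
          (Real.exp ((-w.re + 1) * ‖N‖) * (|C| * Real.exp (-A * w.re))) := by gcongr
      _ = |C| * Real.exp (m * w.re + ((-w.re + 1) * ‖N‖ + -A * w.re)) := by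
          rw [Real.exp_add, Real.exp_add]
          ring
      _ ≤ |C| * Real.exp ‖N‖ := by
          gcongr
          nlinarith
  have hne' : ∃ u ∈ ball (0 : ℂ) R, u ≠ 0 ∧ ∃ y ∈ U, h (u, y) ≠ 0 := by
    obtain ⟨⟨w, y⟩, hw, hy, hG0⟩ := hne
    refine ⟨Complex.exp w, ?_, Complex.exp_ne_zero _, y, hy, ?_⟩
    · rw [mem_ball_zero_iff, Complex.norm_exp]
      calc Real.exp w.re < Real.exp (Real.log R) := Real.exp_lt_exp.2 hw
        _ = R := Real.exp_log hR
    · rw [key1 w y hy hw]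
      intro h0
      exact hG0 (ex_inj N _ (h0.trans (map_zero _).symm))
  obtain ⟨k, f, hf, hhf, hf0⟩ := exists_order hR hU hUc hha hb hne'
  refine ⟨k, f, hf, ?_, hf0⟩
  rintro ⟨w, y⟩ hw hy
  have h1 := key1 w y hy hw
  have h2 : Complex.exp w ∈ ball (0 : ℂ) R := by
    rw [mem_ball_zero_iff, Complex.norm_exp]
    calc Real.exp w.re < Real.exp (Real.log R) := Real.exp_lt_exp.2 hw
      _ = R := Real.exp_log hR
  rw [hhf _ h2 (Complex.exp_ne_zero _) y hy] at h1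
  have h3 : G (w, y) = ex N (w / (2 * π * I)) (Fw N G (w, y)) := by
    simp only [Fw]
    rw [ex_apply_neg]
  rw [h3, ← h1, map_smul, om, ← Complex.exp_int_mul]

/-- TWIST with the boundary structure `Bd` as output -/
theorem exists_Bd {S : V →L⋆[ℂ] V →L[ℂ] ℂ} {N : V →L[ℂ] V} {R : ℝ} {U : Set E}
    {G : ℂ × E → V} (hR : 0 < R) (hU : IsOpen U) (hUc : IsPreconnected U)
    (herm : ∀ u v, S u v = conj (S v u)) (skew : ∀ u v, S (N u) v = - S u (N v))
    (nil : IsNilpotent N)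
    (hG : DifferentiableOn ℂ G {q | q.1.re < Real.log R ∧ q.2 ∈ U})
    (hper : ∀ q : ℂ × E, q.1.re < Real.log R → q.2 ∈ U →
      G (q.1 + 2 * π * I, q.2) = ex N 1 (G q))
    (hgro : ∀ y0 ∈ U, ∃ C A : ℝ, ∀ᶠ y in 𝓝 y0, ∀ w : ℂ, w.re ≤ Real.log R - 1 →
      0 ≤ w.im → w.im ≤ 2 * π → ‖G (w, y)‖ ≤ C * Real.exp (-A * w.re))
    (hne : ∃ q : ℂ × E, q.1.re < Real.log R ∧ q.2 ∈ U ∧ G q ≠ 0) :
    ∃ (k : ℤ) (f : ℂ × E → V), Bd S N R U f ∧
      (∀ q : ℂ × E, q.1.re < Real.log R → q.2 ∈ U →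
        G q = Complex.exp (k * q.1) • om N f q) ∧
      ∃ y ∈ U, f (0, y) ≠ 0 := by
  obtain ⟨k, f, hf, h1, h2⟩ := exists_twist hR hU hUc hG hper hgro hne
  exact ⟨k, f, ⟨hR, hU, herm, skew, nil, hf⟩, h1, h2⟩

end Crest.Agent.R276.Twist_767
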