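import Crest.Agent.R276.BdNf5_651
import Crest.Agent.R276.GrC_217
import Crest.Agent.R276.Twist_767

/-!
# Row 276, leaf BDNF (helper651), part 6 : normal form in one boundary chart (`LCh` of helper217)
-/

set_option autoImplicit false
set_option linter.unusedSectionVars false

noncomputable section

open Set Filter Topology Matrix Metric
open Crest.Agent.R271.Ho51
open Crest.Agent.R276.Ipc735
open Crest.Agent.R276.BdNf1_651
open Crest.Agent.R276.BdNf2_651
open Crest.Agent.R276.BdNf3_651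
open Crest.Agent.R276.BdNf4_651
open Crest.Agent.R276.BdNf5_651
open Crest.Agent.R276.VLevi_327 (CYL)
open Crest.Agent.R276.CntDefs_857 (PS)
open Crest.Agent.R276.GrA_217 (EE)
open Crest.Agent.R276.GrC_217 (LCh tpi)
open Crest.Agent.R276.Bdy_767 (ex_sum)
open scoped ContDiff

namespace Crest.Agent.R276.BdNf6_651

open Ipc735 (hq)

lemma per_eq_tpi : per = tpi := rfl

/-- a matrix as a continuous linear map -/
def cl {N : ℕ} (L : Matrix (Fin N) (Fin N) ℂ) : (Fin N → ℂ) →L[ℂ] (Fin N → ℂ) :=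
  (Matrix.mulVecLin L).toContinuousLinearMap

@[simp] lemma cl_apply {N : ℕ} (L : Matrix (Fin N) (Fin N) ℂ) (v : Fin N → ℂ) : cl L v = L *ᵥ v := rfl

lemma cl_pow_apply {N : ℕ} (L : Matrix (Fin N) (Fin N) ℂ) (j : ℕ) (v : Fin N → ℂ) :
    (cl L ^ j) v = (L ^ j) *ᵥ v := by
  induction j generalizing v with
  | zero => simp
  | succ j ih =>
    have h1 : (cl L ^ (j + 1)) v = (cl L ^ j) (cl L v) := by rw [pow_succ]; rfl
    rw [h1, ih, cl_apply, pow_succ, ← Matrix.mulVec_mulVec]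

lemma cl_pow_zero {N n : ℕ} {L : Matrix (Fin N) (Fin N) ℂ} (hL : L ^ n = 0) : cl L ^ n = 0 := by
  ext v
  rw [cl_pow_apply, hL]
  simp

/-- comparison of the exponentials -/
theorem ex_eq {N n : ℕ} {L : Matrix (Fin N) (Fin N) ℂ} (hL : L ^ n = 0) (c : ℂ) (v : Fin N → ℂ) :
    Bdy_767.ex (cl L) c v = EE L c *ᵥ v := by
  have hnil : IsNilpotent L := ⟨n, hL⟩
  set m := max n (Fintype.card (Fin N)) with hm
  have hLm : L ^ m = 0 := pow_eq_zero_of_le (le_max_left _ _) hL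
  rw [ex_sum (cl_pow_zero hLm)]
  unfold EE
  rw [GrA_217.exp_eq hnil (n := m) (le_max_right _ _), Matrix.sum_mulVec]
  refine Finset.sum_congr rfl fun j _ => ?_
  rw [cl_pow_apply, Matrix.smul_mulVec, div_eq_inv_mul]

/-! ### unipotent powers -/

lemma cm_pow_nat {N : ℕ} (g : GL (Fin N) ℤ) (k : ℕ) : cm (g ^ k) = cm g ^ k := by
  induction k with
  | zero => simp
  | succ k ih => rw [pow_succ, cm_mul, ih, pow_succ]

lemma unip_mul {N n : ℕ} {A : Matrix (Fin N) (Fin N) ℂ} (h : (A - 1) ^ n = 0) (k : ℕ) :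
    (A ^ k - 1) ^ n = 0 := by
  have h1 : A ^ k - 1 = (A - 1) * ∑ i ∈ Finset.range k, A ^ i := (mul_geom_sum A k).symm
  have hc : Commute (A - 1) (∑ i ∈ Finset.range k, A ^ i) :=
    Commute.sum_right _ _ _ fun i _ => ((Commute.refl A).sub_left (Commute.one_left A)).pow_right i
  rw [h1, hc.mul_pow, h, zero_mul]

variable {d : ℕ} {r : ℝ} {N w : ℕ} {m : ℕ} {X : Type*} [TopologicalSpace X] [RDom m X]
variable {σ : (Fin (d + 1) → ℂ) → X} {V : VHS m X N w}

/-- the logarithm of the unipotent power of the monodromy -/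
def LL (n : Nf V σ r) (e : ℕ) : Matrix (Fin N) (Fin N) ℂ := Log_25.lg N (cm n.T ^ e - 1)

section

variable (n : Nf V σ r) (h : HP σ r) (M0 : ℕ)

include h in
lemma unip_T : (cm n.T ^ (eN N * M0) - 1) ^ N = 0 := by
  rw [pow_mul]
  exact unip_mul (quasi_unipotent n h) M0

include h in
lemma LL_pow : (LL n (eN N * M0)) ^ N = 0 := Log_25.lg_pow (unip_T n h M0)

include h in
lemma LL_nil : IsNilpotent (LL n (eN N * M0)) := ⟨N, LL_pow n h M0⟩

include h in
lemma exp_LL : EE (LL n (eN N * M0)) 1 = cm n.T ^ (eN N * M0) := by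
  unfold EE
  rw [one_smul]
  unfold LL
  rw [Log_25.exp_lg (unip_T n h M0), add_sub_cancel]

include h in
lemma LL_skew : (LL n (eN N * M0))ᴴ * n.fr.S = -(n.fr.S * LL n (eN N * M0)) := by
  refine Log_25.lg_skew (unip_T n h M0) ?_
  have h1 := n.TS h.hr (eN N * M0 : ℕ)
  rw [_root_.zpow_natCast, cm_pow_nat] at h1
  exact h1

lemma tw_nat_add (k : ℤ) (q : Fin (d + 1) → ℂ) : tw k q = q + Pi.single 0 (k * tpi) := by
  apply ext_cons
  · rw [tw_apply_zero, Pi.add_apply, Pi.single_eq_same]; rfl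
  · intro i
    rw [tw_succ, Pi.add_apply, Pi.single_eq_of_ne (Fin.succ_ne_zero i), add_zero]

lemma tw_one_add (q : Fin (d + 1) → ℂ) : tw 1 q = q + Pi.single 0 tpi := by
  rw [tw_nat_add]; simp

/-- the projectors are equivariant -/
lemma PP_tw {q : Fin (d + 1) → ℂ} (hq : q ∈ HS d r) (p : ℕ) :
    PP n p (tw 1 q) * cm n.T = cm n.T * PP n p q := by
  show Ipc735.hq w (n.fr.E (tw 1 q)) p * cm n.T = cm n.T * Ipc735.hq w (n.fr.E q) p
  have h1 := n.E_tw 1 hq
  rw [_root_.zpow_one] at h1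
  have h2 : cm n.T * n.fr.E q = n.fr.E (tw 1 q) * cm n.T := by
    rw [h1, Matrix.mul_assoc (_ * _), cm_inv_mul_cm, Matrix.mul_one]
  unfold Ipc735.hq
  split_ifs
  · unfold hpr
    exact (DiscA_651.aeval_comm h2 _).symm
  · simp

end

/-! ### the chart -/

lemma zpow_pow_one {z : ℂ} {M0 : ℕ} (hz : z ^ M0 = 1) (k : ℕ) : z ^ (k * M0) = 1 := by
  rw [mul_comm, pow_mul, hz, one_pow]

/-- **the normal form in one chart** -/
theorem exists_lch (n : Nf V σ r) (h : HP σ r) {M0 : ℕ} (hM : 0 < M0) {z : ℂ}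
    (hz : ‖z‖ = 1) (hz0 : z ^ M0 = 1) {Q : (Fin (d + 1) → ℂ) → Fin N → ℂ}
    (hcy : Cy w (HS d r) (PP n) Q)
    (hper : ∀ (k : ℤ), ∀ q ∈ HS d r, Q (tw k q) = (z ^ k) • (cm (n.T ^ k) *ᵥ Q q))
    {A C : ℝ} (hC : 0 ≤ C) (hgr : ∀ q ∈ HS d r, H n q (Q q) ≤ C * Real.exp (-A * (q 0).re)) :
    ∃ (k : ℤ) (f : (Fin (d + 1) → ℂ) → Fin N → ℂ),
      LCh w (eN N * M0) k (Real.log r) r n.fr.S (PP n) (cm n.T) z (LL n (eN N * M0)) Q f ∧
      ∃ y : Fin d → ℂ, (∀ i, ‖y i‖ < r) ∧ f (Fin.cons 0 y) ≠ 0 := by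
  set e : ℕ := eN N * M0 with he
  have he0 : 0 < e := Nat.mul_pos (eN_pos N) hM
  have heR : (0 : ℝ) < e := by exact_mod_cast he0
  have heC : (e : ℂ) ≠ 0 := by exact_mod_cast he0.ne'
  have hr := h.hr
  have hze : z ^ e = 1 := zpow_pow_one hz0 _
  have hTe : (z • cm n.T) ^ e = cm n.T ^ e := by rw [smul_pow, hze, one_smul]
  set L := LL n e with hL
  have hLN : L ^ N = 0 := LL_pow n h M0
  have hnil : IsNilpotent L := ⟨N, hLN⟩
  have hexp : EE L 1 = cm n.T ^ e := exp_LL n h M0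
  -- the half plane
  set R : ℝ := Real.exp (Real.log r / e) with hR
  have hR0 : 0 < R := Real.exp_pos _
  have hlogR : Real.log R = Real.log r / e := Real.log_exp _
  set U : Set (Fin d → ℂ) := {y | ∀ i, ‖y i‖ < r} with hU
  have hUo : IsOpen U := by
    rw [hU, ofPred_forall]
    exact isOpen_iInter_of_finite fun i => isOpen_lt (by fun_prop) continuous_const
  have hUb : U = ball 0 r := by
    ext y
    rw [mem_ball_zero_iff, pi_norm_lt_iff hr]
    rfl
  have hUc : IsPreconnected U := by rw [hUb]; exact (convex_ball 0 r).isPreconnected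
  set G : ℂ × (Fin d → ℂ) → Fin N → ℂ := fun q => Q (cs q.2 (e * q.1)) with hG
  have hmem : ∀ q : ℂ × (Fin d → ℂ), q.1.re < Real.log R → q.2 ∈ U →
      cs q.2 ((e : ℂ) * q.1) ∈ HS d r := by
    intro q hq1 hq2
    refine cs_mem hq2 ?_
    rw [hlogR, lt_div_iff₀ heR] at hq1
    have : ((e : ℂ) * q.1).re = e * q.1.re := by simp
    rw [this]; linarith
  have hGd : DifferentiableOn ℂ G {q | q.1.re < Real.log R ∧ q.2 ∈ U} := by
    have h1 : Differentiable ℂ (fun q : ℂ × (Fin d → ℂ) => cs q.2 ((e : ℂ) * q.1)) := by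
      rw [differentiable_pi]
      intro i
      refine Fin.cases ?_ (fun j => ?_) i
      · show Differentiable ℂ (fun q : ℂ × (Fin d → ℂ) => (e : ℂ) * q.1)
        fun_prop
      · show Differentiable ℂ (fun q : ℂ × (Fin d → ℂ) => q.2 j)
        fun_prop
    exact hcy.bot.hol.comp h1.differentiableOn fun q hq => hmem q hq.1 hq.2
  have hGper : ∀ q : ℂ × (Fin d → ℂ), q.1.re < Real.log R → q.2 ∈ U →
      G (q.1 + 2 * Real.pi * Complex.I, q.2) = Bdy_767.ex (cl L) 1 (G q) := by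
    intro q hq1 hq2
    have h1 : cs q.2 ((e : ℂ) * (q.1 + 2 * Real.pi * Complex.I)) =
        tw (e : ℤ) (cs q.2 ((e : ℂ) * q.1)) := by
      rw [tw_cs]
      congr 1
      unfold per
      push_cast
      ring
    show Q (cs q.2 ((e : ℂ) * (q.1 + 2 * Real.pi * Complex.I))) = _
    rw [h1, hper _ _ (hmem q hq1 hq2), ex_eq hLN, hexp, _root_.zpow_natCast, _root_.zpow_natCast,
      hze, one_smul, cm_pow_nat]
  have hGgr : ∀ y0 ∈ U, ∃ C' A' : ℝ, ∀ᶠ y in 𝓝 y0, ∀ t : ℂ, t.re ≤ Real.log R - 1 →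
      0 ≤ t.im → t.im ≤ 2 * Real.pi → ‖G (t, y)‖ ≤ C' * Real.exp (-A' * t.re) := by
    intro y0 hy0
    obtain ⟨C', hC', hev⟩ := growth n h hC hgr hy0 (M := 2 * Real.pi * e)
    refine ⟨C', (A + KN (Fin N)) / 2 * e, ?_⟩
    filter_upwards [hev] with y hy t ht ht0 ht1
    have h1 := hy.2 ((e : ℂ) * t) (by
      have h2 : ((e : ℂ) * t).re = e * t.re := by simp
      rw [h2]
      have h3 : t.re * e ≤ (Real.log r / e - 1) * e := by
        rw [← hlogR]; exact mul_le_mul_of_nonneg_right ht heR.le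
      have h4 : (Real.log r / e - 1) * e = Real.log r - e := by field_simp
      have h5 : (1 : ℝ) ≤ e := by exact_mod_cast he0
      rw [h4] at h3
      linarith) (by
      have h2 : ((e : ℂ) * t).im = e * t.im := by simp
      rw [h2, abs_of_nonneg (by positivity)]
      nlinarith)
    refine h1.trans (le_of_eq ?_)
    have h2 : ((e : ℂ) * t).re = e * t.re := by simp
    rw [h2]
    congr 2
    ring
  have hGne : ∃ q : ℂ × (Fin d → ℂ), q.1.re < Real.log R ∧ q.2 ∈ U ∧ G q ≠ 0 := by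
    refine ⟨(((Real.log R - 1 : ℝ) : ℂ), 0), by simp, by simpa [hU] using fun _ => hr, ?_⟩
    exact hcy.ne _ (hmem _ (by simp) (by simpa [hU] using fun _ => hr))
  obtain ⟨k, F, hFa, hFe, y1, hy1, hF0⟩ :=
    Twist_767.exists_twist hR0 hUo hUc hGd hGper hGgr hGne
  refine ⟨k, fun q => F (q 0, Fin.tail q), ?_, y1, hy1, ?_⟩
  swap
  · have e1 : ((Fin.cons 0 y1 : Fin (d + 1) → ℂ) 0, Fin.tail (Fin.cons 0 y1 : Fin (d + 1) → ℂ)) =
        ((0 : ℂ), y1) := by simp [Fin.tail_cons]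
    show F ((Fin.cons 0 y1 : Fin (d + 1) → ℂ) 0, Fin.tail (Fin.cons 0 y1 : Fin (d + 1) → ℂ)) ≠ 0
    rw [e1]; exact hF0
  refine ⟨he0, hr, vhs n h, ?_, ?_, hz, ?_, hnil, ?_, LL_skew n h M0, ?_, ?_⟩
  · intro q hq p
    have hq' : q ∈ HS d r := hq
    rw [← tw_one_add]
    exact PP_tw n hq' p
  · have := n.TS hr 1
    rwa [_root_.zpow_one] at this
  · intro q hq
    have hq' : q ∈ HS d r := hq
    have := hper 1 q hq'
    rw [_root_.zpow_one, _root_.zpow_one] at this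
    rw [← tw_one_add]; exact this
  · rw [hexp, hTe]
  · -- differentiability
    have h1 : DifferentiableOn ℂ F (ball 0 R ×ˢ U) := hFa.differentiableOn
    have h2 : Differentiable ℂ (fun q : Fin (d + 1) → ℂ => (q 0, Fin.tail q)) := by
      refine Differentiable.prodMk (by fun_prop) ?_
      rw [differentiable_pi]
      intro i
      show Differentiable ℂ (fun q : Fin (d + 1) → ℂ => q i.succ)
      fun_prop
    refine h1.comp h2.differentiableOn fun q hq => ?_
    exact ⟨mem_ball_zero_iff.mpr hq.1, fun i => hq.2 i⟩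
  · intro q hq
    have hq' : q ∈ HS d r := hq
    have hq1 : (q 0 / (e : ℂ)).re < Real.log R := by
      rw [hlogR, Complex.div_natCast_re]
      exact div_lt_div_of_pos_right hq'.1 heR
    have hq2 : Fin.tail q ∈ U := fun i => hq'.2 i
    have h1 := hFe (q 0 / e, Fin.tail q) hq1 hq2
    have h2 : G (q 0 / e, Fin.tail q) = Q q := by
      show Q (cs (Fin.tail q) ((e : ℂ) * (q 0 / e))) = Q q
      rw [mul_div_cancel₀ _ heC]
      congr 1
      exact Fin.cons_self_tail q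
    rw [h2] at h1
    have h3 : Bdy_767.om (cl L) F (q 0 / e, Fin.tail q) =
        EE L (q 0 / e / (2 * Real.pi * Complex.I)) *ᵥ F (Complex.exp (q 0 / e), Fin.tail q) := by
      unfold Bdy_767.om
      rw [ex_eq hLN]
    rw [h3] at h1
    have e1 : ((Fin.cons (Complex.exp (q 0 / e)) (Fin.tail q) : Fin (d + 1) → ℂ) 0,
        Fin.tail (Fin.cons (Complex.exp (q 0 / e)) (Fin.tail q) : Fin (d + 1) → ℂ)) =
        (Complex.exp (q 0 / e), Fin.tail q) := by simp [Fin.tail_cons]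
    show F ((Fin.cons (Complex.exp (q 0 / e)) (Fin.tail q) : Fin (d + 1) → ℂ) 0,
        Fin.tail (Fin.cons (Complex.exp (q 0 / e)) (Fin.tail q) : Fin (d + 1) → ℂ)) = _
    rw [e1, h1, Matrix.mulVec_smul, smul_smul, Matrix.mulVec_mulVec, ← Complex.exp_add]
    have e2 : -(↑k * q 0 / ↑e) + ↑k * (q 0 / ↑e, Fin.tail q).1 = 0 := by
      show -((k : ℂ) * q 0 / e) + k * (q 0 / e) = 0
      ring
    have e3 : EE L (-(q 0 / (tpi * e))) * EE L (q 0 / e / (2 * Real.pi * Complex.I)) = 1 := by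
      have e4 : q 0 / e / (2 * Real.pi * Complex.I) = q 0 / (tpi * e) := by
        unfold tpi
        rw [div_div, mul_comm (e : ℂ)]
      rw [e4]
      exact GrA_217.EE_neg' hnil _
    rw [e2, Complex.exp_zero, one_smul, e3, Matrix.one_mulVec]

end Crest.Agent.R276.BdNf6_651
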