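import Mathlib
import Crest.Agent.R276.Grow_25
import Crest.Agent.R276.VCalcI_442
import Crest.Agent.R276.EndTh_659

/-!
# R276 (helper25): boundary normal form of a VHS, part A: growth of flat sections, quasi-unipotence

`HB c ρ` = (half plane `Re z₀ < 0`) × (polydisc of radius `ρ` around `c`): universal cover of the punctured
polydisc.  A polarised VHS on `HB c ρ` in a flat frame (442's structure).
-/

set_option autoImplicit false

open Set Filter Topology Metric Matrix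
open scoped ContDiff ComplexOrder

namespace Crest.Agent.R276.NfA_25

open Crest.Agent.R276.VCalc_442 (VHS dW dB hn gden cx th thb grOp hm)

variable {d : ℕ} {ι : Type*} [Fintype ι] [DecidableEq ι]

/-- half plane × polydisc -/
def HB (c : Fin d → ℂ) (ρ : ℝ) : Set (Fin (d + 1) → ℂ) :=
  {z | (z 0).re < 0 ∧ ∀ j : Fin d, ‖z j.succ - c j‖ < ρ}

theorem isOpen_HB (c : Fin d → ℂ) (ρ : ℝ) : IsOpen (HB c ρ) := by
  have h1 : IsOpen {z : Fin (d + 1) → ℂ | (z 0).re < 0} :=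
    isOpen_lt (Complex.continuous_re.comp (continuous_apply 0)) continuous_const
  have h2 : IsOpen (⋂ j : Fin d, {z : Fin (d + 1) → ℂ | ‖z j.succ - c j‖ < ρ}) :=
    isOpen_iInter_of_finite fun j =>
      isOpen_lt ((continuous_apply j.succ).sub continuous_const).norm continuous_const
  have h3 : HB c ρ = {z : Fin (d + 1) → ℂ | (z 0).re < 0} ∩
      ⋂ j : Fin d, {z : Fin (d + 1) → ℂ | ‖z j.succ - c j‖ < ρ} := by
    ext z
    simp [HB]
  rw [h3]
  exact h1.inter h2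

/-- `2 π i e₀` -/
noncomputable def tau (d : ℕ) : Fin (d + 1) → ℂ := Pi.single 0 (2 * Real.pi * Complex.I)

theorem add_tau_zero (z : Fin (d + 1) → ℂ) : (z + tau d) 0 = z 0 + 2 * Real.pi * Complex.I := by
  simp [tau]

theorem add_tau_succ (z : Fin (d + 1) → ℂ) (j : Fin d) : (z + tau d) j.succ = z j.succ := by
  simp [tau]

theorem add_tau_mem {c : Fin d → ℂ} {ρ : ℝ} {z : Fin (d + 1) → ℂ} (hz : z ∈ HB c ρ) :
    z + tau d ∈ HB c ρ := by
  refine ⟨?_, fun j => ?_⟩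
  · rw [add_tau_zero]
    simpa using hz.1
  · rw [add_tau_succ]; exact hz.2 j

theorem cons_mem {c : Fin d → ℂ} {ρ : ℝ} {y : Fin d → ℂ} (hy : ∀ j, ‖y j - c j‖ < ρ) {a : ℂ}
    (ha : a.re < 0) : (Fin.cons a y : Fin (d + 1) → ℂ) ∈ HB c ρ :=
  ⟨by simpa using ha, fun j => by simpa using hy j⟩

theorem contDiff_cons (y : Fin d → ℂ) :
    ContDiff ℂ ∞ (fun a : ℂ => (Fin.cons a y : Fin (d + 1) → ℂ)) := by
  refine contDiff_pi.2 fun i => ?_
  refine Fin.cases ?_ (fun j => ?_) i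
  · exact contDiff_id
  · exact contDiff_const

theorem cons_tau (a : ℂ) (y : Fin d → ℂ) :
    (Fin.cons (a + 2 * Real.pi * Complex.I) y : Fin (d + 1) → ℂ) = Fin.cons a y + tau d := by
  funext i
  refine Fin.cases ?_ (fun j => ?_) i
  · simp [tau]
  · simp [tau]

/-- the norm of the real derivative from the Wirtinger derivative -/
theorem norm_fderiv_le {u : ℂ → ℝ} {z : ℂ} (hu : DifferentiableAt ℝ u z) :
    ‖fderiv ℝ u z‖ ≤ 2 * ‖dW (cx u) 1 z‖ := by
  have h1 := EndTh_659.norm_dW_sq hu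
  refine ContinuousLinearMap.opNorm_le_bound _ (by positivity) fun v => ?_
  have h2 : fderiv ℝ u z v = v.re * fderiv ℝ u z 1 + v.im * fderiv ℝ u z Complex.I := by
    have h3 : v = v.re • (1 : ℂ) + v.im • Complex.I := by
      apply Complex.ext <;> simp
    conv_lhs => rw [h3]
    rw [map_add, map_smul, map_smul]
    simp
  have h4 : (fderiv ℝ u z v) ^ 2 ≤ (2 * ‖dW (cx u) 1 z‖ * ‖v‖) ^ 2 := by
    have h5 : ‖v‖ ^ 2 = v.re ^ 2 + v.im ^ 2 := by
      rw [← Complex.normSq_eq_norm_sq, Complex.normSq_apply]; ring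
    have h6 : (2 * ‖dW (cx u) 1 z‖ * ‖v‖) ^ 2 =
        ((fderiv ℝ u z 1) ^ 2 + (fderiv ℝ u z Complex.I) ^ 2) * (v.re ^ 2 + v.im ^ 2) := by
      rw [← h1, ← h5]
      have : (cx u) = fun y => (u y : ℂ) := rfl
      rw [this]
      ring
    rw [h6, h2]
    nlinarith [sq_nonneg (v.re * fderiv ℝ u z Complex.I - v.im * fderiv ℝ u z 1)]
  rw [Real.norm_eq_abs]
  exact abs_le_of_sq_le_sq h4 (by positivity)

section VHS

variable {w : ℕ} {c : Fin d → ℂ} {ρ : ℝ} {S : Matrix ι ι ℂ} {P : ℕ → (Fin (d + 1) → ℂ) → Matrix ι ι ℂ}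

/-- restriction to a line -/
theorem line (h : VHS w (HB c ρ) S P) {y : Fin d → ℂ} (hy : ∀ j, ‖y j - c j‖ < ρ) :
    VHS w {a : ℂ | a.re < 0} S (fun p a => P p (Fin.cons a y : Fin (d + 1) → ℂ)) :=
  EndTh_659.pull h (isOpen_lt Complex.continuous_re continuous_const)
    (contDiff_cons y).contDiffOn (fun _ ha => cons_mem hy ha)

/-- the growth constant -/
noncomputable def KK (ι : Type*) [Fintype ι] [DecidableEq ι] : ℝ := 4 * Real.sqrt (EndTh_659.cst ι)

theorem KK_nonneg : 0 ≤ KK ι := by unfold KK; positivity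

theorem hn_bound {P : ℕ → ℂ → Matrix ι ι ℂ} (h : VHS w {a : ℂ | a.re < 0} S P) (u : ι → ℂ) {a : ℂ}
    (ha : a.re < 0) : ‖fderiv ℝ (hn w S P u) a‖ ≤ KK ι / |a.re| * hn w S P u a := by
  have hd : DifferentiableAt ℝ (hn w S P u) a :=
    ((h.sm_hn u).contDiffAt (h.op.mem_nhds ha)).differentiableAt (by simp)
  refine (norm_fderiv_le hd).trans ?_
  have h1 := h.growth_hn (x := a) ha u 1
  have h2 : gden w P 1 a ≤ EndTh_659.cst ι / (0 - a.re) ^ 2 :=
    EndTh_659.gg_le_halfplane h ha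
  have h3 : Real.sqrt (gden w P 1 a) ≤ Real.sqrt (EndTh_659.cst ι) / |a.re| := by
    have h4 := Real.sqrt_le_sqrt h2
    rwa [Real.sqrt_div (EndTh_659.cst_pos ι).le, zero_sub, neg_sq, Real.sqrt_sq_eq_abs] at h4
  have h5 := h.hn_nonneg (x := a) ha u
  calc 2 * ‖dW (cx (hn w S P u)) 1 a‖ ≤ 2 * (2 * Real.sqrt (gden w P 1 a) * hn w S P u a) := by
        gcongr
    _ ≤ 2 * (2 * (Real.sqrt (EndTh_659.cst ι) / |a.re|) * hn w S P u a) := by gcongr
    _ = KK ι / |a.re| * hn w S P u a := by unfold KK; ring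

theorem hn_smul (S : Matrix ι ι ℂ) {X : Type*} (P : ℕ → X → Matrix ι ι ℂ) (x : X) (μ : ℂ)
    (u : ι → ℂ) : hn w S P (μ • u) x = ‖μ‖ ^ 2 * hn w S P u x := by
  unfold hn
  rw [VCalc_442.sf_smul_left, VCalc_442.sf_smul_right, ← mul_assoc, Complex.star_def,
    Complex.conj_mul']
  have : ((‖μ‖ : ℂ) ^ 2) = ((‖μ‖ ^ 2 : ℝ) : ℂ) := by push_cast; rfl
  rw [this, Complex.re_ofReal_mul]

/-- the deck transformation and the Hodge metric -/
theorem hm_tau (_h : VHS w (HB c ρ) S P) {T : Matrix ι ι ℂ} (hTS : Tᴴ * S * T = S)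
    (hper : ∀ z ∈ HB c ρ, ∀ p, P p (z + tau d) * T = T * P p z) {z : Fin (d + 1) → ℂ}
    (hz : z ∈ HB c ρ) : Tᴴ * hm w S P (z + tau d) * T = hm w S P z := by
  unfold hm VCalc_442.sgOp
  rw [Matrix.mul_assoc, Matrix.mul_assoc, Finset.sum_mul]
  have h1 : ∑ p ∈ Finset.range (w + 1), ((-1 : ℂ) ^ p) • P p (z + tau d) * T =
      T * ∑ p ∈ Finset.range (w + 1), ((-1 : ℂ) ^ p) • P p z := by
    rw [Finset.mul_sum]
    refine Finset.sum_congr rfl fun p _ => ?_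
    rw [Matrix.smul_mul, hper z hz p, Matrix.mul_smul]
  rw [h1, ← Matrix.mul_assoc, ← Matrix.mul_assoc, hTS]

theorem hn_tau (h : VHS w (HB c ρ) S P) {T : Matrix ι ι ℂ} (hTS : Tᴴ * S * T = S)
    (hper : ∀ z ∈ HB c ρ, ∀ p, P p (z + tau d) * T = T * P p z) {z : Fin (d + 1) → ℂ}
    (hz : z ∈ HB c ρ) (u : ι → ℂ) : hn w S P (T *ᵥ u) (z + tau d) = hn w S P u z := by
  unfold hn VCalc_442.sf
  rw [← hm_tau h hTS hper hz, star_mulVec, ← dotProduct_mulVec, mulVec_mulVec, mulVec_mulVec]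

/-- compactness at `Re z₀ = -1` -/
theorem hn_base (h : VHS w (HB c ρ) S P) {ρ' : ℝ} (hρ : ρ' < ρ) : ∃ C : ℝ, 0 < C ∧
    ∀ y : Fin d → ℂ, (∀ j, ‖y j - c j‖ ≤ ρ') → ∀ u : ι → ℂ,
      hn w S P u (Fin.cons (-1) y : Fin (d + 1) → ℂ) ≤ C * ‖u‖ ^ 2 ∧
      ‖u‖ ^ 2 ≤ C * hn w S P u (Fin.cons (-1) y : Fin (d + 1) → ℂ) := by
  set K₁ : Set (Fin d → ℂ) := Set.pi univ fun j => closedBall (c j) ρ' with hK₁
  have hK₁c : IsCompact K₁ := isCompact_univ_pi fun j => isCompact_closedBall _ _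
  have hmem : ∀ y, y ∈ K₁ ↔ ∀ j, ‖y j - c j‖ ≤ ρ' := by
    intro y; simp [hK₁, dist_eq_norm]
  have hKc : IsCompact (K₁ ×ˢ sphere (0 : ι → ℂ) 1) := hK₁c.prod (isCompact_sphere _ _)
  have hin : ∀ y ∈ K₁, (Fin.cons (-1) y : Fin (d + 1) → ℂ) ∈ HB c ρ := fun y hy =>
    cons_mem (fun j => ((hmem y).1 hy j).trans_lt hρ) (by simp)
  have hcont : ContinuousOn (fun q : (Fin d → ℂ) × (ι → ℂ) =>
      hn w S P q.2 (Fin.cons (-1) q.1 : Fin (d + 1) → ℂ)) (K₁ ×ˢ sphere (0 : ι → ℂ) 1) := by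
    have h1 : ∀ i j, ContinuousOn (fun q : (Fin d → ℂ) × (ι → ℂ) =>
        hm w S P (Fin.cons (-1) q.1 : Fin (d + 1) → ℂ) i j) (K₁ ×ˢ sphere (0 : ι → ℂ) 1) := by
      intro i j
      have h2 : ContinuousOn (fun z => hm w S P z i j) (HB c ρ) :=
        ((VCalc_442.contDiffOn_matrix.1 h.sm_hm) i j).continuousOn
      have h3 : Continuous (fun q : (Fin d → ℂ) × (ι → ℂ) =>
          (Fin.cons (-1) q.1 : Fin (d + 1) → ℂ)) := by
        refine continuous_pi fun i => ?_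
        refine Fin.cases ?_ (fun j => ?_) i
        · exact continuous_const
        · exact (continuous_apply j).comp continuous_fst
      exact h2.comp h3.continuousOn fun q hq => hin q.1 hq.1
    have h2 : (fun q : (Fin d → ℂ) × (ι → ℂ) =>
        hn w S P q.2 (Fin.cons (-1) q.1 : Fin (d + 1) → ℂ)) = fun q =>
        (∑ i, star (q.2 i) * ∑ j, hm w S P (Fin.cons (-1) q.1 : Fin (d + 1) → ℂ) i j * q.2 j).re := by
      funext q
      rfl
    rw [h2]
    refine Complex.continuous_re.comp_continuousOn ?_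
    refine continuousOn_finsetSum _ fun i _ => ContinuousOn.mul ?_ ?_
    · exact (Complex.continuous_conj.comp ((continuous_apply i).comp continuous_snd)).continuousOn
    · refine continuousOn_finsetSum _ fun j _ => (h1 i j).mul ?_
      exact ((continuous_apply j).comp continuous_snd).continuousOn
  obtain ⟨δ, hδ, hδ'⟩ := hKc.exists_forall_le' hcont (a := 0) (by
    rintro ⟨y, u⟩ ⟨hy, hu⟩
    refine h.hn_pos (hin y hy) ?_
    intro hu0
    simp only at hu0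
    rw [hu0] at hu
    simp at hu)
  obtain ⟨B, hB⟩ := hKc.exists_bound_of_continuousOn hcont
  refine ⟨max (max B 1) (1 / δ), lt_of_lt_of_le one_pos ((le_max_right _ _).trans (le_max_left _ _)), ?_⟩
  intro y hy u
  have hyK : y ∈ K₁ := (hmem y).2 hy
  have hpos := h.hn_nonneg (hin y hyK) u
  rcases eq_or_ne u 0 with rfl | hu
  · have h0 : hn w S P (0 : ι → ℂ) (Fin.cons (-1) y : Fin (d + 1) → ℂ) = 0 := by
      unfold hn; rw [VCalc_442.sf_zero_left]; simp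
    rw [h0]; simp
  · have hun : 0 < ‖u‖ := norm_pos_iff.2 hu
    set v : ι → ℂ := ((‖u‖⁻¹ : ℝ) : ℂ) • u with hv
    have hvn : ‖v‖ = 1 := by
      rw [hv, norm_smul, Complex.norm_real, norm_inv, norm_norm, inv_mul_cancel₀ hun.ne']
    have hvs : v ∈ sphere (0 : ι → ℂ) 1 := by simpa using hvn
    have hhn : hn w S P v (Fin.cons (-1) y : Fin (d + 1) → ℂ) =
        (‖u‖⁻¹) ^ 2 * hn w S P u (Fin.cons (-1) y : Fin (d + 1) → ℂ) := by
      rw [hv, hn_smul, Complex.norm_real, norm_inv, norm_norm]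
    have h1 := hδ' (y, v) ⟨hyK, hvs⟩
    have h2 := hB (y, v) ⟨hyK, hvs⟩
    simp only at h1 h2
    rw [hhn] at h1 h2
    rw [Real.norm_eq_abs] at h2
    have h2' := (le_abs_self _).trans h2
    have h3 : hn w S P u (Fin.cons (-1) y : Fin (d + 1) → ℂ) = ‖u‖ ^ 2 * ((‖u‖⁻¹) ^ 2 *
        hn w S P u (Fin.cons (-1) y : Fin (d + 1) → ℂ)) := by
      field_simp
    constructor
    · rw [h3, mul_comm (max _ _) (‖u‖ ^ 2)]
      refine mul_le_mul_of_nonneg_left (h2'.trans ((le_max_left _ _).trans (le_max_left _ _)))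
        (by positivity)
    · have h4 : 1 ≤ (1 / δ) * ((‖u‖⁻¹) ^ 2 * hn w S P u (Fin.cons (-1) y : Fin (d + 1) → ℂ)) := by
        rw [one_div, ← div_eq_inv_mul, le_div_iff₀ hδ, one_mul]; exact h1
      have h5 : (1 / δ) ≤ max (max B 1) (1 / δ) := le_max_right _ _
      calc ‖u‖ ^ 2 = ‖u‖ ^ 2 * 1 := (mul_one _).symm
        _ ≤ ‖u‖ ^ 2 * ((1 / δ) * ((‖u‖⁻¹) ^ 2 * hn w S P u (Fin.cons (-1) y : Fin (d + 1) → ℂ))) :=
            mul_le_mul_of_nonneg_left h4 (by positivity)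
        _ = (1 / δ) * hn w S P u (Fin.cons (-1) y : Fin (d + 1) → ℂ) := by
            field_simp
        _ ≤ _ := mul_le_mul_of_nonneg_right h5 hpos

/-- **two sided growth of flat sections**, uniform on compact subsets of the divisor -/
theorem hn_growth (h : VHS w (HB c ρ) S P) {ρ' : ℝ} (hρ : ρ' < ρ) (M : ℝ) : ∃ (C : ℝ) (m : ℕ),
    0 < C ∧ ∀ z : Fin (d + 1) → ℂ, (z 0).re ≤ -1 → |(z 0).im| ≤ M → (∀ j : Fin d, ‖z j.succ - c j‖ ≤ ρ') →
      ∀ u : ι → ℂ, hn w S P u z ≤ C * (- (z 0).re) ^ m * ‖u‖ ^ 2 ∧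
        ‖u‖ ^ 2 ≤ C * (- (z 0).re) ^ m * hn w S P u z := by
  obtain ⟨C₀, hC₀, hbase⟩ := hn_base h hρ
  refine ⟨C₀ * Real.exp (KK ι * M), ⌈KK ι⌉₊, by positivity, ?_⟩
  intro z hz1 hzM hzy u
  have hy : ∀ j, ‖(Fin.tail z) j - c j‖ < ρ := fun j => (hzy j).trans_lt hρ
  have hz0 : z = Fin.cons (z 0) (Fin.tail z) := (Fin.cons_self_tail z).symm
  have hl := line h hy
  have hzmem : z ∈ HB c ρ := ⟨by linarith, hy⟩
  rcases eq_or_ne u 0 with rfl | hu
  · have h0 : hn w S P (0 : ι → ℂ) z = 0 := by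
      unfold hn; rw [VCalc_442.sf_zero_left]; simp
    rw [h0]; simp
  have hs1 : 1 ≤ - (z 0).re := by linarith
  have hpow : |(z 0).re| ^ (KK ι) ≤ (- (z 0).re) ^ (⌈KK ι⌉₊) := by
    rw [abs_of_nonpos (by linarith), ← Real.rpow_natCast]
    exact Real.rpow_le_rpow_of_exponent_le hs1 (Nat.le_ceil _)
  have hg := Grow_25.growth (f := hn w S (fun p a => P p (Fin.cons a (Fin.tail z) : Fin (d + 1) → ℂ)) u)
    (K := KK ι) (M := M) KK_nonneg (fun a ha => hl.hn_pos ha hu)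
    (fun a ha => ((hl.sm_hn u).contDiffAt (hl.op.mem_nhds ha)).differentiableAt (by simp))
    (fun a ha => hn_bound hl u ha) hz1 hzM
  have e1 : hn w S (fun p a => P p (Fin.cons a (Fin.tail z) : Fin (d + 1) → ℂ)) u (z 0) =
      hn w S P u z := by
    conv_rhs => rw [hz0]
    rfl
  have e2 : hn w S (fun p a => P p (Fin.cons a (Fin.tail z) : Fin (d + 1) → ℂ)) u (-1) =
      hn w S P u (Fin.cons (-1) (Fin.tail z) : Fin (d + 1) → ℂ) := rfl
  rw [e1, e2] at hg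
  obtain ⟨hb1, hb2⟩ := hbase (Fin.tail z) (fun j => hzy j) u
  have hz' := h.hn_nonneg hzmem u
  have hexp : 0 < Real.exp (KK ι * M) := Real.exp_pos _
  have hsm : 0 ≤ (- (z 0).re) ^ (⌈KK ι⌉₊) := by positivity
  constructor
  · calc hn w S P u z ≤ _ := hg.1
      _ ≤ (C₀ * ‖u‖ ^ 2) * (Real.exp (KK ι * M) * (- (z 0).re) ^ (⌈KK ι⌉₊)) := by
          refine mul_le_mul hb1 (mul_le_mul_of_nonneg_left hpow hexp.le) (by positivity) (by positivity)
      _ = _ := by ring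
  · calc ‖u‖ ^ 2 ≤ _ := hb2
      _ ≤ C₀ * (hn w S P u z * (Real.exp (KK ι * M) * (- (z 0).re) ^ (⌈KK ι⌉₊))) := by
          refine mul_le_mul_of_nonneg_left (hg.2.trans ?_) hC₀.le
          refine mul_le_mul_of_nonneg_left (mul_le_mul_of_nonneg_left hpow hexp.le) hz'
      _ = _ := by ring

/-- **quasi-unipotence of the local monodromy** -/
theorem quasi_unip (h : VHS w (HB c ρ) S P) (hρ : 0 < ρ) {T : Matrix ι ι ℂ} (hTS : Tᴴ * S * T = S)
    (hper : ∀ z ∈ HB c ρ, ∀ p, P p (z + tau d) * T = T * P p z) (A : Matrix ι ι ℤ)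
    (hA : T = A.map (Int.castRingHom ℂ)) : ∃ e, 0 < e ∧ IsNilpotent (T ^ e - 1) := by
  classical
  have hc : ∀ j, ‖c j - c j‖ < ρ := fun j => by simpa using hρ
  have hmem : (Fin.cons (-1) c : Fin (d + 1) → ℂ) ∈ HB c ρ := cons_mem hc (by simp)
  have hSu : IsUnit S := h.S_unit hmem
  have hTdet : T.det ≠ 0 := by
    intro h0
    have h1 := congrArg Matrix.det hTS
    rw [det_mul, h0, mul_zero] at h1
    have h2 := (Matrix.isUnit_iff_isUnit_det S).1 hSu
    rw [← h1] at h2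
    exact not_isUnit_zero h2
  have hTi : IsUnit T.det := isUnit_iff_ne_zero.2 hTdet
  have hl := line h hc
  set Q : ℕ → ℂ → Matrix ι ι ℂ := fun p a => P p (Fin.cons a c : Fin (d + 1) → ℂ) with hQ
  have key : ∀ (μ : ℂ) (v : ι → ℂ), v ≠ 0 → T⁻¹ *ᵥ v = μ • v → ‖μ‖ = 1 := by
    intro μ v hv hμ
    refine Grow_25.norm_eigenvalue (V := ι → ℂ) (N := fun a u => hn w S Q u a)
      (T := Matrix.toLin' T⁻¹) (p := 2) (by norm_num) (K := KK ι)
      (fun a ha u hu => hl.hn_pos ha hu) (fun a _ μ u => hn_smul S Q a μ u)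
      (fun a ha u _ => ((hl.sm_hn u).contDiffAt (hl.op.mem_nhds ha)).differentiableAt (by simp))
      (fun a ha u _ => hn_bound hl u ha) ?_ hv (by rw [Matrix.toLin'_apply]; exact hμ)
    intro a ha u
    have h1 := hn_tau h hTS hper (cons_mem hc ha : (Fin.cons a c : Fin (d + 1) → ℂ) ∈ HB c ρ)
      (T⁻¹ *ᵥ u)
    rw [mulVec_mulVec, Matrix.mul_nonsing_inv _ hTi, one_mulVec, ← cons_tau] at h1
    rw [Matrix.toLin'_apply]
    exact h1
  have hroots : ∀ μ ∈ (A.charpoly.map (Int.castRingHom ℂ)).roots, ‖μ‖ ≤ 1 := by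
    intro μ hμ
    have hcp : T.charpoly = A.charpoly.map (Int.castRingHom ℂ) := by
      rw [hA]; exact Matrix.charpoly_map A _
    rw [← hcp] at hμ
    have hroot := (Polynomial.mem_roots'.1 hμ).2
    have hev : Module.End.HasEigenvalue (Matrix.toLin' T) μ := by
      rw [Module.End.hasEigenvalue_iff_isRoot_charpoly, Matrix.charpoly_toLin']
      exact hroot
    obtain ⟨v, hv⟩ := hev.exists_hasEigenvector
    have hv1 : T *ᵥ v = μ • v := by
      have := hv.apply_eq_smul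
      rwa [Matrix.toLin'_apply] at this
    have hμ0 : μ ≠ 0 := by
      rintro rfl
      rw [zero_smul] at hv1
      have h2 : T⁻¹ *ᵥ (T *ᵥ v) = v := by
        rw [mulVec_mulVec, Matrix.nonsing_inv_mul _ hTi, one_mulVec]
      rw [hv1, mulVec_zero] at h2
      exact hv.2 h2.symm
    have hv2 : T⁻¹ *ᵥ v = μ⁻¹ • v := by
      have h2 : T⁻¹ *ᵥ (T *ᵥ v) = v := by
        rw [mulVec_mulVec, Matrix.nonsing_inv_mul _ hTi, one_mulVec]
      rw [hv1, mulVec_smul] at h2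
      rw [← h2, smul_smul, inv_mul_cancel₀ hμ0, one_smul]
      rw [h2]
    have h3 := key μ⁻¹ v hv.2 hv2
    rw [norm_inv, inv_eq_one] at h3
    exact h3.le
  have hAdet : A.det ≠ 0 := by
    intro h0
    apply hTdet
    rw [hA]
    have : (A.map (Int.castRingHom ℂ)).det = (Int.castRingHom ℂ) A.det :=
      ((Int.castRingHom ℂ).map_det A).symm
    rw [this, h0, map_zero]
  obtain ⟨e, he, k, hk⟩ := Kro_25.exists_isNilpotent_matrix A hAdet hroots
  refine ⟨e, he, k, ?_⟩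
  have h1 : (T ^ e - 1) ^ k = ((Int.castRingHom ℂ).mapMatrix) ((A ^ e - 1) ^ k) := by
    rw [map_pow, map_sub, map_pow, map_one, hA]
    rfl
  rw [h1, hk, map_zero]

end VHS

end Crest.Agent.R276.NfA_25
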