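import Crest.Agent.R276.BdNf3_651
import Crest.Agent.R276.VLevi2_327
import Crest.Agent.R275.FLSubA_884

/-!
# Row 276, leaf BDNF (helper651), part 4 : the section `om` in the flat frame, sub-mean inequalities

`Cy w U S P σ` : `σ` a nowhere vanishing holomorphic section of `F^w`, parallel in `F^w` modulo `ℂ σ`.
`-log |σ|²` has Laplacian in `[0, 4 cst / R²]` along complex discs of radius `R`.
-/

set_option autoImplicit false
set_option linter.unusedSectionVars false

noncomputable section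

open Set Filter Topology Matrix Metric InnerProductSpace Laplacian
open Crest.Agent.R271.Ho51
open Crest.Agent.R276.Ipc735
open Crest.Agent.R276.BdNf1_651
open Crest.Agent.R276.BdNf2_651
open Crest.Agent.R276.BdNf3_651
open Crest.Agent.R276.VLevi_327 (CYL)
open scoped ContDiff

namespace Crest.Agent.R276.BdNf4_651

open Ipc735 (hq)

/-! ### general variations over open sets of normed spaces -/

section gen

attribute [local instance] Matrix.linftyOpNormedRing Matrix.linftyOpNormedAlgebra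

variable {E : Type*} [NormedAddCommGroup E] [NormedSpace ℂ E]
variable {ι : Type*} [Fintype ι] [DecidableEq ι]

/-- a nowhere zero holomorphic section of `F^w`, parallel in `F^w` modulo itself -/
structure Cy (w : ℕ) (U : Set E) (P : ℕ → E → Matrix ι ι ℂ) (σ : E → ι → ℂ) : Prop where
  bot : VCalc_442.Bot w U P σ
  ne : ∀ x ∈ U, σ x ≠ 0
  line : ∀ x ∈ U, ∀ v, ∃ l : ℂ, P w x *ᵥ VCalc_442.dW σ v x = l • σ x

/-- the weight -/
def pp (w : ℕ) (S : Matrix ι ι ℂ) (σ : E → ι → ℂ) (x : E) : ℝ := - Real.log (VCalc_442.bn w S σ x)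

variable {w : ℕ} {U : Set E} {S : Matrix ι ι ℂ} {P : ℕ → E → Matrix ι ι ℂ} {σ : E → ι → ℂ}

lemma sm_bn (hb : VCalc_442.Bot w U P σ) : ContDiffOn ℝ ∞ (VCalc_442.bn w S σ) U := by
  have h2 : VCalc_442.bn w S σ = fun x => (((-1 : ℂ) ^ w) * ∑ i, ∑ j,
      star (σ x i) * (S i j * σ x j)).re := by
    funext x
    unfold VCalc_442.bn
    rw [VCalc_442.sf_eq_sum]
  rw [h2]
  have hi : ∀ i, ContDiffOn ℝ ∞ (fun x => σ x i) U := fun i => (contDiffOn_pi.1 hb.sm) i
  have h5 : ContDiffOn ℝ ∞ (fun x => ((-1 : ℂ) ^ w) * ∑ i, ∑ j,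
      star (σ x i) * (S i j * σ x j)) U := by
    refine contDiffOn_const.mul (ContDiffOn.sum fun i _ => ContDiffOn.sum fun j _ => ?_)
    exact ((Complex.conjCLE.contDiff).comp_contDiffOn (hi i)).mul
      (contDiffOn_const.mul (hi j))
  exact Complex.reCLM.contDiff.comp_contDiffOn h5

section
variable (hv : VCalc_442.VHS w U S P) (h : Cy w U P σ)
include hv h

lemma bn_pos {x : E} (hx : x ∈ U) : 0 < VCalc_442.bn w S σ x := hv.bn_pos h.bot hx (h.ne x hx)

lemma sm_pp : ContDiffOn ℝ ∞ (pp w S σ) U := fun _ hx =>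
  (((sm_bn h.bot).contDiffWithinAt hx).log (bn_pos hv h hx).ne').neg

/-- the Laplacian of the weight along complex lines -/
theorem lap_pp {x v : E} {ζ : ℂ} (hx : x + ζ • v ∈ U) :
    (Δ (fun ξ : ℂ => pp w S σ (x + ξ • v))) ζ =
      4 * ((VCalc_442.sf (VCalc_442.hm w S P (x + ζ • v))
        (VCalc_442.dW (VCalc_442.grOp w P) v (x + ζ • v) *ᵥ σ (x + ζ • v))
        (VCalc_442.dW (VCalc_442.grOp w P) v (x + ζ • v) *ᵥ σ (x + ζ • v))).re /
          VCalc_442.bn w S σ (x + ζ • v)) := by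
  have hp := bn_pos hv h hx
  have h2 : ContDiffAt ℝ 2 (VCalc_442.bn w S σ) (x + ζ • v) :=
    ((sm_bn h.bot).contDiffAt (hv.op.mem_nhds hx)).of_le ENat.LEInfty.out
  have h1 := VCalc_442.lap_log_line h2 hp.ne'
  obtain ⟨l, hl⟩ := h.line _ hx v
  have h3 := hv.curv_bot h.bot hx v hl
  rw [h3] at h1
  have e : (fun ξ : ℂ => pp w S σ (x + ξ • v)) =
      - fun ξ : ℂ => Real.log (VCalc_442.bn w S σ (x + ξ • v)) := rfl
  rw [e, laplacian_neg, Pi.neg_apply, h1]
  field_simp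

theorem lap_nonneg {x v : E} {ζ : ℂ} (hx : x + ζ • v ∈ U) :
    0 ≤ (Δ (fun ξ : ℂ => pp w S σ (x + ξ • v))) ζ := by
  rw [lap_pp hv h hx]
  exact mul_nonneg (by norm_num) (div_nonneg (VCalc_442.sf_self_nonneg (hv.hmPos hx) _)
    (bn_pos hv h hx).le)

theorem lap_le {x v : E} {ζ : ℂ} {R : ℝ} (hR : 0 < R)
    (hm : ∀ t : ℂ, ‖t‖ < R → x + (ζ + t) • v ∈ U) :
    (Δ (fun ξ : ℂ => pp w S σ (x + ξ • v))) ζ ≤ 4 * (EndTh_659.cst ι / R ^ 2) := by
  have hx : x + ζ • v ∈ U := by simpa using hm 0 (by simpa using hR)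
  rw [lap_pp hv h hx]
  refine mul_le_mul_of_nonneg_left ?_ (by norm_num)
  have hp := bn_pos hv h hx
  rw [div_le_iff₀ hp, hv.bn_eq h.bot hx]
  have h1 := EndTh_659.nq_th_le hv hx v (σ (x + ζ • v))
  rw [hv.th_eq hx] at h1
  refine h1.trans ?_
  refine mul_le_mul_of_nonneg_right ?_ (VCalc_442.sf_self_nonneg (hv.hmPos hx) _)
  refine EndTh_659.gg_le_line hv hR fun t ht => ?_
  have := hm t ht
  rwa [add_smul, ← add_assoc] at this

/-- **sub-mean property and its converse** -/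
theorem avg {x v : E} {ρ R : ℝ} (hρ : 0 < ρ) (hR : ρ < R) (hm : ∀ t : ℂ, ‖t‖ < R → x + t • v ∈ U) :
    pp w S σ x ≤ Real.circleAverage (fun t : ℂ => pp w S σ (x + t • v)) 0 ρ ∧
    Real.circleAverage (fun t : ℂ => pp w S σ (x + t • v)) 0 ρ ≤
      pp w S σ x + EndTh_659.cst ι * (ρ / (R - ρ)) ^ 2 := by
  have hRρ : 0 < R - ρ := by linarith
  -- rescaled function
  set ψ : ℂ → ℝ := fun z => pp w S σ (x + z • ((ρ : ℂ) • v)) with hψ
  have hmem : ∀ z : ℂ, ‖z‖ ≤ 1 → ∀ t : ℂ, ‖t‖ < (R - ρ) / ρ → x + (z + t) • ((ρ : ℂ) • v) ∈ U := by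
    intro z hz t ht
    rw [smul_smul]
    refine hm _ ?_
    rw [norm_mul, Complex.norm_real, Real.norm_eq_abs, abs_of_pos hρ]
    rw [lt_div_iff₀ hρ] at ht
    calc ‖z + t‖ * ρ ≤ (‖z‖ + ‖t‖) * ρ := by gcongr; exact norm_add_le _ _
      _ ≤ (1 + ‖t‖) * ρ := by gcongr
      _ < R := by nlinarith
  have hm0 : ∀ z : ℂ, ‖z‖ ≤ 1 → x + z • ((ρ : ℂ) • v) ∈ U := by
    intro z hz
    simpa using hmem z hz 0 (by simpa using div_pos hRρ hρ)
  have hsm : ∀ z ∈ closedBall (0 : ℂ) 1, ContDiffAt ℝ 2 ψ z := by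
    intro z hz
    have hz' := hm0 z (by simpa using hz)
    have h1 : ContDiffAt ℝ 2 (pp w S σ) (x + z • ((ρ : ℂ) • v)) :=
      ((sm_pp hv h).contDiffAt (hv.op.mem_nhds hz')).of_le ENat.LEInfty.out
    have h2 : ContDiffAt ℝ 2 (fun z : ℂ => x + z • ((ρ : ℂ) • v)) z := by
      have : ContDiff ℝ 2 (fun z : ℂ => x + z • ((ρ : ℂ) • v)) :=
        contDiff_const.add (contDiff_id.smul contDiff_const)
      exact this.contDiffAt
    exact ContDiffAt.comp (g := pp w S σ) (f := fun z : ℂ => x + z • ((ρ : ℂ) • v)) z h1 h2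
  have havg : Real.circleAverage ψ 0 1 =
      Real.circleAverage (fun t : ℂ => pp w S σ (x + t • v)) 0 ρ := by
    rw [Real.circleAverage_def, Real.circleAverage_def]
    congr 2
    funext θ
    simp only [hψ, circleMap, zero_add, smul_smul]
    congr 3
    push_cast
    ring
  have h0 : ψ 0 = pp w S σ x := by simp [hψ]
  constructor
  · have h1 := Crest.Agent.R275.FL884.le_circleAverage_of_contDiffAt hsm (c := 0) (by
      intro z hz
      have h2 := lap_nonneg hv h (x := x) (v := (ρ : ℂ) • v) (ζ := z) (hm0 z (by simpa using hz))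
      rw [Ahl_25.lap_eq] at h2
      rw [mul_zero, neg_zero]
      exact h2)
    rw [havg, h0, add_zero] at h1
    exact h1
  · have hsm' : ∀ z ∈ closedBall (0 : ℂ) 1, ContDiffAt ℝ 2 (fun z => - ψ z) z :=
      fun z hz => (hsm z hz).neg
    have h1 := Crest.Agent.R275.FL884.le_circleAverage_of_contDiffAt hsm'
      (c := EndTh_659.cst ι / ((R - ρ) / ρ) ^ 2) (by
      intro z hz
      have h2 := lap_le hv h (x := x) (v := (ρ : ℂ) • v) (ζ := z) (div_pos hRρ hρ)
        (hmem z (by simpa using hz))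
      have h3 : (Δ (fun z => - ψ z)) z = - (Δ ψ) z := by
        have e : (fun z => - ψ z) = - ψ := rfl
        rw [e, laplacian_neg]; rfl
      have h4 : fderiv ℝ (fderiv ℝ (fun z => - ψ z)) z 1 1 +
          fderiv ℝ (fderiv ℝ (fun z => - ψ z)) z Complex.I Complex.I = - (Δ ψ) z := by
        rw [← h3, Ahl_25.lap_eq]
      rw [h4]
      have h5 : (Δ ψ) z = (Δ (fun ξ : ℂ => pp w S σ (x + ξ • ((ρ : ℂ) • v)))) z := rfl
      rw [h5]
      linarith)
    have h2 : Real.circleAverage (fun z => - ψ z) 0 1 = - Real.circleAverage ψ 0 1 := by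
      have := Real.circleAverage_fun_smul (a := (-1 : ℝ)) (f := ψ) (c := 0) (R := 1)
      simpa using this
    rw [h2, havg] at h1
    have h3 : EndTh_659.cst ι / ((R - ρ) / ρ) ^ 2 = EndTh_659.cst ι * (ρ / (R - ρ)) ^ 2 := by
      rw [div_pow, div_pow]
      field_simp
    rw [h3, h0] at h1
    linarith

end

end gen

/-! ### from a variation over a Riemann domain to a flat frame -/

section fr

attribute [local instance] Matrix.linftyOpNormedRing Matrix.linftyOpNormedAlgebra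

variable {N w : ℕ} {m : ℕ} {X : Type*} [TopologicalSpace X] [RDom m X]
variable {Y : Type*} [NormedAddCommGroup Y] [NormedSpace ℂ Y] [FiniteDimensional ℂ Y]
variable {V : VHS m X N w} {Ω : Set Y} {χ : Y → X} {om : X → Fin N → ℂ}
variable (n : Fr V Ω χ) (h : HM Ω χ) (hc : CYL V om)

/-- the projectors in the flat frame -/
abbrev PF (n : Fr V Ω χ) : ℕ → Y → Matrix (Fin N) (Fin N) ℂ := fun p z => hq w (n.E z) p

include h

lemma dW_grOp {z : Y} (hz : z ∈ Ω) (v : Y) :
    VCalc_442.dW (VCalc_442.grOp w (PF n)) v z = cm (n.g z)⁻¹ *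
      (∑ j, (fderiv ℂ (fun y => (cp (χ y) : Fin m → ℂ)) z v) j • dM V.P V.E j (χ z)) *
      cm (n.g z) := by
  have hd : DifferentiableAt ℝ (VCalc_442.grOp w (PF n)) z := (n.vhs h).dE hz
  rw [← VCalc_442.mW_eq_dW hd, ← n.mW_E h hz v]
  ext i j
  simp only [VCalc_442.mW, Matrix.of_apply]
  refine VCalc_442.dW_congr ?_ v
  filter_upwards [h.op.mem_nhds hz] with y hy
  rw [grOp_hq (n.hs hy)]

include hc

lemma pull_an {z : Y} (hz : z ∈ Ω) : AnalyticAt ℂ (n.pull om) z :=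
  n.pull_analytic h hz (hc.hol _)

/-- the derivative of the section -/
lemma dW_pull {z : Y} (hz : z ∈ Ω) (v : Y) : ∃ l : ℂ, VCalc_442.dW (n.pull om) v z =
    VCalc_442.dW (VCalc_442.grOp w (PF n)) v z *ᵥ n.pull om z + l • n.pull om z := by
  choose c hcc using fun j => hc.par (χ z) j
  set a : Fin m → ℂ := fderiv ℂ (fun y => (cp (χ y) : Fin m → ℂ)) z v with ha
  refine ⟨∑ j, a j * c j, ?_⟩
  rw [VCalc_442.dW_of_diff (pull_an n h hc hz).differentiableAt, n.fderiv_pull h hz (hc.hol _) v,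
    dW_grOp n h hz v, ← ha]
  have h1 : ∀ j, fderiv ℂ (lV V.P om (χ z) ∘ (ch (χ z)).symm) (cp (χ z)) (Pi.single j 1) =
      dM V.P V.E j (χ z) *ᵥ om (χ z) + c j • om (χ z) := by
    intro j
    have hd : DifferentiableAt ℂ (lV V.P om (χ z) ∘ (ch (χ z)).symm) (cp (χ z)) :=
      AnalyticAt.differentiableAt (hc.hol (χ z))
    rw [← hcc j, ← VCalc_442.dW_of_diff hd]
    funext i
    rw [← VCalc_442.dW_apply (hd.restrictScalars ℝ), dz_eq_dW j _ (isCh_ch (χ z)) (mem_ch (χ z))]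
    rfl
  have h2 : fderiv ℂ (lV V.P om (χ z) ∘ (ch (χ z)).symm) (cp (χ z)) a =
      (∑ j, a j • dM V.P V.E j (χ z)) *ᵥ om (χ z) + (∑ j, a j * c j) • om (χ z) := by
    conv_lhs => rw [pi_eq_sum_univ' a]
    rw [map_sum, Matrix.sum_mulVec, Finset.sum_smul, ← Finset.sum_add_distrib]
    refine Finset.sum_congr rfl fun j _ => ?_
    rw [map_smul, h1 j, smul_add, Matrix.smul_mulVec, smul_smul]
  rw [h2, Matrix.mulVec_add, Matrix.mulVec_smul]
  unfold Fr.pull
  rw [Matrix.mulVec_mulVec, Matrix.mulVec_mulVec]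
  congr 2
  rw [Matrix.mul_assoc, Matrix.mul_assoc, cm_mul_cm_inv, Matrix.mul_one]

/-- **the section in the flat frame** -/
theorem cy : Cy w Ω (PF n) (n.pull om) where
  bot :=
    { hol := fun z hz => (pull_an n h hc hz).differentiableAt.differentiableWithinAt
      sm := fun z hz =>
        ((AnalyticAt.contDiffAt (pull_an n h hc hz)).restrict_scalars ℝ).contDiffWithinAt
      mem := fun z hz => by
        have h1 : n.E z *ᵥ n.pull om z = (w : ℂ) • n.pull om z := n.pull_eig (hc.eig _)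
        show hq w (n.E z) w *ᵥ _ = _
        rw [hq_of_le le_rfl, (n.hs hz).hpr_mulVec_of_eig le_rfl h1 le_rfl, if_pos rfl] }
  ne := fun z _ h0 => hc.ne _ (n.pull_eq_zero_iff.mp h0)
  line := fun z hz v => by
    obtain ⟨l, hl⟩ := dW_pull n h hc hz v
    refine ⟨l, ?_⟩
    have hb : hq w (n.E z) w *ᵥ n.pull om z = n.pull om z := by
      have h1 : n.E z *ᵥ n.pull om z = (w : ℂ) • n.pull om z := n.pull_eig (hc.eig _)
      rw [hq_of_le le_rfl, (n.hs hz).hpr_mulVec_of_eig le_rfl h1 le_rfl, if_pos rfl]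
    have h3 : hq w (n.E z) w *ᵥ (VCalc_442.dW (VCalc_442.grOp w (PF n)) v z *ᵥ n.pull om z) = 0 := by
      have hv := n.vhs h
      rw [Matrix.mulVec_mulVec]
      have h4 := hv.low_P hz (hv.low_th hz v) w
      have h5 : PF n w z * VCalc_442.dW (VCalc_442.grOp w (PF n)) v z = 0 := by
        rw [h4, hv.top z hz (w + 1) (by omega), mul_zero]
      have h6 : hq w (n.E z) w * VCalc_442.dW (VCalc_442.grOp w (PF n)) v z = 0 := h5
      rw [h6, Matrix.zero_mulVec]
    show hq w (n.E z) w *ᵥ _ = _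
    rw [hl, Matrix.mulVec_add, h3, zero_add, Matrix.mulVec_smul, hb]

/-- the Hodge norm square of the section -/
lemma bn_pull {z : Y} (hz : z ∈ Ω) :
    VCalc_442.bn w n.S (n.pull om) z = VLevi_327.hn V (χ z) (om (χ z)) := by
  rw [(n.vhs h).bn_eq (cy n h hc).bot hz]
  have h1 := n.hodge_pull hz om om
  have h2 : VCalc_442.hm w n.S (PF n) z = hodge w n.S (n.E z) := by
    unfold VCalc_442.hm
    rw [sgOp_hq]
    rfl
  rw [h2]
  show (star (n.pull om z) ⬝ᵥ hodge w n.S (n.E z) *ᵥ n.pull om z).re = _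
  rw [h1]
  rfl

lemma pp_pull {z : Y} (hz : z ∈ Ω) : pp w n.S (n.pull om) z = VLevi_327.psi V om (χ z) := by
  unfold pp VLevi_327.psi
  rw [bn_pull n h hc hz]

end fr

end Crest.Agent.R276.BdNf4_651
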