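import Mathlib

/-!
# R276, leaf VCalc (helper442): Wirtinger calculus for maps between complex normed spaces

`dW f v x` is the derivative `∂_v f (x)` (complex linear in `v`), `dB f v x` is `∂̄_v f (x)`
(conjugate linear in `v`), for `f : X → A` real differentiable.
-/

set_option autoImplicit false

open Set Filter Topology
open scoped ContDiff ComplexConjugate

namespace Crest.Agent.R276.VCalc_442

variable {X : Type*} [NormedAddCommGroup X] [NormedSpace ℂ X]
variable {A : Type*} [NormedAddCommGroup A] [NormedSpace ℂ A]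
variable {B : Type*} [NormedAddCommGroup B] [NormedSpace ℂ B]

/-- the Wirtinger derivative `∂_v f` -/
noncomputable def dW (f : X → A) (v : X) (x : X) : A :=
  (1 / 2 : ℂ) • (fderiv ℝ f x v - Complex.I • fderiv ℝ f x (Complex.I • v))

/-- the Wirtinger derivative `∂̄_v f` -/
noncomputable def dB (f : X → A) (v : X) (x : X) : A :=
  (1 / 2 : ℂ) • (fderiv ℝ f x v + Complex.I • fderiv ℝ f x (Complex.I • v))

theorem dW_add_dB (f : X → A) (v x : X) : dW f v x + dB f v x = fderiv ℝ f x v := by
  unfold dW dB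
  module

theorem fderiv_eq (f : X → A) (v x : X) : fderiv ℝ f x v = dW f v x + dB f v x :=
  (dW_add_dB f v x).symm

theorem fderiv_I_smul (f : X → A) (v x : X) :
    fderiv ℝ f x (Complex.I • v) = Complex.I • dW f v x - Complex.I • dB f v x := by
  unfold dW dB
  have h : Complex.I * Complex.I = -1 := Complex.I_mul_I
  rw [← smul_sub, ← smul_sub]
  have : (fderiv ℝ f x) v - Complex.I • (fderiv ℝ f x) (Complex.I • v) -
      ((fderiv ℝ f x) v + Complex.I • (fderiv ℝ f x) (Complex.I • v)) =
      (-2 * Complex.I) • (fderiv ℝ f x) (Complex.I • v) := by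
    module
  rw [this, smul_smul, smul_smul]
  have h2 : Complex.I * (1 / 2) * (-2 * Complex.I) = 1 := by linear_combination -h
  rw [h2, one_smul]

section lin

variable (f : X → A) (x : X)

theorem dW_add_dir (v w : X) : dW f (v + w) x = dW f v x + dW f w x := by
  have h : Complex.I • (v + w) = Complex.I • v + Complex.I • w := smul_add _ _ _
  unfold dW
  rw [h, map_add, map_add]
  module

theorem dB_add_dir (v w : X) : dB f (v + w) x = dB f v x + dB f w x := by
  have h : Complex.I • (v + w) = Complex.I • v + Complex.I • w := smul_add _ _ _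
  unfold dB
  rw [h, map_add, map_add]
  module

theorem fderiv_smul_dir (c : ℂ) (v : X) :
    fderiv ℝ f x (c • v) = (c.re : ℂ) • fderiv ℝ f x v + (c.im : ℂ) •
      fderiv ℝ f x (Complex.I • v) := by
  have h : c • v = (c.re : ℝ) • v + (c.im : ℝ) • (Complex.I • v) := by
    conv_lhs => rw [← Complex.re_add_im c]
    rw [add_smul, mul_smul]
    rfl
  rw [h, map_add, map_smul, map_smul]
  rfl

theorem dW_smul_dir (c : ℂ) (v : X) : dW f (c • v) x = c • dW f v x := by
  have h1 := fderiv_smul_dir f x c v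
  have h2 := fderiv_smul_dir f x (Complex.I * c) v
  unfold dW
  rw [smul_smul, h1, h2]
  simp only [Complex.mul_re, Complex.mul_im, Complex.I_re, Complex.I_im, zero_mul, one_mul,
    zero_sub, zero_add]
  have hI : Complex.I * Complex.I = -1 := Complex.I_mul_I
  conv_rhs => rw [← Complex.re_add_im c]
  push_cast
  match_scalars
  · ring
  · linear_combination (c.im : ℂ) * (1/2) * hI

theorem dB_smul_dir (c : ℂ) (v : X) : dB f (c • v) x = (conj c) • dB f v x := by
  have h1 := fderiv_smul_dir f x c v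
  have h2 := fderiv_smul_dir f x (Complex.I * c) v
  unfold dB
  rw [smul_smul, h1, h2]
  simp only [Complex.mul_re, Complex.mul_im, Complex.I_re, Complex.I_im, zero_mul, one_mul,
    zero_sub, zero_add]
  have hI : Complex.I * Complex.I = -1 := Complex.I_mul_I
  have hc : conj c = (c.re : ℂ) - c.im * Complex.I := by
    apply Complex.ext <;> simp
  rw [hc]
  push_cast
  match_scalars
  · ring
  · linear_combination (c.im : ℂ) * (1/2) * hI

end lin

theorem dW_congr {f g : X → A} {x : X} (h : f =ᶠ[𝓝 x] g) (v : X) : dW f v x = dW g v x := by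
  unfold dW
  rw [h.fderiv_eq]

theorem dB_congr {f g : X → A} {x : X} (h : f =ᶠ[𝓝 x] g) (v : X) : dB f v x = dB g v x := by
  unfold dB
  rw [h.fderiv_eq]

@[simp] theorem dW_const (c : A) (v x : X) : dW (fun _ => c) v x = 0 := by
  simp [dW]

@[simp] theorem dB_const (c : A) (v x : X) : dB (fun _ => c) v x = 0 := by
  simp [dB]

section ops

variable {f g : X → A} {x : X}

theorem dW_add (hf : DifferentiableAt ℝ f x) (hg : DifferentiableAt ℝ g x) (v : X) :
    dW (fun y => f y + g y) v x = dW f v x + dW g v x := by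
  unfold dW
  rw [fderiv_fun_add hf hg]
  simp only [add_apply]
  module

theorem dB_add (hf : DifferentiableAt ℝ f x) (hg : DifferentiableAt ℝ g x) (v : X) :
    dB (fun y => f y + g y) v x = dB f v x + dB g v x := by
  unfold dB
  rw [fderiv_fun_add hf hg]
  simp only [add_apply]
  module

theorem dW_sub (hf : DifferentiableAt ℝ f x) (hg : DifferentiableAt ℝ g x) (v : X) :
    dW (fun y => f y - g y) v x = dW f v x - dW g v x := by
  unfold dW
  rw [fderiv_fun_sub hf hg]
  simp only [sub_apply]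
  module

theorem dB_sub (hf : DifferentiableAt ℝ f x) (hg : DifferentiableAt ℝ g x) (v : X) :
    dB (fun y => f y - g y) v x = dB f v x - dB g v x := by
  unfold dB
  rw [fderiv_fun_sub hf hg]
  simp only [sub_apply]
  module

theorem dW_neg (f : X → A) (v x : X) : dW (fun y => - f y) v x = - dW f v x := by
  unfold dW
  rw [fderiv_fun_neg]
  simp only [neg_apply]
  module

theorem dB_neg (f : X → A) (v x : X) : dB (fun y => - f y) v x = - dB f v x := by
  unfold dB
  rw [fderiv_fun_neg]
  simp only [neg_apply]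
  module

/-- composition with a complex linear continuous map -/
theorem dW_clm (L : A →L[ℂ] B) (hf : DifferentiableAt ℝ f x) (v : X) :
    dW (fun y => L (f y)) v x = L (dW f v x) := by
  have h : fderiv ℝ (fun y => L (f y)) x = (L.restrictScalars ℝ).comp (fderiv ℝ f x) :=
    ((L.restrictScalars ℝ).hasFDerivAt.comp x hf.hasFDerivAt).fderiv
  unfold dW
  rw [h]
  simp

theorem dB_clm (L : A →L[ℂ] B) (hf : DifferentiableAt ℝ f x) (v : X) :
    dB (fun y => L (f y)) v x = L (dB f v x) := by
  have h : fderiv ℝ (fun y => L (f y)) x = (L.restrictScalars ℝ).comp (fderiv ℝ f x) :=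
    ((L.restrictScalars ℝ).hasFDerivAt.comp x hf.hasFDerivAt).fderiv
  unfold dB
  rw [h]
  simp

/-- composition with a conjugate linear continuous map -/
theorem dW_conj (L : A →L[ℝ] B) (hL : ∀ (c : ℂ) (a : A), L (c • a) = (conj c) • L a)
    (hf : DifferentiableAt ℝ f x) (v : X) :
    dW (fun y => L (f y)) v x = L (dB f v x) := by
  have h : fderiv ℝ (fun y => L (f y)) x = L.comp (fderiv ℝ f x) :=
    (L.hasFDerivAt.comp x hf.hasFDerivAt).fderiv
  unfold dW dB
  have h2 : conj (1 / 2 : ℂ) = 1 / 2 := by simp [map_ofNat]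
  rw [h, hL, map_add, hL, h2]
  simp [sub_eq_add_neg]

theorem dB_conj (L : A →L[ℝ] B) (hL : ∀ (c : ℂ) (a : A), L (c • a) = (conj c) • L a)
    (hf : DifferentiableAt ℝ f x) (v : X) :
    dB (fun y => L (f y)) v x = L (dW f v x) := by
  have h : fderiv ℝ (fun y => L (f y)) x = L.comp (fderiv ℝ f x) :=
    (L.hasFDerivAt.comp x hf.hasFDerivAt).fderiv
  unfold dW dB
  have h2 : conj (1 / 2 : ℂ) = 1 / 2 := by simp [map_ofNat]
  rw [h, hL, map_sub, hL, h2]
  simp [sub_eq_add_neg]

theorem dW_const_smul (c : ℂ) (hf : DifferentiableAt ℝ f x) (v : X) :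
    dW (fun y => c • f y) v x = c • dW f v x :=
  dW_clm (c • ContinuousLinearMap.id ℂ A) hf v

theorem dB_const_smul (c : ℂ) (hf : DifferentiableAt ℝ f x) (v : X) :
    dB (fun y => c • f y) v x = c • dB f v x :=
  dB_clm (c • ContinuousLinearMap.id ℂ A) hf v

end ops

section alg

variable {R : Type*} [NormedRing R] [NormedAlgebra ℂ R] {f g : X → R} {x : X}

theorem dW_mul (hf : DifferentiableAt ℝ f x) (hg : DifferentiableAt ℝ g x) (v : X) :
    dW (fun y => f y * g y) v x = dW f v x * g x + f x * dW g v x := by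
  unfold dW
  rw [fderiv_fun_mul' hf hg]
  simp only [add_apply, smul_apply, smul_eq_mul,
    op_smul_eq_mul, smul_mul_assoc, mul_smul_comm, sub_mul, mul_sub]
  module

theorem dB_mul (hf : DifferentiableAt ℝ f x) (hg : DifferentiableAt ℝ g x) (v : X) :
    dB (fun y => f y * g y) v x = dB f v x * g x + f x * dB g v x := by
  unfold dB
  rw [fderiv_fun_mul' hf hg]
  simp only [add_apply, smul_apply, smul_eq_mul,
    op_smul_eq_mul, smul_mul_assoc, mul_smul_comm, add_mul, mul_add]
  module

end alg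

section second

variable {f : X → A} {U : Set X} {x : X}

theorem contDiffOn_dW (hU : IsOpen U) (hf : ContDiffOn ℝ ∞ f U) (v : X) :
    ContDiffOn ℝ ∞ (dW f v) U := by
  have h := hf.fderiv_of_isOpen hU (m := ∞) (by simp)
  unfold dW
  exact ((h.clm_apply contDiffOn_const).sub
    ((h.clm_apply contDiffOn_const).const_smul Complex.I)).const_smul (1 / 2 : ℂ)

theorem contDiffOn_dB (hU : IsOpen U) (hf : ContDiffOn ℝ ∞ f U) (v : X) :
    ContDiffOn ℝ ∞ (dB f v) U := by
  have h := hf.fderiv_of_isOpen hU (m := ∞) (by simp)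
  unfold dB
  exact ((h.clm_apply contDiffOn_const).add
    ((h.clm_apply contDiffOn_const).const_smul Complex.I)).const_smul (1 / 2 : ℂ)

theorem diffAt (hU : IsOpen U) (hf : ContDiffOn ℝ ∞ f U) (hx : x ∈ U) :
    DifferentiableAt ℝ f x :=
  (hf.contDiffAt (hU.mem_nhds hx)).differentiableAt (by simp)

theorem fderiv_fderiv_apply (hf : ContDiffAt ℝ 2 f x) (v w : X) :
    fderiv ℝ (fun y => fderiv ℝ f y v) x w = fderiv ℝ (fderiv ℝ f) x w v := by
  have h : DifferentiableAt ℝ (fderiv ℝ f) x :=
    (hf.fderiv_right (m := 1) (by norm_num)).differentiableAt (by simp)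
  rw [fderiv_clm_apply h (differentiableAt_const v)]
  simp

theorem symm2 (hf : ContDiffAt ℝ 2 f x) (v w : X) :
    fderiv ℝ (fderiv ℝ f) x v w = fderiv ℝ (fderiv ℝ f) x w v :=
  (hf.isSymmSndFDerivAt (by simp)) v w

private theorem fderiv_dW (hf : ContDiffAt ℝ 2 f x) (v w : X) :
    fderiv ℝ (dW f v) x w = (1 / 2 : ℂ) • (fderiv ℝ (fderiv ℝ f) x w v -
      Complex.I • fderiv ℝ (fderiv ℝ f) x w (Complex.I • v)) := by
  have h : DifferentiableAt ℝ (fderiv ℝ f) x :=
    (hf.fderiv_right (m := 1) (by norm_num)).differentiableAt (by simp)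
  have h1 : ∀ u : X, DifferentiableAt ℝ (fun y => fderiv ℝ f y u) x :=
    fun u => h.clm_apply (differentiableAt_const u)
  have e := (((h1 v).hasFDerivAt.sub ((h1 (Complex.I • v)).hasFDerivAt.const_smul
    Complex.I)).const_smul (1 / 2 : ℂ)).fderiv
  have e' : fderiv ℝ (dW f v) x = _ := e
  rw [e']
  simp only [smul_apply, sub_apply]
  rw [fderiv_fderiv_apply hf, fderiv_fderiv_apply hf]

private theorem fderiv_dB (hf : ContDiffAt ℝ 2 f x) (v w : X) :
    fderiv ℝ (dB f v) x w = (1 / 2 : ℂ) • (fderiv ℝ (fderiv ℝ f) x w v +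
      Complex.I • fderiv ℝ (fderiv ℝ f) x w (Complex.I • v)) := by
  have h : DifferentiableAt ℝ (fderiv ℝ f) x :=
    (hf.fderiv_right (m := 1) (by norm_num)).differentiableAt (by simp)
  have h1 : ∀ u : X, DifferentiableAt ℝ (fun y => fderiv ℝ f y u) x :=
    fun u => h.clm_apply (differentiableAt_const u)
  have e := (((h1 v).hasFDerivAt.add ((h1 (Complex.I • v)).hasFDerivAt.const_smul
    Complex.I)).const_smul (1 / 2 : ℂ)).fderiv
  have e' : fderiv ℝ (dB f v) x = _ := e
  rw [e']
  simp only [smul_apply, add_apply]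
  rw [fderiv_fderiv_apply hf, fderiv_fderiv_apply hf]

/-- `∂_w ∂_v f = ∂_v ∂_w f` -/
theorem dW_dW (hf : ContDiffAt ℝ 2 f x) (v w : X) :
    dW (dW f v) w x = dW (dW f w) v x := by
  have e1 : dW (dW f v) w x = (1 / 2 : ℂ) • (fderiv ℝ (dW f v) x w -
    Complex.I • fderiv ℝ (dW f v) x (Complex.I • w)) := rfl
  have e2 : dW (dW f w) v x = (1 / 2 : ℂ) • (fderiv ℝ (dW f w) x v -
    Complex.I • fderiv ℝ (dW f w) x (Complex.I • v)) := rfl
  rw [e1, e2, fderiv_dW hf, fderiv_dW hf, fderiv_dW hf, fderiv_dW hf, symm2 hf w v,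
    symm2 hf w (Complex.I • v), symm2 hf (Complex.I • w) v,
    symm2 hf (Complex.I • w) (Complex.I • v)]
  module

/-- `∂̄_w ∂̄_v f = ∂̄_v ∂̄_w f` -/
theorem dB_dB (hf : ContDiffAt ℝ 2 f x) (v w : X) :
    dB (dB f v) w x = dB (dB f w) v x := by
  have e1 : dB (dB f v) w x = (1 / 2 : ℂ) • (fderiv ℝ (dB f v) x w +
    Complex.I • fderiv ℝ (dB f v) x (Complex.I • w)) := rfl
  have e2 : dB (dB f w) v x = (1 / 2 : ℂ) • (fderiv ℝ (dB f w) x v +
    Complex.I • fderiv ℝ (dB f w) x (Complex.I • v)) := rfl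
  rw [e1, e2, fderiv_dB hf, fderiv_dB hf, fderiv_dB hf, fderiv_dB hf, symm2 hf w v,
    symm2 hf w (Complex.I • v), symm2 hf (Complex.I • w) v,
    symm2 hf (Complex.I • w) (Complex.I • v)]
  module

/-- `∂_w ∂̄_v f = ∂̄_v ∂_w f` -/
theorem dW_dB (hf : ContDiffAt ℝ 2 f x) (v w : X) :
    dW (dB f v) w x = dB (dW f w) v x := by
  have e1 : dW (dB f v) w x = (1 / 2 : ℂ) • (fderiv ℝ (dB f v) x w -
    Complex.I • fderiv ℝ (dB f v) x (Complex.I • w)) := rfl
  have e2 : dB (dW f w) v x = (1 / 2 : ℂ) • (fderiv ℝ (dW f w) x v +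
    Complex.I • fderiv ℝ (dW f w) x (Complex.I • v)) := rfl
  rw [e1, e2, fderiv_dB hf, fderiv_dB hf, fderiv_dW hf, fderiv_dW hf, symm2 hf w v,
    symm2 hf w (Complex.I • v), symm2 hf (Complex.I • w) v,
    symm2 hf (Complex.I • w) (Complex.I • v)]
  module

end second

end Crest.Agent.R276.VCalc_442
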