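import Mathlib
import Crest.Agent.R276.GrC_217
import Crest.Agent.R276.BdNf4_651
import Crest.Agent.R276.BdyL_767
import Crest.Agent.R276.Log_25

/-!
# R276, leaf RANK (helper25): from the normal form `LCh` (217) to the boundary data `Bd` (767) and the
rank drop `rank_drop_om`.
-/

set_option autoImplicit false
set_option linter.unusedSectionVars false

open Set Filter Topology Matrix Metric
open scoped ComplexOrder ContDiff ComplexConjugate

noncomputable section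

namespace Crest.Agent.R276.RkA_25

open Crest.Agent.R276.VCalc_442 Crest.Agent.R276.GrA_217
open Crest.Agent.R276.GrB_217 Crest.Agent.R276.GrC_217
open Crest.Agent.R276.Bdy_767

variable {ι : Type*} [Fintype ι] [DecidableEq ι] {d : ℕ}

/-! ### matrices as continuous maps -/

/-- the sesquilinear form `star u ⬝ᵥ S *ᵥ v` -/
def sq (S : Matrix ι ι ℂ) : (ι → ℂ) →L⋆[ℂ] (ι → ℂ) →L[ℂ] ℂ :=
  LinearMap.mkContinuous₂ (LinearMap.mk₂'ₛₗ (starRingEnd ℂ) (RingHom.id ℂ)
    (fun u v => star u ⬝ᵥ (S *ᵥ v))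
    (fun a b c => by rw [star_add, add_dotProduct])
    (fun c a b => by rw [star_smul, smul_dotProduct]; rfl)
    (fun a b c => by rw [mulVec_add, dotProduct_add])
    (fun c a b => by rw [mulVec_smul, dotProduct_smul]; rfl)) (∑ i, ∑ j, ‖S i j‖) (by
    intro u v
    show ‖star u ⬝ᵥ (S *ᵥ v)‖ ≤ _
    have h1 : star u ⬝ᵥ (S *ᵥ v) = ∑ i, ∑ j, star (u i) * (S i j * v j) := by
      simp only [dotProduct, mulVec, Finset.mul_sum, Pi.star_apply]
    rw [h1, Finset.sum_mul, Finset.sum_mul]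
    refine (norm_sum_le _ _).trans (Finset.sum_le_sum fun i _ => ?_)
    rw [Finset.sum_mul, Finset.sum_mul]
    refine (norm_sum_le _ _).trans (Finset.sum_le_sum fun j _ => ?_)
    rw [norm_mul, norm_mul, norm_star]
    have h2 := norm_le_pi_norm u i
    have h3 := norm_le_pi_norm v j
    calc ‖u i‖ * (‖S i j‖ * ‖v j‖) ≤ ‖u‖ * (‖S i j‖ * ‖v‖) := by gcongr
      _ = ‖S i j‖ * ‖u‖ * ‖v‖ := by ring)

theorem sq_apply (S : Matrix ι ι ℂ) (u v : ι → ℂ) : sq S u v = star u ⬝ᵥ (S *ᵥ v) := rfl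

theorem sq_sf (S : Matrix ι ι ℂ) (u v : ι → ℂ) : sq S u v = sf S u v := rfl

/-- the multiplication by a matrix -/
def Nm (L : Matrix ι ι ℂ) : (ι → ℂ) →L[ℂ] (ι → ℂ) := LinearMap.toContinuousLinearMap (mulVecLin L)

theorem Nm_apply (L : Matrix ι ι ℂ) (v : ι → ℂ) : Nm L v = L *ᵥ v := rfl

theorem Nm_pow (L : Matrix ι ι ℂ) (j : ℕ) (v : ι → ℂ) : (Nm L ^ j) v = (L ^ j) *ᵥ v := by
  induction j generalizing v with
  | zero => simp
  | succ j ih =>
    have h1 : (Nm L ^ (j + 1)) v = (Nm L ^ j) (Nm L v) := by rw [pow_succ]; rfl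
    rw [h1, ih, Nm_apply, mulVec_mulVec, pow_succ]

theorem Nm_nil {L : Matrix ι ι ℂ} (h : IsNilpotent L) : IsNilpotent (Nm L) := by
  obtain ⟨n, hn⟩ := h
  refine ⟨n, ?_⟩
  ext1 v
  rw [Nm_pow, hn, zero_mulVec]
  rfl

open scoped Nat in
theorem ex_Nm {L : Matrix ι ι ℂ} (h : IsNilpotent L) (c : ℂ) (v : ι → ℂ) :
    ex (Nm L) c v = EE L c *ᵥ v := by
  have h1 : (Nm L) ^ (Fintype.card ι) = 0 := by
    ext1 v
    rw [Nm_pow, pow_card h, zero_mulVec]
    rfl
  rw [ex_sum h1, EE, GrA_217.exp_eq h le_rfl, sum_mulVec]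
  refine Finset.sum_congr rfl fun j _ => ?_
  rw [Nm_pow, smul_mulVec, div_eq_inv_mul]

/-! ### from `LCh` to `Bd` -/

section lch

variable {w e : ℕ} {k : ℤ} {a R : ℝ} {S : Matrix ι ι ℂ}
  {P : ℕ → (Fin (d + 1) → ℂ) → Matrix ι ι ℂ} {T : Matrix ι ι ℂ} {z : ℂ} {L : Matrix ι ι ℂ}
  {Om f : (Fin (d + 1) → ℂ) → ι → ℂ}

/-- the normal form as a function on `ℂ × ℂ^d` -/
def fr (f : (Fin (d + 1) → ℂ) → ι → ℂ) (p : ℂ × (Fin d → ℂ)) : ι → ℂ := f (Fin.cons p.1 p.2)

/-- the hermitian form which is positive on the bottom piece -/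
def SS (w : ℕ) (S : Matrix ι ι ℂ) : (ι → ℂ) →L⋆[ℂ] (ι → ℂ) →L[ℂ] ℂ := sq (((-1 : ℂ) ^ w) • S)

theorem SS_apply (w : ℕ) (S : Matrix ι ι ℂ) (u v : ι → ℂ) :
    SS w S u v = (-1 : ℂ) ^ w * sf S u v := by
  rw [SS, sq_apply, smul_mulVec, dotProduct_smul, smul_eq_mul]
  rfl

theorem sf_conj {S : Matrix ι ι ℂ} (hS : Sᴴ = S) (u v : ι → ℂ) : sf S u v = conj (sf S v u) := by
  unfold sf
  have h1 : conj (star v ⬝ᵥ (S *ᵥ u)) = star (star v ⬝ᵥ (S *ᵥ u)) := rfl
  rw [h1, ← Matrix.star_dotProduct, star_mulVec, hS, ← dotProduct_mulVec]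

theorem dom_open (e : ℕ) (a R : ℝ) :
    IsOpen {q : Fin (d + 1) → ℂ | ‖q 0‖ < Real.exp (a / e) ∧ ∀ i : Fin d, ‖q i.succ‖ < R} := by
  refine IsOpen.and ?_ ?_
  · exact isOpen_lt (by fun_prop) continuous_const
  · have : {q : Fin (d + 1) → ℂ | ∀ i : Fin d, ‖q i.succ‖ < R} =
      ⋂ i : Fin d, {q : Fin (d + 1) → ℂ | ‖q i.succ‖ < R} := by
      ext q; simp
    rw [this]
    exact isOpen_iInter_of_finite fun i => isOpen_lt (by fun_prop) continuous_const

theorem bd (h : LCh w e k a R S P T z L Om f) :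
    Bd (SS w S) (Nm L) (Real.exp (a / e)) (ball (0 : Fin d → ℂ) R) (fr f) where
  hr := Real.exp_pos _
  hU := isOpen_ball
  herm := by
    intro u v
    rw [SS_apply, SS_apply, sf_conj h.vhs.herm, map_mul, map_pow, map_neg, map_one]
  skew := by
    intro u v
    rw [SS_apply, SS_apply, Nm_apply, Nm_apply]
    unfold sf
    rw [star_mulVec, ← dotProduct_mulVec, mulVec_mulVec, h.skew, neg_mulVec, dotProduct_neg,
      ← mulVec_mulVec]
    ring
  nil := Nm_nil h.nil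
  an := by
    have h1 := R266.SCV.analyticOnNhd_of_differentiableOn (dom_open e a R) h.hf
    intro p hp
    have h2 : (Fin.cons p.1 p.2 : Fin (d + 1) → ℂ) ∈ {q : Fin (d + 1) → ℂ |
        ‖q 0‖ < Real.exp (a / e) ∧ ∀ i : Fin d, ‖q i.succ‖ < R} := by
      refine ⟨by simpa using hp.1, fun i => ?_⟩
      rw [Fin.cons_succ]
      exact (norm_le_pi_norm p.2 i).trans_lt (by simpa using hp.2)
    have h3 : AnalyticAt ℂ (fun p : ℂ × (Fin d → ℂ) => (Fin.cons p.1 p.2 : Fin (d + 1) → ℂ)) p := by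
      rw [analyticAt_pi_iff]
      intro i
      refine Fin.cases ?_ (fun j => ?_) i
      · simp only [Fin.cons_zero]
        exact analyticAt_fst
      · simp only [Fin.cons_succ]
        exact ((ContinuousLinearMap.proj (R := ℂ) (φ := fun _ : Fin d => ℂ) j).analyticAt _).comp
          analyticAt_snd
    exact AnalyticAt.comp_of_eq (h1 _ h2) h3 rfl

theorem re_lt_iff {a : ℝ} {e : ℕ} (he : 0 < e) {w : ℂ} :
    w.re < Real.log (Real.exp (a / e)) ↔ ((e : ℂ) * w).re < a := by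
  have he' : (0 : ℝ) < e := by exact_mod_cast he
  rw [Real.log_exp, lt_div_iff₀ he']
  have : ((e : ℂ) * w).re = w.re * e := by
    simp [Complex.mul_re, mul_comm]
  rw [this]

theorem cons_mem {e : ℕ} (he : 0 < e) {w : ℂ} (hw : w.re < Real.log (Real.exp (a / e)))
    {y : Fin d → ℂ} (hy : y ∈ ball (0 : Fin d → ℂ) R) :
    (Fin.cons ((e : ℂ) * w) y : Fin (d + 1) → ℂ) ∈ GrB_217.HB d a R := by
  refine ⟨?_, fun i => ?_⟩
  · rw [Fin.cons_zero]
    exact (re_lt_iff he).1 hw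
  · rw [Fin.cons_succ]
    exact (norm_le_pi_norm y i).trans_lt (by simpa using hy)

/-- 767's twisted section in terms of `Om` -/
theorem om_eq (h : LCh w e k a R S P T z L Om f) {u : ℂ} (hu : u.re < Real.log (Real.exp (a / e)))
    {y : Fin d → ℂ} (hy : y ∈ ball (0 : Fin d → ℂ) R) :
    om (Nm L) (fr f) (u, y) = Complex.exp (-(k * u)) • Om (Fin.cons ((e : ℂ) * u) y) := by
  have he : (e : ℂ) ≠ 0 := by exact_mod_cast h.he.ne'
  have h1 := h.f_Om _ (cons_mem h.he hu hy)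
  rw [Fin.cons_zero, Fin.tail_cons, mul_div_cancel_left₀ _ he] at h1
  have h2 : (e : ℂ) * u / (tpi * e) = u / (2 * Real.pi * Complex.I) := by
    unfold tpi
    have hpi : (Real.pi : ℂ) ≠ 0 := by exact_mod_cast Real.pi_ne_zero
    field_simp
  have h3 : (k : ℂ) * ((e : ℂ) * u) / e = k * u := by
    field_simp
  rw [h2, h3] at h1
  show ex (Nm L) (u / (2 * Real.pi * Complex.I)) (f (Fin.cons (Complex.exp u) y)) = _
  rw [h1, ex_Nm h.nil, mulVec_smul, mulVec_mulVec, EE_neg h.nil, one_mulVec]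

/-- the logarithm commutes with the monodromy -/
theorem commL (h : LCh w e k a R S P T z L Om f) : T * L = L * T := by
  obtain ⟨c, hc⟩ := log_comb ι
  have h1 := hc L h.nil
  have h2 : Commute T (EE L 1) := by
    rw [h.exp_eq]
    exact ((Commute.refl T).smul_right z).pow_right e
  have h3 : Commute T L := by
    rw [h1]
    exact Commute.sum_right _ _ _ fun j _ => (h2.pow_right _).smul_right _
  exact h3

/-- the deck transformation in the variables of 767 -/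
def Td (e : ℕ) (k : ℤ) (z : ℂ) (T : Matrix ι ι ℂ) : (ι → ℂ) →L[ℂ] (ι → ℂ) :=
  Nm ((Complex.exp (-(k * (2 * Real.pi * Complex.I / e))) * z) • T)

theorem Td_comm (h : LCh w e k a R S P T z L Om f) (v : ι → ℂ) :
    Td e k z T (Nm L v) = Nm L (Td e k z T v) := by
  simp only [Td, Nm_apply, mulVec_mulVec]
  rw [Matrix.smul_mul, Matrix.mul_smul, commL h]

theorem om_deck (h : LCh w e k a R S P T z L Om f) {u : ℂ}
    (hu : u.re < Real.log (Real.exp (a / e))) {y : Fin d → ℂ} (hy : y ∈ ball (0 : Fin d → ℂ) R) :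
    om (Nm L) (fr f) (u + 2 * Real.pi * Complex.I / e, y) =
      Td e k z T (om (Nm L) (fr f) (u, y)) := by
  have he : (e : ℂ) ≠ 0 := by exact_mod_cast h.he.ne'
  have hre : (u + 2 * Real.pi * Complex.I / e).re = u.re := by
    have : (2 * Real.pi * Complex.I / e : ℂ) = ((2 * Real.pi / e : ℝ) : ℂ) * Complex.I := by
      push_cast
      ring
    rw [this]
    simp
  have hu' : (u + 2 * Real.pi * Complex.I / e).re < Real.log (Real.exp (a / e)) := by
    rw [hre]; exact hu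
  rw [om_eq h hu hy, om_eq h hu' hy]
  have h1 : (Fin.cons ((e : ℂ) * (u + 2 * Real.pi * Complex.I / e)) y : Fin (d + 1) → ℂ) =
      Fin.cons ((e : ℂ) * u) y + Pi.single 0 tpi := by
    funext i
    refine Fin.cases ?_ (fun j => ?_) i
    · rw [Pi.add_apply, Fin.cons_zero, Fin.cons_zero, Pi.single_eq_same]
      unfold tpi
      field_simp
    · rw [Pi.add_apply, Fin.cons_succ, Fin.cons_succ, Pi.single_eq_of_ne (Fin.succ_ne_zero j),
        add_zero]
  rw [h1, h.om_per _ (cons_mem h.he hu hy), Td, Nm_apply, smul_mulVec, mulVec_smul, smul_smul,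
    smul_smul]
  congr 1
  have h2 : Complex.exp (-(k * (u + 2 * Real.pi * Complex.I / e))) =
      Complex.exp (-(k * (2 * Real.pi * Complex.I / e))) * Complex.exp (-(k * u)) := by
    rw [← Complex.exp_add]
    congr 1
    ring
  rw [h2]
  ring

end lch

/-! ### the rank of the span from the null space -/

section rk

variable {E V : Type*} [NormedAddCommGroup E] [NormedSpace ℂ E] [FiniteDimensional ℂ E]
  [NormedAddCommGroup V] [NormedSpace ℂ V] [FiniteDimensional ℂ V]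

theorem rk_of_null {D : E →L[ℂ] V} {g : V} {W : Submodule ℂ E} {ν : ℕ}
    (hW : Module.finrank ℂ E ≤ Module.finrank ℂ W + ν)
    (h : ∀ v ∈ W, D v ∈ Submodule.span ℂ {g}) :
    Module.finrank ℂ (Submodule.span ℂ ({g} ∪ range D)) ≤ ν + 1 := by
  obtain ⟨W', hW'⟩ := W.exists_isCompl
  have h1 : Submodule.span ℂ ({g} ∪ range D) ≤ Submodule.span ℂ {g} ⊔ W'.map D.toLinearMap := by
    rw [Submodule.span_le]
    rintro x (hx | ⟨v, rfl⟩)
    · rw [mem_singleton_iff] at hx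
      subst hx
      exact Submodule.mem_sup_left (Submodule.mem_span_singleton_self _)
    · have h2 : v ∈ W ⊔ W' := by rw [hW'.sup_eq_top]; trivial
      obtain ⟨a, ha, b, hb, rfl⟩ := Submodule.mem_sup.1 h2
      rw [map_add]
      exact Submodule.add_mem _ (Submodule.mem_sup_left (h a ha))
        (Submodule.mem_sup_right ⟨b, hb, rfl⟩)
  have h2 := Submodule.finrank_mono h1
  have h3 := Submodule.finrank_add_le_finrank_add_finrank (Submodule.span ℂ {g})
    (W'.map D.toLinearMap)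
  have h4 : Module.finrank ℂ (Submodule.span ℂ {g}) ≤ 1 := by
    have := finrank_span_le_card (R := ℂ) ({g} : Set V)
    simpa using this
  have h5 := Submodule.finrank_map_le D.toLinearMap W'
  have h6 := Submodule.finrank_add_eq_of_isCompl hW'
  omega

/-- multiplication by a function and a linear change of variables do not increase the span -/
theorem span_smul_comp {X : Type*} [NormedAddCommGroup X] [NormedSpace ℂ X] {c : X → ℂ}
    {A : X → E} {h g : _} {x : X} {A' : X →L[ℂ] E} (hA : HasFDerivAt A A' x)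
    (hc : DifferentiableAt ℂ c x) (hh : DifferentiableAt ℂ (h : E → V) (A x))
    (hg : g =ᶠ[𝓝 x] fun y => c y • h (A y)) :
    Submodule.span ℂ ({g x} ∪ range (fderiv ℂ g x)) ≤
      Submodule.span ℂ ({h (A x)} ∪ range (fderiv ℂ h (A x))) := by
  have h1 : HasFDerivAt (fun y => c y • h (A y))
      (c x • (fderiv ℂ h (A x)).comp A' + (fderiv ℂ c x).smulRight (h (A x))) x :=
    hc.hasFDerivAt.smul (hh.hasFDerivAt.comp x hA)
  have h2 := h1.congr_of_eventuallyEq hg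
  rw [h2.fderiv, Submodule.span_le]
  rintro y (hy | ⟨v, rfl⟩)
  · rw [mem_singleton_iff] at hy
    subst hy
    rw [hg.eq_of_nhds]
    exact Submodule.smul_mem _ _ (Submodule.subset_span (Or.inl rfl))
  · show c x • fderiv ℂ h (A x) (A' v) + fderiv ℂ c x v • h (A x) ∈ _
    exact Submodule.add_mem _
      (Submodule.smul_mem _ _ (Submodule.subset_span (Or.inr ⟨_, rfl⟩)))
      (Submodule.smul_mem _ _ (Submodule.subset_span (Or.inl rfl)))

end rk

/-! ### the rank drop -/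

section main

variable {w e : ℕ} {k : ℤ} {a R : ℝ} {S : Matrix ι ι ℂ}
  {P : ℕ → (Fin (d + 1) → ℂ) → Matrix ι ι ℂ} {T : Matrix ι ι ℂ} {z : ℂ} {L : Matrix ι ι ℂ}
  {Om f : (Fin (d + 1) → ℂ) → ι → ℂ}

/-- the linear part of the change of variables -/
def AA (e : ℕ) : (ℂ × (Fin d → ℂ)) →L[ℂ] (Fin (d + 1) → ℂ) :=
  ContinuousLinearMap.pi (Fin.cases ((e : ℂ) • ContinuousLinearMap.fst ℂ ℂ (Fin d → ℂ))
    (fun j => (ContinuousLinearMap.proj (R := ℂ) (φ := fun _ : Fin d => ℂ) j).comp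
      (ContinuousLinearMap.snd ℂ ℂ (Fin d → ℂ))))

theorem AA_apply (e : ℕ) (p : ℂ × (Fin d → ℂ)) :
    AA e p = (Fin.cons ((e : ℂ) * p.1) p.2 : Fin (d + 1) → ℂ) := by
  funext i
  refine Fin.cases ?_ (fun j => ?_) i
  · rfl
  · rfl

theorem span_om_le (h : LCh w e k a R S P T z L Om f)
    (hd : DifferentiableOn ℂ Om (GrB_217.HB d a R)) {u : ℂ}
    (hu : u.re < Real.log (Real.exp (a / e))) {y : Fin d → ℂ} (hy : y ∈ ball (0 : Fin d → ℂ) R) :
    Submodule.span ℂ ({om (Nm L) (fr f) (u, y)} ∪ range (fderiv ℂ (om (Nm L) (fr f)) (u, y))) ≤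
      Submodule.span ℂ ({Om (Fin.cons ((e : ℂ) * u) y)} ∪
        range (fderiv ℂ Om (Fin.cons ((e : ℂ) * u) y))) := by
  have hA : HasFDerivAt (AA (d := d) e) (AA e) (u, y) := (AA e).hasFDerivAt
  have hm := cons_mem (a := a) h.he hu hy
  have hx : AA e (u, y) = (Fin.cons ((e : ℂ) * u) y : Fin (d + 1) → ℂ) := AA_apply e (u, y)
  have h1 : DifferentiableAt ℂ Om (AA e (u, y)) := by
    rw [hx]
    exact (hd _ hm).differentiableAt ((GrB_217.isOpen_HB d a R).mem_nhds hm)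
  have hc : DifferentiableAt ℂ (fun p : ℂ × (Fin d → ℂ) => Complex.exp (-(k * p.1))) (u, y) := by
    fun_prop
  have hg : om (Nm L) (fr f) =ᶠ[𝓝 (u, y)]
      fun p => Complex.exp (-(k * p.1)) • Om (AA e p) := by
    have ho : IsOpen {p : ℂ × (Fin d → ℂ) | p.1.re < Real.log (Real.exp (a / e)) ∧
        p.2 ∈ ball (0 : Fin d → ℂ) R} := by
      refine IsOpen.and (isOpen_lt (by fun_prop) continuous_const) ?_
      exact isOpen_ball.preimage continuous_snd
    filter_upwards [ho.mem_nhds ⟨hu, hy⟩] with p hp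
    have := om_eq h hp.1 hp.2
    rw [AA_apply]
    exact this
  have h2 := span_smul_comp hA hc h1 hg
  rwa [hx] at h2

/-- **(R3)** rank of the limit metric -/
theorem rank (h : LCh w e k a R S P T z L Om f)
    (hd : DifferentiableOn ℂ Om (GrB_217.HB d a R)) {ν : ℕ}
    (hrk : ∀ q ∈ GrB_217.HB d a R, Module.finrank ℂ
      (Submodule.span ℂ ({Om q} ∪ range (fderiv ℂ Om q))) ≤ ν + 1)
    (hT : ¬ ∃ ζ : ℂ, ∀ q ∈ GrB_217.HB d a R, T *ᵥ Om q = ζ • Om q) {m : ℕ}
    (hm : ∀ y ∈ ball (0 : Fin d → ℂ) R,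
      SS w S (fr f (0, y)) ((KK (Nm L) ^ (m + 1)) (fr f (0, y))) = 0)
    {y : Fin d → ℂ} (hy : y ∈ ball (0 : Fin d → ℂ) R)
    (hη : SS w S (fr f (0, y)) ((KK (Nm L) ^ m) (fr f (0, y))) ≠ 0) :
    d + 1 ≤ Module.finrank ℂ
      (nul (SS w S) (KK (Nm L) ^ m) (fr f (0, y)) (D0 (fr f) (0, y))) + ν := by
  have h1 := rank_drop_om (bd h) (convex_ball (0 : Fin d → ℂ) R).isPreconnected hm (ν := ν)
    (fun u hu y hy => ?_) (T := Td e k z T) (fun v => Td_comm h v) h.he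
    (fun u hu y hy => om_deck h hu hy) ?_ hy hη
  · rwa [Module.finrank_fin_fun] at h1
  · exact (Submodule.finrank_mono (span_om_le h hd hu hy)).trans (hrk _ (cons_mem h.he hu hy))
  · by_contra hcon
    apply hT
    have hz : z ≠ 0 := by
      intro h0
      have := h.hz
      rw [h0, norm_zero] at this
      exact zero_ne_one this
    set c : ℂ := Complex.exp (-(k * (2 * Real.pi * Complex.I / e))) * z with hc
    have hc0 : c ≠ 0 := mul_ne_zero (Complex.exp_ne_zero _) hz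
    refine ⟨c⁻¹, fun q hq => ?_⟩
    have he : (e : ℂ) ≠ 0 := by exact_mod_cast h.he.ne'
    have hq1 : (q 0 / e).re < Real.log (Real.exp (a / e)) := by
      rw [re_lt_iff h.he, mul_div_cancel₀ _ he]
      exact hq.1
    have hq2 : (Fin.tail q : Fin d → ℂ) ∈ ball (0 : Fin d → ℂ) R := by
      rw [mem_ball_zero_iff, pi_norm_lt_iff h.hR]
      exact hq.2
    have hq3 : (Fin.cons ((e : ℂ) * (q 0 / e)) (Fin.tail q) : Fin (d + 1) → ℂ) = q := by
      rw [mul_div_cancel₀ _ he, Fin.cons_self_tail]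
    push Not at hcon
    have h2 := hcon _ hq1 _ hq2
    rw [om_eq h hq1 hq2, hq3, map_smul] at h2
    have h3 : Td e k z T (Om q) = Om q := smul_right_injective _ (Complex.exp_ne_zero _) h2
    have h4 : c • (T *ᵥ Om q) = Om q := by
      rw [← smul_mulVec]
      exact h3
    rw [← h4, smul_smul, inv_mul_cancel₀ hc0, one_smul, h4]

end main

/-! ### null vectors of the Levi form of `pp` -/

section cy

attribute [local instance] Matrix.linftyOpNormedRing Matrix.linftyOpNormedAlgebra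

open Crest.Agent.R276.BdNf4_651 InnerProductSpace

variable {E : Type*} [NormedAddCommGroup E] [NormedSpace ℂ E]
variable {w : ℕ} {U : Set E} {S : Matrix ι ι ℂ} {P : ℕ → E → Matrix ι ι ℂ} {σ : E → ι → ℂ}

/-- if `θ_v σ = 0` then `∂_v σ ∈ ℂ σ` -/
theorem mem_of_th (hv : VHS w U S P) (h : Cy w U P σ) {x : E} (hx : x ∈ U) {v : E}
    (h0 : dW (grOp w P) v x *ᵥ σ x = 0) : fderiv ℂ σ x v ∈ Submodule.span ℂ {σ x} := by
  obtain ⟨l, hl⟩ := h.line x hx v
  have h1 := hv.dW_bot h.bot hx v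
  rw [h0, zero_add, hl] at h1
  have h2 : dW σ v x = fderiv ℂ σ x v := dW_of_diff (hv.bot_dC h.bot hx) v
  rw [Submodule.mem_span_singleton]
  exact ⟨l, by rw [← h2, h1]⟩

/-- if the Laplacian of `pp` in the direction `v` vanishes then `∂_v σ ∈ ℂ σ` -/
theorem mem_of_lap (hv : VHS w U S P) (h : Cy w U P σ) {x : E} (hx : x ∈ U) {v : E}
    (h0 : (Laplacian.laplacian (fun ξ : ℂ => pp w S σ (x + ξ • v))) 0 = 0) :
    fderiv ℂ σ x v ∈ Submodule.span ℂ {σ x} := by
  have h1 := lap_pp hv h (x := x) (v := v) (ζ := 0) (by simpa using hx)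
  rw [h0, zero_smul, add_zero] at h1
  have hp := bn_pos hv h hx
  apply mem_of_th hv h hx
  by_contra hne
  have h2 := sf_pos (hv.hmPos hx) hne
  have h3 : 0 < 4 * ((sf (hm w S P x) (dW (grOp w P) v x *ᵥ σ x)
      (dW (grOp w P) v x *ᵥ σ x)).re / bn w S σ x) := by positivity
  rw [← h1] at h3
  exact lt_irrefl _ h3

end cy

section fin

attribute [local instance] Matrix.linftyOpNormedRing Matrix.linftyOpNormedAlgebra

open Crest.Agent.R276.BdNf4_651 InnerProductSpace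

variable {w e : ℕ} {k : ℤ} {a R : ℝ} {S : Matrix ι ι ℂ}
  {P : ℕ → (Fin (d + 1) → ℂ) → Matrix ι ι ℂ} {T : Matrix ι ι ℂ} {z : ℂ} {L : Matrix ι ι ℂ}
  {Om f : (Fin (d + 1) → ℂ) → ι → ℂ}

/-- the span from the null space of the Levi form of `pp` -/
theorem rk_of_lap (hv : VHS w (GrB_217.HB d a R) S P) (hcy : Cy w (GrB_217.HB d a R) P Om) {ν : ℕ}
    {q : Fin (d + 1) → ℂ} (hq : q ∈ GrB_217.HB d a R)
    (hW : ∃ W : Submodule ℂ (Fin (d + 1) → ℂ), d + 1 ≤ Module.finrank ℂ W + ν ∧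
      ∀ v ∈ W, (Laplacian.laplacian (fun ξ : ℂ => pp w S Om (q + ξ • v))) 0 = 0) :
    Module.finrank ℂ (Submodule.span ℂ ({Om q} ∪ range (fderiv ℂ Om q))) ≤ ν + 1 := by
  obtain ⟨W, hW, hW0⟩ := hW
  refine rk_of_null (W := W) (ν := ν) ?_ fun v hvW => mem_of_lap hv hcy hq (hW0 v hvW)
  rwa [Module.finrank_fin_fun]

/-- **RANK**: from `LCh` and `Cy`. -/
theorem rank_cy (h : LCh w e k a R S P T z L Om f) (hcy : Cy w (GrB_217.HB d a R) P Om) {ν : ℕ}
    (hW : ∀ q ∈ GrB_217.HB d a R, ∃ W : Submodule ℂ (Fin (d + 1) → ℂ),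
      d + 1 ≤ Module.finrank ℂ W + ν ∧
      ∀ v ∈ W, (Laplacian.laplacian (fun ξ : ℂ => pp w S Om (q + ξ • v))) 0 = 0)
    (hT : ¬ ∃ ζ : ℂ, ∀ q ∈ GrB_217.HB d a R, T *ᵥ Om q = ζ • Om q) {m : ℕ}
    (hm : ∀ y ∈ ball (0 : Fin d → ℂ) R,
      SS w S (fr f (0, y)) ((KK (Nm L) ^ (m + 1)) (fr f (0, y))) = 0)
    {y : Fin d → ℂ} (hy : y ∈ ball (0 : Fin d → ℂ) R)
    (hη : SS w S (fr f (0, y)) ((KK (Nm L) ^ m) (fr f (0, y))) ≠ 0) :
    ∃ W : Submodule ℂ (Fin d → ℂ), d + 1 ≤ Module.finrank ℂ W + ν ∧ ∀ v ∈ W, ∀ v' : Fin d → ℂ,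
      dW (fun y => dB (fun y => ((Real.log (cc (SS w S) (Nm L) (fr f) m (0, y)) : ℝ) : ℂ)) v y) v' y
        = 0 ∧
      dW (fun y => dB (fun y => ((Real.log (cc (SS w S) (Nm L) (fr f) m (0, y)) : ℝ) : ℂ)) v' y) v y
        = 0 :=
  ⟨_, rank h hcy.bot.hol (fun q hq => rk_of_lap h.vhs hcy hq (hW q hq)) hT hm hy hη,
    fun v hv v' => levi_cc_null (bd h) hy hη hv v'⟩

end fin

end Crest.Agent.R276.RkA_25
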