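import Mathlib
import Crest.Agent.R276.RkA_25
import Crest.Agent.R276.NfA_25
import Crest.Agent.R276.PosK_767

/-!
# R276, leaf RANK, part B (helper25): `LCh` (217) and `Cy` (651) give the hypotheses `YD` of 767, hence
positivity of the limit metric everywhere and the final package `LCh.main`.
-/

set_option autoImplicit false
set_option linter.unusedSectionVars false

open Set Filter Topology Matrix Metric Real
open scoped ComplexOrder ContDiff ComplexConjugate

noncomputable section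

namespace Crest.Agent.R276.RkB_25

open Crest.Agent.R276.VCalc_442 Crest.Agent.R276.GrA_217
open Crest.Agent.R276.GrB_217 (scl) 
open Crest.Agent.R276.GrC_217
open Crest.Agent.R276.Bdy_767
open Crest.Agent.R276.RkA_25
open Crest.Agent.R276.BdNf4_651

attribute [local instance] Matrix.linftyOpNormedRing Matrix.linftyOpNormedAlgebra

variable {ι : Type*} [Fintype ι] [DecidableEq ι] {d : ℕ}
variable {w e : ℕ} {k : ℤ} {a R : ℝ} {S : Matrix ι ι ℂ}
  {P : ℕ → (Fin (d + 1) → ℂ) → Matrix ι ι ℂ} {T : Matrix ι ι ℂ} {z : ℂ} {L : Matrix ι ι ℂ}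
  {Om f : (Fin (d + 1) → ℂ) → ι → ℂ}

/-- the point `(-e s, y)` -/
def pt (e : ℕ) (s : ℝ) (y : Fin d → ℂ) : Fin (d + 1) → ℂ := Fin.cons ((e : ℂ) * (-(s : ℂ))) y

theorem pt_mem (he : 0 < e) {s : ℝ} (hs : -s < a / e) {y : Fin d → ℂ}
    (hy : y ∈ ball (0 : Fin d → ℂ) R) : pt e s y ∈ GrB_217.HB d a R :=
  cons_mem he (by rw [Real.log_exp]; simpa using hs) hy

theorem hh_eq (h : LCh w e k a R S P T z L Om f) {s : ℝ} (hs : -s < a / e) {y : Fin d → ℂ}
    (hy : y ∈ ball (0 : Fin d → ℂ) R) :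
    hh (SS w S) (Nm L) (fr f) s y = Real.exp (2 * k * s) * bn w S Om (pt e s y) := by
  have h1 := om_eq h (u := -(s : ℂ)) (by rw [Real.log_exp]; simpa using hs) hy
  unfold hh bn
  rw [h1]
  have h2 : Complex.exp (-(k * -(s : ℂ))) = ((Real.exp (k * s) : ℝ) : ℂ) := by
    push_cast
    congr 1
    ring
  rw [h2, SS_apply, sf_smul_left, sf_smul_right, Complex.star_def, Complex.conj_ofReal]
  have h3 : ∀ c : ℂ, (-1 : ℂ) ^ w * (((Real.exp (k * s) : ℝ) : ℂ) * (((Real.exp (k * s) : ℝ) : ℂ) * c))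
      = ((Real.exp (2 * k * s) : ℝ) : ℂ) * ((-1 : ℂ) ^ w * c) := by
    intro c
    have h4 : Real.exp (2 * k * s) = Real.exp (k * s) * Real.exp (k * s) := by
      rw [← Real.exp_add]
      congr 1
      ring
    rw [h4]
    push_cast
    ring
  rw [h3, Complex.re_ofReal_mul]
  rfl

theorem om_norm (h : LCh w e k a R S P T z L Om f) {s : ℝ} (hs : -s < a / e) {y : Fin d → ℂ}
    (hy : y ∈ ball (0 : Fin d → ℂ) R) :
    ‖om (Nm L) (fr f) (-(s : ℂ), y)‖ ^ 2 = Real.exp (2 * k * s) * ‖Om (pt e s y)‖ ^ 2 := by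
  have h1 := om_eq h (u := -(s : ℂ)) (by rw [Real.log_exp]; simpa using hs) hy
  rw [h1]
  have h2 : Complex.exp (-(k * -(s : ℂ))) = ((Real.exp (k * s) : ℝ) : ℂ) := by
    push_cast
    congr 1
    ring
  rw [h2, norm_smul, mul_pow, Complex.norm_real, Real.norm_eq_abs, sq_abs, ← Real.exp_nat_mul]
  congr 2
  push_cast
  ring

/-- the translated variation over `HB 0 R` of `NfA_25` -/
theorem shift (h : VHS w (GrB_217.HB d a R) S P) :
    VHS w (NfA_25.HB (0 : Fin d → ℂ) R) S (fun p q => P p (q + Pi.single 0 (a : ℂ))) := by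
  refine EndTh_659.pull h (NfA_25.isOpen_HB _ _) (f := fun q => q + Pi.single 0 (a : ℂ)) ?_ ?_
  · exact (contDiff_id.add contDiff_const).contDiffOn
  · intro q hq
    refine ⟨?_, fun i => ?_⟩
    · show ((q + Pi.single 0 (a : ℂ) : Fin (d + 1) → ℂ) 0).re < a
      rw [Pi.add_apply, Pi.single_eq_same, Complex.add_re, Complex.ofReal_re]
      have := hq.1
      linarith
    · show ‖(q + Pi.single 0 (a : ℂ) : Fin (d + 1) → ℂ) i.succ‖ < R
      rw [Pi.add_apply, Pi.single_eq_of_ne (Fin.succ_ne_zero i), add_zero]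
      simpa using hq.2 i

/-- growth of the Hodge norm of `Om` along the half plane -/
theorem grow (h : LCh w e k a R S P T z L Om f) (hcy : Cy w (GrB_217.HB d a R) P Om)
    {ρ' : ℝ} (hρ : ρ' < R) : ∃ c > 0, ∃ m : ℕ, ∃ s0 : ℝ, ∀ s ≥ s0, ∀ y : Fin d → ℂ,
      (∀ j, ‖y j‖ ≤ ρ') → 0 < bn w S Om (pt e s y) ∧
        c * ‖Om (pt e s y)‖ ^ 2 ≤ s ^ m * bn w S Om (pt e s y) := by
  obtain ⟨C, m, hC, hg⟩ := NfA_25.hn_growth (shift h.vhs) hρ 0
  have he : (0 : ℝ) < e := by exact_mod_cast h.he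
  refine ⟨(C * (e + |a|) ^ m)⁻¹, by positivity, m, max 1 ((1 + |a|) / e), ?_⟩
  intro s hs y hy
  have hs1 : 1 ≤ s := (le_max_left _ _).trans hs
  have hs2 : 1 + |a| ≤ e * s := by
    have := (le_max_right _ _).trans hs
    rwa [div_le_iff₀ he, mul_comm] at this
  have hab := abs_le.1 (le_refl |a|)
  have hyR : y ∈ ball (0 : Fin d → ℂ) R := by
    rw [mem_ball_zero_iff, pi_norm_lt_iff h.hR]
    exact fun j => (hy j).trans_lt hρ
  have hsa : -s < a / e := by
    rw [lt_div_iff₀ he]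
    nlinarith [hab.1]
  have hmem := pt_mem h.he hsa hyR
  have hpos := bn_pos h.vhs hcy hmem
  refine ⟨hpos, ?_⟩
  have h0 : (pt e s y - Pi.single 0 (a : ℂ) : Fin (d + 1) → ℂ) 0 = ((-(e * s) - a : ℝ) : ℂ) := by
    rw [Pi.sub_apply, Pi.single_eq_same]
    unfold pt
    rw [Fin.cons_zero]
    push_cast
    ring
  have h1 := (hg (pt e s y - Pi.single 0 (a : ℂ)) ?_ ?_ ?_ (Om (pt e s y))).2
  · rw [h0, Complex.ofReal_re] at h1
    have h2 : NfA_25.HB (0 : Fin d → ℂ) R = NfA_25.HB (0 : Fin d → ℂ) R := rfl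
    have h3 : hn w S (fun p q => P p (q + Pi.single 0 (a : ℂ))) (Om (pt e s y))
        (pt e s y - Pi.single 0 (a : ℂ)) = bn w S Om (pt e s y) := by
      rw [h.vhs.bn_eq hcy.bot hmem]
      unfold hn hm sgOp
      simp only [sub_add_cancel]
    rw [h3] at h1
    have h4 : (- (-(e * s) - a)) ^ m ≤ ((e + |a|) * s) ^ m := by
      refine pow_le_pow_left₀ ?_ ?_ m
      · nlinarith [hab.1, hab.2]
      · nlinarith [hab.1, hab.2, abs_nonneg a]
    have h5 : ‖Om (pt e s y)‖ ^ 2 ≤ C * ((e + |a|) * s) ^ m * bn w S Om (pt e s y) :=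
      h1.trans (by gcongr)
    rw [mul_pow] at h5
    rw [inv_mul_le_iff₀ (by positivity)]
    linarith
  · rw [h0, Complex.ofReal_re]
    nlinarith [hab.1, hab.2]
  · rw [h0, Complex.ofReal_im, abs_zero]
  · intro j
    rw [Pi.sub_apply, Pi.single_eq_of_ne (Fin.succ_ne_zero j), sub_zero]
    simpa [pt] using hy j

/-- a slightly larger disc -/
theorem larger_disc {y0 v : Fin d → ℂ}
    (h : ∀ ζ ∈ closedBall (0 : ℂ) 1, y0 + ζ • v ∈ ball (0 : Fin d → ℂ) R) :
    ∃ r > 1, ∀ t : ℂ, ‖t‖ < r → y0 + t • v ∈ ball (0 : Fin d → ℂ) R := by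
  have hc : IsCompact (closedBall (0 : ℂ) 1) := isCompact_closedBall 0 1
  have ho : IsOpen {ζ : ℂ | y0 + ζ • v ∈ ball (0 : Fin d → ℂ) R} :=
    isOpen_ball.preimage (by fun_prop)
  obtain ⟨δ, hδ, hsub⟩ := hc.exists_thickening_subset_open ho h
  refine ⟨1 + δ, by linarith, fun t ht => ?_⟩
  apply hsub
  rw [mem_thickening_iff]
  rcases le_or_gt ‖t‖ 1 with h1 | h1
  · exact ⟨t, by simpa using h1, by simpa using hδ⟩
  · refine ⟨(‖t‖⁻¹ : ℝ) • t, ?_, ?_⟩
    · rw [mem_closedBall_zero_iff, norm_smul, norm_inv, norm_norm, inv_mul_cancel₀ (by positivity)]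
    · have h2 : t - (‖t‖⁻¹ : ℝ) • t = (1 - ‖t‖⁻¹ : ℝ) • t := by
        rw [sub_smul, one_smul]
      rw [dist_eq_norm, h2, norm_smul, Real.norm_eq_abs,
        abs_of_nonneg (by rw [sub_nonneg]; exact inv_le_one_of_one_le₀ h1.le), sub_mul,
        inv_mul_cancel₀ (by positivity)]
      linarith

/-- `LCh` and `Cy` imply the hypotheses of 767 -/
theorem yd (h : LCh w e k a R S P T z L Om f) (hcy : Cy w (GrB_217.HB d a R) P Om) :
    YD (SS w S) (Nm L) (ball (0 : Fin d → ℂ) R) (fr f) where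
  mg := by
    intro Q hQ hQc
    obtain ⟨ρ', hρ', hQρ⟩ : ∃ ρ' < R, ∀ y ∈ Q, ∀ j, ‖y j‖ ≤ ρ' := by
      rcases Q.eq_empty_or_nonempty with rfl | hne
      · exact ⟨R - 1, by linarith, fun y hy => absurd hy (notMem_empty y)⟩
      · obtain ⟨y1, hy1, hmax⟩ := hQc.exists_isMaxOn hne continuous_norm.continuousOn
        refine ⟨‖y1‖, by simpa using hQ hy1, fun y hy j => ?_⟩
        exact (norm_le_pi_norm y j).trans (hmax hy)
    obtain ⟨c, hc, m, s0, hs0⟩ := grow h hcy hρ'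
    have he : (0 : ℝ) < e := by exact_mod_cast h.he
    refine ⟨c, hc, m, max s0 ((1 - a) / e), fun s hs y hy => ?_⟩
    have hsa : -s < a / e := by
      have := (le_max_right _ _).trans hs
      rw [div_le_iff₀ he] at this
      rw [lt_div_iff₀ he]
      linarith
    obtain ⟨h1, h2⟩ := hs0 s ((le_max_left _ _).trans hs) y (hQρ y hy)
    rw [hh_eq h hsa (hQ hy), om_norm h hsa (hQ hy)]
    refine ⟨by positivity, ?_⟩
    calc c * (Real.exp (2 * k * s) * ‖Om (pt e s y)‖ ^ 2)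
        = Real.exp (2 * k * s) * (c * ‖Om (pt e s y)‖ ^ 2) := by ring
      _ ≤ Real.exp (2 * k * s) * (s ^ m * bn w S Om (pt e s y)) := by gcongr
      _ = s ^ m * (Real.exp (2 * k * s) * bn w S Om (pt e s y)) := by ring
  disc := by
    intro y0 v hv
    obtain ⟨r, hr, hrv⟩ := larger_disc hv
    have he : (0 : ℝ) < e := by exact_mod_cast h.he
    refine ⟨EndTh_659.cst ι * (1 / (r - 1)) ^ 2, (1 - a) / e, fun s hs => ?_⟩
    have hsa : -s < a / e := by
      rw [ge_iff_le, div_le_iff₀ he] at hs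
      rw [lt_div_iff₀ he]
      linarith
    have hpt : ∀ t : ℂ, pt e s (y0 + t • v) = pt e s y0 + t • (Fin.cons 0 v : Fin (d + 1) → ℂ) := by
      intro t
      funext i
      refine Fin.cases ?_ (fun j => ?_) i
      · simp [pt]
      · simp [pt]
    have hm : ∀ t : ℂ, ‖t‖ < r → pt e s y0 + t • (Fin.cons 0 v : Fin (d + 1) → ℂ) ∈
        GrB_217.HB d a R := by
      intro t ht
      rw [← hpt]
      exact pt_mem h.he hsa (hrv t ht)
    obtain ⟨h1, h2⟩ := avg h.vhs hcy one_pos hr hm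
    have hlog : ∀ y ∈ ball (0 : Fin d → ℂ) R, Real.log (hh (SS w S) (Nm L) (fr f) s y) =
        2 * k * s - pp w S Om (pt e s y) := by
      intro y hy
      rw [hh_eq h hsa hy, Real.log_mul (Real.exp_pos _).ne'
        (bn_pos h.vhs hcy (pt_mem h.he hsa hy)).ne', Real.log_exp]
      unfold pp
      ring
    have hy0 : y0 ∈ ball (0 : Fin d → ℂ) R := by simpa using hrv 0 (by simp; linarith)
    have h3 : circleAverage (fun ζ => Real.log (hh (SS w S) (Nm L) (fr f) s (y0 + ζ • v))) 0 1 =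
        2 * k * s - circleAverage (fun t : ℂ => pp w S Om (pt e s y0 +
          t • (Fin.cons 0 v : Fin (d + 1) → ℂ))) 0 1 := by
      have h4 : circleAverage (fun ζ => Real.log (hh (SS w S) (Nm L) (fr f) s (y0 + ζ • v))) 0 1 =
          circleAverage (fun t : ℂ => (2 * k * s : ℝ) - pp w S Om (pt e s y0 +
          t • (Fin.cons 0 v : Fin (d + 1) → ℂ))) 0 1 := by
        refine circleAverage_congr_sphere fun t ht => ?_
        have ht1 : ‖t‖ = 1 := by simpa using ht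
        show Real.log (hh (SS w S) (Nm L) (fr f) s (y0 + t • v)) = _
        rw [hlog _ (hrv t (by rw [ht1]; exact hr)), hpt]
      rw [h4]
      have hci : CircleIntegrable (fun t : ℂ => pp w S Om (pt e s y0 +
          t • (Fin.cons 0 v : Fin (d + 1) → ℂ))) 0 1 := by
        refine ContinuousOn.circleIntegrable' ?_
        intro t ht
        have ht1 : ‖t‖ = 1 := by simpa using ht
        have h5 := (sm_pp h.vhs hcy).continuousOn.continuousAt
          (h.vhs.op.mem_nhds (hm t (by rw [ht1]; exact hr)))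
        exact (ContinuousAt.comp (g := pp w S Om) (f := fun t : ℂ => pt e s y0 +
          t • (Fin.cons 0 v : Fin (d + 1) → ℂ)) h5 (by fun_prop)).continuousWithinAt
      have h6 := circleAverage_fun_sub (circleIntegrable_const (2 * k * s : ℝ) 0 1) hci
      rw [h6, circleAverage_const]
    rw [h3, hlog _ hy0]
    constructor
    · linarith
    · linarith

/-- **MAIN**: the limit metric of one chart. -/
theorem main (h : LCh w e k a R S P T z L Om f) (hcy : Cy w (GrB_217.HB d a R) P Om)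
    (hne : ∃ y : Fin d → ℂ, (∀ j, ‖y j‖ < R) ∧ f (Fin.cons 0 y) ≠ 0) :
    ∃ m : ℕ,
      (∀ j, m < j → ∀ y ∈ ball (0 : Fin d → ℂ) R,
        SS w S (fr f (0, y)) ((KK (Nm L) ^ j) (fr f (0, y))) = 0) ∧
      (∀ y ∈ ball (0 : Fin d → ℂ) R, 0 < cc (SS w S) (Nm L) (fr f) m (0, y)) ∧
      (∀ y ∈ ball (0 : Fin d → ℂ) R, f (Fin.cons 0 y) ≠ 0) ∧
      ∀ ν : ℕ, (∀ q ∈ GrB_217.HB d a R, Module.finrank ℂ
          (Submodule.span ℂ ({Om q} ∪ range (fderiv ℂ Om q))) ≤ ν + 1) →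
        (¬ ∃ ζ : ℂ, ∀ q ∈ GrB_217.HB d a R, T *ᵥ Om q = ζ • Om q) →
        ∀ y ∈ ball (0 : Fin d → ℂ) R, ∃ W : Submodule ℂ (Fin d → ℂ),
          d + 1 ≤ Module.finrank ℂ W + ν ∧ ∀ v ∈ W, ∀ v' : Fin d → ℂ,
          dW (fun y => dB (fun y => ((Real.log (cc (SS w S) (Nm L) (fr f) m (0, y)) : ℝ) : ℂ)) v y)
            v' y = 0 ∧
          dW (fun y => dB (fun y => ((Real.log (cc (SS w S) (Nm L) (fr f) m (0, y)) : ℝ) : ℂ)) v' y)
            v y = 0 := by
  obtain ⟨y1, hy1, hf1⟩ := hne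
  have hy1' : y1 ∈ ball (0 : Fin d → ℂ) R := by
    rw [mem_ball_zero_iff, pi_norm_lt_iff h.hR]
    exact hy1
  obtain ⟨m, h1, h2, h3⟩ := pos_everywhere (bd h) (yd h hcy)
    (convex_ball (0 : Fin d → ℂ) R).isPreconnected ⟨y1, hy1', hf1⟩
  refine ⟨m, h1, h2, h3, fun ν hν hT y hy => ?_⟩
  have hη : SS w S (fr f (0, y)) ((KK (Nm L) ^ m) (fr f (0, y))) ≠ 0 := by
    intro h0
    have := h2 y hy
    rw [cc_zero h0] at this
    exact lt_irrefl _ this
  exact ⟨_, RkA_25.rank h hcy.bot.hol hν hT (fun y hy => h1 _ (Nat.lt_succ_self m) y hy) hy hη,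
    fun v hv v' => levi_cc_null (bd h) hy hη hv v'⟩

end Crest.Agent.R276.RkB_25
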