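import Mathlib
import Crest.Agent.R276.RkB_25

/-!
# R276, leaf RANK, part C (helper25): `- log` of the limit metric is plurisubharmonic.
-/

set_option autoImplicit false
set_option linter.unusedSectionVars false

open Set Filter Topology Metric Real Complex
open scoped ContDiff ComplexConjugate InnerProductSpace

noncomputable section

namespace Crest.Agent.R276.RkC_25

open Crest.Agent.R276.Bdy_767

section submean

variable {V : Type*} [NormedAddCommGroup V] [NormedSpace ℂ V] [CompleteSpace V]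
variable {E : Type*} [NormedAddCommGroup E] [NormedSpace ℂ E]
variable {S : V →L⋆[ℂ] V →L[ℂ] ℂ} {N : V →L[ℂ] V} {r : ℝ} {U : Set E} {f : ℂ × E → V}

/-- `log` of nearby positive numbers -/
theorem log_close {a b c ε : ℝ} (hc : 0 < c) (ha : c ≤ a) (hε : ε ≤ c / 2)
    (hab : |b - a| ≤ ε) : |Real.log b - Real.log a| ≤ 2 * ε / c := by
  have h1 := abs_le.1 hab
  have ha0 : 0 < a := by linarith
  have hb : c / 2 ≤ b := by linarith
  have hb0 : 0 < b := by linarith
  rw [abs_le]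
  constructor
  · -- `log a - log b ≤ (a - b) / b`
    have h2 : Real.log a - Real.log b ≤ (a - b) / b := by
      rw [← Real.log_div ha0.ne' hb0.ne']
      have := Real.log_le_sub_one_of_pos (div_pos ha0 hb0)
      rw [sub_div, div_self hb0.ne']
      exact this
    have h3 : (a - b) / b ≤ ε / (c / 2) := by
      have hε0 : 0 ≤ ε := (abs_nonneg _).trans hab
      calc (a - b) / b ≤ ε / b := by gcongr; linarith
        _ ≤ ε / (c / 2) := by gcongr
    have h4 : ε / (c / 2) = 2 * ε / c := by field_simp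
    linarith
  · have h2 : Real.log b - Real.log a ≤ (b - a) / a := by
      rw [← Real.log_div hb0.ne' ha0.ne']
      have := Real.log_le_sub_one_of_pos (div_pos hb0 ha0)
      rw [sub_div, div_self ha0.ne']
      exact this
    have hε0 : 0 ≤ ε := (abs_nonneg _).trans hab
    have h3 : (b - a) / a ≤ ε / c := by
      calc (b - a) / a ≤ ε / a := by gcongr; linarith
        _ ≤ ε / c := by gcongr
    have h4 : ε / c ≤ 2 * ε / c := by gcongr; linarith
    linarith

/-- the limit metric satisfies the reverse sub-mean inequality -/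
theorem cc_mean (h : Bd S N r U f) (hY : YD S N U f) {k : ℕ}
    (hk : ∀ j, k < j → ∀ y ∈ U, S (f (0, y)) ((KK N ^ j) (f (0, y))) = 0)
    (hpos : ∀ y ∈ U, 0 < cc S N f k (0, y)) {y0 v : E}
    (hv : ∀ ζ ∈ closedBall (0 : ℂ) 1, y0 + ζ • v ∈ U) :
    circleAverage (fun ζ => Real.log (cc S N f k (0, y0 + ζ • v))) 0 1 ≤
      Real.log (cc S N f k (0, y0)) := by
  set Q : Set E := (fun ζ : ℂ => y0 + ζ • v) '' closedBall 0 1 with hQ
  have hQc : IsCompact Q := (isCompact_closedBall 0 1).image (by fun_prop)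
  have hQU : Q ⊆ U := by rintro _ ⟨ζ, hζ, rfl⟩; exact hv ζ hζ
  have hmem : ∀ ζ ∈ closedBall (0 : ℂ) 1, y0 + ζ • v ∈ Q := fun ζ hζ => ⟨ζ, hζ, rfl⟩
  have hy0 : y0 ∈ Q := by simpa using hmem 0 (by simp)
  have hcc : ContinuousOn (fun y : E => cc S N f k (0, y)) U := by
    refine (cc_continuousOn h.an.continuousOn k).comp (by fun_prop) ?_
    intro y hy
    exact ⟨mem_ball_self h.hr, hy⟩
  obtain ⟨y1, hy1, hmin⟩ := hQc.exists_isMinOn ⟨y0, hy0⟩ (hcc.mono hQU)
  set c := cc S N f k (0, y1) with hc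
  have hc0 : 0 < c := hpos y1 (hQU hy1)
  have hcm : ∀ y ∈ Q, c ≤ cc S N f k (0, y) := fun y hy => hmin hy
  obtain ⟨s1, hs1, hsm⟩ := exp_small h
  obtain ⟨C, s2, hdisc⟩ := hY.disc y0 v hv
  obtain ⟨_, _, _, s3, hmg⟩ := hY.mg Q hQU hQc
  -- it suffices to prove the inequality up to `ε`
  refine le_of_forall_pos_le_add fun ε hε => ?_
  set η := min (c / 2) (ε * c / 4) with hη
  have hη0 : 0 < η := by positivity
  obtain ⟨A, hA⟩ := tendsto_unif h hk hQc hQU hη0
  obtain ⟨s, hs⟩ : ∃ s : ℝ, s1 ≤ s ∧ s2 ≤ s ∧ s3 ≤ s ∧ -A < s ∧ 1 ≤ s := by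
    refine ⟨max s1 (max s2 (max s3 (max (-A + 1) 1))), by simp, by simp, by simp, ?_, by simp⟩
    have : -A + 1 ≤ max s1 (max s2 (max s3 (max (-A + 1) 1))) := by simp
    linarith
  obtain ⟨hsa, hsb, hsc, hsd, hse⟩ := hs
  have hs0 : 0 < s := by linarith
  have hclose : ∀ y ∈ Q, |Real.log (hh S N f s y / s ^ k) - Real.log (cc S N f k (0, y))| ≤
      ε / 2 := by
    intro y hy
    have h1 := hA (-(s : ℂ)) (by simpa using by linarith) y hy
    rw [Bdy_767.neg_re] at h1
    have h2 := log_close hc0 (hcm y hy) (min_le_left _ _) h1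
    refine h2.trans ?_
    rw [div_le_iff₀ hc0]
    have := min_le_right (c / 2) (ε * c / 4)
    linarith
  have hlogd : ∀ y ∈ Q, Real.log (hh S N f s y / s ^ k) = Real.log (hh S N f s y) - k * Real.log s := by
    intro y hy
    rw [Real.log_div (hmg s hsc y hy).1.ne' (by positivity), Real.log_pow]
  have hcr : ‖Complex.exp (-(s : ℂ))‖ < r := by
    have := (hsm s hsa).2
    have := h.hr
    linarith
  have hci1 : CircleIntegrable (fun ζ : ℂ => Real.log (hh S N f s (y0 + ζ • v))) 0 1 := by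
    refine circle_ci ?_
    intro ζ hζ
    have hζ' : ζ ∈ closedBall (0 : ℂ) 1 := sphere_subset_closedBall hζ
    have h1 := (hh_continuousOn h hcr).continuousAt (h.hU.mem_nhds (hv ζ hζ'))
    have h2 : ContinuousAt (fun ζ : ℂ => hh S N f s (y0 + ζ • v)) ζ :=
      ContinuousAt.comp (g := fun y => hh S N f s y) (f := fun ζ : ℂ => y0 + ζ • v) h1
        (by fun_prop)
    exact (h2.log (hmg s hsc _ (hmem ζ hζ')).1.ne').continuousWithinAt
  have hci2 : CircleIntegrable (fun ζ : ℂ => Real.log (cc S N f k (0, y0 + ζ • v))) 0 1 := by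
    refine circle_ci ?_
    intro ζ hζ
    have hζ' : ζ ∈ closedBall (0 : ℂ) 1 := sphere_subset_closedBall hζ
    have h1 := hcc.continuousAt (h.hU.mem_nhds (hv ζ hζ'))
    have h2 : ContinuousAt (fun ζ : ℂ => cc S N f k (0, y0 + ζ • v)) ζ :=
      ContinuousAt.comp (g := fun y => cc S N f k (0, y)) (f := fun ζ : ℂ => y0 + ζ • v) h1
        (by fun_prop)
    exact (h2.log (hpos _ (hv ζ hζ')).ne').continuousWithinAt
  have h1 := (hdisc s hsb).1
  have h2 : circleAverage (fun ζ => Real.log (cc S N f k (0, y0 + ζ • v))) 0 1 ≤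
      circleAverage (fun ζ => Real.log (hh S N f s (y0 + ζ • v)) + (ε / 2 - k * Real.log s)) 0 1 := by
    refine circleAverage_mono hci2 (hci1.add (circleIntegrable_const _ _ _)) ?_
    intro ζ hζ
    have hζ' : ζ ∈ closedBall (0 : ℂ) 1 := sphere_subset_closedBall (by simpa using hζ)
    have h3 := (abs_le.1 (hclose _ (hmem ζ hζ'))).1
    rw [hlogd _ (hmem ζ hζ')] at h3
    show Real.log (cc S N f k (0, y0 + ζ • v)) ≤ Real.log (hh S N f s (y0 + ζ • v)) + _
    linarith
  have h4 := circleAverage_fun_add hci1 (circleIntegrable_const (ε / 2 - k * Real.log s) 0 1)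
  rw [h4, circleAverage_const] at h2
  have h5 := (abs_le.1 (hclose y0 hy0)).2
  rw [hlogd _ hy0] at h5
  linarith

end submean

/-! ### the Laplacian -/

theorem dB_dW_smul {X : Type*} [NormedAddCommGroup X] [NormedSpace ℂ X] {f : X → ℝ} {x : X}
    (hf : ContDiffAt ℝ 2 f x) (c : ℂ) (v : X) :
    VCalc_442.dB (VCalc_442.dW (VCalc_442.cx f) (c • v)) (c • v) x =
      ((‖c‖ ^ 2 : ℝ) : ℂ) * VCalc_442.dB (VCalc_442.dW (VCalc_442.cx f) v) v x := by
  have h1 : VCalc_442.dW (VCalc_442.cx f) (c • v) = fun y => c • VCalc_442.dW (VCalc_442.cx f) v y := by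
    funext y
    exact VCalc_442.dW_smul_dir _ _ c v
  have hd : DifferentiableAt ℝ (VCalc_442.dW (VCalc_442.cx f) v) x := by
    have hF := VCalc_442.contDiffAt_cx hf
    have h : DifferentiableAt ℝ (fderiv ℝ (VCalc_442.cx f)) x :=
      (hF.fderiv_right (m := 1) (by norm_num)).differentiableAt (by simp)
    have h1 : ∀ u, DifferentiableAt ℝ (fun y => fderiv ℝ (VCalc_442.cx f) y u) x :=
      fun u => h.clm_apply (differentiableAt_const u)
    exact ((h1 _).sub ((h1 _).const_smul Complex.I)).const_smul (1 / 2 : ℂ)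
  rw [h1, VCalc_442.dB_const_smul _ hd, VCalc_442.dB_smul_dir, smul_eq_mul, smul_eq_mul,
    ← mul_assoc, Complex.mul_conj, Complex.normSq_eq_norm_sq]

/-- a `C²` function whose averages over small circles are at most the value at the centre has
Laplacian `≤ 0` -/
theorem lap_nonpos {φ : ℂ → ℝ} (hφ : ContDiffAt ℝ 2 φ 0)
    (hm : ∀ᶠ δ : ℝ in 𝓝[>] 0, circleAverage (fun t : ℂ => φ ((δ : ℂ) * t)) 0 1 ≤ φ 0) :
    (Laplacian.laplacian φ) 0 ≤ 0 := by
  by_contra hcon
  push Not at hcon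
  set c0 := (Laplacian.laplacian φ) 0 with hc0
  -- the Laplacian is continuous near zero
  have hcd : ∀ᶠ z in 𝓝 (0 : ℂ), ContDiffAt ℝ 2 φ z := hφ.eventually (by simp)
  have hcont : ContinuousAt (Laplacian.laplacian φ) 0 := by
    have h1 : ContinuousAt (fderiv ℝ (fderiv ℝ φ)) 0 :=
      ((hφ.fderiv_right (m := 1) (by norm_num)).fderiv_right (m := 0) (by norm_num)).continuousAt
    have h2 : Laplacian.laplacian φ = fun z => fderiv ℝ (fderiv ℝ φ) z 1 1 +
        fderiv ℝ (fderiv ℝ φ) z Complex.I Complex.I := by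
      funext z
      exact Ahl_25.lap_eq _ _
    rw [h2]
    exact ((h1.clm_apply continuousAt_const).clm_apply continuousAt_const).add
      ((h1.clm_apply continuousAt_const).clm_apply continuousAt_const)
  have hlow : ∀ᶠ z in 𝓝 (0 : ℂ), c0 / 2 < (Laplacian.laplacian φ) z :=
    hcont.eventually (lt_mem_nhds (by linarith))
  obtain ⟨δ1, hδ1, hball⟩ := Metric.eventually_nhds_iff_ball.1 (hcd.and hlow)
  obtain ⟨δ, hδm, hδ0, hδlt⟩ : ∃ δ : ℝ, circleAverage (fun t : ℂ => φ ((δ : ℂ) * t)) 0 1 ≤ φ 0 ∧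
      0 < δ ∧ δ < δ1 := by
    have h1 : ∀ᶠ δ : ℝ in 𝓝[>] 0, δ < δ1 :=
      mem_nhdsWithin_of_mem_nhds (Iio_mem_nhds hδ1)
    obtain ⟨δ, h2, h3, h4⟩ := (hm.and (h1.and self_mem_nhdsWithin)).exists
    exact ⟨δ, h2, h4, h3⟩
  have hmem : ∀ t : ℂ, ‖t‖ ≤ 1 → (δ : ℂ) * t ∈ ball (0 : ℂ) δ1 := by
    intro t ht
    rw [mem_ball_zero_iff, norm_mul, Complex.norm_real, Real.norm_eq_abs, abs_of_pos hδ0]
    calc δ * ‖t‖ ≤ δ * 1 := by gcongr
      _ < δ1 := by linarith
  set ψ : ℂ → ℝ := fun t => φ ((δ : ℂ) * t) with hψ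
  have hsm : ∀ t ∈ closedBall (0 : ℂ) 1, ContDiffAt ℝ 2 ψ t := by
    intro t ht
    have h1 : ContDiffAt ℝ 2 (fun t : ℂ => (δ : ℂ) * t) t := by
      have : ContDiff ℝ 2 (fun t : ℂ => (δ : ℂ) * t) := contDiff_const.mul contDiff_id
      exact this.contDiffAt
    exact ContDiffAt.comp (g := φ) (f := fun t : ℂ => (δ : ℂ) * t) t
      (hball _ (hmem t (by simpa using ht))).1 h1
  have hlapψ : ∀ t ∈ closedBall (0 : ℂ) 1, (Laplacian.laplacian ψ) t =
      δ ^ 2 * (Laplacian.laplacian φ) ((δ : ℂ) * t) := by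
    intro t ht
    have h1 := (hball _ (hmem t (by simpa using ht))).1
    have h2 := VCalc_442.lap_line (f := φ) (z := 0) (v := (δ : ℂ)) (ζ := t) (by
      rw [zero_add, smul_eq_mul, mul_comm]; exact h1)
    have h3 := VCalc_442.lap_line (f := φ) (z := 0) (v := (1 : ℂ)) (ζ := (δ : ℂ) * t) (by
      rw [zero_add, smul_eq_mul, mul_one]; exact h1)
    have e1 : (fun ξ : ℂ => φ (0 + ξ • (δ : ℂ))) = ψ := by
      funext ξ
      rw [zero_add, smul_eq_mul, mul_comm]
    have e2 : (fun ξ : ℂ => φ (0 + ξ • (1 : ℂ))) = φ := by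
      funext ξ
      rw [zero_add, smul_eq_mul, mul_one]
    rw [e1] at h2
    rw [e2] at h3
    rw [h2, h3]
    have e3 : (0 : ℂ) + t • (δ : ℂ) = (δ : ℂ) * t := by rw [zero_add, smul_eq_mul, mul_comm]
    have e4 : (0 : ℂ) + ((δ : ℂ) * t) • (1 : ℂ) = (δ : ℂ) * t := by
      rw [zero_add, smul_eq_mul, mul_one]
    rw [e3, e4]
    have e5 : (δ : ℂ) = (δ : ℂ) • (1 : ℂ) := by simp
    have h4 := dB_dW_smul h1 (δ : ℂ) (1 : ℂ)
    rw [← e5] at h4
    rw [h4, Complex.re_ofReal_mul, Complex.norm_real, Real.norm_eq_abs, sq_abs]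
    ring
  have h884 := Crest.Agent.R275.FL884.le_circleAverage_of_contDiffAt hsm
    (c := -(δ ^ 2 * c0 / 8)) (by
      intro t ht
      rw [← Ahl_25.lap_eq, hlapψ t ht]
      have h1 := (hball _ (hmem t (by simpa using ht))).2
      have h2 : 0 < δ ^ 2 := by positivity
      nlinarith)
  have h5 : ψ 0 = φ 0 := by simp [hψ]
  rw [h5] at h884
  have h6 : 0 < δ ^ 2 * c0 / 8 := by positivity
  linarith

section levi

variable {V : Type*} [NormedAddCommGroup V] [NormedSpace ℂ V] [CompleteSpace V]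
variable {E : Type*} [NormedAddCommGroup E] [NormedSpace ℂ E] [FiniteDimensional ℂ E]
variable {S : V →L⋆[ℂ] V →L[ℂ] ℂ} {N : V →L[ℂ] V} {r : ℝ} {U : Set E} {f : ℂ × E → V}

/-- the limit metric is smooth -/
theorem cc_smooth (h : Bd S N r U f) (k : ℕ) {y : E} (hy : y ∈ U) :
    ContDiffAt ℝ ∞ (fun y : E => cc S N f k (0, y)) y := by
  have h1 : ContDiffAt ℝ ∞ (fun y : E => f (0, y)) y :=
    ((an_f0 h hy).contDiffAt (n := ∞)).restrict_scalars ℝ
  have h2 : ContDiffAt ℝ ∞ (fun y : E => (KK N ^ k) (f (0, y))) y :=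
    (((KK N ^ k).restrictScalars ℝ).contDiff.contDiffAt).comp y h1
  have h3 : ContDiffAt ℝ ∞ (fun y : E => S (f (0, y)) ((KK N ^ k) (f (0, y)))) y := by
    have h4 := (SR S).isBoundedBilinearMap.contDiff (n := ∞)
    exact (h4.contDiffAt (x := (f (0, y), (KK N ^ k) (f (0, y))))).comp y (h1.prodMk h2)
  exact contDiffAt_const.mul ((Complex.reCLM.contDiff.contDiffAt).comp y h3)

theorem log_cc_smooth (h : Bd S N r U f) {k : ℕ} {y : E} (hy : y ∈ U)
    (hpos : 0 < cc S N f k (0, y)) :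
    ContDiffAt ℝ ∞ (fun y : E => Real.log (cc S N f k (0, y))) y :=
  (cc_smooth h k hy).log hpos.ne'

/-- **(psh)** `- log c_k (0, ·)` is plurisubharmonic -/
theorem cc_levi (h : Bd S N r U f) (hY : YD S N U f) {k : ℕ}
    (hk : ∀ j, k < j → ∀ y ∈ U, S (f (0, y)) ((KK N ^ j) (f (0, y))) = 0)
    (hpos : ∀ y ∈ U, 0 < cc S N f k (0, y)) {y : E} (hy : y ∈ U) (v : E) :
    (VCalc_442.dB (VCalc_442.dW (VCalc_442.cx fun y : E => Real.log (cc S N f k (0, y))) v) v
      y).re ≤ 0 := by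
  set F : E → ℝ := fun y : E => Real.log (cc S N f k (0, y)) with hF
  have hsm : ContDiffAt ℝ 2 F y := (log_cc_smooth h hy (hpos y hy)).of_le ENat.LEInfty.out
  have h1 := VCalc_442.lap_line (f := F) (z := y) (v := v) (ζ := 0) (by simpa using hsm)
  rw [zero_smul, add_zero] at h1
  have hline : ContDiff ℝ 2 (fun ξ : ℂ => y + ξ • v) :=
    contDiff_const.add (contDiff_id.smul contDiff_const)
  have hφ : ContDiffAt ℝ 2 (fun ξ : ℂ => F (y + ξ • v)) 0 :=
    ContDiffAt.comp (g := F) (f := fun ξ : ℂ => y + ξ • v) 0 (by simpa using hsm)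
      hline.contDiffAt
  have h2 := lap_nonpos hφ (by
    have ho : ∀ᶠ ξ : ℂ in 𝓝 0, y + ξ • v ∈ U := by
      have hc : ContinuousAt (fun ξ : ℂ => y + ξ • v) 0 := by fun_prop
      exact hc.eventually (h.hU.mem_nhds (by simpa using hy))
    obtain ⟨δ1, hδ1, hball⟩ := Metric.eventually_nhds_iff_ball.1 ho
    have h3 : ∀ᶠ δ : ℝ in 𝓝[>] 0, δ < δ1 :=
      mem_nhdsWithin_of_mem_nhds (Iio_mem_nhds hδ1)
    filter_upwards [h3, self_mem_nhdsWithin] with δ hδ hδ0
    have hδ0' : 0 < δ := hδ0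
    have h4 := cc_mean h hY hk hpos (y0 := y) (v := (δ : ℂ) • v) (by
      intro ζ hζ
      rw [smul_smul]
      apply hball
      rw [mem_ball_zero_iff, norm_mul, Complex.norm_real, Real.norm_eq_abs, abs_of_pos hδ0']
      calc ‖ζ‖ * δ ≤ 1 * δ := by
            gcongr
            simpa using hζ
        _ < δ1 := by linarith)
    have e1 : (fun t : ℂ => F (y + ((δ : ℂ) * t) • v)) =
        fun ζ : ℂ => Real.log (cc S N f k (0, y + ζ • (δ : ℂ) • v)) := by
      funext t
      simp only [hF]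
      rw [smul_smul, mul_comm]
    have e2 : F (y + (0 : ℂ) • v) = Real.log (cc S N f k (0, y)) := by simp [hF]
    show circleAverage (fun t : ℂ => F (y + ((δ : ℂ) * t) • v)) 0 1 ≤ F (y + (0 : ℂ) • v)
    rw [e1, e2]
    exact h4)
  rw [h1] at h2
  linarith

end levi

end Crest.Agent.R276.RkC_25
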