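import Mathlib
import Crest.Agent.R276.RkC_25
import Crest.Agent.R276.BdNf6_651

/-!
# R276, leaf DLOG, part A (helper25): two-sided bound of the Hodge norm of the CY section along a
boundary chart `σ : PS d r → X`.
-/

set_option autoImplicit false
set_option linter.unusedSectionVars false

open Set Filter Topology Matrix Metric
open scoped ComplexOrder ContDiff ComplexConjugate

noncomputable section

namespace Crest.Agent.R276.BdLogA_25

open Crest.Agent.R271.Ho51
open Crest.Agent.R276.Ipc735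
open Crest.Agent.R276.BdNf1_651
open Crest.Agent.R276.BdNf2_651
open Crest.Agent.R276.BdNf3_651
open Crest.Agent.R276.BdNf4_651
open Crest.Agent.R276.BdNf6_651
open Crest.Agent.R276.VLevi_327 (CYL)
open Crest.Agent.R276.CntDefs_857 (PS)
open Crest.Agent.R276.GrC_217 (LCh tpi)
open Crest.Agent.R276.Bdy_767 (Bd YD cc om KK tendsto_unif)
open Crest.Agent.R276.RkA_25 Crest.Agent.R276.RkB_25

attribute [local instance] Matrix.linftyOpNormedRing Matrix.linftyOpNormedAlgebra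

variable {d : ℕ} {r : ℝ}

/-- two-sided bound -/
def Bds (g : (Fin (d + 1) → ℂ) → ℝ) (κ r : ℝ) : Prop :=
  ∃ (C : ℝ) (N : ℕ), ∀ q ∈ PS d r, ‖q 0‖ ^ (2 * κ) ≤ C * g q ∧
    g q ≤ C * ‖q 0‖ ^ (2 * κ) * (1 + |Real.log ‖q 0‖|) ^ N

/-- the closed region away from the divisor is compact -/
theorem isCompact_away (d : ℕ) {ε r' : ℝ} : IsCompact
    {q : Fin (d + 1) → ℂ | ε ≤ ‖q 0‖ ∧ ∀ i, ‖q i‖ ≤ r'} := by
  have h1 : IsCompact (Set.pi univ fun _ : Fin (d + 1) => closedBall (0 : ℂ) r') :=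
    isCompact_univ_pi fun _ => isCompact_closedBall _ _
  refine h1.of_isClosed_subset ?_ ?_
  · have h2 : {q : Fin (d + 1) → ℂ | ε ≤ ‖q 0‖ ∧ ∀ i, ‖q i‖ ≤ r'} =
        {q | ε ≤ ‖q 0‖} ∩ ⋂ i, {q | ‖q i‖ ≤ r'} := by
      ext q; simp
    rw [h2]
    exact (isClosed_le continuous_const (by fun_prop)).inter
      (isClosed_iInter fun i => isClosed_le (by fun_prop) continuous_const)
  · intro q hq i _
    simpa using hq.2 i

/-- two-sided bounds near the divisor and continuity away from it -/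
theorem bds_of_near {g : (Fin (d + 1) → ℂ) → ℝ} {κ r r' : ℝ} (hr' : r' < r)
    (hg : ContinuousOn g (PS d r)) (hpos : ∀ q ∈ PS d r, 0 < g q)
    (hnear : ∃ ε > 0, ∃ (C : ℝ) (N : ℕ), ∀ q ∈ PS d r', ‖q 0‖ < ε → ‖q 0‖ ^ (2 * κ) ≤ C * g q ∧
      g q ≤ C * ‖q 0‖ ^ (2 * κ) * (1 + |Real.log ‖q 0‖|) ^ N) : Bds g κ r' := by
  obtain ⟨ε, hε, C, N, hC⟩ := hnear
  set K : Set (Fin (d + 1) → ℂ) := {q | ε ≤ ‖q 0‖ ∧ ∀ i, ‖q i‖ ≤ r'} with hK
  have hKc : IsCompact K := isCompact_away d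
  have hKsub : K ⊆ PS d r := by
    intro q hq
    refine ⟨?_, fun i => (hq.2 i).trans_lt hr'⟩
    intro h0
    have := hq.1
    rw [h0, norm_zero] at this
    linarith
  have hcont : ContinuousOn (fun q : Fin (d + 1) → ℂ => ‖q 0‖ ^ (2 * κ)) K := by
    intro q hq
    have h0 : ‖q 0‖ ≠ 0 := by have := hq.1; linarith
    have h1 : ContinuousAt (fun q : Fin (d + 1) → ℂ => ‖q 0‖) q :=
      (continuous_apply 0).norm.continuousAt
    exact (h1.rpow_const (Or.inl h0)).continuousWithinAt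
  have hf : ContinuousOn (fun q => ‖q 0‖ ^ (2 * κ) / g q) K :=
    hcont.div (hg.mono hKsub) fun q hq => (hpos q (hKsub hq)).ne'
  have hf2 : ContinuousOn (fun q => g q / ‖q 0‖ ^ (2 * κ)) K := by
    refine (hg.mono hKsub).div hcont fun q hq => ?_
    have h0 : 0 < ‖q 0‖ := by have := hq.1; linarith
    exact (Real.rpow_pos_of_pos h0 _).ne'
  obtain ⟨M1, hM1⟩ := hKc.exists_bound_of_continuousOn hf
  obtain ⟨M2, hM2⟩ := hKc.exists_bound_of_continuousOn hf2
  refine ⟨max C (max M1 M2), N, fun q hq => ?_⟩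
  have hx0 : 0 < ‖q 0‖ := norm_pos_iff.2 hq.1
  have hqr : q ∈ PS d r := ⟨hq.1, fun i => (hq.2 i).trans hr'⟩
  have hgq := hpos q hqr
  have hpow : 0 < ‖q 0‖ ^ (2 * κ) := Real.rpow_pos_of_pos hx0 _
  have hlog : 1 ≤ (1 + |Real.log ‖q 0‖|) ^ N := one_le_pow₀ (by linarith [abs_nonneg (Real.log ‖q 0‖)])
  rcases lt_or_ge ‖q 0‖ ε with h | h
  · obtain ⟨h1, h2⟩ := hC q hq h
    refine ⟨h1.trans ?_, h2.trans ?_⟩
    · gcongr
      exact le_max_left _ _
    · gcongr
      exact le_max_left _ _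
  · have hqK : q ∈ K := ⟨h, fun i => (hq.2 i).le⟩
    have h1 := hM1 q hqK
    have h2 := hM2 q hqK
    rw [Real.norm_eq_abs, abs_of_pos (by positivity), div_le_iff₀ hgq] at h1
    rw [Real.norm_eq_abs, abs_of_pos (by positivity), div_le_iff₀ hpow] at h2
    constructor
    · refine h1.trans ?_
      gcongr
      exact (le_max_left _ _).trans (le_max_right _ _)
    · have hM20 : 0 ≤ M2 := by
        have := (norm_nonneg _).trans (hM2 q hqK)
        exact this
      calc g q ≤ M2 * ‖q 0‖ ^ (2 * κ) := h2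
        _ ≤ max C (max M1 M2) * ‖q 0‖ ^ (2 * κ) := by
            gcongr
            exact (le_max_right _ _).trans (le_max_right _ _)
        _ ≤ max C (max M1 M2) * ‖q 0‖ ^ (2 * κ) * (1 + |Real.log ‖q 0‖|) ^ N := by
            refine le_mul_of_one_le_right ?_ hlog
            have : 0 ≤ max C (max M1 M2) := hM20.trans ((le_max_right _ _).trans (le_max_right _ _))
            positivity

/-- uniqueness of the exponent -/
theorem Bds.unique {g : (Fin (d + 1) → ℂ) → ℝ} {κ κ' r r' : ℝ} (hr : 0 < r) (hr' : 0 < r')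
    (hpos : ∀ q ∈ PS d (min r r'), 0 < g q)
    (h : Bds g κ r) (h' : Bds g κ' r') : κ = κ' := by
  -- enough: `κ' ≤ κ`
  have key : ∀ {κ κ' r r' : ℝ}, 0 < r → 0 < r' → (∀ q ∈ PS d (min r r'), 0 < g q) →
      Bds g κ r → Bds g κ' r' → κ' ≤ κ := by
    intro κ κ' r r' hr hr' hpos h h'
    obtain ⟨C, N, hC⟩ := h
    obtain ⟨C', N', hC'⟩ := h'
    by_contra hcon
    push Not at hcon
    set a := 2 * (κ' - κ) with ha
    have ha0 : 0 < a := by linarith
    have hlim := (tendsto_rpow_mul_exp_neg_mul_atTop_nhds_zero (N' : ℝ) a ha0).const_mul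
      (C * C' * Real.exp a)
    rw [mul_zero] at hlim
    have h1 := hlim.eventually (gt_mem_nhds (show (0 : ℝ) < 1 by norm_num))
    obtain ⟨t, ht1, ht2⟩ := (h1.and (eventually_ge_atTop (max 1
      (1 - Real.log (min r r') + 1)))).exists
    have ht3 : 1 ≤ t := (le_max_left _ _).trans ht2
    have ht4 : 1 - Real.log (min r r') + 1 ≤ t := (le_max_right _ _).trans ht2
    set x : ℝ := Real.exp (1 - t) with hx
    have hx0 : 0 < x := Real.exp_pos _
    have hxr : x < min r r' := by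
      rw [hx, ← Real.lt_log_iff_exp_lt (lt_min hr hr')]
      linarith
    set q : Fin (d + 1) → ℂ := Fin.cons (x : ℂ) 0 with hq
    have hq0 : ‖q 0‖ = x := by
      rw [hq, Fin.cons_zero, Complex.norm_real, Real.norm_eq_abs, abs_of_pos hx0]
    have hqm : ∀ ρ, min r r' ≤ ρ → q ∈ PS d ρ := by
      intro ρ hρ
      refine ⟨fun h0 => ?_, fun i => ?_⟩
      · rw [h0, norm_zero] at hq0
        exact hx0.ne hq0
      · refine Fin.cases ?_ (fun j => ?_) i
        · rw [hq0]; linarith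
        · rw [hq, Fin.cons_succ, Pi.zero_apply, norm_zero]
          exact (hx0.trans hxr).trans_le hρ
    have hg := hpos q (hqm _ le_rfl)
    obtain ⟨h2, -⟩ := hC q (hqm _ (min_le_left _ _))
    obtain ⟨-, h3⟩ := hC' q (hqm _ (min_le_right _ _))
    rw [hq0] at h2 h3
    have hC0 : 0 < C := by
      by_contra hC0
      have h4 : 0 < x ^ (2 * κ) := Real.rpow_pos_of_pos hx0 _
      nlinarith
    have hlogx : |Real.log x| = t - 1 := by
      rw [hx, Real.log_exp, abs_of_nonpos (by linarith)]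
      ring
    have h5 : x ^ (2 * κ) ≤ C * (C' * x ^ (2 * κ') * (1 + |Real.log x|) ^ N') :=
      h2.trans (by gcongr)
    have h6 : x ^ (2 * κ') = x ^ (2 * κ) * x ^ a := by
      rw [← Real.rpow_add hx0]
      congr 1
      rw [ha]
      ring
    have h7 : x ^ a = Real.exp a * Real.exp (-a * t) := by
      rw [hx, ← Real.exp_mul, ← Real.exp_add]
      congr 1
      ring
    rw [hlogx, h6, h7] at h5
    have h8 : (0 : ℝ) < x ^ (2 * κ) := Real.rpow_pos_of_pos hx0 _
    have h9 : x ^ (2 * κ) * 1 ≤ x ^ (2 * κ) * (C * C' * Real.exp a * (t ^ (N' : ℝ) *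
        Real.exp (-a * t))) := by
      rw [Real.rpow_natCast, mul_one]
      have e1 : (1 + (t - 1)) = t := by ring
      rw [e1] at h5
      calc x ^ (2 * κ) ≤ C * (C' * (x ^ (2 * κ) * (Real.exp a * Real.exp (-a * t))) * t ^ N') := h5
        _ = _ := by ring
    have h10 := le_of_mul_le_mul_left h9 h8
    linarith
  refine le_antisymm (key hr' hr ?_ h' h) (key hr hr' hpos h h')
  rwa [min_comm]

/-! ### the bounds near the divisor from `LCh` -/

section near

variable {ι : Type*} [Fintype ι] [DecidableEq ι]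
variable {w e : ℕ} {k : ℤ} {S : Matrix ι ι ℂ}
  {P : ℕ → (Fin (d + 1) → ℂ) → Matrix ι ι ℂ} {T : Matrix ι ι ℂ} {z : ℂ} {L : Matrix ι ι ℂ}
  {Om f : (Fin (d + 1) → ℂ) → ι → ℂ}

open Crest.Agent.R276.VCalc_442 (bn)

/-- the limit metric at complex points -/
theorem om_val {a R : ℝ} (h : LCh w e k a R S P T z L Om f) {u : ℂ}
    (hu : u.re < Real.log (Real.exp (a / e))) {y : Fin d → ℂ} (hy : y ∈ ball (0 : Fin d → ℂ) R) :
    (SS w S (om (Nm L) (fr f) (u, y)) (om (Nm L) (fr f) (u, y))).re =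
      Real.exp (-(2 * k * u.re)) * bn w S Om (Fin.cons ((e : ℂ) * u) y) := by
  rw [om_eq h hu hy, SS_apply, VCalc_442.sf_smul_left, VCalc_442.sf_smul_right]
  have h2 : ∀ c : ℂ, (-1 : ℂ) ^ w * (star (Complex.exp (-(k * u))) *
      (Complex.exp (-(k * u)) * c)) = ((Real.exp (-(2 * k * u.re)) : ℝ) : ℂ) * ((-1 : ℂ) ^ w * c) := by
    intro c
    have h3 : star (Complex.exp (-(k * u))) * Complex.exp (-(k * u)) =
        ((Real.exp (-(2 * k * u.re)) : ℝ) : ℂ) := by
      rw [mul_comm, Complex.star_def, Complex.mul_conj, Complex.normSq_eq_norm_sq,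
        Complex.norm_exp, ← Real.exp_nat_mul]
      congr 2
      simp
      ring
    rw [← h3]
    ring
  rw [h2, Complex.re_ofReal_mul]
  rfl

/-- **the two-sided bound near the divisor** -/
theorem near (h : LCh w e k (Real.log r) r S P T z L Om f)
    (hcy : Cy w (GrB_217.HB d (Real.log r) r) P Om)
    (hne : ∃ y : Fin d → ℂ, (∀ j, ‖y j‖ < r) ∧ f (Fin.cons 0 y) ≠ 0)
    {g : (Fin (d + 1) → ℂ) → ℝ}
    (hg : ∀ q ∈ GrB_217.HB d (Real.log r) r, g (ex q) = bn w S Om q) {r' : ℝ} (hr' : r' < r) :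
    ∃ ε > 0, ∃ (C : ℝ) (N : ℕ), ∀ q ∈ PS d r', ‖q 0‖ < ε →
      ‖q 0‖ ^ (2 * (k / e : ℝ)) ≤ C * g q ∧
      g q ≤ C * ‖q 0‖ ^ (2 * (k / e : ℝ)) * (1 + |Real.log ‖q 0‖|) ^ N := by
  obtain ⟨m, hm, hcc, -, -⟩ := RkB_25.main h hcy hne
  have hB := bd h
  have he : (0 : ℝ) < e := by exact_mod_cast h.he
  have heC : (e : ℂ) ≠ 0 := by exact_mod_cast h.he.ne'
  set Q : Set (Fin d → ℂ) := closedBall 0 r' with hQ
  have hQc : IsCompact Q := isCompact_closedBall _ _
  have hQU : Q ⊆ ball (0 : Fin d → ℂ) r := closedBall_subset_ball hr'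
  have hccc : ContinuousOn (fun y : Fin d → ℂ => cc (SS w S) (Nm L) (fr f) m (0, y)) Q := by
    intro y hy
    exact (RkC_25.cc_smooth hB m (hQU hy)).continuousAt.continuousWithinAt
  obtain ⟨c, hc0, M, hcM⟩ : ∃ c > 0, ∃ M, ∀ y ∈ Q,
      c ≤ cc (SS w S) (Nm L) (fr f) m (0, y) ∧ cc (SS w S) (Nm L) (fr f) m (0, y) ≤ M := by
    rcases Q.eq_empty_or_nonempty with hemp | hnQ
    · exact ⟨1, one_pos, 0, fun y hy => by rw [hemp] at hy; exact absurd hy (notMem_empty y)⟩
    · obtain ⟨y1, hy1, hmin⟩ := hQc.exists_isMinOn hnQ hccc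
      obtain ⟨y2, hy2, hmax⟩ := hQc.exists_isMaxOn hnQ hccc
      exact ⟨_, hcc y1 (hQU hy1), _, fun y hy => ⟨hmin hy, hmax hy⟩⟩
  obtain ⟨A, hA⟩ := tendsto_unif hB hm hQc hQU (half_pos hc0)
  refine ⟨Real.exp (e * min (min A (-1)) (Real.log r / e)), Real.exp_pos _,
    max (2 / c) (|M| + c), m, fun q hq hqε => ?_⟩
  set x := q 0 with hx
  have hx0 : 0 < ‖x‖ := norm_pos_iff.2 hq.1
  have hlx : Real.log ‖x‖ < e * min (min A (-1)) (Real.log r / e) := by
    rwa [Real.log_lt_iff_lt_exp hx0]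
  have hl1 : Real.log ‖x‖ / e < min (min A (-1)) (Real.log r / e) := by
    rw [div_lt_iff₀ he]
    linarith
  set u : ℂ := Complex.log x / e with hu
  have hure : u.re = Real.log ‖x‖ / e := by
    rw [hu, Complex.div_natCast_re, Complex.log_re]
  have hu1 : u.re < A := by rw [hure]; exact hl1.trans_le ((min_le_left _ _).trans (min_le_left _ _))
  have hu2 : u.re < -1 := by
    rw [hure]; exact hl1.trans_le ((min_le_left _ _).trans (min_le_right _ _))
  have hu3 : u.re < Real.log (Real.exp (Real.log r / e)) := by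
    rw [Real.log_exp, hure]; exact hl1.trans_le (min_le_right _ _)
  set y : Fin d → ℂ := Fin.tail q with hy
  have hyQ : y ∈ Q := by
    have hr'0 : 0 ≤ r' := (norm_nonneg _).trans (hq.2 0).le
    rw [hQ, mem_closedBall_zero_iff, pi_norm_le_iff_of_nonneg hr'0]
    exact fun i => (hq.2 i.succ).le
  have hcons : (Fin.cons ((e : ℂ) * u) y : Fin (d + 1) → ℂ) ∈ GrB_217.HB d (Real.log r) r :=
    cons_mem h.he hu3 (hQU hyQ)
  have hexq : ex (Fin.cons ((e : ℂ) * u) y : Fin (d + 1) → ℂ) = q := by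
    apply ext_cons
    · rw [ex_zero, Fin.cons_zero, hu, mul_div_cancel₀ _ heC, Complex.exp_log hq.1]
    · intro i
      rw [ex_succ, Fin.cons_succ]
      rfl
  have hval := om_val h hu3 (hQU hyQ)
  rw [← hg _ hcons, hexq] at hval
  have h1 := hA u hu1 y hyQ
  rw [hval] at h1
  set s : ℝ := -u.re with hs
  have hs1 : 1 ≤ s := by rw [hs]; linarith
  have hsm : 0 < s ^ m := by positivity
  have hsm1 : 1 ≤ s ^ m := one_le_pow₀ hs1
  -- `exp (-2k re u) = |x|^{-2k/e}`
  have hpow : Real.exp (-(2 * k * u.re)) * ‖x‖ ^ (2 * (k / e : ℝ)) = 1 := by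
    rw [Real.rpow_def_of_pos hx0, ← Real.exp_add, hure]
    have : -(2 * k * (Real.log ‖x‖ / e)) + Real.log ‖x‖ * (2 * (k / e)) = 0 := by
      field_simp
      ring
    rw [this, Real.exp_zero]
  set p : ℝ := ‖x‖ ^ (2 * (k / e : ℝ)) with hp
  have hp0 : 0 < p := Real.rpow_pos_of_pos hx0 _
  have hpg : Real.exp (-(2 * k * u.re)) * g q = g q / p := by
    rw [eq_div_iff hp0.ne']
    calc Real.exp (-(2 * k * u.re)) * g q * p = (Real.exp (-(2 * k * u.re)) * p) * g q := by ring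
      _ = g q := by rw [hpow, one_mul]
  rw [hpg] at h1
  obtain ⟨hc1, hc2⟩ := hcM y hyQ
  have h2 := abs_le.1 h1
  have hlow : c / 2 * s ^ m ≤ g q / p := by
    have : c / 2 ≤ g q / p / s ^ m := by linarith [h2.1]
    rwa [le_div_iff₀ hsm] at this
  have hup : g q / p ≤ (|M| + c) * s ^ m := by
    have : g q / p / s ^ m ≤ |M| + c := by linarith [h2.2, le_abs_self M]
    rwa [div_le_iff₀ hsm] at this
  have hslog : s ≤ 1 + |Real.log ‖x‖| := by
    rw [hs, hure]
    have h3 : -(Real.log ‖x‖ / e) ≤ |Real.log ‖x‖| := by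
      have h4 : -(Real.log ‖x‖ / e) = -Real.log ‖x‖ / e := by ring
      rw [h4]
      have h5 : (1 : ℝ) ≤ e := by exact_mod_cast h.he
      calc -Real.log ‖x‖ / e ≤ |Real.log ‖x‖| / e := by
            gcongr
            exact neg_le_abs _
        _ ≤ |Real.log ‖x‖| := div_le_self (abs_nonneg _) h5
    linarith
  constructor
  · have h3 : c / 2 * p ≤ g q := by
      have h4 : c / 2 ≤ g q / p := by
        calc c / 2 = c / 2 * 1 := by ring
          _ ≤ c / 2 * s ^ m := by gcongr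
          _ ≤ g q / p := hlow
      rwa [le_div_iff₀ hp0] at h4
    have hg0 : 0 < g q := lt_of_lt_of_le (by positivity) h3
    calc p = 2 / c * (c / 2 * p) := by field_simp
      _ ≤ 2 / c * g q := by gcongr
      _ ≤ max (2 / c) (|M| + c) * g q := by
          gcongr
          exact le_max_left _ _
  · rw [div_le_iff₀ hp0] at hup
    calc g q ≤ (|M| + c) * s ^ m * p := hup
      _ ≤ max (2 / c) (|M| + c) * (1 + |Real.log ‖x‖|) ^ m * p := by
          gcongr
          exact le_max_right _ _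
      _ = _ := by ring

end near

/-! ### from a VHS -/

section vhs

variable {N w : ℕ} {m : ℕ} {X : Type*} [TopologicalSpace X] [RDom m X]
variable {σ : (Fin (d + 1) → ℂ) → X} {V : VHS m X N w} {om : X → Fin N → ℂ}

/-- the norm of the section along the chart -/
def Dn (V : VHS m X N w) (om : X → Fin N → ℂ) (σ : (Fin (d + 1) → ℂ) → X)
    (q : Fin (d + 1) → ℂ) : ℝ := VLevi_327.hn V (σ q) (om (σ q))

theorem Dn_pos (hc : CYL V om) (q : Fin (d + 1) → ℂ) : 0 < Dn V om σ q :=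
  VLevi_327.hn_pos V _ (hc.ne _)

theorem hn_cont (hc : CYL V om) : Continuous fun x : X => VLevi_327.hn V x (om x) := by
  have h1 : Continuous (VLevi_327.psi V om) := (hc.psi_Sm).continuous
  have h2 : (fun x : X => VLevi_327.hn V x (om x)) = fun x => Real.exp (-VLevi_327.psi V om x) := by
    funext x
    unfold VLevi_327.psi
    rw [neg_neg, Real.exp_log (VLevi_327.hn_pos V _ (hc.ne _))]
  rw [h2]
  exact Real.continuous_exp.comp h1.neg

theorem Dn_cont (hc : CYL V om) (h : HP σ r) : ContinuousOn (Dn V om σ) (PS d r) :=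
  (hn_cont hc).comp_continuousOn h.cont

/-- **the two-sided bound in one chart** -/
theorem bds_chart (hc : CYL V om) (h : HP σ r) {C A : ℝ}
    (hgr : ∀ q ∈ PS d r, Dn V om σ q ≤ C * ‖q 0‖ ^ (-A)) :
    ∃ κ : ℝ, ∀ r' < r, Bds (Dn V om σ) κ r' := by
  obtain ⟨n⟩ := exists_nf V h
  have hbn : ∀ q ∈ HS d r, VCalc_442.bn w n.fr.S (n.fr.pull om) q = Dn V om σ (ex q) :=
    fun q hq => bn_pull n.fr h.hm hc hq
  have hcy : Cy w (HS d r) (PP n) (n.fr.pull om) := cy n.fr h.hm hc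
  obtain ⟨k, f, hl, hne⟩ := exists_lch n h (M0 := 1) one_pos (z := 1) (by simp) (by simp) hcy
    (fun k q hq => by rw [_root_.one_zpow, one_smul]; exact n.pull_tw om k hq)
    (A := A) (C := |C|) (abs_nonneg _) (fun q hq => by
      have h1 : H n q (n.fr.pull om q) = Dn V om σ (ex q) := by
        show (star (n.fr.pull om q) ⬝ᵥ hodge w n.fr.S (n.fr.E q) *ᵥ n.fr.pull om q).re = _
        rw [n.fr.hodge_pull hq om om]
        rfl
      have h2 : ‖ex q 0‖ ^ (-A) = Real.exp (-A * (q 0).re) := by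
        rw [ex_zero, Complex.norm_exp, ← Real.exp_mul]
        congr 1
        ring
      rw [h1, ← h2]
      refine (hgr _ (ex_mem h.hr hq)).trans ?_
      gcongr
      exact le_abs_self C)
  refine ⟨k / ((eN N * 1 : ℕ) : ℝ), fun r' hr' => bds_of_near hr' (Dn_cont hc h)
    (fun q _ => Dn_pos hc q) ?_⟩
  exact near hl hcy hne (fun q hq => (hbn q hq).symm) hr'

/-- growth only on smaller polydiscs -/
theorem bds_chart' (hc : CYL V om) (hr : 0 < r) (h : ∀ r₁ ≤ r, 0 < r₁ → HP σ r₁)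
    (hgr : ∀ r₁ < r, 0 < r₁ → ∃ C A : ℝ, ∀ q ∈ PS d r₁, Dn V om σ q ≤ C * ‖q 0‖ ^ (-A)) :
    ∃ κ : ℝ, ∀ r' < r, Bds (Dn V om σ) κ r' := by
  obtain ⟨C, A, hCA⟩ := hgr (r / 2) (by linarith) (by linarith)
  obtain ⟨κ, hκ⟩ := bds_chart hc (h (r / 2) (by linarith) (by linarith)) hCA
  refine ⟨κ, fun r' hr' => ?_⟩
  set r₁ := (max r' (r / 2) + r) / 2 with hr₁
  have hm1 : max r' (r / 2) < r := max_lt hr' (by linarith)
  have hm2 : r / 2 ≤ max r' (r / 2) := le_max_right _ _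
  have hm3 : r' ≤ max r' (r / 2) := le_max_left _ _
  obtain ⟨C₁, A₁, hCA₁⟩ := hgr r₁ (by rw [hr₁]; linarith) (by rw [hr₁]; linarith)
  obtain ⟨κ₁, hκ₁⟩ := bds_chart hc (h r₁ (by rw [hr₁]; linarith) (by rw [hr₁]; linarith)) hCA₁
  have heq : κ = κ₁ := Bds.unique (r := r / 4) (r' := r / 2) (by linarith) (by linarith)
    (fun q _ => Dn_pos hc q) (hκ (r / 4) (by linarith)) (hκ₁ (r / 2) (by rw [hr₁]; linarith))
  rw [heq]
  exact hκ₁ r' (by rw [hr₁]; linarith)

end vhs

end Crest.Agent.R276.BdLogA_25
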