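import Crest.Agent.R276.BdNf1_651
import Crest.Agent.R276.CntDefs_857

/-!
# Row 276, leaf BDNF (helper651), part 2 : the half space over a punctured polydisc

`σ : PS d r → X` holomorphic; `HS d r` = universal cover of `PS d r`, `ex` the covering map,
`tw k` the deck transformation `z₀ ↦ z₀ + 2πik`, `Nf V σ r` = flat frame over `HS d r` with monodromy `T`.
-/

set_option autoImplicit false
set_option linter.unusedSectionVars false

noncomputable section

open Set Filter Topology Matrix Metric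
open Crest.Agent.R271.Ho51
open Crest.Agent.R276.Ipc735
open Crest.Agent.R276.BdNf1_651
open Crest.Agent.R276.CntDefs_857 (PS)
open scoped ContDiff

namespace Crest.Agent.R276.BdNf2_651

open Ipc735 (hq)

variable {d : ℕ} {r : ℝ}

/-- the half space over the punctured polydisc -/
def HS (d : ℕ) (r : ℝ) : Set (Fin (d + 1) → ℂ) :=
  {z | (z 0).re < Real.log r ∧ ∀ i : Fin d, ‖z i.succ‖ < r}

/-- the covering map -/
def ex (z : Fin (d + 1) → ℂ) : Fin (d + 1) → ℂ := Fin.cons (Complex.exp (z 0)) (fun i => z i.succ)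

@[simp] lemma ex_zero (z : Fin (d + 1) → ℂ) : ex z 0 = Complex.exp (z 0) := rfl

@[simp] lemma ex_succ (z : Fin (d + 1) → ℂ) (i : Fin d) : ex z i.succ = z i.succ := rfl

/-- the period -/
def per : ℂ := 2 * Real.pi * Complex.I

lemma per_re : per.re = 0 := by simp [per]

lemma per_im : per.im = 2 * Real.pi := by simp [per]

lemma int_per_re (k : ℤ) : ((k : ℂ) * per).re = 0 := by simp [per]

/-- deck transformations -/
def tw (k : ℤ) (z : Fin (d + 1) → ℂ) : Fin (d + 1) → ℂ :=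
  Fin.cons (z 0 + k * per) (fun i => z i.succ)

@[simp] lemma tw_apply_zero (k : ℤ) (z : Fin (d + 1) → ℂ) : tw k z 0 = z 0 + k * per := rfl

@[simp] lemma tw_succ (k : ℤ) (z : Fin (d + 1) → ℂ) (i : Fin d) : tw k z i.succ = z i.succ := rfl

lemma ext_cons {a b : Fin (d + 1) → ℂ} (h0 : a 0 = b 0) (h : ∀ i : Fin d, a i.succ = b i.succ) :
    a = b := by
  funext i
  refine Fin.cases h0 h i

@[simp] lemma tw_zero (z : Fin (d + 1) → ℂ) : tw 0 z = z := by
  apply ext_cons <;> simp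

lemma tw_tw (k l : ℤ) (z : Fin (d + 1) → ℂ) : tw k (tw l z) = tw (k + l) z := by
  apply ext_cons
  · simp; ring
  · intro i; simp

lemma exp_int_per (k : ℤ) : Complex.exp ((k : ℂ) * per) = 1 := by
  rw [per, Complex.exp_int_mul_two_pi_mul_I]

@[simp] lemma ex_tw (k : ℤ) (z : Fin (d + 1) → ℂ) : ex (tw k z) = ex z := by
  apply ext_cons
  · simp [Complex.exp_add, exp_int_per]
  · intro i; simp

lemma tw_mem (k : ℤ) {z : Fin (d + 1) → ℂ} : tw k z ∈ HS d r ↔ z ∈ HS d r := by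
  simp only [HS, mem_ofPred_eq, tw_apply_zero, tw_succ, Complex.add_re, int_per_re, add_zero]

lemma ex_mem (hr : 0 < r) {z : Fin (d + 1) → ℂ} (hz : z ∈ HS d r) : ex z ∈ PS d r := by
  refine ⟨Complex.exp_ne_zero _, fun i => ?_⟩
  refine Fin.cases ?_ (fun j => ?_) i
  · rw [ex_zero, Complex.norm_exp]
    calc Real.exp (z 0).re < Real.exp (Real.log r) := Real.exp_lt_exp.mpr hz.1
      _ = r := Real.exp_log hr
  · rw [ex_succ]; exact hz.2 j

lemma isOpen_HS (d : ℕ) (r : ℝ) : IsOpen (HS d r) := by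
  have h : HS d r = {z | (z 0).re < Real.log r} ∩ ⋂ i : Fin d, {z | ‖z i.succ‖ < r} := by
    ext z; simp [HS]
  rw [h]
  refine (isOpen_lt (by fun_prop) continuous_const).inter (isOpen_iInter_of_finite fun i => ?_)
  exact isOpen_lt (by fun_prop) continuous_const

lemma isOpen_PS (d : ℕ) (r : ℝ) : IsOpen (PS d r) := by
  have h : PS d r = {q | q 0 ≠ 0} ∩ ⋂ i : Fin (d + 1), {q | ‖q i‖ < r} := by
    ext z; simp [PS]
  rw [h]
  refine (isOpen_ne_fun (by fun_prop) continuous_const).inter (isOpen_iInter_of_finite fun i => ?_)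
  exact isOpen_lt (by fun_prop) continuous_const

lemma convex_HS (d : ℕ) (r : ℝ) : Convex ℝ (HS d r) := by
  rintro x ⟨hx0, hx⟩ y ⟨hy0, hy⟩ a b ha hb hab
  refine ⟨?_, fun i => ?_⟩
  · have h1 : ((a • x + b • y) 0).re = a * (x 0).re + b * (y 0).re := by simp
    rw [h1]
    rcases ha.eq_or_lt with h0 | h0
    · have hb1 : b = 1 := by linarith
      rw [← h0, hb1]; simpa using hy0
    · calc a * (x 0).re + b * (y 0).re < a * Real.log r + b * Real.log r := by
            have h2 : a * (x 0).re < a * Real.log r := mul_lt_mul_of_pos_left hx0 h0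
            have h3 : b * (y 0).re ≤ b * Real.log r := mul_le_mul_of_nonneg_left hy0.le hb
            linarith
        _ = Real.log r := by rw [← add_mul, hab, one_mul]
  · have h1 : (a • x + b • y) i.succ = a • x i.succ + b • y i.succ := rfl
    have h2 := convex_ball (0 : ℂ) r (mem_ball_zero_iff.mpr (hx i)) (mem_ball_zero_iff.mpr (hy i))
      ha hb hab
    rw [h1]
    exact mem_ball_zero_iff.mp h2

/-- base point -/
def bp (d : ℕ) (a : ℝ) : Fin (d + 1) → ℂ := Fin.cons (a : ℂ) (fun _ => 0)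

lemma bp_mem (hr : 0 < r) {a : ℝ} (ha : a < Real.log r) : bp d a ∈ HS d r := by
  refine ⟨?_, fun i => ?_⟩
  · show ((a : ℂ)).re < _; simpa using ha
  · show ‖(0 : ℂ)‖ < r; simpa using hr

lemma differentiable_ex : Differentiable ℂ (ex : (Fin (d + 1) → ℂ) → Fin (d + 1) → ℂ) := by
  rw [differentiable_pi]
  intro i
  refine Fin.cases ?_ (fun j => ?_) i
  · simp only [ex_zero]; fun_prop
  · simp only [ex_succ]; fun_prop

variable {N w : ℕ} {m : ℕ} {X : Type*} [TopologicalSpace X] [RDom m X]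
variable {σ : (Fin (d + 1) → ℂ) → X}

/-- holomorphic map of the punctured polydisc -/
structure HP (σ : (Fin (d + 1) → ℂ) → X) (r : ℝ) : Prop where
  hr : 0 < r
  cont : ContinuousOn σ (PS d r)
  diff : DifferentiableOn ℂ (fun q => (cp (σ q) : Fin m → ℂ)) (PS d r)

/-- the map on the half space -/
def lift (σ : (Fin (d + 1) → ℂ) → X) (z : Fin (d + 1) → ℂ) : X := σ (ex z)

lemma lift_tw (σ : (Fin (d + 1) → ℂ) → X) (k : ℤ) (z : Fin (d + 1) → ℂ) :
    lift σ (tw k z) = lift σ z := by unfold lift; rw [ex_tw]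

lemma HP.hm (h : HP σ r) : HM (HS d r) (lift σ) where
  op := isOpen_HS d r
  cvx := convex_HS d r
  ne := ⟨bp d (Real.log r - 1), bp_mem h.hr (by linarith)⟩
  cont := h.cont.comp differentiable_ex.continuous.continuousOn fun _ hz => ex_mem h.hr hz
  diff := h.diff.comp (f := ex) differentiable_ex.differentiableOn fun _ hz => ex_mem h.hr hz

/-- flat frame over the half space, with its monodromy -/
structure Nf (V : VHS m X N w) (σ : (Fin (d + 1) → ℂ) → X) (r : ℝ) where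
  fr : Fr V (HS d r) (lift σ)
  T : GL (Fin N) ℤ
  mono : ∀ z ∈ HS d r, fr.g (tw 1 z) = fr.g z * T⁻¹

theorem exists_nf (V : VHS m X N w) (h : HP σ r) : Nonempty (Nf V σ r) := by
  obtain ⟨n⟩ := exists_fr V h.hm
  have hcont : Continuous (tw 1 : (Fin (d + 1) → ℂ) → Fin (d + 1) → ℂ) := by
    rw [continuous_pi_iff]
    intro i
    refine Fin.cases ?_ (fun j => ?_) i
    · simp only [tw_apply_zero]; fun_prop
    · simp only [tw_succ]; fun_prop
  have hg' : ∀ z ∈ HS d r, ∃ U ∈ 𝓝 z, ∀ x ∈ U, ∀ y ∈ U,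
      V.P (lift σ x) (lift σ y) = n.g (tw 1 x) * (n.g (tw 1 y))⁻¹ := by
    intro z hz
    obtain ⟨U, hU, hh⟩ := n.loc (tw 1 z) ((tw_mem 1).mpr hz)
    refine ⟨tw 1 ⁻¹' U, hcont.continuousAt hU, fun x hx y hy => ?_⟩
    rw [← hh _ hx _ hy, lift_tw, lift_tw]
  have hb : bp d (Real.log r - 1) ∈ HS d r := bp_mem h.hr (by linarith)
  refine ⟨⟨n, ((n.g (bp d (Real.log r - 1)))⁻¹ * n.g (tw 1 (bp d (Real.log r - 1))))⁻¹, ?_⟩⟩
  intro z hz
  rw [inv_inv, frame_unique (convex_HS d r).isPreconnected n.loc hg' hb hz]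
  group

namespace Nf

variable {V : VHS m X N w} (n : Nf V σ r)

lemma mono_int (k : ℤ) {z : Fin (d + 1) → ℂ} (hz : z ∈ HS d r) :
    n.fr.g (tw k z) = n.fr.g z * n.T ^ (-k) := by
  induction k using Int.induction_on with
  | zero => simp
  | succ i ih =>
    have h1 : tw ((i : ℤ) + 1) z = tw 1 (tw i z) := by
      rw [tw_tw, add_comm (i : ℤ) 1]
    rw [h1, n.mono _ ((tw_mem _).mpr hz), ih, neg_add, _root_.zpow_add, _root_.zpow_neg_one,
      mul_assoc]
  | pred i ih =>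
    have h1 : tw 1 (tw (-(i : ℤ) - 1) z) = tw (-(i : ℤ)) z := by
      rw [tw_tw]; congr 1; ring
    have h2 := n.mono (tw (-(i : ℤ) - 1) z) ((tw_mem _).mpr hz)
    rw [h1, ih] at h2
    have h3 : n.fr.g (tw (-(i : ℤ) - 1) z) = n.fr.g z * n.T ^ (-(-(i : ℤ))) * n.T := by
      rw [h2]; group
    rw [h3, mul_assoc, ← _root_.zpow_add_one]
    congr 2
    ring

lemma E_tw (k : ℤ) {z : Fin (d + 1) → ℂ} (hz : z ∈ HS d r) :
    n.fr.E (tw k z) = cm (n.T ^ k) * n.fr.E z * cm (n.T ^ k)⁻¹ := by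
  unfold Fr.E
  rw [n.mono_int k hz, lift_tw, _root_.mul_inv_rev, cm_mul, cm_mul, _root_.zpow_neg, inv_inv]
  noncomm_ring

lemma pull_tw (φ : X → Fin N → ℂ) (k : ℤ) {z : Fin (d + 1) → ℂ} (hz : z ∈ HS d r) :
    n.fr.pull φ (tw k z) = cm (n.T ^ k) *ᵥ n.fr.pull φ z := by
  unfold Fr.pull
  rw [n.mono_int k hz, lift_tw, _root_.mul_inv_rev, cm_mul, _root_.zpow_neg, inv_inv, Matrix.mulVec_mulVec]

/-- the monodromy preserves the form -/
lemma TS (h : 0 < r) (k : ℤ) : (cm (n.T ^ k))ᴴ * n.fr.S * cm (n.T ^ k) = n.fr.S := by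
  have hb : bp d (Real.log r - 1) ∈ HS d r := bp_mem h (by linarith)
  have h1 := n.fr.S_eq (tw (-k) (bp d (Real.log r - 1))) ((tw_mem _).mpr hb)
  rw [n.mono_int (-k) hb, lift_tw, neg_neg, cm_mul, Matrix.conjTranspose_mul] at h1
  have h2 := n.fr.S_eq _ hb
  calc (cm (n.T ^ k))ᴴ * n.fr.S * cm (n.T ^ k)
      = (cm (n.T ^ k))ᴴ * ((cm (n.fr.g (bp d (Real.log r - 1))))ᴴ *
        V.S (lift σ (bp d (Real.log r - 1))) * cm (n.fr.g (bp d (Real.log r - 1)))) *
        cm (n.T ^ k) := by rw [← h2]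
    _ = (cm (n.T ^ k))ᴴ * (cm (n.fr.g (bp d (Real.log r - 1))))ᴴ *
        V.S (lift σ (bp d (Real.log r - 1))) * (cm (n.fr.g (bp d (Real.log r - 1))) *
        cm (n.T ^ k)) := by noncomm_ring
    _ = n.fr.S := h1.symm

end Nf

end Crest.Agent.R276.BdNf2_651
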