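import Crest.Agent.R276.WPack_505
import Crest.Agent.R276.BdNf2_651

/-!
# Row 276, leaf DLog (I3), chart half (helper505, for helper25)

`X : AC M δ i₀`, `i₀ = some i`, `e : Fin (d + 1) ≃ Fin n` with `e 0 = i`:

* `sg X e q = X.s (q ∘ e.symm)`: the chart as a map of `PS d δ`, `hp : HP (sg X e) r` for `r ≤ δ`;
  `mem_PD_iff`, `mem_PS_iff`, `sg_comp`;
* `FLz M`: the finite set of the coordinates and of `h` in `K`;
* `growth`: `D (X.s ζ) ≤ C |τ|^(-A)` on smaller polydiscs, `A` independent of the radius, if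
  `D` satisfies `PGr` and all `f ∈ FLz M` have an order on `X`; `growth_sg` the same for `sg`.
-/

set_option autoImplicit false

open Set Filter Topology

noncomputable section

namespace Crest.Agent.R276.BdLogB_505

open Crest.Agent.R271 Crest.Agent.R271.Rd692 Crest.Agent.R271.Ho51 Crest.Agent.R271.Alg255
open Crest.Agent.R271.Defs710 hiding glue
open Crest.Agent.R276.Mod1_987 Crest.Agent.R276.FKDefs_779 Crest.Agent.R276.SkelDefs_220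
open Crest.Agent.R276.AcOpen_89 Crest.Agent.R276.WPack_505
open Crest.Agent.R276.CntDefs_857 (PS)
open Crest.Agent.R276.BdNf2_651 (HP HS ex)

variable {K : Type} [Field K] [Algebra ℂ K] {n d : ℕ} {M : Mdl K n} {δ : ℝ}
  {i₀ : Option (Fin n)} {i : Fin n} {e : Fin (d + 1) ≃ Fin n}

/-! ### enumeration of the coordinates -/

/-- an enumeration of the coordinates which starts with `i` -/
lemma exists_enum (i : Fin n) : ∃ (d : ℕ) (e : Fin (d + 1) ≃ Fin n), n = d + 1 ∧ e 0 = i := by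
  cases n with
  | zero => exact i.elim0
  | succ d => exact ⟨d, Equiv.swap 0 i, rfl, Equiv.swap_apply_left 0 i⟩

lemma mem_PD_iff (hi : i₀ = some i) (he : e 0 = i) {r : ℝ} {q : Fin (d + 1) → ℂ} :
    (fun k => q (e.symm k)) ∈ PD r i₀ ↔ q ∈ PS d r := by
  subst hi
  have h1 : (∀ j, ‖q (e.symm j)‖ < r) ↔ ∀ k, ‖q k‖ < r :=
    ⟨fun h k => by simpa using h (e k), fun h j => h _⟩
  have h2 : ‖(fun k => q (e.symm k) : Cn n)‖ < r ↔ ∀ k, ‖q k‖ < r := by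
    constructor
    · intro h
      exact h1.1 fun j => (norm_le_pi_norm (fun k => q (e.symm k) : Cn n) j).trans_lt h
    · intro h
      have hr : 0 < r := (norm_nonneg _).trans_lt (h 0)
      exact (pi_norm_lt_iff hr).2 (h1.2 h)
  have h3 : e.symm i = 0 := by rw [← he, Equiv.symm_apply_apply]
  constructor
  · rintro ⟨ha, hb⟩
    refine ⟨?_, h2.1 ha⟩
    have h4 : q (e.symm i) ≠ 0 := hb i rfl
    rwa [h3] at h4
  · rintro ⟨ha, hb⟩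
    refine ⟨h2.2 hb, fun j hj => ?_⟩
    obtain rfl : i = j := Option.some_injective _ hj
    show q (e.symm i) ≠ 0
    rw [h3]
    exact ha

lemma mem_PS_iff (hi : i₀ = some i) (he : e 0 = i) {r : ℝ} {η : Cn n} :
    (fun k => η (e k)) ∈ PS d r ↔ η ∈ PD r i₀ := by
  rw [← mem_PD_iff hi he]
  simp

/-- the chart as a map of the punctured polydisc -/
def sg (X : AC M δ i₀) (e : Fin (d + 1) ≃ Fin n) (q : Fin (d + 1) → ℂ) : M.Pts :=
  X.s fun k => q (e.symm k)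

lemma sg_comp (X : AC M δ i₀) (η : Cn n) : sg X e (fun k => η (e k)) = X.s η := by
  unfold sg
  simp

lemma diff_perm : Differentiable ℂ fun (q : Fin (d + 1) → ℂ) (k : Fin n) => q (e.symm k) := by
  rw [differentiable_pi]
  intro k
  exact differentiable_apply _

lemma tau_eq (hi : i₀ = some i) (he : e 0 = i) (q : Fin (d + 1) → ℂ) :
    tau i₀ (fun k => q (e.symm k)) = q 0 := by
  subst hi
  show q (e.symm i) = q 0
  rw [← he, Equiv.symm_apply_apply]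

lemma tau_some (hi : i₀ = some i) (η : Cn n) : tau i₀ η = η i := by
  subst hi
  rfl

/-- **the chart is holomorphic on the punctured polydisc** -/
theorem hp (X : AC M δ i₀) (hi : i₀ = some i) (he : e 0 = i) {r : ℝ} (hr : 0 < r) (hrδ : r ≤ δ) :
    HP (sg X e) r where
  hr := hr
  cont := (continuousOn_s X).comp diff_perm.continuous.continuousOn fun q hq =>
    PD_mono hrδ i₀ ((mem_PD_iff hi he).2 hq)
  diff := by
    have h1 : DifferentiableOn ℂ (fun ζ => M.pz (X.s ζ)) (PD δ i₀) :=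
      (analyticOnNhd_pz X).differentiableOn
    exact h1.comp diff_perm.differentiableOn fun q hq => PD_mono hrδ i₀ ((mem_PD_iff hi he).2 hq)

/-! ### monomial functions -/

/-- value of an element of `B` on a chart -/
theorem ord_val {X : AC M δ i₀} {b : M.B} {k : ℤ} (h : X.Ord (b : K) k) :
    Mono δ i₀ (fun η => X.s η b) k := by
  obtain ⟨u, ⟨G, hG1, hG2, hG3⟩, hu⟩ := h
  refine ⟨G, hG1, hG2, fun η hη => ?_⟩
  have h1 := hu η hη b 1 (by rw [OneMemClass.coe_one, mul_one])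
  rw [map_one, mul_one] at h1
  show X.s η b = tau i₀ η ^ k * G η
  rw [h1]
  exact hG3 η hη

lemma Mono.upper {u : Cn n → ℂ} {k : ℤ} (hδ : δ ≤ 1) (hu : Mono δ i₀ u k) {r : ℝ} (hr : r < δ) :
    ∃ C : ℝ, 0 ≤ C ∧ ∀ ζ ∈ PD r i₀, ‖u ζ‖ * ‖tau i₀ ζ‖ ^ k.natAbs ≤ C := by
  obtain ⟨G, hG1, -, hG3⟩ := hu
  have hsub : Metric.closedBall (0 : Cn n) r ⊆ Metric.ball 0 δ := Metric.closedBall_subset_ball hr
  obtain ⟨C, hC⟩ := (isCompact_closedBall (0 : Cn n) r).bddAbove_image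
    (hG1.continuousOn.mono hsub).norm
  refine ⟨max C 0, le_max_right _ _, fun ζ hζ => ?_⟩
  have hζδ : ζ ∈ PD δ i₀ := PD_mono hr.le i₀ hζ
  have h1 : ‖G ζ‖ ≤ C := hC ⟨ζ, by rw [mem_closedBall_zero_iff]; exact hζ.1.le, rfl⟩
  have ht : 0 < ‖tau i₀ ζ‖ := norm_pos_iff.2 (tau_ne hζδ)
  have ht1 : ‖tau i₀ ζ‖ ≤ 1 := norm_tau_le_one hδ hζδ
  rw [hG3 ζ hζδ, norm_mul, norm_zpow]
  have h2 : ‖tau i₀ ζ‖ ^ k * ‖tau i₀ ζ‖ ^ k.natAbs ≤ 1 := by
    rw [← zpow_natCast, ← zpow_add₀ ht.ne']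
    obtain ⟨m, hm⟩ := Int.eq_ofNat_of_zero_le (show 0 ≤ k + (k.natAbs : ℤ) by omega)
    rw [hm, zpow_natCast]
    exact pow_le_one₀ ht.le ht1
  calc ‖tau i₀ ζ‖ ^ k * ‖G ζ‖ * ‖tau i₀ ζ‖ ^ k.natAbs
      = (‖tau i₀ ζ‖ ^ k * ‖tau i₀ ζ‖ ^ k.natAbs) * ‖G ζ‖ := by ring
    _ ≤ 1 * ‖G ζ‖ := mul_le_mul_of_nonneg_right h2 (norm_nonneg _)
    _ ≤ max C 0 := by rw [one_mul]; exact h1.trans (le_max_left _ _)

lemma Mono.lower {u : Cn n → ℂ} {k : ℤ} (hδ : δ ≤ 1) (hu : Mono δ i₀ u k) {r : ℝ} (hr : r < δ) :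
    ∃ c : ℝ, 0 < c ∧ ∀ ζ ∈ PD r i₀, c * ‖tau i₀ ζ‖ ^ k.natAbs ≤ ‖u ζ‖ := by
  obtain ⟨G, hG1, hG2, hG3⟩ := hu
  have hsub : Metric.closedBall (0 : Cn n) r ⊆ Metric.ball 0 δ := Metric.closedBall_subset_ball hr
  have hex : ∃ c : ℝ, 0 < c ∧ ∀ ζ ∈ Metric.closedBall (0 : Cn n) r, c ≤ ‖G ζ‖ := by
    rcases (Metric.closedBall (0 : Cn n) r).eq_empty_or_nonempty with h0 | h0
    · exact ⟨1, one_pos, fun ζ hζ => by rw [h0] at hζ; exact hζ.elim⟩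
    · obtain ⟨ζ₀, h1, h2⟩ := (isCompact_closedBall (0 : Cn n) r).exists_isMinOn h0
        (hG1.continuousOn.mono hsub).norm
      exact ⟨‖G ζ₀‖, norm_pos_iff.2 (hG2 _ (hsub h1)), fun ζ hζ => h2 hζ⟩
  obtain ⟨c, hc, hcG⟩ := hex
  refine ⟨c, hc, fun ζ hζ => ?_⟩
  have hζδ : ζ ∈ PD δ i₀ := PD_mono hr.le i₀ hζ
  have ht : 0 < ‖tau i₀ ζ‖ := norm_pos_iff.2 (tau_ne hζδ)
  have ht1 : ‖tau i₀ ζ‖ ≤ 1 := norm_tau_le_one hδ hζδ
  rw [hG3 ζ hζδ, norm_mul, norm_zpow]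
  have h2 : ‖tau i₀ ζ‖ ^ k.natAbs ≤ ‖tau i₀ ζ‖ ^ k := by
    rw [← zpow_natCast]
    exact zpow_le_zpow_right_of_le_one₀ ht ht1 (by omega)
  calc c * ‖tau i₀ ζ‖ ^ k.natAbs ≤ ‖G ζ‖ * ‖tau i₀ ζ‖ ^ k := by
        gcongr
        exact hcG ζ (by rw [mem_closedBall_zero_iff]; exact hζ.1.le)
    _ = _ := mul_comm _ _

/-! ### growth -/

open Classical in
/-- the coordinates and the polynomial `h` of a model, as elements of the field -/
def FLz (M : Mdl K n) : Finset K :=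
  insert ((az M.z M.h : M.B) : K) (Finset.univ.image fun j => (M.z j : K))

lemma h_mem (M : Mdl K n) : ((az M.z M.h : M.B) : K) ∈ FLz M := by
  classical
  exact Finset.mem_insert_self _ _

lemma z_mem (M : Mdl K n) (j : Fin n) : (M.z j : K) ∈ FLz M := by
  classical
  exact Finset.mem_insert_of_mem (Finset.mem_image_of_mem _ (Finset.mem_univ j))

lemma FLz_ne (M : Mdl K n) : ∀ f ∈ FLz M, f ≠ 0 := by
  classical
  intro f hf
  unfold FLz at hf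
  rcases Finset.mem_insert.1 hf with rfl | hf
  · intro h0
    exact M.h_unit.ne_zero (Subtype.ext h0)
  · obtain ⟨j, -, rfl⟩ := Finset.mem_image.1 hf
    intro h0
    have h1 : az M.z (MvPolynomial.X j) = M.z j := by
      apply Subtype.ext
      rw [az_val, MvPolynomial.aeval_X]
    have h2 : az M.z (MvPolynomial.X j) = 0 := by
      rw [h1]
      exact Subtype.ext h0
    exact MvPolynomial.X_ne_zero j (M.az_injective (h2.trans (map_zero _).symm))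

/-- **growth of functions of moderate growth on charts** -/
theorem growth (X : AC M δ i₀) (hδ : δ ≤ 1) {D : M.Pts → ℝ} (hD0 : ∀ y, 0 ≤ D y) (hPG : PGr M D)
    (hG : ∀ f ∈ FLz M, ∃ k, X.Ord f k) :
    ∃ A : ℕ, ∀ r < δ, ∃ C : ℝ, 0 ≤ C ∧ ∀ ζ ∈ PD r i₀, D (X.s ζ) * ‖tau i₀ ζ‖ ^ A ≤ C := by
  obtain ⟨C0, j, k, hC0⟩ := hPG
  obtain ⟨l, hl⟩ := hG _ (h_mem M)
  have hz : ∀ i, ∃ k, X.Ord (M.z i : K) k := fun i => hG _ (z_mem M i)
  choose κ hκ using hz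
  set m : ℕ := ∑ i, (κ i).natAbs with hm
  refine ⟨l.natAbs * j + 2 * m * k, fun r hr => ?_⟩
  obtain ⟨c, hc, hch⟩ := Mono.lower hδ (ord_val hl) hr
  have hup := fun i => Mono.upper hδ (ord_val (hκ i)) hr
  choose Cz hCz0 hCz using hup
  refine ⟨|C0| * (1 + ∑ i, Cz i ^ 2) ^ k / c ^ j, by positivity, fun ζ hζ => ?_⟩
  have hζδ : ζ ∈ PD δ i₀ := PD_mono hr.le i₀ hζ
  set t : ℝ := ‖tau i₀ ζ‖ with ht
  have ht0 : 0 < t := norm_pos_iff.2 (tau_ne hζδ)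
  have ht1 : t ≤ 1 := norm_tau_le_one hδ hζδ
  set y : M.Pts := X.s ζ with hy
  -- the coordinates
  have h1 : ∀ i, ‖M.pz y i‖ * t ^ m ≤ Cz i := by
    intro i
    have h2 : t ^ m ≤ t ^ (κ i).natAbs :=
      pow_le_pow_of_le_one ht0.le ht1 (Finset.single_le_sum (f := fun i => (κ i).natAbs)
        (fun _ _ => Nat.zero_le _) (Finset.mem_univ i))
    exact (mul_le_mul_of_nonneg_left h2 (norm_nonneg _)).trans (hCz i ζ hζ)
  have h3 : (1 + ∑ i, ‖M.pz y i‖ ^ 2) * t ^ (2 * m) ≤ 1 + ∑ i, Cz i ^ 2 := by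
    rw [add_mul, one_mul, Finset.sum_mul]
    refine add_le_add (pow_le_one₀ ht0.le ht1) (Finset.sum_le_sum fun i _ => ?_)
    calc ‖M.pz y i‖ ^ 2 * t ^ (2 * m) = (‖M.pz y i‖ * t ^ m) ^ 2 := by
          rw [mul_pow, ← pow_mul, mul_comm m 2]
      _ ≤ Cz i ^ 2 := pow_le_pow_left₀ (by positivity) (h1 i) 2
  -- the denominator
  have h4 : c * t ^ l.natAbs ≤ ‖MvPolynomial.eval (M.pz y) M.h‖ := by
    rw [← M.apply_az']
    exact hch ζ hζ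
  have h5 : (c * t ^ l.natAbs) ^ j ≤ ‖MvPolynomial.eval (M.pz y) M.h‖ ^ j :=
    pow_le_pow_left₀ (by positivity) h4 j
  have hS : 0 ≤ 1 + ∑ i, ‖M.pz y i‖ ^ 2 := by positivity
  rw [le_div_iff₀ (by positivity)]
  calc D y * t ^ (l.natAbs * j + 2 * m * k) * c ^ j
      = (D y * (c * t ^ l.natAbs) ^ j) * (t ^ (2 * m)) ^ k := by
        rw [pow_add, pow_mul, pow_mul t (2 * m) k, mul_pow]
        ring
    _ ≤ (D y * ‖MvPolynomial.eval (M.pz y) M.h‖ ^ j) * (t ^ (2 * m)) ^ k := by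
        gcongr
        exact hD0 y
    _ ≤ (C0 * (1 + ∑ i, ‖M.pz y i‖ ^ 2) ^ k) * (t ^ (2 * m)) ^ k :=
        mul_le_mul_of_nonneg_right (hC0 y) (by positivity)
    _ ≤ (|C0| * (1 + ∑ i, ‖M.pz y i‖ ^ 2) ^ k) * (t ^ (2 * m)) ^ k := by
        gcongr
        exact le_abs_self _
    _ = |C0| * ((1 + ∑ i, ‖M.pz y i‖ ^ 2) * t ^ (2 * m)) ^ k := by rw [mul_pow]; ring
    _ ≤ |C0| * (1 + ∑ i, Cz i ^ 2) ^ k := by gcongr

/-- the same with real exponents -/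
theorem growth_rpow (X : AC M δ i₀) (hi : i₀ = some i) (hδ : δ ≤ 1) {D : M.Pts → ℝ}
    (hD0 : ∀ y, 0 ≤ D y) (hPG : PGr M D) (hG : ∀ f ∈ FLz M, ∃ k, X.Ord f k) :
    ∃ A : ℝ, 0 ≤ A ∧ ∀ r < δ, ∃ C : ℝ, 0 ≤ C ∧ ∀ ζ ∈ PD r i₀, D (X.s ζ) ≤ C * ‖ζ i‖ ^ (-A) := by
  obtain ⟨A, hA⟩ := growth X hδ hD0 hPG hG
  refine ⟨A, Nat.cast_nonneg A, fun r hr => ?_⟩
  obtain ⟨C, hC, h⟩ := hA r hr
  refine ⟨C, hC, fun ζ hζ => ?_⟩
  have h1 := h ζ hζ
  have ht0 : 0 < ‖tau i₀ ζ‖ := norm_pos_iff.2 (tau_ne hζ)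
  rw [tau_some hi] at h1 ht0
  rw [Real.rpow_neg ht0.le, Real.rpow_natCast, ← div_eq_mul_inv, le_div_iff₀ (pow_pos ht0 _)]
  exact h1

/-- **the growth on the punctured polydisc** -/
theorem growth_sg (X : AC M δ i₀) (hi : i₀ = some i) (he : e 0 = i) (hδ : δ ≤ 1) {D : M.Pts → ℝ}
    (hD0 : ∀ y, 0 ≤ D y) (hPG : PGr M D) (hG : ∀ f ∈ FLz M, ∃ k, X.Ord f k) :
    ∃ A : ℝ, 0 ≤ A ∧ ∀ r < δ, ∃ C : ℝ, 0 ≤ C ∧
      (∀ q ∈ PS d r, D (sg X e q) ≤ C * ‖q 0‖ ^ (-A)) ∧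
      (0 < r → ∀ z ∈ HS d r, D (sg X e (ex z)) ≤ C * Real.exp (-A * (z 0).re)) := by
  obtain ⟨A, hA, h⟩ := growth_rpow X hi hδ hD0 hPG hG
  refine ⟨A, hA, fun r hr => ?_⟩
  obtain ⟨C, hC, hb⟩ := h r hr
  have h1 : ∀ q ∈ PS d r, D (sg X e q) ≤ C * ‖q 0‖ ^ (-A) := by
    intro q hq
    have h2 := hb _ ((mem_PD_iff hi he).2 hq)
    have h3 : q (e.symm i) = q 0 := by rw [← he, Equiv.symm_apply_apply]
    rw [h3] at h2
    exact h2
  refine ⟨C, hC, h1, fun hr0 z hz => ?_⟩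
  have h4 := h1 _ (BdNf2_651.ex_mem hr0 hz)
  rw [BdNf2_651.ex_zero, Complex.norm_exp, ← Real.exp_mul] at h4
  rw [neg_mul, mul_comm A, ← mul_neg]
  exact h4

end Crest.Agent.R276.BdLogB_505
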