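import Crest.Agent.R276.BdNf2_651
import Crest.Agent.R276.BndA_563
import Crest.Agent.R276.Grow_25
import Crest.Agent.R276.Desc_327

/-!
# Row 276, leaf BDNF (helper651), part 3 : Hodge norms over the half space, quasi-unipotence

`n.H z u` = Hodge norm square of the constant vector `u` at `z`.
All constants depend on the rank only.
-/

set_option autoImplicit false
set_option linter.unusedSectionVars false

noncomputable section

open Set Filter Topology Matrix Metric
open Crest.Agent.R271.Ho51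
open Crest.Agent.R276.Ipc735
open Crest.Agent.R276.BdNf1_651
open Crest.Agent.R276.BdNf2_651
open Crest.Agent.R276.CntDefs_857 (PS)
open scoped ContDiff

namespace Crest.Agent.R276.BdNf3_651

open Ipc735 (hq)

/-! ### a VHS along a complex line -/

section line

variable {E : Type*} [NormedAddCommGroup E] [NormedSpace ℂ E]
variable {ι : Type*} [Fintype ι] [DecidableEq ι]
variable {w : ℕ} {U : Set E} {S : Matrix ι ι ℂ} {P : ℕ → E → Matrix ι ι ℂ} {x : E}

lemma gden_eq_gg (h : VCalc_442.VHS w U S P) (hx : x ∈ U) (v : E) :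
    VCalc_442.gden w P v x = EndTh_659.gg w P v x := by
  rw [← BndA_563.gden_eq h hx v]
  unfold EndTh_659.gg
  rw [h.th_eq hx, h.thb_eq hx]

/-- the constant of the estimate of the derivative of Hodge norms -/
def KN (ι : Type*) [Fintype ι] [DecidableEq ι] : ℝ := 4 * Real.sqrt (EndTh_659.cst ι)

lemma KN_nonneg (ι : Type*) [Fintype ι] [DecidableEq ι] : 0 ≤ KN ι := by unfold KN; positivity

/-- derivative of the Hodge norm of a flat vector in the direction `v`, if the complex disc of radius `R`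
in this direction lies in `U` -/
lemma fderiv_line (h : VCalc_442.VHS w U S P) (v : E) {R : ℝ} (hR : 0 < R)
    (hm : ∀ t : ℂ, ‖t‖ < R → x + t • v ∈ U) (u : ι → ℂ) :
    DifferentiableAt ℝ (fun y => BndA_563.hn (VCalc_442.hm w S P y) u) x ∧
    |fderiv ℝ (fun y => BndA_563.hn (VCalc_442.hm w S P y) u) x v| ≤
      KN ι / R * BndA_563.hn (VCalc_442.hm w S P x) u := by
  have hx : x ∈ U := by simpa using hm 0 (by simpa using hR)
  obtain ⟨h1, h2⟩ := BndA_563.fderiv_hn h hx u v
  refine ⟨h1, h2.trans ?_⟩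
  have h3 : VCalc_442.gden w P v x ≤ EndTh_659.cst ι / R ^ 2 := by
    rw [gden_eq_gg h hx]
    exact EndTh_659.gg_le_line h hR hm
  have h4 : Real.sqrt (VCalc_442.gden w P v x) ≤ Real.sqrt (EndTh_659.cst ι) / R := by
    calc Real.sqrt (VCalc_442.gden w P v x) ≤ Real.sqrt (EndTh_659.cst ι / R ^ 2) :=
          Real.sqrt_le_sqrt h3
      _ = _ := by rw [Real.sqrt_div (EndTh_659.cst_pos ι).le, Real.sqrt_sq hR.le]
  have h5 := BndA_563.hn_nonneg (h.hmPos hx) u
  calc 4 * Real.sqrt (VCalc_442.gden w P v x) * BndA_563.hn (VCalc_442.hm w S P x) u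
      ≤ 4 * (Real.sqrt (EndTh_659.cst ι) / R) * BndA_563.hn (VCalc_442.hm w S P x) u := by gcongr
    _ = _ := by unfold KN; ring

end line

/-! ### universal exponent -/

/-- the universal exponent of quasi-unipotence in rank `N` -/
def eN (N : ℕ) : ℕ := (Desc_327.exists_exp_poly N).choose

lemma eN_pos (N : ℕ) : 0 < eN N := (Desc_327.exists_exp_poly N).choose_spec.1

/-- an integral matrix whose eigenvalues have modulus `≤ 1` is quasi-unipotent with exponent `eN N` -/
theorem unip {N : ℕ} (g : GL (Fin N) ℤ)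
    (h : ∀ (v : Fin N → ℂ) (μ : ℂ), v ≠ 0 → cm g *ᵥ v = μ • v → ‖μ‖ ≤ 1) :
    (cm g ^ eN N - 1) ^ N = 0 := by
  set A : Matrix (Fin N) (Fin N) ℤ := (g : Matrix (Fin N) (Fin N) ℤ) with hA
  set B : Matrix (Fin N) (Fin N) ℂ := A.map (Int.castRingHom ℂ) with hB
  have hBg : cm g = B := rfl
  have hcp : B.charpoly = A.charpoly.map (Int.castRingHom ℂ) := Matrix.charpoly_map A _
  have heig : ∀ z ∈ (A.charpoly.map (Int.castRingHom ℂ)).roots,
      ∃ v : Fin N → ℂ, v ≠ 0 ∧ B *ᵥ v = z • v := by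
    intro z hz
    have h1 : (Matrix.toLin' B).charpoly = A.charpoly.map (Int.castRingHom ℂ) := by
      rw [← hcp]; simp [Matrix.charpoly_toLin']
    rw [← h1] at hz
    have h2 : Module.End.HasEigenvalue (Matrix.toLin' B) z := by
      rw [Module.End.hasEigenvalue_iff_isRoot_charpoly]
      exact (Polynomial.mem_roots'.1 hz).2
    obtain ⟨v, hv⟩ := h2.exists_hasEigenvector
    refine ⟨v, hv.2, ?_⟩
    have := hv.apply_eq_smul
    rwa [Matrix.toLin'_apply] at this
  have hone : ∀ z ∈ (A.charpoly.map (Int.castRingHom ℂ)).roots, z ^ eN N = 1 := by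
    intro z hz
    refine (Desc_327.exists_exp_poly N).choose_spec.2 A.charpoly A.charpoly_monic ?_ ?_ z hz ?_
    · rw [Matrix.charpoly_natDegree_eq_dim]; simp
    · intro y hy
      obtain ⟨v, hv, hv'⟩ := heig y hy
      exact h v y hv hv'
    · rintro rfl
      obtain ⟨v, hv, hv'⟩ := heig 0 hz
      rw [zero_smul] at hv'
      apply hv
      have h3 : cm g⁻¹ *ᵥ (cm g *ᵥ v) = v := cm_inv_mulVec g v
      rw [hBg, hv', Matrix.mulVec_zero] at h3
      exact h3.symm
  have hsplit : B.charpoly = (B.charpoly.roots.map (fun a => Polynomial.X - Polynomial.C a)).prod :=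
    (IsAlgClosed.splits _).eq_prod_roots_of_monic (Matrix.charpoly_monic B)
  have hcard : Multiset.card B.charpoly.roots = N := by
    rw [Polynomial.splits_iff_card_roots.mp (IsAlgClosed.splits _),
      Matrix.charpoly_natDegree_eq_dim]
    simp
  have hdvd : B.charpoly ∣ (Polynomial.X ^ eN N - 1 : Polynomial ℂ) ^
      (Multiset.card B.charpoly.roots) := by
    have h3 : ∀ s : Multiset ℂ, (∀ z ∈ s, z ^ eN N = 1) →
        (s.map (fun a => Polynomial.X - Polynomial.C a)).prod ∣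
          (Polynomial.X ^ eN N - 1 : Polynomial ℂ) ^ (Multiset.card s) := by
      intro s
      induction s using Multiset.induction_on with
      | empty => simp
      | cons a s ih =>
        intro hs
        rw [Multiset.map_cons, Multiset.prod_cons, Multiset.card_cons, pow_succ, mul_comm]
        refine mul_dvd_mul (ih (fun z hz => hs z (Multiset.mem_cons_of_mem hz))) ?_
        rw [Polynomial.dvd_iff_isRoot]
        simp [hs a (Multiset.mem_cons_self a s)]
    have h4 := h3 B.charpoly.roots (by rw [hcp]; exact hone)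
    rwa [← hsplit] at h4
  obtain ⟨q, hq⟩ := hdvd
  rw [hcard] at hq
  have h5 : Polynomial.aeval B ((Polynomial.X ^ eN N - 1 : Polynomial ℂ) ^ N) = 0 := by
    rw [hq, map_mul, Matrix.aeval_self_charpoly, zero_mul]
  rw [hBg]
  simpa using h5

/-! ### norms over the half space -/

variable {d : ℕ} {r : ℝ} {N w : ℕ} {m : ℕ} {X : Type*} [TopologicalSpace X] [RDom m X]
variable {σ : (Fin (d + 1) → ℂ) → X} {V : VHS m X N w}

/-- the Hodge norm square of the constant vector `u` at `z` -/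
def H (n : Nf V σ r) (z : Fin (d + 1) → ℂ) (u : Fin N → ℂ) : ℝ :=
  (star u ⬝ᵥ hodge w n.fr.S (n.fr.E z) *ᵥ u).re

section

variable (n : Nf V σ r) (h : HP σ r)

/-- the variation over the half space -/
abbrev PP (n : Nf V σ r) : ℕ → (Fin (d + 1) → ℂ) → Matrix (Fin N) (Fin N) ℂ :=
  fun p z => hq w (n.fr.E z) p

include h in
lemma vhs : VCalc_442.VHS w (HS d r) n.fr.S (PP n) := n.fr.vhs h.hm

lemma hm_eq (z : Fin (d + 1) → ℂ) :
    VCalc_442.hm w n.fr.S (PP n) z = hodge w n.fr.S (n.fr.E z) := by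
  unfold VCalc_442.hm
  rw [sgOp_hq]
  rfl

lemma H_eq (z : Fin (d + 1) → ℂ) (u : Fin N → ℂ) :
    H n z u = BndA_563.hn (VCalc_442.hm w n.fr.S (PP n) z) u := by
  rw [hm_eq]; rfl

lemma H_pos {z : Fin (d + 1) → ℂ} (hz : z ∈ HS d r) {u : Fin N → ℂ} (hu : u ≠ 0) :
    0 < H n z u := (n.fr.hs hz).hodge_pos hu

lemma H_nonneg {z : Fin (d + 1) → ℂ} (hz : z ∈ HS d r) (u : Fin N → ℂ) : 0 ≤ H n z u :=
  (n.fr.hs hz).hodge_nonneg u

lemma H_smul (z : Fin (d + 1) → ℂ) (c : ℂ) (u : Fin N → ℂ) :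
    H n z (c • u) = ‖c‖ ^ 2 * H n z u := BndA_563.hn_smul _ c u

@[simp] lemma H_zero (z : Fin (d + 1) → ℂ) : H n z 0 = 0 := BndA_563.hn_zero _

/-- deck transformations -/
lemma H_tw (k : ℤ) (hr : 0 < r) {z : Fin (d + 1) → ℂ} (hz : z ∈ HS d r) (u : Fin N → ℂ) :
    H n (tw k z) (cm (n.T ^ k) *ᵥ u) = H n z u := by
  have h1 : cm (n.T ^ k) * n.fr.E z = n.fr.E (tw k z) * cm (n.T ^ k) := by
    rw [n.E_tw k hz, Matrix.mul_assoc (_ * _), cm_inv_mul_cm, Matrix.mul_one]
  have h2 := DiscA_651.hq_conj h1 (n.TS hr k) w u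
  exact h2.symm

/-- the slice in the variable `z₀` -/
abbrev cs (y : Fin d → ℂ) (t : ℂ) : Fin (d + 1) → ℂ := Fin.cons t y

lemma cs_mem {y : Fin d → ℂ} (hy : ∀ i, ‖y i‖ < r) {t : ℂ} (ht : t.re < Real.log r) :
    cs y t ∈ HS d r := ⟨ht, hy⟩

lemma cs_self (z : Fin (d + 1) → ℂ) : cs (fun i => z i.succ) (z 0) = z :=
  ext_cons rfl fun _ => rfl

lemma tw_cs (k : ℤ) (y : Fin d → ℂ) (t : ℂ) : tw k (cs y t) = cs y (t + k * per) := rfl

/-- the inclusion of a slice as an affine map -/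
lemma hasFDerivAt_cs (y : Fin d → ℂ) (t : ℂ) :
    HasFDerivAt (𝕜 := ℝ) (cs y)
      ((ContinuousLinearMap.single ℝ (fun _ : Fin (d + 1) => ℂ) 0)) t := by
  have h1 : cs y = fun s => cs y 0 + ContinuousLinearMap.single ℝ (fun _ : Fin (d + 1) => ℂ) 0 s := by
    funext s
    apply ext_cons
    · simp [cs]
    · intro i; simp [cs]
  rw [h1]
  exact (ContinuousLinearMap.hasFDerivAt _).const_add _

/-- **the basic estimate** in the first variable -/
lemma fderiv_slice (hy : HP σ r) {y : Fin d → ℂ} (hyr : ∀ i, ‖y i‖ < r) {t : ℂ}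
    (ht : t.re < Real.log r) (u : Fin N → ℂ) :
    DifferentiableAt ℝ (fun s => H n (cs y s) u) t ∧
      ‖fderiv ℝ (fun s => H n (cs y s) u) t‖ ≤
        KN (Fin N) / (Real.log r - t.re) * H n (cs y t) u := by
  have hz : cs y t ∈ HS d r := cs_mem hyr ht
  have hs : 0 < Real.log r - t.re := by linarith
  have hd : DifferentiableAt ℝ (fun z => H n z u) (cs y t) := by
    have h1 := (BndA_563.fderiv_hn (vhs n hy) hz u 0).1
    simpa only [← H_eq] using h1
  have hcomp : HasFDerivAt (fun s => H n (cs y s) u)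
      ((fderiv ℝ (fun z => H n z u) (cs y t)).comp
        (ContinuousLinearMap.single ℝ (fun _ : Fin (d + 1) => ℂ) 0)) t :=
    hd.hasFDerivAt.comp t (hasFDerivAt_cs y t)
  refine ⟨hcomp.differentiableAt, ?_⟩
  have hH := H_nonneg n hz u
  refine ContinuousLinearMap.opNorm_le_bound _ (mul_nonneg (div_nonneg (KN_nonneg _) hs.le) hH)
    fun c => ?_
  rw [hcomp.fderiv]
  show ‖fderiv ℝ (fun z => H n z u) (cs y t) (Pi.single 0 c)‖ ≤ _
  by_cases hc : c = 0
  · rw [hc]; simp
  have hc' : 0 < ‖c‖ := norm_pos_iff.mpr hc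
  have hl := fderiv_line (vhs n hy) (x := cs y t) (Pi.single 0 c)
    (R := (Real.log r - t.re) / ‖c‖) (by positivity) (by
      intro τ hτ
      rw [lt_div_iff₀ hc'] at hτ
      have e : cs y t + τ • (Pi.single 0 c : Fin (d + 1) → ℂ) = cs y (t + τ * c) := by
        apply ext_cons
        · simp [cs]
        · intro i; simp [cs]
      rw [e]
      refine cs_mem hyr ?_
      rw [Complex.add_re]
      have h3 : (τ * c).re ≤ ‖τ * c‖ := Complex.re_le_norm _
      rw [norm_mul] at h3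
      linarith) u
  simp only [← H_eq] at hl
  rw [Real.norm_eq_abs]
  refine hl.2.trans (le_of_eq ?_)
  field_simp

/-- the slice shifted to the standard half plane -/
lemma slice_std (hσ : HP σ r) {y : Fin d → ℂ} (hyr : ∀ i, ‖y i‖ < r) (u : Fin N → ℂ) (t : ℂ)
    (ht : t.re < 0) :
    DifferentiableAt ℝ (fun s : ℂ => H n (cs y (s + Real.log r)) u) t ∧
      ‖fderiv ℝ (fun s : ℂ => H n (cs y (s + Real.log r)) u) t‖ ≤
        KN (Fin N) / |t.re| * H n (cs y (t + Real.log r)) u := by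
  have ht' : (t + Real.log r).re < Real.log r := by simpa using ht
  obtain ⟨h1, h2⟩ := fderiv_slice n hσ hyr ht' u
  have e : fderiv ℝ (fun s : ℂ => H n (cs y (s + Real.log r)) u) t =
      fderiv ℝ (fun s => H n (cs y s) u) (t + Real.log r) :=
    fderiv_comp_add_right (f := fun s => H n (cs y s) u) _
  refine ⟨DifferentiableAt.comp (g := fun s => H n (cs y s) u)
    (f := fun s : ℂ => s + (Real.log r : ℂ)) t h1 (by fun_prop), ?_⟩
  rw [e]
  refine h2.trans (le_of_eq ?_)
  have e2 : Real.log r - (t + Real.log r : ℂ).re = |t.re| := by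
    rw [abs_of_neg ht, Complex.add_re, Complex.ofReal_re]; ring
  rw [e2]

/-- eigenvalues of the monodromy have modulus one -/
theorem norm_eig (hσ : HP σ r) {v : Fin N → ℂ} {μ : ℂ} (hv : v ≠ 0)
    (hμ : cm n.T *ᵥ v = μ • v) : ‖μ‖ = 1 := by
  have hμ0 : μ ≠ 0 := by
    rintro rfl
    rw [zero_smul] at hμ
    apply hv
    have := cm_inv_mulVec n.T v
    rw [hμ, Matrix.mulVec_zero] at this
    exact this.symm
  have hy0 : ∀ i : Fin d, ‖(0 : Fin d → ℂ) i‖ < r := fun i => by simpa using hσ.hr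
  have hinv : Matrix.mulVecLin (cm n.T⁻¹) v = μ⁻¹ • v := by
    rw [Matrix.mulVecLin_apply]
    have h1 := cm_inv_mulVec n.T v
    rw [hμ, Matrix.mulVec_smul] at h1
    rw [← h1, smul_smul, inv_mul_cancel₀ hμ0, one_smul]
    rw [h1]
  have h1 := Grow_25.norm_eigenvalue (V := Fin N → ℂ)
    (N := fun t u => H n (cs 0 (t + Real.log r)) u) (T := Matrix.mulVecLin (cm n.T⁻¹))
    (p := 2) two_ne_zero (K := KN (Fin N))
    (fun t ht u hu => H_pos n (cs_mem hy0 (by simpa using ht)) hu)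
    (fun t _ c u => H_smul n _ c u)
    (fun t ht u _ => (slice_std n hσ hy0 u t ht).1)
    (fun t ht u _ => (slice_std n hσ hy0 u t ht).2)
    (by
      intro t ht u
      have hz : cs (0 : Fin d → ℂ) (t + Real.log r) ∈ HS d r := cs_mem hy0 (by simpa using ht)
      have h2 := H_tw n 1 hσ.hr hz (cm n.T⁻¹ *ᵥ u)
      rw [zpow_one, cm_mulVec_inv, tw_cs] at h2
      show H n (cs 0 (t + 2 * Real.pi * Complex.I + Real.log r)) u =
        H n (cs 0 (t + Real.log r)) (Matrix.mulVecLin (cm n.T⁻¹) u)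
      rw [Matrix.mulVecLin_apply, ← h2]
      congr 2
      simp only [per, Int.cast_one, one_mul]
      ring) hv hinv
  rw [norm_inv] at h1
  exact inv_eq_one.mp h1

/-- **quasi-unipotence** with the universal exponent -/
theorem quasi_unipotent (hσ : HP σ r) : (cm n.T ^ eN N - 1) ^ N = 0 :=
  unip n.T fun _ _ hv hμ => (norm_eig n hσ hv hμ).le

/-! ### comparison of norms, constants depending on the rank only -/

/-- horizontal comparison: `s = log r - Re t` -/
theorem H_horizontal (hσ : HP σ r) {y : Fin d → ℂ} (hyr : ∀ i, ‖y i‖ < r) (u : Fin N → ℂ)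
    {a b θ : ℝ} (hab : a ≤ b) (hb : b < 0) :
    H n (cs y (a + θ * Complex.I + Real.log r)) u ≤
      H n (cs y (b + θ * Complex.I + Real.log r)) u * (a / b) ^ KN (Fin N) ∧
    H n (cs y (b + θ * Complex.I + Real.log r)) u ≤
      H n (cs y (a + θ * Complex.I + Real.log r)) u * (a / b) ^ KN (Fin N) := by
  by_cases hu : u = 0
  · simp [hu]
  exact Grow_25.horizontal (f := fun t : ℂ => H n (cs y (t + Real.log r)) u) hab hb
    (fun t ht => H_pos n (cs_mem hyr (by simpa using ht)) hu)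
    (fun t ht => (slice_std n hσ hyr u t ht).1) (fun t ht => (slice_std n hσ hyr u t ht).2)

/-- vertical comparison -/
theorem H_vertical (hσ : HP σ r) {y : Fin d → ℂ} (hyr : ∀ i, ‖y i‖ < r) (u : Fin N → ℂ)
    {a θ θ' : ℝ} (ha : a < 0) :
    H n (cs y (a + θ' * Complex.I + Real.log r)) u ≤
      H n (cs y (a + θ * Complex.I + Real.log r)) u *
        Real.exp (KN (Fin N) * |θ' - θ| / |a|) := by
  by_cases hu : u = 0
  · simp [hu]
  exact Grow_25.vertical (f := fun t : ℂ => H n (cs y (t + Real.log r)) u) ha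
    (fun t ht => H_pos n (cs_mem hyr (by simpa using ht)) hu)
    (fun t ht => (slice_std n hσ hyr u t ht).1) (fun t ht => (slice_std n hσ hyr u t ht).2)

/-- growth along a strip relative to the point `log r - 1` -/
theorem H_growth (hσ : HP σ r) {y : Fin d → ℂ} (hyr : ∀ i, ‖y i‖ < r) (u : Fin N → ℂ)
    {t : ℂ} {M : ℝ} (ht : t.re ≤ -1) (hM : |t.im| ≤ M) :
    H n (cs y (t + Real.log r)) u ≤
      H n (cs y (-1 + Real.log r)) u * (Real.exp (KN (Fin N) * M) * |t.re| ^ KN (Fin N)) ∧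
    H n (cs y (-1 + Real.log r)) u ≤
      H n (cs y (t + Real.log r)) u * (Real.exp (KN (Fin N) * M) * |t.re| ^ KN (Fin N)) := by
  by_cases hu : u = 0
  · simp [hu]
  exact Grow_25.growth (f := fun t : ℂ => H n (cs y (t + Real.log r)) u) (KN_nonneg _)
    (fun t ht => H_pos n (cs_mem hyr (by simpa using ht)) hu)
    (fun t ht => (slice_std n hσ hyr u t ht).1) (fun t ht => (slice_std n hσ hyr u t ht).2) ht hM

/-- comparison in the other variables, on the half ball -/
theorem H_radial (hσ : HP σ r) {y y' : Fin d → ℂ} (hy : ∀ i, ‖y i‖ < r / 2)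
    (hy' : ∀ i, ‖y' i‖ < r / 2) {t : ℂ} (ht : t.re < Real.log r) (u : Fin N → ℂ) :
    H n (cs y t) u ≤ Real.exp (BndA_563.C0 (Fin N)) * H n (cs y' t) u := by
  have hr := hσ.hr
  have hf : ContDiffOn ℂ ∞ (fun y : Fin d → ℂ => cs y t) (ball 0 r) := by
    apply ContDiff.contDiffOn
    rw [contDiff_pi]
    intro i
    refine Fin.cases ?_ (fun j => ?_) i
    · exact contDiff_const
    · exact contDiff_apply ℂ ℂ j
  have hmaps : MapsTo (fun y : Fin d → ℂ => cs y t) (ball 0 r) (HS d r) := by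
    intro y hy
    refine cs_mem (fun i => ?_) ht
    exact lt_of_le_of_lt (norm_le_pi_norm y i) (mem_ball_zero_iff.mp hy)
  have hv := EndTh_659.pull (vhs n hσ) isOpen_ball hf hmaps
  have hmem : ∀ {y : Fin d → ℂ}, (∀ i, ‖y i‖ < r / 2) → y ∈ ball (0 : Fin d → ℂ) (r / 2) := by
    intro y hy
    rw [mem_ball_zero_iff, pi_norm_lt_iff (by positivity)]
    exact hy
  have h1 := BndA_563.hn_le hv hr Subset.rfl u (hmem hy) (hmem hy')
  have e : ∀ y : Fin d → ℂ, BndA_563.hn (VCalc_442.hm w n.fr.S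
      (fun p y => PP n p (cs y t)) y) u = H n (cs y t) u := by
    intro y
    rw [H_eq]; rfl
  rw [e, e] at h1
  exact h1

/-- norm comparison with the base point `(log r - 1, 0)`: constants depend on the rank and `M` only -/
theorem H_compare (hσ : HP σ r) {y : Fin d → ℂ} (hy : ∀ i, ‖y i‖ < r / 2) {t : ℂ} {M : ℝ}
    (ht : t.re ≤ -1) (hM : |t.im| ≤ M) (u : Fin N → ℂ) :
    H n (cs y (t + Real.log r)) u ≤ Real.exp (BndA_563.C0 (Fin N) + KN (Fin N) * M) *
      |t.re| ^ KN (Fin N) * H n (cs 0 (-1 + Real.log r)) u ∧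
    H n (cs 0 (-1 + Real.log r)) u ≤ Real.exp (BndA_563.C0 (Fin N) + KN (Fin N) * M) *
      |t.re| ^ KN (Fin N) * H n (cs y (t + Real.log r)) u := by
  have hr := hσ.hr
  have hyr : ∀ i, ‖y i‖ < r := fun i => lt_of_lt_of_le (hy i) (by linarith)
  have h0 : ∀ i : Fin d, ‖(0 : Fin d → ℂ) i‖ < r / 2 := fun i => by simpa using hr
  have ht1 : (-1 + Real.log r : ℂ).re < Real.log r := by simp
  obtain ⟨h1, h2⟩ := H_growth n hσ hyr u ht hM
  have h3 := H_radial n hσ hy h0 ht1 u
  have h4 := H_radial n hσ h0 hy ht1 u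
  have hp : 0 ≤ Real.exp (KN (Fin N) * M) * |t.re| ^ KN (Fin N) := by positivity
  rw [Real.exp_add]
  constructor
  · calc H n (cs y (t + Real.log r)) u
        ≤ H n (cs y (-1 + Real.log r)) u * (Real.exp (KN (Fin N) * M) * |t.re| ^ KN (Fin N)) := h1
      _ ≤ (Real.exp (BndA_563.C0 (Fin N)) * H n (cs 0 (-1 + Real.log r)) u) *
          (Real.exp (KN (Fin N) * M) * |t.re| ^ KN (Fin N)) :=
          mul_le_mul_of_nonneg_right h3 hp
      _ = _ := by ring
  · calc H n (cs 0 (-1 + Real.log r)) u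
        ≤ Real.exp (BndA_563.C0 (Fin N)) * H n (cs y (-1 + Real.log r)) u := h4
      _ ≤ Real.exp (BndA_563.C0 (Fin N)) * (H n (cs y (t + Real.log r)) u *
          (Real.exp (KN (Fin N) * M) * |t.re| ^ KN (Fin N))) :=
          mul_le_mul_of_nonneg_left h2 (Real.exp_pos _).le
      _ = _ := by ring

end

end Crest.Agent.R276.BdNf3_651
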