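import Crest.Agent.R276.BdNf4_651
import Crest.Agent.R276.Log_25

/-!
# Row 276, leaf BDNF (helper651), part 5 : the twisted section `Om`

`Om q = exp ((ku q₀ + g (ex q)) / M0) • om (flat frame)`, where `u = x^ku exp g` is the descending unit:
`|Om|² = |om|² |u|^{2/M0}`, `Om (q + 2πi) = z T Om q`, `z = exp (2πi ku / M0)`; growth on strips.
-/

set_option autoImplicit false
set_option linter.unusedSectionVars false

noncomputable section

open Set Filter Topology Matrix Metric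
open Crest.Agent.R271.Ho51
open Crest.Agent.R276.Ipc735
open Crest.Agent.R276.BdNf1_651
open Crest.Agent.R276.BdNf2_651
open Crest.Agent.R276.BdNf3_651
open Crest.Agent.R276.BdNf4_651
open Crest.Agent.R276.VLevi_327 (CYL)
open Crest.Agent.R276.CntDefs_857 (PS)
open scoped ContDiff

namespace Crest.Agent.R276.BdNf5_651

open Ipc735 (hq)

/-! ### holomorphic logarithm on convex open sets -/

theorem exists_hlog {E : Type*} [NormedAddCommGroup E] [NormedSpace ℂ E] {U : Set E}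
    (hc : Convex ℝ U) (ho : IsOpen U) (hne : U.Nonempty) {G : E → ℂ}
    (hG : DifferentiableOn ℂ G U) (h0 : ∀ q ∈ U, G q ≠ 0) :
    ∃ g : E → ℂ, DifferentiableOn ℂ g U ∧ ∀ q ∈ U, Complex.exp (g q) = G q := by
  have hsc : IsSimplyConnected U := by
    have := hc.contractibleSpace hne
    exact (inferInstance : SimplyConnectedSpace U)
  have hloc : LocallyPathConnectedSpace E := inferInstance
  obtain ⟨g, hg, hge⟩ := Complex.exists_continuousOn_eqOn_exp_comp hsc ho hG.continuousOn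
    (by rintro ⟨q, hq, hq0⟩; exact h0 q hq hq0)
  refine ⟨g, fun q hq => ?_, fun q hq => hge hq⟩
  have hq0 := h0 q hq
  have hGd : DifferentiableAt ℂ G q := (hG q hq).differentiableAt (ho.mem_nhds hq)
  have hgc : ContinuousAt g q := (hg q hq).continuousAt (ho.mem_nhds hq)
  -- near `q`, `g = g q + log (G / G q)`
  have h1 : Tendsto (fun x => (g x - g q).im) (𝓝 q) (𝓝 0) := by
    have h2 : ContinuousAt (fun x => (g x - g q).im) q :=
      Complex.continuous_im.continuousAt.comp (hgc.sub continuousAt_const)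
    have h3 := h2.tendsto
    simpa using h3
  have h2 : ∀ᶠ x in 𝓝 q, g x = g q + Complex.log (G x / G q) := by
    have hpi := Real.pi_pos
    have h3 : ∀ᶠ x in 𝓝 q, |(g x - g q).im| < Real.pi := by
      have := h1.eventually (gt_mem_nhds hpi)
      have h4 := h1.eventually (lt_mem_nhds (show -Real.pi < 0 by linarith))
      filter_upwards [this, h4] with x hx hx'
      exact abs_lt.mpr ⟨hx', hx⟩
    filter_upwards [h3, ho.mem_nhds hq] with x hx hxU
    have h4 : G x / G q = Complex.exp (g x - g q) := by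
      have e1 : Complex.exp (g x) = G x := hge hxU
      have e2 : Complex.exp (g q) = G q := hge hq
      rw [Complex.exp_sub, e1, e2]
    rw [h4, Complex.log_exp (by linarith [(abs_lt.mp hx).1]) (by linarith [(abs_lt.mp hx).2])]
    ring
  have h3 : DifferentiableAt ℂ (fun x => g q + Complex.log (G x / G q)) q := by
    have h4 : DifferentiableAt ℂ (fun x => G x / G q) q := by
      simp only [div_eq_mul_inv]
      exact hGd.mul_const _
    have h5 : G q / G q ∈ Complex.slitPlane := by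
      rw [div_self hq0]; exact Complex.one_mem_slitPlane
    exact (h4.clog h5).const_add _
  exact (h3.congr_of_eventuallyEq h2).differentiableWithinAt

/-! ### multiplication by a function -/

section gen

attribute [local instance] Matrix.linftyOpNormedRing Matrix.linftyOpNormedAlgebra

variable {E : Type*} [NormedAddCommGroup E] [NormedSpace ℂ E] [FiniteDimensional ℂ E]
variable {ι : Type*} [Fintype ι] [DecidableEq ι]
variable {w : ℕ} {U : Set E} {S : Matrix ι ι ℂ} {P : ℕ → E → Matrix ι ι ℂ} {σ : E → ι → ℂ}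

theorem Cy_smul (ho : IsOpen U) (h : Cy w U P σ) {c : E → ℂ} (hc : DifferentiableOn ℂ c U)
    (h0 : ∀ x ∈ U, c x ≠ 0) : Cy w U P (fun x => c x • σ x) where
  bot :=
    { hol := hc.smul h.bot.hol
      sm := by
        have h1 : ContDiffOn ℝ ∞ c U := fun x hx =>
          (((Crest.Agent.R266.SCV.analyticOnNhd_of_differentiableOn ho hc x hx).contDiffAt
            (n := ∞)).restrict_scalars ℝ).contDiffWithinAt
        exact h1.smul h.bot.sm
      mem := fun x hx => by rw [Matrix.mulVec_smul, h.bot.mem x hx] }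
  ne := fun x hx => smul_ne_zero (h0 x hx) (h.ne x hx)
  line := fun x hx v => by
    obtain ⟨l, hl⟩ := h.line x hx v
    have hcd : DifferentiableAt ℂ c x := (hc x hx).differentiableAt (ho.mem_nhds hx)
    have hσd : DifferentiableAt ℂ σ x := (h.bot.hol x hx).differentiableAt (ho.mem_nhds hx)
    have h1 : VCalc_442.dW (fun x => c x • σ x) v x =
        c x • VCalc_442.dW σ v x + (fderiv ℂ c x v) • σ x := by
      have hd : DifferentiableAt ℂ (fun x => c x • σ x) x := hcd.smul hσd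
      rw [VCalc_442.dW_of_diff hd, VCalc_442.dW_of_diff hσd, fderiv_fun_smul hcd hσd]
      simp
    refine ⟨l + fderiv ℂ c x v / c x, ?_⟩
    rw [h1, Matrix.mulVec_add, Matrix.mulVec_smul, Matrix.mulVec_smul, hl, h.bot.mem x hx,
      smul_smul, ← add_smul, smul_smul]
    congr 1
    have := h0 x hx
    field_simp

end gen

/-! ### the twisted section -/

section tw

variable {d : ℕ} {r : ℝ} {N w : ℕ} {m : ℕ} {X : Type*} [TopologicalSpace X] [RDom m X]
variable {σ : (Fin (d + 1) → ℂ) → X} {V : VHS m X N w} {om : X → Fin N → ℂ}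

/-- the factor `(x^ku exp g)^{1/M0}` -/
def fac (ku : ℤ) (M0 : ℕ) (g : (Fin (d + 1) → ℂ) → ℂ) (q : Fin (d + 1) → ℂ) : ℂ :=
  Complex.exp ((ku * q 0 + g (ex q)) / M0)

/-- the twisted section -/
def Om (n : Nf V σ r) (om : X → Fin N → ℂ) (ku : ℤ) (M0 : ℕ) (g : (Fin (d + 1) → ℂ) → ℂ)
    (q : Fin (d + 1) → ℂ) : Fin N → ℂ := fac ku M0 g q • n.fr.pull om q

/-- the root of unity -/
def zM (ku : ℤ) (M0 : ℕ) : ℂ := Complex.exp (ku * per / M0)

lemma zM_ne (ku : ℤ) (M0 : ℕ) : zM ku M0 ≠ 0 := Complex.exp_ne_zero _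

lemma norm_zM (ku : ℤ) (M0 : ℕ) : ‖zM ku M0‖ = 1 := by
  unfold zM
  rw [Complex.norm_exp]
  have : ((ku : ℂ) * per / M0).re = 0 := by
    rw [Complex.div_natCast_re, int_per_re, zero_div]
  rw [this, Real.exp_zero]

lemma zM_pow (ku : ℤ) {M0 : ℕ} (hM : 0 < M0) : zM ku M0 ^ M0 = 1 := by
  unfold zM
  rw [← Complex.exp_nat_mul]
  have h : (M0 : ℂ) ≠ 0 := by exact_mod_cast hM.ne'
  rw [mul_div_cancel₀ _ h, exp_int_per]

lemma fac_tw (ku : ℤ) (M0 : ℕ) (g : (Fin (d + 1) → ℂ) → ℂ) (k : ℤ) (q : Fin (d + 1) → ℂ) :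
    fac ku M0 g (tw k q) = zM ku M0 ^ k * fac ku M0 g q := by
  unfold fac zM
  rw [ex_tw, tw_apply_zero, ← Complex.exp_int_mul, ← Complex.exp_add]
  congr 1
  ring

lemma fac_ne (ku : ℤ) (M0 : ℕ) (g : (Fin (d + 1) → ℂ) → ℂ) (q : Fin (d + 1) → ℂ) :
    fac ku M0 g q ≠ 0 := Complex.exp_ne_zero _

lemma fac_diff (hr : 0 < r) (ku : ℤ) (M0 : ℕ) {g : (Fin (d + 1) → ℂ) → ℂ}
    (hg : DifferentiableOn ℂ g (PS d r)) : DifferentiableOn ℂ (fac ku M0 g) (HS d r) := by
  have h1 : DifferentiableOn ℂ (fun q => g (ex q)) (HS d r) :=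
    hg.comp differentiable_ex.differentiableOn fun q hq => ex_mem hr hq
  have h2 : DifferentiableOn ℂ (fun q : Fin (d + 1) → ℂ => (ku : ℂ) * q 0) (HS d r) := by
    fun_prop
  have h3 : DifferentiableOn ℂ (fun q : Fin (d + 1) → ℂ => ((ku : ℂ) * q 0 + g (ex q)) / M0)
      (HS d r) := by
    simp only [div_eq_mul_inv]
    exact (h2.add h1).mul_const _
  exact h3.cexp

variable (n : Nf V σ r)

lemma Om_tw (ku : ℤ) (M0 : ℕ) (g : (Fin (d + 1) → ℂ) → ℂ) (k : ℤ) {q : Fin (d + 1) → ℂ}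
    (hq : q ∈ HS d r) : Om n om ku M0 g (tw k q) =
      (zM ku M0 ^ k) • (cm (n.T ^ k) *ᵥ Om n om ku M0 g q) := by
  unfold Om
  rw [fac_tw, n.pull_tw om k hq, Matrix.mulVec_smul, smul_smul]

variable (h : HP σ r) (hc : CYL V om)
include h hc

theorem cy_Om (ku : ℤ) (M0 : ℕ) {g : (Fin (d + 1) → ℂ) → ℂ} (hg : DifferentiableOn ℂ g (PS d r)) :
    Cy w (HS d r) (PP n) (Om n om ku M0 g) :=
  Cy_smul (isOpen_HS d r) (cy n.fr h.hm hc) (fac_diff h.hr ku M0 hg) fun _ _ => fac_ne _ _ _ _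

omit hc h in
lemma H_Om (ku : ℤ) (M0 : ℕ) (g : (Fin (d + 1) → ℂ) → ℂ) {q : Fin (d + 1) → ℂ} (hq : q ∈ HS d r) :
    H n q (Om n om ku M0 g q) = ‖fac ku M0 g q‖ ^ 2 * VLevi_327.hn V (σ (ex q)) (om (σ (ex q))) := by
  unfold Om
  rw [H_smul]
  congr 1
  show (star (n.fr.pull om q) ⬝ᵥ hodge w n.fr.S (n.fr.E q) *ᵥ n.fr.pull om q).re = _
  rw [n.fr.hodge_pull hq om om]
  rfl

omit hc h in
lemma norm_fac_sq (ku : ℤ) (M0 : ℕ) (g : (Fin (d + 1) → ℂ) → ℂ) (q : Fin (d + 1) → ℂ) :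
    ‖fac ku M0 g q‖ ^ 2 = Real.exp (1 / M0 * Real.log
      (‖(ex q 0) ^ ku * Complex.exp (g (ex q))‖ ^ 2)) := by
  unfold fac
  rw [Complex.norm_exp, ← Real.exp_nat_mul]
  congr 1
  have h1 : (ex q 0) ^ ku * Complex.exp (g (ex q)) = Complex.exp (ku * q 0 + g (ex q)) := by
    rw [ex_zero, ← Complex.exp_int_mul, ← Complex.exp_add]
  rw [h1, Complex.norm_exp, Real.log_pow, Real.log_exp, Complex.div_natCast_re]
  push_cast
  ring

omit h in
/-- the norm of the twisted section -/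
lemma H_Om_eq (ku : ℤ) (M0 : ℕ) {g G : (Fin (d + 1) → ℂ) → ℂ} {u : X → ℂ}
    {q : Fin (d + 1) → ℂ} (hq : q ∈ HS d r) (hgG : Complex.exp (g (ex q)) = G (ex q))
    (hu : u (σ (ex q)) = (ex q 0) ^ ku * G (ex q)) :
    H n q (Om n om ku M0 g q) = Real.exp (-(VLevi_327.psi V om (σ (ex q)) -
      1 / M0 * Real.log (‖u (σ (ex q))‖ ^ 2))) := by
  rw [H_Om n ku M0 g hq, norm_fac_sq, hgG, ← hu]
  have h1 : VLevi_327.hn V (σ (ex q)) (om (σ (ex q))) =
      Real.exp (-VLevi_327.psi V om (σ (ex q))) := by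
    unfold VLevi_327.psi
    rw [neg_neg, Real.exp_log (VLevi_327.hn_pos V _ (hc.ne _))]
  rw [h1, ← Real.exp_add]
  congr 1
  ring

end tw

/-! ### growth of a section on strips -/

section gro

variable {d : ℕ} {r : ℝ} {N w : ℕ} {m : ℕ} {X : Type*} [TopologicalSpace X] [RDom m X]
variable {σ : (Fin (d + 1) → ℂ) → X} {V : VHS m X N w} (n : Nf V σ r) (h : HP σ r)
include h

/-- comparison in the variables `y`, around any centre -/
theorem H_radial' {y0 : Fin d → ℂ} {ρ : ℝ} (hρ : 0 < ρ) (hs : ∀ y ∈ ball y0 ρ, ∀ i, ‖y i‖ < r)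
    {y y' : Fin d → ℂ} (hy : y ∈ ball y0 (ρ / 2)) (hy' : y' ∈ ball y0 (ρ / 2)) {t : ℂ}
    (ht : t.re < Real.log r) (u : Fin N → ℂ) :
    H n (cs y t) u ≤ Real.exp (BndA_563.C0 (Fin N)) * H n (cs y' t) u := by
  have hf : ContDiffOn ℂ ∞ (fun y : Fin d → ℂ => cs y t) (ball y0 ρ) := by
    apply ContDiff.contDiffOn
    rw [contDiff_pi]
    intro i
    refine Fin.cases ?_ (fun j => ?_) i
    · exact contDiff_const
    · exact contDiff_apply ℂ ℂ j
  have hmaps : MapsTo (fun y : Fin d → ℂ => cs y t) (ball y0 ρ) (HS d r) := fun y hy =>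
    cs_mem (hs y hy) ht
  have hv := EndTh_659.pull (vhs n h) isOpen_ball hf hmaps
  have h1 := BndA_563.hn_le hv hρ Subset.rfl u hy hy'
  have e : ∀ y : Fin d → ℂ, BndA_563.hn (VCalc_442.hm w n.fr.S
      (fun p y => PP n p (cs y t)) y) u = H n (cs y t) u := by
    intro y
    rw [H_eq]; rfl
  rw [e, e] at h1
  exact h1

/-- the flat norm is bounded by the Hodge norms on strips, locally uniformly in `y` -/
theorem flat_le {y0 : Fin d → ℂ} (hy0 : ∀ i, ‖y0 i‖ < r) {M : ℝ} : ∃ C > 0, ∀ᶠ y in 𝓝 y0,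
    (∀ i, ‖y i‖ < r) ∧ ∀ t : ℂ, t.re ≤ Real.log r - 1 → |t.im| ≤ M → ∀ u : Fin N → ℂ,
      ‖u‖ ^ 2 ≤ C * (Real.log r - t.re) ^ KN (Fin N) * H n (cs y t) u := by
  have hr := h.hr
  obtain ⟨ρ, hρ, hs⟩ : ∃ ρ > 0, ∀ y ∈ ball y0 ρ, ∀ i, ‖y i‖ < r := by
    have hop : IsOpen {y : Fin d → ℂ | ∀ i, ‖y i‖ < r} := by
      rw [ofPred_forall]
      exact isOpen_iInter_of_finite fun i => isOpen_lt (by fun_prop) continuous_const
    obtain ⟨ρ, hρ, hs⟩ := Metric.isOpen_iff.1 hop y0 hy0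
    exact ⟨ρ, hρ, fun y hy => hs hy⟩
  have ht1 : (-1 + Real.log r : ℂ).re < Real.log r := by simp
  have hz0 : cs y0 (-1 + Real.log r) ∈ HS d r := cs_mem hy0 ht1
  obtain ⟨c, hc, C, -, hb⟩ := DiscA_651.exists_bounds (n.fr.hs hz0)
  have hlow := hb.self_of_nhds.1
  refine ⟨c⁻¹ * Real.exp (BndA_563.C0 (Fin N)) * Real.exp (KN (Fin N) * M), by positivity, ?_⟩
  filter_upwards [ball_mem_nhds y0 (half_pos hρ)] with y hy
  have hyr := hs y (ball_subset_ball (by linarith) hy)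
  refine ⟨hyr, fun t ht hM u => ?_⟩
  have h1 : c * ‖u‖ ^ 2 ≤ H n (cs y0 (-1 + Real.log r)) u := hlow u
  have h2 := H_radial' n h hρ hs (mem_ball_self (half_pos hρ)) hy ht1 u
  have h3 := (H_growth n h hyr u (t := t - Real.log r) (M := M)
    (by rw [Complex.sub_re, Complex.ofReal_re]; linarith)
    (by rw [Complex.sub_im, Complex.ofReal_im, sub_zero]; exact hM)).2
  have e1 : t - Real.log r + Real.log r = t := by ring
  have e2 : |(t - Real.log r : ℂ).re| = Real.log r - t.re := by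
    rw [Complex.sub_re, Complex.ofReal_re, abs_of_nonpos (by linarith)]
    ring
  rw [e1, e2] at h3
  have h4 : ‖u‖ ^ 2 ≤ c⁻¹ * H n (cs y0 (-1 + Real.log r)) u := by
    rw [le_inv_mul_iff₀ hc]; exact h1
  calc ‖u‖ ^ 2 ≤ c⁻¹ * H n (cs y0 (-1 + Real.log r)) u := h4
    _ ≤ c⁻¹ * (Real.exp (BndA_563.C0 (Fin N)) * H n (cs y (-1 + Real.log r)) u) := by gcongr
    _ ≤ c⁻¹ * (Real.exp (BndA_563.C0 (Fin N)) * (H n (cs y t) u *
        (Real.exp (KN (Fin N) * M) * (Real.log r - t.re) ^ KN (Fin N)))) := by gcongr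
    _ = _ := by ring

/-- growth of the section -/
theorem growth {Q : (Fin (d + 1) → ℂ) → Fin N → ℂ} {A C : ℝ} (hC : 0 ≤ C)
    (hQ : ∀ q ∈ HS d r, H n q (Q q) ≤ C * Real.exp (-A * (q 0).re)) {y0 : Fin d → ℂ}
    (hy0 : ∀ i, ‖y0 i‖ < r) {M : ℝ} : ∃ C' > 0, ∀ᶠ y in 𝓝 y0,
    (∀ i, ‖y i‖ < r) ∧ ∀ t : ℂ, t.re ≤ Real.log r - 1 → |t.im| ≤ M →
      ‖Q (cs y t)‖ ≤ C' * Real.exp (-((A + KN (Fin N)) / 2) * t.re) := by
  obtain ⟨B, hB, hb⟩ := flat_le n h hy0 (M := M)
  refine ⟨Real.sqrt (B * Real.exp (KN (Fin N) * Real.log r) * C) + 1, by positivity, ?_⟩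
  filter_upwards [hb] with y hy
  refine ⟨hy.1, fun t ht hM => ?_⟩
  have h1 := hy.2 t ht hM (Q (cs y t))
  have hmem : cs y t ∈ HS d r := cs_mem hy.1 (by linarith)
  have h2 := hQ _ hmem
  have hs : 1 ≤ Real.log r - t.re := by linarith
  have h3 : (Real.log r - t.re) ^ KN (Fin N) ≤ Real.exp (KN (Fin N) * (Real.log r - t.re)) := by
    have h4 : Real.log r - t.re ≤ Real.exp (Real.log r - t.re) := by
      have := Real.add_one_le_exp (Real.log r - t.re); linarith
    calc (Real.log r - t.re) ^ KN (Fin N) ≤ (Real.exp (Real.log r - t.re)) ^ KN (Fin N) :=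
          Real.rpow_le_rpow (by linarith) h4 (KN_nonneg _)
      _ = _ := by rw [← Real.exp_mul, mul_comm]
  have hC' : 0 ≤ C * Real.exp (-A * t.re) := by positivity
  have h5 : ‖Q (cs y t)‖ ^ 2 ≤ (B * Real.exp (KN (Fin N) * Real.log r) * C) *
      Real.exp (-((A + KN (Fin N)) / 2) * t.re) ^ 2 := by
    calc ‖Q (cs y t)‖ ^ 2 ≤ B * (Real.log r - t.re) ^ KN (Fin N) * H n (cs y t) (Q (cs y t)) := h1
      _ ≤ B * Real.exp (KN (Fin N) * (Real.log r - t.re)) * (C * Real.exp (-A * t.re)) := by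
          have h7 := H_nonneg n hmem (Q (cs y t))
          have h8 : H n (cs y t) (Q (cs y t)) ≤ C * Real.exp (-A * t.re) := h2
          gcongr
      _ = _ := by
          have e : Real.exp (KN (Fin N) * (Real.log r - t.re)) * Real.exp (-A * t.re) =
              Real.exp (KN (Fin N) * Real.log r) *
                Real.exp (-((A + KN (Fin N)) / 2) * t.re) ^ 2 := by
            rw [← Real.exp_nat_mul, ← Real.exp_add, ← Real.exp_add]
            congr 1
            push_cast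
            ring
          calc B * Real.exp (KN (Fin N) * (Real.log r - t.re)) * (C * Real.exp (-A * t.re))
              = B * C * (Real.exp (KN (Fin N) * (Real.log r - t.re)) * Real.exp (-A * t.re)) := by
                ring
            _ = _ := by rw [e]; ring
  have h6 := Real.sqrt_le_sqrt h5
  rw [Real.sqrt_sq (norm_nonneg _), Real.sqrt_mul (by positivity),
    Real.sqrt_sq (Real.exp_pos _).le] at h6
  refine h6.trans ?_
  gcongr
  linarith

end gro

end Crest.Agent.R276.BdNf5_651
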