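import Crest.Agent.R276.BdNf6_651
import Crest.Agent.R276.LftDefs_327

/-!
# Row 276, leaf BDNF (helper651), part 7 : comparison of two boundary charts

`σ' q = σ (q + (0, a))` on the overlap: the frames differ by a constant `A ∈ GL_N(ℤ)`; the monodromies,
logarithms, sections correspond; the order `k` is the same.
-/

set_option autoImplicit false
set_option linter.unusedSectionVars false

noncomputable section

open Set Filter Topology Matrix Metric
open Crest.Agent.R271.Ho51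
open Crest.Agent.R276.Ipc735
open Crest.Agent.R276.BdNf1_651
open Crest.Agent.R276.BdNf2_651
open Crest.Agent.R276.BdNf3_651
open Crest.Agent.R276.BdNf4_651
open Crest.Agent.R276.BdNf5_651
open Crest.Agent.R276.BdNf6_651
open Crest.Agent.R276.VLevi_327 (CYL)
open Crest.Agent.R276.CntDefs_857 (PS)
open Crest.Agent.R276.GrA_217 (EE)
open Crest.Agent.R276.GrC_217 (LCh tpi)
open scoped ContDiff

namespace Crest.Agent.R276.BdNf7_651

open Ipc735 (hq)

variable {d : ℕ} {N w : ℕ} {m : ℕ} {X : Type*} [TopologicalSpace X] [RDom m X]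
variable {r r' : ℝ} {σ σ' : (Fin (d + 1) → ℂ) → X} {V : VHS m X N w}

/-- translation vector -/
abbrev ca (a : Fin d → ℂ) : Fin (d + 1) → ℂ := Fin.cons 0 a

lemma ca_zero (a : Fin d → ℂ) : ca a 0 = 0 := rfl

lemma ca_succ (a : Fin d → ℂ) (i : Fin d) : ca a i.succ = a i := rfl

lemma ca_neg (a : Fin d → ℂ) : ca (-a) = - ca a := by
  apply ext_cons
  · simp [ca]
  · intro i; simp [ca]

lemma ex_add_ca (q : Fin (d + 1) → ℂ) (a : Fin d → ℂ) : ex (q + ca a) = ex q + ca a := by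
  apply ext_cons
  · simp [ca]
  · intro i; simp [ca]

lemma tw_add_ca (k : ℤ) (q : Fin (d + 1) → ℂ) (a : Fin d → ℂ) : tw k (q + ca a) = tw k q + ca a := by
  apply ext_cons
  · simp [ca]
  · intro i; simp [ca]

/-- the overlap -/
def Ov (d : ℕ) (r r' : ℝ) (a : Fin d → ℂ) : Set (Fin (d + 1) → ℂ) :=
  {q | q ∈ HS d r' ∧ q + ca a ∈ HS d r}

lemma tw_mem_Ov (k : ℤ) {a : Fin d → ℂ} {q : Fin (d + 1) → ℂ} (hq : q ∈ Ov d r r' a) :
    tw k q ∈ Ov d r r' a := by
  refine ⟨(tw_mem k).mpr hq.1, ?_⟩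
  rw [← tw_add_ca]
  exact (tw_mem k).mpr hq.2

lemma convex_Ov (r r' : ℝ) (a : Fin d → ℂ) : Convex ℝ (Ov d r r' a) := by
  have h1 : Ov d r r' a = HS d r' ∩ (fun q => q + ca a) ⁻¹' HS d r := rfl
  rw [h1]
  refine (convex_HS d r').inter ?_
  have h2 : (fun q : Fin (d + 1) → ℂ => q + ca a) = fun q => ca a + q := by
    funext q; exact add_comm q (ca a)
  rw [h2]
  exact (convex_HS d r).translate_preimage_right (ca a)

lemma isOpen_Ov (r r' : ℝ) (a : Fin d → ℂ) : IsOpen (Ov d r r' a) :=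
  (isOpen_HS d r').inter ((isOpen_HS d r).preimage (by fun_prop))

lemma Ov_nonempty (hr' : 0 < r') {a : Fin d → ℂ} (ha : ∀ i, ‖a i‖ < r) :
    bp d (min (Real.log r) (Real.log r') - 1) ∈ Ov d r r' a := by
  refine ⟨bp_mem hr' (by linarith [min_le_right (Real.log r) (Real.log r')]), ?_, ?_⟩
  · show ((bp d (min (Real.log r) (Real.log r') - 1) + ca a) 0).re < _
    have : (bp d (min (Real.log r) (Real.log r') - 1) + ca a) 0 =
        ((min (Real.log r) (Real.log r') - 1 : ℝ) : ℂ) := by simp [bp, ca]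
    rw [this, Complex.ofReal_re]
    linarith [min_le_left (Real.log r) (Real.log r')]
  · intro i
    have : (bp d (min (Real.log r) (Real.log r') - 1) + ca a) i.succ = a i := by simp [bp, ca]
    rw [this]; exact ha i

/-- the two charts correspond on the overlap -/
def Cpt (σ σ' : (Fin (d + 1) → ℂ) → X) (r r' : ℝ) (a : Fin d → ℂ) : Prop :=
  ∀ q ∈ PS d r', q + ca a ∈ PS d r → σ' q = σ (q + ca a)

lemma Cpt.lift {a : Fin d → ℂ} (h : Cpt σ σ' r r' a) (hr : 0 < r) (hr' : 0 < r') {q : Fin (d + 1) → ℂ}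
    (hq : q ∈ Ov d r r' a) : lift σ' q = lift σ (q + ca a) := by
  unfold BdNf2_651.lift
  rw [ex_add_ca]
  refine h _ (ex_mem hr' hq.1) ?_
  rw [← ex_add_ca]
  exact ex_mem hr hq.2

lemma Cpt.symm {a : Fin d → ℂ} (h : Cpt σ σ' r r' a) : Cpt σ' σ r' r (-a) := by
  intro q hq hq'
  have h1 := h (q + ca (-a)) hq' (by rw [ca_neg]; simpa using hq)
  rw [h1, ca_neg]
  simp

/-- the frames correspond -/
structure Fc (n : Nf V σ r) (n' : Nf V σ' r') (a : Fin d → ℂ) (A : GL (Fin N) ℤ) : Prop where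
  lft : ∀ q ∈ Ov d r r' a, lift σ' q = lift σ (q + ca a)
  g : ∀ q ∈ Ov d r r' a, n.fr.g (q + ca a) = n'.fr.g q * A

theorem exists_fc (n : Nf V σ r) (n' : Nf V σ' r') (hr : 0 < r) (hr' : 0 < r') {a : Fin d → ℂ}
    (ha : ∀ i, ‖a i‖ < r) (h : Cpt σ σ' r r' a) : ∃ A : GL (Fin N) ℤ, Fc n n' a A := by
  set b := bp d (min (Real.log r) (Real.log r') - 1) with hb
  have hbm : b ∈ Ov d r r' a := Ov_nonempty hr' ha
  have hloc : ∀ z ∈ Ov d r r' a, ∃ U ∈ 𝓝 z, ∀ x ∈ U, ∀ y ∈ U,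
      V.P (lift σ' x) (lift σ' y) = n'.fr.g x * (n'.fr.g y)⁻¹ := fun z hz => n'.fr.loc z hz.1
  have hloc' : ∀ z ∈ Ov d r r' a, ∃ U ∈ 𝓝 z, ∀ x ∈ U, ∀ y ∈ U,
      V.P (lift σ' x) (lift σ' y) = n.fr.g (x + ca a) * (n.fr.g (y + ca a))⁻¹ := by
    intro z hz
    obtain ⟨U, hU, hh⟩ := n.fr.loc (z + ca a) hz.2
    have hc : Continuous fun q : Fin (d + 1) → ℂ => q + ca a := by fun_prop
    refine ⟨(fun q => q + ca a) ⁻¹' U ∩ Ov d r r' a,
      inter_mem (hc.continuousAt hU) ((isOpen_Ov r r' a).mem_nhds hz), fun x hx y hy => ?_⟩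
    rw [h.lift hr hr' hx.2, h.lift hr hr' hy.2]
    exact hh _ hx.1 _ hy.1
  refine ⟨(n'.fr.g b)⁻¹ * n.fr.g (b + ca a), fun q hq => h.lift hr hr' hq, fun q hq => ?_⟩
  have h1 := frame_unique (convex_Ov r r' a).isPreconnected hloc hloc' hq hbm
  rw [← h1]
  group

namespace Fc

variable {n : Nf V σ r} {n' : Nf V σ' r'} {a : Fin d → ℂ} {A : GL (Fin N) ℤ}

lemma symm (h : Fc n n' a A) : Fc n' n (-a) A⁻¹ := by
  have h1 : ∀ q ∈ Ov d r' r (-a), q + ca (-a) ∈ Ov d r r' a := by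
    intro q hq
    refine ⟨hq.2, ?_⟩
    have : q + ca (-a) + ca a = q := by rw [ca_neg]; abel
    rw [this]; exact hq.1
  constructor
  · intro q hq
    have h2 := h.lft _ (h1 q hq)
    have : q + ca (-a) + ca a = q := by rw [ca_neg]; abel
    rw [this] at h2
    exact h2.symm
  · intro q hq
    have h2 := h.g _ (h1 q hq)
    have : q + ca (-a) + ca a = q := by rw [ca_neg]; abel
    rw [this] at h2
    rw [h2]
    group

lemma E_eq (h : Fc n n' a A) {q : Fin (d + 1) → ℂ} (hq : q ∈ Ov d r r' a) :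
    cm A * n.fr.E (q + ca a) = n'.fr.E q * cm A := by
  unfold Fr.E
  rw [h.g q hq, h.lft q hq, _root_.mul_inv_rev, cm_mul, cm_mul]
  have h1 : cm A * cm A⁻¹ = 1 := cm_mul_cm_inv _
  calc cm A * (cm A⁻¹ * cm (n'.fr.g q)⁻¹ * V.E (lift σ (q + ca a)) * (cm (n'.fr.g q) * cm A))
      = (cm A * cm A⁻¹) * (cm (n'.fr.g q)⁻¹ * V.E (lift σ (q + ca a)) * cm (n'.fr.g q)) * cm A := by
        noncomm_ring
    _ = _ := by rw [h1, Matrix.one_mul]

lemma P_eq (h : Fc n n' a A) {q : Fin (d + 1) → ℂ} (hq : q ∈ Ov d r r' a) (p : ℕ) :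
    PP n' p q * cm A = cm A * PP n p (q + ca a) := by
  show Ipc735.hq w (n'.fr.E q) p * cm A = cm A * Ipc735.hq w (n.fr.E (q + ca a)) p
  unfold Ipc735.hq
  split_ifs
  · exact (DiscA_651.hpr_comm (h.E_eq hq) w p).symm
  · simp

lemma pull_eq (h : Fc n n' a A) (φ : X → Fin N → ℂ) {q : Fin (d + 1) → ℂ}
    (hq : q ∈ Ov d r r' a) : n'.fr.pull φ q = cm A *ᵥ n.fr.pull φ (q + ca a) := by
  unfold Fr.pull
  rw [h.g q hq, h.lft q hq, _root_.mul_inv_rev, cm_mul, Matrix.mulVec_mulVec, ← Matrix.mul_assoc,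
    cm_mul_cm_inv, Matrix.one_mul]

lemma S_eq (h : Fc n n' a A) (hne : (Ov d r r' a).Nonempty) :
    n.fr.S = (cm A)ᴴ * n'.fr.S * cm A := by
  obtain ⟨q, hq⟩ := hne
  rw [n.fr.S_eq _ hq.2, n'.fr.S_eq _ hq.1, h.g q hq, ← h.lft q hq, cm_mul,
    Matrix.conjTranspose_mul]
  noncomm_ring

lemma T_eq (h : Fc n n' a A) (hne : (Ov d r r' a).Nonempty) : n'.T * A = A * n.T := by
  obtain ⟨q, hq⟩ := hne
  have h1 := h.g _ (tw_mem_Ov 1 hq)
  rw [← tw_add_ca, n.mono _ hq.2, n'.mono _ hq.1, h.g q hq] at h1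
  have h2 : A * n.T⁻¹ = n'.T⁻¹ * A := by
    have h3 : n'.fr.g q * (A * n.T⁻¹) = n'.fr.g q * (n'.T⁻¹ * A) := by
      rw [← mul_assoc, ← mul_assoc]; exact h1
    exact mul_left_cancel h3
  calc n'.T * A = n'.T * (A * n.T⁻¹) * n.T := by group
    _ = A * n.T := by rw [h2]; group

lemma cmT_eq (h : Fc n n' a A) (hne : (Ov d r r' a).Nonempty) :
    cm n'.T * cm A = cm A * cm n.T := by
  rw [← cm_mul, ← cm_mul, h.T_eq hne]

lemma cmTpow_eq (h : Fc n n' a A) (hne : (Ov d r r' a).Nonempty) (e : ℕ) :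
    cm n'.T ^ e * cm A = cm A * cm n.T ^ e := by
  induction e with
  | zero => simp
  | succ e ih => rw [pow_succ, Matrix.mul_assoc, h.cmT_eq hne, ← Matrix.mul_assoc, ih,
      Matrix.mul_assoc, ← pow_succ]

/-- an intertwiner also intertwines polynomials -/
lemma aeval_int {B Y Y' : Matrix (Fin N) (Fin N) ℂ} (h : Y' * B = B * Y) (p : Polynomial ℚ) :
    Polynomial.aeval Y' p * B = B * Polynomial.aeval Y p := by
  induction p using Polynomial.induction_on' with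
  | add f g hf hg => rw [map_add, map_add, mul_add, add_mul, hf, hg]
  | monomial k c =>
    rw [Polynomial.aeval_monomial, Polynomial.aeval_monomial]
    have h1 : ∀ k : ℕ, Y' ^ k * B = B * Y ^ k := by
      intro k
      induction k with
      | zero => simp
      | succ k ih => rw [pow_succ, Matrix.mul_assoc, h, ← Matrix.mul_assoc, ih, Matrix.mul_assoc,
          ← pow_succ]
    have h2 : algebraMap ℚ (Matrix (Fin N) (Fin N) ℂ) c * B =
        B * algebraMap ℚ (Matrix (Fin N) (Fin N) ℂ) c := Algebra.commutes _ _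
    rw [Matrix.mul_assoc, h1, ← Matrix.mul_assoc, h2, Matrix.mul_assoc]

lemma LL_eq (h : Fc n n' a A) (hne : (Ov d r r' a).Nonempty) (e : ℕ) :
    LL n' e * cm A = cm A * LL n e := by
  unfold LL Log_25.lg
  refine aeval_int ?_ _
  rw [Matrix.sub_mul, Matrix.mul_sub, h.cmTpow_eq hne, Matrix.one_mul, Matrix.mul_one]

/-- the exponentials correspond -/
lemma EE_eq {B L L' : Matrix (Fin N) (Fin N) ℂ} (hL : IsNilpotent L) (hL' : IsNilpotent L')
    (h : L' * B = B * L) (s : ℂ) : EE L' s * B = B * EE L s := by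
  unfold EE
  rw [GrA_217.exp_eq hL (n := Fintype.card (Fin N)) le_rfl,
    GrA_217.exp_eq hL' (n := Fintype.card (Fin N)) le_rfl, Finset.sum_mul, Finset.mul_sum]
  refine Finset.sum_congr rfl fun j _ => ?_
  have h1 : ∀ k : ℕ, L' ^ k * B = B * L ^ k := by
    intro k
    induction k with
    | zero => simp
    | succ k ih => rw [pow_succ, Matrix.mul_assoc, h, ← Matrix.mul_assoc, ih, Matrix.mul_assoc,
        ← pow_succ]
  rw [Matrix.smul_mul, Matrix.mul_smul, h1]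

/-- Hodge norms correspond -/
lemma H_eq' (h : Fc n n' a A) {q : Fin (d + 1) → ℂ} (hq : q ∈ Ov d r r' a) (u : Fin N → ℂ) :
    H n' q (cm A *ᵥ u) = H n (q + ca a) u := by
  have h2 := DiscA_651.hq_conj (h.E_eq hq) (h.S_eq ⟨q, hq⟩).symm w u
  exact h2.symm

end Fc

/-! ### the order along the divisor -/

section ord

variable {n : Nf V σ r} {n' : Nf V σ' r'} {a : Fin d → ℂ} {A : GL (Fin N) ℤ}

/-- the holomorphic extensions on the overlap of the polydiscs -/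
lemma ext_rel {e : ℕ} {k k' : ℤ} {z : ℂ} {Q f Q' f' : (Fin (d + 1) → ℂ) → Fin N → ℂ}
    (h : Fc n n' a A)
    (hl : LCh w e k (Real.log r) r n.fr.S (PP n) (cm n.T) z (LL n e) Q f)
    (hl' : LCh w e k' (Real.log r') r' n'.fr.S (PP n') (cm n'.T) z (LL n' e) Q' f')
    {c0 : ℂ} (hQ : ∀ q ∈ Ov d r r' a, Q' q = c0 • (cm A *ᵥ Q (q + ca a)))
    {u : ℂ} (hu0 : u ≠ 0) (hu : ‖u‖ < Real.exp (Real.log r / e))
    (hu' : ‖u‖ < Real.exp (Real.log r' / e)) {v : Fin d → ℂ} (hv' : ∀ i, ‖v i‖ < r')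
    (hv : ∀ i, ‖v i + a i‖ < r) :
    u ^ k' • f' (Fin.cons u v) = c0 • (cm A *ᵥ (u ^ k • f (Fin.cons u (v + a)))) := by
  have he := hl.he
  have heR : (0 : ℝ) < e := by exact_mod_cast he
  have heC : (e : ℂ) ≠ 0 := by exact_mod_cast he.ne'
  set q : Fin (d + 1) → ℂ := Fin.cons ((e : ℂ) * Complex.log u) v with hq
  have hq0 : q 0 / e = Complex.log u := by
    show (e : ℂ) * Complex.log u / e = _
    field_simp
  have hexp : Complex.exp (q 0 / e) = u := by rw [hq0, Complex.exp_log hu0]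
  have hre : ∀ {ρ : ℝ}, ‖u‖ < Real.exp (Real.log ρ / e) → (q 0).re < Real.log ρ := by
    intro ρ hρ
    have h1 : (q 0).re = e * Real.log ‖u‖ := by
      show ((e : ℂ) * Complex.log u).re = _
      simp [Complex.log_re]
    rw [h1]
    have h2 : Real.log ‖u‖ < Real.log ρ / e := by
      rw [Real.log_lt_iff_lt_exp (norm_pos_iff.mpr hu0)]; exact hρ
    rw [lt_div_iff₀ heR] at h2
    linarith
  have hqO : q ∈ Ov d r r' a := by
    refine ⟨⟨hre hu', hv'⟩, ?_, ?_⟩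
    · show (q 0 + 0).re < _
      rw [add_zero]; exact hre hu
    · exact hv
  have hqc0 : (q + ca a) 0 = q 0 := by
    show q 0 + 0 = q 0
    rw [add_zero]
  have htail : Fin.tail (q + ca a) = v + a := by
    funext i; rfl
  have h1 := hl'.f_Om q hqO.1
  have h2 := hl.f_Om (q + ca a) hqO.2
  rw [hexp] at h1
  rw [hqc0, hexp, htail] at h2
  have ht : Fin.tail q = v := by funext i; rfl
  rw [ht] at h1
  have hk : ∀ k : ℤ, u ^ k * Complex.exp (-(k * q 0 / e)) = 1 := by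
    intro k
    have e1 : u ^ k = Complex.exp (k * (q 0 / e)) := by
      rw [Complex.exp_int_mul, hexp]
    rw [e1, ← Complex.exp_add]
    have e2 : (k : ℂ) * (q 0 / e) + -(k * q 0 / e) = 0 := by ring
    rw [e2, Complex.exp_zero]
  have hEE := Fc.EE_eq hl.nil hl'.nil (h.LL_eq ⟨q, hqO⟩ e) (-(q 0 / (tpi * e)))
  rw [h1, h2, smul_smul, smul_smul, hk, hk, one_smul, one_smul, hQ q hqO, Matrix.mulVec_smul,
    Matrix.mulVec_mulVec, Matrix.mulVec_mulVec, hEE]

/-- the extension is analytic -/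
lemma f_an {e : ℕ} {k : ℤ} {z : ℂ} {ρ : ℝ} {S : Matrix (Fin N) (Fin N) ℂ}
    {P : ℕ → (Fin (d + 1) → ℂ) → Matrix (Fin N) (Fin N) ℂ} {T L : Matrix (Fin N) (Fin N) ℂ}
    {Q f : (Fin (d + 1) → ℂ) → Fin N → ℂ} {b : ℝ}
    (hl : LCh w e k b ρ S P T z L Q f) :
    AnalyticOnNhd ℂ f {q | ‖q 0‖ < Real.exp (b / e) ∧ ∀ i : Fin d, ‖q i.succ‖ < ρ} := by
  refine Crest.Agent.R266.SCV.analyticOnNhd_of_differentiableOn ?_ hl.hf
  have h : {q : Fin (d + 1) → ℂ | ‖q 0‖ < Real.exp (b / e) ∧ ∀ i : Fin d, ‖q i.succ‖ < ρ} =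
      {q | ‖q 0‖ < Real.exp (b / e)} ∩ ⋂ i : Fin d, {q | ‖q i.succ‖ < ρ} := by
    ext q; simp
  rw [h]
  refine (isOpen_lt (by fun_prop) continuous_const).inter (isOpen_iInter_of_finite fun i => ?_)
  exact isOpen_lt (by fun_prop) continuous_const

lemma cons_an (u : ℂ) (v : Fin d → ℂ) :
    AnalyticAt ℂ (fun v : Fin d → ℂ => (Fin.cons u v : Fin (d + 1) → ℂ)) v := by
  rw [analyticAt_pi_iff]
  intro i
  refine Fin.cases ?_ (fun j => ?_) i
  · exact analyticAt_const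
  · exact (ContinuousLinearMap.proj (R := ℂ) (φ := fun _ : Fin d => ℂ) j).analyticAt v

/-- the order of the second chart is at most the order of the first -/
lemma ord_le {e : ℕ} {k k' : ℤ} {z : ℂ} {Q f Q' f' : (Fin (d + 1) → ℂ) → Fin N → ℂ}
    (h : Fc n n' a A) (hr : 0 < r) {v0 : Fin d → ℂ} (hv0' : ∀ i, ‖v0 i‖ < r')
    (hv0 : ∀ i, ‖v0 i + a i‖ < r)
    (hl : LCh w e k (Real.log r) r n.fr.S (PP n) (cm n.T) z (LL n e) Q f)
    (hl' : LCh w e k' (Real.log r') r' n'.fr.S (PP n') (cm n'.T) z (LL n' e) Q' f')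
    {c0 : ℂ} (hc0 : c0 ≠ 0) (hQ : ∀ q ∈ Ov d r r' a, Q' q = c0 • (cm A *ᵥ Q (q + ca a)))
    (hne : ∃ y : Fin d → ℂ, (∀ i, ‖y i‖ < r) ∧ f (Fin.cons 0 y) ≠ 0) : k' ≤ k := by
  by_contra hlt
  rw [not_le] at hlt
  obtain ⟨j, hj⟩ : ∃ j : ℕ, k' = k + (j + 1) := by
    refine ⟨(k' - k - 1).toNat, ?_⟩
    rw [Int.toNat_of_nonneg (by omega)]; ring
  -- `f (0, ·)` vanishes on the overlap
  have hcons : ∀ (g : (Fin (d + 1) → ℂ) → Fin N → ℂ) (v : Fin d → ℂ),
      ContinuousAt g (Fin.cons 0 v) → ContinuousAt (fun u : ℂ => g (Fin.cons u v)) 0 := by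
    intro g v hg
    have h1 : ContinuousAt (fun u : ℂ => (Fin.cons u v : Fin (d + 1) → ℂ)) 0 := by
      rw [continuousAt_pi]
      intro i
      refine Fin.cases ?_ (fun j => ?_) i
      · exact continuousAt_id
      · exact continuousAt_const
    exact ContinuousAt.comp (g := g) (f := fun u : ℂ => (Fin.cons u v : Fin (d + 1) → ℂ)) hg h1
  have hz : ∀ v : Fin d → ℂ, (∀ i, ‖v i‖ < r') → (∀ i, ‖v i + a i‖ < r) →
      f (Fin.cons 0 (v + a)) = 0 := by
    intro v hv' hv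
    have hc : ContinuousAt (fun u : ℂ => f (Fin.cons u (v + a))) 0 :=
      hcons f (v + a) (f_an hl _ ⟨by simp [Real.exp_pos], hv⟩).continuousAt
    have hc' : ContinuousAt (fun u : ℂ => f' (Fin.cons u v)) 0 :=
      hcons f' v (f_an hl' _ ⟨by simp [Real.exp_pos], hv'⟩).continuousAt
    have h1 : Tendsto (fun u : ℂ => c0 • (cm A *ᵥ f (Fin.cons u (v + a)))) (𝓝[≠] 0)
        (𝓝 (c0 • (cm A *ᵥ f (Fin.cons 0 (v + a))))) := by
      have h2 : ContinuousAt (fun u : ℂ => c0 • (cm A *ᵥ f (Fin.cons u (v + a)))) 0 := by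
        have h3 : ContinuousAt (fun u : ℂ => cl (cm A) (f (Fin.cons u (v + a)))) 0 :=
          (cl (cm A)).continuous.continuousAt.comp hc
        exact h3.const_smul c0
      exact h2.tendsto.mono_left nhdsWithin_le_nhds
    have h2 : Tendsto (fun u : ℂ => u ^ (j + 1) • f' (Fin.cons u v)) (𝓝[≠] 0) (𝓝 0) := by
      have h3 : ContinuousAt (fun u : ℂ => u ^ (j + 1) • f' (Fin.cons u v)) 0 :=
        (continuousAt_id.pow (j + 1)).smul hc'
      have h4 := h3.tendsto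
      simp only [ne_eq, Nat.add_eq_zero_iff, one_ne_zero, and_false, not_false_eq_true, zero_pow,
        zero_smul] at h4
      exact h4.mono_left nhdsWithin_le_nhds
    have h3 : (fun u : ℂ => c0 • (cm A *ᵥ f (Fin.cons u (v + a)))) =ᶠ[𝓝[≠] 0]
        fun u : ℂ => u ^ (j + 1) • f' (Fin.cons u v) := by
      have h4 : ∀ᶠ u : ℂ in 𝓝[≠] 0, ‖u‖ < Real.exp (Real.log r / e) ∧
          ‖u‖ < Real.exp (Real.log r' / e) := by
        have h5 : ∀ ρ : ℝ, 0 < ρ → ∀ᶠ u : ℂ in 𝓝[≠] 0, ‖u‖ < ρ := by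
          intro ρ hρ
          refine nhdsWithin_le_nhds ?_
          filter_upwards [ball_mem_nhds (0 : ℂ) hρ] with u hu
          exact mem_ball_zero_iff.mp hu
        exact (h5 _ (Real.exp_pos _)).and (h5 _ (Real.exp_pos _))
      filter_upwards [h4, self_mem_nhdsWithin] with u hu hu0
      have hu0' : u ≠ 0 := hu0
      have h5 := ext_rel h hl hl' hQ hu0' hu.1 hu.2 hv' hv
      rw [hj, Matrix.mulVec_smul, smul_comm c0, _root_.zpow_add₀ hu0', mul_smul] at h5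
      have h6 := smul_right_injective (Fin N → ℂ) (zpow_ne_zero k hu0') h5
      rw [← h6]
      congr 1
    have h4 := tendsto_nhds_unique (h1.congr' h3) h2
    have h5 : cm A *ᵥ f (Fin.cons 0 (v + a)) = 0 := (smul_eq_zero.1 h4).resolve_left hc0
    have h6 := congrArg (fun x => cm A⁻¹ *ᵥ x) h5
    simp only [Matrix.mulVec_mulVec, cm_inv_mul_cm, Matrix.one_mulVec, Matrix.mulVec_zero] at h6
    exact h6
  -- identity theorem
  obtain ⟨y, hy, hy0⟩ := hne
  apply hy0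
  set U : Set (Fin d → ℂ) := {v | ∀ i, ‖v i‖ < r} with hU
  have hUb : U = ball 0 r := by
    ext y
    rw [mem_ball_zero_iff, pi_norm_lt_iff hr]
    rfl
  have hUc : IsPreconnected U := by rw [hUb]; exact (convex_ball 0 r).isPreconnected
  have ha2 : AnalyticOnNhd ℂ (fun v : Fin d → ℂ => f (Fin.cons 0 v)) U := by
    intro v hv
    exact (f_an hl (Fin.cons 0 v) ⟨by simp [Real.exp_pos], hv⟩).comp (cons_an 0 v)
  have hev : (fun v : Fin d → ℂ => f (Fin.cons 0 v)) =ᶠ[𝓝 (v0 + a)] 0 := by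
    have h1 : ∀ᶠ v in 𝓝 (v0 + a), (∀ i, ‖v i‖ < r) ∧ ∀ i, ‖(v - a) i‖ < r' := by
      have hop : IsOpen {v : Fin d → ℂ | (∀ i, ‖v i‖ < r) ∧ ∀ i, ‖(v - a) i‖ < r'} := by
        have e1 : {v : Fin d → ℂ | (∀ i, ‖v i‖ < r) ∧ ∀ i, ‖(v - a) i‖ < r'} =
            (⋂ i : Fin d, {v | ‖v i‖ < r}) ∩ ⋂ i : Fin d, {v | ‖(v - a) i‖ < r'} := by
          ext v; simp
        rw [e1]
        refine (isOpen_iInter_of_finite fun i => ?_).inter (isOpen_iInter_of_finite fun i => ?_)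
        · exact isOpen_lt (by fun_prop) continuous_const
        · exact isOpen_lt (by fun_prop) continuous_const
      refine hop.mem_nhds ⟨hv0, fun i => ?_⟩
      rw [add_sub_cancel_right]
      exact hv0' i
    filter_upwards [h1] with v hv
    have h2 := hz (v - a) hv.2 (by intro i; simpa using hv.1 i)
    rw [sub_add_cancel] at h2
    exact h2
  exact ha2.eqOn_zero_of_preconnected_of_eventuallyEq_zero hUc hv0 hev hy

end ord

end Crest.Agent.R276.BdNf7_651
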