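import Mathlib
import Crest.Agent.R276.CntDefs_857

/-!
# R276, leaf COUNT-GR, part F (helper217)

The radius function `radf` varies by a bounded factor on half of its own ball.
-/

set_option autoImplicit false
set_option linter.unusedSectionVars false

open Set Filter Topology Metric

namespace Crest.Agent.R276.GrF_217

open Crest.Agent.R276.CntDefs_857

/-- a polynomial without zeros in `‖t‖ < 2` -/
theorem poly_cmp {p : Polynomial ℂ} {D : ℕ} (hD : p.natDegree ≤ D)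
    (hp : ∀ t : ℂ, ‖t‖ < 2 → p.eval t ≠ 0) :
    ‖p.eval 1‖ ≤ 2 ^ D * ‖p.eval 0‖ ∧ ‖p.eval 0‖ ≤ 2 ^ D * ‖p.eval 1‖ := by
  have hs := IsAlgClosed.splits p
  have hroot : ∀ ρ ∈ p.roots, 2 ≤ ‖ρ‖ := by
    intro ρ hρ
    by_contra h1
    exact hp ρ (not_le.1 h1) (Polynomial.isRoot_of_mem_roots hρ)
  have hcard : p.roots.card ≤ D := (Polynomial.card_roots' p).trans hD
  have key : ∀ s : Multiset ℂ, (∀ ρ ∈ s, 2 ≤ ‖ρ‖) →
      ‖(s.map fun ρ => (1 : ℂ) - ρ).prod‖ ≤ 2 ^ s.card * ‖(s.map fun ρ => (0 : ℂ) - ρ).prod‖ ∧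
      ‖(s.map fun ρ => (0 : ℂ) - ρ).prod‖ ≤ 2 ^ s.card * ‖(s.map fun ρ => (1 : ℂ) - ρ).prod‖ := by
    intro s
    induction s using Multiset.induction_on with
    | empty => intro _; simp
    | cons ρ s ih =>
      intro hs
      obtain ⟨i1, i2⟩ := ih fun x hx => hs x (Multiset.mem_cons_of_mem hx)
      have h2 := hs ρ (Multiset.mem_cons_self ρ s)
      simp only [Multiset.map_cons, Multiset.prod_cons, norm_mul, Multiset.card_cons, zero_sub,
        norm_neg] at i1 i2 ⊢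
      have h3 : ‖(1 : ℂ) - ρ‖ ≤ 2 * ‖ρ‖ := by
        have := norm_sub_le (1 : ℂ) ρ
        rw [norm_one] at this
        linarith
      have h4 : ‖ρ‖ ≤ 2 * ‖(1 : ℂ) - ρ‖ := by
        have := norm_sub_norm_le ρ 1
        rw [norm_one, norm_sub_rev] at this
        linarith
      constructor
      · calc _ ≤ (2 * ‖ρ‖) * (2 ^ s.card * ‖(s.map fun ρ => -ρ).prod‖) := by gcongr
          _ = _ := by ring
      · calc _ ≤ (2 * ‖(1 : ℂ) - ρ‖) * (2 ^ s.card * ‖(s.map fun ρ => 1 - ρ).prod‖) := by gcongr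
          _ = _ := by ring
  obtain ⟨k1, k2⟩ := key p.roots hroot
  have h2D : (2 : ℝ) ^ p.roots.card ≤ 2 ^ D := pow_le_pow_right₀ (by norm_num) hcard
  rw [hs.eval_eq_prod_roots, hs.eval_eq_prod_roots, norm_mul, norm_mul]
  constructor
  · calc _ ≤ ‖p.leadingCoeff‖ * (2 ^ D * ‖(p.roots.map fun ρ => (0 : ℂ) - ρ).prod‖) := by
          gcongr
          exact k1.trans (by gcongr)
      _ = _ := by ring
  · calc _ ≤ ‖p.leadingCoeff‖ * (2 ^ D * ‖(p.roots.map fun ρ => (1 : ℂ) - ρ).prod‖) := by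
          gcongr
          exact k2.trans (by gcongr)
      _ = _ := by ring

variable {d : ℕ}

/-- restriction of a polynomial to a line -/
noncomputable def lin (h : MvPolynomial (Fin d) ℂ) (z v : Fin d → ℂ) : Polynomial ℂ :=
  MvPolynomial.aeval (fun i => Polynomial.C (z i) + Polynomial.C (v i) * Polynomial.X) h

theorem lin_eval (h : MvPolynomial (Fin d) ℂ) (z v : Fin d → ℂ) (t : ℂ) :
    (lin h z v).eval t = MvPolynomial.eval (z + t • v) h := by
  unfold lin
  induction h using MvPolynomial.induction_on with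
  | C a => simp [MvPolynomial.algebraMap_eq]
  | add p q hp hq => rw [map_add, Polynomial.eval_add, hp, hq, map_add]
  | mul_X p i hp =>
    rw [map_mul, Polynomial.eval_mul, hp, map_mul, MvPolynomial.aeval_X, MvPolynomial.eval_X]
    simp only [Polynomial.eval_add, Polynomial.eval_mul, Polynomial.eval_C, Polynomial.eval_X,
      Pi.add_apply, Pi.smul_apply, smul_eq_mul]
    ring

theorem lin_deg (h : MvPolynomial (Fin d) ℂ) (z v : Fin d → ℂ) :
    (lin h z v).natDegree ≤ h.totalDegree := by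
  have h1 := MvPolynomial.aeval_natDegree_le h le_rfl
    (fun i => Polynomial.C (z i) + Polynomial.C (v i) * Polynomial.X) (n := 1) (fun i => by
      rw [add_comm]
      exact Polynomial.natDegree_linear_le)
  rwa [mul_one] at h1

theorem h_cmp (h : MvPolynomial (Fin d) ℂ) {z z' : Fin d → ℂ} {r : ℝ}
    (hz : ∀ w ∈ ball z r, MvPolynomial.eval w h ≠ 0) (hz' : ‖z' - z‖ < r / 2) :
    ‖MvPolynomial.eval z' h‖ ≤ 2 ^ h.totalDegree * ‖MvPolynomial.eval z h‖ ∧
    ‖MvPolynomial.eval z h‖ ≤ 2 ^ h.totalDegree * ‖MvPolynomial.eval z' h‖ := by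
  have h1 := poly_cmp (lin_deg h z (z' - z)) fun t ht => by
    rw [lin_eval]
    apply hz
    rw [mem_ball, dist_eq_norm, add_sub_cancel_left, norm_smul]
    rcases (norm_nonneg t).eq_or_lt with h0 | h0
    · rw [← h0, zero_mul]
      linarith [norm_nonneg (z' - z)]
    · calc ‖t‖ * ‖z' - z‖ < ‖t‖ * (r / 2) := by gcongr
        _ ≤ 2 * (r / 2) := by
          have : 0 ≤ r / 2 := (norm_nonneg _).trans hz'.le
          gcongr
        _ = r := by ring
  rw [lin_eval, lin_eval, one_smul, zero_smul, add_zero, add_sub_cancel] at h1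
  exact h1

theorem min_le {x y M : ℝ} (hM : 1 ≤ M) (hy : 0 ≤ y) (h : x ≤ M * y) :
    min 1 x ≤ M * min 1 y := by
  rcases le_total 1 y with h1 | h1
  · rw [min_eq_left h1, mul_one]
    exact (min_le_left _ _).trans hM
  · rw [min_eq_right h1]
    exact (min_le_right _ _).trans h

theorem radf_pos {h : MvPolynomial (Fin d) ℂ} {c : ℝ} (hc : 0 < c) {κ : ℕ} {z : Fin d → ℂ}
    (hz : MvPolynomial.eval z h ≠ 0) : 0 < radf h c κ z := by
  unfold radf
  have h1 : 0 < min 1 ‖MvPolynomial.eval z h‖ := lt_min one_pos (norm_pos_iff.2 hz)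
  have h2 : 0 < 1 + ‖z‖ := by positivity
  positivity

theorem radf_le_one {h : MvPolynomial (Fin d) ℂ} {c : ℝ} (hc : 0 < c) (hc1 : c ≤ 1) {κ : ℕ}
    {z : Fin d → ℂ} : radf h c κ z ≤ 1 := by
  unfold radf
  have h1 : 0 ≤ min 1 ‖MvPolynomial.eval z h‖ := le_min zero_le_one (norm_nonneg _)
  have h2 : min 1 ‖MvPolynomial.eval z h‖ / (1 + ‖z‖) ≤ 1 := by
    rw [div_le_one (by positivity)]
    exact (min_le_left _ _).trans (by linarith [norm_nonneg z])
  have h3 : (min 1 ‖MvPolynomial.eval z h‖ / (1 + ‖z‖)) ^ κ ≤ 1 :=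
    pow_le_one₀ (by positivity) h2
  nlinarith

/-- **comparability of the radius** -/
theorem radf_cmp (h : MvPolynomial (Fin d) ℂ) {c : ℝ} (hc : 0 < c) (hc1 : c ≤ 1) (κ : ℕ)
    {z z' : Fin d → ℂ} (hz : ∀ w ∈ ball z (radf h c κ z), MvPolynomial.eval w h ≠ 0)
    (hz' : ‖z' - z‖ < radf h c κ z / 2) :
    radf h c κ z' ≤ (2 ^ (h.totalDegree + 1)) ^ κ * radf h c κ z ∧
    radf h c κ z ≤ (2 ^ (h.totalDegree + 1)) ^ κ * radf h c κ z' := by
  obtain ⟨h1, h2⟩ := h_cmp h hz hz'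
  have hr1 := radf_le_one (h := h) hc hc1 (κ := κ) (z := z)
  have h2D : (1 : ℝ) ≤ 2 ^ h.totalDegree := one_le_pow₀ (by norm_num)
  have m1 := min_le h2D (norm_nonneg _) h1
  have m2 := min_le h2D (norm_nonneg _) h2
  have n1 : ‖z'‖ ≤ ‖z‖ + 1 / 2 := by
    have := norm_add_le z (z' - z)
    rw [add_sub_cancel] at this
    linarith
  have n2 : ‖z‖ ≤ ‖z'‖ + 1 / 2 := by
    have := norm_sub_le z' (z' - z)
    rw [sub_sub_cancel] at this
    linarith
  have hn := norm_nonneg z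
  have hn' := norm_nonneg z'
  have p0 : 0 ≤ min 1 ‖MvPolynomial.eval z h‖ := le_min zero_le_one (norm_nonneg _)
  have p0' : 0 ≤ min 1 ‖MvPolynomial.eval z' h‖ := le_min zero_le_one (norm_nonneg _)
  have q1 : min 1 ‖MvPolynomial.eval z' h‖ / (1 + ‖z'‖) ≤
      2 ^ (h.totalDegree + 1) * (min 1 ‖MvPolynomial.eval z h‖ / (1 + ‖z‖)) := by
    rw [← mul_div_assoc, div_le_div_iff₀ (by positivity) (by positivity), pow_succ]
    calc min 1 ‖MvPolynomial.eval z' h‖ * (1 + ‖z‖)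
        ≤ (2 ^ h.totalDegree * min 1 ‖MvPolynomial.eval z h‖) * (2 * (1 + ‖z'‖)) := by
          gcongr
          linarith
      _ = _ := by ring
  have q2 : min 1 ‖MvPolynomial.eval z h‖ / (1 + ‖z‖) ≤
      2 ^ (h.totalDegree + 1) * (min 1 ‖MvPolynomial.eval z' h‖ / (1 + ‖z'‖)) := by
    rw [← mul_div_assoc, div_le_div_iff₀ (by positivity) (by positivity), pow_succ]
    calc min 1 ‖MvPolynomial.eval z h‖ * (1 + ‖z'‖)
        ≤ (2 ^ h.totalDegree * min 1 ‖MvPolynomial.eval z' h‖) * (2 * (1 + ‖z‖)) := by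
          gcongr
          linarith
      _ = _ := by ring
  unfold radf
  constructor
  · calc c * (min 1 ‖MvPolynomial.eval z' h‖ / (1 + ‖z'‖)) ^ κ
        ≤ c * (2 ^ (h.totalDegree + 1) * (min 1 ‖MvPolynomial.eval z h‖ / (1 + ‖z‖))) ^ κ := by
          gcongr
      _ = _ := by rw [mul_pow]; ring
  · calc c * (min 1 ‖MvPolynomial.eval z h‖ / (1 + ‖z‖)) ^ κ
        ≤ c * (2 ^ (h.totalDegree + 1) * (min 1 ‖MvPolynomial.eval z' h‖ / (1 + ‖z'‖))) ^ κ := by
          gcongr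
      _ = _ := by rw [mul_pow]; ring

/-- logarithmic form -/
theorem log_radf_cmp (h : MvPolynomial (Fin d) ℂ) {c : ℝ} (hc : 0 < c) (hc1 : c ≤ 1) (κ : ℕ)
    {z z' : Fin d → ℂ} (hz : ∀ w ∈ ball z (radf h c κ z), MvPolynomial.eval w h ≠ 0)
    (hz0 : MvPolynomial.eval z h ≠ 0)
    (hz' : ‖z' - z‖ < radf h c κ z / 2) :
    |Real.log (radf h c κ z') - Real.log (radf h c κ z)| ≤
      κ * ((h.totalDegree + 1) * Real.log 2) := by
  obtain ⟨h1, h2⟩ := radf_cmp h hc hc1 κ hz hz'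
  have hr := radf_pos (κ := κ) hc hz0
  have hr' : 0 < radf h c κ z' := radf_pos hc (hz z' (by
    rw [mem_ball, dist_eq_norm]; linarith))
  have e1 : Real.log ((2 ^ (h.totalDegree + 1)) ^ κ) = κ * ((h.totalDegree + 1) * Real.log 2) := by
    rw [Real.log_pow, Real.log_pow]
    push_cast
    ring
  have g1 := Real.log_le_log hr' h1
  have g2 := Real.log_le_log hr h2
  rw [Real.log_mul (by positivity) hr.ne', e1] at g1
  rw [Real.log_mul (by positivity) hr'.ne', e1] at g2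
  rw [abs_le]
  constructor <;> linarith

end Crest.Agent.R276.GrF_217
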