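import Mathlib
import Crest.Agent.R276.GrC_217
import Crest.Agent.R266.Osgood

/-!
# R276, leaf COUNT-GR, part D (helper217)

Descent of functions invariant under `u ↦ ζu` (`ζ^e = 1`) to `x = u^e`; the function `Λ` of a chart.
-/

set_option autoImplicit false
set_option linter.unusedSectionVars false

open Set Filter Topology Matrix Metric
open scoped ComplexOrder ContDiff

namespace Crest.Agent.R276.GrD_217

open Crest.Agent.R276.BndA_563 Crest.Agent.R276.VCalc_442 Crest.Agent.R276.GrA_217
open Crest.Agent.R276.GrB_217 Crest.Agent.R276.GrC_217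

section root

variable {d : ℕ}

/-- `{‖q₀‖ < ρ, ‖q_i‖ < R}` -/
def PD (d : ℕ) (ρ R : ℝ) : Set (Fin (d + 1) → ℂ) := {q | ‖q 0‖ < ρ ∧ ∀ i : Fin d, ‖q i.succ‖ < R}

theorem isOpen_PD (d : ℕ) (ρ R : ℝ) : IsOpen (PD d ρ R) := by
  unfold PD
  rw [ofPred_and, ofPred_forall]
  refine IsOpen.inter ?_ ?_
  · exact isOpen_lt (continuous_apply 0).norm continuous_const
  · exact isOpen_iInter_of_finite fun i => isOpen_lt (continuous_apply _).norm continuous_const

/-- the root of `x`: `u^e = x`, `‖u‖ = ‖x‖^{1/e}` -/
noncomputable def rt (e : ℕ) (x : ℂ) : ℂ := x ^ ((e : ℂ)⁻¹)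

theorem rt_pow {e : ℕ} (he : 0 < e) (x : ℂ) : rt e x ^ e = x :=
  Complex.cpow_nat_inv_pow x he.ne'

theorem norm_lt_of_pow {e : ℕ} (he : 0 < e) {u x : ℂ} (hu : u ^ e = x) {ρ a : ℝ}
    (hρ : Real.exp (a / e) = ρ) (hx : ‖x‖ < Real.exp a) : ‖u‖ < ρ := by
  have h1 : ‖u‖ ^ e < ρ ^ e := by
    rw [← norm_pow, hu, ← hρ, ← Real.exp_nat_mul]
    have : (e : ℝ) * (a / e) = a := by field_simp
    rwa [this]
  exact lt_of_pow_lt_pow_left₀ e (by rw [← hρ]; positivity) h1

theorem cons_PD {e : ℕ} (he : 0 < e) {a R : ℝ} {q : Fin (d + 1) → ℂ}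
    (hq : q ∈ PD d (Real.exp a) R) {u : ℂ} (hu : u ^ e = q 0) :
    (Fin.cons u (Fin.tail q) : Fin (d + 1) → ℂ) ∈ PD d (Real.exp (a / e)) R := by
  refine ⟨?_, fun i => ?_⟩
  · rw [Fin.cons_zero]
    exact norm_lt_of_pow he hu rfl hq.1
  · rw [Fin.cons_succ]
    exact hq.2 i

theorem differentiableAt_cons {E : Type*} [NormedAddCommGroup E] [NormedSpace ℂ E] {φ : E → ℂ}
    {ψ : E → Fin d → ℂ} {x : E} (hφ : DifferentiableAt ℂ φ x) (hψ : DifferentiableAt ℂ ψ x) :
    DifferentiableAt ℂ (fun y => (Fin.cons (φ y) (ψ y) : Fin (d + 1) → ℂ)) x := by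
  rw [differentiableAt_pi]
  intro i
  refine Fin.cases ?_ (fun j => ?_) i
  · simpa using hφ
  · simpa using (differentiableAt_pi.1 hψ j)

theorem differentiableAt_tail (x : Fin (d + 1) → ℂ) :
    DifferentiableAt ℂ (fun q : Fin (d + 1) → ℂ => Fin.tail q) x := by
  rw [differentiableAt_pi]
  intro i
  unfold Fin.tail
  fun_prop

/-- **root descent** -/
theorem root_desc {e : ℕ} (he : 0 < e) {a R : ℝ} {F : (Fin (d + 1) → ℂ) → ℂ}
    (hF : DifferentiableOn ℂ F (PD d (Real.exp (a / e)) R))
    (hinv : ∀ (u u' : ℂ) (v : Fin d → ℂ), u ^ e = u' ^ e → F (Fin.cons u v) = F (Fin.cons u' v)) :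
    DifferentiableOn ℂ (fun q => F (Fin.cons (rt e (q 0)) (Fin.tail q))) (PD d (Real.exp a) R) := by
  set G : (Fin (d + 1) → ℂ) → ℂ := fun q => F (Fin.cons (rt e (q 0)) (Fin.tail q)) with hG
  have he' : (e : ℂ) ≠ 0 := by exact_mod_cast he.ne'
  have hFat : ∀ q ∈ PD d (Real.exp a) R, ∀ u : ℂ, u ^ e = q 0 →
      DifferentiableAt ℂ F (Fin.cons u (Fin.tail q)) := fun q hq u hu =>
    hF.differentiableAt ((isOpen_PD d _ R).mem_nhds (cons_PD he hq hu))
  -- differentiability off `q 0 = 0`
  have h1 : ∀ q ∈ PD d (Real.exp a) R, q 0 ≠ 0 → DifferentiableAt ℂ G q := by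
    intro q hq hq0
    by_cases hs : q 0 ∈ Complex.slitPlane
    · have h2 : DifferentiableAt ℂ (fun p : Fin (d + 1) → ℂ => rt e (p 0)) q := by
        unfold rt
        exact (differentiableAt_apply (0 : Fin (d + 1)) q).cpow_const hs
      exact (hFat q hq _ (rt_pow he _)).comp q (differentiableAt_cons h2 (differentiableAt_tail q))
    · have hs' : -q 0 ∈ Complex.slitPlane := by
        rw [Complex.mem_slitPlane_iff] at hs ⊢
        push Not at hs
        rw [Complex.neg_re, Complex.neg_im]
        by_cases h3 : (q 0).im = 0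
        · left
          have h4 : (q 0).re ≠ 0 := fun h5 => hq0 (Complex.ext h5 h3)
          have := lt_of_le_of_ne hs.1 h4
          linarith
        · exact absurd hs.2 h3
      set η : ℂ := Complex.exp (Real.pi * Complex.I / e) with hη
      have hηe : η ^ e = -1 := by
        rw [hη, ← Complex.exp_nat_mul]
        have : (e : ℂ) * (Real.pi * Complex.I / e) = Real.pi * Complex.I := by field_simp
        rw [this, Complex.exp_pi_mul_I]
      have h2 : DifferentiableAt ℂ (fun p : Fin (d + 1) → ℂ => η * rt e (-(p 0))) q := by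
        unfold rt
        have h0 : DifferentiableAt ℂ (fun p : Fin (d + 1) → ℂ => -(p 0)) q := by fun_prop
        exact (h0.cpow_const hs').const_mul η
      have hpow : ∀ x : ℂ, (η * rt e (-x)) ^ e = x := by
        intro x
        rw [mul_pow, hηe, rt_pow he]
        ring
      have h3 : G = fun p => F (Fin.cons (η * rt e (-(p 0))) (Fin.tail p)) := by
        funext p
        exact hinv _ _ _ (by rw [rt_pow he, hpow])
      rw [h3]
      exact (hFat q hq _ (hpow _)).comp q (differentiableAt_cons h2 (differentiableAt_tail q))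
  -- continuity
  have h2 : ContinuousOn G (PD d (Real.exp a) R) := by
    intro q hq
    refine ContinuousAt.continuousWithinAt ?_
    by_cases hq0 : q 0 = 0
    · have h3 : ContinuousAt (fun p : Fin (d + 1) → ℂ => rt e (p 0)) q := by
        have h4 : Continuous (fun x : ℂ => ‖x‖ ^ ((e : ℝ)⁻¹)) :=
          continuous_norm.rpow_const (fun _ => Or.inr (by positivity))
        have h5 : ∀ x : ℂ, ‖rt e x‖ = ‖x‖ ^ ((e : ℝ)⁻¹) := by
          intro x
          have h6 : ‖rt e x‖ ^ e = ‖x‖ := by rw [← norm_pow, rt_pow he]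
          rw [← h6, Real.pow_rpow_inv_natCast (norm_nonneg _) he.ne']
        have h7 : rt e (q 0) = 0 := by
          have := rt_pow he (q 0)
          rw [hq0] at this ⊢
          exact pow_eq_zero_iff he.ne' |>.1 this
        rw [ContinuousAt, h7, tendsto_zero_iff_norm_tendsto_zero]
        simp_rw [h5]
        have h8 := (h4.comp (continuous_apply (0 : Fin (d + 1)))).continuousAt (x := q)
        rw [ContinuousAt, Function.comp_apply, hq0] at h8
        rw [norm_zero, Real.zero_rpow (inv_ne_zero (by exact_mod_cast he.ne' : (e : ℝ) ≠ 0))] at h8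
        exact h8
      have h4 : ContinuousAt (fun p : Fin (d + 1) → ℂ =>
          (Fin.cons (rt e (p 0)) (Fin.tail p) : Fin (d + 1) → ℂ)) q := by
        rw [continuousAt_pi]
        intro i
        refine Fin.cases ?_ (fun j => ?_) i
        · simpa using h3
        · simp only [Fin.cons_succ]
          exact (continuous_apply j.succ).continuousAt
      exact ContinuousAt.comp (x := q) (f := fun p : Fin (d + 1) → ℂ =>
          (Fin.cons (rt e (p 0)) (Fin.tail p) : Fin (d + 1) → ℂ))
        (hFat q hq _ (rt_pow he _)).continuousAt h4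
    · exact (h1 q hq hq0).continuousAt
  have h3 : AnalyticOnNhd ℂ G (PD d (Real.exp a) R) := by
    refine Crest.Agent.R266.SCV.osgood_pi (d + 1) G (isOpen_PD d _ R) h2 ?_
    intro x hx i
    by_cases hx0 : x 0 = 0
    · refine Fin.cases ?_ (fun j => ?_) i
      · -- first variable
        have hcont : Continuous (fun t : ℂ => Function.update x 0 t) :=
          continuous_const.update 0 continuous_id
        have hopen : IsOpen ((fun t : ℂ => Function.update x 0 t) ⁻¹' (PD d (Real.exp a) R)) :=
          (isOpen_PD d _ R).preimage hcont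
        have hmem : x 0 ∈ (fun t : ℂ => Function.update x 0 t) ⁻¹' (PD d (Real.exp a) R) := by
          rw [mem_preimage, Function.update_eq_self]
          exact hx
        refine (Complex.analyticAt_of_differentiable_on_punctured_nhds_of_continuousAt
          ?_ ?_).differentiableAt
        · rw [eventually_nhdsWithin_iff]
          filter_upwards [hopen.mem_nhds hmem] with t ht ht0
          have h4 : (Function.update x 0 t) 0 ≠ 0 := by
            rw [Function.update_self]
            intro h5
            exact ht0 (by rw [mem_singleton_iff, h5, hx0])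
          have h6 : DifferentiableAt ℂ (fun t : ℂ => Function.update x 0 t) t := by
            rw [differentiableAt_pi]
            intro j
            by_cases hj : j = 0
            · subst hj
              simp
            · simp [Function.update_of_ne hj]
          exact (h1 _ ht h4).comp t h6
        · have h5 : ContinuousAt G (Function.update x 0 (x 0)) := by
            rw [Function.update_eq_self]
            exact h2.continuousAt ((isOpen_PD d _ R).mem_nhds hx)
          exact ContinuousAt.comp (x := x 0) (f := fun t : ℂ => Function.update x 0 t) h5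
            hcont.continuousAt
      · -- other variables
        have h4 : (fun t : ℂ => G (Function.update x j.succ t)) =
            fun t : ℂ => F (Fin.cons (rt e (x 0)) (Fin.tail (Function.update x j.succ t))) := by
          funext t
          simp only [hG]
          rw [Function.update_of_ne (Fin.succ_ne_zero j).symm]
        rw [h4]
        have h5 : DifferentiableAt ℂ (fun t : ℂ => (Fin.cons (rt e (x 0))
            (Fin.tail (Function.update x j.succ t)) : Fin (d + 1) → ℂ)) (x j.succ) := by
          refine differentiableAt_cons (differentiableAt_const _) ?_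
          rw [differentiableAt_pi]
          intro l
          unfold Fin.tail
          by_cases hl : l = j
          · subst hl
            simp
          · have : l.succ ≠ j.succ := fun h => hl (Fin.succ_injective _ h)
            simp [Function.update_of_ne this]
        have h6 := hFat x hx _ (rt_pow he (x 0))
        have h7 : DifferentiableAt ℂ F (Fin.cons (rt e (x 0))
            (Fin.tail (Function.update x j.succ (x j.succ)))) := by
          rw [Function.update_eq_self]
          exact h6
        exact h7.comp (x j.succ) h5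
    · have h4 := h1 x hx hx0
      have h6 : DifferentiableAt ℂ (fun t : ℂ => Function.update x i t) (x i) := by
        rw [differentiableAt_pi]
        intro j
        by_cases hj : j = i
        · subst hj
          simp
        · simp [Function.update_of_ne hj]
      have h7 : DifferentiableAt ℂ G (Function.update x i (x i)) := by
        rw [Function.update_eq_self]
        exact h4
      exact h7.comp (x i) h6
  exact h3.differentiableOn

end root

section fun_

variable {ι : Type*} [Fintype ι] [DecidableEq ι]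

/-- supporting functional -/
theorem exists_fun {K : Matrix ι ι ℂ} (hK : K.PosDef) (v : ι → ℂ) :
    ∃ l : (ι → ℂ) →ₗ[ℂ] ℂ, (∀ u, ‖l u‖ ≤ nrm K u) ∧ ‖l v‖ = nrm K v := by
  by_cases hv : v = 0
  · refine ⟨0, fun u => ?_, ?_⟩
    · simpa using nrm_nonneg K u
    · rw [hv, nrm_zero]
      simp
  have hpos := hn_pos hK hv
  have hn0 : 0 < nrm K v := Real.sqrt_pos.2 hpos
  refine ⟨((nrm K v : ℂ)⁻¹) • ((dotProductBilin ℂ ℂ (star v)).comp (Matrix.toLin' K)), ?_, ?_⟩
  · intro u
    have h1 := norm_dot_K_le hK v u
    have h2 : ‖star v ⬝ᵥ K *ᵥ u‖ ≤ nrm K v * nrm K u := by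
      unfold nrm
      rw [← Real.sqrt_mul (hn_nonneg hK v)]
      exact Real.le_sqrt_of_sq_le h1
    have h3 : ‖(((nrm K v : ℂ)⁻¹) • ((dotProductBilin ℂ ℂ (star v)).comp (Matrix.toLin' K))) u‖ =
        (nrm K v)⁻¹ * ‖star v ⬝ᵥ K *ᵥ u‖ := by
      simp [abs_of_pos hn0]
    rw [h3, inv_mul_le_iff₀ hn0]
    exact h2
  · have h3 : ‖(((nrm K v : ℂ)⁻¹) • ((dotProductBilin ℂ ℂ (star v)).comp (Matrix.toLin' K))) v‖ =
        (nrm K v)⁻¹ * ‖star v ⬝ᵥ K *ᵥ v‖ := by
      simp [abs_of_pos hn0]
    have h4 : ‖star v ⬝ᵥ K *ᵥ v‖ = nrm K v ^ 2 := by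
      rw [nrm_sq hK]
      have h5 : star v ⬝ᵥ K *ᵥ v = ((hn K v : ℝ) : ℂ) := by
        have h6 := hK.isHermitian.im_star_dotProduct_mulVec_self v
        apply Complex.ext
        · simp [hn]
        · simpa using h6
      rw [h5, Complex.norm_real, Real.norm_of_nonneg hpos.le]
    rw [h3, h4]
    field_simp

end fun_

end Crest.Agent.R276.GrD_217
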