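import Mathlib
import Crest.Agent.R276.GrD_217

/-!
# R276, leaf COUNT-GR, part E (helper217)

The functions `Λ` and `l` of one chart.
-/

set_option autoImplicit false
set_option linter.unusedSectionVars false

open Set Filter Topology Matrix Metric
open scoped ComplexOrder ContDiff

namespace Crest.Agent.R276.GrE_217

open Crest.Agent.R276.BndA_563 Crest.Agent.R276.VCalc_442 Crest.Agent.R276.GrA_217
open Crest.Agent.R276.GrB_217 Crest.Agent.R276.GrC_217 Crest.Agent.R276.GrC_217.LCh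
open Crest.Agent.R276.GrD_217

variable {ι : Type*} [Fintype ι] [DecidableEq ι] {d : ℕ}

variable {w e : ℕ} {k : ℤ} {a R : ℝ} {S : Matrix ι ι ℂ}
  {P : ℕ → (Fin (d + 1) → ℂ) → Matrix ι ι ℂ} {T : Matrix ι ι ℂ} {z : ℂ} {L : Matrix ι ι ℂ}
  {Om f : (Fin (d + 1) → ℂ) → ι → ℂ}

theorem nrm_om_nat (h : LCh w e k a R S P T z L Om f) {q q' : Fin (d + 1) → ℂ}
    (hq : q ∈ HB d a R) (n : ℕ) (hn : q' 0 = q 0 + n * tpi)
    (ht : Fin.tail q' = Fin.tail q) :
    nrm (hm w S P q') (Om q') = nrm (hm w S P q) (Om q) := by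
  have h1 : q' = q + Pi.single 0 ((n : ℂ) * tpi) := by
    funext j
    refine Fin.cases ?_ (fun i => ?_) j
    · simp [hn]
    · have h2 := congrFun ht i
      simp only [Fin.tail] at h2
      simp [h2]
  rw [h1, h.nrm_om_per hq]

theorem nrm_om_congr (h : LCh w e k a R S P T z L Om f) {q q' : Fin (d + 1) → ℂ}
    (hq : q ∈ HB d a R) (hq' : q' ∈ HB d a R) (h0 : Complex.exp (q' 0) = Complex.exp (q 0))
    (ht : Fin.tail q' = Fin.tail q) :
    nrm (hm w S P q') (Om q') = nrm (hm w S P q) (Om q) := by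
  obtain ⟨n, hn⟩ := Complex.exp_eq_exp_iff_exists_int.1 h0
  rcases Int.eq_nat_or_neg n with ⟨m, rfl | rfl⟩
  · exact nrm_om_nat h hq m (by rw [hn]; simp [tpi]) ht
  · refine (nrm_om_nat h hq' m ?_ ht.symm).symm
    rw [hn]
    push_cast
    unfold tpi
    ring

/-- the vector `Ω_b = exp(b₀ L / 2πie) f` -/
noncomputable def Omb (e : ℕ) (L : Matrix ι ι ℂ) (f : (Fin (d + 1) → ℂ) → ι → ℂ) (b0 : ℂ)
    (q : Fin (d + 1) → ℂ) : ι → ℂ := EE L (b0 / (tpi * e)) *ᵥ f q

theorem lin_diff (l : (ι → ℂ) →ₗ[ℂ] ℂ) {E : Type*} [NormedAddCommGroup E] [NormedSpace ℂ E]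
    {g : E → ι → ℂ} {s : Set E} (hg : DifferentiableOn ℂ g s) :
    DifferentiableOn ℂ (fun x => l (g x)) s :=
  (LinearMap.toContinuousLinearMap l).differentiable.comp_differentiableOn hg

theorem mulVec_diff (A : Matrix ι ι ℂ) {E : Type*} [NormedAddCommGroup E] [NormedSpace ℂ E]
    {g : E → ι → ℂ} {s : Set E} (hg : DifferentiableOn ℂ g s) :
    DifferentiableOn ℂ (fun x => A *ᵥ g x) s :=
  (LinearMap.toContinuousLinearMap (Matrix.toLin' A)).differentiable.comp_differentiableOn hg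

theorem Omb_diff (h : LCh w e k a R S P T z L Om f) (b0 : ℂ) :
    DifferentiableOn ℂ (Omb e L f b0) (PD d (Real.exp (a / e)) R) :=
  mulVec_diff _ h.hf

/-- **the function `Λ`** -/
theorem exists_Lam (h : LCh w e k a R S P T z L Om f) {b : Fin (d + 1) → ℂ}
    (hb : b ∈ HQ d a R) :
    ∃ (l : (ι → ℂ) →ₗ[ℂ] ℂ) (Λ : (Fin (d + 1) → ℂ) → ℂ),
      (∀ u, ‖l u‖ ≤ nrm (hm w S P b) u) ∧
      ‖l (Omb e L f (b 0) 0)‖ = nrm (hm w S P b) (Omb e L f (b 0) 0) ∧
      DifferentiableOn ℂ Λ (PD d (Real.exp a) R) ∧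
      (∀ v : Fin d → ℂ, Λ (Fin.cons 0 v) = l (Omb e L f (b 0) (Fin.cons 0 v)) ^ e) ∧
      ∀ q ∈ HQ d a R, ‖Λ (Fin.cons (Complex.exp (q 0)) (Fin.tail q))‖ ≤
        Real.exp (-(k * (q 0).re)) *
          cD ι e (|(b 0).re - (q 0).re| + (|(b 0).im| + Real.pi * e)) ^ e *
          nrm (hm w S P q) (Om q) ^ e := by
  classical
  have he := h.he
  have he0 : (e : ℂ) ≠ 0 := by exact_mod_cast he.ne'
  have heR : (0 : ℝ) < e := by exact_mod_cast he
  obtain ⟨l, hl1, hl2⟩ := exists_fun (h.vhs.hmPos (HQ_sub h.hR hb)) (Omb e L f (b 0) 0)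
  set Z : Finset ℂ := Polynomial.nthRootsFinset e (1 : ℂ) with hZ
  have hcard : Z.card = e := (Complex.isPrimitiveRoot_exp e he.ne').card_nthRootsFinset
  have hmem : ∀ ζ, ζ ∈ Z ↔ ζ ^ e = 1 := fun ζ => Polynomial.mem_nthRootsFinset he 1
  set g : (Fin (d + 1) → ℂ) → ℂ := fun q => l (Omb e L f (b 0) q) with hg
  have hgd : DifferentiableOn ℂ g (PD d (Real.exp (a / e)) R) := lin_diff l (Omb_diff h (b 0))
  set F : (Fin (d + 1) → ℂ) → ℂ := fun q => ∏ ζ ∈ Z, g (Fin.cons (ζ * q 0) (Fin.tail q)) with hF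
  have hnz : ∀ ζ ∈ Z, ‖ζ‖ = 1 := fun ζ hζ =>
    Complex.norm_eq_one_of_pow_eq_one ((hmem ζ).1 hζ) he.ne'
  have hFd : DifferentiableOn ℂ F (PD d (Real.exp (a / e)) R) := by
    have hone : ∀ ζ ∈ Z, DifferentiableOn ℂ
        (fun q : Fin (d + 1) → ℂ => g (Fin.cons (ζ * q 0) (Fin.tail q)))
        (PD d (Real.exp (a / e)) R) := ?_
    · intro q hq
      exact (HasFDerivWithinAt.finsetProd fun ζ hζ =>
        (hone ζ hζ q hq).hasFDerivWithinAt).differentiableWithinAt
    intro ζ hζ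
    refine hgd.comp (fun q _ => (differentiableAt_cons (by fun_prop)
      (differentiableAt_tail q)).differentiableWithinAt) fun q hq => ⟨?_, fun i => hq.2 i⟩
    rw [Fin.cons_zero, norm_mul, hnz ζ hζ, one_mul]
    exact hq.1
  have hinv : ∀ (u u' : ℂ) (v : Fin d → ℂ), u ^ e = u' ^ e →
      F (Fin.cons u v) = F (Fin.cons u' v) := by
    intro u u' v huu
    simp only [hF, Fin.cons_zero, Fin.tail_cons]
    by_cases hu : u = 0
    · have hu' : u' = 0 := by
        rw [hu, zero_pow he.ne'] at huu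
        exact pow_eq_zero_iff he.ne' |>.1 huu.symm
      rw [hu, hu']
    have hu' : u' ≠ 0 := by
      rintro rfl
      rw [zero_pow he.ne'] at huu
      exact hu (pow_eq_zero_iff he.ne' |>.1 huu)
    refine Finset.prod_nbij' (fun ζ => ζ * (u / u')) (fun ζ => ζ * (u' / u)) ?_ ?_ ?_ ?_ ?_
    · intro ζ hζ
      rw [hmem] at hζ ⊢
      rw [mul_pow, hζ, div_pow, huu, div_self (pow_ne_zero _ hu'), one_mul]
    · intro ζ hζ
      rw [hmem] at hζ ⊢
      rw [mul_pow, hζ, div_pow, huu, div_self (pow_ne_zero _ hu'), one_mul]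
    · intro ζ _
      field_simp
    · intro ζ _
      field_simp
    · intro ζ _
      have : ζ * (u / u') * u' = ζ * u := by field_simp
      rw [this]
  refine ⟨l, fun q => F (Fin.cons (rt e (q 0)) (Fin.tail q)), hl1, hl2, root_desc he hFd hinv,
    ?_, ?_⟩
  · intro v
    have h7 : rt e 0 = 0 := pow_eq_zero_iff he.ne' |>.1 (rt_pow he 0)
    simp only [hF, Fin.cons_zero, Fin.tail_cons, h7, mul_zero, Finset.prod_const, hcard]
    rfl
  · intro q hq
    set u : ℂ := rt e (Complex.exp (q 0)) with hu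
    have hue : u ^ e = Complex.exp (q 0) := rt_pow he _
    have hu0 : u ≠ 0 := by
      rintro h0
      rw [h0, zero_pow he.ne'] at hue
      exact Complex.exp_ne_zero _ hue.symm
    have key : ∀ ζ ∈ Z, ‖g (Fin.cons (ζ * u) (Fin.tail q))‖ ≤
        Real.exp (-(k * (q 0).re / e)) *
          cD ι e (|(b 0).re - (q 0).re| + (|(b 0).im| + Real.pi * e)) *
          nrm (hm w S P q) (Om q) := by
      intro ζ hζ
      have hζ0 : ζ ≠ 0 := by
        intro h0
        have := hnz ζ hζ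
        rw [h0, norm_zero] at this
        exact zero_ne_one this
      have hζu : ζ * u ≠ 0 := mul_ne_zero hζ0 hu0
      set s : ℂ := Complex.log (ζ * u) with hs
      have hexp : Complex.exp s = ζ * u := Complex.exp_log hζu
      set q' : Fin (d + 1) → ℂ := Fin.cons ((e : ℂ) * s) (Fin.tail q) with hq'
      have hq'0 : q' 0 = e * s := rfl
      have h1 : Complex.exp (q' 0) = Complex.exp (q 0) := by
        rw [hq'0, Complex.exp_nat_mul, hexp, mul_pow, (hmem ζ).1 hζ, one_mul, hue]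
      have hre : (q' 0).re = (q 0).re := by
        have h2 := congrArg norm h1
        rw [Complex.norm_exp, Complex.norm_exp] at h2
        exact Real.exp_injective h2
      have hq'Q : q' ∈ HQ d a R := ⟨by rw [hre]; exact hq.1, fun i => hq.2 i⟩
      have him : |(q' 0).im| ≤ Real.pi * e := by
        rw [hq'0]
        have : ((e : ℂ) * s).im = e * s.im := by simp [Complex.mul_im]
        rw [this, abs_mul, abs_of_pos heR, mul_comm]
        gcongr
        rw [hs, Complex.log_im]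
        exact Complex.abs_arg_le_pi _
      have h3 := h.omega_le hb hq'Q
      have h4 : Complex.exp (q' 0 / e) = ζ * u := by
        rw [hq'0, mul_div_cancel_left₀ _ he0, hexp]
      have h5 : Fin.tail q' = Fin.tail q := by rw [hq', Fin.tail_cons]
      rw [h4, h5, nrm_om_congr h (HQ_sub h.hR hq) (HQ_sub h.hR hq'Q) h1 h5, hre] at h3
      refine (hl1 _).trans (h3.trans ?_)
      have h6 : ‖b 0 - q' 0‖ ≤ |(b 0).re - (q 0).re| + (|(b 0).im| + Real.pi * e) := by
        refine (Complex.norm_le_abs_re_add_abs_im _).trans ?_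
        rw [Complex.sub_re, Complex.sub_im, hre]
        gcongr
        refine (abs_sub _ _).trans ?_
        gcongr
      have h7 := cD_mono (ι := ι) e h6
      have h8 := nrm_nonneg (hm w S P q) (Om q)
      gcongr
    have h1 : ‖F (Fin.cons u (Fin.tail q))‖ ≤ (Real.exp (-(k * (q 0).re / e)) *
          cD ι e (|(b 0).re - (q 0).re| + (|(b 0).im| + Real.pi * e)) *
          nrm (hm w S P q) (Om q)) ^ e := by
      simp only [hF, Fin.cons_zero, Fin.tail_cons]
      rw [norm_prod]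
      calc _ ≤ ∏ _ζ ∈ Z, (Real.exp (-(k * (q 0).re / e)) *
          cD ι e (|(b 0).re - (q 0).re| + (|(b 0).im| + Real.pi * e)) *
          nrm (hm w S P q) (Om q)) := Finset.prod_le_prod (fun _ _ => norm_nonneg _) key
        _ = _ := by rw [Finset.prod_const, hcard]
    simp only [Fin.cons_zero, Fin.tail_cons]
    refine h1.trans (le_of_eq ?_)
    rw [mul_pow, mul_pow, ← Real.exp_nat_mul]
    congr 3
    field_simp

end Crest.Agent.R276.GrE_217
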