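import Crest.Agent.R276.VCalcG_442

/-!
# R276, leaf VCalc (helper442): components of flat sections (C3')

`tc S P p u x = |P_p u|²`.  If `P_{p+1} u = 0` on `U` then `log |P_p u|²` is psh
(`VHS.curv_tc`), with the exact second derivative `VHS.dB_dW_tc`.
-/

set_option autoImplicit false
set_option linter.unusedSectionVars false

open Set Filter Topology Matrix Finset InnerProductSpace Laplacian
open scoped ContDiff ComplexConjugate ComplexOrder

namespace Crest.Agent.R276.VCalc_442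

variable {X : Type*} [NormedAddCommGroup X] [NormedSpace ℂ X]
variable {ι : Type*} [Fintype ι] [DecidableEq ι]

section nm

attribute [local instance] Matrix.linftyOpNormedRing Matrix.linftyOpNormedAlgebra

namespace VHS

variable {w : ℕ} {U : Set X} {S : Matrix ι ι ℂ} {P : ℕ → X → Matrix ι ι ℂ} {x : X}

theorem C_comm_P (h : VHS w U S P) (hx : x ∈ U) (p : ℕ) :
    sgOp w P x * P p x = P p x * sgOp w P x := by
  rw [h.C_mul_P hx, h.P_mul_C hx]

theorem hm_mul_P (h : VHS w U S P) (hx : x ∈ U) (p : ℕ) :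
    hm w S P x * P p x = ((-1 : ℂ) ^ p) • (S * P p x) := by
  unfold hm
  rw [mul_assoc, h.C_mul_P hx, mul_smul_comm]

theorem S_eq (h : VHS w U S P) (hx : x ∈ U) : S = hm w S P x * sgOp w P x := by
  unfold hm
  rw [mul_assoc, h.C_mul_C hx, mul_one]

/-- the projectors are self-adjoint for the Hodge metric -/
theorem adj_P (h : VHS w U S P) (hx : x ∈ U) (p : ℕ) : Adj (hm w S P x) (P p x) (P p x) := by
  unfold Adj hm
  rw [← mul_assoc, h.adj x hx, mul_assoc, mul_assoc, h.C_comm_P hx]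

theorem sf_SP (h : VHS w U S P) (hx : x ∈ U) (p : ℕ) (u : ι → ℂ) :
    ((-1 : ℂ) ^ p) * sf (S * P p x) u u = sf (hm w S P x) (P p x *ᵥ u) (P p x *ᵥ u) := by
  have h1 : sf (hm w S P x * P p x) u (P p x *ᵥ u) = sf (hm w S P x) (P p x *ᵥ u) (P p x *ᵥ u) :=
    (h.adj_P hx p).sf_left u _
  rw [← h1, ← sf_mul_right, mul_assoc, h.idem x hx, h.hm_mul_P hx]
  unfold sf
  rw [Matrix.smul_mulVec, dotProduct_smul]
  rfl

theorem tc_eq (h : VHS w U S P) (hx : x ∈ U) (p : ℕ) (u : ι → ℂ) :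
    tc S P p u x = (sf (hm w S P x) (P p x *ᵥ u) (P p x *ᵥ u)).re := by
  unfold tc
  rw [h.sf_SP hx]

theorem tc_nonneg (h : VHS w U S P) (hx : x ∈ U) (p : ℕ) (u : ι → ℂ) : 0 ≤ tc S P p u x := by
  rw [h.tc_eq hx]
  exact sf_self_nonneg (h.hmPos hx) _

theorem tc_eq_zero (h : VHS w U S P) (hx : x ∈ U) {p : ℕ} {u : ι → ℂ} (h0 : tc S P p u x = 0) :
    P p x *ᵥ u = 0 := by
  rw [h.tc_eq hx] at h0
  exact eq_zero_of_sf (h.hmPos hx) h0

theorem sf_P_P (h : VHS w U S P) (hx : x ∈ U) (p : ℕ) (a b : ι → ℂ) :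
    sf (hm w S P x) a (P p x *ᵥ b) = sf (hm w S P x) (P p x *ᵥ a) (P p x *ᵥ b) := by
  have l1 : sf (hm w S P x) a (P p x *ᵥ b) = sf (hm w S P x * P p x) a b :=
    (sf_mul_right _ _ _ _).symm
  have l2 : sf (hm w S P x * P p x) a (P p x *ᵥ b) = sf (hm w S P x * P p x * P p x) a b :=
    (sf_mul_right _ _ _ _).symm
  rw [l1, ← (h.adj_P hx p).sf_left, l2, mul_assoc, h.idem x hx]

theorem sum_tc (_h : VHS w U S P) (u : ι → ℂ) :
    ∑ p ∈ Finset.range (w + 1), tc S P p u x = hn w S P u x := by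
  have h1 : ∀ p, tc S P p u x = (sf (((-1 : ℂ) ^ p) • (S * P p x)) u u).re := by
    intro p
    unfold tc sf
    rw [Matrix.smul_mulVec, dotProduct_smul]
    rfl
  simp only [h1]
  rw [← Complex.re_sum]
  unfold hn
  congr 1
  have h2 : hm w S P x = ∑ p ∈ Finset.range (w + 1), ((-1 : ℂ) ^ p) • (S * P p x) := by
    unfold hm sgOp
    rw [Finset.mul_sum]
    exact Finset.sum_congr rfl fun p _ => by rw [mul_smul_comm]
  rw [h2]
  unfold sf
  rw [Matrix.sum_mulVec, dotProduct_sum]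

/-- the matrix of the form `(-1)^p S P_p` -/
noncomputable def mp (S : Matrix ι ι ℂ) (P : ℕ → X → Matrix ι ι ℂ) (p : ℕ) (y : X) :
    Matrix ι ι ℂ := ((-1 : ℂ) ^ p) • (S * P p y)

theorem sm_mp (h : VHS w U S P) (p : ℕ) : ContDiffOn ℝ ∞ (mp S P p) U :=
  (contDiffOn_const.mul (h.smP p)).const_smul _

theorem sm_tc (h : VHS w U S P) (p : ℕ) (u : ι → ℂ) : ContDiffOn ℝ ∞ (tc S P p u) U := by
  have h1 : ContDiffOn ℝ ∞ (fun y => sfL u u (mp S P p y)) U :=
    ((sfL u u).restrictScalars ℝ).contDiff.comp_contDiffOn (h.sm_mp p)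
  have h2 := Complex.reCLM.contDiff.comp_contDiffOn h1
  refine h2.congr fun y _ => ?_
  unfold tc
  change _ = (sf (((-1 : ℂ) ^ p) • (S * P p y)) u u).re
  unfold sf
  rw [Matrix.smul_mulVec, dotProduct_smul]
  rfl

theorem cx_tc_ev (h : VHS w U S P) (hx : x ∈ U) (p : ℕ) (u : ι → ℂ) :
    cx (tc S P p u) =ᶠ[𝓝 x] fun y => sfL u u (mp S P p y) := by
  refine Filter.eventually_of_mem (h.op.mem_nhds hx) fun y hy => ?_
  have h1 : sfL u u (mp S P p y) = sf (hm w S P y) (P p y *ᵥ u) (P p y *ᵥ u) := by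
    rw [← h.sf_SP hy]
    change sf (((-1 : ℂ) ^ p) • (S * P p y)) u u = _
    unfold sf
    rw [Matrix.smul_mulVec, dotProduct_smul]
    rfl
  change ((tc S P p u y : ℝ) : ℂ) = sfL u u (mp S P p y)
  rw [h1, h.tc_eq hy]
  exact (sf_self_real (h.hmPos hy) _).symm

theorem dW_mp (h : VHS w U S P) (hx : x ∈ U) (p : ℕ) (v : X) :
    dW (mp S P p) v x = ((-1 : ℂ) ^ p) • (S * (dW (grOp w P) v x * P p x -
      P p x * dW (grOp w P) v x)) := by
  have e : mp S P p = fun y => ((-1 : ℂ) ^ p) • (S * P p y) := rfl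
  have hd : DifferentiableAt ℝ (fun y => S * P p y) x :=
    (differentiableAt_const S).fun_mul (h.dP p hx)
  rw [e, dW_const_smul _ hd, dW_mul (differentiableAt_const S) (h.dP p hx), h.dW_P hx]
  simp

theorem d_mp (h : VHS w U S P) (hx : x ∈ U) (p : ℕ) : DifferentiableAt ℝ (mp S P p) x :=
  diffAt h.op (h.sm_mp p) hx

/-- the derivative of `|P_p u|²` if `P_{p+1} u = 0` -/
theorem dW_tc_aux (h : VHS w U S P) (p : ℕ) (u : ι → ℂ) (hu : ∀ y ∈ U, P (p + 1) y *ᵥ u = 0)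
    (v : X) {y : X} (hy : y ∈ U) :
    dW (cx (tc S P p u)) v y = sfL u u (((-1 : ℂ) ^ p) • (S * (dW (grOp w P) v y * P p y))) := by
  rw [dW_congr (h.cx_tc_ev hy p u) v]
  refine (dW_clm (sfL u u) (h.d_mp hy p) v).trans ?_
  rw [h.dW_mp hy, mul_sub, smul_sub, map_sub]
  have h1 : sfL u u (((-1 : ℂ) ^ p) • (S * (P p y * dW (grOp w P) v y))) = 0 := by
    rw [h.low_P hy (h.low_th hy v)]
    change sf (((-1 : ℂ) ^ p) • (S * (dW (grOp w P) v y * P (p + 1) y))) u u = 0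
    rw [← mul_assoc, ← smul_mul_assoc, sf_mul_right, hu y hy]
    simp [sf]
  rw [h1, sub_zero]

/-- the first derivative of `|P_p u|²` -/
theorem dW_tc (h : VHS w U S P) (hx : x ∈ U) (p : ℕ) (u : ι → ℂ)
    (hu : ∀ y ∈ U, P (p + 1) y *ᵥ u = 0) (v : X) :
    dW (cx (tc S P p u)) v x =
      - sf (hm w S P x) (P p x *ᵥ (tb (grOp w P) v x *ᵥ u)) (P p x *ᵥ u) := by
  rw [h.dW_tc_aux p u hu v hx]
  have hadj := h.adj_th_tb hx v
  have hadj' := hadj.symm (h.hmPos hx).1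
  have h1 : ((-1 : ℂ) ^ p) • (S * (dW (grOp w P) v x * P p x)) =
      - (hm w S P x * dW (grOp w P) v x * P p x) := by
    conv_lhs => rw [h.S_eq hx]
    rw [mul_assoc (hm w S P x), ← mul_assoc (sgOp w P x), h.low_C hx (h.low_th hx v), neg_mul,
      mul_assoc (dW (grOp w P) v x), h.C_mul_P hx, mul_smul_comm, mul_neg, mul_smul_comm, smul_neg,
      smul_smul, ← pow_add, ← two_mul, pow_mul]
    simp [mul_assoc]
  rw [h1, map_neg]
  congr 1
  change sf (hm w S P x * dW (grOp w P) v x * P p x) u u = _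
  rw [sf_mul_right, hadj'.sf_left]
  exact h.sf_P_P hx p _ _

/-- the second derivative of `|P_p u|²` -/
theorem dB_dW_tc (h : VHS w U S P) (hx : x ∈ U) (p : ℕ) (u : ι → ℂ)
    (hu : ∀ y ∈ U, P (p + 1) y *ᵥ u = 0) (v : X) :
    dB (dW (cx (tc S P p u)) v) v x =
      sf (hm w S P x) (dW (grOp w P) v x *ᵥ (P p x *ᵥ u)) (dW (grOp w P) v x *ᵥ (P p x *ᵥ u)) +
      sf (hm w S P x) (P p x *ᵥ (tb (grOp w P) v x *ᵥ u)) (P p x *ᵥ (tb (grOp w P) v x *ᵥ u)) := by
  have h1 : dW (cx (tc S P p u)) v =ᶠ[𝓝 x] fun y =>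
      sfL u u (((-1 : ℂ) ^ p) • (S * (dW (grOp w P) v y * P p y))) :=
    Filter.eventually_of_mem (h.op.mem_nhds hx) fun y hy => h.dW_tc_aux p u hu v hy
  have hd1 : DifferentiableAt ℝ (fun y => dW (grOp w P) v y * P p y) x :=
    (h.gr.d_th hx v).fun_mul (h.dP p hx)
  have hd2 : DifferentiableAt ℝ (fun y => S * (dW (grOp w P) v y * P p y)) x :=
    (differentiableAt_const S).fun_mul hd1
  have hd3 : DifferentiableAt ℝ (fun y => ((-1 : ℂ) ^ p) •
      (S * (dW (grOp w P) v y * P p y))) x := hd2.fun_const_smul _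
  rw [dB_congr h1 v]
  refine (dB_clm (sfL u u) hd3 v).trans ?_
  rw [dB_const_smul _ hd2, dB_mul (differentiableAt_const S) hd1,
    dB_mul (h.gr.d_th hx v) (h.dP p hx), h.gr.dB_th hx, h.dB_P hx]
  have hadj := h.adj_th_tb hx v
  have hadj' := hadj.symm (h.hmPos hx).1
  have hl := h.low_th hx v
  have hup := h.up_tb hx v
  set θ := dW (grOp w P) v x
  set β := tb (grOp w P) v x
  have e1 : dB (fun _ : X => S) v x * (θ * P p x) + S * ((β * θ - θ * β) * P p x +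
      θ * (β * P p x - P p x * β)) = S * (β * θ * P p x) - S * (θ * P p x * β) := by
    rw [dB_const]
    noncomm_ring
  rw [e1, smul_sub, map_sub]
  -- first term
  have f1 : ((-1 : ℂ) ^ p) • (S * (β * θ * P p x)) = hm w S P x * P p x * (β * (θ * P p x)) := by
    have g1 : β * θ * P p x = P p x * (β * θ * P p x) := by
      rcases Nat.eq_zero_or_pos p with hp | hp
      · rw [hp, mul_assoc, h.low_P_zero hx hl]; simp
      · obtain ⟨q, rfl⟩ : ∃ q, p = q + 1 := ⟨p - 1, by omega⟩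
        have g2 : P (q + 1) x * (β * θ * P (q + 1) x) = β * (P q x * θ) * P (q + 1) x := by
          rw [← mul_assoc, ← mul_assoc, h.up_P hx hup, mul_assoc β]
        rw [g2, h.low_P hx hl]
        rw [mul_assoc β (θ * P (q + 1) x), mul_assoc θ, h.idem x hx, mul_assoc]
    rw [g1, ← mul_assoc, ← smul_mul_assoc, ← h.hm_mul_P hx]
    simp only [mul_assoc]
  have f2 : ((-1 : ℂ) ^ p) • (S * (θ * P p x * β)) = - (hm w S P x * θ * (P p x * β)) := by
    conv_lhs => rw [h.S_eq hx]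
    rw [mul_assoc θ, mul_assoc (hm w S P x), ← mul_assoc (sgOp w P x), h.low_C hx hl, neg_mul,
      mul_assoc θ, ← mul_assoc (sgOp w P x), h.C_mul_P hx, smul_mul_assoc, mul_smul_comm,
      mul_neg, mul_smul_comm, smul_neg,
      smul_smul, ← pow_add, ← two_mul, pow_mul]
    simp [mul_assoc]
  rw [f1, f2, map_neg, sub_neg_eq_add]
  congr 1
  · change sf (hm w S P x * P p x * (β * (θ * P p x))) u u = _
    rw [sf_mul_right, (h.adj_P hx p).sf_left, ← Matrix.mulVec_mulVec, ← sf_mul_right,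
      hadj.sf_left, ← Matrix.mulVec_mulVec]
  · change sf (hm w S P x * θ * (P p x * β)) u u = _
    rw [sf_mul_right, hadj'.sf_left, ← Matrix.mulVec_mulVec]
    exact h.sf_P_P hx p _ _

/-- (C3') if `P_{p+1} u = 0` then `log |P_p u|²` is psh -/
theorem curv_tc (h : VHS w U S P) (hx : x ∈ U) (p : ℕ) (u : ι → ℂ)
    (hu : ∀ y ∈ U, P (p + 1) y *ᵥ u = 0) (v : X) :
    ‖dW (cx (tc S P p u)) v x‖ ^ 2 ≤ tc S P p u x * (dB (dW (cx (tc S P p u)) v) v x).re := by
  rw [h.dW_tc hx p u hu, h.dB_dW_tc hx p u hu, h.tc_eq hx, norm_neg, Complex.add_re]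
  have hK := h.hmPos hx
  have h1 := sf_cs hK (P p x *ᵥ (tb (grOp w P) v x *ᵥ u)) (P p x *ᵥ u)
  have h2 := sf_self_nonneg hK (dW (grOp w P) v x *ᵥ (P p x *ᵥ u))
  have h3 := sf_self_nonneg hK (P p x *ᵥ u)
  nlinarith [mul_nonneg h3 h2]

/-- `P_p u` is flat at `x` as soon as the second derivatives of `|P_p u|²` vanish:
the case of equality in (C3') -/
theorem th_P_eq_zero (h : VHS w U S P) (hx : x ∈ U) (p : ℕ) (u : ι → ℂ)
    (hu : ∀ y ∈ U, P (p + 1) y *ᵥ u = 0) (v : X)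
    (h0 : (dB (dW (cx (tc S P p u)) v) v x).re ≤ 0) :
    dW (grOp w P) v x *ᵥ (P p x *ᵥ u) = 0 ∧ P p x *ᵥ (tb (grOp w P) v x *ᵥ u) = 0 := by
  rw [h.dB_dW_tc hx p u hu, Complex.add_re] at h0
  have hK := h.hmPos hx
  have h2 := sf_self_nonneg hK (dW (grOp w P) v x *ᵥ (P p x *ᵥ u))
  have h3 := sf_self_nonneg hK (P p x *ᵥ (tb (grOp w P) v x *ᵥ u))
  exact ⟨eq_zero_of_sf hK (by linarith), eq_zero_of_sf hK (by linarith)⟩

end VHS

end nm

end Crest.Agent.R276.VCalc_442
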