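import Mathlib
import Crest.Agent.R276.GrE_217
import Crest.Agent.R276.VCalcH_442

/-!
# R276, leaf COUNT-GR, part G (helper217)

Transition between the normal forms at two points of the divisor; the inequality behind `tau_le`.
-/

set_option autoImplicit false
set_option linter.unusedSectionVars false

open Set Filter Topology Matrix Metric
open scoped ComplexOrder ContDiff

namespace Crest.Agent.R276.GrG_217

open Crest.Agent.R276.BndA_563 Crest.Agent.R276.VCalc_442 Crest.Agent.R276.GrA_217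
open Crest.Agent.R276.GrB_217 Crest.Agent.R276.GrC_217 Crest.Agent.R276.GrC_217.LCh
open Crest.Agent.R276.GrD_217 Crest.Agent.R276.GrE_217

variable {ι : Type*} [Fintype ι] [DecidableEq ι] {d : ℕ}

/-- transition from the normal form at `y` to the one at `y'`; `v0 = cp y' - cp y` -/
structure Tr (a R a' R' : ℝ) (S S' : Matrix ι ι ℂ)
    (P P' : ℕ → (Fin (d + 1) → ℂ) → Matrix ι ι ℂ) (L L' : Matrix ι ι ℂ)
    (Om Om' : (Fin (d + 1) → ℂ) → ι → ℂ) (v0 : Fin d → ℂ) (A : Matrix ι ι ℂ) (c : ℂ) : Prop where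
  hc : ‖c‖ = 1
  S_eq : Aᴴ * S' * A = S
  L_eq : L' * A = A * L
  P_eq : ∀ q ∈ HB d a' R', q + Fin.cons 0 v0 ∈ HB d a R → ∀ p,
    P' p q * A = A * P p (q + Fin.cons 0 v0)
  Om_eq : ∀ q ∈ HB d a' R', q + Fin.cons 0 v0 ∈ HB d a R →
    Om' q = c • (A *ᵥ Om (q + Fin.cons 0 v0))

variable {w e : ℕ} {k : ℤ} {a R a' R' : ℝ} {S S' : Matrix ι ι ℂ}
  {P P' : ℕ → (Fin (d + 1) → ℂ) → Matrix ι ι ℂ} {T T' : Matrix ι ι ℂ} {z z' : ℂ}
  {L L' : Matrix ι ι ℂ} {Om f Om' f' : (Fin (d + 1) → ℂ) → ι → ℂ} {v0 : Fin d → ℂ}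
  {A : Matrix ι ι ℂ} {c : ℂ}

/-- `exp` intertwines -/
theorem EE_comm (hL : IsNilpotent L) (hL' : IsNilpotent L') (h : L' * A = A * L) (s : ℂ) :
    EE L' s * A = A * EE L s := by
  have hp : ∀ n : ℕ, L' ^ n * A = A * L ^ n := by
    intro n
    induction n with
    | zero => simp
    | succ n ih => rw [pow_succ, mul_assoc, h, ← mul_assoc, ih, mul_assoc, pow_succ]
  unfold EE
  rw [exp_eq hL le_rfl, exp_eq hL' le_rfl, Finset.sum_mul, Finset.mul_sum]
  refine Finset.sum_congr rfl fun n _ => ?_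
  rw [Matrix.smul_mul, Matrix.mul_smul, hp]

theorem Tr.nrmA (h : Tr a R a' R' S S' P P' L L' Om Om' v0 A c) {q : Fin (d + 1) → ℂ}
    (hq : q ∈ HB d a' R') (hq' : q + Fin.cons 0 v0 ∈ HB d a R) (u : ι → ℂ) :
    nrm (hm w S' P' q) (A *ᵥ u) = nrm (hm w S P (q + Fin.cons 0 v0)) u := by
  refine nrm_conj ?_ u
  have h1 : sgOp w P' q * A = A * sgOp w P (q + Fin.cons 0 v0) := by
    unfold sgOp
    rw [Finset.sum_mul, Finset.mul_sum]
    refine Finset.sum_congr rfl fun p _ => ?_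
    rw [Matrix.smul_mul, Matrix.mul_smul, h.P_eq q hq hq' p]
  unfold hm
  calc Aᴴ * (S' * sgOp w P' q) * A = Aᴴ * S' * (sgOp w P' q * A) := by noncomm_ring
    _ = (Aᴴ * S' * A) * sgOp w P (q + Fin.cons 0 v0) := by rw [h1]; noncomm_ring
    _ = _ := by rw [h.S_eq]

theorem cons_zero_mem {ρ R : ℝ} (hρ : 0 < ρ) {v : Fin d → ℂ} (hv : ∀ i, ‖v i‖ < R) :
    (Fin.cons 0 v : Fin (d + 1) → ℂ) ∈ PD d ρ R :=
  ⟨by simpa using hρ, fun i => by simpa using hv i⟩

theorem cons_cont (v : Fin d → ℂ) :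
    Continuous (fun u : ℂ => (Fin.cons u v : Fin (d + 1) → ℂ)) := by
  rw [continuous_pi_iff]
  intro i
  refine Fin.cases ?_ (fun j => ?_) i
  · simp only [Fin.cons_zero]
    exact continuous_id
  · simp only [Fin.cons_succ]
    exact continuous_const

/-- transition of `f` at `u = 0` -/
theorem Tr.f_eq (ht : Tr a R a' R' S S' P P' L L' Om Om' v0 A c)
    (h : LCh w e k a R S P T z L Om f) (h' : LCh w e k a' R' S' P' T' z' L' Om' f')
    (hv : ∀ i, ‖v0 i‖ < R) :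
    f' 0 = c • (A *ᵥ f (Fin.cons 0 v0)) := by
  have he0 : (e : ℂ) ≠ 0 := by exact_mod_cast h.he.ne'
  have heR : (0 : ℝ) < e := by exact_mod_cast h.he
  set F1 : ℂ → ι → ℂ := fun u => f' (Fin.cons u 0) with hF1
  set F2 : ℂ → ι → ℂ := fun u => c • (A *ᵥ f (Fin.cons u v0)) with hF2
  have c1 : ContinuousAt F1 0 := by
    have h1 : ContinuousAt f' ((fun u : ℂ => (Fin.cons u 0 : Fin (d + 1) → ℂ)) 0) :=
      (h'.hf.differentiableAt ((isOpen_PD d _ R').mem_nhds
        (cons_zero_mem (Real.exp_pos _) fun i => by simpa using h'.hR))).continuousAt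
    exact ContinuousAt.comp (f := fun u : ℂ => (Fin.cons u 0 : Fin (d + 1) → ℂ)) h1
      (cons_cont 0).continuousAt
  have c2 : ContinuousAt F2 0 := by
    have h1 : ContinuousAt f ((fun u : ℂ => (Fin.cons u v0 : Fin (d + 1) → ℂ)) 0) :=
      (h.hf.differentiableAt ((isOpen_PD d _ R).mem_nhds
        (cons_zero_mem (Real.exp_pos _) hv))).continuousAt
    have h2 : ContinuousAt (fun u : ℂ => f (Fin.cons u v0)) 0 :=
      ContinuousAt.comp (f := fun u : ℂ => (Fin.cons u v0 : Fin (d + 1) → ℂ)) h1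
        (cons_cont v0).continuousAt
    have h3 : Continuous fun x : ι → ℂ => c • (A *ᵥ x) :=
      (LinearMap.toContinuousLinearMap (c • Matrix.toLin' A)).continuous
    exact h3.continuousAt.comp h2
  have hev : F1 =ᶠ[𝓝[≠] 0] F2 := by
    set ρ : ℝ := min (Real.exp (a / e)) (Real.exp (a' / e)) with hρ
    have hρ0 : 0 < ρ := lt_min (Real.exp_pos _) (Real.exp_pos _)
    rw [Filter.EventuallyEq, eventually_nhdsWithin_iff]
    filter_upwards [ball_mem_nhds (0 : ℂ) hρ0] with u hu hu0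
    have hu0' : u ≠ 0 := hu0
    rw [mem_ball_zero_iff] at hu
    have hlt : ∀ b : ℝ, ‖u‖ < Real.exp (b / e) → ((e : ℂ) * Complex.log u).re < b := by
      intro b hb
      have h1 : ((e : ℂ) * Complex.log u).re = e * Real.log ‖u‖ := by
        simp [Complex.mul_re, Complex.log_re]
      rw [h1]
      have h2 : Real.log ‖u‖ < b / e := by
        rw [Real.log_lt_iff_lt_exp (norm_pos_iff.2 hu0')]
        exact hb
      rw [lt_div_iff₀ heR] at h2
      linarith
    set q : Fin (d + 1) → ℂ := Fin.cons ((e : ℂ) * Complex.log u) 0 with hq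
    have hqm : q ∈ HB d a' R' := ⟨hlt a' (hu.trans_le (min_le_right _ _)), fun i => by
      simpa [hq] using h'.hR⟩
    have hqa : q + Fin.cons 0 v0 = Fin.cons ((e : ℂ) * Complex.log u) v0 := by
      funext i
      refine Fin.cases ?_ (fun j => ?_) i
      · simp [hq]
      · simp [hq]
    have hqm' : q + Fin.cons 0 v0 ∈ HB d a R := by
      rw [hqa]
      exact ⟨hlt a (hu.trans_le (min_le_left _ _)), fun i => by simpa using hv i⟩
    have hexp : Complex.exp ((e : ℂ) * Complex.log u / e) = u := by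
      rw [mul_div_cancel_left₀ _ he0, Complex.exp_log hu0']
    have g1 := h'.f_Om q hqm
    have g2 := h.f_Om _ hqm'
    have q0 : q 0 = (e : ℂ) * Complex.log u := rfl
    have q1 : Fin.tail q = 0 := by rw [hq, Fin.tail_cons]
    rw [q0, q1, hexp, ht.Om_eq q hqm hqm'] at g1
    rw [hqa, Fin.cons_zero, hexp, Fin.tail_cons] at g2
    simp only [hF1, hF2]
    rw [g1, g2, hqa, Matrix.mulVec_smul, Matrix.mulVec_mulVec, EE_comm h.nil h'.nil ht.L_eq,
      Matrix.mulVec_smul, Matrix.mulVec_mulVec, smul_comm]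
  have l1 : Tendsto F1 (𝓝[≠] 0) (𝓝 (F1 0)) := c1.tendsto.mono_left nhdsWithin_le_nhds
  have l2 : Tendsto F2 (𝓝[≠] 0) (𝓝 (F2 0)) := c2.tendsto.mono_left nhdsWithin_le_nhds
  have l3 := tendsto_nhds_unique (l1.congr' hev) l2
  have h0 : (0 : Fin (d + 1) → ℂ) = Fin.cons 0 0 := by
    funext i
    refine Fin.cases ?_ (fun j => ?_) i <;> simp
  rw [h0]
  exact l3

/-- **comparison of `Ω` at two points of the divisor** -/
theorem Tr.tau_le (ht : Tr a R a' R' S S' P P' L L' Om Om' v0 A c)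
    (h : LCh w e k a R S P T z L Om f) (h' : LCh w e k a' R' S' P' T' z' L' Om' f')
    (hv : ∀ i, ‖v0 i‖ < R / 2) {t t' : ℝ} (hta : t ≤ a - 1 / 4) (hta' : t' ≤ a' - 1 / 4) :
    nrm (hm w S P (Fin.cons (t : ℂ) 0)) (Omb e L f t (Fin.cons 0 v0)) ≤
      cD ι e |t - t'| ^ 2 *
        nrm (hm w S' P' (Fin.cons (t' : ℂ) 0)) (Omb e L' f' t' 0) := by
  set t0 : ℝ := min t t' with ht0
  have hR := h.hR
  have hR' := h'.hR
  have m1 : (Fin.cons (t : ℂ) 0 : Fin (d + 1) → ℂ) ∈ HQ d a R :=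
    ⟨by simpa using hta, fun i => by simp; positivity⟩
  have m2 : (Fin.cons (t0 : ℂ) v0 : Fin (d + 1) → ℂ) ∈ HQ d a R :=
    ⟨by rw [Fin.cons_zero, Complex.ofReal_re]; exact (min_le_left t t').trans hta,
      fun i => by simpa using (hv i).le⟩
  have m3 : (Fin.cons (t0 : ℂ) 0 : Fin (d + 1) → ℂ) ∈ HQ d a' R' :=
    ⟨by rw [Fin.cons_zero, Complex.ofReal_re]; exact (min_le_right t t').trans hta',
      fun i => by simp; positivity⟩
  have m4 : (Fin.cons (t' : ℂ) 0 : Fin (d + 1) → ℂ) ∈ HQ d a' R' :=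
    ⟨by simpa using hta', fun i => by simp; positivity⟩
  have b1 := h.base_change m2 m1 (Omb e L f t0 (Fin.cons 0 v0))
  have b2 := h'.base_change m4 m3 (Omb e L' f' t' 0)
  have hadd : (Fin.cons (t0 : ℂ) 0 : Fin (d + 1) → ℂ) + Fin.cons 0 v0 = Fin.cons (t0 : ℂ) v0 := by
    funext i
    refine Fin.cases ?_ (fun j => ?_) i <;> simp
  have e1 : EE L (((t : ℂ) - t0) / (tpi * e)) *ᵥ Omb e L f t0 (Fin.cons 0 v0) =
      Omb e L f t (Fin.cons 0 v0) := by
    unfold Omb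
    rw [Matrix.mulVec_mulVec, ← EE_add h.nil]
    congr 2
    ring
  have e2 : EE L' (((t0 : ℂ) - t') / (tpi * e)) *ᵥ Omb e L' f' t' 0 = Omb e L' f' t0 0 := by
    unfold Omb
    rw [Matrix.mulVec_mulVec, ← EE_add h'.nil]
    congr 2
    ring
  have e3 : nrm (hm w S P (Fin.cons (t0 : ℂ) v0)) (Omb e L f t0 (Fin.cons 0 v0)) =
      nrm (hm w S' P' (Fin.cons (t0 : ℂ) 0)) (Omb e L' f' t0 0) := by
    have g1 := ht.nrmA (w := w) (HQ_sub hR' m3) (by rw [hadd]; exact HQ_sub hR m2)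
      (Omb e L f t0 (Fin.cons 0 v0))
    rw [hadd] at g1
    rw [← g1]
    have g2 := ht.f_eq h h' fun i => (hv i).trans (by linarith)
    have g3 : Omb e L' f' t0 0 = c • (A *ᵥ Omb e L f t0 (Fin.cons 0 v0)) := by
      unfold Omb
      rw [g2, Matrix.mulVec_smul, Matrix.mulVec_mulVec, EE_comm h.nil h'.nil ht.L_eq,
        ← Matrix.mulVec_mulVec]
    rw [g3, nrm_smul, ht.hc, one_mul]
  simp only [Fin.cons_zero] at b1 b2
  rw [e1, e3] at b1
  rw [e2] at b2
  have n1 : ‖(t : ℂ) - t0‖ ≤ |t - t'| := by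
    rw [← Complex.ofReal_sub, Complex.norm_real, Real.norm_eq_abs]
    rcases le_total t t' with h1 | h1
    · rw [ht0, min_eq_left h1, sub_self, abs_zero]
      exact abs_nonneg _
    · rw [ht0, min_eq_right h1]
  have n2 : ‖(t0 : ℂ) - t'‖ ≤ |t - t'| := by
    rw [← Complex.ofReal_sub, Complex.norm_real, Real.norm_eq_abs]
    rcases le_total t t' with h1 | h1
    · rw [ht0, min_eq_left h1]
    · rw [ht0, min_eq_right h1, sub_self, abs_zero]
      exact abs_nonneg _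
  have c1 := cD_mono (ι := ι) e n1
  have c2 := cD_mono (ι := ι) e n2
  have c0 := cD_pos (ι := ι) e |t - t'|
  have c3 := nrm_nonneg (hm w S' P' (Fin.cons (t' : ℂ) 0)) (Omb e L' f' t' 0)
  have c4 := nrm_nonneg (hm w S' P' (Fin.cons (t0 : ℂ) 0)) (Omb e L' f' t0 0)
  calc _ ≤ _ := b1
    _ ≤ cD ι e |t - t'| * nrm (hm w S' P' (Fin.cons (t0 : ℂ) 0)) (Omb e L' f' t0 0) := by gcongr
    _ ≤ cD ι e |t - t'| * (cD ι e |t - t'| *
        nrm (hm w S' P' (Fin.cons (t' : ℂ) 0)) (Omb e L' f' t' 0)) := by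
        gcongr
        exact b2.trans (by gcongr)
    _ = _ := by ring

/-! ### the coefficients of the limit metric -/

/-- Cauchy-Schwarz for the indefinite form -/
theorem norm_sf_le {X : Type*} [NormedAddCommGroup X] [NormedSpace ℂ X] {U : Set X}
    {P : ℕ → X → Matrix ι ι ℂ} (h : VHS w U S P) {x : X} (hx : x ∈ U) (u v : ι → ℂ) :
    ‖sf S u v‖ ≤ nrm (hm w S P x) u * nrm (hm w S P x) v := by
  have h1 : S = hm w S P x * sgOp w P x := h.S_eq hx
  have h2 : sf S u v = star u ⬝ᵥ hm w S P x *ᵥ (sgOp w P x *ᵥ v) := by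
    unfold sf
    conv_lhs => rw [h1]
    rw [Matrix.mulVec_mulVec]
  have h3 : nrm (hm w S P x) (sgOp w P x *ᵥ v) = nrm (hm w S P x) v := by
    refine nrm_conj ?_ v
    unfold hm
    calc (sgOp w P x)ᴴ * (S * sgOp w P x) * sgOp w P x
        = ((sgOp w P x)ᴴ * S) * (sgOp w P x * sgOp w P x) := by noncomm_ring
      _ = _ := by rw [h.C_mul_C hx, h.adjC hx, mul_one]
  rw [h2, ← h3]
  unfold nrm
  rw [← Real.sqrt_mul (hn_nonneg (h.hmPos hx) u)]
  exact Real.le_sqrt_of_sq_le (norm_dot_K_le (h.hmPos hx) u _)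

theorem EE_skew {L : Matrix ι ι ℂ} (hL : IsNilpotent L) (hs : Lᴴ * S = -(S * L)) (s : ℂ) :
    (EE L s)ᴴ * S = S * EE L (-(star s)) := by
  have hp : ∀ n : ℕ, (L ^ n)ᴴ * S = ((-1 : ℂ) ^ n) • (S * L ^ n) := by
    intro n
    induction n with
    | zero => simp
    | succ n ih =>
      rw [pow_succ, Matrix.conjTranspose_mul, mul_assoc, ih, Matrix.mul_smul, ← mul_assoc, hs,
        neg_mul, smul_neg, mul_assoc, ← pow_succ', pow_succ (-1 : ℂ), mul_smul, ← pow_succ]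
      simp
  unfold EE
  rw [exp_eq hL le_rfl, exp_eq hL le_rfl, Matrix.conjTranspose_sum, Finset.sum_mul,
    Finset.mul_sum]
  refine Finset.sum_congr rfl fun n _ => ?_
  rw [Matrix.conjTranspose_smul, Matrix.smul_mul, hp, smul_smul, Matrix.mul_smul]
  congr 1
  rw [neg_pow, star_div₀, star_pow, star_natCast]
  ring

/-- the top coefficient does not change under `exp(sL)` -/
theorem sf_EE {L : Matrix ι ι ℂ} (hL : IsNilpotent L) (hs : Lᴴ * S = -(S * L)) {u : ι → ℂ}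
    {κ : ℕ} (hvan : ∀ j, κ < j → sf S u (L ^ j *ᵥ u) = 0) (s : ℂ) :
    sf S (EE L s *ᵥ u) (L ^ κ *ᵥ (EE L s *ᵥ u)) = sf S u (L ^ κ *ᵥ u) := by
  have h1 : sf S (EE L s *ᵥ u) (L ^ κ *ᵥ (EE L s *ᵥ u)) =
      sf S u ((L ^ κ * EE L (s - star s)) *ᵥ u) := by
    unfold sf
    rw [Matrix.star_mulVec, ← Matrix.dotProduct_mulVec, Matrix.mulVec_mulVec,
      Matrix.mulVec_mulVec, Matrix.mulVec_mulVec, Matrix.mulVec_mulVec, EE_skew hL hs]
    have hcomm : EE L (-(star s)) * L ^ κ = L ^ κ * EE L (-(star s)) := by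
      unfold EE
      rw [exp_eq hL le_rfl, Finset.sum_mul, Finset.mul_sum]
      refine Finset.sum_congr rfl fun n _ => ?_
      rw [Matrix.smul_mul, Matrix.mul_smul, ← pow_add, ← pow_add, add_comm]
    have h2 : S * EE L (-(star s)) * L ^ κ * EE L s = S * (L ^ κ * EE L (s - star s)) := by
      rw [mul_assoc S, hcomm, mul_assoc S, mul_assoc (L ^ κ), ← EE_add hL]
      congr 3
      ring
    rw [h2]
  rw [h1]
  unfold EE
  rw [exp_eq hL (n := Fintype.card ι + 1) (by omega), Finset.sum_range_succ', mul_add,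
    Finset.mul_sum, Matrix.add_mulVec, Matrix.sum_mulVec]
  have h3 : ∀ x y : ι → ℂ, sf S u (x + y) = sf S u x + sf S u y := by
    intro x y
    unfold sf
    rw [Matrix.mulVec_add, dotProduct_add]
  have h4 : ∀ (t : Finset ℕ) (x : ℕ → ι → ℂ), sf S u (∑ i ∈ t, x i) = ∑ i ∈ t, sf S u (x i) := by
    intro t x
    unfold sf
    rw [Matrix.mulVec_sum, dotProduct_sum]
  rw [h3, h4, Finset.sum_eq_zero, zero_add]
  · simp
  · intro i _
    have h5 : ∀ (c : ℂ) (x : ι → ℂ), sf S u (c • x) = c * sf S u x := by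
      intro c x
      unfold sf
      rw [Matrix.mulVec_smul, dotProduct_smul, smul_eq_mul]
    rw [Matrix.mul_smul, Matrix.smul_mulVec, h5, ← pow_add, hvan _ (by omega), mul_zero]

/-- **the inequality behind `tau_le`** -/
theorem tau_core (h : LCh w e k a R S P T z L Om f) {b : Fin (d + 1) → ℂ} (hb : b ∈ HQ d a R)
    {q : Fin (d + 1) → ℂ} {κ : ℕ} (hvan : ∀ j, κ < j → sf S (f q) (L ^ j *ᵥ f q) = 0) :
    ‖sf S (f q) (L ^ κ *ᵥ f q)‖ ≤ cL ι e ^ κ * nrm (hm w S P b) (Omb e L f (b 0) q) ^ 2 := by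
  have h1 := sf_EE h.nil h.skew hvan (b 0 / (tpi * e))
  have h2 := norm_sf_le h.vhs (HQ_sub h.hR hb) (Omb e L f (b 0) q)
    (L ^ κ *ᵥ (Omb e L f (b 0) q))
  unfold Omb at h2 ⊢
  rw [h1] at h2
  have h3 := (h.ob_L hb).pow (cL_nonneg ι e) κ (EE L (b 0 / (tpi * e)) *ᵥ f q)
  calc _ ≤ _ := h2
    _ ≤ nrm (hm w S P b) (EE L (b 0 / (tpi * e)) *ᵥ f q) * (cL ι e ^ κ *
        nrm (hm w S P b) (EE L (b 0 / (tpi * e)) *ᵥ f q)) :=
        mul_le_mul_of_nonneg_left h3 (nrm_nonneg _ _)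
    _ = _ := by ring

end Crest.Agent.R276.GrG_217
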