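import Mathlib
import Crest.Agent.R276.GrG_217
import Crest.Agent.R276.GrF_217

/-!
# R276, leaf COUNT-GR, part H (helper217)

The fields `Lam`, `lam` of `Full` (and the inequality for `tau_le`) from a family of normal forms.
-/

set_option autoImplicit false
set_option linter.unusedSectionVars false

open Set Filter Topology Matrix Metric MeasureTheory
open scoped ComplexOrder ContDiff

namespace Crest.Agent.R276.GrH_217

open Crest.Agent.R271.Ho51
open Crest.Agent.R276.BndA_563 Crest.Agent.R276.VCalc_442 Crest.Agent.R276.GrA_217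
open Crest.Agent.R276.GrB_217 Crest.Agent.R276.GrC_217 Crest.Agent.R276.GrC_217.LCh
open Crest.Agent.R276.GrD_217 Crest.Agent.R276.GrE_217 Crest.Agent.R276.GrG_217
open Crest.Agent.R276.CntDefs_857 Crest.Agent.R276.GrF_217

variable {ι : Type*} [Fintype ι] [DecidableEq ι] {d : ℕ}
variable {M E : Type*} [TopologicalSpace M] [RDom (d + 1) M] [MeasurableSpace M]
    {μ : Measure M} [TopologicalSpace E] [RDom d E]

/-- family of normal forms along the divisor; `e^{-ψ₀} = |Om|²` -/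
structure LFam (ι : Type*) [Fintype ι] [DecidableEq ι] (D : DChart M E μ) (w e : ℕ) (k : ℤ)
    (ψ₀ : M → ℝ) where
  S : E → Matrix ι ι ℂ
  P : E → ℕ → (Fin (d + 1) → ℂ) → Matrix ι ι ℂ
  T : E → Matrix ι ι ℂ
  z : E → ℂ
  L : E → Matrix ι ι ℂ
  Om : E → (Fin (d + 1) → ℂ) → ι → ℂ
  f : E → (Fin (d + 1) → ℂ) → ι → ℂ
  lch : ∀ y, LCh w e k (Real.log (D.r y)) (D.r y) (S y) (P y) (T y) (z y) (L y) (Om y) (f y)
  f0 : ∀ y, f y 0 ≠ 0
  psi : ∀ y, ∀ q ∈ HB d (Real.log (D.r y)) (D.r y),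
    Real.exp (-ψ₀ (D.σ y (Fin.cons (Complex.exp (q 0)) (Fin.tail q)))) =
      hn (hm w (S y) (P y) q) (Om y q)
  tr : ∀ (y : E) (g : OpenPartialHomeomorph E (Fin d → ℂ)), IsCh g → y ∈ g.source →
    g.target = ball (cp y) (D.r y) → ∀ y' ∈ g.source, ‖(cp y' : Fin d → ℂ) - cp y‖ < D.r y / 2 →
    ∃ (A : Matrix ι ι ℂ) (c : ℂ), Tr (Real.log (D.r y)) (D.r y) (Real.log (D.r y')) (D.r y')
      (S y) (S y') (P y) (P y') (L y) (L y') (Om y) (Om y') (cp y' - cp y) A c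

/-- the base point `(log (r/2), 0)` -/
noncomputable def tt (D : DChart M E μ) (y : E) : ℝ := Real.log (D.r y / 2)

theorem r_pos (D : DChart M E μ) (y : E) : 0 < D.r y :=
  radf_pos D.hc0 (D.cov.hne y)

theorem tt_eq (D : DChart M E μ) (y : E) : tt D y = Real.log (D.r y) - Real.log 2 := by
  unfold tt
  rw [Real.log_div (r_pos D y).ne' (by norm_num)]

theorem log_two_gt : (1 : ℝ) / 4 < Real.log 2 := by
  have := Real.log_two_gt_d9
  linarith

theorem log_two_lt : Real.log 2 < 1 := by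
  have := Real.log_two_lt_d9
  linarith

theorem tt_le (D : DChart M E μ) (y : E) : tt D y ≤ Real.log (D.r y) - 1 / 4 := by
  rw [tt_eq]
  linarith [log_two_gt]

theorem bb_mem (D : DChart M E μ) (y : E) :
    (Fin.cons ((tt D y : ℝ) : ℂ) 0 : Fin (d + 1) → ℂ) ∈ HQ d (Real.log (D.r y)) (D.r y) := by
  have := r_pos D y
  exact ⟨by simpa using tt_le D y, fun i => by simp; positivity⟩

namespace LFam

variable {D : DChart M E μ} {w e : ℕ} {k : ℤ} {ψ₀ : M → ℝ}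

/-- the norm of `Ω(0)` at the base point -/
noncomputable def nu (F : LFam ι D w e k ψ₀) (y : E) : ℝ :=
  nrm (hm w (F.S y) (F.P y) (Fin.cons ((tt D y : ℝ) : ℂ) 0)) (Omb e (F.L y) (F.f y) (tt D y) 0)

theorem nu_pos (F : LFam ι D w e k ψ₀) (y : E) : 0 < F.nu y := by
  unfold nu nrm
  refine Real.sqrt_pos.2 (hn_pos ((F.lch y).vhs.hmPos (HQ_sub (r_pos D y) (bb_mem D y))) ?_)
  intro h0
  apply F.f0 y
  have h1 : EE (F.L y) (-((tt D y : ℂ) / (tpi * e))) *ᵥ Omb e (F.L y) (F.f y) (tt D y) 0 =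
      F.f y 0 := by
    unfold Omb
    rw [Matrix.mulVec_mulVec, EE_neg' (F.lch y).nil, Matrix.one_mulVec]
  rw [← h1, h0, Matrix.mulVec_zero]

/-- the weight `τ` of `Full` -/
noncomputable def tau (F : LFam ι D w e k ψ₀) (n : ℕ) (y : E) : ℝ :=
  -(2 * ((e * n : ℕ) : ℝ) * Real.log (F.nu y))

theorem exp_tau (F : LFam ι D w e k ψ₀) (n : ℕ) (y : E) :
    Real.exp (-F.tau n y) = (F.nu y ^ (e * n)) ^ 2 := by
  unfold tau
  rw [neg_neg]
  have h1 : 2 * ((e * n : ℕ) : ℝ) * Real.log (F.nu y) =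
      ((e * n * 2 : ℕ) : ℝ) * Real.log (F.nu y) := by push_cast; ring
  rw [h1, Real.exp_nat_mul, Real.exp_log (F.nu_pos y), pow_mul]

/-- the constant for `Lam` -/
noncomputable def CL (ι : Type*) [Fintype ι] [DecidableEq ι] (e n : ℕ) : ℝ :=
  ((cD ι e (1 + Real.pi * e)) ^ (e * n)) ^ 2

theorem ball_sub_PD {r : ℝ} (hr : 0 < r) :
    ball (0 : Fin (d + 1) → ℂ) r ⊆ PD d (Real.exp (Real.log r)) r := by
  intro q hq
  rw [mem_ball_zero_iff, pi_norm_lt_iff hr] at hq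
  rw [Real.exp_log hr]
  exact ⟨hq 0, fun i => hq i.succ⟩

theorem cons_zero_zero : (Fin.cons 0 0 : Fin (d + 1) → ℂ) = 0 := by
  funext i
  refine Fin.cases ?_ (fun j => ?_) i <;> simp

/-- both functions of the chart at `y` -/
theorem exists_fun (F : LFam ι D w e k ψ₀) (n : ℕ) (y : E) :
    ∃ (l : (Fin d → ℂ) → ℂ) (Λ : (Fin (d + 1) → ℂ) → ℂ),
      DifferentiableOn ℂ Λ (ball 0 (D.r y)) ∧
      (∀ q ∈ Sh d (D.r y), ‖Λ q‖ ^ 2 ≤ CL ι e n *
        Real.exp (-D.psI (fun x => ((e * n : ℕ) : ℝ) * ψ₀ x) (n * k) y q)) ∧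
      Real.exp (-F.tau n y) = ‖Λ 0‖ ^ 2 ∧
      DifferentiableOn ℂ l (ball 0 (D.r y)) ∧
      (∀ v, ‖l v‖ ≤ nrm (hm w (F.S y) (F.P y) (Fin.cons ((tt D y : ℝ) : ℂ) 0))
        (Omb e (F.L y) (F.f y) (tt D y) (Fin.cons 0 v)) ^ (e * n)) ∧
      Real.exp (-F.tau n y) = ‖l 0‖ ^ 2 := by
  have hr := r_pos D y
  have h := F.lch y
  obtain ⟨l, Λ, hl1, hl2, hΛ1, hΛ2, hΛ3⟩ := exists_Lam h (bb_mem D y)
  rw [Fin.cons_zero] at hl2 hΛ3
  simp only [Fin.cons_zero] at hΛ2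
  have hΛ0 : Λ 0 = l (Omb e (F.L y) (F.f y) (tt D y) 0) ^ e := by
    have := hΛ2 0
    rwa [cons_zero_zero] at this
  refine ⟨fun v => (l (Omb e (F.L y) (F.f y) (tt D y) (Fin.cons 0 v)) ^ e) ^ n,
    fun q => Λ q ^ n, (hΛ1.mono (ball_sub_PD hr)).pow n, ?_, ?_, ?_, ?_, ?_⟩
  · intro q hq
    obtain ⟨hq1, hq2, hq3⟩ := hq
    have hq0 : q 0 ≠ 0 := by
      intro h0
      rw [h0, norm_zero] at hq1
      linarith
    have hn0 : 0 < ‖q 0‖ := norm_pos_iff.2 hq0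
    set p : Fin (d + 1) → ℂ := Fin.cons (Complex.log (q 0)) (Fin.tail q) with hp
    have hre : (p 0).re = Real.log ‖q 0‖ := by rw [hp, Fin.cons_zero, Complex.log_re]
    have hup : Real.log ‖q 0‖ ≤ Real.log (D.r y) - 1 / 4 := by
      have h1 : Real.log ‖q 0‖ ≤ Real.log (3 * D.r y / 4) := Real.log_le_log hn0 hq2.le
      have h2 : 3 * D.r y / 4 ≤ D.r y * Real.exp (-(1 / 4)) := by
        have := Real.add_one_le_exp (-(1 / 4 : ℝ))
        nlinarith
      have h3 := Real.log_le_log (by positivity) h2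
      rw [Real.log_mul hr.ne' (Real.exp_pos _).ne', Real.log_exp] at h3
      linarith
    have hpQ : p ∈ HQ d (Real.log (D.r y)) (D.r y) :=
      ⟨by rw [hre]; exact hup, fun i => (hq3 i).le⟩
    have hpq : (Fin.cons (Complex.exp (p 0)) (Fin.tail p) : Fin (d + 1) → ℂ) = q := by
      rw [hp, Fin.cons_zero, Complex.exp_log hq0, Fin.tail_cons, Fin.cons_self_tail]
    have g1 := hΛ3 p hpQ
    have g2 := F.psi y p (HQ_sub hr hpQ)
    rw [hpq] at g1 g2
    rw [hre, Complex.ofReal_re, Complex.ofReal_im, abs_zero, zero_add] at g1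
    have hab : |tt D y - Real.log ‖q 0‖| ≤ 1 := by
      have h1 : Real.log (D.r y / 4) ≤ Real.log ‖q 0‖ := Real.log_le_log (by positivity) hq1.le
      have h2 : Real.log ‖q 0‖ ≤ Real.log (D.r y) := by linarith
      have h3 : Real.log (D.r y / 4) = Real.log (D.r y) - 2 * Real.log 2 := by
        rw [Real.log_div hr.ne' (by norm_num)]
        have : (4 : ℝ) = 2 ^ 2 := by norm_num
        rw [this, Real.log_pow]
        norm_num
      rw [tt_eq, abs_le]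
      have := log_two_lt
      constructor <;> linarith
    have g3 : ‖Λ q‖ ≤ Real.exp (-(k * Real.log ‖q 0‖)) * cD ι e (1 + Real.pi * e) ^ e *
        nrm (hm w (F.S y) (F.P y) p) (F.Om y p) ^ e := by
      refine g1.trans ?_
      have c1 := cD_mono (ι := ι) e (add_le_add_left hab (Real.pi * e))
      have c2 := cD_pos (ι := ι) e (|tt D y - Real.log ‖q 0‖| + Real.pi * e)
      have c3 := nrm_nonneg (hm w (F.S y) (F.P y) p) (F.Om y p)
      gcongr
    have e1 : Real.exp (-D.psI (fun x => ((e * n : ℕ) : ℝ) * ψ₀ x) (n * k) y q) =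
        (Real.exp (-(k * Real.log ‖q 0‖)) * nrm (hm w (F.S y) (F.P y) p) (F.Om y p) ^ e) ^
          (n * 2) := by
      unfold DChart.psI
      have a1 : -(((e * n : ℕ) : ℝ) * ψ₀ (D.σ y q) + (((n : ℤ) * k : ℤ) : ℝ) *
          Real.log (‖q 0‖ ^ 2)) = ((e * n : ℕ) : ℝ) * (-ψ₀ (D.σ y q)) +
          ((n * 2 : ℕ) : ℝ) * (-(k * Real.log ‖q 0‖)) := by
        rw [Real.log_pow]
        push_cast
        ring
      rw [a1, Real.exp_add, Real.exp_nat_mul, Real.exp_nat_mul, g2,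
        ← nrm_sq (h.vhs.hmPos (HQ_sub hr hpQ)), mul_pow]
      ring
    rw [e1, norm_pow, ← pow_mul]
    calc ‖Λ q‖ ^ (n * 2) ≤ (Real.exp (-(k * Real.log ‖q 0‖)) * cD ι e (1 + Real.pi * e) ^ e *
        nrm (hm w (F.S y) (F.P y) p) (F.Om y p) ^ e) ^ (n * 2) := by gcongr
      _ = _ := by
        unfold CL
        ring
  · rw [exp_tau]
    simp only [hΛ0, norm_pow]
    rw [hl2]
    unfold nu
    rw [← pow_mul _ e n]
  · refine DifferentiableOn.pow (DifferentiableOn.pow ?_ e) n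
    have h1 : DifferentiableOn ℂ (fun v : Fin d → ℂ => (Fin.cons 0 v : Fin (d + 1) → ℂ))
        (ball 0 (D.r y)) := fun v _ =>
      (differentiableAt_cons (differentiableAt_const _) differentiableAt_id).differentiableWithinAt
    refine (lin_diff l (Omb_diff h (tt D y))).comp h1 ?_
    intro v hv
    rw [mem_ball_zero_iff, pi_norm_lt_iff hr] at hv
    exact cons_zero_mem (Real.exp_pos _) hv
  · intro v
    rw [norm_pow, norm_pow, ← pow_mul]
    exact pow_le_pow_left₀ (norm_nonneg _) (hl1 _) _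
  · rw [exp_tau]
    simp only [cons_zero_zero, norm_pow]
    rw [hl2]
    unfold nu
    rw [← pow_mul _ e n]

/-- **`Full.Lam`** -/
theorem Lam (F : LFam ι D w e k ψ₀) (n : ℕ) (y : E) :
    ∃ Λ : (Fin (d + 1) → ℂ) → ℂ, DifferentiableOn ℂ Λ (ball 0 (D.r y)) ∧
      (∀ q ∈ Sh d (D.r y), ‖Λ q‖ ^ 2 ≤ CL ι e n *
        Real.exp (-D.psI (fun x => ((e * n : ℕ) : ℝ) * ψ₀ x) (n * k) y q)) ∧
      Real.exp (-F.tau n y) ≤ 1 * ‖Λ 0‖ ^ 2 := by
  obtain ⟨l, Λ, h1, h2, h3, -⟩ := F.exists_fun n y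
  exact ⟨Λ, h1, h2, by rw [one_mul]; exact h3.le⟩

/-- bound of the logarithm of the ratio of the radii -/
noncomputable def B (D : DChart M E μ) : ℝ :=
  D.κ * ((D.cov.h.totalDegree + 1) * Real.log 2)

theorem tt_cmp {y y' : E} (h : ‖(cp y' : Fin d → ℂ) - cp y‖ < D.r y / 2) :
    |tt D y - tt D y'| ≤ B D := by
  have h1 := log_radf_cmp D.cov.h D.hc0 D.hc1 D.κ (z := cp y) (z' := cp y') (D.hball y)
    (D.cov.hne y) h
  rw [tt_eq, tt_eq, abs_sub_comm]
  have : Real.log (D.r y') - Real.log 2 - (Real.log (D.r y) - Real.log 2) =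
      Real.log (D.r y') - Real.log (D.r y) := by ring
  rw [this]
  exact h1

/-- the constant for `lam` -/
noncomputable def Cl (ι : Type*) [Fintype ι] [DecidableEq ι] (D : DChart M E μ) (e n : ℕ) : ℝ :=
  ((cD ι e (B D) ^ 2) ^ (e * n)) ^ 2

/-- **`Full.lam`** -/
theorem lam (F : LFam ι D w e k ψ₀) (n : ℕ) (y : E) :
    ∃ l : (Fin d → ℂ) → ℂ, DifferentiableOn ℂ l (ball 0 (D.r y)) ∧
      (∀ g : OpenPartialHomeomorph E (Fin d → ℂ), IsCh g → y ∈ g.source →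
        g.target = ball (cp y) (D.r y) → ∀ y' ∈ g.source,
        ‖(cp y' : Fin d → ℂ) - cp y‖ < D.r y / 2 →
        ‖l (cp y' - cp y)‖ ^ 2 ≤ Cl ι D e n * Real.exp (-F.tau n y')) ∧
      Real.exp (-F.tau n y) ≤ 1 * ‖l 0‖ ^ 2 := by
  obtain ⟨l, Λ, -, -, -, h4, h5, h6⟩ := F.exists_fun n y
  refine ⟨l, h4, ?_, by rw [one_mul]; exact h6.le⟩
  intro g hg hy hgt y' hy' hd
  obtain ⟨A, c, ht⟩ := F.tr y g hg hy hgt y' hy' hd
  have hr := r_pos D y
  have hv : ∀ i, ‖((cp y' : Fin d → ℂ) - cp y) i‖ < D.r y / 2 :=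
    (pi_norm_lt_iff (by positivity)).1 hd
  have h7 := ht.tau_le (F.lch y) (F.lch y') hv (tt_le D y) (tt_le D y')
  have h8 := cD_mono (ι := ι) e (tt_cmp (D := D) hd)
  have h9 := cD_pos (ι := ι) e |tt D y - tt D y'|
  have h10 : nrm (hm w (F.S y) (F.P y) (Fin.cons ((tt D y : ℝ) : ℂ) 0))
      (Omb e (F.L y) (F.f y) (tt D y) (Fin.cons 0 (cp y' - cp y))) ≤
      cD ι e (B D) ^ 2 * F.nu y' := by
    refine h7.trans ?_
    have := (F.nu_pos y').le
    unfold nu at this ⊢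
    gcongr
  rw [exp_tau]
  calc ‖l (cp y' - cp y)‖ ^ 2 ≤ ((cD ι e (B D) ^ 2 * F.nu y') ^ (e * n)) ^ 2 := by
        refine pow_le_pow_left₀ (norm_nonneg _) ((h5 _).trans ?_) 2
        exact pow_le_pow_left₀ (nrm_nonneg _ _) h10 _
    _ = _ := by
        unfold Cl
        ring

/-- **the inequality behind `Full.tau_le`** -/
theorem tau_le (F : LFam ι D w e k ψ₀) (n : ℕ) (y : E) {κ : ℕ}
    (hvan : ∀ j, κ < j → sf (F.S y) (F.f y 0) (F.L y ^ j *ᵥ F.f y 0) = 0)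
    (hpos : sf (F.S y) (F.f y 0) (F.L y ^ κ *ᵥ F.f y 0) ≠ 0) :
    F.tau n y ≤ -(((e * n : ℕ) : ℝ) *
      Real.log ‖sf (F.S y) (F.f y 0) (F.L y ^ κ *ᵥ F.f y 0)‖) +
      ((e * n : ℕ) : ℝ) * (κ * Real.log (cL ι e + 1)) := by
  have h1 := tau_core (F.lch y) (bb_mem D y) (q := 0) hvan
  have hc := cL_nonneg ι e
  have hν := F.nu_pos y
  have h2 : ‖sf (F.S y) (F.f y 0) (F.L y ^ κ *ᵥ F.f y 0)‖ ≤ (cL ι e + 1) ^ κ * F.nu y ^ 2 := by
    refine h1.trans ?_
    unfold nu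
    rw [Fin.cons_zero]
    gcongr
    linarith
  have h3 := Real.log_le_log (norm_pos_iff.2 hpos) h2
  rw [Real.log_mul (by positivity) (by positivity), Real.log_pow, Real.log_pow] at h3
  unfold tau
  push_cast at h3 ⊢
  have h4 : (0 : ℝ) ≤ e * n := by positivity
  nlinarith [mul_le_mul_of_nonneg_left h3 h4]

end LFam

end Crest.Agent.R276.GrH_217
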