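import Crest.Agent.R276.BdNf7_651
import Crest.Agent.R276.GrH_217

/-!
# Row 276, leaf BDNF (helper651), part 8 : the family of normal forms along a divisor
-/

set_option autoImplicit false
set_option linter.unusedSectionVars false

noncomputable section

open Set Filter Topology Matrix Metric MeasureTheory
open Crest.Agent.R271.Ho51
open Crest.Agent.R276.Ipc735
open Crest.Agent.R276.BdNf1_651
open Crest.Agent.R276.BdNf2_651
open Crest.Agent.R276.BdNf3_651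
open Crest.Agent.R276.BdNf4_651
open Crest.Agent.R276.BdNf5_651
open Crest.Agent.R276.BdNf6_651
open Crest.Agent.R276.BdNf7_651
open Crest.Agent.R276.VLevi_327 (CYL)
open Crest.Agent.R276.CntDefs_857 (PS DChart)
open Crest.Agent.R276.LftDefs_327 (WD LD)
open Crest.Agent.R276.GrA_217 (EE)
open Crest.Agent.R276.GrC_217 (LCh tpi)
open scoped ContDiff

namespace Crest.Agent.R276.BdNf8_651

open Ipc735 (hq)

/-! ### the sections correspond -/

section cmp

variable {d : ℕ} {N w : ℕ} {m : ℕ} {X : Type*} [TopologicalSpace X] [RDom m X]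
variable {r r' : ℝ} {σ σ' : (Fin (d + 1) → ℂ) → X} {V : VHS m X N w} {om : X → Fin N → ℂ}
variable {n : Nf V σ r} {n' : Nf V σ' r'} {a : Fin d → ℂ} {A : GL (Fin N) ℤ}

lemma ex_sub_int {x y : ℂ} (h : Complex.exp x = Complex.exp y) : ∃ k : ℤ, x - y = k * per := by
  obtain ⟨k, hk⟩ := Complex.exp_eq_exp_iff_exists_int.1 h
  exact ⟨k, by rw [hk]; unfold per; ring⟩

/-- two logarithms differ by a constant on the overlap -/
lemma log_const {O : Set (Fin (d + 1) → ℂ)} (hO : IsPreconnected O) {p p' : (Fin (d + 1) → ℂ) → ℂ}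
    (hp : ContinuousOn p O) (hp' : ContinuousOn p' O)
    (h : ∀ q ∈ O, Complex.exp (p' q) = Complex.exp (p q)) {q q1 : Fin (d + 1) → ℂ} (hq : q ∈ O)
    (hq1 : q1 ∈ O) : p' q - p q = p' q1 - p q1 := by
  refine Top1_358.prop_of_isPreconnected (X := Fin (d + 1) → ℂ) hO
    (P := fun x => p' q - p q = p' x - p x) ?_ hq rfl hq1
  intro x hx
  have hc : ContinuousWithinAt (fun y => p' y - p y) O x := (hp' x hx).sub (hp x hx)
  have h1 : ∀ᶠ y in 𝓝[O] x, ‖(p' y - p y) - (p' x - p x)‖ < 1 := by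
    have h2 := hc.tendsto
    have h3 := Metric.tendsto_nhds.1 h2 1 one_pos
    filter_upwards [h3] with y hy
    rwa [dist_eq_norm] at hy
  refine ⟨{y | ‖(p' y - p y) - (p' x - p x)‖ < 1} ∩ O, inter_mem h1 self_mem_nhdsWithin, ?_⟩
  rintro y ⟨hy, hyO⟩
  obtain ⟨k1, hk1⟩ := ex_sub_int (h x hx)
  obtain ⟨k2, hk2⟩ := ex_sub_int (h y hyO)
  have h4 : p' y - p y = p' x - p x := by
    have h5 : ‖(p' y - p y) - (p' x - p x)‖ = |(k2 - k1 : ℤ)| * (2 * Real.pi) := by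
      rw [hk1, hk2, ← sub_mul, norm_mul]
      have h6 : ‖per‖ = 2 * Real.pi := by
        unfold per
        simp [abs_of_pos Real.pi_pos]
      have h7 : ‖((k2 : ℂ) - k1)‖ = |((k2 - k1 : ℤ) : ℝ)| := by
        have : ((k2 : ℂ) - k1) = ((k2 - k1 : ℤ) : ℂ) := by push_cast; ring
        rw [this, Complex.norm_intCast]
      rw [h6, h7]
      push_cast
      ring
    have hy' : ‖(p' y - p y) - (p' x - p x)‖ < 1 := hy
    rw [h5] at hy'
    have h8 : k2 - k1 = 0 := by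
      by_contra hne
      have h9 : (1 : ℝ) ≤ (|(k2 - k1 : ℤ)| : ℤ) := by
        exact_mod_cast Int.one_le_abs hne
      have h10 := Real.pi_gt_three
      nlinarith
    have h11 : k2 = k1 := by omega
    rw [hk1, hk2, h11]
  show (_ = _) ↔ (_ = _)
  rw [h4]

/-- the twisted sections correspond -/
theorem Om_cmp (h : Fc n n' a A) (hr : 0 < r) (hr' : 0 < r') (hne : (Ov d r r' a).Nonempty) (ku : ℤ)
    {M0 : ℕ} (hM : 0 < M0) {g g' : (Fin (d + 1) → ℂ) → ℂ}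
    (hg : DifferentiableOn ℂ g (ball 0 r)) (hg' : DifferentiableOn ℂ g' (ball 0 r'))
    (hexp : ∀ q ∈ Ov d r r' a, Complex.exp (g' (ex q)) = Complex.exp (g (ex (q + ca a)))) :
    ∃ c : ℂ, ‖c‖ = 1 ∧ c ^ M0 = 1 ∧ ∀ q ∈ Ov d r r' a,
      Om n' om ku M0 g' q = c • (cm A *ᵥ Om n om ku M0 g (q + ca a)) := by
  have hsub : ∀ {ρ : ℝ}, 0 < ρ → PS d ρ ⊆ ball 0 ρ := by
    intro ρ hρ q hq
    rw [mem_ball_zero_iff, pi_norm_lt_iff hρ]
    exact hq.2
  have hc1 : ContinuousOn (fun q => g' (ex q)) (Ov d r r' a) :=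
    hg'.continuousOn.comp differentiable_ex.continuous.continuousOn
      fun q hq => hsub hr' (ex_mem hr' hq.1)
  have hc2 : ContinuousOn (fun q => g (ex (q + ca a))) (Ov d r r' a) :=
    hg.continuousOn.comp (differentiable_ex.continuous.comp (by fun_prop)).continuousOn
      fun q hq => hsub hr (ex_mem hr hq.2)
  obtain ⟨b, hb⟩ := hne
  obtain ⟨j, hj⟩ := ex_sub_int (hexp b hb)
  refine ⟨Complex.exp (j * per / M0), norm_zM j M0, zM_pow j hM, fun q hq => ?_⟩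
  have h1 := log_const (convex_Ov r r' a).isPreconnected hc2 hc1 hexp hq hb
  rw [hj] at h1
  unfold Om
  rw [h.pull_eq om hq, Matrix.mulVec_smul, smul_smul]
  congr 1
  unfold fac
  rw [← Complex.exp_add]
  congr 1
  have h2 : (q + ca a) 0 = q 0 := by show q 0 + 0 = q 0; rw [add_zero]
  rw [h2]
  have h3 : g' (ex q) = g (ex (q + ca a)) + j * per := by rw [← h1]; ring
  rw [h3]
  ring

end cmp

/-! ### the family -/

section fam

variable {d m N w : ℕ} {M E X : Type*} [TopologicalSpace M] [RDom (d + 1) M]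
    [MeasurableSpace M] {μ : Measure M} [TopologicalSpace E] [RDom d E] [TopologicalSpace X]
    [RDom m X] {D : DChart M E μ} {V : VHS m X N w} {om : X → Fin N → ℂ} {u : X → ℂ}
    {f : X → M}

lemma r_le_one (D : DChart M E μ) (y : E) : D.r y ≤ 1 := GrF_217.radf_le_one D.hc0 D.hc1

/-- the maps of the boundary charts -/
lemma hp (l : LD D V om u f) (y : E) : HP (l.s y) (D.r y) :=
  ⟨GrH_217.r_pos D y, l.cont y, l.hol y⟩

/-- family of normal forms along the divisor -/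
structure BFam (l : LD D V om u f) (M0 : ℕ) (ψ : M → ℝ) where
  n : ∀ y, Nf V (l.s y) (D.r y)
  g : E → (Fin (d + 1) → ℂ) → ℂ
  hg : ∀ y, DifferentiableOn ℂ (g y) (ball 0 (D.r y))
  ug : ∀ y, ∀ q ∈ PS d (D.r y), u (l.s y q) = q 0 ^ l.ku * Complex.exp (g y q)
  k : ℤ
  F : E → (Fin (d + 1) → ℂ) → Fin N → ℂ
  lch : ∀ y, LCh w (eN N * M0) k (Real.log (D.r y)) (D.r y) (n y).fr.S (PP (n y)) (cm (n y).T)
    (zM l.ku M0) (LL (n y) (eN N * M0)) (Om (n y) om l.ku M0 (g y)) (F y)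
  cy : ∀ y, Cy w (HS d (D.r y)) (PP (n y)) (Om (n y) om l.ku M0 (g y))
  ne : ∀ y, ∃ v : Fin d → ℂ, (∀ i, ‖v i‖ < D.r y) ∧ F y (Fin.cons 0 v) ≠ 0
  psi : ∀ y, ∀ q ∈ HS d (D.r y),
    H (n y) q (Om (n y) om l.ku M0 (g y) q) = Real.exp (-ψ (D.σ y (ex q)))
  tr : ∀ (y : E) (ε : OpenPartialHomeomorph E (Fin d → ℂ)), IsCh ε → y ∈ ε.source →
    ε.target = ball (cp y) (D.r y) → ∀ y' ∈ ε.source,
    ∃ (A : GL (Fin N) ℤ) (c : ℂ), Fc (n y) (n y') (cp y' - cp y) A ∧ ‖c‖ = 1 ∧ c ^ M0 = 1 ∧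
      (Ov d (D.r y) (D.r y') (cp y' - cp y)).Nonempty ∧
      ∀ q ∈ Ov d (D.r y) (D.r y') (cp y' - cp y), Om (n y') om l.ku M0 (g y') q =
        c • (cm A *ᵥ Om (n y) om l.ku M0 (g y) (q + ca (cp y' - cp y)))

/-- points of the chart ball -/
lemma cp_sub_lt {y y' : E} {ε : OpenPartialHomeomorph E (Fin d → ℂ)} (hε : IsCh ε)
    (ht : ε.target = ball (cp y) (D.r y)) (hy' : y' ∈ ε.source) (i : Fin d) :
    ‖((cp y' : Fin d → ℂ) - cp y) i‖ < D.r y := by
  have h1 : (cp y' : Fin d → ℂ) ∈ ball (cp y) (D.r y) := by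
    rw [← ht]; exact hε.cp_mem hy'
  rw [mem_ball, dist_eq_norm] at h1
  exact lt_of_le_of_lt (norm_le_pi_norm _ i) h1

/-- the growth of the twisted section -/
lemma growth_Om (l : LD D V om u f) (hc : CYL V om) (M0 : ℕ) (y : E) (n : Nf V (l.s y) (D.r y))
    {g G : (Fin (d + 1) → ℂ) → ℂ}
    (hG : ∀ q ∈ ball (0 : Fin (d + 1) → ℂ) (D.r y), G q ≠ 0 ∧
      |Real.log ‖G q‖| ≤ l.C * (1 + Real.log (1 / D.r y)))
    (hu : ∀ q ∈ PS d (D.r y), u (l.s y q) = q 0 ^ l.ku * G q)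
    (hgG : ∀ q ∈ ball (0 : Fin (d + 1) → ℂ) (D.r y), Complex.exp (g q) = G q) :
    ∃ A C : ℝ, 0 ≤ C ∧ ∀ q ∈ HS d (D.r y), H n q (Om n om l.ku M0 g q) ≤
      C * Real.exp (-A * (q 0).re) := by
  have hr := GrH_217.r_pos D y
  have hr1 := r_le_one D y
  set B : ℝ := l.C * (1 + Real.log (1 / D.r y)) with hB
  refine ⟨l.C + 2 * |(l.ku : ℝ)| / M0, Real.exp (B + 2 / M0 * B), (Real.exp_pos _).le,
    fun q hq => ?_⟩
  have hqP : ex q ∈ PS d (D.r y) := ex_mem hr hq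
  have hqb : ex q ∈ ball (0 : Fin (d + 1) → ℂ) (D.r y) := by
    rw [mem_ball_zero_iff, pi_norm_lt_iff hr]; exact hqP.2
  rw [H_Om_eq n hc l.ku M0 hq (hgG _ hqb) (hu _ hqP), ← Real.exp_add]
  apply Real.exp_le_exp.2
  have h1 := l.psi_le y _ hqP
  have hn0 : ‖ex q 0‖ = Real.exp (q 0).re := by rw [ex_zero, Complex.norm_exp]
  have hlog : Real.log (1 / ‖ex q 0‖) = -(q 0).re := by
    rw [hn0, one_div, Real.log_inv, Real.log_exp]
  have hre : (q 0).re ≤ 0 := by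
    have : Real.log (D.r y) ≤ 0 := Real.log_nonpos hr.le hr1
    have h2 : (q 0).re < Real.log (D.r y) := hq.1
    linarith
  rw [hlog] at h1
  obtain ⟨hG0, hGb⟩ := hG _ hqb
  have h2 : Real.log (‖u (l.s y (ex q))‖ ^ 2) = 2 * (l.ku * (q 0).re + Real.log ‖G (ex q)‖) := by
    rw [hu _ hqP, norm_mul, norm_zpow, hn0, Real.log_pow, Real.log_mul
      (zpow_ne_zero _ (Real.exp_pos _).ne') (norm_ne_zero_iff.mpr hG0), Real.log_zpow,
      Real.log_exp]
    push_cast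
    ring
  rw [h2]
  have h3 := (abs_le.1 h1).1
  have h4 := (abs_le.1 hGb).2
  have h5 : (l.ku : ℝ) * (q 0).re ≤ |(l.ku : ℝ)| * (-(q 0).re) := by
    calc (l.ku : ℝ) * (q 0).re ≤ |(l.ku : ℝ) * (q 0).re| := le_abs_self _
      _ = |(l.ku : ℝ)| * (-(q 0).re) := by rw [abs_mul, abs_of_nonpos hre]
  have h6 : (1 : ℝ) / M0 * (2 * (l.ku * (q 0).re + Real.log ‖G (ex q)‖)) ≤
      1 / M0 * (2 * (|(l.ku : ℝ)| * (-(q 0).re) + B)) := by
    refine mul_le_mul_of_nonneg_left ?_ (by positivity)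
    linarith
  have h7 : (1 : ℝ) / M0 * (2 * (|(l.ku : ℝ)| * (-(q 0).re) + B)) =
      2 * |(l.ku : ℝ)| / M0 * (-(q 0).re) + 2 / M0 * B := by ring
  rw [h7] at h6
  have h8 : l.C * (1 + Real.log (1 / D.r y) + -(q 0).re) = B + l.C * (-(q 0).re) := by
    rw [hB]; ring
  rw [h8] at h3
  nlinarith

/-- a chart ball around every point of the divisor -/
lemma exists_chart (D : DChart M E μ) (y : E) : ∃ ε : OpenPartialHomeomorph E (Fin d → ℂ),
    IsCh ε ∧ y ∈ ε.source ∧ ε.target = ball (cp y) (D.r y) := by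
  obtain ⟨s, h1, -, h3⟩ := D.cov.ev (cp y) (D.r y) (GrH_217.r_pos D y) (D.hball y)
  have hy : y ∈ (cp ⁻¹' ball (cp y) (D.r y) : Set E) := mem_ball_self (GrH_217.r_pos D y)
  rw [h3] at hy
  obtain ⟨i, hi⟩ := mem_iUnion.mp hy
  exact ⟨s i, (h1 i).1, hi, (h1 i).2⟩

/-- **BDNF**: the family of normal forms along the divisor -/
theorem exists_bfam {φ ψ : M → ℝ} {M0 : ℕ} {ι : Fin (d + 1) → Fin m}
    (hw : WD V om u M0 f ι φ ψ) (l : LD D V om u f) : Nonempty (BFam l M0 ψ) := by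
  classical
  have hc := hw.cyl
  have hM := hw.hM
  -- frames
  obtain ⟨n⟩ : Nonempty (∀ y, Nf V (l.s y) (D.r y)) :=
    ⟨fun y => (exists_nf V (hp l y)).some⟩
  -- logarithms
  have hlog : ∀ y, ∃ (g G : (Fin (d + 1) → ℂ) → ℂ), DifferentiableOn ℂ g (ball 0 (D.r y)) ∧
      (∀ q ∈ ball (0 : Fin (d + 1) → ℂ) (D.r y), Complex.exp (g q) = G q) ∧
      (∀ q ∈ ball (0 : Fin (d + 1) → ℂ) (D.r y), G q ≠ 0 ∧
        |Real.log ‖G q‖| ≤ l.C * (1 + Real.log (1 / D.r y))) ∧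
      ∀ q ∈ PS d (D.r y), u (l.s y q) = q 0 ^ l.ku * G q := by
    intro y
    obtain ⟨G, hG, hG0, hu⟩ := l.unit y
    obtain ⟨g, hg, hgG⟩ := exists_hlog (convex_ball _ _) isOpen_ball
      ⟨0, mem_ball_self (GrH_217.r_pos D y)⟩ hG fun q hq => (hG0 q hq).1
    exact ⟨g, G, hg, hgG, hG0, hu⟩
  choose g G hg hgG hG hu using hlog
  have hsub : ∀ y, PS d (D.r y) ⊆ ball (0 : Fin (d + 1) → ℂ) (D.r y) := by
    intro y q hq
    rw [mem_ball_zero_iff, pi_norm_lt_iff (GrH_217.r_pos D y)]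
    exact hq.2
  have ug : ∀ y, ∀ q ∈ PS d (D.r y), u (l.s y q) = q 0 ^ l.ku * Complex.exp (g y q) := by
    intro y q hq
    rw [hgG y q (hsub y hq), hu y q hq]
  have hcy : ∀ y, Cy w (HS d (D.r y)) (PP (n y)) (Om (n y) om l.ku M0 (g y)) := fun y =>
    cy_Om (n y) (hp l y) hc l.ku M0 ((hg y).mono (hsub y))
  -- the normal forms
  have hL : ∀ y, ∃ (k : ℤ) (F : (Fin (d + 1) → ℂ) → Fin N → ℂ),
      LCh w (eN N * M0) k (Real.log (D.r y)) (D.r y) (n y).fr.S (PP (n y)) (cm (n y).T)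
        (zM l.ku M0) (LL (n y) (eN N * M0)) (Om (n y) om l.ku M0 (g y)) F ∧
      ∃ v : Fin d → ℂ, (∀ i, ‖v i‖ < D.r y) ∧ F (Fin.cons 0 v) ≠ 0 := by
    intro y
    obtain ⟨A, C, hC, hgr⟩ := growth_Om l hc M0 y (n y) (hG y) (hu y) (hgG y)
    exact exists_lch (n y) (hp l y) hM (norm_zM _ _) (zM_pow _ hM) (hcy y)
      (fun k q hq => Om_tw (n y) l.ku M0 (g y) k hq) hC hgr
  choose k F hlch hne using hL
  -- transitions
  have htr : ∀ (y : E) (ε : OpenPartialHomeomorph E (Fin d → ℂ)), IsCh ε → y ∈ ε.source →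
    ε.target = ball (cp y) (D.r y) → ∀ y' ∈ ε.source,
    ∃ (A : GL (Fin N) ℤ) (c : ℂ), Fc (n y) (n y') (cp y' - cp y) A ∧ ‖c‖ = 1 ∧ c ^ M0 = 1 ∧
      (Ov d (D.r y) (D.r y') (cp y' - cp y)).Nonempty ∧
      ∀ q ∈ Ov d (D.r y) (D.r y') (cp y' - cp y), Om (n y') om l.ku M0 (g y') q =
        c • (cm A *ᵥ Om (n y) om l.ku M0 (g y) (q + ca (cp y' - cp y))) := by
    intro y ε hε hy ht y' hy'
    have hr := GrH_217.r_pos D y
    have hr' := GrH_217.r_pos D y'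
    set a : Fin d → ℂ := cp y' - cp y with ha
    have han : ∀ i, ‖a i‖ < D.r y := fun i => cp_sub_lt hε ht hy' i
    have hcpt : Cpt (l.s y) (l.s y') (D.r y) (D.r y') a := fun q hq hq' =>
      l.compat y ε hε hy ht y' hy' q hq hq'
    have hOv : (Ov d (D.r y) (D.r y') a).Nonempty := ⟨_, Ov_nonempty hr' han⟩
    obtain ⟨A, hA⟩ := exists_fc (n y) (n y') hr hr' han hcpt
    have hexp : ∀ q ∈ Ov d (D.r y) (D.r y') a,
        Complex.exp (g y' (ex q)) = Complex.exp (g y (ex (q + ca a))) := by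
      intro q hq
      have h1 := ug y' _ (ex_mem hr' hq.1)
      have h2 := ug y _ (ex_mem hr hq.2)
      have h3 : l.s y' (ex q) = l.s y (ex (q + ca a)) := hA.lft q hq
      have h4 : ex (q + ca a) 0 = ex q 0 := by
        show Complex.exp (q 0 + 0) = Complex.exp (q 0)
        rw [add_zero]
      rw [h3, h2, h4] at h1
      exact (mul_left_cancel₀ (zpow_ne_zero _ (Complex.exp_ne_zero _)) h1).symm
    obtain ⟨c, hc1, hc2, hc3⟩ := Om_cmp (om := om) hA hr hr' hOv l.ku hM (hg y) (hg y') hexp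
    exact ⟨A, c, hA, hc1, hc2, hOv, hc3⟩
  -- the order is locally constant
  have hkloc : ∀ y y' : E, (∃ ε : OpenPartialHomeomorph E (Fin d → ℂ), IsCh ε ∧ y ∈ ε.source ∧
      ε.target = ball (cp y) (D.r y) ∧ y' ∈ ε.source) → k y' = k y := by
    rintro y y' ⟨ε, hε, hy, ht, hy'⟩
    have hr := GrH_217.r_pos D y
    have hr' := GrH_217.r_pos D y'
    obtain ⟨A, c, hA, hc1, -, hOv, hQ⟩ := htr y ε hε hy ht y' hy'
    set a : Fin d → ℂ := cp y' - cp y with ha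
    have han : ∀ i, ‖a i‖ < D.r y := fun i => cp_sub_lt hε ht hy' i
    have hc0 : c ≠ 0 := by rintro rfl; simp at hc1
    apply le_antisymm
    · exact ord_le hA hr (v0 := 0) (by simpa using fun _ => hr') (by simpa using han)
        (hlch y) (hlch y') hc0 hQ (hne y)
    · refine ord_le (c0 := c⁻¹) hA.symm hr' (v0 := a) han (by simpa using fun _ => hr')
        (hlch y') (hlch y) (inv_ne_zero hc0) ?_ (hne y')
      intro q hq
      have hq' : q + ca (-a) ∈ Ov d (D.r y) (D.r y') a := by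
        refine ⟨hq.2, ?_⟩
        have : q + ca (-a) + ca a = q := by rw [ca_neg]; abel
        rw [this]; exact hq.1
      have h1 := hQ _ hq'
      have h2 : q + ca (-a) + ca a = q := by rw [ca_neg]; abel
      rw [h2] at h1
      rw [h1, Matrix.mulVec_smul, Matrix.mulVec_mulVec, cm_inv_mul_cm, Matrix.one_mulVec,
        smul_smul, inv_mul_cancel₀ hc0, one_smul]
  have hlc : IsLocallyConstant k := by
    rw [IsLocallyConstant.iff_eventually_eq]
    intro y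
    obtain ⟨ε, hε, hy, ht⟩ := exists_chart D y
    filter_upwards [ε.open_source.mem_nhds hy] with y' hy'
    exact hkloc y y' ⟨ε, hε, hy, ht, hy'⟩
  rcases isEmpty_or_nonempty E with hE | ⟨⟨y0⟩⟩
  · exact ⟨⟨n, g, hg, ug, 0, F, fun y => (hE.false y).elim, hcy, fun y => (hE.false y).elim,
      fun y => (hE.false y).elim, htr⟩⟩
  · have hk : ∀ y, k y = k y0 := fun y =>
      hlc.apply_eq_of_isPreconnected D.conn (mem_univ y) (mem_univ y0)
    refine ⟨⟨n, g, hg, ug, k y0, F, fun y => ?_, hcy, hne, fun y q hq => ?_, htr⟩⟩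
    · rw [← hk y]; exact hlch y
    · have hqP : ex q ∈ PS d (D.r y) := ex_mem (GrH_217.r_pos D y) hq
      rw [H_Om_eq (n y) hc l.ku M0 hq (G := fun q => Complex.exp (g y q)) rfl (ug y _ hqP),
        ← l.fs y _ hqP, hw.hψ]

namespace BFam

variable {l : LD D V om u f} {M0 : ℕ} {ψ : M → ℝ}

/-- helper217's family, given that `f (0, ·)` has no zeros -/
def toLFam (B : BFam l M0 ψ) (h0 : ∀ y, B.F y 0 ≠ 0) :
    GrH_217.LFam (Fin N) D w (eN N * M0) B.k ψ where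
  S := fun y => (B.n y).fr.S
  P := fun y => PP (B.n y)
  T := fun y => cm (B.n y).T
  z := fun _ => zM l.ku M0
  L := fun y => LL (B.n y) (eN N * M0)
  Om := fun y => Om (B.n y) om l.ku M0 (B.g y)
  f := B.F
  lch := B.lch
  f0 := h0
  psi := fun y q hq => by
    have h1 := B.psi y q hq
    rw [H_eq] at h1
    exact h1.symm
  tr := fun y ε hε hy ht y' hy' _ => by
    obtain ⟨A, c, hA, hc1, -, hOv, hQ⟩ := B.tr y ε hε hy ht y' hy'
    exact ⟨cm A, c, hc1, (hA.S_eq hOv).symm, hA.LL_eq hOv _, fun q hq hq' p => hA.P_eq ⟨hq, hq'⟩ p,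
      fun q hq hq' => hQ q ⟨hq, hq'⟩⟩

end BFam

end fam

end Crest.Agent.R276.BdNf8_651
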