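import Crest.Agent.R276.BdNf8_651
import Crest.Agent.R276.RkB_25

/-!
# Row 276, leaf BDNF (helper651), part 9 : `exists_fam` (interface of helper857)

`WD` + `LD` give a family `LFam` of normal forms (helper217), explicitly from the flat frames `B.n y`.
-/

set_option autoImplicit false
set_option linter.unusedSectionVars false

noncomputable section

open Set Filter Topology Matrix Metric MeasureTheory
open Crest.Agent.R271.Ho51
open Crest.Agent.R276.Ipc735
open Crest.Agent.R276.BdNf1_651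
open Crest.Agent.R276.BdNf2_651
open Crest.Agent.R276.BdNf3_651
open Crest.Agent.R276.BdNf4_651
open Crest.Agent.R276.BdNf5_651
open Crest.Agent.R276.BdNf6_651
open Crest.Agent.R276.BdNf7_651
open Crest.Agent.R276.BdNf8_651
open Crest.Agent.R276.CntDefs_857 (PS DChart)
open Crest.Agent.R276.LftDefs_327 (WD LD)

namespace Crest.Agent.R276.BdNf9_651

variable {d m N w : ℕ} {M E X : Type*} [TopologicalSpace M] [RDom (d + 1) M]
    [MeasurableSpace M] {μ : Measure M} [TopologicalSpace E] [RDom d E] [TopologicalSpace X]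
    [RDom m X] {D : DChart M E μ} {V : VHS m X N w} {om : X → Fin N → ℂ} {u : X → ℂ}
    {f : X → M}

/-- `f (0, ·)` has no zeros -/
theorem f_ne {l : LD D V om u f} {M0 : ℕ} {ψ : M → ℝ} (B : BFam l M0 ψ) (y : E) :
    ∀ v ∈ ball (0 : Fin d → ℂ) (D.r y), B.F y (Fin.cons 0 v) ≠ 0 := by
  obtain ⟨m, -, -, h3, -⟩ := RkB_25.main (B.lch y) (B.cy y) (B.ne y)
  exact h3

theorem f_zero {l : LD D V om u f} {M0 : ℕ} {ψ : M → ℝ} (B : BFam l M0 ψ) (y : E) :
    B.F y 0 ≠ 0 := by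
  have h := f_ne B y 0 (mem_ball_self (GrH_217.r_pos D y))
  rwa [GrH_217.LFam.cons_zero_zero] at h

/-- the family of helper217 -/
def fam {l : LD D V om u f} {M0 : ℕ} {ψ : M → ℝ} (B : BFam l M0 ψ) :
    GrH_217.LFam (Fin N) D w (eN N * M0) B.k ψ := B.toLFam (f_zero B)

section

variable {l : LD D V om u f} {M0 : ℕ} {ψ : M → ℝ} (B : BFam l M0 ψ) (y : E)

@[simp] lemma fam_S : (fam B).S y = (B.n y).fr.S := rfl
@[simp] lemma fam_P : (fam B).P y = PP (B.n y) := rfl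
@[simp] lemma fam_T : (fam B).T y = cm (B.n y).T := rfl
@[simp] lemma fam_z : (fam B).z y = zM l.ku M0 := rfl
@[simp] lemma fam_L : (fam B).L y = LL (B.n y) (eN N * M0) := rfl
@[simp] lemma fam_Om : (fam B).Om y = Om (B.n y) om l.ku M0 (B.g y) := rfl
@[simp] lemma fam_f : (fam B).f y = B.F y := rfl

end

/-- **exists_fam** in the shape requested by helper857 -/
theorem exists_fam {φ ψ : M → ℝ} {M0 : ℕ} {ι : Fin (d + 1) → Fin m}
    (hw : WD V om u M0 f ι φ ψ) (l : LD D V om u f) :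
    ∃ (e : ℕ) (k : ℤ) (F : GrH_217.LFam (Fin N) D w e k ψ) (n : ∀ y, Nf V (l.s y) (D.r y))
      (g : E → (Fin (d + 1) → ℂ) → ℂ), 0 < e ∧ e = eN N * M0 ∧
      (∀ y, F.S y = (n y).fr.S ∧ F.P y = PP (n y) ∧ F.T y = cm (n y).T ∧ F.z y = zM l.ku M0 ∧
        F.L y = LL (n y) e ∧ F.Om y = Om (n y) om l.ku M0 (g y)) ∧
      (∀ y, Cy w (HS d (D.r y)) (F.P y) (F.Om y)) ∧
      (∀ y, ∀ v ∈ ball (0 : Fin d → ℂ) (D.r y), F.f y (Fin.cons 0 v) ≠ 0) := by
  obtain ⟨B⟩ := exists_bfam hw l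
  exact ⟨eN N * M0, B.k, fam B, B.n, B.g, Nat.mul_pos (eN_pos N) hw.hM, rfl,
    fun y => ⟨rfl, rfl, rfl, rfl, rfl, rfl⟩, B.cy, f_ne B⟩

end Crest.Agent.R276.BdNf9_651
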