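import Crest.Agent.R276.Bdy_767

/-!
# R276, leaf B-767, part 2 (helper767): the twisted section `om (w, y) = exp (w N / 2 π i) f (e ^ w, y)`,
its norm `S (om) (om) = ∑ s ^ j c_j (e ^ w, y)` (`s = - Re w`), the limit metric, and the rank drop in
terms of `om`.
-/

set_option autoImplicit false
set_option linter.unusedSectionVars false

open Set Filter Topology Metric Complex MeasureTheory
open scoped Real ContDiff ComplexConjugate Nat

noncomputable section

namespace Crest.Agent.R276.Bdy_767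

open Div_767

variable {V : Type*} [NormedAddCommGroup V] [NormedSpace ℂ V]
variable {E : Type*} [NormedAddCommGroup E] [NormedSpace ℂ E]

section expo

variable [CompleteSpace V]

/-- the flow `exp (c N)` -/
def ex (N : V →L[ℂ] V) (c : ℂ) : V →L[ℂ] V := NormedSpace.exp (c • N)

theorem ex_add (N : V →L[ℂ] V) (c d : ℂ) : ex N (c + d) = ex N c * ex N d := by
  let _ : NormedAlgebra ℚ (V →L[ℂ] V) := NormedAlgebra.restrictScalars ℚ ℂ _
  unfold ex
  rw [add_smul, NormedSpace.exp_add_of_commute]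
  exact ((Commute.refl N).smul_left c).smul_right d

theorem ex_zero (N : V →L[ℂ] V) : ex N 0 = 1 := by
  unfold ex
  rw [zero_smul, NormedSpace.exp_zero]

theorem ex_neg_mul (N : V →L[ℂ] V) (c : ℂ) : ex N (-c) * ex N c = 1 := by
  rw [← ex_add, neg_add_cancel, ex_zero]

theorem ex_mul_neg (N : V →L[ℂ] V) (c : ℂ) : ex N c * ex N (-c) = 1 := by
  rw [← ex_add, add_neg_cancel, ex_zero]

theorem ex_add_apply (N : V →L[ℂ] V) (c d : ℂ) (v : V) : ex N (c + d) v = ex N c (ex N d v) := by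
  rw [ex_add]; rfl

theorem ex_neg_apply (N : V →L[ℂ] V) (c : ℂ) (v : V) : ex N (-c) (ex N c v) = v := by
  rw [← ex_add_apply, neg_add_cancel, ex_zero]; rfl

theorem ex_apply_neg (N : V →L[ℂ] V) (c : ℂ) (v : V) : ex N c (ex N (-c) v) = v := by
  rw [← ex_add_apply, add_neg_cancel, ex_zero]; rfl

theorem hasDerivAt_ex (N : V →L[ℂ] V) (c : ℂ) : HasDerivAt (ex N) (ex N c * N) c :=
  hasDerivAt_exp_smul_const N c

theorem hasDerivAt_ex' (N : V →L[ℂ] V) (c : ℂ) : HasDerivAt (ex N) (N * ex N c) c :=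
  hasDerivAt_exp_smul_const' N c

theorem ex_comm (N : V →L[ℂ] V) (c : ℂ) : ex N c * N = N * ex N c :=
  (hasDerivAt_ex N c).unique (hasDerivAt_ex' N c)

theorem ex_comm_apply (N : V →L[ℂ] V) (c : ℂ) (v : V) : ex N c (N v) = N (ex N c v) := by
  have := congrArg (fun L : V →L[ℂ] V => L v) (ex_comm N c)
  exact this

theorem differentiable_ex (N : V →L[ℂ] V) : Differentiable ℂ (ex N) := fun c =>
  (hasDerivAt_ex N c).differentiableAt

theorem ex_inj (N : V →L[ℂ] V) (c : ℂ) : Function.Injective (ex N c) := fun a b hab => by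
  rw [← ex_neg_apply N c a, hab, ex_neg_apply]

theorem ex_hasSum (N : V →L[ℂ] V) (c : ℂ) (v : V) :
    HasSum (fun n : ℕ => ((n ! : ℂ)⁻¹ * c ^ n) • (N ^ n) v) (ex N c v) := by
  have h1 : HasSum (fun n : ℕ => ((n ! : ℂ)⁻¹) • (c • N) ^ n) (NormedSpace.exp (c • N)) :=
    NormedSpace.exp_series_hasSum_exp' (𝕂 := ℂ) (c • N)
  have h2 := (ContinuousLinearMap.apply ℂ V v).hasSum h1
  refine h2.congr_fun ?_ |> fun h => h
  intro n
  simp [smul_pow, smul_smul]

theorem ex_sum {N : V →L[ℂ] V} {n : ℕ} (hN : N ^ n = 0) (c : ℂ) (v : V) :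
    ex N c v = ∑ j ∈ Finset.range n, ((j ! : ℂ)⁻¹ * c ^ j) • (N ^ j) v := by
  refine (ex_hasSum N c v).unique (hasSum_sum_of_ne_finset_zero ?_)
  intro j hj
  rw [Finset.mem_range, not_lt] at hj
  obtain ⟨m, rfl⟩ := Nat.exists_eq_add_of_le hj
  have h0 : N ^ (n + m) = 0 := by rw [pow_add, hN, zero_mul]
  rw [h0]
  simp

/-- `exp (c N)` and the form `S` -/
theorem ex_adj {S : V →L⋆[ℂ] V →L[ℂ] ℂ} {N : V →L[ℂ] V}
    (hs : ∀ u v, S (N u) v = - S u (N v)) (c : ℂ) (u v : V) :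
    S (ex N c u) v = S u (ex N (-conj c) v) := by
  have h1 := ex_hasSum N c u
  have h2 := ex_hasSum N (-conj c) v
  have h3 : HasSum (fun n : ℕ => S u (((n ! : ℂ)⁻¹ * (-conj c) ^ n) • (N ^ n) v))
      (S u (ex N (-conj c) v)) := (S u).hasSum h2
  have h4 : HasSum (fun n : ℕ => S (((n ! : ℂ)⁻¹ * c ^ n) • (N ^ n) u) v) (S (ex N c u) v) := by
    have h5 := S.hasSum h1
    exact (ContinuousLinearMap.apply ℂ ℂ v).hasSum h5
  refine h4.unique (h3.congr_fun ?_ |> fun h => h)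
  intro n
  have h6 : ∀ (n : ℕ) (a b : V), S ((N ^ n) a) b = (-1) ^ n * S a ((N ^ n) b) := by
    intro n
    induction n with
    | zero => intro a b; simp
    | succ n ih =>
      intro a b
      have e1 : (N ^ (n + 1)) a = (N ^ n) (N a) := by rw [pow_succ]; rfl
      have e2 : (N ^ (n + 1)) b = N ((N ^ n) b) := by rw [pow_succ']; rfl
      rw [e1, e2, ih, hs, pow_succ]
      ring
  rw [map_smulₛₗ, map_smul, smul_apply, h6]
  simp only [map_mul, map_inv₀, map_natCast, map_pow, smul_eq_mul]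
  rw [neg_pow (conj c) n]
  ring

end expo

/-! ### the twisted section -/

section om

variable [CompleteSpace V]
variable {S : V →L⋆[ℂ] V →L[ℂ] ℂ} {N : V →L[ℂ] V} {r : ℝ} {U : Set E} {f : ℂ × E → V}

/-- the twisted section on the half plane -/
def om (N : V →L[ℂ] V) (f : ℂ × E → V) (q : ℂ × E) : V :=
  ex N (q.1 / (2 * π * I)) (f (Complex.exp q.1, q.2))

/-- the coefficients `c_j = π ^ (-j) / j! * S (f) (K ^ j f)` -/
def cc (S : V →L⋆[ℂ] V →L[ℂ] ℂ) (N : V →L[ℂ] V) (f : ℂ × E → V) (j : ℕ) (p : ℂ × E) : ℝ :=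
  (π ^ j * (j ! : ℝ))⁻¹ * (S (f p) ((KK N ^ j) (f p))).re

theorem cc_eq (hh : ∀ u v, S u v = conj (S v u)) (hs : ∀ u v, S (N u) v = - S u (N v))
    (f : ℂ × E → V) (j : ℕ) (p : ℂ × E) :
    ((cc S N f j p : ℝ) : ℂ) = ((π : ℂ) ^ j * (j ! : ℂ))⁻¹ * S (f p) ((KK N ^ j) (f p)) := by
  have h1 : ((S (f p) ((KK N ^ j) (f p))).re : ℂ) = S (f p) ((KK N ^ j) (f p)) := by
    apply Complex.ext
    · rw [Complex.ofReal_re]
    · rw [Complex.ofReal_im, KKpow_real hh hs]
  rw [cc]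
  simp only [Complex.ofReal_mul, Complex.ofReal_inv, Complex.ofReal_pow, Complex.ofReal_natCast]
  rw [h1]

/-- `S (om) (om) = ∑ s ^ j c_j`, `s = - Re w` -/
theorem S_om (hh : ∀ u v, S u v = conj (S v u)) (hs : ∀ u v, S (N u) v = - S u (N v))
    {n : ℕ} (hN : N ^ n = 0) (f : ℂ × E → V) (q : ℂ × E) :
    S (om N f q) (om N f q) =
      ((∑ j ∈ Finset.range n, (-q.1.re) ^ j * cc S N f j (Complex.exp q.1, q.2) : ℝ) : ℂ) := by
  set g := f (Complex.exp q.1, q.2) with hg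
  set c : ℂ := q.1 / (2 * π * I) with hc
  have h1 : S (om N f q) (om N f q) = S g (ex N (-conj c + c) g) := by
    rw [om, ← hg, ← hc, ex_adj hs, ex_add_apply]
  have h2 : -conj c + c = ((-q.1.re / π : ℝ) : ℂ) * I := by
    have hpi : (π : ℂ) ≠ 0 := by exact_mod_cast Real.pi_ne_zero
    have e1 : c = -(q.1 * I) / (2 * π) := by
      rw [hc]
      field_simp
      rw [Complex.I_sq]
      ring
    have e2 : conj c = (conj q.1 * I) / (2 * π) := by
      rw [e1]
      simp only [map_div₀, map_neg, map_mul, conj_I, map_ofNat, Complex.conj_ofReal]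
      ring
    have e3 : (q.1 : ℂ) + conj q.1 = (2 * q.1.re : ℝ) := by
      rw [Complex.add_conj]
    rw [e2, e1]
    have e4 : -(conj q.1 * I / (2 * π)) + -(q.1 * I) / (2 * π) = -((q.1 + conj q.1) * I) / (2 * π) := by
      ring
    rw [e4, e3]
    push_cast
    field_simp
  rw [h1, h2, ex_sum hN, map_sum, Complex.ofReal_sum]
  refine Finset.sum_congr rfl fun j _ => ?_
  have h3 : (KK N ^ j) g = I ^ j • (N ^ j) g := by
    rw [KK, smul_pow]; rfl
  have h4 := cc_eq hh hs f j (Complex.exp q.1, q.2)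
  rw [Complex.ofReal_mul, h4, ← hg, h3, map_smul, map_smul, smul_eq_mul, smul_eq_mul]
  rw [mul_pow, Complex.ofReal_div, div_pow, mul_inv, Complex.ofReal_pow]
  ring

/-- derivative of `om` -/
theorem hasFDerivAt_om {q : ℂ × E} (hf : DifferentiableAt ℂ f (Complex.exp q.1, q.2)) :
    ∃ D : ℂ × E →L[ℂ] V, HasFDerivAt (om N f) D q ∧ ∀ a : ℂ, ∀ ξ : E,
      D (a, ξ) = ex N (q.1 / (2 * π * I))
        (a • XX N f (Complex.exp q.1, q.2) + D0 f (Complex.exp q.1, q.2) ξ) := by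
  set p : ℂ × E := (Complex.exp q.1, q.2) with hp
  have hexp : HasFDerivAt (fun q : ℂ × E => Complex.exp q.1)
      (Complex.exp q.1 • ContinuousLinearMap.fst ℂ ℂ E) q :=
    (Complex.hasDerivAt_exp q.1).comp_hasFDerivAt q hasFDerivAt_fst
  have h1 : HasFDerivAt (fun q : ℂ × E => (Complex.exp q.1, q.2))
      ((Complex.exp q.1 • ContinuousLinearMap.fst ℂ ℂ E).prod (ContinuousLinearMap.snd ℂ ℂ E)) q :=
    hexp.prodMk hasFDerivAt_snd
  have h2 : HasFDerivAt (fun q : ℂ × E => f (Complex.exp q.1, q.2))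
      ((fderiv ℂ f p).comp
        ((Complex.exp q.1 • ContinuousLinearMap.fst ℂ ℂ E).prod (ContinuousLinearMap.snd ℂ ℂ E))) q :=
    HasFDerivAt.comp q (g := f) (f := fun q : ℂ × E => (Complex.exp q.1, q.2)) hf.hasFDerivAt h1
  have h3 : HasFDerivAt (fun q : ℂ × E => q.1 / (2 * π * I))
      ((2 * π * I : ℂ)⁻¹ • ContinuousLinearMap.fst ℂ ℂ E) q := by
    have := (hasFDerivAt_fst (𝕜 := ℂ) (p := q)).const_smul ((2 * π * I : ℂ)⁻¹)
    refine this.congr_of_eventuallyEq (Eventually.of_forall fun z => ?_)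
    simp only [Pi.smul_apply, smul_eq_mul]
    rw [div_eq_inv_mul]
  have h4 := HasFDerivAt.comp q (g := ex N) (f := fun q : ℂ × E => q.1 / (2 * π * I))
    (hasDerivAt_ex N (q.1 / (2 * π * I))).hasFDerivAt h3
  have h5 := h4.clm_apply h2
  refine ⟨_, h5, fun a ξ => ?_⟩
  have h6 : ((Complex.exp q.1 * a, ξ) : ℂ × E) = (Complex.exp q.1 * a) • ((1 : ℂ), (0 : E)) +
      ((0 : ℂ), ξ) := by simp
  have h7 : ex N (q.1 / (2 * π * I)) (fderiv ℂ f p (Complex.exp q.1 * a, ξ)) +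
      ((2 * π * I : ℂ)⁻¹ * a) • ex N (q.1 / (2 * π * I)) (N (f p)) =
      ex N (q.1 / (2 * π * I)) (a • XX N f p + D0 f p ξ) := by
    have hD0 : D0 f p ξ = fderiv ℂ f p ((0 : ℂ), ξ) := rfl
    have hX : XX N f p = (2 * π * I : ℂ)⁻¹ • N (f p) +
      Complex.exp q.1 • fderiv ℂ f p ((1 : ℂ), (0 : E)) := rfl
    rw [h6, hD0, hX, map_add, map_smul]
    generalize fderiv ℂ f p ((1 : ℂ), (0 : E)) = A
    generalize fderiv ℂ f p ((0 : ℂ), ξ) = B
    generalize N (f p) = C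
    generalize ex N (q.1 / (2 * π * I)) = F
    generalize (2 * π * I : ℂ)⁻¹ = c
    simp only [map_add, map_smul, smul_add, smul_smul]
    module
  rw [← h7]
  rfl

/-- the span of `om` and its derivatives corresponds to `spn` -/
theorem span_om {q : ℂ × E} (hf : DifferentiableAt ℂ f (Complex.exp q.1, q.2)) :
    Submodule.span ℂ ({om N f q} ∪ range (fderiv ℂ (om N f) q)) =
      (spn N f (Complex.exp q.1, q.2)).map (ex N (q.1 / (2 * π * I))).toLinearMap := by
  obtain ⟨D, hD, hDa⟩ := hasFDerivAt_om (N := N) hf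
  rw [hD.fderiv, spn, Submodule.map_span]
  apply le_antisymm
  · rw [Submodule.span_le]
    rintro _ (rfl | ⟨⟨a, ξ⟩, rfl⟩)
    · refine Submodule.subset_span ⟨f (Complex.exp q.1, q.2), Or.inl (by simp), rfl⟩
    · rw [hDa, map_add, map_smul]
      refine Submodule.add_mem _ (Submodule.smul_mem _ _ (Submodule.subset_span ?_))
        (Submodule.subset_span ?_)
      · exact ⟨_, Or.inl (by simp), rfl⟩
      · exact ⟨_, Or.inr ⟨ξ, rfl⟩, rfl⟩
  · rw [Submodule.span_le]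
    rintro _ ⟨v, (hv | ⟨ξ, rfl⟩), rfl⟩
    · rcases hv with rfl | hv
      · exact Submodule.subset_span (Or.inl rfl)
      · rw [mem_singleton_iff] at hv
        subst hv
        refine Submodule.subset_span (Or.inr ⟨((1 : ℂ), (0 : E)), ?_⟩)
        rw [hDa]
        simp
    · refine Submodule.subset_span (Or.inr ⟨((0 : ℂ), ξ), ?_⟩)
      rw [hDa]
      simp

theorem finrank_span_om [FiniteDimensional ℂ V] {q : ℂ × E}
    (hf : DifferentiableAt ℂ f (Complex.exp q.1, q.2)) :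
    Module.finrank ℂ (Submodule.span ℂ ({om N f q} ∪ range (fderiv ℂ (om N f) q))) =
      Module.finrank ℂ (spn N f (Complex.exp q.1, q.2)) := by
  rw [span_om hf]
  exact (LinearEquiv.finrank_eq (Submodule.equivMapOfInjective _ (ex_inj N _) _)).symm

end om

/-! ### the index of the limit metric, limits -/

section lim

variable [CompleteSpace V]
variable {S : V →L⋆[ℂ] V →L[ℂ] ℂ} {N : V →L[ℂ] V} {r : ℝ} {U : Set E} {f : ℂ × E → V}

/-- the largest index `k` with `c_k (0, ·)` not identically zero -/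
theorem exists_index (hN : IsNilpotent N)
    (h : ∃ y ∈ U, ∃ j, S (f (0, y)) ((KK N ^ j) (f (0, y))) ≠ 0) :
    ∃ k, (∃ y ∈ U, S (f (0, y)) ((KK N ^ k) (f (0, y))) ≠ 0) ∧
      ∀ j, k < j → ∀ y ∈ U, S (f (0, y)) ((KK N ^ j) (f (0, y))) = 0 := by
  classical
  obtain ⟨n, hn⟩ := KK_nil hN
  have hbd : ∀ j, (∃ y ∈ U, S (f (0, y)) ((KK N ^ j) (f (0, y))) ≠ 0) → j < n := by
    rintro j ⟨y, _, hj⟩
    by_contra hcon
    rw [not_lt] at hcon
    obtain ⟨m, rfl⟩ := Nat.exists_eq_add_of_le hcon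
    apply hj
    have h0 : KK N ^ (n + m) = 0 := by rw [pow_add, hn, zero_mul]
    rw [h0]
    simp
  obtain ⟨y, hy, j, hj⟩ := h
  set P : ℕ → Prop := fun j => ∃ y ∈ U, S (f (0, y)) ((KK N ^ j) (f (0, y))) ≠ 0 with hP
  have hPj : P j := ⟨y, hy, hj⟩
  have hspec := Nat.findGreatest_spec (P := P) (hbd j hPj).le hPj
  refine ⟨Nat.findGreatest P n, hspec, fun i hi y hy => ?_⟩
  by_contra hne
  have hPi : P i := ⟨y, hy, hne⟩
  exact absurd (Nat.le_findGreatest (hbd i hPi).le hPi) (by omega)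

theorem cc_zero {j : ℕ} {p : ℂ × E} (h : S (f p) ((KK N ^ j) (f p)) = 0) : cc S N f j p = 0 := by
  rw [cc, h, Complex.zero_re, mul_zero]

theorem cc_ne_zero (hh : ∀ u v, S u v = conj (S v u)) (hs : ∀ u v, S (N u) v = - S u (N v))
    {j : ℕ} {p : ℂ × E} (h : S (f p) ((KK N ^ j) (f p)) ≠ 0) : cc S N f j p ≠ 0 := by
  intro h0
  have h1 := cc_eq hh hs f j p
  rw [h0, Complex.ofReal_zero] at h1
  have h2 : ((π : ℂ) ^ j * (j ! : ℂ))⁻¹ ≠ 0 := by
    refine inv_ne_zero (mul_ne_zero (pow_ne_zero _ ?_) ?_)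
    · exact_mod_cast Real.pi_ne_zero
    · exact_mod_cast Nat.factorial_ne_zero j
  exact h ((mul_eq_zero.1 h1.symm).resolve_left h2)

theorem cc_continuousOn {W : Set (ℂ × E)} (hf : ContinuousOn f W) (j : ℕ) :
    ContinuousOn (cc S N f j) W := by
  have h1 : ContinuousOn (fun p => S (f p) ((KK N ^ j) (f p))) W :=
    (S.continuous.comp_continuousOn hf).clm_apply ((KK N ^ j).continuous.comp_continuousOn hf)
  exact continuousOn_const.mul (Complex.continuous_re.comp_continuousOn h1)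

/-- `|c_j (u, y) - c_j (0, y)| ≤ C |u|` for `|u| ≤ r / 2`, locally uniformly in `y` -/
theorem cc_lip (hf : AnalyticOnNhd ℂ f (ball 0 r ×ˢ U)) (hr : 0 < r) (j : ℕ)
    {Q : Set E} (hQ : IsCompact Q) (hQU : Q ⊆ U) :
    ∃ C : ℝ, 0 ≤ C ∧ ∀ u : ℂ, ‖u‖ ≤ r / 2 → ∀ y ∈ Q,
      |cc S N f j (u, y) - cc S N f j (0, y)| ≤ C * ‖u‖ := by
  set ρ := r / 2 with hρ
  have hρ0 : 0 < ρ := by positivity
  have hρr : ρ < r := by rw [hρ]; linarith
  have hball : closedBall (0 : ℂ) ρ ⊆ ball 0 r := closedBall_subset_ball hρr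
  have hcomp : IsCompact (closedBall (0 : ℂ) ρ ×ˢ Q) := (isCompact_closedBall 0 ρ).prod hQ
  have hsub : closedBall (0 : ℂ) ρ ×ˢ Q ⊆ ball 0 r ×ˢ U := prod_mono hball hQU
  -- bounds of `f` and of its derivative
  have hfc : ContinuousOn f (closedBall (0 : ℂ) ρ ×ˢ Q) := hf.continuousOn.mono hsub
  have hdc : ContinuousOn (fderiv ℂ f) (closedBall (0 : ℂ) ρ ×ˢ Q) :=
    (hf.fderiv.continuousOn).mono hsub
  obtain ⟨M1, hM1⟩ := hcomp.exists_bound_of_continuousOn hfc
  obtain ⟨M2, hM2⟩ := hcomp.exists_bound_of_continuousOn hdc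
  have hL : ∀ u : ℂ, ‖u‖ ≤ ρ → ∀ y ∈ Q, ‖f (u, y) - f (0, y)‖ ≤ M2 * ‖u‖ := by
    intro u hu y hy
    have hseg : ∀ z ∈ closedBall (0 : ℂ) ρ, HasFDerivWithinAt (fun z : ℂ => f (z, y))
        ((fderiv ℂ f (z, y)).comp (ContinuousLinearMap.inl ℂ ℂ E)) (closedBall (0 : ℂ) ρ) z := by
      intro z hz
      have h1 : HasFDerivAt f (fderiv ℂ f (z, y)) (z, y) :=
        (hf _ (hsub ⟨hz, hy⟩)).differentiableAt.hasFDerivAt
      exact (HasFDerivAt.comp z (g := f) (f := fun z : ℂ => (z, y)) h1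
        (hasFDerivAt_prodMk_left z y)).hasFDerivWithinAt
    have hbd : ∀ z ∈ closedBall (0 : ℂ) ρ,
        ‖(fderiv ℂ f (z, y)).comp (ContinuousLinearMap.inl ℂ ℂ E)‖ ≤ M2 := by
      intro z hz
      refine (ContinuousLinearMap.opNorm_comp_le _ _).trans ?_
      have h1 := hM2 (z, y) ⟨hz, hy⟩
      have h2 : ‖ContinuousLinearMap.inl ℂ ℂ E‖ ≤ 1 := by
        refine ContinuousLinearMap.opNorm_le_bound _ zero_le_one fun x => ?_
        simp [Prod.norm_def]
      calc ‖fderiv ℂ f (z, y)‖ * ‖ContinuousLinearMap.inl ℂ ℂ E‖ ≤ M2 * 1 :=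
            mul_le_mul h1 h2 (norm_nonneg _) ((norm_nonneg _).trans h1)
        _ = M2 := mul_one _
    have h3 := (convex_closedBall (0 : ℂ) ρ).norm_image_sub_le_of_norm_hasFDerivWithin_le
      hseg hbd (mem_closedBall_self hρ0.le) (mem_closedBall_zero_iff.2 hu)
    simpa using h3
  refine ⟨|(π ^ j * (j ! : ℝ))⁻¹| * (2 * (‖S‖ * ‖KK N ^ j‖ * |M1| * |M2|)), by positivity,
    fun u hu y hy => ?_⟩
  set a := f (u, y) with ha
  set b := f (0, y) with hb
  set L := KK N ^ j with hL'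
  have e1 : cc S N f j (u, y) - cc S N f j (0, y) =
      (π ^ j * (j ! : ℝ))⁻¹ * ((S (a - b) (L a) + S b (L (a - b))).re) := by
    simp only [cc, ← ha, ← hb, ← hL']
    rw [← mul_sub, ← Complex.sub_re]
    congr 2
    simp only [map_sub, sub_apply]
    ring
  have ha1 : ‖a‖ ≤ |M1| := (hM1 _ ⟨mem_closedBall_zero_iff.2 hu, hy⟩).trans (le_abs_self _)
  have hb1 : ‖b‖ ≤ |M1| := (hM1 _ ⟨mem_closedBall_self hρ0.le, hy⟩).trans (le_abs_self _)
  have hab : ‖a - b‖ ≤ |M2| * ‖u‖ :=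
    (hL u hu y hy).trans (mul_le_mul_of_nonneg_right (le_abs_self _) (norm_nonneg _))
  have e2 : ‖S (a - b) (L a)‖ ≤ ‖S‖ * ‖L‖ * |M1| * |M2| * ‖u‖ := by
    calc ‖S (a - b) (L a)‖ ≤ ‖S‖ * ‖a - b‖ * ‖L a‖ := S.le_opNorm₂ _ _
      _ ≤ ‖S‖ * (|M2| * ‖u‖) * (‖L‖ * |M1|) := by
          gcongr
          exact (L.le_opNorm a).trans (mul_le_mul_of_nonneg_left ha1 (norm_nonneg _))
      _ = _ := by ring
  have e3 : ‖S b (L (a - b))‖ ≤ ‖S‖ * ‖L‖ * |M1| * |M2| * ‖u‖ := by
    calc ‖S b (L (a - b))‖ ≤ ‖S‖ * ‖b‖ * ‖L (a - b)‖ := S.le_opNorm₂ _ _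
      _ ≤ ‖S‖ * |M1| * (‖L‖ * (|M2| * ‖u‖)) := by
          gcongr
          exact (L.le_opNorm _).trans (mul_le_mul_of_nonneg_left hab (norm_nonneg _))
      _ = _ := by ring
  rw [e1, abs_mul]
  calc |(π ^ j * (j ! : ℝ))⁻¹| * |(S (a - b) (L a) + S b (L (a - b))).re|
      ≤ |(π ^ j * (j ! : ℝ))⁻¹| * (‖S (a - b) (L a)‖ + ‖S b (L (a - b))‖) := by
        refine mul_le_mul_of_nonneg_left ?_ (abs_nonneg _)
        exact (Complex.abs_re_le_norm _).trans (norm_add_le _ _)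
    _ ≤ |(π ^ j * (j ! : ℝ))⁻¹| * (‖S‖ * ‖L‖ * |M1| * |M2| * ‖u‖ + ‖S‖ * ‖L‖ * |M1| * |M2| * ‖u‖) := by
        gcongr
    _ = _ := by ring

/-- the norm of `om` divided by `s ^ k` tends to the limit metric, locally uniformly in `y`;
version where the higher coefficients vanish only on the compact set -/
theorem tendsto_unifQ (h : Bd S N r U f) {k : ℕ} {Q : Set E}
    (hk : ∀ j, k < j → ∀ y ∈ Q, S (f (0, y)) ((KK N ^ j) (f (0, y))) = 0)
    (hQ : IsCompact Q) (hQU : Q ⊆ U) {ε : ℝ} (hε : 0 < ε) :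
    ∃ A : ℝ, ∀ w : ℂ, w.re < A → ∀ y ∈ Q,
      |(S (om N f (w, y)) (om N f (w, y))).re / (-w.re) ^ k - cc S N f k (0, y)| ≤ ε := by
  obtain ⟨n, hnk, hNn⟩ : ∃ n, k + 1 ≤ n ∧ N ^ n = 0 := by
    obtain ⟨n0, hn0⟩ := h.nil
    exact ⟨n0 + k + 1, by omega, by rw [add_assoc, pow_add, hn0, zero_mul]⟩
  choose C hC0 hC using fun j => cc_lip (S := S) (N := N) h.an h.hr j hQ hQU
  have hM : ∀ j, ∃ M : ℝ, ∀ y ∈ Q, |cc S N f j (0, y)| ≤ M := by
    intro j
    have h1 : ContinuousOn (fun y : E => cc S N f j (0, y)) Q := by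
      refine (cc_continuousOn h.an.continuousOn j).comp (by fun_prop) ?_
      intro y hy
      exact ⟨mem_ball_self h.hr, hQU hy⟩
    exact hQ.exists_bound_of_continuousOn h1
  choose M hM using hM
  -- the bound
  have hlim : Tendsto (fun s : ℝ => ∑ j ∈ Finset.range n, C j * (s ^ j * Real.exp (-s)) +
      ∑ j ∈ Finset.range k, |M j| * (s ^ j / s ^ k)) atTop (𝓝 0) := by
    have h1 : Tendsto (fun s : ℝ => ∑ j ∈ Finset.range n, C j * (s ^ j * Real.exp (-s))) atTop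
        (𝓝 (∑ j ∈ Finset.range n, C j * 0)) :=
      tendsto_finsetSum _ fun j _ =>
        (Real.tendsto_pow_mul_exp_neg_atTop_nhds_zero j).const_mul _
    have h2 : Tendsto (fun s : ℝ => ∑ j ∈ Finset.range k, |M j| * (s ^ j / s ^ k)) atTop
        (𝓝 (∑ j ∈ Finset.range k, |M j| * 0)) :=
      tendsto_finsetSum _ fun j hj =>
        (tendsto_pow_div_pow_atTop_zero (Finset.mem_range.1 hj)).const_mul _
    simpa using h1.add h2
  have hev := ((hlim.eventually (gt_mem_nhds hε)).and (eventually_ge_atTop (1 : ℝ))).and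
    (eventually_ge_atTop (-Real.log (r / 2)))
  obtain ⟨A, hA⟩ := eventually_atTop.1 hev
  refine ⟨-A, fun w hw y hy => ?_⟩
  set s : ℝ := -w.re with hs
  obtain ⟨⟨hb, hs1⟩, hs2⟩ := hA s (by linarith)
  have hs0 : 0 < s := by linarith
  have hu : ‖Complex.exp w‖ = Real.exp (-s) := by rw [Complex.norm_exp, hs, neg_neg]
  have hu2 : ‖Complex.exp w‖ ≤ r / 2 := by
    rw [hu]
    have hr2 : 0 < r / 2 := by have := h.hr; positivity
    calc Real.exp (-s) ≤ Real.exp (Real.log (r / 2)) := Real.exp_le_exp.2 (by linarith)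
      _ = r / 2 := Real.exp_log hr2
  rw [S_om h.herm h.skew hNn, Complex.ofReal_re]
  simp only [← hs]
  have hsk : 0 < s ^ k := pow_pos hs0 k
  -- split
  have hsplit : (∑ j ∈ Finset.range n, s ^ j * cc S N f j (Complex.exp w, y)) / s ^ k -
      cc S N f k (0, y) = (∑ j ∈ Finset.range n,
        s ^ j * (cc S N f j (Complex.exp w, y) - cc S N f j (0, y))) / s ^ k +
      ∑ j ∈ Finset.range k, s ^ j / s ^ k * cc S N f j (0, y) := by
    have h1 : ∑ j ∈ Finset.range n, s ^ j * cc S N f j (Complex.exp w, y) =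
        ∑ j ∈ Finset.range n, s ^ j * (cc S N f j (Complex.exp w, y) - cc S N f j (0, y)) +
        ∑ j ∈ Finset.range n, s ^ j * cc S N f j (0, y) := by
      rw [← Finset.sum_add_distrib]
      refine Finset.sum_congr rfl fun j _ => by ring
    have h2 : ∑ j ∈ Finset.range n, s ^ j * cc S N f j (0, y) =
        ∑ j ∈ Finset.range (k + 1), s ^ j * cc S N f j (0, y) := by
      symm
      refine Finset.sum_subset (Finset.range_mono (by omega)) fun j _ hj => ?_
      rw [Finset.mem_range, not_lt] at hj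
      rw [cc_zero (hk j (by omega) y hy), mul_zero]
    have h3 : (∑ j ∈ Finset.range k, s ^ j * cc S N f j (0, y)) / s ^ k =
        ∑ j ∈ Finset.range k, s ^ j / s ^ k * cc S N f j (0, y) := by
      rw [Finset.sum_div]
      exact Finset.sum_congr rfl fun j _ => by ring
    rw [h1, h2, Finset.sum_range_succ, add_div, add_div, mul_div_cancel_left₀ _ hsk.ne', h3]
    ring
  rw [hsplit]
  refine (abs_add_le _ _).trans (le_trans (add_le_add ?_ ?_) hb.le)
  · rw [abs_div, abs_of_pos hsk]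
    have h1 : |∑ j ∈ Finset.range n, s ^ j * (cc S N f j (Complex.exp w, y) -
        cc S N f j (0, y))| ≤ ∑ j ∈ Finset.range n, C j * (s ^ j * Real.exp (-s)) := by
      refine (Finset.abs_sum_le_sum_abs _ _).trans (Finset.sum_le_sum fun j _ => ?_)
      rw [abs_mul, abs_of_nonneg (pow_nonneg hs0.le j)]
      have h2 := hC j (Complex.exp w) hu2 y hy
      rw [hu] at h2
      calc s ^ j * |cc S N f j (Complex.exp w, y) - cc S N f j (0, y)|
          ≤ s ^ j * (C j * Real.exp (-s)) := mul_le_mul_of_nonneg_left h2 (pow_nonneg hs0.le j)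
        _ = _ := by ring
    have h3 : 0 ≤ ∑ j ∈ Finset.range n, C j * (s ^ j * Real.exp (-s)) :=
      Finset.sum_nonneg fun j _ => mul_nonneg (hC0 j) (mul_nonneg (pow_nonneg hs0.le j)
        (Real.exp_pos _).le)
    calc |∑ j ∈ Finset.range n, s ^ j * (cc S N f j (Complex.exp w, y) -
        cc S N f j (0, y))| / s ^ k ≤ (∑ j ∈ Finset.range n, C j * (s ^ j * Real.exp (-s))) / s ^ k :=
          div_le_div_of_nonneg_right h1 hsk.le
      _ ≤ _ := div_le_self h3 (one_le_pow₀ hs1)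
  · refine (Finset.abs_sum_le_sum_abs _ _).trans (Finset.sum_le_sum fun j _ => ?_)
    rw [abs_mul, abs_of_nonneg (div_nonneg (pow_nonneg hs0.le j) hsk.le), mul_comm]
    exact mul_le_mul_of_nonneg_right ((hM j y hy).trans (le_abs_self _))
      (div_nonneg (pow_nonneg hs0.le j) hsk.le)

/-- the norm of `om` divided by `s ^ k` tends to the limit metric, locally uniformly in `y` -/
theorem tendsto_unif (h : Bd S N r U f) {k : ℕ}
    (hk : ∀ j, k < j → ∀ y ∈ U, S (f (0, y)) ((KK N ^ j) (f (0, y))) = 0)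
    {Q : Set E} (hQ : IsCompact Q) (hQU : Q ⊆ U) {ε : ℝ} (hε : 0 < ε) :
    ∃ A : ℝ, ∀ w : ℂ, w.re < A → ∀ y ∈ Q,
      |(S (om N f (w, y)) (om N f (w, y))).re / (-w.re) ^ k - cc S N f k (0, y)| ≤ ε :=
  tendsto_unifQ h (fun j hj y hy => hk j hj y (hQU hy)) hQ hQU hε

/-- positivity of the limit metric -/
theorem cc_nonneg (h : Bd S N r U f) {k : ℕ}
    (hk : ∀ j, k < j → ∀ y ∈ U, S (f (0, y)) ((KK N ^ j) (f (0, y))) = 0) {y : E} (hy : y ∈ U)
    (hpos : ∃ᶠ s : ℝ in atTop, 0 ≤ (S (om N f (-(s : ℂ), y)) (om N f (-(s : ℂ), y))).re) :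
    0 ≤ cc S N f k (0, y) := by
  by_contra hneg
  rw [not_le] at hneg
  obtain ⟨A, hA⟩ := tendsto_unif h hk (isCompact_singleton (x := y)) (singleton_subset_iff.2 hy)
    (ε := -cc S N f k (0, y) / 2) (by linarith)
  obtain ⟨s, hs, hsA, hs0⟩ := (hpos.and_eventually ((eventually_gt_atTop (-A)).and
    (eventually_gt_atTop (0 : ℝ)))).exists
  have h1 := hA (-(s : ℂ)) (by simp; linarith) y rfl
  have h2 : (-(-(s : ℂ)).re) = s := by simp
  rw [h2] at h1
  have h3 : 0 ≤ (S (om N f (-(s : ℂ), y)) (om N f (-(s : ℂ), y))).re / s ^ k :=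
    div_nonneg hs (pow_nonneg hs0.le k)
  have h4 := (abs_le.1 h1).2
  linarith

theorem norm_ex_le {N : V →L[ℂ] V} {n : ℕ} (hN : N ^ n = 0) (c : ℂ) :
    ‖ex N c‖ ≤ ∑ j ∈ Finset.range n, ‖c‖ ^ j * ‖N ^ j‖ := by
  refine ContinuousLinearMap.opNorm_le_bound _ (Finset.sum_nonneg fun j _ => by positivity)
    fun v => ?_
  rw [ex_sum hN, Finset.sum_mul]
  refine (norm_sum_le _ _).trans (Finset.sum_le_sum fun j _ => ?_)
  rw [norm_smul, norm_mul, norm_inv, norm_pow, Complex.norm_natCast]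
  have h1 : ((j ! : ℝ))⁻¹ ≤ 1 := inv_le_one_of_one_le₀ (by exact_mod_cast Nat.factorial_pos j)
  calc (j ! : ℝ)⁻¹ * ‖c‖ ^ j * ‖(N ^ j) v‖ ≤ 1 * ‖c‖ ^ j * (‖N ^ j‖ * ‖v‖) := by
        gcongr
        exact (N ^ j).le_opNorm v
    _ = _ := by ring

/-- **moderate growth** (the norm `S (om) (om)` is not much smaller than `‖om‖ ^ 2`) implies that the
limit metric exists: some `c_j (0, y) ≠ 0`. -/
theorem exists_ne_of_growth (h : Bd S N r U f) {y : E} (hy : y ∈ U) (hfy : f (0, y) ≠ 0)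
    {c : ℝ} (hc : 0 < c) {A : ℕ}
    (hMG : ∀ᶠ s : ℝ in atTop, c * ‖om N f (-(s : ℂ), y)‖ ^ 2 ≤
      s ^ A * (S (om N f (-(s : ℂ), y)) (om N f (-(s : ℂ), y))).re) :
    ∃ j, S (f (0, y)) ((KK N ^ j) (f (0, y))) ≠ 0 := by
  by_contra hcon
  push Not at hcon
  obtain ⟨n, hn⟩ := h.nil
  choose C hC0 hC using fun j => cc_lip (S := S) (N := N) h.an h.hr j
    (isCompact_singleton (x := y)) (singleton_subset_iff.2 hy)
  -- polynomial bound
  set P : Polynomial ℝ := (∑ j ∈ Finset.range n, Polynomial.C ‖N ^ j‖ * Polynomial.X ^ j) ^ 2 *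
    Polynomial.X ^ A * ∑ j ∈ Finset.range n, Polynomial.C (C j) * Polynomial.X ^ j with hP
  have hPev : ∀ s : ℝ, P.eval s = (∑ j ∈ Finset.range n, ‖N ^ j‖ * s ^ j) ^ 2 * s ^ A *
      ∑ j ∈ Finset.range n, C j * s ^ j := by
    intro s
    simp [hP, Polynomial.eval_finsetSum]
  have hlim := Polynomial.tendsto_div_exp_atTop P
  have hf0 : Tendsto (fun s : ℝ => c * ‖f (Complex.exp (-(s : ℂ)), y)‖ ^ 2) atTop
      (𝓝 (c * ‖f (0, y)‖ ^ 2)) := by
    have h1 : Tendsto (fun s : ℝ => Complex.exp (-(s : ℂ))) atTop (𝓝 0) := by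
      rw [tendsto_zero_iff_norm_tendsto_zero]
      have : (fun s : ℝ => ‖Complex.exp (-(s : ℂ))‖) = fun s => Real.exp (-s) := by
        ext s
        rw [Complex.norm_exp]
        simp
      rw [this]
      exact Real.tendsto_exp_neg_atTop_nhds_zero
    have h2 : ContinuousAt f (0, y) := (h.an _ ⟨mem_ball_self h.hr, hy⟩).continuousAt
    have h3 : Tendsto (fun s : ℝ => (Complex.exp (-(s : ℂ)), y)) atTop (𝓝 ((0 : ℂ), y)) :=
      h1.prodMk_nhds tendsto_const_nhds
    exact ((h2.tendsto.comp h3).norm.pow 2).const_mul c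
  have hle : ∀ᶠ s : ℝ in atTop, c * ‖f (Complex.exp (-(s : ℂ)), y)‖ ^ 2 ≤ P.eval s / Real.exp s := by
    filter_upwards [hMG, eventually_ge_atTop (1 : ℝ), eventually_ge_atTop (-Real.log (r / 2))]
      with s hs hs1 hs2
    have hs0 : 0 < s := by linarith
    set w : ℂ := -(s : ℂ) with hw
    have hwre : -w.re = s := by simp [hw]
    have hu : ‖Complex.exp w‖ = Real.exp (-s) := by rw [Complex.norm_exp]; simp [hw]
    have hu2 : ‖Complex.exp w‖ ≤ r / 2 := by
      rw [hu]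
      have hr2 : 0 < r / 2 := by have := h.hr; positivity
      calc Real.exp (-s) ≤ Real.exp (Real.log (r / 2)) := Real.exp_le_exp.2 (by linarith)
        _ = r / 2 := Real.exp_log hr2
    -- `f` in terms of `om`
    set d : ℂ := w / (2 * π * I) with hd
    have hdn : ‖-d‖ ≤ s := by
      rw [norm_neg, hd, norm_div, norm_mul, norm_mul, Complex.norm_I, mul_one, Complex.norm_real,
        Real.norm_eq_abs, abs_of_pos Real.pi_pos, hw, norm_neg, Complex.norm_real,
        Real.norm_eq_abs, abs_of_pos hs0]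
      have h2 : ‖(2 : ℂ)‖ = 2 := by simp
      rw [h2]
      refine div_le_self hs0.le ?_
      nlinarith [Real.pi_gt_three]
    have hfom : f (Complex.exp w, y) = ex N (-d) (om N f (w, y)) := by
      rw [om, ex_neg_apply]
    have h1 : ‖f (Complex.exp w, y)‖ ≤ (∑ j ∈ Finset.range n, ‖N ^ j‖ * s ^ j) *
        ‖om N f (w, y)‖ := by
      rw [hfom]
      refine ((ex N (-d)).le_opNorm _).trans (mul_le_mul_of_nonneg_right ?_ (norm_nonneg _))
      refine (norm_ex_le hn _).trans (Finset.sum_le_sum fun j _ => ?_)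
      rw [mul_comm]
      exact mul_le_mul_of_nonneg_left (pow_le_pow_left₀ (norm_nonneg _) hdn j) (norm_nonneg _)
    have h2 : (S (om N f (w, y)) (om N f (w, y))).re ≤
        (∑ j ∈ Finset.range n, C j * s ^ j) * Real.exp (-s) := by
      rw [S_om h.herm h.skew hn, Complex.ofReal_re]
      simp only [hwre]
      rw [Finset.sum_mul]
      refine Finset.sum_le_sum fun j _ => ?_
      have h3 := hC j (Complex.exp w) hu2 y rfl
      rw [cc_zero (hcon j), sub_zero, hu] at h3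
      have h4 := (le_abs_self _).trans h3
      calc s ^ j * cc S N f j (Complex.exp w, y) ≤ s ^ j * (C j * Real.exp (-s)) :=
            mul_le_mul_of_nonneg_left h4 (pow_nonneg hs0.le j)
        _ = _ := by ring
    have hB0 : 0 ≤ ∑ j ∈ Finset.range n, ‖N ^ j‖ * s ^ j :=
      Finset.sum_nonneg fun j _ => mul_nonneg (norm_nonneg _) (pow_nonneg hs0.le j)
    rw [hPev, div_eq_mul_inv, ← Real.exp_neg]
    calc c * ‖f (Complex.exp w, y)‖ ^ 2
        ≤ c * ((∑ j ∈ Finset.range n, ‖N ^ j‖ * s ^ j) * ‖om N f (w, y)‖) ^ 2 := by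
          gcongr
      _ = (∑ j ∈ Finset.range n, ‖N ^ j‖ * s ^ j) ^ 2 * (c * ‖om N f (w, y)‖ ^ 2) := by ring
      _ ≤ (∑ j ∈ Finset.range n, ‖N ^ j‖ * s ^ j) ^ 2 *
          (s ^ A * (S (om N f (w, y)) (om N f (w, y))).re) :=
          mul_le_mul_of_nonneg_left hs (by positivity)
      _ ≤ (∑ j ∈ Finset.range n, ‖N ^ j‖ * s ^ j) ^ 2 *
          (s ^ A * ((∑ j ∈ Finset.range n, C j * s ^ j) * Real.exp (-s))) := by
          gcongr
      _ = _ := by ring
  have h5 := le_of_tendsto_of_tendsto hf0 hlim hle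
  have h6 : 0 < ‖f (0, y)‖ := norm_pos_iff.2 hfy
  have h7 : 0 < c * ‖f (0, y)‖ ^ 2 := by positivity
  linarith

end lim

/-! ### the rank drop in terms of `om` -/

section main

variable [FiniteDimensional ℂ V] [FiniteDimensional ℂ E] [CompleteSpace V]
variable {S : V →L⋆[ℂ] V →L[ℂ] ℂ} {N : V →L[ℂ] V} {r : ℝ} {U : Set E} {f : ℂ × E → V}

/-- the monodromy `T` (`om (w + 2 π i / e) = T om (w)`) gives an endomorphism fixing `f (0, ·)` -/
theorem fix_of_deck (h : Bd S N r U f) {T : V →L[ℂ] V} (hTN : ∀ v, T (N v) = N (T v)) {e : ℕ}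
    (he : 0 < e)
    (hT : ∀ w : ℂ, w.re < Real.log r → ∀ y ∈ U,
      om N f (w + 2 * π * I / e, y) = T (om N f (w, y))) :
    ∀ y ∈ U, (ex N (-(e : ℂ)⁻¹) * T) (f (0, y)) = f (0, y) := by
  intro y hy
  have hTex : ∀ c : ℂ, ∀ v, T (ex N c v) = ex N c (T v) := by
    intro c v
    have h1 := T.hasSum (ex_hasSum N c v)
    have h2 := ex_hasSum N c (T v)
    refine h1.unique (h2.congr_fun ?_ |> fun h => h)
    intro n
    have h3 : ∀ n : ℕ, ∀ v, T ((N ^ n) v) = (N ^ n) (T v) := by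
      intro n
      induction n with
      | zero => intro v; simp
      | succ n ih =>
        intro v
        have e1 : (N ^ (n + 1)) v = N ((N ^ n) v) := by rw [pow_succ']; rfl
        have e2 : (N ^ (n + 1)) (T v) = N ((N ^ n) (T v)) := by rw [pow_succ']; rfl
        rw [e1, e2, hTN, ih]
    rw [map_smul, h3]
  have he0 : (e : ℂ) ≠ 0 := by exact_mod_cast he.ne'
  set ζ : ℂ := Complex.exp (2 * π * I / e) with hζ
  -- the identity for `u ≠ 0`
  have key : ∀ w : ℂ, w.re < Real.log r →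
      f (Complex.exp w * ζ, y) = (ex N (-(e : ℂ)⁻¹) * T) (f (Complex.exp w, y)) := by
    intro w hw
    have h1 := hT w hw y hy
    rw [om, om, hTex] at h1
    simp only at h1
    rw [Complex.exp_add, ← hζ] at h1
    have h2 : (w + 2 * π * I / e) / (2 * π * I) = w / (2 * π * I) + (e : ℂ)⁻¹ := by
      have hpi : (2 * π * I : ℂ) ≠ 0 := by simp [Real.pi_ne_zero, I_ne_zero]
      field_simp
    rw [h2, ex_add_apply] at h1
    have h3 := ex_inj N _ h1
    have h4 : (ex N (-(e : ℂ)⁻¹) * T) (f (Complex.exp w, y)) =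
        ex N (-(e : ℂ)⁻¹) (T (f (Complex.exp w, y))) := rfl
    rw [h4, ← h3, ex_neg_apply]
  -- pass to the limit
  have hcont : ContinuousAt f (0, y) := (h.an _ ⟨mem_ball_self h.hr, hy⟩).continuousAt
  have hexp : Tendsto (fun s : ℝ => Complex.exp (-(s : ℂ))) atTop (𝓝 0) := by
    rw [tendsto_zero_iff_norm_tendsto_zero]
    have : (fun s : ℝ => ‖Complex.exp (-(s : ℂ))‖) = fun s => Real.exp (-s) := by
      ext s
      rw [Complex.norm_exp]
      simp
    rw [this]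
    exact Real.tendsto_exp_neg_atTop_nhds_zero
  have t1 : Tendsto (fun s : ℝ => f (Complex.exp (-(s : ℂ)) * ζ, y)) atTop (𝓝 (f (0, y))) := by
    have h1 : Tendsto (fun s : ℝ => (Complex.exp (-(s : ℂ)) * ζ, y)) atTop (𝓝 ((0 : ℂ), y)) := by
      have := hexp.mul_const ζ
      rw [zero_mul] at this
      exact this.prodMk_nhds tendsto_const_nhds
    exact hcont.tendsto.comp h1
  have t2 : Tendsto (fun s : ℝ => (ex N (-(e : ℂ)⁻¹) * T) (f (Complex.exp (-(s : ℂ)), y))) atTop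
      (𝓝 ((ex N (-(e : ℂ)⁻¹) * T) (f (0, y)))) := by
    have h1 : Tendsto (fun s : ℝ => (Complex.exp (-(s : ℂ)), y)) atTop (𝓝 ((0 : ℂ), y)) :=
      hexp.prodMk_nhds tendsto_const_nhds
    exact ((ex N (-(e : ℂ)⁻¹) * T).continuous.tendsto _).comp (hcont.tendsto.comp h1)
  have t3 := t1.congr' (f₂ := fun s : ℝ =>
    (ex N (-(e : ℂ)⁻¹) * T) (f (Complex.exp (-(s : ℂ)), y))) (by
      filter_upwards [eventually_gt_atTop (-Real.log r)] with s hs
      exact key _ (by simp; linarith))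
  exact tendsto_nhds_unique t2 t3

/-- **rank drop in terms of the twisted section and the monodromy**.  If the span of `om` and its
derivatives has dimension `≤ ν + 1` everywhere and the monodromy `T` is not the identity on `om`,
then at every point with limit metric `≠ 0` the null space of the Levi form of its logarithm has
dimension `≥ dim E + 1 - ν`. -/
theorem rank_drop_om (h : Bd S N r U f) (hUc : IsPreconnected U) {k ν : ℕ}
    (hk : ∀ y ∈ U, S (f (0, y)) ((KK N ^ (k + 1)) (f (0, y))) = 0)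
    (hν : ∀ w : ℂ, w.re < Real.log r → ∀ y ∈ U, Module.finrank ℂ
      (Submodule.span ℂ ({om N f (w, y)} ∪ range (fderiv ℂ (om N f) (w, y)))) ≤ ν + 1)
    {T : V →L[ℂ] V} (hTN : ∀ v, T (N v) = N (T v)) {e : ℕ} (he : 0 < e)
    (hT : ∀ w : ℂ, w.re < Real.log r → ∀ y ∈ U,
      om N f (w + 2 * π * I / e, y) = T (om N f (w, y)))
    (hne : ∃ w : ℂ, w.re < Real.log r ∧ ∃ y ∈ U, T (om N f (w, y)) ≠ om N f (w, y))
    {y : E} (hy : y ∈ U) (hη : S (f (0, y)) ((KK N ^ k) (f (0, y))) ≠ 0) :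
    Module.finrank ℂ E + 1 ≤
      Module.finrank ℂ (nul S (KK N ^ k) (f (0, y)) (D0 f (0, y))) + ν := by
  have hmem : ∀ w : ℂ, w.re < Real.log r → ∀ y ∈ U,
      (Complex.exp w, y) ∈ ball (0 : ℂ) r ×ˢ U := by
    intro w hw y hy
    refine ⟨?_, hy⟩
    rw [mem_ball_zero_iff, Complex.norm_exp]
    calc Real.exp w.re < Real.exp (Real.log r) := Real.exp_lt_exp.2 hw
      _ = r := Real.exp_log h.hr
  refine rank_drop h hUc hk ?_ (ex N (-(e : ℂ)⁻¹) * T) (fix_of_deck h hTN he hT) ?_ hy hη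
  · intro p hp hp0
    have h1 : ‖p.1‖ < r := by simpa using hp.1
    have h2 : (Complex.log p.1).re < Real.log r := by
      rw [Complex.log_re]
      exact Real.log_lt_log (norm_pos_iff.2 hp0) h1
    have h3 := hν (Complex.log p.1) h2 p.2 hp.2
    have h4 : (Complex.exp (Complex.log p.1), p.2) = p := by
      rw [Complex.exp_log hp0]
    rw [finrank_span_om (q := (Complex.log p.1, p.2)) (by
      simp only
      rw [h4]
      exact (h.an p hp).differentiableAt)] at h3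
    simp only at h3
    rwa [h4] at h3
  · intro hall
    obtain ⟨w, hw, y, hy, hne⟩ := hne
    apply hne
    obtain ⟨h1, h2⟩ := hall _ (hmem w hw y hy)
    have hex : ∀ c : ℂ, ∀ v, N v = 0 → ex N c v = v := by
      intro c v hv
      have h3 := ex_hasSum N c v
      have h4 : HasSum (fun n : ℕ => ((n ! : ℂ)⁻¹ * c ^ n) • (N ^ n) v) v := by
        have h5 := hasSum_single (f := fun n : ℕ => ((n ! : ℂ)⁻¹ * c ^ n) • (N ^ n) v) 0 ?_
        · simpa using h5
        · intro n hn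
          obtain ⟨m, rfl⟩ := Nat.exists_eq_succ_of_ne_zero hn
          have e1 : (N ^ (m + 1)) v = (N ^ m) (N v) := by rw [pow_succ]; rfl
          simp only [Nat.succ_eq_add_one]
          rw [e1, hv, map_zero, smul_zero]
      exact h3.unique h4
    have h3 : om N f (w, y) = f (Complex.exp w, y) := hex _ _ h1
    rw [h3]
    have h4 : T (f (Complex.exp w, y)) = ex N ((e : ℂ)⁻¹) (f (Complex.exp w, y)) := by
      have h5 : ex N (-(e : ℂ)⁻¹) (T (f (Complex.exp w, y))) = f (Complex.exp w, y) := h2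
      rw [← h5, ex_apply_neg, h5]
    rw [h4, hex _ _ h1]

end main

end Crest.Agent.R276.Bdy_767
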