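import Crest.Agent.R276.Div_767

/-!
# R276, leaf B-767 (helper767): the limit metric on a boundary divisor and the rank drop

`f (u, y)` (`= om0`) is the holomorphic extension over `u = 0` of the untwisted section
`exp (-(w / 2 π i) N) om (w, y)`, `u = e ^ w`; `S` is the polarisation (conjugate linear in the
first slot), `N` the logarithm of the unipotent part of the monodromy (`S (N u) v = - S u (N v)`),
`K = i N` is self adjoint.  `hc k (0, y) = π ^ (-k) / k! * S (f (0, y)) (K ^ k (f (0, y)))` is the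
limit metric when `k` is the largest index for which it is not identically zero.
-/

set_option autoImplicit false
set_option linter.unusedSectionVars false

open Set Filter Topology Metric Complex MeasureTheory
open scoped Real ContDiff ComplexConjugate

noncomputable section

namespace Crest.Agent.R276.Bdy_767

open Div_767

variable {V : Type*} [NormedAddCommGroup V] [NormedSpace ℂ V]
variable {E : Type*} [NormedAddCommGroup E] [NormedSpace ℂ E]

/-- boundary data -/
structure Bd (S : V →L⋆[ℂ] V →L[ℂ] ℂ) (N : V →L[ℂ] V) (r : ℝ) (U : Set E)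
    (f : ℂ × E → V) : Prop where
  hr : 0 < r
  hU : IsOpen U
  herm : ∀ u v, S u v = conj (S v u)
  skew : ∀ u v, S (N u) v = - S u (N v)
  nil : IsNilpotent N
  an : AnalyticOnNhd ℂ f (ball 0 r ×ˢ U)

/-- `K = i N` -/
def KK (N : V →L[ℂ] V) : V →L[ℂ] V := I • N

theorem KK_apply (N : V →L[ℂ] V) (v : V) : KK N v = I • N v := rfl

/-- the covariant derivative `(N / 2 π i + u ∂_u) f` in the untwisted frame -/
def XX (N : V →L[ℂ] V) (f : ℂ × E → V) (p : ℂ × E) : V :=
  (2 * π * I : ℂ)⁻¹ • N (f p) + p.1 • fderiv ℂ f p ((1 : ℂ), (0 : E))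

/-- the vectors `f, ∂_{e i} f` -/
def mm {ι : Type*} (f : ℂ × E → V) (e : ι → E) (j : Option ι) (p : ℂ × E) : V :=
  j.elim (f p) (fun i => fderiv ℂ f p ((0 : ℂ), e i))

@[simp] theorem mm_none {ι : Type*} (f : ℂ × E → V) (e : ι → E) (p : ℂ × E) :
    mm f e none p = f p := rfl

@[simp] theorem mm_some {ι : Type*} (f : ℂ × E → V) (e : ι → E) (i : ι) (p : ℂ × E) :
    mm f e (some i) p = fderiv ℂ f p ((0 : ℂ), e i) := rfl

/-- the Gram matrix of two families with respect to `S (·) (L ·)` -/
def gram {κ : Type*} (S : V →L⋆[ℂ] V →L[ℂ] ℂ) (L : V →L[ℂ] V) (a b : κ → V) : Matrix κ κ ℂ :=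
  fun i j => S (a i) (L (b j))

/-! ### algebra -/

section alg

variable {S : V →L⋆[ℂ] V →L[ℂ] ℂ} {N : V →L[ℂ] V}

theorem KK_adj (hs : ∀ u v, S (N u) v = - S u (N v)) (u v : V) :
    S (KK N u) v = S u (KK N v) := by
  simp only [KK_apply, map_smulₛₗ, smul_apply, hs, smul_eq_mul,
    conj_I, RingHom.id_apply]
  ring

theorem KKpow_adj (hs : ∀ u v, S (N u) v = - S u (N v)) (k : ℕ) (u v : V) :
    S ((KK N ^ k) u) v = S u ((KK N ^ k) v) := by
  induction k generalizing u v with
  | zero => simp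
  | succ k ih =>
    have h1 : (KK N ^ (k + 1)) u = (KK N ^ k) (KK N u) := by
      rw [pow_succ]; rfl
    have h2 : (KK N ^ (k + 1)) v = KK N ((KK N ^ k) v) := by
      rw [pow_succ']; rfl
    rw [h1, h2, ih, KK_adj hs]

theorem KKpow_herm (hh : ∀ u v, S u v = conj (S v u)) (hs : ∀ u v, S (N u) v = - S u (N v))
    (k : ℕ) (u v : V) : S u ((KK N ^ k) v) = conj (S v ((KK N ^ k) u)) := by
  rw [hh, KKpow_adj hs]

theorem KKpow_real (hh : ∀ u v, S u v = conj (S v u)) (hs : ∀ u v, S (N u) v = - S u (N v))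
    (k : ℕ) (u : V) : (S u ((KK N ^ k) u)).im = 0 := by
  have h := KKpow_herm hh hs k u u
  have h2 := congrArg Complex.im h
  rw [Complex.conj_im] at h2
  linarith

theorem KK_nil (h : IsNilpotent N) : IsNilpotent (KK N) := by
  obtain ⟨n, hn⟩ := h
  refine ⟨n, ?_⟩
  rw [KK, smul_pow, hn, smul_zero]

end alg

/-! ### analyticity of determinants -/

theorem analyticAt_det {κ : Type*} [Fintype κ] [DecidableEq κ] {X : Type*}
    [NormedAddCommGroup X] [NormedSpace ℂ X] {A : X → Matrix κ κ ℂ} {x : X}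
    (h : ∀ i j, AnalyticAt ℂ (fun z => A z i j) x) : AnalyticAt ℂ (fun z => (A z).det) x := by
  simp only [Matrix.det_apply]
  refine Finset.analyticAt_fun_sum _ (fun σ _ => ?_)
  have h1 : AnalyticAt ℂ (fun z => ∏ i, A z (σ i) i) x :=
    Finset.analyticAt_fun_prod _ (fun i _ => h _ _)
  have h2 : (fun z => Equiv.Perm.sign σ • ∏ i, A z (σ i) i) =
      fun z => ((Equiv.Perm.sign σ : ℤ) : ℂ) * ∏ i, A z (σ i) i := by
    ext z
    rw [Units.smul_def, zsmul_eq_mul]
  rw [h2]
  exact analyticAt_const.mul h1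

/-- **Cramer with holomorphic coefficients**: if `X p` is a combination of the `m j p` for `p ≠`
special, and the Gram matrix of `m j p` against fixed functionals is invertible at `p0`, then the
coefficients are holomorphic near `p0`. -/
theorem cramer {κ : Type*} [Fintype κ] [DecidableEq κ] {X : Type*}
    [NormedAddCommGroup X] [NormedSpace ℂ X] {Z : X → V} {m : κ → X → V} {l : κ → V →L[ℂ] ℂ}
    {p0 : X} (hZ : AnalyticAt ℂ Z p0) (hm : ∀ j, AnalyticAt ℂ (m j) p0)
    (hdet : (Matrix.of fun i j => l i (m j p0)).det ≠ 0) :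
    ∃ x : κ → X → ℂ, (∀ j, AnalyticAt ℂ (x j) p0) ∧
      ∀ᶠ p in 𝓝 p0, ∀ c : κ → ℂ, Z p = ∑ j, c j • m j p → ∀ j, x j p = c j := by
  set G : X → Matrix κ κ ℂ := fun p => Matrix.of fun i j => l i (m j p) with hG
  set b : X → κ → ℂ := fun p i => l i (Z p) with hb
  have hGa : ∀ i j, AnalyticAt ℂ (fun p => G p i j) p0 := by
    intro i j
    exact ((l i).analyticAt _).comp (hm j)
  have hba : ∀ i, AnalyticAt ℂ (fun p => b p i) p0 := by
    intro i
    exact ((l i).analyticAt _).comp hZ
  have hd : AnalyticAt ℂ (fun p => (G p).det) p0 := analyticAt_det hGa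
  have hcr : ∀ j, AnalyticAt ℂ (fun p => (G p).cramer (b p) j) p0 := by
    intro j
    simp only [Matrix.cramer_apply]
    refine analyticAt_det (fun i i' => ?_)
    simp only [Matrix.updateCol_apply]
    split_ifs
    · exact hba i
    · exact hGa i i'
  refine ⟨fun j p => (G p).cramer (b p) j / (G p).det, fun j => (hcr j).div hd hdet, ?_⟩
  filter_upwards [hd.continuousAt.eventually_ne hdet] with p hp c hc j
  have h1 : b p = (G p).mulVec c := by
    ext i
    simp only [hb, hG, Matrix.mulVec, dotProduct, Matrix.of_apply]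
    rw [hc, map_sum]
    refine Finset.sum_congr rfl fun j _ => ?_
    rw [map_smul, smul_eq_mul, mul_comm]
  have h2 : (G p).cramer (b p) = (G p).det • c := by
    rw [Matrix.cramer_eq_adjugate_mulVec, h1, Matrix.mulVec_mulVec, Matrix.adjugate_mul,
      Matrix.smul_mulVec, Matrix.one_mulVec]
  rw [h2, Pi.smul_apply, smul_eq_mul, mul_div_cancel_left₀ _ hp]

/-! ### the vanishing of `H'` -/

/-- differentiate `S (g y) (L (g y)) = 0` in the directions `v` and `i v` -/
theorem deriv_zero {S : V →L⋆[ℂ] V →L[ℂ] ℂ} {L : V →L[ℂ] V} {g : E → V} {y : E}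
    (hg : DifferentiableAt ℂ g y) (h : ∀ᶠ z in 𝓝 y, S (g z) (L (g z)) = 0) (v : E) :
    S (fderiv ℂ g y v) (L (g y)) = 0 ∧ S (g y) (L (fderiv ℂ g y v)) = 0 := by
  have key : ∀ v : E, S (fderiv ℂ g y v) (L (g y)) + S (g y) (L (fderiv ℂ g y v)) = 0 := by
    intro v
    have hline : HasDerivAt (fun t : ℝ => y + t • v) v 0 := by
      simpa using ((hasDerivAt_id (0 : ℝ)).smul_const v).const_add y
    have h1 : HasDerivAt (fun t : ℝ => g (y + t • v)) (fderiv ℂ g y v) 0 := by
      have h2 : HasFDerivAt g ((fderiv ℂ g y).restrictScalars ℝ) (y + (0 : ℝ) • v) := by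
        simpa using hg.hasFDerivAt.restrictScalars ℝ
      exact h2.comp_hasDerivAt (0 : ℝ) hline
    -- the real bilinear map
    have h3 : HasDerivAt (fun t : ℝ => S (g (y + t • v)) (L (g (y + t • v))))
        (S (fderiv ℂ g y v) (L (g y)) + S (g y) (L (fderiv ℂ g y v))) 0 := by
      set B : V →L[ℝ] V →L[ℝ] ℂ :=
        LinearMap.mkContinuous₂ (LinearMap.mk₂ ℝ (fun a b => S a b)
          (fun a a' b => by simp) (fun c a b => by
            have : (c • a : V) = (c : ℂ) • a := rfl
            rw [this, map_smulₛₗ]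
            simp)
          (fun a b b' => by simp) (fun c a b => by
            have : (c • b : V) = (c : ℂ) • b := rfl
            rw [this, map_smul]
            simp)) ‖S‖ (fun a b => by
              simpa using S.le_opNorm₂ a b) with hB
      have hBa : ∀ a b, B a b = S a b := fun a b => rfl
      have h4 : HasDerivAt (fun t : ℝ => L (g (y + t • v))) (L (fderiv ℂ g y v)) 0 := by
        have := (L.restrictScalars ℝ).hasFDerivAt.comp_hasDerivAt (0 : ℝ) h1
        exact this
      have h5 := B.hasDerivAt_of_bilinear (fun _ => h1) (fun _ => h4)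
      simp only [zero_smul, add_zero, hBa] at h5
      rw [add_comm]
      exact h5
    have h6 : (fun t : ℝ => S (g (y + t • v)) (L (g (y + t • v)))) =ᶠ[𝓝 0] fun _ => 0 := by
      have h7 : Tendsto (fun t : ℝ => y + t • v) (𝓝 0) (𝓝 y) := by
        have := hline.continuousAt.tendsto
        simpa using this
      exact h7 h
    exact (h3.congr_of_eventuallyEq h6.symm).unique (hasDerivAt_const _ _)
  have h1 := key v
  have h2 := key (I • v)
  simp only [map_smul, map_smulₛₗ, smul_apply, smul_eq_mul, conj_I] at h2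
  have hI : (I : ℂ) ≠ 0 := I_ne_zero
  have h3 : S (fderiv ℂ g y v) (L (g y)) = S (g y) (L (fderiv ℂ g y v)) := by
    have : I * (S (g y) (L (fderiv ℂ g y v)) - S (fderiv ℂ g y v) (L (g y))) = 0 := by
      linear_combination h2
    have h4 := (mul_eq_zero.1 this).resolve_left hI
    exact (sub_eq_zero.1 h4).symm
  have h4 : S (g y) (L (fderiv ℂ g y v)) = 0 := by
    rw [h3] at h1
    have : (2 : ℂ) * S (g y) (L (fderiv ℂ g y v)) = 0 := by linear_combination h1
    exact (mul_eq_zero.1 this).resolve_left two_ne_zero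
  exact ⟨by rw [h3, h4], h4⟩

/-! ### the local rank drop -/

section drop

variable [FiniteDimensional ℂ V] [FiniteDimensional ℂ E]
variable {S : V →L⋆[ℂ] V →L[ℂ] ℂ} {N : V →L[ℂ] V} {r : ℝ} {U : Set E} {f : ℂ × E → V}

theorem an_fd [CompleteSpace V] {r : ℝ} {U : Set E} {f : ℂ × E → V}
    (h : AnalyticOnNhd ℂ f (ball 0 r ×ˢ U)) (v : ℂ × E) :
    AnalyticOnNhd ℂ (fun p => fderiv ℂ f p v) (ball 0 r ×ˢ U) := by
  intro p hp
  have h1 : AnalyticAt ℂ (fderiv ℂ f) p := (h p hp).fderiv
  exact ((ContinuousLinearMap.apply ℂ V v).analyticAt _).comp h1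

theorem an_XX [CompleteSpace V] {r : ℝ} {U : Set E} {f : ℂ × E → V}
    (h : AnalyticOnNhd ℂ f (ball 0 r ×ˢ U)) (N : V →L[ℂ] V) :
    AnalyticOnNhd ℂ (XX N f) (ball 0 r ×ˢ U) := by
  intro p hp
  have h1 : AnalyticAt ℂ (fun p => N (f p)) p := (N.analyticAt _).comp (h p hp)
  have h2 : AnalyticAt ℂ (fun p : ℂ × E => p.1 • fderiv ℂ f p ((1 : ℂ), (0 : E))) p :=
    analyticAt_fst.smul (an_fd h _ p hp)
  exact (analyticAt_const.smul h1).add h2

theorem an_mm [CompleteSpace V] {ι : Type*} {r : ℝ} {U : Set E} {f : ℂ × E → V}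
    (h : AnalyticOnNhd ℂ f (ball 0 r ×ˢ U)) (e : ι → E) (j : Option ι) :
    AnalyticOnNhd ℂ (mm f e j) (ball 0 r ×ˢ U) := by
  cases j with
  | none => exact h
  | some i => exact an_fd h _

/-- slices of a neighbourhood in a product -/
theorem exists_box {W : Set (ℂ × E)} {y0 : E} (hW : W ∈ 𝓝 ((0 : ℂ), y0)) :
    ∃ r' > 0, ∃ U' : Set E, IsOpen U' ∧ y0 ∈ U' ∧ ball (0 : ℂ) r' ×ˢ U' ⊆ W := by
  rw [nhds_prod_eq] at hW
  obtain ⟨A, hA, B, hB, hAB⟩ := Filter.mem_prod_iff.1 hW
  obtain ⟨r', hr', hA'⟩ := Metric.mem_nhds_iff.1 hA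
  obtain ⟨U', hU', hU'o, hy0⟩ := _root_.mem_nhds_iff.1 hB
  exact ⟨r', hr', U', hU'o, hy0, (prod_mono hA' hU').trans hAB⟩

/-- a continuous function vanishing for `u ≠ 0` vanishes -/
theorem zero_of_punctured {Z : ℂ × E → V} {W : Set (ℂ × E)} (hW : IsOpen W)
    (hZ : ContinuousOn Z W) (h : ∀ p ∈ W, p.1 ≠ 0 → Z p = 0) : ∀ p ∈ W, Z p = 0 := by
  rintro ⟨u, y⟩ hp
  rcases eq_or_ne u 0 with rfl | hu
  · have hcont : Tendsto (fun t : ℂ => ((t, y) : ℂ × E)) (𝓝[≠] 0) (𝓝 (0, y)) :=
      (Continuous.tendsto (by fun_prop : Continuous fun t : ℂ => ((t, y) : ℂ × E)) 0).mono_left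
        nhdsWithin_le_nhds
    have h1 := ((hZ.continuousAt (hW.mem_nhds hp)).tendsto).comp hcont
    have h2 : (Z ∘ fun t : ℂ => ((t, y) : ℂ × E)) =ᶠ[𝓝[≠] 0] fun _ => (0 : V) := by
      filter_upwards [hcont (hW.mem_nhds hp), self_mem_nhdsWithin] with t ht ht0
      exact h (t, y) ht ht0
    exact tendsto_nhds_unique (h1.congr' h2) tendsto_const_nhds |>.symm ▸ rfl
  · exact h _ hp hu

/-- **rank drop, local form**: if `X = (N / 2 π i + u ∂_u) f` lies in the span of `f, ∂_{e i} f`
for `u ≠ 0`, the Gram matrix of these vectors for `H = S (·) (K ^ k ·)` is invertible at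
`(0, y0)` and `S (f) (K ^ (k+1) f) = 0` on `u = 0`, then `N f = 0` near `(0, y0)` and every
endomorphism fixing `f (0, ·)` fixes `f` near `(0, y0)`. -/
theorem local_drop (h : Bd S N r U f) {k : ℕ}
    (hk : ∀ y ∈ U, S (f (0, y)) ((KK N ^ (k + 1)) (f (0, y))) = 0) {y0 : E} (hy0 : y0 ∈ U)
    {ι : Type*} [Fintype ι] [DecidableEq ι] (e : ι → E)
    (hdet : (gram S (KK N ^ k) (fun j => mm f e j (0, y0)) (fun j => mm f e j (0, y0))).det ≠ 0)
    (hR : ∀ᶠ p in 𝓝 ((0 : ℂ), y0), p.1 ≠ 0 →
      XX N f p ∈ Submodule.span ℂ (range fun j => mm f e j p)) :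
    (∀ᶠ p in 𝓝 ((0 : ℂ), y0), N (f p) = 0) ∧
      ∀ T : V →L[ℂ] V, (∀ y ∈ U, T (f (0, y)) = f (0, y)) →
        ∀ᶠ p in 𝓝 ((0 : ℂ), y0), T (f p) = f p := by
  have : CompleteSpace V := FiniteDimensional.complete ℂ V
  have hopen : IsOpen (ball (0 : ℂ) r ×ˢ U) := isOpen_ball.prod h.hU
  have hp0 : ((0 : ℂ), y0) ∈ ball (0 : ℂ) r ×ˢ U := ⟨mem_ball_self h.hr, hy0⟩
  -- holomorphic coefficients
  obtain ⟨x, hx, hxc⟩ := cramer (Z := XX N f) (m := fun j => mm f e j)
    (l := fun i => (S (mm f e i (0, y0))).comp (KK N ^ k)) (p0 := ((0 : ℂ), y0))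
    (an_XX h.an N _ hp0) (fun j => an_mm h.an e j _ hp0) hdet
  have hxev : ∀ᶠ p in 𝓝 ((0 : ℂ), y0), ∀ j, AnalyticAt ℂ (x j) p :=
    eventually_all.2 fun j => (hx j).eventually_analyticAt
  -- Gram matrix on `u = 0`
  have hGc : ContinuousAt (fun p : ℂ × E =>
      (gram S (KK N ^ k) (fun j => mm f e j p) (fun j => mm f e j p)).det) (0, y0) := by
    have hcm : ∀ j, ContinuousAt (mm f e j) (0, y0) := fun j => (an_mm h.an e j _ hp0).continuousAt
    have : ContinuousAt (fun p : ℂ × E =>
      gram S (KK N ^ k) (fun j => mm f e j p) (fun j => mm f e j p)) (0, y0) := by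
      refine continuousAt_pi.2 fun i => continuousAt_pi.2 fun j => ?_
      have h1 : ContinuousAt (fun p => S (mm f e i p)) (0, y0) :=
        S.continuous.continuousAt.comp (hcm i)
      have h2 : ContinuousAt (fun p => (KK N ^ k) (mm f e j p)) (0, y0) :=
        (KK N ^ k).continuous.continuousAt.comp (hcm j)
      exact h1.clm_apply h2
    exact (Continuous.matrix_det continuous_id).continuousAt.comp this
  have hGev := hGc.eventually_ne hdet
  obtain ⟨r', hr', U', hU', hy0', hsub⟩ := exists_box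
    (Filter.inter_mem (Filter.inter_mem (hopen.mem_nhds hp0) (Filter.inter_mem hxev hGev))
      (Filter.inter_mem hxc hR))
  have hopen' : IsOpen (ball (0 : ℂ) r' ×ˢ U') := isOpen_ball.prod hU'
  have hnhds : ball (0 : ℂ) r' ×ˢ U' ∈ 𝓝 ((0 : ℂ), y0) :=
    hopen'.mem_nhds ⟨mem_ball_self hr', hy0'⟩
  have hsubU : ball (0 : ℂ) r' ×ˢ U' ⊆ ball (0 : ℂ) r ×ˢ U := fun p hp => (hsub hp).1.1
  have hxa : ∀ j, AnalyticOnNhd ℂ (x j) (ball (0 : ℂ) r' ×ˢ U') := fun j p hp =>
    (hsub hp).1.2.1 j
  have hG : ∀ p ∈ ball (0 : ℂ) r' ×ˢ U',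
      (gram S (KK N ^ k) (fun j => mm f e j p) (fun j => mm f e j p)).det ≠ 0 :=
    fun p hp => (hsub hp).1.2.2
  have hfa : AnalyticOnNhd ℂ f (ball (0 : ℂ) r' ×ˢ U') := h.an.mono hsubU
  -- `X = Σ x_j m_j`
  have hX : ∀ p ∈ ball (0 : ℂ) r' ×ˢ U', XX N f p = ∑ j, x j p • mm f e j p := by
    have h1 := zero_of_punctured (Z := fun p => XX N f p - ∑ j, x j p • mm f e j p) hopen'
      (ContinuousOn.sub ((an_XX hfa N).continuousOn)
        (continuousOn_finsetSum _ fun j _ =>
          (hxa j).continuousOn.smul (an_mm hfa e j).continuousOn)) ?_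
    · intro p hp
      exact sub_eq_zero.1 (h1 p hp)
    · intro p hp hp0
      have h2 := (hsub hp).2.2 hp0
      obtain ⟨c, hc⟩ := (Submodule.mem_span_range_iff_exists_fun ℂ).1 h2
      have h3 := (hsub hp).2.1 c hc.symm
      simp only [h3]
      rw [sub_eq_zero, hc]
  -- vanishing at `u = 0`
  have hx0 : ∀ j, ∀ y ∈ U', x j (0, y) = 0 := by
    intro j y hy
    have hpy : ((0 : ℂ), y) ∈ ball (0 : ℂ) r' ×ˢ U' := ⟨mem_ball_self hr', hy⟩
    have hyU : y ∈ U := (hsubU hpy).2
    -- `H'` vanishes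
    have hH' : ∀ i, S (mm f e i (0, y)) ((KK N ^ (k + 1)) (f (0, y))) = 0 := by
      intro i
      cases i with
      | none => exact hk y hyU
      | some i =>
        have hg : HasFDerivAt (fun z : E => f (0, z))
            ((fderiv ℂ f (0, y)).comp (ContinuousLinearMap.inr ℂ ℂ E)) y := by
          have h1 : HasFDerivAt f (fderiv ℂ f (0, y)) (0, y) :=
            (hfa _ hpy).differentiableAt.hasFDerivAt
          exact h1.comp y (hasFDerivAt_prodMk_right (0 : ℂ) y)
        have h2 := deriv_zero (S := S) (L := KK N ^ (k + 1)) (g := fun z : E => f (0, z)) (y := y)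
          hg.differentiableAt ?_ (e i)
        · have h3 := h2.1
          rw [hg.fderiv] at h3
          simpa using h3
        · filter_upwards [h.hU.mem_nhds hyU] with z hz using hk z hz
    -- orthogonality
    have h4 : (gram S (KK N ^ k) (fun j => mm f e j (0, y)) (fun j => mm f e j (0, y))).mulVec
        (fun j => x j (0, y)) = 0 := by
      ext i
      have h5 := hX _ hpy
      have h6 : S (mm f e i (0, y)) ((KK N ^ k) (XX N f (0, y))) = 0 := by
        have h7 : XX N f (0, y) = (-(2 * (π : ℂ))⁻¹) • KK N (f (0, y)) := by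
          simp only [XX, KK_apply, zero_smul, add_zero, smul_smul]
          congr 1
          rw [mul_inv_rev, Complex.inv_I]
          ring
        have h8 : (KK N ^ k) (KK N (f (0, y))) = (KK N ^ (k + 1)) (f (0, y)) := by
          rw [pow_succ]; rfl
        rw [h7, map_smul, map_smul, h8, hH' i, smul_zero]
      rw [h5, map_sum, map_sum] at h6
      simp only [Matrix.mulVec, dotProduct, gram, Pi.zero_apply]
      refine Eq.trans (Finset.sum_congr rfl fun j _ => ?_) h6
      rw [map_smul, map_smul, smul_eq_mul, mul_comm]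
    exact congrFun (Matrix.eq_zero_of_mulVec_eq_zero (hG _ hpy) h4) j
  -- divide by `u`
  choose x' hx' hxx' using fun j => exists_div hU' (hxa j) (hx0 j)
  have hmain : ∀ p ∈ ball (0 : ℂ) r' ×ˢ U', XX N f p =
      p.1 • (fderiv ℂ f p ((0 : ℂ), ∑ i, x' (some i) p • e i) + x' none p • f p) := by
    intro p hp
    rw [hX p hp, Fintype.sum_option]
    simp only [hxx' _ p hp, mm_none, mm_some, smul_eq_mul]
    have h1 : ((0 : ℂ), ∑ i, x' (some i) p • e i) = ∑ i, x' (some i) p • ((0 : ℂ), e i) := by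
      refine Prod.ext ?_ ?_
      · simp [Prod.fst_sum]
      · simp [Prod.snd_sum]
    rw [h1, map_sum, smul_add, Finset.smul_sum, add_comm]
    congr 1
    · refine Finset.sum_congr rfl fun i _ => ?_
      rw [map_smul, smul_smul]
    · rw [smul_smul]
  have ha : ContinuousOn (fun p => ∑ i, x' (some i) p • e i) (ball (0 : ℂ) r' ×ˢ U') :=
    continuousOn_finsetSum _ fun i _ => (hx' _).continuousOn.smul continuousOn_const
  have hb : ContinuousOn (x' none) (ball (0 : ℂ) r' ×ˢ U') := (hx' _).continuousOn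
  have hfL : ∀ (L : V →L[ℂ] V), ∀ p ∈ ball (0 : ℂ) r' ×ˢ U', ∀ v,
      fderiv ℂ (fun q => L (f q)) p v = L (fderiv ℂ f p v) := by
    intro L p hp v
    have h1 : HasFDerivAt (fun q => L (f q)) (L.comp (fderiv ℂ f p)) p :=
      L.hasFDerivAt.comp p (hfa p hp).differentiableAt.hasFDerivAt
    rw [h1.fderiv]
    rfl
  -- `N f = 0`
  have hNf : ∀ p ∈ ball (0 : ℂ) r' ×ˢ U', N (f p) = 0 := by
    refine unique hr' hU' (g := fun p => N (f p)) (fun p hp => (N.analyticAt _).comp (hfa p hp)) ?_
      ((2 * π * I : ℂ)⁻¹ • N) ?_ _ _ ha hb ?_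
    · intro y hy
      have hpy : ((0 : ℂ), y) ∈ ball (0 : ℂ) r' ×ˢ U' := ⟨mem_ball_self hr', hy⟩
      have h1 := hmain _ hpy
      simp only [XX, zero_smul, add_zero] at h1
      have h2 : (2 * π * I : ℂ)⁻¹ ≠ 0 := inv_ne_zero (by
        simp [Real.pi_ne_zero, I_ne_zero])
      exact (smul_eq_zero.1 h1).resolve_left h2
    · intro n hn v hv
      exact nil_inj h.nil _ n hn v hv
    · intro p hp _
      have h1 := congrArg N (hmain p hp)
      rw [hfL N p hp, hfL N p hp]
      simp only [XX, map_add, map_smul] at h1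
      simpa using h1
  refine ⟨?_, ?_⟩
  · filter_upwards [hnhds] with p hp using hNf p hp
  · intro T hT
    set T1 : V →L[ℂ] V := T - ContinuousLinearMap.id ℂ V with hT1
    have h1 : ∀ p ∈ ball (0 : ℂ) r' ×ˢ U', T1 (f p) = 0 := by
      refine unique hr' hU' (g := fun p => T1 (f p))
        (fun p hp => (T1.analyticAt _).comp (hfa p hp)) ?_ 0 ?_ _ _ ha hb ?_
      · intro y hy
        have hpy : ((0 : ℂ), y) ∈ ball (0 : ℂ) r' ×ˢ U' := ⟨mem_ball_self hr', hy⟩
        have h2 := hT y (hsubU hpy).2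
        simp [hT1, h2]
      · intro n hn v hv
        have hn0 : (n : ℂ) ≠ 0 := by exact_mod_cast (by omega : n ≠ 0)
        simpa [hn0] using hv
      · intro p hp _
        have h2 := congrArg T1 (hmain p hp)
        rw [hfL T1 p hp, hfL T1 p hp]
        have h3 : XX N f p = p.1 • fderiv ℂ f p ((1 : ℂ), (0 : E)) := by
          simp only [XX, hNf p hp, smul_zero, zero_add]
        rw [h3] at h2
        simp only [map_add, map_smul] at h2
        simpa using h2
    filter_upwards [hnhds] with p hp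
    have h2 := h1 p hp
    simpa [hT1, sub_eq_zero] using h2

end drop

/-! ### the null space of the Levi form of the limit metric -/

section null

variable {S : V →L⋆[ℂ] V →L[ℂ] ℂ} {L : V →L[ℂ] V}

/-- the Levi form of `log S (g) (L g)` times the square of `S (g) (L g)` -/
def BB (S : V →L⋆[ℂ] V →L[ℂ] ℂ) (L : V →L[ℂ] V) (g : V) (D : E →L[ℂ] V) (w v : E) : ℂ :=
  S g (L g) * S (D w) (L (D v)) - S (D w) (L g) * S g (L (D v))

/-- its null space -/
def nul (S : V →L⋆[ℂ] V →L[ℂ] ℂ) (L : V →L[ℂ] V) (g : V) (D : E →L[ℂ] V) : Submodule ℂ E where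
  carrier := {v | ∀ w, BB S L g D w v = 0}
  add_mem' := by
    intro a b ha hb w
    have h1 := ha w
    have h2 := hb w
    simp only [BB, map_add] at h1 h2 ⊢
    linear_combination h1 + h2
  zero_mem' := by
    intro w
    simp [BB]
  smul_mem' := by
    intro c a ha w
    have h1 := ha w
    simp only [BB, map_smul, smul_eq_mul] at h1 ⊢
    linear_combination c * h1

theorem mem_nul {g : V} {D : E →L[ℂ] V} {v : E} :
    v ∈ nul S L g D ↔ ∀ w, BB S L g D w v = 0 := Iff.rfl

theorem BB_conj (hL : ∀ a b, S a (L b) = conj (S b (L a))) (g : V) (D : E →L[ℂ] V) (w v : E) :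
    BB S L g D w v = conj (BB S L g D v w) := by
  simp only [BB, map_sub, map_mul]
  rw [← hL g g, ← hL (D w) (D v), ← hL g (D v), ← hL (D w) g]
  ring

/-- the Gram matrix of `g, D (e i)` is invertible if the `e i` are a basis of a complement of the
null space -/
theorem gram_det_ne_zero (hL : ∀ a b, S a (L b) = conj (S b (L a))) {g : V}
    (hg : S g (L g) ≠ 0) {D : E →L[ℂ] V} {ι : Type*} [Fintype ι] [DecidableEq ι] {e : ι → E}
    (hli : LinearIndependent ℂ e)
    (hdis : Disjoint (Submodule.span ℂ (range e)) (nul S L g D))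
    (hsup : Submodule.span ℂ (range e) ⊔ nul S L g D = ⊤) :
    (gram S L (fun j : Option ι => j.elim g (fun i => D (e i)))
      (fun j : Option ι => j.elim g (fun i => D (e i)))).det ≠ 0 := by
  intro hdet
  obtain ⟨c, hc0, hc⟩ := Matrix.exists_mulVec_eq_zero_iff.2 hdet
  apply hc0
  set v : E := ∑ i, c (some i) • e i with hv
  have hrow : ∀ a : V, ∑ j : Option ι, S a (L (j.elim g (fun i => D (e i)))) * c j =
      c none * S a (L g) + S a (L (D v)) := by
    intro a
    rw [Fintype.sum_option, hv, map_sum, map_sum, map_sum]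
    simp only [Option.elim_none, Option.elim_some]
    rw [mul_comm]
    congr 1
    refine Finset.sum_congr rfl fun i _ => ?_
    rw [map_smul, map_smul, map_smul, smul_eq_mul, mul_comm]
  have h0 : c none * S g (L g) + S g (L (D v)) = 0 := by
    rw [← hrow g]
    exact congrFun hc none
  have h1 : ∀ i, c none * S (D (e i)) (L g) + S (D (e i)) (L (D v)) = 0 := by
    intro i
    rw [← hrow (D (e i))]
    exact congrFun hc (some i)
  have h2 : ∀ i, BB S L g D (e i) v = 0 := by
    intro i
    simp only [BB]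
    linear_combination (S g (L g)) * h1 i - S (D (e i)) (L g) * h0
  have hvC : v ∈ Submodule.span ℂ (range e) := by
    refine Submodule.sum_mem _ fun i _ => Submodule.smul_mem _ _ (Submodule.subset_span ⟨i, rfl⟩)
  have h3 : v ∈ nul S L g D := by
    intro w
    have hw : w ∈ Submodule.span ℂ (range e) ⊔ nul S L g D := by rw [hsup]; trivial
    obtain ⟨w1, hw1, w2, hw2, rfl⟩ := Submodule.mem_sup.1 hw
    have h4 : BB S L g D w2 v = 0 := by
      rw [BB_conj hL, hw2 v, map_zero]
    have h5 : BB S L g D w1 v = 0 := by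
      rw [BB_conj hL]
      have h6 : ∀ x ∈ Submodule.span ℂ (range e), BB S L g D v x = 0 := by
        intro x hx
        induction hx using Submodule.span_induction with
        | mem x hx =>
          obtain ⟨i, rfl⟩ := hx
          rw [BB_conj hL, h2 i, map_zero]
        | zero => simp [BB]
        | add x y _ _ hx hy =>
          simp only [BB, map_add] at hx hy ⊢
          linear_combination hx + hy
        | smul a x _ hx =>
          simp only [BB, map_smul, smul_eq_mul] at hx ⊢
          linear_combination a * hx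
      rw [h6 w1 hw1, map_zero]
    have h6 : BB S L g D (w1 + w2) v = BB S L g D w1 v + BB S L g D w2 v := by
      simp only [BB, map_add, add_apply]
      ring
    rw [h6, h4, h5, add_zero]
  have hv0 : v = 0 := by
    have := Submodule.disjoint_def.1 hdis v hvC h3
    exact this
  have hcs : ∀ i, c (some i) = 0 := by
    have := Fintype.linearIndependent_iff.1 hli (fun i => c (some i)) (by rw [← hv, hv0])
    exact this
  have hcn : c none = 0 := by
    rw [hv0, map_zero, map_zero, map_zero, add_zero] at h0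
    exact (mul_eq_zero.1 h0).resolve_right hg
  funext j
  cases j with
  | none => exact hcn
  | some i => exact hcs i

end null

/-! ### the global rank drop -/

section main

variable [FiniteDimensional ℂ V] [FiniteDimensional ℂ E]
variable {S : V →L⋆[ℂ] V →L[ℂ] ℂ} {N : V →L[ℂ] V} {r : ℝ} {U : Set E} {f : ℂ × E → V}

/-- the derivative of `f (0, ·)` -/
def D0 (f : ℂ × E → V) (p : ℂ × E) : E →L[ℂ] V :=
  (fderiv ℂ f p).comp (ContinuousLinearMap.inr ℂ ℂ E)

theorem D0_apply (f : ℂ × E → V) (p : ℂ × E) (v : E) : D0 f p v = fderiv ℂ f p ((0 : ℂ), v) := rfl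

/-- span of the section and its covariant derivatives in the untwisted frame -/
def spn (N : V →L[ℂ] V) (f : ℂ × E → V) (p : ℂ × E) : Submodule ℂ V :=
  Submodule.span ℂ ({f p, XX N f p} ∪ range (D0 f p))

/-- **rank drop** (BND): the total span has dimension `≤ ν + 1` for `u ≠ 0`; if the monodromy is
not trivial on the span of `f` then the null space of the Levi form of the logarithm of the limit
metric has dimension `≥ dim E + 1 - ν` at every point where the limit metric is not zero. -/
theorem rank_drop (h : Bd S N r U f) (hUc : IsPreconnected U) {k ν : ℕ}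
    (hk : ∀ y ∈ U, S (f (0, y)) ((KK N ^ (k + 1)) (f (0, y))) = 0)
    (hν : ∀ p ∈ ball (0 : ℂ) r ×ˢ U, p.1 ≠ 0 → Module.finrank ℂ (spn N f p) ≤ ν + 1)
    (T : V →L[ℂ] V) (hT : ∀ y ∈ U, T (f (0, y)) = f (0, y))
    (hne : ¬ ∀ p ∈ ball (0 : ℂ) r ×ˢ U, N (f p) = 0 ∧ T (f p) = f p)
    {y : E} (hy : y ∈ U) (hη : S (f (0, y)) ((KK N ^ k) (f (0, y))) ≠ 0) :
    Module.finrank ℂ E + 1 ≤
      Module.finrank ℂ (nul S (KK N ^ k) (f (0, y)) (D0 f (0, y))) + ν := by
  have : CompleteSpace V := FiniteDimensional.complete ℂ V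
  by_contra hcon
  push Not at hcon
  apply hne
  set K0 := nul S (KK N ^ k) (f (0, y)) (D0 f (0, y)) with hK0
  obtain ⟨C, hC⟩ := Submodule.exists_isCompl K0
  have hrank : Module.finrank ℂ C + Module.finrank ℂ K0 = Module.finrank ℂ E := by
    rw [add_comm]
    exact Submodule.finrank_add_eq_of_isCompl hC
  set b := Module.finBasis ℂ C with hb
  set e : Fin (Module.finrank ℂ C) → E := fun i => (b i : E) with he
  have hspan : Submodule.span ℂ (range e) = C := by
    have h1 : range e = C.subtype '' range b := by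
      rw [← range_comp]; rfl
    rw [h1, Submodule.span_image, b.span_eq, Submodule.map_top, Submodule.range_subtype]
  have hli : LinearIndependent ℂ e := by
    have := b.linearIndependent.map' C.subtype (Submodule.ker_subtype C)
    exact this
  have hdet := gram_det_ne_zero (S := S) (L := KK N ^ k) (KKpow_herm h.herm h.skew k) hη
    (D := D0 f (0, y)) hli (by rw [hspan]; exact hC.symm.disjoint)
    (by rw [hspan]; exact hC.symm.sup_eq_top)
  have hmm : (fun j : Option (Fin (Module.finrank ℂ C)) =>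
      j.elim (f (0, y)) (fun i => D0 f (0, y) (e i))) = fun j => mm f e j (0, y) := by
    funext j
    cases j <;> rfl
  rw [hmm] at hdet
  have hopen : IsOpen (ball (0 : ℂ) r ×ˢ U) := isOpen_ball.prod h.hU
  have hp0 : ((0 : ℂ), y) ∈ ball (0 : ℂ) r ×ˢ U := ⟨mem_ball_self h.hr, hy⟩
  -- the span is spanned by the `m j`
  have hR : ∀ᶠ p in 𝓝 ((0 : ℂ), y), p.1 ≠ 0 →
      XX N f p ∈ Submodule.span ℂ (range fun j => mm f e j p) := by
    have hGc : ContinuousAt (fun p : ℂ × E =>
        (gram S (KK N ^ k) (fun j => mm f e j (0, y)) (fun j => mm f e j p)).det) (0, y) := by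
      have : ContinuousAt (fun p : ℂ × E =>
        gram S (KK N ^ k) (fun j => mm f e j (0, y)) (fun j => mm f e j p)) (0, y) := by
        refine continuousAt_pi.2 fun i => continuousAt_pi.2 fun j => ?_
        have h2 : ContinuousAt (fun p => (KK N ^ k) (mm f e j p)) (0, y) :=
          (KK N ^ k).continuous.continuousAt.comp (an_mm h.an e j _ hp0).continuousAt
        exact (S (mm f e i (0, y))).continuous.continuousAt.comp h2
      exact (Continuous.matrix_det continuous_id).continuousAt.comp this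
    filter_upwards [hGc.eventually_ne hdet, hopen.mem_nhds hp0] with p hp hpm hp0'
    have hlin : LinearIndependent ℂ fun j => mm f e j p := by
      rw [Fintype.linearIndependent_iff]
      intro c hc
      by_contra hcn
      push Not at hcn
      obtain ⟨i0, hi0⟩ := hcn
      apply hp
      rw [← Matrix.exists_mulVec_eq_zero_iff]
      refine ⟨c, fun h0 => hi0 (congrFun h0 i0), ?_⟩
      ext i
      simp only [Matrix.mulVec, dotProduct, gram, Pi.zero_apply]
      have h1 : S (mm f e i (0, y)) ((KK N ^ k) (∑ j, c j • mm f e j p)) = 0 := by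
        rw [hc]; simp
      rw [map_sum, map_sum] at h1
      refine Eq.trans (Finset.sum_congr rfl fun j _ => ?_) h1
      rw [map_smul, map_smul, smul_eq_mul, mul_comm]
    have hsub : Submodule.span ℂ (range fun j => mm f e j p) ≤ spn N f p := by
      rw [Submodule.span_le]
      rintro _ ⟨j, rfl⟩
      refine Submodule.subset_span ?_
      cases j with
      | none => exact Or.inl (by simp)
      | some i => exact Or.inr ⟨e i, rfl⟩
    have hfr : Module.finrank ℂ (Submodule.span ℂ (range fun j => mm f e j p)) =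
        Module.finrank ℂ C + 1 := by
      rw [finrank_span_eq_card hlin]
      simp
    have heq : Submodule.span ℂ (range fun j => mm f e j p) = spn N f p := by
      refine Submodule.eq_of_le_of_finrank_le hsub ?_
      rw [hfr]
      have := hν p hpm hp0'
      omega
    rw [heq]
    exact Submodule.subset_span (Or.inl (by simp))
  have hld := local_drop h hk hy e hdet hR
  have hconn : IsPreconnected (ball (0 : ℂ) r ×ˢ U) := (convex_ball 0 r).isPreconnected.prod hUc
  have hNa : AnalyticOnNhd ℂ (fun p => N (f p)) (ball (0 : ℂ) r ×ˢ U) := fun p hp =>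
    (N.analyticAt _).comp (h.an p hp)
  have hTa : AnalyticOnNhd ℂ (fun p => T (f p)) (ball (0 : ℂ) r ×ˢ U) := fun p hp =>
    (T.analyticAt _).comp (h.an p hp)
  have h1 := hNa.eqOn_zero_of_preconnected_of_eventuallyEq_zero hconn hp0
    (hld.1.mono fun p hp => hp)
  have h2 := hTa.eqOn_of_preconnected_of_eventuallyEq h.an hconn hp0 ((hld.2 T hT).mono
    fun p hp => hp)
  exact fun p hp => ⟨h1 hp, h2 hp⟩

end main

end Crest.Agent.R276.Bdy_767
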