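import Crest.Agent.R300.An1

/-!
# Row 276, W2 (helper748): from the tensor power inequality to the sub-mean value property on circles
(one complex variable)
-/

set_option autoImplicit false
set_option linter.unusedSectionVars false

noncomputable section

open Set Filter Topology MeasureTheory Metric
open scoped ENNReal Real

namespace Crest.Agent.R276.Jen_748

/-- the uniform probability measure on the angles `(-π, π)` -/
def cm : Measure ℝ := ENNReal.ofReal (2 * π)⁻¹ • volume.restrict (Ioo (-π) π)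

lemma two_pi_pos' : (0 : ℝ) < 2 * π := by positivity

instance : IsProbabilityMeasure cm := by
  constructor
  simp only [cm, Measure.smul_apply, smul_eq_mul, Measure.restrict_apply_univ, Real.volume_Ioo]
  rw [← ENNReal.ofReal_mul (by positivity)]
  have : (2 * π)⁻¹ * (π - -π) = 1 := by
    have := Real.pi_pos
    field_simp
    ring
  rw [this, ENNReal.ofReal_one]

lemma circleAverage_eq (f : ℂ → ℝ) (r : ℝ) :
    Real.circleAverage f 0 r = ∫ θ, f (circleMap 0 r θ) ∂cm := by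
  rw [Real.circleAverage_eq_integral_add (-π),
    intervalIntegral.integral_comp_add_right (fun θ => f (circleMap 0 r θ))]
  have h1 : (0 : ℝ) + -π = -π := by ring
  have h2 : 2 * π + -π = π := by ring
  rw [h1, h2, intervalIntegral.integral_of_le (by linarith [Real.pi_pos]), cm,
    integral_smul_measure, ENNReal.toReal_ofReal (by positivity), integral_Ioc_eq_integral_Ioo]

/-- polar coordinates -/
lemma lintegral_polar {A : ℂ → ℝ≥0∞} (hA : Measurable A) :
    ∫⁻ z, A z = ∫⁻ r in Ioi (0 : ℝ), ENNReal.ofReal (2 * π * r) * ∫⁻ θ, A (circleMap 0 r θ) ∂cm := by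
  rw [← Complex.lintegral_comp_polarCoord_symm]
  have h0 : ∀ p : ℝ × ℝ, Complex.polarCoord.symm p = circleMap 0 p.1 p.2 := by
    intro p
    rw [Complex.polarCoord_symm_apply, circleMap, zero_add, Complex.exp_mul_I]
    push_cast
    ring
  simp only [h0]
  have hm : Measurable fun p : ℝ × ℝ => ENNReal.ofReal p.1 • A (circleMap 0 p.1 p.2) := by
    refine (measurable_fst.ennreal_ofReal).smul (hA.comp ?_)
    refine Continuous.measurable ?_
    unfold circleMap
    fun_prop
  have ht : polarCoord.target = Ioi (0 : ℝ) ×ˢ Ioo (-π) π := rfl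
  rw [ht, Measure.volume_eq_prod, ← Measure.prod_restrict, lintegral_prod _ hm.aemeasurable]
  refine setLIntegral_congr_fun measurableSet_Ioi fun r hr => ?_
  have hr' : (0 : ℝ) < r := hr
  have hm2 : Measurable fun θ : ℝ => A (circleMap 0 r θ) :=
    hA.comp (continuous_circleMap 0 r).measurable
  simp only [smul_eq_mul]
  rw [lintegral_const_mul _ hm2, cm, lintegral_smul_measure, smul_eq_mul, ← mul_assoc,
    ← ENNReal.ofReal_mul (by positivity)]
  congr 2
  have := Real.pi_pos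
  field_simp

lemma measurable_circ {A : ℂ → ℝ≥0∞} (hA : Measurable A) :
    Measurable fun r : ℝ => ∫⁻ θ, A (circleMap 0 r θ) ∂cm := by
  refine Measurable.lintegral_prod_right' (f := fun p : ℝ × ℝ => A (circleMap 0 p.1 p.2)) ?_
  refine hA.comp (Continuous.measurable ?_)
  unfold circleMap
  fun_prop

lemma cont_integrable {f : ℝ → ℝ} (hf : Continuous f) : Integrable f cm := by
  refine Integrable.smul_measure ?_ ENNReal.ofReal_ne_top
  exact (hf.integrableOn_Icc (a := -π) (b := π)).mono_set Ioo_subset_Icc_self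

lemma integrable_of_bdd {f : ℝ → ℝ} (hf : Measurable f) {a b : ℝ} (ha : ∀ θ, a ≤ f θ)
    (hb : ∀ θ, f θ ≤ b) : Integrable f cm := by
  refine Integrable.of_bound hf.aestronglyMeasurable (max |a| |b|) ?_
  refine Eventually.of_forall fun θ => ?_
  rw [Real.norm_eq_abs, abs_le]
  constructor
  · have := neg_abs_le a
    have := le_max_left |a| |b|
    linarith [ha θ]
  · have := le_abs_self b
    have := le_max_right |a| |b|
    linarith [hb θ]

/-! ### Jensen -/

/-- tangent line inequality for `log (e^{κ x} + δ)` -/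
lemma tangent {κ δ x x0 : ℝ} (hδ : 0 < δ) :
    Real.log (Real.exp (κ * x0) + δ) + Real.exp (κ * x0) / (Real.exp (κ * x0) + δ) *
      (κ * x - κ * x0) ≤ Real.log (Real.exp (κ * x) + δ) := by
  set E := Real.exp (κ * x0) with hE
  have hE0 : 0 < E := Real.exp_pos _
  have hs : 0 < E + δ := by positivity
  set p := E / (E + δ) with hp
  have hp0 : 0 ≤ p := by positivity
  have hp1 : 0 ≤ 1 - p := by
    rw [hp, sub_nonneg, div_le_one hs]; linarith
  have h1 := convexOn_exp.2 (mem_univ (κ * x - κ * x0)) (mem_univ (0 : ℝ)) hp0 hp1 (by ring)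
  simp only [smul_eq_mul, mul_zero, add_zero, Real.exp_zero, mul_one] at h1
  have h2 : (E + δ) * (p * Real.exp (κ * x - κ * x0) + (1 - p)) = Real.exp (κ * x) + δ := by
    have h3 : Real.exp (κ * x) = E * Real.exp (κ * x - κ * x0) := by
      rw [hE, ← Real.exp_add]; congr 1; ring
    rw [h3, hp]
    field_simp
    ring
  rw [← h2, Real.log_mul hs.ne' (by
    have := Real.exp_pos (p * (κ * x - κ * x0))
    linarith)]
  have h4 : p * (κ * x - κ * x0) ≤ Real.log (p * Real.exp (κ * x - κ * x0) + (1 - p)) := by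
    rw [Real.le_log_iff_exp_le (lt_of_lt_of_le (Real.exp_pos _) h1)]
    exact h1
  linarith

/-- sub-mean value property of `log (|h|^κ + δ)` -/
theorem jensen {h : ℂ → ℂ} {R r κ δ : ℝ} (hh : DifferentiableOn ℂ h (ball 0 R)) (hr : 0 < r)
    (hrR : r < R) (hκ : 0 < κ) (hδ : 0 < δ) (h0 : h 0 ≠ 0) :
    Real.log (‖h 0‖ ^ κ + δ) ≤ ∫ θ, Real.log (‖h (circleMap 0 r θ)‖ ^ κ + δ) ∂cm := by
  have han : AnalyticOnNhd ℂ h (closedBall 0 r) := by
    intro z hz
    have hz1 : z ∈ ball (0 : ℂ) R := mem_ball.2 (lt_of_le_of_lt (mem_closedBall.1 hz) hrR)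
    exact hh.analyticAt (isOpen_ball.mem_nhds hz1)
  have hn : 0 < ‖h 0‖ := norm_pos_iff.2 h0
  have hJ := R300.log_norm_le_circleAverage hr han h0
  rw [circleAverage_eq] at hJ
  have hint : Integrable (fun θ => Real.log ‖h (circleMap 0 r θ)‖) cm := by
    have h1 : MeromorphicOn h (sphere 0 |r|) := by
      rw [abs_of_pos hr]
      exact (han.mono sphere_subset_closedBall).meromorphicOn
    have h2 : CircleIntegrable (fun z => Real.log ‖h z‖) 0 r := h1.circleIntegrable_log_norm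
    have h3 : IntervalIntegrable (fun θ => Real.log ‖h (circleMap 0 r θ)‖) volume (-π) π := by
      have hper : Function.Periodic (fun θ => Real.log ‖h (circleMap 0 r θ)‖) (2 * π) := fun x => by
        simp [periodic_circleMap 0 r x]
      have h4 : IntervalIntegrable (fun θ => Real.log ‖h (circleMap 0 r θ)‖) volume 0
          (0 + 2 * π) := by rw [zero_add]; exact h2
      exact hper.intervalIntegrable two_pi_pos'.ne' h4 _ _
    refine Integrable.smul_measure ?_ ENNReal.ofReal_ne_top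
    exact (h3.1).mono_set Ioo_subset_Ioc_self
  have hcont : Continuous fun θ : ℝ => h (circleMap 0 r θ) :=
    hh.continuousOn.comp_continuous (continuous_circleMap 0 r) fun θ => by
      simp [abs_of_pos hr, hrR]
  have hint2 : Integrable (fun θ => Real.log (‖h (circleMap 0 r θ)‖ ^ κ + δ)) cm := by
    refine cont_integrable ?_
    refine Continuous.log ((hcont.norm.rpow_const fun _ => Or.inr hκ.le).add continuous_const)
      fun θ => ?_
    have : 0 ≤ ‖h (circleMap 0 r θ)‖ ^ κ := Real.rpow_nonneg (norm_nonneg _) _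
    positivity
  have hae : ∀ᵐ θ ∂cm, h (circleMap 0 r θ) ≠ 0 := by
    have h1 := R300.ae_circleMap_ne_zero hr han h0
    rw [uIoc_of_le two_pi_pos'.le] at h1
    rw [ae_restrict_iff' measurableSet_Ioc] at h1
    have h2 : ∀ᵐ θ : ℝ, θ - 2 * π ∈ Ioc 0 (2 * π) → h (circleMap 0 r (θ - 2 * π)) ≠ 0 :=
      (measurePreserving_sub_right volume (2 * π)).quasiMeasurePreserving.ae h1
    have h3 : ∀ᵐ θ : ℝ, θ + 2 * π ∈ Ioc 0 (2 * π) → h (circleMap 0 r (θ + 2 * π)) ≠ 0 :=
      (measurePreserving_add_right volume (2 * π)).quasiMeasurePreserving.ae h1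
    refine Measure.ae_smul_measure ?_ _
    rw [ae_restrict_iff' measurableSet_Ioo]
    filter_upwards [h1, h3] with θ g1 g3 hθ
    rcases lt_or_ge 0 θ with hp | hp
    · exact g1 ⟨hp, by linarith [hθ.2, Real.pi_pos]⟩
    · have g4 := g3 ⟨by linarith [hθ.1, Real.pi_pos], by linarith⟩
      rwa [periodic_circleMap 0 r θ] at g4
  set p := ‖h 0‖ ^ κ / (‖h 0‖ ^ κ + δ) with hp
  have hp0 : 0 ≤ p := by
    have : 0 < ‖h 0‖ ^ κ := Real.rpow_pos_of_pos hn κ
    positivity
  have key : ∀ᵐ θ ∂cm, Real.log (‖h 0‖ ^ κ + δ) + p * κ *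
      (Real.log ‖h (circleMap 0 r θ)‖ - Real.log ‖h 0‖) ≤
        Real.log (‖h (circleMap 0 r θ)‖ ^ κ + δ) := by
    filter_upwards [hae] with θ hθ
    have hn' : 0 < ‖h (circleMap 0 r θ)‖ := norm_pos_iff.2 hθ
    have h1 := tangent (κ := κ) (δ := δ) (x := Real.log ‖h (circleMap 0 r θ)‖)
      (x0 := Real.log ‖h 0‖) hδ
    have e1 : Real.exp (κ * Real.log ‖h 0‖) = ‖h 0‖ ^ κ := by
      rw [Real.rpow_def_of_pos hn, mul_comm]
    have e2 : Real.exp (κ * Real.log ‖h (circleMap 0 r θ)‖) = ‖h (circleMap 0 r θ)‖ ^ κ := by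
      rw [Real.rpow_def_of_pos hn', mul_comm]
    rw [e1, e2] at h1
    rw [← hp] at h1
    linarith
  have h5 := integral_mono_ae (((integrable_const (Real.log (‖h 0‖ ^ κ + δ))).add
    ((hint.sub (integrable_const (Real.log ‖h 0‖))).const_mul (p * κ)))) hint2 key
  refine le_trans ?_ h5
  have hi : Integrable (fun θ => p * κ * (Real.log ‖h (circleMap 0 r θ)‖ - Real.log ‖h 0‖)) cm :=
    (hint.sub (integrable_const (Real.log ‖h 0‖))).const_mul (p * κ)
  have h6 : ∫ θ, (Real.log (‖h 0‖ ^ κ + δ) + p * κ *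
      (Real.log ‖h (circleMap 0 r θ)‖ - Real.log ‖h 0‖)) ∂cm = Real.log (‖h 0‖ ^ κ + δ) +
      p * κ * (∫ θ, Real.log ‖h (circleMap 0 r θ)‖ ∂cm - Real.log ‖h 0‖) := by
    rw [integral_add (integrable_const _) hi, integral_const_mul,
      integral_sub hint (integrable_const _)]
    simp
  have h7 : 0 ≤ p * κ * (∫ θ, Real.log ‖h (circleMap 0 r θ)‖ ∂cm - Real.log ‖h 0‖) :=
    mul_nonneg (mul_nonneg hp0 hκ.le) (sub_nonneg.2 hJ)
  calc Real.log (‖h 0‖ ^ κ + δ) ≤ Real.log (‖h 0‖ ^ κ + δ) +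
      p * κ * (∫ θ, Real.log ‖h (circleMap 0 r θ)‖ ∂cm - Real.log ‖h 0‖) := by linarith
    _ = _ := h6.symm

/-! ### the main statement -/

/-- the ENNReal valued version of `log (x + δ) - log δ` -/
def F (δ x : ℝ) : ℝ≥0∞ := ENNReal.ofReal (Real.log (x + δ) - Real.log δ)

lemma F_mono {δ x y : ℝ} (hδ : 0 < δ) (hx : 0 ≤ x) (h : x ≤ y) : F δ x ≤ F δ y := by
  unfold F
  apply ENNReal.ofReal_le_ofReal
  have := Real.log_le_log (by linarith : 0 < x + δ) (by linarith : x + δ ≤ y + δ)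
  linarith

lemma F_lt {δ x : ℝ} (hδ : 0 < δ) (hx : 0 ≤ x) {c : ℝ≥0∞} (h : F δ x < c) :
    ∃ y, x < y ∧ F δ y < c := by
  have h1 : ContinuousAt (F δ) x := by
    unfold F
    refine ENNReal.continuous_ofReal.continuousAt.comp ?_
    refine ContinuousAt.sub ?_ continuousAt_const
    exact ContinuousAt.log (by fun_prop) (by positivity)
  have h2 : ∀ᶠ y in 𝓝 x, F δ y < c := h1.eventually_lt continuousAt_const h
  have h3 : ∀ᶠ y in 𝓝[>] x, F δ y < c := mem_nhdsWithin_of_mem_nhds h2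
  obtain ⟨y, hy1, hy2⟩ := (h3.and self_mem_nhdsWithin).exists
  exact ⟨y, hy2, hy1⟩

/-- pointwise estimate -/
lemma pointwise {δ : ℝ} (hδ : 0 < δ) {b : ℝ} (hb : 0 ≤ b) {A : ℝ≥0∞} {w : ℂ} {j : ℕ}
    (h : ‖w‖ₑ ^ 2 ≤ ENNReal.ofReal b ^ (j + 1) * A) :
    F δ (‖w‖ ^ (2 / ((j : ℝ) + 1))) ≤ F δ b + A / ((j : ℝ≥0∞) + 1) := by
  have hj : (0 : ℝ) < (j : ℝ) + 1 := by positivity
  have hjt : ((j : ℝ≥0∞) + 1) ≠ ∞ := by finiteness
  rcases eq_or_ne A ∞ with rfl | hA
  · rw [ENNReal.top_div_of_ne_top hjt]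
    simp
  · obtain ⟨a, ha⟩ : ∃ a : ℝ, 0 ≤ a ∧ A = ENNReal.ofReal a :=
      ⟨A.toReal, ENNReal.toReal_nonneg, (ENNReal.ofReal_toReal hA).symm⟩
    obtain ⟨ha0, rfl⟩ := ha
    have h1 : ‖w‖ ^ 2 ≤ b ^ (j + 1) * a := by
      rw [← ENNReal.ofReal_pow hb, ← ENNReal.ofReal_mul (by positivity), ← ofReal_norm,
        ← ENNReal.ofReal_pow (norm_nonneg _)] at h
      exact (ENNReal.ofReal_le_ofReal_iff (by positivity)).1 h
    have h2 : ‖w‖ ^ (2 / ((j : ℝ) + 1)) ≤ b * Real.exp (a / ((j : ℝ) + 1)) := by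
      calc ‖w‖ ^ (2 / ((j : ℝ) + 1)) = (‖w‖ ^ 2) ^ (1 / ((j : ℝ) + 1)) := by
            rw [← Real.rpow_natCast, ← Real.rpow_mul (norm_nonneg _)]
            congr 1
            push_cast
            ring
        _ ≤ (b ^ (j + 1) * a) ^ (1 / ((j : ℝ) + 1)) := by gcongr
        _ ≤ (b ^ (j + 1) * Real.exp a) ^ (1 / ((j : ℝ) + 1)) := by
            have h5 : a ≤ Real.exp a := by linarith [Real.add_one_le_exp a]
            gcongr
        _ = b * Real.exp (a / ((j : ℝ) + 1)) := by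
            rw [Real.mul_rpow (by positivity) (Real.exp_pos _).le, ← Real.exp_mul,
              ← Real.rpow_natCast, ← Real.rpow_mul hb]
            push_cast
            rw [mul_one_div_cancel hj.ne', Real.rpow_one, mul_one_div]
    have h3 : ENNReal.ofReal a / ((j : ℝ≥0∞) + 1) = ENNReal.ofReal (a / ((j : ℝ) + 1)) := by
      rw [ENNReal.ofReal_div_of_pos hj]
      congr 1
      rw [ENNReal.ofReal_add (by positivity) one_pos.le]
      simp
    rw [h3]
    have h4 : 0 ≤ a / ((j : ℝ) + 1) := by positivity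
    have h6 : 1 ≤ Real.exp (a / ((j : ℝ) + 1)) := Real.one_le_exp h4
    have h7 : 0 ≤ Real.log (b + δ) - Real.log δ := by
      have := Real.log_le_log hδ (by linarith : δ ≤ b + δ)
      linarith
    unfold F
    rw [← ENNReal.ofReal_add h7 h4]
    apply ENNReal.ofReal_le_ofReal
    have h8 : ‖w‖ ^ (2 / ((j : ℝ) + 1)) + δ ≤ (b + δ) * Real.exp (a / ((j : ℝ) + 1)) := by
      nlinarith
    have h9 : 0 ≤ ‖w‖ ^ (2 / ((j : ℝ) + 1)) := Real.rpow_nonneg (norm_nonneg _) _
    have h10 := Real.log_le_log (by linarith) h8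
    rw [Real.log_mul (by positivity) (Real.exp_pos _).ne', Real.log_exp] at h10
    linarith

/-- **from the tensor powers to the sub-mean value property on the unit circle** -/
theorem circ {R : ℝ} (hR : 1 < R) {β : ℂ → ℝ} (hβ0 : ∀ l, 0 ≤ β l)
    (hβ : UpperSemicontinuousOn β (ball 0 R)) {s0 : ℂ} {C : ℝ≥0∞} (hC : C ≠ ∞) {δ : ℝ} (hδ : 0 < δ)
    (H : ∀ j : ℕ, ∃ (h : ℂ → ℂ) (A : ℂ → ℝ≥0∞), DifferentiableOn ℂ h (ball 0 R) ∧ Measurable A ∧
      ∫⁻ l, A l ≤ C ∧ h 0 = s0 ^ (j + 1) ∧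
      ∀ l ∈ ball (0 : ℂ) R, ‖h l‖ₑ ^ 2 ≤ ENNReal.ofReal (β l) ^ (j + 1) * A l) :
    Real.log (‖s0‖ ^ 2 + δ) ≤ Real.circleAverage (fun w => Real.log (β w + δ)) 0 1 := by
  have hpi := Real.pi_pos
  -- measurability and bounds on circles
  have hmem : ∀ r : ℝ, 0 < r → r < R → ∀ θ, circleMap 0 r θ ∈ ball (0 : ℂ) R := by
    intro r hr hrR θ
    simp [abs_of_pos hr, hrR]
  have husc : ∀ r : ℝ, 0 < r → r < R → UpperSemicontinuous fun θ : ℝ => β (circleMap 0 r θ) := by
    intro r hr hrR θ y hy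
    have h1 := hβ _ (hmem r hr hrR θ) y hy
    have h2 : Tendsto (fun θ : ℝ => circleMap 0 r θ) (𝓝 θ) (𝓝[ball 0 R] (circleMap 0 r θ)) :=
      tendsto_nhdsWithin_iff.2 ⟨(continuous_circleMap 0 r).tendsto θ,
        Eventually.of_forall fun θ => hmem r hr hrR θ⟩
    exact h2.eventually h1
  have hβm : ∀ r : ℝ, 0 < r → r < R → Measurable fun θ : ℝ => β (circleMap 0 r θ) :=
    fun r hr hrR => (husc r hr hrR).measurable
  have hFm : ∀ r : ℝ, 0 < r → r < R → Measurable fun θ : ℝ => F δ (β (circleMap 0 r θ)) := by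
    intro r hr hrR
    unfold F
    exact ((Real.measurable_log.comp ((hβm r hr hrR).add_const δ)).sub_const _).ennreal_ofReal
  set R1 : ℝ := (1 + R) / 2 with hR1
  have hR1a : 1 < R1 := by rw [hR1]; linarith
  have hR1b : R1 < R := by rw [hR1]; linarith
  obtain ⟨K, hK⟩ : ∃ K : ℝ, ∀ z ∈ closedBall (0 : ℂ) R1, β z ≤ K := by
    have h1 : UpperSemicontinuousOn β (closedBall 0 R1) :=
      hβ.mono (closedBall_subset_ball hR1b)
    obtain ⟨K, hK⟩ := h1.bddAbove_of_isCompact (isCompact_closedBall 0 R1)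
    exact ⟨K, fun z hz => hK ⟨z, hz, rfl⟩⟩
  have hcl : ∀ r : ℝ, 0 < r → r ≤ R1 → ∀ θ, circleMap 0 r θ ∈ closedBall (0 : ℂ) R1 := by
    intro r hr hrR θ
    simp [abs_of_pos hr, hrR]
  set T : ℝ≥0∞ := F δ (‖s0‖ ^ 2) with hT
  set G : ℝ → ℝ≥0∞ := fun r => ∫⁻ θ, F δ (β (circleMap 0 r θ)) ∂cm with hG
  choose h A hhd hAm hAC hh0 hhA using H
  -- step 1
  have step1 : ∀ (j : ℕ) (r : ℝ), 0 < r → r < R →
      T ≤ G r + (∫⁻ θ, A j (circleMap 0 r θ) ∂cm) / ((j : ℝ≥0∞) + 1) := by
    intro j r hr hrR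
    rcases eq_or_ne s0 0 with hs | hs
    · have : T = 0 := by rw [hT, hs]; simp [F]
      rw [this]; exact zero_le
    have hj : (0 : ℝ) < (j : ℝ) + 1 := by positivity
    have hh0' : h j 0 ≠ 0 := by rw [hh0]; exact pow_ne_zero _ hs
    have hJ := jensen (hhd j) hr hrR (κ := 2 / ((j : ℝ) + 1)) (by positivity) hδ hh0'
    have e0 : ‖h j 0‖ ^ (2 / ((j : ℝ) + 1)) = ‖s0‖ ^ 2 := by
      rw [hh0, norm_pow, ← Real.rpow_natCast, ← Real.rpow_mul (norm_nonneg _)]
      push_cast
      rw [mul_div_cancel₀ _ hj.ne']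
      exact_mod_cast Real.rpow_natCast ‖s0‖ 2
    rw [e0] at hJ
    have hcont : Continuous fun θ : ℝ => h j (circleMap 0 r θ) :=
      (hhd j).continuousOn.comp_continuous (continuous_circleMap 0 r) (hmem r hr hrR)
    have hnn : ∀ θ, 0 ≤ ‖h j (circleMap 0 r θ)‖ ^ (2 / ((j : ℝ) + 1)) := fun θ =>
      Real.rpow_nonneg (norm_nonneg _) _
    have hcont2 : Continuous fun θ : ℝ => Real.log
        (‖h j (circleMap 0 r θ)‖ ^ (2 / ((j : ℝ) + 1)) + δ) := by
      refine Continuous.log ((hcont.norm.rpow_const fun _ => Or.inr (by positivity)).add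
        continuous_const) fun θ => ?_
      have := hnn θ
      positivity
    have hi3 : Integrable (fun θ : ℝ => Real.log
        (‖h j (circleMap 0 r θ)‖ ^ (2 / ((j : ℝ) + 1)) + δ) - Real.log δ) cm :=
      cont_integrable (hcont2.sub continuous_const)
    have hAmc : Measurable fun θ : ℝ => A j (circleMap 0 r θ) :=
      (hAm j).comp (continuous_circleMap 0 r).measurable
    calc T = ENNReal.ofReal (Real.log (‖s0‖ ^ 2 + δ) - Real.log δ) := rfl
      _ ≤ ENNReal.ofReal (∫ θ, (Real.log (‖h j (circleMap 0 r θ)‖ ^ (2 / ((j : ℝ) + 1)) + δ) -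
          Real.log δ) ∂cm) := by
          apply ENNReal.ofReal_le_ofReal
          rw [integral_sub (cont_integrable hcont2) (integrable_const _)]
          simp only [integral_const, probReal_univ, one_smul]
          linarith
      _ = ∫⁻ θ, F δ (‖h j (circleMap 0 r θ)‖ ^ (2 / ((j : ℝ) + 1))) ∂cm := by
          rw [ofReal_integral_eq_lintegral_ofReal hi3]
          · rfl
          · refine Eventually.of_forall fun θ => ?_
            have h3 := Real.log_le_log hδ (by linarith [hnn θ] :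
              δ ≤ ‖h j (circleMap 0 r θ)‖ ^ (2 / ((j : ℝ) + 1)) + δ)
            simp only [Pi.zero_apply]
            linarith
      _ ≤ ∫⁻ θ, (F δ (β (circleMap 0 r θ)) + A j (circleMap 0 r θ) / ((j : ℝ≥0∞) + 1)) ∂cm :=
          lintegral_mono fun θ => pointwise hδ (hβ0 _) (hhA j _ (hmem r hr hrR θ))
      _ = _ := by
          rw [lintegral_add_left (hFm r hr hrR)]
          congr 1
          simp only [div_eq_mul_inv]
          rw [lintegral_mul_const _ hAmc]
  -- step 2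
  set J : ℝ → ℝ≥0∞ := fun r => ⨅ j : ℕ, (∫⁻ θ, A j (circleMap 0 r θ) ∂cm) / ((j : ℝ≥0∞) + 1)
    with hJ
  have hJm : Measurable J := Measurable.iInf fun j => (measurable_circ (hAm j)).div_const _
  have hJ0 : ∫⁻ r in Ioo 1 R, J r = 0 := by
    have h1 : ∀ j : ℕ, ∫⁻ r in Ioo 1 R, J r ≤ C / ((j : ℝ≥0∞) + 1) := by
      intro j
      calc ∫⁻ r in Ioo 1 R, J r ≤ ∫⁻ r in Ioo 1 R,
            (ENNReal.ofReal (2 * π * r) * ∫⁻ θ, A j (circleMap 0 r θ) ∂cm) / ((j : ℝ≥0∞) + 1) := by
            refine setLIntegral_mono' measurableSet_Ioo fun r hr => ?_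
            refine (iInf_le _ j).trans ?_
            refine ENNReal.div_le_div_right ?_ _
            have h2 : (1 : ℝ≥0∞) ≤ ENNReal.ofReal (2 * π * r) := by
              rw [← ENNReal.ofReal_one]
              apply ENNReal.ofReal_le_ofReal
              have := Real.pi_gt_three
              nlinarith [hr.1]
            calc _ = 1 * ∫⁻ θ, A j (circleMap 0 r θ) ∂cm := (one_mul _).symm
              _ ≤ _ := by gcongr
        _ = (∫⁻ r in Ioo 1 R, ENNReal.ofReal (2 * π * r) * ∫⁻ θ, A j (circleMap 0 r θ) ∂cm) /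
            ((j : ℝ≥0∞) + 1) := by
            simp only [div_eq_mul_inv]
            rw [lintegral_mul_const]
            refine Measurable.mul ?_ (measurable_circ (hAm j))
            exact (measurable_id.const_mul (2 * π)).ennreal_ofReal
        _ ≤ (∫⁻ r in Ioi 0, ENNReal.ofReal (2 * π * r) * ∫⁻ θ, A j (circleMap 0 r θ) ∂cm) /
            ((j : ℝ≥0∞) + 1) := by
            refine ENNReal.div_le_div_right ?_ _
            refine lintegral_mono_set fun r hr => ?_
            have h1 : (1 : ℝ) < r := hr.1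
            show (0 : ℝ) < r
            linarith
        _ ≤ C / ((j : ℝ≥0∞) + 1) := by
            rw [← lintegral_polar (hAm j)]
            exact ENNReal.div_le_div_right (hAC j) _
    have h2 : Tendsto (fun j : ℕ => C / ((j : ℝ≥0∞) + 1)) atTop (𝓝 0) := by
      have h3 : Tendsto (fun j : ℕ => ((j + 1 : ℕ) : ℝ≥0∞)) atTop (𝓝 ∞) :=
        (ENNReal.tendsto_nat_nhds_top).comp (tendsto_add_atTop_nat 1)
      have h4 := ENNReal.Tendsto.const_div (a := C) h3 (Or.inr hC)
      rw [ENNReal.div_top] at h4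
      refine h4.congr fun j => ?_
      push_cast; rfl
    exact le_antisymm (ge_of_tendsto' h2 h1) zero_le
  have hae : ∀ᵐ r ∂(volume.restrict (Ioo 1 R)), T ≤ G r := by
    have h1 := (lintegral_eq_zero_iff hJm).1 hJ0
    filter_upwards [h1, ae_restrict_mem measurableSet_Ioo] with r hr hrm
    have h2 : T ≤ ⨅ j : ℕ, (G r + (∫⁻ θ, A j (circleMap 0 r θ) ∂cm) / ((j : ℝ≥0∞) + 1)) :=
      le_iInf fun j => step1 j r (by linarith [hrm.1]) hrm.2
    rw [← ENNReal.add_iInf] at h2
    have h3 : J r = 0 := hr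
    rw [hJ] at h3
    simp only at h3
    rwa [h3, add_zero] at h2
  -- step 3
  have hseq : ∀ n : ℕ, ∃ r : ℝ, 1 < r ∧ r < 1 + (R1 - 1) / ((n : ℝ) + 1) ∧ T ≤ G r := by
    intro n
    have hn : (0 : ℝ) < (n : ℝ) + 1 := by positivity
    have h1 : 0 < (R1 - 1) / ((n : ℝ) + 1) := by
      have : 0 < R1 - 1 := by linarith
      positivity
    have h2 : (R1 - 1) / ((n : ℝ) + 1) ≤ R1 - 1 := by
      apply div_le_self (by linarith)
      have : (0 : ℝ) ≤ (n : ℝ) := Nat.cast_nonneg n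
      linarith
    have h3 : Ioo 1 (1 + (R1 - 1) / ((n : ℝ) + 1)) ⊆ Ioo 1 R := fun r hr => ⟨hr.1, by
      have := hr.2; linarith⟩
    have h4 : ∀ᵐ r ∂(volume.restrict (Ioo 1 (1 + (R1 - 1) / ((n : ℝ) + 1)))), T ≤ G r :=
      ae_restrict_of_ae_restrict_of_subset h3 hae
    have h5 : (volume.restrict (Ioo 1 (1 + (R1 - 1) / ((n : ℝ) + 1)))) ≠ 0 := by
      rw [Ne, Measure.restrict_eq_zero, Real.volume_Ioo]
      simpa using h1
    haveI : (ae (volume.restrict (Ioo 1 (1 + (R1 - 1) / ((n : ℝ) + 1))))).NeBot := ae_neBot.2 h5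
    obtain ⟨r, hr1, hr2⟩ := (h4.and (ae_restrict_mem measurableSet_Ioo)).exists
    exact ⟨r, hr2.1, hr2.2, hr1⟩
  choose r hr1 hr2 hr3 using hseq
  have hrR1 : ∀ n, r n ≤ R1 := by
    intro n
    have h2 : (R1 - 1) / ((n : ℝ) + 1) ≤ R1 - 1 := by
      apply div_le_self (by linarith)
      have : (0 : ℝ) ≤ (n : ℝ) := Nat.cast_nonneg n
      linarith
    linarith [hr2 n]
  have hr0 : ∀ n, 0 < r n := fun n => by linarith [hr1 n]
  have hrlim : Tendsto r atTop (𝓝 1) := by
    refine tendsto_of_tendsto_of_tendsto_of_le_of_le (g := fun _ => (1 : ℝ))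
      (h := fun n : ℕ => 1 + (R1 - 1) / ((n : ℝ) + 1)) tendsto_const_nhds ?_
      (fun n => (hr1 n).le) (fun n => (hr2 n).le)
    have h3 : Tendsto (fun n : ℕ => (R1 - 1) / ((n : ℝ) + 1)) atTop (𝓝 0) := by
      have := (tendsto_one_div_add_atTop_nhds_zero_nat (𝕜 := ℝ)).const_mul (R1 - 1)
      simp only [mul_one_div, mul_zero] at this
      exact this
    simpa using h3.const_add 1
  have hTG : T ≤ G 1 := by
    have hb : ∀ n, (fun θ => F δ (β (circleMap 0 (r n) θ))) ≤ᵐ[cm] fun _ => F δ K := fun n =>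
      Eventually.of_forall fun θ => F_mono hδ (hβ0 _) (hK _ (hcl _ (hr0 n) (hrR1 n) θ))
    have h1 := limsup_lintegral_le (μ := cm) (fun _ => F δ K)
      (fun n => hFm (r n) (hr0 n) ((hrR1 n).trans_lt hR1b)) hb (by
        rw [lintegral_const, measure_univ, mul_one]; exact ENNReal.ofReal_ne_top)
    have h2 : T ≤ limsup (fun n => ∫⁻ θ, F δ (β (circleMap 0 (r n) θ)) ∂cm) atTop := by
      refine le_limsup_of_frequently_le (Frequently.of_forall fun n => hr3 n) ?_
      exact isBoundedUnder_of ⟨∞, fun _ => le_top⟩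
    refine h2.trans (h1.trans ?_)
    refine lintegral_mono fun θ => ?_
    -- upper semicontinuity
    refine le_of_forall_gt fun c hc => ?_
    obtain ⟨y, hy1, hy2⟩ := F_lt hδ (hβ0 _) hc
    have h3 := hβ _ (hmem 1 one_pos hR θ) y hy1
    have h4 : Tendsto (fun n => circleMap 0 (r n) θ) atTop (𝓝[ball 0 R] (circleMap 0 1 θ)) := by
      refine tendsto_nhdsWithin_iff.2 ⟨?_, Eventually.of_forall fun n =>
        hmem (r n) (hr0 n) ((hrR1 n).trans_lt hR1b) θ⟩
      have h5 : Continuous fun r : ℝ => circleMap 0 r θ := by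
        unfold circleMap; fun_prop
      exact (h5.tendsto 1).comp hrlim
    have h5 := h4.eventually h3
    refine lt_of_le_of_lt ?_ hy2
    refine limsup_le_of_le (by isBoundedDefault) ?_
    filter_upwards [h5] with n hn
    exact F_mono hδ (hβ0 _) hn.le
  -- step 4
  have hlogm : Measurable fun θ : ℝ => Real.log (β (circleMap 0 1 θ) + δ) :=
    Real.measurable_log.comp ((hβm 1 one_pos hR).add_const δ)
  have hlo : ∀ θ, Real.log δ ≤ Real.log (β (circleMap 0 1 θ) + δ) := fun θ =>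
    Real.log_le_log hδ (by linarith [hβ0 (circleMap 0 1 θ)])
  have hhi : ∀ θ, Real.log (β (circleMap 0 1 θ) + δ) ≤ Real.log (K + δ) := fun θ =>
    Real.log_le_log (by linarith [hβ0 (circleMap 0 1 θ)])
      (by linarith [hK _ (hcl 1 one_pos hR1a.le θ)])
  have hi : Integrable (fun θ : ℝ => Real.log (β (circleMap 0 1 θ) + δ)) cm :=
    integrable_of_bdd hlogm hlo hhi
  rw [circleAverage_eq]
  have hi2 : Integrable (fun θ : ℝ => Real.log (β (circleMap 0 1 θ) + δ) - Real.log δ) cm :=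
    hi.sub (integrable_const _)
  have h6 : G 1 = ENNReal.ofReal (∫ θ, (Real.log (β (circleMap 0 1 θ) + δ) - Real.log δ) ∂cm) := by
    rw [ofReal_integral_eq_lintegral_ofReal hi2]
    · rfl
    · exact Eventually.of_forall fun θ => by
        simp only [Pi.zero_apply]
        linarith [hlo θ]
  rw [h6, hT] at hTG
  have h7 : 0 ≤ ∫ θ, (Real.log (β (circleMap 0 1 θ) + δ) - Real.log δ) ∂cm :=
    integral_nonneg fun θ => by
      simp only [Pi.zero_apply]
      linarith [hlo θ]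
  have h8 := (ENNReal.ofReal_le_ofReal_iff h7).1 hTG
  rw [integral_sub hi (integrable_const _)] at h8
  simp only [integral_const, probReal_univ, one_smul] at h8
  linarith

end Crest.Agent.R276.Jen_748
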