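import Crest.Agent.R276.PVf_159

/-!
# Row 276, part D1 (helper159): Stein families over a disc, their fibre products, and families of
functionals

`Dom R`: a Stein Riemann domain over the disc of radius `R` with a decreasing sequence of smooth psh
weights.  `FF D`: a holomorphic family of functionals on the fibres, with `|ξ_t(g)|² ≤ κ(t) |g|²_t`.
-/

set_option autoImplicit false
set_option linter.unusedSectionVars false

noncomputable section

open Set Filter Topology Complex MeasureTheory Metric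
open scoped ENNReal ComplexConjugate

namespace Crest.Agent.R276.PV_159

open Crest.Agent.R271 Crest.Agent.R271.Ho51 Crest.Agent.R271.W792

/-- A Stein Riemann domain over a disc of radius `R` with a decreasing sequence of smooth psh weights. -/
structure Dom (R : ℝ) where
  /-- the Riemann domain -/
  P : Type
  [top : TopologicalSpace P]
  [t2 : T2Space P]
  [sc : SecondCountableTopology P]
  /-- fibre dimension -/
  a : ℕ
  [rd : RDom (a + 1) P]
  /-- exhaustion -/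
  ρ : P → ℝ
  ρ_sm : Sm ρ
  ρ_cpt : ∀ c : ℝ, IsCompact {x | ρ x ≤ c}
  ρ_lev : ∀ x w, nsq w ≤ lev ρ x w
  /-- weights -/
  φ : ℕ → P → ℝ
  φ_sm : ∀ k, Sm (φ k)
  φ_anti : ∀ x, Antitone fun k => φ k x
  φ_lev : ∀ k x w, 0 ≤ lev (φ k) x w
  tR : ∀ x : P, ‖tc x‖ < R

attribute [instance] Dom.top Dom.t2 Dom.sc Dom.rd

variable {R : ℝ}

/-- `e^{-φ}`, `φ = lim φ_k` -/
def Dom.wt (D : Dom R) (x : D.P) : ℝ≥0∞ := ⨆ k, ENNReal.ofReal (Real.exp (-D.φ k x))

/-- `|F|² e^{-φ}` -/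
def Dom.dens (D : Dom R) (F : D.P → ℂ) (x : D.P) : ℝ≥0∞ := ENNReal.ofReal (‖F x‖ ^ 2) * D.wt x

/-- squared norm on the fibre -/
def Dom.nrm (D : Dom R) (F : D.P → ℂ) (t : ℂ) : ℝ≥0∞ := fi (D.dens F) t

instance (D : Dom R) : MeasurableSpace D.P := borel _
instance (D : Dom R) : BorelSpace D.P := ⟨rfl⟩

/-- add a holomorphic function -/
def Dom.dat (D : Dom R) (U : D.P → ℂ) (hU : W792.Hol U) : Dat R where
  P := D.P
  a := D.a
  ρ := D.ρ
  ρ_sm := D.ρ_sm
  ρ_cpt := D.ρ_cpt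
  ρ_lev := D.ρ_lev
  φ := D.φ
  φ_sm := D.φ_sm
  φ_anti := D.φ_anti
  φ_lev := D.φ_lev
  U := U
  U_hol := hU
  tR := D.tR

lemma Dom.dat_nrm (D : Dom R) (U : D.P → ℂ) (hU : W792.Hol U) (F : D.P → ℂ) (t : ℂ) :
    (D.dat U hU).nrm F t = D.nrm F t := rfl

lemma Dom.wt_meas (D : Dom R) : Measurable D.wt :=
  Measurable.iSup fun k => ((Real.continuous_exp.comp
    (D.φ_sm k).continuous.neg).measurable).ennreal_ofReal

lemma Dom.dens_meas (D : Dom R) {F : D.P → ℂ} (hF : Continuous F) : Measurable (D.dens F) :=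
  ((hF.norm.pow 2).measurable.ennreal_ofReal).mul D.wt_meas

lemma Dom.nrm_congr (D : Dom R) {F G : D.P → ℂ} {t : ℂ} (h : ∀ x, tc x = t → F x = G x) :
    D.nrm F t = D.nrm G t :=
  fi_congr fun y hy => by unfold Dom.dens; rw [h y hy]

lemma Dom.nrm_smul (D : Dom R) (F : D.P → ℂ) (c : ℂ) (t : ℂ) :
    D.nrm (fun x => c * F x) t = ENNReal.ofReal (‖c‖ ^ 2) * D.nrm F t := by
  unfold Dom.nrm
  rw [← fi_const_mul ENNReal.ofReal_ne_top]
  refine fi_congr fun y _ => ?_
  unfold Dom.dens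
  rw [norm_mul, mul_pow, ENNReal.ofReal_mul (by positivity), mul_assoc]

/-! ### continuous functions with compact sublevel sets are bounded below -/

lemma exists_lower {X : Type*} [TopologicalSpace X] {f : X → ℝ} (hf : Continuous f)
    (hc : ∀ c : ℝ, IsCompact {x | f x ≤ c}) : ∃ b : ℝ, ∀ x, b ≤ f x := by
  obtain ⟨b, hb⟩ := ((hc 0).image hf).bddBelow
  refine ⟨min b 0, fun x => ?_⟩
  by_cases h : f x ≤ 0
  · exact (min_le_left _ _).trans (hb ⟨x, h, rfl⟩)
  · exact (min_le_right _ _).trans (not_le.1 h).le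

lemma nsq_L {a b : ℕ} (w : Fin (a + b + 1) → ℂ) : nsq w ≤ nsq (L1 a b w) + nsq (L2 a b w) := by
  unfold nsq
  rw [Fin.sum_univ_succ, Fin.sum_univ_add, Fin.sum_univ_succ (n := a), Fin.sum_univ_succ (n := b)]
  simp only [L1_zero, L1_succ, L2_zero, L2_succ]
  have : 0 ≤ ‖w 0‖ ^ 2 := by positivity
  linarith

lemma isCompact_FP {a b : ℕ} {M N : Type} [TopologicalSpace M] [TopologicalSpace N]
    [RDom (a + 1) M] [RDom (b + 1) N] [T2Space M] [T2Space N] {f : M → ℝ} {g : N → ℝ}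
    (hf : Continuous f)
    (hg : Continuous g) (hfc : ∀ c : ℝ, IsCompact {x | f x ≤ c})
    (hgc : ∀ c : ℝ, IsCompact {x | g x ≤ c}) (c : ℝ) :
    IsCompact {p : FP M N | f p.fst + g p.snd ≤ c} := by
  obtain ⟨bf, hbf⟩ := exists_lower hf hfc
  obtain ⟨bg, hbg⟩ := exists_lower hg hgc
  have hemb : IsClosedEmbedding (Subtype.val : {p : M × N // (cp p.1 : Fin (a + 1) → ℂ) 0 =
      (cp p.2 : Fin (b + 1) → ℂ) 0} → M × N) := by
    refine IsClosed.isClosedEmbedding_subtypeVal ?_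
    exact isClosed_eq ((continuous_apply 0).comp (cp_cont.comp continuous_fst))
      ((continuous_apply 0).comp (cp_cont.comp continuous_snd))
  have hK : IsCompact ({x : M | f x ≤ c - bg} ×ˢ {y : N | g y ≤ c - bf}) := (hfc _).prod (hgc _)
  have h1 : IsCompact ((Subtype.val : {p : M × N // (cp p.1 : Fin (a + 1) → ℂ) 0 =
      (cp p.2 : Fin (b + 1) → ℂ) 0} → M × N) ⁻¹' ({x : M | f x ≤ c - bg} ×ˢ {y : N | g y ≤ c - bf})) :=
    hemb.isCompact_preimage hK
  refine IsCompact.of_isClosed_subset (X := FP M N) h1 ?_ ?_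
  · exact isClosed_le ((hf.comp FP.cont_fst).add (hg.comp FP.cont_snd)) continuous_const
  · intro p hp
    have hp' : f p.fst + g p.snd ≤ c := hp
    refine ⟨?_, ?_⟩
    · show f p.fst ≤ c - bg
      have := hbg p.snd
      linarith
    · show g p.snd ≤ c - bf
      have := hbf p.fst
      linarith

/-- fibre product of families -/
@[reducible] def Dom.mul (D E : Dom R) : Dom R where
  P := FP D.P E.P
  a := D.a + E.a
  ρ p := D.ρ p.fst + E.ρ p.snd
  ρ_sm := (FP.mor_fst.sm D.ρ_sm).add (FP.mor_snd.sm E.ρ_sm)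
  ρ_cpt := isCompact_FP D.ρ_sm.continuous E.ρ_sm.continuous D.ρ_cpt E.ρ_cpt
  ρ_lev x w := by
    rw [lev_add (FP.mor_fst.sm D.ρ_sm) (FP.mor_snd.sm E.ρ_sm), FP.mor_fst.lev_eq D.ρ_sm,
      FP.mor_snd.lev_eq E.ρ_sm]
    exact (nsq_L w).trans (add_le_add (D.ρ_lev _ _) (E.ρ_lev _ _))
  φ k p := D.φ k p.fst + E.φ k p.snd
  φ_sm k := (FP.mor_fst.sm (D.φ_sm k)).add (FP.mor_snd.sm (E.φ_sm k))
  φ_anti x _ _ h := add_le_add (D.φ_anti x.fst h) (E.φ_anti x.snd h)
  φ_lev k x w := by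
    rw [lev_add (FP.mor_fst.sm (D.φ_sm k)) (FP.mor_snd.sm (E.φ_sm k)), FP.mor_fst.lev_eq (D.φ_sm k),
      FP.mor_snd.lev_eq (E.φ_sm k)]
    exact add_nonneg (D.φ_lev _ _ _) (E.φ_lev _ _ _)
  tR x := D.tR x.fst

lemma iSup_mul_iSup_mono {u v : ℕ → ℝ≥0∞} (hu : Monotone u) (hv : Monotone v) :
    ⨆ k, u k * v k = (⨆ k, u k) * ⨆ k, v k := by
  apply le_antisymm
  · exact iSup_le fun k => mul_le_mul' (le_iSup u k) (le_iSup v k)
  · rw [ENNReal.iSup_mul]
    refine iSup_le fun i => ?_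
    rw [ENNReal.mul_iSup]
    refine iSup_le fun j => ?_
    exact le_trans (mul_le_mul' (hu (le_max_left i j)) (hv (le_max_right i j)))
      (le_iSup (fun k => u k * v k) (max i j))

lemma Dom.wt_mul (D E : Dom R) (p : (D.mul E).P) :
    (D.mul E).wt p = D.wt (FP.fst (M := D.P) (N := E.P) p) * E.wt (FP.snd (M := D.P) (N := E.P) p) := by
  unfold Dom.wt
  rw [← iSup_mul_iSup_mono]
  · refine iSup_congr fun k => ?_
    show ENNReal.ofReal (Real.exp (-(D.φ k _ + E.φ k _))) = _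
    rw [← ENNReal.ofReal_mul (Real.exp_pos _).le, ← Real.exp_add]
    congr 2
    ring
  · intro i j h
    exact ENNReal.ofReal_le_ofReal (Real.exp_le_exp.2 (neg_le_neg (D.φ_anti _ h)))
  · intro i j h
    exact ENNReal.ofReal_le_ofReal (Real.exp_le_exp.2 (neg_le_neg (E.φ_anti _ h)))

lemma fi_const_mul_le {a : ℕ} {M : Type} [TopologicalSpace M] [RDom (a + 1) M] (g : M → ℝ≥0∞)
    (t : ℂ) (k : ℝ≥0∞) : k * fi g t ≤ fi (fun y => k * g y) t := by
  unfold fi fsum
  refine (lintegral_const_mul_le k _).trans_eq ?_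
  refine lintegral_congr fun x => ?_
  rw [ENNReal.tsum_mul_left]

/-- the Borel structure on fibre products -/
local instance instMFP {a b : ℕ} {M N : Type} [TopologicalSpace M] [TopologicalSpace N]
    [RDom (a + 1) M] [RDom (b + 1) N] : MeasurableSpace (FP M N) := borel _
local instance instBFP {a b : ℕ} {M N : Type} [TopologicalSpace M] [TopologicalSpace N]
    [RDom (a + 1) M] [RDom (b + 1) N] : BorelSpace (FP M N) := ⟨rfl⟩

/-- Fubini for the norms -/
lemma Dom.nrm_mul_ge (Q D : Dom R) {F : (Q.mul D).P → ℂ} (hF : Continuous F) (t : ℂ) :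
    fi (fun q : Q.P => Q.wt q * D.nrm (fun x => ext2 (M := Q.P) (N := D.P) F q x) t) t ≤
      (Q.mul D).nrm F t := by
  have hm : Measurable ((Q.mul D).dens F) := (Q.mul D).dens_meas hF
  have hfub : (Q.mul D).nrm F t = fi (fun m : Q.P => fi (fun n : D.P =>
      ext2 (M := Q.P) (N := D.P) ((Q.mul D).dens F) m n) t) t :=
    fi_FP (M := Q.P) (N := D.P) hm t
  rw [hfub]
  refine fi_mono fun q hq => ?_
  refine (fi_const_mul_le _ t _).trans ?_
  refine fi_mono fun x hx => ?_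
  have h : (cp q : Fin (Q.a + 1) → ℂ) 0 = (cp x : Fin (D.a + 1) → ℂ) 0 := by rw [hq, hx]
  have h1 : ext2 (M := Q.P) (N := D.P) ((Q.mul D).dens F) q x =
      ENNReal.ofReal (‖F (FP.mk' q x h)‖ ^ 2) * (Q.wt q * D.wt x) := by
    rw [ext2_of (M := Q.P) (N := D.P) _ h]
    unfold Dom.dens
    rw [Dom.wt_mul]
    rfl
  have h2 : D.dens (fun x => ext2 (M := Q.P) (N := D.P) F q x) x =
      ENNReal.ofReal (‖F (FP.mk' q x h)‖ ^ 2) * D.wt x := by
    unfold Dom.dens
    beta_reduce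
    rw [ext2_of (M := Q.P) (N := D.P) F h]
  rw [h1, h2]
  exact le_of_eq (by ring)

/-! ### fibrewise holomorphic functions -/

section FHol

variable {a b : ℕ} {M N : Type} [TopologicalSpace M] [TopologicalSpace N]
  [RDom (a + 1) M] [RDom (b + 1) N]

/-- `g` is holomorphic along the fibre over `t` -/
def FHol (t : ℂ) (g : M → ℂ) : Prop :=
  ∀ e : OpenPartialHomeomorph M (Fin (a + 1) → ℂ), IsCh e →
    DifferentiableOn ℂ (fun u : Fin a → ℂ => g (e.symm (Fin.cons t u)))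
      {u | (Fin.cons t u : Fin (a + 1) → ℂ) ∈ e.target}

lemma cons_hasFDerivAt (t : ℂ) (u : Fin a → ℂ) :
    HasFDerivAt (𝕜 := ℂ) (fun u : Fin a → ℂ => (Fin.cons t u : Fin (a + 1) → ℂ))
      (ContinuousLinearMap.pi fun i : Fin (a + 1) =>
        Fin.cases (0 : (Fin a → ℂ) →L[ℂ] ℂ) (fun j => ContinuousLinearMap.proj j) i) u := by
  rw [hasFDerivAt_pi]
  intro i
  refine Fin.cases ?_ (fun j => ?_) i
  · exact hasFDerivAt_const t u
  · exact (ContinuousLinearMap.proj (R := ℂ) (φ := fun _ : Fin a => ℂ) j).hasFDerivAt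

lemma differentiable_cons (t : ℂ) :
    Differentiable ℂ (fun u : Fin a → ℂ => (Fin.cons t u : Fin (a + 1) → ℂ)) :=
  fun u => (cons_hasFDerivAt t u).differentiableAt

lemma Hol.fhol {F : M → ℂ} (hF : Ho51.Hol F) (t : ℂ) : FHol t F := by
  intro e he
  exact (hF e he).comp (differentiable_cons t).differentiableOn (fun u hu => hu)

lemma FHol.congr {t : ℂ} {g g' : M → ℂ} (hg : FHol t g) (h : ∀ x, tc x = t → g' x = g x) :
    FHol t g' := by
  intro e he
  refine (hg e he).congr fun u hu => ?_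
  apply h
  unfold tc
  rw [he.cp_symm hu]
  rfl

/-- the slices of a holomorphic function on the fibre product -/
lemma FHol.slice {F : FP M N → ℂ} (hF : Ho51.Hol F) (q : M) : FHol (tc q) (fun x : N => ext2 F q x) := by
  intro d hd
  set e := ch q with he
  have hech : IsCh e := isCh_ch q
  set p0 : {u : Fin b → ℂ | (Fin.cons (tc q) u : Fin (b + 1) → ℂ) ∈ d.target} → FP M N := fun u =>
    FP.mk' q (d.symm (Fin.cons (tc q) u.1)) (by
      rw [hd.cp_symm u.2]; rfl) with hp0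
  intro u hu
  have hch := FP.isCh_chart hech hd (p0 ⟨u, hu⟩)
  have h1 := hF _ hch
  -- the map `u ↦ glue (cp q) (cons t u)`
  set γ : (Fin b → ℂ) → (Fin (a + b + 1) → ℂ) := fun u => glue (cp q) (Fin.cons (tc q) u) with hγ
  have hγd : Differentiable ℂ γ := by
    rw [differentiable_pi]
    intro i
    refine Fin.cases ?_ (fun j => ?_) i
    · exact differentiable_const _
    · refine Fin.addCases (fun j => ?_) (fun j => ?_) j
      · simp only [hγ, glue, Fin.cons_succ, Fin.append_left]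
        exact differentiable_const _
      · simp only [hγ, glue, Fin.cons_succ, Fin.append_right]
        exact differentiable_apply j
  have hγt : ∀ v : Fin b → ℂ, (Fin.cons (tc q) v : Fin (b + 1) → ℂ) ∈ d.target →
      L1 a b (γ v) ∈ e.target ∧ L2 a b (γ v) ∈ d.target := by
    intro v hv
    have h3 : L1 a b (γ v) = cp q := L1_glue _ _
    have h4 : L2 a b (γ v) = Fin.cons (tc q) v := L2_glue _ _ rfl
    rw [h3, h4]
    exact ⟨hech.cp_mem (mem_ch q), hv⟩
  have h2 : DifferentiableWithinAt ℂ ((F ∘ (FP.chart e d hech hd (p0 ⟨u, hu⟩)).symm) ∘ γ)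
      {u | (Fin.cons (tc q) u : Fin (b + 1) → ℂ) ∈ d.target} u := by
    refine (h1 (γ u) (hγt u hu)).comp u (hγd u).differentiableWithinAt ?_
    intro v hv
    exact hγt v hv
  refine h2.congr ?_ ?_
  · intro v hv
    have hv' : (Fin.cons (tc q) v : Fin (b + 1) → ℂ) ∈ d.target := hv
    have hc : (cp q : Fin (a + 1) → ℂ) 0 = (cp (d.symm (Fin.cons (tc q) v)) : Fin (b + 1) → ℂ) 0 := by
      rw [hd.cp_symm hv']; rfl
    simp only [Function.comp_apply]
    rw [ext2_of _ hc]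
    congr 1
    apply FP.ext'
    · show q = FP.fst ((FP.chart e d hech hd (p0 ⟨u, hu⟩)).symm (γ v))
      have : (FP.chart e d hech hd (p0 ⟨u, hu⟩)).symm (γ v) =
          FP.mk' (e.symm (L1 a b (γ v))) (d.symm (L2 a b (γ v))) (FP.compat hech hd (hγt v hv')) :=
        dif_pos (hγt v hv')
      rw [this]
      show q = e.symm (L1 a b (γ v))
      have h3 : L1 a b (γ v) = cp q := L1_glue _ _
      rw [h3, hech.symm_cp (mem_ch q)]
    · show d.symm (Fin.cons (tc q) v) = FP.snd ((FP.chart e d hech hd (p0 ⟨u, hu⟩)).symm (γ v))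
      have : (FP.chart e d hech hd (p0 ⟨u, hu⟩)).symm (γ v) =
          FP.mk' (e.symm (L1 a b (γ v))) (d.symm (L2 a b (γ v))) (FP.compat hech hd (hγt v hv')) :=
        dif_pos (hγt v hv')
      rw [this]
      show _ = d.symm (L2 a b (γ v))
      have h4 : L2 a b (γ v) = Fin.cons (tc q) v := L2_glue _ _ rfl
      rw [h4]
  · have hv' : (Fin.cons (tc q) u : Fin (b + 1) → ℂ) ∈ d.target := hu
    have hc : (cp q : Fin (a + 1) → ℂ) 0 = (cp (d.symm (Fin.cons (tc q) u)) : Fin (b + 1) → ℂ) 0 := by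
      rw [hd.cp_symm hv']; rfl
    simp only [Function.comp_apply]
    rw [ext2_of _ hc]
    congr 1
    apply FP.ext'
    · show q = FP.fst ((FP.chart e d hech hd (p0 ⟨u, hu⟩)).symm (γ u))
      have : (FP.chart e d hech hd (p0 ⟨u, hu⟩)).symm (γ u) =
          FP.mk' (e.symm (L1 a b (γ u))) (d.symm (L2 a b (γ u))) (FP.compat hech hd (hγt u hv')) :=
        dif_pos (hγt u hv')
      rw [this]
      show q = e.symm (L1 a b (γ u))
      have h3 : L1 a b (γ u) = cp q := L1_glue _ _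
      rw [h3, hech.symm_cp (mem_ch q)]
    · show d.symm (Fin.cons (tc q) u) = FP.snd ((FP.chart e d hech hd (p0 ⟨u, hu⟩)).symm (γ u))
      have : (FP.chart e d hech hd (p0 ⟨u, hu⟩)).symm (γ u) =
          FP.mk' (e.symm (L1 a b (γ u))) (d.symm (L2 a b (γ u))) (FP.compat hech hd (hγt u hv')) :=
        dif_pos (hγt u hv')
      rw [this]
      show _ = d.symm (L2 a b (γ u))
      have h4 : L2 a b (γ u) = Fin.cons (tc q) u := L2_glue _ _ rfl
      rw [h4]

end FHol

/-! ### families of functionals -/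

/-- a holomorphic family of functionals on the fibres, with a bound -/
structure FF (D : Dom R) where
  /-- the functional -/
  ξ : ℂ → (D.P → ℂ) → ℂ
  /-- the bound -/
  κ : ℂ → ℝ
  κ_pos : ∀ t, 0 < κ t
  loc : ∀ t g g', (∀ x, tc x = t → g x = g' x) → ξ t g = ξ t g'
  hom : ∀ t c g, ξ t (fun x => c * g x) = c * ξ t g
  bd : ∀ t, ‖t‖ < R → ∀ g, FHol t g →
    ENNReal.ofReal (‖ξ t g‖ ^ 2) ≤ ENNReal.ofReal (κ t) * D.nrm g t
  hol0 : ∀ G : D.P → ℂ, Ho51.Hol G → (∀ᵐ t, D.nrm G t < ∞) →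
    DifferentiableOn ℂ (fun t => ξ t G) (ball 0 R)
  hol1 : ∀ (Q : Dom R) (F : (Q.mul D).P → ℂ), Ho51.Hol F → (∀ᵐ t, (Q.mul D).nrm F t < ∞) →
    Ho51.Hol (fun q : Q.P => ξ (tc q) (fun x : D.P => ext2 (M := Q.P) (N := D.P) F q x))

variable {D : Dom R}

/-- apply the functional to the last factor -/
def FF.E (X : FF D) (Q : Dom R) (F : (Q.mul D).P → ℂ) (q : Q.P) : ℂ :=
  X.ξ (tc q) (fun x : D.P => ext2 (M := Q.P) (N := D.P) F q x)

/-- Bergman inequality in one variable -/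
lemma FF.nrm_E (X : FF D) (Q : Dom R) {F : (Q.mul D).P → ℂ} (hF : Ho51.Hol F) {t : ℂ} (ht : ‖t‖ < R) :
    Q.nrm (X.E Q F) t ≤ ENNReal.ofReal (X.κ t) * (Q.mul D).nrm F t := by
  refine le_trans ?_ (mul_le_mul_right (Q.nrm_mul_ge D (T7a297.Hol.continuous hF) t) _)
  rw [← fi_const_mul ENNReal.ofReal_ne_top]
  refine fi_mono fun q hq => ?_
  have hq' : tc q = t := hq
  have h1 := X.bd (tc q) (by rw [hq']; exact ht) _ (FHol.slice (M := Q.P) (N := D.P) hF q)
  unfold Dom.dens FF.E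
  rw [hq'] at h1 ⊢
  calc _ ≤ (ENNReal.ofReal (X.κ t) * D.nrm (fun x => ext2 (M := Q.P) (N := D.P) F q x) t) * Q.wt q :=
        mul_le_mul_left h1 _
    _ = _ := by ring

/-- powers of a family -/
def Dom.pw (D : Dom R) : ℕ → Dom R
  | 0 => D
  | j + 1 => (D.pw j).mul D

/-- the function `U ⊗ ... ⊗ U` (`j + 1` factors) -/
def Dom.upw (D : Dom R) (U : D.P → ℂ) : ∀ j : ℕ, (D.pw j).P → ℂ
  | 0 => U
  | j + 1 => fun p => D.upw U j (FP.fst (M := (D.pw j).P) (N := D.P) p) *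
      U (FP.snd (M := (D.pw j).P) (N := D.P) p)

/-- apply the functional to all factors but the first one -/
def FF.down (X : FF D) : ∀ j : ℕ, ((D.pw j).P → ℂ) → (D.P → ℂ)
  | 0, F => F
  | j + 1, F => X.down j (X.E (D.pw j) F)

end Crest.Agent.R276.PV_159
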