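import Crest.Agent.R276.Pb_748
import Crest.Agent.R276.PVg_159

/-!
# Row 276, W2 (helper748): slices

`M` a Riemann domain over `ℂⁿ`, `sp : Fin r ⊕ Fin d ≃ Fin n` a splitting of the coordinates into base
coordinates `t` and fibre coordinates `x`.  For `t₀ v : ℂʳ`, `R > 0`:
`Sl M sp t₀ v R = {(y, l) : t(y) = t₀ + l v, |l| < R}` is a Riemann domain over `ℂ^{d+1}` with
coordinates `(l, x)`; Stein data.
-/

set_option autoImplicit false
set_option linter.unusedSectionVars false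

noncomputable section

open Set Filter Topology Complex MeasureTheory Metric
open scoped ENNReal

namespace Crest.Agent.R276.Sl_748

open Crest.Agent.R271 Crest.Agent.R271.Ho51 Crest.Agent.R271.W792 Crest.Agent.R276.PV_159
  Crest.Agent.R276.P_748

/-! ### splitting of the coordinates -/

section split

variable {r d n : ℕ} (sp : Fin r ⊕ Fin d ≃ Fin n)

/-- base coordinates -/
def bt (z : Fin n → ℂ) : Fin r → ℂ := fun i => z (sp (Sum.inl i))

/-- fibre coordinates -/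
def fx (z : Fin n → ℂ) : Fin d → ℂ := fun j => z (sp (Sum.inr j))

/-- the vector with base part `t` and fibre part `x` -/
def gl (t : Fin r → ℂ) (x : Fin d → ℂ) : Fin n → ℂ := fun k => Sum.elim t x (sp.symm k)

@[simp] lemma bt_gl (t : Fin r → ℂ) (x : Fin d → ℂ) : bt sp (gl sp t x) = t := by
  funext i; simp [bt, gl]

@[simp] lemma fx_gl (t : Fin r → ℂ) (x : Fin d → ℂ) : fx sp (gl sp t x) = x := by
  funext i; simp [fx, gl]

@[simp] lemma gl_bt_fx (z : Fin n → ℂ) : gl sp (bt sp z) (fx sp z) = z := by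
  funext k
  obtain ⟨k, rfl⟩ := sp.surjective k
  rcases k with i | j <;> simp [bt, fx, gl]

lemma gl_eq_iff {t : Fin r → ℂ} {x : Fin d → ℂ} {z : Fin n → ℂ} :
    z = gl sp t x ↔ bt sp z = t ∧ fx sp z = x := by
  constructor
  · rintro rfl; simp
  · rintro ⟨rfl, rfl⟩; simp

/-- the linear map `(l, x) ↦ gl (l v) x` -/
def Lm (v : Fin r → ℂ) : (Fin (d + 1) → ℂ) →L[ℂ] (Fin n → ℂ) :=
  ContinuousLinearMap.pi fun k => match sp.symm k with
    | Sum.inl i => (v i) • ContinuousLinearMap.proj (0 : Fin (d + 1))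
    | Sum.inr j => ContinuousLinearMap.proj j.succ

lemma Lm_apply (v : Fin r → ℂ) (w : Fin (d + 1) → ℂ) :
    Lm sp v w = gl sp (w 0 • v) (Fin.tail w) := by
  funext k
  simp only [Lm, ContinuousLinearMap.coe_pi', gl]
  rcases sp.symm k with i | j
  · simp [mul_comm]
  · simp [Fin.tail]

lemma nsq_gl (t : Fin r → ℂ) (x : Fin d → ℂ) : nsq (gl sp t x) = nsq t + nsq x := by
  unfold nsq
  rw [← sp.sum_comp, Fintype.sum_sum_type]
  simp [gl]

lemma nsq_Lm (v : Fin r → ℂ) (w : Fin (d + 1) → ℂ) : nsq (Fin.tail w) ≤ nsq (Lm sp v w) := by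
  rw [Lm_apply, nsq_gl]
  have := nsq_nonneg (w 0 • v)
  linarith

lemma continuous_bt : Continuous (bt sp : (Fin n → ℂ) → Fin r → ℂ) :=
  continuous_pi fun _ => continuous_apply _

lemma continuous_fx : Continuous (fx sp : (Fin n → ℂ) → Fin d → ℂ) :=
  continuous_pi fun _ => continuous_apply _

end split

/-! ### the slice -/

variable {r d n : ℕ} (M : Type) [TopologicalSpace M] [RDom n M] (sp : Fin r ⊕ Fin d ≃ Fin n)
  (t₀ v : Fin r → ℂ) (R : ℝ)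

/-- the slice -/
def Sl : Type := {q : M × ℂ // bt sp (cp q.1) = t₀ + q.2 • v ∧ ‖q.2‖ < R}

instance : TopologicalSpace (Sl M sp t₀ v R) :=
  inferInstanceAs (TopologicalSpace {q : M × ℂ // bt sp (cp q.1) = t₀ + q.2 • v ∧ ‖q.2‖ < R})
instance [T2Space M] : T2Space (Sl M sp t₀ v R) :=
  inferInstanceAs (T2Space {q : M × ℂ // bt sp (cp q.1) = t₀ + q.2 • v ∧ ‖q.2‖ < R})
instance [SecondCountableTopology M] : SecondCountableTopology (Sl M sp t₀ v R) :=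
  TopologicalSpace.Subtype.secondCountableTopology
    {q : M × ℂ | bt sp (cp q.1) = t₀ + q.2 • v ∧ ‖q.2‖ < R}

variable {M sp t₀ v R}

/-- the projection to `M` -/
def Sl.pr (q : Sl M sp t₀ v R) : M := q.1.1
/-- the parameter -/
def Sl.l (q : Sl M sp t₀ v R) : ℂ := q.1.2

lemma Sl.bt_pr (q : Sl M sp t₀ v R) : bt sp (cp q.pr) = t₀ + q.l • v := q.2.1
lemma Sl.norm_l (q : Sl M sp t₀ v R) : ‖q.l‖ < R := q.2.2

/-- constructor -/
def Sl.mk' (y : M) (l : ℂ) (h : bt sp (cp y) = t₀ + l • v) (hl : ‖l‖ < R) : Sl M sp t₀ v R :=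
  ⟨(y, l), h, hl⟩

@[simp] lemma Sl.pr_mk' (y : M) (l : ℂ) (h : bt sp (cp y) = t₀ + l • v) (hl : ‖l‖ < R) :
    (Sl.mk' y l h hl : Sl M sp t₀ v R).pr = y := rfl
@[simp] lemma Sl.l_mk' (y : M) (l : ℂ) (h : bt sp (cp y) = t₀ + l • v) (hl : ‖l‖ < R) :
    (Sl.mk' y l h hl : Sl M sp t₀ v R).l = l := rfl

lemma Sl.ext' {p q : Sl M sp t₀ v R} (h1 : p.pr = q.pr) (h2 : p.l = q.l) : p = q :=
  Subtype.ext (Prod.ext h1 h2)

lemma Sl.cont_pr : Continuous (Sl.pr : Sl M sp t₀ v R → M) :=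
  continuous_fst.comp continuous_subtype_val
lemma Sl.cont_l : Continuous (Sl.l : Sl M sp t₀ v R → ℂ) :=
  continuous_snd.comp continuous_subtype_val

/-- coordinates on the slice -/
def Sl.crd (q : Sl M sp t₀ v R) : Fin (d + 1) → ℂ := Fin.cons q.l (fx sp (cp q.pr))

/-- coordinates of `M` in terms of the coordinates of the slice -/
def Av (sp : Fin r ⊕ Fin d ≃ Fin n) (t₀ v : Fin r → ℂ) (z : Fin (d + 1) → ℂ) : Fin n → ℂ :=
  gl sp (t₀ + z 0 • v) (Fin.tail z)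

lemma Av_eq (z : Fin (d + 1) → ℂ) : Av sp t₀ v z = gl sp t₀ 0 + Lm sp v z := by
  rw [Lm_apply]
  funext k
  simp only [Av, gl, Pi.add_apply]
  rcases sp.symm k with i | j <;> simp

lemma continuous_Av : Continuous (Av sp t₀ v) := by
  have h : Av sp t₀ v = fun z => gl sp t₀ 0 + Lm sp v z := by funext z; exact Av_eq z
  rw [h]
  exact continuous_const.add (Lm sp v).continuous

lemma Sl.Av_crd (q : Sl M sp t₀ v R) : Av sp t₀ v q.crd = cp q.pr := by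
  unfold Av Sl.crd
  rw [Fin.cons_zero, Fin.tail_cons, ← q.bt_pr, gl_bt_fx]

lemma Sl.cont_crd : Continuous (Sl.crd : Sl M sp t₀ v R → Fin (d + 1) → ℂ) := by
  refine continuous_pi fun i => ?_
  refine Fin.cases ?_ (fun j => ?_) i
  · exact Sl.cont_l
  · show Continuous fun q : Sl M sp t₀ v R => cp q.pr (sp (Sum.inr j))
    exact (continuous_apply (sp (Sum.inr j))).comp (cp_cont.comp Sl.cont_pr)

lemma Sl.compat {e : OpenPartialHomeomorph M (Fin n → ℂ)} (he : IsCh e)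
    {z : Fin (d + 1) → ℂ} (h : Av sp t₀ v z ∈ e.target) :
    bt sp (cp (e.symm (Av sp t₀ v z))) = t₀ + z 0 • v := by
  rw [he.cp_symm h, Av, bt_gl]

open Classical in
/-- the chart of the slice given by a chart of `M` -/
def Sl.chart (e : OpenPartialHomeomorph M (Fin n → ℂ)) (he : IsCh e) (q0 : Sl M sp t₀ v R) :
    OpenPartialHomeomorph (Sl M sp t₀ v R) (Fin (d + 1) → ℂ) where
  toFun := Sl.crd
  invFun z := if h : Av sp t₀ v z ∈ e.target ∧ ‖z 0‖ < R then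
    Sl.mk' (e.symm (Av sp t₀ v z)) (z 0) (Sl.compat he h.1) h.2 else q0
  source := {q | q.pr ∈ e.source}
  target := {z | Av sp t₀ v z ∈ e.target ∧ ‖z 0‖ < R}
  map_source' q hq := by
    show Av sp t₀ v q.crd ∈ e.target ∧ ‖q.crd 0‖ < R
    rw [q.Av_crd]
    exact ⟨he.cp_mem hq, q.norm_l⟩
  map_target' z hz := by
    have hz' : Av sp t₀ v z ∈ e.target ∧ ‖z 0‖ < R := hz
    rw [dif_pos hz']
    exact e.map_target hz.1
  left_inv' q hq := by
    have h : Av sp t₀ v q.crd ∈ e.target ∧ ‖q.crd 0‖ < R := by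
      rw [q.Av_crd]
      exact ⟨he.cp_mem hq, q.norm_l⟩
    rw [dif_pos h]
    apply Sl.ext'
    · show e.symm (Av sp t₀ v q.crd) = q.pr
      rw [q.Av_crd]; exact he.symm_cp hq
    · rfl
  right_inv' z hz := by
    have hz' : Av sp t₀ v z ∈ e.target ∧ ‖z 0‖ < R := hz
    rw [dif_pos hz']
    show (Fin.cons (z 0) (fx sp (cp (e.symm (Av sp t₀ v z)))) : Fin (d + 1) → ℂ) = z
    rw [he.cp_symm hz'.1, Av, fx_gl]
    exact Fin.cons_self_tail z
  open_source := e.open_source.preimage Sl.cont_pr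
  open_target := (e.open_target.preimage continuous_Av).inter
    (isOpen_lt (continuous_apply 0).norm continuous_const)
  continuousOn_toFun := Sl.cont_crd.continuousOn
  continuousOn_invFun := by
    rw [continuousOn_iff_continuous_domRestrict]
    have h1 : (({z : Fin (d + 1) → ℂ | Av sp t₀ v z ∈ e.target ∧ ‖z 0‖ < R}).domRestrict
        (fun z => if h : Av sp t₀ v z ∈ e.target ∧ ‖z 0‖ < R then
          (Sl.mk' (e.symm (Av sp t₀ v z)) (z 0) (Sl.compat he h.1) h.2 : Sl M sp t₀ v R)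
            else q0)) =
        fun z => Sl.mk' (e.symm (Av sp t₀ v z.1)) (z.1 0) (Sl.compat he z.2.1) z.2.2 := by
      funext z
      exact dif_pos z.2
    rw [h1]
    refine Continuous.subtype_mk ?_ _
    refine Continuous.prodMk ?_ ?_
    · have := e.continuousOn_symm
      rw [continuousOn_iff_continuous_domRestrict] at this
      exact this.comp (f := fun z : {z : Fin (d + 1) → ℂ | Av sp t₀ v z ∈ e.target ∧ ‖z 0‖ < R} =>
        (⟨Av sp t₀ v z.1, z.2.1⟩ : e.target))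
        (Continuous.subtype_mk (continuous_Av.comp continuous_subtype_val) _)
    · exact (continuous_apply 0).comp continuous_subtype_val

instance instRDomSl : RDom (d + 1) (Sl M sp t₀ v R) where
  p := Sl.crd
  hp := fun q => ⟨Sl.chart (ch q.pr) (isCh_ch _) q, mem_ch _, rfl⟩

lemma Sl.cp_eq (q : Sl M sp t₀ v R) : (cp q : Fin (d + 1) → ℂ) = q.crd := rfl

lemma Sl.tc_eq (q : Sl M sp t₀ v R) : tc q = q.l := rfl

lemma Sl.tail_cp (q : Sl M sp t₀ v R) : (Fin.tail (cp q) : Fin d → ℂ) = fx sp (cp q.pr) := rfl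

lemma Sl.isCh_chart {e : OpenPartialHomeomorph M (Fin n → ℂ)} (he : IsCh e)
    (q0 : Sl M sp t₀ v R) : IsCh (Sl.chart e he q0) := rfl

lemma Sl.chart_symm {e : OpenPartialHomeomorph M (Fin n → ℂ)} (he : IsCh e)
    (q0 : Sl M sp t₀ v R) {z : Fin (d + 1) → ℂ} (h : Av sp t₀ v z ∈ e.target ∧ ‖z 0‖ < R) :
    (Sl.chart e he q0).symm z = Sl.mk' (e.symm (Av sp t₀ v z)) (z 0) (Sl.compat he h.1) h.2 :=
  dif_pos h

lemma Sl.mor : Mor (gl sp t₀ 0) (Lm sp v) (Sl.pr : Sl M sp t₀ v R → M) where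
  cont := Sl.cont_pr
  eq q := by
    rw [← Av_eq]
    exact q.Av_crd.symm

/-! ### Stein data -/

/-- the part of the exhaustion which comes from the disc -/
def ex (q : Sl M sp t₀ v R) : ℝ := R ^ 4 * (R ^ 2 - ‖tc q‖ ^ 2)⁻¹

lemma pos_disc (q : Sl M sp t₀ v R) : 0 < R ^ 2 - ‖tc q‖ ^ 2 := by
  have h1 := q.norm_l
  rw [Sl.tc_eq]
  have h2 : 0 ≤ ‖q.l‖ := norm_nonneg _
  nlinarith

lemma sm_inv : Sm (fun q : Sl M sp t₀ v R => (R ^ 2 - ‖tc q‖ ^ 2)⁻¹) := by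
  have h1 : Sm (fun q : Sl M sp t₀ v R => R ^ 2 - ‖tc q‖ ^ 2) :=
    (Sm.const _).sub (Hol.sm_normSq (hol_tc (P := Sl M sp t₀ v R)).sm)
  exact Sm.comp_at (g := fun t : ℝ => t⁻¹) h1 fun x => contDiffAt_inv ℝ (pos_disc x).ne'

lemma sm_ex : Sm (ex : Sl M sp t₀ v R → ℝ) := (Sm.const _).mulR sm_inv

lemma lev_ex (q : Sl M sp t₀ v R) (w : Fin (d + 1) → ℂ) : ‖w 0‖ ^ 2 ≤ lev ex q w := by
  have hpos := pos_disc q
  have hR : 0 < R := lt_of_le_of_lt (norm_nonneg _) q.norm_l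
  have hφ : Sm (fun q : Sl M sp t₀ v R => ‖tc q‖ ^ 2) :=
    Hol.sm_normSq (hol_tc (P := Sl M sp t₀ v R)).sm
  have h1 : lev (fun q : Sl M sp t₀ v R => R ^ 4 * (R ^ 2 - ‖tc q‖ ^ 2)⁻¹) q w =
      R ^ 4 * lev (fun q : Sl M sp t₀ v R => (R ^ 2 - ‖tc q‖ ^ 2)⁻¹) q w :=
    lev_const_mul sm_inv (R ^ 4) q w
  have hsm2 : Sm (fun q : Sl M sp t₀ v R => ((R ^ 2 - ‖tc q‖ ^ 2) ^ 2)⁻¹) := by
    have h3 : Sm (fun q : Sl M sp t₀ v R => (R ^ 2 - ‖tc q‖ ^ 2)⁻¹ * (R ^ 2 - ‖tc q‖ ^ 2)⁻¹) :=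
      sm_inv.mulR sm_inv
    have h4 : (fun q : Sl M sp t₀ v R => ((R ^ 2 - ‖tc q‖ ^ 2) ^ 2)⁻¹) =
        fun q => (R ^ 2 - ‖tc q‖ ^ 2)⁻¹ * (R ^ 2 - ‖tc q‖ ^ 2)⁻¹ := by
      funext q; rw [sq, mul_inv]
    rw [h4]; exact h3
  have hg' : ∀ᶠ t in 𝓝 (‖tc q‖ ^ 2), HasDerivAt (fun t : ℝ => (R ^ 2 - t)⁻¹)
      ((fun t : ℝ => ((R ^ 2 - t) ^ 2)⁻¹) t) t := by
    have hev : ∀ᶠ t in 𝓝 (‖tc q‖ ^ 2), 0 < R ^ 2 - t := by
      have hc : ContinuousAt (fun t : ℝ => R ^ 2 - t) (‖tc q‖ ^ 2) := by fun_prop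
      exact hc.eventually (lt_mem_nhds hpos)
    filter_upwards [hev] with t ht
    have h5 : HasDerivAt (fun t : ℝ => R ^ 2 - t) (-1) t := (hasDerivAt_id' t).const_sub (R ^ 2)
    have h6 := h5.inv ht.ne'
    have h7 : -(-1 : ℝ) / (R ^ 2 - t) ^ 2 = ((R ^ 2 - t) ^ 2)⁻¹ := by
      rw [neg_neg, one_div]
    rw [h7] at h6
    exact h6
  have hg'' : HasDerivAt (fun t : ℝ => ((R ^ 2 - t) ^ 2)⁻¹) (2 * ((R ^ 2 - ‖tc q‖ ^ 2) ^ 3)⁻¹)
      (‖tc q‖ ^ 2) := by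
    have h5 : HasDerivAt (fun t : ℝ => R ^ 2 - t) (-1) (‖tc q‖ ^ 2) :=
      (hasDerivAt_id' _).const_sub (R ^ 2)
    have h6 := (h5.pow 2).inv (show ((fun t : ℝ => R ^ 2 - t) ^ 2) (‖tc q‖ ^ 2) ≠ 0 from
      pow_ne_zero 2 hpos.ne')
    refine h6.congr_deriv ?_
    simp only [Pi.pow_apply]
    push_cast
    field_simp
  have h2 := lev_comp (g := fun t : ℝ => (R ^ 2 - t)⁻¹) (g' := fun t : ℝ => ((R ^ 2 - t) ^ 2)⁻¹)
    hφ q hg' hg'' w hsm2
  have h8 : lev (fun q : Sl M sp t₀ v R => ‖tc q‖ ^ 2) q w = ‖w 0‖ ^ 2 := by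
    rw [lev_normSq (hol_tc (P := Sl M sp t₀ v R)), D_tc]
  have h9 := dsq_nonneg (fun q : Sl M sp t₀ v R => ‖tc q‖ ^ 2) q w
  show ‖w 0‖ ^ 2 ≤ lev (fun q : Sl M sp t₀ v R => R ^ 4 * (R ^ 2 - ‖tc q‖ ^ 2)⁻¹) q w
  rw [h1, h2, h8]
  have h10 : (R ^ 4)⁻¹ ≤ ((R ^ 2 - ‖tc q‖ ^ 2) ^ 2)⁻¹ := by
    have h11 : (R ^ 2 - ‖tc q‖ ^ 2) ^ 2 ≤ R ^ 4 := by
      have h12 : R ^ 2 - ‖tc q‖ ^ 2 ≤ R ^ 2 := by
        have := sq_nonneg ‖tc q‖
        linarith
      calc (R ^ 2 - ‖tc q‖ ^ 2) ^ 2 ≤ (R ^ 2) ^ 2 := by gcongr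
        _ = R ^ 4 := by ring
    gcongr
  have h13 : 0 ≤ 2 * ((R ^ 2 - ‖tc q‖ ^ 2) ^ 3)⁻¹ := by positivity
  calc ‖w 0‖ ^ 2 = R ^ 4 * ((R ^ 4)⁻¹ * ‖w 0‖ ^ 2) := by field_simp
    _ ≤ R ^ 4 * (((R ^ 2 - ‖tc q‖ ^ 2) ^ 2)⁻¹ * ‖w 0‖ ^ 2) := by gcongr
    _ ≤ R ^ 4 * (2 * ((R ^ 2 - ‖tc q‖ ^ 2) ^ 3)⁻¹ *
        dsq (fun q : Sl M sp t₀ v R => ‖tc q‖ ^ 2) q w +
        ((R ^ 2 - ‖tc q‖ ^ 2) ^ 2)⁻¹ * ‖w 0‖ ^ 2) := by
        have h14 := mul_nonneg h13 h9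
        gcongr
        exact le_add_of_nonneg_left h14

/-- exhaustion of the slice -/
def rh (ρ : M → ℝ) (q : Sl M sp t₀ v R) : ℝ := ρ q.pr + ex q

lemma sm_rh {ρ : M → ℝ} (hρ : Sm ρ) : Sm (rh ρ : Sl M sp t₀ v R → ℝ) :=
  (Sl.mor.sm hρ).add sm_ex

lemma nsq_succ (w : Fin (d + 1) → ℂ) : nsq w = ‖w 0‖ ^ 2 + nsq (Fin.tail w) := by
  unfold nsq
  rw [Fin.sum_univ_succ]
  rfl

lemma lev_rh {ρ : M → ℝ} (hρ : Sm ρ) (hL : ∀ x w, nsq w ≤ lev ρ x w) (q : Sl M sp t₀ v R)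
    (w : Fin (d + 1) → ℂ) : nsq w ≤ lev (rh ρ) q w := by
  have h1 : lev (rh ρ) q w = lev (fun q : Sl M sp t₀ v R => ρ q.pr) q w + lev ex q w :=
    lev_add (Sl.mor.sm hρ) sm_ex q w
  rw [h1, Sl.mor.lev_eq hρ, nsq_succ]
  have h2 := lev_ex q w
  have h3 := (nsq_Lm sp v w).trans (hL q.pr (Lm sp v w))
  linarith

lemma cpt_rh [T2Space M] {ρ : M → ℝ} (hρ : Sm ρ) (hk : ∀ c : ℝ, IsCompact {x | ρ x ≤ c}) (c : ℝ) :
    IsCompact {q : Sl M sp t₀ v R | rh ρ q ≤ c} := by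
  obtain ⟨m, hm⟩ := exists_lb hρ.continuous hk
  have hρc := hρ.continuous
  set K : Set (M × ℂ) := ({x | ρ x ≤ c} ×ˢ closedBall (0 : ℂ) R) ∩
    {p | bt sp (cp p.1) = t₀ + p.2 • v ∧ ‖p.2‖ ≤ R ∧
      R ^ 4 ≤ (c - ρ p.1) * (R ^ 2 - ‖p.2‖ ^ 2)} with hK
  have hKc : IsCompact K := by
    refine ((hk c).prod (isCompact_closedBall 0 R)).inter_right ?_
    have c1 : IsClosed {p : M × ℂ | bt sp (cp p.1) = t₀ + p.2 • v} :=
      isClosed_eq ((continuous_bt sp).comp (cp_cont.comp continuous_fst))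
        (continuous_const.add (continuous_snd.smul continuous_const))
    have c2 : IsClosed {p : M × ℂ | ‖p.2‖ ≤ R} := isClosed_le continuous_snd.norm continuous_const
    have c3 : IsClosed {p : M × ℂ | R ^ 4 ≤ (c - ρ p.1) * (R ^ 2 - ‖p.2‖ ^ 2)} := by
      refine isClosed_le continuous_const (Continuous.mul ?_ ?_)
      · exact continuous_const.sub (hρc.comp continuous_fst)
      · exact continuous_const.sub (continuous_snd.norm.pow 2)
    exact c1.inter (c2.inter c3)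
  by_cases hR : 0 < R
  · have hsub : K ⊆ range (Subtype.val : {q : M × ℂ // bt sp (cp q.1) = t₀ + q.2 • v ∧ ‖q.2‖ < R} →
        M × ℂ) := by
      rintro ⟨y, l⟩ ⟨⟨h1, h2⟩, h3, h4, h5⟩
      refine ⟨⟨(y, l), h3, ?_⟩, rfl⟩
      rcases h4.lt_or_eq with h | h
      · exact h
      · exfalso
        have h6 : ‖l‖ = R := h
        have h7 : R ^ 4 ≤ (c - ρ y) * (R ^ 2 - ‖l‖ ^ 2) := h5
        rw [h6, sub_self, mul_zero] at h7
        have : 0 < R ^ 4 := by positivity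
        linarith
    have hind : Topology.IsInducing (Subtype.val :
        {q : M × ℂ // bt sp (cp q.1) = t₀ + q.2 • v ∧ ‖q.2‖ < R} → M × ℂ) :=
      Topology.IsInducing.subtypeVal
    have h1 : IsCompact ((Subtype.val : {q : M × ℂ // bt sp (cp q.1) = t₀ + q.2 • v ∧ ‖q.2‖ < R} →
        M × ℂ) ⁻¹' K) := (hind.isCompact_preimage_iff hsub).2 hKc
    have h2 : {q : Sl M sp t₀ v R | rh ρ q ≤ c} ⊆ ((Subtype.val :
        {q : M × ℂ // bt sp (cp q.1) = t₀ + q.2 • v ∧ ‖q.2‖ < R} → M × ℂ) ⁻¹' K) := by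
      intro (q : Sl M sp t₀ v R) hq
      have hq' : ρ q.pr + R ^ 4 * (R ^ 2 - ‖tc q‖ ^ 2)⁻¹ ≤ c := hq
      have hp := pos_disc q
      have h3 : 0 < R ^ 4 * (R ^ 2 - ‖tc q‖ ^ 2)⁻¹ := by positivity
      refine ⟨⟨?_, ?_⟩, q.bt_pr, q.norm_l.le, ?_⟩
      · show ρ q.pr ≤ c
        linarith
      · rw [mem_closedBall_zero_iff]
        exact q.norm_l.le
      · show R ^ 4 ≤ (c - ρ q.pr) * (R ^ 2 - ‖tc q‖ ^ 2)
        have h4 : R ^ 4 * (R ^ 2 - ‖tc q‖ ^ 2)⁻¹ ≤ c - ρ q.pr := by linarith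
        rwa [← div_eq_mul_inv, div_le_iff₀ hp] at h4
    exact IsCompact.of_isClosed_subset (X := Sl M sp t₀ v R) h1
      (isClosed_le (sm_rh hρ).continuous continuous_const) h2
  · have h0 : {q : Sl M sp t₀ v R | rh ρ q ≤ c} = ∅ := by
      rw [eq_empty_iff_forall_notMem]
      intro q _
      exact hR (lt_of_le_of_lt (norm_nonneg _) q.norm_l)
    rw [h0]
    exact isCompact_empty

/-! ### fibres -/

/-- holomorphic on the fibre over `t` of `M` -/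
def FHs {M : Type} [TopologicalSpace M] [RDom n M] (sp : Fin r ⊕ Fin d ≃ Fin n) (t : Fin r → ℂ)
    (f : M → ℂ) : Prop :=
  ∀ y : M, bt sp (cp y) = t → DifferentiableAt ℂ
    (fun x : Fin d → ℂ => f ((ch y).symm (gl sp t x))) (fx sp (cp y))

/-- integral over the fibre over `t` of `M` -/
def fs {M : Type} [TopologicalSpace M] [RDom n M] (sp : Fin r ⊕ Fin d ≃ Fin n) (g : M → ℝ≥0∞)
    (t : Fin r → ℂ) : ℝ≥0∞ :=
  ∫⁻ x : Fin d → ℂ, ∑' y : {y : M // cp y = gl sp t x}, g y.1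

lemma gl_fx {y : M} {t : Fin r → ℂ} (h : bt sp (cp y) = t) : gl sp t (fx sp (cp y)) = cp y := by
  rw [← h, gl_bt_fx]

lemma continuous_gl (t : Fin r → ℂ) : Continuous (gl sp t) := by
  refine continuous_pi fun k => ?_
  unfold gl
  rcases sp.symm k with i | j
  · exact continuous_const
  · exact continuous_apply j

lemma FHs.at {t : Fin r → ℂ} {f : M → ℂ} (hf : FHs sp t f)
    {e : OpenPartialHomeomorph M (Fin n → ℂ)} (he : IsCh e) {y : M} (hy : y ∈ e.source)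
    (hl : bt sp (cp y) = t) :
    DifferentiableAt ℂ (fun x : Fin d → ℂ => f (e.symm (gl sp t x))) (fx sp (cp y)) := by
  refine (hf y hl).congr_of_eventuallyEq ?_
  have h1 := he.germ (isCh_ch y) hy (mem_ch y)
  have h2 : Tendsto (gl sp t) (𝓝 (fx sp (cp y))) (𝓝 (cp y)) := by
    have := (continuous_gl (sp := sp) t).tendsto (fx sp (cp y))
    rwa [gl_fx hl] at this
  filter_upwards [h2.eventually h1] with u hu
  rw [hu]

lemma FHs.congr {t : Fin r → ℂ} {f g : M → ℂ} (hf : FHs sp t f)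
    (h : ∀ y, bt sp (cp y) = t → g y = f y) : FHs sp t g := by
  intro y hl
  refine (hf y hl).congr_of_eventuallyEq ?_
  have h2 : ∀ᶠ x : Fin d → ℂ in 𝓝 (fx sp (cp y)), gl sp t x ∈ (ch y).target := by
    refine (continuous_gl t).continuousAt.eventually_mem ?_
    rw [gl_fx hl]
    exact (ch y).open_target.mem_nhds ((isCh_ch y).cp_mem (mem_ch y))
  filter_upwards [h2] with u hu
  apply h
  rw [(isCh_ch y).cp_symm hu, bt_gl]

lemma FHs.const_mul {t : Fin r → ℂ} {f : M → ℂ} (c : ℂ) (hf : FHs sp t f) :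
    FHs sp t (fun y => c * f y) := fun y hl => (hf y hl).const_mul c

/-- from `M` to the slice -/
lemma FHs.toSl {l : ℂ} {f : M → ℂ} (hf : FHs sp (t₀ + l • v) f) :
    FH1 l (fun q : Sl M sp t₀ v R => f q.pr) := by
  refine FH1.of_at fun q hl => ⟨Sl.chart (ch q.pr) (isCh_ch _) q, Sl.isCh_chart _ q, mem_ch _, ?_⟩
  have hl' : q.l = l := hl
  have hq : bt sp (cp q.pr) = t₀ + l • v := by rw [q.bt_pr, hl']
  have h1 := hf q.pr hq
  rw [Sl.tail_cp]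
  refine h1.congr_of_eventuallyEq ?_
  have h2 : ∀ᶠ x : Fin d → ℂ in 𝓝 (fx sp (cp q.pr)), gl sp (t₀ + l • v) x ∈ (ch q.pr).target := by
    refine (continuous_gl _).continuousAt.eventually_mem ?_
    rw [gl_fx hq]
    exact (ch q.pr).open_target.mem_nhds ((isCh_ch _).cp_mem (mem_ch _))
  filter_upwards [h2] with x hx
  have hlR : ‖l‖ < R := by rw [← hl']; exact q.norm_l
  have h3 : Av sp t₀ v (Fin.cons l x) ∈ (ch q.pr).target ∧ ‖(Fin.cons l x : Fin (d + 1) → ℂ) 0‖ < R := by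
    refine ⟨?_, hlR⟩
    rw [Av, Fin.cons_zero, Fin.tail_cons]
    exact hx
  rw [Sl.chart_symm (isCh_ch _) q h3, Sl.pr_mk', Av, Fin.cons_zero, Fin.tail_cons]

open Classical in
/-- from the slice to `M` -/
def toM (l : ℂ) (f : Sl M sp t₀ v R → ℂ) (y : M) : ℂ :=
  if h : bt sp (cp y) = t₀ + l • v ∧ ‖l‖ < R then f (Sl.mk' y l h.1 h.2) else 0

lemma toM_pr {l : ℂ} (f : Sl M sp t₀ v R → ℂ) (q : Sl M sp t₀ v R) (hq : tc q = l) :
    toM l f q.pr = f q := by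
  have hl : q.l = l := hq
  subst hl
  unfold toM
  rw [dif_pos ⟨q.bt_pr, q.norm_l⟩]
  rfl

lemma FH1.toM {l : ℂ} (hl : ‖l‖ < R) {f : Sl M sp t₀ v R → ℂ} (hf : FH1 l f) :
    FHs sp (t₀ + l • v) (toM l f) := by
  intro y hy
  set q : Sl M sp t₀ v R := Sl.mk' y l hy hl with hq
  have h1 := hf.at (Sl.isCh_chart (isCh_ch q.pr) q) (mem_ch q.pr) (show tc q = l from rfl)
  rw [Sl.tail_cp] at h1
  refine h1.congr_of_eventuallyEq ?_
  have h2 : ∀ᶠ x : Fin d → ℂ in 𝓝 (fx sp (cp y)), gl sp (t₀ + l • v) x ∈ (ch y).target := by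
    refine (continuous_gl _).continuousAt.eventually_mem ?_
    rw [gl_fx hy]
    exact (ch y).open_target.mem_nhds ((isCh_ch _).cp_mem (mem_ch _))
  filter_upwards [h2] with x hx
  have h3 : Av sp t₀ v (Fin.cons l x) ∈ (ch q.pr).target ∧ ‖(Fin.cons l x : Fin (d + 1) → ℂ) 0‖ < R := by
    refine ⟨?_, hl⟩
    rw [Av, Fin.cons_zero, Fin.tail_cons]
    exact hx
  rw [Sl.chart_symm (isCh_ch _) q h3]
  have h4 : (Sl.mk' ((ch q.pr).symm (Av sp t₀ v (Fin.cons l x))) ((Fin.cons l x : Fin (d + 1) → ℂ) 0)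
      (Sl.compat (isCh_ch _) h3.1) h3.2 : Sl M sp t₀ v R).pr = (ch y).symm (gl sp (t₀ + l • v) x) := by
    rw [Sl.pr_mk', Av, Fin.cons_zero, Fin.tail_cons]
    rfl
  rw [← h4]
  exact toM_pr f _ rfl

/-- the fibre of the slice is the fibre of `M` -/
def fibSl {l : ℂ} (hl : ‖l‖ < R) (x : Fin d → ℂ) :
    {q : Sl M sp t₀ v R // cp q = (Fin.cons l x : Fin (d + 1) → ℂ)} ≃
      {y : M // cp y = gl sp (t₀ + l • v) x} where
  toFun q := ⟨q.1.pr, by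
    have h : Av sp t₀ v (cp q.1) = cp q.1.pr := q.1.Av_crd
    rw [← h, q.2, Av, Fin.cons_zero, Fin.tail_cons]⟩
  invFun y := ⟨Sl.mk' y.1 l (by rw [y.2, bt_gl]) hl, by
    show (Fin.cons l (fx sp (cp y.1)) : Fin (d + 1) → ℂ) = _
    rw [y.2, fx_gl]⟩
  left_inv q := by
    apply Subtype.ext
    apply Sl.ext'
    · rfl
    · have : q.1.crd 0 = l := by
        have h := q.2
        rw [Sl.cp_eq] at h
        rw [h]; rfl
      exact this.symm
  right_inv y := rfl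

/-- fibre integrals on the slice are fibre integrals on `M` -/
theorem fi_sl {l : ℂ} (hl : ‖l‖ < R) {g : Sl M sp t₀ v R → ℝ≥0∞} {G : M → ℝ≥0∞}
    (h : ∀ q, tc q = l → g q = G q.pr) : fi g l = fs sp G (t₀ + l • v) := by
  unfold fi fs
  refine lintegral_congr fun x => ?_
  unfold fsum
  rw [← (fibSl (M := M) (sp := sp) (t₀ := t₀) (v := v) hl x).tsum_eq]
  refine tsum_congr fun q => ?_
  exact h q.1 (by unfold tc; rw [q.2]; rfl)

lemma fs_congr {g h : M → ℝ≥0∞} {t : Fin r → ℂ} (H : ∀ y : M, bt sp (cp y) = t → g y = h y) :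
    fs sp g t = fs sp h t :=
  lintegral_congr fun x => tsum_congr fun y => H y.1 (by rw [y.2, bt_gl])

lemma fs_mono {g h : M → ℝ≥0∞} {t : Fin r → ℂ} (H : ∀ y : M, bt sp (cp y) = t → g y ≤ h y) :
    fs sp g t ≤ fs sp h t :=
  lintegral_mono fun x => ENNReal.tsum_le_tsum fun y => H y.1 (by rw [y.2, bt_gl])

lemma fs_const_mul {g : M → ℝ≥0∞} {t : Fin r → ℂ} {k : ℝ≥0∞} (hk : k ≠ ∞) :
    fs sp (fun y => k * g y) t = k * fs sp g t := by
  unfold fs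
  rw [← lintegral_const_mul' k _ hk]
  refine lintegral_congr fun x => ?_
  rw [ENNReal.tsum_mul_left]

/-! ### the slice as a Stein domain over the disc -/

/-- Stein data on `M`: exhaustion and decreasing smooth psh weights -/
structure SD (n : ℕ) (M : Type) [TopologicalSpace M] [RDom n M] where
  /-- exhaustion -/
  ρ : M → ℝ
  ρ_sm : Sm ρ
  ρ_cpt : ∀ c : ℝ, IsCompact {x | ρ x ≤ c}
  ρ_lev : ∀ x w, nsq w ≤ lev ρ x w
  /-- weights -/
  φ : ℕ → M → ℝ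
  φ_sm : ∀ k, Sm (φ k)
  φ_anti : ∀ x, Antitone fun k => φ k x
  φ_lev : ∀ k x w, 0 ≤ lev (φ k) x w

/-- `e^{-φ}` -/
def SD.wt (S : SD n M) (x : M) : ℝ≥0∞ := ⨆ k, ENNReal.ofReal (Real.exp (-S.φ k x))

variable [T2Space M] [SecondCountableTopology M]

variable (sp t₀ v R) in
/-- the slice as a `Dom` (helper159) -/
def SD.dom (S : SD n M) : Dom R where
  P := Sl M sp t₀ v R
  a := d
  ρ := rh S.ρ
  ρ_sm := sm_rh S.ρ_sm
  ρ_cpt := cpt_rh S.ρ_sm S.ρ_cpt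
  ρ_lev := lev_rh S.ρ_sm S.ρ_lev
  φ := fun k q => S.φ k q.pr
  φ_sm := fun k => Sl.mor.sm (S.φ_sm k)
  φ_anti := fun q => S.φ_anti q.pr
  φ_lev := fun k q w => by
    rw [Sl.mor.lev_eq (S.φ_sm k)]
    exact S.φ_lev k _ _
  tR := fun q => q.norm_l

section sec

variable {e : OpenPartialHomeomorph M (Fin n → ℂ)} (he : IsCh e) {z w : Fin n → ℂ}
  (hd : ∀ l ∈ ball (0 : ℂ) R, z + l • w ∈ e.target)

/-- the section given by the disc `z + l w` in the chart `e` -/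
def secl (l : ball (0 : ℂ) R) : Sl M sp (bt sp z) (bt sp w) R :=
  Sl.mk' (e.symm (z + (l : ℂ) • w)) l (by rw [he.cp_symm (hd l l.2)]; rfl)
    (mem_ball_zero_iff.1 l.2)

lemma cont_secl : Continuous (secl (sp := sp) he hd) := by
  refine Continuous.subtype_mk (Continuous.prodMk ?_ continuous_subtype_val) _
  have h1 := e.continuousOn_symm
  refine h1.comp_continuous ?_ fun l => hd l l.2
  exact continuous_const.add (continuous_subtype_val.smul continuous_const)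

/-- the slice through a disc, with a function holomorphic on the central fibre -/
def SD.pd (S : SD n M) (f : M → ℂ) (hf : FHs sp (bt sp z) f) : PD R where
  P := Sl M sp (bt sp z) (bt sp w) R
  a := d
  ρ := rh S.ρ
  ρ_sm := sm_rh S.ρ_sm
  ρ_cpt := cpt_rh S.ρ_sm S.ρ_cpt
  ρ_lev := lev_rh S.ρ_sm S.ρ_lev
  φ := fun k q => S.φ k q.pr
  φ_sm := fun k => Sl.mor.sm (S.φ_sm k)
  φ_anti := fun q => S.φ_anti q.pr
  φ_lev := fun k q w => by
    rw [Sl.mor.lev_eq (S.φ_sm k)]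
    exact S.φ_lev k _ _
  tR := fun q => q.norm_l
  p := secl he hd
  p_cont := cont_secl he hd
  c := Fin.cons 0 (fx sp z)
  v := Fin.cons 1 (fx sp w)
  c0 := rfl
  v0 := rfl
  p_cp := fun l => by
    show (Fin.cons (l : ℂ) (fx sp (cp (e.symm (z + (l : ℂ) • w)))) : Fin (d + 1) → ℂ) = _
    rw [he.cp_symm (hd l l.2)]
    funext i
    refine Fin.cases ?_ (fun j => ?_) i
    · simp
    · simp [fx]
  s := fun q => f q.pr
  s_hol := FHs.toSl (by rw [zero_smul, add_zero]; exact hf)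

end sec

end Crest.Agent.R276.Sl_748
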