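import Crest.Agent.R276.OTd_748
import Crest.Agent.R276.Sl_748
import Crest.Agent.R276.Jen_748
import Crest.Agent.R276.Ann_696

/-!
# Row 276, W2 (helper748): the fibrewise Bergman kernel is log plurisubharmonic

`M` a Stein Riemann domain over `ℂⁿ`, `sp : Fin r ⊕ Fin d ≃ Fin n` a splitting of the coordinates,
`S : SD n M` (exhaustion, decreasing smooth psh weights `φ_k`, `S.wt = sup_k e^{-φ_k}`).
`bE sp S y = sup |s y|²`, `s` in the unit ball of the weighted Bergman space of the fibre through `y`.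
Main theorem `lpsh_berg`: the usc regularisation of `bE` (as a real function) is `LPsh`.
-/

set_option autoImplicit false
set_option linter.unusedSectionVars false

noncomputable section

open Set Filter Topology Complex MeasureTheory Metric
open scoped ENNReal

namespace Crest.Agent.R276.Sl_748

open Crest.Agent.R271 Crest.Agent.R271.Ho51 Crest.Agent.R271.W792 Crest.Agent.R276.PV_159
open Crest.Agent.R276.P_748

variable {r d n : ℕ} {M : Type} [TopologicalSpace M] [RDom n M] {sp : Fin r ⊕ Fin d ≃ Fin n}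

/-- a piece of the fibre in a chart -/
lemma fs_ge {e : OpenPartialHomeomorph M (Fin n → ℂ)} (he : IsCh e) (g : M → ℝ≥0∞) {t : Fin r → ℂ}
    {A : Set (Fin d → ℂ)} (hA : MeasurableSet A) (h : ∀ x ∈ A, gl sp t x ∈ e.target) :
    ∫⁻ x in A, g (e.symm (gl sp t x)) ≤ fs sp g t := by
  unfold fs
  refine le_trans (setLIntegral_mono' hA fun x hx => ?_) (setLIntegral_le_lintegral _ _)
  have h1 : cp (e.symm (gl sp t x)) = gl sp t x := he.cp_symm (h x hx)
  exact ENNReal.le_tsum (f := fun y : {y : M // cp y = gl sp t x} => g y.1)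
    ⟨e.symm (gl sp t x), h1⟩

lemma dist_gl (t : Fin r → ℂ) (x y : Fin d → ℂ) : dist (gl sp t x) (gl sp t y) ≤ dist x y := by
  rw [dist_pi_le_iff dist_nonneg]
  intro k
  unfold gl
  rcases sp.symm k with i | j
  · simp
  · exact dist_le_pi_dist x y j

/-- norm of the fibre space -/
def SD.nr (sp : Fin r ⊕ Fin d ≃ Fin n) (S : SD n M) (s : M → ℂ) (t : Fin r → ℂ) : ℝ≥0∞ :=
  fs sp (fun q => ‖s q‖ₑ ^ 2 * S.wt q) t

lemma SD.nr_mul (S : SD n M) (c : ℂ) (s : M → ℂ) (t : Fin r → ℂ) :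
    S.nr sp (fun q => c * s q) t = ‖c‖ₑ ^ 2 * S.nr sp s t := by
  unfold SD.nr
  rw [← fs_const_mul (ENNReal.pow_ne_top enorm_ne_top)]
  refine fs_congr fun y _ => ?_
  rw [enorm_mul, mul_pow, mul_assoc]

/-- evaluation is locally uniformly bounded -/
lemma ev_loc (S : SD n M) (x0 : M) : ∃ K : ℝ≥0∞, K ≠ ∞ ∧ ∀ᶠ y in 𝓝 x0, ∀ s : M → ℂ,
    FHs sp (bt sp (cp y)) s → ‖s y‖ₑ ^ 2 ≤ K * S.nr sp s (bt sp (cp y)) := by
  set e := ch x0 with he0
  have he : IsCh e := isCh_ch x0
  set c : ℝ := S.φ 0 x0 + 1 with hc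
  have hO : IsOpen {y : M | S.φ 0 y < c} := isOpen_lt (S.φ_sm 0).continuous continuous_const
  have hV : IsOpen (e.target ∩ e.symm ⁻¹' {y : M | S.φ 0 y < c}) :=
    e.isOpen_inter_preimage_symm hO
  have hx0 : cp x0 ∈ e.target ∩ e.symm ⁻¹' {y : M | S.φ 0 y < c} := by
    refine ⟨he.cp_mem (mem_ch x0), ?_⟩
    show S.φ 0 (e.symm (cp x0)) < c
    rw [he.symm_cp (mem_ch x0)]
    linarith
  obtain ⟨δ', hδ', hball⟩ := Metric.isOpen_iff.1 hV _ hx0
  set δ := δ' / 2 with hδd
  have hδ : 0 < δ := by positivity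
  set V := volume (ball (0 : Fin d → ℂ) δ) with hVd
  have hV0 : V ≠ 0 := (measure_ball_pos volume _ hδ).ne'
  have hVt : V ≠ ∞ := measure_ball_lt_top.ne
  set w0 := ENNReal.ofReal (Real.exp (-c)) with hw0
  have hw00 : w0 ≠ 0 := (ENNReal.ofReal_pos.2 (Real.exp_pos _)).ne'
  refine ⟨V⁻¹ * w0⁻¹, ENNReal.mul_ne_top (ENNReal.inv_ne_top.2 hV0) (ENNReal.inv_ne_top.2 hw00), ?_⟩
  have h1 : ∀ᶠ y in 𝓝 x0, y ∈ e.source := e.open_source.mem_nhds (mem_ch x0)
  have h2 : ∀ᶠ y in 𝓝 x0, cp y ∈ ball (cp x0) δ :=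
    cp_cont.continuousAt.eventually_mem (ball_mem_nhds _ hδ)
  filter_upwards [h1, h2] with y hy1 hy2 s hs
  set t := bt sp (cp y) with ht
  have hin : ∀ x ∈ ball (fx sp (cp y)) δ, gl sp t x ∈ e.target ∧
      S.φ 0 (e.symm (gl sp t x)) < c := by
    intro x hx
    apply hball
    rw [mem_ball] at hx hy2 ⊢
    have h3 : dist (gl sp t x) (cp y) ≤ dist x (fx sp (cp y)) := by
      have := dist_gl (sp := sp) t x (fx sp (cp y))
      rwa [gl_fx rfl] at this
    calc dist (gl sp t x) (cp x0) ≤ dist (gl sp t x) (cp y) + dist (cp y) (cp x0) :=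
          dist_triangle _ _ _
      _ < δ + δ := by linarith
      _ = δ' := by rw [hδd]; ring
  have hdiff : DifferentiableOn ℂ (fun x => s (e.symm (gl sp t x))) (ball (fx sp (cp y)) δ) := by
    intro x hx
    have h3 := (hin x hx).1
    have h4 := hs.at he (e.map_target h3) (by rw [he.cp_symm h3, bt_gl])
    rw [he.cp_symm h3, fx_gl] at h4
    exact h4.differentiableWithinAt
  have h5 := Montel868.enorm_sq_mul_le hδ hdiff
  have h6 : s (e.symm (gl sp t (fx sp (cp y)))) = s y := by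
    rw [gl_fx rfl, he.symm_cp hy1]
  rw [h6] at h5
  have h7 : w0 * ∫⁻ x in ball (fx sp (cp y)) δ, ‖s (e.symm (gl sp t x))‖ₑ ^ 2 ≤ S.nr sp s t := by
    rw [← lintegral_const_mul' _ _ ENNReal.ofReal_ne_top]
    refine le_trans ?_ (fs_ge he _ measurableSet_ball fun x hx => (hin x hx).1)
    refine setLIntegral_mono' measurableSet_ball fun x hx => ?_
    rw [mul_comm]
    gcongr
    refine le_trans ?_ (le_iSup _ 0)
    apply ENNReal.ofReal_le_ofReal
    apply Real.exp_le_exp.2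
    have := (hin x hx).2
    linarith
  have h8 : w0 ≠ ∞ := ENNReal.ofReal_ne_top
  calc ‖s y‖ₑ ^ 2 = V⁻¹ * w0⁻¹ * (w0 * (‖s y‖ₑ ^ 2 * V)) := by
        rw [show V⁻¹ * w0⁻¹ * (w0 * (‖s y‖ₑ ^ 2 * V)) = (V⁻¹ * V) * (w0⁻¹ * w0) * ‖s y‖ₑ ^ 2 by ring,
          ENNReal.inv_mul_cancel hV0 hVt, ENNReal.inv_mul_cancel hw00 h8, one_mul, one_mul]
    _ ≤ V⁻¹ * w0⁻¹ * (w0 * ∫⁻ x in ball (fx sp (cp y)) δ, ‖s (e.symm (gl sp t x))‖ₑ ^ 2) := by
        gcongr
    _ ≤ V⁻¹ * w0⁻¹ * S.nr sp s t := by gcongr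

/-- the Bergman kernel of the fibre through `y` -/
def bE (sp : Fin r ⊕ Fin d ≃ Fin n) (S : SD n M) (y : M) : ℝ≥0∞ :=
  ⨆ s : {s : M → ℂ // FHs sp (bt sp (cp y)) s ∧ S.nr sp s (bt sp (cp y)) ≤ 1}, ‖s.1 y‖ₑ ^ 2

lemma bE_loc (S : SD n M) (x0 : M) : ∃ K : ℝ≥0∞, K ≠ ∞ ∧ ∀ᶠ y in 𝓝 x0, bE sp S y ≤ K := by
  obtain ⟨K, hK, h⟩ := ev_loc (sp := sp) S x0
  refine ⟨K, hK, h.mono fun y hy => ?_⟩
  refine iSup_le fun s => (hy s.1 s.2.1).trans ?_
  calc K * S.nr sp s.1 (bt sp (cp y)) ≤ K * 1 := by gcongr; exact s.2.2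
    _ = K := mul_one K

lemma bE_ne_top (S : SD n M) (y : M) : bE sp S y ≠ ∞ := by
  obtain ⟨K, hK, h⟩ := bE_loc (sp := sp) S y
  exact ne_top_of_le_ne_top hK h.self_of_nhds

/-- a function of norm zero vanishes -/
lemma berg_zero (S : SD n M) {y : M} {s : M → ℂ} (hs : FHs sp (bt sp (cp y)) s)
    (h0 : S.nr sp s (bt sp (cp y)) = 0) : ‖s y‖ₑ ^ 2 = 0 := by
  obtain ⟨K, hK, h⟩ := ev_loc (sp := sp) S y
  have := h.self_of_nhds s hs
  rw [h0, mul_zero] at this
  exact le_antisymm this zero_le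

/-- **Bergman inequality** for finite norm -/
lemma berg' (S : SD n M) {y : M} {s : M → ℂ} (hs : FHs sp (bt sp (cp y)) s)
    (hN : S.nr sp s (bt sp (cp y)) ≠ ∞) :
    ‖s y‖ₑ ^ 2 ≤ bE sp S y * S.nr sp s (bt sp (cp y)) := by
  set N := S.nr sp s (bt sp (cp y)) with hNd
  by_cases h0 : N = 0
  · rw [berg_zero S hs h0]
    exact zero_le
  · have hNr : 0 < N.toReal := ENNReal.toReal_pos h0 hN
    set c : ℂ := (((Real.sqrt N.toReal)⁻¹ : ℝ) : ℂ) with hc
    have hcn : ‖c‖ₑ ^ 2 = N⁻¹ := by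
      have h1 : ‖c‖ₑ ^ 2 = ENNReal.ofReal (‖c‖ ^ 2) := by
        rw [← ofReal_norm, ENNReal.ofReal_pow (norm_nonneg _)]
      rw [h1, hc, Complex.norm_real, Real.norm_eq_abs, sq_abs, inv_pow, Real.sq_sqrt hNr.le,
        ENNReal.ofReal_inv_of_pos hNr, ENNReal.ofReal_toReal hN]
    have h2 : S.nr sp (fun q => c * s q) (bt sp (cp y)) ≤ 1 := by
      rw [S.nr_mul, hcn]
      exact (ENNReal.inv_mul_cancel h0 hN).le
    have h3 : ‖c * s y‖ₑ ^ 2 ≤ bE sp S y :=
      le_iSup (fun s : {s : M → ℂ // FHs sp (bt sp (cp y)) s ∧ S.nr sp s (bt sp (cp y)) ≤ 1} =>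
        ‖s.1 y‖ₑ ^ 2) ⟨fun q => c * s q, hs.const_mul c, h2⟩
    rw [enorm_mul, mul_pow, hcn] at h3
    calc ‖s y‖ₑ ^ 2 = N⁻¹ * ‖s y‖ₑ ^ 2 * N := by
          rw [mul_right_comm, ENNReal.inv_mul_cancel h0 hN, one_mul]
      _ ≤ bE sp S y * N := by gcongr

/-- **Bergman inequality** -/
lemma berg (S : SD n M) {y : M} {s : M → ℂ} (hs : FHs sp (bt sp (cp y)) s) {B : ℝ≥0∞}
    (hB : bE sp S y ≤ B) (hB0 : B ≠ 0) :
    ‖s y‖ₑ ^ 2 ≤ B * S.nr sp s (bt sp (cp y)) := by
  by_cases hN : S.nr sp s (bt sp (cp y)) = ∞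
  · rw [hN, ENNReal.mul_top hB0]
    exact le_top
  · exact (berg' S hs hN).trans (by gcongr)

/-- real form of the Bergman kernel -/
def bR (sp : Fin r ⊕ Fin d ≃ Fin n) (S : SD n M) (y : M) : ℝ := (bE sp S y).toReal

lemma bR_nonneg (S : SD n M) (y : M) : 0 ≤ bR sp S y := ENNReal.toReal_nonneg

lemma ofReal_bR (S : SD n M) (y : M) : ENNReal.ofReal (bR sp S y) = bE sp S y :=
  ENNReal.ofReal_toReal (bE_ne_top S y)

lemma bR_loc (S : SD n M) (x0 : M) : ∃ K : ℝ, ∀ᶠ y in 𝓝 x0, bR sp S y ≤ K := by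
  obtain ⟨K, hK, h⟩ := bE_loc (sp := sp) S x0
  exact ⟨K.toReal, h.mono fun y hy => ENNReal.toReal_mono hK hy⟩

/-- the fibre norm on the slice -/
lemma pd_nrm [T2Space M] [SecondCountableTopology M] (S : SD n M) {R : ℝ}
    {e : OpenPartialHomeomorph M (Fin n → ℂ)} (he : IsCh e) {z w : Fin n → ℂ}
    (hd : ∀ l ∈ ball (0 : ℂ) R, z + l • w ∈ e.target) (f : M → ℂ) (hf : FHs sp (bt sp z) f)
    {l : ℂ} (hl : ‖l‖ < R) {g : (S.pd he hd f hf).P → ℂ} {G : M → ℂ}
    (h : ∀ q : Sl M sp (bt sp z) (bt sp w) R, tc q = l → g q = G q.pr) :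
    (S.pd he hd f hf).nrm g l = S.nr sp G (bt sp z + l • bt sp w) := by
  unfold PD.nrm SD.nr
  refine fi_sl hl fun q hq => ?_
  show ‖g q‖ₑ ^ 2 * _ = ‖G q.pr‖ₑ ^ 2 * _
  rw [h q hq]
  rfl

/-- sub-mean value property -/
lemma berg_circ [T2Space M] [SecondCountableTopology M] (S : SD n M) {R : ℝ} (hR : 1 < R)
    {e : OpenPartialHomeomorph M (Fin n → ℂ)} (he : IsCh e) {z w : Fin n → ℂ}
    (hd : ∀ l ∈ ball (0 : ℂ) R, z + l • w ∈ e.target) {β : ℂ → ℝ} (hβ0 : ∀ l, 0 ≤ β l)
    (hβ : UpperSemicontinuousOn β (ball 0 R))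
    (hβb : ∀ l ∈ ball (0 : ℂ) R, bR sp S (e.symm (z + l • w)) < β l) {δ : ℝ} (hδ : 0 < δ) :
    Real.log (bR sp S (e.symm z) + δ) ≤ Real.circleAverage (fun w => Real.log (β w + δ)) 0 1 := by
  have hR0 : 0 < R := by linarith
  have hz : z ∈ e.target := by simpa using hd 0 (mem_ball_self hR0)
  have hcpz : cp (e.symm z) = z := he.cp_symm hz
  set A := Real.circleAverage (fun w => Real.log (β w + δ)) 0 1 with hA
  -- for every function in the unit ball
  have key : ∀ s : M → ℂ, FHs sp (bt sp z) s → S.nr sp s (bt sp z) ≤ 1 →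
      Real.log (‖s (e.symm z)‖ ^ 2 + δ) ≤ A := by
    intro s hs hN
    set D := S.pd he hd s hs with hD
    have hBI : D.BI (fun l => ENNReal.ofReal (β l)) := by
      intro l f hf
      have hl : ‖(l : ℂ)‖ < R := mem_ball_zero_iff.1 l.2
      have h1 := FH1.toM hl hf
      have hy : bt sp (cp (e.symm (z + (l : ℂ) • w))) = bt sp z + (l : ℂ) • bt sp w := by
        rw [he.cp_symm (hd l l.2)]; rfl
      have h2 := berg S (sp := sp) (y := e.symm (z + (l : ℂ) • w)) (s := toM (l : ℂ) f)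
        (by rw [hy]; exact h1) (B := ENNReal.ofReal (β l)) (by
          rw [← ofReal_bR]
          exact ENNReal.ofReal_le_ofReal (hβb l l.2).le)
        (ENNReal.ofReal_pos.2 (lt_of_le_of_lt (bR_nonneg _ _) (hβb l l.2))).ne'
      rw [hy] at h2
      have h3 : D.nrm f l = S.nr sp (toM (l : ℂ) f) (bt sp z + (l : ℂ) • bt sp w) :=
        pd_nrm S he hd s hs hl fun q hq => (toM_pr f q hq).symm
      have h4 : f (D.p l) = toM (l : ℂ) f (e.symm (z + (l : ℂ) • w)) :=
        (toM_pr (l := (l : ℂ)) f (secl he hd l) rfl).symm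
      rw [h3, h4]
      exact h2
    have hN' : D.nrm D.s 0 ≤ 1 := by
      have h3 : D.nrm D.s 0 = S.nr sp s (bt sp z + (0 : ℂ) • bt sp w) :=
        pd_nrm S he hd s hs (by simpa using hR0) fun q _ => rfl
      rw [h3, zero_smul, add_zero]
      exact hN
    obtain ⟨C, hC, H⟩ := PD.tensor (ots hR0) (fun l => ENNReal.ofReal_ne_top) hBI hR0 hN'
    have h5 := Jen_748.circ hR hβ0 hβ hC hδ H
    have h6 : D.s (D.p ⟨0, mem_ball_self hR0⟩) = s (e.symm z) := by
      show s (e.symm (z + (0 : ℂ) • w)) = _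
      rw [zero_smul, add_zero]
    rw [h6] at h5
    exact h5
  have h7 : bE sp S (e.symm z) ≤ ENNReal.ofReal (Real.exp A - δ) := by
    refine iSup_le fun s => ?_
    obtain ⟨s, hs1, hs2⟩ := s
    rw [hcpz] at hs1 hs2
    have h8 := key s hs1 hs2
    have h9 : ‖s (e.symm z)‖ ^ 2 + δ ≤ Real.exp A := by
      rw [← Real.log_le_iff_le_exp (by positivity)]
      exact h8
    show ‖s (e.symm z)‖ₑ ^ 2 ≤ _
    rw [← ofReal_norm, ← ENNReal.ofReal_pow (norm_nonneg _)]
    exact ENNReal.ofReal_le_ofReal (by linarith)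
  have h0 : δ ≤ Real.exp A := by
    have h8 := key (fun _ => 0) (fun y _ => differentiableAt_const _) (by
      unfold SD.nr
      have : (fun q : M => ‖(0 : ℂ)‖ₑ ^ 2 * S.wt q) = fun q => 0 := by
        funext q; simp
      rw [this]
      simp [fs])
    rw [Real.log_le_iff_le_exp (by positivity)] at h8
    simpa using h8
  have h10 : bR sp S (e.symm z) ≤ Real.exp A - δ := by
    unfold bR
    refine (ENNReal.toReal_mono ENNReal.ofReal_ne_top h7).trans ?_
    rw [ENNReal.toReal_ofReal (by linarith)]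
  have hb := bR_nonneg (sp := sp) S (e.symm z)
  rw [Real.log_le_iff_le_exp (by linarith)]
  linarith

open Crest.Agent.R275.FL606 Crest.Agent.R273.Reg_844 Crest.Agent.R276.EngU_29 in
/-- **the fibrewise Bergman kernel is log psh** -/
theorem lpsh_berg [T2Space M] [SecondCountableTopology M] (S : SD n M) :
    LPsh (ush (bR sp S)) := by
  have h0 : ∀ x, 0 ≤ bR sp S x := bR_nonneg S
  have hbL : LocB (bR sp S) := fun x => by
    obtain ⟨K, hK⟩ := bR_loc (sp := sp) S x
    refine ⟨|K|, hK.mono fun y hy => ?_⟩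
    rw [abs_of_nonneg (h0 y)]
    exact hy.trans (le_abs_self K)
  refine ⟨fun x => (h0 x).trans (hbL.le_ush x), fun δ hδ => ?_⟩
  have hS : LocB fun y => Real.log (bR sp S y + δ) := by
    intro y
    obtain ⟨K, hK⟩ := hbL y
    refine ⟨|Real.log δ| + |Real.log (K + δ)|, hK.mono fun w hw => ?_⟩
    have h1 := (abs_le.1 hw).2
    have h2 : Real.log δ ≤ Real.log (bR sp S w + δ) :=
      Real.log_le_log hδ (by have := h0 w; linarith)
    have h3 : Real.log (bR sp S w + δ) ≤ Real.log (K + δ) :=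
      Real.log_le_log (by have := h0 w; linarith) (by linarith)
    rw [abs_le]
    constructor
    · have := neg_abs_le (Real.log δ)
      have := abs_nonneg (Real.log (K + δ))
      linarith
    · have := le_abs_self (Real.log (K + δ))
      have := abs_nonneg (Real.log δ)
      linarith
  have hSub : SubM fun y => Real.log (bR sp S y + δ) := by
    intro U hU1 hU2 hle e he z v hd
    obtain ⟨R, hR, hdR⟩ := Ann_696.exists_R hd
    have hdR' : ∀ l ∈ ball (0 : ℂ) R, z + l • v ∈ e.target := fun l hl =>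
      hdR l (mem_ball_zero_iff.1 hl)
    have key : ∀ η : ℝ, 0 < η → η < δ →
        Real.log (bR sp S (e.symm z) + (δ - η)) ≤ av (U ∘ e.symm) z v := by
      intro η hη hηδ
      have hpos : ∀ x, bR sp S x + η ≤ Real.exp (U x) - δ + η := by
        intro x
        have h1 : 0 < bR sp S x + δ := by have := h0 x; linarith
        have h2 : bR sp S x + δ ≤ Real.exp (U x) := by
          rw [← Real.exp_log h1]; exact Real.exp_le_exp.2 (hle x)
        linarith
      have hpos' : ∀ x, 0 ≤ Real.exp (U x) - δ + η := fun x => by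
        have := hpos x
        have := h0 x
        linarith
      set G : ℝ → ℝ := fun s => max (Real.exp s - δ + η) 0 with hG
      have hGc : Continuous G := by fun_prop
      have hGm : Monotone G := by
        intro s s' hs
        apply max_le_max _ le_rfl
        have := Real.exp_le_exp.2 hs
        linarith
      have hGU : UpperSemicontinuous (fun x => G (U x)) := hGc.comp_upperSemicontinuous hU1 hGm
      have hβ : UpperSemicontinuousOn (fun l : ℂ => G (U (e.symm (z + l • v)))) (ball 0 R) := by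
        intro l hl c hc
        have h1 : ∀ᶠ x in 𝓝 (e.symm (z + l • v)), G (U x) < c := hGU _ c hc
        have h2 : ContinuousAt (fun l : ℂ => e.symm (z + l • v)) l := by
          have h3 : ContinuousAt e.symm (z + l • v) :=
            e.continuousOn_symm.continuousAt (e.open_target.mem_nhds (hdR' l hl))
          exact ContinuousAt.comp (f := fun l : ℂ => z + l • v) h3 (by fun_prop)
        exact (h2.eventually h1).filter_mono nhdsWithin_le_nhds
      have h1 := berg_circ S hR he hdR' (β := fun l : ℂ => G (U (e.symm (z + l • v))))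
        (fun l => le_max_right _ _) hβ (fun l hl => by
          show _ < max _ _
          rw [max_eq_left (hpos' _)]
          have := hpos (e.symm (z + l • v))
          linarith) (sub_pos.2 hηδ)
      refine h1.trans (le_of_eq ?_)
      rw [av_eq_circleAverage]
      congr 1
      funext l
      show Real.log (max _ _ + (δ - η)) = U (e.symm (z + l • v))
      rw [max_eq_left (hpos' _), show Real.exp (U (e.symm (z + l • v))) - δ + η + (δ - η) =
        Real.exp (U (e.symm (z + l • v))) by ring, Real.log_exp]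
    have hcont : ContinuousWithinAt (fun η : ℝ => Real.log (bR sp S (e.symm z) + (δ - η)))
        (Ioo 0 δ) 0 := by
      apply ContinuousAt.continuousWithinAt
      refine ContinuousAt.log (by fun_prop) ?_
      have := h0 (e.symm z)
      simp
      linarith
    have hne : (𝓝[Ioo 0 δ] (0 : ℝ)).NeBot := by
      apply mem_closure_iff_nhdsWithin_neBot.1
      rw [closure_Ioo hδ.ne]
      exact ⟨le_rfl, hδ.le⟩
    have h7 := le_of_tendsto hcont.tendsto (b := av (U ∘ e.symm) z v) (by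
      filter_upwards [self_mem_nhdsWithin] with η hη
      exact key η hη.1 hη.2)
    simpa using h7
  have h8 := hSub.psh_ush hS
  have h9 : ush (fun y => Real.log (bR sp S y + δ)) = fun x => Real.log (ush (bR sp S) x + δ) := by
    funext x
    exact Ann_696.ush_log h0 hbL hδ x
  rwa [h9] at h8

end Crest.Agent.R276.Sl_748
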