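import Mathlib

/-!
# Row 276, FK5 (post 1033 (W2)(b),(b')): the Iitaka field, abstract part

`K/k` a field extension, `VV` a set of valuation rings of `K` containing `k`, and for every `R` a
nonempty set `J R ⊆ K` of "Jacobians" (local generators of the dual of the canonical line up to
units: `J R = {jac b y | y : Fin n → R}`).

* `RegJ J m g R` : `g`, as a rational section of the `m`-th power, is regular at `R`.
* `HH VV J m` : global sections (regular at every `R ∈ VV`).
* `TT` : the Iitaka field, ratios of sections of the same degree.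
* `isAlgebraic_mem_TT` : `TT` is algebraically closed in `K`.
* `ratio_mem_TT` : if `g₁, g₂` are regular of degree `m` at all `R ∈ VV` containing `TT` and at all
  but finitely many `R ∈ VV`, then `g₁ / g₂ ∈ TT` (for rank one `R`).
* `exists_indep_sections` : a tuple of elements of `TT` is `s i / s₀` with sections of one positive
  degree.
-/

set_option autoImplicit false

noncomputable section

namespace Crest.Agent.R276.FKI_849

variable {k K : Type*} [Field k] [Field K] [Algebra k K]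

/-- `g` is a regular section of degree `m` at `R`: `v_R g ≤ (v_R j) ^ m` for some Jacobian `j`. -/
def RegJ (J : ValuationSubring K → Set K) (m : ℕ) (g : K) (R : ValuationSubring K) : Prop :=
  ∃ j ∈ J R, R.valuation g ≤ R.valuation j ^ m

section RegJ
variable {J : ValuationSubring K → Set K} {R : ValuationSubring K}

lemma RegJ.zero (hJ : (J R).Nonempty) (m : ℕ) : RegJ J m 0 R := by
  obtain ⟨j, hj⟩ := hJ
  exact ⟨j, hj, by simp⟩

lemma RegJ.add {m : ℕ} {f g : K} (hf : RegJ J m f R) (hg : RegJ J m g R) : RegJ J m (f + g) R := by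
  obtain ⟨i, hi, hi'⟩ := hf
  obtain ⟨j, hj, hj'⟩ := hg
  rcases le_total (R.valuation i) (R.valuation j) with h | h
  · exact ⟨j, hj, (R.valuation.map_add f g).trans
      (max_le (hi'.trans (pow_le_pow_left' h m)) hj')⟩
  · exact ⟨i, hi, (R.valuation.map_add f g).trans
      (max_le hi' (hj'.trans (pow_le_pow_left' h m)))⟩

lemma RegJ.mul {m l : ℕ} {f g : K} (hf : RegJ J m f R) (hg : RegJ J l g R) :
    RegJ J (m + l) (f * g) R := by
  obtain ⟨i, hi, hi'⟩ := hf
  obtain ⟨j, hj, hj'⟩ := hg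
  rcases le_total (R.valuation i) (R.valuation j) with h | h
  · refine ⟨j, hj, ?_⟩
    rw [map_mul, pow_add]
    exact mul_le_mul' (hi'.trans (pow_le_pow_left' h m)) hj'
  · refine ⟨i, hi, ?_⟩
    rw [map_mul, pow_add]
    exact mul_le_mul' hi' (hj'.trans (pow_le_pow_left' h l))

lemma RegJ.one (hJ : (J R).Nonempty) : RegJ J 0 1 R := by
  obtain ⟨j, hj⟩ := hJ
  exact ⟨j, hj, by simp⟩

lemma RegJ.of_mem (hJ : (J R).Nonempty) {c : K} (hc : c ∈ R) : RegJ J 0 c R := by
  obtain ⟨j, hj⟩ := hJ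
  exact ⟨j, hj, by simpa using (R.valuation_le_one_iff c).2 hc⟩

lemma RegJ.pow {m : ℕ} {f : K} (hf : RegJ J m f R) (r : ℕ) : RegJ J (m * r) (f ^ r) R := by
  obtain ⟨j, hj, hj'⟩ := hf
  refine ⟨j, hj, ?_⟩
  rw [map_pow, pow_mul]
  exact pow_le_pow_left' hj' r

lemma RegJ.neg {m : ℕ} {f : K} (hf : RegJ J m f R) : RegJ J m (-f) R := by
  obtain ⟨j, hj, hj'⟩ := hf
  exact ⟨j, hj, by rwa [Valuation.map_neg]⟩

/-- the same Jacobian can be used for finitely many elements -/
lemma RegJ.exists_common {ι : Type*} (s : Finset ι) (f : ι → K) {m : ℕ} (hJ : (J R).Nonempty)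
    (hf : ∀ i ∈ s, RegJ J m (f i) R) :
    ∃ j ∈ J R, ∀ i ∈ s, R.valuation (f i) ≤ R.valuation j ^ m := by
  classical
  induction s using Finset.induction_on with
  | empty => obtain ⟨j, hj⟩ := hJ; exact ⟨j, hj, by simp⟩
  | insert a s ha ih =>
    obtain ⟨j, hj, h⟩ := ih (fun i hi => hf i (Finset.mem_insert_of_mem hi))
    obtain ⟨j', hj', h'⟩ := hf a (Finset.mem_insert_self a s)
    rcases le_total (R.valuation j) (R.valuation j') with hle | hle
    · refine ⟨j', hj', fun i hi => ?_⟩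
      rcases Finset.mem_insert.1 hi with rfl | hi
      · exact h'
      · exact (h i hi).trans (pow_le_pow_left' hle m)
    · refine ⟨j, hj, fun i hi => ?_⟩
      rcases Finset.mem_insert.1 hi with rfl | hi
      · exact h'.trans (pow_le_pow_left' hle m)
      · exact h i hi

end RegJ

/-- A system: valuation rings containing `k`, nonempty sets of Jacobians. -/
structure Sys (k K : Type*) [Field k] [Field K] [Algebra k K] where
  /-- the valuation rings -/
  VV : Set (ValuationSubring K)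
  /-- the Jacobians -/
  J : ValuationSubring K → Set K
  nz : ∀ R ∈ VV, ∃ j ∈ J R, j ≠ 0
  base : ∀ R ∈ VV, ∀ c : k, algebraMap k K c ∈ R

namespace Sys

variable (S : Sys k K)

lemma ne (R : ValuationSubring K) (hR : R ∈ S.VV) : (S.J R).Nonempty := by
  obtain ⟨j, hj, _⟩ := S.nz R hR
  exact ⟨j, hj⟩

/-- Global sections of degree `m`. -/
def HH (m : ℕ) : Submodule k K where
  carrier := {g | ∀ R ∈ S.VV, RegJ S.J m g R}
  zero_mem' := fun R hR => RegJ.zero (S.ne R hR) m
  add_mem' := fun hf hg R hR => (hf R hR).add (hg R hR)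
  smul_mem' := fun c f hf R hR => by
    have := (RegJ.of_mem (S.ne R hR) (S.base R hR c)).mul (hf R hR)
    rwa [Nat.zero_add, ← Algebra.smul_def] at this

lemma mem_HH {m : ℕ} {g : K} : g ∈ S.HH m ↔ ∀ R ∈ S.VV, RegJ S.J m g R := Iff.rfl

lemma one_mem : (1 : K) ∈ S.HH 0 := fun R hR => RegJ.one (S.ne R hR)

lemma algebraMap_mem (c : k) : algebraMap k K c ∈ S.HH 0 :=
  fun R hR => RegJ.of_mem (S.ne R hR) (S.base R hR c)

lemma mul_mem {m l : ℕ} {f g : K} (hf : f ∈ S.HH m) (hg : g ∈ S.HH l) : f * g ∈ S.HH (m + l) :=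
  fun R hR => (hf R hR).mul (hg R hR)

lemma pow_mem {m : ℕ} {f : K} (hf : f ∈ S.HH m) (r : ℕ) : f ^ r ∈ S.HH (m * r) :=
  fun R hR => (hf R hR).pow r

/-- The Iitaka field: ratios of sections of the same degree. -/
def TT : IntermediateField k K where
  carrier := {x | ∃ m : ℕ, ∃ s ∈ S.HH m, ∃ s' ∈ S.HH m, s' ≠ 0 ∧ x = s / s'}
  mul_mem' := by
    rintro x y ⟨m, s, hs, s', hs', h0, rfl⟩ ⟨l, t, ht, t', ht', h0', rfl⟩
    exact ⟨m + l, s * t, S.mul_mem hs ht, s' * t', S.mul_mem hs' ht', mul_ne_zero h0 h0',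
      by rw [div_mul_div_comm]⟩
  add_mem' := by
    rintro x y ⟨m, s, hs, s', hs', h0, rfl⟩ ⟨l, t, ht, t', ht', h0', rfl⟩
    refine ⟨m + l, s * t' + s' * t, (S.HH (m + l)).add_mem (S.mul_mem hs ht') (S.mul_mem hs' ht),
      s' * t', S.mul_mem hs' ht', mul_ne_zero h0 h0', ?_⟩
    rw [div_add_div _ _ h0 h0']
  algebraMap_mem' := fun c =>
    ⟨0, algebraMap k K c, S.algebraMap_mem c, 1, S.one_mem, one_ne_zero, by simp⟩
  inv_mem' := by
    rintro x ⟨m, s, hs, s', hs', h0, rfl⟩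
    by_cases h : s = 0
    · subst h
      exact ⟨0, 0, (S.HH 0).zero_mem, 1, S.one_mem, one_ne_zero, by simp⟩
    · exact ⟨m, s', hs', s, hs, h, by rw [inv_div]⟩

lemma mem_TT {x : K} : x ∈ S.TT ↔
    ∃ m : ℕ, ∃ s ∈ S.HH m, ∃ s' ∈ S.HH m, s' ≠ 0 ∧ x = s / s' := Iff.rfl

lemma div_mem_TT {m : ℕ} {s s' : K} (hs : s ∈ S.HH m) (hs' : s' ∈ S.HH m) : s / s' ∈ S.TT := by
  by_cases h : s' = 0
  · subst h; simp
  · exact ⟨m, s, hs, s', hs', h, rfl⟩

/-- Common denominators. -/
lemma exists_den {ι : Type*} (s : Finset ι) (a : ι → K) (ha : ∀ i ∈ s, a i ∈ S.TT) :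
    ∃ m : ℕ, ∃ q ∈ S.HH m, q ≠ 0 ∧ ∀ i ∈ s, a i * q ∈ S.HH m := by
  classical
  induction s using Finset.induction_on with
  | empty => exact ⟨0, 1, S.one_mem, one_ne_zero, by simp⟩
  | insert c s hc ih =>
    obtain ⟨m, q, hq, hq0, h⟩ := ih (fun i hi => ha i (Finset.mem_insert_of_mem hi))
    obtain ⟨l, p, hp, p', hp', hp0, hap⟩ := ha c (Finset.mem_insert_self c s)
    refine ⟨m + l, q * p', S.mul_mem hq hp', mul_ne_zero hq0 hp0, fun i hi => ?_⟩
    rcases Finset.mem_insert.1 hi with rfl | hi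
    · have : a i * (q * p') = q * p := by rw [hap]; field_simp
      rw [this]; exact S.mul_mem hq hp
    · rw [← mul_assoc]; exact S.mul_mem (h i hi) hp'

/-- Common denominators of positive degree, if there is a nonzero section of positive degree. -/
lemma exists_den_pos {ι : Type*} (s : Finset ι) (a : ι → K) (ha : ∀ i ∈ s, a i ∈ S.TT)
    {m₀ : ℕ} (hm₀ : 0 < m₀) {f₀ : K} (hf₀ : f₀ ∈ S.HH m₀) (hf₀' : f₀ ≠ 0) :
    ∃ m : ℕ, 0 < m ∧ ∃ q ∈ S.HH m, q ≠ 0 ∧ ∀ i ∈ s, a i * q ∈ S.HH m := by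
  obtain ⟨m, q, hq, hq0, h⟩ := S.exists_den s a ha
  refine ⟨m + m₀, by omega, q * f₀, S.mul_mem hq hf₀, mul_ne_zero hq0 hf₀', fun i hi => ?_⟩
  rw [← mul_assoc]; exact S.mul_mem (h i hi) hf₀

/-- `TT` is algebraically closed in `K`. -/
theorem mem_TT_of_isAlgebraic {u : K} (hu : IsAlgebraic S.TT u) : u ∈ S.TT := by
  classical
  have hint : IsIntegral S.TT u := hu.isIntegral
  set p := minpoly S.TT u with hp
  have hmonic : p.Monic := minpoly.monic hint
  have hroot : Polynomial.aeval u p = 0 := minpoly.aeval _ _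
  set r := p.natDegree with hr
  have hr0 : 0 < r := minpoly.natDegree_pos hint
  obtain ⟨m, q, hq, hq0, h⟩ := S.exists_den (Finset.range r) (fun i => (p.coeff i : K))
    (fun i _ => (p.coeff i).2)
  -- the relation `u ^ r = - Σ_{i<r} a_i u^i`
  have hrel : u ^ r = - ∑ i ∈ Finset.range r, (p.coeff i : K) * u ^ i := by
    have h1 := hroot
    rw [Polynomial.aeval_eq_sum_range, Finset.sum_range_succ, ← hr] at h1
    have hlc : p.coeff r = 1 := by rw [hr]; exact hmonic.coeff_natDegree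
    rw [hlc, one_smul] at h1
    have h2 : (∑ i ∈ Finset.range r, p.coeff i • u ^ i) =
        ∑ i ∈ Finset.range r, (p.coeff i : K) * u ^ i :=
      Finset.sum_congr rfl fun i _ => by rw [Algebra.smul_def]; rfl
    rw [h2] at h1
    exact eq_neg_of_add_eq_zero_right h1
  have key : u * q ∈ S.HH m := by
    intro R hR
    set v := R.valuation with hv
    obtain ⟨j, hj, hjj⟩ := RegJ.exists_common (J := S.J) (R := R)
      (Finset.range (r + 1)) (fun i => if i = r then q else (p.coeff i : K) * q) (m := m)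
      (S.ne R hR) (fun i hi => by
        by_cases hir : i = r
        · simp only [hir, if_true]; exact hq R hR
        · simp only [if_neg hir]
          exact h i (Finset.mem_range.2 (by
            have := Finset.mem_range.1 hi; omega)) R hR)
    have hjq : v q ≤ v j ^ m := by
      have := hjj r (Finset.mem_range.2 (Nat.lt_succ_self r)); simpa using this
    have hja : ∀ i ∈ Finset.range r, v ((p.coeff i : K) * q) ≤ v j ^ m := fun i hi => by
      have hi' := Finset.mem_range.1 hi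
      have := hjj i (Finset.mem_range.2 (by omega))
      simpa [hi'.ne] using this
    refine ⟨j, hj, ?_⟩
    rcases le_total (v u) 1 with hu1 | hu1
    · rw [map_mul]
      calc v u * v q ≤ 1 * v q := mul_le_mul' hu1 le_rfl
        _ = v q := one_mul _
        _ ≤ v j ^ m := hjq
    · have hune : v u ≠ 0 := fun h0 => by rw [h0] at hu1; exact absurd hu1 (by simp)
      have h3 : v (u ^ r * q) ≤ v j ^ m * v u ^ (r - 1) := by
        rw [hrel, neg_mul, Valuation.map_neg, Finset.sum_mul]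
        refine Valuation.map_sum_le v fun i hi => ?_
        have hi' := Finset.mem_range.1 hi
        have : (p.coeff i : K) * u ^ i * q = ((p.coeff i : K) * q) * u ^ i := by ring
        rw [this, map_mul, map_pow]
        exact mul_le_mul' (hja i hi) (pow_le_pow_right₀ hu1 (by omega))
      have h4 : v (u * q) * v u ^ (r - 1) ≤ v j ^ m * v u ^ (r - 1) := by
        have : v (u ^ r * q) = v (u * q) * v u ^ (r - 1) := by
          rw [← map_pow, ← map_mul]
          congr 1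
          obtain ⟨r', hr'⟩ : ∃ r', r = r' + 1 := ⟨r - 1, by omega⟩
          rw [hr']; simp only [Nat.add_sub_cancel]; ring
        rw [← this]; exact h3
      have hpos : 0 < v u ^ (r - 1) := pow_pos (zero_lt_iff.2 hune) _
      exact le_of_mul_le_mul_right h4 hpos
  have : u = (u * q) / q := by field_simp
  rw [this]
  exact S.div_mem_TT key hq

/-- rank one (Archimedean) valuation rings -/
def Arch (R : ValuationSubring K) : Prop :=
  ∀ x g : K, R.valuation x < 1 → ∃ N : ℕ, R.valuation x ^ N * R.valuation g ≤ 1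

/-- a section vanishing at `R`, for `R` not containing `TT` -/
lemma exists_vanishing {R : ValuationSubring K} (hR : R ∈ S.VV)
    (hT : ¬ ∀ x ∈ S.TT, x ∈ R) :
    ∃ m : ℕ, ∃ s ∈ S.HH m, s ≠ 0 ∧ ∃ j ∈ S.J R, j ≠ 0 ∧
      R.valuation s < R.valuation j ^ m := by
  push Not at hT
  obtain ⟨x, hx, hxR⟩ := hT
  obtain ⟨m, s, hs, s', hs', h0, rfl⟩ := hx
  have hs0 : s ≠ 0 := by
    rintro rfl
    exact hxR (by simp)
  have hlt : 1 < R.valuation (s / s') := by
    rw [← not_le, R.valuation_le_one_iff]; exact hxR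
  have hs'0 : R.valuation s' ≠ 0 := (Valuation.ne_zero_iff _).2 h0
  have hvs : R.valuation s' < R.valuation s := by
    calc R.valuation s' < R.valuation (s / s') * R.valuation s' :=
          lt_mul_of_one_lt_left (zero_lt_iff.2 hs'0) hlt
      _ = R.valuation s := by rw [← map_mul, div_mul_cancel₀ _ h0]
  obtain ⟨j, hj, hjs⟩ := hs R hR
  obtain ⟨j₁, hj₁, hj₁0⟩ := S.nz R hR
  rcases le_total (R.valuation j) (R.valuation j₁) with hle | hle
  · exact ⟨m, s', hs', h0, j₁, hj₁, hj₁0, hvs.trans_le (hjs.trans (pow_le_pow_left' hle m))⟩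
  · refine ⟨m, s', hs', h0, j, hj, ?_, hvs.trans_le hjs⟩
    rintro rfl
    rw [map_zero, le_zero_iff, Valuation.zero_iff] at hle
    exact hj₁0 hle

/-- clearing a pole at one `R` not containing `TT` -/
lemma exists_clear {R : ValuationSubring K} (hR : R ∈ S.VV) (hA : Arch R)
    (hT : ¬ ∀ x ∈ S.TT, x ∈ R) {ι : Type*} (I : Finset ι) (g : ι → K) (m : ℕ) :
    ∃ M : ℕ, ∃ s ∈ S.HH M, s ≠ 0 ∧ ∀ i ∈ I, RegJ S.J (m + M) (g i * s) R := by
  classical
  obtain ⟨l, s, hs, hs0, j, hj, hj0, hlt⟩ := S.exists_vanishing hR hT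
  have hvj : R.valuation (j ^ l) ≠ 0 := (Valuation.ne_zero_iff _).2 (pow_ne_zero _ hj0)
  have hvjm : R.valuation (j ^ m) ≠ 0 := (Valuation.ne_zero_iff _).2 (pow_ne_zero _ hj0)
  have hx : R.valuation (s / j ^ l) < 1 := by
    rw [map_div₀]
    exact (div_lt_one₀ (zero_lt_iff.2 hvj)).2 (by rwa [map_pow])
  -- it suffices to find one exponent for all
  obtain ⟨N, hN⟩ : ∃ N : ℕ, ∀ i ∈ I,
      R.valuation (s / j ^ l) ^ N * R.valuation (g i / j ^ m) ≤ 1 := by
    have : ∀ i : ι, ∃ N : ℕ,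
        R.valuation (s / j ^ l) ^ N * R.valuation (g i / j ^ m) ≤ 1 := fun i => hA _ _ hx
    choose N hN' using this
    refine ⟨I.sup N, fun i hi => ?_⟩
    calc R.valuation (s / j ^ l) ^ (I.sup N) * R.valuation (g i / j ^ m)
        ≤ R.valuation (s / j ^ l) ^ (N i) * R.valuation (g i / j ^ m) :=
          mul_le_mul' (pow_le_pow_right_of_le_one' hx.le (Finset.le_sup hi)) le_rfl
      _ ≤ 1 := hN' i
  refine ⟨l * N, s ^ N, S.pow_mem hs N, pow_ne_zero _ hs0, fun i hi => ⟨j, hj, ?_⟩⟩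
  have h1 := hN i hi
  rw [map_div₀, map_div₀, div_pow, div_mul_div_comm, div_le_one₀ (by
    exact zero_lt_iff.2 (mul_ne_zero (pow_ne_zero _ hvj) hvjm))] at h1
  rw [map_mul, map_pow, mul_comm]
  refine h1.trans (le_of_eq ?_)
  rw [map_pow, map_pow, ← pow_mul, ← pow_add, add_comm]

/-- clearing finitely many poles -/
lemma exists_clear_finset (B : Finset (ValuationSubring K)) (hB : ∀ R ∈ B, R ∈ S.VV)
    (hA : ∀ R ∈ B, Arch R) (hT : ∀ R ∈ B, ¬ ∀ x ∈ S.TT, x ∈ R)
    {ι : Type*} (I : Finset ι) (g : ι → K) (m : ℕ)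
    (hg : ∀ i ∈ I, ∀ R ∈ S.VV, R ∉ B → RegJ S.J m (g i) R) :
    ∃ M : ℕ, ∃ s ∈ S.HH M, s ≠ 0 ∧ ∀ i ∈ I, g i * s ∈ S.HH (m + M) := by
  classical
  induction B using Finset.induction_on generalizing g m with
  | empty =>
    exact ⟨0, 1, S.one_mem, one_ne_zero, fun i hi => by
      rw [mul_one, Nat.add_zero]; exact fun R hR => hg i hi R hR (by simp)⟩
  | insert R₀ B hR₀ ih =>
    obtain ⟨M, s, hs, hs0, h⟩ := S.exists_clear (hB R₀ (Finset.mem_insert_self _ _))
      (hA R₀ (Finset.mem_insert_self _ _)) (hT R₀ (Finset.mem_insert_self _ _)) I g m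
    obtain ⟨M', s', hs', hs'0, h'⟩ := ih (fun R hR => hB R (Finset.mem_insert_of_mem hR))
      (fun R hR => hA R (Finset.mem_insert_of_mem hR))
      (fun R hR => hT R (Finset.mem_insert_of_mem hR)) (fun i => g i * s) (m + M)
      (fun i hi R hR hRB => by
        by_cases hRR : R = R₀
        · subst hRR; exact h i hi
        · exact (hg i hi R hR (by simp [hRR, hRB])).mul (hs R hR))
    refine ⟨M + M', s * s', S.mul_mem hs hs', mul_ne_zero hs0 hs'0, fun i hi => ?_⟩
    have := h' i hi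
    rwa [mul_assoc, add_assoc] at this

/-- (b'): forms regular at all `R ∈ VV` containing `TT` and at almost all `R ∈ VV` have ratio in
`TT`. -/
theorem ratio_mem_TT (hA : ∀ R ∈ S.VV, Arch R) {m : ℕ} {g₁ g₂ : K}
    (h₁ : ∀ R ∈ S.VV, (∀ x ∈ S.TT, x ∈ R) → RegJ S.J m g₁ R)
    (h₂ : ∀ R ∈ S.VV, (∀ x ∈ S.TT, x ∈ R) → RegJ S.J m g₂ R)
    (f₁ : {R ∈ S.VV | ¬ RegJ S.J m g₁ R}.Finite)
    (f₂ : {R ∈ S.VV | ¬ RegJ S.J m g₂ R}.Finite) : g₁ / g₂ ∈ S.TT := by
  classical
  set B := f₁.toFinset ∪ f₂.toFinset with hBdef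
  have hmem : ∀ R, R ∈ B ↔ R ∈ S.VV ∧ (¬ RegJ S.J m g₁ R ∨ ¬ RegJ S.J m g₂ R) := fun R => by
    simp only [hBdef, Finset.mem_union, Set.Finite.mem_toFinset, Set.mem_ofPred_eq]
    tauto
  obtain ⟨M, s, hs, hs0, h⟩ := S.exists_clear_finset B (fun R hR => ((hmem R).1 hR).1)
    (fun R hR => hA R ((hmem R).1 hR).1)
    (fun R hR hT => by
      obtain ⟨hV, h | h⟩ := (hmem R).1 hR
      · exact h (h₁ R hV hT)
      · exact h (h₂ R hV hT))
    (Finset.univ : Finset (Fin 2)) ![g₁, g₂] m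
    (fun i _ R hR hRB => by
      rw [hmem] at hRB
      push Not at hRB
      fin_cases i
      · exact (hRB hR).1
      · exact (hRB hR).2)
  have e₁ : g₁ * s ∈ S.HH (m + M) := h 0 (Finset.mem_univ _)
  have e₂ : g₂ * s ∈ S.HH (m + M) := h 1 (Finset.mem_univ _)
  have : g₁ / g₂ = (g₁ * s) / (g₂ * s) := by rw [mul_div_mul_right _ _ hs0]
  rw [this]
  exact S.div_mem_TT e₁ e₂

/-- Tuples of elements of `TT` are ratios of sections of one positive degree. -/
theorem exists_sections {d : ℕ} (u : Fin d → K) (hu : ∀ i, u i ∈ S.TT)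
    {m₀ : ℕ} (hm₀ : 0 < m₀) {f₀ : K} (hf₀ : f₀ ∈ S.HH m₀) (hf₀' : f₀ ≠ 0) :
    ∃ m : ℕ, 0 < m ∧ ∃ f : Fin (d + 1) → K, (∀ i, f i ∈ S.HH m) ∧ f 0 ≠ 0 ∧
      ∀ i : Fin d, f i.succ / f 0 = u i := by
  obtain ⟨m, hm, q, hq, hq0, h⟩ := S.exists_den_pos Finset.univ u (fun i _ => hu i) hm₀ hf₀ hf₀'
  refine ⟨m, hm, Fin.cons q fun i => u i * q, ?_, by simpa using hq0, fun i => ?_⟩
  · intro i
    refine Fin.cases ?_ (fun i => ?_) i
    · simpa using hq
    · simpa using h i (Finset.mem_univ _)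
  · simp only [Fin.cons_succ, Fin.cons_zero]
    field_simp

end Sys

/-- discrete valuation rings have rank one -/
theorem Sys.arch_of_dvr (R : ValuationSubring K) [IsDiscreteValuationRing R] : Sys.Arch R := by
  intro x g hx
  have hxR : x ∈ R := (R.valuation_le_one_iff x).1 hx.le
  obtain ⟨ϖ, hϖ⟩ := IsDiscreteValuationRing.exists_irreducible R
  have hxm : (⟨x, hxR⟩ : R) ∈ IsLocalRing.maximalIdeal R := by
    rw [IsLocalRing.mem_maximalIdeal, mem_nonunits_iff]
    intro hu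
    have := (R.valuation_eq_one_iff ⟨x, hxR⟩).1 hu
    exact absurd this hx.ne
  rw [hϖ.maximalIdeal_eq, Ideal.mem_span_singleton] at hxm
  obtain ⟨a, b, hb, hab⟩ := IsFractionRing.div_surjective (A := R) g
  have hb0 : b ≠ 0 := nonZeroDivisors.ne_zero hb
  obtain ⟨N, u, hu⟩ := IsDiscreteValuationRing.eq_unit_mul_pow_irreducible hb0 hϖ
  refine ⟨N, ?_⟩
  have hdvd : b ∣ (⟨x, hxR⟩ : R) ^ N := by
    rw [hu]
    exact (Units.mul_left_dvd (u := u)).2 (pow_dvd_pow_of_dvd hxm N)
  obtain ⟨c, hc⟩ := hdvd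
  have hbK : (b : K) ≠ 0 := by
    intro h; exact hb0 (Subtype.ext h)
  have h1 : x ^ N = (b : K) * (c : K) := by
    have := congrArg (fun z : R => (z : K)) hc
    simpa using this
  have h2 : x ^ N * g = (a : K) * (c : K) := by
    rw [h1, ← hab]
    change (b : K) * (c : K) * ((a : K) / (b : K)) = _
    field_simp
  rw [← map_pow, ← map_mul, h2, R.valuation_le_one_iff]
  exact R.mul_mem _ _ a.2 c.2

end Crest.Agent.R276.FKI_849
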