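import Mathlib
import Crest.Agent.R276.FKI_849
import Crest.Agent.R276.FKDefs_779

/-!
# Row 276, route BETA (post 1207): direct `d + e` count, honest generic fibre (helper231)

`endgame` : algebraic endgame in 849's `Sys` formalism: if `L' ⊆ TT` (Iitaka field), `u i` relative
forms with ratios algebraically independent over `L`, `w j` forms with ratios in `L` algebraically
independent over `k`, and all `u i * w j` are regular at the valuations containing `L'`, then there
are `d + e + 1` sections with algebraically independent ratios.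
-/

set_option autoImplicit false

noncomputable section

namespace Crest.Agent.R276.Beta_231

open Crest.Agent.R276.FKI_849

variable {k K : Type*} [Field k] [Field K] [Algebra k K]

/-- The algebraic endgame of route BETA. -/
theorem endgame (S : Sys k K) (hA : ∀ R ∈ S.VV, Sys.Arch R)
    (L : IntermediateField k K) (L' : IntermediateField k K) (hTT : L' ≤ S.TT)
    {d e N : ℕ} (hN : 0 < N) (u : Fin (d + 1) → K) (w : Fin (e + 1) → K)
    (hu0 : u 0 ≠ 0) (hw0 : w 0 ≠ 0)
    (hwL : ∀ j : Fin e, w j.succ / w 0 ∈ L)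
    (hreg : ∀ i j, ∀ R ∈ S.VV, (∀ x ∈ L', x ∈ R) → RegJ S.J N (u i * w j) R)
    (hfin : ∀ i j, {R ∈ S.VV | ¬ RegJ S.J N (u i * w j) R}.Finite)
    (hu : AlgebraicIndependent L (fun i : Fin d => u i.succ / u 0))
    (hw : AlgebraicIndependent k (fun j : Fin e => w j.succ / w 0)) :
    ∃ m : ℕ, 0 < m ∧ ∃ f : Fin (d + e + 1) → K, (∀ i, f i ≠ 0 ∧ f i ∈ S.HH m) ∧
      AlgebraicIndependent k (fun i : Fin (d + e) => f i.succ / f 0) := by
  classical
  have hreg' : ∀ i j, ∀ R ∈ S.VV, (∀ x ∈ S.TT, x ∈ R) → RegJ S.J N (u i * w j) R :=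
    fun i j R hR h => hreg i j R hR fun x hx => h x (hTT hx)
  have huT : ∀ i : Fin d, u i.succ / u 0 ∈ S.TT := fun i => by
    have h := S.ratio_mem_TT hA (hreg' i.succ 0) (hreg' 0 0) (hfin _ _) (hfin _ _)
    rwa [mul_div_mul_right _ _ hw0] at h
  have hwT : ∀ j : Fin e, w j.succ / w 0 ∈ S.TT := fun j => by
    have h := S.ratio_mem_TT hA (hreg' 0 j.succ) (hreg' 0 0) (hfin _ _) (hfin _ _)
    rwa [mul_div_mul_left _ _ hu0] at h
  -- a nonzero section of positive degree
  obtain ⟨m₀, hm₀, f₀, hf₀, hf₀'⟩ : ∃ m₀ : ℕ, 0 < m₀ ∧ ∃ f₀ ∈ S.HH m₀, f₀ ≠ 0 := by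
    set B := (hfin 0 0).toFinset with hB
    have hmem : ∀ R, R ∈ B ↔ R ∈ S.VV ∧ ¬ RegJ S.J N (u 0 * w 0) R := fun R => by
      simp only [hB, Set.Finite.mem_toFinset, Set.mem_ofPred_eq]
    obtain ⟨M, s, hs, hs0, h⟩ := S.exists_clear_finset B (fun R hR => ((hmem R).1 hR).1)
      (fun R hR => hA R ((hmem R).1 hR).1)
      (fun R hR hT => ((hmem R).1 hR).2 (hreg' 0 0 R ((hmem R).1 hR).1 hT))
      (Finset.univ : Finset Unit) (fun _ => u 0 * w 0) N
      (fun i _ R hR hRB => by
        rw [hmem] at hRB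
        push Not at hRB
        exact hRB hR)
    exact ⟨N + M, by omega, u 0 * w 0 * s, h () (Finset.mem_univ _),
      mul_ne_zero (mul_ne_zero hu0 hw0) hs0⟩
  -- algebraic independence of the union
  have hind : AlgebraicIndependent k (Sum.elim (fun i : Fin d => u i.succ / u 0)
      (fun j : Fin e => w j.succ / w 0)) := by
    refine hw.sumElim_of_tower (S := L) ?_ hu
    rintro _ ⟨j, rfl⟩
    exact ⟨⟨_, hwL j⟩, rfl⟩
  set g : Fin (d + e) → K := (Sum.elim (fun i : Fin d => u i.succ / u 0)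
      (fun j : Fin e => w j.succ / w 0)) ∘ finSumFinEquiv.symm with hg
  have hgi : AlgebraicIndependent k g :=
    (algebraicIndependent_equiv finSumFinEquiv.symm).2 hind
  have hgT : ∀ i, g i ∈ S.TT := fun i => by
    simp only [hg, Function.comp]
    rcases finSumFinEquiv.symm i with a | b
    · exact huT a
    · exact hwT b
  obtain ⟨m, hm, f, hf, hf0, hfg⟩ := S.exists_sections g hgT hm₀ hf₀ hf₀'
  have hfg' : (fun i : Fin (d + e) => f i.succ / f 0) = g := funext hfg
  refine ⟨m, hm, f, fun i => ⟨?_, hf i⟩, by rw [hfg']; exact hgi⟩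
  refine Fin.cases hf0 (fun i => ?_) i
  intro h0
  have h1 := hfg i
  rw [h0, zero_div] at h1
  exact hgi.ne_zero i h1.symm

end Crest.Agent.R276.Beta_231
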