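/-!
# Row 276 (S0419, Iitaka C_{n,m}): PART A blueprint (BP-A v1, helper519, 01:15Z)

Part A = the CY line `delta^(1/N)`, its Z-PVHS on the model `M_L`, and everything which is known on the
leaves where the line is flat.  `#n` = id in the table `posts`.  Conventions of #1361/#1471 (CoreBeta).

## A.0 Data
 (A.0.1) `K/C` f.g., `L <= K` algebraically closed in `K`, all of `C K`, `C L`, `L K` honest.
   m = trdeg L, r = trdeg_L K, relative model `M_K -> M_L` (987, Mod5), coordinates `(z, x)`,
   `M_z` = fibre = RDom r, dlambda = pull back of Lebesgue measure by `x`.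
 (A.0.2) N even, N >= 4 (then p := 2/N <= 1/2 < 1; replace N by 2N if necessary),
   V = V_N <= K : an L-space spanned by sigma_1..sigma_s in `M_K.B`, s >= 1, with (SAT, 210 #1272)
   for EVERY z in M_L (after shrinking):
   (S1) the restrictions sigma_i|M_z are linearly independent; V(z) := their span;
   (S2) Phi(z,a) := int_{M_z} |sum a_i sigma_i|^p  is finite and continuous on M_L x C^s;
   (S4) 0 <> w in V(z), f Hol on M_z, int |f|^2 |w|^(-2(N-1)/N) < oo  ==>  f in V(z);
   (S5) A^2(M_z, ((N-1)/N) log(|F|^2 + e sum|sigma_i|^2)) = V(z) for F in V(z), e > 0.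
   d+1 elements of V have ratios algebraically independent over L (N divisible).
 (A.0.3) delta(x_1..x_s) := det(sigma_i(x_j)) on M_z^s = s-fold fibre product, D(z) := int_{M_z^s} |delta|^p.
   By DETB (606, landed) D(z) is finite and > 0; psi := -log D.
   `delta` is the algebraic frame of the rank one piece; all weights below are functions in this frame.

## A.1 = C8 = THEOREM GEO (assembly: helper519; pieces PAR/COV 425, ISO 425 done, IPC-MODEL 244,
##       IPC-ITER 840, Rz 815, SAT 210)
 On a smaller M_L there are: w0 = r s, V : VHS m M_L N0 w0 (IpcDefs_735), omega : M_L -> (Fin N0 -> C) with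
 (A.1.1) IsTop w0 (V.E z) (omega z), omega holomorphic (HolAt of lV V.P omega), nowhere zero;
 (A.1.2) hnsq V z (omega z) = N * D(z)   [fint over the root cover eta^N = delta];
 (A.1.3) for all z, j: pr_top (D_j omega)(z) in C * omega(z)   (PAR #1354: no action on the local system).
 PROOF. FSp: Y0 = {(x_1..x_s, eta): eta^N = delta, h(x_i) <> 0, c(z,x) <> 0}, product coordinates;
 f0 := eta; f0 is PB, FH, fnorm z f0 = N D(z) < oo. Rz gives omega(z) with iota z (omega z) = f0.
 (ONE) f FH on Y0_z, fnorm < oo, f o (pi,zeta) = zeta^-1-equivariant (zeta^N = sgn pi) ==> f = c * f0: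
 b := f/eta is invariant under mu_N, so lives on M_z^s - {delta = 0}, is S_s-invariant;
 u := b delta alternating, int |u|^2 |delta|^(-2(N-1)/N) = int |b|^2 |delta|^p < oo, |delta| locally
 bounded, so |u|^2 is L^1_loc and u extends over {delta = 0}; slices in V(z) by (S4) with
 w = delta(.,x_2..x_s); 425's alternating_line: u = c delta, b = c.
## A.2 Consequences (442 C4, captain B.2)
 (A.2.1) psi is smooth psh; Levi psi(v) = 0 iff D_v omega in C omega iff theta_v omega = 0.
 (A.2.2) W_z := C-span of all transports of the values of omega; H' >= W hull (C10: 720/574).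
## A.3 FLAT LINE (used on a leaf/period fibre G: 574 GVHS (5))
 G connected model inside M_L (fibre of M_L -> M_T over y0, or G = M_L when rho = 0), theta|_{H'|G} = 0.
 (A.3.1) V'|G: Hodge metric is flat, transports of H' at z0 preserve a lattice and a positive definite
   form: finite group; order divides k0(N0) (Minkowski) or use only its exponent M.
 (A.3.2) OUTPUT (FL): M >= 1, f : G -> C holomorphic without zeros, |f(z)|^2 = D(z)^M on G.
   PROOF: locally omega = phi e, e flat; phi^M single valued up to roots of unity of the monodromy:
   f := phi^M normalised by |e| = N^(1/2).  |D_ / f| growth: D is PG above and below (GRO), so f is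
   a unit of the algebra of the model (590 AB2).
## A.4 LEMMA N (999, #1072; N0/AUE/AVG done) on G
 (A.4.1) (N0) |sigma|_H^2 <= Phi^N <= s^(N-1) |sigma|_H^2, H = NS metric int |u|^2 B^(-(N-1)),
   B(x) = sup |sigma(x)|^p/Phi(sigma), int_{M_z} B <= s.
 (A.4.2) u := N log D - log det H(sigma_i, sigma_j): bounded (constants of s, N only; 606 DETB or 999 (b));
   -log det H psh (PV), N log D = (N/M) log|f|^2 pluriharmonic ==> u psh bounded ==> constant (LIOU 739).
   So det H(z) = c |f(z)|^(2N/M).      [NEVER use degrees of lambda_N on a compactification: 606 #1079]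
 (A.4.3) FD: on each closed disc inside the preimage G1 of a complex line: holomorphic H-orthonormal
   frame T.  (A.4.4) AVG over U(s) + N3: Phi(z, T(z)a) constant on these discs.
 (A.4.5) GLOBALISE with FIN: OUTPUT (LT): for every z1 in G a neighbourhood U and T : U -> GL_s(C)
   holomorphic, T(z1) = 1, Phi(z, T(z)a) = Phi(z1,a) and H_z(T(z)a) = H_z1(a) for all a.
   Then |det T(z)|^2 = det H(z1)/det H(z), so det T(z)^M f(z)^N / f(z1)^N = 1  (sign convention:
   det H is the Gram determinant of the FIXED frame sigma).
## A.5 FIN (39, LANDED) + FRI (348) = finite rank input at ONE fibre z0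
 Iso(z0) = {A in GL_s : Phi(z0,Aa) = Phi(z0,a)} is finite modulo scalars.
## A.6 FLATALG (464 #1377), statement used downstream
 J(z) := {A in GL_s : Phi(z,Aa) = Phi(z0,a) all a, (det A)^M f(z)^N = f(z0)^N}: finite, <> empty for all
 z in G, torsor under the finite group J(z0), locally J(z) = T(z) J(z1).  k := # J(z0).
 (A.6.1) tau_a(z,x) := prod_{A in J(z)} sum_i (Aa)_i sigma_i(z,x), a in C^s:  holomorphic on M_K|G,
   Sym^k-type coefficients holomorphic on G, PG (lower bound of Phi: 358 GRO-LOW OUT1) ==> algebraic.
 (A.6.2) int_{M_z} |tau_a|^(2/(kN)) <= Phi(z0,a)  (Hoelder), constant by RUD (210, landed).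
 (A.6.3) functionals homogeneous of degree p of (tau_a, B_N, delta/f^(1/M)...) are constant on G (RUD):
   in particular I(z) D(z)^(eps N) of (C1).
 (A.6.4) trdeg C(tau_{a+cb}/tau_b : a,b,c) >= d on every M_z, z in G; choose tau_0..tau_d.
## A.7 Flat case rho = 0 (G = M_L): W-regularity of tau_i w_j^.. at every R in VV:
   horizontal R: factors are regular (S3); vertical R: 159 FOL (mean value on a leaf ball of fixed size,
   norm bounded by A.6.2) gives |tau_a|^(2/kN) <= C in the K_FF frame, w_j in the e0 K_Z frame,
   K_FF + f^*K_Z <= K_X.  Independence: A.6.4 over L and w_j/w_0 over C  ==>  KapGeF C K (d+e).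
## A.8 rho >= 1: BP-END (#1263) uses A.4-A.6 on ONE period fibre G_{y0}, y0 outside a null set.
   What BP-END consumes from part A: (A.1.2),(A.2.1) [through COUNT], (A.3.2), (A.6.1)-(A.6.4).

## Pitfalls already met (do not repeat)
 * V_N^(x)s (x) delta^(-(N-1)/N) is NOT in the L2 bottom piece (574 #568 (A)); only the alternating line.
 * P(V_N) is not constant along the null directions of Levi psi (triangle group example, #812 (i)).
 * `finite L^(2/N) norm' does not imply W-regular (poles of order < N are integrable): regularity at
   horizontal R comes from (S3) only, at vertical R only from a uniform bound of fibre norms.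
 * The Q-span of the conjugates of W is not E-stable in general; use C10 (central idempotent).
 * delta vanishes on diagonals of high codimension: |delta|^(-2 eps) needs eps < eps0(z) (SKO 567).
 * Isometries of Phi_z on V(z) do not formally preserve D(z); use H-orthonormality (A.4.5) or RUD.
-/
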