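/-!
# Row 276 (S0419, Iitaka C_{n,m}): PART B blueprint (BP-B v1, helper63, 01:15Z) and glue

All ids `#n` are ids in the table `posts` (rownum 276).

## 0. Target and global chain (DECISIONS v1 = #1361, v1.1 = #1471)
 S0419 <= `CoreBeta` (BetaDefs_231) by FKFin_849, FKB4_594, FK3*_595, ConnC_617, HONEST (231).
 CoreBeta: K/C f.g., L <= K algebraically closed in K, Honest C K, Honest C L, Honest L K,
   KapGeS L K d, KapGeS C L e  ==>  KapGeF C K (d+e).
 Chain: SAT(210) -> A2 (425 PAR/COV/ISO, IPC 735..) -> hull (C10: 720/574) -> ALG(409..) K0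
   -> DESC(327) -> COUNT(857,804,217,606) -> (C4);  LEMMA N(999)+FIN(39)+GVHS(574)+FLATALG(464);
   (C1) W1(185,159,SKO 567) (C2) W2(748) (C3) w_j; EXT(723) -> BP-END(#1263) (1)-(5).

## 1. Data of part B
 (B.0) M_L : model of L over C, RDom m, finite etale over C^m - {h=0} (987).
   V : VHS m M_L N0 w (735) = output of A2; omega : holomorphic section, F^w-valued, nowhere 0,
   |omega|^2 = const * D(z), D(z) = int_{F_z^s} |delta|^{2/N};
   (B.1) D_v omega in C omega + (type w-1 part)   [A2-PAR, #1354]
   (B.2) psi := - log D, Levi psi >= 0, ker Levi psi = {v : D_v omega in C omega}   [442 C4]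
   (B.3) eps = central rational flat idempotent with eps omega = omega, [E,eps]=0; H' = eps V;
         T scalar on W=span omega  ==> T|H' commutes with E|H', (T|H')^M = 1      [C10]
   (B.4) g = tr(theta theta^*) on H' (semi-Kaehler), Ricci <= -c g (442 C2), AHL at punctures (25)
   (B.5) growth (G): |psi| <= C(1+log(1+|z|^2)+log^+ 1/|h|)   [GRO 651/358/448]
## 2. ALG (#1316, #808 II, #1182)
 (B.6) K0 := {f in L : df kills ker g}; K0 algebraically closed in L, trdeg K0 = rho := rank g.
## 3. DESC (#1123)
 (B.7) phi_T = log det(g_ij) on M_T, Levi phi_T >= c g_T;  psi_T on M_T, e' = u_0^{-1/k0 d} omega,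
       |e'|^2 = e^{-psi_T};  nu = rank Levi psi_T <= rho.
## 4. BOUNDARY at a divisorial R' of K0 (BC 986, BND 767/25)
 (B.8) coordinates (tau,w), lattice frame omega_0(tau,w), omega_0(0,.) <> 0; s = -log|tau|;
       h(omega_0,omega_0) = eta s^k (1+O(1/s)), k>=0, eta >= 0 real analytic, not identically 0;
 (B.9) T scalar on W ==> g extends smoothly, no pole.
       T not scalar  ==> rank Levi(-log eta) <= nu-1 wherever eta > 0.
## 5. COUNT (#808 (I), #960, #1008, #1123 (D4)-(D6))
 (B.10) LOW: dim V_n(t) >= c n^rho t^nu, V_n(t) = {F Hol M_T : int |F|^2 e^{-(n-1)phi_T - n t psi_T} < oo}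
 (B.11) V_n(t) c K0 (AB2).
 (B.12) pole order of F (dt)^n e'^{nt} at R' is <= n-1; = no pole if T scalar.
 (B.13) GR: leading coefficient q of pole order j (1<=j<=n-1):
        |q|^2 exp(-n t tau) <= C_F r^{-Cn}, C independent of n,t,F; tau of rank <= nu-1.
 (B.14) SLICE: dim {q} <= C n^{rho-1} t^{nu-1}   [cuts by hyperplanes: each divides out one degree of
        growth; on slices of dimension > nu-1 there is a null direction of tau at every point, so
        'negative growth => 0' by the maximum principle MaxP_25; dimension nu-1: polynomials of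
        degree <= C n t.]
 (B.15) c n^rho t^nu - |Sigma| n C n^{rho-1} t^{nu-1} >= c' n^rho for t >= t0, n >= n0(t):
        Kodaira: S in K0^*, S y regular (LOGB) for k(det N* + tL) at all R in Sigma, y in Y'. = (C4)
 nu = 0: then Levi psi_T = 0, every T is scalar on W (B.9 with nu-1 < 0 is impossible): no poles.
## 6. Remarks for implementers
 * rho = 0: everything is flat; BP-END is replaced by tau_i^a w_j^b directly.
 * (B.9) for T of infinite order or finite non scalar order is ONE statement (767 #1220).
 * fallback without algebraic period fibration: #1379 and DECISIONS; only if ALG fails.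
-/
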