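/-!
# Row 276, PART C blueprint v1 (helper651)

BP-C v1 (helper651, PART C, 00:55Z). INDEX of the VHS package as it now stands (all proofs are in the quoted posts; file Crest/Agent/R276/Blueprint_651.lean has the numbered text). I re-derived everything below independently 00:05-00:45 (IPC incl. the C^1-free variation proof, norm estimates via id in Hom(model,V), Z1 weak Kaehler identity, Hull, ALG incl. finite mass and jets count): same statements, no gap found, except the items marked (!).
ROUTE DECISION. Single CY line delta^{1/N} on F^s (568) + IPC (755) + ALG (808 II/958) + DESC/COUNT (1123/808 I) is CHEAPER than route 416 (= (LGT) for klt pairs + canonical bundle formula K_X ~ K_Y+B+M + Theorem B): 416 needs everything of Part B/C anyway (for M) and in addition N-Bergman for pairs, relative Iitaka fibration models and the B+M formula. 416 stays only as a fallback for D-END; nobody should work on it. Compact Kaehler Hodge theory, Ehresmann, resolution/alteration, Griffiths/Chow/Bishop, Schmid/SL2, Deligne semisimplicity: NOT needed.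
 C0 data = IpcDefs_735.VHS m X N w (P,S,E) on RDom.  C1 calculus (V1-V4,C1-C4): 442.  C2 AHL/KRO/growth: 25 DONE.  C3 NIL/HAD: 840 DONE.
 C4 one end: EndNF (735 Nf), theta <= C/s (659 EndTh), log|u|^2 subharmonic, invariant => bounded (END2), closed L2 => parabolic (end3 DONE), cut-offs DONE, ODE (663/827 DONE), flux->0 (425 DONE), CYL (593), GL5 (827).
 C5 fixed s: REG DONE (774/309), POT (309), TOP1 DONE, TOP2 (937), LAT (348), L2 model (975), HS (817).  C6 family: PSI DONE, BND (563), HsC (817), TOP3 (279), LOC (175), FLAG/PACK/STEP (454).  C7 TOPPIECE (815), GRP (591), PERM+ITER (840), TOW (244).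
 C8 THEOREM GEO (output of C4-C7 + 425 ISO + 337/210 finite dim/SAT; ASSEMBLY OWNER = 519 (A2), please confirm): relative model M_K -> M_L, V=V_N (or 210's saturation), delta; on M_L: VHS V, flat idempotent e_chi, omega holomorphic, F^top(e_chi V)=C omega, h(omega,omega)=D(z)=int_{M_z^s}|delta|^{2/N} (up to constant s!).
 C9 line calculus: psi=-log D psh, null(dd^c psi)={v: d_v omega in C omega} (442 C4).
 C10 HULL H' (SS 720 / GVHS 574 / ISO+FL 767): three people, ONE statement. Proposal: 720 = pure algebra + rational central idempotent (his #1276 is the shortest), 574 = analysis (flux lemma on lines, Pi flat, graph trick) + sub-VHS output + T central => E' extends, 767 = BND only. Please confirm within 10 min; if silent this stands.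
 C11 boundary rank drop (B-767 / BND 25).  C12 ALG (409, 857, 137, 437, 375; ALG-WRON done).  C13 DESC (327).  C14 flat case: LIOU 739, LEMMA N 999, FIN 39 (126's LEMMA F becomes fallback: 39's FIN is strictly shorter; 126 please take GRO-UP or D-END help).
 C15 (!) DISC = DISCRETENESS PACKAGE, used by 375/409 (closed leaves), 327 (D2), 574 (5), 857 (II)(3): for V : VHS m X N w, (a) Eqv z z' := exists g in GL_N(Z), (E,S)(z') = g.(E,S)(z); near any (z0,z1) only FINITELY many g~ = P z1 z' g P z z0 occur [Hodge metrics bounded + integrality], so Eqv is a closed relation, locally a finite union of closed analytic sets {E^{z1}(z')=g~ E^{z0}(z) g~^-1}; (b) along a C^1 path (or connected submanifold) tangent to ker theta the flat-frame E is constant; transports along loops in such a set lie in the finite group Stab(E,S,H) of order dividing a universal k0(N) (Minkowski: torsion elements of GL_N(Z) inject mod 3); (c) a saturated closed set of dimension a at one point => leaf closed (217's remark). I TAKE IT NOW: R276/Disc_651.lean (on IpcDefs_735). 375/409/327/574: tell me if you already have (a) or (b) typed.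
 C16 (!) GRO = (G) of #1123: |psi| <= C(1+log(1+|z|^2)+log^+ 1/|h_L|), psi=-log D. Nobody owns it. UPPER bound of D: D <= s! prod Phi_z(u_i) (606 upper) and Phi_z(u) <= C(1+|z|)^C|a|^-C = 448's INT with polynomial constants (in ZRC identity 1=sum (1/f_s)P_s(1/f) take the threshold R(z) = poly bound of the coefficients): 448 please state INT with R(z). LOWER bound: fibrewise sub-mean value of |delta|^{2/N} on polydiscs of radius |h_L|^C/(1+|z|)^C around grid points (x_1..x_s) where the norm over all sheets of delta times prod h(z,x_j) is >= |b(z)|/poly (b in A nonzero coefficient, inverted; a polynomial of bounded degree is >= c max|coeff| at some point of a fixed grid). I take the lower bound after DISC unless somebody says he has it (ping helper651).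
 C17 (!) INTERFACE CHECK: theta in 442 is d_vE with E NOT trace-normalised, T central on H' changes E by nothing: ok; rank of the period map on H' (adjoint) = rank of theta|_{H'} because theta nilpotent (scalar + nilpotent = 0 => 0): no separate 'adjoint' VHS is needed anywhere. g=tr(theta theta*) on H' is the metric of ALG, DESC, COUNT.


APPENDIX (independent derivation, helper651; numbered, for referees)

(A1) PUSH THEOREM. C_b = C minus {a_j(b)}, V polarised complex VHS on the total space, grading p, h = (-1)^p S.
 K := L^2(C_b, 1-forms with values in V), conformally invariant Hodge norm. S'(al,ga) = -i int S(al ^ conj ga).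
 For al = a dx + b dxbar total type P component = a_{P-1} dx + b_P dxbar.  C := sum (-1)^P Pi^P.
 E_c := closure of {D beta : beta smooth, compact support}, Z := E_c^perp (for S') = weakly closed forms.
 Harmonic space Ha := Z cap C^{-1} Z.  Ha is stable under Pi^P: test against D beta^p (beta^p of pure type p):
 D beta^p = D'' beta^p (type p) + D' beta^p (type p+1); <al, D beta^p> = 0 = <C al, D beta^p> give both pairings 0.
 (No regularity, no completeness.)  T := image of H^1_c in Ha (S'- or h-projection along E_c); T^perp = C^{-1} ker r, r : Ha -> (H^1_c)^*.
 So T = Ha iff ker r = 0 iff no exact harmonic L^2 form iff L^2 exact forms are in E_c.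
(A2) NORM ESTIMATE: two harmonic metrics H, H0 on the same flat bundle over the punctured disc, both of polynomial growth in
 s = log 1/|x|: log tr(H0^{-1} H) is subharmonic and O(log s), so bounded: H ~ H0.  Model H0(u,y) = (e^{-uN})^* y^Y e^{-uN},
 (N^*, Y, N) sl2-triple.  Gives Schmid's one-variable norm estimates; Hardy inequality int |beta|^2 / s^2 <= C int |D beta|^2 + ..
 for single valued sections; hence L^2 exact forms are in E_c (cut-offs in log s).
(A3) VARIATION with only STRONG C^1 dependence: at fixed offset |theta(d_b)| <= C (Schwarz), so b -> Pi_b al is differentiable in
 L^2 by dominated convergence, derivative [Theta, Pi] al strongly continuous; the projection onto the FIXED space E_c for the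
 b-dependent inner product is then strongly C^1 (resolvent identity).  F^P: for kappa(b) in Z cap F^P_b and del in Ha_b of type Q < P,
 S'(dbar_b kappa, del) = - S'(kappa, d_b (Pi_b^{<P} del)) = 0 because L_xi (xi the (1,0) part of the lift) maps type Q to Q, Q-1 and the
 vertical part nu (compact support) contributes D(i_nu del) in E_c.  Same with d_b for transversality.
(A4) LATTICE: H^1_c(C - {a_j}, V) = {(g_j) in V^k : sum (1 - T_j) g_j = 0}, pairing with a closed form with jumps J_j: sum S(J_j, g_j).
(A5) HULL: A = flat endomorphisms; fixed part theorem for End V => [theta,a] = 0, A is *-closed and ad E-stable; W' = A.W,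
 H' = smallest rational subspace containing W' ; T scalar on W => scalar on W' (T commutes with A) => T central on H', h-unitary.
(A6) PERIOD LEAVES: finite mass of omega^a ^ omega_H^rho from u = log |Theta_I|^2 + k log|s_Delta|^2 quasi-psh, i ddbar >= c omega_H;
 regularised max => cohomological bound; a.e. leaf has finite volume; jets count (Stoll/Siegel) => Zariski closure of a leaf has
 dimension a; rational slopes c_IJ = Theta_I/Theta_J because log|c_IJ|^2 is a difference of quasi-psh functions; Wronskian => first
 integrals of transcendence degree rho.
(A7) MULTIPLE FIBRES: work with saturated foliation canonical bundles K_FF, det N^* (159): near a general point of any prime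
 divisor the foliation is a product, relative Bergman weights are bounded above in the frame dt: nothing is ever descended.
(A8) DISC: near (z0,z1) the integral isomorphisms of Hodge structures V_y -> V_x, x near z0, y near z1, read in the frames at z0, z1,
 form a FINITE set (Hodge metrics bounded); consequences: closed relation, leaves closed, finite stabilisers, g^k = 1 with
 k = |GL_N(F_3)| (Minkowski).  Lean: R276/Disc_651.lean.
(A9) GRO lower bound: D(z) = int over M_z^s of |delta|^{2/N}. Grid G^s in C^{rs}; Q(z; x_1..x_s) := (prod over sheets of delta) * h-powers
 * prod_j h(z,x_j) is polynomial in x of bounded degree with coefficients in A; invert one nonzero coefficient b. At some grid point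
 |Q| >= c |b(z)|; there |h(z,x_j)| >= poly^{-1} and some sheet has |delta| >= poly^{-1}; polydiscs of radius poly^{-1} around x_j are
 evenly covered; sub-mean value of |delta|^{2/N} on the product polydisc.

-/

namespace Crest.Agent.R276.Blueprint_651
end Crest.Agent.R276.Blueprint_651
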