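import Mathlib
import Crest.Agent.R271.RExt2_747
import Crest.Agent.R266.SCV

/-!
# R276, leaf BND, part 1 (helper25): division by a coordinate, uniqueness for transversal first order
equations, on balls of `ℂ^(d+1)` (sup norm) centred at a point `p` with `p 0 = 0`
-/

set_option autoImplicit false

open Set Filter Topology Metric MeasureTheory
open scoped ContDiff ENNReal

namespace Crest.Agent.R276.Bnd1_25

variable {d : ℕ}

/-- `i`-th complex partial derivative -/
noncomputable def pd {F : Type*} [NormedAddCommGroup F] [NormedSpace ℂ F] (i : Fin (d + 1))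
    (f : (Fin (d + 1) → ℂ) → F) (z : Fin (d + 1) → ℂ) : F :=
  fderiv ℂ f z (Pi.single i 1)

section general

variable {F G : Type*} [NormedAddCommGroup F] [NormedSpace ℂ F] [NormedAddCommGroup G]
  [NormedSpace ℂ G]

theorem pd_clm (L : F →L[ℂ] G) {f : (Fin (d + 1) → ℂ) → F} {z : Fin (d + 1) → ℂ}
    (hf : DifferentiableAt ℂ f z) (i : Fin (d + 1)) :
    pd i (fun w => L (f w)) z = L (pd i f z) := by
  have h := (L.hasFDerivAt (x := f z)).comp z hf.hasFDerivAt
  have h2 : fderiv ℂ (fun w => L (f w)) z = L.comp (fderiv ℂ f z) := h.fderiv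
  simp [pd, h2]

theorem pd_smul {c : (Fin (d + 1) → ℂ) → ℂ} {f : (Fin (d + 1) → ℂ) → F} {z : Fin (d + 1) → ℂ}
    (hc : DifferentiableAt ℂ c z) (hf : DifferentiableAt ℂ f z) (i : Fin (d + 1)) :
    pd i (fun w => c w • f w) z = c z • pd i f z + pd i c z • f z := by
  have h := (hc.hasFDerivAt.smul hf.hasFDerivAt).fderiv
  have h2 : fderiv ℂ (fun w => c w • f w) z = c z • fderiv ℂ f z + (fderiv ℂ c z).smulRight (f z) :=
    h
  simp [pd, h2]

theorem pd_coord_pow (k : ℕ) (z : Fin (d + 1) → ℂ) (i : Fin (d + 1)) :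
    pd i (fun w : Fin (d + 1) → ℂ => w 0 ^ (k + 1)) z = if i = 0 then (k + 1) * z 0 ^ k else 0 := by
  have h1 : HasFDerivAt (fun w : Fin (d + 1) → ℂ => w 0)
      (ContinuousLinearMap.proj (R := ℂ) (φ := fun _ : Fin (d + 1) => ℂ) 0) z :=
    (ContinuousLinearMap.proj (R := ℂ) (φ := fun _ : Fin (d + 1) => ℂ) 0).hasFDerivAt
  have h2 := (h1.pow (k + 1)).fderiv
  have h3 : fderiv ℂ (fun w : Fin (d + 1) → ℂ => w 0 ^ (k + 1)) z =
      (((k + 1 : ℕ) : ℂ) * z 0 ^ k) •
        (ContinuousLinearMap.proj (R := ℂ) (φ := fun _ : Fin (d + 1) => ℂ) 0) := by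
    simpa [nsmul_eq_mul] using h2
  rw [pd, h3]
  rcases eq_or_ne i 0 with rfl | hi
  · simp
  · simp [hi, hi.symm]

end general

/-- `update z 0 0` stays in the ball when `p 0 = 0` -/
theorem update_mem {p : Fin (d + 1) → ℂ} (hp : p 0 = 0) {r : ℝ} {z : Fin (d + 1) → ℂ}
    (hz : z ∈ ball p r) {t : ℂ} (ht : ‖t‖ < r) : Function.update z 0 t ∈ ball p r := by
  have hr : 0 < r := (norm_nonneg _).trans_lt ht
  rw [mem_ball, dist_pi_lt_iff hr] at hz ⊢
  intro i
  rcases eq_or_ne i 0 with rfl | hi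
  · simpa [hp] using ht
  · rw [Function.update_of_ne hi]; exact hz i

theorem update_mem_closed {p : Fin (d + 1) → ℂ} (hp : p 0 = 0) {r : ℝ} {z : Fin (d + 1) → ℂ}
    (hz : z ∈ closedBall p r) {t : ℂ} (ht : ‖t‖ ≤ r) : Function.update z 0 t ∈ closedBall p r := by
  have hr : 0 ≤ r := (norm_nonneg _).trans ht
  rw [mem_closedBall, dist_pi_le_iff hr] at hz ⊢
  intro i
  rcases eq_or_ne i 0 with rfl | hi
  · simpa [hp] using ht
  · rw [Function.update_of_ne hi]; exact hz i

theorem norm_coord_lt {p : Fin (d + 1) → ℂ} (hp : p 0 = 0) {r : ℝ} {z : Fin (d + 1) → ℂ}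
    (hz : z ∈ ball p r) : ‖z 0‖ < r := by
  rw [mem_ball] at hz
  have h := (dist_le_pi_dist z p 0).trans_lt hz
  rwa [hp, dist_zero_right] at h

/-- a continuous function vanishing off the hyperplane `z 0 = 0` vanishes -/
theorem eq_zero_of_ne {F : Type*} [NormedAddCommGroup F] {U : Set (Fin (d + 1) → ℂ)} (hU : IsOpen U)
    {h : (Fin (d + 1) → ℂ) → F} (hc : ContinuousOn h U) (h0 : ∀ z ∈ U, z 0 ≠ 0 → h z = 0) :
    ∀ z ∈ U, h z = 0 := by
  intro z hz
  by_cases hz0 : z 0 = 0
  · have hcont : ContinuousAt h z := hc.continuousAt (hU.mem_nhds hz)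
    have h1 : Tendsto (fun t : ℂ => Function.update z 0 t) (𝓝[≠] 0) (𝓝 z) := by
      have h2 : Continuous (fun t : ℂ => Function.update z 0 t) :=
        continuous_const.update 0 continuous_id
      have h3 := h2.tendsto 0
      have h4 : Function.update z 0 (0 : ℂ) = z := by
        rw [← hz0]; exact Function.update_eq_self 0 z
      rw [h4] at h3
      exact h3.mono_left nhdsWithin_le_nhds
    have h5 : Tendsto (fun t : ℂ => h (Function.update z 0 t)) (𝓝[≠] 0) (𝓝 (h z)) :=
      hcont.tendsto.comp h1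
    have h6 : ∀ᶠ t in 𝓝[≠] (0 : ℂ), h (Function.update z 0 t) = 0 := by
      filter_upwards [h1.eventually (hU.mem_nhds hz), self_mem_nhdsWithin] with t ht1 ht2
      exact h0 _ ht1 (by simpa using ht2)
    have h7 : Tendsto (fun t : ℂ => h (Function.update z 0 t)) (𝓝[≠] 0) (𝓝 0) :=
      tendsto_const_nhds.congr' (h6.mono fun t ht => ht.symm)
    exact tendsto_nhds_unique h5 h7
  · exact h0 z hz hz0

/-- **division by `z 0`** -/
theorem exists_div {p : Fin (d + 1) → ℂ} (hp : p 0 = 0) {r : ℝ} {ψ : (Fin (d + 1) → ℂ) → ℂ}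
    (hψ : DifferentiableOn ℂ ψ (ball p r)) (h0 : ∀ z ∈ ball p r, z 0 = 0 → ψ z = 0) :
    ∃ χ : (Fin (d + 1) → ℂ) → ℂ, DifferentiableOn ℂ χ (ball p r) ∧
      ∀ z ∈ ball p r, ψ z = z 0 * χ z := by
  have hA : AnalyticOnNhd ℂ ψ (ball p r) :=
    Crest.Agent.R266.SCV.analyticOnNhd_of_differentiableOn isOpen_ball hψ
  obtain ⟨g, hg, hgf⟩ := Crest.Agent.R271.RExt747.riemann_ext (f := fun z => ψ z / z 0)
    (D := fun z : Fin (d + 1) → ℂ => z 0) (U := ball p r) isOpen_ball
    (by
      intro z _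
      exact (ContinuousLinearMap.proj (R := ℂ) (φ := fun _ : Fin (d + 1) => ℂ) 0).analyticAt z)
    (by
      intro a _ hev
      have h1 : Tendsto (fun t : ℂ => Function.update a 0 (a 0 + t)) (𝓝[≠] 0) (𝓝 a) := by
        have h2 : Continuous (fun t : ℂ => Function.update a 0 (a 0 + t)) :=
          continuous_const.update 0 (by fun_prop)
        have h3 := h2.tendsto 0
        rw [add_zero, Function.update_eq_self] at h3
        exact h3.mono_left nhdsWithin_le_nhds
      have h2 := h1.eventually hev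
      have h3 : ∀ᶠ t in 𝓝[≠] (0 : ℂ), t = - a 0 := by
        filter_upwards [h2] with t ht
        simp only [Function.update_self] at ht
        linear_combination ht
      have h4 : ∀ᶠ t in 𝓝[≠] (0 : ℂ), False := by
        rcases eq_or_ne (a 0) 0 with h | h
        · filter_upwards [h3, self_mem_nhdsWithin] with t ht1 ht2
          rw [h, neg_zero] at ht1
          exact ht2 ht1
        · have h5 : ∀ᶠ t in 𝓝[≠] (0 : ℂ), t ≠ - a 0 :=
            nhdsWithin_le_nhds (isOpen_ne.mem_nhds (by simpa using h))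
          filter_upwards [h3, h5] with t ht1 ht2
          exact ht2 ht1
      exact (h4.exists).elim fun _ h => h)
    (by
      intro z hz
      have h1 : DifferentiableAt ℂ ψ z := hψ.differentiableAt (isOpen_ball.mem_nhds hz.1)
      have h2 : DifferentiableAt ℂ (fun z : Fin (d + 1) → ℂ => z 0) z :=
        (ContinuousLinearMap.proj (R := ℂ) (φ := fun _ : Fin (d + 1) => ℂ) 0).differentiableAt
      have h3 : DifferentiableAt ℂ (fun z : Fin (d + 1) → ℂ => (z 0)⁻¹) z :=
        DifferentiableAt.comp (g := fun t : ℂ => t⁻¹) z (differentiableAt_inv hz.2) h2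
      have h4 : DifferentiableAt ℂ (fun z : Fin (d + 1) → ℂ => ψ z / z 0) z := by
        simp only [div_eq_mul_inv]
        exact h1.mul h3
      exact h4.differentiableWithinAt)
    (by
      intro a ha
      rw [mem_ball] at ha
      obtain ⟨r', hr1, hr2⟩ := exists_between ha
      have hr'0 : 0 < r' := dist_nonneg.trans_lt hr1
      have hsub : closedBall p r' ⊆ ball p r := closedBall_subset_ball hr2
      have hfc : ContinuousOn (fderiv ℂ ψ) (closedBall p r') := fun z hz =>
        (hA z (hsub hz)).fderiv.continuousAt.continuousWithinAt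
      obtain ⟨C, hC⟩ := (isCompact_closedBall p r').exists_bound_of_continuousOn hfc
      have hC0 : 0 ≤ C := (norm_nonneg _).trans (hC p (mem_closedBall_self hr'0.le))
      have hbd : ∀ z ∈ ball p r', ‖ψ z‖ ≤ C * ‖z 0‖ := by
        intro z hz
        have h1 : Function.update z 0 0 ∈ ball p r' := update_mem hp hz (by simpa)
        have h2 := (convex_ball p r').norm_image_sub_le_of_norm_fderiv_le
          (𝕜 := ℂ) (f := ψ) (C := C)
          (fun w hw => hψ.differentiableAt
            (isOpen_ball.mem_nhds (hsub (ball_subset_closedBall hw))))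
          (fun w hw => hC w (ball_subset_closedBall hw)) h1 hz
        rw [h0 _ (hsub (ball_subset_closedBall h1)) (by simp), sub_zero] at h2
        refine h2.trans (mul_le_mul_of_nonneg_left ?_ hC0)
        rw [pi_norm_le_iff_of_nonneg (norm_nonneg _)]
        intro i
        rcases eq_or_ne i 0 with rfl | hi
        · simp
        · simp [hi]
      refine ⟨ball p r', isOpen_ball.mem_nhds (mem_ball.2 hr1), ?_⟩
      calc ∫⁻ z in ball p r' ∩ {z | z 0 ≠ 0}, ‖ψ z / z 0‖ₑ ^ 2
          ≤ ∫⁻ z in ball p r' ∩ {z | z 0 ≠ 0}, ENNReal.ofReal (C ^ 2) := by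
            refine setLIntegral_mono' ?_ ?_
            · refine measurableSet_ball.inter ?_
              have : Measurable (fun z : Fin (d + 1) → ℂ => z 0) := measurable_pi_apply 0
              exact (this (measurableSet_singleton (0 : ℂ))).compl
            · intro z hz
              have h3 : ‖ψ z / z 0‖ ≤ C := by
                rw [norm_div, div_le_iff₀ (norm_pos_iff.2 hz.2)]
                exact hbd z hz.1
              rw [← ofReal_norm, ← ENNReal.ofReal_pow (norm_nonneg _)]
              exact ENNReal.ofReal_le_ofReal (pow_le_pow_left₀ (norm_nonneg _) h3 2)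
        _ = ENNReal.ofReal (C ^ 2) * volume (ball p r' ∩ {z | z 0 ≠ 0}) := by
            rw [setLIntegral_const]
        _ < ⊤ := by
            refine ENNReal.mul_lt_top ENNReal.ofReal_lt_top ?_
            exact (measure_mono inter_subset_left).trans_lt measure_ball_lt_top)
  refine ⟨g, hg, fun z hz => ?_⟩
  by_cases hz0 : z 0 = 0
  · rw [h0 z hz hz0, hz0, zero_mul]
  · rw [hgf z hz hz0]
    field_simp

/-! ### uniqueness for transversal first order equations -/

theorem diffAt_pd {p : Fin (d + 1) → ℂ} {r : ℝ} {F : Type*} [NormedAddCommGroup F]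
    [NormedSpace ℂ F] [CompleteSpace F] {f : (Fin (d + 1) → ℂ) → F}
    (hf : DifferentiableOn ℂ f (ball p r)) (i : Fin (d + 1)) :
    DifferentiableOn ℂ (pd i f) (ball p r) := by
  have hA : AnalyticOnNhd ℂ f (ball p r) :=
    Crest.Agent.R266.SCV.analyticOnNhd_of_differentiableOn isOpen_ball hf
  intro z hz
  have h1 : DifferentiableAt ℂ (fderiv ℂ f) z := (hA z hz).fderiv.differentiableAt
  exact (h1.clm_apply (differentiableAt_const _)).differentiableWithinAt

/-- **uniqueness** (scalar): `∂₀ φ = b φ + Σ_j a_j ∂_{J j} φ` off `z 0 = 0` and `φ = 0` on `z 0 = 0`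
imply `φ = 0`. -/
theorem uniq_scalar {p : Fin (d + 1) → ℂ} (hp : p 0 = 0) {r : ℝ} {ν : ℕ} (J : Fin ν → Fin d)
    {φ : (Fin (d + 1) → ℂ) → ℂ} (hφ : DifferentiableOn ℂ φ (ball p r))
    {b : (Fin (d + 1) → ℂ) → ℂ} {a : Fin ν → (Fin (d + 1) → ℂ) → ℂ}
    (hb : ContinuousOn b (ball p r)) (ha : ∀ j, ContinuousOn (a j) (ball p r))
    (heq : ∀ z ∈ ball p r, z 0 ≠ 0 →
      pd 0 φ z = b z * φ z + ∑ j, a j z * pd (J j).succ φ z)
    (h0 : ∀ z ∈ ball p r, z 0 = 0 → φ z = 0) : ∀ z ∈ ball p r, φ z = 0 := by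
  have hcoord : ∀ z : Fin (d + 1) → ℂ, DifferentiableAt ℂ (fun w : Fin (d + 1) → ℂ => w 0) z :=
    fun z => (ContinuousLinearMap.proj (R := ℂ) (φ := fun _ : Fin (d + 1) => ℂ) 0).differentiableAt
  have key : ∀ k : ℕ, ∃ ψ : (Fin (d + 1) → ℂ) → ℂ, DifferentiableOn ℂ ψ (ball p r) ∧
      ∀ z ∈ ball p r, φ z = z 0 ^ (k + 1) * ψ z := by
    intro k
    induction k with
    | zero =>
      obtain ⟨χ, h1, h2⟩ := exists_div hp hφ h0
      exact ⟨χ, h1, fun z hz => by rw [zero_add, pow_one]; exact h2 z hz⟩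
    | succ k ih =>
      obtain ⟨ψ, hψ, hφψ⟩ := ih
      have hz0 : ∀ z ∈ ball p r, z 0 = 0 → ψ z = 0 := by
        -- the continuous function `H` vanishes off `z 0 = 0`
        have hH : ∀ z ∈ ball p r, ((k : ℂ) + 1) * ψ z - z 0 * (b z * ψ z +
            ∑ j, a j z * pd (J j).succ ψ z - pd 0 ψ z) = 0 := by
          refine eq_zero_of_ne isOpen_ball ?_ ?_
          · have h1 : ContinuousOn (fun z : Fin (d + 1) → ℂ => z 0) (ball p r) :=
              (continuous_apply 0).continuousOn
            have h2 : ∀ i, ContinuousOn (pd i ψ) (ball p r) := fun i =>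
              (diffAt_pd hψ i).continuousOn
            refine (continuousOn_const.mul hψ.continuousOn).sub (h1.mul ?_)
            refine ((hb.mul hψ.continuousOn).add ?_).sub (h2 0)
            exact continuousOn_finsetSum _ (fun j _ => (ha j).mul (h2 _))
          · intro z hz hzne
            have hev : φ =ᶠ[𝓝 z] fun w => (w 0 ^ (k + 1)) • ψ w := by
              filter_upwards [isOpen_ball.mem_nhds hz] with w hw
              rw [hφψ w hw, smul_eq_mul]
            have hψz : DifferentiableAt ℂ ψ z := hψ.differentiableAt (isOpen_ball.mem_nhds hz)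
            have hpd : ∀ i, pd i φ z = z 0 ^ (k + 1) * pd i ψ z +
                (if i = 0 then ((k : ℂ) + 1) * z 0 ^ k else 0) * ψ z := by
              intro i
              have h1 : pd i φ z = pd i (fun w => (w 0 ^ (k + 1)) • ψ w) z := by
                rw [pd, pd, hev.fderiv_eq]
              have h2 : DifferentiableAt ℂ (fun w : Fin (d + 1) → ℂ => w 0 ^ (k + 1)) z :=
                (hcoord z).pow (k + 1)
              rw [h1, pd_smul h2 hψz, pd_coord_pow]
              simp only [smul_eq_mul]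
            have h3 := heq z hz hzne
            rw [hφψ z hz, hpd 0, if_pos rfl] at h3
            have h4 : ∀ j, pd (J j).succ φ z = z 0 ^ (k + 1) * pd (J j).succ ψ z := by
              intro j
              rw [hpd, if_neg (Fin.succ_ne_zero _), zero_mul, add_zero]
            simp only [h4] at h3
            have h5 : z 0 ^ k ≠ 0 := pow_ne_zero _ hzne
            apply mul_left_cancel₀ h5
            have h6 : ∑ j, a j z * (z 0 ^ (k + 1) * pd (J j).succ ψ z) =
                z 0 ^ (k + 1) * ∑ j, a j z * pd (J j).succ ψ z := by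
              rw [Finset.mul_sum]
              exact Finset.sum_congr rfl fun j _ => by ring
            rw [h6] at h3
            rw [mul_zero]
            linear_combination h3
        intro z hz hz0
        have h1 := hH z hz
        rw [hz0, zero_mul, sub_zero] at h1
        have h2 : ((k : ℂ) + 1) ≠ 0 := by exact_mod_cast Nat.succ_ne_zero k
        exact (mul_eq_zero.1 h1).resolve_left h2
      obtain ⟨χ, h1, h2⟩ := exists_div hp hψ hz0
      exact ⟨χ, h1, fun z hz => by rw [hφψ z hz, h2 z hz]; ring⟩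
  intro z hz
  -- the slice through `z`
  set g : ℂ → ℂ := fun t => φ (Function.update z 0 t) with hg
  have hupd : ∀ t : ℂ, HasFDerivAt (fun t : ℂ => Function.update z 0 t)
      (ContinuousLinearMap.pi (Pi.single 0 (ContinuousLinearMap.id ℂ ℂ))) t := by
    intro t
    exact hasFDerivAt_update z t
  have hgd : DifferentiableOn ℂ g (ball 0 r) := by
    intro t ht
    rw [mem_ball_zero_iff] at ht
    have h1 : DifferentiableAt ℂ φ (Function.update z 0 t) :=
      hφ.differentiableAt (isOpen_ball.mem_nhds (update_mem hp hz ht))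
    exact (DifferentiableAt.comp t h1 (hupd t).differentiableAt).differentiableWithinAt
  have hga : AnalyticOnNhd ℂ g (ball 0 r) := hgd.analyticOnNhd isOpen_ball
  have hr : 0 < r := (norm_nonneg _).trans_lt (norm_coord_lt hp hz)
  have hev : ∀ᶠ t in 𝓝 (0 : ℂ), g t = 0 := by
    by_contra hcon
    obtain ⟨n, G, hG, hG0, hGe⟩ :=
      (hga 0 (mem_ball_self hr)).exists_eventuallyEq_pow_smul_nonzero_iff.2 hcon
    obtain ⟨ψ, hψ, hφψ⟩ := key n
    have h1 : ∀ᶠ t in 𝓝[≠] (0 : ℂ), G t = t * ψ (Function.update z 0 t) := by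
      filter_upwards [nhdsWithin_le_nhds hGe, nhdsWithin_le_nhds (ball_mem_nhds (0 : ℂ) hr),
        self_mem_nhdsWithin] with t ht1 ht2 ht3
      have h2 := hφψ _ (update_mem hp hz (by rwa [mem_ball_zero_iff] at ht2))
      rw [Function.update_self] at h2
      have h3 : g t = t ^ (n + 1) * ψ (Function.update z 0 t) := h2
      rw [h3, sub_zero, smul_eq_mul] at ht1
      have h4 : t ^ n ≠ 0 := pow_ne_zero _ ht3
      apply mul_left_cancel₀ h4
      rw [← ht1]; ring
    have h2 : Tendsto (fun t : ℂ => t * ψ (Function.update z 0 t)) (𝓝[≠] 0) (𝓝 0) := by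
      have hc1 : ContinuousAt (fun t : ℂ => ψ (Function.update z 0 t)) 0 := by
        have h3 : ContinuousAt ψ (Function.update z 0 0) :=
          (hψ.differentiableAt (isOpen_ball.mem_nhds (update_mem hp hz (by simpa)))).continuousAt
        exact ContinuousAt.comp (f := fun t : ℂ => Function.update z 0 t) (g := ψ) h3
          (hupd 0).continuousAt
      have hc2 := (continuousAt_id (x := (0 : ℂ))).mul hc1
      have := hc2.tendsto
      simp only [id, zero_mul, Pi.mul_apply] at this
      exact this.mono_left nhdsWithin_le_nhds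
    have h3 : Tendsto G (𝓝[≠] 0) (𝓝 (G 0)) := hG.continuousAt.tendsto.mono_left nhdsWithin_le_nhds
    have h4 : Tendsto G (𝓝[≠] 0) (𝓝 0) := h2.congr' (h1.mono fun t ht => ht.symm)
    exact hG0 (tendsto_nhds_unique h3 h4)
  have h5 := hga.eqOn_zero_of_preconnected_of_eventuallyEq_zero (convex_ball 0 r).isPreconnected
    (mem_ball_self hr) hev (show z 0 ∈ ball (0 : ℂ) r by
      rw [mem_ball_zero_iff]; exact norm_coord_lt hp hz)
  simpa [hg] using h5

/-- **uniqueness** (vector valued) -/
theorem uniq {F : Type*} [NormedAddCommGroup F] [NormedSpace ℂ F]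
    {p : Fin (d + 1) → ℂ} (hp : p 0 = 0) {r : ℝ} {ν : ℕ} (J : Fin ν → Fin d)
    {φ : (Fin (d + 1) → ℂ) → F} (hφ : DifferentiableOn ℂ φ (ball p r))
    {b : (Fin (d + 1) → ℂ) → ℂ} {a : Fin ν → (Fin (d + 1) → ℂ) → ℂ}
    (hb : ContinuousOn b (ball p r)) (ha : ∀ j, ContinuousOn (a j) (ball p r))
    (heq : ∀ z ∈ ball p r, z 0 ≠ 0 →
      pd 0 φ z = b z • φ z + ∑ j, a j z • pd (J j).succ φ z)
    (h0 : ∀ z ∈ ball p r, z 0 = 0 → φ z = 0) : ∀ z ∈ ball p r, φ z = 0 := by
  intro z hz
  refine SeparatingDual.eq_zero_of_forall_dual_eq_zero (R := ℂ) (fun L => ?_)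
  refine uniq_scalar hp J (φ := fun w => L (φ w)) (L.differentiable.comp_differentiableOn hφ)
    hb ha ?_ ?_ z hz
  · intro w hw hw0
    have hd : DifferentiableAt ℂ φ w := hφ.differentiableAt (isOpen_ball.mem_nhds hw)
    rw [pd_clm L hd, heq w hw hw0, map_add, map_smul, map_sum]
    simp only [map_smul, smul_eq_mul, pd_clm L hd]
  · intro w hw hw0
    rw [h0 w hw hw0, map_zero]

/-- **(C1)**: `L` nilpotent, `L f = κ z₀ (b f + Σ a_j ∂_j f - ∂₀ f)` imply `L f = 0`. -/
theorem nil_zero {V : Type*} [NormedAddCommGroup V] [NormedSpace ℂ V]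
    {p : Fin (d + 1) → ℂ} (hp : p 0 = 0) {r : ℝ} {ν : ℕ} (J : Fin ν → Fin d)
    {f : (Fin (d + 1) → ℂ) → V} (hf : DifferentiableOn ℂ f (ball p r))
    {b : (Fin (d + 1) → ℂ) → ℂ} {a : Fin ν → (Fin (d + 1) → ℂ) → ℂ}
    (hb : ContinuousOn b (ball p r)) (ha : ∀ j, ContinuousOn (a j) (ball p r))
    (L : V →L[ℂ] V) (hL : IsNilpotent L) {κ : ℂ} (hκ : κ ≠ 0)
    (heq : ∀ z ∈ ball p r, L (f z) =
      (κ * z 0) • (b z • f z + ∑ j, a j z • pd (J j).succ f z - pd 0 f z)) :
    ∀ z ∈ ball p r, L (f z) = 0 := by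
  have key : ∀ n : ℕ, (∀ z ∈ ball p r, (L ^ (n + 1)) (f z) = 0) → ∀ z ∈ ball p r, L (f z) = 0 := by
    intro n
    induction n with
    | zero => intro h z hz; simpa using h z hz
    | succ n ih =>
      intro h
      refine ih ?_
      have hg : DifferentiableOn ℂ (fun z => (L ^ (n + 1)) (f z)) (ball p r) :=
        (L ^ (n + 1)).differentiable.comp_differentiableOn hf
      refine uniq hp J hg hb ha ?_ ?_
      · intro z hz hz0
        have hd : DifferentiableAt ℂ f z := hf.differentiableAt (isOpen_ball.mem_nhds hz)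
        have h1 := congrArg (L ^ (n + 1)) (heq z hz)
        have h2 : (L ^ (n + 1)) (L (f z)) = (L ^ (n + 1 + 1)) (f z) := by
          rw [pow_succ L (n + 1)]; rfl
        rw [h2, h z hz, map_smul, map_sub, map_add, map_smul, map_sum] at h1
        have h3 := (smul_eq_zero.1 h1.symm).resolve_left (mul_ne_zero hκ hz0)
        simp only [map_smul] at h3
        simp only [pd_clm (L ^ (n + 1)) hd]
        exact (sub_eq_zero.1 h3).symm
      · intro z hz hz0
        have h1 := congrArg (L ^ n) (heq z hz)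
        have h2 : (L ^ n) (L (f z)) = (L ^ (n + 1)) (f z) := by
          rw [pow_succ L n]; rfl
        rw [h2, hz0, mul_zero, zero_smul, map_zero] at h1
        exact h1
  obtain ⟨n, hn⟩ := hL
  refine key n (fun z _ => ?_)
  rw [pow_succ, hn]; simp

/-- **(C2)**: if `∂₀ f = b f + Σ a_j ∂_j f` and `τ f = f` on `z 0 = 0` then `τ f = f`. -/
theorem scalar_action {V : Type*} [NormedAddCommGroup V] [NormedSpace ℂ V]
    {p : Fin (d + 1) → ℂ} (hp : p 0 = 0) {r : ℝ} {ν : ℕ} (J : Fin ν → Fin d)
    {f : (Fin (d + 1) → ℂ) → V} (hf : DifferentiableOn ℂ f (ball p r))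
    {b : (Fin (d + 1) → ℂ) → ℂ} {a : Fin ν → (Fin (d + 1) → ℂ) → ℂ}
    (hb : ContinuousOn b (ball p r)) (ha : ∀ j, ContinuousOn (a j) (ball p r))
    (τ : V →L[ℂ] V)
    (heq : ∀ z ∈ ball p r, z 0 ≠ 0 → pd 0 f z = b z • f z + ∑ j, a j z • pd (J j).succ f z)
    (h0 : ∀ z ∈ ball p r, z 0 = 0 → τ (f z) = f z) : ∀ z ∈ ball p r, τ (f z) = f z := by
  have hL : ∀ z, (τ - ContinuousLinearMap.id ℂ V) (f z) = τ (f z) - f z := fun z => by simp
  have hg : DifferentiableOn ℂ (fun z => (τ - ContinuousLinearMap.id ℂ V) (f z)) (ball p r) :=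
    (τ - ContinuousLinearMap.id ℂ V).differentiable.comp_differentiableOn hf
  have h1 := uniq hp J hg hb ha
    (fun z hz hz0 => by
      have hd : DifferentiableAt ℂ f z := hf.differentiableAt (isOpen_ball.mem_nhds hz)
      simp only [pd_clm _ hd]
      rw [heq z hz hz0, map_add, map_smul, map_sum]
      simp only [map_smul])
    (fun z hz hz0 => by rw [hL, h0 z hz hz0, sub_self])
  intro z hz
  have h2 := h1 z hz
  rw [hL] at h2
  exact sub_eq_zero.1 h2

end Crest.Agent.R276.Bnd1_25
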