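import Mathlib
import Crest.Agent.R276.Bnd1_25

/-!
# R276, leaf BND, part 2 (helper25): the boundary theorem

Steps (B)+(C) of post 564 (and (c) of post 1003).  `f` is the single valued holomorphic vector
`ω₀ = exp(- N log x / 2πi) ω` near a point `p` of the divisor `z 0 = 0`, `L = N` is nilpotent, `S` the flat
Hermitian form, `gram S A J f z = (star (X b z) ⬝ᵥ S *ᵥ A *ᵥ X a z)_{b a}` with
`X = (f, ∂_{J 0} f, …, ∂_{J (ν-1)} f)`.
-/

set_option autoImplicit false

open Set Filter Topology Metric Matrix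
open scoped ContDiff

namespace Crest.Agent.R276.Bnd2_25

open Crest.Agent.R276.Bnd1_25

variable {d N : ℕ}

/-- the flat sesquilinear form (conjugate linear in the first argument) -/
def sf (S : Matrix (Fin N) (Fin N) ℂ) (v w : Fin N → ℂ) : ℂ := star v ⬝ᵥ S *ᵥ w

theorem sf_add_left (S : Matrix (Fin N) (Fin N) ℂ) (v v' w : Fin N → ℂ) :
    sf S (v + v') w = sf S v w + sf S v' w := by
  simp [sf, add_dotProduct]

theorem sf_add_right (S : Matrix (Fin N) (Fin N) ℂ) (v w w' : Fin N → ℂ) :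
    sf S v (w + w') = sf S v w + sf S v w' := by
  simp [sf, mulVec_add, dotProduct_add]

theorem sf_smul_left (S : Matrix (Fin N) (Fin N) ℂ) (c : ℂ) (v w : Fin N → ℂ) :
    sf S (c • v) w = star c * sf S v w := by
  simp [sf, smul_dotProduct]

theorem sf_smul_right (S : Matrix (Fin N) (Fin N) ℂ) (c : ℂ) (v w : Fin N → ℂ) :
    sf S v (c • w) = c * sf S v w := by
  simp [sf, mulVec_smul, dotProduct_smul]

/-- `w ↦ S(v, A w)` as a linear functional -/
noncomputable def fn (S A : Matrix (Fin N) (Fin N) ℂ) (v : Fin N → ℂ) : (Fin N → ℂ) →L[ℂ] ℂ :=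
  LinearMap.toContinuousLinearMap
    { toFun := fun w => sf S v (A *ᵥ w)
      map_add' := fun w w' => by rw [mulVec_add, sf_add_right]
      map_smul' := fun c w => by rw [mulVec_smul, sf_smul_right]; rfl }

@[simp] theorem fn_apply (S A : Matrix (Fin N) (Fin N) ℂ) (v w : Fin N → ℂ) :
    fn S A v w = sf S v (A *ᵥ w) := rfl

/-- a matrix as a continuous linear map -/
noncomputable def mv (A : Matrix (Fin N) (Fin N) ℂ) : (Fin N → ℂ) →L[ℂ] (Fin N → ℂ) :=
  LinearMap.toContinuousLinearMap A.mulVecLin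

@[simp] theorem mv_apply (A : Matrix (Fin N) (Fin N) ℂ) (v : Fin N → ℂ) : mv A v = A *ᵥ v := rfl

theorem mv_pow (A : Matrix (Fin N) (Fin N) ℂ) (n : ℕ) : mv A ^ n = mv (A ^ n) := by
  induction n with
  | zero => ext v; simp
  | succ n ih =>
    rw [pow_succ, pow_succ, ih]
    ext v
    simp

theorem mv_nilpotent {A : Matrix (Fin N) (Fin N) ℂ} (h : IsNilpotent A) : IsNilpotent (mv A) := by
  obtain ⟨n, hn⟩ := h
  refine ⟨n, ?_⟩
  rw [mv_pow, hn]
  ext v; simp

/-- `sf` as a bounded real bilinear map -/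
theorem sf_bilin (S : Matrix (Fin N) (Fin N) ℂ) :
    IsBoundedBilinearMap ℝ (fun p : (Fin N → ℂ) × (Fin N → ℂ) => sf S p.1 p.2) where
  add_left x₁ x₂ y := sf_add_left S x₁ x₂ y
  smul_left c x y := by
    have : c • x = (c : ℂ) • x := by ext i; simp
    simp only [this, sf_smul_left]
    simp
  add_right x y₁ y₂ := sf_add_right S x y₁ y₂
  smul_right c x y := by
    have : c • y = (c : ℂ) • y := by ext i; simp
    simp only [this, sf_smul_right]
    simp
  bound := by
    refine ⟨(N + 1) * (‖mv S‖ + 1), by positivity, fun x y => ?_⟩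
    have h1 : ‖sf S x y‖ ≤ ∑ i, ‖x i‖ * ‖(S *ᵥ y) i‖ := by
      unfold sf dotProduct
      refine (norm_sum_le _ _).trans (Finset.sum_le_sum fun i _ => ?_)
      rw [norm_mul]
      simp
    have h2 : ‖S *ᵥ y‖ ≤ ‖mv S‖ * ‖y‖ := (mv S).le_opNorm y
    have h3 : ∀ i, ‖x i‖ * ‖(S *ᵥ y) i‖ ≤ ‖x‖ * (‖mv S‖ * ‖y‖) := fun i =>
      mul_le_mul (norm_le_pi_norm x i) ((norm_le_pi_norm _ i).trans h2) (norm_nonneg _)
        (norm_nonneg _)
    refine h1.trans ((Finset.sum_le_sum fun i _ => h3 i).trans ?_)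
    rw [Finset.sum_const, Finset.card_univ, Fintype.card_fin, nsmul_eq_mul]
    have h4 : (N : ℝ) ≤ N + 1 := by linarith
    have h5 : ‖mv S‖ ≤ ‖mv S‖ + 1 := by linarith
    calc (N : ℝ) * (‖x‖ * (‖mv S‖ * ‖y‖)) ≤ (N + 1) * (‖x‖ * ((‖mv S‖ + 1) * ‖y‖)) := by gcongr
      _ = (N + 1) * (‖mv S‖ + 1) * ‖x‖ * ‖y‖ := by ring

/-- real directional derivative of `S(u, v)` along `θ e_i` -/
theorem hasDerivAt_sf (S : Matrix (Fin N) (Fin N) ℂ) {u v : (Fin (d + 1) → ℂ) → Fin N → ℂ}
    {z : Fin (d + 1) → ℂ} (hu : DifferentiableAt ℂ u z) (hv : DifferentiableAt ℂ v z)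
    (i : Fin (d + 1)) (θ : ℂ) :
    HasDerivAt (fun t : ℝ => sf S (u (z + (t : ℂ) • (θ • (Pi.single i 1 : Fin (d + 1) → ℂ))))
      (v (z + (t : ℂ) • (θ • (Pi.single i 1 : Fin (d + 1) → ℂ)))))
      (sf S (u z) (θ • pd i v z) + sf S (θ • pd i u z) (v z)) 0 := by
  set e : Fin (d + 1) → ℂ := θ • (Pi.single i 1 : Fin (d + 1) → ℂ) with he
  have hline : ∀ w : (Fin (d + 1) → ℂ) → Fin N → ℂ, DifferentiableAt ℂ w z →
      HasDerivAt (fun t : ℝ => w (z + (t : ℂ) • e)) (θ • pd i w z) 0 := by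
    intro w hw
    have h1 : HasDerivAt (fun t : ℂ => z + t • e) e 0 := by
      simpa using ((hasDerivAt_id (0 : ℂ)).smul_const e).const_add z
    have h2 : HasFDerivAt w (fderiv ℂ w z) (z + (0 : ℂ) • e) := by simpa using hw.hasFDerivAt
    have h3 := h2.comp_hasDerivAt (0 : ℂ) h1
    have h4 : HasDerivAt (fun t : ℂ => w (z + t • e)) (fderiv ℂ w z e) (Complex.ofReal 0) := by
      rw [Complex.ofReal_zero]; exact h3
    have h5 := h4.scomp (0 : ℝ) Complex.ofRealCLM.hasDerivAt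
    have h6 : fderiv ℂ w z e = θ • pd i w z := by rw [he, map_smul]; rfl
    rw [h6] at h5
    refine h5.congr_deriv ?_
    simp
  have h1 := (hline u hu).prodMk (hline v hv)
  have h2 := ((sf_bilin S).hasFDerivAt (u z, v z))
  have h3 : HasFDerivAt (fun p : (Fin N → ℂ) × (Fin N → ℂ) => sf S p.1 p.2)
      ((sf_bilin S).deriv (u z, v z)) (u (z + ((0 : ℝ) : ℂ) • e), v (z + ((0 : ℝ) : ℂ) • e)) := by
    simpa using h2
  have h4 := h3.comp_hasDerivAt (0 : ℝ) h1
  refine h4.congr_deriv ?_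
  simp

/-- **polarisation**: `S(u, v) = 0` on the hyperplane `z 0 = 0` implies `S(∂_i u, v) = 0 = S(u, ∂_i v)`
there, `i ≠ 0`. -/
theorem polar (S : Matrix (Fin N) (Fin N) ℂ) {p : Fin (d + 1) → ℂ} {r : ℝ}
    {u v : (Fin (d + 1) → ℂ) → Fin N → ℂ} (hu : DifferentiableOn ℂ u (ball p r))
    (hv : DifferentiableOn ℂ v (ball p r))
    (h : ∀ z ∈ ball p r, z 0 = 0 → sf S (u z) (v z) = 0) {z : Fin (d + 1) → ℂ}
    (hz : z ∈ ball p r) (hz0 : z 0 = 0) (i : Fin d) :
    sf S (pd i.succ u z) (v z) = 0 ∧ sf S (u z) (pd i.succ v z) = 0 := by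
  have hu' : DifferentiableAt ℂ u z := hu.differentiableAt (isOpen_ball.mem_nhds hz)
  have hv' : DifferentiableAt ℂ v z := hv.differentiableAt (isOpen_ball.mem_nhds hz)
  have key : ∀ θ : ℂ, sf S (u z) (θ • pd i.succ v z) + sf S (θ • pd i.succ u z) (v z) = 0 := by
    intro θ
    have h1 := hasDerivAt_sf S hu' hv' i.succ θ
    have h2 : ∀ᶠ t : ℝ in 𝓝 0, sf S (u (z + (t : ℂ) • (θ • (Pi.single i.succ 1 : Fin (d + 1) → ℂ))))
        (v (z + (t : ℂ) • (θ • (Pi.single i.succ 1 : Fin (d + 1) → ℂ)))) = 0 := by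
      have h3 : Tendsto (fun t : ℝ => z + (t : ℂ) • (θ • (Pi.single i.succ 1 : Fin (d + 1) → ℂ)))
          (𝓝 0) (𝓝 z) := by
        have : Continuous (fun t : ℝ => z + (t : ℂ) • (θ • (Pi.single i.succ 1 :
            Fin (d + 1) → ℂ))) := by fun_prop
        have h4 := this.tendsto 0
        simpa using h4
      filter_upwards [h3.eventually (isOpen_ball.mem_nhds hz)] with t ht
      refine h _ ht ?_
      simp [hz0, (Fin.succ_ne_zero i).symm]
    have h5 : HasDerivAt (fun _ : ℝ => (0 : ℂ)) (sf S (u z) (θ • pd i.succ v z) +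
        sf S (θ • pd i.succ u z) (v z)) 0 :=
      h1.congr_of_eventuallyEq (h2.mono fun t ht => ht.symm)
    exact h5.unique (hasDerivAt_const 0 0)
  have h1 := key 1
  have h2 := key Complex.I
  rw [sf_smul_right, sf_smul_left] at h1 h2
  simp only [star_one, one_mul, Complex.star_def, Complex.conj_I] at h1 h2
  have hI : Complex.I * Complex.I = -1 := Complex.I_mul_I
  constructor
  · linear_combination (1 / 2 : ℂ) * h1 + (1 / 2 : ℂ) * Complex.I * h2 +
      (1 / 2 : ℂ) * (sf S (pd i.succ u z) (v z) - sf S (u z) (pd i.succ v z)) * hI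
  · linear_combination (1 / 2 : ℂ) * h1 - (1 / 2 : ℂ) * Complex.I * h2 -
      (1 / 2 : ℂ) * (sf S (pd i.succ u z) (v z) - sf S (u z) (pd i.succ v z)) * hI

/-- `f, ∂_{J 0} f, …` -/
noncomputable def X {ν : ℕ} (J : Fin ν → Fin d) (f : (Fin (d + 1) → ℂ) → Fin N → ℂ)
    (a : Fin (ν + 1)) (z : Fin (d + 1) → ℂ) : Fin N → ℂ :=
  Fin.cases (f z) (fun j => pd (J j).succ f z) a

@[simp] theorem X_zero {ν : ℕ} (J : Fin ν → Fin d) (f : (Fin (d + 1) → ℂ) → Fin N → ℂ)
    (z : Fin (d + 1) → ℂ) : X J f 0 z = f z := rfl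

@[simp] theorem X_succ {ν : ℕ} (J : Fin ν → Fin d) (f : (Fin (d + 1) → ℂ) → Fin N → ℂ) (j : Fin ν)
    (z : Fin (d + 1) → ℂ) : X J f j.succ z = pd (J j).succ f z := rfl

theorem diff_X {ν : ℕ} (J : Fin ν → Fin d) {f : (Fin (d + 1) → ℂ) → Fin N → ℂ}
    {p : Fin (d + 1) → ℂ} {r : ℝ} (hf : DifferentiableOn ℂ f (ball p r)) (a : Fin (ν + 1)) :
    DifferentiableOn ℂ (X J f a) (ball p r) := by
  refine Fin.cases ?_ (fun j => ?_) a
  · exact hf
  · exact diffAt_pd hf _

/-- the Gram matrix `S(X_b, A X_a)` -/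
noncomputable def gram (S A : Matrix (Fin N) (Fin N) ℂ) {ν : ℕ} (J : Fin ν → Fin d)
    (f : (Fin (d + 1) → ℂ) → Fin N → ℂ) (z z' : Fin (d + 1) → ℂ) :
    Matrix (Fin (ν + 1)) (Fin (ν + 1)) ℂ :=
  Matrix.of fun b a => sf S (X J f b z) (A *ᵥ X J f a z')

theorem differentiableOn_det {n : Type*} [Fintype n] [DecidableEq n] {E : Type*}
    [NormedAddCommGroup E] [NormedSpace ℂ E] {M : E → Matrix n n ℂ} {s : Set E}
    (h : ∀ i j, DifferentiableOn ℂ (fun z => M z i j) s) :
    DifferentiableOn ℂ (fun z => (M z).det) s := by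
  simp only [det_apply]
  refine DifferentiableOn.fun_sum fun σ _ => ?_
  refine DifferentiableOn.const_smul ?_ _
  intro z hz
  exact (HasFDerivWithinAt.finsetProd (u := Finset.univ) (g := fun i z => M z (σ i) i)
    (fun i _ => (h (σ i) i z hz).hasFDerivWithinAt)).differentiableWithinAt

/-- **Cramer's rule at the boundary** -/
theorem cramer {p : Fin (d + 1) → ℂ} {r : ℝ} (hr : 0 < r) {ν : ℕ}
    (J : Fin ν → Fin d) {f : (Fin (d + 1) → ℂ) → Fin N → ℂ}
    (hf : DifferentiableOn ℂ f (ball p r)) (S A : Matrix (Fin N) (Fin N) ℂ)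
    (hdet : (gram S A J f p p).det ≠ 0) {g : (Fin (d + 1) → ℂ) → Fin N → ℂ}
    (hg : DifferentiableOn ℂ g (ball p r))
    (hspan : ∀ z ∈ ball p r, z 0 ≠ 0 → g z ∈ Submodule.span ℂ (range fun a => X J f a z)) :
    ∃ r' : ℝ, 0 < r' ∧ r' ≤ r ∧ (∀ z ∈ ball p r', (gram S A J f z z).det ≠ 0) ∧
      ∃ α : Fin (ν + 1) → (Fin (d + 1) → ℂ) → ℂ,
      (∀ a, DifferentiableOn ℂ (α a) (ball p r')) ∧
      ∀ z ∈ ball p r', g z = ∑ a, α a z • X J f a z := by
  set M : (Fin (d + 1) → ℂ) → Matrix (Fin (ν + 1)) (Fin (ν + 1)) ℂ := fun z => gram S A J f p z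
    with hM
  have hMd : ∀ i j, DifferentiableOn ℂ (fun z => M z i j) (ball p r) := by
    intro i j
    exact (fn S A (X J f i p)).differentiable.comp_differentiableOn (diff_X J hf j)
  have hdetd : DifferentiableOn ℂ (fun z => (M z).det) (ball p r) := differentiableOn_det hMd
  have hp : p ∈ ball p r := mem_ball_self hr
  have hc1 : ∀ᶠ z in 𝓝 p, (M z).det ≠ 0 :=
    (hdetd.differentiableAt (isOpen_ball.mem_nhds hp)).continuousAt.eventually_ne hdet
  have hgramc : ContinuousAt (fun z => (gram S A J f z z).det) p := by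
    have h1 : ∀ a, ContinuousAt (X J f a) p := fun a =>
      ((diff_X J hf a).differentiableAt (isOpen_ball.mem_nhds hp)).continuousAt
    have h2 : ContinuousAt (fun z => gram S A J f z z) p := by
      refine continuousAt_pi.2 fun b => continuousAt_pi.2 fun a => ?_
      have h3 : ContinuousAt (fun z => A *ᵥ X J f a z) p :=
        (mv A).continuous.continuousAt.comp (h1 a)
      exact (sf_bilin S).continuous.continuousAt.comp (f := fun z => (X J f b z, A *ᵥ X J f a z))
        ((h1 b).prodMk h3)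
    exact (Continuous.matrix_det continuous_id).continuousAt.comp h2
  have hc2 : ∀ᶠ z in 𝓝 p, (gram S A J f z z).det ≠ 0 := hgramc.eventually_ne hdet
  obtain ⟨r₁, hr₁, hr₁'⟩ := Metric.eventually_nhds_iff_ball.1 (hc1.and hc2)
  set r' := min r r₁ with hr'
  have hr'0 : 0 < r' := lt_min hr hr₁
  have hsub : ball p r' ⊆ ball p r := ball_subset_ball (min_le_left _ _)
  have hsub₁ : ball p r' ⊆ ball p r₁ := ball_subset_ball (min_le_right _ _)
  set R : (Fin (d + 1) → ℂ) → Fin (ν + 1) → ℂ := fun z b => sf S (X J f b p) (A *ᵥ g z) with hR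
  have hRd : ∀ b, DifferentiableOn ℂ (fun z => R z b) (ball p r) := fun b =>
    (fn S A (X J f b p)).differentiable.comp_differentiableOn hg
  set α : Fin (ν + 1) → (Fin (d + 1) → ℂ) → ℂ := fun a z => ((M z).updateCol a (R z)).det *
    ((M z).det)⁻¹ with hα
  have hαd : ∀ a, DifferentiableOn ℂ (α a) (ball p r') := by
    intro a
    refine DifferentiableOn.mul ?_ ?_
    · refine (differentiableOn_det (fun i j => ?_)).mono hsub
      by_cases hj : j = a
      · subst hj
        simp only [updateCol_self]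
        exact hRd i
      · simp only [updateCol_ne hj]
        exact hMd i j
    · intro z hz
      have h1 : DifferentiableAt ℂ (fun z => (M z).det) z :=
        hdetd.differentiableAt (isOpen_ball.mem_nhds (hsub hz))
      exact (DifferentiableAt.comp (g := fun t : ℂ => t⁻¹) z
        (differentiableAt_inv (hr₁' z (hsub₁ hz)).1) h1).differentiableWithinAt
  refine ⟨r', hr'0, min_le_left _ _, fun z hz => (hr₁' z (hsub₁ hz)).2, α, hαd, ?_⟩
  have hne : ∀ z ∈ ball p r', z 0 ≠ 0 → g z - ∑ a, α a z • X J f a z = 0 := by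
    intro z hz hz0
    obtain ⟨β, hβ⟩ := (Submodule.mem_span_range_iff_exists_fun ℂ).1 (hspan z (hsub hz) hz0)
    have hRβ : R z = M z *ᵥ β := by
      funext b
      simp only [hR, hM, gram]
      rw [← hβ]
      have h1 : ∀ w : Fin N → ℂ, sf S (X J f b p) (A *ᵥ w) = fn S A (X J f b p) w := fun w => rfl
      rw [h1, map_sum]
      simp only [map_smul, fn_apply, mulVec, dotProduct, of_apply, smul_eq_mul]
      exact Finset.sum_congr rfl fun a _ => mul_comm _ _
    have hαβ : ∀ a, α a z = β a := by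
      intro a
      have h1 : ((M z).updateCol a (R z)).det = (M z).cramer (R z) a := (cramer_apply _ _ _).symm
      have h2 : (M z).cramer (R z) = (M z).det • β := by
        rw [cramer_eq_adjugate_mulVec, hRβ, mulVec_mulVec, adjugate_mul, smul_mulVec, one_mulVec]
      simp only [hα]
      rw [h1, h2, Pi.smul_apply, smul_eq_mul]
      have h3 := (hr₁' z (hsub₁ hz)).1
      field_simp
    rw [← hβ, sub_eq_zero]
    exact Finset.sum_congr rfl fun a _ => by rw [hαβ a]
  have hcont : ContinuousOn (fun z => g z - ∑ a, α a z • X J f a z) (ball p r') := by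
    refine (hg.mono hsub).continuousOn.sub (continuousOn_finsetSum _ fun a _ => ?_)
    exact (hαd a).continuousOn.smul ((diff_X J hf a).mono hsub).continuousOn
  intro z hz
  exact sub_eq_zero.1 (eq_zero_of_ne isOpen_ball hcont hne z hz)

/-- **the boundary theorem** -/
theorem bnd {p : Fin (d + 1) → ℂ} (hp : p 0 = 0) {r : ℝ} (hr : 0 < r) {ν k : ℕ}
    (J : Fin ν → Fin d) {f : (Fin (d + 1) → ℂ) → Fin N → ℂ}
    (hf : DifferentiableOn ℂ f (ball p r)) {S L : Matrix (Fin N) (Fin N) ℂ} (hL : IsNilpotent L)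
    {c : ℂ} (hc : c ≠ 0)
    (hspan : ∀ z ∈ ball p r, z 0 ≠ 0 →
      c • (L *ᵥ f z) + z 0 • pd 0 f z ∈ Submodule.span ℂ (range fun a => X J f a z))
    (htop : ∀ z ∈ ball p r, z 0 = 0 → sf S (f z) (L ^ (k + 1) *ᵥ f z) = 0)
    (hdet : (gram S (L ^ k) J f p p).det ≠ 0) :
    ∃ r' : ℝ, 0 < r' ∧ r' ≤ r ∧ (∀ z ∈ ball p r', L *ᵥ f z = 0) ∧
      ∃ (b : (Fin (d + 1) → ℂ) → ℂ) (a : Fin ν → (Fin (d + 1) → ℂ) → ℂ),
        DifferentiableOn ℂ b (ball p r') ∧ (∀ j, DifferentiableOn ℂ (a j) (ball p r')) ∧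
        ∀ z ∈ ball p r', pd 0 f z = b z • f z + ∑ j, a j z • pd (J j).succ f z := by
  have hcoord : Differentiable ℂ (fun w : Fin (d + 1) → ℂ => w 0) :=
    (ContinuousLinearMap.proj (R := ℂ) (φ := fun _ : Fin (d + 1) => ℂ) 0).differentiable
  have hLf : DifferentiableOn ℂ (fun z => L *ᵥ f z) (ball p r) :=
    (mv L).differentiable.comp_differentiableOn hf
  have hg : DifferentiableOn ℂ (fun z => c • (L *ᵥ f z) + z 0 • pd 0 f z) (ball p r) :=
    (hLf.const_smul c).add (hcoord.differentiableOn.smul (diffAt_pd hf 0))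
  obtain ⟨r', hr'0, hr'r, hgd, α, hα, heq⟩ := cramer hr J hf S (L ^ k) hdet hg hspan
  have hsub : ball p r' ⊆ ball p r := ball_subset_ball hr'r
  -- the coefficients vanish on `z 0 = 0`
  have hα0 : ∀ z ∈ ball p r', z 0 = 0 → ∀ a, α a z = 0 := by
    intro z hz hz0
    have hb : ∀ b, sf S (X J f b z) (L ^ (k + 1) *ᵥ f z) = 0 := by
      intro b
      refine Fin.cases ?_ (fun j => ?_) b
      · exact htop z (hsub hz) hz0
      · exact (polar S hf ((mv (L ^ (k + 1))).differentiable.comp_differentiableOn hf)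
          htop (hsub hz) hz0 (J j)).1
    have h1 := heq z hz
    rw [hz0, zero_smul, add_zero] at h1
    have h2 : gram S (L ^ k) J f z z *ᵥ (fun a => α a z) = 0 := by
      funext b
      have h3 : fn S (L ^ k) (X J f b z) (c • (L *ᵥ f z)) =
          fn S (L ^ k) (X J f b z) (∑ a, α a z • X J f a z) := by rw [h1]
      rw [map_smul, map_sum] at h3
      simp only [map_smul, fn_apply, mulVec_mulVec, ← pow_succ, hb b, smul_eq_mul, mul_zero] at h3
      simp only [mulVec, dotProduct, gram, of_apply, Pi.zero_apply]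
      rw [h3]
      exact Finset.sum_congr rfl fun a _ => mul_comm _ _
    have h3 := Matrix.eq_zero_of_mulVec_eq_zero (hgd z hz) h2
    intro a
    exact congrFun h3 a
  -- divide by `z 0`
  have hdiv : ∀ a, ∃ γ : (Fin (d + 1) → ℂ) → ℂ, DifferentiableOn ℂ γ (ball p r') ∧
      ∀ z ∈ ball p r', α a z = z 0 * γ z := fun a =>
    exists_div hp (hα a) (fun z hz hz0 => hα0 z hz hz0 a)
  choose γ hγ hαγ using hdiv
  have hf' : DifferentiableOn ℂ f (ball p r') := hf.mono hsub
  have hmain : ∀ z ∈ ball p r', mv L (f z) =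
      (c⁻¹ * z 0) • (γ 0 z • f z + ∑ j, γ (Fin.succ j) z • pd (J j).succ f z - pd 0 f z) := by
    intro z hz
    have h1 := heq z hz
    rw [Fin.sum_univ_succ] at h1
    simp only [X_zero, X_succ, hαγ _ z hz] at h1
    have h2 : c • (L *ᵥ f z) = z 0 • (γ 0 z • f z + ∑ j, γ (Fin.succ j) z • pd (J j).succ f z -
        pd 0 f z) := by
      have h3 : ∑ j : Fin ν, (z 0 * γ j.succ z) • pd (J j).succ f z =
          z 0 • ∑ j : Fin ν, γ j.succ z • pd (J j).succ f z := by
        rw [Finset.smul_sum]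
        exact Finset.sum_congr rfl fun j _ => by rw [mul_smul]
      rw [h3] at h1
      have h4 : c • (L *ᵥ f z) = (z 0 * γ 0 z) • f z +
          z 0 • ∑ j : Fin ν, γ j.succ z • pd (J j).succ f z - z 0 • pd 0 f z := by
        rw [← h1]; abel
      rw [h4, smul_sub, smul_add, mul_smul]
    rw [mv_apply, mul_smul, ← h2, smul_smul, inv_mul_cancel₀ hc, one_smul]
  have hnil : ∀ z ∈ ball p r', mv L (f z) = 0 :=
    nil_zero hp J hf' (hγ 0).continuousOn (fun j => (hγ j.succ).continuousOn) (mv L)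
      (mv_nilpotent hL) (inv_ne_zero hc) hmain
  refine ⟨r', hr'0, hr'r, hnil, γ 0, fun j => γ j.succ, hγ 0, fun j => hγ j.succ, ?_⟩
  have hcont : ContinuousOn (fun z => pd 0 f z - (γ 0 z • f z +
      ∑ j, γ (Fin.succ j) z • pd (J j).succ f z)) (ball p r') := by
    refine (diffAt_pd hf' 0).continuousOn.sub ?_
    refine ((hγ 0).continuousOn.smul hf'.continuousOn).add
      (continuousOn_finsetSum _ fun j _ => ?_)
    exact (hγ j.succ).continuousOn.smul (diffAt_pd hf' _).continuousOn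
  intro z hz
  refine sub_eq_zero.1 (eq_zero_of_ne isOpen_ball hcont ?_ z hz)
  intro w hw hw0
  have h1 := hmain w hw
  rw [hnil w hw] at h1
  have h2 := (smul_eq_zero.1 h1.symm).resolve_left (mul_ne_zero (inv_ne_zero hc) hw0)
  rw [sub_eq_zero] at h2 ⊢
  exact h2.symm

/-- **the monodromy is trivial on the span**: `τ` is the normalised monodromy
(`f (ξ x, y) = τ f (x, y)`) -/
theorem bnd_scalar {p : Fin (d + 1) → ℂ} (hp : p 0 = 0) {r : ℝ} {ν : ℕ}
    (J : Fin ν → Fin d) {f : (Fin (d + 1) → ℂ) → Fin N → ℂ}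
    (hf : DifferentiableOn ℂ f (ball p r)) {b : (Fin (d + 1) → ℂ) → ℂ}
    {a : Fin ν → (Fin (d + 1) → ℂ) → ℂ} (hb : DifferentiableOn ℂ b (ball p r))
    (ha : ∀ j, DifferentiableOn ℂ (a j) (ball p r))
    (heq : ∀ z ∈ ball p r, pd 0 f z = b z • f z + ∑ j, a j z • pd (J j).succ f z)
    {τ : Matrix (Fin N) (Fin N) ℂ} {ξ : ℂ}
    (hτ : ∀ z ∈ ball p r, f (Function.update z 0 (ξ * z 0)) = τ *ᵥ f z) :
    ∀ z ∈ ball p r, τ *ᵥ f z = f z := by
  refine scalar_action hp J hf hb.continuousOn (fun j => (ha j).continuousOn) (mv τ)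
    (fun z hz _ => heq z hz) ?_
  intro z hz hz0
  have h1 := hτ z hz
  rw [hz0, mul_zero] at h1
  have h2 : Function.update z 0 (0 : ℂ) = z := by
    rw [← hz0]; exact Function.update_eq_self 0 z
  rw [h2] at h1
  exact h1.symm

/-- the span hypothesis from the rank hypothesis -/
theorem mem_span_of_finrank {V : Type*} [AddCommGroup V] [Module ℂ V] {ν : ℕ} {x : Fin ν → V}
    (hx : LinearIndependent ℂ x) {W : Submodule ℂ V} [FiniteDimensional ℂ W]
    (hW : Module.finrank ℂ W ≤ ν) (hxW : ∀ a, x a ∈ W) {v : V} (hv : v ∈ W) :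
    v ∈ Submodule.span ℂ (range x) := by
  have h1 : Submodule.span ℂ (range x) ≤ W := Submodule.span_le.2 (by rintro _ ⟨a, rfl⟩; exact hxW a)
  have h2 : Module.finrank ℂ (Submodule.span ℂ (range x)) = ν := by
    rw [finrank_span_eq_card hx, Fintype.card_fin]
  have h3 : Submodule.span ℂ (range x) = W := by
    refine Submodule.eq_of_le_of_finrank_le h1 ?_
    rw [h2]; exact hW
  rw [h3]; exact hv

/-- independence from the Gram determinant -/
theorem indep_of_det {S A : Matrix (Fin N) (Fin N) ℂ} {ν : ℕ} {J : Fin ν → Fin d}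
    {f : (Fin (d + 1) → ℂ) → Fin N → ℂ} {z : Fin (d + 1) → ℂ}
    (h : (gram S A J f z z).det ≠ 0) : LinearIndependent ℂ (fun a => X J f a z) := by
  rw [Fintype.linearIndependent_iff]
  intro β hβ
  have h2 : gram S A J f z z *ᵥ β = 0 := by
    funext b
    have h3 : fn S A (X J f b z) (∑ a, β a • X J f a z) = 0 := by rw [hβ, map_zero]
    rw [map_sum] at h3
    simp only [map_smul, fn_apply, smul_eq_mul] at h3
    simp only [mulVec, dotProduct, gram, of_apply, Pi.zero_apply]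
    rw [← h3]
    exact Finset.sum_congr rfl fun a _ => mul_comm _ _
  have h3 := Matrix.eq_zero_of_mulVec_eq_zero h h2
  intro a
  exact congrFun h3 a

end Crest.Agent.R276.Bnd2_25
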