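import Mathlib
import Crest.Agent.R276.Bnd2_25

/-!
# R276, leaf BNDA (helper25): step (A) of post 564, expansion of `S(ω, ω)` in `s = - log |x|`

`S` is the flat Hermitian form, `A` an `S`-selfadjoint nilpotent matrix (`A = (i/π) N`),
`HS n S A s u v = ∑_{j < n} s^j / j! S(u, A^j v) = S (u, exp (s A) v)`.
-/

set_option autoImplicit false

open Set Filter Topology Metric Matrix
open scoped ContDiff ComplexOrder

namespace Crest.Agent.R276.BndA_25

open Crest.Agent.R276.Bnd1_25 Crest.Agent.R276.Bnd2_25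

variable {d N : ℕ}

/-! ### algebra of the form -/

theorem sf_mulVec_left {S A B : Matrix (Fin N) (Fin N) ℂ} (h : Aᴴ * S = S * B) (v w : Fin N → ℂ) :
    sf S (A *ᵥ v) w = sf S v (B *ᵥ w) := by
  simp only [sf, star_mulVec, ← dotProduct_mulVec, mulVec_mulVec, h]

theorem star_sf {S : Matrix (Fin N) (Fin N) ℂ} (h : S.IsHermitian) (v w : Fin N → ℂ) :
    star (sf S v w) = sf S w v := by
  unfold sf
  rw [← star_dotProduct_star, star_star, star_mulVec, h.eq, ← dotProduct_mulVec]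

theorem pow_adj {S A B : Matrix (Fin N) (Fin N) ℂ} (h : Aᴴ * S = S * B) (j : ℕ) :
    (A ^ j)ᴴ * S = S * B ^ j := by
  induction j with
  | zero => simp
  | succ j ih =>
    rw [pow_succ', conjTranspose_mul, pow_succ, Matrix.mul_assoc, h, ← Matrix.mul_assoc, ih,
      Matrix.mul_assoc]

theorem star_sf_pow {S A : Matrix (Fin N) (Fin N) ℂ} (h : S.IsHermitian) (hA : Aᴴ * S = S * A)
    (j : ℕ) (v w : Fin N → ℂ) : star (sf S v (A ^ j *ᵥ w)) = sf S w (A ^ j *ᵥ v) := by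
  rw [star_sf h, sf_mulVec_left (pow_adj hA j)]

/-- the form `S (u, exp (s A) v)` -/
noncomputable def HS (n : ℕ) (S A : Matrix (Fin N) (Fin N) ℂ) (s : ℝ) (u v : Fin N → ℂ) : ℂ :=
  ∑ j ∈ Finset.range n, ((s ^ j / (j.factorial : ℝ) : ℝ) : ℂ) * sf S u (A ^ j *ᵥ v)

/-- the coefficient `S (u, A^j v) / j!` -/
noncomputable def cf (S A : Matrix (Fin N) (Fin N) ℂ) (j : ℕ) (u v : Fin N → ℂ) : ℂ :=
  ((1 / (j.factorial : ℝ) : ℝ) : ℂ) * sf S u (A ^ j *ᵥ v)

theorem HS_eq (n : ℕ) (S A : Matrix (Fin N) (Fin N) ℂ) (s : ℝ) (u v : Fin N → ℂ) :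
    HS n S A s u v = ∑ j ∈ Finset.range n, ((s ^ j : ℝ) : ℂ) * cf S A j u v := by
  unfold HS cf
  refine Finset.sum_congr rfl fun j _ => ?_
  push_cast
  ring

theorem cf_add_left (S A : Matrix (Fin N) (Fin N) ℂ) (j : ℕ) (u u' v : Fin N → ℂ) :
    cf S A j (u + u') v = cf S A j u v + cf S A j u' v := by
  simp only [cf, sf_add_left]; ring

theorem cf_add_right (S A : Matrix (Fin N) (Fin N) ℂ) (j : ℕ) (u v v' : Fin N → ℂ) :
    cf S A j u (v + v') = cf S A j u v + cf S A j u v' := by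
  simp only [cf, mulVec_add, sf_add_right]; ring

theorem cf_smul_left (S A : Matrix (Fin N) (Fin N) ℂ) (j : ℕ) (c : ℂ) (u v : Fin N → ℂ) :
    cf S A j (c • u) v = star c * cf S A j u v := by
  simp only [cf, sf_smul_left]; ring

theorem cf_smul_right (S A : Matrix (Fin N) (Fin N) ℂ) (j : ℕ) (c : ℂ) (u v : Fin N → ℂ) :
    cf S A j u (c • v) = c * cf S A j u v := by
  simp only [cf, mulVec_smul, sf_smul_right]; ring

theorem star_cf {S A : Matrix (Fin N) (Fin N) ℂ} (h : S.IsHermitian) (hA : Aᴴ * S = S * A)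
    (j : ℕ) (v w : Fin N → ℂ) : star (cf S A j v w) = cf S A j w v := by
  unfold cf
  rw [star_mul', star_sf_pow h hA]
  simp

theorem star_HS {S A : Matrix (Fin N) (Fin N) ℂ} (h : S.IsHermitian) (hA : Aᴴ * S = S * A)
    (n : ℕ) (s : ℝ) (v w : Fin N → ℂ) : star (HS n S A s v w) = HS n S A s w v := by
  rw [HS_eq, HS_eq, star_sum]
  refine Finset.sum_congr rfl fun j _ => ?_
  rw [star_mul', star_cf h hA]
  simp

theorem cf_self_im {S A : Matrix (Fin N) (Fin N) ℂ} (h : S.IsHermitian) (hA : Aᴴ * S = S * A)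
    (j : ℕ) (v : Fin N → ℂ) : (cf S A j v v).im = 0 := by
  have h1 := star_cf h hA j v v
  have h2 := congrArg Complex.im h1
  simp at h2
  linarith

theorem HS_self_im {S A : Matrix (Fin N) (Fin N) ℂ} (h : S.IsHermitian) (hA : Aᴴ * S = S * A)
    (n : ℕ) (s : ℝ) (v : Fin N → ℂ) : (HS n S A s v v).im = 0 := by
  have h1 := star_HS h hA n s v v
  have h2 := congrArg Complex.im h1
  simp at h2
  linarith

/-! ### relation with the exponential -/

/-- `exp (c L)`, `c = w / 2πi`, turns `S` into `S exp (s A)`, `s = - Re w`, `A = (i/π) L`. -/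
theorem sf_exp {n : ℕ} {S L : Matrix (Fin N) (Fin N) ℂ} (hL : L ^ n = 0)
    (hS : Lᴴ * S = - (S * L)) (w : ℂ) (u v : Fin N → ℂ) :
    sf S (IsNilpotent.exp ((w / (2 * Real.pi * Complex.I)) • L) *ᵥ u)
      (IsNilpotent.exp ((w / (2 * Real.pi * Complex.I)) • L) *ᵥ v) =
    HS n S ((Complex.I / Real.pi) • L) (- w.re) u v := by
  set c : ℂ := w / (2 * Real.pi * Complex.I) with hc
  have hcL : (c • L) ^ n = 0 := by rw [smul_pow, hL, smul_zero]
  have hcL' : ((- star c) • L) ^ n = 0 := by rw [smul_pow, hL, smul_zero]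
  have hadj : (c • L)ᴴ * S = S * ((- star c) • L) := by
    rw [conjTranspose_smul, Matrix.smul_mul, hS, Matrix.mul_smul, neg_smul, smul_neg]
  have hexp : (IsNilpotent.exp (c • L))ᴴ * S = S * IsNilpotent.exp ((- star c) • L) := by
    rw [IsNilpotent.exp_eq_sum hcL, IsNilpotent.exp_eq_sum hcL', conjTranspose_sum,
      Finset.sum_mul, Finset.mul_sum]
    refine Finset.sum_congr rfl fun j _ => ?_
    have h1 : ∀ (q : ℚ) (M : Matrix (Fin N) (Fin N) ℂ), q • M = ((q : ℝ) : ℂ) • M := by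
      intro q M
      ext i k
      simp [Rat.smul_def]
    rw [h1, h1, conjTranspose_smul, Matrix.smul_mul, pow_adj hadj, Matrix.mul_smul]
    simp
  rw [sf_mulVec_left hexp, mulVec_mulVec, ← IsNilpotent.exp_add_of_commute
    (((Commute.refl L).smul_left _).smul_right _) ⟨n, hcL'⟩ ⟨n, hcL⟩]
  have hpi : (Real.pi : ℂ) ≠ 0 := by exact_mod_cast Real.pi_ne_zero
  have hsum : (- star c) • L + c • L = (((- w.re : ℝ) : ℂ)) • ((Complex.I / Real.pi) • L) := by
    rw [← add_smul, smul_smul]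
    congr 1
    have h1 : star c = - (star w / (2 * Real.pi * Complex.I)) := by
      rw [hc]
      simp only [Complex.star_def, map_div₀, map_mul, Complex.conj_I, Complex.conj_ofReal,
        map_ofNat]
      field_simp
    rw [h1, hc]
    have h2 : w + star w = ((2 * w.re : ℝ) : ℂ) := by
      rw [Complex.star_def, Complex.add_conj]
    have h3 : - -(star w / (2 * Real.pi * Complex.I)) + w / (2 * Real.pi * Complex.I) =
        (w + star w) / (2 * Real.pi * Complex.I) := by ring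
    rw [h3, h2]
    push_cast
    field_simp
    rw [Complex.I_sq]
    ring
  rw [hsum]
  have hA0 : ((((- w.re : ℝ) : ℂ)) • ((Complex.I / Real.pi) • L)) ^ n = 0 := by
    rw [smul_pow, smul_pow, hL, smul_zero, smul_zero]
  rw [IsNilpotent.exp_eq_sum hA0, HS, sum_mulVec]
  have hlin : ∀ (T : Finset ℕ) (g : ℕ → Fin N → ℂ), sf S u (∑ j ∈ T, g j) = ∑ j ∈ T, sf S u (g j) := by
    intro T g
    simp only [sf, mulVec_sum, dotProduct_sum]
  rw [hlin]
  refine Finset.sum_congr rfl fun j _ => ?_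
  have h1 : ∀ (q : ℚ) (M : Matrix (Fin N) (Fin N) ℂ), q • M = ((q : ℝ) : ℂ) • M := by
    intro q M
    ext i k
    simp [Rat.smul_def]
  rw [h1, smul_pow, smul_smul, smul_mulVec, sf_smul_right]
  congr 1
  push_cast
  field_simp

/-! ### asymptotics at the divisor -/

/-- `t (- log t)^m → 0` -/
theorem tendsto_mul_log_pow (m : ℕ) :
    Tendsto (fun t : ℝ => t * (- Real.log t) ^ m) (𝓝[>] 0) (𝓝 0) := by
  have h1 := Real.tendsto_pow_mul_exp_neg_atTop_nhds_zero m
  have h2 : Tendsto (fun t : ℝ => - Real.log t) (𝓝[>] 0) atTop :=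
    tendsto_neg_atBot_atTop.comp Real.tendsto_log_nhdsGT_zero
  refine (h1.comp h2).congr' ?_
  filter_upwards [self_mem_nhdsWithin] with t ht
  have ht' : (0 : ℝ) < t := ht
  simp only [Function.comp_apply, neg_neg, Real.exp_log ht']
  ring

/-- the point `p + t e_0` -/
def sh (p : Fin (d + 1) → ℂ) (t : ℝ) : Fin (d + 1) → ℂ := p + (t : ℂ) • Pi.single 0 1

theorem sh_zero (p : Fin (d + 1) → ℂ) (t : ℝ) : sh p t 0 = p 0 + t := by simp [sh]

theorem tendsto_sh (p : Fin (d + 1) → ℂ) : Tendsto (sh p) (𝓝[>] 0) (𝓝 p) := by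
  have h1 : Continuous (sh p) := by
    unfold sh
    fun_prop
  have h2 := h1.tendsto 0
  have h3 : sh p 0 = p := by simp [sh]
  rw [h3] at h2
  exact h2.mono_left nhdsWithin_le_nhds

/-- Lipschitz bound along `e_0` -/
theorem lip_sf (S B : Matrix (Fin N) (Fin N) ℂ) {u v : (Fin (d + 1) → ℂ) → Fin N → ℂ}
    {p : Fin (d + 1) → ℂ} (hu : DifferentiableAt ℂ u p) (hv : DifferentiableAt ℂ v p) :
    ∃ C : ℝ, ∀ᶠ t in 𝓝[>] (0 : ℝ), ‖sf S (u (sh p t)) (B *ᵥ v (sh p t)) - sf S (u p) (B *ᵥ v p)‖ ≤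
      C * t := by
  have hBv : DifferentiableAt ℂ (fun z => B *ᵥ v z) p := (mv B).differentiableAt.comp p hv
  have h1 := hasDerivAt_sf S hu hBv 0 1
  have h2 := h1.isBigO_sub
  obtain ⟨C, hC⟩ := h2.bound
  refine ⟨C, ?_⟩
  have h3 : ∀ᶠ (t : ℝ) in 𝓝[>] (0 : ℝ), ‖sf S (u (p + (t : ℂ) • ((1 : ℂ) • (Pi.single 0 1 : Fin (d + 1) → ℂ))))
      (B *ᵥ v (p + (t : ℂ) • ((1 : ℂ) • (Pi.single 0 1 : Fin (d + 1) → ℂ)))) -
      sf S (u (p + ((0 : ℝ) : ℂ) • ((1 : ℂ) • (Pi.single 0 1 : Fin (d + 1) → ℂ))))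
      (B *ᵥ v (p + ((0 : ℝ) : ℂ) • ((1 : ℂ) • (Pi.single 0 1 : Fin (d + 1) → ℂ))))‖ ≤ C * ‖t - 0‖ :=
    hC.filter_mono nhdsWithin_le_nhds
  filter_upwards [h3, self_mem_nhdsWithin] with t ht ht0
  have ht0' : (0 : ℝ) < t := ht0
  simp only [one_smul, Complex.ofReal_zero, zero_smul, add_zero, sub_zero, Real.norm_eq_abs,
    abs_of_pos ht0'] at ht
  exact ht

/-- `s^m (c (sh p t) - c (p)) → 0` -/
theorem tendsto_pow_cf (S A : Matrix (Fin N) (Fin N) ℂ) (j m : ℕ)
    {u v : (Fin (d + 1) → ℂ) → Fin N → ℂ}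
    {p : Fin (d + 1) → ℂ} (hu : DifferentiableAt ℂ u p) (hv : DifferentiableAt ℂ v p) :
    Tendsto (fun t : ℝ => (((- Real.log t) ^ m : ℝ) : ℂ) * (cf S A j (u (sh p t)) (v (sh p t)) -
      cf S A j (u p) (v p))) (𝓝[>] 0) (𝓝 0) := by
  obtain ⟨C, hC⟩ := lip_sf S (A ^ j) hu hv
  have h1 := (tendsto_mul_log_pow m).const_mul ((1 / (j.factorial : ℝ)) * C)
  rw [mul_zero] at h1
  refine squeeze_zero_norm' ?_ h1
  have hlt : ∀ᶠ t in 𝓝[>] (0 : ℝ), t < 1 := by
    filter_upwards [nhdsWithin_le_nhds (Iio_mem_nhds (zero_lt_one))] with t ht using ht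
  filter_upwards [hC, self_mem_nhdsWithin, hlt] with t ht ht0 ht1
  have ht0' : (0 : ℝ) < t := ht0
  have hlog : 0 ≤ - Real.log t := by
    have := Real.log_nonpos ht0'.le ht1.le
    linarith
  unfold cf
  rw [← mul_sub, norm_mul, norm_mul, Complex.norm_real, Complex.norm_real, Real.norm_eq_abs,
    Real.norm_eq_abs, abs_of_nonneg (pow_nonneg hlog m), abs_of_nonneg (by positivity)]
  calc (- Real.log t) ^ m * (1 / (j.factorial : ℝ) * _) ≤
      (- Real.log t) ^ m * (1 / (j.factorial : ℝ) * (C * t)) := by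
        gcongr
    _ = 1 / (j.factorial : ℝ) * C * (t * (- Real.log t) ^ m) := by ring

/-- **leading term**: if all coefficients beyond `k` vanish at `p`, then `S(ω, ω)/s^k → c_k(p)` -/
theorem tendsto_HS (n : ℕ) (S A : Matrix (Fin N) (Fin N) ℂ) {k : ℕ} (hk : k < n)
    {u v : (Fin (d + 1) → ℂ) → Fin N → ℂ} {p : Fin (d + 1) → ℂ} (hu : DifferentiableAt ℂ u p)
    (hv : DifferentiableAt ℂ v p) (h0 : ∀ j, k < j → cf S A j (u p) (v p) = 0) :
    Tendsto (fun t : ℝ => HS n S A (- Real.log t) (u (sh p t)) (v (sh p t)) /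
      (((- Real.log t) ^ k : ℝ) : ℂ)) (𝓝[>] 0) (𝓝 (cf S A k (u p) (v p))) := by
  have hs : Tendsto (fun t : ℝ => - Real.log t) (𝓝[>] 0) atTop :=
    tendsto_neg_atBot_atTop.comp Real.tendsto_log_nhdsGT_zero
  -- termwise
  have hterm : ∀ j ∈ Finset.range n, Tendsto (fun t : ℝ => (((- Real.log t) ^ j : ℝ) : ℂ) *
      cf S A j (u (sh p t)) (v (sh p t)) / (((- Real.log t) ^ k : ℝ) : ℂ)) (𝓝[>] 0)
      (𝓝 (if j = k then cf S A k (u p) (v p) else 0)) := by
    intro j hj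
    rcases lt_trichotomy j k with hjk | rfl | hjk
    · rw [if_neg hjk.ne]
      have h1 : Tendsto (fun t : ℝ => cf S A j (u (sh p t)) (v (sh p t))) (𝓝[>] 0)
          (𝓝 (cf S A j (u p) (v p))) := by
        have h2 := (tendsto_pow_cf S A j 0 hu hv).add_const (cf S A j (u p) (v p))
        simpa using h2
      have h3 : Tendsto (fun t : ℝ => ((((- Real.log t) ^ (k - j))⁻¹ : ℝ) : ℂ)) (𝓝[>] 0) (𝓝 0) := by
        have h4 : Tendsto (fun t : ℝ => ((- Real.log t) ^ (k - j))⁻¹) (𝓝[>] 0) (𝓝 0) :=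
          tendsto_inv_atTop_zero.comp ((tendsto_pow_atTop (by omega)).comp hs)
        have h5 := (Complex.continuous_ofReal.tendsto 0).comp h4
        rw [Complex.ofReal_zero] at h5
        exact h5
      have h6 := h3.mul h1
      rw [zero_mul] at h6
      refine h6.congr' ?_
      filter_upwards [hs.eventually_gt_atTop 0] with t ht
      have h7 : (((- Real.log t : ℝ)) : ℂ) ≠ 0 := by exact_mod_cast ht.ne'
      have h8 : (((- Real.log t) ^ k : ℝ) : ℂ) = (((- Real.log t) ^ j : ℝ) : ℂ) *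
          (((- Real.log t) ^ (k - j) : ℝ) : ℂ) := by
        rw [← Complex.ofReal_mul, ← pow_add, Nat.add_sub_cancel' hjk.le]
      rw [h8]
      push_cast at h7 ⊢
      field_simp
    · rw [if_pos rfl]
      have h2 := (tendsto_pow_cf S A j 0 hu hv).add_const (cf S A j (u p) (v p))
      simp only [pow_zero, Complex.ofReal_one, one_mul, sub_add_cancel, zero_add] at h2
      refine h2.congr' ?_
      filter_upwards [hs.eventually_gt_atTop 0] with t ht
      have h7 : (((- Real.log t : ℝ)) : ℂ) ≠ 0 := by exact_mod_cast ht.ne'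
      push_cast at h7 ⊢
      field_simp
    · rw [if_neg hjk.ne']
      have h1 := tendsto_pow_cf S A j (j - k) hu hv
      rw [h0 j hjk] at h1
      refine h1.congr' ?_
      filter_upwards [hs.eventually_gt_atTop 0] with t ht
      have h7 : (((- Real.log t : ℝ)) : ℂ) ≠ 0 := by exact_mod_cast ht.ne'
      have h8 : (((- Real.log t) ^ j : ℝ) : ℂ) = (((- Real.log t) ^ k : ℝ) : ℂ) *
          (((- Real.log t) ^ (j - k) : ℝ) : ℂ) := by
        rw [← Complex.ofReal_mul, ← pow_add, Nat.add_sub_cancel' hjk.le]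
      rw [h8, sub_zero]
      push_cast at h7 ⊢
      field_simp
  have hsum := tendsto_finsetSum _ hterm
  have hval : ∑ j ∈ Finset.range n, (if j = k then cf S A k (u p) (v p) else 0) =
      cf S A k (u p) (v p) := by
    rw [Finset.sum_ite_eq' (Finset.range n) k (fun _ => cf S A k (u p) (v p))]
    simp [hk]
  rw [hval] at hsum
  refine hsum.congr fun t => ?_
  rw [HS_eq, Finset.sum_div]

theorem sh_mem {p₀ p : Fin (d + 1) → ℂ} {r : ℝ} (hp : p ∈ ball p₀ r) (hp0 : p 0 = 0) :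
    ∀ᶠ t in 𝓝[>] (0 : ℝ), sh p t ∈ ball p₀ r ∧ sh p t 0 ≠ 0 ∧ - Real.log ‖sh p t 0‖ = - Real.log t := by
  filter_upwards [(tendsto_sh p).eventually (isOpen_ball.mem_nhds hp), self_mem_nhdsWithin]
    with t ht ht0
  have ht0' : (0 : ℝ) < t := ht0
  refine ⟨ht, ?_, ?_⟩
  · rw [sh_zero, hp0, zero_add]
    exact_mod_cast ht0'.ne'
  · rw [sh_zero, hp0, zero_add, Complex.norm_real, Real.norm_eq_abs, abs_of_pos ht0']

/-! ### boundary data -/

/-- the derivative of `f` along the hyperplane -/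
noncomputable def Dv (f : (Fin (d + 1) → ℂ) → Fin N → ℂ) (v : Fin d → ℂ) (z : Fin (d + 1) → ℂ) :
    Fin N → ℂ := ∑ j, v j • pd j.succ f z

/-- boundary data: `f` is the single valued frame `ω₀`, `A = (i/π) log T^e`, `n` bounds the nilpotency
index; `pos`, `neg`: the two bottom Hodge-Riemann signs. -/
structure BD (n : ℕ) (S A : Matrix (Fin N) (Fin N) ℂ) (f : (Fin (d + 1) → ℂ) → Fin N → ℂ)
    (p₀ : Fin (d + 1) → ℂ) (r : ℝ) : Prop where
  hf : DifferentiableOn ℂ f (ball p₀ r)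
  herm : S.IsHermitian
  adj : Aᴴ * S = S * A
  nil : A ^ n = 0
  pos : ∀ z ∈ ball p₀ r, z 0 ≠ 0 → 0 < (HS n S A (- Real.log ‖z 0‖) (f z) (f z)).re
  neg : ∀ z ∈ ball p₀ r, z 0 ≠ 0 → ∀ v : Fin d → ℂ,
    (HS n S A (- Real.log ‖z 0‖) (f z) (f z)).re *
      (HS n S A (- Real.log ‖z 0‖) (Dv f v z) (Dv f v z)).re ≤
    ‖HS n S A (- Real.log ‖z 0‖) (f z) (Dv f v z)‖ ^ 2

/-- moderate growth at one point -/
def MG (n : ℕ) (S A : Matrix (Fin N) (Fin N) ℂ) (f : (Fin (d + 1) → ℂ) → Fin N → ℂ)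
    (p₁ : Fin (d + 1) → ℂ) : Prop :=
  f p₁ ≠ 0 ∧ ∃ (C : ℝ) (m : ℕ), ∀ᶠ t in 𝓝[>] (0 : ℝ),
    ‖f (sh p₁ t)‖ ^ 2 ≤ C * (- Real.log t) ^ m * (HS n S A (- Real.log t) (f (sh p₁ t))
      (f (sh p₁ t))).re

/-- `k` is the order of `S(ω,ω)` in `s` -/
structure IsOrd (S A : Matrix (Fin N) (Fin N) ℂ) (f : (Fin (d + 1) → ℂ) → Fin N → ℂ)
    (p₀ : Fin (d + 1) → ℂ) (r : ℝ) (k : ℕ) : Prop where
  zero : ∀ z ∈ ball p₀ r, z 0 = 0 → ∀ j, k < j → cf S A j (f z) (f z) = 0
  ne : ∃ z ∈ ball p₀ r, z 0 = 0 ∧ cf S A k (f z) (f z) ≠ 0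

section BD

variable {n : ℕ} {S A : Matrix (Fin N) (Fin N) ℂ} {f : (Fin (d + 1) → ℂ) → Fin N → ℂ}
  {p₀ : Fin (d + 1) → ℂ} {r : ℝ}

theorem BD.diff (h : BD n S A f p₀ r) {z : Fin (d + 1) → ℂ} (hz : z ∈ ball p₀ r) :
    DifferentiableAt ℂ f z := h.hf.differentiableAt (isOpen_ball.mem_nhds hz)

theorem diffOn_Dv (hf : DifferentiableOn ℂ f (ball p₀ r)) (v : Fin d → ℂ) :
    DifferentiableOn ℂ (Dv f v) (ball p₀ r) := by
  unfold Dv
  refine DifferentiableOn.fun_sum fun j _ => ?_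
  have h1 := (diffAt_pd hf j.succ).const_smul (v j)
  exact h1

theorem cf_of_ge (hA : A ^ n = 0) {j : ℕ} (hj : n ≤ j) (u v : Fin N → ℂ) : cf S A j u v = 0 := by
  have : A ^ j = 0 := pow_eq_zero_of_le hj hA
  simp [cf, this, sf]

/-- existence of the order from moderate growth -/
theorem BD.exists_ord (h : BD n S A f p₀ r) {p₁ : Fin (d + 1) → ℂ} (hp₁ : p₁ ∈ ball p₀ r)
    (hp₁0 : p₁ 0 = 0) (hg : MG n S A f p₁) : ∃ k < n, IsOrd S A f p₀ r k := by
  classical
  have hex : ∃ j, ∃ z ∈ ball p₀ r, z 0 = 0 ∧ cf S A j (f z) (f z) ≠ 0 := by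
    by_contra hno
    push Not at hno
    obtain ⟨hf0, C, m, hC⟩ := hg
    have hd := h.diff hp₁
    have h1 : Tendsto (fun t : ℝ => C * (- Real.log t) ^ m * (HS n S A (- Real.log t) (f (sh p₁ t))
        (f (sh p₁ t))).re) (𝓝[>] 0) (𝓝 0) := by
      have h2 : Tendsto (fun t : ℝ => ∑ j ∈ Finset.range n, (((- Real.log t) ^ (m + j) : ℝ) : ℂ) *
          (cf S A j (f (sh p₁ t)) (f (sh p₁ t)) - cf S A j (f p₁) (f p₁))) (𝓝[>] 0) (𝓝 0) := by
        have h3 := tendsto_finsetSum (Finset.range n) fun j _ => tendsto_pow_cf S A j (m + j) hd hd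
        simpa using h3
      have h4 := ((Complex.continuous_re.tendsto 0).comp h2).const_mul C
      simp only [Complex.zero_re, mul_zero] at h4
      refine h4.congr fun t => ?_
      simp only [Function.comp_apply]
      have h5 : ∀ j, cf S A j (f p₁) (f p₁) = 0 := fun j => hno j p₁ hp₁ hp₁0
      simp only [h5, sub_zero]
      rw [mul_assoc]
      congr 1
      rw [HS_eq, ← Complex.re_ofReal_mul, Finset.mul_sum]
      congr 1
      refine Finset.sum_congr rfl fun j _ => ?_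
      push_cast
      rw [pow_add]
      ring
    have h2 : Tendsto (fun t : ℝ => ‖f (sh p₁ t)‖ ^ 2) (𝓝[>] 0) (𝓝 (‖f p₁‖ ^ 2)) :=
      ((hd.continuousAt.tendsto.comp (tendsto_sh p₁)).norm).pow 2
    have h3 := le_of_tendsto_of_tendsto h2 h1 hC
    have h4 : 0 < ‖f p₁‖ := norm_pos_iff.2 hf0
    nlinarith
  set P : ℕ → Prop := fun j => ∃ z ∈ ball p₀ r, z 0 = 0 ∧ cf S A j (f z) (f z) ≠ 0 with hP
  obtain ⟨j₀, hj₀⟩ := hex
  have hlt : ∀ j, P j → j < n := by
    rintro j ⟨z, _, _, hz⟩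
    by_contra hj
    exact hz (cf_of_ge h.nil (not_lt.1 hj) _ _)
  refine ⟨Nat.findGreatest P n, ?_, ?_, ?_⟩
  · exact hlt _ (Nat.findGreatest_spec (hlt j₀ hj₀).le hj₀)
  · intro z hz hz0 j hj
    by_contra hne
    have hPj : P j := ⟨z, hz, hz0, hne⟩
    exact absurd (Nat.le_findGreatest (hlt j hPj).le hPj) (not_le.2 hj)
  · exact Nat.findGreatest_spec (hlt j₀ hj₀).le hj₀

/-- vanishing of the polarised coefficients on the hyperplane -/
theorem BD.polar1 (h : BD n S A f p₀ r) {k : ℕ} (hk : IsOrd S A f p₀ r k) {z : Fin (d + 1) → ℂ}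
    (hz : z ∈ ball p₀ r) (hz0 : z 0 = 0) {j : ℕ} (hj : k < j) (i : Fin d) :
    sf S (f z) (A ^ j *ᵥ pd i.succ f z) = 0 := by
  have h1 : ∀ z ∈ ball p₀ r, z 0 = 0 → sf S (f z) (A ^ j *ᵥ f z) = 0 := by
    intro z hz hz0
    have h2 := hk.zero z hz hz0 j hj
    have h3 : ((1 / (j.factorial : ℝ) : ℝ) : ℂ) ≠ 0 := by
      have : (0 : ℝ) < 1 / (j.factorial : ℝ) := by positivity
      exact_mod_cast this.ne'
    exact (mul_eq_zero.1 h2).resolve_left h3
  have h2 := (polar S h.hf ((mv (A ^ j)).differentiable.comp_differentiableOn h.hf) h1 hz hz0 i).2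
  have h3 : sf S (f z) (pd i.succ (fun w => mv (A ^ j) (f w)) z) = 0 := h2
  rwa [pd_clm (mv (A ^ j)) (h.diff hz) i.succ] at h3

theorem BD.polar2 (h : BD n S A f p₀ r) {k : ℕ} (hk : IsOrd S A f p₀ r k) {z : Fin (d + 1) → ℂ}
    (hz : z ∈ ball p₀ r) (hz0 : z 0 = 0) {j : ℕ} (hj : k < j) (i i' : Fin d) :
    sf S (pd i.succ f z) (A ^ j *ᵥ pd i'.succ f z) = 0 :=
  (polar S h.hf ((mv (A ^ j)).differentiable.comp_differentiableOn (diffAt_pd h.hf i'.succ))
    (fun _ hz hz0 => h.polar1 hk hz hz0 hj i') hz hz0 i).1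

theorem cf_sum_right (j : ℕ) (u : Fin N → ℂ) (v : Fin d → ℂ) (w : Fin d → Fin N → ℂ) :
    cf S A j u (∑ i, v i • w i) = ∑ i, v i * cf S A j u (w i) := by
  have h1 : ∀ (T : Finset (Fin d)), cf S A j u (∑ i ∈ T, v i • w i) =
      ∑ i ∈ T, v i * cf S A j u (w i) := by
    intro T
    classical
    induction T using Finset.induction_on with
    | empty => simp [cf, sf]
    | insert a T ha ih => rw [Finset.sum_insert ha, Finset.sum_insert ha, cf_add_right,
        cf_smul_right, ih]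
  exact h1 _

theorem cf_sum_left (j : ℕ) (u : Fin N → ℂ) (v : Fin d → ℂ) (w : Fin d → Fin N → ℂ) :
    cf S A j (∑ i, v i • w i) u = ∑ i, star (v i) * cf S A j (w i) u := by
  have h1 : ∀ (T : Finset (Fin d)), cf S A j (∑ i ∈ T, v i • w i) u =
      ∑ i ∈ T, star (v i) * cf S A j (w i) u := by
    intro T
    classical
    induction T using Finset.induction_on with
    | empty => simp [cf, sf]
    | insert a T ha ih => rw [Finset.sum_insert ha, Finset.sum_insert ha, cf_add_left,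
        cf_smul_left, ih]
  exact h1 _

theorem BD.polar1' (h : BD n S A f p₀ r) {k : ℕ} (hk : IsOrd S A f p₀ r k) {z : Fin (d + 1) → ℂ}
    (hz : z ∈ ball p₀ r) (hz0 : z 0 = 0) {j : ℕ} (hj : k < j) (v : Fin d → ℂ) :
    cf S A j (f z) (Dv f v z) = 0 := by
  rw [Dv, cf_sum_right]
  refine Finset.sum_eq_zero fun i _ => ?_
  rw [cf, h.polar1 hk hz hz0 hj i, mul_zero, mul_zero]

theorem BD.polar2' (h : BD n S A f p₀ r) {k : ℕ} (hk : IsOrd S A f p₀ r k) {z : Fin (d + 1) → ℂ}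
    (hz : z ∈ ball p₀ r) (hz0 : z 0 = 0) {j : ℕ} (hj : k < j) (v w : Fin d → ℂ) :
    cf S A j (Dv f w z) (Dv f v z) = 0 := by
  rw [Dv, cf_sum_left]
  refine Finset.sum_eq_zero fun i _ => ?_
  rw [Dv, cf_sum_right, Finset.sum_eq_zero, mul_zero]
  intro i' _
  rw [cf, h.polar2 hk hz hz0 hj i i', mul_zero, mul_zero]

/-- the limit metric is nonnegative -/
theorem BD.lim_nonneg (h : BD n S A f p₀ r) {k : ℕ} (hkn : k < n) (hk : IsOrd S A f p₀ r k)
    {z : Fin (d + 1) → ℂ} (hz : z ∈ ball p₀ r) (hz0 : z 0 = 0) :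
    0 ≤ (cf S A k (f z) (f z)).re := by
  have h1 := tendsto_HS n S A hkn (h.diff hz) (h.diff hz) (hk.zero z hz hz0)
  have h2 := (Complex.continuous_re.tendsto _).comp h1
  refine ge_of_tendsto h2 ?_
  have hs : Tendsto (fun t : ℝ => - Real.log t) (𝓝[>] 0) atTop :=
    tendsto_neg_atBot_atTop.comp Real.tendsto_log_nhdsGT_zero
  filter_upwards [sh_mem hz hz0, hs.eventually_gt_atTop 0] with t ht ht0
  have h3 := h.pos _ ht.1 ht.2.1
  rw [ht.2.2] at h3
  simp only [Function.comp_apply, Complex.div_ofReal_re]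
  exact div_nonneg h3.le (pow_nonneg ht0.le k)

/-- the limit metric has semipositive curvature -/
theorem BD.lim_neg (h : BD n S A f p₀ r) {k : ℕ} (hkn : k < n) (hk : IsOrd S A f p₀ r k)
    {z : Fin (d + 1) → ℂ} (hz : z ∈ ball p₀ r) (hz0 : z 0 = 0) (v : Fin d → ℂ) :
    (cf S A k (f z) (f z)).re * (cf S A k (Dv f v z) (Dv f v z)).re ≤
      ‖cf S A k (f z) (Dv f v z)‖ ^ 2 := by
  have hD : DifferentiableAt ℂ (Dv f v) z :=
    (diffOn_Dv h.hf v).differentiableAt (isOpen_ball.mem_nhds hz)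
  have h1 := tendsto_HS n S A hkn (h.diff hz) (h.diff hz) (hk.zero z hz hz0)
  have h2 := tendsto_HS n S A hkn hD hD (fun j hj => h.polar2' hk hz hz0 hj v v)
  have h3 := tendsto_HS n S A hkn (h.diff hz) hD (fun j hj => h.polar1' hk hz hz0 hj v)
  have h4 := ((Complex.continuous_re.tendsto _).comp h1).mul
    ((Complex.continuous_re.tendsto _).comp h2)
  have h5 := h3.norm.pow 2
  refine le_of_tendsto_of_tendsto h4 h5 ?_
  have hs : Tendsto (fun t : ℝ => - Real.log t) (𝓝[>] 0) atTop :=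
    tendsto_neg_atBot_atTop.comp Real.tendsto_log_nhdsGT_zero
  filter_upwards [sh_mem hz hz0, hs.eventually_gt_atTop 0] with t ht ht0
  have h6 := h.neg _ ht.1 ht.2.1 v
  rw [ht.2.2] at h6
  have hpos : 0 < (- Real.log t) ^ k := pow_pos ht0 k
  simp only [Function.comp_apply, Complex.div_ofReal_re, norm_div, Complex.norm_real,
    Real.norm_eq_abs, abs_of_pos hpos]
  rw [div_mul_div_comm, div_pow, ← pow_two]
  gcongr

/-! ### the Levi form of `- log g` -/

/-- `g²` times the Levi matrix of `- log g`, `g = c_k` -/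
noncomputable def lev (S A : Matrix (Fin N) (Fin N) ℂ) (k : ℕ) (f : (Fin (d + 1) → ℂ) → Fin N → ℂ)
    (z : Fin (d + 1) → ℂ) : Matrix (Fin d) (Fin d) ℂ :=
  Matrix.of fun i j => cf S A k (pd i.succ f z) (f z) * cf S A k (f z) (pd j.succ f z) -
    cf S A k (f z) (f z) * cf S A k (pd i.succ f z) (pd j.succ f z)

theorem lev_form (k : ℕ) (z : Fin (d + 1) → ℂ) (v w : Fin d → ℂ) :
    star w ⬝ᵥ (lev S A k f z *ᵥ v) = cf S A k (Dv f w z) (f z) * cf S A k (f z) (Dv f v z) -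
      cf S A k (f z) (f z) * cf S A k (Dv f w z) (Dv f v z) := by
  have h1 : cf S A k (Dv f w z) (f z) = ∑ i, star (w i) * cf S A k (pd i.succ f z) (f z) := by
    rw [Dv, cf_sum_left]
  have h2 : cf S A k (f z) (Dv f v z) = ∑ i, v i * cf S A k (f z) (pd i.succ f z) := by
    rw [Dv, cf_sum_right]
  have h3 : cf S A k (Dv f w z) (Dv f v z) = ∑ i, ∑ j, star (w i) * (v j *
      cf S A k (pd i.succ f z) (pd j.succ f z)) := by
    rw [Dv, cf_sum_left]
    refine Finset.sum_congr rfl fun i _ => ?_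
    rw [Dv, cf_sum_right, Finset.mul_sum]
  rw [h1, h2, h3, Finset.sum_mul_sum, Finset.mul_sum]
  simp only [dotProduct, mulVec, lev, of_apply, Finset.mul_sum, Pi.star_apply]
  rw [← Finset.sum_sub_distrib]
  refine Finset.sum_congr rfl fun i _ => ?_
  rw [← Finset.sum_sub_distrib]
  refine Finset.sum_congr rfl fun j _ => ?_
  ring

theorem BD.lev_herm (h : BD n S A f p₀ r) (k : ℕ) (z : Fin (d + 1) → ℂ) :
    (lev S A k f z).IsHermitian := by
  refine Matrix.IsHermitian.ext fun i j => ?_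
  simp only [lev, of_apply, star_sub, star_mul', star_cf h.herm h.adj]
  ring

theorem BD.lev_psd (h : BD n S A f p₀ r) {k : ℕ} (hkn : k < n) (hk : IsOrd S A f p₀ r k)
    {z : Fin (d + 1) → ℂ} (hz : z ∈ ball p₀ r) (hz0 : z 0 = 0) :
    (lev S A k f z).PosSemidef := by
  refine Matrix.PosSemidef.of_dotProduct_mulVec_nonneg (h.lev_herm k z) fun v => ?_
  rw [lev_form]
  have h1 := h.lim_neg hkn hk hz hz0 v
  have h2 : cf S A k (f z) (f z) = ((cf S A k (f z) (f z)).re : ℂ) := by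
    apply Complex.ext <;> simp [cf_self_im h.herm h.adj]
  have h3 : cf S A k (Dv f v z) (Dv f v z) = ((cf S A k (Dv f v z) (Dv f v z)).re : ℂ) := by
    apply Complex.ext <;> simp [cf_self_im h.herm h.adj]
  have h4 : cf S A k (Dv f v z) (f z) * cf S A k (f z) (Dv f v z) =
      ((‖cf S A k (f z) (Dv f v z)‖ ^ 2 : ℝ) : ℂ) := by
    rw [← star_cf h.herm h.adj k (f z) (Dv f v z), Complex.star_def, Complex.conj_mul']
    push_cast; rfl
  rw [h4, h2, h3, ← Complex.ofReal_mul, ← Complex.ofReal_sub, Complex.zero_le_real]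
  linarith

end BD

/-- a positive semidefinite matrix of rank `≥ ν` has a nonvanishing principal minor of size `ν` -/
theorem exists_minor {P : Matrix (Fin d) (Fin d) ℂ} (hP : P.PosSemidef) {ν : ℕ} (hν : ν ≤ P.rank) :
    ∃ J : Fin ν → Fin d, Function.Injective J ∧ (P.submatrix J J).det ≠ 0 := by
  classical
  obtain ⟨κ, a, ha, hsp, hli⟩ := exists_linearIndependent' ℂ P.col
  have : Fintype κ := Fintype.ofInjective a ha
  have hcard : Fintype.card κ = P.rank := by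
    rw [rank_eq_finrank_span_cols, ← hsp]
    exact (finrank_span_eq_card hli).symm
  have hle : Fintype.card (Fin ν) ≤ Fintype.card κ := by rw [Fintype.card_fin, hcard]; exact hν
  obtain ⟨b⟩ := Function.Embedding.nonempty_of_card_le hle
  refine ⟨fun i => a (b i), ha.comp b.injective, ?_⟩
  have hli' : LinearIndependent ℂ (fun i : Fin ν => P.col (a (b i))) := hli.comp b b.injective
  intro hdet
  obtain ⟨x, hx0, hx⟩ := Matrix.exists_mulVec_eq_zero_iff.2 hdet
  apply hx0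
  -- the extended vector
  set J : Fin ν → Fin d := fun i => a (b i) with hJ
  have hJi : Function.Injective J := ha.comp b.injective
  set y : Fin d → ℂ := ∑ i, x i • (Pi.single (J i) 1 : Fin d → ℂ) with hy
  have hPy : P *ᵥ y = ∑ i, x i • P.col (J i) := by
    rw [hy, mulVec_sum]
    refine Finset.sum_congr rfl fun i _ => ?_
    rw [mulVec_smul, mulVec_single_one]
  have hyP : star y ⬝ᵥ (P *ᵥ y) = 0 := by
    have h1 : star y = ∑ i, star (x i) • (Pi.single (J i) 1 : Fin d → ℂ) := by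
      rw [hy, star_sum]
      refine Finset.sum_congr rfl fun i _ => ?_
      rw [star_smul]
      congr 1
      ext j
      by_cases hj : j = J i
      · subst hj; simp
      · simp [Pi.single_eq_of_ne hj]
    rw [h1, hPy, sum_dotProduct]
    refine Finset.sum_eq_zero fun i _ => ?_
    rw [smul_dotProduct, single_one_dotProduct]
    have h2 := congrFun hx i
    simp only [mulVec, dotProduct, submatrix_apply, Pi.zero_apply] at h2
    have h3 : (∑ j, x j • P.col (J j)) (J i) = ∑ j, P (J i) (J j) * x j := by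
      rw [Finset.sum_apply]
      refine Finset.sum_congr rfl fun j _ => ?_
      simp [Matrix.col, mul_comm]
    rw [h3, h2, smul_zero]
  have h4 := (hP.dotProduct_mulVec_zero_iff y).1 hyP
  rw [hPy] at h4
  have h5 := Fintype.linearIndependent_iff.1 hli' x h4
  ext i
  exact h5 i

end Crest.Agent.R276.BndA_25
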