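import Mathlib
import Crest.Agent.R276.BndA_25

/-!
# R276, leaf BNDA part 2 (helper25): the rank drop at the boundary
-/

set_option autoImplicit false

open Set Filter Topology Metric Matrix
open scoped ContDiff ComplexOrder

namespace Crest.Agent.R276.BndB_25

open Crest.Agent.R276.Bnd1_25 Crest.Agent.R276.Bnd2_25 Crest.Agent.R276.BndA_25

variable {d N : ℕ} {n : ℕ} {S A : Matrix (Fin N) (Fin N) ℂ} {f : (Fin (d + 1) → ℂ) → Fin N → ℂ}
  {p₀ : Fin (d + 1) → ℂ} {r : ℝ}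

theorem cf_sum_right' {m : ℕ} (j : ℕ) (u : Fin N → ℂ) (v : Fin m → ℂ) (w : Fin m → Fin N → ℂ) :
    cf S A j u (∑ i, v i • w i) = ∑ i, v i * cf S A j u (w i) := by
  have h1 : ∀ (T : Finset (Fin m)), cf S A j u (∑ i ∈ T, v i • w i) =
      ∑ i ∈ T, v i * cf S A j u (w i) := by
    intro T
    classical
    induction T using Finset.induction_on with
    | empty => simp [cf, sf]
    | insert a T ha ih => rw [Finset.sum_insert ha, Finset.sum_insert ha, cf_add_right,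
        cf_smul_right, ih]
  exact h1 _

/-- from the Levi form of `- log g` to the Gram matrix -/
theorem gram_det_ne {k ν : ℕ} (J : Fin ν → Fin d) {z : Fin (d + 1) → ℂ}
    (hg : cf S A k (f z) (f z) ≠ 0) (hdet : ((lev S A k f z).submatrix J J).det ≠ 0) :
    (Bnd2_25.gram S (A ^ k) J f z z).det ≠ 0 := by
  intro h0
  obtain ⟨β, hβ0, hβ⟩ := Matrix.exists_mulVec_eq_zero_iff.2 h0
  apply hβ0
  set u : Fin N → ℂ := ∑ a, β a • X J f a z with hu
  have h1 : ∀ b, cf S A k (X J f b z) u = 0 := by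
    intro b
    rw [hu, cf_sum_right']
    have h2 := congrFun hβ b
    simp only [mulVec, dotProduct, Bnd2_25.gram, of_apply, Pi.zero_apply] at h2
    simp only [cf]
    have h3 : ∀ a, β a * (((1 / (k.factorial : ℝ) : ℝ) : ℂ) * sf S (X J f b z) (A ^ k *ᵥ X J f a z)) =
        ((1 / (k.factorial : ℝ) : ℝ) : ℂ) * (sf S (X J f b z) (A ^ k *ᵥ X J f a z) * β a) := by
      intro a; ring
    simp only [h3]
    rw [← Finset.mul_sum, h2, mul_zero]
  have h2 : ∀ b, ∑ a, β a * cf S A k (X J f b z) (X J f a z) = 0 := by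
    intro b; rw [← cf_sum_right', ← hu, h1]
  simp only [Fin.sum_univ_succ] at h2
  have h3 := h2 0
  simp only [X_zero, X_succ] at h3
  set x : Fin ν → ℂ := fun j => β j.succ with hx
  have h4 : (lev S A k f z).submatrix J J *ᵥ x = 0 := by
    funext i
    have h5 := h2 i.succ
    simp only [X_zero, X_succ] at h5
    simp only [mulVec, dotProduct, submatrix_apply, lev, of_apply, Pi.zero_apply]
    have h6 : ∀ j, (cf S A k (pd (J i).succ f z) (f z) * cf S A k (f z) (pd (J j).succ f z) -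
        cf S A k (f z) (f z) * cf S A k (pd (J i).succ f z) (pd (J j).succ f z)) * x j =
        cf S A k (pd (J i).succ f z) (f z) * (β j.succ * cf S A k (f z) (pd (J j).succ f z)) -
        cf S A k (f z) (f z) * (β j.succ * cf S A k (pd (J i).succ f z) (pd (J j).succ f z)) := by
      intro j; simp only [hx]; ring
    simp only [h6]
    rw [Finset.sum_sub_distrib, ← Finset.mul_sum, ← Finset.mul_sum]
    linear_combination cf S A k (pd (J i).succ f z) (f z) * h3 - cf S A k (f z) (f z) * h5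
  have h5 := Matrix.eq_zero_of_mulVec_eq_zero hdet h4
  have h6 : ∀ j, β (Fin.succ j) = 0 := fun j => congrFun h5 j
  have h7 : β 0 = 0 := by
    simp only [h6, zero_mul, Finset.sum_const_zero, add_zero] at h3
    exact (mul_eq_zero.1 h3).resolve_right hg
  funext a
  refine Fin.cases h7 h6 a

/-- the rank of `ω ↦ dω` modulo `ω` is at most `ν` off the divisor (`A = (i/π) N`, so that
`(1/2πi) N = - A/2`) -/
def RK (A : Matrix (Fin N) (Fin N) ℂ) (f : (Fin (d + 1) → ℂ) → Fin N → ℂ)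
    (p₀ : Fin (d + 1) → ℂ) (r : ℝ) (ν : ℕ) : Prop :=
  ∀ z ∈ ball p₀ r, z 0 ≠ 0 → Module.finrank ℂ (Submodule.span ℂ
    (insert ((-1 / 2 : ℂ) • (A *ᵥ f z) + z 0 • pd 0 f z)
      (insert (f z) (range fun j : Fin d => pd j.succ f z)))) ≤ ν + 1

/-- local form of the rank drop -/
theorem BD.rank_drop_loc (h : BD n S A f p₀ r) {ν k : ℕ} (hkn : k < n) (hk : IsOrd S A f p₀ r k)
    (hrk : RK A f p₀ r ν) {p : Fin (d + 1) → ℂ} (hp : p ∈ ball p₀ r) (hp0 : p 0 = 0)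
    (hg : cf S A k (f p) (f p) ≠ 0) (hν : ν ≤ (lev S A k f p).rank) :
    ∃ r' : ℝ, 0 < r' ∧ ball p r' ⊆ ball p₀ r ∧ (∀ z ∈ ball p r', A *ᵥ f z = 0) ∧
      ∀ (τ : Matrix (Fin N) (Fin N) ℂ) (ξ : ℂ),
        (∀ z ∈ ball p r', f (Function.update z 0 (ξ * z 0)) = τ *ᵥ f z) →
        ∀ z ∈ ball p r', τ *ᵥ f z = f z := by
  obtain ⟨J, -, hJ⟩ := exists_minor (h.lev_psd hkn hk hp hp0) hν
  have hdet := gram_det_ne J hg hJ
  obtain ⟨r₁, hr₁, hsub₁⟩ := Metric.isOpen_iff.1 isOpen_ball p hp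
  have hf₁ : DifferentiableOn ℂ f (ball p r₁) := h.hf.mono hsub₁
  obtain ⟨r₂, hr₂, hr₂₁, hgram, -⟩ := cramer hr₁ J hf₁ S (A ^ k) hdet
    (g := fun _ => 0) (differentiableOn_const 0) (fun z _ _ => Submodule.zero_mem _)
  have hsub₂ : ball p r₂ ⊆ ball p₀ r := (ball_subset_ball hr₂₁).trans hsub₁
  have hf₂ : DifferentiableOn ℂ f (ball p r₂) := h.hf.mono hsub₂
  have hspan : ∀ z ∈ ball p r₂, z 0 ≠ 0 →
      (-1 / 2 : ℂ) • (A *ᵥ f z) + z 0 • pd 0 f z ∈ Submodule.span ℂ (range fun a => X J f a z) := by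
    intro z hz hz0
    refine mem_span_of_finrank (indep_of_det (hgram z hz)) (hrk z (hsub₂ hz) hz0) ?_ ?_
    · intro a
      refine Submodule.subset_span ?_
      refine Fin.cases ?_ (fun j => ?_) a
      · exact mem_insert_of_mem _ (mem_insert _ _)
      · exact mem_insert_of_mem _ (mem_insert_of_mem _ ⟨J j, rfl⟩)
    · exact Submodule.subset_span (mem_insert _ _)
  have htop : ∀ z ∈ ball p r₂, z 0 = 0 → sf S (f z) (A ^ (k + 1) *ᵥ f z) = 0 := by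
    intro z hz hz0
    have h2 := hk.zero z (hsub₂ hz) hz0 (k + 1) (Nat.lt_succ_self k)
    have h3 : ((1 / ((k + 1).factorial : ℝ) : ℝ) : ℂ) ≠ 0 := by
      have : (0 : ℝ) < 1 / ((k + 1).factorial : ℝ) := by positivity
      exact_mod_cast this.ne'
    exact (mul_eq_zero.1 h2).resolve_left h3
  obtain ⟨r', hr', hr'₂, hA, b, a, hb, ha, heq⟩ := bnd hp0 hr₂ J hf₂ ⟨n, h.nil⟩
    (c := (-1 / 2 : ℂ)) (by norm_num) hspan htop hdet
  refine ⟨r', hr', (ball_subset_ball hr'₂).trans hsub₂, hA, fun τ ξ hτ => ?_⟩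
  exact bnd_scalar hp0 J (hf₂.mono (ball_subset_ball hr'₂)) hb ha heq hτ

theorem eqOn_ball {F : Type*} [NormedAddCommGroup F] [NormedSpace ℂ F] [CompleteSpace F]
    {g : (Fin (d + 1) → ℂ) → F} (hg : DifferentiableOn ℂ g (ball p₀ r)) {p : Fin (d + 1) → ℂ}
    {r' : ℝ} (hr' : 0 < r') (hsub : ball p r' ⊆ ball p₀ r) (h0 : ∀ z ∈ ball p r', g z = 0) :
    ∀ z ∈ ball p₀ r, g z = 0 := by
  have hA : AnalyticOnNhd ℂ g (ball p₀ r) :=
    Crest.Agent.R266.SCV.analyticOnNhd_of_differentiableOn isOpen_ball hg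
  have hpre : IsPreconnected (ball p₀ r) := (convex_ball p₀ r).isPreconnected
  have hev : g =ᶠ[𝓝 p] 0 := by
    filter_upwards [isOpen_ball.mem_nhds (mem_ball_self hr')] with z hz using h0 z hz
  exact hA.eqOn_zero_of_preconnected_of_eventuallyEq_zero hpre (hsub (mem_ball_self hr')) hev

/-- **RANK DROP** (767 #1220): if at one boundary point with `g > 0` the Levi form of `- log g` has
rank `≥ ν`, the bound of the rank off the divisor, then the local monodromy acts trivially on the span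
of the values of `f`. -/
theorem BD.rank_drop (h : BD n S A f p₀ r) {ν k : ℕ} (hkn : k < n) (hk : IsOrd S A f p₀ r k)
    (hrk : RK A f p₀ r ν) {p : Fin (d + 1) → ℂ} (hp : p ∈ ball p₀ r) (hp0 : p 0 = 0)
    (hg : cf S A k (f p) (f p) ≠ 0) (hν : ν ≤ (lev S A k f p).rank) :
    (∀ z ∈ ball p₀ r, A *ᵥ f z = 0) ∧ ∀ (τ : Matrix (Fin N) (Fin N) ℂ) (ξ : ℂ),
        (∀ z ∈ ball p₀ r, f (Function.update z 0 (ξ * z 0)) = τ *ᵥ f z) →
        ∀ z ∈ ball p₀ r, τ *ᵥ f z = f z := by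
  obtain ⟨r', hr', hsub, hA, hτ⟩ := BD.rank_drop_loc h hkn hk hrk hp hp0 hg hν
  refine ⟨?_, fun τ ξ hτξ => ?_⟩
  · exact eqOn_ball ((mv A).differentiable.comp_differentiableOn h.hf) hr' hsub hA
  · have h1 := hτ τ ξ (fun z hz => hτξ z (hsub hz))
    have h2 : DifferentiableOn ℂ (fun z => τ *ᵥ f z - f z) (ball p₀ r) :=
      ((mv τ).differentiable.comp_differentiableOn h.hf).sub h.hf
    intro z hz
    exact sub_eq_zero.1 (eqOn_ball h2 hr' hsub (fun z hz => sub_eq_zero.2 (h1 z hz)) z hz)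

/-- contrapositive: if the monodromy is not trivial on the span of the values of `f`, the rank of the
Levi form of `- log g` is smaller than `ν` at every boundary point with `g ≠ 0` -/
theorem BD.rank_lt (h : BD n S A f p₀ r) {ν k : ℕ} (hkn : k < n) (hk : IsOrd S A f p₀ r k)
    (hrk : RK A f p₀ r ν) {τ : Matrix (Fin N) (Fin N) ℂ} {ξ : ℂ}
    (hτ : ∀ z ∈ ball p₀ r, f (Function.update z 0 (ξ * z 0)) = τ *ᵥ f z)
    (hne : (∃ z ∈ ball p₀ r, A *ᵥ f z ≠ 0) ∨ ∃ z ∈ ball p₀ r, τ *ᵥ f z ≠ f z)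
    {p : Fin (d + 1) → ℂ} (hp : p ∈ ball p₀ r) (hp0 : p 0 = 0)
    (hg : cf S A k (f p) (f p) ≠ 0) : (lev S A k f p).rank < ν := by
  by_contra hν
  obtain ⟨h1, h2⟩ := BD.rank_drop h hkn hk hrk hp hp0 hg (not_lt.1 hν)
  rcases hne with ⟨z, hz, hz'⟩ | ⟨z, hz, hz'⟩
  · exact hz' (h1 z hz)
  · exact hz' (h2 τ ξ hτ z hz)

/-! ### moderate growth from the multivalued frame -/

/-- `‖exp (c L)‖` grows at most polynomially in `c` -/
theorem exp_bound {L : Matrix (Fin N) (Fin N) ℂ} (hL : L ^ n = 0) :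
    ∃ C : ℝ, 0 ≤ C ∧ ∀ (c : ℂ) (u : Fin N → ℂ), ‖IsNilpotent.exp (c • L) *ᵥ u‖ ≤
      C * (1 + ‖c‖) ^ n * ‖u‖ := by
  refine ⟨∑ j ∈ Finset.range n, ‖mv (L ^ j)‖, Finset.sum_nonneg fun _ _ => norm_nonneg _, ?_⟩
  intro c u
  have hcL : (c • L) ^ n = 0 := by rw [smul_pow, hL, smul_zero]
  rw [IsNilpotent.exp_eq_sum hcL, sum_mulVec, Finset.sum_mul, Finset.sum_mul]
  refine (norm_sum_le _ _).trans (Finset.sum_le_sum fun j hj => ?_)
  have h1 : ∀ (q : ℚ) (M : Matrix (Fin N) (Fin N) ℂ), q • M = ((q : ℝ) : ℂ) • M := by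
    intro q M
    ext i k
    simp [Rat.smul_def]
  rw [h1, smul_pow, smul_smul, smul_mulVec, norm_smul, norm_mul, norm_pow]
  have h2 : ‖(((((j.factorial : ℚ))⁻¹ : ℚ) : ℝ) : ℂ)‖ ≤ 1 := by
    rw [Complex.norm_real, Real.norm_eq_abs]
    have h3 : (0 : ℝ) < (j.factorial : ℝ) := by positivity
    have h4 : (1 : ℝ) ≤ (j.factorial : ℝ) := by exact_mod_cast Nat.succ_le_of_lt (Nat.factorial_pos j)
    have h5 : (((((j.factorial : ℚ))⁻¹ : ℚ) : ℝ)) = ((j.factorial : ℝ))⁻¹ := by push_cast; rfl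
    rw [h5, abs_of_pos (inv_pos.2 h3)]
    exact inv_le_one_of_one_le₀ h4
  have h3 : ‖c‖ ^ j ≤ (1 + ‖c‖) ^ n := by
    have hj' : j ≤ n := (Finset.mem_range.1 hj).le
    calc ‖c‖ ^ j ≤ (1 + ‖c‖) ^ j := by
          gcongr
          linarith
      _ ≤ (1 + ‖c‖) ^ n := pow_le_pow_right₀ (by linarith [norm_nonneg c]) hj'
  have h4 : ‖L ^ j *ᵥ u‖ ≤ ‖mv (L ^ j)‖ * ‖u‖ := (mv (L ^ j)).le_opNorm u
  calc ‖(((((j.factorial : ℚ))⁻¹ : ℚ) : ℝ) : ℂ)‖ * ‖c‖ ^ j * ‖L ^ j *ᵥ u‖ ≤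
      1 * (1 + ‖c‖) ^ n * (‖mv (L ^ j)‖ * ‖u‖) := by gcongr
    _ = ‖mv (L ^ j)‖ * (1 + ‖c‖) ^ n * ‖u‖ := by ring

/-- `MG` from `‖ω‖² ≤ C s^m S(ω, ω)` -/
theorem mg_of_exp {L : Matrix (Fin N) (Fin N) ℂ} (hL : L ^ n = 0) {p₁ : Fin (d + 1) → ℂ}
    (hf0 : f p₁ ≠ 0) {C : ℝ} {m : ℕ}
    (hC : ∀ᶠ (t : ℝ) in 𝓝[>] 0,
      ‖IsNilpotent.exp (((Real.log t : ℂ) / (2 * Real.pi * Complex.I)) • L) *ᵥ f (sh p₁ t)‖ ^ 2 ≤
      C * (- Real.log t) ^ m *
        (HS n S ((Complex.I / Real.pi) • L) (- Real.log t) (f (sh p₁ t)) (f (sh p₁ t))).re) :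
    MG n S ((Complex.I / Real.pi) • L) f p₁ := by
  obtain ⟨D, hD0, hD⟩ := exp_bound hL
  refine ⟨hf0, D ^ 2 * 2 ^ (2 * n) * C, m + 2 * n, ?_⟩
  have hs : Tendsto (fun t : ℝ => - Real.log t) (𝓝[>] 0) atTop :=
    tendsto_neg_atBot_atTop.comp Real.tendsto_log_nhdsGT_zero
  filter_upwards [hC, hs.eventually_ge_atTop 1] with t ht hst
  set c : ℂ := (Real.log t : ℂ) / (2 * Real.pi * Complex.I) with hc
  have hcn : ‖c‖ ≤ - Real.log t := by
    rw [hc, norm_div, Complex.norm_real, Real.norm_eq_abs, abs_of_nonpos (by linarith)]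
    have h1 : ‖(2 * Real.pi * Complex.I : ℂ)‖ = 2 * Real.pi := by
      simp [abs_of_pos Real.pi_pos]
    rw [h1]
    have h2 : (1 : ℝ) ≤ 2 * Real.pi := by nlinarith [Real.pi_gt_three]
    exact div_le_self (by linarith) h2
  have hinv : f (sh p₁ t) = IsNilpotent.exp ((-c) • L) *ᵥ (IsNilpotent.exp (c • L) *ᵥ f (sh p₁ t)) := by
    have hcL : (c • L) ^ n = 0 := by rw [smul_pow, hL, smul_zero]
    rw [mulVec_mulVec, neg_smul, IsNilpotent.exp_neg_mul_exp_self ⟨n, hcL⟩, one_mulVec]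
  have h1 := hD (-c) (IsNilpotent.exp (c • L) *ᵥ f (sh p₁ t))
  rw [← hinv, norm_neg] at h1
  have h2 : (1 + ‖c‖) ^ n ≤ (2 * (- Real.log t)) ^ n := by
    gcongr
    linarith
  have h3 : ‖f (sh p₁ t)‖ ≤ D * (2 * (- Real.log t)) ^ n * ‖IsNilpotent.exp (c • L) *ᵥ f (sh p₁ t)‖ :=
    h1.trans (by gcongr)
  have h4 : (0 : ℝ) ≤ D * (2 * (- Real.log t)) ^ n := by positivity
  calc ‖f (sh p₁ t)‖ ^ 2 ≤ (D * (2 * (- Real.log t)) ^ n * ‖IsNilpotent.exp (c • L) *ᵥ f (sh p₁ t)‖) ^ 2 := by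
        gcongr
    _ = (D * (2 * (- Real.log t)) ^ n) ^ 2 * ‖IsNilpotent.exp (c • L) *ᵥ f (sh p₁ t)‖ ^ 2 := by ring
    _ ≤ (D * (2 * (- Real.log t)) ^ n) ^ 2 * _ := mul_le_mul_of_nonneg_left ht (by positivity)
    _ = _ := by
      generalize - Real.log t = s
      ring

end Crest.Agent.R276.BndB_25
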