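import Mathlib

/-!
# R276, leaf FRI (helper348), topology: root covers and complements of hypersurfaces

* `isPreconnected_ne` : `{x | eval x p ≠ 0}` is preconnected.
* `RC δ N = {(z, η) | η ^ N = δ z}` : `rc_lh` (local homeomorphism over the base if `δ` has no zeros),
  `rc_compact` (compact preimages), `rc_tsum` (sum of `‖η‖ ^ 2` over a fibre), `rt` (local root).
-/

set_option autoImplicit false

noncomputable section

open Set Filter Topology
open scoped ENNReal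

namespace Crest.Agent.R276.Rc_348

/-- The complement of a hypersurface of `ℂⁿ` is connected. -/
theorem isPreconnected_ne {n : ℕ} (p : MvPolynomial (Fin n) ℂ) :
    IsPreconnected {x : Fin n → ℂ | MvPolynomial.eval x p ≠ 0} := by
  refine isPreconnected_of_forall_pair fun a ha b hb => ?_
  let P : Polynomial ℂ := MvPolynomial.aeval
    (fun i => Polynomial.C (a i) + Polynomial.X * Polynomial.C (b i - a i)) p
  have hP : ∀ t : ℂ, P.eval t = MvPolynomial.eval (fun i => a i + t * (b i - a i)) p := by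
    intro t
    have h1 : (Polynomial.evalRingHom t).comp (MvPolynomial.aeval
        (fun i => Polynomial.C (a i) + Polynomial.X * Polynomial.C (b i - a i)) :
          MvPolynomial (Fin n) ℂ →ₐ[ℂ] Polynomial ℂ).toRingHom =
        (MvPolynomial.eval (fun i => a i + t * (b i - a i))) := by
      apply MvPolynomial.ringHom_ext
      · intro c; simp
      · intro i; simp
    exact congrArg (fun φ : MvPolynomial (Fin n) ℂ →+* ℂ => φ p) h1
  have h0 : P.eval 0 ≠ 0 := by rw [hP]; simpa using ha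
  have h1 : P.eval 1 ≠ 0 := by rw [hP]; simpa using hb
  have hPne : P ≠ 0 := fun h => h0 (by rw [h, Polynomial.eval_zero])
  let S : Set ℂ := (P.roots.toFinset : Set ℂ)ᶜ
  have hS : IsConnected S := by
    apply Set.Countable.isConnected_compl_of_one_lt_rank
    · simp
    · exact P.roots.toFinset.countable_toSet
  have hmem : ∀ t, t ∈ S ↔ P.eval t ≠ 0 := by
    intro t
    simp [S, hPne]
  refine ⟨(fun t : ℂ => fun i => a i + t * (b i - a i)) '' S, ?_, ⟨0, (hmem 0).2 h0, ?_⟩,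
    ⟨1, (hmem 1).2 h1, ?_⟩, ?_⟩
  · rintro _ ⟨t, ht, rfl⟩
    have := (hmem t).1 ht
    rw [hP] at this
    exact this
  · funext i; simp
  · funext i; simp
  · exact hS.isPreconnected.image _ (by fun_prop)

/-! ### root covers -/

variable {Z : Type*} [TopologicalSpace Z]

/-- The root cover `{(z, η) | η ^ N = δ z}`. -/
def RC (δ : Z → ℂ) (N : ℕ) : Type _ := {q : Z × ℂ // q.2 ^ N = δ q.1}

instance (δ : Z → ℂ) (N : ℕ) : TopologicalSpace (RC δ N) :=
  inferInstanceAs (TopologicalSpace {q : Z × ℂ // q.2 ^ N = δ q.1})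

instance (δ : Z → ℂ) (N : ℕ) [T2Space Z] : T2Space (RC δ N) :=
  inferInstanceAs (T2Space {q : Z × ℂ // q.2 ^ N = δ q.1})

variable {δ : Z → ℂ} {N : ℕ}

/-- The projection. -/
def RC.pr (q : RC δ N) : Z := q.1.1

/-- The root. -/
def RC.rt (q : RC δ N) : ℂ := q.1.2

omit [TopologicalSpace Z] in
theorem RC.rt_pow (q : RC δ N) : q.rt ^ N = δ q.pr := q.2

theorem RC.continuous_pr : Continuous (RC.pr : RC δ N → Z) :=
  continuous_fst.comp continuous_subtype_val

/-- Constructor. -/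
def RC.mk (z : Z) (η : ℂ) (h : η ^ N = δ z) : RC δ N := ⟨(z, η), h⟩

theorem RC.continuousOn_of {W : Type*} [TopologicalSpace W] {f : W → RC δ N} {U : Set W}
    (h1 : ContinuousOn (fun w => (f w).pr) U) (h2 : ContinuousOn (fun w => (f w).rt) U) :
    ContinuousOn f U := by
  have hind : Topology.IsInducing (fun q : RC δ N => ((q.pr, q.rt) : Z × ℂ)) :=
    Topology.IsInducing.subtypeVal
  rw [hind.continuousOn_iff]
  exact h1.prodMk h2

theorem RC.continuous_rt : Continuous (RC.rt : RC δ N → ℂ) :=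
  continuous_snd.comp continuous_subtype_val

omit [TopologicalSpace Z] in
theorem RC.ext {q q' : RC δ N} (h1 : q.pr = q'.pr) (h2 : q.rt = q'.rt) : q = q' :=
  Subtype.ext (Prod.ext h1 h2)

omit [TopologicalSpace Z] in
theorem RC.rt_ne (hN : N ≠ 0) (q : RC δ N) (h : δ q.pr ≠ 0) : q.rt ≠ 0 := by
  intro h0
  apply h
  rw [← q.rt_pow, h0, zero_pow hN]

/-- The local root near `η₀` (with `η₀ ^ N = δ₀`). -/
def lroot (N : ℕ) (η₀ δ₀ a : ℂ) : ℂ := η₀ * Complex.exp (Complex.log (a / δ₀) / N)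

theorem lroot_pow (hN : N ≠ 0) {η₀ δ₀ a : ℂ} (h : η₀ ^ N = δ₀) (hδ : δ₀ ≠ 0) (ha : a ≠ 0) :
    lroot N η₀ δ₀ a ^ N = a := by
  unfold lroot
  rw [mul_pow, ← Complex.exp_nat_mul, mul_div_cancel₀ _ (by exact_mod_cast hN),
    Complex.exp_log (div_ne_zero ha hδ), h, mul_div_cancel₀ _ hδ]

theorem lroot_self {η₀ δ₀ : ℂ} (hδ : δ₀ ≠ 0) : lroot N η₀ δ₀ δ₀ = η₀ := by
  unfold lroot
  rw [div_self hδ, Complex.log_one, zero_div, Complex.exp_zero, mul_one]

theorem lroot_analyticAt {η₀ δ₀ a : ℂ} (hδ : δ₀ ≠ 0) (ha : a / δ₀ ∈ Complex.slitPlane) :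
    AnalyticAt ℂ (lroot N η₀ δ₀) a := by
  unfold lroot
  have h1 : AnalyticAt ℂ (fun a : ℂ => a / δ₀) a := by
    simp_rw [div_eq_mul_inv]
    exact analyticAt_id.mul analyticAt_const
  have h2 : AnalyticAt ℂ (fun a : ℂ => Complex.log (a / δ₀)) a := h1.clog ha
  have h3 : AnalyticAt ℂ (fun a : ℂ => Complex.log (a / δ₀) / N) a := by
    simp_rw [div_eq_mul_inv _ (N : ℂ)]
    exact h2.mul analyticAt_const
  exact analyticAt_const.mul h3.cexp

/-- `N`-th roots of unity are isolated. -/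
theorem exists_eps (hN : N ≠ 0) : ∃ ε > (0 : ℝ), ∀ ζ : ℂ, ζ ^ N = 1 → ‖ζ - 1‖ < ε → ζ = 1 := by
  classical
  let S : Set ℂ := {ζ | ζ ^ N = 1 ∧ ζ ≠ 1}
  have hfin : S.Finite := by
    have h1 : {ζ : ℂ | ζ ^ N = 1}.Finite := by
      let P : Polynomial ℂ := Polynomial.X ^ N - Polynomial.C 1
      have hP : P ≠ 0 := Polynomial.X_pow_sub_C_ne_zero (Nat.pos_of_ne_zero hN) 1
      refine (P.roots.toFinset.finite_toSet).subset fun ζ hζ => ?_
      have hζ' : ζ ^ N = 1 := hζ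
      rw [Finset.mem_coe, Multiset.mem_toFinset, Polynomial.mem_roots hP, Polynomial.IsRoot.def]
      simp [P, hζ']
    exact h1.subset fun ζ h => h.1
  have h2 : (Sᶜ) ∈ 𝓝 (1 : ℂ) := hfin.isClosed.isOpen_compl.mem_nhds (fun h => h.2 rfl)
  obtain ⟨ε, hε, hb⟩ := Metric.mem_nhds_iff.1 h2
  refine ⟨ε, hε, fun ζ h1 h3 => ?_⟩
  by_contra h4
  exact hb (show ζ ∈ Metric.ball 1 ε by rwa [mem_ball_iff_norm]) ⟨h1, h4⟩

/-- Near a point of the root cover the root is the local root. -/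
theorem RC.eventually_eq (hN : N ≠ 0) (hδ : Continuous δ) (q₀ : RC δ N) (h0 : δ q₀.pr ≠ 0) :
    ∀ᶠ q : RC δ N in 𝓝 q₀, q.rt = lroot N q₀.rt (δ q₀.pr) (δ q.pr) := by
  obtain ⟨ε, hε, hb⟩ := exists_eps hN
  have hcont : ContinuousAt (fun q : RC δ N => q.rt / lroot N q₀.rt (δ q₀.pr) (δ q.pr)) q₀ := by
    have h1 : ContinuousAt (fun q : RC δ N => lroot N q₀.rt (δ q₀.pr) (δ q.pr)) q₀ := by
      have h2 : ContinuousAt (lroot N q₀.rt (δ q₀.pr)) (δ q₀.pr) :=
        (lroot_analyticAt h0 (by rw [div_self h0]; exact Complex.one_mem_slitPlane)).continuousAt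
      exact ContinuousAt.comp (g := lroot N q₀.rt (δ q₀.pr)) h2
        (hδ.comp RC.continuous_pr).continuousAt
    refine RC.continuous_rt.continuousAt.div h1 ?_
    rw [lroot_self h0]
    exact q₀.rt_ne hN h0
  have h3 : q₀.rt / lroot N q₀.rt (δ q₀.pr) (δ q₀.pr) = 1 := by
    rw [lroot_self h0, div_self (q₀.rt_ne hN h0)]
  have h4 : ∀ᶠ q : RC δ N in 𝓝 q₀,
      ‖q.rt / lroot N q₀.rt (δ q₀.pr) (δ q.pr) - 1‖ < ε := by
    have h5 : Tendsto (fun q : RC δ N => ‖q.rt / lroot N q₀.rt (δ q₀.pr) (δ q.pr) - 1‖) (𝓝 q₀)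
        (𝓝 0) := by
      have h6 := (hcont.tendsto.sub_const 1).norm
      rw [h3, sub_self, norm_zero] at h6
      exact h6
    exact h5.eventually (gt_mem_nhds hε)
  have h5 : ∀ᶠ q : RC δ N in 𝓝 q₀, δ q.pr ≠ 0 :=
    (hδ.comp RC.continuous_pr).continuousAt.eventually_ne h0
  filter_upwards [h4, h5] with q hq hq'
  have h6 : lroot N q₀.rt (δ q₀.pr) (δ q.pr) ^ N = δ q.pr := lroot_pow hN q₀.rt_pow h0 hq'
  have h7 : lroot N q₀.rt (δ q₀.pr) (δ q.pr) ≠ 0 := by
    intro h; rw [h, zero_pow hN] at h6; exact hq' h6.symm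
  have h8 : q.rt / lroot N q₀.rt (δ q₀.pr) (δ q.pr) = 1 := by
    apply hb _ _ hq
    rw [div_pow, h6, q.rt_pow, div_self hq']
  exact (div_eq_one_iff_eq h7).1 h8

theorem rc_lh (hN : N ≠ 0) (hδ : Continuous δ) (hne : ∀ z, δ z ≠ 0) :
    IsLocalHomeomorph (RC.pr : RC δ N → Z) := by
  obtain ⟨ε, hε, hb⟩ := exists_eps hN
  refine IsLocalHomeomorph.mk _ fun q₀ => ?_
  set δ₀ := δ q₀.pr with hδ₀
  set η₀ := q₀.rt with hη₀
  have hδ0 : δ₀ ≠ 0 := hne _
  have hη0 : η₀ ≠ 0 := q₀.rt_ne hN (hne _)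
  let U : Set Z := {z | δ z / δ₀ ∈ Complex.slitPlane}
  have hU : IsOpen U := Complex.isOpen_slitPlane.preimage (hδ.div_const _)
  let L : Z → ℂ := fun z => lroot N η₀ δ₀ (δ z)
  have hLp : ∀ z, L z ^ N = δ z := fun z => lroot_pow hN q₀.rt_pow hδ0 (hne z)
  have hLne : ∀ z, L z ≠ 0 := fun z h => hne z (by rw [← hLp z, h, zero_pow hN])
  have hLc : ContinuousOn L U := by
    intro z hz
    have h1 : ContinuousAt (lroot N η₀ δ₀) (δ z) := (lroot_analyticAt hδ0 hz).continuousAt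
    exact (ContinuousAt.comp (g := lroot N η₀ δ₀) h1 hδ.continuousAt).continuousWithinAt
  let V : Set (RC δ N) := {q | q.pr ∈ U} ∩ {q | ‖q.rt / L q.pr - 1‖ < ε}
  have hVo : IsOpen V := by
    have h1 : IsOpen {q : RC δ N | q.pr ∈ U} := hU.preimage RC.continuous_pr
    have h2 : ContinuousOn (fun q : RC δ N => ‖q.rt / L q.pr - 1‖) {q | q.pr ∈ U} := by
      refine ((ContinuousOn.div RC.continuous_rt.continuousOn ?_ fun q _ => hLne _).sub
        continuousOn_const).norm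
      exact hLc.comp RC.continuous_pr.continuousOn fun q hq => hq
    exact h2.isOpen_inter_preimage h1 isOpen_Iio
  refine ⟨{
    toFun := RC.pr
    invFun := fun z => RC.mk z (L z) (hLp z)
    source := V
    target := U
    map_source' := fun q hq => hq.1
    map_target' := ?_
    left_inv' := ?_
    right_inv' := fun z _ => rfl
    open_source := hVo
    open_target := hU
    continuousOn_toFun := RC.continuous_pr.continuousOn
    continuousOn_invFun := ?_ }, ?_, fun q _ => rfl⟩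
  · intro z hz
    refine ⟨hz, ?_⟩
    show ‖L z / L z - 1‖ < ε
    rw [div_self (hLne z), sub_self, norm_zero]
    exact hε
  · intro q hq
    apply RC.ext
    · rfl
    · show L q.pr = q.rt
      have h1 : q.rt / L q.pr = 1 := by
        apply hb _ _ hq.2
        rw [div_pow, hLp, q.rt_pow, div_self (hne _)]
      exact ((div_eq_one_iff_eq (hLne _)).1 h1).symm
  · exact RC.continuousOn_of continuousOn_id hLc
  · refine ⟨?_, ?_⟩
    · show δ q₀.pr / δ₀ ∈ Complex.slitPlane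
      rw [← hδ₀, div_self hδ0]; exact Complex.one_mem_slitPlane
    · show ‖q₀.rt / L q₀.pr - 1‖ < ε
      have h1 : L q₀.pr = η₀ := lroot_self hδ0
      rw [h1, ← hη₀, div_self hη0, sub_self, norm_zero]
      exact hε

theorem rc_compact (hN : N ≠ 0) (hδ : Continuous δ) {K : Set Z} (hK : IsCompact K)
    (hKc : IsClosed K) : IsCompact (RC.pr ⁻¹' K : Set (RC δ N)) := by
  obtain ⟨C, hC⟩ := hK.exists_bound_of_continuousOn hδ.continuousOn
  have h1 : IsCompact (K ×ˢ Metric.closedBall (0 : ℂ) (max 1 C)) :=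
    hK.prod (isCompact_closedBall _ _)
  have hcl : IsClosed {q : Z × ℂ | q.2 ^ N = δ q.1} :=
    isClosed_eq (continuous_snd.pow N) (hδ.comp continuous_fst)
  have hemb : Topology.IsClosedEmbedding (Subtype.val : {q : Z × ℂ // q.2 ^ N = δ q.1} → Z × ℂ) :=
    hcl.isClosedEmbedding_subtypeVal
  have h2 := hemb.isCompact_preimage h1
  refine h2.of_isClosed_subset (hKc.preimage RC.continuous_pr) ?_
  intro q hq
  refine ⟨hq, ?_⟩
  rw [mem_closedBall_zero_iff]
  by_contra hlt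
  push Not at hlt
  have h3 : 1 < ‖q.1.2‖ := lt_of_le_of_lt (le_max_left _ _) hlt
  have h4 : C < ‖q.1.2‖ := lt_of_le_of_lt (le_max_right _ _) hlt
  have h5 : ‖q.1.2‖ ≤ ‖q.1.2‖ ^ N := le_self_pow₀ h3.le hN
  have h6 : ‖q.1.2‖ ^ N = ‖δ q.1.1‖ := by rw [← norm_pow, q.2]
  have h7 := hC _ hq
  have h8 : ‖δ q.1.1‖ ≤ C := h7
  linarith

/-- The number of roots. -/
theorem card_roots (hN : N ≠ 0) {a : ℂ} (ha : a ≠ 0) : Nat.card {η : ℂ // η ^ N = a} = N := by
  classical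
  have hpos := Nat.pos_of_ne_zero hN
  obtain ⟨b, hb⟩ := IsAlgClosed.exists_pow_nat_eq a hpos
  have hb0 : b ≠ 0 := by rintro rfl; rw [zero_pow hN] at hb; exact ha hb.symm
  have e : {η : ℂ // η ^ N = a} ≃ {η : ℂ // η ^ N = 1} :=
    { toFun := fun η => ⟨η.1 / b, by rw [div_pow, η.2, hb, div_self ha]⟩
      invFun := fun η => ⟨η.1 * b, by rw [mul_pow, η.2, hb, one_mul]⟩
      left_inv := fun η => Subtype.ext (by field_simp)
      right_inv := fun η => Subtype.ext (by field_simp) }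
  rw [Nat.card_congr e]
  have h1 : {η : ℂ | η ^ N = 1} = (Polynomial.nthRootsFinset N (1 : ℂ) : Set ℂ) := by
    ext η
    simp [Polynomial.mem_nthRootsFinset hpos]
  have h2 : Nat.card {η : ℂ // η ^ N = 1} = Nat.card ((Polynomial.nthRootsFinset N (1 : ℂ) : Set ℂ)) := by
    rw [← h1]; rfl
  rw [h2, Nat.card_coe_set_eq, Set.ncard_coe_finset]
  have : NeZero N := ⟨hN⟩
  exact (Complex.isPrimitiveRoot_exp N hN).card_nthRootsFinset

theorem rc_tsum (hN : N ≠ 0) {a : ℂ} (ha : a ≠ 0) :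
    ∑' η : {η : ℂ // η ^ N = a}, ‖η.1‖ₑ ^ 2 = N * ‖a‖ₑ ^ (2 / (N : ℝ)) := by
  classical
  have h1 : ∀ η : {η : ℂ // η ^ N = a}, ‖η.1‖ₑ ^ 2 = ‖a‖ₑ ^ (2 / (N : ℝ)) := by
    intro η
    have hN' : (N : ℝ) ≠ 0 := by exact_mod_cast hN
    have h2 : ‖a‖ₑ = ‖η.1‖ₑ ^ (N : ℝ) := by
      rw [ENNReal.rpow_natCast, ← enorm_pow, η.2]
    rw [h2, ← ENNReal.rpow_mul, mul_div_cancel₀ _ hN']
    norm_cast
  simp_rw [h1]
  have hcard := card_roots hN ha
  have hfin : Finite {η : ℂ // η ^ N = a} := by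
    apply Nat.finite_of_card_ne_zero
    rw [hcard]; exact hN
  have := Fintype.ofFinite {η : ℂ // η ^ N = a}
  rw [tsum_fintype, Finset.sum_const, Finset.card_univ, ← Nat.card_eq_fintype_card, hcard,
    nsmul_eq_mul]

end Crest.Agent.R276.Rc_348
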