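import Crest.Agent.R276.Top8b_815
import Crest.Agent.R276.Rc_348

/-!
# Row 276 (S0419), GEO (helper519): fibre powers and root covers of a fibred space

`F : FSp m r X P` a space fibred over `X`, `ρ : S → X` continuous, `s : ℕ`, `g` a polynomial in the coordinates
`(z, x_1, …, x_s)`.

* `ZS F ρ s g` : the space of `(u, y_1, …, y_s)`, `q (y_j) = ρ u`, with `g(z, x_1, …, x_s) ≠ 0`;
* `ZF` : `ZS` as a space fibred over `S` (`FSp m (s * r) S (ZS …)`);
* `RF` : the root cover `η^N = δ` of a fibred space, as a fibred space;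
* `zs_compact`, `rf_compact` : properness over `{g ≠ 0}`.
-/

set_option autoImplicit false

noncomputable section

open Set Filter Topology MeasureTheory
open Crest.Agent.R271.Ho51 Crest.Agent.R276.Top8_815 Crest.Agent.R276.Rc_348
open scoped ENNReal

namespace Crest.Agent.R276.GeoY_519

section zs

variable {m r : ℕ} {S X P : Type*} [TopologicalSpace S] [RDom m S] [TopologicalSpace X] [RDom m X]
  [TopologicalSpace P] (F : FSp m r X P)

/-- the fibre coordinates of a tuple -/
def tt {s : ℕ} (y : Fin s → P) : Fin (s * r) → ℂ := fun k =>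
  F.t (y (finProdFinEquiv.symm k).1) (finProdFinEquiv.symm k).2

/-- the block number `j` of `τ ∈ ℂ^(s r)` -/
def blk {r s : ℕ} (τ : Fin (s * r) → ℂ) (j : Fin s) : Fin r → ℂ := fun k => τ (finProdFinEquiv (j, k))

lemma blk_tt {s : ℕ} (y : Fin s → P) (j : Fin s) : blk (tt F y) j = F.t (y j) := by
  funext k
  unfold blk tt
  rw [Equiv.symm_apply_apply]

lemma blk_ext {r s : ℕ} {τ τ' : Fin (s * r) → ℂ} (h : ∀ j, blk τ j = blk τ' j) : τ = τ' := by
  funext k
  have h1 := congrFun (h (finProdFinEquiv.symm k).1) (finProdFinEquiv.symm k).2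
  unfold blk at h1
  rwa [Prod.mk.eta, Equiv.apply_symm_apply] at h1

lemma continuous_blk {r s : ℕ} (j : Fin s) : Continuous fun τ : Fin (s * r) → ℂ => blk τ j :=
  continuous_pi fun _ => continuous_apply _

lemma continuous_q : Continuous F.q := continuous_fst.comp F.lh.continuous

lemma continuous_t : Continuous F.t := continuous_snd.comp F.lh.continuous

lemma continuous_tt {s : ℕ} : Continuous (tt F : (Fin s → P) → Fin (s * r) → ℂ) :=
  continuous_pi fun _ => (continuous_apply _).comp ((continuous_t F).comp (continuous_apply _))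

variable (ρ : S → X) (s : ℕ) (g : MvPolynomial (Fin (m + s * r)) ℂ)

/-- fibre power over `S`, without `{g = 0}` -/
def ZS : Type _ := {p : S × (Fin s → P) // (∀ j, F.q (p.2 j) = ρ p.1) ∧
  MvPolynomial.eval (Fin.append (cp p.1) (tt F p.2)) g ≠ 0}

instance : TopologicalSpace (ZS F ρ s g) :=
  inferInstanceAs (TopologicalSpace {p : S × (Fin s → P) // (∀ j, F.q (p.2 j) = ρ p.1) ∧
    MvPolynomial.eval (Fin.append (cp p.1) (tt F p.2)) g ≠ 0})

instance [T2Space S] [T2Space P] : T2Space (ZS F ρ s g) :=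
  inferInstanceAs (T2Space {p : S × (Fin s → P) // (∀ j, F.q (p.2 j) = ρ p.1) ∧
    MvPolynomial.eval (Fin.append (cp p.1) (tt F p.2)) g ≠ 0})

instance [SecondCountableTopology S] [SecondCountableTopology P] :
    SecondCountableTopology (ZS F ρ s g) :=
  (Topology.IsInducing.mk rfl : Topology.IsInducing (Subtype.val : {p : S × (Fin s → P) //
    (∀ j, F.q (p.2 j) = ρ p.1) ∧ MvPolynomial.eval (Fin.append (cp p.1) (tt F p.2)) g ≠ 0} →
      S × (Fin s → P))).secondCountableTopology

variable {F ρ s g}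

/-- the point of the base -/
def ZS.bs (p : ZS F ρ s g) : S := p.1.1

/-- the points of the tuple -/
def ZS.y (p : ZS F ρ s g) : Fin s → P := p.1.2

lemma ZS.q_y (p : ZS F ρ s g) (j : Fin s) : F.q (p.y j) = ρ p.bs := p.2.1 j

lemma ZS.g_ne (p : ZS F ρ s g) : MvPolynomial.eval (Fin.append (cp p.bs) (tt F p.y)) g ≠ 0 := p.2.2

lemma ZS.ext {p p' : ZS F ρ s g} (h1 : p.bs = p'.bs) (h2 : p.y = p'.y) : p = p' :=
  Subtype.ext (Prod.ext h1 h2)

lemma ZS.isInducing : Topology.IsInducing (fun p : ZS F ρ s g => ((p.bs, p.y) : S × (Fin s → P))) :=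
  Topology.IsInducing.subtypeVal

lemma ZS.continuous_bs : Continuous (ZS.bs : ZS F ρ s g → S) :=
  continuous_fst.comp continuous_subtype_val

lemma ZS.continuous_y : Continuous (ZS.y : ZS F ρ s g → Fin s → P) :=
  continuous_snd.comp continuous_subtype_val

/-- constructor -/
def ZS.mk (u : S) (y : Fin s → P) (h1 : ∀ j, F.q (y j) = ρ u)
    (h2 : MvPolynomial.eval (Fin.append (cp u) (tt F y)) g ≠ 0) : ZS F ρ s g := ⟨(u, y), h1, h2⟩

variable (F ρ s g)

lemma isOpen_g : IsOpen {p : S × (Fin (s * r) → ℂ) | MvPolynomial.eval (Fin.append (cp p.1) p.2) g ≠ 0} := by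
  have h1 : Continuous fun p : S × (Fin (s * r) → ℂ) =>
      MvPolynomial.eval (Fin.append (cp p.1) p.2 : Fin (m + s * r) → ℂ) g := by
    refine (MvPolynomial.continuous_eval g).comp ?_
    refine continuous_pi fun i => ?_
    refine Fin.addCases (fun i => ?_) (fun j => ?_) i
    · simp only [Fin.append_left]
      exact (continuous_apply i).comp (cp_cont.comp continuous_fst)
    · simp only [Fin.append_right]
      exact (continuous_apply j).comp continuous_snd
  exact isOpen_ne_fun h1 continuous_const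

/-- `(u, y) ↦ (u, x(y))` is a local homeomorphism -/
theorem lh_zs (hρ : Continuous ρ) :
    IsLocalHomeomorph fun p : ZS F ρ s g => ((p.bs, tt F p.y) : S × (Fin (s * r) → ℂ)) := by
  classical
  apply IsLocalHomeomorph.mk
  intro p₀
  choose e he hfe using fun j => F.lh (p₀.y j)
  have hq : ∀ j y, F.q y = (e j y).1 := fun j y => congrArg (fun f => (f y).1) (hfe j)
  have ht : ∀ j y, F.t y = (e j y).2 := fun j y => congrArg (fun f => (f y).2) (hfe j)
  set T : Set (S × (Fin (s * r) → ℂ)) := {p | (∀ j, (ρ p.1, blk p.2 j) ∈ (e j).target) ∧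
    MvPolynomial.eval (Fin.append (cp p.1) p.2) g ≠ 0} with hT
  have hTo : IsOpen T := by
    have h1 : T = (⋂ j, (fun p : S × (Fin (s * r) → ℂ) => (ρ p.1, blk p.2 j)) ⁻¹' (e j).target) ∩
        {p | MvPolynomial.eval (Fin.append (cp p.1) p.2) g ≠ 0} := by
      ext p
      simp [hT]
    rw [h1]
    refine IsOpen.inter (isOpen_iInter_of_finite fun j => (e j).open_target.preimage ?_)
      (isOpen_g s g)
    exact (hρ.comp continuous_fst).prodMk ((continuous_blk j).comp continuous_snd)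
  have hs1 : ∀ p ∈ T, ∀ j, F.q ((e j).symm (ρ p.1, blk p.2 j)) = ρ p.1 := by
    intro p hp j
    rw [hq j, (e j).right_inv (hp.1 j)]
  have hs2 : ∀ p ∈ T, tt F (fun j => (e j).symm (ρ p.1, blk p.2 j)) = p.2 := by
    intro p hp
    apply blk_ext
    intro j
    rw [blk_tt, ht j, (e j).right_inv (hp.1 j)]
  let inv : S × (Fin (s * r) → ℂ) → ZS F ρ s g := fun p =>
    if h : p ∈ T then ZS.mk p.1 (fun j => (e j).symm (ρ p.1, blk p.2 j)) (hs1 p h)
      (by rw [hs2 p h]; exact h.2) else p₀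
  have hinv : ∀ p (h : p ∈ T), inv p = ZS.mk p.1 (fun j => (e j).symm (ρ p.1, blk p.2 j)) (hs1 p h)
      (by rw [hs2 p h]; exact h.2) := fun p h => dif_pos h
  have hpair : ∀ (p : ZS F ρ s g) (j : Fin s), (ρ p.bs, blk (tt F p.y) j) = e j (p.y j) := by
    intro p j
    rw [blk_tt]
    exact Prod.ext ((p.q_y j).symm.trans (hq j _)) (ht j _)
  refine ⟨{
    toFun := fun p => (p.bs, tt F p.y)
    invFun := inv
    source := {p | ∀ j, p.y j ∈ (e j).source}
    target := T
    map_source' := ?_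
    map_target' := ?_
    left_inv' := ?_
    right_inv' := ?_
    open_source := ?_
    open_target := hTo
    continuousOn_toFun := ?_
    continuousOn_invFun := ?_ }, ?_, fun _ _ => rfl⟩
  · intro p hp
    refine ⟨fun j => ?_, p.g_ne⟩
    change (ρ p.bs, blk (tt F p.y) j) ∈ _
    rw [hpair]
    exact (e j).map_source (hp j)
  · intro p hp j
    rw [hinv p hp]
    exact (e j).map_target (hp.1 j)
  · intro p hp
    have h1 : ((p.bs, tt F p.y) : S × (Fin (s * r) → ℂ)) ∈ T := by
      refine ⟨fun j => ?_, p.g_ne⟩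
      change (ρ p.bs, blk (tt F p.y) j) ∈ _
      rw [hpair]
      exact (e j).map_source (hp j)
    rw [hinv _ h1]
    refine ZS.ext rfl ?_
    funext j
    change (e j).symm (ρ p.bs, blk (tt F p.y) j) = p.y j
    rw [hpair]
    exact (e j).left_inv (hp j)
  · intro p hp
    rw [hinv p hp]
    exact Prod.ext rfl (hs2 p hp)
  · exact (ZS.continuous_bs.prodMk ((continuous_tt F).comp ZS.continuous_y)).continuousOn
  · rw [ZS.isInducing.continuousOn_iff]
    have h1 : ContinuousOn (fun p : S × (Fin (s * r) → ℂ) =>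
        ((p.1, fun j => (e j).symm (ρ p.1, blk p.2 j)) : S × (Fin s → P))) T := by
      refine continuousOn_fst.prodMk (continuousOn_pi.mpr fun j => ?_)
      refine (e j).continuousOn_symm.comp (Continuous.continuousOn ?_) fun p hp => hp.1 j
      exact (hρ.comp continuous_fst).prodMk ((continuous_blk j).comp continuous_snd)
    refine h1.congr fun p hp => ?_
    change ((inv p).bs, (inv p).y) = _
    rw [hinv p hp]
    rfl
  · have h1 : {p : ZS F ρ s g | ∀ j, p.y j ∈ (e j).source} =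
        ⋂ j, (fun p : ZS F ρ s g => p.y j) ⁻¹' (e j).source := by
      ext p
      simp
    rw [h1]
    exact isOpen_iInter_of_finite fun j =>
      (e j).open_source.preimage ((continuous_apply j).comp ZS.continuous_y)
  · exact fun j => he j

/-- the fibre power as a fibred space -/
def ZF (hρ : Continuous ρ) : FSp m (s * r) S (ZS F ρ s g) where
  q := ZS.bs
  t := fun p => tt F p.y
  lh := lh_zs F ρ s g hρ

/-- properness of the fibre power -/
theorem zs_compact [T2Space S] [T2Space X] [T2Space P] (hρ : Continuous ρ)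
    (hcp : ∀ u, cp (ρ u) = cp u) (h : MvPolynomial (Fin (m + r)) ℂ)
    (hF : ∀ K : Set (X × (Fin r → ℂ)), IsCompact K →
      (∀ p ∈ K, MvPolynomial.eval (Fin.append (cp p.1) p.2) h ≠ 0) →
      IsCompact {y | (F.q y, F.t y) ∈ K})
    (hgh : ∀ (z : Fin m → ℂ) (τ : Fin (s * r) → ℂ), MvPolynomial.eval (Fin.append z τ) g ≠ 0 →
      ∀ j, MvPolynomial.eval (Fin.append z (blk τ j)) h ≠ 0)
    {K : Set (S × (Fin (s * r) → ℂ))} (hK : IsCompact K)
    (hKg : ∀ p ∈ K, MvPolynomial.eval (Fin.append (cp p.1) p.2) g ≠ 0) :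
    IsCompact {p : ZS F ρ s g | (p.bs, tt F p.y) ∈ K} := by
  rw [ZS.isInducing.isCompact_iff]
  have hcont : ∀ j : Fin s, Continuous fun p : S × (Fin (s * r) → ℂ) => (ρ p.1, blk p.2 j) :=
    fun j => (hρ.comp continuous_fst).prodMk ((continuous_blk j).comp continuous_snd)
  have hKj : ∀ j : Fin s, IsCompact {y : P | (F.q y, F.t y) ∈
      (fun p : S × (Fin (s * r) → ℂ) => (ρ p.1, blk p.2 j)) '' K} := by
    intro j
    apply hF _ (hK.image (hcont j))
    rintro _ ⟨p, hp, rfl⟩
    change MvPolynomial.eval (Fin.append (cp (ρ p.1)) (blk p.2 j)) h ≠ 0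
    rw [hcp]
    exact hgh _ _ (hKg p hp) j
  have hbig : IsCompact ((Prod.fst '' K) ×ˢ (Set.univ.pi fun j : Fin s => {y : P | (F.q y, F.t y) ∈
      (fun p : S × (Fin (s * r) → ℂ) => (ρ p.1, blk p.2 j)) '' K})) :=
    (hK.image continuous_fst).prod (isCompact_univ_pi hKj)
  have hcl : IsClosed {p : S × (Fin s → P) | (∀ j, F.q (p.2 j) = ρ p.1) ∧ (p.1, tt F p.2) ∈ K} := by
    have h1 : {p : S × (Fin s → P) | (∀ j, F.q (p.2 j) = ρ p.1) ∧ (p.1, tt F p.2) ∈ K} =
        (⋂ j, {p : S × (Fin s → P) | F.q (p.2 j) = ρ p.1}) ∩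
          (fun p : S × (Fin s → P) => (p.1, tt F p.2)) ⁻¹' K := by
      ext p
      simp
    rw [h1]
    have h2 : Continuous fun p : S × (Fin s → P) => ((p.1, tt F p.2) : S × (Fin (s * r) → ℂ)) :=
      continuous_fst.prodMk ((continuous_tt F).comp continuous_snd)
    have h3 : ∀ j : Fin s, IsClosed {p : S × (Fin s → P) | F.q (p.2 j) = ρ p.1} := by
      intro j
      have h4 : Continuous fun p : S × (Fin s → P) => F.q (p.2 j) :=
        (continuous_q F).comp ((continuous_apply j).comp continuous_snd)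
      exact isClosed_eq h4 (hρ.comp continuous_fst)
    exact (isClosed_iInter h3).inter (hK.isClosed.preimage h2)
  refine (hbig.inter_right hcl).of_isClosed_subset ?_ ?_
  · have h2 : (fun p : ZS F ρ s g => ((p.bs, p.y) : S × (Fin s → P))) ''
        {p : ZS F ρ s g | (p.bs, tt F p.y) ∈ K} =
        {p : S × (Fin s → P) | (∀ j, F.q (p.2 j) = ρ p.1) ∧ (p.1, tt F p.2) ∈ K} := by
      ext p
      constructor
      · rintro ⟨a, ha, rfl⟩
        exact ⟨a.q_y, ha⟩
      · rintro ⟨h3, h4⟩
        have h5 : MvPolynomial.eval (Fin.append (cp p.1) (tt F p.2)) g ≠ 0 :=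
          hKg (p.1, tt F p.2) h4
        exact ⟨ZS.mk p.1 p.2 h3 h5, h4, Prod.ext rfl rfl⟩
    rw [h2]
    exact hcl
  · rintro _ ⟨p, hp, rfl⟩
    have hp' : (p.bs, tt F p.y) ∈ K := hp
    have h6 : ∀ j, (F.q (p.y j), F.t (p.y j)) ∈
        (fun p : S × (Fin (s * r) → ℂ) => (ρ p.1, blk p.2 j)) '' K := by
      intro j
      refine ⟨(p.bs, tt F p.y), hp', ?_⟩
      change (ρ p.bs, blk (tt F p.y) j) = _
      rw [blk_tt, ← p.q_y j]
    exact ⟨⟨⟨(p.bs, tt F p.y), hp', rfl⟩, fun j _ => h6 j⟩, p.q_y, hp'⟩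

end zs

section rf

variable {m d : ℕ} {S Z : Type*} [TopologicalSpace S] [RDom m S] [TopologicalSpace Z]
  (F : FSp m d S Z) {δ : Z → ℂ} {N : ℕ}

/-- the root cover as a fibred space -/
def RF (hN : N ≠ 0) (hδ : Continuous δ) (hne : ∀ z, δ z ≠ 0) : FSp m d S (RC δ N) where
  q := fun p => F.q p.pr
  t := fun p => F.t p.pr
  lh := F.lh.comp (rc_lh hN hδ hne)

/-- properness of the root cover -/
theorem rf_compact (hN : N ≠ 0) (hδ : Continuous δ) [T2Space S]
    {K : Set (S × (Fin d → ℂ))} (hK : IsCompact K)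
    (hZ : IsCompact {z | (F.q z, F.t z) ∈ K}) :
    IsCompact {p : RC δ N | (F.q p.pr, F.t p.pr) ∈ K} :=
  rc_compact hN hδ hZ (hK.isClosed.preimage F.lh.continuous)

end rf

end Crest.Agent.R276.GeoY_519
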