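import Crest.Agent.R276.DetB_606
import Crest.Agent.R276.GeoY_519
import Crest.Agent.R271.Rd7_692
import Crest.Agent.R271.Rd8_692

/-!
# R276, leaf GEO-NRM (helper348), part 1: products of Riemann domains

* `mp_blk` : the blocks `(Fin (s * r) → ℂ) → (Fin s → Fin r → ℂ)` preserve the measure;
* `rdPi` : `Fin s → M` as a Riemann domain over `ℂ^(s r)`;
* `leb_pi` : `Measure.pi μ` is the Lebesgue measure of `rdPi`;
* `lintegral_pi_fibre` : integrals over `M^s` as sums over the fibres.
-/

set_option autoImplicit false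

noncomputable section

open Set Filter Topology MeasureTheory
open Crest.Agent.R271.Ho51 Crest.Agent.R271.Rd692
open Crest.Agent.R276.GeoY_519
open scoped ENNReal

namespace Crest.Agent.R276.GeoN_348

/-! ### blocks -/

theorem measurable_blk {r s : ℕ} (j : Fin s) :
    Measurable fun τ : Fin (s * r) → ℂ => blk τ j := (continuous_blk j).measurable

/-- The blocks preserve the Lebesgue measure. -/
theorem mp_blk (r s : ℕ) : MeasurePreserving
    (fun (τ : Fin (s * r) → ℂ) (j : Fin s) => (blk τ j : Fin r → ℂ)) volume volume := by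
  have hm : Measurable (fun (τ : Fin (s * r) → ℂ) (j : Fin s) => (blk τ j : Fin r → ℂ)) :=
    measurable_pi_lambda _ fun j => measurable_blk j
  refine ⟨hm, ?_⟩
  symm
  rw [volume_pi (α := fun _ : Fin s => Fin r → ℂ)]
  refine Measure.pi_eq_generateFrom
    (C := fun _ => Set.pi Set.univ '' Set.pi Set.univ fun _ : Fin r => {t : Set ℂ | MeasurableSet t})
    (fun _ => generateFrom_pi) (fun _ => isPiSystem_pi) (fun _ => ?_) ?_
  · exact Measure.FiniteSpanningSetsIn.pi fun _ => (volume : Measure ℂ).toFiniteSpanningSetsIn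
  · intro t ht
    choose c hc hct using ht
    have hset : (fun (τ : Fin (s * r) → ℂ) (j : Fin s) => (blk τ j : Fin r → ℂ)) ⁻¹'
        (Set.pi Set.univ t) = Set.pi Set.univ (fun k : Fin (s * r) =>
          c (finProdFinEquiv.symm k).1 (finProdFinEquiv.symm k).2) := by
      ext τ
      simp only [Set.mem_preimage, Set.mem_pi, Set.mem_univ, true_implies]
      constructor
      · intro h k
        have h1 := h (finProdFinEquiv.symm k).1
        rw [← hct] at h1
        have h2 := h1 (finProdFinEquiv.symm k).2 trivial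
        unfold blk at h2
        rwa [Prod.mk.eta, Equiv.apply_symm_apply] at h2
      · intro h j
        rw [← hct]
        intro i _
        have h1 := h (finProdFinEquiv (j, i))
        rw [Equiv.symm_apply_apply] at h1
        exact h1
    have hmt : ∀ j, MeasurableSet (t j) := by
      intro j
      rw [← hct]
      exact MeasurableSet.univ_pi fun i => hc j i trivial
    rw [Measure.map_apply hm (MeasurableSet.univ_pi hmt), hset, volume_pi, Measure.pi_pi]
    have h1 : ∀ j, (volume : Measure (Fin r → ℂ)) (t j) = ∏ i, volume (c j i) := by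
      intro j
      rw [← hct, volume_pi, Measure.pi_pi]
    simp only [h1]
    rw [← Fintype.prod_prod_type' (f := fun j i => volume (c j i))]
    exact (Fintype.prod_equiv finProdFinEquiv (fun p : Fin s × Fin r => volume (c p.1 p.2)) _
      (fun p => by rw [Equiv.symm_apply_apply])).symm

/-! ### products of Riemann domains -/

section rd

variable {r : ℕ} {M : Type*} [TopologicalSpace M] [RDom r M]

/-- flattened coordinates -/
def flat {r s : ℕ} (x : Fin s → Fin r → ℂ) : Fin (s * r) → ℂ := fun k =>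
  x (finProdFinEquiv.symm k).1 (finProdFinEquiv.symm k).2

theorem blk_flat {r s : ℕ} (x : Fin s → Fin r → ℂ) (j : Fin s) : blk (flat x) j = x j := by
  funext k
  unfold blk flat
  rw [Equiv.symm_apply_apply]

theorem flat_blk {r s : ℕ} (τ : Fin (s * r) → ℂ) : flat (fun j => blk τ j) = τ := by
  apply blk_ext
  intro j
  rw [blk_flat]

/-- flattening as a homeomorphism -/
def flatH (r s : ℕ) : (Fin s → Fin r → ℂ) ≃ₜ (Fin (s * r) → ℂ) where
  toFun := flat
  invFun := fun τ j => blk τ j
  left_inv := fun x => funext fun j => blk_flat x j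
  right_inv := fun τ => flat_blk τ
  continuous_toFun := by
    unfold flat
    exact continuous_pi fun k => (continuous_apply _).comp (continuous_apply _)
  continuous_invFun := continuous_pi fun j => continuous_blk j

theorem lh_pi (s : ℕ) : IsLocalHomeomorph (fun (y : Fin s → M) (j : Fin s) => (cp (y j) : Fin r → ℂ)) := by
  refine IsLocalHomeomorph.mk _ fun y => ?_
  refine ⟨OpenPartialHomeomorph.pi fun j => ch (y j), ?_, ?_⟩
  · intro j _
    exact mem_ch (y j)
  · intro y' hy'
    funext j
    exact ((isCh_ch (y j)).apply (y' j)).symm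

/-- `M^s` as a Riemann domain -/
@[reducible] def rdPi (r : ℕ) (M : Type*) [TopologicalSpace M] [RDom r M] (s : ℕ) : RDom (s * r) (Fin s → M) where
  p := fun y => flat fun j => (cp (y j) : Fin r → ℂ)
  hp := (flatH r s).isLocalHomeomorph.comp (lh_pi s)

end rd

/-- sums of products -/
theorem tsum_prod_pi {s : ℕ} {α : Fin s → Type*} (h : ∀ j, α j → ℝ≥0∞) :
    ∑' y : (∀ j, α j), ∏ j, h j (y j) = ∏ j, ∑' a, h j a := by
  induction s with
  | zero =>
    simp only [Finset.univ_eq_empty, Finset.prod_empty]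
    rw [tsum_fintype]; simp
  | succ s ih =>
    rw [← (Fin.consEquiv α).tsum_eq]
    rw [ENNReal.tsum_prod']
    simp only [Fin.prod_univ_succ]
    rw [← ih (fun j => h j.succ), ← ENNReal.tsum_mul_right]
    refine tsum_congr fun a => ?_
    rw [← ENNReal.tsum_mul_left]
    refine tsum_congr fun y => ?_
    rfl

section leb

variable {r : ℕ} {M : Type*} [TopologicalSpace M] [RDom r M]

theorem fibre_iff {s : ℕ} (y : Fin s → M) (τ : Fin (s * r) → ℂ) :
    (rdPi r M s).p y = τ ↔ ∀ j, (cp (y j) : Fin r → ℂ) = blk τ j := by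
  constructor
  · rintro rfl j
    exact (blk_flat (fun j => (cp (y j) : Fin r → ℂ)) j).symm
  · intro h
    apply blk_ext
    intro j
    rw [← h j]
    exact blk_flat (fun j => (cp (y j) : Fin r → ℂ)) j

/-- the fibres of the product -/
def fibreE {s : ℕ} (τ : Fin (s * r) → ℂ) :
    {y : Fin s → M // (rdPi r M s).p y = τ} ≃ ∀ j : Fin s, {a : M // (cp a : Fin r → ℂ) = blk τ j} where
  toFun y := fun j => ⟨y.1 j, (fibre_iff y.1 τ).1 y.2 j⟩
  invFun y := ⟨fun j => (y j).1, (fibre_iff _ τ).2 fun j => (y j).2⟩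
  left_inv _ := rfl
  right_inv _ := rfl

variable [SecondCountableTopology M] [MeasurableSpace M] [BorelSpace M]

/-- The product measure is the Lebesgue measure of the product. -/
theorem leb_pi {μ : Measure M} (hμ : IsLeb μ) (s : ℕ) :
    @IsLeb (s * r) (Fin s → M) _ (rdPi r M s) _ (Measure.pi fun _ : Fin s => μ) := by
  let _ := rdPi r M s
  have hloc : IsLocallyFiniteMeasure μ := hμ.locallyFinite
  obtain ⟨μ', hμ'⟩ := exists_leb (n := s * r) (M := Fin s → M)
  have key : Measure.pi (fun _ : Fin s => μ) = μ' := by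
    refine Measure.pi_eq fun A hA => ?_
    have h1 : μ' (Set.univ.pi A) = ∫⁻ y, ∏ j, (A j).indicator (1 : M → ℝ≥0∞) (y j) ∂μ' := by
      rw [← lintegral_indicator_one (MeasurableSet.univ_pi hA)]
      refine lintegral_congr fun y => ?_
      by_cases hy : y ∈ Set.univ.pi A
      · rw [Set.indicator_of_mem hy, Pi.one_apply, Finset.prod_eq_one]
        intro j _
        rw [Set.indicator_of_mem (hy j trivial), Pi.one_apply]
      · rw [Set.indicator_of_notMem hy]
        simp only [Set.mem_pi, Set.mem_univ, true_implies, not_forall] at hy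
        obtain ⟨j, hj⟩ := hy
        rw [Finset.prod_eq_zero (Finset.mem_univ j) (Set.indicator_of_notMem hj _)]
    have hmeas : Measurable fun y : Fin s → M => ∏ j, (A j).indicator (1 : M → ℝ≥0∞) (y j) :=
      Finset.measurable_prod _ fun j _ =>
        (measurable_one.indicator (hA j)).comp (measurable_pi_apply j)
    have hG : ∀ j, Measurable fun ξ : Fin r → ℂ =>
        ∑' a : {a : M // (cp a : Fin r → ℂ) = ξ}, (A j).indicator (1 : M → ℝ≥0∞) a.1 :=
      fun j => measurable_fibre (measurable_one.indicator (hA j))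
    rw [h1, lintegral_eq_fibre hμ' hmeas]
    have h2 : ∀ τ : Fin (s * r) → ℂ, ∑' y : {y : Fin s → M // (cp y : Fin (s * r) → ℂ) = τ},
        ∏ j, (A j).indicator (1 : M → ℝ≥0∞) (y.1 j) =
        ∏ j, ∑' a : {a : M // (cp a : Fin r → ℂ) = blk τ j}, (A j).indicator (1 : M → ℝ≥0∞) a.1 := by
      intro τ
      rw [← tsum_prod_pi (fun j (a : {a : M // (cp a : Fin r → ℂ) = blk τ j}) =>
        (A j).indicator (1 : M → ℝ≥0∞) a.1)]
      exact (fibreE τ).tsum_eq (fun y : (∀ j : Fin s, {a : M // (cp a : Fin r → ℂ) = blk τ j}) =>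
        ∏ j, (A j).indicator (1 : M → ℝ≥0∞) (y j).1)
    simp only [h2]
    have h3 := (mp_blk r s).lintegral_comp (f := fun x : Fin s → Fin r → ℂ =>
      ∏ j, ∑' a : {a : M // (cp a : Fin r → ℂ) = x j}, (A j).indicator (1 : M → ℝ≥0∞) a.1)
      (Finset.measurable_prod _ fun j _ => (hG j).comp (measurable_pi_apply j))
    rw [h3, volume_pi, DetB_606.lintegral_prod_eq hG]
    refine Finset.prod_congr rfl fun j _ => ?_
    rw [← lintegral_eq_fibre hμ (measurable_one.indicator (hA j)), lintegral_indicator_one (hA j)]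
  rw [key]
  exact hμ'

/-- **integration over `M^s`** -/
theorem lintegral_pi_fibre {μ : Measure M} (hμ : IsLeb μ) {s : ℕ} {f : (Fin s → M) → ℝ≥0∞}
    (hf : Measurable f) :
    ∫⁻ y, f y ∂(Measure.pi fun _ : Fin s => μ) =
      ∫⁻ τ : Fin (s * r) → ℂ, ∑' y : {y : Fin s → M // ∀ j, (cp (y j) : Fin r → ℂ) = blk τ j}, f y.1 := by
  let _ := rdPi r M s
  rw [lintegral_eq_fibre (leb_pi hμ s) hf]
  refine lintegral_congr fun τ => ?_
  exact (Equiv.subtypeEquivRight fun y => fibre_iff y τ).tsum_eq
    (fun y : {y : Fin s → M // ∀ j, (cp (y j) : Fin r → ℂ) = blk τ j} => f y.1)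

/-- the same with unflattened coordinates -/
theorem lintegral_pi_fibre' {μ : Measure M} (hμ : IsLeb μ) {s : ℕ} {f : (Fin s → M) → ℝ≥0∞}
    (hf : Measurable f) :
    ∫⁻ y, f y ∂(Measure.pi fun _ : Fin s => μ) =
      ∫⁻ x : Fin s → Fin r → ℂ, ∑' y : {y : Fin s → M // ∀ j, (cp (y j) : Fin r → ℂ) = x j}, f y.1 := by
  let _ := rdPi r M s
  have h0 := measurable_fibre (n := s * r) (M := Fin s → M) hf
  have hm : Measurable fun x : Fin s → Fin r → ℂ =>
      ∑' y : {y : Fin s → M // ∀ j, (cp (y j) : Fin r → ℂ) = x j}, f y.1 := by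
    have h1 := h0.comp (flatH r s).continuous.measurable
    convert! h1 using 1
    funext x
    symm
    have h2 : ∀ y : Fin s → M, (cp y : Fin (s * r) → ℂ) = flatH r s x ↔
        ∀ j, (cp (y j) : Fin r → ℂ) = x j := by
      intro y
      rw [show ((cp y : Fin (s * r) → ℂ) = flatH r s x) ↔ (rdPi r M s).p y = flat x from Iff.rfl,
        fibre_iff]
      simp only [blk_flat]
    exact (Equiv.subtypeEquivRight h2).tsum_eq
      (fun y : {y : Fin s → M // ∀ j, (cp (y j) : Fin r → ℂ) = x j} => f y.1)
  rw [lintegral_pi_fibre hμ hf, ← (mp_blk r s).lintegral_comp hm]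

end leb

end Crest.Agent.R276.GeoN_348
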