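import Mathlib
import Crest.Agent.R276.SkelDefs_220
import Crest.Agent.R276.W2pg_505
import Crest.Agent.R276.CInd_870
import Crest.Agent.R276.GeoN_348
import Crest.Agent.R276.Lq_464
import Crest.Agent.R273.PsiA_844

/-!
# R276, leaf C1-GR (helper505): polynomial growth of the weight `b₁` of (C1)

`gr_point`: for `τ` holomorphic on the `s`-fold fibre over `z = f(y)`:
`|τ(y,…,y)|^p |h(y)|^j ≤ C (1+|y|²)^k ∫_{M_z^s} |τ|^p |δ|^{-2ε}`, `C, j, k` independent of `y`, `τ`.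
`gr_all`: consequences for the supremum over `τ` and its upper semicontinuous hull.
-/

set_option autoImplicit false

open Set Filter Topology MeasureTheory Metric
open scoped ENNReal

noncomputable section

namespace Crest.Agent.R276.C1gr_505

open Crest.Agent.R271 Crest.Agent.R271.Rd692 Crest.Agent.R271.Ho51
open Crest.Agent.R271.Defs710 hiding glue
open Crest.Agent.R271.Alg255
open Crest.Agent.R276.Mod1_987 Crest.Agent.R276.FKDefs_779 Crest.Agent.R276.SkelDefs_220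
open Crest.Agent.R276.W2pg_505 Crest.Agent.R276.GeoY_519 Crest.Agent.R276.GeoN_348
open Crest.Agent.R273.Reg_844 (LocB ush)

/-! ### mean value inequality on `(ℂ^r)^s` -/

theorem dist_flat {r s : ℕ} (x x' : Fin s → Cn r) {ρ : ℝ} (hρ : 0 < ρ) :
    (flat x ∈ ball (flat x') ρ) ↔ x ∈ ball x' ρ := by
  rw [mem_ball, mem_ball, dist_pi_lt_iff hρ, dist_pi_lt_iff hρ]
  constructor
  · intro h i
    rw [dist_pi_lt_iff hρ]
    intro k
    have h1 := h (finProdFinEquiv (i, k))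
    unfold flat at h1
    rwa [Equiv.symm_apply_apply] at h1
  · intro h k
    have h1 := h (finProdFinEquiv.symm k).1
    rw [dist_pi_lt_iff hρ] at h1
    exact h1 _

/-- `L^q` mean value inequality on polydiscs of `(ℂ^r)^s` -/
theorem submean_pi {r s : ℕ} {f : (Fin s → Cn r) → ℂ} {x : Fin s → Cn r} {R q : ℝ} (hR : 0 < R)
    (hf : DifferentiableOn ℂ f (ball x (2 * R))) (hq : 0 < q) :
    ENNReal.ofReal (R ^ (2 * (s * r))) * ‖f x‖ₑ ^ q ≤ ∫⁻ y in ball x R, ‖f y‖ₑ ^ q := by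
  set g : (Fin (s * r) → ℂ) → (Fin s → Cn r) := fun τ j => blk τ j with hg
  have hgd : Differentiable ℂ g := by
    rw [differentiable_pi]
    intro j
    rw [differentiable_pi]
    intro k
    exact differentiable_apply (𝕜 := ℂ) (finProdFinEquiv (j, k))
  have hgx : ∀ z, g (flat z) = z := fun z => funext fun j => blk_flat z j
  have hD : IsOpen (g ⁻¹' ball x (2 * R)) := isOpen_ball.preimage hgd.continuous
  have hpre : ∀ ρ : ℝ, 0 < ρ → g ⁻¹' ball x ρ = ball (flat x) ρ := by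
    intro ρ hρ
    ext τ
    rw [mem_preimage, ← dist_flat _ _ hρ]
    have : flat (g τ) = τ := flat_blk τ
    rw [this]
  have h1 := Lq_464.submean (f := fun τ => f (g τ)) (x := flat x) (r := R) (q := q) hD
    (hf.comp hgd.differentiableOn fun τ hτ => hτ) (by
      rw [hpre _ (by linarith)]
      exact closedBall_subset_ball (by linarith)) hq
  have h2 : ∫⁻ τ in ball (flat x) R, ‖f (g τ)‖ₑ ^ q = ∫⁻ y in ball x R, ‖f y‖ₑ ^ q := by
    rw [← hpre R hR]
    exact (mp_blk r s).setLIntegral_comp_preimage_emb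
      (flatH r s).symm.measurableEmbedding (fun y => ‖f y‖ₑ ^ q) (ball x R)
  rw [h2, hgx] at h1
  refine le_trans ?_ h1
  gcongr
  have h3 := volume_ball_ge (s * r) hR
  have h4 : volume (ball (flat x) R) = volume (ball (0 : Cn (s * r)) R) :=
    Measure.addHaar_ball_center volume (flat x) R
  rw [h4]
  exact h3

/-! ### fibres in a chart -/

section rel

variable {L K : Type} [Field L] [Field K] [Algebra ℂ L] [Algebra ℂ K] [Algebra L K]
  [IsScalarTower ℂ L K] {m r : ℕ} {ML : Mdl L m} {MK : Mdl K (m + r)} (H : Rel ML MK)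

/-- fibre coordinates -/
def xf (y : MK.Pts) : Cn r := fun j => MK.pz y (Fin.natAdd m j)

/-- holomorphic on the `s`-fold fibre over `z` (helper986) -/
def HolFS (s : ℕ) (z : ML.Pts) (τ : (Fin s → MK.Pts) → ℂ) : Prop :=
  ∀ y : Fin s → MK.Pts, (∀ i, H.f (y i) = z) →
    AnalyticAt ℂ (fun x : Fin s → Cn r => τ (fun i => (ch (y i)).symm (Fin.append (ML.pz z) (x i))))
      (fun i j => MK.pz (y i) (Fin.natAdd m j))

include H in
theorem continuous_f : Continuous H.f := by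
  have h1 := (CInd_870.rm H).continuous_q
  have h2 : (CInd_870.rm H).q = H.f := funext fun y => CInd_870.rm_q H y
  rw [h2] at h1
  exact h1

theorem pz_f (y : MK.Pts) (i : Fin m) : ML.pz (H.f y) i = MK.pz y (Fin.castAdd r i) := by
  have h1 := (CInd_870.rm H).pz_q y i
  rw [CInd_870.rm_q] at h1
  exact h1

theorem append_eq (y : MK.Pts) : Fin.append (ML.pz (H.f y)) (xf y) = MK.pz y := by
  funext i
  refine Fin.addCases (fun i => ?_) (fun i => ?_) i
  · rw [Fin.append_left, pz_f]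
  · rw [Fin.append_right]; rfl

theorem xf_eq {y : MK.Pts} {c : Cn m} {x : Cn r} (h : MK.pz y = Fin.append c x) : xf y = x := by
  funext j
  show MK.pz y (Fin.natAdd m j) = x j
  rw [h, Fin.append_right]

theorem append_mem_ball {c : Cn m} {x₀ x : Cn r} {R : ℝ} (hx : x ∈ ball x₀ R) :
    (Fin.append c x : Cn (m + r)) ∈ ball (Fin.append c x₀ : Cn (m + r)) R := by
  have hR : 0 < R := lt_of_le_of_lt dist_nonneg (mem_ball.1 hx)
  rw [mem_ball, dist_pi_lt_iff hR] at hx ⊢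
  intro i
  refine Fin.addCases (fun i => ?_) (fun i => ?_) i
  · rw [Fin.append_left, Fin.append_left, dist_self]; exact hR
  · rw [Fin.append_right, Fin.append_right]; exact hx i

theorem continuous_append (c : Cn m) : Continuous fun x : Cn r => (Fin.append c x : Cn (m + r)) := by
  refine continuous_pi fun i => ?_
  refine Fin.addCases (fun i => ?_) (fun i => ?_) i
  · simp only [Fin.append_left]; exact continuous_const
  · simp only [Fin.append_right]; exact continuous_apply i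

/-- the leaf of a chart through `y` stays in the fibre of `y` -/
theorem f_sec {E : OpenPartialHomeomorph MK.Pts (Cn (m + r))} (hE : IsCh E) {y : MK.Pts} {R : ℝ}
    (hy : y ∈ E.source) (hT : ball (MK.pz y) R ⊆ E.target) {x : Cn r} (hx : x ∈ ball (xf y) R) :
    H.f (E.symm (Fin.append (ML.pz (H.f y)) x)) = H.f y := by
  have hR : 0 < R := lt_of_le_of_lt dist_nonneg (mem_ball.1 hx)
  have hmem : ∀ x ∈ ball (xf y) R, (Fin.append (ML.pz (H.f y)) x : Cn (m + r)) ∈ E.target := by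
    intro x hx
    apply hT
    rw [← append_eq H y]
    exact append_mem_ball hx
  have hc : ContinuousOn (fun x : Cn r => H.f (E.symm (Fin.append (ML.pz (H.f y)) x)))
      (ball (xf y) R) := by
    refine (continuous_f H).comp_continuousOn ?_
    exact E.continuousOn_symm.comp (continuous_append _).continuousOn hmem
  have hlh : IsLocalHomeomorph (cp : ML.Pts → Cn m) := RDom.hp
  have hsep : IsSeparatedMap (cp : ML.Pts → Cn m) := T2Space.isSeparatedMap _
  have hpre : IsPreconnected (ball (xf y) R) := (convex_ball _ _).isPreconnected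
  have heq := hsep.eqOn_of_comp_eqOn hlh.isLocallyInjective hpre hc
    (continuousOn_const (c := H.f y)) (fun x hx => by
      show cp (H.f (E.symm (Fin.append (ML.pz (H.f y)) x))) = cp (H.f y)
      funext i
      show ML.pz (H.f (E.symm (Fin.append (ML.pz (H.f y)) x))) i = ML.pz (H.f y) i
      rw [pz_f]
      have h3 : cp (E.symm (Fin.append (ML.pz (H.f y)) x)) = Fin.append (ML.pz (H.f y)) x :=
        hE.cp_symm (hmem x hx)
      have h4 := congrFun h3 (Fin.castAdd r i)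
      rw [Fin.append_left] at h4
      exact h4) (mem_ball_self hR) (by
      have h3 : E.symm (Fin.append (ML.pz (H.f y)) (xf y)) = y := by
        rw [append_eq]
        exact hE.symm_cp hy
      rw [h3])
  exact heq hx

/-- functions holomorphic on the `s`-fold fibre are holomorphic on products of leaves of charts -/
theorem holFS_chart {s : ℕ} {E : OpenPartialHomeomorph MK.Pts (Cn (m + r))} (hE : IsCh E)
    {y : MK.Pts} {R : ℝ} (hy : y ∈ E.source) (hT : ball (MK.pz y) R ⊆ E.target)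
    {τ : (Fin s → MK.Pts) → ℂ} (hτ : HolFS H s (H.f y) τ) :
    DifferentiableOn ℂ (fun x : Fin s → Cn r =>
      τ (fun i => E.symm (Fin.append (ML.pz (H.f y)) (x i)))) (ball (fun _ => xf y) R) := by
  intro x hx
  have hR : 0 < R := lt_of_le_of_lt dist_nonneg (mem_ball.1 hx)
  have hxi : ∀ i, x i ∈ ball (xf y) R := by
    intro i
    rw [mem_ball, dist_pi_lt_iff hR] at hx
    exact hx i
  have hmem : ∀ i, (Fin.append (ML.pz (H.f y)) (x i) : Cn (m + r)) ∈ E.target := by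
    intro i
    apply hT
    rw [← append_eq H y]
    exact append_mem_ball (hxi i)
  set Y : Fin s → MK.Pts := fun i => E.symm (Fin.append (ML.pz (H.f y)) (x i)) with hY
  have hYs : ∀ i, Y i ∈ E.source := fun i => E.map_target (hmem i)
  have hYc : ∀ i, cp (Y i) = Fin.append (ML.pz (H.f y)) (x i) := fun i => hE.cp_symm (hmem i)
  have hYf : ∀ i, H.f (Y i) = H.f y := fun i => f_sec H hE hy hT (hxi i)
  have h6 := hτ Y hYf
  have hYx : (fun i j => MK.pz (Y i) (Fin.natAdd m j)) = x := by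
    funext i
    exact xf_eq (hYc i)
  rw [hYx] at h6
  have h9 : ∀ᶠ x' in 𝓝 x, ∀ i, (ch (Y i)).symm (Fin.append (ML.pz (H.f y)) (x' i)) =
      E.symm (Fin.append (ML.pz (H.f y)) (x' i)) := by
    rw [Filter.eventually_all]
    intro i
    have h7 := (isCh_ch (Y i)).germ hE (mem_ch (Y i)) (hYs i)
    rw [hYc] at h7
    have hc : ContinuousAt (fun x' : Fin s → Cn r =>
        (Fin.append (ML.pz (H.f y)) (x' i) : Cn (m + r))) x :=
      ((continuous_append (ML.pz (H.f y))).comp (continuous_apply i)).continuousAt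
    exact hc.eventually h7
  have h8 : (fun x' : Fin s → Cn r =>
      τ (fun i => (ch (Y i)).symm (Fin.append (ML.pz (H.f y)) (x' i)))) =ᶠ[𝓝 x]
      fun x' => τ (fun i => E.symm (Fin.append (ML.pz (H.f y)) (x' i))) := by
    filter_upwards [h9] with x' hx'
    congr 1
    funext i
    exact hx' i
  exact (h6.congr h8).differentiableAt.differentiableWithinAt

/-- integrals over the `s`-fold fibre dominate integrals over products of leaves -/
theorem int_fintS {s : ℕ} {E : OpenPartialHomeomorph MK.Pts (Cn (m + r))} (hE : IsCh E)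
    {y : MK.Pts} {R : ℝ} (hy : y ∈ E.source) (hT : ball (MK.pz y) R ⊆ E.target)
    {R' : ℝ} (hR' : R' ≤ R) (g : (Fin s → MK.Pts) → ℝ≥0∞) :
    ∫⁻ x in ball (fun _ : Fin s => xf y) R', g (fun i => E.symm (Fin.append (ML.pz (H.f y)) (x i)))
      ≤ H.fintS s (H.f y) g := by
  unfold Rel.fintS
  refine le_trans ?_ (setLIntegral_le_lintegral (ball (fun _ : Fin s => xf y) R') _)
  refine setLIntegral_mono' measurableSet_ball fun x hx => ?_
  have hR0 : 0 < R' := lt_of_le_of_lt dist_nonneg (mem_ball.1 hx)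
  have hxi : ∀ i, x i ∈ ball (xf y) R := by
    intro i
    rw [mem_ball, dist_pi_lt_iff hR0] at hx
    exact mem_ball.2 (lt_of_lt_of_le (hx i) hR')
  have hmem : ∀ i, (Fin.append (ML.pz (H.f y)) (x i) : Cn (m + r)) ∈ E.target := by
    intro i
    apply hT
    rw [← append_eq H y]
    exact append_mem_ball (hxi i)
  exact ENNReal.le_tsum (f := fun y' : {y' : Fin s → MK.Pts // (∀ i, H.f (y' i) = H.f y) ∧
      ∀ i, (fun j => MK.pz (y' i) (Fin.natAdd m j)) = x i} => g y'.1)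
    ⟨fun i => E.symm (Fin.append (ML.pz (H.f y)) (x i)), fun i => f_sec H hE hy hT (hxi i),
      fun i => xf_eq (hE.cp_symm (hmem i))⟩

/-- **weighted mean value inequality on the `s`-fold fibre** -/
theorem point_le {s : ℕ} {E : OpenPartialHomeomorph MK.Pts (Cn (m + r))} (hE : IsCh E)
    {y : MK.Pts} {R : ℝ} (hR : 0 < R) (hy : y ∈ E.source) (hT : ball (MK.pz y) (2 * R) ⊆ E.target)
    {τ : (Fin s → MK.Pts) → ℂ} (hτ : HolFS H s (H.f y) τ) {p α : ℝ} (hp : 0 < p) (hα : 0 ≤ α)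
    {g : (Fin s → MK.Pts) → ℂ} {S : ℝ} (hS : 0 < S)
    (hg : ∀ v : Fin s → Cn (m + r), (∀ i, v i ∈ ball (MK.pz y) (2 * R)) →
      ‖g fun i => E.symm (v i)‖ ≤ S) :
    ‖τ (fun _ => y)‖ₑ ^ p * ENNReal.ofReal (R ^ (2 * (s * r))) ≤
      ENNReal.ofReal S ^ α *
        H.fintS s (H.f y) (fun y' => ‖τ y'‖ₑ ^ p * ‖g y'‖ₑ ^ (-α)) := by
  have h1 := submean_pi (q := p) hR (holFS_chart H hE hy hT hτ) hp
  have h3 : E.symm (Fin.append (ML.pz (H.f y)) (xf y)) = y := by
    rw [append_eq]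
    exact hE.symm_cp hy
  simp only [h3] at h1
  rw [mul_comm]
  refine h1.trans ?_
  have hSt : ENNReal.ofReal S ^ α ≠ ∞ := ENNReal.rpow_ne_top_of_nonneg hα ENNReal.ofReal_ne_top
  have hS0 : ENNReal.ofReal S ^ α ≠ 0 :=
    (ENNReal.rpow_pos (ENNReal.ofReal_pos.2 hS) ENNReal.ofReal_ne_top).ne'
  refine le_trans ?_ (mul_le_mul_right (int_fintS H hE hy hT (R' := R) (by linarith)
    (fun y' => ‖τ y'‖ₑ ^ p * ‖g y'‖ₑ ^ (-α))) _)
  rw [← lintegral_const_mul' _ _ hSt]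
  refine setLIntegral_mono' measurableSet_ball fun x hx => ?_
  have hxi : ∀ i, x i ∈ ball (xf y) (2 * R) := by
    intro i
    rw [mem_ball, dist_pi_lt_iff hR] at hx
    exact mem_ball.2 (lt_of_lt_of_le (hx i) (by linarith))
  have h4 := hg (fun i => Fin.append (ML.pz (H.f y)) (x i)) (fun i => by
    rw [← append_eq H y]
    exact append_mem_ball (hxi i))
  set G : ℂ := g (fun i => E.symm (Fin.append (ML.pz (H.f y)) (x i))) with hG
  have h5 : ‖G‖ₑ ^ α ≤ ENNReal.ofReal S ^ α := by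
    refine ENNReal.rpow_le_rpow ?_ hα
    rw [← ofReal_norm]
    exact ENNReal.ofReal_le_ofReal h4
  have h6 : 1 ≤ ENNReal.ofReal S ^ α * ‖G‖ₑ ^ (-α) := by
    rw [ENNReal.rpow_neg]
    calc (1 : ℝ≥0∞) = ENNReal.ofReal S ^ α * (ENNReal.ofReal S ^ α)⁻¹ :=
          (ENNReal.mul_inv_cancel hS0 hSt).symm
      _ ≤ _ := by gcongr
  calc ‖τ fun i => E.symm (Fin.append (ML.pz (H.f y)) (x i))‖ₑ ^ p
      = ‖τ fun i => E.symm (Fin.append (ML.pz (H.f y)) (x i))‖ₑ ^ p * 1 := (mul_one _).symm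
    _ ≤ ‖τ fun i => E.symm (Fin.append (ML.pz (H.f y)) (x i))‖ₑ ^ p *
        (ENNReal.ofReal S ^ α * ‖G‖ₑ ^ (-α)) := by gcongr
    _ = _ := by ring

/-- `|δ| ≤ 1 + s! B^s` -/
theorem dl_le {s : ℕ} (u : Fin s → MK.B) (y : Fin s → MK.Pts) {B : ℝ}
    (hB : ∀ i j, ‖y j (u i)‖ ≤ B) : ‖dl u y‖ ≤ 1 + (s.factorial : ℝ) * B ^ s := by
  have h1 := Matrix.det_le (A := Matrix.of fun i j => y j (u i))
    (abv := (IsAbsoluteValue.toAbsoluteValue (norm : ℂ → ℝ))) (x := B) (fun i j => hB i j)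
  rw [Fintype.card_fin, nsmul_eq_mul] at h1
  have h2 : ‖dl u y‖ ≤ (s.factorial : ℝ) * B ^ s := h1
  linarith

/-- **growth at a point** -/
theorem gr_point {s : ℕ} (u : Fin s → MK.B) {p ε : ℝ} (hp : 0 < p) (hε : 0 ≤ ε) :
    ∃ (C : ℝ) (j k : ℕ), 0 ≤ C ∧ ∀ (y : MK.Pts) (τ : (Fin s → MK.Pts) → ℂ),
      HolFS H s (H.f y) τ →
      ‖τ (fun _ => y)‖ₑ ^ p * ENNReal.ofReal (‖MvPolynomial.eval (MK.pz y) MK.h‖ ^ j) ≤
        ENNReal.ofReal (C * (1 + ∑ i, ‖MK.pz y i‖ ^ 2) ^ k) *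
          H.fintS s (H.f y) (fun y' => ‖τ y'‖ₑ ^ p * ‖dl u y'‖ₑ ^ (-(2 * ε))) := by
  classical
  obtain ⟨N, g, hg⟩ := exists_gens MK.ft
  obtain ⟨c, κ, hc0, hc1, hch⟩ := Bcq_828.exists_qchart MK.het g hg
  obtain ⟨Mc, κ', hMc, hw⟩ := Bcq_828.PG_unif (a := g) u (fun i => Bcq_828.PG_all hg _)
  set k₀ : ℕ := ⌈2 * ε⌉₊ with hk₀
  set Q : ℝ := (c / 2) ^ (2 * (s * r)) with hQ
  have hQ0 : 0 < Q := by positivity
  set S : MK.Pts → ℝ := fun y => 1 + (s.factorial : ℝ) * (Mc * (2 * oz g y) ^ κ') ^ s with hS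
  have hoz0 : ∀ z : MK.Pts, 0 ≤ oz g z := fun z => le_trans zero_le_one (one_le_oz g z)
  have hS1 : ∀ y, 1 ≤ S y := by
    intro y
    have h1 := hoz0 y
    have : (0 : ℝ) ≤ (s.factorial : ℝ) * (Mc * (2 * oz g y) ^ κ') ^ s := by positivity
    simp only [hS]
    linarith
  -- bound at a point
  have key : ∀ (y : MK.Pts) (τ : (Fin s → MK.Pts) → ℂ), HolFS H s (H.f y) τ →
      ‖τ (fun _ => y)‖ₑ ^ p * ENNReal.ofReal Q ≤
        ENNReal.ofReal (S y ^ k₀ * oz g y ^ (κ * (2 * (s * r)))) *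
          H.fintS s (H.f y) (fun y' => ‖τ y'‖ₑ ^ p * ‖dl u y'‖ₑ ^ (-(2 * ε))) := by
    intro y τ hτ
    have hoz := one_le_oz g y
    set R : ℝ := c / 2 / oz g y ^ κ with hR
    have hR0 : 0 < R := by positivity
    obtain ⟨C, hCr, hC⟩ := hch y (2 * R) (by positivity) (by rw [hR]; field_simp; rfl)
    set E := chartHomeo MK.hch C with hE
    have hEc : IsCh E := rfl
    have hT : ball (MK.pz y) (2 * R) ⊆ E.target := by
      rw [hE, chartHomeo_target, hCr]
    have hg' : ∀ v : Fin s → Cn (m + r), (∀ i, v i ∈ ball (MK.pz y) (2 * R)) →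
        ‖dl u fun i => E.symm (v i)‖ ≤ S y := by
      intro v hv
      apply dl_le
      intro i j
      have h1 : v j - MK.pz y ∈ ball (0 : Cn (m + r)) C.r := by
        rw [hCr, mem_ball_zero_iff, ← dist_eq_norm]
        exact hv j
      have h2 := hC _ h1
      have h3 : E.symm (v j) = C.s (v j - MK.pz y) := chartHomeo_symm MK.hch C (v j)
      rw [h3]
      have h5 := hw i (C.s (v j - MK.pz y))
      have h6 : (0 : ℝ) ≤ oz g (C.s (v j - MK.pz y)) := hoz0 _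
      exact h5.trans (by gcongr)
    have h1 := point_le H hEc hR0 (self_mem_sheet C) hT hτ (α := 2 * ε) hp (by linarith)
      (lt_of_lt_of_le zero_lt_one (hS1 y)) hg'
    have hSk : ENNReal.ofReal (S y) ^ (2 * ε) ≤ ENNReal.ofReal (S y ^ k₀) := by
      rw [ENNReal.ofReal_pow (by linarith [hS1 y]), ← ENNReal.rpow_natCast]
      refine ENNReal.rpow_le_rpow_of_exponent_le ?_ (Nat.le_ceil _)
      rw [← ENNReal.ofReal_one]
      exact ENNReal.ofReal_le_ofReal (hS1 y)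
    have hQR : Q = R ^ (2 * (s * r)) * oz g y ^ (κ * (2 * (s * r))) := by
      rw [hR, div_pow, ← pow_mul, hQ]
      field_simp
    calc ‖τ (fun _ => y)‖ₑ ^ p * ENNReal.ofReal Q
        = (‖τ (fun _ => y)‖ₑ ^ p * ENNReal.ofReal (R ^ (2 * (s * r)))) *
            ENNReal.ofReal (oz g y ^ (κ * (2 * (s * r)))) := by
          rw [hQR, ENNReal.ofReal_mul (by positivity)]
          ring
      _ ≤ (ENNReal.ofReal (S y ^ k₀) *
          H.fintS s (H.f y) (fun y' => ‖τ y'‖ₑ ^ p * ‖dl u y'‖ₑ ^ (-(2 * ε)))) *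
            ENNReal.ofReal (oz g y ^ (κ * (2 * (s * r)))) := by
          refine mul_le_mul_left (h1.trans ?_) _
          exact mul_le_mul_left hSk _
      _ = _ := by
          have := hS1 y
          rw [ENNReal.ofReal_mul (by positivity)]
          ring
  -- growth
  have hG : Gw MK (fun y => S y ^ k₀ * oz g y ^ (κ * (2 * (s * r)))) := by
    have h1 : Gw MK (fun z => (2 * oz g z)) := (Gw.const 2).mul (Gw.oz g) hoz0
    have h2 : Gw MK (fun z => (2 * oz g z) ^ κ') := h1.pow (fun z => by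
      have := hoz0 z; positivity) κ'
    have h3 : Gw MK (fun z => Mc * (2 * oz g z) ^ κ') := (Gw.const Mc).mul h2 (fun z => by
      have := hoz0 z; positivity)
    have h4 : Gw MK (fun z => (Mc * (2 * oz g z) ^ κ') ^ s) := h3.pow (fun z => by
      have := hoz0 z; positivity) s
    have h5 : Gw MK (fun z => (s.factorial : ℝ) * (Mc * (2 * oz g z) ^ κ') ^ s) :=
      (Gw.const (s.factorial : ℝ)).mul h4 (fun z => by have := hoz0 z; positivity)
    have h6 : Gw MK S := (Gw.const 1).add h5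
    exact (h6.pow (fun y => by have := hS1 y; linarith) k₀).mul ((Gw.oz g).pow hoz0 _)
      (fun z => by have := hoz0 z; positivity)
  obtain ⟨C, k, l, hC, hCk⟩ := hG
  refine ⟨C / Q, l, k, by positivity, fun y τ hτ => ?_⟩
  have h1 := key y τ hτ
  have h2 := hCk y
  set I := H.fintS s (H.f y) (fun y' => ‖τ y'‖ₑ ^ p * ‖dl u y'‖ₑ ^ (-(2 * ε))) with hI
  have h0 : ENNReal.ofReal Q ≠ 0 := (ENNReal.ofReal_pos.2 hQ0).ne'
  have h3 : (‖τ (fun _ => y)‖ₑ ^ p * ENNReal.ofReal (‖MvPolynomial.eval (MK.pz y) MK.h‖ ^ l)) *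
      ENNReal.ofReal Q ≤ (ENNReal.ofReal (C / Q * (1 + ∑ i, ‖MK.pz y i‖ ^ 2) ^ k) * I) *
        ENNReal.ofReal Q := by
    calc (‖τ (fun _ => y)‖ₑ ^ p * ENNReal.ofReal (‖MvPolynomial.eval (MK.pz y) MK.h‖ ^ l)) *
          ENNReal.ofReal Q
        = (‖τ (fun _ => y)‖ₑ ^ p * ENNReal.ofReal Q) *
            ENNReal.ofReal (‖MvPolynomial.eval (MK.pz y) MK.h‖ ^ l) := by ring
      _ ≤ (ENNReal.ofReal (S y ^ k₀ * oz g y ^ (κ * (2 * (s * r)))) * I) *
            ENNReal.ofReal (‖MvPolynomial.eval (MK.pz y) MK.h‖ ^ l) := mul_le_mul_left h1 _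
      _ = ENNReal.ofReal (‖MvPolynomial.eval (MK.pz y) MK.h‖ ^ l *
            (S y ^ k₀ * oz g y ^ (κ * (2 * (s * r))))) * I := by
          rw [ENNReal.ofReal_mul (p := ‖MvPolynomial.eval (MK.pz y) MK.h‖ ^ l) (by positivity)]
          ring
      _ ≤ ENNReal.ofReal (C * GG MK y ^ k) * I :=
          mul_le_mul_left (ENNReal.ofReal_le_ofReal h2) _
      _ = _ := by
          have h4 : C * GG MK y ^ k = (C / Q * (1 + ∑ i, ‖MK.pz y i‖ ^ 2) ^ k) * Q := by
            unfold GG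
            field_simp
          rw [h4, ENNReal.ofReal_mul (by positivity)]
          ring
  exact (ENNReal.mul_le_mul_iff_left h0 ENNReal.ofReal_ne_top).1 h3

/-! ### the supremum -/

/-- the supremum over all `τ` holomorphic on the `s`-fold fibre (`0/0 = 0`, `x/∞ = 0`) -/
def bAll {s : ℕ} (u : Fin s → MK.B) (p ε : ℝ) (y : MK.Pts) : ℝ≥0∞ :=
  ⨆ (τ : (Fin s → MK.Pts) → ℂ) (_ : HolFS H s (H.f y) τ), ‖τ (fun _ => y)‖ₑ ^ p /
    H.fintS s (H.f y) (fun y' => ‖τ y'‖ₑ ^ p * ‖dl u y'‖ₑ ^ (-(2 * ε)))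

theorem le_bAll {s : ℕ} (u : Fin s → MK.B) (p ε : ℝ) {y : MK.Pts} {τ : (Fin s → MK.Pts) → ℂ}
    (hτ : HolFS H s (H.f y) τ) : ‖τ (fun _ => y)‖ₑ ^ p /
      H.fintS s (H.f y) (fun y' => ‖τ y'‖ₑ ^ p * ‖dl u y'‖ₑ ^ (-(2 * ε))) ≤ bAll H u p ε y :=
  le_iSup₂ (f := fun (τ : (Fin s → MK.Pts) → ℂ) (_ : HolFS H s (H.f y) τ) =>
    ‖τ (fun _ => y)‖ₑ ^ p /
      H.fintS s (H.f y) (fun y' => ‖τ y'‖ₑ ^ p * ‖dl u y'‖ₑ ^ (-(2 * ε)))) τ hτ

theorem bAll_growth {s : ℕ} (u : Fin s → MK.B) {p ε : ℝ} (hp : 0 < p) (hε : 0 ≤ ε) :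
    ∃ (C : ℝ) (j k : ℕ), 0 ≤ C ∧ ∀ y : MK.Pts,
      bAll H u p ε y * ENNReal.ofReal (‖MvPolynomial.eval (MK.pz y) MK.h‖ ^ j) ≤
        ENNReal.ofReal (C * (1 + ∑ i, ‖MK.pz y i‖ ^ 2) ^ k) := by
  obtain ⟨C, j, k, hC, h⟩ := gr_point H u hp hε
  refine ⟨C, j, k, hC, fun y => ?_⟩
  have hh : 0 < ‖MvPolynomial.eval (MK.pz y) MK.h‖ ^ j :=
    pow_pos (norm_pos_iff.2 (MK.eval_h_ne y)) j
  have h0 : ENNReal.ofReal (‖MvPolynomial.eval (MK.pz y) MK.h‖ ^ j) ≠ 0 :=
    (ENNReal.ofReal_pos.2 hh).ne'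
  rw [← ENNReal.le_div_iff_mul_le (Or.inl h0) (Or.inl ENNReal.ofReal_ne_top)]
  refine iSup₂_le fun τ hτ => ?_
  rw [ENNReal.le_div_iff_mul_le (Or.inl h0) (Or.inl ENNReal.ofReal_ne_top)]
  have h1 := h y τ hτ
  set I := H.fintS s (H.f y) (fun y' => ‖τ y'‖ₑ ^ p * ‖dl u y'‖ₑ ^ (-(2 * ε))) with hI
  rcases eq_or_ne I 0 with h2 | h2
  · rw [h2, mul_zero, nonpos_iff_eq_zero, mul_eq_zero] at h1
    rcases h1 with h1 | h1
    · rw [h1, ENNReal.zero_div, zero_mul]
      exact zero_le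
    · exact absurd h1 h0
  rcases eq_or_ne I ∞ with h3 | h3
  · rw [h3, ENNReal.div_top, zero_mul]
    exact zero_le
  rw [div_eq_mul_inv]
  calc ‖τ (fun _ => y)‖ₑ ^ p * I⁻¹ * ENNReal.ofReal (‖MvPolynomial.eval (MK.pz y) MK.h‖ ^ j)
      = (‖τ (fun _ => y)‖ₑ ^ p * ENNReal.ofReal (‖MvPolynomial.eval (MK.pz y) MK.h‖ ^ j)) *
          I⁻¹ := by ring
    _ ≤ (ENNReal.ofReal (C * (1 + ∑ i, ‖MK.pz y i‖ ^ 2) ^ k) * I) * I⁻¹ := mul_le_mul_left h1 _
    _ = _ := by rw [mul_assoc, ENNReal.mul_inv_cancel h2 h3, mul_one]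

theorem bAll_ne_top {s : ℕ} (u : Fin s → MK.B) {p ε : ℝ} (hp : 0 < p) (hε : 0 ≤ ε) (y : MK.Pts) :
    bAll H u p ε y ≠ ∞ := by
  obtain ⟨C, j, k, hC, h⟩ := bAll_growth H u hp hε
  intro h1
  have h2 := h y
  have hh : 0 < ‖MvPolynomial.eval (MK.pz y) MK.h‖ ^ j :=
    pow_pos (norm_pos_iff.2 (MK.eval_h_ne y)) j
  rw [h1, ENNReal.top_mul (ENNReal.ofReal_pos.2 hh).ne'] at h2
  exact absurd h2 (not_le.2 ENNReal.ofReal_lt_top)

theorem continuous_pzM {K : Type} [Field K] [Algebra ℂ K] {n : ℕ} (M : Mdl K n) :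
    Continuous M.pz := (cp_cont : Continuous (cp : M.Pts → Cn n))

/-- a continuous bound with polynomial growth -/
theorem exists_bound {s : ℕ} (u : Fin s → MK.B) {p ε : ℝ} (hp : 0 < p) (hε : 0 ≤ ε) :
    ∃ G : MK.Pts → ℝ, Continuous G ∧ PGr MK G ∧ (∀ y, 0 ≤ G y) ∧
      ∀ y, bAll H u p ε y ≤ ENNReal.ofReal (G y) := by
  obtain ⟨C, j, k, hC, h⟩ := bAll_growth H u hp hε
  have hh : ∀ y : MK.Pts, 0 < ‖MvPolynomial.eval (MK.pz y) MK.h‖ ^ j := fun y =>
    pow_pos (norm_pos_iff.2 (MK.eval_h_ne y)) j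
  have hcz : Continuous MK.pz := continuous_pzM MK
  have hch : Continuous fun y : MK.Pts => MvPolynomial.eval (MK.pz y) MK.h :=
    (MvPolynomial.continuous_eval MK.h).comp hcz
  have hci : ∀ i, Continuous fun y : MK.Pts => MK.pz y i := fun i => (continuous_apply i).comp hcz
  refine ⟨fun y => C * (1 + ∑ i, ‖MK.pz y i‖ ^ 2) ^ k / ‖MvPolynomial.eval (MK.pz y) MK.h‖ ^ j,
    ?_, ⟨C, j, k, fun y => ?_⟩, fun y => ?_, fun y => ?_⟩
  · refine Continuous.div ?_ (hch.norm.pow j) fun y => (hh y).ne'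
    exact continuous_const.mul ((continuous_const.add (continuous_finsetSum _ fun i _ =>
      (hci i).norm.pow 2)).pow k)
  · rw [div_mul_cancel₀ _ (hh y).ne']
  · have := hh y
    positivity
  · rw [ENNReal.ofReal_div_of_pos (hh y), ENNReal.le_div_iff_mul_le
      (Or.inl (ENNReal.ofReal_pos.2 (hh y)).ne') (Or.inl ENNReal.ofReal_ne_top)]
    exact h y

/-- **C1-GR**: growth and local boundedness of a weight dominated by the supremum, and of its upper
semicontinuous hull -/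
theorem gr_all {s : ℕ} (u : Fin s → MK.B) {p ε : ℝ} (hp : 0 < p) (hε : 0 ≤ ε) {b : MK.Pts → ℝ}
    (h0 : ∀ y, 0 ≤ b y) (hb : ∀ y, ENNReal.ofReal (b y) ≤ bAll H u p ε y) :
    LocB b ∧ PGr MK b ∧ PGr MK (ush b) ∧ (∀ y, 0 ≤ ush b y) ∧ ∀ y, b y ≤ ush b y := by
  obtain ⟨G, hGc, ⟨C, j, k, hG⟩, hG0, hle⟩ := exists_bound H u hp hε
  have h1 : ∀ y, b y ≤ G y := fun y =>
    (ENNReal.ofReal_le_ofReal_iff (hG0 y)).1 ((hb y).trans (hle y))
  have hL : LocB b := by
    intro x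
    refine ⟨G x + 1, ?_⟩
    have h2 : ∀ᶠ y in 𝓝 x, G y < G x + 1 := hGc.continuousAt.eventually (gt_mem_nhds (by linarith))
    filter_upwards [h2] with y hy
    rw [abs_of_nonneg (h0 y)]
    exact (h1 y).trans hy.le
  have h2 : ∀ y, ush b y ≤ G y :=
    R273.Reg_844.ush_le_of_le hGc.upperSemicontinuous h1
  refine ⟨hL, ⟨C, j, k, fun y => ?_⟩, ⟨C, j, k, fun y => ?_⟩, fun y => (h0 y).trans (hL.le_ush y),
    fun y => hL.le_ush y⟩
  · exact (mul_le_mul_of_nonneg_right (h1 y) (by positivity)).trans (hG y)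
  · exact (mul_le_mul_of_nonneg_right (h2 y) (by positivity)).trans (hG y)

end rel

end Crest.Agent.R276.C1gr_505
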