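import Mathlib
import Crest.Agent.R276.C1bdF_986
import Crest.Agent.R276.C1gr_505

/-!
# Row 276 (helper986), W1-ASM: the weight `b₁` of `SkelDefs_220.C1`, everything except `psh`

* `bEc H u v N' ε y` : supremum of `|τ(y,…,y)|^{2/N'} / ∫_{M_z^s} |τ|^{2/N'} |δ|^{-2ε}` over the
  holomorphic `τ` with `|τ|² ≤ C ∏ⱼ ∑ᵢ |yⱼ(vᵢ)|²`;
* `b1w = ush (bEc).toReal`;
* `c1_of_psh` : `LPsh b1w → C1 H₁ H₂ N k u D ε b1w`.
-/

set_option autoImplicit false
set_option linter.unusedSectionVars false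

open Set Filter Topology MeasureTheory Metric
open scoped ENNReal BigOperators

noncomputable section

namespace Crest.Agent.R276.C1bd_986

open Crest.Agent.R271 Crest.Agent.R271.Defs710 Crest.Agent.R271.Rd692 Crest.Agent.R271.Ho51
open Crest.Agent.R276.Mod1_987 Crest.Agent.R276.FKDefs_779 Crest.Agent.R276.SkelDefs_220
open Crest.Agent.R276.AcOpen_89 Crest.Agent.R276.BR_590
open Crest.Agent.R276.EngU_29 (LPsh)
open Crest.Agent.R273.Reg_844 (ush LocB)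

section rel

variable {L K : Type} [Field L] [Field K] [Algebra ℂ L] [Algebra ℂ K] [Algebra L K]
  [IsScalarTower ℂ L K] {m r : ℕ} {ML : Mdl L m} {MK : Mdl K (m + r)} (H : Rel ML MK) {s q : ℕ}

/-- the integral of the class -/
def II (u : Fin s → MK.B) (p ε : ℝ) (z : ML.Pts) (τ : (Fin s → MK.Pts) → ℂ) : ℝ≥0∞ :=
  H.fintS s z (fun y => ‖τ y‖ₑ ^ p * ‖dl u y‖ₑ ^ (-(2 * ε)))

/-- the kernel -/
def bEc (u : Fin s → MK.B) (v : Fin q → MK.B) (p ε : ℝ) (y : MK.Pts) : ℝ≥0∞ :=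
  ⨆ (τ : (Fin s → MK.Pts) → ℂ) (_ : HolFS H s (H.f y) τ) (_ : Cls H v s (H.f y) τ),
    ‖τ (fun _ => y)‖ₑ ^ p / II H u p ε (H.f y) τ

lemma le_bEc (u : Fin s → MK.B) (v : Fin q → MK.B) (p ε : ℝ) {y : MK.Pts}
    {τ : (Fin s → MK.Pts) → ℂ} (hτ : HolFS H s (H.f y) τ) (hc : Cls H v s (H.f y) τ) :
    ‖τ (fun _ => y)‖ₑ ^ p / II H u p ε (H.f y) τ ≤ bEc H u v p ε y := by
  unfold bEc
  exact le_iSup_of_le τ (le_iSup_of_le hτ (le_iSup_of_le hc le_rfl))

lemma bEc_le_iff (u : Fin s → MK.B) (v : Fin q → MK.B) (p ε : ℝ) (y : MK.Pts) (B : ℝ≥0∞) :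
    bEc H u v p ε y ≤ B ↔ ∀ τ : (Fin s → MK.Pts) → ℂ, HolFS H s (H.f y) τ →
      Cls H v s (H.f y) τ → ‖τ (fun _ => y)‖ₑ ^ p / II H u p ε (H.f y) τ ≤ B := by
  unfold bEc
  simp only [iSup_le_iff]

lemma bEc_le_bAll (u : Fin s → MK.B) (v : Fin q → MK.B) (p ε : ℝ) (y : MK.Pts) :
    bEc H u v p ε y ≤ C1gr_505.bAll H u p ε y := by
  rw [bEc_le_iff]
  intro τ hτ _
  exact C1gr_505.le_bAll H u p ε (fun y hy => hτ y hy)

variable {H}

lemma bEc_ne_top (u : Fin s → MK.B) (v : Fin q → MK.B) {p ε : ℝ} (hp : 0 < p) (hε : 0 ≤ ε)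
    (y : MK.Pts) : bEc H u v p ε y ≠ ∞ :=
  ne_top_of_le_ne_top (C1gr_505.bAll_ne_top H u hp hε y) (bEc_le_bAll H u v p ε y)

variable (H)

/-- the real kernel -/
def bRc (u : Fin s → MK.B) (v : Fin q → MK.B) (p ε : ℝ) (y : MK.Pts) : ℝ :=
  (bEc H u v p ε y).toReal

/-- **the weight `b₁`** -/
def b1w (u : Fin s → MK.B) (v : Fin q → MK.B) (p ε : ℝ) : MK.Pts → ℝ := ush (bRc H u v p ε)

variable {H}

lemma ofReal_bRc (u : Fin s → MK.B) (v : Fin q → MK.B) {p ε : ℝ} (hp : 0 < p) (hε : 0 ≤ ε)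
    (y : MK.Pts) : ENNReal.ofReal (bRc H u v p ε y) = bEc H u v p ε y :=
  ENNReal.ofReal_toReal (bEc_ne_top u v hp hε y)

theorem gr_b1w (u : Fin s → MK.B) (v : Fin q → MK.B) {p ε : ℝ} (hp : 0 < p) (hε : 0 ≤ ε) :
    LocB (bRc H u v p ε) ∧ PGr MK (bRc H u v p ε) ∧ PGr MK (b1w H u v p ε) ∧
      (∀ y, 0 ≤ b1w H u v p ε y) ∧ ∀ y, bRc H u v p ε y ≤ b1w H u v p ε y :=
  C1gr_505.gr_all H u hp hε (fun _ => ENNReal.toReal_nonneg) fun y => by
    rw [ofReal_bRc u v hp hε]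
    exact bEc_le_bAll H u v p ε y

/-! ### the test functions -/

/-- evaluation of elements is holomorphic on the `s`-fold fibre -/
lemma analyticAt_evS (H : Rel ML MK) {z : ML.Pts} {y : Fin s → MK.Pts} (hy : ∀ i, H.f (y i) = z)
    (w : MK.B) (i : Fin s) : AnalyticAt ℂ (fun x : Fin s → Cn r =>
      ((ch (y i)).symm (Fin.append (ML.pz z) (x i))) w) fun i => fc (y i) := by
  have h4 : AnalyticAt ℂ ((fun y : MK.Pts => y w) ∘ (ch (y i)).symm) (MK.pz (y i)) :=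
    (Crest.Agent.R276.AB2_590.holA_iff MK.hch).mpr (Crest.Agent.R276.AB2_590.holB_ev w) (y i)
  have h5 : cat (ML.pz z) (fc (y i)) = MK.pz (y i) := by
    have := append_fc H (y i)
    rwa [hy i] at this
  have h6 : AnalyticAt ℂ (fun x : Cn r => cat (ML.pz z) x) (fc (y i)) := analyticAt_cat _ _
  have h7 : AnalyticAt ℂ (fun x : Cn r =>
      ((fun y : MK.Pts => y w) ∘ (ch (y i)).symm) (cat (ML.pz z) x)) (fc (y i)) := by
    refine AnalyticAt.comp (g := (fun y : MK.Pts => y w) ∘ (ch (y i)).symm) ?_ h6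
    rw [h5]; exact h4
  exact AnalyticAt.comp (g := fun x : Cn r =>
      ((fun y : MK.Pts => y w) ∘ (ch (y i)).symm) (cat (ML.pz z) x))
    (f := fun x' : Fin s → Cn r => x' i) h7
    ((ContinuousLinearMap.proj (R := ℂ) (φ := fun _ : Fin s => Cn r) i).analyticAt _)

/-- products of elements over the factors -/
lemma holFS_prod (H : Rel ML MK) (z : ML.Pts) (w : MK.B) :
    HolFS H s z (fun y => ∏ j, y j w) := by
  intro y hy
  refine Finset.analyticAt_fun_prod _ fun i _ => ?_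
  exact analyticAt_evS H hy w i

lemma evs_eq (u : Fin s → MK.B) (P : MvPolynomial (Fin s) ℂ) (y : MK.Pts) :
    evs u P y = y (MvPolynomial.aeval u P) := by
  unfold SkelDefs_220.evs
  have h : y (MvPolynomial.aeval u P) = (y.comp (MvPolynomial.aeval u)) P := rfl
  rw [h, MvPolynomial.comp_aeval]
  rfl

/-- a homogeneous polynomial in `u` is bounded by the monomials -/
lemma evs_bound (u : Fin s → MK.B) (v : Fin q → MK.B) {d : ℕ}
    (hv : ∀ α : Fin s →₀ ℕ, α.degree = d → ∃ i, v i = ∏ j, u j ^ α j)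
    {P : MvPolynomial (Fin s) ℂ} (hP : P.IsHomogeneous d) :
    ∃ C : ℝ, 0 ≤ C ∧ ∀ y : MK.Pts, ‖evs u P y‖ ^ 2 ≤ C * ∑ i, ‖y (v i)‖ ^ 2 := by
  refine ⟨(∑ α ∈ P.support, ‖P.coeff α‖) ^ 2, by positivity, fun y => ?_⟩
  set S : ℝ := ∑ i, ‖y (v i)‖ ^ 2 with hS
  have hS0 : 0 ≤ S := Finset.sum_nonneg fun i _ => by positivity
  have h1 : ‖evs u P y‖ ≤ (∑ α ∈ P.support, ‖P.coeff α‖) * Real.sqrt S := by
    unfold SkelDefs_220.evs
    rw [MvPolynomial.eval_eq', Finset.sum_mul]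
    refine (norm_sum_le _ _).trans (Finset.sum_le_sum fun α hα => ?_)
    rw [norm_mul]
    refine mul_le_mul_of_nonneg_left ?_ (norm_nonneg _)
    have hdeg : α.degree = d := by
      have h2 := hP (MvPolynomial.mem_support_iff.1 hα)
      rw [Finsupp.degree_eq_weight_one]
      exact h2
    obtain ⟨i, hi⟩ := hv α hdeg
    have h3 : (∏ j, y (u j) ^ α j) = y (v i) := by
      rw [hi, map_prod]
      simp only [map_pow]
    rw [h3]
    refine Real.le_sqrt_of_sq_le ?_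
    exact Finset.single_le_sum (f := fun i => ‖y (v i)‖ ^ 2) (fun i _ => by positivity)
      (Finset.mem_univ i)
  calc ‖evs u P y‖ ^ 2 ≤ ((∑ α ∈ P.support, ‖P.coeff α‖) * Real.sqrt S) ^ 2 :=
        pow_le_pow_left₀ (norm_nonneg _) h1 2
    _ = _ := by rw [mul_pow, Real.sq_sqrt hS0]

/-- **the inequality `low`** at one point -/
theorem low_point (u : Fin s → MK.B) (v : Fin q → MK.B) {N N' N₁ k l : ℕ}
    (hN : 0 < N) (hN' : 0 < N') (hk : 0 < k) {ε : ℝ} (hε : 0 ≤ ε)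
    (hN₁ : (N₁ : ℝ) = N' * (1 + ε * N)) (hl : N₁ = N * (k * l))
    (hv : ∀ α : Fin s →₀ ℕ, α.degree = k * l → ∃ i, v i = ∏ j, u j ^ α j)
    {P : MvPolynomial (Fin s) ℂ} (hP : P.IsHomogeneous k) {y : MK.Pts}
    (hI : Ieps H N k u ε (H.f y) (evs u P) ≠ ∞) :
    ‖evs u P y‖ₑ ^ (2 * s * (1 + ε * N) / (k * N)) ≤
      ENNReal.ofReal (b1w H u v (2 / (N' : ℝ)) ε y) * Ieps H N k u ε (H.f y) (evs u P) := by
  have hp : (0 : ℝ) < 2 / N' := by positivity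
  obtain ⟨-, -, -, -, hle⟩ := gr_b1w (H := H) u v (p := 2 / (N' : ℝ)) hp hε
  -- the test function
  set τ : (Fin s → MK.Pts) → ℂ := fun y => ∏ j, (evs u P (y j)) ^ l with hτ
  have hτe : τ = fun y => ∏ j, y j ((MvPolynomial.aeval u P) ^ l) := by
    funext y
    rw [hτ]
    refine Finset.prod_congr rfl fun j _ => ?_
    rw [evs_eq, map_pow]
  have hhol : HolFS H s (H.f y) τ := by
    rw [hτe]; exact holFS_prod H _ _
  have hcls : Cls H v s (H.f y) τ := by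
    have hPl : (P ^ l).IsHomogeneous (k * l) := hP.pow l
    obtain ⟨C, hC0, hC⟩ := evs_bound u v hv hPl
    refine ⟨C ^ s, fun y' _ => ?_⟩
    have h1 : ‖τ y'‖ ^ 2 = ∏ j, ‖evs u (P ^ l) (y' j)‖ ^ 2 := by
      rw [hτ]
      simp only
      rw [norm_prod, ← Finset.prod_pow]
      refine Finset.prod_congr rfl fun j _ => ?_
      unfold SkelDefs_220.evs
      rw [map_pow]
    rw [h1]
    calc ∏ j, ‖evs u (P ^ l) (y' j)‖ ^ 2 ≤ ∏ j, (C * ∑ i, ‖y' j (v i)‖ ^ 2) :=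
          Finset.prod_le_prod (fun j _ => by positivity) fun j _ => hC (y' j)
      _ = C ^ s * ∏ j, ∑ i, ‖y' j (v i)‖ ^ 2 := by
          rw [Finset.prod_mul_distrib]; simp
  -- exponents
  have hNk : (l : ℝ) * (2 / N') = 2 * (1 + ε * N) / (k * N) := by
    have hk0 : (k : ℝ) ≠ 0 := by positivity
    have hN0 : (N : ℝ) ≠ 0 := by positivity
    have hN'0 : (N' : ℝ) ≠ 0 := by positivity
    have h1 : (N : ℝ) * (k * l) = N' * (1 + ε * N) := by
      rw [← hN₁, hl]; push_cast; ring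
    field_simp
    linear_combination h1
  have hInt : II H u (2 / (N' : ℝ)) ε (H.f y) τ = Ieps H N k u ε (H.f y) (evs u P) := by
    unfold II Ieps
    congr 1
    funext y'
    congr 1
    rw [hτ]
    simp only
    rw [← ofReal_norm, norm_prod, ENNReal.ofReal_prod_of_nonneg (fun _ _ => norm_nonneg _)]
    refine (ENNReal.prod_rpow_of_nonneg hp.le).symm.trans ?_
    refine Finset.prod_congr rfl fun j _ => ?_
    rw [norm_pow, ENNReal.ofReal_pow (norm_nonneg _), ofReal_norm, ← ENNReal.rpow_natCast,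
      ← ENNReal.rpow_mul, hNk]
  have hval : ‖τ (fun _ => y)‖ₑ ^ (2 / (N' : ℝ)) =
      ‖evs u P y‖ₑ ^ (2 * s * (1 + ε * N) / (k * N)) := by
    rw [hτ]
    simp only [Finset.prod_const, Finset.card_univ, Fintype.card_fin]
    rw [enorm_pow, enorm_pow, ← pow_mul, ← ENNReal.rpow_natCast, ← ENNReal.rpow_mul]
    congr 1
    push_cast
    have : (l : ℝ) * s * (2 / N') = s * (l * (2 / N')) := by ring
    rw [this, hNk]
    ring
  have h1 := le_bEc H u v (2 / (N' : ℝ)) ε hhol hcls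
  rw [hInt, hval] at h1
  have h2 : bEc H u v (2 / (N' : ℝ)) ε y ≤ ENNReal.ofReal (b1w H u v (2 / (N' : ℝ)) ε y) := by
    rw [← ofReal_bRc u v hp hε]
    exact ENNReal.ofReal_le_ofReal (hle y)
  rw [← ENNReal.div_le_iff_le_mul (Or.inr ENNReal.ofReal_ne_top) (Or.inl hI)]
  exact h1.trans h2

end rel

/-! ### assembly -/

variable {T L K : Type} [Field T] [Field L] [Field K] [Algebra ℂ T] [Algebra ℂ L] [Algebra ℂ K]
  [Algebra T L] [Algebra L K] [IsScalarTower ℂ T L] [IsScalarTower ℂ L K] {ρ a r : ℕ}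
  {MT : Mdl T ρ} {ML : Mdl L (ρ + a)} {MK : Mdl K (ρ + a + r)}
  (H₁ : Rel MT ML) (H₂ : Rel ML MK)

/-- **`C1` from plurisubharmonicity** -/
theorem c1_of_psh (b : Module.Basis (Fin r) K (Ω[K⁄L])) (hb : IsRelBasis MK b)
    {s N N' N₁ k l q : ℕ} (hN : 0 < N) (hN' : 0 < N') (hk : 0 < k) {ε : ℝ} (hε : 0 ≤ ε)
    (hN₁ : (N₁ : ℝ) = N' * (1 + ε * N)) (hl : N₁ = N * (k * l))
    (u : Fin s → MK.B) (hu : ∀ i, PluriS L b N (u i : K)) (v : Fin q → MK.B)
    (hv : ∀ i, PluriS L b N₁ (v i : K))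
    (hmon : ∀ α : Fin s →₀ ℕ, α.degree = k * l → ∃ i, v i = ∏ j, u j ^ α j)
    {D : ML.Pts → ℝ} (hD : IsCY H₂ N u D) (hDc : Continuous D)
    (hpsh : LPsh (b1w H₂ u v (2 / (N' : ℝ)) ε)) :
    C1 H₁ H₂ N k u D ε (b1w H₂ u v (2 / (N' : ℝ)) ε) := by
  have hp : (0 : ℝ) < 2 / N' := by positivity
  refine ⟨hpsh, (gr_b1w u v hp hε).2.2.1, fun R _ => ?_, ?_⟩
  · refine c1_field (H₁ := H₁) (H₂ := H₂) b hb hN hN' hε hN₁ u hu v hv hD hDc
      (bRc H₂ u v (2 / (N' : ℝ)) ε) (fun y B hB0 hB => ?_) R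
    refine ENNReal.toReal_le_of_le_ofReal hB0 ?_
    rw [bEc_le_iff]
    intro τ hτ hc
    exact ENNReal.div_le_of_le_mul (hB τ hτ hc)
  · refine Filter.Eventually.of_forall fun c z _ P hP hI y hy => ?_
    subst hy
    exact low_point u v hN hN' hk hε hN₁ hl hmon hP hI

end Crest.Agent.R276.C1bd_986
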