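import Crest.Agent.R276.NbD_185

/-!
# Row 276, task W1 (helper185): the N-Bergman kernel over a disc, the theorem

`nb`: Ohsawa–Takegoshi + Berndtsson–Păun iteration + tensor powers.
-/

set_option autoImplicit false
set_option linter.unusedSectionVars false
set_option linter.unusedVariables false

noncomputable section

open Set Filter Topology Complex MeasureTheory Metric
open scoped ENNReal ComplexConjugate

namespace Crest.Agent.R276.NbD_185

open Crest.Agent.R271 Crest.Agent.R271.Ho51 Crest.Agent.R276.PV_159 Crest.Agent.R276.NbB_185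
  Crest.Agent.R276.NbA_185 Crest.Agent.R276.NbC_185 Crest.Agent.R276.EngU_29
  Crest.Agent.R276.OTB_189

variable {R : ℝ} {D : Dom R} {θ : ℝ} {K b0 : D.P → ℝ}

/-- the Borel structure on fibre products -/
local instance instMFPe {a b : ℕ} {M N : Type} [TopologicalSpace M] [TopologicalSpace N]
    [RDom (a + 1) M] [RDom (b + 1) N] : MeasurableSpace (FP M N) := borel _
local instance instBFPe {a b : ℕ} {M N : Type} [TopologicalSpace M] [TopologicalSpace N]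
    [RDom (a + 1) M] [RDom (b + 1) N] : BorelSpace (FP M N) := ⟨rfl⟩

/-- the central `p`-norm -/
def SS (D : Dom R) (θ : ℝ) (b0 : D.P → ℝ) (U : D.P → ℂ) : ℝ≥0∞ :=
  fi (fun x => ‖U x‖ₑ ^ (2 * θ) / ENNReal.ofReal (b0 x)) 0

/-- the total `p`-norm of a function on the `(j+1)`-fold product -/
def AA (D : Dom R) (θ : ℝ) (b0 : D.P → ℝ) (j : ℕ) (F : (D.pw j).P → ℂ) : ℝ≥0∞ :=
  ∫⁻ t, fi (fun x => ‖F x‖ₑ ^ (2 * θ) / ENNReal.ofReal (tp D b0 j x)) t

/-- good extensions of `U ⊗ ... ⊗ U` -/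
def GE (D : Dom R) (U : D.P → ℂ) (j : ℕ) (F : (D.pw j).P → ℂ) : Prop :=
  Hol F ∧ (∀ x, tc x = 0 → F x = D.upw U j x) ∧ ∀ᵐ t, (D.pw j).nrm F t < ∞

lemma SS_lt_top (H : NB D θ K b0) (hR : 0 < R) {U : D.P → ℂ} {c : ℝ≥0∞} (hc : c ≠ ∞)
    (hUK : ∀ x, tc x = 0 → ‖U x‖ₑ ^ (2 : ℝ) ≤ c * ENNReal.ofReal (K x)) : SS D θ b0 U < ∞ := by
  obtain ⟨B, hB, hKB⟩ := H.bd
  have h1 : SS D θ b0 U ≤ c ^ θ * B := by
    refine le_trans ?_ (mul_le_mul_right (hKB 0 (by rwa [norm_zero])) _)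
    rw [← fi_const_mul (ENNReal.rpow_ne_top_of_nonneg H.h0.le hc)]
    refine fi_mono fun x hx => ?_
    rw [← mul_div_assoc]
    refine ENNReal.div_le_div_right ?_ _
    rw [← ENNReal.mul_rpow_of_nonneg _ _ H.h0.le, ENNReal.rpow_mul]
    exact ENNReal.rpow_le_rpow (hUK x hx) H.h0.le
  exact lt_of_le_of_lt h1 (ENNReal.mul_lt_top (ENNReal.rpow_lt_top_of_nonneg H.h0.le hc) hB.lt_top)

/-- central value of the `p`-norms on the powers -/
lemma SS_pow (H : NB D θ K b0) {U : D.P → ℂ} (hU : FHol 0 U) (j : ℕ) :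
    fi (fun x : (D.pw j).P => ‖D.upw U j x‖ₑ ^ (2 * θ) / ENNReal.ofReal (tp D b0 j x)) 0 =
      SS D θ b0 U ^ (j + 1) := by
  have h1 := fi_pow hU (p := 2 * θ) (by linarith [H.h0]) (wi_meas H.b_lpsh) j
  have h2 : fi (fun x : (D.pw j).P => ‖D.upw U j x‖ₑ ^ (2 * θ) / ENNReal.ofReal (tp D b0 j x)) 0 =
      fi (fun x : (D.pw j).P => ‖D.upw U j x‖ₑ ^ (2 * θ) * tp D (wi b0) j x) 0 := by
    refine fi_congr fun x _ => ?_
    rw [ENNReal.div_eq_inv_mul, mul_comm, tp_ofReal H.b_lpsh.nonneg,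
      tp_inv fun _ => ENNReal.ofReal_ne_top]
    rfl
  have h3 : SS D θ b0 U = fi (fun x => ‖U x‖ₑ ^ (2 * θ) * wi b0 x) 0 := by
    unfold SS
    refine fi_congr fun x _ => ?_
    rw [ENNReal.div_eq_inv_mul, mul_comm]
    rfl
  rw [h2, h1, h3]

/-- finiteness of the central `L²`-norm -/
lemma nrm_lt_top (H : NB D θ K b0) (hR : 0 < R) {U : D.P → ℂ} {c : ℝ≥0∞} (hc : c ≠ ∞)
    (hUK : ∀ x, tc x = 0 → ‖U x‖ₑ ^ (2 : ℝ) ≤ c * ENNReal.ofReal (K x)) : D.nrm U 0 < ∞ := by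
  have h1 : D.nrm U 0 ≤ c ^ (1 - θ) * SS D θ b0 U := by
    unfold SS
    rw [← fi_const_mul (ENNReal.rpow_ne_top_of_nonneg (by linarith [H.h1]) hc)]
    refine fi_mono fun x hx => ?_
    unfold Dom.dens
    rw [H.wt, ofReal_sq_norm, mul_comm, ← ENNReal.div_eq_inv_mul,
      ENNReal.ofReal_mul (Real.rpow_nonneg (H.K_lpsh.nonneg x) _),
      ← ENNReal.ofReal_rpow_of_nonneg (H.K_lpsh.nonneg x) (by linarith [H.h1])]
    exact pt1 H.h0 H.h1 enorm_ne_top ENNReal.ofReal_ne_top hc (hUK x hx)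
  exact lt_of_le_of_lt h1 (ENNReal.mul_lt_top
    (ENNReal.rpow_lt_top_of_nonneg (by linarith [H.h1]) hc) (SS_lt_top H hR hc hUK))

/-- central value of the `L²`-norms on the powers -/
lemma nrm_upw (H : NB D θ K b0) {U : D.P → ℂ} (hU : FHol 0 U) (j : ℕ) :
    (D.pw j).nrm (D.upw U j) 0 = D.nrm U 0 ^ (j + 1) := by
  have h1 := fi_pow hU (p := (2 : ℝ)) (by norm_num) D.wt_meas j
  have h2 : (D.pw j).nrm (D.upw U j) 0 =
      fi (fun x : (D.pw j).P => ‖D.upw U j x‖ₑ ^ (2 : ℝ) * tp D D.wt j x) 0 := by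
    refine fi_congr fun x _ => ?_
    unfold Dom.dens
    rw [ofReal_sq_norm, wt_eq]
  have h3 : D.nrm U 0 = fi (fun x => ‖U x‖ₑ ^ (2 : ℝ) * D.wt x) 0 := by
    refine fi_congr fun x _ => ?_
    unfold Dom.dens
    rw [ofReal_sq_norm]
  rw [h2, h1, h3]

lemma meas_div {Q : Dom R} {F : Q.P → ℂ} (hF : Continuous F) {b : Q.P → ℝ} (hb : Measurable b)
    {p : ℝ} : Measurable fun x => ‖F x‖ₑ ^ p / ENNReal.ofReal (b x) :=
  ((hF.enorm.measurable).pow_const p).div hb.ennreal_ofReal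

/-- **first extension** -/
theorem start (hOT : OTB R) (hR : 0 < R) (H : NB D θ K b0) {U : D.P → ℂ} (hU : FHol 0 U)
    {c : ℝ≥0∞} (hc : c ≠ ∞)
    (hUK : ∀ x, tc x = 0 → ‖U x‖ₑ ^ (2 : ℝ) ≤ c * ENNReal.ofReal (K x)) (j : ℕ) :
    ∃ F : (D.pw j).P → ℂ, GE D U j F ∧ AA D θ b0 j F < ∞ := by
  obtain ⟨C, hC, hext⟩ := hOT
  obtain ⟨F, hF, hF0, hFb⟩ := hext (D.pw j) _ (lpsh_start H j) _ (fhol_upw hU j)
  have hFc : Continuous F := T7a297.Hol.continuous hF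
  have h1 : fi (fun x : (D.pw j).P => ENNReal.ofReal (‖D.upw U j x‖ ^ 2) /
      ENNReal.ofReal (tp D K j x ^ (1 - θ) * tp D b0 j x)) 0 = D.nrm U 0 ^ (j + 1) := by
    rw [← nrm_eq H, nrm_upw H hU]
  have hnU := nrm_lt_top H hR hc hUK
  rw [h1] at hFb
  set X : ℝ≥0∞ := C * D.nrm U 0 ^ (j + 1) with hX
  have hXt : X ≠ ∞ := ENNReal.mul_ne_top hC (ENNReal.pow_ne_top hnU.ne)
  have hbm : Measurable (fun x : (D.pw j).P => tp D K j x ^ (1 - θ) * tp D b0 j x) :=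
    (lpsh_start H j).measurable
  have hgm : Measurable fun x : (D.pw j).P => ENNReal.ofReal (‖F x‖ ^ 2) /
      ENNReal.ofReal (tp D K j x ^ (1 - θ) * tp D b0 j x) :=
    ((hFc.norm.pow 2).measurable.ennreal_ofReal).div hbm.ennreal_ofReal
  refine ⟨F, ⟨hF, hF0, ?_⟩, ?_⟩
  · have h2 := ae_lt_top (measurable_fi hgm) (lt_of_le_of_lt hFb hXt.lt_top).ne
    filter_upwards [h2] with t ht
    rw [nrm_eq H]
    exact ht
  · obtain ⟨μ, hμ⟩ := exists_mu (D.pw j)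
    obtain ⟨B, hB, hKB⟩ := H.bd
    have ha : 0 ≤ 1 - θ := by linarith [H.h1]
    have hKm : Measurable (tp D K j) := (tp_lpsh H.K_lpsh j).measurable
    have hbjm : Measurable (tp D b0 j) := (tp_lpsh H.b_lpsh j).measurable
    set f : (D.pw j).P → ℝ≥0∞ := fun x => ENNReal.ofReal (tp D K j x) ^ (1 / 2 : ℝ) with hf
    have hfm : Measurable f := hKm.ennreal_ofReal.pow_const _
    have hf2 : ∀ (e : ℝ) (x : (D.pw j).P), f x ^ (2 * e) = ENNReal.ofReal (tp D K j x) ^ e := by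
      intro e x
      rw [hf]
      simp only
      rw [← ENNReal.rpow_mul]
      congr 1
      ring
    have hXint : ∫⁻ x, ‖F x‖ₑ ^ (2 : ℝ) / (f x ^ (2 * (1 - θ)) * ENNReal.ofReal (tp D b0 j x)) ∂μ ≤
        X := by
      refine le_trans (le_of_eq ?_) hFb
      rw [← hμ _ hgm]
      refine lintegral_congr fun x => ?_
      rw [hf2, ofReal_sq_norm, ENNReal.ofReal_rpow_of_nonneg (tp_nonneg H.K_lpsh.nonneg j x) ha,
        ← ENNReal.ofReal_mul (Real.rpow_nonneg (tp_nonneg H.K_lpsh.nonneg j x) _)]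
    have hAint : ∫⁻ x, f x ^ (2 * θ) / ENNReal.ofReal (tp D b0 j x) ∂μ ≤
        B ^ (j + 1) * volume (ball (0 : ℂ) R) := by
      have hm3 : Measurable fun x : (D.pw j).P => ENNReal.ofReal (tp D K j x) ^ θ /
          ENNReal.ofReal (tp D b0 j x) :=
        (hKm.ennreal_ofReal.pow_const _).div hbjm.ennreal_ofReal
      have e1 : ∫⁻ x, f x ^ (2 * θ) / ENNReal.ofReal (tp D b0 j x) ∂μ =
          ∫⁻ t, fi (fun x : (D.pw j).P => ENNReal.ofReal (tp D K j x) ^ θ /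
          ENNReal.ofReal (tp D b0 j x)) t := by
        rw [← hμ _ hm3]
        refine lintegral_congr fun x => ?_
        rw [hf2]
      rw [e1]
      have hm4 : Measurable fun x : D.P => ENNReal.ofReal (K x) ^ θ * (ENNReal.ofReal (b0 x))⁻¹ :=
        (H.K_lpsh.measurable.ennreal_ofReal.pow_const _).mul
          H.b_lpsh.measurable.ennreal_ofReal.inv
      have e2 : ∀ t, fi (fun x : (D.pw j).P => ENNReal.ofReal (tp D K j x) ^ θ /
          ENNReal.ofReal (tp D b0 j x)) t =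
          fi (fun x => ENNReal.ofReal (K x) ^ θ * (ENNReal.ofReal (b0 x))⁻¹) t ^ (j + 1) := by
        intro t
        rw [← fi_tp (hm4.indicator (isClosed_fib t).measurableSet) j]
        refine fi_congr fun x _ => ?_
        rw [tp_mul, ← tp_rpow H.h0.le, ← tp_inv fun _ => ENNReal.ofReal_ne_top,
          ← tp_ofReal H.K_lpsh.nonneg, ← tp_ofReal H.b_lpsh.nonneg, ENNReal.div_eq_inv_mul,
          mul_comm]
      calc ∫⁻ t, fi (fun x : (D.pw j).P => ENNReal.ofReal (tp D K j x) ^ θ /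
          ENNReal.ofReal (tp D b0 j x)) t
          ≤ ∫⁻ t, (ball (0 : ℂ) R).indicator (fun _ => B ^ (j + 1)) t := by
            refine lintegral_mono fun t => ?_
            by_cases ht : t ∈ ball (0 : ℂ) R
            · rw [indicator_of_mem ht, e2]
              refine pow_le_pow_left' ?_ _
              refine le_trans (le_of_eq ?_) (hKB t (by simpa using ht))
              refine fi_congr fun x _ => ?_
              rw [ENNReal.div_eq_inv_mul, mul_comm]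
            · rw [indicator_of_notMem ht]
              refine le_of_eq (fi_out _ fun x hx => ht ?_)
              rw [mem_ball_zero_iff, ← hx]
              exact (D.pw j).tR x
        _ = B ^ (j + 1) * volume (ball (0 : ℂ) R) := by
            rw [lintegral_indicator measurableSet_ball, lintegral_const,
              Measure.restrict_apply_univ]
    have h5 := hoelder_step (μ := μ) H.h0 H.h1 hfm hFc.enorm.measurable hbjm.ennreal_ofReal
      (fun x => ENNReal.rpow_ne_top_of_nonneg (by norm_num) ENNReal.ofReal_ne_top)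
      (fun x => enorm_ne_top) (fun x => ENNReal.ofReal_ne_top) hXt hXint hAint
    unfold AA
    rw [← hμ _ (meas_div hFc hbjm)]
    refine lt_of_le_of_lt h5 (ENNReal.mul_lt_top (ENNReal.rpow_lt_top_of_nonneg H.h0.le hXt)
      (ENNReal.rpow_lt_top_of_nonneg ha ?_))
    exact ENNReal.mul_ne_top (ENNReal.pow_ne_top hB) measure_ball_lt_top.ne

/-- **one step of the iteration** -/
theorem step {C : ℝ≥0∞} (hC : C ≠ ∞)
    (hext : ∀ (D : Dom R) (b : D.P → ℝ), LPsh b →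
      ∀ f : D.P → ℂ, FHol 0 f → ∃ F : D.P → ℂ, Hol F ∧ (∀ x, tc x = 0 → F x = f x) ∧
      ∫⁻ t, fi (fun x => ENNReal.ofReal (‖F x‖ ^ 2) / ENNReal.ofReal (b x)) t ≤
        C * fi (fun x => ENNReal.ofReal (‖f x‖ ^ 2) / ENNReal.ofReal (b x)) 0)
    (H : NB D θ K b0) {U : D.P → ℂ} (hU : FHol 0 U) (hS : SS D θ b0 U < ∞) (j : ℕ)
    {F : (D.pw j).P → ℂ} (hF : GE D U j F) :
    ∃ F' : (D.pw j).P → ℂ, GE D U j F' ∧
      AA D θ b0 j F' ≤ (C * SS D θ b0 U ^ (j + 1)) ^ θ * AA D θ b0 j F ^ (1 - θ) := by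
  obtain ⟨hFh, hF0, hFn⟩ := hF
  have ha : 0 ≤ 1 - θ := by linarith [H.h1]
  have ha2 : 0 ≤ 2 * (1 - θ) := by linarith
  obtain ⟨F', hF', hF0', hFb'⟩ := hext (D.pw j) _ (lpsh_next H j hFh) _ (fhol_upw hU j)
  have hFc : Continuous F := T7a297.Hol.continuous hFh
  have hFc' : Continuous F' := T7a297.Hol.continuous hF'
  have hbjm : Measurable (tp D b0 j) := (tp_lpsh H.b_lpsh j).measurable
  -- the central integral
  have h1 : fi (fun x : (D.pw j).P => ENNReal.ofReal (‖D.upw U j x‖ ^ 2) /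
      ENNReal.ofReal (‖F x‖ ^ (2 * (1 - θ)) * tp D b0 j x)) 0 = SS D θ b0 U ^ (j + 1) := by
    rw [← SS_pow H hU]
    refine fi_congr fun x hx => ?_
    rw [hF0 x hx, ofReal_sq_norm, ENNReal.ofReal_mul (Real.rpow_nonneg (norm_nonneg _) _),
      ofReal_rpow_norm ha2, pt3 H.h0 H.h1 enorm_ne_top]
  rw [h1] at hFb'
  set c : ℝ≥0∞ := C * SS D θ b0 U ^ (j + 1) with hc
  have hct : c ≠ ∞ := ENNReal.mul_ne_top hC (ENNReal.pow_ne_top hS.ne)
  have hgm : Measurable fun x : (D.pw j).P => ENNReal.ofReal (‖F' x‖ ^ 2) /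
      ENNReal.ofReal (‖F x‖ ^ (2 * (1 - θ)) * tp D b0 j x) :=
    ((hFc'.norm.pow 2).measurable.ennreal_ofReal).div
      (lpsh_next H j hFh).measurable.ennreal_ofReal
  refine ⟨F', ⟨hF', hF0', ?_⟩, ?_⟩
  · have h2 := ae_lt_top (measurable_fi hgm) (lt_of_le_of_lt hFb' hct.lt_top).ne
    filter_upwards [h2, hFn, H.cl] with t ht hn hcl
    by_cases htR : ‖t‖ < R
    · obtain ⟨Ct, hCt, hbd⟩ := hcl htR
      have h3 := prod_bound' D (t := t) (κ := fun x => Ct * ENNReal.ofReal (K x))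
        (fun x => ENNReal.mul_ne_top hCt ENNReal.ofReal_ne_top) hbd j F (Hol.fhol hFh t) hn
      -- `|F|² ≤ c' K_j`
      set c' : ℝ≥0∞ := Ct ^ (j + 1) * (D.pw j).nrm F t + 1 with hc'
      have hc't : c' ≠ ∞ := ENNReal.add_ne_top.2
        ⟨ENNReal.mul_ne_top (ENNReal.pow_ne_top hCt) hn.ne, ENNReal.one_ne_top⟩
      have hc'0 : c' ≠ 0 := (lt_of_lt_of_le one_pos (le_add_self : (1 : ℝ≥0∞) ≤ c')).ne'
      have h4 : ∀ x, tc x = t → ‖F x‖ₑ ^ (2 : ℝ) ≤ c' * ENNReal.ofReal (tp D K j x) := by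
        intro x hx
        have h5 := h3 x hx
        rw [ofReal_sq_norm, tp_mul, tp_const] at h5
        refine h5.trans ?_
        rw [tp_ofReal H.K_lpsh.nonneg]
        calc Ct ^ (j + 1) * tp D (fun x => ENNReal.ofReal (K x)) j x * (D.pw j).nrm F t
            = (Ct ^ (j + 1) * (D.pw j).nrm F t) * tp D (fun x => ENNReal.ofReal (K x)) j x := by
              ring
          _ ≤ _ := mul_le_mul_left le_self_add _
      rw [nrm_eq H]
      have h6 : fi (fun x : (D.pw j).P => ENNReal.ofReal (‖F' x‖ ^ 2) /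
          ENNReal.ofReal (tp D K j x ^ (1 - θ) * tp D b0 j x)) t ≤ c' ^ (1 - θ) *
          fi (fun x : (D.pw j).P => ENNReal.ofReal (‖F' x‖ ^ 2) /
            ENNReal.ofReal (‖F x‖ ^ (2 * (1 - θ)) * tp D b0 j x)) t := by
        rw [← fi_const_mul (ENNReal.rpow_ne_top_of_nonneg ha hc't)]
        refine fi_mono fun x hx => ?_
        rw [ENNReal.ofReal_mul (Real.rpow_nonneg (norm_nonneg _) _), ofReal_rpow_norm ha2,
          ENNReal.ofReal_mul (Real.rpow_nonneg (tp_nonneg H.K_lpsh.nonneg j x) _),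
          ← ENNReal.ofReal_rpow_of_nonneg (tp_nonneg H.K_lpsh.nonneg j x) ha]
        exact pt2 H.h1 hc'0 hc't (h4 x hx)
      exact lt_of_le_of_lt h6 (ENNReal.mul_lt_top (ENNReal.rpow_lt_top_of_nonneg ha hc't) ht)
    · rw [(D.pw j).nrm_out _ (not_lt.1 htR)]
      exact ENNReal.zero_lt_top
  · obtain ⟨μ, hμ⟩ := exists_mu (D.pw j)
    have hXint : ∫⁻ x, ‖F' x‖ₑ ^ (2 : ℝ) / (‖F x‖ₑ ^ (2 * (1 - θ)) *
        ENNReal.ofReal (tp D b0 j x)) ∂μ ≤ c := by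
      refine le_trans (le_of_eq ?_) hFb'
      rw [← hμ _ hgm]
      refine lintegral_congr fun x => ?_
      rw [ofReal_sq_norm, ENNReal.ofReal_mul (Real.rpow_nonneg (norm_nonneg _) _),
        ofReal_rpow_norm ha2]
    have hAint : ∫⁻ x, ‖F x‖ₑ ^ (2 * θ) / ENNReal.ofReal (tp D b0 j x) ∂μ ≤ AA D θ b0 j F := by
      unfold AA
      rw [← hμ _ (meas_div hFc hbjm)]
    have h5 := hoelder_step (μ := μ) H.h0 H.h1 hFc.enorm.measurable hFc'.enorm.measurable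
      hbjm.ennreal_ofReal (fun x => enorm_ne_top) (fun x => enorm_ne_top)
      (fun x => ENNReal.ofReal_ne_top) hct hXint hAint
    refine le_trans (le_of_eq ?_) h5
    unfold AA
    rw [← hμ _ (meas_div hFc' hbjm)]

/-- **extension with uniform `p`-norm** -/
theorem ext_uniform (hOT : OTB R) (hR : 0 < R) (H : NB D θ K b0) : ∃ C : ℝ≥0∞, C ≠ ∞ ∧
    ∀ {U : D.P → ℂ} (hU : FHol 0 U) {c : ℝ≥0∞} (hc : c ≠ ∞)
      (hUK : ∀ x, tc x = 0 → ‖U x‖ₑ ^ (2 : ℝ) ≤ c * ENNReal.ofReal (K x)) (j : ℕ),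
      ∃ F : (D.pw j).P → ℂ, GE D U j F ∧ AA D θ b0 j F ≤ C * SS D θ b0 U ^ (j + 1) := by
  obtain ⟨C, hC, hext⟩ := hOT
  refine ⟨2 * C, ENNReal.mul_ne_top (by simp) hC, fun {U} hU {c} hc hUK j => ?_⟩
  obtain ⟨F0, hF0, hA0⟩ := start ⟨C, hC, hext⟩ hR H hU hc hUK j
  have hS := SS_lt_top H hR hc hUK
  have hst : ∀ F : {F : (D.pw j).P → ℂ // GE D U j F}, ∃ F' : {F : (D.pw j).P → ℂ // GE D U j F},
      AA D θ b0 j F'.1 ≤ (C * SS D θ b0 U ^ (j + 1)) ^ θ * AA D θ b0 j F.1 ^ (1 - θ) := by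
    intro F
    obtain ⟨F', hF', h⟩ := step hC hext H hU hS j F.2
    exact ⟨⟨F', hF'⟩, h⟩
  choose g hg using hst
  set seq : ℕ → {F : (D.pw j).P → ℂ // GE D U j F} := fun i => Nat.rec ⟨F0, hF0⟩ (fun _ F => g F) i
    with hseq
  obtain ⟨i, hi⟩ := exists_le_two_mul (θ := θ) H.h0 H.h1 (c := C * SS D θ b0 U ^ (j + 1))
    (ENNReal.mul_ne_top hC (ENNReal.pow_ne_top hS.ne)) (A := fun i => AA D θ b0 j (seq i).1)
    hA0.ne (fun i => hg (seq i))
  exact ⟨(seq i).1, (seq i).2, hi.trans (le_of_eq (by ring))⟩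

/-- **the N-Bergman kernel over a disc**: if `κ t` bounds the `p`-Bergman kernel (`p = 2θ`) of the
fibres along the section `s` for almost all `t`, then it does so in the centre in the mean. -/
theorem nb (hOT : OTB R) (H : NB D θ K b0) (s : Sec D) (κ : ℂ → ℝ) (hκ : ∀ t, 0 < κ t)
    (hbd : ∀ᵐ t, ‖t‖ < R → ∀ g, FHol t g → D.nrm g t < ∞ →
      ENNReal.ofReal (‖g (s.x t)‖ ^ (2 * θ)) ≤ ENNReal.ofReal (κ t) * pn (2 * θ) (wi b0) g t)
    {U : D.P → ℂ} (hU : FHol 0 U) {c : ℝ≥0∞} (hc : c ≠ ∞)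
    (hUK : ∀ x, tc x = 0 → ‖U x‖ₑ ^ (2 : ℝ) ≤ c * ENNReal.ofReal (K x))
    {r1 r2 : ℝ} (hr1 : 0 ≤ r1) (hr : r1 < r2) (hrR : r2 < R)
    (hκi : IntegrableOn (fun t => Real.log (κ t)) (Ann r1 r2))
    {c0 : ℝ} (hc0 : ∀ t ∈ Ann r1 r2, c0 ≤ Real.log (κ t)) :
    ‖U (s.x 0)‖ ^ (2 * θ) ≤ Real.exp (⨍ t in Ann r1 r2, Real.log (κ t)) * (SS D θ b0 U).toReal := by
  have hR : 0 < R := lt_of_le_of_lt hr1 (hr.trans hrR)
  obtain ⟨C, hC, hext⟩ := ext_uniform hOT hR H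
  have h := (s.ff2 (wi b0) (2 * θ) κ hκ hbd).pv (by linarith [H.h0]) (by linarith [H.h1])
    (wi_meas H.b_lpsh) (U := U) hC (SS_lt_top H hR hc hUK).ne (fun j => ?_) hr1 hr hrR hκi hc0
  · have hR' : ‖(0 : ℂ)‖ < R := by rw [norm_zero]; exact hR
    have h1 : (s.ff2 (wi b0) (2 * θ) κ hκ hbd).ξ 0 U = U (s.x 0) := if_pos hR'
    rw [h1] at h
    exact h
  · obtain ⟨F, ⟨hF, hF0, hFn⟩, hA⟩ := hext hU hc hUK j
    refine ⟨F, hF, hF0, hFn, ?_⟩
    refine le_trans (le_of_eq ?_) hA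
    unfold AA
    refine lintegral_congr fun t => ?_
    exact pn_eq H.h0 H.b_lpsh.nonneg j F t

end Crest.Agent.R276.NbD_185
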