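import Mathlib
import Crest.Agent.R276.C1bdD_986
import Crest.Agent.R273.PsiA_844

/-!
# Row 276, task W1 (helper185): definitions for (C1)

`bE` = the kernel on the small diagonal (986's `HolFS`, `Cls`), `b₁ = ush (bE.toReal)`;
`BB` = (B) (845's SKO), `CL` = (Cl) (210), `FR` = the frame bound for `δ`.
-/

set_option autoImplicit false

open Set Filter Topology MeasureTheory
open scoped ENNReal

noncomputable section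

namespace Crest.Agent.R276.W1_185

open Crest.Agent.R271 Crest.Agent.R271.Defs710 Crest.Agent.R271.Rd692 Crest.Agent.R271.Ho51
open Crest.Agent.R276.Mod1_987 Crest.Agent.R276.SkelDefs_220
open Crest.Agent.R276.C1bd_986 (HolFS Cls)
open Crest.Agent.R273.Reg_844 (ush)

variable {L K : Type} [Field L] [Field K] [Algebra ℂ L] [Algebra ℂ K] [Algebra L K]
  [IsScalarTower ℂ L K] {m r : ℕ} {ML : Mdl L m} {MK : Mdl K (m + r)}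

/-- `K(y) = ∑ |v_i(y)|²` -/
def Kf {q : ℕ} (v : Fin q → MK.B) (y : MK.Pts) : ℝ := ∑ i, ‖y (v i)‖ ^ 2

/-- the kernel on the small diagonal -/
def bE (H : Rel ML MK) {s : ℕ} (u : Fin s → MK.B) {q : ℕ} (v : Fin q → MK.B) (p ε : ℝ)
    (y : MK.Pts) : ℝ≥0∞ :=
  ⨆ (τ : (Fin s → MK.Pts) → ℂ) (_ : HolFS H s (H.f y) τ) (_ : Cls H v s (H.f y) τ),
    ‖τ (fun _ => y)‖ₑ ^ p /
      H.fintS s (H.f y) (fun y' => ‖τ y'‖ₑ ^ p * ‖dl u y'‖ₑ ^ (-(2 * ε)))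

/-- the weight `b₁` -/
def b1 (H : Rel ML MK) {s : ℕ} (u : Fin s → MK.B) {q : ℕ} (v : Fin q → MK.B) (p ε : ℝ) :
    MK.Pts → ℝ :=
  ush fun y => (bE H u v p ε y).toReal

/-- (B): `∫_{M_z^s} K_s^θ |δ|^{-2ε}` is locally bounded on `M_L` -/
def BB (H : Rel ML MK) {s : ℕ} (u : Fin s → MK.B) {q : ℕ} (v : Fin q → MK.B) (θ ε : ℝ) : Prop :=
  ∀ z₀ : ML.Pts, ∃ C : ℝ≥0∞, C ≠ ∞ ∧ ∀ᶠ z in 𝓝 z₀,
    H.fintS s z (fun y => (∏ j, ENNReal.ofReal (Kf v (y j))) ^ θ * ‖dl u y‖ₑ ^ (-(2 * ε))) ≤ C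

/-- (Cl): the inequality `|f|² ≤ C K ∫ |f|² K^{-α}` on the fibres outside a divisor of `M_L`, for `f`
of finite norm -/
def CL (H : Rel ML MK) {q : ℕ} (v : Fin q → MK.B) (α : ℝ) : Prop :=
  ∃ h : ML.B, h ≠ 0 ∧ ∀ z : ML.Pts, z h ≠ 0 → ∃ C : ℝ≥0∞, C ≠ ∞ ∧
    ∀ f : MK.Pts → ℂ, H.HolF z f →
      H.fint z (fun y => ‖f y‖ₑ ^ (2 : ℝ) / ENNReal.ofReal (Kf v y ^ α)) < ∞ →
      ∀ y, H.f y = z → ‖f y‖ₑ ^ (2 : ℝ) ≤ C * ENNReal.ofReal (Kf v y) *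
        H.fint z (fun y => ‖f y‖ₑ ^ (2 : ℝ) / ENNReal.ofReal (Kf v y ^ α))

/-- the frame bound: `|δ|^{2ε} ≤ C K_s^β` -/
def FR (_ : Rel ML MK) {s : ℕ} (u : Fin s → MK.B) {q : ℕ} (v : Fin q → MK.B) (β ε : ℝ) : Prop :=
  ∃ C : ℝ, 0 < C ∧ ∀ y : Fin s → MK.Pts, ‖dl u y‖ ^ (2 * ε) ≤ C * (∏ j, Kf v (y j)) ^ β

end Crest.Agent.R276.W1_185
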