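import Mathlib
import Crest.Agent.R276.C1asm_986
import Crest.Agent.R276.NbE_185
import Crest.Agent.R276.AnnG_986
import Crest.Agent.R276.W1Defs_185

/-!
# Row 276, W1 (helper986): the mean inequality of the kernel of (C1) over a disc

`DD`: the `s`-fold fibre product over a disc of `M_L` as a Stein family `Dom R` over the disc, with
the diagonal section; `disc_le`: 185's theorem `nb` in terms of the kernel `bRc`.
-/

set_option autoImplicit false
set_option linter.unusedSectionVars false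
set_option linter.unusedVariables false

noncomputable section

open Set Filter Topology Complex MeasureTheory Metric
open scoped ENNReal BigOperators

namespace Crest.Agent.R276.DiscA_986

open Crest.Agent.R271 Crest.Agent.R271.Defs710 Crest.Agent.R271.Rd692 Crest.Agent.R271.Ho51
open Crest.Agent.R276.Mod1_987 Crest.Agent.R276.FKDefs_779 Crest.Agent.R276.SkelDefs_220
open Crest.Agent.R276.C1bd_986 Crest.Agent.R276.W1_185
open Crest.Agent.R276.PV_159 (Dom Sec FHol fi fi_mono fi_congr pn Ann isOpen_Ann measurableSet_Ann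
  vol_Ann_lt vol_Ann_pos Dom.nrm)
open Crest.Agent.R276.NbD_185 (NB wi SS nb)
open Crest.Agent.R276.OTB_189 (OTB)
open Crest.Agent.R273.Reg_844 (ush LocB)

variable {L K : Type} [Field L] [Field K] [Algebra ℂ L] [Algebra ℂ K] [Algebra L K]
  [IsScalarTower ℂ L K] {m r : ℕ} {ML : Mdl L m} {MK : Mdl K (m + r)}

/-- the `s`-fold fibre product of `M_K` over a disc `c` of `M_L`, as a family over the disc; `y` is
the disc of `M_K` which gives the diagonal section. -/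
structure DD (H : Rel ML MK) (s : ℕ) (R : ℝ) (c : ℂ → ML.Pts) (y : ℂ → MK.Pts) (D : Dom R) where
  Φ : D.P → Fin s → MK.Pts
  fib : ∀ x i, H.f (Φ x i) = c (PV_159.tc x)
  surj : ∀ t : ℂ, ‖t‖ < R → ∀ w : Fin s → MK.Pts, (∀ i, H.f (w i) = c t) →
    ∃ x : D.P, PV_159.tc x = t ∧ Φ x = w
  fi_eq : ∀ t : ℂ, ‖t‖ < R → ∀ G : (Fin s → MK.Pts) → ℝ≥0∞,
    fi (fun x : D.P => G (Φ x)) t = H.fintS s (c t) G
  to_hol : ∀ t : ℂ, ‖t‖ < R → ∀ τ : (Fin s → MK.Pts) → ℂ, HolFS H s (c t) τ →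
    FHol t (fun x : D.P => τ (Φ x))
  of_hol : ∀ t : ℂ, ‖t‖ < R → ∀ f : D.P → ℂ, FHol t f → ∃ τ : (Fin s → MK.Pts) → ℂ,
    HolFS H s (c t) τ ∧ ∀ x : D.P, PV_159.tc x = t → τ (Φ x) = f x
  sec : Sec D
  sec_eq : ∀ t : ℂ, ‖t‖ < R → Φ (sec.x t) = fun _ => y t

/-! ### small facts -/

/-- retraction onto the closed disc of radius `ρ` -/
def retr (ρ : ℝ) (t : ℂ) : ℂ := ((ρ / max ρ ‖t‖ : ℝ) : ℂ) * t

lemma continuous_retr {ρ : ℝ} (hρ : 0 < ρ) : Continuous (retr ρ) := by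
  refine (Complex.continuous_ofReal.comp ?_).mul continuous_id
  refine continuous_const.div (continuous_const.max continuous_norm) fun t => ?_
  exact (lt_of_lt_of_le hρ (le_max_left _ _)).ne'

lemma norm_retr {ρ : ℝ} (hρ : 0 < ρ) (t : ℂ) : ‖retr ρ t‖ ≤ ρ := by
  have hm : 0 < max ρ ‖t‖ := lt_of_lt_of_le hρ (le_max_left _ _)
  unfold retr
  rw [norm_mul, Complex.norm_real, Real.norm_eq_abs, abs_of_pos (div_pos hρ hm),
    div_mul_eq_mul_div, div_le_iff₀ hm]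
  exact mul_le_mul_of_nonneg_left (le_max_right _ _) hρ.le

lemma retr_eq {ρ : ℝ} (hρ : 0 < ρ) {t : ℂ} (ht : ‖t‖ ≤ ρ) : retr ρ t = t := by
  unfold retr
  rw [max_eq_left ht, div_self hρ.ne', Complex.ofReal_one, one_mul]

/-- a usc locally bounded function along a continuous disc is bounded and integrable on annuli -/
lemma integrable_along {M : Type*} [TopologicalSpace M] {g : M → ℝ} (hg : UpperSemicontinuous g)
    (hgb : LocB g) {y : ℂ → M} {R : ℝ} (hy : ContinuousOn y (ball 0 R)) {r1 r2 : ℝ} (hr1 : 0 ≤ r1)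
    (hr : r1 < r2) (hrR : r2 < R) :
    ∃ K : ℝ, (∀ t ∈ Ann r1 r2, |g (y t)| ≤ K) ∧ IntegrableOn (fun t => g (y t)) (Ann r1 r2) := by
  have h2 : 0 < r2 := lt_of_le_of_lt hr1 hr
  have hcont : Continuous fun t : ℂ => y (retr r2 t) := by
    refine hy.comp_continuous (continuous_retr h2) fun t => ?_
    rw [mem_ball_zero_iff]
    exact (norm_retr h2 t).trans_lt hrR
  set f : ℂ → ℝ := fun t => g (y (retr r2 t)) with hf
  have hfu : UpperSemicontinuous f := hg.comp hcont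
  obtain ⟨K, hK⟩ : ∃ K, ∀ t, |f t| ≤ K := by
    have hcomp : IsCompact ((fun w : ℂ => y (retr r2 w)) '' closedBall 0 r2) :=
      (isCompact_closedBall (0 : ℂ) r2).image hcont
    obtain ⟨K, hK⟩ := hgb.exists_bound hcomp
    refine ⟨K, fun t => hK _ ⟨retr r2 t, ?_, ?_⟩⟩
    · rw [mem_closedBall_zero_iff]; exact norm_retr h2 t
    · simp only
      rw [retr_eq h2 (norm_retr h2 t)]
  have heq : ∀ t ∈ Ann r1 r2, f t = g (y t) := by
    intro t ht
    simp only [hf]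
    rw [retr_eq h2 ht.2.le]
  refine ⟨K, fun t ht => ?_, ?_⟩
  · rw [← heq t ht]; exact hK t
  · have : IsFiniteMeasure (volume.restrict (Ann r1 r2)) := ⟨by
      rw [Measure.restrict_apply_univ]; exact vol_Ann_lt r1 r2⟩
    have hint : IntegrableOn f (Ann r1 r2) :=
      Integrable.of_bound hfu.measurable.aestronglyMeasurable K (Eventually.of_forall fun t => by
        rw [Real.norm_eq_abs]; exact hK t)
    exact hint.congr_fun heq (measurableSet_Ann r1 r2)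

lemma wi_eq {z : ℂ} {ε : ℝ} (hε : 0 ≤ ε) :
    (ENNReal.ofReal (‖z‖ ^ (2 * ε)))⁻¹ = ‖z‖ₑ ^ (-(2 * ε)) := by
  rw [NbD_185.ofReal_rpow_norm (by linarith), ENNReal.rpow_neg]

variable {H : Rel ML MK} {s : ℕ} {R : ℝ} {c : ℂ → ML.Pts} {y : ℂ → MK.Pts} {D : Dom R}

/-- the weighted `p`-norms on the fibres of the family are the integrals `II` -/
lemma DD.pn_eq (T : DD H s R c y D) {u : Fin s → MK.B} {θ ε : ℝ} (hθ : 0 < θ) (hε : 0 ≤ ε) {t : ℂ}
    (ht : ‖t‖ < R) (g : D.P → ℂ) (τ : (Fin s → MK.Pts) → ℂ)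
    (hg : ∀ x : D.P, PV_159.tc x = t → τ (T.Φ x) = g x) :
    pn (2 * θ) (wi (D := D) fun x => ‖dl u (T.Φ x)‖ ^ (2 * ε)) g t = II H u (2 * θ) ε (c t) τ := by
  unfold II
  rw [← T.fi_eq t ht]
  unfold PV_159.pn
  refine fi_congr fun x hx => ?_
  rw [← hg x hx, NbD_185.ofReal_rpow_norm (by linarith)]
  congr 1
  unfold NbD_185.wi
  exact wi_eq hε

lemma DD.ss_eq (T : DD H s R c y D) (hR : 0 < R) {u : Fin s → MK.B} {θ ε : ℝ} (hθ : 0 < θ)
    (hε : 0 ≤ ε) (τ : (Fin s → MK.Pts) → ℂ) :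
    SS D θ (fun x => ‖dl u (T.Φ x)‖ ^ (2 * ε)) (fun x => τ (T.Φ x)) =
      II H u (2 * θ) ε (c 0) τ := by
  unfold II
  rw [← T.fi_eq 0 (by rwa [norm_zero])]
  unfold NbD_185.SS
  refine fi_congr fun x hx => ?_
  rw [ENNReal.div_eq_inv_mul, mul_comm, wi_eq hε]

/-- **the mean inequality over a disc** -/
theorem DD.disc_le (T : DD H s R c y D) (hOT : OTB R) {u : Fin s → MK.B} {q : ℕ}
    {v : Fin q → MK.B} {θ ε : ℝ} (hε : 0 ≤ ε)
    (hNB : NB D θ (fun x => ∏ i, Kf v (T.Φ x i)) (fun x => ‖dl u (T.Φ x)‖ ^ (2 * ε)))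
    (hy : ContinuousOn y (ball 0 R)) (hcy : ∀ t : ℂ, ‖t‖ < R → H.f (y t) = c t)
    {g : MK.Pts → ℝ} (hg : UpperSemicontinuous g) (hgb : LocB g)
    (hbg : ∀ᵐ t : ℂ, ‖t‖ < R → bRc H u v (2 * θ) ε (y t) ≤ Real.exp (g (y t)))
    {r1 r2 : ℝ} (hr1 : 0 ≤ r1) (hr : r1 < r2) (hrR : r2 < R) :
    bRc H u v (2 * θ) ε (y 0) ≤ Real.exp (⨍ t in Ann r1 r2, g (y t)) := by
  have hθ : 0 < θ := hNB.h0
  have hp : 0 < 2 * θ := by linarith
  have hR : 0 < R := lt_of_le_of_lt hr1 (hr.trans hrR)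
  have h0R : ‖(0 : ℂ)‖ < R := by rwa [norm_zero]
  set κ : ℂ → ℝ := fun t => Real.exp (g (y t)) with hκ
  have hκ0 : ∀ t, 0 < κ t := fun t => Real.exp_pos _
  have hlog : ∀ t, Real.log (κ t) = g (y t) := fun t => Real.log_exp _
  -- the bound on almost all fibres
  have hbd : ∀ᵐ t : ℂ, ‖t‖ < R → ∀ f : D.P → ℂ, FHol t f → D.nrm f t < ∞ →
      ENNReal.ofReal (‖f (T.sec.x t)‖ ^ (2 * θ)) ≤ ENNReal.ofReal (κ t) *
        pn (2 * θ) (wi (D := D) fun x => ‖dl u (T.Φ x)‖ ^ (2 * ε)) f t := by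
    filter_upwards [hbg, hNB.cl] with t hb hcl ht f hf hn
    obtain ⟨C, hC, hCb⟩ := hcl ht
    obtain ⟨τ, hτ, hτf⟩ := T.of_hol t ht f hf
    have hst : PV_159.tc (T.sec.x t) = t := T.sec.sec t (by rwa [mem_ball_zero_iff])
    rw [T.pn_eq hθ hε ht f τ hτf]
    -- `τ` is in the class
    have hcls : Cls H v s (c t) τ := by
      refine ⟨(C * D.nrm f t).toReal, fun w hw => ?_⟩
      obtain ⟨x, hx, hxw⟩ := T.surj t ht w hw
      have h1 := hCb f hf hn x hx
      have h2 : ENNReal.ofReal (‖τ w‖ ^ 2) ≤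
          ENNReal.ofReal ((C * D.nrm f t).toReal * ∏ j, ∑ i, ‖w j (v i)‖ ^ 2) := by
        rw [ENNReal.ofReal_mul ENNReal.toReal_nonneg,
          ENNReal.ofReal_toReal (ENNReal.mul_ne_top hC hn.ne)]
        rw [← hτf x hx, hxw] at h1
        calc ENNReal.ofReal (‖τ w‖ ^ 2) ≤ C * ENNReal.ofReal (∏ i, Kf v (w i)) * D.nrm f t := h1
          _ = _ := by
            unfold Kf
            ring
      exact (ENNReal.ofReal_le_ofReal_iff (mul_nonneg ENNReal.toReal_nonneg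
        (Finset.prod_nonneg fun j _ => Finset.sum_nonneg fun i _ => by positivity))).1 h2
    have e1 : H.f (y t) = c t := hcy t ht
    have h3 : ‖τ (fun _ => y t)‖ₑ ^ (2 * θ) / II H u (2 * θ) ε (H.f (y t)) τ ≤
        ENNReal.ofReal (κ t) := by
      refine (le_bEc H u v (2 * θ) ε (y := y t) (by rwa [e1]) (by rwa [e1])).trans ?_
      rw [← ofReal_bRc u v hp hε]
      exact ENNReal.ofReal_le_ofReal (hb ht)
    rw [e1, ENNReal.div_le_iff_le_mul (Or.inr ENNReal.ofReal_ne_top)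
      (Or.inr (ENNReal.ofReal_pos.2 (hκ0 t)).ne')] at h3
    rw [← hτf _ hst, T.sec_eq t ht, NbD_185.ofReal_rpow_norm hp.le]
    exact h3
  -- the centre
  obtain ⟨K0, hK0, hint⟩ := integrable_along hg hgb hy hr1 hr hrR
  have hmain : bEc H u v (2 * θ) ε (y 0) ≤ ENNReal.ofReal (Real.exp (⨍ t in Ann r1 r2, g (y t))) := by
    rw [bEc_le_iff]
    intro τ hτ hcls
    rw [hcy 0 h0R] at hτ hcls ⊢
    obtain ⟨C, hC⟩ := hcls
    have hUK : ∀ x : D.P, PV_159.tc x = 0 → ‖τ (T.Φ x)‖ₑ ^ (2 : ℝ) ≤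
        ENNReal.ofReal C * ENNReal.ofReal (∏ i, Kf v (T.Φ x i)) := by
      intro x hx
      have h1 := hC (T.Φ x) (fun i => by rw [T.fib x i, hx])
      rw [← NbD_185.ofReal_sq_norm, ← ENNReal.ofReal_mul' (Finset.prod_nonneg fun j _ => by
        unfold Kf; exact Finset.sum_nonneg fun i _ => by positivity)]
      exact ENNReal.ofReal_le_ofReal h1
    have h4 := nb hOT hNB T.sec κ hκ0 hbd (T.to_hol 0 h0R τ hτ) ENNReal.ofReal_ne_top hUK hr1 hr hrR
      (by simpa only [hlog] using hint) (c0 := -K0) (fun t ht => by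
        rw [hlog]; exact (abs_le.1 (hK0 t ht)).1)
    simp only [hlog] at h4
    rw [T.ss_eq hR hθ hε, T.sec_eq 0 h0R] at h4
    have hSS : II H u (2 * θ) ε (c 0) τ ≠ ∞ := by
      rw [← T.ss_eq hR hθ hε]
      exact (NbD_185.SS_lt_top hNB hR ENNReal.ofReal_ne_top hUK).ne
    refine ENNReal.div_le_of_le_mul ?_
    rw [← NbD_185.ofReal_rpow_norm hp.le, ← ENNReal.ofReal_toReal hSS,
      ← ENNReal.ofReal_mul (Real.exp_pos _).le]
    exact ENNReal.ofReal_le_ofReal h4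
  unfold bRc
  exact ENNReal.toReal_le_of_le_ofReal (Real.exp_pos _).le hmain

end Crest.Agent.R276.DiscA_986
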