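import Crest.Agent.R276.Rs_185
import Crest.Agent.R276.W1Defs_185
import Crest.Agent.R276.CInd_870

/-!
# Row 276, task W1 (helper185): relative slices for `H : Rel ML MK`

`prj H : Prj finSumFinEquiv H.f`; `HF ↔ H.HolF`; fibre integrals = `H.fint`.
-/

set_option autoImplicit false
set_option linter.unusedSectionVars false

open Set Filter Topology MeasureTheory
open scoped ENNReal

noncomputable section

namespace Crest.Agent.R276.Rs_185

open Crest.Agent.R271 Crest.Agent.R271.Defs710 Crest.Agent.R271.Rd692 Crest.Agent.R271.Ho51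
open Crest.Agent.R276.Mod1_987 Crest.Agent.R276.PV_159
open Crest.Agent.R276.SkelDefs_220 hiding tc
open Crest.Agent.R276.Sl_748 (SD bt fx gl)
open Crest.Agent.R276.C1bd_986 (HolFS Cls fc pz_f)
open Crest.Agent.R276.NbB_185 (tl cons_tl cont_tl)

variable {L K : Type} [Field L] [Field K] [Algebra ℂ L] [Algebra ℂ K] [Algebra L K]
  [IsScalarTower ℂ L K] {m r : ℕ} {ML : Mdl L m} {MK : Mdl K (m + r)}

/-- the splitting of the coordinates -/
abbrev spR (m r : ℕ) : Fin m ⊕ Fin r ≃ Fin (m + r) := finSumFinEquiv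

lemma gl_spR (t : Cn m) (x : Cn r) : gl (spR m r) t x = Fin.append t x := by
  funext k
  refine Fin.addCases (fun i => ?_) (fun j => ?_) k
  · simp [gl, spR]
  · simp [gl, spR]

lemma bt_spR (z : Cn (m + r)) : bt (spR m r) z = fun i => z (Fin.castAdd r i) := by
  funext i
  simp [bt, spR]

lemma fx_spR (z : Cn (m + r)) : fx (spR m r) z = fun j => z (Fin.natAdd m j) := by
  funext j
  simp [fx, spR]

lemma continuous_f (H : Rel ML MK) : Continuous H.f := by
  have h1 := (CInd_870.rm H).continuous_q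
  have h2 : (CInd_870.rm H).q = H.f := funext fun y => CInd_870.rm_q H y
  rw [h2] at h1
  exact h1

/-- `H.f` is a projection of Riemann domains -/
lemma prj (H : Rel ML MK) : Prj (spR m r) H.f where
  cont := continuous_f H
  cp_eq y := by
    rw [bt_spR]
    funext i
    exact pz_f H y i

lemma fx_pz (y : MK.Pts) : fx (spR m r) (cp y) = fc y := fx_spR _

theorem hf_iff (H : Rel ML MK) {z : ML.Pts} {G : MK.Pts → ℂ} :
    HF (spR m r) H.f z G ↔ H.HolF z G := by
  unfold HF Rel.HolF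
  refine forall_congr' fun y => forall_congr' fun _ => ?_
  rw [fx_spR]
  have h : (fun x : Fin r → ℂ => G ((ch y).symm (gl (spR m r) (cp z) x))) =
      fun x : Cn r => G ((ch y).symm (Fin.append (ML.pz z) x)) := by
    funext x
    rw [gl_spR]
    rfl
  rw [h]
  exact Iff.rfl

theorem fint_eq (H : Rel ML MK) (z : ML.Pts) (G : MK.Pts → ℝ≥0∞) :
    ∫⁻ x : Fin r → ℂ, ∑' y : {y : MK.Pts // H.f y = z ∧ fx (spR m r) (cp y) = x}, G y.1 =
      H.fint z G := by
  unfold Rel.fint
  refine lintegral_congr fun x => ?_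
  let E : {y : MK.Pts // H.f y = z ∧ fx (spR m r) (cp y) = x} ≃
      {y : MK.Pts // H.f y = z ∧ (fun j => MK.pz y (Fin.natAdd m j)) = x} :=
    Equiv.subtypeEquivRight fun y => by
      rw [fx_spR]
      exact Iff.rfl
  exact E.tsum_eq fun y => G y.1

variable {R : ℝ} {S : SD (m + r) MK.Pts} {H : Rel ML MK} {X : Lft ML.Pts R}

/-- fibre integrals -/
theorem fi_rel {l : ℂ} (hl : ‖l‖ < R) {g : (rsl S (prj H) X).P → ℝ≥0∞} {G : MK.Pts → ℝ≥0∞}
    (h : ∀ q, tc q = l → g q = G (pr q)) : fi g l = H.fint (X.c l) G := by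
  rw [fi_rsl hl h, fint_eq]

/-- holomorphic functions on the fibres -/
theorem fhol_rel {l : ℂ} (hl : ‖l‖ < R) {G : MK.Pts → ℂ} :
    (FHol l fun q : (rsl S (prj H) X).P => G (pr q)) ↔ H.HolF (X.c l) G :=
  ⟨fun h => (hf_iff H).1 (hf_of_fhol hl h), fun h => fhol_of_hf ((hf_iff H).2 h)⟩

end Crest.Agent.R276.Rs_185
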