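import Crest.Agent.R276.Brg_201
import Crest.Agent.R276.DiscA_986
import Crest.Agent.R276.Rsr_185

/-!
# Row 276, task W1 (helper201): 986's `DD` for the powers of 185's relative slice `rsl`
-/

set_option autoImplicit false
set_option linter.unusedSectionVars false

noncomputable section

open Set Filter Topology Complex MeasureTheory Metric
open scoped ENNReal

namespace Crest.Agent.R276.Brg_201

open Crest.Agent.R271 Crest.Agent.R271.Ho51 Crest.Agent.R271.W792 Crest.Agent.R276.PV_159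
  Crest.Agent.R276.NbB_185 Crest.Agent.R276.Pws_201
open Crest.Agent.R271.Defs710 Crest.Agent.R271.Rd692 Crest.Agent.R276.Mod1_987 Crest.Agent.R276.C1bd_986
open Crest.Agent.R276.SkelDefs_220 (Rel)
open Crest.Agent.R276.DiscA_986 (DD)
open Crest.Agent.R276.Rs_185 (rsl Lft lft prj spR)
open Crest.Agent.R276.Sl_748 (SD)

variable {L K : Type} [Field L] [Field K] [Algebra ℂ L] [Algebra ℂ K] [Algebra L K]
  [IsScalarTower ℂ L K] {m r : ℕ} {ML : Mdl L m} {MK : Mdl K (m + r)} {R : ℝ}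

/-- `DD` for the powers, from one-fold data -/
def RS.dd {H : Rel ML MK} {c : ℂ → ML.Pts} {D : Dom R} {pr : D.P → MK.Pts} (S : RS H c D pr)
    (s : Sec D) {y : ℂ → MK.Pts} (hy : ∀ t : ℂ, ‖t‖ < R → pr (s.x t) = y t) (j : ℕ) :
    DD H (j + 1) R c y (D.pw j) where
  Φ := Phi D pr j
  fib := S.fib_Phi j
  surj := S.surj_Phi j
  fi_eq := S.fi_eq j
  to_hol t _ τ hτ := S.to_hol j t τ hτ
  of_hol := S.of_hol j
  sec := secP s j
  sec_eq t ht := by
    rw [Phi_secP, hy t ht]

/-- the relative slice -/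
theorem rs_rsl (H : Rel ML MK) (S : SD (m + r) MK.Pts) (X : Lft ML.Pts R) :
    RS H X.c (rsl S (prj H) X) (fun q => Rs_185.pr q) where
  ha := rfl
  cont := Rs_185.cont_pr
  fib x := Rs_185.f_pr x
  crd x i := by
    have h := congrFun (Rs_185.tl_eq (S := S) (F := prj H) (X := X) x) i
    rw [Rs_185.fx_spR] at h
    exact h.symm
  inj x x' h1 h2 := Rs_185.ext' h2 h1
  surj t ht w hw := ⟨Rs_185.mk w t ht hw, rfl, rfl⟩

/-- the section of the relative slice given by a disc in a chart -/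
def secR (H : Rel ML MK) (S : SD (m + r) MK.Pts) {e : OpenPartialHomeomorph MK.Pts (Cn (m + r))}
    (he : IsCh e) {z w : Cn (m + r)} (hd : ∀ l ∈ ball (0 : ℂ) R, z + l • w ∈ e.target)
    (hR : 0 < R) : Sec (rsl S (prj H) (lft (prj H) he hd)) where
  x := Rs_185.sec (prj H) he hd S hR
  cont := Rs_185.cont_sec (prj H) he hd hR
  hol := Rs_185.hol_sec (prj H) he hd hR
  sec t ht := Rs_185.tc_sec (prj H) he hd hR (mem_ball_zero_iff.1 ht)

/-- **`DD` for the powers of the relative slice through a disc of a chart of `M_K`** -/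
def ddR (H : Rel ML MK) (S : SD (m + r) MK.Pts) {e : OpenPartialHomeomorph MK.Pts (Cn (m + r))}
    (he : IsCh e) {z w : Cn (m + r)} (hd : ∀ l ∈ ball (0 : ℂ) R, z + l • w ∈ e.target)
    (hR : 0 < R) (j : ℕ) :
    DD H (j + 1) R (fun t => H.f (e.symm (z + t • w))) (fun t => e.symm (z + t • w))
      ((rsl S (prj H) (lft (prj H) he hd)).pw j) :=
  (rs_rsl H S (lft (prj H) he hd)).dd (secR H S he hd hR)
    (fun _ ht => Rs_185.pr_sec (prj H) he hd hR ht) j

lemma ddR_Phi (H : Rel ML MK) (S : SD (m + r) MK.Pts)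
    {e : OpenPartialHomeomorph MK.Pts (Cn (m + r))}
    (he : IsCh e) {z w : Cn (m + r)} (hd : ∀ l ∈ ball (0 : ℂ) R, z + l • w ∈ e.target)
    (hR : 0 < R) (j : ℕ) (p) (i : Fin (j + 1)) :
    (ddR H S he hd hR j).Φ p i = Rs_185.pr (tup (rsl S (prj H) (lft (prj H) he hd)) j p i) := rfl

end Crest.Agent.R276.Brg_201
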