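import Crest.Agent.R276.Pws_201
import Crest.Agent.R276.C1bdB_986
import Crest.Agent.R276.PVl_159

/-!
# Row 276, task W1 (helper201): fibre powers of a slice = fibre products of a relative model

`H : Rel ML MK`, `D : Dom R` a slice with projection `pr : D.P → MK.Pts` over the lifted disc
`c : ℂ → ML.Pts` (`RS H c D pr`).  For the power `D.pw j` and `Φ p i = pr (tup D j p i)`:
`fib`, `surj`, `fi_eq` (fibre integral = `fintS`), `to_hol`, `of_hol` (`FHol` = `HolFS`), `secP`
(the diagonal section).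
-/

set_option autoImplicit false
set_option linter.unusedSectionVars false

noncomputable section

open Set Filter Topology Complex MeasureTheory Metric
open scoped ENNReal

namespace Crest.Agent.R276.Brg_201

open Crest.Agent.R271 Crest.Agent.R271.Ho51 Crest.Agent.R271.W792 Crest.Agent.R276.PV_159
  Crest.Agent.R276.NbB_185 Crest.Agent.R276.Pws_201
open Crest.Agent.R276.Mod1_987 Crest.Agent.R276.C1bd_986
open Crest.Agent.R276.SkelDefs_220 (Rel)

variable {L K : Type} [Field L] [Field K] [Algebra ℂ L] [Algebra ℂ K] [Algebra L K]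
  [IsScalarTower ℂ L K] {m r : ℕ} {ML : Mdl L m} {MK : Mdl K (m + r)} {R : ℝ}

/-- one-fold data: `D` is the slice of `M_K` over the lifted disc `c` -/
structure RS (H : Rel ML MK) (c : ℂ → ML.Pts) (D : Dom R) (pr : D.P → MK.Pts) : Prop where
  ha : D.a = r
  cont : Continuous pr
  fib : ∀ x, H.f (pr x) = c (PV_159.tc x)
  crd : ∀ x (i : Fin r), MK.pz (pr x) (Fin.natAdd m i) = tl x (Fin.cast ha.symm i)
  inj : ∀ x x', PV_159.tc x = PV_159.tc x' → pr x = pr x' → x = x'
  surj : ∀ t, ‖t‖ < R → ∀ w, H.f w = c t → ∃ x, PV_159.tc x = t ∧ pr x = w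

/-- the tuple of a point of the power -/
def Phi (D : Dom R) (pr : D.P → MK.Pts) (j : ℕ) (p : (D.pw j).P) (i : Fin (j + 1)) : MK.Pts :=
  pr (tup D j p i)

lemma pz_eq (H : Rel ML MK) (w : MK.Pts) : MK.pz w = Fin.append (ML.pz (H.f w)) (fc w) := by
  funext i
  refine Fin.addCases (fun i => ?_) (fun i => ?_) i
  · rw [Fin.append_left, pz_f]
  · rw [Fin.append_right]; rfl

variable {H : Rel ML MK} {c : ℂ → ML.Pts} {D : Dom R} {pr : D.P → MK.Pts}

lemma RS.cont_Phi (S : RS H c D pr) (j : ℕ) (i : Fin (j + 1)) :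
    Continuous fun p : (D.pw j).P => Phi D pr j p i :=
  S.cont.comp ((continuous_apply i).comp (cont_tup D j))

theorem RS.fib_Phi (S : RS H c D pr) (j : ℕ) (p : (D.pw j).P) (i : Fin (j + 1)) :
    H.f (Phi D pr j p i) = c (PV_159.tc p) := by
  rw [Phi, S.fib, tc_tup]

theorem RS.surj_Phi (S : RS H c D pr) (j : ℕ) (t : ℂ) (ht : ‖t‖ < R) (w : Fin (j + 1) → MK.Pts)
    (hw : ∀ i, H.f (w i) = c t) : ∃ p : (D.pw j).P, PV_159.tc p = t ∧ Phi D pr j p = w := by
  choose x hx1 hx2 using fun i => S.surj t ht (w i) (hw i)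
  refine ⟨Pws_201.mk D j x hx1, tc_mk D j x hx1, ?_⟩
  funext i
  rw [Phi, tup_mk, hx2]

/-- `fc ∘ pr = tl`, after `subst` -/
lemma fc_pr {D : Dom R} {MK : Mdl K (m + D.a)} {H : Rel ML MK} {pr : D.P → MK.Pts}
    (S : RS H c D pr) (x : D.P) : fc (pr x) = tl x := by
  funext i
  exact S.crd x i

/-- the charts correspond -/
lemma chart_eq {D : Dom R} {MK : Mdl K (m + D.a)} {H : Rel ML MK} {pr : D.P → MK.Pts}
    (S : RS H c D pr) (x : D.P) {t : ℂ} (hx : PV_159.tc x = t) :
    ∀ᶠ u in 𝓝 (tl x), PV_159.tc ((ch x).symm (Fin.cons t u)) = t ∧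
      pr ((ch x).symm (Fin.cons t u)) = (ch (pr x)).symm (Fin.append (ML.pz (c t)) u) := by
  have hech : IsCh (ch x) := isCh_ch x
  have hopen : IsOpen {u : Fin D.a → ℂ | (Fin.cons t u : Fin (D.a + 1) → ℂ) ∈ (ch x).target} :=
    (ch x).open_target.preimage (differentiable_cons t).continuous
  have hcp : cp x = (Fin.cons t (tl x) : Fin (D.a + 1) → ℂ) := by rw [← hx, cons_tl]
  have hmem : (Fin.cons t (tl x) : Fin (D.a + 1) → ℂ) ∈ (ch x).target := by
    rw [← hcp]
    exact hech.cp_mem (mem_ch x)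
  have h4 : ContinuousAt (fun u : Fin D.a → ℂ => pr ((ch x).symm (Fin.cons t u))) (tl x) := by
    refine S.cont.continuousAt.comp (f := fun u : Fin D.a → ℂ => (ch x).symm (Fin.cons t u)) ?_
    exact ContinuousAt.comp (g := (ch x).symm) (f := fun u : Fin D.a → ℂ =>
      (Fin.cons t u : Fin (D.a + 1) → ℂ)) ((ch x).continuousAt_symm hmem)
      (differentiable_cons t).continuous.continuousAt
  have h5 : (ch x).symm (Fin.cons t (tl x)) = x := by
    rw [← hcp]
    exact hech.symm_cp (mem_ch x)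
  have h6 : ∀ᶠ u in 𝓝 (tl x), pr ((ch x).symm (Fin.cons t u)) ∈ (ch (pr x)).source := by
    refine h4 ((ch (pr x)).open_source.mem_nhds ?_)
    show pr ((ch x).symm (Fin.cons t (tl x))) ∈ _
    rw [h5]
    exact mem_ch _
  filter_upwards [h6, hopen.mem_nhds hmem] with u hu hu'
  have hu'' : (Fin.cons t u : Fin (D.a + 1) → ℂ) ∈ (ch x).target := hu'
  have h10 := hech.cp_symm hu''
  have h11 : PV_159.tc ((ch x).symm (Fin.cons t u)) = t := tc_of h10
  refine ⟨h11, ?_⟩
  have h12 : tl ((ch x).symm (Fin.cons t u)) = u := by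
    funext k
    show (cp ((ch x).symm (Fin.cons t u)) : Fin (D.a + 1) → ℂ) k.succ = _
    rw [h10, Fin.cons_succ]
  have h13 := (isCh_ch (pr x)).symm_cp hu
  have h14 : cp (pr ((ch x).symm (Fin.cons t u))) = Fin.append (ML.pz (c t)) u := by
    show MK.pz _ = _
    rw [pz_eq H, S.fib, fc_pr S, h11, h12]
  rw [← h13, h14]

theorem RS.to_thol (S : RS H c D pr) (j : ℕ) (t : ℂ) (τ : (Fin (j + 1) → MK.Pts) → ℂ)
    (hτ : HolFS H (j + 1) (c t) τ) : THol D t j (fun y => τ fun i => pr (y i)) := by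
  obtain rfl := S.ha
  intro y hy
  have h1 := hτ (fun i => pr (y i)) (fun i => by rw [S.fib, hy])
  have h2 : (fun i => fc (pr (y i))) = fun i => tl (y i) := funext fun i => fc_pr S (y i)
  rw [h2] at h1
  refine h1.congr ?_
  have h3 : ∀ i, ∀ᶠ x : Fin (j + 1) → Fin D.a → ℂ in 𝓝 (fun i => tl (y i)),
      pr ((ch (y i)).symm (Fin.cons t (x i))) =
        (ch (pr (y i))).symm (Fin.append (ML.pz (c t)) (x i)) := by
    intro i
    have h4 := chart_eq S (y i) (hy i)
    have h5 : Tendsto (fun x : Fin (j + 1) → Fin D.a → ℂ => x i) (𝓝 (fun i => tl (y i)))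
        (𝓝 (tl (y i))) := (continuous_apply i).continuousAt
    exact (h5.eventually h4).mono fun x hx => hx.2
  filter_upwards [eventually_all.2 h3] with x hx
  congr 1
  funext i
  exact (hx i).symm

theorem RS.to_hol (S : RS H c D pr) (j : ℕ) (t : ℂ) (τ : (Fin (j + 1) → MK.Pts) → ℂ)
    (hτ : HolFS H (j + 1) (c t) τ) : FHol t fun p : (D.pw j).P => τ (Phi D pr j p) :=
  THol.fhol (S.to_thol j t τ hτ)

theorem RS.of_hol (S : RS H c D pr) (j : ℕ) (t : ℂ) (ht : ‖t‖ < R) (f : (D.pw j).P → ℂ)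
    (hf : FHol t f) : ∃ τ, HolFS H (j + 1) (c t) τ ∧
      ∀ p, PV_159.tc p = t → τ (Phi D pr j p) = f p := by
  classical
  obtain rfl := S.ha
  set τ : (Fin (j + 1) → MK.Pts) → ℂ := fun w =>
    if h : ∀ i, ∃ x, PV_159.tc x = t ∧ pr x = w i then ofT j f (fun i => (h i).choose) else 0
    with hτdef
  have key : ∀ y : Fin (j + 1) → D.P, (∀ i, PV_159.tc (y i) = t) →
      τ (fun i => pr (y i)) = ofT j f y := by
    intro y hy
    have h : ∀ i, ∃ x, PV_159.tc x = t ∧ pr x = pr (y i) := fun i => ⟨y i, hy i, rfl⟩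
    have h1 : τ (fun i => pr (y i)) = ofT j f (fun i => (h i).choose) := dif_pos h
    rw [h1]
    congr 1
    funext i
    exact S.inj _ _ ((h i).choose_spec.1.trans (hy i).symm) (h i).choose_spec.2
  refine ⟨τ, fun w hw => ?_, fun p hp => ?_⟩
  · choose y hy1 hy2 using fun i => S.surj t ht (w i) (hw i)
    have hth := FHol.thol' hf y hy1
    have h2 : (fun i => fc (w i)) = fun i => tl (y i) := funext fun i => by
      rw [← hy2 i, fc_pr S]
    rw [h2]
    refine hth.congr ?_
    have h3 : ∀ i, ∀ᶠ x : Fin (j + 1) → Fin D.a → ℂ in 𝓝 (fun i => tl (y i)),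
        PV_159.tc ((ch (y i)).symm (Fin.cons t (x i))) = t ∧
        pr ((ch (y i)).symm (Fin.cons t (x i))) =
          (ch (pr (y i))).symm (Fin.append (ML.pz (c t)) (x i)) := by
      intro i
      have h4 := chart_eq S (y i) (hy1 i)
      have h5 : Tendsto (fun x : Fin (j + 1) → Fin D.a → ℂ => x i) (𝓝 (fun i => tl (y i)))
          (𝓝 (tl (y i))) := (continuous_apply i).continuousAt
      exact h5.eventually h4
    filter_upwards [eventually_all.2 h3] with x hx
    have h6 : (fun i => (ch (w i)).symm (Fin.append (ML.pz (c t)) (x i))) =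
        fun i => pr ((ch (y i)).symm (Fin.cons t (x i))) := by
      funext i
      rw [(hx i).2, hy2 i]
    rw [h6, key _ fun i => (hx i).1]
  · have h1 : Phi D pr j p = fun i => pr (tup D j p i) := rfl
    rw [h1, key _ fun i => (tc_tup D j p i).trans hp, ofT_tup]

/-- the index sets of the two fibre sums correspond -/
theorem RS.fi_eq (S : RS H c D pr) (j : ℕ) (t : ℂ) (ht : ‖t‖ < R)
    (G : (Fin (j + 1) → MK.Pts) → ℝ≥0∞) :
    fi (fun p : (D.pw j).P => G (Phi D pr j p)) t = H.fintS (j + 1) (c t) G := by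
  obtain rfl := S.ha
  refine Eq.trans (fi_tup D j (fun y : Fin (j + 1) → D.P => G fun i => pr (y i)) t) ?_
  unfold Rel.fintS
  refine lintegral_congr fun x => ?_
  have hcp : ∀ (y : D.P) (u : Fin D.a → ℂ), cp y = (Fin.cons t u : Fin (D.a + 1) → ℂ) ↔
      PV_159.tc y = t ∧ tl y = u := by
    intro y u
    constructor
    · intro h
      refine ⟨tc_of h, ?_⟩
      funext k
      show (cp y : Fin (D.a + 1) → ℂ) k.succ = _
      rw [h, Fin.cons_succ]
    · rintro ⟨h1, h2⟩
      rw [← h1, ← h2, cons_tl]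
  let Ψ : {y : Fin (j + 1) → D.P // ∀ i, cp (y i) = (Fin.cons t (x i) : Fin (D.a + 1) → ℂ)} →
      {w : Fin (j + 1) → MK.Pts // (∀ i, H.f (w i) = c t) ∧
        ∀ i, (fun j => MK.pz (w i) (Fin.natAdd m j)) = x i} := fun y =>
    ⟨fun i => pr (y.1 i), fun i => by rw [S.fib, ((hcp _ _).1 (y.2 i)).1], fun i =>
      (fc_pr S (y.1 i)).trans ((hcp _ _).1 (y.2 i)).2⟩
  have hΨ : Function.Bijective Ψ := by
    constructor
    · intro y y' h
      apply Subtype.ext
      funext i
      have h1 := congrFun (congrArg Subtype.val h) i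
      exact S.inj _ _ (((hcp _ _).1 (y.2 i)).1.trans ((hcp _ _).1 (y'.2 i)).1.symm) h1
    · rintro ⟨w, hw1, hw2⟩
      choose y hy1 hy2 using fun i => S.surj t ht (w i) (hw1 i)
      refine ⟨⟨y, fun i => (hcp _ _).2 ⟨hy1 i, ?_⟩⟩, ?_⟩
      · rw [← fc_pr S, hy2 i]
        exact hw2 i
      · apply Subtype.ext
        funext i
        exact hy2 i
  exact (Equiv.ofBijective Ψ hΨ).tsum_eq (fun w => G w.1)

/-- one-fold version -/
theorem RS.fi_one (S : RS H c D pr) (t : ℂ) (ht : ‖t‖ < R) (g : MK.Pts → ℝ≥0∞) :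
    fi (fun x : D.P => g (pr x)) t = H.fint (c t) g := by
  obtain rfl := S.ha
  unfold fi Rel.fint fsum
  refine lintegral_congr fun x => ?_
  have hcp : ∀ (y : D.P) (u : Fin D.a → ℂ), cp y = (Fin.cons t u : Fin (D.a + 1) → ℂ) ↔
      PV_159.tc y = t ∧ tl y = u := by
    intro y u
    constructor
    · intro h
      refine ⟨tc_of h, ?_⟩
      funext k
      show (cp y : Fin (D.a + 1) → ℂ) k.succ = _
      rw [h, Fin.cons_succ]
    · rintro ⟨h1, h2⟩
      rw [← h1, ← h2, cons_tl]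
  let Ψ : {y : D.P // cp y = (Fin.cons t x : Fin (D.a + 1) → ℂ)} →
      {w : MK.Pts // H.f w = c t ∧ (fun j => MK.pz w (Fin.natAdd m j)) = x} := fun y =>
    ⟨pr y.1, by rw [S.fib, ((hcp _ _).1 y.2).1], (fc_pr S y.1).trans ((hcp _ _).1 y.2).2⟩
  have hΨ : Function.Bijective Ψ := by
    constructor
    · intro y y' h
      apply Subtype.ext
      have h1 := congrArg Subtype.val h
      exact S.inj _ _ (((hcp _ _).1 y.2).1.trans ((hcp _ _).1 y'.2).1.symm) h1
    · rintro ⟨w, hw1, hw2⟩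
      obtain ⟨y, hy1, hy2⟩ := S.surj t ht w hw1
      refine ⟨⟨y, (hcp _ _).2 ⟨hy1, ?_⟩⟩, ?_⟩
      · rw [← fc_pr S, hy2]
        exact hw2
      · exact Subtype.ext hy2
  exact (Equiv.ofBijective Ψ hΨ).tsum_eq (fun w => g w.1)

/-- the diagonal section of the power -/
def secP (s : Sec D) (j : ℕ) : Sec (D.pw j) where
  x t := diag D j (s.x t)
  cont := (cont_diag D j).comp_continuousOn s.cont
  hol := by
    have h1 : ∀ t, (cp (diag D j (s.x t)) : Fin ((D.pw j).a + 1) → ℂ) =
        Fin.cons (PV_159.tc (s.x t)) (cat D j fun _ => tl (s.x t)) := by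
      intro t
      exact cp_mk D j _ _
    simp only [h1]
    have h2 := s.hol
    rw [differentiableOn_pi] at h2 ⊢
    have h3 : DifferentiableOn ℂ (fun t => cat D j fun _ => tl (s.x t)) (ball 0 R) := by
      refine (differentiable_cat D j).comp_differentiableOn ?_
      rw [differentiableOn_pi]
      intro _
      rw [differentiableOn_pi]
      intro i
      exact h2 i.succ
    rw [differentiableOn_pi] at h3
    intro i
    refine Fin.cases ?_ (fun i => ?_) i
    · exact h2 0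
    · exact h3 i
  sec t ht := (tc_diag D j _).trans (s.sec t ht)

lemma Phi_secP (s : Sec D) (j : ℕ) (t : ℂ) : Phi D pr j ((secP s j).x t) = fun _ => pr (s.x t) := by
  funext i
  show pr (tup D j (diag D j (s.x t)) i) = _
  rw [tup_diag]

/-! ### products over the factors -/

/-- the product function `tp D κ j` in terms of tuples -/
lemma tp_eq_prod {κ : D.P → ℝ≥0∞} : ∀ (j : ℕ) (p : (D.pw j).P),
    NbB_185.tp D κ j p = ∏ i, κ (tup D j p i)
  | 0, p => by simp [NbB_185.tp, tup_zero]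
  | j + 1, p => by
    rw [Fin.prod_univ_castSucc]
    simp only [tup_succ, Fin.snoc_castSucc, Fin.snoc_last]
    rw [← tp_eq_prod j]
    rfl

end Crest.Agent.R276.Brg_201
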