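import Mathlib

/-!
# Row 276, task W1 (helper185): Hoelder step and iteration for the N-Bergman kernel

* `point`, `hoelder_step` : from `∫ |F'|² / (|F|^{2(1-θ)} b) ≤ c` and `∫ |F|^{2θ}/b ≤ A` one gets
  `∫ |F'|^{2θ}/b ≤ c^θ A^{1-θ}`;
* `exists_le_two_mul` : the iteration `A_{i+1} ≤ c^θ A_i^{1-θ}` reaches `≤ 2c`.
-/

set_option autoImplicit false

noncomputable section

open MeasureTheory Set Filter Topology
open scoped ENNReal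

namespace Crest.Agent.R276.NbA_185

/-- pointwise identity behind the Hoelder step -/
lemma point {θ : ℝ} (h0 : 0 < θ) (h1 : θ ≤ 1) {f g β : ℝ≥0∞} (hf : f ≠ ∞) (hg : g ≠ ∞) (hβ : β ≠ ∞)
    (hX : g ^ (2 : ℝ) / (f ^ (2 * (1 - θ)) * β) ≠ ∞) :
    g ^ (2 * θ) / β ≤ (g ^ (2 : ℝ) / (f ^ (2 * (1 - θ)) * β)) ^ θ * (f ^ (2 * θ) / β) ^ (1 - θ) := by
  have ha : 0 ≤ 1 - θ := by linarith
  rcases eq_or_ne g 0 with hg0 | hg0
  · rw [hg0, ENNReal.zero_rpow_of_pos (by linarith), ENNReal.zero_div]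
    exact zero_le
  have hg2 : g ^ (2 : ℝ) ≠ 0 := (ENNReal.rpow_pos (pos_iff_ne_zero.2 hg0) hg).ne'
  have hden : f ^ (2 * (1 - θ)) * β ≠ 0 := by
    intro h
    apply hX
    rw [h]
    exact ENNReal.div_zero hg2
  have hβ0 : β ≠ 0 := right_ne_zero_of_mul hden
  have hf0' : f ^ (2 * (1 - θ)) ≠ 0 := left_ne_zero_of_mul hden
  have hβa : β ^ θ * β ^ (1 - θ) = β := by
    rw [← ENNReal.rpow_add _ _ hβ0 hβ]
    have : θ + (1 - θ) = 1 := by ring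
    rw [this, ENNReal.rpow_one]
  have hθ0 : β ^ θ ≠ 0 := (ENNReal.rpow_pos (pos_iff_ne_zero.2 hβ0) hβ).ne'
  have hθt : β ^ θ ≠ ∞ := ENNReal.rpow_ne_top_of_nonneg h0.le hβ
  have ha0 : β ^ (1 - θ) ≠ 0 := (ENNReal.rpow_pos (pos_iff_ne_zero.2 hβ0) hβ).ne'
  have hat : β ^ (1 - θ) ≠ ∞ := ENNReal.rpow_ne_top_of_nonneg ha hβ
  set P : ℝ≥0∞ := (f ^ (2 * (1 - θ))) ^ θ with hP
  have hPt : P ≠ ∞ := ENNReal.rpow_ne_top_of_nonneg h0.le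
    (ENNReal.rpow_ne_top_of_nonneg (by linarith) hf)
  have hP0 : P ≠ 0 := (ENNReal.rpow_pos (pos_iff_ne_zero.2 hf0')
    (ENNReal.rpow_ne_top_of_nonneg (by linarith) hf)).ne'
  have hPP : (f ^ (2 * θ)) ^ (1 - θ) = P := by
    rw [hP, ← ENNReal.rpow_mul, ← ENNReal.rpow_mul]
    congr 1
    ring
  have hgg : (g ^ (2 : ℝ)) ^ θ = g ^ (2 * θ) := by rw [← ENNReal.rpow_mul]
  rw [ENNReal.div_rpow_of_nonneg _ _ h0.le, ENNReal.mul_rpow_of_nonneg _ _ h0.le,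
    ENNReal.div_rpow_of_nonneg _ _ ha, hPP, hgg, ← hP]
  apply le_of_eq
  rw [ENNReal.div_eq_inv_mul, ENNReal.div_eq_inv_mul, ENNReal.div_eq_inv_mul,
    ENNReal.mul_inv (Or.inl hP0) (Or.inl hPt)]
  calc β⁻¹ * g ^ (2 * θ) = (β ^ θ * β ^ (1 - θ))⁻¹ * g ^ (2 * θ) := by rw [hβa]
    _ = (β ^ θ)⁻¹ * (β ^ (1 - θ))⁻¹ * g ^ (2 * θ) := by
        rw [ENNReal.mul_inv (Or.inl hθ0) (Or.inl hθt)]
    _ = (P⁻¹ * P) * ((β ^ θ)⁻¹ * (β ^ (1 - θ))⁻¹ * g ^ (2 * θ)) := by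
        rw [ENNReal.inv_mul_cancel hP0 hPt, one_mul]
    _ = _ := by ring

/-- **Hoelder step** -/
theorem hoelder_step {α : Type*} [MeasurableSpace α] {μ : Measure α} {θ : ℝ} (h0 : 0 < θ)
    (h1 : θ ≤ 1) {f g β : α → ℝ≥0∞} (hfm : Measurable f) (hgm : Measurable g) (hβm : Measurable β)
    (hf : ∀ x, f x ≠ ∞) (hg : ∀ x, g x ≠ ∞) (hβ : ∀ x, β x ≠ ∞) {c A : ℝ≥0∞}
    (hc : c ≠ ∞) (hX : ∫⁻ x, g x ^ (2 : ℝ) / (f x ^ (2 * (1 - θ)) * β x) ∂μ ≤ c)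
    (hA : ∫⁻ x, f x ^ (2 * θ) / β x ∂μ ≤ A) :
    ∫⁻ x, g x ^ (2 * θ) / β x ∂μ ≤ c ^ θ * A ^ (1 - θ) := by
  have hm1 : Measurable fun x => g x ^ (2 : ℝ) / (f x ^ (2 * (1 - θ)) * β x) :=
    (hgm.pow_const _).div ((hfm.pow_const _).mul hβm)
  have hm2 : Measurable fun x => f x ^ (2 * θ) / β x := (hfm.pow_const _).div hβm
  have hae : ∀ᵐ x ∂μ, g x ^ (2 : ℝ) / (f x ^ (2 * (1 - θ)) * β x) < ∞ :=
    ae_lt_top hm1 (lt_of_le_of_lt hX hc.lt_top).ne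
  calc ∫⁻ x, g x ^ (2 * θ) / β x ∂μ
      ≤ ∫⁻ x, (g x ^ (2 : ℝ) / (f x ^ (2 * (1 - θ)) * β x)) ^ θ *
          (f x ^ (2 * θ) / β x) ^ (1 - θ) ∂μ := by
        refine lintegral_mono_ae ?_
        filter_upwards [hae] with x hx
        exact point h0 h1 (hf x) (hg x) (hβ x) hx.ne
    _ ≤ (∫⁻ x, g x ^ (2 : ℝ) / (f x ^ (2 * (1 - θ)) * β x) ∂μ) ^ θ *
          (∫⁻ x, f x ^ (2 * θ) / β x ∂μ) ^ (1 - θ) :=
        ENNReal.lintegral_mul_norm_pow_le hm1.aemeasurable hm2.aemeasurable h0.le (by linarith)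
          (by ring)
    _ ≤ c ^ θ * A ^ (1 - θ) := by
        gcongr

/-- **iteration** -/
theorem exists_le_two_mul {θ : ℝ} (h0 : 0 < θ) (h1 : θ ≤ 1) {c : ℝ≥0∞} (hc : c ≠ ∞)
    {A : ℕ → ℝ≥0∞} (hA0 : A 0 ≠ ∞) (hA : ∀ i, A (i + 1) ≤ c ^ θ * A i ^ (1 - θ)) :
    ∃ i, A i ≤ 2 * c := by
  have hfin : ∀ i, A i ≠ ∞ := by
    intro i
    induction i with
    | zero => exact hA0
    | succ i ih =>
      refine (lt_of_le_of_lt (hA i) ?_).ne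
      exact ENNReal.mul_lt_top (ENNReal.rpow_lt_top_of_nonneg h0.le hc)
        (ENNReal.rpow_lt_top_of_nonneg (by linarith) ih)
  rcases eq_or_ne c 0 with hc0 | hc0
  · refine ⟨1, ?_⟩
    have h := hA 0
    rw [hc0, ENNReal.zero_rpow_of_pos h0, zero_mul] at h
    rw [hc0, mul_zero]
    exact h
  by_contra hno
  push Not at hno
  -- each step gains a factor `2^{-θ}`
  have h2t : (2 : ℝ≥0∞) ^ θ ≠ ∞ := ENNReal.rpow_ne_top_of_nonneg h0.le (by simp)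
  have h20 : (2 : ℝ≥0∞) ^ θ ≠ 0 := (ENNReal.rpow_pos (by simp) (by simp)).ne'
  have hstep : ∀ i, A (i + 1) * 2 ^ θ ≤ A i := by
    intro i
    have hAi : A i ≠ 0 := (lt_of_le_of_lt zero_le (hno i)).ne'
    calc A (i + 1) * 2 ^ θ ≤ (c ^ θ * A i ^ (1 - θ)) * 2 ^ θ := by gcongr; exact hA i
      _ = (2 * c) ^ θ * A i ^ (1 - θ) := by
          rw [ENNReal.mul_rpow_of_nonneg _ _ h0.le]; ring
      _ ≤ (A i) ^ θ * A i ^ (1 - θ) := by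
          gcongr
          exact (hno i).le
      _ = A i := by
          rw [← ENNReal.rpow_add _ _ hAi (hfin i)]
          have : θ + (1 - θ) = 1 := by ring
          rw [this, ENNReal.rpow_one]
  have hpow : ∀ i, A i * (2 ^ θ) ^ i ≤ A 0 := by
    intro i
    induction i with
    | zero => simp
    | succ i ih =>
      calc A (i + 1) * (2 ^ θ) ^ (i + 1) = (A (i + 1) * 2 ^ θ) * (2 ^ θ) ^ i := by ring
        _ ≤ A i * (2 ^ θ) ^ i := by gcongr; exact hstep i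
        _ ≤ A 0 := ih
  have h2 : ∀ i, 2 * c * (2 ^ θ) ^ i ≤ A 0 := fun i =>
    le_trans (by gcongr; exact (hno i).le) (hpow i)
  -- reals
  set q : ℝ := (2 : ℝ) ^ θ with hq
  have hq1 : 1 < q := Real.one_lt_rpow (by norm_num) h0
  have hqe : (2 : ℝ≥0∞) ^ θ = ENNReal.ofReal q := by
    rw [hq, ← ENNReal.ofReal_rpow_of_pos (by norm_num)]
    congr 1
    simp
  have h2r : ∀ i : ℕ, 2 * c.toReal * q ^ i ≤ (A 0).toReal := by
    intro i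
    have h3 := ENNReal.toReal_mono hA0 (h2 i)
    rw [hqe, ENNReal.toReal_mul, ENNReal.toReal_mul, ENNReal.toReal_pow,
      ENNReal.toReal_ofReal (by positivity)] at h3
    simpa using h3
  have hcpos : 0 < 2 * c.toReal := by
    have := ENNReal.toReal_pos hc0 hc
    linarith
  have h5 := tendsto_pow_atTop_atTop_of_one_lt hq1
  obtain ⟨i, hi⟩ := (h5.eventually_gt_atTop ((A 0).toReal / (2 * c.toReal))).exists
  have h6 := h2r i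
  rw [div_lt_iff₀ hcpos] at hi
  linarith

end Crest.Agent.R276.NbA_185
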