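import Crest.Agent.R276.PVh_159
import Crest.Agent.R276.NbA_185

/-!
# Row 276, task W1 (helper185): fibre-holomorphic functions on fibre products

* `FHol.continuousOn`, `FHol.slice1`, `FHol.slice2`: slices of `FHol t F`, `F` on a fibre product;
* `prod_bound`: the Bergman inequality passes to the powers `D.pw j`.
-/

set_option autoImplicit false
set_option linter.unusedSectionVars false

noncomputable section

open Set Filter Topology Complex MeasureTheory Metric
open scoped ENNReal ComplexConjugate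

namespace Crest.Agent.R276.NbB_185

open Crest.Agent.R271 Crest.Agent.R271.Ho51 Crest.Agent.R271.W792 Crest.Agent.R276.PV_159

section FHol

variable {a b : ℕ} {M N : Type} [TopologicalSpace M] [TopologicalSpace N]
  [RDom (a + 1) M] [RDom (b + 1) N]

/-- tail of the coordinates -/
def tl (x : M) : Fin a → ℂ := fun i => (cp x : Fin (a + 1) → ℂ) i.succ

lemma cons_tl (x : M) : (Fin.cons (tc x) (tl x) : Fin (a + 1) → ℂ) = cp x := by
  funext i
  refine Fin.cases rfl (fun j => rfl) i

lemma cont_tl : Continuous (tl : M → Fin a → ℂ) :=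
  continuous_pi fun i => (continuous_apply i.succ).comp cp_cont

lemma FHol.continuousOn {t : ℂ} {f : M → ℂ} (hf : FHol t f) : ContinuousOn f {x | tc x = t} := by
  intro x0 hx0
  have hx0' : tc x0 = t := hx0
  set e := ch x0 with he
  have hech : IsCh e := isCh_ch x0
  have hmem : tl x0 ∈ {u : Fin a → ℂ | (Fin.cons t u : Fin (a + 1) → ℂ) ∈ e.target} := by
    show (Fin.cons t (tl x0) : Fin (a + 1) → ℂ) ∈ e.target
    rw [← hx0', cons_tl]
    exact hech.cp_mem (mem_ch x0)
  have hopen : IsOpen {u : Fin a → ℂ | (Fin.cons t u : Fin (a + 1) → ℂ) ∈ e.target} :=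
    e.open_target.preimage (differentiable_cons t).continuous
  have h1 : ContinuousAt (fun u : Fin a → ℂ => f (e.symm (Fin.cons t u))) (tl x0) :=
    ((hf e hech) _ hmem).continuousWithinAt.continuousAt (hopen.mem_nhds hmem)
  have h2 : ContinuousAt (fun x : M => f (e.symm (Fin.cons t (tl x)))) x0 :=
    ContinuousAt.comp (g := fun u : Fin a → ℂ => f (e.symm (Fin.cons t u))) h1
      cont_tl.continuousAt
  refine h2.continuousWithinAt.congr_of_eventuallyEq_of_mem ?_ hx0
  have h3 : ∀ᶠ x in 𝓝[{x | tc x = t}] x0, x ∈ e.source :=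
    mem_nhdsWithin_of_mem_nhds (e.open_source.mem_nhds (mem_ch x0))
  filter_upwards [h3, self_mem_nhdsWithin] with x hx hxt
  have hxt' : tc x = t := hxt
  rw [← hxt', cons_tl, hech.symm_cp hx]

lemma isClosed_fib (t : ℂ) : IsClosed {x : M | tc x = t} := isClosed_eq cont_tc continuous_const

/-- a fibre-holomorphic function, extended by zero off the fibre, is measurable -/
lemma FHol.measurable_ind [MeasurableSpace M] [BorelSpace M] {t : ℂ} {f : M → ℂ} (hf : FHol t f) :
    Measurable ({x : M | tc x = t}.indicator f) := by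
  have h1 : ContinuousOn f {x | tc x = t} := FHol.continuousOn hf
  exact h1.measurable_piecewise (g := fun _ => (0 : ℂ)) continuousOn_const
    (isClosed_fib t).measurableSet

/-- slices in the second variable (first variable fixed) -/
lemma FHol.slice1 {t : ℂ} {F : FP M N → ℂ} (hF : FHol t F) (q : M) (hq : tc q = t) :
    FHol t (fun x : N => ext2 F q x) := by
  intro d hd
  set e := ch q with he
  have hech : IsCh e := isCh_ch q
  intro u hu
  have hu' : (Fin.cons t u : Fin (b + 1) → ℂ) ∈ d.target := hu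
  set p0 : FP M N := FP.mk' q (d.symm (Fin.cons t u)) (by
      rw [hd.cp_symm hu', ← hq]; rfl) with hp0
  have hch := FP.isCh_chart hech hd p0
  have h1 := hF _ hch
  set γ : (Fin b → ℂ) → (Fin (a + b) → ℂ) := fun u => Fin.append (tl q) u with hγ
  have hγd : Differentiable ℂ γ := by
    rw [differentiable_pi]
    intro i
    refine Fin.addCases (fun j => ?_) (fun j => ?_) i
    · simp only [hγ, Fin.append_left]
      exact differentiable_const _
    · simp only [hγ, Fin.append_right]
      exact differentiable_apply j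
  have hL1 : ∀ v : Fin b → ℂ, L1 a b (Fin.cons t (γ v)) = cp q := by
    intro v
    rw [← cons_tl q, hq]
    funext i
    refine Fin.cases rfl (fun j => ?_) i
    simp [hγ]
  have hL2 : ∀ v : Fin b → ℂ, L2 a b (Fin.cons t (γ v)) = Fin.cons t v := by
    intro v
    funext i
    refine Fin.cases rfl (fun j => ?_) i
    simp [hγ]
  have hγt : ∀ v : Fin b → ℂ, (Fin.cons t v : Fin (b + 1) → ℂ) ∈ d.target →
      (Fin.cons t (γ v) : Fin (a + b + 1) → ℂ) ∈ (FP.chart e d hech hd p0).target := by
    intro v hv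
    show L1 a b (Fin.cons t (γ v)) ∈ e.target ∧ L2 a b (Fin.cons t (γ v)) ∈ d.target
    rw [hL1, hL2]
    exact ⟨hech.cp_mem (mem_ch q), hv⟩
  have h2 : DifferentiableWithinAt ℂ ((fun z : Fin (a + b) → ℂ =>
      F ((FP.chart e d hech hd p0).symm (Fin.cons t z))) ∘ γ)
      {u | (Fin.cons t u : Fin (b + 1) → ℂ) ∈ d.target} u :=
    (h1 (γ u) (hγt u hu')).comp u (hγd u).differentiableWithinAt (fun v hv => hγt v hv)
  have key : ∀ v : Fin b → ℂ, (Fin.cons t v : Fin (b + 1) → ℂ) ∈ d.target →
      ext2 F q (d.symm (Fin.cons t v)) = F ((FP.chart e d hech hd p0).symm (Fin.cons t (γ v))) := by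
    intro v hv
    have hc : (cp q : Fin (a + 1) → ℂ) 0 = (cp (d.symm (Fin.cons t v)) : Fin (b + 1) → ℂ) 0 := by
      rw [hd.cp_symm hv, ← hq]; rfl
    rw [ext2_of _ hc]
    congr 1
    have : (FP.chart e d hech hd p0).symm (Fin.cons t (γ v)) =
        FP.mk' (e.symm (L1 a b (Fin.cons t (γ v)))) (d.symm (L2 a b (Fin.cons t (γ v))))
          (FP.compat hech hd (hγt v hv)) := dif_pos (hγt v hv)
    rw [this]
    apply FP.ext'
    · show q = e.symm (L1 a b (Fin.cons t (γ v)))
      rw [hL1, hech.symm_cp (mem_ch q)]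
    · show d.symm (Fin.cons t v) = d.symm (L2 a b (Fin.cons t (γ v)))
      rw [hL2]
  exact h2.congr (fun v hv => key v hv) (key u hu')

/-- slices in the first variable (second variable fixed) -/
lemma FHol.slice2 {t : ℂ} {F : FP M N → ℂ} (hF : FHol t F) (y : N) (hy : tc y = t) :
    FHol t (fun q : M => ext2 F q y) := by
  intro e hech
  set d := ch y with hde
  have hd : IsCh d := isCh_ch y
  intro u hu
  have hu' : (Fin.cons t u : Fin (a + 1) → ℂ) ∈ e.target := hu
  set p0 : FP M N := FP.mk' (e.symm (Fin.cons t u)) y (by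
      rw [hech.cp_symm hu', ← hy]; rfl) with hp0
  have hch := FP.isCh_chart hech hd p0
  have h1 := hF _ hch
  set γ : (Fin a → ℂ) → (Fin (a + b) → ℂ) := fun u => Fin.append u (tl y) with hγ
  have hγd : Differentiable ℂ γ := by
    rw [differentiable_pi]
    intro i
    refine Fin.addCases (fun j => ?_) (fun j => ?_) i
    · simp only [hγ, Fin.append_left]
      exact differentiable_apply j
    · simp only [hγ, Fin.append_right]
      exact differentiable_const _
  have hL1 : ∀ v : Fin a → ℂ, L1 a b (Fin.cons t (γ v)) = Fin.cons t v := by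
    intro v
    funext i
    refine Fin.cases rfl (fun j => ?_) i
    simp [hγ]
  have hL2 : ∀ v : Fin a → ℂ, L2 a b (Fin.cons t (γ v)) = cp y := by
    intro v
    rw [← cons_tl y, hy]
    funext i
    refine Fin.cases rfl (fun j => ?_) i
    simp [hγ]
  have hγt : ∀ v : Fin a → ℂ, (Fin.cons t v : Fin (a + 1) → ℂ) ∈ e.target →
      (Fin.cons t (γ v) : Fin (a + b + 1) → ℂ) ∈ (FP.chart e d hech hd p0).target := by
    intro v hv
    show L1 a b (Fin.cons t (γ v)) ∈ e.target ∧ L2 a b (Fin.cons t (γ v)) ∈ d.target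
    rw [hL1, hL2]
    exact ⟨hv, hd.cp_mem (mem_ch y)⟩
  have h2 : DifferentiableWithinAt ℂ ((fun z : Fin (a + b) → ℂ =>
      F ((FP.chart e d hech hd p0).symm (Fin.cons t z))) ∘ γ)
      {u | (Fin.cons t u : Fin (a + 1) → ℂ) ∈ e.target} u :=
    (h1 (γ u) (hγt u hu')).comp u (hγd u).differentiableWithinAt (fun v hv => hγt v hv)
  have key : ∀ v : Fin a → ℂ, (Fin.cons t v : Fin (a + 1) → ℂ) ∈ e.target →
      ext2 F (e.symm (Fin.cons t v)) y = F ((FP.chart e d hech hd p0).symm (Fin.cons t (γ v))) := by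
    intro v hv
    have hc : (cp (e.symm (Fin.cons t v)) : Fin (a + 1) → ℂ) 0 = (cp y : Fin (b + 1) → ℂ) 0 := by
      rw [hech.cp_symm hv, ← hy]; rfl
    rw [ext2_of _ hc]
    congr 1
    have : (FP.chart e d hech hd p0).symm (Fin.cons t (γ v)) =
        FP.mk' (e.symm (L1 a b (Fin.cons t (γ v)))) (d.symm (L2 a b (Fin.cons t (γ v))))
          (FP.compat hech hd (hγt v hv)) := dif_pos (hγt v hv)
    rw [this]
    apply FP.ext'
    · show e.symm (Fin.cons t v) = e.symm (L1 a b (Fin.cons t (γ v)))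
      rw [hL1]
    · show y = d.symm (L2 a b (Fin.cons t (γ v)))
      rw [hL2, hd.symm_cp (mem_ch y)]
  exact h2.congr (fun v hv => key v hv) (key u hu')

end FHol

/-! ### the Bergman inequality on powers -/

section pw

variable {R : ℝ}

/-- product of a function over the factors of `D.pw j` -/
def tp {E : Type*} [Mul E] (D : Dom R) (g : D.P → E) : ∀ j : ℕ, (D.pw j).P → E
  | 0 => g
  | j + 1 => fun p => tp D g j (FP.fst (M := (D.pw j).P) (N := D.P) p) *
      g (FP.snd (M := (D.pw j).P) (N := D.P) p)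

/-- the Borel structure on fibre products -/
local instance instMFP {a b : ℕ} {M N : Type} [TopologicalSpace M] [TopologicalSpace N]
    [RDom (a + 1) M] [RDom (b + 1) N] : MeasurableSpace (FP M N) := borel _
local instance instBFP {a b : ℕ} {M N : Type} [TopologicalSpace M] [TopologicalSpace N]
    [RDom (a + 1) M] [RDom (b + 1) N] : BorelSpace (FP M N) := ⟨rfl⟩

lemma ofReal_ind {X : Type*} (S : Set X) (f : X → ℂ) {x : X} (hx : x ∈ S) :
    S.indicator f x = f x := indicator_of_mem hx f

/-- Fubini inequality for fibre-holomorphic functions -/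
lemma nrm_mul_ge' (Q D : Dom R) {F : (Q.mul D).P → ℂ} {t : ℂ} (hF : FHol t F) :
    fi (fun q : Q.P => Q.wt q * D.nrm (fun x => ext2 (M := Q.P) (N := D.P) F q x) t) t ≤
      (Q.mul D).nrm F t := by
  set F' : (Q.mul D).P → ℂ := {x : (Q.mul D).P | tc x = t}.indicator F with hF'
  have hmF : Measurable F' := FHol.measurable_ind hF
  have h0 : (Q.mul D).nrm F t = (Q.mul D).nrm F' t :=
    Dom.nrm_congr _ fun x hx => (indicator_of_mem (s := {x : (Q.mul D).P | tc x = t}) hx F).symm
  rw [h0]
  have hm : Measurable ((Q.mul D).dens F') := by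
    unfold Dom.dens
    exact ((hmF.norm.pow_const 2).ennreal_ofReal).mul (Q.mul D).wt_meas
  have hfub : (Q.mul D).nrm F' t = fi (fun m : Q.P => fi (fun n : D.P =>
      ext2 (M := Q.P) (N := D.P) ((Q.mul D).dens F') m n) t) t :=
    fi_FP (M := Q.P) (N := D.P) hm t
  rw [hfub]
  refine fi_mono fun q hq => ?_
  refine (fi_const_mul_le _ t _).trans ?_
  refine fi_mono fun x hx => ?_
  have h : (cp q : Fin (Q.a + 1) → ℂ) 0 = (cp x : Fin (D.a + 1) → ℂ) 0 := by rw [hq, hx]
  have htq : tc (FP.mk' q x h : FP Q.P D.P) = t := hq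
  have h1 : ext2 (M := Q.P) (N := D.P) ((Q.mul D).dens F') q x =
      ENNReal.ofReal (‖F (FP.mk' q x h)‖ ^ 2) * (Q.wt q * D.wt x) := by
    rw [ext2_of (M := Q.P) (N := D.P) _ h]
    unfold Dom.dens
    rw [Dom.wt_mul]
    have h3 : F' (FP.mk' q x h) = F (FP.mk' q x h) :=
      indicator_of_mem (s := {x : (Q.mul D).P | tc x = t}) htq F
    rw [h3]
    rfl
  have h2 : D.dens (fun x => ext2 (M := Q.P) (N := D.P) F q x) x =
      ENNReal.ofReal (‖F (FP.mk' q x h)‖ ^ 2) * D.wt x := by
    unfold Dom.dens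
    beta_reduce
    rw [ext2_of (M := Q.P) (N := D.P) F h]
  rw [h1, h2]
  exact le_of_eq (by ring)

/-- **the Bergman inequality on powers** -/
theorem prod_bound (D : Dom R) {t : ℂ} {κ : D.P → ℝ≥0∞} (hκ : ∀ x, κ x ≠ ∞)
    (hD : ∀ f : D.P → ℂ, FHol t f → ∀ x, tc x = t →
      ENNReal.ofReal (‖f x‖ ^ 2) ≤ κ x * D.nrm f t) :
    ∀ (j : ℕ) (F : (D.pw j).P → ℂ), FHol t F → ∀ x, tc x = t →
      ENNReal.ofReal (‖F x‖ ^ 2) ≤ tp D κ j x * (D.pw j).nrm F t
  | 0, F, hF, x, hx => hD F hF x hx
  | j + 1, F, hF, x, hx => by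
    set q0 : (D.pw j).P := FP.fst (M := (D.pw j).P) (N := D.P) x with hq0
    set y : D.P := FP.snd (M := (D.pw j).P) (N := D.P) x with hy0
    have hq0t : tc q0 = t := hx
    have hyt : tc y = t := by
      have := FP.cond (M := (D.pw j).P) (N := D.P) x
      show (cp y : Fin (D.a + 1) → ℂ) 0 = t
      rw [hy0, ← this]
      exact hx
    set G : (D.pw j).P → ℂ := fun q => ext2 (M := (D.pw j).P) (N := D.P) F q y with hG
    have hGF : G q0 = F x := by
      have hc : (cp q0 : Fin ((D.pw j).a + 1) → ℂ) 0 = (cp y : Fin (D.a + 1) → ℂ) 0 :=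
        FP.cond (M := (D.pw j).P) (N := D.P) x
      rw [hG]
      show ext2 (M := (D.pw j).P) (N := D.P) F q0 y = _
      rw [ext2_of (M := (D.pw j).P) (N := D.P) F hc]
      rfl
    have hGh : FHol t G := FHol.slice2 (M := (D.pw j).P) (N := D.P) hF y hyt
    have h1 := prod_bound D hκ hD j G hGh q0 hq0t
    rw [hGF] at h1
    have h2 : (D.pw j).nrm G t ≤ κ y * (D.pw (j + 1)).nrm F t := by
      refine le_trans ?_ (mul_le_mul_right (nrm_mul_ge' (D.pw j) D hF) (κ y))
      rw [← fi_const_mul (hκ y)]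
      refine fi_mono fun q hq => ?_
      have hq' : tc q = t := hq
      have h3 := hD _ (FHol.slice1 (M := (D.pw j).P) (N := D.P) hF q hq') y hyt
      unfold Dom.dens
      calc ENNReal.ofReal (‖G q‖ ^ 2) * (D.pw j).wt q
          ≤ (κ y * D.nrm (fun x => ext2 (M := (D.pw j).P) (N := D.P) F q x) t) *
            (D.pw j).wt q := mul_le_mul_left h3 _
        _ = _ := by ring
    calc ENNReal.ofReal (‖F x‖ ^ 2) ≤ tp D κ j q0 * (D.pw j).nrm G t := h1
      _ ≤ tp D κ j q0 * (κ y * (D.pw (j + 1)).nrm F t) := mul_le_mul_right h2 _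
      _ = _ := by
        show _ = (tp D κ j q0 * κ y) * _
        ring

end pw

end Crest.Agent.R276.NbB_185
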