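import Crest.Agent.R276.NbC_185
import Crest.Agent.R276.NbF_185

/-!
# Row 276, task W1 (helper185): the N-Bergman kernel over a disc

`nb`: Ohsawa–Takegoshi + Berndtsson–Păun iteration + tensor powers.
-/

set_option autoImplicit false
set_option linter.unusedSectionVars false
set_option linter.unusedVariables false

noncomputable section

open Set Filter Topology Complex MeasureTheory Metric
open scoped ENNReal ComplexConjugate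

namespace Crest.Agent.R276.NbD_185

open Crest.Agent.R271 Crest.Agent.R271.Ho51 Crest.Agent.R276.PV_159 Crest.Agent.R276.NbB_185
  Crest.Agent.R276.NbA_185 Crest.Agent.R276.NbC_185 Crest.Agent.R276.EngU_29
  Crest.Agent.R276.OTB_189

variable {R : ℝ}

/-- the Borel structure on fibre products -/
local instance instMFP {a b : ℕ} {M N : Type} [TopologicalSpace M] [TopologicalSpace N]
    [RDom (a + 1) M] [RDom (b + 1) N] : MeasurableSpace (FP M N) := borel _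
local instance instBFP {a b : ℕ} {M N : Type} [TopologicalSpace M] [TopologicalSpace N]
    [RDom (a + 1) M] [RDom (b + 1) N] : BorelSpace (FP M N) := ⟨rfl⟩

/-- `pn` in the `enorm` form -/
lemma ofReal_rpow_norm {z : ℂ} {p : ℝ} (hp : 0 ≤ p) : ENNReal.ofReal (‖z‖ ^ p) = ‖z‖ₑ ^ p := by
  rw [← ofReal_norm, ENNReal.ofReal_rpow_of_nonneg (norm_nonneg _) hp]

lemma ofReal_sq_norm {z : ℂ} : ENNReal.ofReal (‖z‖ ^ 2) = ‖z‖ₑ ^ (2 : ℝ) := by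
  rw [← ofReal_norm, ENNReal.ofReal_rpow_of_nonneg (norm_nonneg _) (by norm_num)]
  norm_num

/-- the data of the theorem -/
structure NB (D : Dom R) (θ : ℝ) (K b0 : D.P → ℝ) : Prop where
  h0 : 0 < θ
  h1 : θ ≤ 1
  K_lpsh : LPsh K
  b_lpsh : LPsh b0
  wt : ∀ x, D.wt x = (ENNReal.ofReal (K x ^ (1 - θ) * b0 x))⁻¹
  /-- (B) -/
  bd : ∃ B : ℝ≥0∞, B ≠ ∞ ∧ ∀ t, ‖t‖ < R →
    fi (fun x => ENNReal.ofReal (K x) ^ θ / ENNReal.ofReal (b0 x)) t ≤ B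
  /-- (Cl) -/
  cl : ∀ᵐ t, ‖t‖ < R → ∃ C : ℝ≥0∞, C ≠ ∞ ∧ ∀ f, FHol t f → D.nrm f t < ∞ → ∀ x, tc x = t →
    ENNReal.ofReal (‖f x‖ ^ 2) ≤ C * ENNReal.ofReal (K x) * D.nrm f t

variable {D : Dom R} {θ : ℝ} {K b0 : D.P → ℝ}

lemma tp_ofReal {g : D.P → ℝ} (hg : ∀ x, 0 ≤ g x) (j : ℕ) (x : (D.pw j).P) :
    ENNReal.ofReal (tp D g j x) = tp D (fun x => ENNReal.ofReal (g x)) j x :=
  tp_map (φ := ENNReal.ofReal) (fun j x y => ENNReal.ofReal_mul (tp_nonneg hg j x))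
    (fun _ => rfl) j x

lemma tp_inv {g : D.P → ℝ≥0∞} (hg : ∀ x, g x ≠ ∞) (j : ℕ) (x : (D.pw j).P) :
    (tp D g j x)⁻¹ = tp D (fun x => (g x)⁻¹) j x := by
  have hfin : ∀ (j : ℕ) (x : (D.pw j).P), tp D g j x ≠ ∞ := by
    intro j
    induction j with
    | zero => exact hg
    | succ j ih => exact fun x => ENNReal.mul_ne_top (ih _) (hg _)
  exact tp_map (φ := fun a : ℝ≥0∞ => a⁻¹)
    (fun j x y => ENNReal.mul_inv (Or.inr (hg y)) (Or.inl (hfin j x)))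
    (fun _ => rfl) j x

lemma tp_rpow {g : D.P → ℝ≥0∞} {c : ℝ} (hc : 0 ≤ c) (j : ℕ) (x : (D.pw j).P) :
    (tp D g j x) ^ c = tp D (fun x => (g x) ^ c) j x :=
  tp_map (φ := fun a : ℝ≥0∞ => a ^ c) (fun j x y => ENNReal.mul_rpow_of_nonneg _ _ hc)
    (fun _ => rfl) j x

lemma tp_rpowR {g : D.P → ℝ} (hg : ∀ x, 0 ≤ g x) {c : ℝ} (j : ℕ) (x : (D.pw j).P) :
    (tp D g j x) ^ c = tp D (fun x => (g x) ^ c) j x :=
  tp_map (φ := fun a : ℝ => a ^ c) (fun j x y => Real.mul_rpow (tp_nonneg hg j x) (hg y))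
    (fun _ => rfl) j x

lemma tp_enorm {U : D.P → ℂ} (j : ℕ) (x : (D.pw j).P) :
    ‖tp D U j x‖ₑ = tp D (fun x => ‖U x‖ₑ) j x :=
  tp_map (φ := fun z : ℂ => ‖z‖ₑ) (fun j x y => enorm_mul _ _) (fun _ => rfl) j x

/-- the total integral as an integral over `Q.P` -/
lemma exists_mu (Q : Dom R) : ∃ μ : Measure Q.P, ∀ g : Q.P → ℝ≥0∞, Measurable g →
    ∫⁻ y, g y ∂μ = ∫⁻ t : ℂ, fi g t := by
  obtain ⟨μ, hμ⟩ := Ho51.exists_leb (M := Q.P)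
  exact ⟨μ, fun g hg => lintegral_eq_fi hμ hg⟩

/-! ### rewriting the norms -/

/-- the weight `1/b0` -/
def wi (b0 : D.P → ℝ) (x : D.P) : ℝ≥0∞ := (ENNReal.ofReal (b0 x))⁻¹

lemma wi_meas (hb : LPsh b0) : Measurable (wi b0) := (hb.measurable.ennreal_ofReal).inv

lemma wpw_wi (hb : ∀ x, 0 ≤ b0 x) (j : ℕ) (x : (D.pw j).P) :
    wpw (wi b0) j x = (ENNReal.ofReal (tp D b0 j x))⁻¹ := by
  rw [wpw_eq, tp_ofReal hb, tp_inv fun _ => ENNReal.ofReal_ne_top]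
  rfl

lemma pn_eq (h0 : 0 < θ) (hb : ∀ x, 0 ≤ b0 x) (j : ℕ) (F : (D.pw j).P → ℂ) (t : ℂ) :
    pn (2 * θ) (wpw (wi b0) j) F t =
      fi (fun x => ‖F x‖ₑ ^ (2 * θ) / ENNReal.ofReal (tp D b0 j x)) t := by
  unfold pn
  refine fi_congr fun x _ => ?_
  rw [wpw_wi hb, ofReal_rpow_norm (by linarith), ENNReal.div_eq_inv_mul, mul_comm]

lemma wt_tp (H : NB D θ K b0) (j : ℕ) (x : (D.pw j).P) :
    (D.pw j).wt x = (ENNReal.ofReal (tp D K j x ^ (1 - θ) * tp D b0 j x))⁻¹ := by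
  have h2 : D.wt = fun x => (ENNReal.ofReal (K x ^ (1 - θ) * b0 x))⁻¹ := funext H.wt
  rw [wt_eq, h2, ← tp_inv (fun _ => ENNReal.ofReal_ne_top)]
  congr 1
  rw [← tp_ofReal (fun x => mul_nonneg (Real.rpow_nonneg (H.K_lpsh.nonneg x) _)
    (H.b_lpsh.nonneg x)), tp_mul, tp_rpowR H.K_lpsh.nonneg]

lemma nrm_eq (H : NB D θ K b0) (j : ℕ) (F : (D.pw j).P → ℂ) (t : ℂ) :
    (D.pw j).nrm F t = fi (fun x => ENNReal.ofReal (‖F x‖ ^ 2) /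
      ENNReal.ofReal (tp D K j x ^ (1 - θ) * tp D b0 j x)) t := by
  unfold Dom.nrm
  refine fi_congr fun x _ => ?_
  unfold Dom.dens
  rw [wt_tp H, ENNReal.div_eq_inv_mul, mul_comm]

lemma lpsh_start (H : NB D θ K b0) (j : ℕ) :
    LPsh (fun x : (D.pw j).P => tp D K j x ^ (1 - θ) * tp D b0 j x) :=
  ((tp_lpsh H.K_lpsh j).rpow (by linarith [H.h1])).mul (tp_lpsh H.b_lpsh j)

lemma lpsh_next (H : NB D θ K b0) (j : ℕ) {F : (D.pw j).P → ℂ} (hF : Hol F) :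
    LPsh (fun x : (D.pw j).P => ‖F x‖ ^ (2 * (1 - θ)) * tp D b0 j x) :=
  (LPsh.of_hol_rpow hF (by linarith [H.h1])).mul (tp_lpsh H.b_lpsh j)

/-! ### pointwise inequalities -/

lemma pt1 (h0 : 0 < θ) (h1 : θ ≤ 1) {u k β c : ℝ≥0∞} (hu : u ≠ ∞) (hk : k ≠ ∞) (hc : c ≠ ∞)
    (h : u ^ (2 : ℝ) ≤ c * k) :
    u ^ (2 : ℝ) / (k ^ (1 - θ) * β) ≤ c ^ (1 - θ) * (u ^ (2 * θ) / β) := by
  have ha : 0 ≤ 1 - θ := by linarith
  rcases eq_or_ne u 0 with hu0 | hu0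
  · rw [hu0, ENNReal.zero_rpow_of_pos (by norm_num), ENNReal.zero_div]
    exact zero_le
  have hk0 : k ≠ 0 := by
    rintro rfl
    rw [mul_zero] at h
    exact (ENNReal.rpow_pos (pos_iff_ne_zero.2 hu0) hu).ne' (le_antisymm h zero_le)
  have e1 : u ^ (2 : ℝ) = u ^ (2 * θ) * (u ^ (2 : ℝ)) ^ (1 - θ) := by
    rw [← ENNReal.rpow_mul, ← ENNReal.rpow_add _ _ hu0 hu]
    congr 1
    ring
  have e2 : (u ^ (2 : ℝ)) ^ (1 - θ) ≤ c ^ (1 - θ) * k ^ (1 - θ) := by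
    rw [← ENNReal.mul_rpow_of_nonneg _ _ ha]
    exact ENNReal.rpow_le_rpow h ha
  have hka : k ^ (1 - θ) ≠ 0 := (ENNReal.rpow_pos (pos_iff_ne_zero.2 hk0) hk).ne'
  have hkt : k ^ (1 - θ) ≠ ∞ := ENNReal.rpow_ne_top_of_nonneg ha hk
  rw [ENNReal.div_eq_inv_mul, ENNReal.div_eq_inv_mul,
    ENNReal.mul_inv (Or.inl hka) (Or.inl hkt)]
  calc (k ^ (1 - θ))⁻¹ * β⁻¹ * u ^ (2 : ℝ)
      = (k ^ (1 - θ))⁻¹ * β⁻¹ * (u ^ (2 * θ) * (u ^ (2 : ℝ)) ^ (1 - θ)) := by rw [← e1]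
    _ ≤ (k ^ (1 - θ))⁻¹ * β⁻¹ * (u ^ (2 * θ) * (c ^ (1 - θ) * k ^ (1 - θ))) := by gcongr
    _ = ((k ^ (1 - θ))⁻¹ * k ^ (1 - θ)) * (c ^ (1 - θ) * (β⁻¹ * u ^ (2 * θ))) := by ring
    _ = _ := by rw [ENNReal.inv_mul_cancel hka hkt, one_mul]

lemma pt2 (h1 : θ ≤ 1) {f k β c X : ℝ≥0∞} (hc0 : c ≠ 0) (hc : c ≠ ∞)
    (h : f ^ (2 : ℝ) ≤ c * k) :
    X / (k ^ (1 - θ) * β) ≤ c ^ (1 - θ) * (X / (f ^ (2 * (1 - θ)) * β)) := by
  have ha : 0 ≤ 1 - θ := by linarith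
  have e2 : f ^ (2 * (1 - θ)) ≤ c ^ (1 - θ) * k ^ (1 - θ) := by
    rw [← ENNReal.mul_rpow_of_nonneg _ _ ha, ENNReal.rpow_mul]
    exact ENNReal.rpow_le_rpow h ha
  have hca : c ^ (1 - θ) ≠ 0 := (ENNReal.rpow_pos (pos_iff_ne_zero.2 hc0) hc).ne'
  have hct : c ^ (1 - θ) ≠ ∞ := ENNReal.rpow_ne_top_of_nonneg ha hc
  have e3 : (c ^ (1 - θ))⁻¹ * (k ^ (1 - θ) * β)⁻¹ ≤ (f ^ (2 * (1 - θ)) * β)⁻¹ := by
    rw [← ENNReal.mul_inv (Or.inl hca) (Or.inl hct)]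
    apply ENNReal.inv_le_inv.2
    calc f ^ (2 * (1 - θ)) * β ≤ (c ^ (1 - θ) * k ^ (1 - θ)) * β := by gcongr
      _ = _ := by ring
  rw [ENNReal.div_eq_inv_mul, ENNReal.div_eq_inv_mul]
  calc (k ^ (1 - θ) * β)⁻¹ * X = c ^ (1 - θ) * (((c ^ (1 - θ))⁻¹ * (k ^ (1 - θ) * β)⁻¹) * X) := by
        rw [← mul_assoc, ← mul_assoc, ENNReal.mul_inv_cancel hca hct, one_mul]
    _ ≤ _ := by gcongr

lemma pt3 (h0 : 0 < θ) (h1 : θ ≤ 1) {u β : ℝ≥0∞} (hu : u ≠ ∞) :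
    u ^ (2 : ℝ) / (u ^ (2 * (1 - θ)) * β) = u ^ (2 * θ) / β := by
  have ha : 0 ≤ 2 * (1 - θ) := by linarith
  rcases eq_or_ne u 0 with hu0 | hu0
  · rw [hu0, ENNReal.zero_rpow_of_pos (by norm_num), ENNReal.zero_div,
      ENNReal.zero_rpow_of_pos (by linarith), ENNReal.zero_div]
  have hn0 : u ^ (2 * (1 - θ)) ≠ 0 := (ENNReal.rpow_pos (pos_iff_ne_zero.2 hu0) hu).ne'
  have hnt : u ^ (2 * (1 - θ)) ≠ ∞ := ENNReal.rpow_ne_top_of_nonneg ha hu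
  have e1 : u ^ (2 : ℝ) = u ^ (2 * (1 - θ)) * u ^ (2 * θ) := by
    rw [← ENNReal.rpow_add _ _ hu0 hu]
    congr 1
    ring
  rw [ENNReal.div_eq_inv_mul, ENNReal.div_eq_inv_mul, ENNReal.mul_inv (Or.inl hn0) (Or.inl hnt),
    e1]
  calc (u ^ (2 * (1 - θ)))⁻¹ * β⁻¹ * (u ^ (2 * (1 - θ)) * u ^ (2 * θ))
      = ((u ^ (2 * (1 - θ)))⁻¹ * u ^ (2 * (1 - θ))) * (β⁻¹ * u ^ (2 * θ)) := by ring
    _ = _ := by rw [ENNReal.inv_mul_cancel hn0 hnt, one_mul]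

/-! ### the central fibre -/

lemma ind_meas {t : ℂ} {U : D.P → ℂ} (hU : FHol t U) {p : ℝ} {w : D.P → ℝ≥0∞}
    (hw : Measurable w) :
    Measurable ({x : D.P | tc x = t}.indicator fun x => ‖U x‖ₑ ^ p * w x) := by
  have h1 := FHol.measurable_ind hU
  have h2 : ({x : D.P | tc x = t}.indicator fun x => ‖U x‖ₑ ^ p * w x) =
      {x : D.P | tc x = t}.indicator fun x => ‖{x : D.P | tc x = t}.indicator U x‖ₑ ^ p * w x := by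
    funext x
    by_cases hx : x ∈ {x : D.P | tc x = t}
    · rw [indicator_of_mem hx, indicator_of_mem hx, indicator_of_mem hx]
    · rw [indicator_of_notMem hx, indicator_of_notMem hx]
  rw [h2]
  exact ((h1.enorm.pow_const p).mul hw).indicator (isClosed_fib t).measurableSet

/-- `fi (|U^⊗|^p w^⊗) = (fi (|U|^p w))^(j+1)` -/
lemma fi_pow {t : ℂ} {U : D.P → ℂ} (hU : FHol t U) {p : ℝ} (hp : 0 ≤ p) {w : D.P → ℝ≥0∞}
    (hw : Measurable w) (j : ℕ) :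
    fi (fun x : (D.pw j).P => ‖D.upw U j x‖ₑ ^ p * tp D w j x) t =
      fi (fun x => ‖U x‖ₑ ^ p * w x) t ^ (j + 1) := by
  rw [← fi_tp (ind_meas hU hw) j]
  refine fi_congr fun x _ => ?_
  rw [upw_eq, tp_enorm, tp_rpow hp, ← tp_mul]

end Crest.Agent.R276.NbD_185
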