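import Mathlib
import Crest.Agent.R276.Sl_748
import Crest.Agent.R276.Mod4_987

/-!
# Stein data with the weight `(∑ |u_i|²)^{-(1-1/N)}` on a model (helper999, row 276; for 159)
-/

set_option autoImplicit false
set_option linter.unusedSectionVars false

open MeasureTheory Filter Topology
open scoped ENNReal

namespace Crest.Agent.R276.StU_999

open Crest.Agent.R271 Crest.Agent.R271.Ho51 Crest.Agent.R276.Mod1_987
open Crest.Agent.R271.W792 (nS lg lev sm_lg lev_lg_nonneg lg_antitone nS_nonneg)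
open Crest.Agent.R276.Sl_748 (SD)

/-- the supremum of the regularised weights -/
theorem iSup_wt {S α : ℝ} (hS : 0 ≤ S) (hα : 0 ≤ α) :
    ⨆ k : ℕ, ENNReal.ofReal (Real.exp (-(α * Real.log (S + 1 / ((k : ℝ) + 1))))) =
      (ENNReal.ofReal (S ^ α))⁻¹ := by
  have hδ : ∀ k : ℕ, 0 < 1 / ((k : ℝ) + 1) := fun k => by positivity
  have hg : ∀ k : ℕ, ENNReal.ofReal (Real.exp (-(α * Real.log (S + 1 / ((k : ℝ) + 1))))) =
      (ENNReal.ofReal ((S + 1 / ((k : ℝ) + 1)) ^ α))⁻¹ := by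
    intro k
    have hp : 0 < S + 1 / ((k : ℝ) + 1) := by have := hδ k; linarith
    rw [← ENNReal.ofReal_inv_of_pos (Real.rpow_pos_of_pos hp α), Real.rpow_def_of_pos hp,
      ← Real.exp_neg, mul_comm α]
  have hmono : Monotone fun k : ℕ =>
      ENNReal.ofReal (Real.exp (-(α * Real.log (S + 1 / ((k : ℝ) + 1))))) := by
    intro k l hkl
    apply ENNReal.ofReal_le_ofReal
    apply Real.exp_le_exp.mpr
    apply neg_le_neg
    apply mul_le_mul_of_nonneg_left _ hα
    apply Real.log_le_log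
    · have := hδ l; linarith
    · have : (1 : ℝ) / ((l : ℝ) + 1) ≤ 1 / ((k : ℝ) + 1) := by
        apply one_div_le_one_div_of_le (by positivity)
        have : (k : ℝ) ≤ l := by exact_mod_cast hkl
        linarith
      linarith
  refine tendsto_nhds_unique (tendsto_atTop_iSup hmono) ?_
  simp only [hg]
  have h1 : Tendsto (fun k : ℕ => S + 1 / ((k : ℝ) + 1)) atTop (𝓝 (S + 0)) :=
    tendsto_const_nhds.add tendsto_one_div_add_atTop_nhds_zero_nat
  rw [add_zero] at h1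
  have h2 := ((Real.continuous_rpow_const hα).tendsto S).comp h1
  exact ((continuous_inv (G := ℝ≥0∞)).tendsto _).comp
    ((ENNReal.continuous_ofReal.tendsto _).comp h2)

theorem alpha_nonneg (N : ℕ) : (0 : ℝ) ≤ 1 - 1 / N := by
  rcases Nat.eq_zero_or_pos N with h | h
  · subst h; simp
  · have : (1 : ℝ) ≤ N := by exact_mod_cast h
    have h2 : (1 : ℝ) / N ≤ 1 := by rw [div_le_one (by positivity)]; exact this
    linarith

section general

variable {n : ℕ} {M : Type} [TopologicalSpace M] [RDom n M] {ι : Type*} [Fintype ι]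

/-- Stein data with weight `(∑ |f_i|²)^{-(1-1/N)}` -/
noncomputable def sdF {ρ : M → ℝ} (h1 : Sm ρ) (h2 : ∀ c : ℝ, IsCompact {x | ρ x ≤ c})
    (h3 : ∀ x w, nsq w ≤ lev ρ x w) (f : ι → M → ℂ) (hf : ∀ i, W792.Hol (f i)) (N : ℕ) :
    SD n M where
  ρ := ρ
  ρ_sm := h1
  ρ_cpt := h2
  ρ_lev := h3
  φ k x := (1 - 1 / N : ℝ) * lg f (1 / ((k : ℝ) + 1)) x
  φ_sm k := by
    have hp : ∀ x, 0 < nS f x + 1 / ((k : ℝ) + 1) := fun x => by
      have := nS_nonneg f x
      positivity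
    exact (Sm.const (1 - 1 / N : ℝ)).mulR (sm_lg (fun j => (hf j).sm) hp)
  φ_anti x := by
    intro k l hkl
    apply mul_le_mul_of_nonneg_left _ (alpha_nonneg N)
    apply lg_antitone
    · apply one_div_le_one_div_of_le (by positivity)
      have : (k : ℝ) ≤ l := by exact_mod_cast hkl
      linarith
    · have := nS_nonneg f x
      positivity
  φ_lev k x w := by
    have hp : ∀ x, 0 < nS f x + 1 / ((k : ℝ) + 1) := fun x => by
      have := nS_nonneg f x
      positivity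
    rw [W792.lev_const_mul (sm_lg (fun j => (hf j).sm) hp)]
    exact mul_nonneg (alpha_nonneg N) (lev_lg_nonneg hf (by positivity) hp x w)

theorem sdF_wt {ρ : M → ℝ} (h1 : Sm ρ) (h2 : ∀ c : ℝ, IsCompact {x | ρ x ≤ c})
    (h3 : ∀ x w, nsq w ≤ lev ρ x w) (f : ι → M → ℂ) (hf : ∀ i, W792.Hol (f i)) (N : ℕ) (x : M) :
    (sdF h1 h2 h3 f hf N).wt x =
      (ENNReal.ofReal ((∑ i, ‖f i x‖ ^ 2) ^ (1 - 1 / N : ℝ)))⁻¹ :=
  iSup_wt (nS_nonneg f x) (alpha_nonneg N)

end general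

section model

variable {K : Type} [Field K] [Algebra ℂ K] {n : ℕ} (M : Mdl K n) {s : ℕ}

/-- **Stein data on a model** with weight `(∑ |u_i|²)^{-(1-1/N)}` -/
noncomputable def sdU (u : Fin s → M.B) (N : ℕ) : SD n M.Pts :=
  sdF (ρ := M.exists_rho.choose) M.exists_rho.choose_spec.1 M.exists_rho.choose_spec.2.1
    (fun x w => by
      rw [← W792.Levi_eq_lev M.exists_rho.choose_spec.1]
      exact M.exists_rho.choose_spec.2.2 x w)
    (fun i (y : M.Pts) => y (u i)) (fun i => M.hol792_ev (u i)) N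

theorem sdU_wt (u : Fin s → M.B) (N : ℕ) (y : M.Pts) :
    (sdU M u N).wt y = (ENNReal.ofReal ((∑ i, ‖y (u i)‖ ^ 2) ^ (1 - 1 / N : ℝ)))⁻¹ :=
  sdF_wt _ _ _ _ _ N y

theorem sdU_φ (u : Fin s → M.B) (N k : ℕ) (y : M.Pts) :
    (sdU M u N).φ k y =
      (1 - 1 / N : ℝ) * Real.log ((∑ i, ‖y (u i)‖ ^ 2) + 1 / ((k : ℝ) + 1)) := rfl

end model

end Crest.Agent.R276.StU_999
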