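import Crest.Agent.R276.W1Defs_185
import Crest.Agent.R276.NbD_185
import Crest.Agent.R276.StU_999

/-!
# Row 276, task W1 (helper505, for helper185): the frame bound and the re-weighted product domain

* `fr`, `fr_of`: `FR H u v (ε/d) ε`;
* `rew`: a Stein family over a disc with a new weight `(∑ |F_i|²)^α (|δ|²)^β`;
* `tpI V j I = ∏_i V_{I i}(p_i)`, `sum_tpI : ∑_I |tpI V j I p|² = tp D (∑ |V_i|²) j p`;
* `nb_of`: the data `NB` of helper185's theorem on the re-weighted powers.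
-/

set_option autoImplicit false
set_option linter.unusedSectionVars false

noncomputable section

open Set Filter Topology MeasureTheory
open scoped ENNReal

namespace Crest.Agent.R276.C1cp_505

/-! ### the frame bound -/

section FR

open Crest.Agent.R271 Crest.Agent.R271.Defs710 Crest.Agent.R271.Rd692 Crest.Agent.R271.Ho51
open Crest.Agent.R276.Mod1_987 Crest.Agent.R276.SkelDefs_220 Crest.Agent.R276.W1_185

variable {L K : Type} [Field L] [Field K] [Algebra ℂ L] [Algebra ℂ K] [Algebra L K]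
  [IsScalarTower ℂ L K] {m r : ℕ} {ML : Mdl L m} {MK : Mdl K (m + r)}

lemma Kf_nonneg {q : ℕ} (v : Fin q → MK.B) (y : MK.Pts) : 0 ≤ Kf v y :=
  Finset.sum_nonneg fun _ _ => by positivity

lemma norm_det_le {s : ℕ} (A : Matrix (Fin s) (Fin s) ℂ) {M : Fin s → ℝ}
    (h : ∀ i j, ‖A i j‖ ≤ M j) : ‖A.det‖ ≤ (s.factorial : ℝ) * ∏ j, M j := by
  rw [Matrix.det_apply]
  refine (norm_sum_le _ _).trans ?_
  have h1 : ∀ σ : Equiv.Perm (Fin s), ‖Equiv.Perm.sign σ • ∏ i, A (σ i) i‖ ≤ ∏ j, M j := by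
    intro σ
    rw [Units.smul_def, zsmul_eq_mul, norm_mul]
    have h2 : ‖((Equiv.Perm.sign σ : ℤ) : ℂ)‖ = 1 := by
      rcases Int.units_eq_one_or (Equiv.Perm.sign σ) with h | h <;> rw [h] <;> simp
    rw [h2, one_mul, norm_prod]
    exact Finset.prod_le_prod (fun _ _ => norm_nonneg _) fun i _ => h _ _
  refine (Finset.sum_le_sum fun σ _ => h1 σ).trans ?_
  rw [Finset.sum_const, Finset.card_univ, Fintype.card_perm, Fintype.card_fin, nsmul_eq_mul]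

/-- **the frame bound**, from `|u_i|^(2d) ≤ c K` -/
theorem fr_of (H : Rel ML MK) {s : ℕ} (u : Fin s → MK.B) {q : ℕ} (v : Fin q → MK.B) {d : ℕ}
    (hd : 0 < d) {c : ℝ} (hc : 0 ≤ c) (h : ∀ i (y : MK.Pts), ‖y (u i)‖ ^ (2 * d) ≤ c * Kf v y) {ε : ℝ}
    (hε : 0 ≤ ε) : FR H u v (ε / d) ε := by
  have hd' : (0 : ℝ) < d := by exact_mod_cast hd
  set e : ℝ := 1 / (2 * d) with he
  have he0 : 0 ≤ e := by positivity
  have h1 : ∀ i (y : MK.Pts), ‖y (u i)‖ ≤ (c * Kf v y) ^ e := by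
    intro i y
    have h2 : ‖y (u i)‖ = (‖y (u i)‖ ^ (2 * d)) ^ e := by
      rw [← Real.rpow_natCast, ← Real.rpow_mul (norm_nonneg _), he]
      push_cast
      rw [mul_one_div_cancel (by positivity), Real.rpow_one]
    rw [h2]
    exact Real.rpow_le_rpow (by positivity) (h i y) he0
  refine ⟨((s.factorial : ℝ) * c ^ (e * s) + 1) ^ (2 * ε), by positivity, fun y => ?_⟩
  have hK : ∀ j, 0 ≤ Kf v (y j) := fun j => Kf_nonneg v (y j)
  have hP : 0 ≤ ∏ j, Kf v (y j) := Finset.prod_nonneg fun j _ => hK j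
  have h3 : ‖dl u y‖ ≤ (s.factorial : ℝ) * ∏ j, (c * Kf v (y j)) ^ e := by
    unfold dl
    exact norm_det_le _ fun i j => h1 _ _
  have h4 : ∏ j, (c * Kf v (y j)) ^ e = c ^ (e * s) * (∏ j, Kf v (y j)) ^ e := by
    rw [Real.finsetProd_rpow _ _ (fun j _ => mul_nonneg hc (hK j)), Finset.prod_mul_distrib,
      Finset.prod_const, Finset.card_univ, Fintype.card_fin, Real.mul_rpow (by positivity) hP,
      ← Real.rpow_natCast, ← Real.rpow_mul hc, mul_comm (s : ℝ) e]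
  rw [h4, ← mul_assoc] at h3
  have h5 : ‖dl u y‖ ≤ ((s.factorial : ℝ) * c ^ (e * s) + 1) * (∏ j, Kf v (y j)) ^ e := by
    refine h3.trans (mul_le_mul_of_nonneg_right (by linarith) (Real.rpow_nonneg hP _))
  calc ‖dl u y‖ ^ (2 * ε)
      ≤ (((s.factorial : ℝ) * c ^ (e * s) + 1) * (∏ j, Kf v (y j)) ^ e) ^ (2 * ε) :=
        Real.rpow_le_rpow (norm_nonneg _) h5 (by positivity)
    _ = ((s.factorial : ℝ) * c ^ (e * s) + 1) ^ (2 * ε) * (∏ j, Kf v (y j)) ^ (ε / d) := by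
        rw [Real.mul_rpow (by positivity) (Real.rpow_nonneg hP _), ← Real.rpow_mul hP]
        congr 2
        rw [he]
        field_simp

/-- **the frame bound**, if the family `v` contains all `u_i^d` -/
theorem fr (H : Rel ML MK) {s : ℕ} (u : Fin s → MK.B) {q : ℕ} (v : Fin q → MK.B) {d : ℕ}
    (hd : 0 < d) (h : ∀ i, ∃ k, v k = u i ^ d) {ε : ℝ} (hε : 0 ≤ ε) : FR H u v (ε / d) ε := by
  refine fr_of H u v hd zero_le_one (fun i y => ?_) hε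
  obtain ⟨k, hk⟩ := h i
  rw [one_mul, mul_comm 2 d, pow_mul, ← norm_pow, ← map_pow, ← hk]
  exact Finset.single_le_sum (f := fun k => ‖y (v k)‖ ^ 2) (fun _ _ => by positivity)
    (Finset.mem_univ k)

end FR

/-! ### the re-weighted domain -/

section rew

open Complex Metric
open scoped ComplexConjugate
open Crest.Agent.R271 Crest.Agent.R271.Ho51 Crest.Agent.R276.PV_159 Crest.Agent.R276.NbB_185
  Crest.Agent.R276.NbA_185 Crest.Agent.R276.NbC_185 Crest.Agent.R276.NbD_185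
  Crest.Agent.R276.EngU_29 Crest.Agent.R276.OTB_189
open Crest.Agent.R271.W792 (nS lg lev sm_lg lev_lg_nonneg lg_antitone nS_nonneg lev_add
  lev_const_mul)

variable {R : ℝ}

/-- the Borel structure on fibre products -/
local instance instMFPc {a b : ℕ} {M N : Type} [TopologicalSpace M] [TopologicalSpace N]
    [RDom (a + 1) M] [RDom (b + 1) N] : MeasurableSpace (FP M N) := borel _
local instance instBFPc {a b : ℕ} {M N : Type} [TopologicalSpace M] [TopologicalSpace N]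
    [RDom (a + 1) M] [RDom (b + 1) N] : BorelSpace (FP M N) := ⟨rfl⟩

section gen

variable {n : ℕ} {M : Type} [TopologicalSpace M] [RDom n M] {ι : Type} [Fintype ι]

/-- `α log (∑ |F_i|² + 1/(k+1))` -/
def wl (F : ι → M → ℂ) (α : ℝ) (k : ℕ) (x : M) : ℝ := α * lg F (1 / ((k : ℝ) + 1)) x

lemma wl_pos (F : ι → M → ℂ) (k : ℕ) (x : M) : 0 < nS F x + 1 / ((k : ℝ) + 1) := by
  have := nS_nonneg F x
  positivity

lemma wl_sm {F : ι → M → ℂ} (hF : ∀ i, Ho51.Hol (F i)) (α : ℝ) (k : ℕ) : Sm (wl F α k) :=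
  (Sm.const α).mulR (sm_lg (fun j => (hol_of _ (hF j)).sm) (wl_pos F k))

lemma wl_anti {F : ι → M → ℂ} {α : ℝ} (hα : 0 ≤ α) (x : M) : Antitone fun k => wl F α k x := by
  intro k l hkl
  refine mul_le_mul_of_nonneg_left (lg_antitone _ ?_ x (wl_pos F l x)) hα
  have : (k : ℝ) ≤ l := by exact_mod_cast hkl
  gcongr

lemma wl_lev {F : ι → M → ℂ} (hF : ∀ i, Ho51.Hol (F i)) {α : ℝ} (hα : 0 ≤ α) (k : ℕ) (x : M)
    (w : Fin n → ℂ) : 0 ≤ lev (wl F α k) x w := by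
  have h1 : lev (wl F α k) x w = α * lev (lg F (1 / ((k : ℝ) + 1))) x w :=
    lev_const_mul (sm_lg (fun j => (hol_of _ (hF j)).sm) (wl_pos F k)) _ x w
  rw [h1]
  exact mul_nonneg hα (lev_lg_nonneg (fun j => hol_of _ (hF j)) (by positivity) (wl_pos F k) x w)

lemma wl_iSup {F : ι → M → ℂ} {α : ℝ} (hα : 0 ≤ α) (x : M) :
    ⨆ k : ℕ, ENNReal.ofReal (Real.exp (-wl F α k x)) =
      (ENNReal.ofReal ((∑ i, ‖F i x‖ ^ 2) ^ α))⁻¹ :=
  StU_999.iSup_wt (nS_nonneg F x) hα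

end gen

/-- **the domain `Q` with the weight `((∑ |F_i|²)^α (|δ|²)^β)⁻¹`** -/
@[reducible] def rew (Q : Dom R) {ι : Type} [Fintype ι] (F : ι → Q.P → ℂ)
    (hF : ∀ i, Ho51.Hol (F i)) {α : ℝ} (hα : 0 ≤ α) (δ : Q.P → ℂ) (hδ : Ho51.Hol δ) {β : ℝ}
    (hβ : 0 ≤ β) : Dom R where
  P := Q.P
  a := Q.a
  ρ := Q.ρ
  ρ_sm := Q.ρ_sm
  ρ_cpt := Q.ρ_cpt
  ρ_lev := Q.ρ_lev
  φ k x := wl F α k x + wl (fun _ : Unit => δ) β k x
  φ_sm k := (wl_sm hF α k).add (wl_sm (fun _ => hδ) β k)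
  φ_anti x _ _ h := add_le_add (wl_anti hα x h) (wl_anti hβ x h)
  φ_lev k x w := by
    rw [lev_add (wl_sm hF α k) (wl_sm (fun _ => hδ) β k)]
    exact add_nonneg (wl_lev hF hα k x w) (wl_lev (fun _ => hδ) hβ k x w)
  tR := Q.tR

section

variable (Q : Dom R) {ι : Type} [Fintype ι] (F : ι → Q.P → ℂ)
    (hF : ∀ i, Ho51.Hol (F i)) {α : ℝ} (hα : 0 ≤ α) (δ : Q.P → ℂ) (hδ : Ho51.Hol δ) {β : ℝ}
    (hβ : 0 ≤ β)

lemma rew_wt (x : Q.P) : (rew Q F hF hα δ hδ hβ).wt x =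
    (ENNReal.ofReal ((∑ i, ‖F i x‖ ^ 2) ^ α * (‖δ x‖ ^ 2) ^ β))⁻¹ := by
  have h1 : ∀ k : ℕ, ENNReal.ofReal (Real.exp (-(rew Q F hF hα δ hδ hβ).φ k x)) =
      ENNReal.ofReal (Real.exp (-wl F α k x)) *
        ENNReal.ofReal (Real.exp (-wl (fun _ : Unit => δ) β k x)) := by
    intro k
    rw [← ENNReal.ofReal_mul (Real.exp_pos _).le, ← Real.exp_add]
    congr 2
    show -(wl F α k x + wl (fun _ : Unit => δ) β k x) = _
    ring
  have h2 : ∀ {ι : Type} [Fintype ι] (G : ι → Q.P → ℂ) {γ : ℝ}, 0 ≤ γ →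
      Monotone fun k => ENNReal.ofReal (Real.exp (-wl G γ k x)) := fun G _ hγ i j h =>
    ENNReal.ofReal_le_ofReal (Real.exp_le_exp.2 (neg_le_neg (wl_anti hγ x h)))
  unfold Dom.wt
  simp only [h1]
  rw [iSup_mul_iSup_mono (h2 F hα) (h2 _ hβ), wl_iSup hα, wl_iSup hβ,
    ENNReal.ofReal_mul (Real.rpow_nonneg (Finset.sum_nonneg fun _ _ => by positivity) _),
    ENNReal.mul_inv (Or.inr ENNReal.ofReal_ne_top) (Or.inl ENNReal.ofReal_ne_top)]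
  congr 3
  simp

lemma rew_wt' (x : Q.P) : (rew Q F hF hα δ hδ hβ).wt x =
    (ENNReal.ofReal ((∑ i, ‖F i x‖ ^ 2) ^ α * ‖δ x‖ ^ (2 * β)))⁻¹ := by
  rw [rew_wt, Real.rpow_mul (norm_nonneg _)]
  norm_num

end

/-! ### products of `V_{I i}` -/

section tpI

variable {D : Dom R} {q : ℕ}

/-- `∏_i V_{I i}(p_i)` on the fibre power -/
def tpI (V : Fin q → D.P → ℂ) : ∀ j : ℕ, (Fin (j + 1) → Fin q) → (D.pw j).P → ℂ
  | 0, I => V (I 0)
  | j + 1, I => fun p => tpI V j (fun i => I i.castSucc) (FP.fst (M := (D.pw j).P) (N := D.P) p) *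
      V (I (Fin.last _)) (FP.snd (M := (D.pw j).P) (N := D.P) p)

lemma tpI_hol {V : Fin q → D.P → ℂ} (hV : ∀ i, Ho51.Hol (V i)) :
    ∀ (j : ℕ) (I : Fin (j + 1) → Fin q), Ho51.Hol (tpI V j I)
  | 0, I => hV (I 0)
  | j + 1, I => hol_mul (hol_to _ (FP.mor_fst.hol (hol_of _ (tpI_hol hV j fun i => I i.castSucc))))
      (hol_to _ (FP.mor_snd.hol (hol_of _ (hV (I (Fin.last _))))))

lemma sum_tpI (V : Fin q → D.P → ℂ) : ∀ (j : ℕ) (p : (D.pw j).P),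
    ∑ I : Fin (j + 1) → Fin q, ‖tpI V j I p‖ ^ 2 = tp D (fun x => ∑ i, ‖V i x‖ ^ 2) j p
  | 0, p => by
    show ∑ I : Fin 1 → Fin q, ‖V (I 0) p‖ ^ 2 = ∑ i, ‖V i p‖ ^ 2
    exact (Equiv.funUnique (Fin 1) (Fin q)).sum_comp fun i => ‖V i p‖ ^ 2
  | j + 1, p => by
    rw [tp_succ, ← sum_tpI V j, Finset.sum_mul_sum, ← Fintype.sum_prod_type',
      ← (Fin.snocEquiv fun _ : Fin (j + 2) => Fin q).sum_comp, ← (Equiv.prodComm _ _).sum_comp]
    refine Finset.sum_congr rfl fun I _ => ?_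
    show ‖tpI V j (fun i => (Fin.snoc (α := fun _ => Fin q) I.1 I.2 : Fin (j + 2) → Fin q)
      i.castSucc) _ * V ((Fin.snoc (α := fun _ => Fin q) I.1 I.2 : Fin (j + 2) → Fin q)
      (Fin.last _)) _‖ ^ 2 = _
    simp only [Fin.snoc_castSucc, Fin.snoc_last]
    rw [norm_mul, mul_pow]

end tpI

/-! ### the comparison of the weights -/

lemma inv_le_of {a b c : ℝ≥0∞} (hc0 : c ≠ 0) (hc : c ≠ ∞) (h : a ≤ c * b) : b⁻¹ ≤ c * a⁻¹ := by
  have h1 : (c * b)⁻¹ ≤ a⁻¹ := ENNReal.inv_le_inv.2 h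
  rw [ENNReal.mul_inv (Or.inl hc0) (Or.inl hc)] at h1
  calc b⁻¹ = c * (c⁻¹ * b⁻¹) := by rw [← mul_assoc, ENNReal.mul_inv_cancel hc0 hc, one_mul]
    _ ≤ c * a⁻¹ := mul_le_mul_right h1 _

lemma wt_comp {k b c θ θ1 : ℝ} (hk : 0 ≤ k) (hc : 0 < c) (hθ : θ1 ≤ θ) (h1 : θ ≤ 1)
    (h : b ≤ c * k ^ (θ - θ1)) :
    (ENNReal.ofReal (k ^ (1 - θ1)))⁻¹ ≤
      ENNReal.ofReal c * (ENNReal.ofReal (k ^ (1 - θ) * b))⁻¹ := by
  refine inv_le_of (ENNReal.ofReal_pos.2 hc).ne' ENNReal.ofReal_ne_top ?_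
  rw [← ENNReal.ofReal_mul hc.le]
  apply ENNReal.ofReal_le_ofReal
  have h2 : k ^ (1 - θ1) = k ^ (1 - θ) * k ^ (θ - θ1) := by
    rw [← Real.rpow_add_of_nonneg hk (by linarith) (by linarith)]
    congr 1
    ring
  rw [h2]
  calc k ^ (1 - θ) * b ≤ k ^ (1 - θ) * (c * k ^ (θ - θ1)) :=
        mul_le_mul_of_nonneg_left h (Real.rpow_nonneg hk _)
    _ = _ := by ring

/-! ### the data of the theorem -/

/-- **the data `NB` on the re-weighted powers** -/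
theorem nb_of (D : Dom R) {q : ℕ} (V : Fin q → D.P → ℂ) (hV : ∀ i, Ho51.Hol (V i))
    {θ θ1 ε : ℝ} (h0 : 0 < θ1) (h01 : θ1 ≤ θ) (h1 : θ ≤ 1) (hε : 0 ≤ ε)
    (hwt : ∀ x, D.wt x = (ENNReal.ofReal ((∑ i, ‖V i x‖ ^ 2) ^ (1 - θ1)))⁻¹)
    (j : ℕ) (δ : (D.pw j).P → ℂ) (hδ : Ho51.Hol δ)
    (hFR : ∃ C : ℝ, 0 < C ∧ ∀ p, ‖δ p‖ ^ (2 * ε) ≤
      C * (tp D (fun x => ∑ i, ‖V i x‖ ^ 2) j p) ^ (θ - θ1))
    (hbd : ∃ B : ℝ≥0∞, B ≠ ∞ ∧ ∀ t, ‖t‖ < R →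
      fi (fun p : (D.pw j).P => ENNReal.ofReal (tp D (fun x => ∑ i, ‖V i x‖ ^ 2) j p) ^ θ /
        ENNReal.ofReal (‖δ p‖ ^ (2 * ε))) t ≤ B)
    (hcl : ∀ᵐ t, ‖t‖ < R → ∃ C : ℝ≥0∞, C ≠ ∞ ∧ ∀ f, FHol t f → D.nrm f t < ∞ → ∀ x, tc x = t →
      ENNReal.ofReal (‖f x‖ ^ 2) ≤ C * ENNReal.ofReal (∑ i, ‖V i x‖ ^ 2) * D.nrm f t) :
    NB (rew (D.pw j) (tpI V j) (tpI_hol hV j) (α := 1 - θ) (by linarith) δ hδ hε) θ
      (tp D (fun x => ∑ i, ‖V i x‖ ^ 2) j) (fun p => ‖δ p‖ ^ (2 * ε)) := by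
  set K1 : D.P → ℝ := fun x => ∑ i, ‖V i x‖ ^ 2 with hK1
  have hK0 : ∀ x, 0 ≤ K1 x := fun x => Finset.sum_nonneg fun _ _ => by positivity
  have hKt : ∀ p, 0 ≤ tp D K1 j p := tp_nonneg hK0 j
  have hwr : ∀ p, (rew (D.pw j) (tpI V j) (tpI_hol hV j) (α := 1 - θ) (by linarith) δ hδ hε).wt p =
      (ENNReal.ofReal (tp D K1 j p ^ (1 - θ) * ‖δ p‖ ^ (2 * ε)))⁻¹ := by
    intro p
    rw [rew_wt', sum_tpI]
  have hwp : ∀ p : (D.pw j).P, (D.pw j).wt p = (ENNReal.ofReal (tp D K1 j p ^ (1 - θ1)))⁻¹ := by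
    intro p
    have h2 : D.wt = fun x => (ENNReal.ofReal (K1 x ^ (1 - θ1)))⁻¹ := funext hwt
    rw [wt_eq, h2, ← tp_inv (fun _ => ENNReal.ofReal_ne_top),
      ← tp_ofReal (fun x => Real.rpow_nonneg (hK0 x) _), tp_rpowR hK0]
  obtain ⟨C, hC, hCb⟩ := hFR
  refine ⟨by linarith, h1, ?_, ?_, hwr, hbd, ?_⟩
  · exact tp_lpsh (LPsh.sum_hol Finset.univ fun i _ => hV i) j
  · exact LPsh.of_hol_rpow hδ (by linarith)
  · filter_upwards [hcl] with t ht htR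
    obtain ⟨Ct, hCt, hbd'⟩ := ht htR
    refine ⟨Ct ^ (j + 1) * ENNReal.ofReal C,
      ENNReal.mul_ne_top (ENNReal.pow_ne_top hCt) ENNReal.ofReal_ne_top, fun f hf hfin x hx => ?_⟩
    have hn : (D.pw j).nrm f t ≤ ENNReal.ofReal C *
        (rew (D.pw j) (tpI V j) (tpI_hol hV j) (α := 1 - θ) (by linarith) δ hδ hε).nrm f t := by
      unfold Dom.nrm
      rw [← fi_const_mul ENNReal.ofReal_ne_top]
      refine fi_mono fun p _ => ?_
      unfold Dom.dens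
      rw [hwr, hwp]
      calc ENNReal.ofReal (‖f p‖ ^ 2) * (ENNReal.ofReal (tp D K1 j p ^ (1 - θ1)))⁻¹
          ≤ ENNReal.ofReal (‖f p‖ ^ 2) * (ENNReal.ofReal C *
            (ENNReal.ofReal (tp D K1 j p ^ (1 - θ) * ‖δ p‖ ^ (2 * ε)))⁻¹) :=
            mul_le_mul_right (wt_comp (hKt p) hC h01 h1 (hCb p)) _
        _ = _ := by ring
    have hn' : (D.pw j).nrm f t < ∞ :=
      lt_of_le_of_lt hn (ENNReal.mul_lt_top ENNReal.ofReal_lt_top hfin)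
    have h3 := prod_bound' D (t := t) (κ := fun x => Ct * ENNReal.ofReal (K1 x))
      (fun x => ENNReal.mul_ne_top hCt ENNReal.ofReal_ne_top) hbd' j f hf hn' x hx
    rw [tp_mul, tp_const, ← tp_ofReal hK0] at h3
    calc ENNReal.ofReal (‖f x‖ ^ 2)
        ≤ Ct ^ (j + 1) * ENNReal.ofReal (tp D K1 j x) * (D.pw j).nrm f t := h3
      _ ≤ Ct ^ (j + 1) * ENNReal.ofReal (tp D K1 j x) * (ENNReal.ofReal C *
          (rew (D.pw j) (tpI V j) (tpI_hol hV j) (α := 1 - θ) (by linarith) δ hδ hε).nrm f t) :=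
          mul_le_mul_right hn _
      _ = _ := by ring

end rew

end Crest.Agent.R276.C1cp_505
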