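import Mathlib
import Crest.Agent.R276.CmpB_595

/-!
Row 276 (S0419), MODPACK (B3): comparison of models with different coordinates (helper595),
part C: the image of the comparison map is dense and of full measure.
-/

set_option autoImplicit false

open Polynomial Topology Filter Set MeasureTheory
open scoped ENNReal

noncomputable section

namespace Crest.Agent.R276.Cmp_595

open Crest.Agent.R271.Defs710 Crest.Agent.R271.Alg255 Crest.Agent.R271.Rd692
open Crest.Agent.R271.Ho51 Crest.Agent.R276.Ipc735 Crest.Agent.R271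
open Crest.Agent.R276.AB2_590 Crest.Agent.R276.Mod1_987 Crest.Agent.R276.PfDer_676
open Crest.Agent.R276.VPull_327

/-- the complement of the zero set of a nonzero polynomial is dense -/
theorem dense_eval_ne {n : ℕ} {p : MvPolynomial (Fin n) ℂ} (hp : p ≠ 0) :
    Dense {ζ : Cn n | MvPolynomial.eval ζ p ≠ 0} := by
  have h1 : ∀ᵐ ζ : Cn n, MvPolynomial.eval ζ p ≠ 0 := Null956.ae_eval_ne hp
  exact Measure.dense_of_ae h1

variable {K : Type} [Field K] [Algebra ℂ K] {n : ℕ}

/-- `{c ≠ 0}` is dense -/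
theorem dense_ne (M : Mdl K n) {c : M.B} (hc : c ≠ 0) : Dense {y : M.Pts | y c ≠ 0} := by
  have hc0 : (c : K) ≠ 0 := fun h => hc (Subtype.ext h)
  obtain ⟨p, hp, d, hd, hpd⟩ := exists_aK_dvd M c.2 hc0
  rw [dense_iff_inter_open]
  intro U hU hne
  obtain ⟨ζ, ⟨y, hyU, rfl⟩, hζ⟩ := (dense_iff_inter_open.mp (dense_eval_ne hp)) (M.pz '' U)
    ((isLocalHomeomorph_pr M.hch).isOpenMap U hU) (hne.image _)
  refine ⟨y, hyU, ?_⟩
  intro h0
  apply hζ
  rw [← M.apply_az']
  have h1 : az M.z p = c * ⟨d, hd⟩ := by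
    apply Subtype.ext
    rw [← M.aK_eq]
    exact hpd
  rw [h1, map_mul, h0, zero_mul]

/-- `{c ≠ 0}` has full measure -/
theorem ae_ne (M : Mdl K n) {μ : Measure M.Pts} (hμ : IsLeb μ) {c : M.B} (hc : c ≠ 0) :
    ∀ᵐ y ∂μ, y c ≠ 0 := by
  have hset : {y : M.Pts | ¬ y c ≠ 0} = {y : M.Pts | y c = 0} := by
    ext y
    exact not_not
  have hm : MeasurableSet {y : M.Pts | y c = 0} :=
    (isClosed_eq (continuous_ev c) continuous_const).measurableSet
  rw [ae_iff, hset, ← lintegral_indicator_one hm, ← M.lintM_eq hμ (measurable_one.indicator hm)]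
  have h1 := lintM_congr_off M.het hc
    (f := ({y : M.Pts | y c = 0}).indicator (1 : M.Pts → ℝ≥0∞)) (g := fun _ => 0) (by
      intro y hy
      rw [indicator_of_notMem]
      exact hy)
  rw [h1]
  simp [lintM]

variable {M M' : Mdl K n} (h : IsLoc M.B M'.B)

theorem denseRange_rs : DenseRange (rs h : M'.Pts → M.Pts) := by
  obtain ⟨c, hc, _, _, hr⟩ := range_rs h
  unfold DenseRange
  rw [hr]
  exact dense_ne M hc

theorem ae_mem_range {μ : Measure M.Pts} (hμ : IsLeb μ) :
    ∀ᵐ y ∂μ, y ∈ range (rs h : M'.Pts → M.Pts) := by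
  obtain ⟨c, hc, _, _, hr⟩ := range_rs h
  rw [hr]
  exact ae_ne M hμ hc

end Crest.Agent.R276.Cmp_595
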