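import Mathlib
import Crest.Agent.R276.DiscA_986
import Crest.Agent.R276.CmpC_595

/-!
# Row 276, W1 (helper986): `b₁` of (C1) is log-psh, from the disc data

`lpsh_of_disc`: if over every disc of `M_K` which meets `{h ≠ 0}` the `s`-fold fibre product is a
family `DD` with 185's `NB`, then `LPsh (b1 H u v (2θ) ε)`.
-/

set_option autoImplicit false
set_option linter.unusedSectionVars false
set_option linter.unusedVariables false

noncomputable section

open Set Filter Topology Complex MeasureTheory Metric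
open scoped ENNReal BigOperators

namespace Crest.Agent.R276.DiscA_986

open Crest.Agent.R271 Crest.Agent.R271.Defs710 Crest.Agent.R271.Rd692 Crest.Agent.R271.Ho51
open Crest.Agent.R276.Mod1_987 Crest.Agent.R276.FKDefs_779 Crest.Agent.R276.SkelDefs_220
open Crest.Agent.R276.C1bd_986 Crest.Agent.R276.W1_185
open Crest.Agent.R276.PV_159 (Dom Sec FHol fi fi_mono fi_congr pn Ann isOpen_Ann measurableSet_Ann
  vol_Ann_lt vol_Ann_pos Dom.nrm)
open Crest.Agent.R276.NbD_185 (NB wi SS nb)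
open Crest.Agent.R276.OTB_189 (OTB otb_dom)
open Crest.Agent.R273.Reg_844 (ush LocB)
open Crest.Agent.R276.EngU_29 (LPsh)

/-- zeros of a nonzero holomorphic function on a disc are a null set -/
lemma ae_ne_zero {f : ℂ → ℂ} {R : ℝ} (hf : DifferentiableOn ℂ f (ball 0 R))
    (h : ∃ t ∈ ball (0 : ℂ) R, f t ≠ 0) : ∀ᵐ t : ℂ, ‖t‖ < R → f t ≠ 0 := by
  obtain ⟨t0, ht0, hft0⟩ := h
  have h1 : AnalyticOnNhd ℂ f (ball 0 R) := hf.analyticOnNhd isOpen_ball
  have h2 := h1.preimage_zero_mem_codiscreteWithin (x := t0) hft0 ht0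
    ((convex_ball (0 : ℂ) R).isConnected ⟨t0, ht0⟩)
  have h3 := ae_restrict_le_codiscreteWithin (μ := (volume : Measure ℂ)) (U := ball (0 : ℂ) R)
    measurableSet_ball h2
  have h4 : ∀ᵐ t ∂(volume.restrict (ball (0 : ℂ) R)), f t ≠ 0 := h3
  rw [ae_restrict_iff' measurableSet_ball] at h4
  filter_upwards [h4] with t ht htR
  exact ht (by rwa [mem_ball_zero_iff])

/-- elements of the ring along a disc of a chart -/
lemma differentiableOn_disc {K : Type} [Field K] [Algebra ℂ K] {n : ℕ} (M : Mdl K n) (b : M.B)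
    {e : OpenPartialHomeomorph M.Pts (Cn n)} (he : IsCh e) {z v : Cn n} {R : ℝ}
    (hd : ∀ t : ℂ, ‖t‖ < R → z + t • v ∈ e.target) :
    DifferentiableOn ℂ (fun t : ℂ => (e.symm (z + t • v)) b) (ball 0 R) := by
  have h1 : Ho51.Hol (fun y : M.Pts => y b) :=
    AB2_590.hol51_iff.mpr ((AB2_590.holA_iff M.hch).mpr (AB2_590.holB_ev b))
  have h2 := h1 e he
  exact h2.comp (f := fun t : ℂ => z + t • v) (by fun_prop) fun t ht => hd t (by
    rwa [mem_ball_zero_iff] at ht)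

lemma continuousOn_disc {K : Type} [Field K] [Algebra ℂ K] {n : ℕ} {M : Mdl K n}
    {e : OpenPartialHomeomorph M.Pts (Cn n)} {z v : Cn n} {R : ℝ}
    (hd : ∀ t : ℂ, ‖t‖ < R → z + t • v ∈ e.target) :
    ContinuousOn (fun t : ℂ => e.symm (z + t • v)) (ball 0 R) :=
  e.symm.continuousOn.comp (by fun_prop) fun t ht => hd t (by rwa [mem_ball_zero_iff] at ht)

variable {L K : Type} [Field L] [Field K] [Algebra ℂ L] [Algebra ℂ K] [Algebra L K]
  [IsScalarTower ℂ L K] {m r : ℕ} {ML : Mdl L m} {MK : Mdl K (m + r)} {H : Rel ML MK}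

lemma f_apply (y : MK.Pts) (b : ML.B) : H.f y b = y (H.incl b) := rfl

lemma incl_ne {h : ML.B} (hh : h ≠ 0) : H.incl h ≠ 0 := by
  intro h0
  apply hh
  have h1 : ((H.incl h : MK.B) : K) = 0 := by rw [h0]; rfl
  have h2 : algebraMap L K (h : L) = 0 := h1
  rw [map_eq_zero] at h2
  exact Subtype.ext h2

/-- **plurisubharmonicity of `b₁` from the disc data** -/
theorem lpsh_of_disc {s q : ℕ} {u : Fin s → MK.B} {v : Fin q → MK.B} {θ ε : ℝ} (hθ : 0 < θ)
    (hε : 0 ≤ ε) {h : ML.B} (hh : h ≠ 0)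
    (hdisc : ∀ e : OpenPartialHomeomorph MK.Pts (Cn (m + r)), IsCh e →
      ∀ (z v' : Cn (m + r)) (R : ℝ), 1 < R → (∀ t : ℂ, ‖t‖ < R → z + t • v' ∈ e.target) →
      (∀ᵐ t : ℂ, ‖t‖ < R → H.f (e.symm (z + t • v')) h ≠ 0) → ∀ R' : ℝ, 0 < R' → R' < R →
      ∃ (D : Dom R') (T : DD H s R' (fun t => H.f (e.symm (z + t • v')))
        (fun t => e.symm (z + t • v')) D),
        NB D θ (fun x => ∏ i, Kf v (T.Φ x i)) (fun x => ‖dl u (T.Φ x)‖ ^ (2 * ε))) :
    LPsh (b1 H u v (2 * θ) ε) := by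
  have hp : 0 < 2 * θ := by linarith
  have h0 : ∀ y, 0 ≤ bRc H u v (2 * θ) ε y := fun y => ENNReal.toReal_nonneg
  have hL : LocB (bRc H u v (2 * θ) ε) := (gr_b1w (H := H) u v hp hε).1
  have hG : Dense {y : MK.Pts | y (H.incl h) ≠ 0} := Cmp_595.dense_ne MK (incl_ne hh)
  show LPsh (ush (bRc H u v (2 * θ) ε))
  refine AnnG_986.lpsh_ush_good h0 (fun x => ?_) hG ?_
  · obtain ⟨C, hC⟩ := hL x
    exact ⟨C, hC.mono fun y hy => (le_abs_self _).trans hy⟩
  · intro e he z v' R hR hd hgood g hg hgb hbg r1 r2 h1 h12 h2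
    have hae : ∀ᵐ t : ℂ, ‖t‖ < R → (e.symm (z + t • v')) (H.incl h) ≠ 0 := by
      refine ae_ne_zero (differentiableOn_disc MK (H.incl h) he hd) ?_
      obtain ⟨t, ht, htG⟩ := hgood
      exact ⟨t, by rwa [mem_ball_zero_iff], htG⟩
    obtain ⟨R', hR'1, hR'2⟩ := exists_between h2
    have hR'0 : 0 < R' := lt_trans (lt_of_le_of_lt h1 h12) hR'1
    obtain ⟨D, T, hNB⟩ := hdisc e he z v' R hR hd hae R' hR'0 hR'2
    have h5 := T.disc_le (otb_dom hR'0) hε hNB
      (continuousOn_disc fun t ht => hd t (ht.trans hR'2)) (fun t _ => rfl) hg hgb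
      (by
        filter_upwards [hae] with t ht htR
        exact hbg _ (ht (htR.trans hR'2))) h1 h12 hR'1
    simpa using h5

end Crest.Agent.R276.DiscA_986
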