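import Crest.Agent.R276.Sl_748
import Crest.Agent.R276.Mod4_987

/-!
# Row 276 (helper748): Stein data `SD` on a model with the weight `(∑|u_i|²)^{-(1-1/N)}`
-/

set_option autoImplicit false
set_option linter.unusedSectionVars false

open Set Filter Topology MeasureTheory
open scoped ENNReal

noncomputable section

namespace Crest.Agent.R276.StU_748

open Crest.Agent.R271 Crest.Agent.R271.Rd692 Crest.Agent.R271.Ho51
open Crest.Agent.R271.W792 (nS nS_nonneg lg sm_lg lev_lg_nonneg lg_antitone Levi_eq_lev lev lev_const_mul)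
open Crest.Agent.R276.Mod1_987
open Crest.Agent.R276.Sl_748 (SD)

variable {K : Type} [Field K] [Algebra ℂ K] {n : ℕ} (M : Mdl K n) {s : ℕ} (u : Fin s → M.B)

/-- the functions `u_i` -/
def uf (i : Fin s) (y : M.Pts) : ℂ := y (u i)

lemma hol_uf (i : Fin s) : W792.Hol (uf M u i) := M.hol792_ev (u i)

lemma pos_k (k : ℕ) : (0 : ℝ) < 1 / ((k : ℝ) + 1) := by positivity

lemma pos_uf (k : ℕ) (y : M.Pts) : 0 < nS (uf M u) y + 1 / ((k : ℝ) + 1) := by
  have := nS_nonneg (uf M u) y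
  have := pos_k k
  linarith

/-- Stein data with the weights `c log (∑|u_i|² + 1/(k+1))`, `c ≥ 0` -/
def stC (c : ℝ) (hc : 0 ≤ c) : SD n M.Pts where
  ρ := M.exists_rho.choose
  ρ_sm := M.exists_rho.choose_spec.1
  ρ_cpt := M.exists_rho.choose_spec.2.1
  ρ_lev := fun x v => by
    rw [← Levi_eq_lev M.exists_rho.choose_spec.1]
    exact M.exists_rho.choose_spec.2.2 x v
  φ := fun k y => c * lg (uf M u) (1 / ((k : ℝ) + 1)) y
  φ_sm := fun k => (Sm.const _).mulR (sm_lg (fun j => (hol_uf M u j).sm) (pos_uf M u k))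
  φ_anti := fun x k l h => by
    refine mul_le_mul_of_nonneg_left ?_ hc
    exact lg_antitone _ (one_div_le_one_div_of_le (by positivity)
      (by exact_mod_cast Nat.succ_le_succ h)) x (pos_uf M u l x)
  φ_lev := fun k x v => by
    have h1 : lev (fun y => c * lg (uf M u) (1 / ((k : ℝ) + 1)) y) x v =
        c * lev (lg (uf M u) (1 / ((k : ℝ) + 1))) x v :=
      lev_const_mul (sm_lg (fun j => (hol_uf M u j).sm) (pos_uf M u k)) _ x v
    rw [h1]
    exact mul_nonneg hc (lev_lg_nonneg (hol_uf M u) (pos_k k).le (pos_uf M u k) x v)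

lemma stC_phi (c : ℝ) (hc : 0 ≤ c) (k : ℕ) (y : M.Pts) :
    (stC M u c hc).φ k y = c * Real.log ((∑ i, ‖y (u i)‖ ^ 2) + 1 / ((k : ℝ) + 1)) := rfl

lemma stC_wt (c : ℝ) (hc : 0 ≤ c) (y : M.Pts) :
    (stC M u c hc).wt y = ENNReal.ofReal (∑ i, ‖y (u i)‖ ^ 2) ^ (-c) := by
  set W : ℝ := ∑ i, ‖y (u i)‖ ^ 2 with hW
  have hW0 : 0 ≤ W := Finset.sum_nonneg fun _ _ => by positivity
  have hterm : ∀ k : ℕ, ENNReal.ofReal (Real.exp (-((stC M u c hc).φ k y))) =
      ENNReal.ofReal (W + 1 / ((k : ℝ) + 1)) ^ (-c) := by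
    intro k
    have hp : 0 < W + 1 / ((k : ℝ) + 1) := by
      have := pos_k k
      linarith
    rw [ENNReal.ofReal_rpow_of_pos hp, Real.rpow_def_of_pos hp]
    congr 2
    rw [stC_phi]
    ring
  show (⨆ k : ℕ, ENNReal.ofReal (Real.exp (-((stC M u c hc).φ k y)))) = _
  apply iSup_eq_of_tendsto
  · intro k l hkl
    apply ENNReal.ofReal_le_ofReal
    exact Real.exp_le_exp.2 (neg_le_neg ((stC M u c hc).φ_anti y hkl))
  · simp_rw [hterm]
    have h2 : Tendsto (fun k : ℕ => W + 1 / ((k : ℝ) + 1)) atTop (𝓝 W) := by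
      have := tendsto_one_div_add_atTop_nhds_zero_nat (𝕜 := ℝ)
      simpa using this.const_add W
    exact (ENNReal.continuous_rpow_const.tendsto _).comp (ENNReal.tendsto_ofReal h2)

/-- the same with the inverse outside -/
lemma stC_wt' (c : ℝ) (hc : 0 ≤ c) (y : M.Pts) :
    (stC M u c hc).wt y = (ENNReal.ofReal ((∑ i, ‖y (u i)‖ ^ 2) ^ c))⁻¹ := by
  have hW0 : 0 ≤ ∑ i, ‖y (u i)‖ ^ 2 := Finset.sum_nonneg fun _ _ => by positivity
  rw [stC_wt, ENNReal.rpow_neg, ENNReal.ofReal_rpow_of_nonneg hW0 hc]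

lemma c_nonneg {N : ℕ} (hN : 0 < N) : (0 : ℝ) ≤ 1 - 1 / (N : ℝ) := by
  have h1 : (1 : ℝ) ≤ N := by exact_mod_cast hN
  have h2 : 1 / (N : ℝ) ≤ 1 := by
    rw [div_le_one (by linarith)]
    exact h1
  linarith

/-- Stein data with `e^{-φ} = (∑|u_i|²)^{-(1-1/N)}` -/
def stU (N : ℕ) (hN : 0 < N) : SD n M.Pts := stC M u (1 - 1 / (N : ℝ)) (c_nonneg hN)

theorem stU_wt (N : ℕ) (hN : 0 < N) (y : M.Pts) :
    (stU M u N hN).wt y = (ENNReal.ofReal ((∑ i, ‖y (u i)‖ ^ 2) ^ (1 - 1 / (N : ℝ))))⁻¹ :=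
  stC_wt' M u _ _ y

end Crest.Agent.R276.StU_748
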