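import Mathlib
import Crest.Agent.R276.DiscB_986
import Crest.Agent.R276.Rsr_185
import Crest.Agent.R276.Brg_201
import Crest.Agent.R276.C1cp_505
import Crest.Agent.R276.StU_748

/-!
# Row 276, W1 (helper986): `b₁` of (C1) is log-psh, final theorem

`lpsh_b1`: (B), (Cl), the frame bound ⟹ `LPsh (b1 H u v (2θ) ε)`.
-/

set_option autoImplicit false
set_option linter.unusedSectionVars false
set_option linter.unusedVariables false

noncomputable section

open Set Filter Topology Complex MeasureTheory Metric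
open scoped ENNReal BigOperators

namespace Crest.Agent.R276.DiscC_986

open Crest.Agent.R271 Crest.Agent.R271.Ho51
open Crest.Agent.R276.Mod1_987
open Crest.Agent.R276.SkelDefs_220 (Rel dl)
open Crest.Agent.R276.C1bd_986 (HolFS Cls)
open Crest.Agent.R276.W1_185
open Crest.Agent.R276.PV_159
open Crest.Agent.R276.NbB_185 (tl)
open Crest.Agent.R276.NbD_185 (tp_ofReal)
open Crest.Agent.R276.NbD_185 (NB wi)
open Crest.Agent.R276.Sl_748 (SD bt fx gl)
open Crest.Agent.R276.Rs_185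
open Crest.Agent.R276.Brg_201
open Crest.Agent.R276.C1cp_505 (rew tpI tpI_hol nb_of)
open Crest.Agent.R276.StU_748 (stC stC_wt')
open Crest.Agent.R276.DiscA_986
open Crest.Agent.R276.EngU_29 (LPsh)

/-- the Borel structure on fibre products -/
local instance instMFPc {a b : ℕ} {M N : Type} [TopologicalSpace M] [TopologicalSpace N]
    [RDom (a + 1) M] [RDom (b + 1) N] : MeasurableSpace (FP M N) := borel _
local instance instBFPc {a b : ℕ} {M N : Type} [TopologicalSpace M] [TopologicalSpace N]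
    [RDom (a + 1) M] [RDom (b + 1) N] : BorelSpace (FP M N) := ⟨rfl⟩

/-! ### general facts about powers -/

section pw

variable {R : ℝ} {D : Dom R}

lemma hol_tup {G : D.P → ℂ} (hG : Ho51.Hol G) : ∀ (j : ℕ) (i : Fin (j + 1)),
    Ho51.Hol fun p : (D.pw j).P => G (Pws_201.tup D j p i)
  | 0, _ => hG
  | j + 1, i => by
    refine Fin.lastCases ?_ (fun i => ?_) i
    · have h : (fun p : (D.pw (j + 1)).P => G (Pws_201.tup D (j + 1) p (Fin.last (j + 1)))) =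
          fun p => G (FP.snd (M := (D.pw j).P) (N := D.P) p) := by
        funext p
        rw [Pws_201.tup_succ, Fin.snoc_last]
      rw [h]
      exact hol_to _ (FP.mor_snd.hol (hol_of _ hG))
    · have h : (fun p : (D.pw (j + 1)).P => G (Pws_201.tup D (j + 1) p i.castSucc)) =
          fun p => (fun p' : (D.pw j).P => G (Pws_201.tup D j p' i))
            (FP.fst (M := (D.pw j).P) (N := D.P) p) := by
        funext p
        rw [Pws_201.tup_succ, Fin.snoc_castSucc]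
      rw [h]
      exact hol_to _ (FP.mor_fst.hol (hol_of _ (hol_tup hG j i)))

lemma tp_eq_prodR {κ : D.P → ℝ} : ∀ (j : ℕ) (p : (D.pw j).P),
    NbB_185.tp D κ j p = ∏ i, κ (Pws_201.tup D j p i)
  | 0, p => by simp [NbB_185.tp, Pws_201.tup_zero]
  | j + 1, p => by
    rw [Fin.prod_univ_castSucc]
    simp only [Pws_201.tup_succ, Fin.snoc_castSucc, Fin.snoc_last]
    rw [← tp_eq_prodR j]
    rfl

end pw

lemma hol_det {n : ℕ} {M : Type*} [TopologicalSpace M] [RDom n M] {s : ℕ}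
    {A : M → Matrix (Fin s) (Fin s) ℂ} (hA : ∀ i k, Ho51.Hol fun x => A x i k) :
    Ho51.Hol fun x => (A x).det := by
  intro e he
  have h : (fun x => (A x).det) ∘ e.symm = fun z => ∑ σ : Equiv.Perm (Fin s),
      (Equiv.Perm.sign σ : ℂ) * ∏ i, A (e.symm z) (σ i) i := by
    funext z
    simp only [Function.comp_apply]
    rw [Matrix.det_apply']
  rw [h]
  refine DifferentiableOn.fun_sum fun σ _ => ?_
  refine (differentiableOn_const _).mul ?_
  have h2 : ∀ (u : Finset (Fin s)), DifferentiableOn ℂ (fun z => ∏ i ∈ u, A (e.symm z) (σ i) i)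
      e.target := by
    intro u
    induction u using Finset.induction_on with
    | empty => simp
    | insert a u ha ih =>
      simp only [Finset.prod_insert ha]
      exact (hA (σ a) a e he).mul ih
  exact h2 Finset.univ

variable {L K : Type} [Field L] [Field K] [Algebra ℂ L] [Algebra ℂ K] [Algebra L K]
  [IsScalarTower ℂ L K] {m r : ℕ} {ML : Mdl L m} {MK : Mdl K (m + r)} {H : Rel ML MK} {R : ℝ}

/-! ### the relative slice -/

lemma rs_rsl (S : SD (m + r) MK.Pts) (X : Lft ML.Pts R) :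
    RS H X.c (rsl S (prj H) X) (Rs_185.pr) where
  ha := rfl
  cont := cont_pr
  fib := f_pr
  crd x i := by
    rw [tl_eq, fx_spR]
    rfl
  inj x x' h1 h2 := ext' h2 h1
  surj t ht w hw := ⟨Rs_185.mk w t ht hw, rfl, rfl⟩

/-- the disc data over a relative slice -/
def mkDD (S : SD (m + r) MK.Pts) (X : Lft ML.Pts R) (j : ℕ) (s : Sec (rsl S (prj H) X))
    {y : ℂ → MK.Pts} (hy : ∀ t : ℂ, ‖t‖ < R → Rs_185.pr (s.x t) = y t) {ι : Type} [Fintype ι]
    (F : ι → ((rsl S (prj H) X).pw j).P → ℂ) (hF : ∀ i, Ho51.Hol (F i)) {α : ℝ} (hα : 0 ≤ α)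
    (δ : ((rsl S (prj H) X).pw j).P → ℂ) (hδ : Ho51.Hol δ) {β : ℝ} (hβ : 0 ≤ β) :
    DD H (j + 1) R X.c y (rew ((rsl S (prj H) X).pw j) F hF hα δ hδ hβ) where
  Φ := Phi (rsl S (prj H) X) Rs_185.pr j
  fib := (rs_rsl S X).fib_Phi j
  surj := (rs_rsl S X).surj_Phi j
  fi_eq := (rs_rsl S X).fi_eq j
  to_hol t _ τ hτ := (rs_rsl S X).to_hol j t τ hτ
  of_hol := (rs_rsl S X).of_hol j
  sec :=
    { x := (secP s j).x
      cont := (secP s j).cont
      hol := (secP s j).hol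
      sec := (secP s j).sec }
  sec_eq t ht := by
    show Phi (rsl S (prj H) X) Rs_185.pr j ((secP s j).x t) = fun _ => y t
    rw [Phi_secP, hy t ht]

/-! ### the bound (B) on a compact disc -/

lemma bb_disc {s q : ℕ} {u : Fin s → MK.B} {v : Fin q → MK.B} {θ ε : ℝ} (hBB : BB H u v θ ε)
    {c : ℂ → ML.Pts} (hc : ContinuousOn c (ball 0 R)) {R' : ℝ} (hR' : R' < R) :
    ∃ B : ℝ≥0∞, B ≠ ∞ ∧ ∀ t : ℂ, ‖t‖ ≤ R' →
      H.fintS s (c t) (fun y => (∏ j, ENNReal.ofReal (Kf v (y j))) ^ θ * ‖dl u y‖ₑ ^ (-(2 * ε))) ≤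
        B := by
  have h := (isCompact_closedBall (0 : ℂ) R').induction_on
    (p := fun A => ∃ B : ℝ≥0∞, B ≠ ∞ ∧ ∀ t ∈ A,
      H.fintS s (c t) (fun y => (∏ j, ENNReal.ofReal (Kf v (y j))) ^ θ * ‖dl u y‖ₑ ^ (-(2 * ε))) ≤
        B) ⟨0, by simp, by simp⟩
    (fun A A' hA ⟨B, hB, h⟩ => ⟨B, hB, fun t ht => h t (hA ht)⟩)
    (fun A A' ⟨B, hB, h⟩ ⟨B', hB', h'⟩ => ⟨max B B', (max_lt hB.lt_top hB'.lt_top).ne,
      fun t ht => ht.elim (fun h1 => (h t h1).trans (le_max_left _ _))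
        fun h1 => (h' t h1).trans (le_max_right _ _)⟩)
    (fun t ht => by
      obtain ⟨C, hC, hC'⟩ := hBB (c t)
      have h1 : ContinuousAt c t := hc.continuousAt (isOpen_ball.mem_nhds
        (mem_ball_zero_iff.2 ((mem_closedBall_zero_iff.1 ht).trans_lt hR')))
      exact ⟨_, mem_nhdsWithin_of_mem_nhds (h1 hC'), C, hC, fun t' ht' => ht'⟩)
  obtain ⟨B, hB, h⟩ := h
  exact ⟨B, hB, fun t ht => h t (mem_closedBall_zero_iff.2 ht)⟩

/-! ### the final theorem -/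

/-- **`b₁` is log-psh** -/
theorem lpsh_b1 (H : Rel ML MK) {j q : ℕ} (u : Fin (j + 1) → MK.B) (v : Fin q → MK.B)
    {θ θ1 ε : ℝ} (h0 : 0 < θ1) (h01 : θ1 ≤ θ) (h1 : θ ≤ 1) (hε : 0 ≤ ε) (hBB : BB H u v θ ε)
    (hCL : CL H v (1 - θ1)) (hFR : FR H u v (θ - θ1) ε) : LPsh (b1 H u v (2 * θ) ε) := by
  obtain ⟨h, hh, hCL⟩ := hCL
  refine lpsh_of_disc (by linarith) hε hh fun e he z v' R hR hd hae R' hR'0 hR' => ?_
  have hd' : ∀ l ∈ ball (0 : ℂ) R', z + l • v' ∈ e.target := fun l hl =>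
    hd l ((mem_ball_zero_iff.1 hl).trans hR')
  have hα1 : 0 ≤ 1 - θ1 := by linarith
  set S := stC MK v (1 - θ1) hα1 with hS
  set X : Lft ML.Pts R' := lft (prj H) he hd' with hX
  set D1 : Dom R' := rsl S (prj H) X with hD1
  set V : Fin q → D1.P → ℂ := fun i x => (Rs_185.pr x : MK.Pts) (v i) with hV
  have hev : ∀ b : MK.B, Ho51.Hol (fun y : MK.Pts => y b) := fun b =>
    AB2_590.hol51_iff.mpr ((AB2_590.holA_iff MK.hch).mpr (AB2_590.holB_ev b))
  have hVh : ∀ i, Ho51.Hol (V i) := fun i => hol_pr (hev (v i))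
  have hwt : ∀ x, D1.wt x = (ENNReal.ofReal ((∑ i, ‖V i x‖ ^ 2) ^ (1 - θ1)))⁻¹ := fun x =>
    stC_wt' MK v (1 - θ1) hα1 (Rs_185.pr x)
  set δ : (D1.pw j).P → ℂ := fun p => dl u (Phi D1 Rs_185.pr j p) with hδ
  have hδh : Ho51.Hol δ := by
    refine hol_det (A := fun p => Matrix.of fun i k => (Phi D1 Rs_185.pr j p k) (u i)) fun i k => ?_
    exact hol_tup (hol_pr (hev (u i))) j k
  have hKprod : ∀ p : (D1.pw j).P, NbB_185.tp D1 (fun x => ∑ i, ‖V i x‖ ^ 2) j p =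
      ∏ k, Kf v (Phi D1 Rs_185.pr j p k) := fun p => tp_eq_prodR j p
  have hR'1 : ∀ t : ℂ, ‖t‖ < R' → X.c t = H.f (e.symm (z + t • v')) := fun t _ => rfl
  -- the frame bound
  have hFR' : ∃ C : ℝ, 0 < C ∧ ∀ p : (D1.pw j).P, ‖δ p‖ ^ (2 * ε) ≤
      C * (NbB_185.tp D1 (fun x => ∑ i, ‖V i x‖ ^ 2) j p) ^ (θ - θ1) := by
    obtain ⟨C, hC, hb⟩ := hFR
    refine ⟨C, hC, fun p => ?_⟩
    rw [hKprod]
    exact hb _
  -- (B)
  have hbd : ∃ B : ℝ≥0∞, B ≠ ∞ ∧ ∀ t, ‖t‖ < R' →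
      fi (fun p : (D1.pw j).P => ENNReal.ofReal
        (NbB_185.tp D1 (fun x => ∑ i, ‖V i x‖ ^ 2) j p) ^ θ /
        ENNReal.ofReal (‖δ p‖ ^ (2 * ε))) t ≤ B := by
    have hcc : ContinuousOn (fun t : ℂ => H.f (e.symm (z + t • v'))) (ball 0 R) :=
      (Rs_185.continuous_f H).comp_continuousOn (continuousOn_disc hd)
    obtain ⟨B, hB, hBt⟩ := bb_disc hBB hcc hR'
    refine ⟨B, hB, fun t ht => ?_⟩
    refine le_trans (le_of_eq ?_) (hBt t ht.le)
    have h5 := (rs_rsl (H := H) S X).fi_eq j t ht (fun y =>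
      (∏ j, ENNReal.ofReal (Kf v (y j))) ^ θ * ‖dl u y‖ₑ ^ (-(2 * ε)))
    refine Eq.trans ?_ h5
    refine fi_congr fun p _ => ?_
    rw [hKprod, ENNReal.ofReal_prod_of_nonneg (fun i _ => by
      unfold Kf; exact Finset.sum_nonneg fun _ _ => by positivity), div_eq_mul_inv, wi_eq hε]
  -- (Cl)
  have hcl : ∀ᵐ t, ‖t‖ < R' → ∃ C : ℝ≥0∞, C ≠ ∞ ∧ ∀ f : D1.P → ℂ, FHol t f → D1.nrm f t < ∞ →
      ∀ x, tc x = t →
      ENNReal.ofReal (‖f x‖ ^ 2) ≤ C * ENNReal.ofReal (∑ i, ‖V i x‖ ^ 2) * D1.nrm f t := by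
    filter_upwards [hae] with t ht htR
    obtain ⟨C, hC, hCb⟩ := hCL _ (ht (htR.trans hR'))
    refine ⟨C, hC, fun f hf hn x hx => ?_⟩
    have h6 : H.HolF (X.c t) (Rs_185.low f t) := (hf_iff H).1 (FHol.low htR hf)
    have h7 : D1.nrm f t = H.fint (X.c t) (fun y => ‖Rs_185.low f t y‖ₑ ^ (2 : ℝ) /
        ENNReal.ofReal (Kf v y ^ (1 - θ1))) := by
      refine fi_rel htR fun q hq => ?_
      rw [low_pr f hq]
      unfold Dom.dens
      rw [hwt, NbD_185.ofReal_sq_norm, div_eq_mul_inv]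
      rfl
    have h8 := hCb _ h6 (by
      rw [hR'1 t htR] at h7
      rw [← h7]
      exact hn) (Rs_185.pr x) (by
        rw [f_pr (S := S) (F := prj H) (X := X) x, hx]
        rfl)
    rw [low_pr f hx] at h8
    rw [hR'1 t htR] at h7
    rw [NbD_185.ofReal_sq_norm, h7]
    exact h8
  have hnb := nb_of D1 V hVh h0 h01 h1 hε hwt j δ hδh hFR' hbd hcl
  set sc : Sec D1 :=
    { x := Rs_185.sec (prj H) he hd' S hR'0
      cont := cont_sec (prj H) he hd' hR'0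
      hol := hol_sec (prj H) he hd' hR'0
      sec := fun t ht => tc_sec (prj H) he hd' hR'0 (mem_ball_zero_iff.1 ht) } with hsc
  refine ⟨_, mkDD S X j sc (y := fun t => e.symm (z + t • v'))
    (fun t ht => pr_sec (prj H) he hd' hR'0 ht) (tpI V j) (tpI_hol hVh j) (α := 1 - θ) (by linarith)
    δ hδh hε, ?_⟩
  have h9 : (fun x : (D1.pw j).P => ∏ i, Kf v (Phi D1 Rs_185.pr j x i)) =
      NbB_185.tp D1 (fun x => ∑ i, ‖V i x‖ ^ 2) j := funext fun p => (hKprod p).symm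
  show NB (rew (D1.pw j) (tpI V j) (tpI_hol hVh j) (α := 1 - θ) (by linarith) δ hδh hε) θ
    (fun x : (D1.pw j).P => ∏ i, Kf v (Phi D1 Rs_185.pr j x i)) (fun p => ‖δ p‖ ^ (2 * ε))
  rw [h9]
  exact hnb

/-- **`b₁` is log-psh**, integer exponents -/
theorem lpsh_b1' (H : Rel ML MK) {s q : ℕ} (hs : 0 < s) (u : Fin s → MK.B) (v : Fin q → MK.B)
    {N' N₁ : ℕ} (hN' : 0 < N') (hle : N' ≤ N₁) {ε : ℝ} (hε : 0 ≤ ε)
    (hBB : BB H u v (1 / (N' : ℝ)) ε) (hCL : CL H v (1 - 1 / (N₁ : ℝ)))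
    (hFR : FR H u v (1 / (N' : ℝ) - 1 / (N₁ : ℝ)) ε) : LPsh (b1 H u v (2 / (N' : ℝ)) ε) := by
  obtain ⟨j, rfl⟩ : ∃ j, s = j + 1 := ⟨s - 1, by omega⟩
  have h1 : (0 : ℝ) < N' := by exact_mod_cast hN'
  have h2 : (N' : ℝ) ≤ N₁ := by exact_mod_cast hle
  have h3 : (1 : ℝ) ≤ N' := by exact_mod_cast hN'
  have h5 : (0 : ℝ) < N₁ := h1.trans_le h2
  have h := lpsh_b1 H u v (θ := 1 / (N' : ℝ)) (θ1 := 1 / (N₁ : ℝ)) (by positivity)
    (one_div_le_one_div_of_le h1 h2) (by rw [div_le_one h1]; exact h3) hε hBB hCL hFR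
  have h4 : 2 * (1 / (N' : ℝ)) = 2 / (N' : ℝ) := by ring
  rwa [h4] at h

end Crest.Agent.R276.DiscC_986
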