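import Mathlib
import Crest.Agent.R276.DiscC_986

/-!
# Row 276, W1 (helper986): (C1) from (B) and (Cl)

`c1_data`: the structure `SkelDefs_220.C1` for `b₁ = W1_185.b1 H₂ u v (2/N') ε`, from
`BB H₂ u v (1/N') ε` (845's SKO), `CL H₂ v (1 - 1/N₁)` (886's closure), `IsCY` and `Continuous D`.
-/

set_option autoImplicit false
set_option linter.unusedSectionVars false

noncomputable section

open Set Filter Topology MeasureTheory
open scoped ENNReal BigOperators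

namespace Crest.Agent.R276.C1fin_986

open Crest.Agent.R271 Crest.Agent.R271.Ho51
open Crest.Agent.R276.Mod1_987 Crest.Agent.R276.FKDefs_779
open Crest.Agent.R276.SkelDefs_220
open Crest.Agent.R276.C1bd_986 Crest.Agent.R276.W1_185

variable {T L K : Type} [Field T] [Field L] [Field K] [Algebra ℂ T] [Algebra ℂ L] [Algebra ℂ K]
  [Algebra T L] [Algebra L K] [IsScalarTower ℂ T L] [IsScalarTower ℂ L K] {ρ a r : ℕ}
  {MT : Mdl T ρ} {ML : Mdl L (ρ + a)} {MK : Mdl K (ρ + a + r)}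

/-- the frame bound from the monomials -/
theorem fr_mon (H : Rel ML MK) {s q : ℕ} (u : Fin s → MK.B) (v : Fin q → MK.B) {N N' N₁ k l : ℕ}
    (hN : 0 < N) (hN' : 0 < N') (hk : 0 < k) {ε : ℝ} (hε : 0 ≤ ε)
    (hN₁ : (N₁ : ℝ) = N' * (1 + ε * N)) (hl : N₁ = N * (k * l))
    (hmon : ∀ α : Fin s →₀ ℕ, α.degree = k * l → ∃ i, v i = ∏ j, u j ^ α j) :
    FR H u v (1 / (N' : ℝ) - 1 / (N₁ : ℝ)) ε := by
  classical
  have hN'0 : (0 : ℝ) < N' := by exact_mod_cast hN'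
  have hN0 : (0 : ℝ) < N := by exact_mod_cast hN
  have hN₁0 : (0 : ℝ) < N₁ := by
    rw [hN₁]
    positivity
  have hN₁n : 0 < N₁ := by exact_mod_cast hN₁0
  have hd : 0 < k * l := by
    rcases Nat.eq_zero_or_pos (k * l) with h | h
    · rw [h, Nat.mul_zero] at hl
      omega
    · exact h
  have he : 1 / (N' : ℝ) - 1 / (N₁ : ℝ) = ε / ((k * l : ℕ) : ℝ) := by
    have hd0 : (0 : ℝ) < ((k * l : ℕ) : ℝ) := by exact_mod_cast hd
    have h1 : (N₁ : ℝ) = N * ((k * l : ℕ) : ℝ) := by exact_mod_cast hl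
    have h2 : 1 / (N' : ℝ) - 1 / (N₁ : ℝ) = (N₁ - N') / (N' * N₁) := by
      field_simp
    have h3 : (N₁ : ℝ) - N' = N' * (ε * N) := by rw [hN₁]; ring
    rw [h2, h3, h1]
    field_simp
  rw [he]
  refine C1cp_505.fr H u v hd (fun i => ?_) hε
  obtain ⟨k', hk'⟩ := hmon (Finsupp.single i (k * l)) (by rw [Finsupp.degree_single])
  refine ⟨k', ?_⟩
  rw [hk', Finset.prod_eq_single i]
  · rw [Finsupp.single_eq_same]
  · intro j _ hj
    rw [Finsupp.single_eq_of_ne hj, pow_zero]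
  · intro h
    exact absurd (Finset.mem_univ i) h

/-- **(C1)** -/
theorem c1_data (H₁ : Rel MT ML) (H₂ : Rel ML MK) (b : Module.Basis (Fin r) K (Ω[K⁄L]))
    (hb : IsRelBasis MK b) {s N N' N₁ k l q : ℕ} (hs : 0 < s) (hN : 0 < N) (hN' : 0 < N')
    (hk : 0 < k) {ε : ℝ} (hε : 0 ≤ ε) (hN₁ : (N₁ : ℝ) = N' * (1 + ε * N)) (hl : N₁ = N * (k * l))
    (u : Fin s → MK.B) (hu : ∀ i, PluriS L b N (u i : K)) (v : Fin q → MK.B)
    (hv : ∀ i, PluriS L b N₁ (v i : K))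
    (hmon : ∀ α : Fin s →₀ ℕ, α.degree = k * l → ∃ i, v i = ∏ j, u j ^ α j)
    {D : ML.Pts → ℝ} (hD : IsCY H₂ N u D) (hDc : Continuous D)
    (hBB : BB H₂ u v (1 / (N' : ℝ)) ε) (hCL : CL H₂ v (1 - 1 / (N₁ : ℝ))) :
    C1 H₁ H₂ N k u D ε (b1 H₂ u v (2 / (N' : ℝ)) ε) := by
  have hN'0 : (0 : ℝ) < N' := by exact_mod_cast hN'
  have hle : N' ≤ N₁ := by
    have h1 : (N' : ℝ) ≤ N₁ := by
      rw [hN₁]
      have h2 : (0 : ℝ) ≤ ε * N := by positivity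
      nlinarith
    exact_mod_cast h1
  exact c1_of_psh (H₁ := H₁) (H₂ := H₂) b hb hN hN' hk hε hN₁ hl u hu v hv hmon hD hDc
    (DiscC_986.lpsh_b1' H₂ hs u v hN' hle hε hBB hCL
      (fr_mon H₂ u v hN hN' hk hε hN₁ hl hmon))

end Crest.Agent.R276.C1fin_986
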