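import Mathlib
import Crest.Agent.R276.BC2_986
import Crest.Agent.R276.AcOpen_89

/-!
# R276, leaf C4-GLUE (helper804): values of rational functions on analytic families of points

`det_chain`: `A` étale over `ℂ[w]`, `s` an analytic family of points of `Hom(A,ℂ)`, `f₁ … f_n`
rational functions regular at `s ζ`, with values `W_j(ζ)`: `det ∂W = v · det ∂(w ∘ s)`, `v` the
value of `det (∂f/∂w)`.
-/

set_option autoImplicit false

open Set Filter Topology Metric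

noncomputable section

namespace Crest.Agent.R276.C4GV_804

open Crest.Agent.R271.Defs710 Crest.Agent.R271.Bd741 Crest.Agent.R276.BC_986

variable {n : ℕ} {A K : Type} [CommRing A] [Algebra ℂ A] [Field K] [Algebra A K] [Algebra ℂ K]
  [IsScalarTower ℂ A K] {w : Fin n → A}

/-- derivatives of functions which are values of a rational function -/
theorem isVal_fderiv (het : RingHom.Etale ((MvPolynomial.aeval w :
      MvPolynomial (Fin n) ℂ →ₐ[ℂ] A) : MvPolynomial (Fin n) ℂ →+* A))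
    (hinj : Function.Injective (algebraMap A K)) (bw : Module.Basis (Fin n) K (Ω[K⁄ℂ]))
    (hbw : ∀ j, bw j = KaehlerDifferential.D ℂ K (algebraMap A K (w j)))
    {y : A →ₐ[ℂ] ℂ} (C : Chart w y) {f : K} {g : Cn n → ℂ} {ζ : Cn n}
    (hζ : ζ ∈ ball (0 : Cn n) C.r) (h : ∀ᶠ ζ' in 𝓝 ζ, IsVal (C.s ζ') f (g ζ')) :
    AnalyticAt ℂ g ζ ∧ ∀ j, IsVal (C.s ζ) (bw.repr (KaehlerDifferential.D ℂ K f) j)
      (fderiv ℂ g ζ (Pi.single j 1)) := by
  obtain ⟨Δ, hΔ⟩ := exists_coord_deriv w het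
  obtain ⟨u, v, h1, h2, h3⟩ := h.self_of_nhds
  have hv : ∀ᶠ ζ' in 𝓝 ζ, C.s ζ' v ≠ 0 := (C.anal v ζ hζ).continuousAt.eventually_ne h1
  have hgu : (fun ζ' => C.s ζ' u) =ᶠ[𝓝 ζ] fun ζ' => g ζ' * C.s ζ' v := by
    filter_upwards [h] with ζ' hζ'
    exact (hζ'.eq_of hinj u v h2).symm
  have hg : g =ᶠ[𝓝 ζ] fun ζ' => C.s ζ' u / C.s ζ' v := by
    filter_upwards [hgu, hv] with ζ' e1 e2
    rw [e1]; field_simp
  have hga : AnalyticAt ℂ g ζ := by
    rw [analyticAt_congr hg]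
    exact (C.anal u ζ hζ).div (C.anal v ζ hζ) h1
  refine ⟨hga, fun j => ?_⟩
  have hvK : algebraMap A K v ≠ 0 := by
    intro h0
    have : v = 0 := hinj (by rw [h0, map_zero])
    rw [this, map_zero] at h1
    exact h1 rfl
  have hrep : ∀ a : A, bw.repr (KaehlerDifferential.D ℂ K (algebraMap A K a)) j =
      algebraMap A K (Δ j a) := by
    intro a
    rw [D_K (K := K) w het Δ hΔ a]
    have : ∑ j, algebraMap A K (Δ j a) • KaehlerDifferential.D ℂ K (algebraMap A K (w j)) =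
      ∑ j, algebraMap A K (Δ j a) • bw j := by
      refine Finset.sum_congr rfl fun i _ => ?_
      rw [hbw]
    rw [this, Module.Basis.repr_sum_self]
  -- the algebraic derivative
  have e1 : bw.repr (KaehlerDifferential.D ℂ K f) j * algebraMap A K v ^ 2 =
      algebraMap A K (v * Δ j u - u * Δ j v) := by
    have e2 := congrArg (KaehlerDifferential.D ℂ K) h2
    rw [Derivation.leibniz] at e2
    have e3 := congrArg (fun x => bw.repr x j) e2
    simp only [map_add, map_smul, Finsupp.add_apply, Finsupp.smul_apply, smul_eq_mul, hrep] at e3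
    rw [map_sub, map_mul, map_mul, ← e3, ← h2]
    ring
  -- the analytic derivative
  have d1 := chart_deriv w het Δ hΔ C ζ hζ j u
  have d2 := chart_deriv w het Δ hΔ C ζ hζ j v
  rw [hgu.fderiv_eq, fderiv_fun_mul hga.differentiableAt (C.anal v ζ hζ).differentiableAt] at d1
  simp only [_root_.add_apply, _root_.smul_apply, smul_eq_mul, d2] at d1
  refine ⟨v * Δ j u - u * Δ j v, v ^ 2, ?_, ?_, ?_⟩
  · rw [map_pow]; exact pow_ne_zero _ h1
  · rw [map_pow]; exact e1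
  · rw [map_pow, map_sub, map_mul, map_mul, ← d1, ← h3]
    ring

/-- a continuous family of points is, locally, given by a chart -/
theorem eventually_chart {m : ℕ} {s : Cn m → (A →ₐ[ℂ] ℂ)} {ζ : Cn m}
    (hs : ∀ a, AnalyticAt ℂ (fun ζ => s ζ a) ζ) {y : A →ₐ[ℂ] ℂ} (hy : s ζ = y) (C : Chart w y) :
    ∀ᶠ ζ' in 𝓝 ζ, s ζ' = C.s (fun i => s ζ' (w i) - y (w i)) := by
  obtain ⟨T, ε, hε, hT⟩ := C.surj
  have h1 : ∀ᶠ ζ' in 𝓝 ζ, ∀ b ∈ T, ‖s ζ' b - y b‖ < ε := by
    rw [Filter.eventually_all_finset]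
    intro b _
    have h2 : ContinuousAt (fun ζ' => ‖s ζ' b - y b‖) ζ :=
      ((hs b).continuousAt.sub continuousAt_const).norm
    refine h2.eventually_lt continuousAt_const ?_
    simpa [hy] using hε
  filter_upwards [h1] with ζ' h
  exact hT _ h

/-- chain rule for values -/
theorem val_chain (het : RingHom.Etale ((MvPolynomial.aeval w :
      MvPolynomial (Fin n) ℂ →ₐ[ℂ] A) : MvPolynomial (Fin n) ℂ →+* A))
    (hinj : Function.Injective (algebraMap A K)) (bw : Module.Basis (Fin n) K (Ω[K⁄ℂ]))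
    (hbw : ∀ j, bw j = KaehlerDifferential.D ℂ K (algebraMap A K (w j)))
    {m : ℕ} {s : Cn m → (A →ₐ[ℂ] ℂ)} {ζ : Cn m}
    (hs : ∀ a, AnalyticAt ℂ (fun ζ => s ζ a) ζ) {f : K} {F : Cn m → ℂ}
    (hF : ∀ᶠ ζ' in 𝓝 ζ, IsVal (s ζ') f (F ζ')) :
    AnalyticAt ℂ F ζ ∧ ∃ c : Fin n → ℂ,
      (∀ j, IsVal (s ζ) (bw.repr (KaehlerDifferential.D ℂ K f) j) (c j)) ∧
      ∀ v, fderiv ℂ F ζ v = ∑ j, c j * fderiv ℂ (fun ζ => s ζ (w j)) ζ v := by
  obtain ⟨C⟩ := Crest.Agent.R271.Rd692.nonempty_chart w het (s ζ)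
  have hev := eventually_chart hs rfl C
  obtain ⟨u, v, h1, h2, h3⟩ := hF.self_of_nhds
  set φ : Cn m → Cn n := fun ζ' i => s ζ' (w i) - s ζ (w i) with hφ
  have hφa : AnalyticAt ℂ φ ζ := AnalyticAt.pi fun i => (hs (w i)).sub analyticAt_const
  have hφ0 : φ ζ = 0 := by funext i; simp [hφ]
  have h0 : (0 : Cn n) ∈ ball (0 : Cn n) C.r := mem_ball_self C.r_pos
  set g : Cn n → ℂ := fun ζ' => C.s ζ' u / C.s ζ' v with hg
  have hv0 : C.s 0 v ≠ 0 := by rw [C.s_zero]; exact h1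
  have hvn : ∀ᶠ ζ' in 𝓝 (0 : Cn n), C.s ζ' v ≠ 0 :=
    (C.anal v 0 h0).continuousAt.eventually_ne hv0
  have hgv : ∀ᶠ ζ' in 𝓝 (0 : Cn n), IsVal (C.s ζ') f (g ζ') := by
    filter_upwards [hvn] with ζ' h
    exact ⟨u, v, h, h2, by simp only [hg]; field_simp⟩
  obtain ⟨hga, hgd⟩ := isVal_fderiv het hinj bw hbw C h0 hgv
  have hFg : F =ᶠ[𝓝 ζ] fun ζ' => g (φ ζ') := by
    have h4 : ∀ᶠ ζ' in 𝓝 ζ, s ζ' v ≠ 0 := (hs v).continuousAt.eventually_ne h1
    filter_upwards [hF, hev, h4] with ζ' a1 a2 a3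
    have a4 := a1.eq_of hinj u v h2
    have a5 : C.s (φ ζ') = s ζ' := a2.symm
    simp only [hg, a5]
    rw [← a4]
    field_simp
  have hga' : AnalyticAt ℂ g (φ ζ) := by rw [hφ0]; exact hga
  have hFa : AnalyticAt ℂ F ζ := by
    rw [analyticAt_congr hFg]
    exact hga'.comp hφa
  refine ⟨hFa, fun j => fderiv ℂ g 0 (Pi.single j 1), fun j => ?_, fun v' => ?_⟩
  · have := hgd j
    rwa [C.s_zero] at this
  · rw [hFg.fderiv_eq]
    have h5 : fderiv ℂ (fun ζ' => g (φ ζ')) ζ = (fderiv ℂ g (φ ζ)).comp (fderiv ℂ φ ζ) :=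
      fderiv_comp (g := g) ζ hga'.differentiableAt hφa.differentiableAt
    rw [h5, hφ0, ContinuousLinearMap.comp_apply]
    have h6 : fderiv ℂ φ ζ v' = ∑ j, (fderiv ℂ (fun ζ => s ζ (w j)) ζ v') •
        (Pi.single j (1 : ℂ) : Cn n) := by
      funext i
      have h7 : HasFDerivAt φ (fderiv ℂ φ ζ) ζ := hφa.differentiableAt.hasFDerivAt
      have h8 := (hasFDerivAt_pi'.1 h7) i
      have h9 : fderiv ℂ (fun x => φ x i) ζ = fderiv ℂ (fun ζ => s ζ (w i)) ζ := by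
        simp only [hφ]
        rw [fderiv_sub_const]
      rw [h8.fderiv] at h9
      have h10 := congrArg (fun L : Cn m →L[ℂ] ℂ => L v') h9
      simp only [ContinuousLinearMap.comp_apply, ContinuousLinearMap.proj_apply] at h10
      rw [h10, Finset.sum_apply]
      simp [Pi.single_apply]
    rw [h6, map_sum]
    refine Finset.sum_congr rfl fun j _ => ?_
    rw [map_smul, smul_eq_mul, mul_comm]

/-- **the Jacobian of a family of values** -/
theorem det_chain (het : RingHom.Etale ((MvPolynomial.aeval w :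
      MvPolynomial (Fin n) ℂ →ₐ[ℂ] A) : MvPolynomial (Fin n) ℂ →+* A))
    (hinj : Function.Injective (algebraMap A K)) (bw : Module.Basis (Fin n) K (Ω[K⁄ℂ]))
    (hbw : ∀ j, bw j = KaehlerDifferential.D ℂ K (algebraMap A K (w j)))
    {s : Cn n → (A →ₐ[ℂ] ℂ)} {ζ : Cn n}
    (hs : ∀ a, AnalyticAt ℂ (fun ζ => s ζ a) ζ) {f : Fin n → K} {W : Cn n → Cn n}
    (hW : ∀ᶠ ζ' in 𝓝 ζ, ∀ j, IsVal (s ζ') (f j) (W ζ' j)) :
    AnalyticAt ℂ W ζ ∧ ∃ v : ℂ,
      IsVal (s ζ) (bw.toMatrix fun j => KaehlerDifferential.D ℂ K (f j)).det v ∧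
      (fderiv ℂ W ζ).det = v * (fderiv ℂ (fun ζ i => s ζ (w i)) ζ).det := by
  have h1 : ∀ i, AnalyticAt ℂ (fun ζ' => W ζ' i) ζ ∧ ∃ c : Fin n → ℂ,
      (∀ j, IsVal (s ζ) (bw.repr (KaehlerDifferential.D ℂ K (f i)) j) (c j)) ∧
      ∀ v, fderiv ℂ (fun ζ' => W ζ' i) ζ v = ∑ j, c j * fderiv ℂ (fun ζ => s ζ (w j)) ζ v :=
    fun i => val_chain het hinj bw hbw hs (hW.mono fun ζ' h => h i)
  choose hWa c hc hcd using h1
  have hWA : AnalyticAt ℂ W ζ := AnalyticAt.pi hWa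
  have hwA : AnalyticAt ℂ (fun ζ i => s ζ (w i)) ζ := AnalyticAt.pi fun i => hs (w i)
  refine ⟨hWA, (Matrix.of fun j i => c i j).det, IsVal.det fun j i => ?_, ?_⟩
  · rw [Module.Basis.toMatrix_apply]
    exact hc i j
  · have e1 : ∀ L : Cn n →L[ℂ] Cn n, L.det = (Matrix.of fun i k => L (Pi.single k 1) i).det := by
      intro L
      rw [ContinuousLinearMap.det, ← LinearMap.det_toMatrix']
      rfl
    have e2 : ∀ {g : Cn n → Cn n}, AnalyticAt ℂ g ζ → ∀ v i, fderiv ℂ g ζ v i =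
        fderiv ℂ (fun ζ' => g ζ' i) ζ v := by
      intro g hg v i
      have h2 : HasFDerivAt g (fderiv ℂ g ζ) ζ := hg.differentiableAt.hasFDerivAt
      have h3 := (hasFDerivAt_pi'.1 h2) i
      rw [h3.fderiv]
      rfl
    rw [e1, e1, ← Matrix.det_transpose (Matrix.of fun j i => c i j), ← Matrix.det_mul]
    congr 1
    ext i k
    rw [Matrix.mul_apply]
    simp only [Matrix.of_apply, Matrix.transpose_apply]
    rw [e2 hWA, hcd]
    refine Finset.sum_congr rfl fun j _ => ?_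
    rw [e2 hwA]

end Crest.Agent.R276.C4GV_804
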