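import Crest.Agent.R276.CntDefs_857
import Crest.Agent.R276.SliA_217
import Crest.Agent.R271.RExt2_747

/-!
# R276, leaf COUNT (helper857): Laurent coefficients of `L²` sections along a divisor, part A

Basic facts on `DChart`, holomorphy of `fI`, the coefficients `co`.
-/

set_option autoImplicit false

noncomputable section

open Set Filter Topology MeasureTheory Metric

namespace Crest.Agent.R276.CntA_857

open Crest.Agent.R271.Ho51 Crest.Agent.R276.CntDefs_857 Crest.Agent.R276.SliA_217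

/-! ### radii and polydiscs -/

section basic

variable {d : ℕ}

theorem radf_pos {h : MvPolynomial (Fin d) ℂ} {c : ℝ} (hc : 0 < c) (κ : ℕ) {z : Fin d → ℂ}
    (hz : MvPolynomial.eval z h ≠ 0) : 0 < radf h c κ z := by
  unfold radf
  have h1 : 0 < min 1 ‖MvPolynomial.eval z h‖ := lt_min one_pos (norm_pos_iff.2 hz)
  have h2 : 0 < 1 + ‖z‖ := by positivity
  positivity

theorem radf_le_one (h : MvPolynomial (Fin d) ℂ) {c : ℝ} (hc : c ≤ 1) (κ : ℕ)
    (z : Fin d → ℂ) : radf h c κ z ≤ 1 := by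
  unfold radf
  have h0 : 0 ≤ min 1 ‖MvPolynomial.eval z h‖ := le_min zero_le_one (norm_nonneg _)
  have h1 : min 1 ‖MvPolynomial.eval z h‖ ≤ 1 := min_le_left _ _
  have h2 : (1 : ℝ) ≤ 1 + ‖z‖ := by linarith [norm_nonneg z]
  have h3 : min 1 ‖MvPolynomial.eval z h‖ / (1 + ‖z‖) ≤ 1 := by
    rw [div_le_one (by linarith)]; linarith
  have h4 : 0 ≤ min 1 ‖MvPolynomial.eval z h‖ / (1 + ‖z‖) := div_nonneg h0 (by linarith)
  calc c * (min 1 ‖MvPolynomial.eval z h‖ / (1 + ‖z‖)) ^ κ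
      ≤ 1 * (min 1 ‖MvPolynomial.eval z h‖ / (1 + ‖z‖)) ^ κ := by gcongr
    _ ≤ 1 := by rw [one_mul]; exact pow_le_one₀ h4 h3

theorem isOpen_PS (r : ℝ) : IsOpen (PS d r) := by
  have h1 : PS d r = {q | q 0 ≠ 0} ∩ ⋂ i, {q | ‖q i‖ < r} := by
    ext q; simp [PS]
  rw [h1]
  refine IsOpen.inter (isOpen_ne.preimage (continuous_apply 0)) (isOpen_iInter_of_finite fun i => ?_)
  exact isOpen_lt (continuous_norm.comp (continuous_apply i)) continuous_const

theorem isOpen_Sh (r : ℝ) : IsOpen (Sh d r) := by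
  have h1 : Sh d r = {q | r / 4 < ‖q 0‖} ∩ ({q | ‖q 0‖ < 3 * r / 4} ∩
      ⋂ i : Fin d, {q | ‖q i.succ‖ < r / 2}) := by
    ext q; simp [Sh]
  rw [h1]
  refine IsOpen.inter (isOpen_lt continuous_const (continuous_norm.comp (continuous_apply 0)))
    (IsOpen.inter (isOpen_lt (continuous_norm.comp (continuous_apply 0)) continuous_const)
      (isOpen_iInter_of_finite fun i => ?_))
  exact isOpen_lt (continuous_norm.comp (continuous_apply _)) continuous_const

theorem Sh_subset {r : ℝ} (hr : 0 < r) : Sh d r ⊆ PS d r := by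
  rintro q ⟨h1, h2, h3⟩
  refine ⟨fun h => ?_, fun i => ?_⟩
  · rw [h, norm_zero] at h1; linarith
  · refine Fin.cases ?_ (fun j => ?_) i
    · linarith
    · have := h3 j; linarith

theorem Sh_subset_ball {r : ℝ} (hr : 0 < r) : Sh d r ⊆ ball 0 r := by
  intro q hq
  rw [mem_ball_zero_iff, pi_norm_lt_iff hr]
  exact (Sh_subset hr hq).2

theorem PS_mono {r s : ℝ} (h : r ≤ s) : PS d r ⊆ PS d s :=
  fun _ hq => ⟨hq.1, fun i => (hq.2 i).trans_le h⟩

theorem cons_mem_PS {x : ℂ} {v : Fin d → ℂ} {r : ℝ} :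
    (Fin.cons x v : Fin (d + 1) → ℂ) ∈ PS d r ↔ x ≠ 0 ∧ ‖x‖ < r ∧ ∀ i, ‖v i‖ < r := by
  constructor
  · rintro ⟨h1, h2⟩
    exact ⟨h1, h2 0, fun i => by simpa using h2 i.succ⟩
  · rintro ⟨h1, h2, h3⟩
    refine ⟨h1, fun i => ?_⟩
    refine Fin.cases ?_ (fun j => ?_) i
    · simpa using h2
    · simpa using h3 j

/-- the closed polydisc of radius `r/5` around a point of the circle `|x| = r/2` lies in the
shell -/
theorem closedBall_subset_Sh {r : ℝ} (hr : 0 < r) {x : ℂ} (hx : ‖x‖ = r / 2) :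
    closedBall (Fin.cons x 0 : Fin (d + 1) → ℂ) (r / 5) ⊆ Sh d r := by
  intro q hq
  rw [mem_closedBall, dist_pi_le_iff (by positivity)] at hq
  have h0 := hq 0
  simp only [Fin.cons_zero, dist_eq_norm] at h0
  have h1 : ‖q 0‖ ≤ ‖x‖ + ‖q 0 - x‖ := by
    calc ‖q 0‖ = ‖x + (q 0 - x)‖ := by congr 1; ring
      _ ≤ _ := norm_add_le _ _
  have h2 : ‖x‖ ≤ ‖q 0‖ + ‖q 0 - x‖ := by
    calc ‖x‖ = ‖q 0 - (q 0 - x)‖ := by congr 1; ring
      _ ≤ _ := norm_sub_le _ _
  refine ⟨by linarith, by linarith, fun i => ?_⟩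
  have h3 := hq i.succ
  simp only [Fin.cons_succ, Pi.zero_apply, dist_zero_right] at h3
  linarith

end basic

/-! ### holomorphy in charts -/

section hol

variable {d : ℕ} {M E : Type*} [TopologicalSpace M] [RDom (d + 1) M] [MeasurableSpace M]
    {μ : Measure M} [TopologicalSpace E] [RDom d E]

omit [MeasurableSpace M] in
/-- composition of a holomorphic function with a holomorphic map -/
theorem diff_comp {F : M → ℂ} (hF : Hol F) {σ : (Fin (d + 1) → ℂ) → M}
    {U : Set (Fin (d + 1) → ℂ)} (hU : IsOpen U) (hc : ContinuousOn σ U)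
    (hσ : DifferentiableOn ℂ (fun q => (cp (σ q) : Fin (d + 1) → ℂ)) U) :
    DifferentiableOn ℂ (fun q => F (σ q)) U := by
  intro q hq
  have hx := mem_ch (σ q)
  have hcq : ContinuousAt σ q := hc.continuousAt (hU.mem_nhds hq)
  have h1 : ∀ᶠ q' in 𝓝 q, σ q' ∈ (ch (σ q)).source :=
    hcq.eventually ((ch (σ q)).open_source.mem_nhds hx)
  have h2 : DifferentiableAt ℂ (F ∘ (ch (σ q)).symm) (cp (σ q)) :=
    (hF (ch (σ q)) (isCh_ch _) _ ((isCh_ch _).cp_mem hx)).differentiableAt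
      ((ch (σ q)).open_target.mem_nhds ((isCh_ch _).cp_mem hx))
  have h3 : DifferentiableAt ℂ (fun q => (cp (σ q) : Fin (d + 1) → ℂ)) q :=
    (hσ q hq).differentiableAt (hU.mem_nhds hq)
  have h4 : DifferentiableAt ℂ (fun q' => (F ∘ (ch (σ q)).symm) (cp (σ q'))) q :=
    DifferentiableAt.comp (g := F ∘ (ch (σ q)).symm)
      (f := fun q => (cp (σ q) : Fin (d + 1) → ℂ)) q h2 h3
  refine (h4.congr_of_eventuallyEq ?_).differentiableWithinAt
  filter_upwards [h1] with q' hq'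
  simp only [Function.comp_apply, (isCh_ch _).symm_cp hq']

/-- the determinant of the derivative of a holomorphic map is holomorphic -/
theorem diff_det {m : ℕ} {f : (Fin m → ℂ) → (Fin m → ℂ)} {U : Set (Fin m → ℂ)} (hU : IsOpen U)
    (hf : DifferentiableOn ℂ f U) : DifferentiableOn ℂ (fun q => (fderiv ℂ f q).det) U := by
  have h1 : ∀ A : (Fin m → ℂ) →L[ℂ] (Fin m → ℂ),
      A.det = ∑ s : Equiv.Perm (Fin m), (Equiv.Perm.sign s : ℤ) • ∏ i, A (Pi.single i 1) (s i) := by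
    intro A
    rw [ContinuousLinearMap.det, ← LinearMap.det_toMatrix', Matrix.det_apply]
    refine Finset.sum_congr rfl fun s _ => ?_
    simp [LinearMap.toMatrix'_apply, Units.smul_def]
  have h2 : AnalyticOnNhd ℂ f U := by
    rw [analyticOnNhd_pi_iff]
    intro i
    exact Crest.Agent.R266.SCV.analyticOnNhd_of_differentiableOn hU
      (differentiableOn_pi.1 hf i)
  have h3 : AnalyticOnNhd ℂ (fderiv ℂ f) U := h2.fderiv
  intro q hq
  have h4 : DifferentiableAt ℂ (fderiv ℂ f) q := (h3 q hq).differentiableAt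
  have h5 : DifferentiableAt ℂ (fun q => ∑ s : Equiv.Perm (Fin m), (Equiv.Perm.sign s : ℤ) •
      ∏ i, (fderiv ℂ f q) (Pi.single i 1) (s i)) q := by
    refine DifferentiableAt.fun_sum fun s _ => ?_
    refine DifferentiableAt.const_smul ?_ _
    have h7 : ∀ i : Fin m, DifferentiableAt ℂ (fun q => (fderiv ℂ f q) (Pi.single i 1) (s i)) q := by
      intro i
      have h6 : DifferentiableAt ℂ (fun q => (fderiv ℂ f q) (Pi.single i 1)) q :=
        h4.clm_apply (differentiableAt_const _)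
      exact (differentiableAt_pi.1 h6) (s i)
    exact (HasFDerivAt.finsetProd fun i _ => (h7 i).hasFDerivAt).differentiableAt
  simp only [h1]
  exact h5.differentiableWithinAt

variable (D : DChart M E μ)

theorem r_pos (y : E) : 0 < D.r y := radf_pos D.hc0 D.κ (D.cov.hne y)

theorem r_le_one (y : E) : D.r y ≤ 1 := radf_le_one _ D.hc1 _ _

theorem diff_J (y : E) : DifferentiableOn ℂ (D.J y) (PS d (D.r y)) :=
  diff_det (isOpen_PS _) (D.hol y)

theorem diff_fI (n t : ℕ) (k : ℤ) {F : M → ℂ} (hF : Hol F) (y : E) :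
    DifferentiableOn ℂ (D.fI n t k F y) (PS d (D.r y)) := by
  unfold DChart.fI
  refine ((diff_comp hF (isOpen_PS _) (D.cont y) (D.hol y)).mul ((diff_J D y).pow n)).mul ?_
  intro q hq
  have h1 : DifferentiableAt ℂ (fun q : Fin (d + 1) → ℂ => q 0) q := differentiableAt_apply 0 q
  exact ((differentiableAt_zpow.2 (Or.inl hq.1)).comp q h1).differentiableWithinAt


/-! ### circle averages on annuli -/

omit [MeasurableSpace M] in
theorem avg_annulus {g : ℂ → ℂ} {r R : ℝ} (h0 : 0 < r) (hle : r ≤ R)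
    (hd : ∀ z, r ≤ ‖z‖ → ‖z‖ ≤ R → DifferentiableAt ℂ g z) :
    Real.circleAverage g 0 R = Real.circleAverage g 0 r := by
  rw [Real.circleAverage_eq_circleIntegral (h0.trans_le hle).ne',
    Real.circleAverage_eq_circleIntegral h0.ne']
  congr 1
  apply Complex.circleIntegral_sub_center_inv_smul_eq_of_differentiable_on_annulus_off_countable
    h0 hle countable_empty
  · intro z hz
    rw [Set.mem_sdiff, mem_closedBall, mem_ball, dist_zero_right, not_lt] at hz
    exact (hd z hz.2 hz.1).continuousAt.continuousWithinAt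
  · intro z hz
    have h1 := hz.1.1
    have h2 := hz.1.2
    rw [mem_ball, dist_zero_right] at h1
    rw [mem_closedBall, dist_zero_right, not_le] at h2
    exact hd z h2.le h1.le


/-! ### Laurent coefficients -/

/-- the `l`-th Laurent coefficient along `E` -/
def co (D : DChart M E μ) (n t : ℕ) (k : ℤ) (F : M → ℂ) (l : ℤ) (y : E) : ℂ :=
  Real.circleAverage (fun x : ℂ => D.fI n t k F y (Fin.cons x 0) * x ^ (-l)) 0 (D.r y / 2)

/-- the coefficient in the chart at `y`, at the point `v` of the polydisc, circle of radius `s` -/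
def coL (D : DChart M E μ) (n t : ℕ) (k : ℤ) (F : M → ℂ) (l : ℤ) (y : E) (s : ℝ)
    (v : Fin d → ℂ) : ℂ :=
  Real.circleAverage (fun x : ℂ => D.fI n t k F y (Fin.cons x v) * x ^ (-l)) 0 s

omit [MeasurableSpace M] in
theorem diff_cons1 (v : Fin d → ℂ) : Differentiable ℂ (fun x : ℂ => (Fin.cons x v : Fin (d + 1) → ℂ)) := by
  rw [differentiable_pi]
  intro i
  refine Fin.cases ?_ (fun j => ?_) i
  · simp
  · simp

omit [MeasurableSpace M] in
theorem diff_cons2 (x : ℂ) : Differentiable ℂ (fun v : Fin d → ℂ => (Fin.cons x v : Fin (d + 1) → ℂ)) := by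
  rw [differentiable_pi]
  intro i
  refine Fin.cases ?_ (fun j => ?_) i
  · simp
  · simpa using differentiable_apply (𝕜 := ℂ) j

/-- differentiability of the integrand in `x` -/
theorem diffAt_x (n t : ℕ) (k : ℤ) {F : M → ℂ} (hF : Hol F) (l : ℤ) (y : E) {v : Fin d → ℂ}
    (hv : ‖v‖ < D.r y) {x : ℂ} (hx : x ≠ 0) (hxr : ‖x‖ < D.r y) :
    DifferentiableAt ℂ (fun x : ℂ => D.fI n t k F y (Fin.cons x v) * x ^ (-l)) x := by
  have hm : (Fin.cons x v : Fin (d + 1) → ℂ) ∈ PS d (D.r y) :=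
    cons_mem_PS.2 ⟨hx, hxr, fun i => (norm_le_pi_norm v i).trans_lt hv⟩
  have h1 : DifferentiableAt ℂ (D.fI n t k F y) (Fin.cons x v) :=
    (diff_fI D n t k hF y _ hm).differentiableAt ((isOpen_PS _).mem_nhds hm)
  have h2 : DifferentiableAt ℂ (fun x : ℂ => D.fI n t k F y (Fin.cons x v)) x :=
    DifferentiableAt.comp (g := D.fI n t k F y)
      (f := fun x : ℂ => (Fin.cons x v : Fin (d + 1) → ℂ)) x h1 (diff_cons1 v x)
  exact h2.mul (differentiableAt_zpow.2 (Or.inl hx))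

theorem coL_radius (n t : ℕ) (k : ℤ) {F : M → ℂ} (hF : Hol F) (l : ℤ) (y : E) {v : Fin d → ℂ}
    (hv : ‖v‖ < D.r y) {s s' : ℝ} (hs : 0 < s) (hss : s ≤ s') (hs' : s' < D.r y) :
    coL D n t k F l y s' v = coL D n t k F l y s v := by
  refine avg_annulus hs hss fun x h1 h2 => diffAt_x D n t k hF l y hv ?_ (h2.trans_lt hs')
  intro h
  rw [h, norm_zero] at h1
  linarith

theorem coL_radius' (n t : ℕ) (k : ℤ) {F : M → ℂ} (hF : Hol F) (l : ℤ) (y : E) {v : Fin d → ℂ}
    (hv : ‖v‖ < D.r y) {s s' : ℝ} (hs : 0 < s) (hsr : s < D.r y) (hs0 : 0 < s')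
    (hs' : s' < D.r y) : coL D n t k F l y s' v = coL D n t k F l y s v := by
  rcases le_total s s' with h | h
  · exact coL_radius D n t k hF l y hv hs h hs'
  · exact (coL_radius D n t k hF l y hv hs0 h hsr).symm

theorem coL_hol (n t : ℕ) (k : ℤ) {F : M → ℂ} (hF : Hol F) (l : ℤ) (y : E) {s : ℝ} (hs : 0 < s)
    (hsr : s < D.r y) :
    AnalyticOnNhd ℂ (coL D n t k F l y s) (ball 0 (D.r y)) := by
  have hm : ∀ v ∈ ball (0 : Fin d → ℂ) (D.r y), ∀ θ : ℝ,
      (Fin.cons (circleMap 0 s θ) v : Fin (d + 1) → ℂ) ∈ PS d (D.r y) := by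
    intro v hv θ
    rw [mem_ball_zero_iff] at hv
    refine cons_mem_PS.2 ⟨circleMap_ne_center hs.ne', ?_, fun i => (norm_le_pi_norm v i).trans_lt hv⟩
    rw [norm_circleMap_zero, abs_of_pos hs]; exact hsr
  have hcc : Continuous fun p : (Fin d → ℂ) × ℝ =>
      (Fin.cons (circleMap 0 s p.2) p.1 : Fin (d + 1) → ℂ) := by
    rw [continuous_pi_iff]
    intro i
    refine Fin.cases ?_ (fun j => ?_) i
    · simp only [Fin.cons_zero]
      exact (continuous_circleMap 0 s).comp continuous_snd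
    · simp only [Fin.cons_succ]
      exact (continuous_apply j).comp continuous_fst
  have h1 : AnalyticOnNhd ℂ (fun v : Fin d → ℂ => ∫ θ in (0 : ℝ)..2 * Real.pi,
      D.fI n t k F y (Fin.cons (circleMap 0 s θ) v) * (circleMap 0 s θ) ^ (-l)) (ball 0 (D.r y)) := by
    refine Crest.Agent.R266.SCV.analyticOnNhd_intervalIntegral
      (f := fun p : (Fin d → ℂ) × ℝ =>
        D.fI n t k F y (Fin.cons (circleMap 0 s p.2) p.1) * (circleMap 0 s p.2) ^ (-l))
      isOpen_ball ?_ ?_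
    · refine ContinuousOn.mul ?_ ?_
      · refine ((diff_fI D n t k hF y).continuousOn).comp hcc.continuousOn ?_
        rintro ⟨v, θ⟩ ⟨hv, -⟩
        exact hm v hv θ
      · refine (Continuous.zpow₀ ((continuous_circleMap 0 s).comp continuous_snd) _ ?_).continuousOn
        intro p
        exact Or.inl (circleMap_ne_center hs.ne')
    · intro θ _
      have h5 : DifferentiableOn ℂ (fun v : Fin d → ℂ => D.fI n t k F y
          (Fin.cons (circleMap 0 s θ) v)) (ball 0 (D.r y)) := by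
        refine (diff_fI D n t k hF y).comp (diff_cons2 _).differentiableOn ?_
        intro v hv
        exact hm v hv θ
      exact h5.mul_const (circleMap 0 s θ ^ (-l))
  have h2 : coL D n t k F l y s = fun v : Fin d → ℂ => (2 * Real.pi : ℝ)⁻¹ •
      ∫ θ in (0 : ℝ)..2 * Real.pi,
      D.fI n t k F y (Fin.cons (circleMap 0 s θ) v) * (circleMap 0 s θ) ^ (-l) := by
    funext v
    rw [coL, Real.circleAverage_def]
  rw [h2]
  intro v hv
  have h3 := h1 v hv
  exact h3.const_smul (c := (2 * Real.pi : ℝ)⁻¹)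

/-- a centered chart of `E` -/
theorem exists_chart (y : E) : ∃ e : OpenPartialHomeomorph E (Fin d → ℂ),
    IsCh e ∧ y ∈ e.source ∧ e.target = ball (cp y) (D.r y) := by
  obtain ⟨s, hs, -, hu⟩ := D.cov.ev (cp y) (D.r y) (r_pos D y) (D.hball y)
  have h1 : y ∈ (cp ⁻¹' ball (cp y) (D.r y) : Set E) := mem_ball_self (r_pos D y)
  rw [hu, mem_iUnion] at h1
  obtain ⟨i, hi⟩ := h1
  exact ⟨s i, (hs i).1, hi, (hs i).2⟩

/-- the local sections agree in nearby charts -/
theorem fI_compat (n t : ℕ) (k : ℤ) (F : M → ℂ) {y : E} {e : OpenPartialHomeomorph E (Fin d → ℂ)}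
    (he : IsCh e) (hy : y ∈ e.source) (ht : e.target = ball (cp y) (D.r y)) {y' : E}
    (hy' : y' ∈ e.source) {q : Fin (d + 1) → ℂ} (hq : q ∈ PS d (D.r y'))
    (hq' : q + Fin.cons 0 (cp y' - cp y) ∈ PS d (D.r y)) :
    D.fI n t k F y' q = D.fI n t k F y (q + Fin.cons 0 (cp y' - cp y)) := by
  set a : Fin (d + 1) → ℂ := Fin.cons 0 (cp y' - cp y) with ha
  have h1 := D.compat y e he hy ht y' hy'
  have h2 : ∀ᶠ q' in 𝓝 q, q' ∈ PS d (D.r y') ∧ q' + a ∈ PS d (D.r y) := by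
    have h3 : ContinuousAt (fun q' : Fin (d + 1) → ℂ => q' + a) q := by fun_prop
    have h4 : ∀ᶠ q' in 𝓝 q, q' ∈ PS d (D.r y') := (isOpen_PS _).mem_nhds hq
    exact h4.and (h3.eventually ((isOpen_PS _).mem_nhds hq'))
  have h3 : (fun q => (cp (D.σ y' q) : Fin (d + 1) → ℂ)) =ᶠ[𝓝 q]
      fun q => (fun q => (cp (D.σ y q) : Fin (d + 1) → ℂ)) (q + a) := by
    filter_upwards [h2] with q' hq'
    simp only [h1 q' hq'.1 hq'.2]
    rfl
  have h4 : D.J y' q = D.J y (q + a) := by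
    unfold DChart.J
    rw [h3.fderiv_eq]
    exact congrArg _ (fderiv_comp_add_right (f := fun q => (cp (D.σ y q) : Fin (d + 1) → ℂ)) a)
  have h5 : (q + a) 0 = q 0 := by simp [ha]
  unfold DChart.fI
  rw [h4, h5, h1 q hq hq']

theorem co_symm (n t : ℕ) (k : ℤ) {F : M → ℂ} (hF : Hol F) (l : ℤ) {y : E}
    {e : OpenPartialHomeomorph E (Fin d → ℂ)}
    (he : IsCh e) (hy : y ∈ e.source) (ht : e.target = ball (cp y) (D.r y)) {y' : E}
    (hy' : y' ∈ e.source) {s : ℝ} (hs : 0 < s) (hsr : s < D.r y) :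
    co D n t k F l y' = coL D n t k F l y s (cp y' - cp y) := by
  have hr := r_pos D y
  have hr' := r_pos D y'
  have hv : ‖(cp y' : Fin d → ℂ) - cp y‖ < D.r y := by
    have h1 := he.cp_mem hy'
    rw [ht, mem_ball, dist_eq_norm] at h1
    exact h1
  set s0 := min (D.r y' / 2) s with hs0
  have hs00 : 0 < s0 := lt_min (by positivity) hs
  have h1 : co D n t k F l y' = coL D n t k F l y' s0 0 := by
    have h2 : co D n t k F l y' = coL D n t k F l y' (D.r y' / 2) 0 := rfl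
    rw [h2]
    exact coL_radius D n t k hF l y' (by simpa using hr') hs00 (min_le_left _ _) (by linarith)
  rw [h1, coL_radius D n t k hF l y hv hs00 (min_le_right _ _) hsr]
  unfold coL
  refine Real.circleAverage_congr_sphere ?_
  intro x hx
  rw [abs_of_pos hs00, mem_sphere_zero_iff_norm] at hx
  have hx0 : x ≠ 0 := by
    intro h; rw [h, norm_zero] at hx; linarith
  have hxr' : ‖x‖ < D.r y' := by
    rw [hx]; exact (min_le_left _ _).trans_lt (by linarith)
  have hxr : ‖x‖ < D.r y := by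
    rw [hx]; exact (min_le_right _ _).trans_lt hsr
  have h3 : (Fin.cons x 0 : Fin (d + 1) → ℂ) + Fin.cons 0 (cp y' - cp y) =
      Fin.cons x (cp y' - cp y) := by
    funext i
    refine Fin.cases ?_ (fun j => ?_) i <;> simp
  have h4 := fI_compat D n t k F he hy ht hy' (q := Fin.cons x 0)
    (cons_mem_PS.2 ⟨hx0, hxr', fun i => by simpa using hr'⟩) (by
      rw [h3]
      exact cons_mem_PS.2 ⟨hx0, hxr, fun i => (norm_le_pi_norm _ i).trans_lt hv⟩)
  rw [h3] at h4
  simp only [h4]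

/-- **the coefficients are holomorphic** -/
theorem co_hol (n t : ℕ) (k : ℤ) {F : M → ℂ} (hF : Hol F) (l : ℤ) :
    Hol (co D n t k F l) := by
  rw [← holP_cp]
  refine HolP.of_local fun y => ?_
  obtain ⟨e, he, hy, ht⟩ := exists_chart D y
  have hr := r_pos D y
  refine ⟨e, hy, he, ?_⟩
  have h1 : DifferentiableAt ℂ (coL D n t k F l y (D.r y / 2)) 0 :=
    (coL_hol D n t k hF l y (by positivity) (by linarith) 0 (mem_ball_self hr)).differentiableAt
  have h2 : DifferentiableAt ℂ (fun w : Fin d → ℂ => coL D n t k F l y (D.r y / 2) (w - cp y))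
      (cp y) := by
    have h3 : DifferentiableAt ℂ (fun w : Fin d → ℂ => w - cp y) (cp y) := by fun_prop
    refine DifferentiableAt.comp (g := coL D n t k F l y (D.r y / 2)) (cp y) ?_ h3
    simpa using h1
  refine h2.congr_of_eventuallyEq ?_
  filter_upwards [e.open_target.mem_nhds (he.cp_mem hy)] with w hw
  have h4 := co_symm D n t k hF l he hy ht (e.map_target hw) (s := D.r y / 2) (by positivity)
    (by linarith)
  rw [he.cp_symm hw] at h4
  exact h4


/-! ### the identity theorem on `E` -/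

omit [MeasurableSpace M] [TopologicalSpace M] [RDom (d + 1) M] in
theorem eq_zero_of_conn (hc : IsPreconnected (univ : Set E)) {f : E → ℂ} (hf : Hol f) {O : Set E}
    (hO : IsOpen O) (hne : O.Nonempty) (h0 : ∀ y ∈ O, f y = 0) : f = 0 := by
  set S : Set E := {y | ∀ᶠ x in 𝓝 y, f x = 0} with hS
  have hSo : IsOpen S := isOpen_setOfPred_eventually_nhds
  have hSc : IsClosed S := by
    rw [← closure_subset_iff_isClosed]
    intro y hy
    -- a ball inside the chart
    set e := ch y with he_def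
    have he : IsCh e := isCh_ch y
    have hye : y ∈ e.source := mem_ch y
    obtain ⟨ρ, hρ, hball⟩ := Metric.isOpen_iff.1 e.open_target _ (he.cp_mem hye)
    have hW : IsOpen (e.source ∩ cp ⁻¹' (ball (cp y) ρ)) :=
      e.open_source.inter (isOpen_ball.preimage cp_cont)
    obtain ⟨y1, ⟨hy1e, hy1b⟩, hy1S⟩ := mem_closure_iff.1 hy _ hW ⟨hye, mem_ball_self hρ⟩
    have hA : AnalyticOnNhd ℂ (f ∘ e.symm) (ball (cp y) ρ) :=
      Crest.Agent.R266.SCV.analyticOnNhd_of_differentiableOn isOpen_ball ((hf e he).mono hball)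
    have h1 : ∀ᶠ z in 𝓝 (cp y1 : Fin d → ℂ), (f ∘ e.symm) z = 0 := by
      have h2 : ContinuousAt e.symm (cp y1) := e.symm.continuousAt (by simpa using he.cp_mem hy1e)
      have h3 := h2.tendsto
      rw [he.symm_cp hy1e] at h3
      exact h3.eventually hy1S
    have h4 := hA.eqOn_zero_of_preconnected_of_eventuallyEq_zero
      (convex_ball _ _).isPreconnected hy1b h1
    have h5 : ∀ᶠ x in 𝓝 y, x ∈ e.source ∩ cp ⁻¹' (ball (cp y) ρ) :=
      hW.mem_nhds ⟨hye, mem_ball_self hρ⟩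
    filter_upwards [h5] with x hx
    have h6 := h4 hx.2
    simpa [he.symm_cp hx.1] using h6
  have hSne : (univ ∩ S).Nonempty := by
    obtain ⟨y, hy⟩ := hne
    exact ⟨y, mem_univ y, by filter_upwards [hO.mem_nhds hy] with x hx using h0 x hx⟩
  have h7 : univ ⊆ S := hc.subset_of_closure_inter_subset hSo hSne (by
    rw [hSc.closure_eq]; exact inter_subset_left)
  funext y
  exact (h7 (mem_univ y)).self_of_nhds

/-! ### the space `V` and the vanishing of the coefficients -/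

variable (M) in
/-- holomorphic functions -/
def HolS : Submodule ℂ (M → ℂ) where
  carrier := {F | Hol F}
  zero_mem' := fun _ _ => differentiableOn_const 0
  add_mem' := fun ha hb e he => (ha e he).add (hb e he)
  smul_mem' := fun c _ ha e he => (ha e he).const_smul c

omit [MeasurableSpace M] in
theorem Hol_cont {F : M → ℂ} (hF : Hol F) : Continuous F := by
  rw [← holP_cp] at hF
  exact HolP.continuous cp_lh hF

/-- the weight -/
def wtt (φ ψ : M → ℝ) (n t : ℕ) (x : M) : ℝ := Real.exp (-(((n : ℝ) - 1) * φ x + n * t * ψ x))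

/-- the square of the norm -/
def nrm (μ : Measure M) (φ ψ : M → ℝ) (n t : ℕ) (F : M → ℂ) : ENNReal :=
  ∫⁻ x, ENNReal.ofReal (‖F x‖ ^ 2 * wtt φ ψ n t x) ∂μ

theorem meas_nrm [BorelSpace M] {φ ψ : M → ℝ} (hφ : Measurable φ) (hψ : Measurable ψ) (n t : ℕ)
    {F : M → ℂ} (hF : Hol F) :
    Measurable fun x => ENNReal.ofReal (‖F x‖ ^ 2 * wtt φ ψ n t x) := by
  have h1 : Measurable F := (Hol_cont hF).measurable
  unfold wtt
  fun_prop

/-- the space of `L²` sections -/
def V [BorelSpace M] (μ : Measure M) {φ ψ : M → ℝ} (hφ : Measurable φ) (hψ : Measurable ψ)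
    (n t : ℕ) : Submodule ℂ (M → ℂ) where
  carrier := {F | Hol F ∧ nrm μ φ ψ n t F < ⊤}
  zero_mem' := ⟨fun _ _ => differentiableOn_const 0, by simp [nrm]⟩
  add_mem' := by
    rintro F G ⟨hF, hF'⟩ ⟨hG, hG'⟩
    refine ⟨fun e he => (hF e he).add (hG e he), ?_⟩
    have h1 : ∀ x, ENNReal.ofReal (‖(F + G) x‖ ^ 2 * wtt φ ψ n t x) ≤
        2 * ENNReal.ofReal (‖F x‖ ^ 2 * wtt φ ψ n t x) +
        2 * ENNReal.ofReal (‖G x‖ ^ 2 * wtt φ ψ n t x) := by
      intro x
      have h0 : 0 ≤ wtt φ ψ n t x := (Real.exp_pos _).le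
      have h2 : ‖(F + G) x‖ ^ 2 * wtt φ ψ n t x ≤
          2 * (‖F x‖ ^ 2 * wtt φ ψ n t x) + 2 * (‖G x‖ ^ 2 * wtt φ ψ n t x) := by
        have h3 : ‖(F + G) x‖ ^ 2 ≤ 2 * ‖F x‖ ^ 2 + 2 * ‖G x‖ ^ 2 := by
          have h4 : ‖(F + G) x‖ ≤ ‖F x‖ + ‖G x‖ := norm_add_le _ _
          nlinarith [norm_nonneg ((F + G) x), norm_nonneg (F x), norm_nonneg (G x),
            sq_nonneg (‖F x‖ - ‖G x‖)]
        nlinarith
      refine (ENNReal.ofReal_le_ofReal h2).trans ?_
      rw [ENNReal.ofReal_add (by positivity) (by positivity),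
        ENNReal.ofReal_mul (by norm_num : (0 : ℝ) ≤ 2),
        ENNReal.ofReal_mul (by norm_num : (0 : ℝ) ≤ 2)]
      simp
    refine lt_of_le_of_lt (lintegral_mono h1) ?_
    rw [lintegral_add_left ((meas_nrm hφ hψ n t hF).const_mul 2),
      lintegral_const_mul' _ _ (by simp), lintegral_const_mul' _ _ (by simp)]
    exact ENNReal.add_lt_top.2 ⟨ENNReal.mul_lt_top (by simp) hF',
      ENNReal.mul_lt_top (by simp) hG'⟩
  smul_mem' := by
    rintro c F ⟨hF, hF'⟩
    refine ⟨fun e he => (hF e he).const_smul c, ?_⟩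
    have h1 : ∀ x, ENNReal.ofReal (‖(c • F) x‖ ^ 2 * wtt φ ψ n t x) =
        ENNReal.ofReal (‖c‖ ^ 2) * ENNReal.ofReal (‖F x‖ ^ 2 * wtt φ ψ n t x) := by
      intro x
      rw [← ENNReal.ofReal_mul (by positivity), Pi.smul_apply, smul_eq_mul, norm_mul]
      congr 1; ring
    unfold nrm at hF' ⊢
    simp only [h1]
    rw [lintegral_const_mul' _ _ ENNReal.ofReal_ne_top]
    exact ENNReal.mul_lt_top ENNReal.ofReal_lt_top hF'


theorem mem_V [BorelSpace M] {φ ψ : M → ℝ} (hφ : Measurable φ) (hψ : Measurable ψ)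
    {n t : ℕ} {F : M → ℂ} : F ∈ V μ hφ hψ n t ↔ Hol F ∧ nrm μ φ ψ n t F < ⊤ := Iff.rfl

/-- the norm on the chart -/
theorem chart_norm [BorelSpace M] {φ ψ : M → ℝ} (hφ : Measurable φ) (hψ : Measurable ψ)
    (n t : ℕ) (k : ℤ) {F : M → ℂ} (hF : Hol F) (y : E) :
    ∫⁻ q in PS d (D.r y), ENNReal.ofReal (‖D.fI n t k F y q‖ ^ 2 *
      Real.exp (-(((n : ℝ) - 1) * D.phW φ y q + n * t * D.psI ψ k y q))) ≤
    D.N * nrm μ φ ψ n t F := by
  refine le_trans (le_of_eq ?_) (D.mult y _ (meas_nrm hφ hψ n t hF))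
  refine setLIntegral_congr_fun (isOpen_PS _).measurableSet fun q hq => ?_
  have hJ : D.J y q ≠ 0 := D.jac y q hq
  have hJ' : 0 < ‖D.J y q‖ := norm_pos_iff.2 hJ
  have hq0 : 0 < ‖q 0‖ := norm_pos_iff.2 hq.1
  rw [← ENNReal.ofReal_mul (by unfold wtt; positivity)]
  congr 1
  change _ = ‖F (D.σ y q)‖ ^ 2 * wtt φ ψ n t (D.σ y q) * ‖D.J y q‖ ^ 2
  unfold wtt DChart.fI DChart.phW DChart.psI
  rw [norm_mul, norm_mul, norm_pow, norm_zpow]
  have h1 : Real.exp (-(((n : ℝ) - 1) * (φ (D.σ y q) + Real.log (‖D.J y q‖ ^ 2)) +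
      n * t * (ψ (D.σ y q) + k * Real.log (‖q 0‖ ^ 2)))) =
      Real.exp (-(((n : ℝ) - 1) * φ (D.σ y q) + n * t * ψ (D.σ y q))) *
      (Real.exp (Real.log (‖D.J y q‖ ^ 2)) * (Real.exp (n * Real.log (‖D.J y q‖ ^ 2)))⁻¹ *
      (Real.exp ((n * t * k : ℤ) * Real.log (‖q 0‖ ^ 2)))⁻¹) := by
    rw [← Real.exp_neg, ← Real.exp_neg, ← Real.exp_add, ← Real.exp_add, ← Real.exp_add]
    congr 1
    push_cast
    ring
  have h2 : Real.exp (Real.log (‖D.J y q‖ ^ 2)) = ‖D.J y q‖ ^ 2 := Real.exp_log (by positivity)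
  have h3 : Real.exp (n * Real.log (‖D.J y q‖ ^ 2)) = (‖D.J y q‖ ^ n) ^ 2 := by
    rw [← Real.log_pow, Real.exp_log (by positivity)]; ring
  have h4 : Real.exp ((n * t * k : ℤ) * Real.log (‖q 0‖ ^ 2)) =
      (‖q 0‖ ^ (n * t * k : ℤ)) ^ 2 := by
    rw [← Real.log_zpow, Real.exp_log (by positivity), ← zpow_natCast, ← zpow_mul,
      ← zpow_natCast, ← zpow_mul, mul_comm]
  rw [h1, h2, h3, h4]
  have h5 : ‖D.J y q‖ ^ n ≠ 0 := (pow_pos hJ' n).ne'
  have h6 : ‖q 0‖ ^ (n * t * k : ℤ) ≠ 0 := (zpow_pos hq0 _).ne'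
  field_simp

omit [MeasurableSpace M] [TopologicalSpace M] [RDom (d + 1) M] [TopologicalSpace E] [RDom d E] in
/-- `L²` functions on a punctured polydisc extend -/
theorem ext_PS {r : ℝ} {f : (Fin (d + 1) → ℂ) → ℂ} (hr : 0 < r)
    (hf : DifferentiableOn ℂ f (PS d r)) (hL : ∫⁻ q in PS d r, ‖f q‖ₑ ^ 2 < ⊤) :
    ∃ g : (Fin (d + 1) → ℂ) → ℂ, DifferentiableOn ℂ g (ball 0 r) ∧ ∀ q ∈ PS d r, g q = f q := by
  have h1 : ball (0 : Fin (d + 1) → ℂ) r ∩ {z | z 0 ≠ 0} = PS d r := by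
    ext q
    rw [mem_inter_iff, mem_ball_zero_iff, pi_norm_lt_iff hr]
    exact and_comm
  have hD : AnalyticOnNhd ℂ (fun z : Fin (d + 1) → ℂ => z 0) (ball 0 r) :=
    fun z _ => (ContinuousLinearMap.proj (R := ℂ) (φ := fun _ : Fin (d + 1) => ℂ) 0).analyticAt z
  have hne : ∀ a ∈ ball (0 : Fin (d + 1) → ℂ) r,
      ¬ (∀ᶠ z in 𝓝 a, (fun z : Fin (d + 1) → ℂ => z 0) z = 0) := by
    intro a _ h
    have h2 : ContinuousAt (fun s : ℂ => a + s • (Pi.single 0 1 : Fin (d + 1) → ℂ)) 0 := by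
      fun_prop
    have h3 : ∀ᶠ s : ℂ in 𝓝 0, (a + s • (Pi.single 0 1 : Fin (d + 1) → ℂ)) 0 = 0 :=
      h2.eventually (p := fun z : Fin (d + 1) → ℂ => z 0 = 0) (by simpa using h)
    have h4 : a 0 = 0 := by simpa using h.self_of_nhds
    have h5 : ∀ᶠ s : ℂ in 𝓝 0, s = 0 := by
      filter_upwards [h3] with s hs
      simpa [h4] using hs
    have h6 : ∀ᶠ s : ℂ in 𝓝[≠] 0, s = 0 := h5.filter_mono nhdsWithin_le_nhds
    have h7 : ∀ᶠ s : ℂ in 𝓝[≠] 0, s ≠ 0 := self_mem_nhdsWithin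
    obtain ⟨s, hs, hs'⟩ := (h6.and h7).exists
    exact hs' hs
  obtain ⟨g, hg, hgf⟩ := Crest.Agent.R271.RExt747.riemann_ext (f := f) isOpen_ball hD hne
    (by rw [h1]; exact hf) (fun a ha => ⟨ball 0 r, isOpen_ball.mem_nhds ha, by rw [h1]; exact hL⟩)
  refine ⟨g, hg, fun q hq => hgf q ?_ hq.1⟩
  rw [← h1] at hq
  exact hq.1

/-- **vanishing of the coefficients below the pole order of `L²` sections** -/
theorem co_van [BorelSpace M] {φ ψ : M → ℝ} (hφ : Measurable φ) (hψ : Measurable ψ)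
    {n t : ℕ} {k : ℤ} {p : ℕ} (hG : Gen D φ ψ k p) (hn : 1 ≤ n) {F : M → ℂ}
    (hF : F ∈ V μ hφ hψ n t) {l : ℤ} (hl : l < -(p * (n - 1) : ℤ)) : co D n t k F l = 0 := by
  obtain ⟨O, hO, hOne, hb⟩ := hG
  refine eq_zero_of_conn D.conn (co_hol D n t k hF.1 l) hO hOne fun y hy => ?_
  obtain ⟨ε₀, C, hε₀, hC⟩ := hb y hy
  have hr := r_pos D y
  obtain ⟨P, hP⟩ : ∃ P : ℕ, (P : ℤ) = p * (n - 1) := ⟨p * (n - 1), by
    push_cast [Nat.cast_sub hn]; ring⟩
  set ε := min ε₀ (D.r y) with hε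
  have hε0 : 0 < ε := lt_min hε₀ hr
  have hsub : PS d ε ⊆ PS d (D.r y) := PS_mono (min_le_right _ _)
  set f : (Fin (d + 1) → ℂ) → ℂ := fun q => D.fI n t k F y q * (q 0) ^ P with hf
  have hfd : DifferentiableOn ℂ f (PS d ε) := by
    refine ((diff_fI D n t k hF.1 y).mono hsub).mul ?_
    have : Differentiable ℂ (fun q : Fin (d + 1) → ℂ => (q 0) ^ P) :=
      (differentiable_apply (𝕜 := ℂ) (0 : Fin (d + 1))).pow P
    exact this.differentiableOn
  have hnR : (0 : ℝ) ≤ (n : ℝ) - 1 := by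
    have : (1 : ℝ) ≤ n := by exact_mod_cast hn
    linarith
  have hPR : (P : ℝ) = p * ((n : ℝ) - 1) := by exact_mod_cast hP
  have hL : ∫⁻ q in PS d ε, ‖f q‖ₑ ^ 2 < ⊤ := by
    set K : ℝ := Real.exp (((n : ℝ) - 1) * C + n * t * C) with hK
    have h1 : ∫⁻ q in PS d ε, ‖f q‖ₑ ^ 2 ≤ ∫⁻ q in PS d ε, ENNReal.ofReal K *
        ENNReal.ofReal (‖D.fI n t k F y q‖ ^ 2 *
          Real.exp (-(((n : ℝ) - 1) * D.phW φ y q + n * t * D.psI ψ k y q))) := by
      refine setLIntegral_mono' (isOpen_PS _).measurableSet fun q hq => ?_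
      rw [← ENNReal.ofReal_mul (Real.exp_pos _).le]
      have h2 : ‖f q‖ₑ ^ 2 = ENNReal.ofReal (‖f q‖ ^ 2) := by
        rw [ENNReal.ofReal_pow (norm_nonneg _), ofReal_norm]
      rw [h2]
      refine ENNReal.ofReal_le_ofReal ?_
      have hq0 : 0 < ‖q 0‖ := norm_pos_iff.2 hq.1
      obtain ⟨h3, h4⟩ := hC q (PS_mono (min_le_left _ _) hq)
      have h5 : ((n : ℝ) - 1) * D.phW φ y q ≤
          ((n : ℝ) - 1) * (C - p * Real.log (‖q 0‖ ^ 2)) := mul_le_mul_of_nonneg_left h3 hnR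
      have h6 : (n : ℝ) * t * D.psI ψ k y q ≤ n * t * C :=
        mul_le_mul_of_nonneg_left h4 (by positivity)
      have h7 : (‖q 0‖ ^ P) ^ 2 = Real.exp (P * Real.log (‖q 0‖ ^ 2)) := by
        rw [← Real.log_pow, Real.exp_log (by positivity)]; ring
      have h8 : (‖q 0‖ ^ P) ^ 2 ≤ K *
          Real.exp (-(((n : ℝ) - 1) * D.phW φ y q + n * t * D.psI ψ k y q)) := by
        rw [h7, hK, ← Real.exp_add]
        apply Real.exp_le_exp.2
        rw [hPR]
        linarith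
      simp only [hf, norm_mul, norm_pow, mul_pow]
      calc ‖D.fI n t k F y q‖ ^ 2 * (‖q 0‖ ^ P) ^ 2
          ≤ ‖D.fI n t k F y q‖ ^ 2 * (K *
          Real.exp (-(((n : ℝ) - 1) * D.phW φ y q + n * t * D.psI ψ k y q))) := by gcongr
        _ = _ := by ring
    refine lt_of_le_of_lt h1 ?_
    rw [lintegral_const_mul' _ _ ENNReal.ofReal_ne_top]
    refine ENNReal.mul_lt_top ENNReal.ofReal_lt_top ?_
    refine lt_of_le_of_lt (lintegral_mono_set hsub) ?_
    refine lt_of_le_of_lt (chart_norm D hφ hψ n t k hF.1 y) ?_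
    exact ENNReal.mul_lt_top (by simp) hF.2
  obtain ⟨g, hg, hgf⟩ := ext_PS hε0 hfd hL
  -- the coefficient
  have h1 : co D n t k F l y = coL D n t k F l y (ε / 2) 0 := by
    have h2 : co D n t k F l y = coL D n t k F l y (D.r y / 2) 0 := rfl
    rw [h2]
    exact coL_radius' D n t k hF.1 l y (by simpa using hr) (by positivity)
      ((half_lt_self hε0).trans_le (min_le_right _ _)) (by positivity) (half_lt_self hr)
  obtain ⟨m, hm⟩ : ∃ m : ℕ, -l = P + (m + 1 : ℕ) := ⟨(-l - P - 1).toNat, by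
    push_cast
    rw [Int.toNat_of_nonneg (by omega)]; ring⟩
  have h2 : coL D n t k F l y (ε / 2) 0 =
      Real.circleAverage (fun x : ℂ => g (Fin.cons x 0) * x ^ (m + 1)) 0 (ε / 2) := by
    unfold coL
    refine Real.circleAverage_congr_sphere fun x hx => ?_
    rw [abs_of_pos (by positivity), mem_sphere_zero_iff_norm] at hx
    have hx0 : x ≠ 0 := by
      intro h; rw [h, norm_zero] at hx; linarith
    have hxP : (Fin.cons x 0 : Fin (d + 1) → ℂ) ∈ PS d ε :=
      cons_mem_PS.2 ⟨hx0, by rw [hx]; exact half_lt_self hε0, fun i => by simpa using hε0⟩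
    simp only [hgf _ hxP, hf, Fin.cons_zero]
    rw [hm, zpow_add₀ hx0, zpow_natCast, zpow_natCast]
    ring
  have h3 : ∀ x ∈ closedBall (0 : ℂ) |ε / 2|,
      DifferentiableAt ℂ (fun x : ℂ => g (Fin.cons x 0) * x ^ (m + 1)) x := by
    intro x hx
    rw [mem_closedBall_zero_iff, abs_of_pos (by positivity)] at hx
    have h4 : (Fin.cons x 0 : Fin (d + 1) → ℂ) ∈ ball 0 ε := by
      rw [mem_ball_zero_iff, pi_norm_lt_iff hε0]
      intro i
      refine Fin.cases ?_ (fun j => ?_) i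
      · simp only [Fin.cons_zero]; linarith
      · simpa using hε0
    have h5 : DifferentiableAt ℂ (fun x : ℂ => g (Fin.cons x 0)) x :=
      DifferentiableAt.comp (g := g) (f := fun x : ℂ => (Fin.cons x 0 : Fin (d + 1) → ℂ)) x
        (hg.differentiableAt (isOpen_ball.mem_nhds h4)) (diff_cons1 0 x)
    exact h5.mul (differentiableAt_id.pow (m + 1))
  rw [h1, h2, circleAverage_of_differentiable_on_off_countable countable_empty
    (fun x hx => (h3 x hx).continuousAt.continuousWithinAt)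
    (fun x hx => h3 x (ball_subset_closedBall hx.1))]
  simp

end hol

end Crest.Agent.R276.CntA_857
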