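import Mathlib
import Crest.Agent.R276.C4GV_804
import Crest.Agent.R276.BR6_590
import Crest.Agent.R276.CntA_857

/-!
# R276, leaf C4-GLUE (helper804): orders of algebraic functions on abstract analytic charts

`exists_generic`: on an analytic chart `AC` along `R` with the dictionary of canonical forms
(SkelDefs' `Dict.JK`) every regular function of order `m` at `R` has, near general points of the
hyperplane, order `kt * m`.
-/

set_option autoImplicit false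
set_option linter.unusedSectionVars false

open Set Filter Topology Metric

noncomputable section

namespace Crest.Agent.R276.C4GN_804

open Crest.Agent.R271.Bd741 Crest.Agent.R276.BC_986 Crest.Agent.R276.Mod1_987
open Crest.Agent.R271.Defs710 hiding glue
open Crest.Agent.R276.SkelDefs_220 hiding ModelOf
open Crest.Agent.R276.FKDefs_779
open Crest.Agent.R276.AcOpen_89 Crest.Agent.R276.C4GV_804

variable {K : Type} [Field K] [Algebra ℂ K] {n : ℕ}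

section values

variable {A : Type} [CommRing A] [Algebra ℂ A] [Algebra A K] {p : A →ₐ[ℂ] ℂ}

lemma IsVal.zpow (hinj : Function.Injective (algebraMap A K)) {f : K} {c : ℂ}
    (hf : IsVal p f c) (hc : c ≠ 0) (k : ℤ) : IsVal p (f ^ k) (c ^ k) := by
  obtain ⟨N, hN | hN⟩ := Int.eq_nat_or_neg k
  · rw [hN, zpow_natCast, zpow_natCast]; exact hf.pow N
  · rw [hN, zpow_neg, zpow_neg, zpow_natCast, zpow_natCast]
    exact (hf.pow N).inv hinj (pow_ne_zero _ hc)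

end values

variable {M : Mdl K n}

lemma injM : Function.Injective (algebraMap M.B K) := Subtype.val_injective

section chart

variable {δ : ℝ} {i₀ : Option (Fin n)} {X : AC M δ i₀}

/-- values of good elements -/
lemma val_of_ord {f : K} {k : ℤ} (h : X.Ord f k) : ∃ u : Cn n → ℂ, Mono δ i₀ u k ∧
    ∀ ζ ∈ PD δ i₀, ∀ v, IsVal (X.s ζ) f v → v = u ζ := by
  obtain ⟨u, hu, hv⟩ := h
  refine ⟨u, hu, fun ζ hζ v hval => ?_⟩
  obtain ⟨b, c, h1, h2, h3⟩ := hval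
  have h4 := hv ζ hζ b c h2.symm
  rw [← h3] at h4
  exact mul_right_cancel₀ h1 h4

lemma ord_of_val {f : K} {k : ℤ} {u : Cn n → ℂ} (hu : Mono δ i₀ u k)
    (h : ∀ ζ ∈ PD δ i₀, IsVal (X.s ζ) f (u ζ)) : X.Ord f k := by
  refine ⟨u, hu, fun ζ hζ b c hbc => ?_⟩
  have h1 := (h ζ hζ).mul (isVal_algebraMap (K := K) (p := X.s ζ) c)
  have h2 : f * algebraMap M.B K c = algebraMap M.B K b := hbc.symm
  rw [h2] at h1
  exact (isVal_algebraMap (K := K) (p := X.s ζ) b).unique injM h1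

lemma isVal_of_ord {f : K} {k : ℤ} (h : X.Ord f k) {c : M.B} (hc : ∀ ζ ∈ PD δ i₀, X.s ζ c ≠ 0)
    {b : M.B} (hbc : (b : K) = f * c) : ∃ u : Cn n → ℂ, Mono δ i₀ u k ∧
    ∀ ζ ∈ PD δ i₀, IsVal (X.s ζ) f (u ζ) := by
  obtain ⟨u, hu, hv⟩ := h
  refine ⟨u, hu, fun ζ hζ => ⟨b, c, hc ζ hζ, hbc.symm, ?_⟩⟩
  exact (hv ζ hζ b c hbc).symm

lemma Mono.mul {u v : Cn n → ℂ} {k l : ℤ} (hu : Mono δ i₀ u k) (hv : Mono δ i₀ v l) :
    Mono δ i₀ (fun ζ => u ζ * v ζ) (k + l) := by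
  obtain ⟨G, h1, h2, h3⟩ := hu
  obtain ⟨H, k1, k2, k3⟩ := hv
  refine ⟨fun ζ => G ζ * H ζ, h1.mul k1, fun ζ hζ => mul_ne_zero (h2 ζ hζ) (k2 ζ hζ),
    fun ζ hζ => ?_⟩
  beta_reduce
  rw [h3 ζ hζ, k3 ζ hζ, zpow_add₀ (tau_ne hζ)]
  ring

lemma Mono.zpow {u : Cn n → ℂ} {k : ℤ} (hu : Mono δ i₀ u k) (j : ℤ) :
    Mono δ i₀ (fun ζ => u ζ ^ j) (j * k) := by
  obtain ⟨G, h1, h2, h3⟩ := hu
  refine ⟨fun ζ => G ζ ^ j, fun ζ hζ => (h1 ζ hζ).zpow (h2 ζ hζ),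
    fun ζ hζ => zpow_ne_zero _ (h2 ζ hζ), fun ζ hζ => ?_⟩
  beta_reduce
  rw [h3 ζ hζ, mul_zpow, ← zpow_mul, mul_comm k j]

end chart

/-- the punctured polydisc is dense in the polydisc -/
lemma mem_closure_PD {δ : ℝ} {i₀ : Fin n} {ζ : Cn n} (hζ : ζ ∈ ball (0 : Cn n) δ) :
    ζ ∈ closure (PD δ (some i₀)) := by
  by_cases h0 : ζ i₀ = 0
  · have h1 : Tendsto (fun ε : ℂ => Function.update ζ i₀ ε) (𝓝[≠] 0) (𝓝 ζ) := by
      have h2 : Continuous (fun ε : ℂ => Function.update ζ i₀ ε) :=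
        continuous_const.update i₀ continuous_id
      have h3 := h2.tendsto 0
      have h4 : Function.update ζ i₀ 0 = ζ := by rw [← h0, Function.update_eq_self]
      rw [h4] at h3
      exact h3.mono_left nhdsWithin_le_nhds
    refine mem_closure_of_tendsto h1 ?_
    filter_upwards [h1.eventually (isOpen_ball.mem_nhds hζ), self_mem_nhdsWithin] with ε h5 h6
    refine ⟨by simpa using h5, fun i hi => ?_⟩
    obtain rfl : i₀ = i := by simpa using hi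
    rw [Function.update_self]
    exact h6
  · refine subset_closure ⟨by simpa using hζ, fun i hi => ?_⟩
    obtain rfl : i₀ = i := by simpa using hi
    exact h0

/-- two functions continuous on the polydisc which agree off the hyperplane agree -/
lemma eq_of_PD {δ : ℝ} {i₀ : Fin n} {f g : Cn n → ℂ} (hf : ContinuousOn f (ball 0 δ))
    (hg : ContinuousOn g (ball 0 δ)) (h : ∀ ζ ∈ PD δ (some i₀), f ζ = g ζ) :
    ∀ ζ ∈ ball (0 : Cn n) δ, f ζ = g ζ := by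
  intro ζ hζ
  have h1 := mem_closure_PD (i₀ := i₀) hζ
  have h2 : (𝓝[PD δ (some i₀)] ζ).NeBot := mem_closure_iff_nhdsWithin_neBot.1 h1
  have h3 : Tendsto f (𝓝[PD δ (some i₀)] ζ) (𝓝 (f ζ)) :=
    ((hf.continuousAt (isOpen_ball.mem_nhds hζ)).tendsto).mono_left nhdsWithin_le_nhds
  have h4 : Tendsto g (𝓝[PD δ (some i₀)] ζ) (𝓝 (g ζ)) :=
    ((hg.continuousAt (isOpen_ball.mem_nhds hζ)).tendsto).mono_left nhdsWithin_le_nhds
  refine tendsto_nhds_unique h3 (h4.congr' ?_)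
  filter_upwards [self_mem_nhdsWithin] with ζ' h5
  exact (h ζ' h5).symm

/-- a family of points over the punctured polydisc extends over the hyperplane if generators do -/
lemma exists_ext_fam {A : Type} [CommRing A] [Algebra ℂ A] {N : ℕ}
    {π : MvPolynomial (Fin N) ℂ →ₐ[ℂ] A} (hπ : Function.Surjective π) {δ : ℝ} {i₀ : Fin n}
    {p : Cn n → (A →ₐ[ℂ] ℂ)} {α : Fin N → Cn n → ℂ}
    (hα : ∀ i, AnalyticOnNhd ℂ (α i) (ball 0 δ))
    (hp : ∀ ζ ∈ PD δ (some i₀), ∀ i, p ζ (π (MvPolynomial.X i)) = α i ζ) :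
    ∃ P : Cn n → (A →ₐ[ℂ] ℂ), (∀ ζ ∈ PD δ (some i₀), P ζ = p ζ) ∧
      ∀ a, AnalyticOnNhd ℂ (fun ζ => P ζ a) (ball 0 δ) := by
  classical
  have hpoly : ∀ Q : MvPolynomial (Fin N) ℂ,
      AnalyticOnNhd ℂ (fun ζ => MvPolynomial.aeval (fun i => α i ζ) Q) (ball (0 : Cn n) δ) := by
    intro Q
    induction Q using MvPolynomial.induction_on with
    | C c =>
      have : (fun ζ => MvPolynomial.aeval (fun i => α i ζ) (MvPolynomial.C c)) =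
          fun _ : Cn n => c := by
        funext ζ; rw [MvPolynomial.aeval_C]; rfl
      rw [this]; exact analyticOnNhd_const
    | add f g hf hg =>
      simp only [map_add]; exact hf.add hg
    | mul_X f i hf =>
      simp only [map_mul, MvPolynomial.aeval_X]; exact hf.mul (hα i)
  have hval : ∀ ζ ∈ PD δ (some i₀), ∀ Q : MvPolynomial (Fin N) ℂ,
      p ζ (π Q) = MvPolynomial.aeval (fun i => α i ζ) Q := by
    intro ζ hζ Q
    have h1 : (p ζ).comp π = MvPolynomial.aeval (fun i => α i ζ) := by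
      apply MvPolynomial.algHom_ext
      intro i
      rw [MvPolynomial.aeval_X, AlgHom.comp_apply, hp ζ hζ i]
    exact congrArg (fun f : MvPolynomial (Fin N) ℂ →ₐ[ℂ] ℂ => f Q) h1
  have hker : ∀ ζ ∈ ball (0 : Cn n) δ, ∀ Q : MvPolynomial (Fin N) ℂ, π Q = 0 →
      MvPolynomial.aeval (fun i => α i ζ) Q = 0 := by
    intro ζ hζ Q hQ
    refine eq_of_PD (i₀ := i₀) (f := fun ζ => MvPolynomial.aeval (fun i => α i ζ) Q)
      (g := fun _ => 0) (hpoly Q).continuousOn continuousOn_const (fun ζ' hζ' => ?_) ζ hζ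
    rw [← hval ζ' hζ' Q, hQ, map_zero]
  have hex : ∀ ζ : Cn n, ∃ P : A →ₐ[ℂ] ℂ, ζ ∈ ball (0 : Cn n) δ → ∀ Q,
      P (π Q) = MvPolynomial.aeval (fun i => α i ζ) Q := by
    intro ζ
    by_cases hζ : ζ ∈ ball (0 : Cn n) δ
    · refine ⟨AlgHom.liftOfSurjective π hπ (MvPolynomial.aeval (fun i => α i ζ)) ?_, fun _ Q => ?_⟩
      · intro Q hQ
        rw [RingHom.mem_ker] at hQ ⊢
        exact hker ζ hζ Q hQ
      · exact AlgHom.liftOfSurjective_apply _ _ _ _ _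
    · exact ⟨p ζ, fun h => absurd h hζ⟩
  choose P hP using hex
  refine ⟨P, fun ζ hζ => ?_, fun a => ?_⟩
  · ext a
    obtain ⟨Q, rfl⟩ := hπ a
    rw [hP ζ (PD_subset_ball δ _ hζ), hval ζ hζ]
  · obtain ⟨Q, rfl⟩ := hπ a
    exact AnalyticOnNhd.congr isOpen_ball (hpoly Q) fun ζ hζ => (hP ζ hζ Q).symm

/-- **orders of algebraic functions on abstract charts** -/
theorem exists_generic (M : Mdl K n) (htr : Algebra.trdeg ℂ K = n) {R : ValuationSubring K}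
    {D : DivModel n K} (hD : D.ModelOf R) (bz : Module.Basis (Fin n) K (Ω[K⁄ℂ]))
    (hbz : ∀ j, bz j = KaehlerDifferential.D ℂ K (M.z j : K)) :
    ∃ F : Finset K, (∀ f ∈ F, f ≠ 0) ∧ ∀ (δ : ℝ) (i₀ : Fin n) (X : AC M δ (some i₀)), 0 < δ →
      (∀ f ∈ F, ∃ k, X.Ord f k) → (∀ f k, X.Ord f k → (f ∈ R ↔ 0 ≤ k)) →
      (∃ c, Mono δ (some i₀) X.J c ∧ ∀ (m : ℕ) (g : K) (k : ℤ), X.Ord g k →
        (RegAt ℂ R bz m g ↔ 0 ≤ k + m * c)) →
      ∃ kt : ℤ, 0 < kt ∧ X.Ord (algebraMap D.A K D.t) kt ∧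
        ∀ (g : M.B) (m : ℤ), D.HasOrd (g : K) m → ∀ ζ₀ ∈ ball (0 : Cn n) δ, ζ₀ i₀ = 0 →
          ∀ ε > 0, ∃ ζ₁ ∈ ball (0 : Cn n) δ, ζ₁ i₀ = 0 ∧ ‖ζ₁ - ζ₀‖ < ε ∧ ∃ c r : ℝ, 0 < c ∧ 0 < r ∧
            ∀ ζ ∈ PD δ (some i₀), ‖ζ - ζ₁‖ < r → c * ‖ζ i₀‖ ^ (kt * m) ≤ ‖X.s ζ g‖ := by
  classical
  have hinjD := D.inj
  have hinjM := injM (M := M)
  obtain ⟨q, hq0, hq⟩ := exists_denom (A := M.B) (B := D.A) K D.ft
  have hqK : (q : K) ≠ 0 := fun h => hq0 (hinjM (by rw [map_zero]; exact h))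
  obtain ⟨N, π, hπ⟩ := Algebra.FiniteType.iff_quotient_mvPolynomial''.1 D.ft
  set g₁ : K := (bz.toMatrix D.dw).det with hg₁
  have hg₁0 : g₁ ≠ 0 := DivModel.det_ne_zero bz D.dw
  obtain ⟨bg, cg, hcg0, hbg⟩ : ∃ b c : M.B, c ≠ 0 ∧ (b : K) = g₁ * c := by
    obtain ⟨b, c, hc, h⟩ := M.frac g₁
    have hcK : (c : K) ≠ 0 := fun h0 => hc (hinjM (by rw [map_zero]; exact h0))
    exact ⟨b, c, hc, by rw [h]; field_simp⟩
  have hcgK : (cg : K) ≠ 0 := fun h => hcg0 (hinjM (by rw [map_zero]; exact h))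
  set F : Finset K := {(q : K), (cg : K), g₁} ∪
    (Finset.univ.image fun i : Fin N => algebraMap D.A K (π (MvPolynomial.X i))).filter (· ≠ 0) ∪
    {algebraMap D.A K D.t} with hF
  refine ⟨F, ?_, ?_⟩
  · intro f hf
    simp only [hF, Finset.mem_union, Finset.mem_insert, Finset.mem_singleton,
      Finset.mem_filter] at hf
    rcases hf with ((rfl | rfl | rfl) | hf) | rfl
    · exact hqK
    · exact hcgK
    · exact hg₁0
    · exact hf.2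
    · exact D.tK_ne
  intro δ i₀ X hδ hgood hordR hdict
  -- nonvanishing denominators
  have hne_of_ord : ∀ {b : M.B} {k : ℤ}, X.Ord (b : K) k → ∀ ζ ∈ PD δ (some i₀), X.s ζ b ≠ 0 := by
    intro b k h ζ hζ
    obtain ⟨u, hu, hv⟩ := h
    have h1 := hv ζ hζ b 1 (by simp)
    rw [map_one, mul_one] at h1
    rw [h1]
    exact AcOpen_89.Mono.ne_zero hu hζ
  have hqne : ∀ ζ ∈ PD δ (some i₀), X.s ζ q ≠ 0 := by
    obtain ⟨k, hk⟩ := hgood (q : K) (by simp [hF])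
    exact hne_of_ord hk
  have hcgne : ∀ ζ ∈ PD δ (some i₀), X.s ζ cg ≠ 0 := by
    obtain ⟨k, hk⟩ := hgood (cg : K) (by simp [hF])
    exact hne_of_ord hk
  -- the points of `D.A`
  have hex : ∀ ζ : Cn n, ∃ p : D.A →ₐ[ℂ] ℂ, ζ ∈ PD δ (some i₀) → ∀ (a : D.A) (u v : M.B),
      algebraMap D.A K a * algebraMap M.B K v = algebraMap M.B K u → p a * X.s ζ v = X.s ζ u := by
    have h0 : ∃ ζ : Cn n, ζ ∈ PD δ (some i₀) := by
      refine ⟨Pi.single i₀ ((δ / 2 : ℝ) : ℂ), ?_, fun i hi => ?_⟩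
      · rw [Pi.norm_single, Complex.norm_real, Real.norm_eq_abs, abs_of_pos (by positivity)]
        linarith
      · obtain rfl : i₀ = i := by simpa using hi
        rw [Pi.single_eq_same]
        exact_mod_cast (by positivity : δ / 2 ≠ 0)
    intro ζ
    by_cases hζ : ζ ∈ PD δ (some i₀)
    · obtain ⟨p, hp⟩ := exists_pt hinjM q hq (X.s ζ) (hqne ζ hζ)
      exact ⟨p, fun _ => hp⟩
    · obtain ⟨ζ', hζ'⟩ := h0
      obtain ⟨p, hp⟩ := exists_pt hinjM q hq (X.s ζ') (hqne ζ' hζ')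
      exact ⟨p, fun h => absurd h hζ⟩
  choose p hp using hex
  have hpval : ∀ ζ ∈ PD δ (some i₀), ∀ a : D.A, IsVal (X.s ζ) (algebraMap D.A K a) (p ζ a) := by
    intro ζ hζ a
    obtain ⟨l, b, hb⟩ := hq a
    refine ⟨b, q ^ l, ?_, ?_, ?_⟩
    · rw [map_pow]; exact pow_ne_zero _ (hqne ζ hζ)
    · rw [map_pow]; exact hb
    · exact hp ζ hζ a b (q ^ l) (by rw [map_pow]; exact hb)
  -- values of generators
  have hgen : ∀ i : Fin N, ∃ α : Cn n → ℂ, AnalyticOnNhd ℂ α (ball 0 δ) ∧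
      ∀ ζ ∈ PD δ (some i₀), p ζ (π (MvPolynomial.X i)) = α ζ := by
    intro i
    by_cases h0 : algebraMap D.A K (π (MvPolynomial.X i)) = 0
    · refine ⟨fun _ => 0, analyticOnNhd_const, fun ζ _ => ?_⟩
      have h1 : π (MvPolynomial.X i) = 0 := hinjD (by rw [h0, map_zero])
      rw [h1, map_zero]
    · obtain ⟨k, hk⟩ := hgood (algebraMap D.A K (π (MvPolynomial.X i))) (by
        simp only [hF, Finset.mem_union, Finset.mem_filter, Finset.mem_image, Finset.mem_univ,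
          true_and]
        exact Or.inl (Or.inr ⟨⟨i, rfl⟩, h0⟩))
      have hk0 : 0 ≤ k := (hordR _ k hk).1 (hD.mem _)
      obtain ⟨u, ⟨G, hG1, hG2, hG3⟩, hu⟩ := val_of_ord hk
      obtain ⟨l, rfl⟩ := Int.eq_ofNat_of_zero_le hk0
      refine ⟨fun ζ => ζ i₀ ^ l * G ζ, ?_, fun ζ hζ => ?_⟩
      · have h2 : AnalyticOnNhd ℂ (fun ζ : Cn n => ζ i₀) (ball 0 δ) := fun z _ =>
          (ContinuousLinearMap.proj (R := ℂ) (φ := fun _ : Fin n => ℂ) i₀).analyticAt z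
        exact (h2.pow l).mul hG1
      · rw [hu ζ hζ _ (hpval ζ hζ _), hG3 ζ hζ, zpow_natCast]
        rfl
  choose α hα hαp using hgen
  obtain ⟨P, hPp, hPan⟩ := exists_ext_fam hπ hα (fun ζ hζ i => hαp i ζ hζ)
  have hPval : ∀ ζ ∈ PD δ (some i₀), ∀ a : D.A, IsVal (X.s ζ) (algebraMap D.A K a) (P ζ a) :=
    fun ζ hζ a => by rw [hPp ζ hζ]; exact hpval ζ hζ a
  -- `t`
  obtain ⟨kt, hkt⟩ := hgood (algebraMap D.A K D.t) (by simp [hF])
  obtain ⟨ut, hut, hutv⟩ := val_of_ord hkt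
  have htval : ∀ ζ ∈ PD δ (some i₀), IsVal (X.s ζ) (algebraMap D.A K D.t) (ut ζ) := by
    intro ζ hζ
    have h1 := hPval ζ hζ D.t
    rwa [hutv ζ hζ _ h1] at h1
  have hut0 : ∀ ζ ∈ PD δ (some i₀), ut ζ ≠ 0 := fun ζ hζ => AcOpen_89.Mono.ne_zero hut hζ
  have hzpow : ∀ j : ℤ, X.Ord (algebraMap D.A K D.t ^ j) (j * kt) := fun j =>
    ord_of_val (Mono.zpow hut j) fun ζ hζ => IsVal.zpow hinjM (htval ζ hζ) (hut0 ζ hζ) j
  have hnd1 : ¬ D.t ∣ 1 := fun h => D.t_prime.not_isUnit (isUnit_of_dvd_one h)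
  have hordt : ∀ j : ℤ, D.HasOrd (algebraMap D.A K D.t ^ j) j := fun j =>
    ⟨1, 1, hnd1, hnd1, by simp⟩
  have hkt0 : 0 < kt := by
    have h1 := hordR _ _ (hzpow (-1))
    have h2 := hD.mem_iff (hordt (-1))
    rw [h1] at h2
    omega
  -- `g₁`
  obtain ⟨k₁, hk₁⟩ := hgood g₁ (by simp [hF])
  obtain ⟨u₁, hu₁, hu₁v⟩ := isVal_of_ord hk₁ hcgne hbg
  have hu₁0 : ∀ ζ ∈ PD δ (some i₀), u₁ ζ ≠ 0 := fun ζ hζ => AcOpen_89.Mono.ne_zero hu₁ hζ
  obtain ⟨cz, hcz⟩ := D.exists_hasOrd _ (DivModel.det_ne_zero D.dw bz)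
  have hg₁ord : D.HasOrd g₁ (-cz) := by
    have h1 := DivModel.det_toMatrix_mul D.dw bz
    have h2 : g₁ = ((D.dw.toMatrix bz).det)⁻¹ := eq_inv_of_mul_eq_one_right h1
    rw [h2]
    exact hcz.inv
  have hk₁eq : k₁ = -cz * kt := by
    have h1 : X.Ord (g₁ * algebraMap D.A K D.t ^ cz) (k₁ + cz * kt) :=
      ord_of_val (Mono.mul hu₁ (Mono.zpow hut cz)) fun ζ hζ =>
        (hu₁v ζ hζ).mul (IsVal.zpow hinjM (htval ζ hζ) (hut0 ζ hζ) cz)
    have h2 : X.Ord ((g₁ * algebraMap D.A K D.t ^ cz) ^ (-1 : ℤ)) (-1 * (k₁ + cz * kt)) :=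
      ord_of_val (Mono.zpow (Mono.mul hu₁ (Mono.zpow hut cz)) (-1)) fun ζ hζ =>
        IsVal.zpow hinjM ((hu₁v ζ hζ).mul (IsVal.zpow hinjM (htval ζ hζ) (hut0 ζ hζ) cz))
          (mul_ne_zero (hu₁0 ζ hζ) (zpow_ne_zero _ (hut0 ζ hζ))) (-1)
    have h3 : D.HasOrd (g₁ * algebraMap D.A K D.t ^ cz) 0 := by
      have := DivModel.HasOrd.mul D hg₁ord (hordt cz)
      rwa [neg_add_cancel] at this
    have h4 : D.HasOrd ((g₁ * algebraMap D.A K D.t ^ cz) ^ (-1 : ℤ)) 0 := by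
      rw [zpow_neg_one]
      have := h3.inv
      rwa [neg_zero] at this
    have h5 := (hordR _ _ h1).1 ((hD.mem_iff h3).2 le_rfl)
    have h6 := (hordR _ _ h2).1 ((hD.mem_iff h4).2 le_rfl)
    linarith
  obtain ⟨c, hJ, hdic⟩ := hdict
  have hc : c = cz * kt := by
    have h1 := (hdic 1 _ _ (hzpow (-cz))).symm.trans (hD.regAt_iff bz (hordt (-cz)) hcz 1)
    have h2 := (hdic kt.toNat _ _ (hzpow (-kt * cz - 1))).symm.trans
      (hD.regAt_iff bz (hordt (-kt * cz - 1)) hcz kt.toNat)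
    have h3 : ((kt.toNat : ℕ) : ℤ) = kt := Int.toNat_of_nonneg hkt0.le
    rw [h3] at h2
    have h4 : 0 ≤ -cz * kt + c := by
      have := h1.2 (by push_cast; linarith)
      push_cast at this
      linarith
    have h5 : ¬ (0 ≤ (-kt * cz - 1) * kt + kt * c) := by
      rw [h2]
      push Not
      linarith [mul_comm kt cz]
    have h6 : kt * (c - cz * kt - 1) < 0 := by
      push Not at h5
      have : (-kt * cz - 1) * kt + kt * c = kt * (c - cz * kt - 1) := by ring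
      linarith
    have h7 : c - cz * kt - 1 < 0 := by
      by_contra h8
      push Not at h8
      have := mul_nonneg hkt0.le h8
      linarith
    linarith
  -- the coordinates
  obtain ⟨G₁, hG₁a, hG₁0, hG₁e⟩ := hu₁
  obtain ⟨GJ, hGJa, hGJ0, hGJe⟩ := hJ
  obtain ⟨Gt, hGta, hGt0, hGte⟩ := hut
  set W : Cn n → Cn n := fun ζ j => P ζ (D.w j) with hWdef
  have hWan : AnalyticOnNhd ℂ W (ball 0 δ) := fun ζ hζ => AnalyticAt.pi fun j => hPan (D.w j) ζ hζ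
  have hPDo := isOpen_PD δ (some i₀)
  have hdetPD : ∀ ζ ∈ PD δ (some i₀), (fderiv ℂ W ζ).det = G₁ ζ * GJ ζ := by
    intro ζ hζ
    obtain ⟨-, v, hv1, hv2⟩ := det_chain (A := M.B) (K := K) M.het hinjM bz hbz
      (s := X.s) (ζ := ζ) (fun b => X.anal b ζ hζ) (f := fun j => algebraMap D.A K (D.w j))
      (W := W) (by
        filter_upwards [hPDo.mem_nhds hζ] with ζ' hζ' j
        exact hPval ζ' hζ' (D.w j))
    have h1 : (fun j => KaehlerDifferential.D ℂ K (algebraMap D.A K (D.w j))) = D.dw := by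
      funext j; rw [D.dw_apply]
    rw [h1] at hv1
    have h2 : v = u₁ ζ := hv1.unique hinjM (hu₁v ζ hζ)
    have h3 : (fderiv ℂ (fun ζ i => X.s ζ (M.z i)) ζ).det = X.J ζ := rfl
    rw [hv2, h3, h2, hG₁e ζ hζ, hGJe ζ hζ]
    have ht : tau (some i₀) ζ ≠ 0 := tau_ne hζ
    have h4 : tau (some i₀) ζ ^ k₁ * tau (some i₀) ζ ^ c = 1 := by
      rw [← zpow_add₀ ht, hk₁eq, hc]
      have : -cz * kt + cz * kt = 0 := by ring
      rw [this, zpow_zero]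
    calc tau (some i₀) ζ ^ k₁ * G₁ ζ * (tau (some i₀) ζ ^ c * GJ ζ)
        = (tau (some i₀) ζ ^ k₁ * tau (some i₀) ζ ^ c) * (G₁ ζ * GJ ζ) := by ring
      _ = _ := by rw [h4, one_mul]
  have hdet : ∀ ζ ∈ ball (0 : Cn n) δ, (fderiv ℂ W ζ).det = G₁ ζ * GJ ζ := by
    refine eq_of_PD (i₀ := i₀) (f := fun ζ => (fderiv ℂ W ζ).det) (g := fun ζ => G₁ ζ * GJ ζ)
      ?_ (hG₁a.continuousOn.mul hGJa.continuousOn) hdetPD
    exact (Crest.Agent.R276.CntA_857.diff_det isOpen_ball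
      (fun ζ hζ => (hWan ζ hζ).differentiableAt.differentiableWithinAt)).continuousOn
  obtain ⟨l, hl⟩ := Int.eq_ofNat_of_zero_le hkt0.le
  have hl0 : l ≠ 0 := by rintro rfl; simp at hl; omega
  have hPt : ∀ ζ ∈ ball (0 : Cn n) δ, P ζ D.t = ζ i₀ ^ l * Gt ζ := by
    refine eq_of_PD (i₀ := i₀) (f := fun ζ => P ζ D.t) (g := fun ζ => ζ i₀ ^ l * Gt ζ)
      (hPan D.t).continuousOn ?_ (fun ζ hζ => ?_)
    · exact ((continuous_apply i₀).pow l).continuousOn.mul hGta.continuousOn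
    · rw [hutv ζ hζ _ (hPval ζ hζ D.t), hGte ζ hζ, hl, zpow_natCast]
      rfl
  refine ⟨kt, hkt0, hkt, fun g m hgm ζ₀ hζ₀ hζ₀0 ε hε => ?_⟩
  obtain ⟨u, v, hu, hv, huv⟩ := hgm
  have hndiv : ¬ D.t ∣ u * v := D.not_dvd_mul hu hv
  -- a good point of the hyperplane
  obtain ⟨ζ₁, hζ₁, hζ₁0, hζ₁ε, hζ₁v⟩ : ∃ ζ₁ ∈ ball (0 : Cn n) δ, ζ₁ i₀ = 0 ∧ ‖ζ₁ - ζ₀‖ < ε ∧
      P ζ₁ (u * v) ≠ 0 := by
    by_contra hcon
    push Not at hcon
    apply hndiv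
    obtain ⟨C⟩ := Crest.Agent.R271.Rd692.nonempty_chart D.w D.etale (P ζ₀)
    have hy : P ζ₀ D.t = 0 := by rw [hPt ζ₀ hζ₀, hζ₀0, zero_pow hl0, zero_mul]
    have hev := eventually_chart (fun a => hPan a ζ₀ hζ₀) rfl C
    have hd0 : (fderiv ℂ W ζ₀).det ≠ 0 := by
      rw [hdet ζ₀ hζ₀]; exact mul_ne_zero (hG₁0 ζ₀ hζ₀) (hGJ0 ζ₀ hζ₀)
    have hst : HasStrictFDerivAt W (fderiv ℂ W ζ₀) ζ₀ := (hWan ζ₀ hζ₀).hasStrictFDerivAt
    have hmap : map W (𝓝 ζ₀) = 𝓝 (W ζ₀) := by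
      have h1 : HasStrictFDerivAt W ((ContinuousLinearMap.toContinuousLinearEquivOfDetNeZero
          (fderiv ℂ W ζ₀) hd0 : Cn n ≃L[ℂ] Cn n) : Cn n →L[ℂ] Cn n) ζ₀ := hst
      exact h1.map_nhds_eq_of_equiv
    have hN : {ζ | ζ ∈ ball (0 : Cn n) δ ∧ ‖ζ - ζ₀‖ < ε ∧
        P ζ = C.s (fun i => P ζ (D.w i) - P ζ₀ (D.w i))} ∈ 𝓝 ζ₀ := by
      have h1 : ∀ᶠ ζ in 𝓝 ζ₀, ζ ∈ ball (0 : Cn n) δ := isOpen_ball.mem_nhds hζ₀
      have h2 : ∀ᶠ ζ in 𝓝 ζ₀, ζ ∈ ball ζ₀ ε := ball_mem_nhds _ hε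
      filter_upwards [h1, h2, hev] with ζ e1 e2 e3
      exact ⟨e1, by rwa [mem_ball, dist_eq_norm] at e2, e3⟩
    have hWN := image_mem_map (m := W) hN
    rw [hmap] at hWN
    obtain ⟨ρ, hρ, hρN⟩ := Metric.mem_nhds_iff.1 hWN
    refine BR_590.dens hD htr C hy (lt_min hρ C.r_pos) (min_le_right _ _) (u * v) fun ζ' hζ' hζ'0 => ?_
    have h1 : W ζ₀ + ζ' ∈ ball (W ζ₀) ρ := by
      rw [mem_ball, dist_eq_norm, add_sub_cancel_left]
      rw [mem_ball_zero_iff] at hζ'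
      exact hζ'.trans_le (min_le_left _ _)
    obtain ⟨ζ, ⟨e1, e2, e3⟩, e4⟩ := hρN h1
    have e5 : P ζ D.t = 0 := by
      have h2 := congrFun e4 D.i₀
      have h3 : W ζ D.i₀ = P ζ D.t := rfl
      have h4 : W ζ₀ D.i₀ = P ζ₀ D.t := rfl
      rw [h3, Pi.add_apply, h4, hy, hζ'0, add_zero] at h2
      exact h2
    have e6 : ζ i₀ = 0 := by
      rw [hPt ζ e1] at e5
      rcases mul_eq_zero.1 e5 with h | h
      · exact pow_eq_zero_iff hl0 |>.1 h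
      · exact absurd h (hGt0 ζ e1)
    have e7 : (fun i => P ζ (D.w i) - P ζ₀ (D.w i)) = ζ' := by
      funext i
      have h2 := congrFun e4 i
      have h3 : P ζ (D.w i) = P ζ₀ (D.w i) + ζ' i := h2
      rw [h3, add_sub_cancel_left]
    rw [e7] at e3
    rw [← e3]
    exact hcon ζ e1 e6 e2
  rw [map_mul] at hζ₁v
  have hu1 : P ζ₁ u ≠ 0 := left_ne_zero_of_mul hζ₁v
  have hv1 : P ζ₁ v ≠ 0 := right_ne_zero_of_mul hζ₁v
  -- the bound
  set Φ : Cn n → ℝ := fun ζ => ‖Gt ζ ^ m * P ζ u / P ζ v‖ with hΦ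
  have hΦc : ContinuousAt Φ ζ₁ := by
    have h1 : ContinuousAt Gt ζ₁ := (hGta ζ₁ hζ₁).continuousAt
    have h2 : ContinuousAt (fun ζ => P ζ u) ζ₁ := (hPan u ζ₁ hζ₁).continuousAt
    have h3 : ContinuousAt (fun ζ => P ζ v) ζ₁ := (hPan v ζ₁ hζ₁).continuousAt
    exact (((h1.zpow₀ m (Or.inl (hGt0 ζ₁ hζ₁))).mul h2).div h3 hv1).norm
  have hΦ0 : 0 < Φ ζ₁ := by
    simp only [hΦ]
    exact norm_pos_iff.2 (div_ne_zero (mul_ne_zero (zpow_ne_zero _ (hGt0 ζ₁ hζ₁)) hu1) hv1)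
  have h1 : ∀ᶠ ζ in 𝓝 ζ₁, Φ ζ₁ / 2 < Φ ζ := hΦc.eventually_const_lt (half_lt_self hΦ0)
  have h2 : ∀ᶠ ζ in 𝓝 ζ₁, P ζ v ≠ 0 := (hPan v ζ₁ hζ₁).continuousAt.eventually_ne hv1
  obtain ⟨r, hr, hr'⟩ := Metric.eventually_nhds_iff_ball.1 (h1.and h2)
  refine ⟨ζ₁, hζ₁, hζ₁0, hζ₁ε, Φ ζ₁ / 2, r, by positivity, hr, fun ζ hζ hζr => ?_⟩
  obtain ⟨e1, e2⟩ := hr' ζ (by rw [mem_ball, dist_eq_norm]; exact hζr)
  have hζb := PD_subset_ball δ _ hζ
  have hζi : ζ i₀ ≠ 0 := hζ.2 i₀ rfl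
  have e3 : X.s ζ g * P ζ v = P ζ D.t ^ m * P ζ u := by
    have a1 := (isVal_algebraMap (K := K) (p := X.s ζ) g).mul (hPval ζ hζ v)
    have a2 := (IsVal.zpow hinjM (hPval ζ hζ D.t) (by
      rw [hutv ζ hζ _ (hPval ζ hζ D.t)]; exact hut0 ζ hζ) m).mul (hPval ζ hζ u)
    rw [← huv] at a2
    exact a1.unique hinjM a2
  have e4 : ‖X.s ζ g‖ = ‖ζ i₀‖ ^ (kt * m) * Φ ζ := by
    have a1 : X.s ζ g = P ζ D.t ^ m * P ζ u / P ζ v := by
      rw [← e3]; field_simp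
    rw [a1, hPt ζ hζb]
    simp only [hΦ]
    rw [mul_zpow, ← zpow_natCast (ζ i₀) l, ← hl, ← zpow_mul, mul_assoc, mul_div_assoc, norm_mul,
      norm_zpow]
  rw [e4, mul_comm]
  exact mul_le_mul_of_nonneg_left e1.le (zpow_nonneg (norm_nonneg _) _)

end Crest.Agent.R276.C4GN_804
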