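import Crest.Agent.R273.OTU_34
import Crest.Agent.R273.Dir0_73
import Crest.Agent.R271.Rd7_692

/-!
# Row 276, D-END (helper723): extension from a fibre of several coordinates

`OTSlice` : the Ohsawa–Takegoshi statement for `D = {ell a (cp x) = 0}` (one coordinate).
`ext_multi` : iteration: extension from a fibre of the first `r` coordinates.
-/

set_option autoImplicit false
set_option linter.unusedSectionVars false
set_option linter.style.haveILetI false

noncomputable section

open Set Filter Topology MeasureTheory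
open scoped ENNReal

namespace Crest.Agent.R276.Ext_723

open Crest.Agent.R271.Ho51 Crest.Agent.R273.Dir73 Crest.Agent.R276.EngU_29
open Crest.Agent.R271.W792 (lg nS sm_lg lev_lg_nonneg Levi_eq_lev)

/-- `OT` for one slice `{ell a = 0}`, singular weight `1/b`, smooth weights `Φ`, `Ψ`. -/
def OTSlice : Prop :=
  ∀ {n : ℕ} {M : Type} [TopologicalSpace M] [T2Space M] [SecondCountableTopology M]
    [MeasurableSpace M] [BorelSpace M] [RDom (n + 1) M] (a : Fin (n + 1) → ℂ)
    [MeasurableSpace (Hs M a)] [BorelSpace (Hs M a)]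
    (μ : Measure M) (ν : Measure (Hs M a)) (ρ Ψ Φ b : M → ℝ) (f : Hs M a → ℂ),
    IsLeb μ → IsLeb ν → Sm ρ → (∀ c : ℝ, IsCompact {x | ρ x ≤ c}) →
    (∀ x w, nsq w ≤ Levi ρ x w) → Sm Ψ → Sm Φ → (∀ x, ‖ell a (cp x)‖ ^ 2 ≤ Real.exp (Ψ x)) →
    (∀ x w, 0 ≤ Levi Ψ x w) → (∀ x w, Levi Ψ x w ≤ Levi Φ x w) → LPsh b → Hol f →
    ∫⁻ y, ENNReal.ofReal (‖f y‖ ^ 2 * Real.exp (-(Φ (ι y)))) / ENNReal.ofReal (b (ι y)) ∂ν < ∞ →
    ∃ F : M → ℂ, Hol F ∧ (∀ y : Hs M a, F (ι y) = f y) ∧
      ∫⁻ x, ENNReal.ofReal (‖F x‖ ^ 2 * Real.exp (-(Φ x + Ψ x))) / ENNReal.ofReal (b x) ∂μ < ∞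

/-- restriction of psh weights to slices -/
def RestrLPsh : Prop :=
  ∀ {n : ℕ} {M : Type} [TopologicalSpace M] [T2Space M] [RDom (n + 1) M] (a : Fin (n + 1) → ℂ)
    (b : M → ℝ), LPsh b → LPsh (fun y : Hs M a => b (ι y))

/-! ### maps preserving the coordinates -/

section clopen

variable {n : ℕ} {M F : Type*} [TopologicalSpace M] [TopologicalSpace F] [RDom n M] [RDom n F]
  {e : F → M}

lemma isLocalHomeomorph_of_cp (he : Continuous e) (hcp : ∀ x, cp (e x) = cp x) :
    IsLocalHomeomorph e := by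
  refine IsLocalHomeomorph.of_comp (g := (cp : M → (Fin n → ℂ))) ?_ cp_lh he
  have h : (cp : M → (Fin n → ℂ)) ∘ e = cp := funext hcp
  rw [h]
  exact cp_lh

/-- extension by zero -/
def ext0 (e : F → M) (f : F → ℂ) : M → ℂ := Function.extend e f 0

lemma ext0_apply (hi : Function.Injective e) (f : F → ℂ) (x : F) : ext0 e f (e x) = f x :=
  hi.extend_apply _ _ _

lemma ext0_off (f : F → ℂ) {y : M} (hy : y ∉ range e) : ext0 e f y = 0 :=
  Function.extend_apply' _ _ _ hy

theorem hol_ext0 (he : IsClosedEmbedding e) (hcp : ∀ x, cp (e x) = cp x) {f : F → ℂ}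
    (hf : Hol f) : Hol (ext0 e f) := by
  have hlh := isLocalHomeomorph_of_cp he.continuous hcp
  refine hol_of_local fun y => ⟨ch y, isCh_ch y, mem_ch y, ?_⟩
  by_cases hy : y ∈ range e
  · obtain ⟨x, rfl⟩ := hy
    have hT : (ch x).target ∈ 𝓝 (cp x) := (ch x).open_target.mem_nhds ((isCh_ch x).cp_mem (mem_ch x))
    have hd : DifferentiableAt ℂ (f ∘ (ch x).symm) (cp x) :=
      (hf _ (isCh_ch x)).differentiableAt hT
    rw [hcp x]
    refine hd.congr_of_eventuallyEq ?_
    have hc : ContinuousAt (fun w => e ((ch x).symm w)) (cp x) := by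
      have h1 : ContinuousAt (ch x).symm (cp x) :=
        (ch x).symm.continuousAt (by simpa using (isCh_ch x).cp_mem (mem_ch x))
      exact he.continuous.continuousAt.comp h1
    have h2 : ∀ᶠ w in 𝓝 (cp x), e ((ch x).symm w) ∈ (ch (e x)).source := by
      apply hc.eventually_mem
      simp only [(isCh_ch x).symm_cp (mem_ch x)]
      exact (ch (e x)).open_source.mem_nhds (mem_ch (e x))
    filter_upwards [hT, h2] with w hw1 hw2
    simp only [Function.comp_apply]
    have h3 : (ch (e x)).symm w = e ((ch x).symm w) := by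
      have h4 := (isCh_ch (e x)).symm_cp hw2
      rw [hcp, (isCh_ch x).cp_symm hw1] at h4
      exact h4
    rw [h3, ext0_apply he.injective]
  · have h1 : (range e)ᶜ ∈ 𝓝 y := he.isClosed_range.isOpen_compl.mem_nhds hy
    have h2 : ContinuousAt (ch y).symm (cp y) :=
      (ch y).symm.continuousAt (by simpa using (isCh_ch y).cp_mem (mem_ch y))
    have h3 : ∀ᶠ w in 𝓝 (cp y), (ch y).symm w ∈ (range e)ᶜ := by
      apply h2.eventually_mem
      rw [(isCh_ch y).symm_cp (mem_ch y)]
      exact h1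
    have h4 : (ext0 e f ∘ (ch y).symm) =ᶠ[𝓝 (cp y)] fun _ => 0 := by
      filter_upwards [h3] with w hw
      exact ext0_off f hw
    exact (differentiableAt_const 0).congr_of_eventuallyEq h4

variable [MeasurableSpace M] [BorelSpace M] [MeasurableSpace F] [BorelSpace F]
  [SecondCountableTopology M] [SecondCountableTopology F]

theorem lintegral_emb {μ : Measure M} {ν : Measure F} (hμ : IsLeb μ) (hν : IsLeb ν)
    (he : Topology.IsEmbedding e) (hcp : ∀ x, cp (e x) = cp x) {g : M → ℝ≥0∞} (hg : Measurable g)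
    (h0 : ∀ y ∉ range e, g y = 0) : ∫⁻ y, g y ∂μ = ∫⁻ x, g (e x) ∂ν := by
  rw [Crest.Agent.R271.Rd692.lintegral_eq_fibre hμ hg,
    Crest.Agent.R271.Rd692.lintegral_eq_fibre (g := fun x => g (e x)) hν
      (hg.comp he.continuous.measurable)]
  refine lintegral_congr fun ζ => ?_
  let i : {x : F // cp x = ζ} → {y : M // cp y = ζ} := fun x => ⟨e x.1, by rw [hcp, x.2]⟩
  have hi : Function.Injective i := fun x x' h =>
    Subtype.ext (he.injective (congrArg Subtype.val h))
  have h1 := hi.tsum_eq (f := fun y : {y : M // cp y = ζ} => g y.1) (by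
    intro y hy
    rw [Function.mem_support] at hy
    by_contra hcon
    apply hy
    apply h0
    rintro ⟨x, hx⟩
    exact hcon ⟨⟨x, by rw [← hcp, hx, y.2]⟩, Subtype.ext hx⟩)
  exact h1.symm

end clopen

/-! ### the smooth weights `log (1 + |z_i - c|²)` -/

section lgc

variable {n : ℕ} {M : Type*} [TopologicalSpace M] [RDom n M]

/-- `log (1 + |z_i - c|²)` -/
def lgc (i : Fin n) (c : ℂ) (x : M) : ℝ := Real.log (‖cp x i - c‖ ^ 2 + 1)

lemma hol_coord (i : Fin n) (c : ℂ) : Hol (fun x : M => cp x i - c) := by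
  intro e he
  have h1 : EqOn ((fun x : M => cp x i - c) ∘ e.symm) (fun w => w i - c) e.target := by
    intro w hw
    simp only [Function.comp_apply]
    rw [he.cp_symm hw]
  refine DifferentiableOn.congr ?_ h1
  fun_prop

lemma lgc_eq (i : Fin n) (c : ℂ) : (lgc i c : M → ℝ) = lg (fun _ : Unit => fun x => cp x i - c) 1 := by
  funext x
  unfold lgc lg nS
  simp

lemma sm_lgc (i : Fin n) (c : ℂ) : Sm (lgc i c : M → ℝ) := by
  rw [lgc_eq]
  refine sm_lg (fun _ => ((Crest.Agent.R273.OTA_34.hol_iff _).1 (hol_coord i c)).sm) fun x => ?_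
  unfold nS
  positivity

lemma levi_lgc (i : Fin n) (c : ℂ) (x : M) (w : Fin n → ℂ) : 0 ≤ Levi (lgc i c : M → ℝ) x w := by
  rw [Levi_eq_lev (sm_lgc i c), lgc_eq]
  refine lev_lg_nonneg (fun _ => (Crest.Agent.R273.OTA_34.hol_iff _).1 (hol_coord i c))
    zero_le_one (fun x => ?_) x w
  unfold nS
  positivity

lemma Levi_add' {φ χ : M → ℝ} (hφ : Sm φ) (hχ : Sm χ) (x : M) (w : Fin n → ℂ) :
    Levi (fun y => φ y + χ y) x w = Levi φ x w + Levi χ x w := Levi_add hφ hχ x w

lemma measurable_of_lpsh [MeasurableSpace M] [BorelSpace M] {b : M → ℝ} (hb : LPsh b) :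
    Measurable b := by
  have h1 := ((hb.psh 1 one_pos).usc).measurable
  have h2 : b = fun x => Real.exp (Real.log (b x + 1)) - 1 := by
    funext x
    rw [Real.exp_log (by have := hb.nonneg x; linarith)]
    ring
  rw [h2]
  exact (Real.measurable_exp.comp h1).sub measurable_const

end lgc

/-! ### several coordinates -/

section multi

/-- index of the `i`-th of the first `r` coordinates -/
def lo {N r n : ℕ} (h : N = r + n) (i : Fin r) : Fin N := ⟨i, by omega⟩

/-- index of the `j`-th of the last `n` coordinates -/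
def hi {N r n : ℕ} (h : N = r + n) (j : Fin n) : Fin N := ⟨r + j, by omega⟩

/-- the polynomial factor -/
def pf {N r n : ℕ} (h : N = r + n) {M : Type*} [TopologicalSpace M] [RDom N M] (c : Fin r → ℂ)
    (x : M) : ℝ := ∏ i, (‖cp x (lo h i) - c i‖ ^ 2 + 1)

lemma one_le_pf {N r n : ℕ} (h : N = r + n) {M : Type*} [TopologicalSpace M] [RDom N M]
    (c : Fin r → ℂ) (x : M) : 1 ≤ pf h c x := by
  unfold pf
  have : ∀ i ∈ (Finset.univ : Finset (Fin r)), (1 : ℝ) ≤ ‖cp x (lo h i) - c i‖ ^ 2 + 1 := by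
    intro i _
    have := sq_nonneg ‖cp x (lo h i) - c i‖
    linarith
  calc (1 : ℝ) = ∏ _i : Fin r, (1 : ℝ) := by simp
    _ ≤ _ := Finset.prod_le_prod (fun _ _ => zero_le_one) this

lemma exp_lgc {N : ℕ} {M : Type*} [TopologicalSpace M] [RDom N M] (i : Fin N) (c : ℂ) (x : M) :
    Real.exp (lgc i c x) = ‖cp x i - c‖ ^ 2 + 1 := by
  unfold lgc
  rw [Real.exp_log]
  positivity

/-- **extension from a fibre of the first `r` coordinates** -/
theorem ext_multi (hOT : OTSlice) (hR : RestrLPsh) : ∀ (r : ℕ) {n N : ℕ} (hN : N = r + n)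
    {M F : Type} [TopologicalSpace M] [T2Space M] [SecondCountableTopology M]
    [MeasurableSpace M] [BorelSpace M] [RDom N M] [TopologicalSpace F] [MeasurableSpace F]
    [BorelSpace F] [RDom n F] (μ : Measure M) (ν : Measure F) (ρ Φ b : M → ℝ) (c : Fin r → ℂ)
    (e : F → M) (f : F → ℂ),
    IsLeb μ → IsLeb ν → Sm ρ → (∀ c : ℝ, IsCompact {x | ρ x ≤ c}) →
    (∀ x w, nsq w ≤ Levi ρ x w) → Sm Φ → (∀ x w, 0 ≤ Levi Φ x w) → LPsh b →
    IsClosedEmbedding e → (∀ x i, cp (e x) (lo hN i) = c i) →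
    (∀ x j, cp (e x) (hi hN j) = cp x j) → Hol f →
    ∫⁻ y, ENNReal.ofReal (‖f y‖ ^ 2 * Real.exp (-(Φ (e y)))) / ENNReal.ofReal (b (e y)) ∂ν < ∞ →
    ∃ G : M → ℂ, Hol G ∧ (∀ y, G (e y) = f y) ∧
      ∫⁻ x, ENNReal.ofReal (‖G x‖ ^ 2 * (Real.exp (-(Φ x)) * ((pf hN c x) ^ 2)⁻¹)) /
        ENNReal.ofReal (b x) ∂μ < ∞ := by
  intro r
  induction r with
  | zero =>
    intro n N hN M F _ _ _ _ _ _ _ _ _ _ μ ν ρ Φ b c e f hμ hν hρ hcpt hL hΦ hΦ0 hb he hc hcp hf hint
    obtain rfl : N = n := by omega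
    have hcp' : ∀ x, cp (e x) = cp x := by
      intro x
      funext j
      have h1 := hcp x j
      have h2 : hi hN j = j := by
        apply Fin.ext
        simp [hi]
      rwa [h2] at h1
    have hsc : SecondCountableTopology F := he.isEmbedding.secondCountableTopology
    have hG := hol_ext0 he hcp' hf
    have hGc : Continuous (ext0 e f) := (Crest.Agent.R273.OTA_34.hol_of _ hG).sm.continuous
    refine ⟨ext0 e f, hG, fun y => ext0_apply he.injective f y, ?_⟩
    have hpf : ∀ x : M, pf hN c x = 1 := fun x => by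
      unfold pf
      simp
    rw [lintegral_emb hμ hν he.isEmbedding hcp']
    · refine lt_of_eq_of_lt (lintegral_congr fun y => ?_) hint
      rw [hpf, ext0_apply he.injective]
      simp
    · have h1 : Continuous fun x => Real.exp (-(Φ x)) := Real.continuous_exp.comp hΦ.continuous.neg
      have h2 : Measurable fun x => ‖ext0 e f x‖ ^ 2 * (Real.exp (-(Φ x)) * ((pf hN c x) ^ 2)⁻¹) := by
        simp only [hpf]
        exact ((hGc.norm.pow 2).mul (h1.mul continuous_const)).measurable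
      exact h2.ennreal_ofReal.div (measurable_of_lpsh hb).ennreal_ofReal
    · intro y hy
      rw [ext0_off f hy]
      simp
  | succ r ih =>
    intro n N hN M F _ _ _ _ _ _ _ _ _ _ μ ν ρ Φ b c e f hμ hν hρ hcpt hL hΦ hΦ0 hb he hc hcp hf hint
    obtain ⟨N', rfl⟩ : ∃ N', N = N' + 1 := ⟨r + n, by omega⟩
    have hN' : N' = r + n := by omega
    set a : Fin (N' + 1) → ℂ := Fin.cons (-(c 0)) 0 with ha
    have hell : ∀ z : Fin (N' + 1) → ℂ, ell a z = z 0 - c 0 := by
      intro z
      unfold ell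
      simp [ha]
      ring
    have h0 : ∀ x, ell a (cp (e x)) = 0 := by
      intro x
      rw [hell]
      have h1 := hc x 0
      have h2 : lo hN (0 : Fin (r + 1)) = 0 := by
        apply Fin.ext
        simp [lo]
      rw [h2] at h1
      rw [h1, sub_self]
    let _ : MeasurableSpace (Hs M a) := borel _
    have _ : BorelSpace (Hs M a) := ⟨rfl⟩
    obtain ⟨μD, hμD⟩ := exists_leb (M := Hs M a)
    let e' : F → Hs M a := fun x => mkHs (e x) (h0 x)
    have he'ι : ∀ x, ι (e' x) = e x := fun x => rfl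
    have he' : IsClosedEmbedding e' := by
      have h1 : IsClosedEmbedding (ι ∘ e') := he
      exact (isClosedEmbedding_ι.of_comp_iff).1 h1
    -- indices
    have hlo : ∀ i : Fin r, (lo hN' i).succ = lo hN i.succ := fun i => by
      apply Fin.ext
      simp [lo]
    have hhi : ∀ j : Fin n, (hi hN' j).succ = hi hN j := fun j => by
      apply Fin.ext
      simp [hi]
      omega
    obtain ⟨G1, hG1, hG1e, hG1i⟩ := ih hN' (M := Hs M a) (F := F) μD ν (fun y => ρ (ι y))
      (fun y => Φ (ι y)) (fun y => b (ι y)) (fun i => c i.succ) e' f hμD hν (Crest.Agent.R273.Dir73.Sm.restr hρ)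
      (isCompact_sub hcpt) (fun x w => by
        rw [Levi_restr hρ]
        exact (nsq_le_gamL a w).trans (hL _ _)) (Crest.Agent.R273.Dir73.Sm.restr hΦ)
      (fun x w => by rw [Levi_restr hΦ]; exact hΦ0 _ _) (hR a b hb) he'
      (fun x i => by
        rw [cp_Hs_apply, hlo, he'ι]
        exact hc x i.succ)
      (fun x j => by
        rw [cp_Hs_apply, hhi, he'ι]
        exact hcp x j) hf (by
        simpa only [he'ι] using hint)
    -- the smooth weights
    set Ψ : M → ℝ := lgc 0 (c 0) with hΨ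
    set X : M → ℝ := fun x => ∑ i : Fin r, (lgc (lo hN i.succ) (c i.succ) x +
      lgc (lo hN i.succ) (c i.succ) x) with hX
    have hXs : Sm X := by
      rw [hX]
      exact Sm.sum fun i _ => (sm_lgc _ _).add (sm_lgc _ _)
    have hX0 : ∀ x w, 0 ≤ Levi X x w := by
      intro x w
      rw [Levi_eq_lev hXs, hX, Crest.Agent.R271.W792.lev_sum _ (fun i _ =>
        (sm_lgc (M := M) (lo hN i.succ) (c i.succ)).add (sm_lgc _ _))]
      refine Finset.sum_nonneg fun i _ => ?_
      rw [← Levi_eq_lev ((sm_lgc _ _).add (sm_lgc _ _)), Levi_add' (sm_lgc _ _) (sm_lgc _ _)]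
      have := levi_lgc (lo hN i.succ) (c i.succ) x w
      linarith
    have hΨs : Sm Ψ := sm_lgc _ _
    have hexpX : ∀ x, Real.exp (-(X x)) =
        ((∏ i : Fin r, (‖cp x (lo hN i.succ) - c i.succ‖ ^ 2 + 1)) ^ 2)⁻¹ := by
      intro x
      rw [Real.exp_neg, hX, Real.exp_sum, ← Finset.prod_pow]
      congr 1
      refine Finset.prod_congr rfl fun i _ => ?_
      rw [Real.exp_add, exp_lgc, ← sq]
    set Φ' : M → ℝ := fun x => Φ x + (X x + Ψ x) with hΦ'
    have hΦ's : Sm Φ' := hΦ.add (hXs.add hΨs)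
    obtain ⟨G, hG, hGι, hGi⟩ := hOT a μ μD ρ Ψ Φ' b G1 hμ hμD hρ hcpt hL hΨs hΦ's
      (fun x => by
        rw [hell, hΨ, exp_lgc]
        linarith) (fun x w => levi_lgc _ _ x w)
      (fun x w => by
        rw [hΦ', Levi_add' hΦ (hXs.add hΨs), Levi_add' hXs hΨs]
        have h1 := hΦ0 x w
        have h2 := hX0 x w
        linarith) hb hG1 (by
        refine lt_of_eq_of_lt (lintegral_congr fun y => ?_) hG1i
        congr 2
        have h1 : Ψ (ι y) = 0 := by
          have h2 := ell_ι y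
          rw [hell] at h2
          rw [hΨ]
          unfold lgc
          rw [h2]
          simp
        rw [hΦ']
        simp only
        rw [h1, add_zero, neg_add, Real.exp_add, hexpX]
        congr 3)
    refine ⟨G, hG, fun y => ?_, ?_⟩
    · rw [← hG1e, ← hGι, he'ι]
    · refine lt_of_eq_of_lt (lintegral_congr fun x => ?_) hGi
      congr 3
      rw [hΦ']
      simp only
      have h1 : -(Φ x + (X x + Ψ x) + Ψ x) = -(Φ x) + (-(X x) + (-(Ψ x) + -(Ψ x))) := by ring
      rw [h1, Real.exp_add, Real.exp_add, Real.exp_add, hexpX, Real.exp_neg (Ψ x), hΨ, exp_lgc]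
      congr 1
      unfold pf
      rw [Fin.prod_univ_succ]
      have h2 : lo hN (0 : Fin (r + 1)) = 0 := by
        apply Fin.ext
        simp [lo]
      rw [h2]
      rw [mul_pow, mul_inv, sq (‖cp x 0 - c 0‖ ^ 2 + 1), mul_inv]
      rw [mul_comm]

end multi

end Crest.Agent.R276.Ext_723
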