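import Crest.Agent.R276.OTG_189
import Crest.Agent.R276.ExtA_723
import Crest.Agent.R276.ExtC_723

/-!
# R276, leaf C4-GLUE (helper804): Ohsawa–Takegoshi from a point, uniform constant

`ot_pt`: for a smooth psh `Φ` and a point `x₀` there is a holomorphic `G` with `G x₀ = 1` and
`∫ |G|² e^{-Φ} ∏ (|zᵢ - zᵢ(x₀)|² + 1)^{-2} ≤ C₀ⁿ e^{-Φ(x₀)}`, `C₀` a universal constant.
-/

set_option autoImplicit false
set_option linter.unusedSectionVars false

noncomputable section

open Set Filter Topology MeasureTheory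
open scoped ENNReal

namespace Crest.Agent.R276.C4GOT_804

open Crest.Agent.R271.Ho51 Crest.Agent.R273.Dir73 Crest.Agent.R276.EngU_29
open Crest.Agent.R271.W792 (lg nS sm_lg lev_lg_nonneg Levi_eq_lev)
open Crest.Agent.R276.Ext_723 Crest.Agent.R276.End_723

/-- the constant of OT -/
def Kc : ℝ≥0∞ := ENNReal.ofReal (Crest.Agent.R273.OTD_34.Cot 1 * Real.pi)

lemma Kc_ne_top : Kc ≠ ⊤ := ENNReal.ofReal_ne_top

/-- **extension from a fibre of the first `r` coordinates**, with constants -/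
theorem ext_multi_c : ∀ (r : ℕ) {n N : ℕ} (hN : N = r + n)
    {M F : Type} [TopologicalSpace M] [T2Space M] [SecondCountableTopology M]
    [MeasurableSpace M] [BorelSpace M] [RDom N M] [TopologicalSpace F] [MeasurableSpace F]
    [BorelSpace F] [RDom n F] (μ : Measure M) (ν : Measure F) (ρ Φ b : M → ℝ) (c : Fin r → ℂ)
    (e : F → M) (f : F → ℂ),
    IsLeb μ → IsLeb ν → Sm ρ → (∀ c : ℝ, IsCompact {x | ρ x ≤ c}) →
    (∀ x w, nsq w ≤ Levi ρ x w) → Sm Φ → (∀ x w, 0 ≤ Levi Φ x w) → LPsh b →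
    IsClosedEmbedding e → (∀ x i, cp (e x) (lo hN i) = c i) →
    (∀ x j, cp (e x) (hi hN j) = cp x j) → Hol f →
    ∃ G : M → ℂ, Hol G ∧ (∀ y, G (e y) = f y) ∧
      ∫⁻ x, ENNReal.ofReal (‖G x‖ ^ 2 * (Real.exp (-(Φ x)) * ((pf hN c x) ^ 2)⁻¹)) /
        ENNReal.ofReal (b x) ∂μ ≤ Kc ^ r *
      ∫⁻ y, ENNReal.ofReal (‖f y‖ ^ 2 * Real.exp (-(Φ (e y)))) / ENNReal.ofReal (b (e y)) ∂ν := by
  intro r
  induction r with
  | zero =>
    intro n N hN M F _ _ _ _ _ _ _ _ _ _ μ ν ρ Φ b c e f hμ hν hρ hcpt hL hΦ hΦ0 hb he hc hcp hf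
    obtain rfl : N = n := by omega
    have hcp' : ∀ x, cp (e x) = cp x := by
      intro x
      funext j
      have h1 := hcp x j
      have h2 : hi hN j = j := by
        apply Fin.ext
        simp [hi]
      rwa [h2] at h1
    have hsc : SecondCountableTopology F := he.isEmbedding.secondCountableTopology
    have hG := hol_ext0 he hcp' hf
    have hGc : Continuous (ext0 e f) := (Crest.Agent.R273.OTA_34.hol_of _ hG).sm.continuous
    refine ⟨ext0 e f, hG, fun y => ext0_apply he.injective f y, ?_⟩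
    have hpf : ∀ x : M, pf hN c x = 1 := fun x => by
      unfold pf
      simp
    rw [lintegral_emb hμ hν he.isEmbedding hcp', pow_zero, one_mul]
    · refine le_of_eq (lintegral_congr fun y => ?_)
      rw [hpf, ext0_apply he.injective]
      simp
    · have h1 : Continuous fun x => Real.exp (-(Φ x)) := Real.continuous_exp.comp hΦ.continuous.neg
      have h2 : Measurable fun x => ‖ext0 e f x‖ ^ 2 * (Real.exp (-(Φ x)) * ((pf hN c x) ^ 2)⁻¹) := by
        simp only [hpf]
        exact ((hGc.norm.pow 2).mul (h1.mul continuous_const)).measurable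
      exact h2.ennreal_ofReal.div (measurable_of_lpsh hb).ennreal_ofReal
    · intro y hy
      rw [ext0_off f hy]
      simp
  | succ r ih =>
    intro n N hN M F _ _ _ _ _ _ _ _ _ _ μ ν ρ Φ b c e f hμ hν hρ hcpt hL hΦ hΦ0 hb he hc hcp hf
    obtain ⟨N', rfl⟩ : ∃ N', N = N' + 1 := ⟨r + n, by omega⟩
    have hN' : N' = r + n := by omega
    set a : Fin (N' + 1) → ℂ := Fin.cons (-(c 0)) 0 with ha
    have hell : ∀ z : Fin (N' + 1) → ℂ, ell a z = z 0 - c 0 := by
      intro z
      unfold ell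
      simp [ha]
      ring
    have h0 : ∀ x, ell a (cp (e x)) = 0 := by
      intro x
      rw [hell]
      have h1 := hc x 0
      have h2 : lo hN (0 : Fin (r + 1)) = 0 := by
        apply Fin.ext
        simp [lo]
      rw [h2] at h1
      rw [h1, sub_self]
    let _ : MeasurableSpace (Hs M a) := borel _
    have _ : BorelSpace (Hs M a) := ⟨rfl⟩
    obtain ⟨μD, hμD⟩ := exists_leb (M := Hs M a)
    let e' : F → Hs M a := fun x => mkHs (e x) (h0 x)
    have he'ι : ∀ x, ι (e' x) = e x := fun x => rfl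
    have he' : IsClosedEmbedding e' := by
      have h1 : IsClosedEmbedding (ι ∘ e') := he
      exact (isClosedEmbedding_ι.of_comp_iff).1 h1
    -- indices
    have hlo : ∀ i : Fin r, (lo hN' i).succ = lo hN i.succ := fun i => by
      apply Fin.ext
      simp [lo]
    have hhi : ∀ j : Fin n, (hi hN' j).succ = hi hN j := fun j => by
      apply Fin.ext
      simp [hi]
      omega
    obtain ⟨G1, hG1, hG1e, hG1i⟩ := ih hN' (M := Hs M a) (F := F) μD ν (fun y => ρ (ι y))
      (fun y => Φ (ι y)) (fun y => b (ι y)) (fun i => c i.succ) e' f hμD hν (Crest.Agent.R273.Dir73.Sm.restr hρ)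
      (isCompact_sub hcpt) (fun x w => by
        rw [Levi_restr hρ]
        exact (nsq_le_gamL a w).trans (hL _ _)) (Crest.Agent.R273.Dir73.Sm.restr hΦ)
      (fun x w => by rw [Levi_restr hΦ]; exact hΦ0 _ _) (restrLPsh a b hb) he'
      (fun x i => by
        rw [cp_Hs_apply, hlo, he'ι]
        exact hc x i.succ)
      (fun x j => by
        rw [cp_Hs_apply, hhi, he'ι]
        exact hcp x j) hf
    -- the smooth weights
    set Ψ : M → ℝ := lgc 0 (c 0) with hΨ
    set X : M → ℝ := fun x => ∑ i : Fin r, (lgc (lo hN i.succ) (c i.succ) x +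
      lgc (lo hN i.succ) (c i.succ) x) with hX
    have hXs : Sm X := by
      rw [hX]
      exact Sm.sum fun i _ => (sm_lgc _ _).add (sm_lgc _ _)
    have hX0 : ∀ x w, 0 ≤ Levi X x w := by
      intro x w
      rw [Levi_eq_lev hXs, hX, Crest.Agent.R271.W792.lev_sum _ (fun i _ =>
        (sm_lgc (M := M) (lo hN i.succ) (c i.succ)).add (sm_lgc _ _))]
      refine Finset.sum_nonneg fun i _ => ?_
      rw [← Levi_eq_lev ((sm_lgc _ _).add (sm_lgc _ _)), Levi_add' (sm_lgc _ _) (sm_lgc _ _)]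
      have := levi_lgc (lo hN i.succ) (c i.succ) x w
      linarith
    have hΨs : Sm Ψ := sm_lgc _ _
    have hexpX : ∀ x, Real.exp (-(X x)) =
        ((∏ i : Fin r, (‖cp x (lo hN i.succ) - c i.succ‖ ^ 2 + 1)) ^ 2)⁻¹ := by
      intro x
      rw [Real.exp_neg, hX, Real.exp_sum, ← Finset.prod_pow]
      congr 1
      refine Finset.prod_congr rfl fun i _ => ?_
      rw [Real.exp_add, exp_lgc, ← sq]
    set Φ' : M → ℝ := fun x => Φ x + (X x + Ψ x) with hΦ'
    have hΦ's : Sm Φ' := hΦ.add (hXs.add hΨs)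
    obtain ⟨G, hG, hGι, hGi⟩ := OTF_189.ot_slice' (a := a) hμ hμD hρ hcpt hL hΨs hΦ's
      (fun x => by
        rw [hell, hΨ, exp_lgc]
        linarith) one_pos le_rfl (fun x w => levi_lgc _ _ x w)
      (fun x w => by
        rw [one_mul, hΦ', Levi_add' hΦ (hXs.add hΨs), Levi_add' hXs hΨs]
        have h1 := hΦ0 x w
        have h2 := hX0 x w
        linarith) hb hG1
    refine ⟨G, hG, fun y => ?_, ?_⟩
    · rw [← hG1e, ← hGι, he'ι]
    · have e1 : ∫⁻ x, ENNReal.ofReal (‖G x‖ ^ 2 * (Real.exp (-(Φ x)) * ((pf hN c x) ^ 2)⁻¹)) /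
          ENNReal.ofReal (b x) ∂μ = ∫⁻ x, ENNReal.ofReal (‖G x‖ ^ 2 * Real.exp (-(Φ' x + Ψ x))) /
          ENNReal.ofReal (b x) ∂μ := by
        refine lintegral_congr fun x => ?_
        congr 3
        rw [hΦ']
        simp only
        have h1 : -(Φ x + (X x + Ψ x) + Ψ x) = -(Φ x) + (-(X x) + (-(Ψ x) + -(Ψ x))) := by ring
        rw [h1, Real.exp_add, Real.exp_add, Real.exp_add, hexpX, Real.exp_neg (Ψ x), hΨ, exp_lgc]
        congr 1
        unfold pf
        rw [Fin.prod_univ_succ]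
        have h2 : lo hN (0 : Fin (r + 1)) = 0 := by
          apply Fin.ext
          simp [lo]
        rw [h2]
        rw [mul_pow, mul_inv, sq (‖cp x 0 - c 0‖ ^ 2 + 1), mul_inv]
        rw [mul_comm]
      have e2 : ∫⁻ y : Hs M a, ENNReal.ofReal (‖G1 y‖ ^ 2 * Real.exp (-Φ' (ι y))) /
              ENNReal.ofReal (b (ι y)) ∂μD = ∫⁻ x : Hs M a, ENNReal.ofReal (‖G1 x‖ ^ 2 *
                (Real.exp (-(Φ (ι x))) * ((pf hN' (fun i => c i.succ) x) ^ 2)⁻¹)) /
        ENNReal.ofReal (b (ι x)) ∂μD := by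
        refine lintegral_congr fun y => ?_
        congr 2
        have h1 : Ψ (ι y) = 0 := by
          have h2 := ell_ι y
          rw [hell] at h2
          rw [hΨ]
          unfold lgc
          rw [h2]
          simp
        rw [hΦ']
        simp only
        rw [h1, add_zero, neg_add, Real.exp_add, hexpX]
        congr 3
      rw [e1]
      refine hGi.trans ?_
      rw [e2, pow_succ', mul_assoc]
      exact mul_le_mul_right hG1i _

/-- the point as a Riemann domain -/
instance rdomUnit : RDom 0 PUnit.{1} where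
  p := fun _ => 0
  hp := by
    have h : IsHomeomorph (fun _ : PUnit.{1} => (0 : Fin 0 → ℂ)) := by
      have e : PUnit.{1} ≃ₜ (Fin 0 → ℂ) := Homeomorph.homeomorphOfUnique _ _
      have h1 : (fun _ : PUnit => (0 : Fin 0 → ℂ)) = e := by
        funext x
        exact Subsingleton.elim _ _
      rw [h1]
      exact e.isHomeomorph
    exact h.homeomorph.isLocalHomeomorph

lemma leb_unit_le {ν : Measure PUnit.{1}} (hν : IsLeb ν) : ν univ ≤ 1 := by
  have h1 := hν (ch PUnit.unit) (isCh_ch _)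
  have h2 : (ch PUnit.unit : OpenPartialHomeomorph PUnit (Fin 0 → ℂ)).source = univ := by
    ext x
    simp only [mem_univ, iff_true]
    exact mem_ch PUnit.unit
  rw [h2, Measure.restrict_univ] at h1
  rw [h1, Measure.map_apply_of_aemeasurable (aem_symm _) MeasurableSet.univ, preimage_univ]
  refine (Measure.restrict_apply_univ _).le.trans ?_
  refine (measure_mono (subset_univ _)).trans ?_
  rw [volume_pi, Measure.pi_univ]
  simp

lemma lpsh_one {n : ℕ} {M : Type*} [TopologicalSpace M] [RDom n M] :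
    LPsh (fun _ : M => (1 : ℝ)) := by
  have h := LPsh.exp (Crest.Agent.R273.Reg_844.PSH.const (M := M) 0)
  simpa using h

lemma isClosedEmbedding_pt {M : Type} [TopologicalSpace M] [T1Space M] (x₀ : M) :
    IsClosedEmbedding (fun _ : PUnit.{1} => x₀) :=
  IsClosedEmbedding.of_continuous_injective_isClosedMap continuous_const
    (fun _ _ _ => rfl) (fun s _ => by
      rcases Set.eq_empty_or_nonempty s with h | h
      · rw [h, image_empty]; exact isClosed_empty
      · rw [h.image_const]; exact isClosed_singleton)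

/-- **Ohsawa–Takegoshi from a point** -/
theorem ot_pt {N : ℕ} {M : Type} [TopologicalSpace M] [T2Space M] [SecondCountableTopology M]
    [MeasurableSpace M] [BorelSpace M] [RDom N M] {μ : Measure M} (hμ : IsLeb μ) {ρ : M → ℝ}
    (hρ : Sm ρ) (hcpt : ∀ c : ℝ, IsCompact {x | ρ x ≤ c}) (hL : ∀ x w, nsq w ≤ Levi ρ x w)
    {Φ : M → ℝ} (hΦ : Sm Φ) (hΦ0 : ∀ x w, 0 ≤ Levi Φ x w) (x₀ : M) :
    ∃ G : M → ℂ, Hol G ∧ G x₀ = 1 ∧
      ∫⁻ x, ENNReal.ofReal (‖G x‖ ^ 2 * (Real.exp (-(Φ x)) *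
        ((∏ i, (‖cp x i - cp x₀ i‖ ^ 2 + 1)) ^ 2)⁻¹)) ∂μ ≤
      Kc ^ N * ENNReal.ofReal (Real.exp (-(Φ x₀))) := by
  obtain ⟨ν, hν⟩ := exists_leb (M := PUnit.{1})
  have hN : N = N + 0 := rfl
  have hlo : ∀ i : Fin N, lo hN i = i := fun i => by apply Fin.ext; simp [lo]
  obtain ⟨G, hG, hG1, hG2⟩ := ext_multi_c N hN μ ν ρ Φ (fun _ => 1) (cp x₀) (fun _ : PUnit.{1} => x₀)
    (fun _ => 1) hμ hν hρ hcpt hL hΦ hΦ0 lpsh_one (isClosedEmbedding_pt x₀)
    (fun x i => by rw [hlo]) (fun x j => Fin.elim0 j) (fun e he => differentiableOn_const 1)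
  refine ⟨G, hG, hG1 PUnit.unit, ?_⟩
  refine le_trans (le_of_eq ?_) (hG2.trans ?_)
  · refine lintegral_congr fun x => ?_
    rw [ENNReal.ofReal_one, div_one]
    rfl
  · refine mul_le_mul_right ?_ _
    calc ∫⁻ y : PUnit.{1}, ENNReal.ofReal (‖(1 : ℂ)‖ ^ 2 * Real.exp (-(Φ x₀))) / ENNReal.ofReal 1 ∂ν
        = ENNReal.ofReal (Real.exp (-(Φ x₀))) * ν univ := by
          rw [lintegral_const]
          simp
      _ ≤ ENNReal.ofReal (Real.exp (-(Φ x₀))) * 1 := mul_le_mul_right (leb_unit_le hν) _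
      _ = _ := mul_one _

end Crest.Agent.R276.C4GOT_804
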