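import Crest.Agent.R276.CntA_857
import Crest.Agent.R276.Mod4_987
import Crest.Agent.R276.SkelDefs_220

/-!
# R276, leaf C2 of LC4 (helper735): `L²` sections of `nK + ntL` on `M_T` are algebraic

`mem_of_wtt`  : `F` holomorphic, `∫ |F|² e^{-((n-1)φ + ntψ)} < ∞`, `e^φ`, `e^ψ` of polynomial growth
                ⟹ `F` is the evaluation of an element of `B_T`;
`exists_mem`  : the same for `F ∈ CntA_857.V`.
-/

set_option autoImplicit false

open Set Filter Topology MeasureTheory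

noncomputable section

namespace Crest.Agent.R276.C4Mem_735

open Crest.Agent.R271 Crest.Agent.R271.Rd692 Crest.Agent.R271.Ho51 Crest.Agent.R271.Alg255
open Crest.Agent.R271.Defs710 hiding glue
open Crest.Agent.R276.Mod1_987 Crest.Agent.R276.AB2_590
open Crest.Agent.R276.SkelDefs_220 hiding ModelOf
open Crest.Agent.R276.CntA_857

variable {T : Type} [Field T] [Algebra ℂ T] {d : ℕ} (MT : Mdl T (d + 1))

/-- logarithmic form of the polynomial growth -/
theorem log_of_pgr {φ : MT.Pts → ℝ} (h : PGr MT fun y => Real.exp (φ y)) :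
    ∃ (C : ℝ) (j k : ℕ), ∀ y : MT.Pts, φ y ≤
      k * Real.log (1 + ∑ i, ‖y (MT.z i)‖ ^ 2) - j * Real.log (‖y (az MT.z MT.h)‖ ^ 2) + C := by
  obtain ⟨C, j, k, h1⟩ := h
  -- replace `j` by `2 j`... `‖h‖^j`; use the bound `‖h‖^{2j}`: multiply by `‖h‖^j`
  obtain ⟨C', k', hC', h2⟩ : ∃ (C' : ℝ) (k' : ℕ), 0 < C' ∧ ∀ y : MT.Pts,
      Real.exp (φ y) * ‖y (az MT.z MT.h)‖ ^ (2 * j) ≤ C' * (1 + ∑ i, ‖y (MT.z i)‖ ^ 2) ^ k' := by
    obtain ⟨A, a, hA, hg⟩ : PG MT.z (az MT.z MT.h) := by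
      apply PG.adjoin
      rw [Algebra.adjoin_range_eq_range_aeval]
      exact ⟨MT.h, rfl⟩
    refine ⟨|C| * A ^ j + 1, k + a * j, by positivity, fun y => ?_⟩
    have h3 := h1 y
    have h4 := hg y
    rw [show MvPolynomial.eval (MT.pz y) MT.h = y (az MT.z MT.h) from (MT.apply_az' y _).symm] at h3
    have h3' : Real.exp (φ y) * ‖y (az MT.z MT.h)‖ ^ j ≤ C * (1 + ∑ i, ‖y (MT.z i)‖ ^ 2) ^ k := h3
    clear h3
    set w := 1 + ∑ i, ‖y (MT.z i)‖ ^ 2 with hw
    have hw1 : 1 ≤ w := le_add_of_nonneg_right (Finset.sum_nonneg fun _ _ => by positivity)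
    have hw0 : 0 < w := by linarith
    calc Real.exp (φ y) * ‖y (az MT.z MT.h)‖ ^ (2 * j)
        = (Real.exp (φ y) * ‖y (az MT.z MT.h)‖ ^ j) * ‖y (az MT.z MT.h)‖ ^ j := by ring
      _ ≤ (|C| * w ^ k) * (A * w ^ a) ^ j := by
          refine mul_le_mul (h3'.trans ?_) ?_ (by positivity) (by positivity)
          · gcongr
            exact le_abs_self C
          · have h5 : ‖y (az MT.z MT.h)‖ ≤ A * w ^ a := h4
            gcongr
      _ = (|C| * A ^ j) * w ^ (k + a * j) := by ring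
      _ ≤ _ := by gcongr; linarith
  refine ⟨Real.log C', j, k', fun y => ?_⟩
  have hh : 0 < ‖y (az MT.z MT.h)‖ := by
    rw [norm_pos_iff]
    exact (MT.h_unit.map y).ne_zero
  have hw : 0 < 1 + ∑ i, ‖y (MT.z i)‖ ^ 2 := by positivity
  have h3 := Real.log_le_log (by positivity) (h2 y)
  rw [Real.log_mul (Real.exp_pos _).ne' (by positivity), Real.log_exp,
    Real.log_mul hC'.ne' (by positivity), Real.log_pow, Real.log_pow] at h3
  rw [Real.log_pow]
  push_cast at h3 ⊢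
  linarith

/-- **algebraicity of `L²` sections** -/
theorem mem_of_wtt {μ : Measure MT.Pts} (hμ : IsLeb μ) {φ ψ : MT.Pts → ℝ}
    (hφ : Measurable φ) (hψ : Measurable ψ) (gφ : PGr MT fun y => Real.exp (φ y))
    (gψ : PGr MT fun y => Real.exp (ψ y)) {n t : ℕ} (hn : 1 ≤ n) {F : MT.Pts → ℂ} (hF : Hol F)
    (hint : nrm μ φ ψ n t F < ⊤) :
    ∃ b : MT.B, ∀ y : MT.Pts, y b = F y := by
  obtain ⟨C, j, k, h1⟩ := log_of_pgr MT gφ
  obtain ⟨C', j', k', h2⟩ := log_of_pgr MT gψ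
  have hFm : Measurable F := (Hol_cont hF).measurable
  have hu : az MT.z MT.h ≠ 0 := MT.h_unit.ne_zero
  obtain ⟨f, hf⟩ := mem_of_phi MT.het (F := F) (holB_of_51 MT.hch hF) hu hu
    ((n - 1) * j + n * t * j') ((n - 1) * k + n * t * k')
    (C := ((n : ℝ) - 1) * C + n * t * C')
    (φ := fun y => ((n : ℝ) - 1) * φ y + n * t * ψ y) (fun y _ _ => by
      have h3 := h1 y
      have h4 := h2 y
      have h5 : (0 : ℝ) ≤ (n : ℝ) - 1 := by
        have : (1 : ℝ) ≤ n := by exact_mod_cast hn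
        linarith
      have h6 : (0 : ℝ) ≤ (n : ℝ) * t := by positivity
      have h7 := mul_le_mul_of_nonneg_left h3 h5
      have h8 := mul_le_mul_of_nonneg_left h4 h6
      simp only [Nat.cast_add, Nat.cast_mul, Nat.cast_sub hn, Nat.cast_one]
      generalize Real.log (1 + ∑ i, ‖y (MT.z i)‖ ^ 2) = L1 at *
      generalize Real.log (‖y (az MT.z MT.h)‖ ^ 2) = L2 at *
      linarith)
    (by
      rw [MT.lintM_eq hμ (by fun_prop)]
      exact hint)
  exact ⟨f, fun y => (hf y).symm⟩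

/-- **(C2)**: the `L²` sections are regular functions (`C4T_804.ExMem`) -/
theorem exists_mem (T : Type) [Field T] [Algebra ℂ T] (d : ℕ) (MT : Mdl T (d + 1))
    (μ : Measure MT.Pts) (hμ : IsLeb μ) (φ ψ : MT.Pts → ℝ) (hφ : Continuous φ)
    (hψ : Continuous ψ) (gφ : PGr MT (fun y => Real.exp (φ y)))
    (gψ : PGr MT (fun y => Real.exp (ψ y))) (k t : ℕ) (hk : 1 ≤ k) (F : MT.Pts → ℂ)
    (hF : F ∈ V μ hφ.measurable hψ.measurable k t) : ∃ b : MT.B, ∀ y : MT.Pts, y b = F y :=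
  mem_of_wtt MT hμ hφ.measurable hψ.measurable gφ gψ hk hF.1 hF.2

end Crest.Agent.R276.C4Mem_735
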