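import Mathlib
import Crest.Agent.R276.C4T_804
import Crest.Agent.R276.CmpA_595

/-!
# R276, leaf C4-GLUE (helper804): (C4) for `ρ = 0`
-/

set_option autoImplicit false

open Set Filter Topology MeasureTheory

noncomputable section

namespace Crest.Agent.R276.C4Z_804

open Crest.Agent.R271 Crest.Agent.R271.Rd692 Crest.Agent.R271.Ho51
open Crest.Agent.R271.Defs710 hiding glue
open Crest.Agent.R276.Mod1_987 Crest.Agent.R276.FKDefs_779
open Crest.Agent.R276.SkelDefs_220 hiding ModelOf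
open Crest.Agent.R276.C4T_804

variable {T L K : Type} [Field T] [Field L] [Field K] [Algebra ℂ T] [Algebra ℂ L] [Algebra ℂ K]
  [Algebra T L] [Algebra L K] [IsScalarTower ℂ T L] [IsScalarTower ℂ L K]

/-- a function field of transcendence degree `0` is `ℂ` -/
theorem range_of_zero (MT : Mdl T 0) (x : T) : ∃ c : ℂ, algebraMap ℂ T c = x := by
  have h := Cmp_595.isTranscendenceBasis MT
  have : Algebra.IsAlgebraic ℂ T := h.isEmpty_iff_isAlgebraic.1 inferInstance
  exact (IsAlgClosed.algebraMap_bijective_of_isIntegral (k := ℂ) (K := T)).2 x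

theorem mem_of_zero (MT : Mdl T 0) {n : ℕ} {R : ValuationSubring K} (hR : IsDiv ℂ n R) (x : T) :
    algebraMap L K (algebraMap T L x) ∈ R := by
  obtain ⟨c, rfl⟩ := range_of_zero MT x
  rw [← IsScalarTower.algebraMap_apply ℂ T L, ← IsScalarTower.algebraMap_apply ℂ L K]
  exact hR.alg c

variable {a r : ℕ} {MT : Mdl T 0} {ML : Mdl L (0 + a)} {MK : Mdl K (0 + a + r)}
  {H₁ : Rel MT ML} {H₂ : Rel ML MK}

/-- **(C4) for `ρ = 0`** -/
theorem c4_zero (hB : BdInt) {D : ML.Pts → ℝ} {ψ : MT.Pts → ℝ} (hψ : Continuous ψ) {M0 : ℕ}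
    (hM : 0 < M0) {u : ML.B} {c : ℝ} (hc : 0 < c)
    (hu : ∀ z : ML.Pts, ‖z u‖ ^ 2 * D z ^ M0 = c * Real.exp (-(M0 * ψ (H₁.f z)))) :
    C4 H₁ H₂ D := fun S _ hS t₀ =>
  c4T0 hB hψ hM hc hu S hS (fun R hR x => mem_of_zero MT (hS R hR) x) t₀

end Crest.Agent.R276.C4Z_804
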