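import Mathlib

/-!
# (CV) of post 1316: change of variables along a coincidence set

`Y, T` open in a finite dimensional space `E`, `F : Y → V`, `G : T → V` of class `C¹`,
`π : V → E` linear with `π ∘ F` an injective immersion.  On `A = {t ∈ T | G t ∈ F(Y)}` put
`h = F⁻¹ ∘ G`.  If the densities `wY, wT` are compatible (`F y = G t`, `DF(y) ∘ L = DG(t)`
imply `wY y * |det L| = wT t`) and `G` is injective on `T`, then
`∫_A f(h t) wT t dt ≤ ∫_Y f wY`.
-/

set_option autoImplicit false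

namespace Crest.Agent.R276.CV_412

open MeasureTheory Set Filter Topology
open scoped ENNReal NNReal

variable {E : Type*} [NormedAddCommGroup E] [NormedSpace ℝ E] [FiniteDimensional ℝ E]
  [MeasurableSpace E] [BorelSpace E]
variable {V : Type*} [NormedAddCommGroup V] [NormedSpace ℝ V]

/-- A map vanishing on a measurable set has zero derivative at almost every point of it. -/
theorem ae_fderiv_eq_zero (μ : Measure E) [μ.IsAddHaarMeasure] {s : Set E}
    (hs : MeasurableSet s) {u : E → E} (hu : ∀ x ∈ s, u x = 0) {u' : E → E →L[ℝ] E}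
    (hu' : ∀ x ∈ s, HasFDerivWithinAt u (u' x) s x) : ∀ᵐ x ∂μ.restrict s, u' x = 0 := by
  have h1 : ApproximatesLinearOn u (0 : E →L[ℝ] E) s 0 := by
    intro x hx y hy
    simp [hu x hx, hu y hy]
  filter_upwards [h1.norm_fderiv_sub_le μ hs u' hu'] with x hx
  simpa using hx

theorem ae_fderiv_eq_zero' [FiniteDimensional ℝ V] (μ : Measure E) [μ.IsAddHaarMeasure]
    {s : Set E}
    (hs : MeasurableSet s) {u : E → V} (hu : ∀ x ∈ s, u x = 0) {u' : E → E →L[ℝ] V}
    (hu' : ∀ x ∈ s, HasFDerivWithinAt u (u' x) s x) : ∀ᵐ x ∂μ.restrict s, u' x = 0 := by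
  rcases subsingleton_or_nontrivial E with hE | hE
  · exact Eventually.of_forall fun x => ContinuousLinearMap.ext fun v => by
      rw [Subsingleton.elim v 0, map_zero, map_zero]
  obtain ⟨e, he⟩ := exists_ne (0 : E)
  set b := Module.finBasis ℝ V
  have h1 : ∀ i, ∀ᵐ x ∂μ.restrict s,
      ((LinearMap.toContinuousLinearMap (b.coord i)).smulRight e : V →L[ℝ] E).comp (u' x) = 0 := by
    intro i
    refine ae_fderiv_eq_zero μ hs (u := fun x =>
      ((LinearMap.toContinuousLinearMap (b.coord i)).smulRight e : V →L[ℝ] E) (u x))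
      (fun x hx => by simp [hu x hx]) (fun x hx => ?_)
    exact (((LinearMap.toContinuousLinearMap (b.coord i)).smulRight e : V →L[ℝ] E).hasFDerivAt).comp_hasFDerivWithinAt x (hu' x hx)
  filter_upwards [ae_all_iff.2 h1] with x hx
  ext v
  refine b.ext_elem fun i => ?_
  have := congrArg (fun L : E →L[ℝ] E => L v) (hx i)
  simpa [he] using this

omit [MeasurableSpace E] [BorelSpace E] in
/-- The inverse of an injective immersion between open sets of the same dimension. -/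
theorem hasFDerivAt_invFunOn [Nonempty E] {Y : Set E} (hY : IsOpen Y) {φ : E → E}
    (hφ : ContDiffOn ℝ 1 φ Y) (hinj : InjOn φ Y) {y : E} (hy : y ∈ Y)
    (hd : Function.Injective (fderiv ℝ φ y)) :
    ∃ L : E →L[ℝ] E, HasFDerivAt (Function.invFunOn φ Y) L (φ y) ∧
      (fderiv ℝ φ y).comp L = ContinuousLinearMap.id ℝ E ∧
      ∀ᶠ z in 𝓝 (φ y), z ∈ φ '' Y := by
  have h1 : HasStrictFDerivAt φ (fderiv ℝ φ y) y :=
    ((hφ y hy).contDiffAt (hY.mem_nhds hy)).hasStrictFDerivAt one_ne_zero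
  set e : E ≃L[ℝ] E :=
    (LinearEquiv.ofInjectiveEndo (fderiv ℝ φ y : E →ₗ[ℝ] E) hd).toContinuousLinearEquiv with he
  have he' : (e : E →L[ℝ] E) = fderiv ℝ φ y := by ext v; rfl
  rw [← he'] at h1
  have h2 := h1.to_localInverse
  have h3 : ∀ᶠ z in 𝓝 (φ y), φ (h1.localInverse φ e y z) = z :=
    h1.eventually_right_inverse
  have h4 : h1.localInverse φ e y (φ y) = y := h1.localInverse_apply_image
  have h5 : ∀ᶠ z in 𝓝 (φ y), h1.localInverse φ e y z ∈ Y := by
    have := h2.continuousAt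
    have h6 := this.tendsto
    rw [h4] at h6
    exact h6 (hY.mem_nhds hy)
  refine ⟨(e.symm : E →L[ℝ] E), ?_, ?_, ?_⟩
  · refine h2.hasFDerivAt.congr_of_eventuallyEq ?_
    filter_upwards [h3, h5] with z hz hz'
    have h7 : z ∈ φ '' Y := ⟨_, hz', hz⟩
    have h8 := Function.invFunOn_mem h7
    have h9 := Function.invFunOn_eq h7
    exact hinj h8 hz' (h9.trans hz.symm)
  · rw [← he']
    ext v
    simp
  · filter_upwards [h3, h5] with z hz hz'
    exact ⟨_, hz', hz⟩

/-- **(CV)**. -/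
theorem change_of_variables [FiniteDimensional ℝ V] (μ : Measure E) [μ.IsAddHaarMeasure]
    {Y T : Set E} (hY : IsOpen Y) (hT : IsOpen T) {F G : E → V}
    (hF : ContDiffOn ℝ 1 F Y) (hG : ContDiffOn ℝ 1 G T) (π : V →L[ℝ] E)
    (hinj : InjOn (fun y => π (F y)) Y)
    (hd : ∀ y ∈ Y, Function.Injective (π.comp (fderiv ℝ F y)))
    (hGinj : InjOn G T) {wY wT : E → ℝ≥0∞}
    (hw : ∀ y ∈ Y, ∀ t ∈ T, F y = G t → ∀ L : E →L[ℝ] E,
      (fderiv ℝ F y).comp L = fderiv ℝ G t → ENNReal.ofReal |L.det| * wY y = wT t) :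
    ∃ h : E → E, (∀ t ∈ T, G t ∈ F '' Y → h t ∈ Y ∧ F (h t) = G t) ∧
      MeasurableSet {t | t ∈ T ∧ G t ∈ F '' Y} ∧
      MeasurableSet (h '' {t | t ∈ T ∧ G t ∈ F '' Y}) ∧
      ∀ f : E → ℝ≥0∞, ∫⁻ t in {t | t ∈ T ∧ G t ∈ F '' Y}, f (h t) * wT t ∂μ
        = ∫⁻ y in h '' {t | t ∈ T ∧ G t ∈ F '' Y}, f y * wY y ∂μ := by
  classical
  have : Nonempty E := ⟨0⟩
  set φ : E → E := fun y => π (F y) with hφdef
  have hφ : ContDiffOn ℝ 1 φ Y := π.contDiff.comp_contDiffOn hF
  have hφ' : ∀ y ∈ Y, fderiv ℝ φ y = π.comp (fderiv ℝ F y) := by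
    intro y hy
    have h1 : HasFDerivAt F (fderiv ℝ F y) y :=
      (((hF y hy).contDiffAt (hY.mem_nhds hy)).differentiableAt one_ne_zero).hasFDerivAt
    exact (π.hasFDerivAt.comp y h1).fderiv
  set g := Function.invFunOn φ Y with hgdef
  set h : E → E := fun t => g (π (G t)) with hh
  set A : Set E := {t | t ∈ T ∧ G t ∈ F '' Y} with hA
  have hgF : ∀ y ∈ Y, g (φ y) = y := fun y hy => hinj.leftInvOn_invFunOn hy
  have hhA : ∀ t ∈ T, G t ∈ F '' Y → h t ∈ Y ∧ F (h t) = G t := by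
    rintro t ht ⟨y, hy, hyt⟩
    have h1 : h t = y := by
      simp only [hh]; rw [← hyt]; exact hgF y hy
    rw [h1]; exact ⟨hy, hyt⟩
  -- the open set where `h` makes sense
  set T' : Set E := {t | t ∈ T ∧ π (G t) ∈ φ '' Y} with hT'
  have hAT' : A ⊆ T' := by
    rintro t ⟨ht, y, hy, hyt⟩
    exact ⟨ht, y, hy, by simp only [hφdef, hyt]⟩
  have hGd : ∀ t ∈ T, HasFDerivAt G (fderiv ℝ G t) t := fun t ht =>
    (((hG t ht).contDiffAt (hT.mem_nhds ht)).differentiableAt one_ne_zero).hasFDerivAt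
  have hπG : ∀ t ∈ T, HasFDerivAt (fun t => π (G t)) (π.comp (fderiv ℝ G t)) t := fun t ht =>
    π.hasFDerivAt.comp t (hGd t ht)
  have hT'o : IsOpen T' := by
    rw [isOpen_iff_mem_nhds]
    rintro t ⟨ht, y, hy, hyt⟩
    obtain ⟨L, hL1, hL2, hL3⟩ := hasFDerivAt_invFunOn hY hφ hinj hy
      (by rw [hφ' y hy]; exact hd y hy)
    rw [hyt] at hL3
    filter_upwards [hT.mem_nhds ht, (hπG t ht).continuousAt.eventually hL3] with z h1 h2
    exact ⟨h1, h2⟩
  -- derivative of `h`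
  have hhd : ∀ t ∈ T', ∃ L : E →L[ℝ] E, HasFDerivAt h L t ∧ h t ∈ Y ∧ φ (h t) = π (G t) := by
    rintro t ⟨ht, y, hy, hyt⟩
    obtain ⟨L, hL1, hL2, hL3⟩ := hasFDerivAt_invFunOn hY hφ hinj hy
      (by rw [hφ' y hy]; exact hd y hy)
    rw [hyt] at hL1
    have h1 : h t = y := by
      simp only [hh]; rw [← hyt]; exact hgF y hy
    have hc : HasFDerivAt (g ∘ fun t => π (G t)) (L.comp (π.comp (fderiv ℝ G t))) t :=
      HasFDerivAt.comp t hL1 (hπG t ht)
    refine ⟨L.comp (π.comp (fderiv ℝ G t)), hc, ?_, ?_⟩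
    · rw [h1]; exact hy
    · rw [h1]; exact hyt
  choose! h' hh' hhY hφh using hhd
  -- measurability of `A`
  have hFd : ∀ y ∈ Y, HasFDerivAt F (fderiv ℝ F y) y := fun y hy =>
    (((hF y hy).contDiffAt (hY.mem_nhds hy)).differentiableAt one_ne_zero).hasFDerivAt
  set u : E → V := fun t => F (h t) - G t with hu
  have hud : ∀ t ∈ T', HasFDerivAt u ((fderiv ℝ F (h t)).comp (h' t) - fderiv ℝ G t) t := by
    intro t ht
    exact ((hFd _ (hhY t ht)).comp t (hh' t ht)).sub (hGd t ht.1)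
  have hA' : A = T' \ (T' ∩ u ⁻¹' {0}ᶜ) := by
    ext t
    constructor
    · intro ht
      refine ⟨hAT' ht, fun hc => hc.2 ?_⟩
      simp only [mem_singleton_iff, hu]
      rw [(hhA t ht.1 ht.2).2, sub_self]
    · rintro ⟨ht, hc⟩
      have h1 : u t = 0 := by
        by_contra h0
        exact hc ⟨ht, h0⟩
      exact ⟨ht.1, h t, hhY t ht, sub_eq_zero.1 h1⟩
  have hAm : MeasurableSet A := by
    rw [hA']
    refine hT'o.measurableSet.diff ?_
    have hcont : ContinuousOn u T' := fun t ht => (hud t ht).continuousAt.continuousWithinAt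
    exact (hcont.isOpen_inter_preimage hT'o isOpen_compl_singleton).measurableSet
  have hhAd : ∀ t ∈ A, HasFDerivWithinAt h (h' t) A t := fun t ht =>
    (hh' t (hAT' ht)).hasFDerivWithinAt
  have hhinj : InjOn h A := by
    intro a ha b hb hab
    apply hGinj ha.1 hb.1
    rw [← (hhA a ha.1 ha.2).2, ← (hhA b hb.1 hb.2).2, hab]
  refine ⟨h, hhA, hAm, ?_, fun f => ?_⟩
  · exact measurable_image_of_fderivWithin hAm hhAd hhinj
  · rw [lintegral_image_eq_lintegral_abs_det_fderiv_mul μ hAm hhAd hhinj]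
    refine lintegral_congr_ae ?_
    have h1 : ∀ᵐ t ∂μ.restrict A, (fderiv ℝ F (h t)).comp (h' t) - fderiv ℝ G t = 0 := by
      refine ae_fderiv_eq_zero' μ hAm (u := u) (fun t ht => ?_) (fun t ht => ?_)
      · simp only [hu]; rw [(hhA t ht.1 ht.2).2, sub_self]
      · exact (hud t (hAT' ht)).hasFDerivWithinAt
    filter_upwards [h1, ae_restrict_mem hAm] with t ht htA
    have h2 := hw (h t) (hhA t htA.1 htA.2).1 t htA.1 (hhA t htA.1 htA.2).2 (h' t)
      (sub_eq_zero.1 ht)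
    rw [← h2]
    ring

end Crest.Agent.R276.CV_412
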