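import Crest.Agent.R276.Ahl_25
import Crest.Agent.R276.MaxP_25
import Crest.Agent.R276.BdNf4_651
import Crest.Agent.R276.NfA_25
import Crest.Agent.R276.GrC_217

/-!
# R276, leaf COUNT-GR, final assembly, part 3 (helper857): the weight of `L` near the divisor

* `half_max`: maximum principle for periodic subharmonic functions with `o(|Re t|)` growth;
* `pp_bdd`: `-log |Om|² + (2k/e) Re q₀` is bounded above near a point of the divisor.
-/

set_option autoImplicit false
set_option linter.unusedSectionVars false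

open Set Filter Topology Matrix Metric InnerProductSpace Laplacian
open scoped ComplexOrder ContDiff

namespace Crest.Agent.R276.GrAs3_857

open Crest.Agent.R276.Ahl_25

/-! ### the maximum principle -/

theorem lap_re (z : ℂ) (c : ℝ) : (Δ (fun w : ℂ => c * w.re)) z = 0 := by
  have hc : ContDiffAt ℝ 2 (fun w : ℂ => c * w.re) z := by
    exact (contDiff_const.mul Complex.reCLM.contDiff).contDiffAt
  have key : ∀ v : ℂ, fderiv ℝ (fderiv ℝ (fun w : ℂ => c * w.re)) z v v = 0 := by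
    intro v
    rw [← deriv2_line hc]
    have e1 : (fun t : ℝ => c * (z + t • v).re) = fun t => c * z.re + c * v.re * t := by
      funext t
      simp only [Complex.add_re, Complex.real_smul, Complex.mul_re, Complex.ofReal_re,
        Complex.ofReal_im, zero_mul, sub_zero]
      ring
    rw [e1]
    have hd : deriv (fun t : ℝ => c * z.re + c * v.re * t) = fun _ => c * v.re := by
      funext t
      have h1 : HasDerivAt (fun t : ℝ => c * z.re + c * v.re * t) (c * v.re) t := by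
        have := ((hasDerivAt_id t).const_mul (c * v.re)).const_add (c * z.re)
        simpa using this
      exact h1.deriv
    rw [hd, deriv_const]
  rw [lap_eq, key, key, add_zero]

theorem contDiffAt_exp_re (z : ℂ) (c : ℝ) : ContDiffAt ℝ 2 (fun w : ℂ => c * Real.exp w.re) z :=
  (contDiff_const.mul (Real.contDiff_exp.comp Complex.reCLM.contDiff)).contDiffAt

theorem lap_exp_re (z : ℂ) (c : ℝ) : (Δ (fun w : ℂ => c * Real.exp w.re)) z = c * Real.exp z.re := by
  have hc := contDiffAt_exp_re z c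
  have k1 : fderiv ℝ (fderiv ℝ (fun w : ℂ => c * Real.exp w.re)) z 1 1 = c * Real.exp z.re := by
    rw [← deriv2_line hc]
    have e1 : (fun t : ℝ => c * Real.exp (z + t • (1 : ℂ)).re) =
        fun t => c * Real.exp (z.re + t) := by
      funext t
      simp
    rw [e1]
    have hd : ∀ t : ℝ, HasDerivAt (fun t : ℝ => c * Real.exp (z.re + t))
        (c * Real.exp (z.re + t)) t := by
      intro t
      have h1 : HasDerivAt (fun t : ℝ => Real.exp (z.re + t)) (Real.exp (z.re + t)) t := by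
        have := ((hasDerivAt_id t).const_add z.re).exp
        simpa using this
      exact h1.const_mul c
    have hd' : deriv (fun t : ℝ => c * Real.exp (z.re + t)) =
        fun t => c * Real.exp (z.re + t) := funext fun t => (hd t).deriv
    rw [hd', (hd 0).deriv, add_zero]
  have k2 : fderiv ℝ (fderiv ℝ (fun w : ℂ => c * Real.exp w.re)) z Complex.I Complex.I = 0 := by
    rw [← deriv2_line hc]
    have e1 : (fun t : ℝ => c * Real.exp (z + t • Complex.I).re) =
        fun _ => c * Real.exp z.re := by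
      funext t
      simp
    rw [e1]
    simp
  rw [lap_eq, k1, k2, add_zero]

/-- **maximum principle on a half plane** for periodic subharmonic functions -/
theorem half_max {a t0 m : ℝ} (hta : t0 < a) {U : ℂ → ℝ}
    (hC : ∀ t : ℂ, t.re < a → ContDiffAt ℝ 2 U t) (hL : ∀ t : ℂ, t.re < a → 0 ≤ (Δ U) t)
    (per : ∀ t : ℂ, t.re < a → U (t + 2 * Real.pi * Complex.I) = U t)
    (gr : ∀ ε : ℝ, 0 < ε → ∃ s0 : ℝ, ∀ t : ℂ, t.re ≤ s0 → |t.im| ≤ Real.pi → U t ≤ ε * (-t.re))
    (hm : ∀ t : ℂ, t.re = t0 → U t ≤ m) : ∀ t : ℂ, t.re ≤ t0 → U t ≤ m := by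
  -- integer periods
  have perk : ∀ (k : ℤ) (t : ℂ), t.re < a → U (t + k * (2 * Real.pi * Complex.I)) = U t := by
    have hre : ∀ (k : ℤ) (t : ℂ), (t + k * (2 * Real.pi * Complex.I)).re = t.re := by
      intro k t
      simp [Complex.mul_re, Complex.mul_im]
    intro k
    induction k using Int.induction_on with
    | zero => intro t _; simp
    | succ i ih =>
      intro t ht
      have e : t + ((i : ℤ) + 1 : ℤ) * (2 * Real.pi * Complex.I) =
          (t + (i : ℤ) * (2 * Real.pi * Complex.I)) + 2 * Real.pi * Complex.I := by push_cast; ring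
      rw [e, per _ (by rw [hre]; exact ht), ih t ht]
    | pred i ih =>
      intro t ht
      have e : t + (-(i : ℤ) : ℤ) * (2 * Real.pi * Complex.I) =
          (t + (-(i : ℤ) - 1 : ℤ) * (2 * Real.pi * Complex.I)) + 2 * Real.pi * Complex.I := by
        push_cast; ring
      have h1 := ih t ht
      rw [e, per _ (by rw [hre]; exact ht)] at h1
      exact h1
  have rep : ∀ t : ℂ, ∃ t' : ℂ, t'.re = t.re ∧ |t'.im| ≤ Real.pi ∧
      (t.re < a → U t' = U t) := by
    intro t
    refine ⟨t + (-round (t.im / (2 * Real.pi)) : ℤ) * (2 * Real.pi * Complex.I), ?_, ?_, ?_⟩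
    · simp [Complex.mul_re, Complex.mul_im]
    · have h1 := abs_sub_round (t.im / (2 * Real.pi))
      have hpi := Real.pi_pos
      have h2 : (t + ((-round (t.im / (2 * Real.pi)) : ℤ) : ℂ) * (2 * Real.pi * Complex.I)).im =
          (t.im / (2 * Real.pi) - round (t.im / (2 * Real.pi))) * (2 * Real.pi) := by
        simp only [Complex.add_im, Complex.mul_im, Complex.mul_re, Complex.intCast_re,
          Complex.intCast_im, Complex.I_re, Complex.I_im, Complex.ofReal_re, Complex.ofReal_im,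
          Complex.re_ofNat, Complex.im_ofNat]
        field_simp
        push_cast
        ring
      rw [h2, abs_mul, abs_of_pos (show (0 : ℝ) < 2 * Real.pi by positivity)]
      nlinarith
    · intro ht
      exact perk _ t ht
  intro t1 ht1
  by_contra hcon
  push Not at hcon
  have ht1' : t1.re < t0 := by
    rcases ht1.lt_or_eq with h | h
    · exact h
    · exact absurd (hm t1 h) (not_le.2 hcon)
  set η : ℝ := U t1 - m with hη
  have hη0 : 0 < η := by linarith
  set ε : ℝ := η / (4 * (t0 - t1.re)) with hε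
  have hε0 : 0 < ε := div_pos hη0 (by linarith)
  have hεt : ε * (t0 - t1.re) = η / 4 := by
    have : t0 - t1.re ≠ 0 := by linarith
    rw [hε]; field_simp
  set δ : ℝ := η / (4 * Real.exp t0) with hδ
  have hδ0 : 0 < δ := by positivity
  have hδt : δ * Real.exp t0 = η / 4 := by rw [hδ]; field_simp
  set Vf : ℂ → ℝ := fun t => U t + ε * t.re + δ * Real.exp t.re with hVf
  have hVC : ∀ t : ℂ, t.re < a → ContDiffAt ℝ 2 Vf t := fun t ht =>
    ((hC t ht).add (contDiff_const.mul Complex.reCLM.contDiff).contDiffAt).add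
      (contDiffAt_exp_re t δ)
  have hVL : ∀ t : ℂ, t.re < a → 0 < (Δ Vf) t := by
    intro t ht
    have c1 : ContDiffAt ℝ 2 (fun w : ℂ => ε * w.re) t :=
      (contDiff_const.mul Complex.reCLM.contDiff).contDiffAt
    have h1 : (Δ (U + fun w : ℂ => ε * w.re)) t = (Δ U) t + (Δ (fun w : ℂ => ε * w.re)) t :=
      (hC t ht).laplacian_add c1
    have h2 : (Δ ((U + fun w : ℂ => ε * w.re) + fun w : ℂ => δ * Real.exp w.re)) t =
        (Δ (U + fun w : ℂ => ε * w.re)) t + (Δ (fun w : ℂ => δ * Real.exp w.re)) t :=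
      ((hC t ht).add c1).laplacian_add (contDiffAt_exp_re t δ)
    have h3 : Vf = (U + fun w : ℂ => ε * w.re) + fun w : ℂ => δ * Real.exp w.re := rfl
    rw [h3, h2, h1, lap_re, lap_exp_re]
    have := hL t ht
    have := Real.exp_pos t.re
    positivity
  have hV1 : m + ε * t0 + η / 2 < Vf t1 := by
    have h1 : 0 < δ * Real.exp t1.re := by positivity
    have h2 : Vf t1 = U t1 + ε * t1.re + δ * Real.exp t1.re := rfl
    rw [h2]
    have h3 : ε * t1.re = ε * t0 - η / 4 := by rw [← hεt]; ring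
    rw [h3]
    linarith
  have hVb : ∀ t : ℂ, t.re = t0 → Vf t ≤ m + ε * t0 + η / 4 := by
    intro t ht
    have h2 : Vf t = U t + ε * t.re + δ * Real.exp t.re := rfl
    rw [h2, ht, hδt]
    linarith [hm t ht]
  obtain ⟨s0, hs0⟩ := gr (ε / 2) (by positivity)
  -- far away
  set s1 : ℝ := min (min s0 (t1.re - 1)) ((2 / ε) * (m + ε * t0 + η / 4 - δ * Real.exp t0)) with hs1
  have hVs : ∀ t : ℂ, t.re ≤ s1 → |t.im| ≤ Real.pi → Vf t ≤ m + ε * t0 + η / 4 := by
    intro t ht1 ht2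
    have h1 : t.re ≤ s0 := ht1.trans ((min_le_left _ _).trans (min_le_left _ _))
    have h2 : t.re ≤ t1.re - 1 := ht1.trans ((min_le_left _ _).trans (min_le_right _ _))
    have h3 : t.re ≤ (2 / ε) * (m + ε * t0 + η / 4 - δ * Real.exp t0) := ht1.trans (min_le_right _ _)
    have h4 := hs0 t h1 ht2
    have h5 : δ * Real.exp t.re ≤ δ * Real.exp t0 :=
      mul_le_mul_of_nonneg_left (Real.exp_le_exp.2 (by linarith)) hδ0.le
    have h6 : ε / 2 * t.re ≤ m + ε * t0 + η / 4 - δ * Real.exp t0 := by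
      calc ε / 2 * t.re ≤ ε / 2 * ((2 / ε) * (m + ε * t0 + η / 4 - δ * Real.exp t0)) :=
            mul_le_mul_of_nonneg_left h3 (by positivity)
        _ = _ := by field_simp
    have h7 : Vf t = U t + ε * t.re + δ * Real.exp t.re := rfl
    rw [h7]
    linarith
  have hs1t : s1 < t1.re := by
    have : s1 ≤ t1.re - 1 := (min_le_left _ _).trans (min_le_right _ _)
    linarith
  -- the compact rectangle
  set K : Set ℂ := Icc s1 t0 ×ℂ Icc (-Real.pi) Real.pi with hK
  have hKc : IsCompact K := isCompact_Icc.reProdIm isCompact_Icc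
  have hVc : ContinuousOn Vf K := fun t ht =>
    (hVC t (by have := (Complex.mem_reProdIm.1 ht).1.2; linarith)).continuousAt.continuousWithinAt
  have hVper : ∀ t t' : ℂ, t'.re = t.re → U t' = U t → Vf t' = Vf t := by
    intro t t' h1 h2
    show U t' + ε * t'.re + δ * Real.exp t'.re = U t + ε * t.re + δ * Real.exp t.re
    rw [h1, h2]
  obtain ⟨t1', h1re, h1im, h1U⟩ := rep t1
  have ht1K : t1' ∈ K := by
    rw [hK, Complex.mem_reProdIm, h1re]
    exact ⟨⟨hs1t.le, ht1⟩, abs_le.1 h1im⟩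
  obtain ⟨p, hpK, hpmax⟩ := hKc.exists_isMaxOn ⟨t1', ht1K⟩ hVc
  have hp1 : Vf t1 ≤ Vf p := by
    have := hpmax ht1K
    rw [← hVper t1 t1' h1re (h1U (by linarith))]
    exact this
  have hpre := (Complex.mem_reProdIm.1 hpK).1
  have hpim := (Complex.mem_reProdIm.1 hpK).2
  have hpl : s1 < p.re := by
    by_contra hh
    push Not at hh
    have := hVs p hh (abs_le.2 hpim)
    linarith
  have hpr : p.re < t0 := by
    rcases hpre.2.lt_or_eq with h | h
    · exact h
    · have := hVb p h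
      linarith
  have hloc : IsLocalMax Vf p := by
    have hop : IsOpen {t : ℂ | s1 < t.re ∧ t.re < t0} :=
      (isOpen_lt continuous_const Complex.continuous_re).inter
        (isOpen_lt Complex.continuous_re continuous_const)
    filter_upwards [hop.mem_nhds ⟨hpl, hpr⟩] with t ht
    obtain ⟨t', hre, him, hU⟩ := rep t
    have h1 : t' ∈ K := by
      rw [hK, Complex.mem_reProdIm, hre]
      exact ⟨⟨ht.1.le, ht.2.le⟩, abs_le.1 him⟩
    rw [← hVper t t' hre (hU (by linarith [ht.2]))]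
    exact hpmax h1
  have h1 := lap_nonpos_of_isLocalMax (hVC p (by linarith)) hloc
  have h2 := hVL p (by linarith)
  linarith

/-! ### the weight near the divisor -/

section wt

open Crest.Agent.R276.VCalc_442 Crest.Agent.R276.GrA_217 Crest.Agent.R276.GrB_217
open Crest.Agent.R276.GrC_217 Crest.Agent.R276.BdNf4_651

variable {ι : Type*} [Fintype ι] [DecidableEq ι] {d : ℕ}

/-- polynomial growth of `exp (s L) u` -/
theorem norm_EE_le {L : Matrix ι ι ℂ} (hL : IsNilpotent L) : ∃ C : ℝ, 0 < C ∧ ∀ (s : ℂ) (u : ι → ℂ),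
    ‖EE L s *ᵥ u‖ ≤ C * (1 + ‖s‖) ^ (Fintype.card ι) * ‖u‖ := by
  let _ : NormedRing (Matrix ι ι ℂ) := Matrix.linftyOpNormedRing
  refine ⟨∑ i ∈ Finset.range (Fintype.card ι), ‖L ^ i‖ + 1, by positivity, fun s u => ?_⟩
  unfold EE
  rw [exp_eq hL le_rfl, Matrix.sum_mulVec]
  have h1 : ∀ i ∈ Finset.range (Fintype.card ι),
      ‖((s ^ i / (i.factorial : ℂ)) • L ^ i) *ᵥ u‖ ≤
        ‖L ^ i‖ * ((1 + ‖s‖) ^ (Fintype.card ι) * ‖u‖) := by
    intro i hi
    rw [Matrix.smul_mulVec, norm_smul, norm_div, norm_pow, Complex.norm_natCast]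
    have h2 : ‖s‖ ^ i / (i.factorial : ℝ) ≤ (1 + ‖s‖) ^ (Fintype.card ι) := by
      calc ‖s‖ ^ i / (i.factorial : ℝ) ≤ ‖s‖ ^ i / 1 := by
            gcongr
            exact_mod_cast i.factorial_pos
        _ ≤ (1 + ‖s‖) ^ i := by
            rw [div_one]
            exact pow_le_pow_left₀ (norm_nonneg _) (by linarith) _
        _ ≤ (1 + ‖s‖) ^ (Fintype.card ι) :=
            pow_le_pow_right₀ (by linarith [norm_nonneg s]) (Finset.mem_range.1 hi).le
    have h3 : ‖(L ^ i) *ᵥ u‖ ≤ ‖L ^ i‖ * ‖u‖ := Matrix.linfty_opNorm_mulVec _ _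
    calc ‖s‖ ^ i / (i.factorial : ℝ) * ‖(L ^ i) *ᵥ u‖
        ≤ (1 + ‖s‖) ^ (Fintype.card ι) * (‖L ^ i‖ * ‖u‖) := by gcongr
      _ = _ := by ring
  refine (norm_sum_le_of_le _ h1).trans ?_
  rw [← Finset.sum_mul, add_mul, add_mul]
  have h4 : 0 ≤ (1 + ‖s‖) ^ (Fintype.card ι) * ‖u‖ := by positivity
  rw [mul_assoc]
  linarith

variable {w e : ℕ} {k : ℤ} {a R : ℝ} {S : Matrix ι ι ℂ}
  {P : ℕ → (Fin (d + 1) → ℂ) → Matrix ι ι ℂ} {T : Matrix ι ι ℂ} {z : ℂ} {L : Matrix ι ι ℂ}
  {Om f : (Fin (d + 1) → ℂ) → ι → ℂ}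

/-- lower bound of Hodge norms on strips -/
theorem hn_lower (h : VHS w (HB d a R) S P) {R' : ℝ} (hR : R' < R) (B : ℝ) :
    ∃ (C : ℝ) (m : ℕ), 0 < C ∧ ∀ q : Fin (d + 1) → ℂ, (q 0).re ≤ a - 1 → |(q 0).im| ≤ B →
      (∀ i : Fin d, ‖q i.succ‖ ≤ R') → ∀ u : ι → ℂ,
        ‖u‖ ^ 2 ≤ C * (a - (q 0).re) ^ m * (sf (hm w S P q) u u).re := by
  have hpull : VHS w (NfA_25.HB (0 : Fin d → ℂ) R) S
      (fun p z => P p (z + Pi.single 0 (a : ℂ))) := by
    refine EndTh_659.pull h (NfA_25.isOpen_HB _ _) (by fun_prop) fun z hz => ?_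
    refine ⟨?_, fun i => ?_⟩
    · have h1 : ((z + Pi.single 0 (a : ℂ) : Fin (d + 1) → ℂ) 0).re = (z 0).re + a := by simp
      rw [h1]
      linarith [hz.1]
    · have h1 : (z + Pi.single 0 (a : ℂ) : Fin (d + 1) → ℂ) i.succ = z i.succ := by simp
      rw [h1]
      simpa using hz.2 i
  obtain ⟨C, m, hC, hb⟩ := NfA_25.hn_growth hpull hR B
  refine ⟨C, m, hC, fun q hq1 hq2 hq3 u => ?_⟩
  have h2 := (hb (q - Pi.single 0 (a : ℂ)) (by simp; linarith) (by simpa using hq2)
    (fun j => by simpa using hq3 j) u).2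
  have h3 : VCalc_442.hn w S (fun p z => P p (z + Pi.single 0 (a : ℂ))) u
      (q - Pi.single 0 (a : ℂ)) = (sf (hm w S P q) u u).re := by
    have : VCalc_442.hn w S (fun p z => P p (z + Pi.single 0 (a : ℂ))) u
      (q - Pi.single 0 (a : ℂ)) = (sf (hm w S P (q - Pi.single 0 (a : ℂ) + Pi.single 0 (a : ℂ)))
        u u).re := rfl
    rw [this, sub_add_cancel]
  rw [h3] at h2
  have h4 : -((q - Pi.single 0 (a : ℂ) : Fin (d + 1) → ℂ) 0).re = a - (q 0).re := by simp
  rw [h4] at h2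
  exact h2

/-- `-log |Om|²` is periodic -/
theorem pp_per (h : LCh w e k a R S P T z L Om f) (hcy : Cy w (HB d a R) P Om)
    {q : Fin (d + 1) → ℂ} (hq : q ∈ HB d a R) :
    pp w S Om (q + Pi.single 0 tpi) = pp w S Om q := by
  have h1 := h.nrm_om_per hq 1
  rw [Nat.cast_one, one_mul] at h1
  have hq' : q + Pi.single 0 tpi ∈ HB d a R := by
    have := LCh.HB_shift hq 1
    rwa [Nat.cast_one, one_mul] at this
  unfold pp
  rw [h.vhs.bn_eq hcy.bot hq, h.vhs.bn_eq hcy.bot hq']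
  have e1 := nrm_sq (h.vhs.hmPos hq') (Om (q + Pi.single 0 tpi))
  have e2 := nrm_sq (h.vhs.hmPos hq) (Om q)
  have e3 : BndA_563.hn (hm w S P (q + Pi.single 0 tpi)) (Om (q + Pi.single 0 tpi)) =
      BndA_563.hn (hm w S P q) (Om q) := by rw [← e1, ← e2, h1]
  congr 2

theorem cons_decomp (t : ℂ) (v : Fin d → ℂ) : (Fin.cons t v : Fin (d + 1) → ℂ) =
    Fin.cons 0 v + t • (Pi.single 0 1 : Fin (d + 1) → ℂ) := by
  funext j
  refine Fin.cases ?_ (fun i => ?_) j
  · simp
  · simp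

theorem cons_mem {t : ℂ} {v : Fin d → ℂ} (ht : t.re < a) (hv : ∀ i, ‖v i‖ < R) :
    (Fin.cons t v : Fin (d + 1) → ℂ) ∈ HB d a R :=
  ⟨by simpa using ht, fun i => by simpa using hv i⟩

theorem isOpen_dom (ρ R : ℝ) :
    IsOpen {q : Fin (d + 1) → ℂ | ‖q 0‖ < ρ ∧ ∀ i : Fin d, ‖q i.succ‖ < R} := by
  have h1 : IsOpen {q : Fin (d + 1) → ℂ | ‖q 0‖ < ρ} :=
    isOpen_lt (continuous_apply 0).norm continuous_const
  have h2 : IsOpen (⋂ i : Fin d, {q : Fin (d + 1) → ℂ | ‖q i.succ‖ < R}) :=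
    isOpen_iInter_of_finite fun i => isOpen_lt (continuous_apply i.succ).norm continuous_const
  have h3 : {q : Fin (d + 1) → ℂ | ‖q 0‖ < ρ ∧ ∀ i : Fin d, ‖q i.succ‖ < R} =
      {q : Fin (d + 1) → ℂ | ‖q 0‖ < ρ} ∩ ⋂ i : Fin d, {q : Fin (d + 1) → ℂ | ‖q i.succ‖ < R} := by
    ext q
    constructor
    · intro hq
      exact ⟨hq.1, mem_iInter.2 hq.2⟩
    · intro hq
      refine ⟨hq.1, fun i => ?_⟩
      have h4 := hq.2
      rw [mem_iInter] at h4
      exact h4 i
  rw [h3]
  exact h1.inter h2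

/-- `f` is bounded below near `0` -/
theorem f_lower (h : LCh w e k a R S P T z L Om f) (hf0 : f 0 ≠ 0) :
    ∃ ε > 0, ∀ q : Fin (d + 1) → ℂ, ‖q‖ < ε → ‖f 0‖ / 2 < ‖f q‖ := by
  have h0m : (0 : Fin (d + 1) → ℂ) ∈
      {q : Fin (d + 1) → ℂ | ‖q 0‖ < Real.exp (a / e) ∧ ∀ i : Fin d, ‖q i.succ‖ < R} :=
    ⟨by simpa using Real.exp_pos _, fun i => by simpa using h.hR⟩
  have hfc : ContinuousAt f 0 :=
    ((h.hf 0 h0m).differentiableAt ((isOpen_dom _ _).mem_nhds h0m)).continuousAt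
  have hn0 : 0 < ‖f 0‖ := norm_pos_iff.2 hf0
  have hev : ∀ᶠ q in 𝓝 (0 : Fin (d + 1) → ℂ), ‖f 0‖ / 2 < ‖f q‖ :=
    hfc.norm.eventually (lt_mem_nhds (by linarith))
  obtain ⟨ε0, hε0, hfb⟩ := Metric.eventually_nhds_iff.1 hev
  exact ⟨ε0, hε0, fun q hq => hfb (by rwa [dist_zero_right])⟩

/-- growth of the weight, pointwise -/
theorem pp_growth (h : LCh w e k a R S P T z L Om f) (hcy : Cy w (HB d a R) P Om)
    {R' ε b : ℝ} (hR : R' < R) (hε : 0 < ε) (hb : 0 < b) (hRε : R' < ε)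
    (hfb : ∀ q : Fin (d + 1) → ℂ, ‖q‖ < ε → b < ‖f q‖) :
    ∃ (C : ℝ) (N : ℕ) (s : ℝ), 0 < C ∧ ∀ (t : ℂ) (v : Fin d → ℂ), t.re ≤ s → |t.im| ≤ Real.pi →
      (∀ i, ‖v i‖ ≤ R') → t.re ≤ -1 ∧
        pp w S Om (Fin.cons t v : Fin (d + 1) → ℂ) + 2 * k / e * t.re ≤
          Real.log C + N * Real.log (-t.re) := by
  have he : (0 : ℝ) < e := by exact_mod_cast h.he
  have he1 : (1 : ℝ) ≤ e := by exact_mod_cast h.he
  obtain ⟨CE, hCE, hE⟩ := norm_EE_le h.nil
  obtain ⟨CH, mH, hCH, hH⟩ := hn_lower h.vhs hR Real.pi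
  set nn := Fintype.card ι with hnn
  set A1 : ℝ := |a| + 1 with hA1
  set A2 : ℝ := 2 + Real.pi with hA2
  have hpi := Real.pi_pos
  have hA1p : 0 < A1 := by positivity
  have hA2p : 0 < A2 := by positivity
  refine ⟨CH * A1 ^ mH * (CE * A2 ^ nn) ^ 2 * (1 / b) ^ 2, mH + 2 * nn,
    min (min (-1) (a - 1)) (e * (Real.log ε - 1)), by positivity, fun t v ht him hv => ?_⟩
  have ht1 : t.re ≤ -1 := ht.trans ((min_le_left _ _).trans (min_le_left _ _))
  have ht2 : t.re ≤ a - 1 := ht.trans ((min_le_left _ _).trans (min_le_right _ _))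
  have ht3 : t.re ≤ e * (Real.log ε - 1) := ht.trans (min_le_right _ _)
  refine ⟨ht1, ?_⟩
  set q' : Fin (d + 1) → ℂ := Fin.cons t v with hq'
  have hq'm : q' ∈ HB d a R := cons_mem (by linarith) fun i => (hv i).trans_lt hR
  have hs : 1 ≤ -t.re := by linarith
  -- lower bound of `f`
  have f1 : b < ‖f (Fin.cons (Complex.exp (t / e)) v)‖ := by
    refine hfb _ ?_
    rw [pi_norm_lt_iff hε]
    intro j
    refine Fin.cases ?_ (fun i => ?_) j
    · rw [Fin.cons_zero, Complex.norm_exp]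
      have e1 : (t / (e : ℂ)).re = t.re / e := Complex.div_natCast_re t e
      rw [e1, ← Real.lt_log_iff_exp_lt hε, div_lt_iff₀ he]
      nlinarith
    · rw [Fin.cons_succ]
      exact (hv i).trans_lt hRε
  have f2 := h.f_Om q' hq'm
  have e0 : q' 0 = t := by rw [hq', Fin.cons_zero]
  have e1 : Fin.tail q' = v := by rw [hq', Fin.tail_cons]
  rw [e0, e1] at f2
  have g3 : 1 + ‖-(t / (tpi * e))‖ ≤ A2 * (-t.re) := by
    have g1 : ‖-(t / (tpi * e))‖ ≤ ‖t‖ := by
      rw [norm_neg, norm_div, norm_mul, norm_tpi, Complex.norm_natCast]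
      refine div_le_self (norm_nonneg _) ?_
      have h3 := Real.pi_gt_three
      nlinarith
    have g2 : ‖t‖ ≤ -t.re + Real.pi := by
      have := Complex.norm_le_abs_re_add_abs_im t
      rw [abs_of_nonpos (by linarith : t.re ≤ 0)] at this
      linarith
    rw [hA2]
    nlinarith
  have f3 : ‖f (Fin.cons (Complex.exp (t / e)) v)‖ ≤ Real.exp (-(k * t.re / e)) *
      (CE * (A2 * (-t.re)) ^ nn * ‖Om q'‖) := by
    rw [f2, norm_smul, LCh.norm_exp_k]
    refine mul_le_mul_of_nonneg_left ((hE _ _).trans ?_) (Real.exp_pos _).le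
    gcongr
  have f4 := hH q' (by rw [e0]; exact ht2) (by rw [e0]; exact him)
    (fun i => by simpa [hq'] using hv i) (Om q')
  rw [e0] at f4
  have hbpos : 0 < VCalc_442.bn w S Om q' := bn_pos h.vhs hcy hq'm
  have hbe : (sf (hm w S P q') (Om q') (Om q')).re = VCalc_442.bn w S Om q' :=
    (h.vhs.bn_eq hcy.bot hq'm).symm
  rw [hbe] at f4
  show pp w S Om q' + 2 * k / e * t.re ≤ _
  unfold pp
  set bb := VCalc_442.bn w S Om q' with hbb
  have f5 : a - t.re ≤ A1 * (-t.re) := by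
    rw [hA1]
    have := le_abs_self a
    have := abs_nonneg a
    nlinarith
  have f6 : 0 ≤ a - t.re := by linarith
  have g2 : ‖Om q'‖ ^ 2 ≤ CH * (A1 * (-t.re)) ^ mH * bb := by
    refine f4.trans ?_
    gcongr
  have f7 : b ^ 2 ≤ Real.exp (-(k * t.re / e)) ^ 2 *
      ((CE * (A2 * (-t.re)) ^ nn) ^ 2 * (CH * (A1 * (-t.re)) ^ mH * bb)) := by
    have g1 : b ≤ Real.exp (-(k * t.re / e)) *
      (CE * (A2 * (-t.re)) ^ nn * ‖Om q'‖) := (f1.le).trans f3
    calc b ^ 2 ≤ (Real.exp (-(k * t.re / e)) *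
        (CE * (A2 * (-t.re)) ^ nn * ‖Om q'‖)) ^ 2 := pow_le_pow_left₀ hb.le g1 2
      _ = Real.exp (-(k * t.re / e)) ^ 2 *
        ((CE * (A2 * (-t.re)) ^ nn) ^ 2 * ‖Om q'‖ ^ 2) := by ring
      _ ≤ _ := by gcongr
  have g4 : Real.exp (-(k * t.re / e)) ^ 2 = Real.exp (-(2 * k / e * t.re)) := by
    rw [← Real.exp_nat_mul]
    congr 1
    push_cast
    ring
  rw [g4] at f7
  set c := 2 * (k : ℝ) / e * t.re with hc
  have g5 : b ^ 2 * (1 / b) ^ 2 = 1 := by
    rw [← mul_pow]
    have : b * (1 / b) = 1 := by field_simp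
    rw [this, one_pow]
  have g6 : Real.exp c * Real.exp (-c) = 1 := by
    rw [← Real.exp_add, add_neg_cancel, Real.exp_zero]
  have f8 : Real.exp c ≤
      (CH * A1 ^ mH * (CE * A2 ^ nn) ^ 2 * (1 / b) ^ 2) * (-t.re) ^ (mH + 2 * nn) * bb := by
    calc Real.exp c = Real.exp c * (1 / b) ^ 2 * b ^ 2 := by
          rw [mul_assoc, mul_comm ((1 / b) ^ 2), g5, mul_one]
      _ ≤ Real.exp c * (1 / b) ^ 2 * (Real.exp (-c) *
        ((CE * (A2 * (-t.re)) ^ nn) ^ 2 * (CH * (A1 * (-t.re)) ^ mH * bb))) :=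
          mul_le_mul_of_nonneg_left f7 (by positivity)
      _ = (Real.exp c * Real.exp (-c)) *
        ((CH * A1 ^ mH * (CE * A2 ^ nn) ^ 2 * (1 / b) ^ 2) *
          (-t.re) ^ (mH + 2 * nn) * bb) := by
          generalize (-t.re) = sT
          generalize Real.exp c = x1
          generalize Real.exp (-c) = x2
          generalize 1 / b = x3
          rw [mul_pow A2, mul_pow A1, pow_add, pow_mul]
          ring
      _ = _ := by rw [g6, one_mul]
  have f9 := Real.log_le_log (Real.exp_pos _) f8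
  have hCpos : 0 < CH * A1 ^ mH * (CE * A2 ^ nn) ^ 2 * (1 / b) ^ 2 := by positivity
  have hspos : 0 < (-t.re) ^ (mH + 2 * nn) := by positivity
  rw [Real.log_exp, Real.log_mul (mul_pos hCpos hspos).ne' hbpos.ne',
    Real.log_mul hCpos.ne' hspos.ne', Real.log_pow] at f9
  linarith

/-- a point with `|Im| ≤ π` -/
theorem pp_rep (h : LCh w e k a R S P T z L Om f) (hcy : Cy w (HB d a R) P Om) {v : Fin d → ℂ}
    (hv : ∀ i, ‖v i‖ < R) {t : ℂ} (ht : t.re < a) : ∃ t' : ℂ, t'.re = t.re ∧ |t'.im| ≤ Real.pi ∧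
      pp w S Om (Fin.cons t v : Fin (d + 1) → ℂ) = pp w S Om (Fin.cons t' v : Fin (d + 1) → ℂ) := by
  have hpi := Real.pi_pos
  have hre : ∀ (j : ℕ) (t : ℂ), (t + j * (2 * Real.pi * Complex.I)).re = t.re := by
    intro j t
    simp [Complex.mul_re, Complex.mul_im]
  have hshift : ∀ (j : ℕ) (t : ℂ), t.re < a → pp w S Om
      (Fin.cons (t + j * (2 * Real.pi * Complex.I)) v : Fin (d + 1) → ℂ) =
        pp w S Om (Fin.cons t v : Fin (d + 1) → ℂ) := by
    intro j
    induction j with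
    | zero => intro t _; simp
    | succ j ih =>
      intro t ht
      have h1 := pp_per h hcy (cons_mem (t := t + j * (2 * Real.pi * Complex.I))
        (by rw [hre]; exact ht) hv)
      have h2 : (Fin.cons (t + j * (2 * Real.pi * Complex.I)) v + Pi.single 0 tpi :
          Fin (d + 1) → ℂ) =
          Fin.cons (t + ((j + 1 : ℕ) : ℂ) * (2 * Real.pi * Complex.I)) v := by
        funext i
        refine Fin.cases ?_ (fun i => ?_) i
        · simp [tpi]; ring
        · simp
      rw [h2, ih t ht] at h1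
      exact h1
  set r : ℤ := round (t.im / (2 * Real.pi)) with hr
  have hround := abs_sub_round (t.im / (2 * Real.pi))
  rw [← hr] at hround
  set t' : ℂ := t - r * (2 * Real.pi * Complex.I) with ht'
  have hre' : t'.re = t.re := by
    rw [ht']; simp [Complex.mul_re, Complex.mul_im]
  have him' : t'.im = (t.im / (2 * Real.pi) - r) * (2 * Real.pi) := by
    rw [ht']
    simp only [Complex.sub_im, Complex.mul_im, Complex.mul_re, Complex.intCast_re,
      Complex.intCast_im, Complex.I_re, Complex.I_im, Complex.ofReal_re, Complex.ofReal_im,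
      Complex.re_ofNat, Complex.im_ofNat]
    field_simp
    ring
  refine ⟨t', hre', ?_, ?_⟩
  · rw [him', abs_mul, abs_of_pos (show (0 : ℝ) < 2 * Real.pi by positivity)]
    nlinarith
  · rcases le_total 0 r with hr0 | hr0
    · obtain ⟨j, hj⟩ := Int.eq_ofNat_of_zero_le hr0
      have h4 := hshift j t' (by rw [hre']; exact ht)
      rw [← h4]
      have e1 : t' + j * (2 * Real.pi * Complex.I) = t := by
        rw [ht', hj]
        push_cast
        ring
      rw [e1]
    · obtain ⟨j, hj⟩ := Int.eq_ofNat_of_zero_le (neg_nonneg.2 hr0)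
      have h4 := hshift j t ht
      rw [← h4]
      have e1 : t + j * (2 * Real.pi * Complex.I) = t' := by
        rw [ht']
        have : (r : ℂ) = -(j : ℂ) := by
          have : r = -(j : ℤ) := by omega
          rw [this]; push_cast; ring
        rw [this]
        ring
      rw [e1]

/-- the weight is bounded on the line `Re t = a - 1` -/
theorem pp_line (h : LCh w e k a R S P T z L Om f) (hcy : Cy w (HB d a R) P Om) {R' : ℝ}
    (hR'0 : 0 ≤ R') (hR' : R' < R) : ∃ C : ℝ, ∀ (t : ℂ) (v : Fin d → ℂ), t.re = a - 1 →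
      (∀ i, ‖v i‖ ≤ R') → pp w S Om (Fin.cons t v : Fin (d + 1) → ℂ) ≤ C := by
  have hpc : ContinuousOn (pp w S Om) (HB d a R) := (sm_pp h.vhs hcy).continuousOn
  set K : Set (ℂ × (Fin d → ℂ)) :=
    (({a - 1} : Set ℝ) ×ℂ Icc (-Real.pi) Real.pi) ×ˢ closedBall 0 R' with hK
  have hKc : IsCompact K :=
    (isCompact_singleton.reProdIm isCompact_Icc).prod (isCompact_closedBall _ _)
  have hcc : Continuous (fun p : ℂ × (Fin d → ℂ) => (Fin.cons p.1 p.2 : Fin (d + 1) → ℂ)) := by
    rw [continuous_pi_iff]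
    intro i
    refine Fin.cases ?_ (fun j => ?_) i
    · simp only [Fin.cons_zero]; exact continuous_fst
    · simp only [Fin.cons_succ]; exact (continuous_apply j).comp continuous_snd
  have hcont : ContinuousOn (fun p : ℂ × (Fin d → ℂ) =>
      pp w S Om (Fin.cons p.1 p.2 : Fin (d + 1) → ℂ)) K := by
    refine hpc.comp hcc.continuousOn ?_
    rintro ⟨t, v⟩ ⟨ht, hv⟩
    have h1 := (Complex.mem_reProdIm.1 ht).1
    rw [mem_singleton_iff] at h1
    simp only at h1
    refine cons_mem (by linarith) fun i => ?_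
    exact ((norm_le_pi_norm v i).trans (mem_closedBall_zero_iff.1 hv)).trans_lt hR'
  obtain ⟨C1, hC1⟩ := (hKc.image_of_continuousOn hcont).bddAbove
  refine ⟨C1, fun t v ht1 hv => ?_⟩
  obtain ⟨t', h1, h2, h3⟩ := pp_rep h hcy (fun i => (hv i).trans_lt hR')
    (show t.re < a by rw [ht1]; linarith)
  rw [h3]
  refine hC1 ⟨(t', v), ⟨?_, ?_⟩, rfl⟩
  · exact Complex.mem_reProdIm.2 ⟨h1.trans ht1, abs_le.1 h2⟩
  · rw [mem_closedBall_zero_iff, pi_norm_le_iff_of_nonneg hR'0]
    exact hv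

theorem pp_C2 (h : LCh w e k a R S P T z L Om f) (hcy : Cy w (HB d a R) P Om) {v : Fin d → ℂ}
    (hv : ∀ i, ‖v i‖ < R) {t : ℂ} (ht : t.re < a) : ContDiffAt ℝ 2
      (fun ξ : ℂ => pp w S Om (Fin.cons 0 v + ξ • (Pi.single 0 1 : Fin (d + 1) → ℂ))) t := by
  have h1 : (Fin.cons 0 v + t • (Pi.single 0 1 : Fin (d + 1) → ℂ)) ∈ HB d a R := by
    rw [← cons_decomp]; exact cons_mem ht hv
  have h2 : ContDiffAt ℝ 2 (pp w S Om)
      (Fin.cons 0 v + t • (Pi.single 0 1 : Fin (d + 1) → ℂ)) :=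
    ((sm_pp h.vhs hcy).contDiffAt (h.vhs.op.mem_nhds h1)).of_le ENat.LEInfty.out
  generalize (Pi.single 0 1 : Fin (d + 1) → ℂ) = u at h2 ⊢
  exact ContDiffAt.comp (g := pp w S Om) (f := fun s : ℂ => (Fin.cons 0 v : Fin (d + 1) → ℂ) + s • u)
    t h2 (MaxP_25.contDiff_cline (Fin.cons 0 v : Fin (d + 1) → ℂ) u).contDiffAt

/-- **the weight of `L` is bounded above near a point of the divisor** -/
theorem pp_bdd (h : LCh w e k a R S P T z L Om f) (hcy : Cy w (HB d a R) P Om) (hf0 : f 0 ≠ 0) :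
    ∃ ε > 0, ∃ C : ℝ, ∀ q ∈ HB d a R, (q 0).re ≤ a - 1 → (∀ i : Fin d, ‖q i.succ‖ ≤ ε) →
      pp w S Om q + 2 * k / e * (q 0).re ≤ C := by
  have hR := h.hR
  have hn0 : 0 < ‖f 0‖ := norm_pos_iff.2 hf0
  obtain ⟨ε0, hε0, hfb⟩ := f_lower h hf0
  set ε : ℝ := min (ε0 / 2) (R / 2) with hε
  have hεpos : 0 < ε := lt_min (by positivity) (by positivity)
  have hεR : ε < R := (min_le_right _ _).trans_lt (by linarith)
  have hεε : ε < ε0 := (min_le_left _ _).trans_lt (by linarith)
  obtain ⟨C1, hC1⟩ := pp_line h hcy hεpos.le hεR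
  obtain ⟨C2, N2, s2, hC2, hg⟩ := pp_growth h hcy hεR hε0 (half_pos hn0) hεε hfb
  set c : ℝ := 2 * k / e with hc
  refine ⟨ε, hεpos, C1 + c * (a - 1), fun q hq hqre hqv => ?_⟩
  set v : Fin d → ℂ := Fin.tail q with hv
  have hvε : ∀ i, ‖v i‖ ≤ ε := fun i => hqv i
  have hvR : ∀ i, ‖v i‖ < R := fun i => (hqv i).trans_lt hεR
  have hqe : (Fin.cons (q 0) v : Fin (d + 1) → ℂ) = q := Fin.cons_self_tail q
  set U : ℂ → ℝ := fun t => pp w S Om (Fin.cons t v : Fin (d + 1) → ℂ) + c * t.re with hU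
  have hUe : U = (fun ξ : ℂ => pp w S Om (Fin.cons 0 v +
      ξ • (Pi.single 0 1 : Fin (d + 1) → ℂ))) + fun ξ : ℂ => c * ξ.re := by
    funext t
    simp only [hU, Pi.add_apply, ← cons_decomp]
  have key : ∀ t : ℂ, t.re ≤ a - 1 → U t ≤ C1 + c * (a - 1) := by
    refine half_max (a := a) (by linarith) (U := U) ?_ ?_ ?_ ?_ ?_
    · intro t ht
      rw [hUe]
      exact (pp_C2 h hcy hvR ht).add (contDiff_const.mul Complex.reCLM.contDiff).contDiffAt
    · intro t ht
      have h1 : (Fin.cons 0 v + t • (Pi.single 0 1 : Fin (d + 1) → ℂ)) ∈ HB d a R := by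
        rw [← cons_decomp]; exact cons_mem ht hvR
      have h2 := lap_nonneg h.vhs hcy (x := (Fin.cons 0 v : Fin (d + 1) → ℂ))
        (v := (Pi.single 0 1 : Fin (d + 1) → ℂ)) (ζ := t) h1
      have h3 := (pp_C2 h hcy hvR ht).laplacian_add (f₂ := fun ξ : ℂ => c * ξ.re)
        (contDiff_const.mul Complex.reCLM.contDiff).contDiffAt
      rw [hUe]
      refine le_of_le_of_eq ?_ h3.symm
      rw [lap_re, add_zero]
      exact h2
    · intro t ht
      have h1 := pp_per h hcy (cons_mem ht hvR)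
      have h2 : (Fin.cons t v + Pi.single 0 tpi : Fin (d + 1) → ℂ) =
          Fin.cons (t + 2 * Real.pi * Complex.I) v := by
        funext j
        refine Fin.cases ?_ (fun i => ?_) j
        · simp [tpi]
        · simp
      rw [h2] at h1
      simp only [hU]
      rw [h1]
      congr 2
      simp [Complex.mul_re, Complex.mul_im]
    · -- growth
      intro ε' hε'
      have hlim : Tendsto (fun x : ℝ => (Real.log C2 + N2 * Real.log x) / x) atTop (𝓝 0) := by
        have h1 : Tendsto (fun x : ℝ => Real.log C2 / x) atTop (𝓝 0) :=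
          tendsto_const_nhds.div_atTop tendsto_id
        have h2 : Tendsto (fun x : ℝ => Real.log x / x) atTop (𝓝 0) :=
          Real.isLittleO_log_id_atTop.tendsto_div_nhds_zero
        have h3 := h1.add (h2.const_mul (N2 : ℝ))
        rw [mul_zero, add_zero] at h3
        refine h3.congr fun x => ?_
        ring
      obtain ⟨X, hX⟩ := eventually_atTop.1 (hlim.eventually (gt_mem_nhds hε'))
      refine ⟨min s2 (-X), fun t ht him => ?_⟩
      obtain ⟨g1, g2⟩ := hg t v (ht.trans (min_le_left _ _)) him hvε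
      have g3 := hX (-t.re) (by linarith [ht.trans (min_le_right _ _)])
      have hpos : 0 < -t.re := by linarith
      rw [div_lt_iff₀ hpos] at g3
      exact g2.trans (by linarith)
    · -- the boundary
      intro t ht
      have := hC1 t v ht hvε
      simp only [hU]
      rw [ht]
      linarith
  have h5 := key (q 0) hqre
  simp only [hU] at h5
  rw [hqe] at h5
  exact h5

end wt

end Crest.Agent.R276.GrAs3_857
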