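import Crest.Agent.R276.GrAs2_857
import Crest.Agent.R276.GrAs3_857
import Crest.Agent.R276.GrH_217

/-!
# R276, leaf COUNT-GR, final assembly, part 4 (helper857): `Gen` with `p = 1`

* `psI_bdd`: the weight of `L` is bounded above near every point of the divisor;
* `gen_one`: `Gen D φ (e n ψ) (n k) 1`.
-/

set_option autoImplicit false
set_option linter.unusedSectionVars false

noncomputable section

open Set Filter Topology Metric MeasureTheory Matrix
open Crest.Agent.R271.Ho51 Crest.Agent.R276.Ipc735 Crest.Agent.R276.CntDefs_857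
open Crest.Agent.R276.LftDefs_327 (WD LD)

namespace Crest.Agent.R276.GrAs4_857

/-- a divisor is not empty -/
theorem nonempty_of_cov {d : ℕ} {E : Type*} [TopologicalSpace E] [RDom d E] (C : PCov d E) :
    Nonempty E := by
  obtain ⟨z, hz⟩ : ∃ z : Fin d → ℂ, MvPolynomial.eval z C.h ≠ 0 := by
    by_contra hcon
    push Not at hcon
    exact C.h0 (MvPolynomial.funext fun z => by rw [hcon z, map_zero])
  have hopen : IsOpen {w : Fin d → ℂ | MvPolynomial.eval w C.h ≠ 0} :=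
    isOpen_ne_fun (MvPolynomial.continuous_eval C.h) continuous_const
  obtain ⟨r, hr, hb⟩ := Metric.isOpen_iff.1 hopen z hz
  obtain ⟨s, hs, -, -⟩ := C.ev z r hr fun w hw => hb hw
  have i : Fin C.k := ⟨0, C.hk⟩
  obtain ⟨h1, h2⟩ := hs i
  have h3 : z ∈ (s i).target := by rw [h2]; exact mem_ball_self hr
  exact ⟨(s i).symm z⟩

section

variable {ι : Type*} [Fintype ι] [DecidableEq ι] {d : ℕ}
variable {M E : Type*} [TopologicalSpace M] [RDom (d + 1) M] [MeasurableSpace M]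
    {μ : Measure M} [TopologicalSpace E] [RDom d E]
variable {D : DChart M E μ} {w e : ℕ} {k : ℤ} {ψ₀ : M → ℝ}

open GrH_217 (LFam)

/-- **the weight of `L` is bounded above near every point of the divisor** -/
theorem psI_bdd (F : LFam ι D w e k ψ₀)
    (hcy : ∀ y, BdNf4_651.Cy w (GrB_217.HB d (Real.log (D.r y)) (D.r y)) (F.P y) (F.Om y)) (n : ℕ)
    (y : E) : ∃ ε > 0, ∃ C : ℝ, ∀ q ∈ PS d ε,
      D.psI (fun x => ((e * n : ℕ) : ℝ) * ψ₀ x) (n * k) y q ≤ C := by
  have h := F.lch y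
  have hr : 0 < D.r y := GrH_217.r_pos D y
  obtain ⟨ε1, hε1, C1, hC1⟩ := GrAs3_857.pp_bdd h (hcy y) (F.f0 y)
  have he : (0 : ℝ) < e := by exact_mod_cast h.he
  refine ⟨min ε1 (min (D.r y) (D.r y * Real.exp (-1))), by positivity,
    ((e * n : ℕ) : ℝ) * C1, fun q hq => ?_⟩
  have hq0 : 0 < ‖q 0‖ := norm_pos_iff.2 hq.1
  set q' : Fin (d + 1) → ℂ := Fin.cons (Complex.log (q 0)) (Fin.tail q) with hq'
  have e0 : q' 0 = Complex.log (q 0) := rfl
  have e1 : Complex.exp (q' 0) = q 0 := by rw [e0, Complex.exp_log hq.1]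
  have e2 : (q' 0).re = Real.log ‖q 0‖ := by rw [e0, Complex.log_re]
  have e3 : ∀ i : Fin d, q' i.succ = q i.succ := fun i => rfl
  have b1 : ‖q 0‖ < D.r y * Real.exp (-1) :=
    (hq.2 0).trans_le ((min_le_right _ _).trans (min_le_right _ _))
  have b2 : (q' 0).re ≤ Real.log (D.r y) - 1 := by
    rw [e2]
    have h1 := Real.log_le_log hq0 b1.le
    rw [Real.log_mul hr.ne' (Real.exp_pos _).ne', Real.log_exp] at h1
    linarith
  have hmem : q' ∈ GrB_217.HB d (Real.log (D.r y)) (D.r y) := by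
    refine ⟨by linarith, fun i => ?_⟩
    rw [e3]
    exact (hq.2 i.succ).trans_le ((min_le_right _ _).trans (min_le_left _ _))
  have hle := hC1 q' hmem b2 fun i => by
    rw [e3]
    exact ((hq.2 i.succ).trans_le (min_le_left _ _)).le
  have hpsi := F.psi y q' hmem
  have hqq : (Fin.cons (Complex.exp (q' 0)) (Fin.tail q') : Fin (d + 1) → ℂ) = q := by
    rw [e1, hq', Fin.tail_cons, Fin.cons_self_tail]
  rw [hqq] at hpsi
  have hbn := h.vhs.bn_eq (hcy y).bot hmem
  have hpp : BdNf4_651.pp w (F.S y) (F.Om y) q' = ψ₀ (D.σ y q) := by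
    unfold BdNf4_651.pp
    have h6 : VCalc_442.bn w (F.S y) (F.Om y) q' = Real.exp (-ψ₀ (D.σ y q)) := hbn.trans hpsi.symm
    rw [h6, Real.log_exp, neg_neg]
  rw [hpp, e2] at hle
  show ((e * n : ℕ) : ℝ) * ψ₀ (D.σ y q) + ((n * k : ℤ) : ℝ) * Real.log (‖q 0‖ ^ 2) ≤ _
  have hlog : Real.log (‖q 0‖ ^ 2) = 2 * Real.log ‖q 0‖ := by
    rw [Real.log_pow]; push_cast; ring
  rw [hlog]
  have hen : (0 : ℝ) ≤ ((e * n : ℕ) : ℝ) := Nat.cast_nonneg _
  have h5 := mul_le_mul_of_nonneg_left hle hen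
  refine le_trans (le_of_eq ?_) h5
  push_cast
  field_simp

end

section

variable {ι' : Type*} [Fintype ι'] [DecidableEq ι']
variable {d m N w : ℕ} {M E X : Type*} [TopologicalSpace M] [RDom (d + 1) M]
    [MeasurableSpace M] {μ : Measure M} [TopologicalSpace E] [RDom d E] [TopologicalSpace X]
    [RDom m X] {D : DChart M E μ} {V : VHS m X N w} {om : X → Fin N → ℂ} {u : X → ℂ} {M0 : ℕ}
    {f : X → M} {ι : Fin (d + 1) → Fin m} {φ ψ : M → ℝ} {e : ℕ} {k : ℤ}

open GrH_217 (LFam)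

/-- **`Gen` with `p = 1`** -/
theorem gen_one (h : WD V om u M0 f ι φ ψ) (l : LD D V om u f) (F : LFam ι' D w e k ψ)
    (hcy : ∀ y, BdNf4_651.Cy w (GrB_217.HB d (Real.log (D.r y)) (D.r y)) (F.P y) (F.Om y)) (n : ℕ) :
    Gen D φ (fun x => ((e * n : ℕ) : ℝ) * ψ x) (n * k) 1 := by
  have : Nonempty E := nonempty_of_cov D.cov
  refine ⟨univ, isOpen_univ, univ_nonempty, fun y _ => ?_⟩
  obtain ⟨C1, h1⟩ := GrAs2_857.phW_gen h l y
  obtain ⟨ε, hε, C2, h2⟩ := psI_bdd F hcy n y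
  have hr : 0 < D.r y := GrH_217.r_pos D y
  refine ⟨min (D.r y / 2) ε, max C1 C2, by positivity, fun q hq => ⟨?_, ?_⟩⟩
  · refine (h1 q ⟨hq.1, fun i => (hq.2 i).trans_le (min_le_left _ _)⟩).trans ?_
    have := le_max_left C1 C2
    linarith
  · exact (h2 q ⟨hq.1, fun i => (hq.2 i).trans_le (min_le_right _ _)⟩).trans (le_max_right _ _)

end

end Crest.Agent.R276.GrAs4_857
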