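import Crest.Agent.R276.VCalcK_442
import Crest.Agent.R276.EndTh_659

/-!
# R276, leaf COUNT-GR (helper606), part B: upper bound of `det g` on the half space

`h : VHS w (HS d r) S P` : the variation of Hodge structure in logarithmic coordinates
`z ↦ (exp (z 0), z 1, .., z d)` of a punctured polydisc.  The Gram determinant of the coordinate frame
is bounded by the Ahlfors-Schwarz lemma and Hadamard's inequality.
-/

set_option autoImplicit false

open Set Filter Topology Matrix MeasureTheory
open scoped ContDiff ComplexConjugate ComplexOrder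

namespace Crest.Agent.R276.GrB_606

open Crest.Agent.R276.VCalc_442

/-- half space (logarithmic coordinates of the punctured polydisc) -/
def HS (d : ℕ) (r : ℝ) : Set (Fin (d + 1) → ℂ) :=
  {q | (q 0).re < Real.log r ∧ ∀ i : Fin d, ‖q i.succ‖ < r}

theorem isOpen_HS (d : ℕ) (r : ℝ) : IsOpen (HS d r) := by
  have h1 : IsOpen {q : Fin (d + 1) → ℂ | (q 0).re < Real.log r} :=
    isOpen_lt (Complex.continuous_re.comp (continuous_apply 0)) continuous_const
  have h2 : IsOpen {q : Fin (d + 1) → ℂ | ∀ i : Fin d, ‖q i.succ‖ < r} := by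
    simp only [ofPred_forall]
    exact isOpen_iInter_of_finite fun i =>
      isOpen_lt (continuous_norm.comp (continuous_apply i.succ)) continuous_const
  exact h1.inter h2

variable {ι : Type*} [Fintype ι] [DecidableEq ι]
variable {w d : ℕ} {r : ℝ} {S : Matrix ι ι ℂ} {P : ℕ → (Fin (d + 1) → ℂ) → Matrix ι ι ℂ}

theorem gden_le_line {X : Type*} [NormedAddCommGroup X] [NormedSpace ℂ X] {U : Set X}
    {P : ℕ → X → Matrix ι ι ℂ} (h : VHS w U S P) {x v : X} {R : ℝ} (hR : 0 < R)
    (hm : ∀ t : ℂ, ‖t‖ < R → x + t • v ∈ U) : gden w P v x ≤ EndTh_659.cst ι / R ^ 2 :=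
  EndTh_659.gg_le_line h hR hm

/-- the density in the direction of the logarithmic coordinate -/
theorem gden_zero_le (h : VHS w (HS d r) S P) {z : Fin (d + 1) → ℂ} (hz : z ∈ HS d r) :
    gden w P (Pi.single 0 1) z ≤ EndTh_659.cst ι / (Real.log r - (z 0).re) ^ 2 := by
  refine gden_le_line h (by linarith [hz.1]) fun t ht => ⟨?_, fun i => ?_⟩
  · have h1 : (z + t • (Pi.single 0 1 : Fin (d + 1) → ℂ)) 0 = z 0 + t := by simp
    rw [h1, Complex.add_re]
    linarith [(Complex.re_le_norm t)]
  · have h1 : (z + t • (Pi.single 0 1 : Fin (d + 1) → ℂ)) i.succ = z i.succ := by simp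
    rw [h1]
    exact hz.2 i

/-- the density in the other directions -/
theorem gden_succ_le (h : VHS w (HS d r) S P) {z : Fin (d + 1) → ℂ} (hz : z ∈ HS d r) (i : Fin d)
    {δ : ℝ} (hδ : 0 < δ) (hz2 : ‖z i.succ‖ ≤ r - δ) :
    gden w P (Pi.single i.succ 1) z ≤ EndTh_659.cst ι / δ ^ 2 := by
  refine gden_le_line h hδ fun t ht => ⟨?_, fun j => ?_⟩
  · have h1 : (z + t • (Pi.single i.succ 1 : Fin (d + 1) → ℂ)) 0 = z 0 := by
      simp
    rw [h1]
    exact hz.1
  · rcases eq_or_ne j i with rfl | hji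
    · have h1 : (z + t • (Pi.single j.succ 1 : Fin (d + 1) → ℂ)) j.succ = z j.succ + t := by simp
      rw [h1]
      linarith [norm_add_le (z j.succ) t]
    · have h1 : (z + t • (Pi.single i.succ 1 : Fin (d + 1) → ℂ)) j.succ = z j.succ := by
        have : j.succ ≠ i.succ := fun h => hji (Fin.succ_injective _ h)
        simp [this]
      rw [h1]
      exact hz.2 j

/-- the coordinate frame -/
noncomputable def fr (d : ℕ) (i : Fin (d + 1)) : Fin (d + 1) → ℂ := Pi.single i 1

/-- **upper bound of the Gram determinant** in logarithmic coordinates -/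
theorem det_le (h : VHS w (HS d r) S P) {z : Fin (d + 1) → ℂ} (hz : z ∈ HS d r) {δ : ℝ}
    (hδ : 0 < δ) (hz2 : ∀ i : Fin d, ‖z i.succ‖ ≤ r - δ) :
    (gm w P (fr d) z).det.re ≤ EndTh_659.cst ι / (Real.log r - (z 0).re) ^ 2 *
      (EndTh_659.cst ι / δ ^ 2) ^ d := by
  refine (h.det_le hz (fr d)).trans ?_
  rw [Fin.prod_univ_succ]
  refine mul_le_mul (gden_zero_le h hz) ?_
    (Finset.prod_nonneg fun i _ => h.gden_nonneg hz _) ?_
  · refine (Finset.prod_le_prod (fun i _ => h.gden_nonneg hz _)
      (fun i _ => gden_succ_le h hz i hδ (hz2 i))).trans ?_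
    rw [Finset.prod_const, Finset.card_univ, Fintype.card_fin]
  · have := EndTh_659.cst_pos ι
    positivity

end Crest.Agent.R276.GrB_606
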