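import Crest.Agent.R276.BdNf5_651
import Crest.Agent.R276.GrB_606
import Crest.Agent.R276.LftDefs_327
import Crest.Agent.R276.CntB_857

/-!
# R276, leaf COUNT-GR, final assembly, part 1 (helper857): the canonical weight in boundary charts

For a flat frame `n` along `χ : Ω → X` (`Ω ⊆ ℂ^κ`), with `f : X → M` the projection on the
coordinates `ι` along which `V` is not flat:

* `gg_eq`  : the Hodge metric of the pulled back variation in terms of `gV`;
* `det_gm` : `det gm = gdet · |det D (cp ∘ f ∘ χ)|²`.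
-/

set_option autoImplicit false
set_option linter.unusedSectionVars false

noncomputable section

open Set Filter Topology Matrix Metric ComplexConjugate MeasureTheory
open Crest.Agent.R271.Ho51
open Crest.Agent.R276.Ipc735
open Crest.Agent.R276.BdNf1_651
open Crest.Agent.R276.BdNf2_651
open Crest.Agent.R276.BdNf3_651
open Crest.Agent.R276.BdNf4_651
open Crest.Agent.R276.CntDefs_857
open Crest.Agent.R276.VLevi_327 (CYL gdet gV dMb mB_conj)
open Crest.Agent.R276.DescC_327 (Prj)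
open Crest.Agent.R276.DescF_327 (Fl)
open scoped ContDiff

namespace Crest.Agent.R276.GrAs1_857

open Ipc735 (hq)

section gen

variable {N w : ℕ} {m : ℕ} {X : Type*} [TopologicalSpace X] [RDom m X]
variable {Y : Type*} [NormedAddCommGroup Y] [NormedSpace ℂ Y] [FiniteDimensional ℂ Y]
variable {V : VHS m X N w} {Ω : Set Y} {χ : Y → X} (n : Fr V Ω χ)

/-- the adjoint of the Higgs field in the flat frame -/
lemma mB_E (h : HM Ω χ) {z : Y} (hz : z ∈ Ω) (v : Y) :
    VCalc_442.mB n.E v z = cm (n.g z)⁻¹ *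
      (∑ j, conj ((fderiv ℂ (fun y => (cp (χ y) : Fin m → ℂ)) z v) j) • dMb V.P V.E j (χ z)) *
      cm (n.g z) := by
  have hsm : ∀ i j, DifferentiableAt ℝ
      (fun u => (fun c => lM V.P V.E (χ z) ((ch (χ z)).symm c)) (cp (χ u)) i j) z := fun i j =>
    (Fr.lM_comp (V := V) h hz i j).differentiableAt (by simp)
  have h2 : VCalc_442.mB n.E v z =
      VCalc_442.mB (fun u => cm (n.g z)⁻¹ * (fun c => lM V.P V.E (χ z) ((ch (χ z)).symm c))
        (cp (χ u)) * cm (n.g z)) v z := by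
    ext i j
    simp only [VCalc_442.mB, Matrix.of_apply]
    refine VCalc_442.dB_congr ?_ v
    filter_upwards [n.E_chart h hz] with u hu
    rw [hu]
  rw [h2, mB_conj _ _ hsm]
  congr 2
  ext i k
  simp only [VCalc_442.mB, Matrix.of_apply, Matrix.sum_apply, Matrix.smul_apply, dMb, smul_eq_mul]
  have h3 := EndTh_659.dB_comp (F := fun c => lM V.P V.E (χ z) ((ch (χ z)).symm c) i k)
    (f := fun y => (cp (χ y) : Fin m → ℂ)) (y := z)
    ((Fr.lM_smooth (V := V) (χ z) i k).differentiableAt (by simp))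
    ((Fr.analyticAt_cp h hz).differentiableAt) v
  rw [h3, VLevi_327.dB_sum_dir]
  refine Finset.sum_congr rfl fun j _ => ?_
  rw [db_eq_dB j _ (isCh_ch (χ z)) (mem_ch (χ z))]
  rfl

lemma grOp_ev (h : HM Ω χ) {z : Y} (hz : z ∈ Ω) :
    VCalc_442.grOp w (fun p z => hq w (n.E z) p) =ᶠ[𝓝 z] n.E := by
  filter_upwards [h.op.mem_nhds hz] with y hy
  exact grOp_hq (n.hs hy)

lemma th_eq (h : HM Ω χ) {z : Y} (hz : z ∈ Ω) (v : Y) :
    VCalc_442.th w (fun p z => hq w (n.E z) p) v z = cm (n.g z)⁻¹ *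
      (∑ j, (fderiv ℂ (fun y => (cp (χ y) : Fin m → ℂ)) z v) j • dM V.P V.E j (χ z)) *
      cm (n.g z) := by
  rw [← n.mW_E h hz v]
  unfold VCalc_442.th
  ext i j
  simp only [VCalc_442.mW, Matrix.of_apply]
  refine VCalc_442.dW_congr ?_ v
  filter_upwards [grOp_ev n h hz] with y hy
  rw [hy]

lemma thb_eq (h : HM Ω χ) {z : Y} (hz : z ∈ Ω) (v : Y) :
    VCalc_442.thb w (fun p z => hq w (n.E z) p) v z = cm (n.g z)⁻¹ *
      (∑ j, conj ((fderiv ℂ (fun y => (cp (χ y) : Fin m → ℂ)) z v) j) •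
        (-(dMb V.P V.E j (χ z)))) * cm (n.g z) := by
  have h1 : VCalc_442.thb w (fun p z => hq w (n.E z) p) v z = -VCalc_442.mB n.E v z := by
    unfold VCalc_442.thb
    congr 1
    ext i j
    simp only [VCalc_442.mB, Matrix.of_apply]
    refine VCalc_442.dB_congr ?_ v
    filter_upwards [grOp_ev n h hz] with y hy
    rw [hy]
  rw [h1, mB_E n h hz v]
  simp only [smul_neg, Finset.sum_neg_distrib, mul_neg, neg_mul]

/-- the Hodge metric of the pull back -/
theorem gg_eq (h : HM Ω χ) {z : Y} (hz : z ∈ Ω) (u v : Y) :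
    VCalc_442.gg w (fun p z => hq w (n.E z) p) u v z =
      ∑ i, ∑ j, (fderiv ℂ (fun y => (cp (χ y) : Fin m → ℂ)) z u) i * gV V i j (χ z) *
        conj ((fderiv ℂ (fun y => (cp (χ y) : Fin m → ℂ)) z v) j) := by
  unfold VCalc_442.gg
  rw [th_eq n h hz, thb_eq n h hz]
  set a := fderiv ℂ (fun y => (cp (χ y) : Fin m → ℂ)) z u with ha
  set b := fderiv ℂ (fun y => (cp (χ y) : Fin m → ℂ)) z v with hb
  have h4 : cm (n.g z) * cm (n.g z)⁻¹ = 1 := cm_mul_cm_inv _
  set A := ∑ j, a j • dM V.P V.E j (χ z) with hA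
  set B := ∑ j, conj (b j) • (-(dMb V.P V.E j (χ z))) with hB
  have h5 : (cm (n.g z)⁻¹ * A * cm (n.g z) * (cm (n.g z)⁻¹ * B * cm (n.g z))).trace =
      (A * B).trace := by
    have h6 : cm (n.g z)⁻¹ * A * cm (n.g z) * (cm (n.g z)⁻¹ * B * cm (n.g z)) =
        cm (n.g z)⁻¹ * (A * B * cm (n.g z)) := by
      calc cm (n.g z)⁻¹ * A * cm (n.g z) * (cm (n.g z)⁻¹ * B * cm (n.g z))
          = cm (n.g z)⁻¹ * A * (cm (n.g z) * cm (n.g z)⁻¹) * B * cm (n.g z) := by noncomm_ring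
        _ = _ := by rw [h4]; noncomm_ring
    rw [h6, Matrix.trace_mul_comm, Matrix.mul_assoc, h4, Matrix.mul_one]
  rw [h5, hA, hB, Finset.sum_mul, Matrix.trace_sum]
  refine Finset.sum_congr rfl fun i _ => ?_
  rw [Finset.mul_sum, Matrix.trace_sum]
  refine Finset.sum_congr rfl fun j _ => ?_
  rw [Matrix.smul_mul, Matrix.mul_smul, Matrix.trace_smul, Matrix.trace_smul, smul_eq_mul,
    smul_eq_mul]
  unfold gV
  ring

end gen

/-! ### the Gram matrix for the coordinates `ι` -/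

section iota

variable {N w : ℕ} {m : ℕ} {X : Type*} [TopologicalSpace X] [RDom m X] (V : VHS m X N w)

lemma gV_swap (i j : Fin m) (x : X) : gV V j i x = star (gV V i j x) := by
  obtain ⟨U, P', -, hzU, -, -, -, -, hv, -, -, -, hg⟩ := VLevi_327.gV_local V x
  have h1 := hg _ hzU i j
  have h2 := hg _ hzU j i
  have h3 : (ch x).symm (cp x) = x := (isCh_ch x).symm_cp (mem_ch x)
  rw [h3] at h1 h2
  rw [← h1, ← h2]
  exact hv.gg_swap hzU _ _

variable {V} {r : ℕ} {ι : Fin r → Fin m}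

lemma gV_zero_left (hfl : Fl V ι) {i : Fin m} (hi : i ∉ Set.range ι) (j : Fin m) (x : X) :
    gV V i j x = 0 := by
  unfold gV
  rw [hfl x i fun k hk => hi ⟨k, hk⟩, Matrix.zero_mul, Matrix.trace_zero]

lemma gV_zero_right (hfl : Fl V ι) {j : Fin m} (hj : j ∉ Set.range ι) (i : Fin m) (x : X) :
    gV V i j x = 0 := by
  rw [gV_swap, gV_zero_left hfl hj, star_zero]

variable {Y : Type*} [NormedAddCommGroup Y] [NormedSpace ℂ Y] [FiniteDimensional ℂ Y]
variable {Ω : Set Y} {χ : Y → X} (n : Fr V Ω χ)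

/-- the Gram matrix of the pull back -/
theorem gm_eq (h : HM Ω χ) (hfl : Fl V ι) (hι : Function.Injective ι) {z : Y} (hz : z ∈ Ω)
    (e : Fin r → Y) :
    VCalc_442.gm w (fun p z => hq w (n.E z) p) e z =
      (Matrix.of fun i k => (fderiv ℂ (fun y => (cp (χ y) : Fin m → ℂ)) z (e i)) (ι k)) *
      (Matrix.of fun k l => gV V (ι k) (ι l) (χ z)) *
      (Matrix.of fun i k => (fderiv ℂ (fun y => (cp (χ y) : Fin m → ℂ)) z (e i)) (ι k))ᴴ := by
  ext i j
  rw [VCalc_442.gm, Matrix.of_apply, gg_eq n h hz]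
  set a := fderiv ℂ (fun y => (cp (χ y) : Fin m → ℂ)) z (e i) with ha
  set b := fderiv ℂ (fun y => (cp (χ y) : Fin m → ℂ)) z (e j) with hb
  have e1 : ∑ i, ∑ j, a i * gV V i j (χ z) * conj (b j) =
      ∑ k, ∑ l, a (ι k) * gV V (ι k) (ι l) (χ z) * conj (b (ι l)) := by
    symm
    refine Fintype.sum_of_injective ι hι _ _ ?_ ?_
    · intro i hi
      refine Finset.sum_eq_zero fun j _ => ?_
      rw [gV_zero_left hfl hi, mul_zero, zero_mul]
    · intro k
      refine Fintype.sum_of_injective ι hι _ _ ?_ ?_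
      · intro j hj
        rw [gV_zero_right hfl hj, mul_zero, zero_mul]
      · intro l; rfl
  rw [e1, Matrix.mul_apply]
  simp only [Matrix.mul_apply, Matrix.of_apply, Matrix.conjTranspose_apply, Finset.sum_mul]
  rw [Finset.sum_comm]
  rfl

/-- **the Gram determinant** -/
theorem det_gm (h : HM Ω χ) (hfl : Fl V ι) (hι : Function.Injective ι) {z : Y} (hz : z ∈ Ω)
    (e : Fin r → Y) :
    (VCalc_442.gm w (fun p z => hq w (n.E z) p) e z).det.re =
      ‖(Matrix.of fun i k => (fderiv ℂ (fun y => (cp (χ y) : Fin m → ℂ)) z (e i)) (ι k)).det‖ ^ 2 *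
        gdet V ι (χ z) := by
  rw [gm_eq n h hfl hι hz, Matrix.det_mul, Matrix.det_mul, Matrix.det_conjTranspose]
  set A := (Matrix.of fun i k => (fderiv ℂ (fun y => (cp (χ y) : Fin m → ℂ)) z (e i)) (ι k)).det
  unfold gdet
  set G := (Matrix.of fun k l => gV V (ι k) (ι l) (χ z)).det
  have e1 : A * G * star A = ((‖A‖ ^ 2 : ℝ) : ℂ) * G := by
    have e2 : A * star A = ((‖A‖ ^ 2 : ℝ) : ℂ) := by
      rw [Complex.star_def, Complex.mul_conj, Complex.normSq_eq_norm_sq]
    rw [← e2]; ring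
  rw [e1, Complex.re_ofReal_mul]

end iota

/-! ### boundary charts -/

section chart

variable {d : ℕ}

/-- the Jacobian determinant of `ex` -/
lemma det_ex (z : Fin (d + 1) → ℂ) :
    (Matrix.of fun i k => (fderiv ℂ (ex : (Fin (d + 1) → ℂ) → Fin (d + 1) → ℂ) z
      (GrB_606.fr d i)) k).det = ex z 0 := by
  have h1 : ∀ i k, (fderiv ℂ (ex : (Fin (d + 1) → ℂ) → Fin (d + 1) → ℂ) z
      (GrB_606.fr d i)) k = if i = k then (if k = 0 then Complex.exp (z 0) else 1) else 0 := by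
    intro i k
    have h2 : (fderiv ℂ (ex : (Fin (d + 1) → ℂ) → Fin (d + 1) → ℂ) z (GrB_606.fr d i)) k =
        fderiv ℂ (fun z : Fin (d + 1) → ℂ => ex z k) z (GrB_606.fr d i) := by
      rw [fderiv_pi (fun i => differentiableAt_pi.1 (differentiable_ex z) i)]
      rfl
    rw [h2]
    refine Fin.cases ?_ (fun k => ?_) k
    · have h3 : HasFDerivAt (fun z : Fin (d + 1) → ℂ => ex z 0)
          (Complex.exp (z 0) • ContinuousLinearMap.proj (R := ℂ) (0 : Fin (d + 1))) z :=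
        HasFDerivAt.cexp (hasFDerivAt_apply 0 z)
      rw [h3.fderiv]
      simp only [_root_.smul_apply, ContinuousLinearMap.proj_apply, GrB_606.fr, smul_eq_mul,
        if_true]
      by_cases hi : i = 0
      · rw [hi]; simp
      · rw [if_neg hi, Pi.single_eq_of_ne (Ne.symm hi), mul_zero]
    · have h3 : HasFDerivAt (fun z : Fin (d + 1) → ℂ => ex z k.succ)
          (ContinuousLinearMap.proj (R := ℂ) (k.succ : Fin (d + 1))) z :=
        hasFDerivAt_apply k.succ z
      rw [h3.fderiv]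
      simp only [ContinuousLinearMap.proj_apply, GrB_606.fr, Fin.succ_ne_zero, if_false]
      by_cases hi : i = k.succ
      · rw [hi]; simp
      · rw [if_neg hi, Pi.single_eq_of_ne (Ne.symm hi)]
  have h4 : (Matrix.of fun i k => (fderiv ℂ (ex : (Fin (d + 1) → ℂ) → Fin (d + 1) → ℂ) z
      (GrB_606.fr d i)) k) = Matrix.diagonal fun k : Fin (d + 1) =>
        if k = 0 then Complex.exp (z 0) else 1 := by
    ext i k
    rw [Matrix.of_apply, h1, Matrix.diagonal_apply]
    by_cases hik : i = k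
    · rw [if_pos hik, if_pos hik, hik]
    · rw [if_neg hik, if_neg hik]
  rw [h4, Matrix.det_diagonal, Fin.prod_univ_succ]
  simp

/-- chain rule for the Jacobian determinant -/
lemma det_comp_ex {F : (Fin (d + 1) → ℂ) → Fin (d + 1) → ℂ} {z : Fin (d + 1) → ℂ}
    (hF : DifferentiableAt ℂ F (ex z)) :
    (Matrix.of fun i k => (fderiv ℂ (fun y => F (ex y)) z (GrB_606.fr d i)) k).det =
      (fderiv ℂ F (ex z)).det * ex z 0 := by
  have h1 : fderiv ℂ (fun y => F (ex y)) z =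
      (fderiv ℂ F (ex z)).comp (fderiv ℂ ex z) :=
    fderiv_comp z hF (differentiable_ex z)
  have h2 : (Matrix.of fun i k => (fderiv ℂ (fun y => F (ex y)) z (GrB_606.fr d i)) k) =
      (Matrix.of fun i k => (fderiv ℂ (ex : (Fin (d + 1) → ℂ) → Fin (d + 1) → ℂ) z
        (GrB_606.fr d i)) k) * (LinearMap.toMatrix' (fderiv ℂ F (ex z)).toLinearMap)ᵀ := by
    ext i k
    rw [Matrix.mul_apply, Matrix.of_apply, h1, ContinuousLinearMap.comp_apply]
    set v := fderiv ℂ (ex : (Fin (d + 1) → ℂ) → Fin (d + 1) → ℂ) z (GrB_606.fr d i) with hv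
    have h3 : v = ∑ j, v j • (Pi.single j (1 : ℂ) : Fin (d + 1) → ℂ) := pi_eq_sum_univ' v
    conv_lhs => rw [h3]
    rw [map_sum, Finset.sum_apply]
    refine Finset.sum_congr rfl fun j _ => ?_
    rw [map_smul, Pi.smul_apply, smul_eq_mul, Matrix.of_apply, Matrix.transpose_apply,
      LinearMap.toMatrix'_apply]
    congr 1
  rw [h2, Matrix.det_mul, det_ex, Matrix.det_transpose, LinearMap.det_toMatrix', mul_comm]

end chart

/-! ### the weight of the canonical bundle -/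

section wd

open Crest.Agent.R276.LftDefs_327 (WD LD)

variable {d m N w : ℕ} {M E X : Type*} [TopologicalSpace M] [RDom (d + 1) M]
    [MeasurableSpace M] {μ : Measure M} [TopologicalSpace E] [RDom d E] [TopologicalSpace X]
    [RDom m X] {D : DChart M E μ} {V : VHS m X N w} {om : X → Fin N → ℂ} {u : X → ℂ} {M0 : ℕ}
    {f : X → M} {ι : Fin (d + 1) → Fin m} {φ ψ : M → ℝ}

lemma r_pos (D : DChart M E μ) (y : E) : 0 < D.r y := by
  unfold DChart.r radf
  have h1 : 0 < min 1 ‖MvPolynomial.eval (cp y) D.cov.h‖ :=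
    lt_min one_pos (norm_pos_iff.2 (D.cov.hne y))
  have h2 : 0 < 1 + ‖(cp y : Fin d → ℂ)‖ := by positivity
  have h3 := D.hc0
  positivity

lemma r_le_one (D : DChart M E μ) (y : E) : D.r y ≤ 1 := by
  unfold DChart.r radf
  have h1 : 0 ≤ min 1 ‖MvPolynomial.eval (cp y) D.cov.h‖ := le_min zero_le_one (norm_nonneg _)
  have h2 : min 1 ‖MvPolynomial.eval (cp y) D.cov.h‖ / (1 + ‖(cp y : Fin d → ℂ)‖) ≤ 1 := by
    rw [div_le_one (by positivity)]
    exact (min_le_left _ _).trans (by linarith [norm_nonneg (cp y : Fin d → ℂ)])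
  have h3 : (min 1 ‖MvPolynomial.eval (cp y) D.cov.h‖ / (1 + ‖(cp y : Fin d → ℂ)‖)) ^ D.κ ≤ 1 :=
    pow_le_one₀ (by positivity) h2
  have h4 := D.hc0
  have h5 := D.hc1
  nlinarith

lemma log_r_nonneg (D : DChart M E μ) (y : E) : 0 ≤ Real.log (1 / D.r y) :=
  Real.log_nonneg (by rw [le_div_iff₀ (r_pos D y)]; linarith [r_le_one D y])

/-- the lifts are holomorphic maps of the punctured polydisc -/
lemma hp (l : LD D V om u f) (y : E) : HP (l.s y) (D.r y) := ⟨r_pos D y, l.cont y, l.hol y⟩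

/-- the point of the half space over `q` -/
def lg (q : Fin (d + 1) → ℂ) : Fin (d + 1) → ℂ := Fin.cons (Complex.log (q 0)) (Fin.tail q)

lemma ex_lg {q : Fin (d + 1) → ℂ} (hq : q 0 ≠ 0) : ex (lg q) = q := by
  apply ext_cons
  · simp [lg, Complex.exp_log hq]
  · intro i; simp [lg, Fin.tail]

lemma lg_mem {r : ℝ} {q : Fin (d + 1) → ℂ} (hq : q ∈ PS d r) : lg q ∈ HS d r := by
  refine ⟨?_, fun i => ?_⟩
  · show (Complex.log (q 0)).re < Real.log r
    rw [Complex.log_re]
    exact Real.log_lt_log (norm_pos_iff.2 hq.1) (hq.2 0)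
  · exact hq.2 i.succ

/-- **the Gram determinant in the chart** -/
theorem det_q (h : WD V om u M0 f ι φ ψ) (l : LD D V om u f) (y : E) (n : Nf V (l.s y) (D.r y))
    {z : Fin (d + 1) → ℂ} (hz : z ∈ HS d (D.r y)) :
    (VCalc_442.gm w (PP n) (GrB_606.fr d) z).det.re =
      ‖D.J y (ex z)‖ ^ 2 * ‖ex z 0‖ ^ 2 * gdet V ι (l.s y (ex z)) := by
  have hH := hp l y
  have h1 := det_gm n.fr hH.hm h.fl h.prj.inj hz (GrB_606.fr d)
  have hex := ex_mem (r_pos D y) hz
  set F : (Fin (d + 1) → ℂ) → Fin (d + 1) → ℂ := fun q => cp (D.σ y q) with hF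
  have hFd : DifferentiableAt ℂ F (ex z) :=
    ((D.hol y) _ hex).differentiableAt ((isOpen_PS d _).mem_nhds hex)
  have h2 : ∀ v : Fin (d + 1) → ℂ, ∀ k : Fin (d + 1),
      (fderiv ℂ (fun y' => (cp (lift (l.s y) y') : Fin m → ℂ)) z v) (ι k) =
        (fderiv ℂ (fun y => F (ex y)) z v) k := by
    intro v k
    have hd1 : DifferentiableAt ℂ (fun y' => (cp (lift (l.s y) y') : Fin m → ℂ)) z :=
      (hH.hm.diff z hz).differentiableAt ((isOpen_HS d _).mem_nhds hz)
    have hd2 : DifferentiableAt ℂ (fun y => F (ex y)) z := hFd.comp z (differentiable_ex z)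
    have e1 : (fderiv ℂ (fun y' => (cp (lift (l.s y) y') : Fin m → ℂ)) z v) (ι k) =
        fderiv ℂ (fun y' => (cp (lift (l.s y) y') : Fin m → ℂ) (ι k)) z v := by
      rw [fderiv_pi (fun i => differentiableAt_pi.1 hd1 i)]
      rfl
    have e2 : (fderiv ℂ (fun y => F (ex y)) z v) k = fderiv ℂ (fun y => F (ex y) k) z v := by
      rw [fderiv_pi (fun i => differentiableAt_pi.1 hd2 i)]
      rfl
    rw [e1, e2]
    congr 1
    refine Filter.EventuallyEq.fderiv_eq ?_
    filter_upwards [(isOpen_HS d _).mem_nhds hz] with y' hy'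
    have h3 := l.fs y (ex y') (ex_mem (r_pos D y) hy')
    show (cp (l.s y (ex y')) : Fin m → ℂ) (ι k) = (cp (D.σ y (ex y')) : Fin (d + 1) → ℂ) k
    rw [← h3, h.prj.cpf]
  have h3 : (Matrix.of fun i k => (fderiv ℂ (fun y' => (cp (lift (l.s y) y') : Fin m → ℂ)) z
      (GrB_606.fr d i)) (ι k)) =
      (Matrix.of fun i k => (fderiv ℂ (fun y => F (ex y)) z (GrB_606.fr d i)) k) := by
    ext i k
    rw [Matrix.of_apply, Matrix.of_apply, h2]
  rw [h3, det_comp_ex hFd, norm_mul, mul_pow] at h1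
  exact h1

/-- the weight of the canonical bundle in the chart -/
theorem phW_eq (h : WD V om u M0 f ι φ ψ) (l : LD D V om u f) (y : E)
    {q : Fin (d + 1) → ℂ} (hq : q ∈ PS d (D.r y)) :
    D.phW φ y q = Real.log (‖D.J y q‖ ^ 2 * gdet V ι (l.s y q)) := by
  unfold DChart.phW
  have h1 : D.J y q ≠ 0 := D.jac y q hq
  have h2 : 0 < ‖D.J y q‖ ^ 2 := by positivity
  rw [Real.log_mul h2.ne' (h.pos _).ne', ← l.fs y q hq, h.hφ, add_comm]

/-- **upper bound of the weight of the canonical bundle** -/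
theorem phW_le (h : WD V om u M0 f ι φ ψ) (l : LD D V om u f) (y : E)
    {q : Fin (d + 1) → ℂ} (hq : q ∈ PS d (D.r y)) {δ : ℝ} (hδ : 0 < δ)
    (hq2 : ∀ i : Fin d, ‖q i.succ‖ ≤ D.r y - δ) :
    D.phW φ y q ≤ Real.log (EndTh_659.cst (Fin N) / (Real.log (D.r y) - Real.log ‖q 0‖) ^ 2 *
      (EndTh_659.cst (Fin N) / δ ^ 2) ^ d) - Real.log (‖q 0‖ ^ 2) := by
  obtain ⟨n⟩ := exists_nf V (hp l y)
  have hz := lg_mem hq
  have h1 := det_q h l y n hz
  have h2 := GrB_606.det_le (vhs n (hp l y)) (z := lg q) hz hδ (fun i => hq2 i)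
  rw [ex_lg hq.1] at h1
  have e0 : (lg q 0).re = Real.log ‖q 0‖ := by
    show (Complex.log (q 0)).re = _
    rw [Complex.log_re]
  rw [e0] at h2
  have h3 : 0 < ‖D.J y q‖ ^ 2 := by
    have : D.J y q ≠ 0 := D.jac y q hq
    positivity
  have h4 : 0 < ‖q 0‖ ^ 2 := by
    have := hq.1
    positivity
  have h5 := h.pos (l.s y q)
  have h6 : ‖D.J y q‖ ^ 2 * ‖q 0‖ ^ 2 * gdet V ι (l.s y q) ≤
      EndTh_659.cst (Fin N) / (Real.log (D.r y) - Real.log ‖q 0‖) ^ 2 *
      (EndTh_659.cst (Fin N) / δ ^ 2) ^ d := by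
    rw [← h1]; exact h2
  have h7 := Real.log_le_log (by positivity) h6
  rw [phW_eq h l y hq]
  have h8 : Real.log (‖D.J y q‖ ^ 2 * ‖q 0‖ ^ 2 * gdet V ι (l.s y q)) =
      Real.log (‖D.J y q‖ ^ 2 * gdet V ι (l.s y q)) + Real.log (‖q 0‖ ^ 2) := by
    rw [← Real.log_mul (by positivity) h4.ne']
    congr 1; ring
  linarith

end wd

end Crest.Agent.R276.GrAs1_857
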