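import Mathlib

/-!
Row 276, leaf ULOG (helper833): the logarithm of a unipotent element of a `ℚ`-algebra, and of a
unipotent complex matrix.

`ulog x = ∑_{j ≥ 1} (-1)^(j+1)/j (x-1)^j`.
-/

set_option autoImplicit false
set_option linter.unusedSectionVars false

open Finset PowerSeries
open scoped Nat

namespace Crest.Agent.R276.ULog_833

section series

lemma logd_mul : (d⁄dX ℚ (PowerSeries.log ℚ)) * (1 + X) = 1 := by
  rw [deriv_log]
  ext n
  rw [mul_add, mul_one, map_add]
  cases n with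
  | zero => simp
  | succ n =>
    rw [coeff_succ_mul_X, coeff_mk, coeff_mk, coeff_one]
    simp [pow_succ]

/-- `exp (log (1 + X)) = 1 + X` -/
theorem exp_subst_log : (PowerSeries.exp ℚ).subst (PowerSeries.log ℚ) = 1 + X := by
  set ℓ := d⁄dX ℚ (PowerSeries.log ℚ) with hℓ
  set E := (PowerSeries.exp ℚ).subst (PowerSeries.log ℚ) with hE
  have h1 : ℓ * (1 + X) = 1 := logd_mul
  have h2 : d⁄dX ℚ E = E * ℓ := by
    rw [hE, derivative_subst HasSubst.log, derivative_exp]
  have h3 : d⁄dX ℚ ℓ * (1 + X) + ℓ = 0 := by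
    have := congrArg (d⁄dX ℚ) h1
    rw [Derivation.leibniz] at this
    simp only [map_add, derivative_one, derivative_X, smul_eq_mul] at this
    linear_combination this
  have h4 : d⁄dX ℚ ℓ = -ℓ ^ 2 := by
    linear_combination ℓ * h3 - (d⁄dX ℚ ℓ) * h1
  have h5 : E * ℓ = 1 := by
    apply derivative.ext
    · rw [Derivation.leibniz, h2, h4, derivative_one]
      simp only [smul_eq_mul]
      ring
    · have h6 : constantCoeff E = 1 := by
        rw [← coeff_zero_eq_constantCoeff_apply, hE, coeff_subst' HasSubst.log,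
          finsum_eq_single _ 0]
        · simp
        · intro n hn
          rw [coeff_zero_eq_constantCoeff_apply, map_pow, constantCoeff_log, zero_pow hn,
            smul_zero]
      rw [map_mul, map_one, h6, hℓ, deriv_log, one_mul, ← coeff_zero_eq_constantCoeff_apply,
        coeff_mk]
      simp
  linear_combination (1 + X) * h5 - E * h1

/-- `log (1 + (exp X - 1)) = X` -/
theorem log_subst_exp : (PowerSeries.log ℚ).subst (PowerSeries.exp ℚ - 1) = X := by
  apply derivative.ext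
  · rw [derivative_subst HasSubst.exp_sub_one, map_sub, derivative_exp, derivative_one, sub_zero,
      derivative_X]
    have h1 := congrArg (PowerSeries.subst (PowerSeries.exp ℚ - 1)) logd_mul
    rw [subst_mul HasSubst.exp_sub_one, subst_add HasSubst.exp_sub_one,
      subst_X HasSubst.exp_sub_one] at h1
    have h2 : PowerSeries.subst (PowerSeries.exp ℚ - 1) (1 : ℚ⟦X⟧) = (1 : ℚ⟦X⟧) := by
      rw [← coe_substAlgHom HasSubst.exp_sub_one, map_one]
    rw [h2] at h1
    linear_combination h1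
  · rw [← coeff_zero_eq_constantCoeff_apply, coeff_subst' HasSubst.exp_sub_one, constantCoeff_X,
      finsum_eq_single _ 0]
    · simp
    · intro n hn
      rw [coeff_zero_eq_constantCoeff_apply, map_pow, map_sub, map_one, constantCoeff_exp,
        sub_self, zero_pow hn, smul_zero]

end series

section ring

variable {A : Type*} [Ring A] [Algebra ℚ A]

/-- evaluation of a power series at a nilpotent element -/
noncomputable def ev (k : ℕ) (n : A) (f : ℚ⟦X⟧) : A := Polynomial.aeval n (trunc k f)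

lemma ev_eq (k : ℕ) (n : A) (f : ℚ⟦X⟧) : ev k n f = ∑ j ∈ range k, coeff j f • n ^ j := by
  rw [ev, Polynomial.aeval_def, eval₂_trunc_eq_sum_range]
  simp only [Algebra.smul_def]

lemma aeval_trunc {k : ℕ} {n : A} (hn : n ^ k = 0) (p : Polynomial ℚ) :
    Polynomial.aeval n (trunc k (p : ℚ⟦X⟧)) = Polynomial.aeval n p := by
  have h1 : Polynomial.aeval n (trunc k (p : ℚ⟦X⟧)) = ∑ j ∈ range k, p.coeff j • n ^ j := by
    have := ev_eq k n (p : ℚ⟦X⟧)
    rw [ev] at this
    simpa [Polynomial.coeff_coe] using this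
  rw [h1, Polynomial.aeval_eq_sum_range' (n := max k (p.natDegree + 1)) (by omega)]
  refine Finset.sum_subset (Finset.range_subset_range.2 (by omega)) fun j _ hj => ?_
  rw [Finset.mem_range, not_lt] at hj
  rw [pow_eq_zero_of_le hj hn, smul_zero]

lemma ev_mul {k : ℕ} {n : A} (hn : n ^ k = 0) (f g : ℚ⟦X⟧) :
    ev k n (f * g) = ev k n f * ev k n g := by
  rw [ev, ← trunc_trunc_mul_trunc, ← Polynomial.coe_mul, aeval_trunc hn, map_mul, ev, ev]

lemma ev_one {k : ℕ} {n : A} (hn : n ^ k = 0) : ev k n 1 = 1 := by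
  have := aeval_trunc hn 1
  rw [map_one, Polynomial.coe_one] at this
  exact this

lemma ev_pow {k : ℕ} {n : A} (hn : n ^ k = 0) (f : ℚ⟦X⟧) (i : ℕ) :
    ev k n (f ^ i) = ev k n f ^ i := by
  induction i with
  | zero => rw [pow_zero, pow_zero, ev_one hn]
  | succ i ih => rw [pow_succ, pow_succ, ev_mul hn, ih]

lemma ev_subst {k : ℕ} {n : A} (hn : n ^ k = 0) {f g : ℚ⟦X⟧} (hg : constantCoeff g = 0) :
    ev k n (f.subst g) = ∑ i ∈ range k, coeff i f • ev k n g ^ i := by
  have hs : HasSubst g := HasSubst.of_constantCoeff_zero' hg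
  simp only [← ev_pow hn]
  rw [ev_eq]
  simp only [ev_eq, Finset.smul_sum, smul_smul]
  rw [Finset.sum_comm]
  refine Finset.sum_congr rfl fun j hj => ?_
  rw [← Finset.sum_smul]
  congr 1
  rw [coeff_subst' hs, finsum_eq_sum_of_support_subset (s := range k)]
  · simp only [smul_eq_mul]
  · intro i hi
    rw [Function.mem_support] at hi
    rw [Finset.coe_range, Set.mem_Iio]
    by_contra hik
    apply hi
    have h1 : X ^ i ∣ g ^ i := pow_dvd_pow_of_dvd (X_dvd_iff.2 hg) i
    rw [X_pow_dvd_iff.1 h1 j (by rw [Finset.mem_range] at hj; omega), smul_zero]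

/-- logarithm of a unipotent element -/
noncomputable def ulog (x : A) : A :=
  ∑ j ∈ range (nilpotencyClass (x - 1)), ((-1 : ℚ) ^ (j + 1) / j) • (x - 1) ^ j

theorem ulog_eq_sum {x : A} {k : ℕ} (h : (x - 1) ^ k = 0) :
    ulog x = ∑ j ∈ range k, ((-1 : ℚ) ^ (j + 1) / j) • (x - 1) ^ j := by
  rw [ulog]
  refine Finset.sum_subset (Finset.range_subset_range.2 (csInf_le' h)) fun j _ hj => ?_
  rw [Finset.mem_range, not_lt] at hj
  rw [pow_eq_zero_of_le hj (pow_nilpotencyClass ⟨k, h⟩), smul_zero]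

theorem ulog_eq_ev {x : A} {k : ℕ} (h : (x - 1) ^ k = 0) :
    ulog x = ev k (x - 1) (PowerSeries.log ℚ) := by
  rw [ulog_eq_sum h, ev_eq]
  refine Finset.sum_congr rfl fun j _ => ?_
  rw [coeff_log]
  split_ifs with hj
  · simp [hj]
  · simp

theorem exp_eq_ev {a : A} {k : ℕ} (h : a ^ k = 0) :
    IsNilpotent.exp a = ev k a (PowerSeries.exp ℚ) := by
  rw [IsNilpotent.exp_eq_sum h, ev_eq]
  refine Finset.sum_congr rfl fun j _ => ?_
  rw [coeff_exp]
  simp

@[simp] theorem ulog_one : ulog (1 : A) = 0 := by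
  rw [ulog_eq_sum (k := 1) (by simp)]
  simp

/-- `ulog x = (x - 1) * r` with `r` commuting with `x - 1` -/
theorem exists_ulog_eq (x : A) : ∃ r : A, Commute (x - 1) r ∧ ulog x = (x - 1) * r := by
  refine ⟨∑ j ∈ range (nilpotencyClass (x - 1)), ((-1 : ℚ) ^ (j + 1) / j) • (x - 1) ^ (j - 1),
    ?_, ?_⟩
  · exact Commute.sum_right _ _ _ fun j _ => ((Commute.refl _).pow_right _).smul_right _
  · rw [ulog, Finset.mul_sum]
    refine Finset.sum_congr rfl fun j _ => ?_
    rcases Nat.eq_zero_or_pos j with rfl | hj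
    · simp
    · rw [mul_smul_comm, ← pow_succ', Nat.sub_add_cancel hj]

theorem ulog_pow {x : A} {k : ℕ} (h : (x - 1) ^ k = 0) : ulog x ^ k = 0 := by
  obtain ⟨r, hr, h1⟩ := exists_ulog_eq x
  rw [h1, hr.mul_pow, h, zero_mul]

theorem isNilpotent_ulog {x : A} (h : IsNilpotent (x - 1)) : IsNilpotent (ulog x) := by
  obtain ⟨k, hk⟩ := h
  exact ⟨k, ulog_pow hk⟩

/-- **`exp (ulog x) = x`** -/
theorem exp_ulog {x : A} (h : IsNilpotent (x - 1)) : IsNilpotent.exp (ulog x) = x := by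
  obtain ⟨k, hk⟩ := h
  have hk2 : (x - 1) ^ (k + 2) = 0 := pow_eq_zero_of_le (by omega) hk
  have h1 := ev_subst hk2 (f := PowerSeries.exp ℚ) (constantCoeff_log (A := ℚ))
  rw [exp_subst_log, ← ulog_eq_ev hk2] at h1
  rw [IsNilpotent.exp_eq_sum (ulog_pow hk2)]
  have h2 : ∀ i ∈ range (k + 2), coeff i (PowerSeries.exp ℚ) • ulog x ^ i =
      ((i ! : ℕ) : ℚ)⁻¹ • ulog x ^ i := by
    intro i _
    rw [coeff_exp]
    simp
  rw [← Finset.sum_congr rfl h2, ← h1, ev_eq, Finset.sum_range_succ', Finset.sum_range_succ',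
    Finset.sum_eq_zero]
  · simp [coeff_X, coeff_one]
  · intro i _
    have : coeff (i + 1 + 1) (1 + X : ℚ⟦X⟧) = 0 := by
      rw [map_add, coeff_one, coeff_X]
      simp
    rw [this, zero_smul]

/-- `ulog (exp a) = a` -/
theorem ulog_exp {a : A} (h : IsNilpotent a) : ulog (IsNilpotent.exp a) = a := by
  obtain ⟨k, hk⟩ := h
  have hk2 : a ^ (k + 2) = 0 := pow_eq_zero_of_le (by omega) hk
  have hc : constantCoeff (PowerSeries.exp ℚ - 1) = 0 := by simp [constantCoeff_exp]
  have h0 : ev (k + 2) a (PowerSeries.exp ℚ - 1) = IsNilpotent.exp a - 1 := by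
    rw [exp_eq_ev hk2, ← ev_one hk2]
    simp only [ev, map_sub]
  have h3 : (IsNilpotent.exp a - 1) ^ (k + 2) = 0 := by
    rw [← h0, ← ev_pow hk2, ev_eq]
    refine Finset.sum_eq_zero fun j hj => ?_
    have h1 : (X : ℚ⟦X⟧) ^ (k + 2) ∣ (PowerSeries.exp ℚ - 1) ^ (k + 2) :=
      pow_dvd_pow_of_dvd (X_dvd_iff.2 hc) _
    rw [X_pow_dvd_iff.1 h1 j (by simpa using hj), zero_smul]
  have h1 := ev_subst hk2 (f := PowerSeries.log ℚ) hc
  rw [log_subst_exp, h0] at h1
  rw [ulog_eq_sum h3]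
  have h2 : ∀ i ∈ range (k + 2), coeff i (PowerSeries.log ℚ) • (IsNilpotent.exp a - 1) ^ i =
      ((-1 : ℚ) ^ (i + 1) / i) • (IsNilpotent.exp a - 1) ^ i := by
    intro i _
    rw [coeff_log]
    split_ifs with hi
    · simp [hi]
    · simp
  rw [← Finset.sum_congr rfl h2, ← h1, ev_eq, Finset.sum_range_succ', Finset.sum_range_succ',
    Finset.sum_eq_zero]
  · simp [coeff_X]
  · intro i _
    have : coeff (i + 1 + 1) (X : ℚ⟦X⟧) = 0 := by
      rw [coeff_X]
      simp
    rw [this, zero_smul]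

/-- `exp` is injective on nilpotent elements -/
theorem exp_injective {a b : A} (ha : IsNilpotent a) (hb : IsNilpotent b)
    (h : IsNilpotent.exp a = IsNilpotent.exp b) : a = b := by
  rw [← ulog_exp ha, h, ulog_exp hb]

theorem ulog_unique {x a : A} (ha : IsNilpotent a) (h : IsNilpotent.exp a = x) : ulog x = a := by
  rw [← h, ulog_exp ha]

/-- intertwining: `g x = y g` implies `g (ulog x) = (ulog y) g` -/
theorem ulog_intertwine {x y g : A} (hx : IsNilpotent (x - 1)) (hy : IsNilpotent (y - 1))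
    (h : g * x = y * g) : g * ulog x = ulog y * g := by
  obtain ⟨k, hk⟩ := hx
  obtain ⟨l, hl⟩ := hy
  have hk2 : (x - 1) ^ (max k l) = 0 := pow_eq_zero_of_le (by omega) hk
  have hl2 : (y - 1) ^ (max k l) = 0 := pow_eq_zero_of_le (by omega) hl
  rw [ulog_eq_sum hk2, ulog_eq_sum hl2, Finset.mul_sum, Finset.sum_mul]
  refine Finset.sum_congr rfl fun j _ => ?_
  have h1 : SemiconjBy g (x - 1) (y - 1) := by
    change g * (x - 1) = (y - 1) * g
    rw [mul_sub, sub_mul, h, mul_one, one_mul]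
  rw [mul_smul_comm, smul_mul_assoc, (h1.pow_right j).eq]

theorem ulog_commute {x g : A} (h : Commute g x) : Commute g (ulog x) :=
  Commute.sum_right _ _ _ fun _ _ =>
    ((h.sub_right (Commute.one_right g)).pow_right _).smul_right _

theorem commute_of_exp {a g : A} (ha : IsNilpotent a) (h : Commute g (IsNilpotent.exp a)) :
    Commute g a := by
  have := ulog_commute h
  rwa [ulog_exp ha] at this

theorem exp_commute {a g : A} (h : Commute g a) : Commute g (IsNilpotent.exp a) :=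
  Commute.sum_right _ _ _ fun _ _ => (h.pow_right _).smul_right _

theorem intertwine_of_exp {a b g : A} (ha : IsNilpotent a) (hb : IsNilpotent b)
    (h : g * IsNilpotent.exp a = IsNilpotent.exp b * g) : g * a = b * g := by
  have := ulog_intertwine (IsNilpotent.isNilpotent_exp_sub_one ha)
    (IsNilpotent.isNilpotent_exp_sub_one hb) h
  rwa [ulog_exp ha, ulog_exp hb] at this

theorem ulog_self_commute (x : A) : Commute x (ulog x) := ulog_commute (Commute.refl x)

theorem ulog_mul {x y : A} (hx : IsNilpotent (x - 1)) (hy : IsNilpotent (y - 1))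
    (h : Commute x y) : ulog (x * y) = ulog x + ulog y := by
  have hc : Commute (ulog x) (ulog y) := ulog_commute (ulog_commute h.symm).symm
  have h1 := IsNilpotent.exp_add_of_commute hc (isNilpotent_ulog hx) (isNilpotent_ulog hy)
  rw [exp_ulog hx, exp_ulog hy] at h1
  exact ulog_unique (hc.isNilpotent_add (isNilpotent_ulog hx) (isNilpotent_ulog hy)) h1

theorem unip_pow {x : A} (hx : IsNilpotent (x - 1)) (n : ℕ) : IsNilpotent (x ^ n - 1) := by
  have h1 : x ^ n - 1 = (x - 1) * ∑ i ∈ range n, x ^ i := by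
    rw [mul_geom_sum]
  rw [h1]
  refine Commute.isNilpotent_mul_right ?_ hx
  exact Commute.sum_right _ _ _ fun j _ =>
    ((Commute.refl x).sub_left (Commute.one_left x)).pow_right j

theorem ulog_npow {x : A} (hx : IsNilpotent (x - 1)) (n : ℕ) : ulog (x ^ n) = n • ulog x := by
  induction n with
  | zero => simp
  | succ n ih =>
    rw [pow_succ, ulog_mul (unip_pow hx n) hx ((Commute.refl x).pow_left n), ih, succ_nsmul]

theorem exp_nsmul {a : A} (ha : IsNilpotent a) (n : ℕ) :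
    IsNilpotent.exp (n • a) = IsNilpotent.exp a ^ n := by
  have hx := IsNilpotent.isNilpotent_exp_sub_one ha
  have h1 := ulog_npow hx n
  rw [ulog_exp ha] at h1
  rw [← h1, exp_ulog (unip_pow hx n)]

/-- inverse -/
theorem ulog_inv {x y : A} (hx : IsNilpotent (x - 1)) (h : x * y = 1) : ulog y = -ulog x := by
  have h1 : IsNilpotent.exp (-ulog x) = y := by
    have h2 := IsNilpotent.exp_neg_mul_exp_self (isNilpotent_ulog hx)
    rw [exp_ulog hx] at h2
    calc IsNilpotent.exp (-ulog x) = IsNilpotent.exp (-ulog x) * (x * y) := by rw [h, mul_one]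
      _ = (IsNilpotent.exp (-ulog x) * x) * y := by rw [mul_assoc]
      _ = y := by rw [h2, one_mul]
  exact ulog_unique (isNilpotent_ulog hx).neg h1

theorem map_ulog {B F : Type*} [Ring B] [Algebra ℚ B] [FunLike F A B] [RingHomClass F A B]
    {x : A} (hx : IsNilpotent (x - 1)) (f : F) : f (ulog x) = ulog (f x) := by
  obtain ⟨k, hk⟩ := hx
  have hk' : (f x - 1) ^ k = 0 := by
    rw [← map_one f, ← map_sub, ← map_pow, hk, map_zero]
  rw [ulog_eq_sum hk, ulog_eq_sum hk', map_sum]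
  simp [map_rat_smul]

theorem ulog_mem (S : Subalgebra ℚ A) {x : A} (hx : x ∈ S) : ulog x ∈ S := by
  rw [ulog]
  exact sum_mem fun j _ => S.smul_mem (pow_mem (sub_mem hx (one_mem S)) j) _

/-- `ulog x` is a rational polynomial in `x` -/
theorem exists_poly (x : A) : ∃ p : Polynomial ℚ, ulog x = Polynomial.aeval x p := by
  refine ⟨∑ j ∈ range (nilpotencyClass (x - 1)),
    Polynomial.C ((-1 : ℚ) ^ (j + 1) / j) * (Polynomial.X - 1) ^ j, ?_⟩
  rw [ulog, map_sum]
  refine Finset.sum_congr rfl fun j _ => ?_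
  simp [Algebra.smul_def]

theorem exp_mem (S : Subalgebra ℚ A) {a : A} (ha : a ∈ S) : IsNilpotent.exp a ∈ S := by
  rw [IsNilpotent.exp]
  exact sum_mem fun j _ => S.smul_mem (pow_mem ha j) _

end ring

section matrix

open Matrix

variable {m n : Type*} [Fintype m] [DecidableEq m] [Fintype n] [DecidableEq n]

theorem unip_iff {T : Matrix n n ℂ} : IsNilpotent (T - 1) ↔ (T - 1) ^ Fintype.card n = 0 := by
  constructor
  · intro h
    have h1 : IsNilpotent (Matrix.toLin' (T - 1)) := by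
      obtain ⟨k, hk⟩ := h
      refine ⟨k, ?_⟩
      rw [← Matrix.toLin'_pow, hk, map_zero]
    have h2 := LinearMap.aeval_self_charpoly (Matrix.toLin' (T - 1))
    rw [h1.charpoly_eq_X_pow_finrank] at h2
    simp only [map_pow, Polynomial.aeval_X, Module.finrank_fintype_fun_eq_card] at h2
    rw [← Matrix.toLin'_pow] at h2
    exact (Matrix.toLin' (R := ℂ) (m := n) (n := n)).map_eq_zero_iff.1 h2
  · intro h
    exact ⟨_, h⟩

theorem ulog_pow_card {T : Matrix n n ℂ} (h : IsNilpotent (T - 1)) :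
    ulog T ^ Fintype.card n = 0 := ulog_pow (unip_iff.1 h)

/-- rectangular intertwining -/
theorem rect_intertwine {T : Matrix n n ℂ} {T' : Matrix m m ℂ} {A : Matrix m n ℂ}
    (hT : IsNilpotent (T - 1)) (hT' : IsNilpotent (T' - 1)) (h : A * T = T' * A) :
    A * ulog T = ulog T' * A := by
  obtain ⟨k, hk⟩ := hT
  obtain ⟨l, hl⟩ := hT'
  have hk2 : (T - 1) ^ (max k l) = 0 := pow_eq_zero_of_le (by omega) hk
  have hl2 : (T' - 1) ^ (max k l) = 0 := pow_eq_zero_of_le (by omega) hl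
  have h1 : A * (T - 1) = (T' - 1) * A := by
    rw [Matrix.mul_sub, Matrix.sub_mul, h, Matrix.mul_one, Matrix.one_mul]
  have h2 : ∀ j : ℕ, A * (T - 1) ^ j = (T' - 1) ^ j * A := by
    intro j
    induction j with
    | zero => simp
    | succ j ih => rw [pow_succ, ← Matrix.mul_assoc, ih, Matrix.mul_assoc, h1, pow_succ,
        Matrix.mul_assoc]
  rw [ulog_eq_sum hk2, ulog_eq_sum hl2, Matrix.mul_sum, Matrix.sum_mul]
  refine Finset.sum_congr rfl fun j _ => ?_
  rw [Matrix.mul_smul, Matrix.smul_mul, h2]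

theorem rect_of_exp {L : Matrix n n ℂ} {L' : Matrix m m ℂ} {A : Matrix m n ℂ}
    (hL : IsNilpotent L) (hL' : IsNilpotent L')
    (h : A * IsNilpotent.exp L = IsNilpotent.exp L' * A) : A * L = L' * A := by
  have := rect_intertwine (IsNilpotent.isNilpotent_exp_sub_one hL)
    (IsNilpotent.isNilpotent_exp_sub_one hL') h
  rwa [ulog_exp hL, ulog_exp hL'] at this

theorem rect_exp {L : Matrix n n ℂ} {L' : Matrix m m ℂ} {A : Matrix m n ℂ}
    (hL : IsNilpotent L) (hL' : IsNilpotent L') (h : A * L = L' * A) :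
    A * IsNilpotent.exp L = IsNilpotent.exp L' * A := by
  obtain ⟨k, hk⟩ := hL
  obtain ⟨l, hl⟩ := hL'
  have hk2 : L ^ (max k l) = 0 := pow_eq_zero_of_le (by omega) hk
  have hl2 : L' ^ (max k l) = 0 := pow_eq_zero_of_le (by omega) hl
  have h2 : ∀ j : ℕ, A * L ^ j = L' ^ j * A := by
    intro j
    induction j with
    | zero => simp
    | succ j ih => rw [pow_succ, ← Matrix.mul_assoc, ih, Matrix.mul_assoc, h, pow_succ,
        Matrix.mul_assoc]
  rw [IsNilpotent.exp_eq_sum hk2, IsNilpotent.exp_eq_sum hl2, Matrix.mul_sum, Matrix.sum_mul]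
  refine Finset.sum_congr rfl fun j _ => ?_
  rw [Matrix.mul_smul, Matrix.smul_mul, h2]

theorem unip_conjTranspose {T : Matrix n n ℂ} (h : IsNilpotent (T - 1)) :
    IsNilpotent (Tᴴ - 1) := by
  obtain ⟨k, hk⟩ := h
  refine ⟨k, ?_⟩
  rw [← Matrix.conjTranspose_one, ← Matrix.conjTranspose_sub, ← Matrix.conjTranspose_pow, hk,
    Matrix.conjTranspose_zero]

theorem ulog_conjTranspose {T : Matrix n n ℂ} (h : IsNilpotent (T - 1)) :
    ulog Tᴴ = (ulog T)ᴴ := by
  obtain ⟨k, hk⟩ := h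
  have h0 : Tᴴ - 1 = (T - 1)ᴴ := by
    rw [Matrix.conjTranspose_sub, Matrix.conjTranspose_one]
  have hk' : (Tᴴ - 1) ^ k = 0 := by
    rw [h0, ← Matrix.conjTranspose_pow, hk, Matrix.conjTranspose_zero]
  rw [ulog_eq_sum hk, ulog_eq_sum hk', Matrix.conjTranspose_sum]
  refine Finset.sum_congr rfl fun j _ => ?_
  rw [h0, ← Matrix.conjTranspose_pow, Matrix.conjTranspose_rat_smul]

theorem unip_transpose {T : Matrix n n ℂ} (h : IsNilpotent (T - 1)) : IsNilpotent (Tᵀ - 1) := by
  obtain ⟨k, hk⟩ := h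
  refine ⟨k, ?_⟩
  rw [← Matrix.transpose_one, ← Matrix.transpose_sub, ← Matrix.transpose_pow, hk,
    Matrix.transpose_zero]

theorem ulog_transpose {T : Matrix n n ℂ} (h : IsNilpotent (T - 1)) : ulog Tᵀ = (ulog T)ᵀ := by
  obtain ⟨k, hk⟩ := h
  have h0 : Tᵀ - 1 = (T - 1)ᵀ := by
    rw [Matrix.transpose_sub, Matrix.transpose_one]
  have hk' : (Tᵀ - 1) ^ k = 0 := by
    rw [h0, ← Matrix.transpose_pow, hk, Matrix.transpose_zero]
  rw [ulog_eq_sum hk, ulog_eq_sum hk', Matrix.transpose_sum]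
  refine Finset.sum_congr rfl fun j _ => ?_
  rw [h0, ← Matrix.transpose_pow, Matrix.transpose_smul]

theorem isUnit_unip {A : Type*} [Ring A] {x : A} (h : IsNilpotent (x - 1)) : IsUnit x := by
  have := h.isUnit_one_add
  rwa [add_sub_cancel] at this

/-- **skew**: a unipotent matrix preserving `S` has a logarithm which is skew for `S` -/
theorem skew {T S : Matrix n n ℂ} (hT : IsNilpotent (T - 1)) (h : Tᴴ * S * T = S) :
    (ulog T)ᴴ * S = -(S * ulog T) := by
  have hu : IsUnit T := isUnit_unip hT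
  have hdet : IsUnit T.det := (Matrix.isUnit_iff_isUnit_det T).1 hu
  have h1 : T * T⁻¹ = 1 := Matrix.mul_nonsing_inv T hdet
  have h2 : S * T⁻¹ = Tᴴ * S := by
    calc S * T⁻¹ = (Tᴴ * S * T) * T⁻¹ := by rw [h]
      _ = Tᴴ * S * (T * T⁻¹) := by rw [Matrix.mul_assoc]
      _ = Tᴴ * S := by rw [h1, Matrix.mul_one]
  have h3 : IsNilpotent (T⁻¹ - 1) := by
    have h4 : T⁻¹ - 1 = -((T - 1) * T⁻¹) := by
      rw [Matrix.sub_mul, h1, Matrix.one_mul]; abel
    rw [h4]
    refine IsNilpotent.neg ?_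
    refine Commute.isNilpotent_mul_right ?_ hT
    have h5 : T⁻¹ * T = 1 := Matrix.nonsing_inv_mul T hdet
    change (T - 1) * T⁻¹ = T⁻¹ * (T - 1)
    rw [Matrix.sub_mul, Matrix.mul_sub, h1, h5, Matrix.mul_one, Matrix.one_mul]
  have h6 := rect_intertwine h3 (unip_conjTranspose hT) h2
  rw [ulog_conjTranspose hT, ulog_inv hT h1, Matrix.mul_neg] at h6
  exact h6.symm

theorem skew' {T S : Matrix n n ℂ} (hT : IsNilpotent (T - 1)) (h : Tᴴ * S * T = S) :
    S * ulog T + (ulog T)ᴴ * S = 0 := by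
  rw [skew hT h, add_neg_cancel]

/-- converse: `exp L` preserves `S` if `L` is skew -/
theorem exp_preserves {L S : Matrix n n ℂ} (hL : IsNilpotent L) (h : Lᴴ * S = -(S * L)) :
    (IsNilpotent.exp L)ᴴ * S * IsNilpotent.exp L = S := by
  have hLH : IsNilpotent Lᴴ := by
    obtain ⟨k, hk⟩ := hL
    exact ⟨k, by rw [← Matrix.conjTranspose_pow, hk, Matrix.conjTranspose_zero]⟩
  have h1 : (IsNilpotent.exp L)ᴴ = IsNilpotent.exp Lᴴ := by
    obtain ⟨k, hk⟩ := hL
    have hk' : Lᴴ ^ k = 0 := by rw [← Matrix.conjTranspose_pow, hk, Matrix.conjTranspose_zero]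
    rw [IsNilpotent.exp_eq_sum hk, IsNilpotent.exp_eq_sum hk', Matrix.conjTranspose_sum]
    refine Finset.sum_congr rfl fun j _ => ?_
    rw [← Matrix.conjTranspose_pow, Matrix.conjTranspose_rat_smul]
  have h2 : S * (-L) = Lᴴ * S := by rw [h, Matrix.mul_neg]
  have h3 := rect_exp hL.neg hLH h2
  rw [h1, ← h3, Matrix.mul_assoc, IsNilpotent.exp_neg_mul_exp_self hL, Matrix.mul_one]

/-- `T` and `ulog T` have the same invariant subspaces -/
theorem invariant_iff {T : Matrix n n ℂ} (hT : IsNilpotent (T - 1)) (W : Submodule ℂ (n → ℂ)) :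
    (∀ v ∈ W, T *ᵥ v ∈ W) ↔ ∀ v ∈ W, ulog T *ᵥ v ∈ W := by
  have key : ∀ M : Matrix n n ℂ, (∀ v ∈ W, M *ᵥ v ∈ W) → ∀ j : ℕ, ∀ v ∈ W, M ^ j *ᵥ v ∈ W := by
    intro M hM j
    induction j with
    | zero => intro v hv; simpa using hv
    | succ j ih =>
      intro v hv
      rw [pow_succ, ← Matrix.mulVec_mulVec]
      exact ih _ (hM v hv)
  constructor
  · intro h v hv
    rw [ulog, Matrix.sum_mulVec]
    refine Submodule.sum_mem _ fun j _ => ?_
    rw [Matrix.smul_mulVec]
    have h1 := key (T - 1) (fun w hw => by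
      rw [Matrix.sub_mulVec, Matrix.one_mulVec]
      exact W.sub_mem (h w hw) hw) j v hv
    have h2 : ((-1 : ℚ) ^ (j + 1) / j) • ((T - 1) ^ j *ᵥ v) =
        ((((-1 : ℚ) ^ (j + 1) / j : ℚ)) : ℂ) • ((T - 1) ^ j *ᵥ v) := by
      ext i
      simp [Rat.smul_def]
    rw [h2]
    exact W.smul_mem _ h1
  · intro h v hv
    rw [← exp_ulog hT, IsNilpotent.exp, Matrix.sum_mulVec]
    refine Submodule.sum_mem _ fun j _ => ?_
    rw [Matrix.smul_mulVec]
    have h1 := key (ulog T) h j v hv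
    have h2 : ((j ! : ℕ) : ℚ)⁻¹ • ((ulog T) ^ j *ᵥ v) =
        (((((j ! : ℕ) : ℚ)⁻¹ : ℚ)) : ℂ) • ((ulog T) ^ j *ᵥ v) := by
      ext i
      simp [Rat.smul_def]
    rw [h2]
    exact W.smul_mem _ h1

/-- `T v = v ↔ (ulog T) v = 0` -/
theorem fixed_iff {T : Matrix n n ℂ} (hT : IsNilpotent (T - 1)) (v : n → ℂ) :
    T *ᵥ v = v ↔ ulog T *ᵥ v = 0 := by
  constructor
  · intro h
    obtain ⟨r, hr, h1⟩ := exists_ulog_eq T
    rw [h1, hr.eq, ← Matrix.mulVec_mulVec, Matrix.sub_mulVec, Matrix.one_mulVec, h, sub_self,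
      Matrix.mulVec_zero]
  · intro h
    have h1 : IsNilpotent.exp (ulog T) *ᵥ v = v := by
      obtain ⟨k, hk⟩ := isNilpotent_ulog hT
      have hk2 : ulog T ^ (k + 1) = 0 := pow_eq_zero_of_le (by omega) hk
      rw [IsNilpotent.exp_eq_sum hk2, Matrix.sum_mulVec, Finset.sum_range_succ',
        Finset.sum_eq_zero]
      · simp
      · intro j _
        rw [Matrix.smul_mulVec, pow_succ, ← Matrix.mulVec_mulVec, h, Matrix.mulVec_zero,
          smul_zero]
    rwa [exp_ulog hT] at h1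

theorem ulog_eq_zero_iff {T : Matrix n n ℂ} (hT : IsNilpotent (T - 1)) : ulog T = 0 ↔ T = 1 := by
  constructor
  · intro h
    rw [← exp_ulog hT, h, IsNilpotent.exp_zero]
  · rintro rfl
    exact ulog_one

/-- rational matrices have rational logarithms -/
theorem ulog_map_rat {T : Matrix n n ℚ} (hT : IsNilpotent (T - 1)) :
    ulog (T.map (algebraMap ℚ ℂ)) = (ulog T).map (algebraMap ℚ ℂ) :=
  (map_ulog hT ((algebraMap ℚ ℂ).mapMatrix (m := n))).symm

theorem ulog_map_int {T : Matrix n n ℤ} (hT : IsNilpotent (T - 1)) :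
    ∃ L : Matrix n n ℚ, IsNilpotent L ∧
      ulog (T.map (Int.cast : ℤ → ℂ)) = L.map (algebraMap ℚ ℂ) := by
  have h1 : IsNilpotent (T.map (Int.cast : ℤ → ℚ) - 1) := by
    have h2 := hT.map ((Int.castRingHom ℚ).mapMatrix (m := n))
    rw [map_sub, map_one] at h2
    exact h2
  refine ⟨ulog (T.map (Int.cast : ℤ → ℚ)), isNilpotent_ulog h1, ?_⟩
  rw [← ulog_map_rat h1]
  congr 1

/-! ### the form used by `LCh` -/

/-- `z T` preserves `S` if `T` does and `|z| = 1` -/
theorem preserves_smul {T S : Matrix n n ℂ} {z : ℂ} (hz : ‖z‖ = 1) (h : Tᴴ * S * T = S) :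
    (z • T)ᴴ * S * (z • T) = S := by
  have h1 : star z * z = 1 := by
    have := Complex.conj_mul' z
    rw [hz] at this
    simpa using this
  rw [Matrix.conjTranspose_smul, Matrix.smul_mul, Matrix.smul_mul, Matrix.mul_smul, smul_smul, h1,
    one_smul, h]

theorem preserves_pow {T S : Matrix n n ℂ} (h : Tᴴ * S * T = S) (e : ℕ) :
    (T ^ e)ᴴ * S * T ^ e = S := by
  induction e with
  | zero => simp
  | succ e ih =>
    rw [pow_succ, Matrix.conjTranspose_mul]
    calc Tᴴ * (T ^ e)ᴴ * S * (T ^ e * T) = Tᴴ * ((T ^ e)ᴴ * S * T ^ e) * T := by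
          simp only [Matrix.mul_assoc]
      _ = S := by rw [ih, h]

/-- the logarithm of `(z T)^e` -/
theorem lch {T S : Matrix n n ℂ} {z : ℂ} {e : ℕ} (hz : ‖z‖ = 1) (h : Tᴴ * S * T = S)
    (hu : IsNilpotent ((z • T) ^ e - 1)) :
    IsNilpotent (ulog ((z • T) ^ e)) ∧ IsNilpotent.exp (ulog ((z • T) ^ e)) = (z • T) ^ e ∧
      (ulog ((z • T) ^ e))ᴴ * S = -(S * ulog ((z • T) ^ e)) :=
  ⟨isNilpotent_ulog hu, exp_ulog hu, skew hu (preserves_pow (preserves_smul hz h) e)⟩

end matrix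

end Crest.Agent.R276.ULog_833
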