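import Crest.Agent.R276.GrI_606
import Crest.Agent.R276.GrC_217
import Crest.Agent.R276.ULog_833
import Crest.Agent.R276.CntDefs_857

/-!
# R276, leaf GEN0 (helper606), part J: `Gen D φ (e n ψ) (n k) 0`

At the points of the divisor where the monodromy commutes with the variation.
-/

set_option autoImplicit false
set_option linter.unusedSectionVars false

open Set Filter Topology Matrix Metric
open scoped ContDiff ComplexConjugate ComplexOrder

namespace Crest.Agent.R276.GrJ_606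

open Crest.Agent.R276.VCalc_442 Crest.Agent.R276.BndA_563
open Crest.Agent.R276.GrE_606 Crest.Agent.R276.GrF_606
open Crest.Agent.R276.GrA_217 (EE)
open Crest.Agent.R276.GrB_217 (HB isOpen_HB)
open Crest.Agent.R276.GrC_217 (LCh tpi)
open Crest.Agent.R276.GrB_606 (fr)

variable {ι : Type*} [Fintype ι] [DecidableEq ι]

section lch

variable {w e d : ℕ} {k : ℤ} {a R : ℝ} {S : Matrix ι ι ℂ}
    {P : ℕ → (Fin (d + 1) → ℂ) → Matrix ι ι ℂ} {T : Matrix ι ι ℂ} {z : ℂ} {L : Matrix ι ι ℂ}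
    {Om f : (Fin (d + 1) → ℂ) → ι → ℂ}

theorem isNilpotent_exp_sub_one {A : Type*} [Ring A] [Algebra ℚ A] {y : A} (hy : IsNilpotent y) :
    IsNilpotent (IsNilpotent.exp y - 1) := by
  obtain ⟨k, hk⟩ := hy
  have hk' : y ^ (k + 1) = 0 := pow_eq_zero_of_le (by omega) hk
  have h1 : IsNilpotent.exp y - 1 = y * ∑ i ∈ Finset.range k, ((i + 1).factorial : ℚ)⁻¹ • y ^ i := by
    rw [IsNilpotent.exp_eq_sum hk', Finset.sum_range_succ', Finset.mul_sum]
    simp only [pow_zero, Nat.factorial_zero, Nat.cast_one, inv_one, one_smul, add_sub_cancel_right]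
    refine Finset.sum_congr rfl fun i _ => ?_
    rw [mul_smul_comm, ← pow_succ']
  rw [h1]
  refine Commute.isNilpotent_mul_right ?_ ⟨k, hk⟩
  exact Commute.sum_right _ _ _ fun i _ => ((Commute.refl y).pow_right i).smul_right _

theorem isUnit_T (h : LCh w e k a R S P T z L Om f) : IsUnit T := by
  have hS : IsUnit S := by
    have hne : (HB d a R).Nonempty := ⟨Fin.cons ((a - 1 : ℝ) : ℂ) 0, by simp, fun i => by
      simpa using h.hR⟩
    obtain ⟨x, hx⟩ := hne
    exact h.vhs.S_unit hx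
  rw [Matrix.isUnit_iff_isUnit_det] at hS ⊢
  have h1 := congrArg Matrix.det h.ST
  rw [Matrix.det_mul, Matrix.det_mul, Matrix.det_conjTranspose] at h1
  rw [isUnit_iff_ne_zero] at hS ⊢
  intro h0
  rw [h0] at h1
  simp only [mul_zero] at h1
  exact hS h1.symm

/-- the variation is periodic -/
theorem per_of_com (h : LCh w e k a R S P T z L Om f)
    (hc : ∀ q ∈ HB d a R, ∀ p, P p q * T = T * P p q) :
    ∀ q ∈ HB d a R, ∀ p, P p (q + Pi.single 0 (2 * Real.pi * Complex.I)) = P p q := by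
  intro q hq p
  have h1 := h.per q hq p
  rw [← hc q hq p] at h1
  have hT := (Matrix.isUnit_iff_isUnit_det T).1 (isUnit_T h)
  have h2 := congrArg (fun M => M * T⁻¹) h1
  simp only [Matrix.mul_assoc, Matrix.mul_nonsing_inv T hT, Matrix.mul_one] at h2
  exact h2

theorem T_hm (h : LCh w e k a R S P T z L Om f)
    (hc : ∀ q ∈ HB d a R, ∀ p, P p q * T = T * P p q) {q : Fin (d + 1) → ℂ} (hq : q ∈ HB d a R) :
    Tᴴ * hm w S P q * T = hm w S P q := by
  have h1 := h.hm_per hq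
  have h2 : hm w S P (q + Pi.single 0 tpi) = hm w S P q := by
    unfold hm sgOp
    have e1 : ∀ p, P p (q + Pi.single 0 tpi) = P p q := fun p => per_of_com h hc q hq p
    simp only [e1]
  rwa [h2] at h1

/-- **the monodromy is semisimple** -/
theorem L_zero (h : LCh w e k a R S P T z L Om f)
    (hc : ∀ q ∈ HB d a R, ∀ p, P p q * T = T * P p q) : L = 0 := by
  have hne : (HB d a R).Nonempty := ⟨Fin.cons ((a - 1 : ℝ) : ℂ) 0, by simp, fun i => by
    simpa using h.hR⟩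
  obtain ⟨q, hq⟩ := hne
  set K := hm w S P q with hK
  have hKp : K.PosDef := h.vhs.hmPos hq
  have h1 : (z • T)ᴴ * K * (z • T) = K := by
    have h2 := T_hm h hc hq
    rw [Matrix.conjTranspose_smul, Matrix.smul_mul, Matrix.smul_mul, Matrix.mul_smul, h2, smul_smul]
    have h3 : star z * z = 1 := by
      have := Complex.conj_mul' z
      rw [h.hz] at this
      simpa using this
    rw [h3, one_smul]
  have h2 : ∀ n : ℕ, ((z • T) ^ n)ᴴ * K * (z • T) ^ n = K := by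
    intro n
    induction n with
    | zero => simp
    | succ n ih =>
      rw [pow_succ, Matrix.conjTranspose_mul]
      calc (z • T)ᴴ * ((z • T) ^ n)ᴴ * K * ((z • T) ^ n * (z • T))
          = (z • T)ᴴ * (((z • T) ^ n)ᴴ * K * (z • T) ^ n) * (z • T) := by noncomm_ring
        _ = K := by rw [ih, h1]
  have h3 := h2 e
  rw [← h.exp_eq] at h3
  have hE : EE L 1 = IsNilpotent.exp L := by
    unfold GrA_217.EE
    rw [one_smul]
  rw [hE] at h3
  have h4 := ULog_833.skew (isNilpotent_exp_sub_one h.nil) h3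
  rw [ULog_833.ulog_exp h.nil] at h4
  have h5 : Adj K L (-L) := by
    show Lᴴ * K = K * (-L)
    rw [h4, Matrix.mul_neg]
  refine h5.eq_zero_of_trace hKp ?_
  have h6 : IsNilpotent (L * -L) := by
    rw [mul_neg]
    exact (Commute.isNilpotent_mul_right (Commute.refl L) h.nil).neg
  have h7 := (Matrix.isNilpotent_trace_of_isNilpotent h6).eq_zero
  rw [h7]
  simp

section nm

attribute [local instance] Matrix.linftyOpNormedRing Matrix.linftyOpNormedAlgebra

/-- lower bound of the norm of the section -/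
theorem om_lower (h : LCh w e k a R S P T z L Om f)
    (hc : ∀ q ∈ HB d a R, ∀ p, P p q * T = T * P p q) (h0 : f 0 ≠ 0) :
    ∃ c ε b : ℝ, 0 < c ∧ 0 < ε ∧ ε ≤ R / 2 ∧ b < a ∧ ∀ q : Fin (d + 1) → ℂ, (q 0).re ≤ b →
      (∀ i : Fin d, ‖q i.succ‖ < ε) →
      c ≤ hn (hm w S P q) (Om q) * Real.exp (-(2 * (k * (q 0).re / e))) := by
  have hL := L_zero h hc
  have he : (0 : ℝ) < e := Nat.cast_pos.2 h.he
  obtain ⟨B, ε, b, hε, hεR, hb, hB⟩ := GrI_606.hm_bdd h.hR h.vhs (per_of_com h hc)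
  obtain ⟨i, hi⟩ : ∃ i, f 0 i ≠ 0 := by
    by_contra hcon
    push Not at hcon
    exact h0 (funext hcon)
  have hdom : {q : Fin (d + 1) → ℂ | ‖q 0‖ < Real.exp (a / e) ∧ ∀ i : Fin d, ‖q i.succ‖ < R} ∈
      𝓝 (0 : Fin (d + 1) → ℂ) := by
    refine IsOpen.mem_nhds ?_ ⟨by simpa using Real.exp_pos _, fun i => by simpa using h.hR⟩
    have h1 : IsOpen {q : Fin (d + 1) → ℂ | ‖q 0‖ < Real.exp (a / e)} :=
      isOpen_lt (continuous_norm.comp (continuous_apply 0)) continuous_const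
    have h2 : IsOpen {q : Fin (d + 1) → ℂ | ∀ i : Fin d, ‖q i.succ‖ < R} := by
      simp only [ofPred_forall]
      exact isOpen_iInter_of_finite fun i =>
        isOpen_lt (continuous_norm.comp (continuous_apply i.succ)) continuous_const
    exact h1.inter h2
  have hcont : ContinuousAt (fun q => f q i) 0 := by
    have h1 := (h.hf 0 (mem_of_mem_nhds hdom)).differentiableAt hdom
    exact (continuous_apply i).continuousAt.comp h1.continuousAt
  have h2 : ∀ᶠ q in 𝓝 (0 : Fin (d + 1) → ℂ), ‖f 0 i‖ / 2 < ‖f q i‖ := by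
    have h3 := hcont.norm.eventually (lt_mem_nhds (show ‖f 0 i‖ / 2 < ‖f 0 i‖ by
      have := norm_pos_iff.2 hi
      linarith))
    exact h3
  obtain ⟨δ, hδ, hδ2⟩ := Metric.eventually_nhds_iff_ball.1 h2
  set B2 : ℝ := ‖S⁻¹‖ * B * ‖S⁻¹‖ with hB2
  have hfi := norm_pos_iff.2 hi
  refine ⟨(‖f 0 i‖ / 2) ^ 2 / (|B2| + 1), min ε δ, min b (e * Real.log (δ / 2)),
    by positivity, lt_min hε hδ, (min_le_left _ _).trans hεR, (min_le_left _ _).trans_lt hb,
    fun q hq0 hq => ?_⟩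
  have hq0b : (q 0).re ≤ b := hq0.trans (min_le_left _ _)
  have hqε : ∀ i : Fin d, ‖q i.succ‖ < ε := fun i => (hq i).trans_le (min_le_left _ _)
  have hqm : q ∈ HB d a R := ⟨by linarith, fun i => by linarith [hqε i]⟩
  have hcons : (Fin.cons (q 0) (fun i => q i.succ) : Fin (d + 1) → ℂ) = q := Fin.cons_self_tail q
  have hKB := hB (q 0) hq0b (fun i => q i.succ) hqε
  rw [hcons] at hKB
  have hKp : (hm w S P q).PosDef := h.vhs.hmPos hqm
  have hinv := norm_inv_le h.vhs hqm hKB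
  -- the point in the root coordinate
  set u : Fin (d + 1) → ℂ := Fin.cons (Complex.exp (q 0 / e)) (Fin.tail q) with hu
  have hub : u ∈ ball (0 : Fin (d + 1) → ℂ) δ := by
    rw [mem_ball_zero_iff, pi_norm_lt_iff hδ]
    intro j
    refine Fin.cases ?_ (fun j => ?_) j
    · rw [hu, Fin.cons_zero, Complex.norm_exp, Complex.div_natCast_re]
      have h3 : (q 0).re ≤ e * Real.log (δ / 2) := hq0.trans (min_le_right _ _)
      have h4 : (q 0).re / e ≤ Real.log (δ / 2) := by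
        rw [div_le_iff₀ he]; linarith
      calc Real.exp ((q 0).re / e) ≤ Real.exp (Real.log (δ / 2)) := Real.exp_le_exp.2 h4
        _ = δ / 2 := Real.exp_log (by positivity)
        _ < δ := by linarith
    · rw [hu, Fin.cons_succ]
      exact (hq j).trans_le (min_le_right _ _)
  have h3 := hδ2 u hub
  have h4 := h.f_Om q hqm
  have hE1 : EE L (-(q 0 / (tpi * e))) = 1 := by
    unfold GrA_217.EE
    rw [hL, smul_zero]
    exact IsNilpotent.exp_zero
  rw [hE1, Matrix.one_mulVec, ← hu] at h4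
  have h5 : hn (hm w S P q) (f u) =
      hn (hm w S P q) (Om q) * Real.exp (-(2 * (k * (q 0).re / e))) := by
    rw [h4, hn_smul, Complex.norm_exp, mul_comm]
    congr 1
    rw [← Real.exp_nat_mul]
    congr 1
    have : (-(k * q 0 / e : ℂ)).re = -(k * (q 0).re / e) := by
      rw [Complex.neg_re, Complex.div_natCast_re, Complex.mul_re]
      simp
    rw [this]
    push_cast
    ring
  rw [← h5]
  have h6 := coord_le hKp hinv (f u) i
  have h7 : (sf (hm w S P q) (f u) (f u)).re = hn (hm w S P q) (f u) := rfl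
  rw [h7] at h6
  have h8 : 0 ≤ hn (hm w S P q) (f u) := hn_nonneg hKp _
  rw [div_le_iff₀ (by positivity)]
  calc (‖f 0 i‖ / 2) ^ 2 ≤ ‖f u i‖ ^ 2 := by gcongr
    _ ≤ B2 * hn (hm w S P q) (f u) := h6
    _ ≤ (|B2| + 1) * hn (hm w S P q) (f u) :=
        mul_le_mul_of_nonneg_right (by linarith [le_abs_self B2]) h8
    _ = _ := by ring

end nm

end lch

/-! ### the condition `Gen` -/

section gen

open MeasureTheory
open Crest.Agent.R271.Ho51 Crest.Agent.R276.CntDefs_857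

variable {d : ℕ} {M E : Type*} [TopologicalSpace M] [RDom (d + 1) M] [MeasurableSpace M]
    {μ : Measure M} [TopologicalSpace E] [RDom d E]

/-- the data at one point `y` of the divisor, with commuting monodromy `T` -/
structure Pt0 (D : DChart M E μ) (φ ψ₀ : M → ℝ) (w e : ℕ) (k : ℤ) (y : E) (S : Matrix ι ι ℂ)
    (P : ℕ → (Fin (d + 1) → ℂ) → Matrix ι ι ℂ) (T : Matrix ι ι ℂ) (z : ℂ) (L : Matrix ι ι ℂ)
    (Om f : (Fin (d + 1) → ℂ) → ι → ℂ) : Prop where
  lch : LCh w e k (Real.log (D.r y)) (D.r y) S P T z L Om f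
  f0 : f 0 ≠ 0
  psi : ∀ q ∈ HB d (Real.log (D.r y)) (D.r y),
    Real.exp (-ψ₀ (D.σ y (Fin.cons (Complex.exp (q 0)) (Fin.tail q)))) = hn (hm w S P q) (Om q)
  com : ∀ q ∈ HB d (Real.log (D.r y)) (D.r y), ∀ p, P p q * T = T * P p q
  phi : ∀ q ∈ HB d (Real.log (D.r y)) (D.r y),
    Real.exp (D.phW φ y (Fin.cons (Complex.exp (q 0)) (Fin.tail q))) * Real.exp (2 * (q 0).re) =
      (gm w P (fr d) q).det.re

/-- bounds on a punctured polydisc -/
theorem Pt0.bounds {D : DChart M E μ} {φ ψ₀ : M → ℝ} {w e : ℕ} {k : ℤ} {y : E} {S : Matrix ι ι ℂ}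
    {P : ℕ → (Fin (d + 1) → ℂ) → Matrix ι ι ℂ} {T : Matrix ι ι ℂ} {z : ℂ} {L : Matrix ι ι ℂ}
    {Om f : (Fin (d + 1) → ℂ) → ι → ℂ} (h : Pt0 D φ ψ₀ w e k y S P T z L Om f) (n : ℕ) :
    ∃ ε C : ℝ, 0 < ε ∧ ∀ q ∈ PS d ε, D.phW φ y q ≤ C ∧
      D.psI (fun x => ((e * n : ℕ) : ℝ) * ψ₀ x) (n * k) y q ≤ C := by
  have hR := h.lch.hR
  have he : (0 : ℝ) < e := Nat.cast_pos.2 h.lch.he
  obtain ⟨C1, ε1, b1, hC1, hε1, hε1R, hb1, H1⟩ :=
    GrI_606.det_le hR h.lch.vhs (per_of_com h.lch h.com)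
  obtain ⟨c2, ε2, b2, hc2, hε2, hε2R, hb2, H2⟩ := om_lower h.lch h.com h.f0
  refine ⟨min (min ε1 ε2) (Real.exp (min b1 b2)),
    max (Real.log C1) (-(((e * n : ℕ) : ℝ) * Real.log c2)),
    lt_min (lt_min hε1 hε2) (Real.exp_pos _), fun q hq => ?_⟩
  obtain ⟨hq0, hqi⟩ := hq
  set Q : Fin (d + 1) → ℂ := Fin.cons (Complex.log (q 0)) (Fin.tail q) with hQ
  have hQ0 : Q 0 = Complex.log (q 0) := rfl
  have hQi : ∀ i : Fin d, Q i.succ = q i.succ := fun i => rfl
  have hex : (Fin.cons (Complex.exp (Q 0)) (Fin.tail Q) : Fin (d + 1) → ℂ) = q := by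
    rw [hQ0, Complex.exp_log hq0]
    exact Fin.cons_self_tail q
  have hre : (Q 0).re = Real.log ‖q 0‖ := by rw [hQ0, Complex.log_re]
  have hq0n : 0 < ‖q 0‖ := norm_pos_iff.2 hq0
  have hreb : (Q 0).re ≤ min b1 b2 := by
    rw [hre, ← Real.exp_le_exp, Real.exp_log hq0n]
    exact ((hqi 0).trans_le (min_le_right _ _)).le
  have hQε1 : ∀ i : Fin d, ‖Q i.succ‖ < ε1 := fun i => by
    rw [hQi]
    exact (hqi i.succ).trans_le ((min_le_left _ _).trans (min_le_left _ _))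
  have hQε2 : ∀ i : Fin d, ‖Q i.succ‖ < ε2 := fun i => by
    rw [hQi]
    exact (hqi i.succ).trans_le ((min_le_left _ _).trans (min_le_right _ _))
  have hQm : Q ∈ HB d (Real.log (D.r y)) (D.r y) :=
    ⟨(hreb.trans (min_le_left _ _)).trans_lt hb1, fun i => by linarith [hQε1 i]⟩
  have h1 := H1 Q (hreb.trans (min_le_left _ _)) hQε1
  have h2 := H2 Q (hreb.trans (min_le_right _ _)) hQε2
  have h3 := h.phi Q hQm
  have h4 := h.psi Q hQm
  rw [hex] at h3 h4
  constructor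
  · refine le_trans ?_ (le_max_left _ _)
    rw [← h3] at h1
    have h5 := le_of_mul_le_mul_right h1 (Real.exp_pos _)
    rwa [Real.le_log_iff_exp_le hC1]
  · refine le_trans ?_ (le_max_right _ _)
    rw [← h4, ← Real.exp_add] at h2
    have h5 := Real.log_le_log hc2 h2
    rw [Real.log_exp] at h5
    unfold DChart.psI
    have h6 : Real.log (‖q 0‖ ^ 2) = 2 * (Q 0).re := by
      rw [Real.log_pow, hre]; push_cast; ring
    rw [h6]
    have h7 : 0 ≤ ((e * n : ℕ) : ℝ) := Nat.cast_nonneg _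
    have h8 := mul_le_mul_of_nonneg_left h5 h7
    have h9 : ((e * n : ℕ) : ℝ) * (-ψ₀ (D.σ y q) + -(2 * (k * (Q 0).re / e))) =
        -(((e * n : ℕ) : ℝ) * ψ₀ (D.σ y q) + ((n * k : ℤ) : ℝ) * (2 * (Q 0).re)) := by
      push_cast
      field_simp
      ring
    rw [h9] at h8
    linarith

/-- **GEN0** -/
theorem gen_zero {D : DChart M E μ} {φ ψ₀ : M → ℝ} {w e : ℕ} {k : ℤ} {O : Set E} (hO : IsOpen O)
    (hne : O.Nonempty) {S : E → Matrix ι ι ℂ} {P : E → ℕ → (Fin (d + 1) → ℂ) → Matrix ι ι ℂ}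
    {T : E → Matrix ι ι ℂ} {z : E → ℂ} {L : E → Matrix ι ι ℂ}
    {Om f : E → (Fin (d + 1) → ℂ) → ι → ℂ}
    (h : ∀ y ∈ O, Pt0 D φ ψ₀ w e k y (S y) (P y) (T y) (z y) (L y) (Om y) (f y)) (n : ℕ) :
    Gen D φ (fun x => ((e * n : ℕ) : ℝ) * ψ₀ x) (n * k) 0 := by
  refine ⟨O, hO, hne, fun y hy => ?_⟩
  obtain ⟨ε, C, hε, H⟩ := (h y hy).bounds n
  refine ⟨ε, C, hε, fun q hq => ⟨?_, (H q hq).2⟩⟩
  have := (H q hq).1
  simpa using this

end gen

end Crest.Agent.R276.GrJ_606
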