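import Mathlib
import Crest.Agent.R276.DescF_327

/-!
# R276 (helper327): scalar action on the `CY` line: from a slice to a neighbourhood
-/

set_option autoImplicit false
set_option linter.unusedSectionVars false

noncomputable section

open Set Filter Topology Matrix
open scoped ContDiff ComplexOrder
open Crest.Agent.R271.Ho51 Crest.Agent.R276.Ipc735
open Crest.Agent.R276.DescC_327 Crest.Agent.R276.DescF_327
open Crest.Agent.R276.VLevi_327

namespace Crest.Agent.R276.HullT_327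

attribute [local instance] Matrix.linftyOpNormedRing Matrix.linftyOpNormedAlgebra

variable {m r N w : ℕ} {X M : Type*} [TopologicalSpace X] [RDom m X] [TopologicalSpace M]
  [RDom r M] {ι : Fin r → Fin m} {f : X → M} {V : VHS m X N w} {om : X → Fin N → ℂ}

/-- if `T` acts on the `CY` line by a scalar along a slice `s` (with `f ∘ s` open) then it does so
on a neighbourhood -/
theorem scalar_of_slice (hL : CYL V om) (hfl : Fl V ι) (hf : Prj ι f) {Q : Type*}
    [TopologicalSpace Q] {s : Q → X} {q₀ : Q} (hs : ContinuousAt s q₀)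
    (ho : 𝓝 (f (s q₀)) ≤ Filter.map (f ∘ s) (𝓝 q₀)) (hfc : ContinuousAt f (s q₀))
    {T : GL (Fin N) ℤ} {ζ : ℂ}
    (h : ∀ᶠ q in 𝓝 q₀, cm T *ᵥ lV V.P om (s q₀) (s q) = ζ • lV V.P om (s q₀) (s q)) :
    ∀ᶠ y in 𝓝 (s q₀), cm T *ᵥ lV V.P om (s q₀) y = ζ • lV V.P om (s q₀) y := by
  obtain ⟨W, hW, hW'⟩ := exists_nbhd hL hfl hf (s q₀)
  have h1 : ∀ᶠ q in 𝓝 q₀, s q ∈ W ∧
      cm T *ᵥ lV V.P om (s q₀) (s q) = ζ • lV V.P om (s q₀) (s q) :=
    (hs.eventually_mem hW).and h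
  have h2 : (f ∘ s) '' {q | s q ∈ W ∧
      cm T *ᵥ lV V.P om (s q₀) (s q) = ζ • lV V.P om (s q₀) (s q)} ∈ 𝓝 (f (s q₀)) :=
    ho (image_mem_map h1)
  filter_upwards [hW, hfc.preimage_mem_nhds h2] with y hy hy2
  obtain ⟨q, ⟨hq1, hq2⟩, hq3⟩ := hy2
  obtain ⟨-, -, -, -, k, hk⟩ := hW' (s q) hq1 y hy hq3
  rw [hk, mulVec_smul, hq2, smul_comm]

end Crest.Agent.R276.HullT_327
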