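import Mathlib
import Crest.Agent.R276.HulB_606
import Crest.Agent.R276.GrJ_606
import Crest.Agent.R276.BdNf9_651
import Crest.Agent.R276.GrAs1_857

/-!
# R276, leaf COUNT (helper606): case (A) of the alternative

If the monodromy of one boundary chart is scalar on the section then `Gen D φ (P ψ) k 0`.
-/

set_option autoImplicit false
set_option linter.unusedSectionVars false

noncomputable section

open Set Filter Topology Matrix Metric MeasureTheory
open Crest.Agent.R271.Ho51 Crest.Agent.R276.Ipc735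
open Crest.Agent.R276.BdNf1_651
open Crest.Agent.R276.BdNf2_651
open Crest.Agent.R276.BdNf3_651
open Crest.Agent.R276.BdNf4_651
open Crest.Agent.R276.BdNf5_651
open Crest.Agent.R276.BdNf6_651
open Crest.Agent.R276.BdNf7_651
open Crest.Agent.R276.BdNf8_651
open Crest.Agent.R276.CntDefs_857 (PS DChart Gen)
open Crest.Agent.R276.LftDefs_327 (WD LD)
open Crest.Agent.R276.GrB_217 (HB)

namespace Crest.Agent.R276.HulC_606

variable {d m N w : ℕ} {M E X : Type*} [TopologicalSpace M] [RDom (d + 1) M]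
    [MeasurableSpace M] {μ : Measure M} [TopologicalSpace E] [RDom d E] [TopologicalSpace X]
    [RDom m X] {D : DChart M E μ} {V : VHS m X N w} {om : X → Fin N → ℂ} {u : X → ℂ}
    {f : X → M}

/-- the large charts of the divisor -/
theorem exists_ch (D : DChart M E μ) (y : E) :
    ∃ e : OpenPartialHomeomorph E (Fin d → ℂ), IsCh e ∧ y ∈ e.source ∧
      e.target = ball (cp y) (D.r y) := by
  have hr := GrH_217.r_pos D y
  obtain ⟨s, h1, -, h3⟩ := D.cov.ev (cp y) (D.r y) hr (D.hball y)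
  have h4 : y ∈ (cp ⁻¹' ball (cp y) (D.r y) : Set E) := mem_ball_self hr
  rw [h3, mem_iUnion] at h4
  obtain ⟨i, hi⟩ := h4
  exact ⟨s i, (h1 i).1, hi, (h1 i).2⟩

/-- a holomorphic relation on an open subset of the half space holds everywhere -/
theorem ident_HS {r : ℝ} {F : (Fin (d + 1) → ℂ) → Fin N → ℂ} (hF : DifferentiableOn ℂ F (HS d r))
    {O : Set (Fin (d + 1) → ℂ)} (hO : IsOpen O) (hne : (O ∩ HS d r).Nonempty)
    (h0 : ∀ q ∈ O ∩ HS d r, F q = 0) : ∀ q ∈ HS d r, F q = 0 := by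
  obtain ⟨q0, hq0⟩ := hne
  have ha : AnalyticOnNhd ℂ F (HS d r) :=
    Crest.Agent.R266.SCV.analyticOnNhd_of_differentiableOn (isOpen_HS d r) hF
  have h1 : F =ᶠ[𝓝 q0] 0 := by
    filter_upwards [(hO.inter (isOpen_HS d r)).mem_nhds hq0] with q hq using h0 q hq
  exact fun q hq => ha.eqOn_zero_of_preconnected_of_eventuallyEq_zero
    (convex_HS d r).isPreconnected hq0.2 h1 hq

section fam

variable {l : LD D V om u f} {M0 : ℕ} {φ ψ : M → ℝ} {ι : Fin (d + 1) → Fin m}

/-- the scalar condition at `y` -/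
def Scal (B : BFam l M0 ψ) (y : E) (ζ : ℂ) : Prop :=
  ∀ q ∈ HS d (D.r y), cm (B.n y).T *ᵥ Om (B.n y) om l.ku M0 (B.g y) q =
    ζ • Om (B.n y) om l.ku M0 (B.g y) q

theorem Scal.near {B : BFam l M0 ψ} {y : E} {ζ : ℂ} (h : Scal B y ζ)
    {ε : OpenPartialHomeomorph E (Fin d → ℂ)} (hε : IsCh ε) (hy : y ∈ ε.source)
    (ht : ε.target = ball (cp y) (D.r y)) {y' : E} (hy' : y' ∈ ε.source) : Scal B y' ζ := by
  obtain ⟨A, c, hA, -, -, hOv, hQ⟩ := B.tr y ε hε hy ht y' hy'
  have hd : DifferentiableOn ℂ (fun q => cm (B.n y').T *ᵥ Om (B.n y') om l.ku M0 (B.g y') q -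
      ζ • Om (B.n y') om l.ku M0 (B.g y') q) (HS d (D.r y')) := by
    have h1 : DifferentiableOn ℂ (Om (B.n y') om l.ku M0 (B.g y')) (HS d (D.r y')) :=
      (B.cy y').bot.hol
    exact (((Matrix.mulVecLin (cm (B.n y').T)).toContinuousLinearMap.differentiable).comp_differentiableOn
      h1).sub (h1.const_smul ζ)
  have h2 := ident_HS hd (isOpen_Ov (D.r y) (D.r y') (cp y' - cp y))
    (by obtain ⟨q, hq⟩ := hOv; exact ⟨q, hq, hq.1⟩) (fun q hq => by
      show cm (B.n y').T *ᵥ Om (B.n y') om l.ku M0 (B.g y') q -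
        ζ • Om (B.n y') om l.ku M0 (B.g y') q = 0
      rw [hQ q hq.1, Matrix.mulVec_smul, Matrix.mulVec_mulVec, hA.cmT_eq hOv,
        ← Matrix.mulVec_mulVec, h _ hq.1.2, Matrix.mulVec_smul, smul_comm, sub_self])
  intro q hq
  exact sub_eq_zero.1 (h2 q hq)

/-- the monodromy commutes with the variation at `y` -/
theorem Scal.com (hH : HulB_606.HulS V om) (hw : WD V om u M0 f ι φ ψ) {B : BFam l M0 ψ} {y : E}
    {ζ : ℂ} (h : Scal B y ζ) {q : Fin (d + 1) → ℂ} (hq : q ∈ HS d (D.r y)) (p : ℕ) :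
    PP (B.n y) p q * cm (B.n y).T = cm (B.n y).T * PP (B.n y) p q := by
  refine HulB_606.com_PP (HulB_606.com_of_scalar hH hw l y (B.n y) (ζ := ζ) hq ?_) p
  filter_upwards [(isOpen_HS d (D.r y)).mem_nhds hq] with q' hq'
  have h1 := h q' hq'
  unfold BdNf5_651.Om at h1
  rw [Matrix.mulVec_smul, smul_comm] at h1
  exact smul_right_injective _ (Complex.exp_ne_zero _) h1

theorem pt0 (hH : HulB_606.HulS V om) (hw : WD V om u M0 f ι φ ψ) {B : BFam l M0 ψ} {y : E}
    {ζ : ℂ} (h : Scal B y ζ) :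
    GrJ_606.Pt0 D φ ψ w (eN N * M0) B.k y (B.n y).fr.S (PP (B.n y)) (cm (B.n y).T) (zM l.ku M0)
      (LL (B.n y) (eN N * M0)) (Om (B.n y) om l.ku M0 (B.g y)) (B.F y) where
  lch := B.lch y
  f0 := BdNf9_651.f_zero B y
  psi := (BdNf9_651.fam B).psi y
  com := fun q hq p => h.com hH hw hq p
  phi := fun q hq => by
    have h1 := GrAs1_857.det_q hw l y (B.n y) (z := q) hq
    have hex := ex_mem (GrH_217.r_pos D y) (show q ∈ HS d (D.r y) from hq)
    rw [h1]
    show Real.exp (D.phW φ y (ex q)) * Real.exp (2 * (q 0).re) = _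
    rw [GrAs1_857.phW_eq hw l y hex]
    have h2 : D.J y (ex q) ≠ 0 := D.jac y _ hex
    have h3 : 0 < ‖D.J y (ex q)‖ ^ 2 := by positivity
    rw [Real.exp_log (mul_pos h3 (hw.pos _)), ex_zero, Complex.norm_exp, ← Real.exp_nat_mul]
    push_cast
    ring

/-- **case (A) of the alternative** -/
theorem gen0 (hH : HulB_606.HulS V om) (hw : WD V om u M0 f ι φ ψ) (B : BFam l M0 ψ) {y₀ : E}
    {ζ : ℂ} (hsc : Scal B y₀ ζ) (n : ℕ) :
    Gen D φ (fun x => ((eN N * M0 * n : ℕ) : ℝ) * ψ x) (n * B.k) 0 := by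
  obtain ⟨ε, hε, hy, ht⟩ := exists_ch D y₀
  exact GrJ_606.gen_zero ε.open_source ⟨y₀, hy⟩
    (fun y hy' => pt0 hH hw (hsc.near hε hy ht hy')) n

end fam

end Crest.Agent.R276.HulC_606
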