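import Mathlib
import Crest.Agent.R276.BdNf8_651
import Crest.Agent.R276.GrAs1_857

/-!
# R276, leaf LC4 (helper327): upper bound of the metric of `L` at every point of a boundary divisor

`low_of_bfam`: from 651's family of normal forms: `exp (-psI) ≤ C (1 + |log |q₀||)^K` on the polydisc
of radius `r/2` around every point of the divisor (for all multiples of the weight).
-/

set_option autoImplicit false
set_option linter.unusedSectionVars false

noncomputable section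

open Set Filter Topology Matrix Metric MeasureTheory
open Crest.Agent.R271.Ho51
open Crest.Agent.R276.Ipc735
open Crest.Agent.R276.BdNf1_651
open Crest.Agent.R276.BdNf2_651
open Crest.Agent.R276.BdNf3_651
open Crest.Agent.R276.BdNf4_651
open Crest.Agent.R276.BdNf5_651
open Crest.Agent.R276.BdNf6_651
open Crest.Agent.R276.BdNf7_651
open Crest.Agent.R276.BdNf8_651
open Crest.Agent.R276.VLevi_327 (CYL)
open Crest.Agent.R276.CntDefs_857 (PS DChart)
open Crest.Agent.R276.LftDefs_327 (WD LD)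
open Crest.Agent.R276.GrA_217 (EE EE_zero)
open Crest.Agent.R276.GrC_217 (LCh tpi norm_tpi)
open Crest.Agent.R276.GrAs1_857 (lg ex_lg lg_mem)

namespace Crest.Agent.R276.LowF_327

/-- polynomial growth of `exp (s L)` -/
theorem EE_bound {ι : Type*} [Fintype ι] [DecidableEq ι] {L : Matrix ι ι ℂ} (hL : IsNilpotent L) :
    ∃ (C : ℝ) (K : ℕ), 0 ≤ C ∧ ∀ (s : ℂ) (v : ι → ℂ), ‖EE L s *ᵥ v‖ ≤ C * (1 + ‖s‖) ^ K * ‖v‖ := by
  obtain ⟨K, hK⟩ := hL
  have h1 : ∀ i : ℕ, ∃ C : ℝ, 0 ≤ C ∧ ∀ v : ι → ℂ, ‖(L ^ i) *ᵥ v‖ ≤ C * ‖v‖ := by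
    intro i
    refine ⟨‖(Matrix.toLin' (L ^ i)).toContinuousLinearMap‖, norm_nonneg _, fun v => ?_⟩
    exact (Matrix.toLin' (L ^ i)).toContinuousLinearMap.le_opNorm v
  choose C hC0 hC using h1
  refine ⟨∑ i ∈ Finset.range K, C i, K, Finset.sum_nonneg fun i _ => hC0 i, fun s v => ?_⟩
  have h2 : (s • L) ^ K = 0 := by rw [smul_pow, hK, smul_zero]
  unfold EE
  rw [IsNilpotent.exp_eq_sum h2, Matrix.sum_mulVec, Finset.sum_mul, Finset.sum_mul]
  refine (norm_sum_le _ _).trans (Finset.sum_le_sum fun i hi => ?_)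
  have h3 : ((i.factorial : ℚ)⁻¹ • (s • L) ^ i) *ᵥ v =
      (((i.factorial : ℚ)⁻¹ : ℚ) : ℂ) • (s ^ i • (L ^ i *ᵥ v)) := by
    rw [smul_pow, ← Matrix.smul_mulVec, ← Matrix.smul_mulVec]
    congr 1
  rw [h3, norm_smul, norm_smul, norm_pow]
  have h4 : ‖(((i.factorial : ℚ)⁻¹ : ℚ) : ℂ)‖ ≤ 1 := by
    push_cast
    rw [norm_inv, Complex.norm_natCast]
    exact inv_le_one_of_one_le₀ (by exact_mod_cast Nat.one_le_iff_ne_zero.2 (Nat.factorial_ne_zero i))
  have h5 : ‖s‖ ^ i ≤ (1 + ‖s‖) ^ K := by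
    calc ‖s‖ ^ i ≤ (1 + ‖s‖) ^ i := pow_le_pow_left₀ (norm_nonneg _) (by linarith) i
      _ ≤ (1 + ‖s‖) ^ K := pow_le_pow_right₀ (by linarith [norm_nonneg s])
          (Finset.mem_range.1 hi).le
  have h6 := hC i v
  calc ‖(((i.factorial : ℚ)⁻¹ : ℚ) : ℂ)‖ * (‖s‖ ^ i * ‖L ^ i *ᵥ v‖)
      ≤ 1 * ((1 + ‖s‖) ^ K * (C i * ‖v‖)) := by
        gcongr
    _ = C i * (1 + ‖s‖) ^ K * ‖v‖ := by ring

section one

variable {d : ℕ} {r : ℝ} {N w : ℕ} {m : ℕ} {X : Type*} [TopologicalSpace X] [RDom m X]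
variable {σ : (Fin (d + 1) → ℂ) → X} {V : VHS m X N w} (n : Nf V σ r) (h : HP σ r)

/-- a quadratic form is bounded -/
theorem qf_bound {ι : Type*} [Fintype ι] (K : Matrix ι ι ℂ) : ∃ B : ℝ, 0 ≤ B ∧ ∀ u : ι → ℂ,
    (star u ⬝ᵥ K *ᵥ u).re ≤ B * ‖u‖ ^ 2 := by
  classical
  refine ⟨Fintype.card ι * ‖(Matrix.toLin' K).toContinuousLinearMap‖, by positivity, fun u => ?_⟩
  have h1 : ‖K *ᵥ u‖ ≤ ‖(Matrix.toLin' K).toContinuousLinearMap‖ * ‖u‖ :=
    (Matrix.toLin' K).toContinuousLinearMap.le_opNorm u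
  calc (star u ⬝ᵥ K *ᵥ u).re ≤ ‖star u ⬝ᵥ K *ᵥ u‖ := Complex.re_le_norm _
    _ ≤ ∑ i, ‖star u i * (K *ᵥ u) i‖ := norm_sum_le _ _
    _ ≤ ∑ _i : ι, ‖u‖ * (‖(Matrix.toLin' K).toContinuousLinearMap‖ * ‖u‖) := by
        refine Finset.sum_le_sum fun i _ => ?_
        rw [norm_mul]
        refine mul_le_mul ?_ ((norm_le_pi_norm _ i).trans h1) (norm_nonneg _) (norm_nonneg _)
        rw [Pi.star_apply, norm_star]
        exact norm_le_pi_norm u i
    _ = _ := by
        rw [Finset.sum_const, Finset.card_univ, nsmul_eq_mul]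
        ring

include h in
/-- the Hodge norms of flat vectors grow at most polynomially in `Re q₀` -/
theorem H_le : ∃ (B : ℝ) (K : ℕ), 0 ≤ B ∧ ∀ q : Fin (d + 1) → ℂ, (q 0).re ≤ Real.log r - 1 →
    |(q 0).im| ≤ Real.pi → (∀ i : Fin d, ‖q i.succ‖ < r / 2) → ∀ u : Fin N → ℂ,
      H n q u ≤ B * (1 + (Real.log r - (q 0).re)) ^ K * ‖u‖ ^ 2 := by
  have hr := h.hr
  obtain ⟨B, hB, hb⟩ := qf_bound (hodge w n.fr.S (n.fr.E (cs (0 : Fin d → ℂ) (-1 + Real.log r))))
  obtain ⟨K, hK⟩ := exists_nat_ge (KN (Fin N))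
  refine ⟨Real.exp (KN (Fin N) * Real.pi) * Real.exp (BndA_563.C0 (Fin N)) * B, K, by positivity,
    fun q h0 him hq u => ?_⟩
  set y : Fin d → ℂ := fun i => q i.succ with hy
  have hqy : q = cs y (q 0) := by
    funext i
    refine Fin.cases ?_ (fun j => ?_) i <;> simp [hy]
  have hyr : ∀ i, ‖y i‖ < r := fun i => (hq i).trans (by linarith)
  have h1 := (H_growth n h hyr u (t := q 0 - Real.log r) (M := Real.pi)
    (by rw [Complex.sub_re, Complex.ofReal_re]; linarith)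
    (by rw [Complex.sub_im, Complex.ofReal_im, sub_zero]; exact him)).1
  have e1 : q 0 - Real.log r + Real.log r = q 0 := by ring
  have e2 : |(q 0 - Real.log r : ℂ).re| = Real.log r - (q 0).re := by
    rw [Complex.sub_re, Complex.ofReal_re, abs_of_nonpos (by linarith)]
    ring
  rw [e1, e2] at h1
  have h2 := H_radial n h (y := y) (y' := 0) hq (fun i => by simpa using by linarith)
    (t := -1 + Real.log r) (by simp) u
  have h3 : H n (cs (0 : Fin d → ℂ) (-1 + Real.log r)) u ≤ B * ‖u‖ ^ 2 := hb u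
  have h4 : (Real.log r - (q 0).re) ^ KN (Fin N) ≤ (1 + (Real.log r - (q 0).re)) ^ K := by
    have h5 : (0 : ℝ) ≤ Real.log r - (q 0).re := by linarith
    calc (Real.log r - (q 0).re) ^ KN (Fin N) ≤ (1 + (Real.log r - (q 0).re)) ^ KN (Fin N) :=
          Real.rpow_le_rpow h5 (by linarith) (KN_nonneg _)
      _ ≤ (1 + (Real.log r - (q 0).re)) ^ (K : ℝ) :=
          Real.rpow_le_rpow_of_exponent_le (by linarith) hK
      _ = _ := Real.rpow_natCast _ _
  have h6 : 0 ≤ Real.log r - (q 0).re := by linarith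
  rw [← hqy] at h1
  calc H n q u ≤ H n (cs y (-1 + Real.log r)) u *
        (Real.exp (KN (Fin N) * Real.pi) * (Real.log r - (q 0).re) ^ KN (Fin N)) := h1
    _ ≤ (Real.exp (BndA_563.C0 (Fin N)) * (B * ‖u‖ ^ 2)) *
        (Real.exp (KN (Fin N) * Real.pi) * (1 + (Real.log r - (q 0).re)) ^ K) := by
        gcongr
        exact h2.trans (mul_le_mul_of_nonneg_left h3 (Real.exp_pos _).le)
    _ = _ := by ring

end one

section fam

variable {d m N w : ℕ} {M E X : Type*} [TopologicalSpace M] [RDom (d + 1) M]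
    [MeasurableSpace M] {μ : Measure M} [TopologicalSpace E] [RDom d E] [TopologicalSpace X]
    [RDom m X] {D : DChart M E μ} {V : VHS m X N w} {om : X → Fin N → ℂ} {u : X → ℂ}
    {f : X → M} {l : LD D V om u f} {M0 : ℕ} {ψ : M → ℝ}

/-- the norm of the twisted section near the divisor -/
theorem om_le (B : BFam l M0 ψ) (y : E) : ∃ (C : ℝ) (K : ℕ), 0 ≤ C ∧
    ∀ q : Fin (d + 1) → ℂ, (q 0).re ≤ Real.log (D.r y) - 1 → |(q 0).im| ≤ Real.pi →
      (∀ i : Fin d, ‖q i.succ‖ < D.r y / 2) →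
      Real.exp (-ψ (D.σ y (ex q))) ≤
        C * Real.exp (2 * (B.k * (q 0).re / (eN N * M0 : ℕ))) * (1 + |(q 0).re|) ^ K := by
  have hr := GrH_217.r_pos D y
  have hr1 := r_le_one D y
  have hlr : Real.log (D.r y) ≤ 0 := Real.log_nonpos hr.le hr1
  have hL := B.lch y
  set e : ℕ := eN N * M0 with he
  have he0 : (0 : ℝ) < (e : ℝ) := by exact_mod_cast hL.he
  obtain ⟨B1, K1, hB1, hb1⟩ := H_le (B.n y) (hp l y)
  obtain ⟨C2, K2, hC2, hb2⟩ := EE_bound hL.nil
  -- `f` is bounded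
  set Q : Set (Fin (d + 1) → ℂ) := {q | ‖q 0‖ ≤ Real.exp ((Real.log (D.r y) - 1) / e) ∧
    ∀ i : Fin d, ‖q i.succ‖ ≤ D.r y / 2} with hQ
  have hQc : IsCompact Q := by
    have h1 : IsClosed Q := by
      have h2 : Q = {q | ‖q 0‖ ≤ Real.exp ((Real.log (D.r y) - 1) / e)} ∩
          ⋂ i : Fin d, {q | ‖q i.succ‖ ≤ D.r y / 2} := by
        ext q; simp [hQ]
      rw [h2]
      exact (isClosed_le (by fun_prop) continuous_const).inter
        (isClosed_iInter fun i => isClosed_le (by fun_prop) continuous_const)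
    refine (isCompact_closedBall (0 : Fin (d + 1) → ℂ)
      (max (Real.exp ((Real.log (D.r y) - 1) / e)) (D.r y / 2))).of_isClosed_subset h1 ?_
    rintro q ⟨h2, h3⟩
    rw [mem_closedBall_zero_iff, pi_norm_le_iff_of_nonneg (by positivity)]
    intro i
    refine Fin.cases (h2.trans (le_max_left _ _)) (fun j => (h3 j).trans (le_max_right _ _)) i
  obtain ⟨F0, hF0⟩ := hQc.exists_bound_of_continuousOn (hL.hf.continuousOn.mono (by
    rintro q ⟨h2, h3⟩
    refine ⟨h2.trans_lt ?_, fun i => (h3 i).trans_lt (by linarith)⟩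
    apply Real.exp_lt_exp.2
    gcongr
    linarith))
  refine ⟨B1 * C2 ^ 2 * |F0| ^ 2 * 2 ^ K1 * (1 + Real.pi) ^ (2 * K2), K1 + 2 * K2, by positivity,
    fun q h0 him hq => ?_⟩
  have hqHS : q ∈ HS d (D.r y) := ⟨by linarith, fun i => (hq i).trans (by linarith)⟩
  have hre : (q 0).re ≤ 0 := by linarith
  have hab : |(q 0).re| = -(q 0).re := abs_of_nonpos hre
  rw [← B.psi y q hqHS]
  -- the vector
  set v : Fin N → ℂ := B.F y (Fin.cons (Complex.exp (q 0 / e)) (Fin.tail q)) with hv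
  have hvle : ‖v‖ ≤ |F0| := by
    refine (hF0 _ ⟨?_, fun i => ?_⟩).trans (le_abs_self _)
    · rw [Fin.cons_zero, Complex.norm_exp]
      apply Real.exp_le_exp.2
      have h1 : (q 0 / (e : ℂ)).re = (q 0).re / e := by
        rw [Complex.div_natCast_re]
      rw [h1]
      gcongr
    · rw [Fin.cons_succ]
      exact (hq i).le
  have hOm : ‖Om (B.n y) om l.ku M0 (B.g y) q‖ ≤
      Real.exp (B.k * (q 0).re / e) * (C2 * (1 + ‖q 0‖) ^ K2 * |F0|) := by
    have h1 := hL.Om_eq (q := q) hqHS (q 0 / (tpi * e))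
    rw [sub_self, EE_zero hL.nil, Matrix.one_mulVec] at h1
    have h2 : Om (B.n y) om l.ku M0 (B.g y) q = Complex.exp (B.k * q 0 / e) •
        (EE (LL (B.n y) e) (q 0 / (tpi * e)) *ᵥ v) := by
      rw [h1, smul_smul, ← Complex.exp_add, add_neg_cancel, Complex.exp_zero, one_smul]
    rw [h2, norm_smul]
    have h3 : ‖Complex.exp ((B.k : ℂ) * q 0 / e)‖ = Real.exp (B.k * (q 0).re / e) := by
      rw [Complex.norm_exp]
      congr 1
      have h1 : (B.k : ℂ) * q 0 / (e : ℂ) = (((B.k : ℝ) / e : ℝ) : ℂ) * q 0 := by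
        push_cast; ring
      rw [h1, Complex.re_ofReal_mul]
      ring
    rw [h3]
    have h4 : ‖q 0 / (tpi * (e : ℂ))‖ ≤ ‖q 0‖ := by
      rw [norm_div, norm_mul, norm_tpi, Complex.norm_natCast]
      refine div_le_self (norm_nonneg _) ?_
      have h5 : (1 : ℝ) ≤ e := by exact_mod_cast hL.he
      have h6 := Real.pi_gt_three
      nlinarith
    have h5 := hb2 (q 0 / (tpi * e)) v
    gcongr
    refine h5.trans ?_
    gcongr
  have hq0 : ‖q 0‖ ≤ |(q 0).re| + Real.pi :=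
    (Complex.norm_le_abs_re_add_abs_im _).trans (by linarith)
  have hH := hb1 q h0 him hq (Om (B.n y) om l.ku M0 (B.g y) q)
  have h7 : 1 + (Real.log (D.r y) - (q 0).re) ≤ 2 * (1 + |(q 0).re|) := by
    rw [hab]; linarith
  have h7' : 0 ≤ 1 + (Real.log (D.r y) - (q 0).re) := by linarith
  have h8 : 1 + ‖q 0‖ ≤ (1 + Real.pi) * (1 + |(q 0).re|) := by
    have h9 := Real.pi_pos
    have h10 := abs_nonneg (q 0).re
    nlinarith
  have h11 : Real.exp (B.k * (q 0).re / e) ^ 2 = Real.exp (2 * (B.k * (q 0).re / e)) := by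
    rw [← Real.exp_nat_mul]; norm_num
  calc H (B.n y) q (Om (B.n y) om l.ku M0 (B.g y) q)
      ≤ B1 * (1 + (Real.log (D.r y) - (q 0).re)) ^ K1 *
        ‖Om (B.n y) om l.ku M0 (B.g y) q‖ ^ 2 := hH
    _ ≤ B1 * (2 * (1 + |(q 0).re|)) ^ K1 * (Real.exp (B.k * (q 0).re / e) *
        (C2 * ((1 + Real.pi) * (1 + |(q 0).re|)) ^ K2 * |F0|)) ^ 2 := by
        gcongr
        refine hOm.trans ?_
        gcongr
    _ = B1 * C2 ^ 2 * |F0| ^ 2 * 2 ^ K1 * (1 + Real.pi) ^ (2 * K2) *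
        (Real.exp (B.k * (q 0).re / e) ^ 2) * (1 + |(q 0).re|) ^ (K1 + 2 * K2) := by
        rw [mul_pow, mul_pow, mul_pow, mul_pow, mul_pow, pow_add, pow_mul', pow_mul']
        ring
    _ = _ := by rw [h11]

/-- **(LOW)** -/
theorem low_of_bfam (B : BFam l M0 ψ) (hψ : Continuous ψ) (n : ℕ) (y : E) :
    ∃ (C : ℝ) (K : ℕ), ∀ q ∈ PS d (D.r y / 2),
      Real.exp (-D.psI (fun x => ((eN N * M0 * n : ℕ) : ℝ) * ψ x) (n * B.k) y q) ≤
        C * (1 + |Real.log ‖q 0‖|) ^ K := by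
  have hr := GrH_217.r_pos D y
  have hr1 := r_le_one D y
  have hL := B.lch y
  set e : ℕ := eN N * M0 with he
  have he0 : (0 : ℝ) < (e : ℝ) := by exact_mod_cast hL.he
  obtain ⟨C, K, hC, hb⟩ := om_le B y
  -- the compact shell
  set Q : Set (Fin (d + 1) → ℂ) := {q | D.r y * Real.exp (-1) ≤ ‖q 0‖ ∧
    ∀ i, ‖q i‖ ≤ D.r y / 2} with hQ
  have hQc : IsCompact Q := by
    have h1 : IsClosed Q := by
      have h2 : Q = {q | D.r y * Real.exp (-1) ≤ ‖q 0‖} ∩ ⋂ i, {q | ‖q i‖ ≤ D.r y / 2} := by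
        ext q; simp [hQ]
      rw [h2]
      exact (isClosed_le continuous_const (by fun_prop)).inter
        (isClosed_iInter fun i => isClosed_le (by fun_prop) continuous_const)
    refine (isCompact_closedBall (0 : Fin (d + 1) → ℂ) (D.r y / 2)).of_isClosed_subset h1 ?_
    rintro q ⟨-, h3⟩
    rw [mem_closedBall_zero_iff, pi_norm_le_iff_of_nonneg (by positivity)]
    exact h3
  have hQs : Q ⊆ PS d (D.r y) := by
    rintro q ⟨h1, h2⟩
    refine ⟨fun h0 => ?_, fun i => (h2 i).trans_lt (by linarith)⟩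
    rw [h0, norm_zero] at h1
    have : 0 < D.r y * Real.exp (-1) := by positivity
    linarith
  obtain ⟨C', hC'⟩ := hQc.exists_bound_of_continuousOn (f := fun q =>
    Real.exp (-D.psI (fun x => ((e * n : ℕ) : ℝ) * ψ x) (n * B.k) y q)) (by
    have h1 : ContinuousOn (fun q => ψ (D.σ y q)) Q :=
      hψ.comp_continuousOn ((D.cont y).mono hQs)
    have h2 : ContinuousOn (fun q : Fin (d + 1) → ℂ => Real.log (‖q 0‖ ^ 2)) Q := by
      refine ContinuousOn.log (by fun_prop) fun q hq => ?_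
      have := norm_pos_iff.2 (hQs hq).1
      positivity
    exact Real.continuous_exp.comp_continuousOn
      (((continuousOn_const.mul h1).add (continuousOn_const.mul h2)).neg))
  refine ⟨C ^ (e * n) + |C'|, K * (e * n), fun q hq => ?_⟩
  have hx : 0 < ‖q 0‖ := norm_pos_iff.2 hq.1
  have h1le : (1 : ℝ) ≤ (1 + |Real.log ‖q 0‖|) ^ (K * (e * n)) :=
    one_le_pow₀ (le_add_of_nonneg_right (abs_nonneg _))
  rcases le_or_gt (D.r y * Real.exp (-1)) ‖q 0‖ with hcase | hcase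
  · have h2 := hC' q ⟨hcase, fun i => (hq.2 i).le⟩
    rw [Real.norm_eq_abs, abs_of_pos (Real.exp_pos _)] at h2
    have h3 : 0 ≤ C ^ (e * n) := by positivity
    calc _ ≤ C' := h2
      _ ≤ |C'| := le_abs_self _
      _ ≤ (C ^ (e * n) + |C'|) * 1 := by linarith
      _ ≤ _ := by gcongr
  · set z := lg q with hz
    have hexz : ex z = q := ex_lg hq.1
    have hz0 : z 0 = Complex.log (q 0) := by simp [hz, lg]
    have hzre : (z 0).re = Real.log ‖q 0‖ := by rw [hz0, Complex.log_re]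
    have h2 : (z 0).re ≤ Real.log (D.r y) - 1 := by
      rw [hzre]
      have h3 := Real.log_le_log hx hcase.le
      rwa [Real.log_mul hr.ne' (Real.exp_pos _).ne', Real.log_exp, ← sub_eq_add_neg] at h3
    have h3 : |(z 0).im| ≤ Real.pi := by
      rw [hz0, Complex.log_im]; exact Complex.abs_arg_le_pi _
    have h4 : ∀ i : Fin d, ‖z i.succ‖ < D.r y / 2 := by
      intro i
      have : z i.succ = q i.succ := by simp [hz, lg, Fin.tail]
      rw [this]
      exact hq.2 _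
    have h5 := hb z h2 h3 h4
    rw [hexz, hzre] at h5
    have h6 : Real.exp (-D.psI (fun x => ((e * n : ℕ) : ℝ) * ψ x) (n * B.k) y q) =
        Real.exp (-ψ (D.σ y q)) ^ (e * n) *
          Real.exp (-(2 * (n * B.k * Real.log ‖q 0‖))) := by
      rw [← Real.exp_nat_mul, ← Real.exp_add]
      congr 1
      unfold DChart.psI
      rw [Real.log_pow]
      push_cast
      ring
    rw [h6]
    have h7 : Real.exp (-ψ (D.σ y q)) ^ (e * n) ≤
        (C * Real.exp (2 * (B.k * Real.log ‖q 0‖ / e)) * (1 + |Real.log ‖q 0‖|) ^ K) ^ (e * n) :=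
      pow_le_pow_left₀ (Real.exp_pos _).le h5 _
    have h8 : (C * Real.exp (2 * (B.k * Real.log ‖q 0‖ / e)) *
        (1 + |Real.log ‖q 0‖|) ^ K) ^ (e * n) =
        C ^ (e * n) * (1 + |Real.log ‖q 0‖|) ^ (K * (e * n)) *
          Real.exp (2 * (n * B.k * Real.log ‖q 0‖)) := by
      rw [mul_pow, mul_pow, ← pow_mul, ← Real.exp_nat_mul]
      have h9 : ((e * n : ℕ) : ℝ) * (2 * (B.k * Real.log ‖q 0‖ / e)) =
          2 * (n * B.k * Real.log ‖q 0‖) := by
        push_cast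
        field_simp
      rw [h9]
      ring
    calc Real.exp (-ψ (D.σ y q)) ^ (e * n) * Real.exp (-(2 * (n * B.k * Real.log ‖q 0‖)))
        ≤ (C ^ (e * n) * (1 + |Real.log ‖q 0‖|) ^ (K * (e * n)) *
          Real.exp (2 * (n * B.k * Real.log ‖q 0‖))) *
          Real.exp (-(2 * (n * B.k * Real.log ‖q 0‖))) := by
          rw [← h8]; gcongr
      _ = C ^ (e * n) * (1 + |Real.log ‖q 0‖|) ^ (K * (e * n)) := by
          rw [mul_assoc, ← Real.exp_add, add_neg_cancel, Real.exp_zero, mul_one]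
      _ ≤ (C ^ (e * n) + |C'|) * (1 + |Real.log ‖q 0‖|) ^ (K * (e * n)) := by
          gcongr
          linarith [abs_nonneg C']

end fam

end Crest.Agent.R276.LowF_327
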