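import Crest.Agent.R276.GrM_217
import Crest.Agent.R276.GrAs4_857
import Crest.Agent.R276.HulC_606
import Crest.Agent.R276.LowF_327

/-!
# R276, leaf COUNT-GR, part N (helper217): the alternative at one boundary divisor

`exists_alt` : the data `k`, `alt`, `low` of `CDT` (804) for the multiple `M0 * (eN N * n)` of `ψ`.
-/

set_option autoImplicit false
set_option linter.unusedSectionVars false

open Set Filter Topology Matrix Metric MeasureTheory

noncomputable section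

namespace Crest.Agent.R276.GrN_217

open Crest.Agent.R271.Ho51
open Crest.Agent.R276.Ipc735
open Crest.Agent.R276.BdNf3_651
open Crest.Agent.R276.BdNf8_651
open Crest.Agent.R276.CntDefs_857
open Crest.Agent.R276.CntB_857 (Gro)
open Crest.Agent.R276.LftDefs_327 (WD LD)
open Crest.Agent.R276.GrL_217

variable {d m N w : ℕ} {M E X : Type*} [TopologicalSpace M] [RDom (d + 1) M]
    [MeasurableSpace M] {μ : Measure M} [TopologicalSpace E] [RDom d E] [TopologicalSpace X]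
    [RDom m X] {D : DChart M E μ} {V : VHS m X N w} {om : X → Fin N → ℂ} {u : X → ℂ}
    {f : X → M} {M0 : ℕ} {ι : Fin (d + 1) → Fin m} {φ ψ : M → ℝ}

/-- **the alternative** for one family of normal forms -/
theorem alt (hH : HulB_606.HulS V om) (hw : WD V om u M0 f ι φ ψ) (l : LD D V om u f)
    (B : BFam l M0 ψ) {ν : ℕ}
    (hν : ∀ τ : M, ∃ W : Submodule ℂ (Fin (d + 1) → ℂ), d + 1 ≤ Module.finrank ℂ W + ν ∧
      ∀ v ∈ W, Levi ψ τ v = 0) (n : ℕ) :
    (0 < ν ∧ Nonempty (Full D φ (fun x => ((eN N * M0 * n : ℕ) : ℝ) * ψ x) (n * B.k) (ν - 1)) ∧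
      Gen D φ (fun x => ((eN N * M0 * n : ℕ) : ℝ) * ψ x) (n * B.k) 1) ∨
    (Nonempty (Gro D φ (fun x => ((eN N * M0 * n : ℕ) : ℝ) * ψ x) (n * B.k)) ∧
      Gen D φ (fun x => ((eN N * M0 * n : ℕ) : ℝ) * ψ x) (n * B.k) 0) := by
  have hE : Nonempty E := GrAs4_857.nonempty_of_cov D.cov
  obtain ⟨y0⟩ := hE
  rcases scal_all B with h | h
  · right
    obtain ⟨ζ, hζ⟩ := h y0
    exact ⟨GrAs2_857.gro hw l _ _, HulC_606.gen0 hH hw B (y₀ := y0) (ζ := ζ) hζ n⟩
  · left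
    have hν0 : 0 < ν := by
      rcases Nat.eq_zero_or_pos ν with h0 | h0
      · subst h0
        exact absurd (GrM_217.scal_of_zero hw l B hν y0) (h y0)
      · exact h0
    exact ⟨hν0, full_fam hw l B n hν0 hν h, GrAs4_857.gen_one hw l (fam B) B.cy n⟩

/-- **the data `k`, `alt`, `low` of `CDT`** -/
theorem exists_alt (hH : HulB_606.HulS V om) (hw : WD V om u M0 f ι φ ψ) (l : LD D V om u f)
    {ν : ℕ}
    (hν : ∀ τ : M, ∃ W : Submodule ℂ (Fin (d + 1) → ℂ), d + 1 ≤ Module.finrank ℂ W + ν ∧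
      ∀ v ∈ W, Levi ψ τ v = 0) (hψ : Continuous ψ) (n : ℕ) :
    ∃ k : ℤ,
      ((0 < ν ∧ Nonempty (Full D φ (fun x => ((M0 * (eN N * n) : ℕ) : ℝ) * ψ x) k (ν - 1)) ∧
        Gen D φ (fun x => ((M0 * (eN N * n) : ℕ) : ℝ) * ψ x) k 1) ∨
      (Nonempty (Gro D φ (fun x => ((M0 * (eN N * n) : ℕ) : ℝ) * ψ x) k) ∧
        Gen D φ (fun x => ((M0 * (eN N * n) : ℕ) : ℝ) * ψ x) k 0)) ∧
      ∀ y, ∃ C : ℝ, ∃ K : ℕ, ∀ q ∈ PS d (D.r y / 2),
        Real.exp (-D.psI (fun x => ((M0 * (eN N * n) : ℕ) : ℝ) * ψ x) k y q) ≤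
          C * (1 + |Real.log ‖q 0‖|) ^ K := by
  obtain ⟨B⟩ := exists_bfam hw l
  have e : eN N * M0 * n = M0 * (eN N * n) := by ring
  refine ⟨n * B.k, ?_, ?_⟩
  · rw [← e]
    exact alt hH hw l B hν n
  · rw [← e]
    exact fun y => LowF_327.low_of_bfam B hψ n y

end Crest.Agent.R276.GrN_217
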