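import Mathlib

/-!
# Row 276 (helper231): étale algebras over a normal domain are locally domains

`exists_idem` : `S` étale over the normal domain `R`, `P` a prime of `S`: there is an idempotent
`f ∉ P` such that `f * (x * y) = 0 → f * x = 0 ∨ f * y = 0` (so `S_f` is a domain).
-/

set_option autoImplicit false

open scoped TensorProduct

namespace Crest.Agent.R276.EtDom_231

set_option linter.unusedSectionVars false

variable {R S : Type*} [CommRing R] [IsDomain R] [IsIntegrallyClosed R] [CommRing S] [Algebra R S]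

/-- elements of `S ⊗ Frac R` integral over `S` are in `S` -/
theorem exists_tmul_one [Algebra.Smooth R S] (ε : S ⊗[R] FractionRing R) (h : IsIntegral S ε) :
    ∃ s : S, s ⊗ₜ[R] (1 : FractionRing R) = ε := by
  obtain ⟨z, hz⟩ := (TensorProduct.toIntegralClosure_bijective_of_smooth (R := R) (S := S)
    (B := FractionRing R)).2 ⟨ε, h⟩
  have h1 : ∀ z : S ⊗[R] integralClosure R (FractionRing R), ∃ s : S,
      s ⊗ₜ[R] (1 : FractionRing R) = (TensorProduct.toIntegralClosure R S (FractionRing R) z :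
        S ⊗[R] FractionRing R) := by
    intro z
    induction z with
    | zero => exact ⟨0, by simp⟩
    | add x y hx hy =>
      obtain ⟨a, ha⟩ := hx
      obtain ⟨b, hb⟩ := hy
      refine ⟨a + b, ?_⟩
      rw [TensorProduct.add_tmul, ha, hb, map_add]
      rfl
    | tmul x y =>
      obtain ⟨y, hy⟩ := y
      have hy' := hy
      rw [IsIntegrallyClosed.integralClosure_eq_bot R (FractionRing R)] at hy'
      obtain ⟨r, hr⟩ := hy'
      refine ⟨r • x, ?_⟩
      have h2 : (TensorProduct.toIntegralClosure R S (FractionRing R) (x ⊗ₜ ⟨y, hy⟩) :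
          S ⊗[R] FractionRing R) = x ⊗ₜ y := by
        simp [TensorProduct.toIntegralClosure]
      rw [h2, TensorProduct.smul_tmul, ← Algebra.algebraMap_eq_smul_one]
      congr 1
  obtain ⟨s, hs⟩ := h1 z
  exact ⟨s, by rw [hs, hz]⟩

/-- `S` étale over a normal domain, `P` prime: an idempotent outside `P` cutting out a domain -/
theorem exists_idem [Algebra.Etale R S] (P : Ideal S) [hP : P.IsPrime] :
    ∃ f : S, f ∉ P ∧ f * f = f ∧ ∀ x y : S, f * (x * y) = 0 → f * x = 0 ∨ f * y = 0 := by
  classical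
  set Q := FractionRing R
  obtain ⟨I, hI, A, hfield, halg, θ₀, -⟩ :=
    (Algebra.Etale.iff_exists_algEquiv_prod Q (Q ⊗[R] S)).1 inferInstance
  let θ : S ⊗[R] Q ≃+* (∀ i, A i) :=
    (Algebra.TensorProduct.comm R S Q).toRingEquiv.trans θ₀.toRingEquiv
  have hinj : Function.Injective (fun s : S => s ⊗ₜ[R] (1 : Q)) := by
    have := Algebra.TensorProduct.includeLeft_injective (R := R) (S := R) (A := S) (B := Q)
      (IsFractionRing.injective R Q)
    exact this
  have hε : ∀ i, θ.symm (Pi.single i 1) * θ.symm (Pi.single i 1) = θ.symm (Pi.single i 1) := by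
    intro i
    rw [← map_mul, ← Pi.single_mul, one_mul]
  have hint : ∀ i, IsIntegral S (θ.symm (Pi.single i 1)) := by
    intro i
    refine ⟨Polynomial.X ^ 2 - Polynomial.X, ?_, ?_⟩
    · monicity!
    · rw [Polynomial.eval₂_sub, Polynomial.eval₂_pow, Polynomial.eval₂_X, sq, hε, sub_self]
  choose s hs using fun i => exists_tmul_one (θ.symm (Pi.single i 1)) (hint i)
  have := Fintype.ofFinite I
  have hsum : ∑ i, s i = 1 := by
    apply hinj
    simp only
    rw [TensorProduct.sum_tmul]
    simp only [hs]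
    rw [← map_sum, Finset.univ_sum_single]
    change θ.symm (fun _ => 1) = 1
    exact map_one θ.symm
  obtain ⟨i, hi⟩ : ∃ i, s i ∉ P := by
    by_contra hcon
    push Not at hcon
    exact hP.ne_top ((Ideal.eq_top_iff_one P).2 (hsum ▸ Ideal.sum_mem P fun i _ => hcon i))
  have hz : ∀ x : S, (θ (x ⊗ₜ 1)) i = 0 → s i * x = 0 := by
    intro x hx
    apply hinj
    simp only
    rw [TensorProduct.zero_tmul, ← one_mul (1 : Q), ← Algebra.TensorProduct.tmul_mul_tmul, hs,
      ← θ.injective.eq_iff, map_mul, map_zero, RingEquiv.apply_symm_apply]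
    ext j
    by_cases hj : j = i
    · subst hj
      simp [hx]
    · simp [hj]
  refine ⟨s i, hi, ?_, fun x y hxy => ?_⟩
  · apply hinj
    simp only
    rw [← one_mul (1 : Q), ← Algebra.TensorProduct.tmul_mul_tmul, one_mul, hs, hε]
  · have h1 : θ ((s i * (x * y)) ⊗ₜ 1) i = 0 := by rw [hxy, TensorProduct.zero_tmul, map_zero]; rfl
    have h2 : (s i * (x * y)) ⊗ₜ[R] (1 : Q) = (s i ⊗ₜ 1) * ((x ⊗ₜ 1) * (y ⊗ₜ 1)) := by
      rw [Algebra.TensorProduct.tmul_mul_tmul, Algebra.TensorProduct.tmul_mul_tmul, one_mul,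
        one_mul]
    rw [h2, hs, map_mul, map_mul, RingEquiv.apply_symm_apply, Pi.mul_apply, Pi.mul_apply,
      Pi.single_eq_same, one_mul, mul_eq_zero] at h1
    exact h1.imp (hz x) (hz y)

/-- localisation at a multiple of the idempotent -/
theorem isDomain_away {f h : S} {P : Ideal S} [hP : P.IsPrime] (hf : f ∉ P) (hh : h ∉ P)
    (hff : f * f = f) (hdom : ∀ x y : S, f * (x * y) = 0 → f * x = 0 ∨ f * y = 0)
    (T : Type*) [CommRing T] [Algebra S T] [IsLocalization.Away (f * h) T] : IsDomain T := by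
  have hfn : ∀ n : ℕ, f ^ (n + 1) = f := by
    intro n
    induction n with
    | zero => simp
    | succ n ih => rw [pow_succ, ih, hff]
  have hz : ∀ x : S, algebraMap S T x = 0 ↔ ∃ n : ℕ, (f * h) ^ n * x = 0 := by
    intro x
    rw [IsLocalization.map_eq_zero_iff (Submonoid.powers (f * h))]
    constructor
    · rintro ⟨⟨_, n, rfl⟩, hn⟩
      exact ⟨n, hn⟩
    · rintro ⟨n, hn⟩
      exact ⟨⟨_, n, rfl⟩, hn⟩
  have hnt : Nontrivial T := by
    refine ⟨⟨algebraMap S T 1, 0, fun h1 => ?_⟩⟩
    obtain ⟨n, hn⟩ := (hz 1).1 h1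
    rw [mul_one] at hn
    have h2 : (f * h) ^ n ∈ P := by rw [hn]; exact P.zero_mem
    rcases hP.mem_or_mem (hP.mem_of_pow_mem n h2) with h3 | h3
    · exact hf h3
    · exact hh h3
  have hnz : NoZeroDivisors T := by
    refine ⟨fun {a b} hab => ?_⟩
    obtain ⟨x, ⟨_, n, rfl⟩, rfl⟩ := IsLocalization.exists_mk'_eq (Submonoid.powers (f * h)) a
    obtain ⟨y, ⟨_, m, rfl⟩, rfl⟩ := IsLocalization.exists_mk'_eq (Submonoid.powers (f * h)) b
    rw [← IsLocalization.mk'_mul, IsLocalization.mk'_eq_zero_iff] at hab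
    obtain ⟨⟨_, k, rfl⟩, hk⟩ := hab
    have h1 : f * (h ^ (k + 1) * x * y) = 0 := by
      have h2 : (f * h) ^ (k + 1) * (x * y) = 0 := by
        rw [pow_succ, mul_assoc, mul_comm (f * h), ← mul_assoc]
        simp only at hk
        rw [hk, zero_mul]
      rw [mul_pow, hfn] at h2
      linear_combination h2
    rcases hdom _ _ h1 with h3 | h3
    · left
      rw [IsLocalization.mk'_eq_zero_iff]
      refine ⟨⟨_, k + 1, rfl⟩, ?_⟩
      simp only [mul_pow, hfn]
      linear_combination h3
    · right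
      rw [IsLocalization.mk'_eq_zero_iff]
      refine ⟨⟨_, 1, rfl⟩, ?_⟩
      simp only [pow_one]
      linear_combination h * h3
  exact NoZeroDivisors.to_isDomain T

end Crest.Agent.R276.EtDom_231
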