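import Mathlib
import Crest.Agent.R276.EtDom_231

/-!
# Row 276 (helper231), DESC-MSEC part A: slices of étale algebras

`A` étale over `P`, `P → Pw` a specialisation to a normal domain, `x ∈ Pw` with `Pw/(x) = P0` a normal
domain, a point `ξ` of `A` over a point of `P0`: there is a domain `Ac` étale over `Pw` with
`A → Ac`, in which `x` is prime, through which `ξ` factors.
-/

set_option autoImplicit false
set_option linter.unusedSectionVars false
set_option linter.style.haveILetI false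

open scoped TensorProduct

namespace Crest.Agent.R276.MsecA_231

open EtDom_231

variable {P Pw P0 A k : Type} [CommRing P] [CommRing Pw] [IsDomain Pw] [IsIntegrallyClosed Pw]
  [CommRing P0] [IsDomain P0] [IsIntegrallyClosed P0] [CommRing A] [Field k]
  [Algebra P A] [Algebra P Pw] [Algebra Pw P0]

/-- the kernel of `B → P0 ⊗ B` -/
theorem ker_incl {B : Type} [CommRing B] [Algebra Pw B] {x : Pw}
    (hsurj : Function.Surjective (algebraMap Pw P0))
    (hker : ∀ p, algebraMap Pw P0 p = 0 → x ∣ p) (hx : algebraMap Pw P0 x = 0) {b : B}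
    (hb : (1 : P0) ⊗ₜ[Pw] b = 0) : ∃ b' : B, b = x • b' := by
  let f : Pw →ₗ[Pw] Pw := LinearMap.mulLeft Pw x
  let g : Pw →ₗ[Pw] P0 := Algebra.linearMap Pw P0
  have hex : Function.Exact f g := by
    intro p
    constructor
    · intro hp
      obtain ⟨q, hq⟩ := hker p hp
      exact ⟨q, hq.symm⟩
    · rintro ⟨q, rfl⟩
      change algebraMap Pw P0 (x * q) = 0
      rw [map_mul, hx, zero_mul]
  have h1 := rTensor_exact B hex hsurj
  obtain ⟨z, hz⟩ := (h1 ((1 : Pw) ⊗ₜ[Pw] b)).1 (by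
    rw [LinearMap.rTensor_tmul]
    change (algebraMap Pw P0 1) ⊗ₜ[Pw] b = 0
    rw [map_one, hb])
  have h2 : ∀ z : Pw ⊗[Pw] B, TensorProduct.lid Pw B (LinearMap.rTensor B f z) =
      x • TensorProduct.lid Pw B z := by
    intro z
    induction z with
    | zero => simp
    | add a b ha hb => rw [map_add, map_add, ha, hb, map_add, smul_add]
    | tmul a b =>
      rw [LinearMap.rTensor_tmul, TensorProduct.lid_tmul, TensorProduct.lid_tmul]
      change (x * a) • b = x • a • b
      rw [mul_smul]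
  refine ⟨TensorProduct.lid Pw B z, ?_⟩
  rw [← h2, hz, TensorProduct.lid_tmul, one_smul]

theorem incl_surj {B : Type} [CommRing B] [Algebra Pw B]
    (hsurj : Function.Surjective (algebraMap Pw P0)) :
    Function.Surjective (fun b : B => (1 : P0) ⊗ₜ[Pw] b) := by
  intro z
  induction z with
  | zero => exact ⟨0, by simp⟩
  | add a b ha hb =>
    obtain ⟨a', rfl⟩ := ha
    obtain ⟨b', rfl⟩ := hb
    exact ⟨a' + b', by simp only [TensorProduct.tmul_add]⟩
  | tmul p b =>
    obtain ⟨q, rfl⟩ := hsurj p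
    refine ⟨q • b, ?_⟩
    simp only
    rw [TensorProduct.tmul_smul, TensorProduct.smul_tmul', ← Algebra.algebraMap_eq_smul_one]

theorem exists_slice [Algebra.Etale P A] {x : Pw} (hx0 : x ≠ 0)
    (hsurj : Function.Surjective (algebraMap Pw P0))
    (hker : ∀ p, algebraMap Pw P0 p = 0 → x ∣ p) (hx : algebraMap Pw P0 x = 0)
    (ξA : A →+* k) (ξ0 : P0 →+* k)
    (hξ : ∀ p : P, ξA (algebraMap P A p) = ξ0 (algebraMap Pw P0 (algebraMap P Pw p))) :
    ∃ (Ac : Type) (_ : CommRing Ac) (_ : IsDomain Ac) (_ : Algebra Pw Ac) (_ : Algebra.Etale Pw Ac)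
      (j : A →+* Ac) (ξc : Ac →+* k),
      (∀ p : P, j (algebraMap P A p) = algebraMap Pw Ac (algebraMap P Pw p)) ∧
      Prime (algebraMap Pw Ac x) ∧ (∀ a, ξc (j a) = ξA a) ∧
      (∀ p, ξc (algebraMap Pw Ac p) = ξ0 (algebraMap Pw P0 p)) ∧
      ∀ p, algebraMap Pw Ac x ∣ algebraMap Pw Ac p → algebraMap Pw P0 p = 0 := by
  classical
  let ξw : Pw →+* k := ξ0.comp (algebraMap Pw P0)
  -- the base change `B`
  letI iPk : Algebra P k := (ξA.comp (algebraMap P A)).toAlgebra
  let eA : A →ₐ[P] k := { ξA with commutes' := fun p => rfl }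
  let ew : Pw →ₐ[P] k := { ξw with commutes' := fun p => (hξ p).symm }
  let eB : Pw ⊗[P] A →ₐ[P] k := Algebra.TensorProduct.lift ew eA (fun _ _ => Commute.all _ _)
  have heB : ∀ p a, eB (p ⊗ₜ a) = ξw p * ξA a := fun p a =>
    Algebra.TensorProduct.lift_tmul ew eA (fun _ _ => Commute.all _ _) p a
  have hP1 : (RingHom.ker eB).IsPrime := RingHom.ker_isPrime eB
  obtain ⟨f, hf, hff, hdom⟩ := exists_idem (R := Pw) (S := Pw ⊗[P] A) (RingHom.ker eB)
  -- the reduction `B0`
  letI iPwk : Algebra Pw k := ξw.toAlgebra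
  let eB' : Pw ⊗[P] A →ₐ[Pw] k := { eB.toRingHom with
    commutes' := fun p => by
      change eB (algebraMap Pw (Pw ⊗[P] A) p) = ξw p
      rw [Algebra.TensorProduct.algebraMap_apply, heB, map_one, mul_one]
      rfl }
  let e0 : P0 →ₐ[Pw] k := { ξ0 with commutes' := fun p => rfl }
  let eB0 : P0 ⊗[Pw] (Pw ⊗[P] A) →ₐ[Pw] k :=
    Algebra.TensorProduct.lift e0 eB' (fun _ _ => Commute.all _ _)
  have heB0 : ∀ p b, eB0 (p ⊗ₜ b) = ξ0 p * eB b := fun p b =>
    Algebra.TensorProduct.lift_tmul e0 eB' (fun _ _ => Commute.all _ _) p b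
  have hP0 : (RingHom.ker eB0).IsPrime := RingHom.ker_isPrime eB0
  obtain ⟨f0, hf0, hff0, hdom0⟩ := exists_idem (R := P0) (S := P0 ⊗[Pw] (Pw ⊗[P] A))
    (RingHom.ker eB0)
  let π : Pw ⊗[P] A →ₐ[Pw] P0 ⊗[Pw] (Pw ⊗[P] A) := Algebra.TensorProduct.includeRight
  have hπ : ∀ b, π b = 1 ⊗ₜ b := fun b => rfl
  have hπe : ∀ b, eB0 (π b) = eB b := fun b => by rw [hπ, heB0, map_one, one_mul]
  obtain ⟨b0, hb0⟩ := incl_surj (B := Pw ⊗[P] A) hsurj f0
  have hb0' : π b0 = f0 := hb0
  have hb0P : b0 ∉ RingHom.ker eB := by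
    intro h
    apply hf0
    rw [RingHom.mem_ker] at h ⊢
    rw [← hb0', hπe]
    exact h
  have hπf : π f ∉ RingHom.ker eB0 := by
    intro h
    apply hf
    rw [RingHom.mem_ker] at h ⊢
    rw [← hπe]
    exact h
  -- the rings
  let Ac := Localization.Away (f * b0)
  let C0 := Localization.Away (f0 * π f)
  have hAdom : IsDomain Ac := isDomain_away hf hb0P hff hdom Ac
  have hCdom : IsDomain C0 := isDomain_away hf0 hπf hff0 hdom0 C0
  have hunit : IsUnit (((algebraMap (P0 ⊗[Pw] (Pw ⊗[P] A)) C0).comp π.toRingHom) (f * b0)) := by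
    change IsUnit (algebraMap (P0 ⊗[Pw] (Pw ⊗[P] A)) C0 (π (f * b0)))
    have h1 : π (f * b0) = f0 * π f := by rw [map_mul, hb0', mul_comm]
    rw [h1]
    exact IsLocalization.Away.algebraMap_isUnit (f0 * π f)
  let ψ : Ac →+* C0 := IsLocalization.Away.lift (f * b0) hunit
  have hψ : ∀ b, ψ (algebraMap _ Ac b) = algebraMap _ C0 (π b) := fun b =>
    IsLocalization.Away.lift_eq (f * b0) hunit b
  have hunitk : IsUnit (eB.toRingHom (f * b0)) := by
    rw [isUnit_iff_ne_zero]
    intro h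
    have h1 : f * b0 ∈ RingHom.ker eB := h
    rcases hP1.mem_or_mem h1 with h2 | h2
    · exact hf h2
    · exact hb0P h2
  let ξc : Ac →+* k := IsLocalization.Away.lift (f * b0) hunitk
  have hξc : ∀ b, ξc (algebraMap _ Ac b) = eB b := fun b =>
    IsLocalization.Away.lift_eq (f * b0) hunitk b
  have htower : ∀ p : Pw, algebraMap Pw Ac p = algebraMap (Pw ⊗[P] A) Ac (algebraMap Pw _ p) :=
    fun p => IsScalarTower.algebraMap_apply Pw (Pw ⊗[P] A) Ac p
  have hxA : algebraMap Pw Ac x ≠ 0 := by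
    have h1 : Module.Flat Pw Ac := inferInstance
    have h2 := Module.Flat.isSMulRegular_of_isRegular (M := Ac)
      (IsRegular.of_ne_zero hx0)
    intro h3
    have h4 : x • (1 : Ac) = x • (0 : Ac) := by
      rw [← Algebra.algebraMap_eq_smul_one, h3, smul_zero]
    exact one_ne_zero (h2 h4)
  -- the kernel of `ψ`
  have hkerψ : ∀ y : Ac, ψ y = 0 → algebraMap Pw Ac x ∣ y := by
    intro y hy
    obtain ⟨b, ⟨_, n, rfl⟩, rfl⟩ := IsLocalization.exists_mk'_eq (Submonoid.powers (f * b0)) y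
    have h1 : ψ (algebraMap _ Ac b) = 0 := by
      have h2 : algebraMap _ Ac b = IsLocalization.mk' Ac b
          (⟨(f * b0) ^ n, n, rfl⟩ : Submonoid.powers (f * b0)) *
            algebraMap (Pw ⊗[P] A) Ac ((f * b0) ^ n) := (IsLocalization.mk'_spec Ac b _).symm
      rw [h2, map_mul]
      erw [hy]
      rw [zero_mul]
    rw [hψ, IsLocalization.map_eq_zero_iff (Submonoid.powers (f0 * π f))] at h1
    obtain ⟨⟨_, m, rfl⟩, hm⟩ := h1
    have h3 : π ((f * b0) ^ m * b) = 0 := by
      rw [map_mul, map_pow, map_mul, hb0', mul_comm (π f)]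
      exact hm
    obtain ⟨b', hb'⟩ := ker_incl (B := Pw ⊗[P] A) hsurj hker hx h3
    have hu : ∀ r : ℕ, IsUnit (algebraMap (Pw ⊗[P] A) Ac ((f * b0) ^ r)) := fun r =>
      IsLocalization.map_units Ac (⟨(f * b0) ^ r, r, rfl⟩ : Submonoid.powers (f * b0))
    have h4 : algebraMap Pw Ac x ∣ algebraMap _ Ac b := by
      rw [← (hu m).dvd_mul_left, ← map_mul, hb', Algebra.smul_def, map_mul, ← htower]
      exact dvd_mul_right _ _
    have h5 : algebraMap _ Ac b = IsLocalization.mk' Ac b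
          (⟨(f * b0) ^ n, n, rfl⟩ : Submonoid.powers (f * b0)) *
            algebraMap (Pw ⊗[P] A) Ac ((f * b0) ^ n) := (IsLocalization.mk'_spec Ac b _).symm
    rw [h5] at h4
    exact (hu n).dvd_mul_right.1 h4
  have hψx : ψ (algebraMap Pw Ac x) = 0 := by
    have h1 : π (algebraMap Pw (Pw ⊗[P] A) x) = 0 := by
      rw [hπ, Algebra.algebraMap_eq_smul_one, TensorProduct.tmul_smul, TensorProduct.smul_tmul',
        ← Algebra.algebraMap_eq_smul_one, hx, TensorProduct.zero_tmul]
    rw [htower, hψ, h1, map_zero]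
  have hprime : Prime (algebraMap Pw Ac x) := by
    refine ⟨hxA, ?_, ?_⟩
    · intro hu
      have h1 := hu.map ψ
      rw [hψx] at h1
      exact not_isUnit_zero h1
    · intro a b hab
      have h1 : ψ (a * b) = 0 := by
        obtain ⟨c, hc⟩ := hab
        rw [hc, map_mul, hψx, zero_mul]
      rw [map_mul, mul_eq_zero] at h1
      exact h1.imp (hkerψ a) (hkerψ b)
  refine ⟨Ac, inferInstance, hAdom, inferInstance, inferInstance,
    (algebraMap (Pw ⊗[P] A) Ac).comp
      (Algebra.TensorProduct.includeRight : A →ₐ[P] Pw ⊗[P] A).toRingHom, ξc, ?_, hprime, ?_, ?_,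
      ?_⟩
  · intro p
    rw [htower]
    change algebraMap (Pw ⊗[P] A) Ac (1 ⊗ₜ algebraMap P A p) = _
    congr 1
    rw [Algebra.TensorProduct.algebraMap_apply, Algebra.algebraMap_eq_smul_one,
      TensorProduct.tmul_smul, TensorProduct.smul_tmul', ← Algebra.algebraMap_eq_smul_one]
    rfl
  · intro a
    change ξc (algebraMap (Pw ⊗[P] A) Ac (1 ⊗ₜ a)) = ξA a
    rw [hξc, heB, map_one, one_mul]
  · intro p
    rw [htower, hξc, Algebra.TensorProduct.algebraMap_apply, heB, map_one, mul_one]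
    rfl
  · intro p hp
    have h1 : ψ (algebraMap Pw Ac p) = 0 := by
      obtain ⟨c, hc⟩ := hp
      rw [hc, map_mul, hψx, zero_mul]
    have h2 : π (algebraMap Pw (Pw ⊗[P] A) p) =
        algebraMap P0 (P0 ⊗[Pw] (Pw ⊗[P] A)) (algebraMap Pw P0 p) := by
      rw [hπ, Algebra.algebraMap_eq_smul_one, TensorProduct.tmul_smul, TensorProduct.smul_tmul',
        ← Algebra.algebraMap_eq_smul_one, Algebra.TensorProduct.algebraMap_apply]
      rfl
    rw [htower, hψ, h2, ← IsScalarTower.algebraMap_apply P0 (P0 ⊗[Pw] (Pw ⊗[P] A)) C0] at h1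
    by_contra hne
    have h3 : Module.Flat P0 C0 := inferInstance
    have h4 := Module.Flat.isSMulRegular_of_isRegular (M := C0) (IsRegular.of_ne_zero hne)
    have h5 : (algebraMap Pw P0 p) • (1 : C0) = (algebraMap Pw P0 p) • (0 : C0) := by
      rw [← Algebra.algebraMap_eq_smul_one, h1, smul_zero]
    exact one_ne_zero (h4 h5)

end Crest.Agent.R276.MsecA_231
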