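import Mathlib
import Crest.Agent.R276.MsecA_231
import Crest.Agent.R276.BR4_590

/-!
# Row 276 (helper231), DESC-MSEC part B: transcendence bases, specialisations of polynomial rings
-/

set_option autoImplicit false
set_option linter.unusedSectionVars false
set_option linter.style.haveILetI false

open scoped TensorProduct
open MvPolynomial

namespace Crest.Agent.R276.MsecB_231

/-- étale over a domain ⟹ algebraic -/
theorem isAlgebraic_of_etale (R A : Type) [CommRing R] [IsDomain R] [CommRing A] [Algebra R A]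
    [Algebra.Etale R A] : Algebra.IsAlgebraic R A := by
  let Q := FractionRing R
  have hfin : Module.Finite Q (Q ⊗[R] A) := Algebra.FormallyUnramified.finite_of_free Q (Q ⊗[R] A)
  have halg : Algebra.IsAlgebraic Q (Q ⊗[R] A) := inferInstance
  have hinj : Function.Injective (Algebra.TensorProduct.includeRight : A →ₐ[R] Q ⊗[R] A) :=
    Algebra.TensorProduct.includeRight_injective (IsFractionRing.injective R Q)
  refine ⟨fun s => ?_⟩
  have h1 : IsAlgebraic R ((Algebra.TensorProduct.includeRight : A →ₐ[R] Q ⊗[R] A) s) :=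
    (IsFractionRing.isAlgebraic_iff R Q (Q ⊗[R] A)).2 (halg.isAlgebraic _)
  exact (isAlgebraic_algHom_iff _ hinj).1 h1

theorem injective_of_etale (R A : Type) [CommRing R] [IsDomain R] [CommRing A] [Nontrivial A]
    [Algebra R A] [Algebra.Etale R A] : Function.Injective (algebraMap R A) := by
  rw [injective_iff_map_eq_zero]
  intro p hp
  by_contra hne
  have h3 : Module.Flat R A := inferInstance
  have h4 := Module.Flat.isSMulRegular_of_isRegular (M := A) (IsRegular.of_ne_zero hne)
  have h5 : p • (1 : A) = p • (0 : A) := by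
    rw [← Algebra.algebraMap_eq_smul_one, hp, smul_zero]
  exact one_ne_zero (h4 h5)

/-- étale coordinates are a transcendence basis -/
theorem isTranscendenceBasis_of_etale {n : ℕ} {A K : Type} [CommRing A] [IsDomain A] [Algebra ℂ A]
    [Field K] [Algebra ℂ K] [Algebra A K] [IsScalarTower ℂ A K] [IsFractionRing A K]
    (w : Fin n → A)
    (het : RingHom.Etale ((aeval w : MvPolynomial (Fin n) ℂ →ₐ[ℂ] A) : MvPolynomial (Fin n) ℂ →+* A)) :
    IsTranscendenceBasis ℂ (fun i => algebraMap A K (w i)) := by
  let _ : Algebra (MvPolynomial (Fin n) ℂ) A :=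
    ((aeval w : MvPolynomial (Fin n) ℂ →ₐ[ℂ] A) : MvPolynomial (Fin n) ℂ →+* A).toAlgebra
  have i1 : Algebra.Etale (MvPolynomial (Fin n) ℂ) A := het
  have hinj := injective_of_etale (MvPolynomial (Fin n) ℂ) A
  have halg := isAlgebraic_of_etale (MvPolynomial (Fin n) ℂ) A
  have hKinj := IsFractionRing.injective A K
  have hval : ∀ p : MvPolynomial (Fin n) ℂ, aeval (fun i => algebraMap A K (w i)) p =
      algebraMap A K (aeval w p) := fun p => by
    rw [← aeval_algebraMap_apply]
    rfl
  have hind : AlgebraicIndependent ℂ (fun i => algebraMap A K (w i)) := by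
    rw [algebraicIndependent_iff_injective_aeval]
    intro p q hpq
    rw [hval, hval] at hpq
    exact hinj (hKinj hpq)
  rw [hind.isTranscendenceBasis_iff_isAlgebraic]
  let R := Algebra.adjoin ℂ (Set.range fun i => algebraMap A K (w i))
  have hB : ∀ b : A, IsAlgebraic R (algebraMap A K b) := by
    intro b
    obtain ⟨p, hp0, hp⟩ := halg.isAlgebraic b
    let e := hind.aevalEquiv
    refine ⟨p.map e.toRingEquiv.toRingHom, ?_, ?_⟩
    · intro h
      apply hp0
      apply Polynomial.map_injective e.toRingEquiv.toRingHom e.injective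
      rw [h, Polynomial.map_zero]
    · rw [Polynomial.aeval_def, Polynomial.eval₂_map]
      have hco : (algebraMap R K).comp e.toRingEquiv.toRingHom =
          (algebraMap A K).comp (algebraMap (MvPolynomial (Fin n) ℂ) A) := by
        refine RingHom.ext fun c => ?_
        change ((e c : Algebra.adjoin ℂ _) : K) = algebraMap A K (aeval w c)
        rw [← hval]
        exact hind.algebraMap_aevalEquiv c
      rw [hco]
      have h2 := Polynomial.hom_eval₂ p (algebraMap (MvPolynomial (Fin n) ℂ) A) (algebraMap A K) b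
      have h3 : Polynomial.eval₂ (algebraMap (MvPolynomial (Fin n) ℂ) A) b p = 0 := hp
      rw [h3, map_zero] at h2
      exact h2.symm
  refine ⟨fun a => ?_⟩
  obtain ⟨b, c, _, rfl⟩ := IsFractionRing.div_surjective (A := A) a
  rw [div_eq_mul_inv]
  exact (hB b).mul (hB c).inv

section spec

variable {ρ : ℕ} (i₀ : Fin ρ)

/-- setting the variable `i₀` to `0` -/
noncomputable def χ : MvPolynomial (Fin ρ) ℂ →ₐ[ℂ] MvPolynomial {i : Fin ρ // i ≠ i₀} ℂ :=
  aeval fun i => if h : i ≠ i₀ then X ⟨i, h⟩ else 0

lemma χ_X_self : χ i₀ (X i₀) = 0 := by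
  simp [χ]

lemma χ_X_ne {i : Fin ρ} (h : i ≠ i₀) : χ i₀ (X i) = X ⟨i, h⟩ := by
  simp [χ, h]

lemma χ_surj : Function.Surjective (χ i₀) := by
  intro p
  refine ⟨rename Subtype.val p, ?_⟩
  induction p using MvPolynomial.induction_on with
  | C a => simp [χ]
  | add p q hp hq => rw [map_add, map_add, hp, hq]
  | mul_X p i hp =>
    rw [map_mul, map_mul, hp, rename_X, χ_X_ne i₀ i.2]

lemma X_dvd_sub (p : MvPolynomial (Fin ρ) ℂ) :
    (X i₀ : MvPolynomial (Fin ρ) ℂ) ∣ p - rename Subtype.val (χ i₀ p) := by
  induction p using MvPolynomial.induction_on with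
  | C a => simp [χ]
  | add p q hp hq =>
    rw [map_add, map_add]
    have := dvd_add hp hq
    convert this using 1
    ring
  | mul_X p i hp =>
    rw [map_mul, map_mul]
    by_cases h : i = i₀
    · subst h
      rw [χ_X_self, map_zero, mul_zero, sub_zero]
      exact dvd_mul_left _ _
    · rw [χ_X_ne i₀ h, rename_X, ← sub_mul]
      exact hp.mul_right _

lemma χ_ker {p : MvPolynomial (Fin ρ) ℂ} (h : χ i₀ p = 0) :
    (X i₀ : MvPolynomial (Fin ρ) ℂ) ∣ p := by
  have := X_dvd_sub i₀ p
  rwa [h, map_zero, sub_zero] at this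

end spec

end Crest.Agent.R276.MsecB_231
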