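import Mathlib
import Crest.Agent.R276.MsecB_231
import Crest.Agent.R276.BR4_590

/-!
# Row 276 (helper231), DESC-MSEC: multisection of a vertical divisor

`exists_msec` (statement of helper327, post 2101).
-/

set_option autoImplicit false
set_option linter.unusedSectionVars false
set_option linter.style.haveILetI false

open scoped TensorProduct
open MvPolynomial

namespace Crest.Agent.R276.Msec_231

open MsecA_231 MsecB_231 BC_986 BR_590

/-- part 1: the slice through a point -/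
theorem exists_slice' {ρ a : ℕ} {L : Type} [Field L] [Algebra ℂ L] (D : DivModel (ρ + a) L)
    (i₀ : Fin ρ) (hi₀ : D.i₀ = Fin.castAdd a i₀) (y : D.A →ₐ[ℂ] ℂ) (hy : y D.t = 0) :
    ∃ (Ac : Type) (_ : CommRing Ac) (_ : IsDomain Ac) (_ : Algebra ℂ Ac) (wc : Fin ρ → Ac)
      (j : D.A →ₐ[ℂ] Ac) (ξ : Ac →+* ℂ), Algebra.FiniteType ℂ Ac ∧
      RingHom.Etale ((aeval wc : MvPolynomial (Fin ρ) ℂ →ₐ[ℂ] Ac) : MvPolynomial (Fin ρ) ℂ →+* Ac) ∧
      Prime (wc i₀) ∧ (∀ i, wc i = j (D.w (Fin.castAdd a i))) ∧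
      (∀ k, j (D.w (Fin.natAdd ρ k)) = algebraMap ℂ Ac (y (D.w (Fin.natAdd ρ k)))) ∧
      (∀ b, ξ (j b) = y b) ∧
      ∀ p : MvPolynomial (Fin ρ) ℂ, wc i₀ ∣ aeval wc p → χ i₀ p = 0 := by
  let P := MvPolynomial (Fin (ρ + a)) ℂ
  let Pw := MvPolynomial (Fin ρ) ℂ
  let P0 := MvPolynomial {i : Fin ρ // i ≠ i₀} ℂ
  let ψ : P →ₐ[ℂ] Pw := aeval (Fin.append (fun i => X i) (fun k => C (y (D.w (Fin.natAdd ρ k)))))
  letI i1 : Algebra P D.A :=
    ((aeval D.w : MvPolynomial (Fin (ρ + a)) ℂ →ₐ[ℂ] D.A) : MvPolynomial (Fin (ρ + a)) ℂ →+* D.A).toAlgebra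
  letI i2 : Algebra P Pw := ψ.toRingHom.toAlgebra
  letI i3 : Algebra Pw P0 := (χ i₀).toRingHom.toAlgebra
  haveI i4 : Algebra.Etale P D.A := D.etale
  let ξ0 : P0 →ₐ[ℂ] ℂ := aeval fun i => y (D.w (Fin.castAdd a i.1))
  have hcomp : (y.comp (aeval D.w : P →ₐ[ℂ] D.A)) = (ξ0.comp (χ i₀)).comp ψ := by
    apply MvPolynomial.algHom_ext
    intro i
    refine Fin.addCases (fun i => ?_) (fun k => ?_) i
    · simp only [AlgHom.comp_apply, aeval_X, ψ, Fin.append_left]
      by_cases h : i = i₀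
      · subst h
        rw [χ_X_self, map_zero]
        have : D.w (Fin.castAdd a i) = D.t := by rw [DivModel.t, hi₀]
        rw [this, hy]
      · rw [χ_X_ne i₀ h]
        exact (aeval_X (R := ℂ) (fun i : {i : Fin ρ // i ≠ i₀} => y (D.w (Fin.castAdd a i.1)))
          ⟨i, h⟩).symm
    · simp only [AlgHom.comp_apply, aeval_X, ψ, Fin.append_right]
      have h8 : χ i₀ (C (y (D.w (Fin.natAdd ρ k)))) = C (y (D.w (Fin.natAdd ρ k))) := aeval_C _ _
      rw [h8]
      exact (aeval_C (R := ℂ) (fun i : {i : Fin ρ // i ≠ i₀} => y (D.w (Fin.castAdd a i.1)))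
        (y (D.w (Fin.natAdd ρ k)))).symm
  obtain ⟨Ac, r1, r2, r3, r4, j, ξ, h1, h2, h3, h4, h5⟩ := exists_slice (P := P) (Pw := Pw)
    (P0 := P0) (A := D.A) (k := ℂ) (x := (X i₀ : MvPolynomial (Fin ρ) ℂ)) (X_ne_zero i₀)
    (χ_surj i₀) (fun p hp => χ_ker i₀ hp) (χ_X_self i₀) y.toRingHom ξ0.toRingHom
    (fun p => congrArg (fun f : P →ₐ[ℂ] ℂ => f p) hcomp)
  letI r5 : Algebra ℂ Ac := ((algebraMap Pw Ac).comp (C : ℂ →+* MvPolynomial (Fin ρ) ℂ)).toAlgebra
  haveI r6 : IsScalarTower ℂ Pw Ac := IsScalarTower.of_algebraMap_eq fun c => rfl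
  have hae : ∀ p : MvPolynomial (Fin ρ) ℂ,
      aeval (fun i => algebraMap Pw Ac (X i)) p = algebraMap Pw Ac p := by
    intro p
    have h9 : (aeval (fun i => algebraMap Pw Ac (X i)) : Pw →ₐ[ℂ] Ac) =
        IsScalarTower.toAlgHom ℂ Pw Ac := by
      apply MvPolynomial.algHom_ext
      intro i
      rw [aeval_X]
      rfl
    exact congrArg (fun f : Pw →ₐ[ℂ] Ac => f p) h9
  have hmap : ∀ p : P, j (aeval D.w p) = algebraMap Pw Ac (ψ p) := h1
  let j' : D.A →ₐ[ℂ] Ac := { j with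
    commutes' := fun c => by
      have h6 := hmap (C c)
      rw [show (aeval D.w (C c : MvPolynomial (Fin (ρ + a)) ℂ) : D.A) = algebraMap ℂ D.A c from
        aeval_C _ _] at h6
      change j (algebraMap ℂ D.A c) = _
      rw [h6]
      have h7 : ψ (C c) = C c := by
        change aeval _ (C c) = _
        rw [aeval_C]
        rfl
      rw [h7]
      rfl }
  refine ⟨Ac, r1, r2, r5, fun i => algebraMap Pw Ac (X i), j', ξ, ?_, ?_, h2, ?_, ?_, h3, ?_⟩
  · have : Algebra.FiniteType Pw Ac := inferInstance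
    exact Algebra.FiniteType.trans (S := Pw) inferInstance this
  · have h6 : ((aeval (fun i => algebraMap Pw Ac (X i)) : MvPolynomial (Fin ρ) ℂ →ₐ[ℂ] Ac) :
        MvPolynomial (Fin ρ) ℂ →+* Ac) = algebraMap Pw Ac := RingHom.ext hae
    rw [h6]
    change @Algebra.Etale Pw Ac _ _ (algebraMap Pw Ac).toAlgebra
    have h7 : (algebraMap Pw Ac).toAlgebra = r3 := Algebra.algebra_ext _ _ fun _ => rfl
    rw [h7]
    exact r4
  · intro i
    have h6 := hmap (X (Fin.castAdd a i))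
    rw [aeval_X] at h6
    change _ = j (D.w (Fin.castAdd a i))
    have h7 : ψ (X (Fin.castAdd a i)) = X i := by
      change aeval _ (X (Fin.castAdd a i)) = _
      rw [aeval_X, Fin.append_left]
    rw [h6, h7]
  · intro k
    have h6 := hmap (X (Fin.natAdd ρ k))
    rw [aeval_X] at h6
    change j (D.w (Fin.natAdd ρ k)) = _
    rw [h6]
    have h7 : ψ (X (Fin.natAdd ρ k)) = C (y (D.w (Fin.natAdd ρ k))) := by
      change aeval _ (X (Fin.natAdd ρ k)) = _
      rw [aeval_X, Fin.append_right]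
    rw [h7]
    rfl
  · intro p hp
    rw [hae] at hp
    exact h5 p hp

/-- **DESC-MSEC** -/
theorem exists_msec {ρ a : ℕ} {K0 L : Type} [Field K0] [Algebra ℂ K0] [Field L] [Algebra ℂ L]
    [Algebra K0 L] (V : VData ρ a K0 L) (F : Finset V.D.A)
    (hF : ∀ g ∈ F, ¬ V.D.t ∣ g) :
    ∃ (Lc : Type) (_ : Field Lc) (_ : Algebra ℂ Lc) (_ : Algebra K0 Lc) (_ : IsScalarTower ℂ K0 Lc)
      (Dc : DivModel ρ Lc) (j : V.D.A →ₐ[ℂ] Dc.A) (c : Fin a → ℂ),
      Module.Finite K0 Lc ∧ Dc.i₀ = V.DL.i₀ ∧ (∀ i, Dc.w i = j (V.D.w (Fin.castAdd a i))) ∧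
      (∀ k, j (V.D.w (Fin.natAdd ρ k)) = algebraMap ℂ _ (c k)) ∧ (∀ g ∈ F, ¬ Dc.t ∣ j g) ∧
      ∀ b : V.DL.A, algebraMap Dc.A Lc (j (V.ι b)) =
        algebraMap K0 Lc (algebraMap V.DL.A K0 b) := by
  classical
  set i₀ := V.DL.i₀ with hi₀
  -- the point
  have hprod : ¬ V.D.t ∣ (∏ g ∈ F, g) * V.u := by
    intro h
    rcases V.D.t_prime.dvd_or_dvd h with h1 | h1
    · obtain ⟨g, hg, hgd⟩ := (V.D.t_prime.dvd_finsetProd_iff _).1 h1
      exact hF g hg hgd
    · exact V.u_nd h1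
  obtain ⟨y, hy, hyg⟩ := V.D.exists_point _ hprod
  rw [map_mul] at hyg
  have hyu : y V.u ≠ 0 := right_ne_zero_of_mul hyg
  have hyF : ∀ g ∈ F, y g ≠ 0 := by
    intro g hg h0
    apply left_ne_zero_of_mul hyg
    rw [map_prod]
    exact Finset.prod_eq_zero hg h0
  obtain ⟨Ac, r1, r2, r3, wc, j, ξ, hft, het, hprime, hw, hk, hξ, hpure⟩ :=
    exists_slice' V.D i₀ V.i₀_eq y hy
  have ht : wc i₀ = j V.D.t := by
    rw [hw, DivModel.t, V.i₀_eq]
  have hnd : ∀ b : V.D.A, y b ≠ 0 → ¬ wc i₀ ∣ j b := by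
    rintro b hb ⟨q, hq⟩
    apply hb
    rw [← hξ, hq, map_mul, ht, hξ, hy, zero_mul]
  -- the composite on the polynomial ring of the base is injective
  let κ : MvPolynomial (Fin ρ) ℂ →ₐ[ℂ] Ac := (j.comp V.ι).comp (aeval V.DL.w)
  have hκi : ∀ i, i ≠ i₀ → κ (X i) = wc i := by
    intro i hi
    change j (V.ι (aeval V.DL.w (X i))) = wc i
    rw [aeval_X, ← V.base i hi, hw]
  have hκt : κ (X i₀) = wc i₀ ^ V.e * j V.u := by
    change j (V.ι (aeval V.DL.w (X i₀))) = _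
    rw [aeval_X]
    change j (V.ι V.DL.t) = _
    rw [V.ram, map_mul, map_pow, ht]
  have hκt0 : κ (X i₀) ≠ 0 := by
    rw [hκt]
    refine mul_ne_zero (pow_ne_zero _ hprime.ne_zero) ?_
    intro h0
    exact hnd V.u hyu (h0 ▸ dvd_zero _)
  have hcong : ∀ p : MvPolynomial (Fin ρ) ℂ, wc i₀ ∣ κ p - aeval wc p := by
    intro p
    induction p using MvPolynomial.induction_on with
    | C c =>
      have h1 : κ (C c) = aeval wc (C c) := by
        rw [aeval_C]
        exact κ.commutes c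
      rw [h1, sub_self]
      exact dvd_zero _
    | add p q hp hq =>
      rw [map_add, map_add]
      have := dvd_add hp hq
      convert this using 1
      ring
    | mul_X p i hp =>
      rw [map_mul, map_mul, aeval_X]
      by_cases h : i = i₀
      · subst h
        obtain ⟨e', he'⟩ := Nat.exists_eq_succ_of_ne_zero V.e_ne
        rw [hκt, he', pow_succ]
        exact dvd_sub ⟨κ p * (wc i₀ ^ e') * j V.u, by ring⟩ (dvd_mul_left _ _)
      · rw [hκi i h, ← sub_mul]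
        exact hp.mul_right _
  have hκinj : ∀ p : MvPolynomial (Fin ρ) ℂ, κ p = 0 → p = 0 := by
    intro p hp
    by_contra hne
    obtain ⟨n, q, hq, hpq⟩ : ∃ (n : ℕ) (q : MvPolynomial (Fin ρ) ℂ), ¬ (X i₀) ∣ q ∧
        p = X i₀ ^ n * q := by
      have hfin : FiniteMultiplicity (X i₀ : MvPolynomial (Fin ρ) ℂ) p :=
        FiniteMultiplicity.of_prime_left (MvPolynomial.X_prime) hne
      obtain ⟨q, hq1, hq2⟩ := hfin.exists_eq_pow_mul_and_not_dvd
      exact ⟨_, q, hq2, hq1⟩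
    have h1 : κ q = 0 := by
      rw [hpq, map_mul, map_pow, mul_eq_zero] at hp
      exact hp.resolve_left (pow_ne_zero _ hκt0)
    have h2 : wc i₀ ∣ aeval wc q := by
      have := hcong q
      rw [h1, zero_sub, dvd_neg] at this
      exact this
    exact hq (χ_ker i₀ (hpure q h2))
  -- injectivity on `DL.A`
  let Pw := MvPolynomial (Fin ρ) ℂ
  letI i5 : Algebra Pw V.DL.A := ((aeval V.DL.w : MvPolynomial (Fin ρ) ℂ →ₐ[ℂ] V.DL.A) :
    MvPolynomial (Fin ρ) ℂ →+* V.DL.A).toAlgebra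
  haveI i6 : Algebra.Etale Pw V.DL.A := V.DL.etale
  have halg := isAlgebraic_of_etale Pw V.DL.A
  have hinj : Function.Injective ((j.comp V.ι : V.DL.A →ₐ[ℂ] Ac) : V.DL.A →+* Ac) := by
    rw [injective_iff_map_eq_zero]
    intro b hb
    by_contra hne
    obtain ⟨p, hp0, q, hq⟩ :=
      (halg.isAlgebraic b).exists_nonzero_dvd (mem_nonZeroDivisors_of_ne_zero hne)
    apply hp0
    apply hκinj
    change (j.comp V.ι) (algebraMap Pw V.DL.A p) = 0
    rw [hq, map_mul]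
    have hb' : (j.comp V.ι) b = 0 := hb
    rw [hb', zero_mul]
  -- the fields
  let Lc := FractionRing Ac
  have hinj2 : Function.Injective ((algebraMap Ac Lc).comp
      ((j.comp V.ι : V.DL.A →ₐ[ℂ] Ac) : V.DL.A →+* Ac)) :=
    (IsFractionRing.injective Ac Lc).comp hinj
  let θ : K0 →+* Lc := IsFractionRing.lift hinj2
  have hθ : ∀ b, θ (algebraMap V.DL.A K0 b) = algebraMap Ac Lc (j (V.ι b)) := fun b =>
    IsFractionRing.lift_algebraMap hinj2 b
  letI i7 : Algebra K0 Lc := θ.toAlgebra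
  haveI i8 : IsScalarTower ℂ K0 Lc := IsScalarTower.of_algebraMap_eq fun c => by
    change _ = θ (algebraMap ℂ K0 c)
    rw [IsScalarTower.algebraMap_apply ℂ V.DL.A K0, hθ, IsScalarTower.algebraMap_apply ℂ Ac Lc]
    congr 1
    exact ((j.comp V.ι).commutes c).symm
  let Dc : DivModel ρ Lc :=
    { A := Ac
      ft := hft
      w := wc
      etale := het
      i₀ := i₀
      prime := hprime }
  refine ⟨Lc, inferInstance, inferInstance, i7, i8, Dc, j, fun k => y (V.D.w (Fin.natAdd ρ k)), ?_,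
    rfl, hw, hk, fun g hg => hnd g (hyF g hg), fun b => (hθ b).symm⟩
  -- finiteness
  have htb := isTranscendenceBasis_of_etale (K := Lc) wc het
  have htb0 := isTranscendenceBasis_of_etale (K := K0) V.DL.w V.DL.etale
  have hess : Algebra.EssFiniteType ℂ Lc :=
    haveI := hft
    haveI : Algebra.EssFiniteType Ac Lc :=
      Algebra.EssFiniteType.of_isLocalization Lc (nonZeroDivisors Ac)
    Algebra.EssFiniteType.comp ℂ Ac Lc
  have hess2 : Algebra.EssFiniteType K0 Lc := Algebra.EssFiniteType.of_comp ℂ K0 Lc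
  have hind : AlgebraicIndependent ℂ (fun i => algebraMap K0 Lc (algebraMap V.DL.A K0 (V.DL.w i))) :=
    htb0.1.map' (f := IsScalarTower.toAlgHom ℂ K0 Lc) (algebraMap K0 Lc).injective
  have htb1 : IsTranscendenceBasis ℂ
      (fun i => algebraMap K0 Lc (algebraMap V.DL.A K0 (V.DL.w i))) := by
    refine hind.isTranscendenceBasis_of_trdeg_le_of_finite ?_
    rw [← htb.cardinalMk_eq_trdeg]
  have halg2 : Algebra.IsAlgebraic K0 Lc := by
    have h1 := htb1.isAlgebraic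
    have hle : Algebra.adjoin ℂ (Set.range fun i => algebraMap K0 Lc
        (algebraMap V.DL.A K0 (V.DL.w i))) ≤ (IsScalarTower.toAlgHom ℂ K0 Lc).range := by
      rw [Algebra.adjoin_le_iff]
      rintro _ ⟨i, rfl⟩
      exact ⟨algebraMap V.DL.A K0 (V.DL.w i), rfl⟩
    refine ⟨fun x => ?_⟩
    have h2 : IsAlgebraic (IsScalarTower.toAlgHom ℂ K0 Lc).range x := by
      have h3 := (Algebra.IsAlgebraic.isAlgebraic (R := Algebra.adjoin ℂ (Set.range fun i =>
        algebraMap K0 Lc (algebraMap V.DL.A K0 (V.DL.w i)))) x)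
      exact h3.ringHom_of_comp_eq (Subalgebra.inclusion hle : _ →+* _) (RingHom.id Lc)
        (Subalgebra.inclusion_injective hle) rfl
    exact IsAlgebraic.of_ringHom_of_comp_eq (R := K0)
      (S := (IsScalarTower.toAlgHom ℂ K0 Lc).range)
      ((IsScalarTower.toAlgHom ℂ K0 Lc).rangeRestrict : K0 →+* _) (RingHom.id Lc) h2
      (IsScalarTower.toAlgHom ℂ K0 Lc).rangeRestrict_surjective Function.injective_id rfl
  exact Algebra.finite_of_essFiniteType_of_isAlgebraic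

end Crest.Agent.R276.Msec_231
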