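import Mathlib
import Crest.Agent.R276.BcqI_828
import Crest.Agent.R276.Msec_231
import Crest.Agent.R276.Mod6_987

/-!
# R276, leaf DESC-LD (helper828): definitions

Relative model `R : RMdl T L (d+1) a` (`M_L → M_T`), `V : VData (d+1) a T L` (algebraic data at a
divisor of `L` whose trace on `T` is a divisor).
* `MS V D j c` : multisection of the divisor (`Msec_231.exists_msec`, divisor index normalised to
  `0`): `D` a divisorial model of a finite extension `Lc` of `T`, `j : V.D.A → D.A`;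
* `LB R V D j F FL` : boundary charts of `M_T` along the divisor of `D` (`BD`), together with
  compatible lifts to `M_L`; the elements of `FL ⊆ L` are good;
* `exists_BD'` : `exists_BD` with prescribed units.
-/

set_option autoImplicit false

noncomputable section

open Set Filter Topology Metric MeasureTheory
open scoped ENNReal

namespace Crest.Agent.R276.Ld_828

open Crest.Agent.R271.Defs710 Crest.Agent.R271.Rd692 Crest.Agent.R271.Alg255
open Crest.Agent.R271.Bd741 Crest.Agent.R271.Ho51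
open Crest.Agent.R276.BC_986 Crest.Agent.R276.Mod1_987 Crest.Agent.R276.CntDefs_857
open Crest.Agent.R276.BR_590 (VData)
open Crest.Agent.R276.Bcq_828

section defs

variable {d a : ℕ} {T L : Type} [Field T] [Field L] [Algebra ℂ T] [Algebra ℂ L] [Algebra T L]

/-- a multisection of a vertical divisor -/
structure MS (V : VData (d + 1) a T L) {Lc : Type} [Field Lc] [Algebra ℂ Lc] [Algebra T Lc]
    (D : DivModel (d + 1) Lc) (j : V.D.A →ₐ[ℂ] D.A) (c : Fin a → ℂ) : Prop where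
  fin : Module.Finite T Lc
  h0 : D.i₀ = 0
  w_eq : ∀ i, D.w i = j (V.D.w (Fin.castAdd a (Equiv.swap 0 V.DL.i₀ i)))
  t_eq : D.t = j V.D.t
  fib : ∀ k, j (V.D.w (Fin.natAdd (d + 1) k)) = algebraMap ℂ _ (c k)
  base : ∀ b : V.DL.A, algebraMap D.A Lc (j (V.ι b)) = algebraMap T Lc (algebraMap V.DL.A T b)

/-- boundary charts of `M_T` along a multisection, with lifts to `M_L` -/
structure LB [IsScalarTower ℂ T L] (R : RMdl T L (d + 1) a) (V : VData (d + 1) a T L) {Lc : Type}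
    [Field Lc] [Algebra ℂ Lc] [Algebra T Lc] (D : DivModel (d + 1) Lc) (j : V.D.A →ₐ[ℂ] D.A)
    (F : Finset Lc) (FL : Finset L) where
  /-- the boundary charts of `M_T` -/
  bd : BD D R.ML.B R.ML.z F
  q : V.D.A
  k : ℕ
  u : V.D.A
  q_eq : q = V.D.t ^ k * u
  hu : j u ∈ bd.S
  q_spec : ∀ b : R.MK.B, ∃ (m : ℕ) (a : V.D.A),
    algebraMap R.MK.B L b * algebraMap V.D.A L q ^ m = algebraMap V.D.A L a
  /-- the lifts to `M_L` -/
  s : bd.E → Cn (d + 1) → R.MK.Pts
  spec : ∀ y, ∀ ζ ∈ PS d (bd.Q.r y), ∀ (b : R.MK.B) (u v : V.D.A),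
    algebraMap R.MK.B L b * algebraMap V.D.A L v = algebraMap V.D.A L u →
    s y ζ b * bd.Q.s y ζ (j v) = bd.Q.s y ζ (j u)
  good : ∀ f ∈ FL, ∃ (e : ℤ) (u v : V.D.A), ¬ V.D.t ∣ u ∧ ¬ V.D.t ∣ v ∧
    f * algebraMap V.D.A L v = algebraMap V.D.A L V.D.t ^ e * algebraMap V.D.A L u ∧
    j u ∈ bd.S ∧ j v ∈ bd.S

end defs

/-! ### boundary charts with prescribed units -/

section exist

variable {d : ℕ} {K : Type} [Field K] [Algebra ℂ K]

/-- **existence of the boundary charts**, with prescribed units -/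
theorem exists_BD' (D : DivModel (d + 1) K) (h0 : D.i₀ = 0) (B : Type) [CommRing B] [IsDomain B]
    [Algebra ℂ B] [Algebra B K] [IsScalarTower ℂ B K]
    (hinj : Function.Injective (algebraMap B K)) [Algebra.IsAlgebraic B K]
    (hB : Algebra.FiniteType ℂ B) (z : Fin (d + 1) → B)
    (het : RingHom.Etale ((MvPolynomial.aeval z : MvPolynomial (Fin (d + 1)) ℂ →ₐ[ℂ] B) :
      MvPolynomial (Fin (d + 1)) ℂ →+* B)) (F : Finset K) (hF : ∀ f ∈ F, f ≠ 0)
    (S₀ : Finset D.A) (hS₀ : ∀ s ∈ S₀, ¬ D.t ∣ s) :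
    ∃ g : MvPolynomial (Fin d) ℂ, g ≠ 0 ∧ ∀ h : MvPolynomial (Fin d) ℂ, h ≠ 0 → g ∣ h →
      ∃ R : BD D B z F, R.X.M.h = h ∧ S₀ ⊆ R.S := by
  classical
  obtain ⟨b, hb⟩ := exists_basis_B hinj z het
  -- the common denominator
  obtain ⟨q, hq0, hq⟩ := exists_denom (A := D.A) (B := B) K hB
  obtain ⟨k, uq, huq, hquq⟩ := D.exists_pow_mul q hq0
  -- algebraic relations
  have hp : ∀ i, ∃ p : Polynomial B, p ≠ 0 ∧
      Polynomial.aeval (algebraMap D.A K (D.w i)) p = 0 := fun i =>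
    Algebra.IsAlgebraic.isAlgebraic (R := B) (algebraMap D.A K (D.w i))
  choose p hp0 hp using hp
  -- the good functions
  set F' : Finset K := insert (D.dw.toMatrix b).det
    (F ∪ Finset.univ.image fun i => algebraMap B K (p i).leadingCoeff) with hF'
  have hF'0 : ∀ f ∈ F', f ≠ 0 := by
    intro f hf
    rw [hF', Finset.mem_insert, Finset.mem_union, Finset.mem_image] at hf
    rcases hf with rfl | hf | ⟨i, _, rfl⟩
    · exact DivModel.det_ne_zero _ _
    · exact hF f hf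
    · intro h
      exact hp0 i (Polynomial.leadingCoeff_eq_zero.1 (hinj (by rw [h, map_zero])))
  have hord : ∀ f : K, ∃ (a : ℤ) (u v : D.A), f ∈ F' → ¬ D.t ∣ u ∧ ¬ D.t ∣ v ∧
      f * algebraMap D.A K v = algebraMap D.A K D.t ^ a * algebraMap D.A K u := by
    intro f
    by_cases hf : f ∈ F'
    · obtain ⟨a, u, v, h1, h2, h3⟩ := D.exists_hasOrd f (hF'0 f hf)
      exact ⟨a, u, v, fun _ => ⟨h1, h2, h3⟩⟩
    · exact ⟨0, 0, 0, fun h => absurd h hf⟩
  choose aa uu vv hord using hord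
  set S : Finset D.A := insert uq ((F'.image uu ∪ F'.image vv) ∪ S₀) with hS
  have hSt : ∀ s ∈ S, ¬ D.t ∣ s := by
    intro s hs
    rw [hS, Finset.mem_insert, Finset.mem_union, Finset.mem_union, Finset.mem_image,
      Finset.mem_image] at hs
    rcases hs with rfl | (⟨f, hf, rfl⟩ | ⟨f, hf, rfl⟩) | hs
    · exact huq
    · exact (hord f hf).1
    · exact (hord f hf).2.1
    · exact hS₀ s hs
  obtain ⟨g, hg0, hg⟩ := exists_divMdl D h0 S
  refine ⟨g, hg0, fun h hh0 hgh => ?_⟩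
  obtain ⟨X, hXh, hXu⟩ := hg h hh0 hgh
  obtain ⟨Q⟩ := exists_QS X S (fun s hs => hXu s hs (hSt s hs))
  obtain ⟨P, hPq⟩ := exists_QB (B := B) h0 Q hquq (by rw [hS]; exact Finset.mem_insert_self _ _) hq
  have hgood : ∀ f ∈ F', ∃ (a : ℤ) (G : X.M.Pts → Cn (d + 1) → ℂ), D.HasOrd f a ∧
      QGood Q f a G := by
    intro f hf
    obtain ⟨h1, h2, h3⟩ := hord f hf
    obtain ⟨G, hG⟩ := exists_QGood Q (f := f) (a := aa f) (u := uu f) (v := vv f)
      (by rw [hS]; exact Finset.mem_insert_of_mem (Finset.mem_union_left _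
        (Finset.mem_union_left _ (Finset.mem_image_of_mem _ hf))))
      (by rw [hS]; exact Finset.mem_insert_of_mem (Finset.mem_union_left _
        (Finset.mem_union_right _ (Finset.mem_image_of_mem _ hf)))) h3
    exact ⟨aa f, G, ⟨uu f, vv f, h1, h2, h3⟩, hG⟩
  obtain ⟨cJ, GJ, hJ1, hJ2⟩ := hgood (D.dw.toMatrix b).det (by
    rw [hF']; exact Finset.mem_insert_self _ _)
  have hlc : ∀ i, ∀ y, ∀ ζ ∈ PS d (Q.r y), P.σ y ζ (p i).leadingCoeff ≠ 0 := by
    intro i y ζ hζ
    obtain ⟨a, G, -, hG⟩ := hgood (algebraMap B K (p i).leadingCoeff) (by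
      rw [hF']
      exact Finset.mem_insert_of_mem (Finset.mem_union_right _
        (Finset.mem_image_of_mem _ (Finset.mem_univ i))))
    have h1 := (mem_PS_iff (Q.r_pos y)).1 hζ
    rw [P.val_good h0 hG hζ rfl]
    exact mul_ne_zero (zpow_ne_zero _ h1.2) (hG.ne h1.1)
  refine ⟨⟨X, S, Q, P, h0, b, hb, ∏ i, (p i).natDegree, P.mult h0 p hp hlc, cJ, GJ, hJ1, hJ2,
    fun f hf => hgood f ?_⟩, hXh, ?_⟩
  · rw [hF']
    exact Finset.mem_insert_of_mem (Finset.mem_union_left _ hf)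
  · intro s hs
    change s ∈ S
    rw [hS]
    exact Finset.mem_insert_of_mem (Finset.mem_union_right _ hs)

end exist

end Crest.Agent.R276.Ld_828
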