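import Mathlib
import Crest.Agent.R276.LdDefs_828
import Crest.Agent.R276.LftDefs_327

/-!
# R276, leaf DESC-LD (helper828): existence and the structure `LftDefs_327.LD`

* `exists_LB` : existence of the boundary charts of `M_T` with lifts to `M_L`;
* `LB.fs`, `LB.anal`, `LB.compat`, `LB.bound_PS`, `LB.unit` : properties of the lifts;
* `LB.ld` : the structure `LD` of 327.
-/

set_option autoImplicit false

noncomputable section

open Set Filter Topology Metric MeasureTheory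
open scoped ENNReal

namespace Crest.Agent.R276.Ld_828

open Crest.Agent.R271.Defs710 Crest.Agent.R271.Rd692 Crest.Agent.R271.Alg255
open Crest.Agent.R271.Bd741 Crest.Agent.R271.Ho51
open Crest.Agent.R276.BC_986 Crest.Agent.R276.Mod1_987 Crest.Agent.R276.CntDefs_857
open Crest.Agent.R276.BR_590 (VData)
open Crest.Agent.R276.Bcq_828 Crest.Agent.R276.Ipc735

variable {d a : ℕ} {T L : Type} [Field T] [Field L] [Algebra ℂ T] [Algebra ℂ L] [Algebra T L]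

/-! ### existence -/

theorem exists_ms (V : VData (d + 1) a T L) (F : Finset V.D.A) (hF : ∀ g ∈ F, ¬ V.D.t ∣ g) :
    ∃ (Lc : Type) (_ : Field Lc) (_ : Algebra ℂ Lc) (_ : Algebra T Lc) (_ : IsScalarTower ℂ T Lc)
      (D : DivModel (d + 1) Lc) (j : V.D.A →ₐ[ℂ] D.A) (c : Fin a → ℂ), MS V D j c ∧
      ∀ g ∈ F, ¬ D.t ∣ j g := by
  obtain ⟨Lc, i1, i2, i3, i4, Dc, j, c, h1, h2, h3, h4, h5, h6⟩ := Msec_231.exists_msec V F hF
  have ht : Dc.t = j V.D.t := by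
    rw [DivModel.t, DivModel.t, h2, h3, V.i₀_eq]
  refine ⟨Lc, i1, i2, i3, i4, normD Dc, j, c, ⟨h1, rfl, fun i => ?_, ?_, h4, h6⟩, ?_⟩
  · change Dc.w (Equiv.swap 0 Dc.i₀ i) = _
    rw [h3, h2]
    rfl
  · rw [normD_t]; exact ht
  · intro g hg
    rw [normD_t]
    exact h5 g hg

variable [IsScalarTower ℂ T L]

/-- **existence** -/
theorem exists_LB (R : RMdl T L (d + 1) a) (V : VData (d + 1) a T L) (FL : Finset L)
    (hFL : ∀ f ∈ FL, f ≠ 0) (S₁ : Finset V.D.A) (hS₁ : ∀ s ∈ S₁, ¬ V.D.t ∣ s) :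
    ∃ (Lc : Type) (_ : Field Lc) (_ : Algebra ℂ Lc) (_ : Algebra T Lc) (_ : IsScalarTower ℂ T Lc)
      (D : DivModel (d + 1) Lc) (j : V.D.A →ₐ[ℂ] D.A) (c : Fin a → ℂ), MS V D j c ∧
      ∀ (F : Finset Lc), (∀ f ∈ F, f ≠ 0) → ∀ (S₂ : Finset D.A), (∀ s ∈ S₂, ¬ D.t ∣ s) →
      ∃ g : MvPolynomial (Fin d) ℂ, g ≠ 0 ∧ ∀ h : MvPolynomial (Fin d) ℂ, h ≠ 0 → g ∣ h →
        ∃ P : LB R V D j F FL, P.bd.X.M.h = h ∧ (∀ s ∈ S₁, j s ∈ P.bd.S) ∧ S₂ ⊆ P.bd.S := by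
  classical
  obtain ⟨q, hq0, hq⟩ := exists_denom (A := V.D.A) (B := R.MK.B) L R.MK.ft
  obtain ⟨k, uq, huq, hquq⟩ := V.D.exists_pow_mul q hq0
  have hord : ∀ f : L, ∃ (e : ℤ) (u v : V.D.A), f ∈ FL → ¬ V.D.t ∣ u ∧ ¬ V.D.t ∣ v ∧
      f * algebraMap V.D.A L v = algebraMap V.D.A L V.D.t ^ e * algebraMap V.D.A L u := by
    intro f
    by_cases hf : f ∈ FL
    · obtain ⟨a, u, v, h1, h2, h3⟩ := V.D.exists_hasOrd f (hFL f hf)
      exact ⟨a, u, v, fun _ => ⟨h1, h2, h3⟩⟩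
    · exact ⟨0, 0, 0, fun h => absurd h hf⟩
  choose ee uu vv hord using hord
  set SA : Finset V.D.A := insert uq ((FL.image uu ∪ FL.image vv) ∪ S₁) with hSA
  have hSt : ∀ s ∈ SA, ¬ V.D.t ∣ s := by
    intro s hs
    rw [hSA, Finset.mem_insert, Finset.mem_union, Finset.mem_union, Finset.mem_image,
      Finset.mem_image] at hs
    rcases hs with rfl | (⟨f, hf, rfl⟩ | ⟨f, hf, rfl⟩) | hs
    · exact huq
    · exact (hord f hf).1
    · exact (hord f hf).2.1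
    · exact hS₁ s hs
  obtain ⟨Lc, i1, i2, i3, i4, D, j, c, hM, hj⟩ := exists_ms V SA hSt
  refine ⟨Lc, i1, i2, i3, i4, D, j, c, hM, fun F hF S₂ hS₂ => ?_⟩
  have hfin := hM.fin
  have : Algebra.IsAlgebraic R.ML.B T := IsLocalization.isAlgebraic _ (nonZeroDivisors R.ML.B)
  have : IsScalarTower R.ML.B T Lc := IsScalarTower.of_algebraMap_eq fun _ => rfl
  have : Algebra.IsAlgebraic T Lc := Algebra.IsAlgebraic.of_finite T Lc
  have : Algebra.IsAlgebraic R.ML.B Lc := Algebra.IsAlgebraic.trans R.ML.B T Lc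
  have : IsScalarTower ℂ R.ML.B Lc := IsScalarTower.of_algebraMap_eq fun x => by
    rw [IsScalarTower.algebraMap_apply ℂ T Lc]
    rfl
  have hinj : Function.Injective (algebraMap R.ML.B Lc) := by
    have h1 : (algebraMap R.ML.B Lc : R.ML.B → Lc) =
      fun b : R.ML.B => algebraMap T Lc (b : T) := rfl
    rw [h1]
    exact (algebraMap T Lc).injective.comp Subtype.val_injective
  obtain ⟨g, hg0, hg⟩ := exists_BD' D hM.h0 R.ML.B hinj R.ML.ft R.ML.z R.ML.het F hF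
    (SA.image j ∪ S₂) (by
      intro s hs
      rw [Finset.mem_union, Finset.mem_image] at hs
      rcases hs with ⟨s, hs, rfl⟩ | hs
      · exact hj s hs
      · exact hS₂ s hs)
  refine ⟨g, hg0, fun h hh0 hgh => ?_⟩
  obtain ⟨X, hXh, hXS⟩ := hg h hh0 hgh
  have hXj : ∀ s ∈ SA, j s ∈ X.S := fun s hs =>
    hXS (Finset.mem_union_left _ (Finset.mem_image_of_mem _ hs))
  have hinjA := V.D.inj
  have hne : ∀ (y : X.E) (ζ : Cn (d + 1)), ζ ∈ PS d (X.Q.r y) →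
      ((X.Q.s y ζ).comp j) q ≠ 0 := by
    intro y ζ hζ
    rw [mem_PS_iff (X.Q.r_pos y)] at hζ
    rw [hquq, map_mul, map_pow]
    refine mul_ne_zero (pow_ne_zero _ ?_) ?_
    · change X.Q.s y ζ (j V.D.t) ≠ 0
      rw [← hM.t_eq, X.Q.s_t hM.h0 hζ.1]
      exact hζ.2
    · exact X.Q.ne (hXj uq (by rw [hSA]; exact Finset.mem_insert_self _ _)) y hζ.1
  have hpt : Nonempty (Pt R.MK.B) := by
    obtain ⟨y₁⟩ : Nonempty X.X.M.Pts := inferInstance
    have hr := X.Q.r_pos y₁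
    have hmem : (Pi.single 0 ((X.Q.r y₁ / 2 : ℝ) : ℂ) : Cn (d + 1)) ∈ PS d (X.Q.r y₁) := by
      rw [mem_PS_iff hr]
      constructor
      · rw [mem_ball_zero_iff, Pi.norm_single]
        simp only [Complex.norm_real, Real.norm_eq_abs]
        rw [abs_of_pos (by positivity)]
        linarith
      · rw [Pi.single_eq_same]
        simp [hr.ne']
    obtain ⟨p, _⟩ := Crest.Agent.R271.Bd741.exists_pt hinjA q hq ((X.Q.s y₁ _).comp j)
      (hne y₁ _ hmem)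
    exact ⟨p⟩
  have hex : ∀ (y : X.E) (ζ : Cn (d + 1)), ∃ p : Pt R.MK.B, ζ ∈ PS d (X.Q.r y) →
      ∀ (b : R.MK.B) (u v : V.D.A),
      algebraMap R.MK.B L b * algebraMap V.D.A L v = algebraMap V.D.A L u →
      p b * X.Q.s y ζ (j v) = X.Q.s y ζ (j u) := by
    intro y ζ
    by_cases hζ : ζ ∈ PS d (X.Q.r y)
    · obtain ⟨p, hp⟩ := Crest.Agent.R271.Bd741.exists_pt hinjA q hq ((X.Q.s y ζ).comp j)
        (hne y ζ hζ)
      exact ⟨p, fun _ => hp⟩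
    · obtain ⟨p⟩ := hpt
      exact ⟨p, fun h' => absurd h' hζ⟩
  choose s hs using hex
  refine ⟨⟨X, q, k, uq, hquq, hXj uq (by rw [hSA]; exact Finset.mem_insert_self _ _), hq, s, hs,
    fun f hf => ?_⟩, hXh, fun s hs => ?_, fun s hs => hXS (Finset.mem_union_right _ hs)⟩
  · obtain ⟨h1, h2, h3⟩ := hord f hf
    refine ⟨ee f, uu f, vv f, h1, h2, h3, hXj _ ?_, hXj _ ?_⟩
    · rw [hSA]
      exact Finset.mem_insert_of_mem (Finset.mem_union_left _ (Finset.mem_union_left _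
        (Finset.mem_image_of_mem _ hf)))
    · rw [hSA]
      exact Finset.mem_insert_of_mem (Finset.mem_union_left _ (Finset.mem_union_right _
        (Finset.mem_image_of_mem _ hf)))
  · apply hXj
    rw [hSA]
    exact Finset.mem_insert_of_mem (Finset.mem_union_right _ hs)

/-! ### properties of the lifts -/

namespace LB

variable {R : RMdl T L (d + 1) a} {V : VData (d + 1) a T L} {Lc : Type}
    [Field Lc] [Algebra ℂ Lc] [Algebra T Lc] {D : DivModel (d + 1) Lc} {j : V.D.A →ₐ[ℂ] D.A}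
    {F : Finset Lc} {FL : Finset L} (P : LB R V D j F FL) {c : Fin a → ℂ} (hM : MS V D j c)

/-- the point of `Hom(V.D.A, ℂ)` -/
def pt (y : P.bd.E) (ζ : Cn (d + 1)) : V.D.A →ₐ[ℂ] ℂ := (P.bd.Q.s y ζ).comp j

lemma pt_apply (y : P.bd.E) (ζ : Cn (d + 1)) (x : V.D.A) : P.pt y ζ x = P.bd.Q.s y ζ (j x) := rfl

include hM in
lemma q_ne {y : P.bd.E} {ζ : Cn (d + 1)} (hζ : ζ ∈ PS d (P.bd.Q.r y)) : P.pt y ζ P.q ≠ 0 := by
  rw [mem_PS_iff (P.bd.Q.r_pos y)] at hζ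
  rw [P.q_eq, map_mul, map_pow]
  refine mul_ne_zero (pow_ne_zero _ ?_) ?_
  · change P.bd.Q.s y ζ (j V.D.t) ≠ 0
    rw [← hM.t_eq, P.bd.Q.s_t hM.h0 hζ.1]
    exact hζ.2
  · exact P.bd.Q.ne P.hu y hζ.1

include hM in
/-- the values of `b ∈ B_L` are the values of the rational function `b` -/
lemma isVal {y : P.bd.E} {ζ : Cn (d + 1)} (hζ : ζ ∈ PS d (P.bd.Q.r y)) (b : R.MK.B) :
    IsVal (P.pt y ζ) (algebraMap R.MK.B L b) (P.s y ζ b) := by
  obtain ⟨m, x, h⟩ := P.q_spec b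
  refine ⟨x, P.q ^ m, ?_, by rw [map_pow]; exact h, ?_⟩
  · rw [map_pow]; exact pow_ne_zero _ (P.q_ne hM hζ)
  · exact P.spec y ζ hζ b x (P.q ^ m) (by rw [map_pow]; exact h)

include hM in
/-- the point is determined by the section -/
lemma s_eq {y y' : P.bd.E} {ζ ζ' : Cn (d + 1)} (hζ : ζ ∈ PS d (P.bd.Q.r y))
    (hζ' : ζ' ∈ PS d (P.bd.Q.r y')) (h : P.bd.Q.s y ζ = P.bd.Q.s y' ζ') :
    P.s y ζ = P.s y' ζ' := by
  ext b
  have h1 := P.isVal hM hζ b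
  have h2 := P.isVal hM hζ' b
  have h3 : P.pt y ζ = P.pt y' ζ' := by unfold pt; rw [h]
  rw [h3] at h1
  exact h1.unique V.D.inj h2

include hM in
/-- **compatibility** -/
theorem compat {y : P.bd.E} {e : OpenPartialHomeomorph P.bd.E (Fin d → ℂ)}
    (he : IsCh e) (hy : y ∈ e.source) (het : e.target = ball (cp y) (P.bd.Q.r y)) {y' : P.bd.E}
    (hy' : y' ∈ e.source) {q : Cn (d + 1)} (hq : q ∈ PS d (P.bd.Q.r y'))
    (hq' : q + Fin.cons 0 (cp y' - cp y) ∈ PS d (P.bd.Q.r y)) :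
    P.s y' q = P.s y (q + Fin.cons 0 (cp y' - cp y)) :=
  P.s_eq hM hq hq' (P.bd.Q.compat hM.h0 he hy het hy' ((mem_PS_iff (P.bd.Q.r_pos y')).1 hq).1
    ((mem_PS_iff (P.bd.Q.r_pos y)).1 hq').1)

include hM in
/-- regular functions are holomorphic in the charts -/
lemma anal (y : P.bd.E) (b : R.MK.B) :
    AnalyticOnNhd ℂ (fun ζ => P.s y ζ b) (PS d (P.bd.Q.r y)) := by
  intro ζ hζ
  obtain ⟨m, x, h⟩ := P.q_spec b
  have h1 : (fun ζ => P.s y ζ b) =ᶠ[𝓝 ζ]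
      fun ζ => P.bd.Q.s y ζ (j x) / (P.bd.Q.s y ζ (j P.q)) ^ m := by
    filter_upwards [(isOpen_PS (P.bd.Q.r y)).mem_nhds hζ] with ζ' hζ'
    have h2 := P.spec y ζ' hζ' b x (P.q ^ m) (by rw [map_pow]; exact h)
    have h3 : (P.bd.Q.s y ζ' (j P.q)) ^ m ≠ 0 := pow_ne_zero _ (P.q_ne hM hζ')
    rw [eq_div_iff h3, ← h2, map_pow, map_pow]
  rw [analyticAt_congr h1]
  have hζb := ((mem_PS_iff (P.bd.Q.r_pos y)).1 hζ).1
  exact (P.bd.Q.anal y (j x) ζ hζb).div ((P.bd.Q.anal y (j P.q) ζ hζb).pow m)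
    (pow_ne_zero _ (P.q_ne hM hζ))

include hM in
lemma continuousOn (y : P.bd.E) : ContinuousOn (P.s y) (PS d (P.bd.Q.r y)) := by
  rw [continuousOn_iff_ev]
  intro b ζ hζ
  exact (P.anal hM y b ζ hζ).continuousAt.continuousWithinAt

include hM in
lemma differentiableOn (y : P.bd.E) :
    DifferentiableOn ℂ (fun q => (cp (P.s y q) : Fin (d + 1 + a) → ℂ)) (PS d (P.bd.Q.r y)) := by
  intro ζ hζ
  have h1 : AnalyticAt ℂ (fun q => (cp (P.s y q) : Fin (d + 1 + a) → ℂ)) ζ :=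
    analyticAt_pi_iff.2 fun i => P.anal hM y (R.MK.z i) ζ hζ
  exact h1.differentiableAt.differentiableWithinAt

omit [IsScalarTower ℂ T L] in
/-- relations of an element of `T` over `V.D.A` hold in `Lc` -/
lemma rel_Lc (b : T) (x v : V.D.A) (hM : MS V D j c)
    (h : algebraMap T L b * algebraMap V.D.A L v = algebraMap V.D.A L x) :
    algebraMap T Lc b * algebraMap D.A Lc (j v) = algebraMap D.A Lc (j x) := by
  obtain ⟨β, γ, hγ, hb⟩ := IsFractionRing.div_surjective (A := V.DL.A) b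
  have hγ0 : algebraMap V.DL.A T γ ≠ 0 := by
    intro h0
    have := (IsFractionRing.injective V.DL.A T) (h0.trans (map_zero _).symm)
    exact nonZeroDivisors.ne_zero hγ this
  have hb' : b * algebraMap V.DL.A T γ = algebraMap V.DL.A T β := by
    rw [← hb, div_mul_cancel₀ _ hγ0]
  have h1 : V.ι β * v = V.ι γ * x := by
    apply V.D.inj
    rw [map_mul, map_mul, V.ι_K, V.ι_K, ← hb', ← h, map_mul]
    ring
  have h2 := congrArg (fun x => algebraMap D.A Lc (j x)) h1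
  simp only [map_mul, hM.base] at h2
  rw [← hb', map_mul] at h2
  have hγ1 : algebraMap T Lc (algebraMap V.DL.A T γ) ≠ 0 := by
    rwa [Ne, map_eq_zero]
  apply mul_left_cancel₀ hγ1
  rw [← h2]
  ring

include hM in
/-- the lifts lie over the charts of `M_T` -/
theorem q_s {y : P.bd.E} {ζ : Cn (d + 1)} (hζ : ζ ∈ PS d (P.bd.Q.r y)) :
    R.q (P.s y ζ) = P.bd.P.σ y ζ := by
  ext b
  obtain ⟨m, x, h⟩ := P.q_spec (R.incl b)
  have h0 : algebraMap R.MK.B L (R.incl b) * algebraMap V.D.A L (P.q ^ m) =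
      algebraMap V.D.A L x := by rw [map_pow]; exact h
  have h1 := P.spec y ζ hζ (R.incl b) x (P.q ^ m) h0
  have h2 : algebraMap R.ML.B Lc b * algebraMap D.A Lc (j (P.q ^ m)) =
      algebraMap D.A Lc (j x) := rel_Lc (b : T) x (P.q ^ m) hM h0
  have h3 := P.bd.P.spec y ζ hζ b (j x) (j (P.q ^ m)) h2
  have h4 : P.bd.Q.s y ζ (j (P.q ^ m)) ≠ 0 := by
    rw [map_pow, map_pow]
    exact pow_ne_zero _ (P.q_ne hM hζ)
  apply mul_right_cancel₀ h4
  rw [h3, ← h1]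
  rfl

include hM in
/-- **polynomial bounds** of the values of `b ∈ B_L` -/
theorem bound (b : R.MK.B) : ∃ (C : ℝ) (m k : ℕ), 0 < C ∧ ∀ y,
    ∀ ζ ∈ PS d (P.bd.Q.r y), ‖P.s y ζ b‖ * ‖ζ 0‖ ^ m * rr P.bd.X.M y ^ k ≤ C := by
  obtain ⟨m, x, h⟩ := P.q_spec b
  obtain ⟨C, k, hC, h1⟩ := P.bd.Q.up' (j x)
  obtain ⟨C', k', hC', h2⟩ := P.bd.Q.low_inv P.hu
  refine ⟨C * C' ^ m, P.k * m, k + k' * m, by positivity, fun y ζ hζ => ?_⟩
  have hζb := ((mem_PS_iff (P.bd.Q.r_pos y)).1 hζ).1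
  have h3 := P.spec y ζ hζ b x (P.q ^ m) (by rw [map_pow]; exact h)
  rw [map_pow, map_pow, P.q_eq, map_mul, map_pow, map_mul, map_pow, ← hM.t_eq,
    P.bd.Q.s_t hM.h0 hζb] at h3
  have hu := P.bd.Q.ne P.hu y hζb
  have hu' : 0 < ‖P.bd.Q.s y ζ (j P.u)‖ := norm_pos_iff.2 hu
  have h4 : ‖P.s y ζ b‖ * ‖ζ 0‖ ^ (P.k * m) =
      ‖P.bd.Q.s y ζ (j x)‖ * (‖P.bd.Q.s y ζ (j P.u)‖⁻¹) ^ m := by
    rw [← h3, norm_mul, norm_pow, norm_mul, norm_pow, mul_pow, ← pow_mul, inv_pow]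
    have h5 : ‖P.bd.Q.s y ζ (j P.u)‖ ^ m ≠ 0 := pow_ne_zero _ hu'.ne'
    field_simp
  rw [h4]
  have h5 : (‖P.bd.Q.s y ζ (j P.u)‖⁻¹) ^ m * rr P.bd.X.M y ^ (k' * m) ≤ C' ^ m := by
    rw [pow_mul, ← mul_pow]
    exact pow_le_pow_left₀ (mul_nonneg (by positivity) (pow_nonneg (rr_pos P.bd.X.M y).le _))
      (h2 y ζ hζb) m
  exact mul_bound (by positivity) (rr_pos P.bd.X.M y).le hC.le (h1 y ζ hζb) h5

include hM in
theorem bound_PS (b : R.MK.B) : ∃ (C : ℝ) (m k : ℕ), 0 < C ∧ ∀ y,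
    ∀ ζ ∈ PS d (P.bd.Q.r y), ‖P.s y ζ b‖ ≤ C * (1 / ‖ζ 0‖) ^ m * (1 / P.bd.Q.r y) ^ k := by
  obtain ⟨C, m, k, hC, h⟩ := P.bound hM b
  refine ⟨C, m, k, hC, fun y ζ hζ => ?_⟩
  have hζ0 : 0 < ‖ζ 0‖ := norm_pos_iff.2 hζ.1
  have h1 := P.bd.Q.le_of_mul_rr y (by positivity) (h y ζ hζ)
  rw [one_div ‖ζ 0‖, inv_pow, mul_right_comm, ← div_eq_mul_inv, le_div_iff₀ (by positivity)]
  exact h1

lemma one_le_inv_r (y : P.bd.E) : 1 ≤ 1 / P.bd.Q.r y := by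
  rw [le_div_iff₀ (P.bd.Q.r_pos y), one_mul]
  exact P.bd.Q.r_le_one y

lemma norm_ζ0 {y : P.bd.E} {ζ : Cn (d + 1)} (hζ : ζ ∈ PS d (P.bd.Q.r y)) :
    0 < ‖ζ 0‖ ∧ ‖ζ 0‖ < 1 ∧ 1 ≤ 1 / ‖ζ 0‖ := by
  have h0 : 0 < ‖ζ 0‖ := norm_pos_iff.2 hζ.1
  have h1 : ‖ζ 0‖ < 1 := (hζ.2 0).trans_le (P.bd.Q.r_le_one y)
  exact ⟨h0, h1, by rw [le_div_iff₀ h0]; linarith⟩

include hM in
/-- logarithmic bounds on the whole punctured polydisc -/
theorem log_bound (b : R.MK.B) : ∃ A : ℝ, 1 ≤ A ∧ ∀ y, ∀ ζ ∈ PS d (P.bd.Q.r y),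
    Real.log (1 + ‖P.s y ζ b‖) ≤
      A * (1 + Real.log (1 / P.bd.Q.r y) + Real.log (1 / ‖ζ 0‖)) := by
  obtain ⟨C, m, k, hC, h⟩ := P.bound_PS hM b
  have hlC : 0 ≤ Real.log (1 + C) := Real.log_nonneg (by linarith)
  have hm : (0 : ℝ) ≤ m := Nat.cast_nonneg m
  have hk : (0 : ℝ) ≤ k := Nat.cast_nonneg k
  refine ⟨1 + Real.log (1 + C) + m + k, by linarith, fun y ζ hζ => ?_⟩
  obtain ⟨e1, e2, e3⟩ := P.norm_ζ0 hζ
  have e4 := P.one_le_inv_r y
  set x := 1 / ‖ζ 0‖ with hx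
  set ρ := 1 / P.bd.Q.r y with hρ
  have hx1 : 1 ≤ x ^ m := one_le_pow₀ e3
  have hρ1 : 1 ≤ ρ ^ k := one_le_pow₀ e4
  have h1 : 1 + ‖P.s y ζ b‖ ≤ (1 + C) * (x ^ m * ρ ^ k) := by
    have h2 := h y ζ hζ
    have h3 : 1 ≤ x ^ m * ρ ^ k := one_le_mul_of_one_le_of_one_le hx1 hρ1
    nlinarith
  have hlx : 0 ≤ Real.log x := Real.log_nonneg e3
  have hlρ : 0 ≤ Real.log ρ := Real.log_nonneg e4
  calc Real.log (1 + ‖P.s y ζ b‖) ≤ Real.log ((1 + C) * (x ^ m * ρ ^ k)) :=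
        Real.log_le_log (by positivity) h1
    _ = Real.log (1 + C) + (m * Real.log x + k * Real.log ρ) := by
        rw [Real.log_mul (by positivity) (by positivity), Real.log_mul (by positivity)
          (by positivity), Real.log_pow, Real.log_pow]
    _ ≤ _ := by nlinarith [mul_nonneg hlC hlx, mul_nonneg hlC hlρ, mul_nonneg hm hlρ,
        mul_nonneg hk hlx]

include hM in
/-- a good element of `B_L` is `q₀^e` times a zero free function on the full polydisc -/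
theorem unit (b : R.MK.B) (hb : (b : L) ∈ FL) :
    ∃ (e : ℤ) (A : ℝ) (G : P.bd.E → Cn (d + 1) → ℂ), 0 ≤ A ∧ ∀ y,
      DifferentiableOn ℂ (G y) (ball 0 (P.bd.Q.r y)) ∧
      (∀ q ∈ ball (0 : Cn (d + 1)) (P.bd.Q.r y), G y q ≠ 0 ∧
        |Real.log ‖G y q‖| ≤ A * (1 + Real.log (1 / P.bd.Q.r y))) ∧
      ∀ q ∈ PS d (P.bd.Q.r y), P.s y q b = q 0 ^ e * G y q := by
  obtain ⟨e, u, v, hu, hv, huv, hju, hjv⟩ := P.good (b : L) hb
  have htc : algebraMap D.A Lc D.t ≠ 0 := D.tK_ne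
  have hv0 : algebraMap D.A Lc (j v) ≠ 0 := by
    intro h0
    have h1 := D.inj (h0.trans (map_zero _).symm)
    obtain ⟨y⟩ : Nonempty P.bd.X.M.Pts := inferInstance
    have h2 := P.bd.Q.ne hjv y (mem_ball_self (P.bd.Q.r_pos y))
    rw [h1, map_zero] at h2
    exact h2 rfl
  set f : Lc := algebraMap D.A Lc D.t ^ e * algebraMap D.A Lc (j u) / algebraMap D.A Lc (j v)
    with hf
  have hf' : f * algebraMap D.A Lc (j v) =
      algebraMap D.A Lc D.t ^ e * algebraMap D.A Lc (j u) := by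
    rw [hf, div_mul_cancel₀ _ hv0]
  obtain ⟨G, hG⟩ := exists_QGood P.bd.Q hju hjv hf'
  obtain ⟨C, k, hC, hb1⟩ := hG.bound
  have hlC := Real.log_nonneg hC
  have hk : (0 : ℝ) ≤ k := Nat.cast_nonneg k
  refine ⟨e, Real.log C + k, G, by linarith, fun y => ⟨fun ζ hζ =>
    (hG.anal y ζ hζ).differentiableAt.differentiableWithinAt, fun ζ hζ => ⟨hG.ne hζ, ?_⟩,
    fun ζ hζ => ?_⟩⟩
  · obtain ⟨e1, e2⟩ := hb1 y ζ hζ
    have hr := P.bd.Q.r_pos y
    have hr1 := P.bd.Q.r_le_one y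
    have hG0 : 0 < ‖G y ζ‖ := norm_pos_iff.2 (hG.ne hζ)
    rw [abs_le]
    constructor
    · have h3 : ‖G y ζ‖⁻¹ ≤ C * (1 / P.bd.Q.r y) ^ k := by
        have h4 := inv_anti₀ (by positivity) e1
        refine h4.trans (le_of_eq ?_)
        rw [mul_inv, inv_inv, one_div, inv_pow]
      have h4 := log_le_of_le (inv_pos.2 hG0) hC hr hr1 h3
      rw [Real.log_inv] at h4
      linarith
    · exact log_le_of_le hG0 hC hr hr1 e2
  · have h1 := (mem_PS_iff (P.bd.Q.r_pos y)).1 hζ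
    have h2 := hG.isVal hM.h0 h1.1 h1.2
    have h3 : IsVal (P.bd.Q.s y ζ) f (P.s y ζ b) := by
      have hst : P.bd.Q.s y ζ (j V.D.t) = ζ 0 := by
        rw [← hM.t_eq]
        exact P.bd.Q.s_t hM.h0 h1.1
      have htL : algebraMap V.D.A L V.D.t ≠ 0 := V.D.tK_ne
      obtain ⟨n, hn | hn⟩ := Int.eq_nat_or_neg e
      · refine ⟨j (V.D.t ^ n * u), j v, P.bd.Q.ne hjv y h1.1, ?_, ?_⟩
        · rw [hf', hn, zpow_natCast, map_mul, map_mul, map_pow, map_pow, hM.t_eq]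
        · refine P.spec y ζ hζ b _ v ?_
          rw [map_mul, map_pow]
          have h5 := huv
          rw [hn, zpow_natCast] at h5
          exact h5
      · refine ⟨j u, j (V.D.t ^ n * v), ?_, ?_, ?_⟩
        · rw [map_mul, map_pow, map_mul, map_pow, hst]
          exact mul_ne_zero (pow_ne_zero _ h1.2) (P.bd.Q.ne hjv y h1.1)
        · have h5 := hf'
          rw [hn, zpow_neg, zpow_natCast] at h5
          rw [map_mul, map_pow, map_mul, map_pow, ← hM.t_eq, mul_left_comm, h5]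
          field_simp
        · refine P.spec y ζ hζ b u _ ?_
          have h5 := huv
          rw [hn, zpow_neg, zpow_natCast] at h5
          rw [map_mul, map_pow, mul_left_comm]
          change algebraMap V.D.A L V.D.t ^ n * ((b : L) * algebraMap V.D.A L v) = _
          rw [h5]
          field_simp
    exact h3.unique D.inj h2

end LB

end Crest.Agent.R276.Ld_828
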