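import Mathlib
import Crest.Agent.R276.LdA_828

/-!
# R276, leaf DESC-LD (helper828): the structure `LftDefs_327.LD`

* `growth_log` : two sided polynomial growth of a positive function on a model bounds `|log|` by
  `∑ log (1 + |b|)`;
* `LB.psi_le`, `LB.exists_ld`.
-/

set_option autoImplicit false

noncomputable section

open Set Filter Topology Metric MeasureTheory
open scoped ENNReal

namespace Crest.Agent.R276.Ld_828

open Crest.Agent.R271.Defs710 Crest.Agent.R271.Rd692 Crest.Agent.R271.Alg255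
open Crest.Agent.R271.Bd741 Crest.Agent.R271.Ho51
open Crest.Agent.R276.BC_986 Crest.Agent.R276.Mod1_987 Crest.Agent.R276.CntDefs_857
open Crest.Agent.R276.BR_590 (VData)
open Crest.Agent.R276.Bcq_828 Crest.Agent.R276.Ipc735 Crest.Agent.R276.LftDefs_327

/-! ### growth on a model -/

section growth

variable {K : Type} [Field K] [Algebra ℂ K] {n : ℕ} (M : Mdl K n)

lemma log_one_add_sq_le {ι : Type*} (s : Finset ι) (f : ι → ℝ) (hf : ∀ i, 0 ≤ f i) :
    Real.log (1 + ∑ i ∈ s, f i ^ 2) ≤ 2 * ∑ i ∈ s, Real.log (1 + f i) := by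
  classical
  have h1 : 1 + ∑ i ∈ s, f i ^ 2 ≤ ∏ i ∈ s, (1 + f i) ^ 2 := by
    induction s using Finset.induction_on with
    | empty => simp
    | insert a s ha ih =>
      rw [Finset.sum_insert ha, Finset.prod_insert ha]
      have h2 : 1 ≤ ∏ i ∈ s, (1 + f i) ^ 2 :=
        le_trans (by have : 0 ≤ ∑ i ∈ s, f i ^ 2 := Finset.sum_nonneg fun i _ => sq_nonneg _
                     linarith) ih
      have h3 := hf a
      nlinarith [sq_nonneg (f a), mul_nonneg h3 (by linarith : 0 ≤ ∏ i ∈ s, (1 + f i) ^ 2),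
        mul_nonneg (mul_nonneg h3 h3) (by linarith : 0 ≤ ∏ i ∈ s, (1 + f i) ^ 2 - 1)]
  have h2 : 0 ≤ ∑ i ∈ s, f i ^ 2 := Finset.sum_nonneg fun i _ => sq_nonneg _
  calc Real.log (1 + ∑ i ∈ s, f i ^ 2) ≤ Real.log (∏ i ∈ s, (1 + f i) ^ 2) :=
        Real.log_le_log (by linarith) h1
    _ = ∑ i ∈ s, Real.log ((1 + f i) ^ 2) := by
        rw [Real.log_prod]
        intro i _
        have := hf i
        positivity
    _ = 2 * ∑ i ∈ s, Real.log (1 + f i) := by
        rw [Finset.mul_sum]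
        refine Finset.sum_congr rfl fun i _ => ?_
        rw [Real.log_pow]
        norm_num

/-- one sided growth -/
lemma log_le_growth {φ : M.Pts → ℝ} (h0 : ∀ y, 0 < φ y) {C : ℝ} {j k : ℕ}
    (h : ∀ y, φ y * ‖MvPolynomial.eval (M.pz y) M.h‖ ^ j ≤ C * (1 + ∑ i, ‖M.pz y i‖ ^ 2) ^ k)
    (hi : M.B) (hhi : hi * az M.z M.h = 1) (y : M.Pts) :
    Real.log (φ y) ≤ (|Real.log (1 + |C|)| + 2 * k + j) *
      (1 + (Real.log (1 + ‖y hi‖) + ∑ i, Real.log (1 + ‖y (M.z i)‖))) := by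
  set H := ‖MvPolynomial.eval (M.pz y) M.h‖ with hH
  have hH0 : 0 < H := norm_pos_iff.2 (M.eval_h_ne y)
  have hHi : H⁻¹ = ‖y hi‖ := by
    have h1 := congrArg y hhi
    rw [map_mul, map_one] at h1
    have h2 : y (az M.z M.h) = MvPolynomial.eval (M.pz y) M.h := M.apply_az' y M.h
    rw [h2] at h1
    have h3 : ‖y hi‖ * H = 1 := by rw [hH, ← norm_mul, h1, norm_one]
    field_simp
    linarith
  set Z := 1 + ∑ i, ‖M.pz y i‖ ^ 2 with hZ
  have hZ1 : 1 ≤ Z := by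
    have : 0 ≤ ∑ i, ‖M.pz y i‖ ^ 2 := Finset.sum_nonneg fun i _ => sq_nonneg _
    linarith
  have h1 : φ y ≤ (1 + |C|) * Z ^ k * ‖y hi‖ ^ j := by
    rw [← hHi, inv_pow, ← div_eq_mul_inv, le_div_iff₀ (by positivity)]
    refine (h y).trans ?_
    have := le_abs_self C
    gcongr
    linarith
  have hy0 : 0 < ‖y hi‖ := by rw [← hHi]; positivity
  have h2 : Real.log (φ y) ≤ Real.log (1 + |C|) + k * Real.log Z + j * Real.log ‖y hi‖ := by
    refine (Real.log_le_log (h0 y) h1).trans (le_of_eq ?_)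
    rw [Real.log_mul (by positivity) (by positivity), Real.log_mul (by positivity)
      (by positivity), Real.log_pow, Real.log_pow]
  have h3 : Real.log Z ≤ 2 * ∑ i, Real.log (1 + ‖y (M.z i)‖) :=
    log_one_add_sq_le Finset.univ (fun i => ‖M.pz y i‖) (fun i => norm_nonneg _)
  have h4 : Real.log ‖y hi‖ ≤ Real.log (1 + ‖y hi‖) := Real.log_le_log hy0 (by linarith)
  set A := ∑ i, Real.log (1 + ‖y (M.z i)‖) with hA
  have hA0 : 0 ≤ A := Finset.sum_nonneg fun i _ => Real.log_nonneg (by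
    have := norm_nonneg (y (M.z i)); linarith)
  have hB0 : 0 ≤ Real.log (1 + ‖y hi‖) := Real.log_nonneg (by linarith)
  set B := Real.log (1 + ‖y hi‖) with hB
  have hk : (0 : ℝ) ≤ k := Nat.cast_nonneg k
  have hj : (0 : ℝ) ≤ j := Nat.cast_nonneg j
  have hl := le_abs_self (Real.log (1 + |C|))
  have hl0 := abs_nonneg (Real.log (1 + |C|))
  nlinarith [mul_nonneg hk hA0, mul_nonneg hj hB0, mul_nonneg hk hB0, mul_nonneg hj hA0,
    mul_nonneg hl0 hA0, mul_nonneg hl0 hB0, mul_le_mul_of_nonneg_left h3 hk,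
    mul_le_mul_of_nonneg_left h4 hj]

/-- **two sided polynomial growth** in the form used for boundary charts -/
theorem growth_log {φ : M.Pts → ℝ} (h0 : ∀ y, 0 < φ y)
    (h1 : ∃ (C : ℝ) (j k : ℕ), ∀ y, φ y * ‖MvPolynomial.eval (M.pz y) M.h‖ ^ j ≤
      C * (1 + ∑ i, ‖M.pz y i‖ ^ 2) ^ k)
    (h2 : ∃ (C : ℝ) (j k : ℕ), ∀ y, (φ y)⁻¹ * ‖MvPolynomial.eval (M.pz y) M.h‖ ^ j ≤
      C * (1 + ∑ i, ‖M.pz y i‖ ^ 2) ^ k) :
    ∃ (G : Finset M.B) (C : ℝ), 0 ≤ C ∧ ∀ y, |Real.log (φ y)| ≤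
      C * (1 + ∑ b ∈ G, Real.log (1 + ‖y b‖)) := by
  classical
  obtain ⟨C, j, k, h1⟩ := h1
  obtain ⟨C', j', k', h2⟩ := h2
  obtain ⟨hi, hhi⟩ := M.h_unit.exists_left_inv
  have e1 := log_le_growth M h0 h1 hi hhi
  have e2 := log_le_growth M (φ := fun y => (φ y)⁻¹) (fun y => inv_pos.2 (h0 y)) h2 hi hhi
  set A := |Real.log (1 + |C|)| + 2 * k + j with hA
  set A' := |Real.log (1 + |C'|)| + 2 * k' + j' with hA'
  have hA0 : 0 ≤ A := by positivity
  have hA'0 : 0 ≤ A' := by positivity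
  set G : Finset M.B := insert hi (Finset.univ.image M.z) with hG
  refine ⟨G, (A + A') * (1 + n), by positivity, fun y => ?_⟩
  have hpos : ∀ b : M.B, 0 ≤ Real.log (1 + ‖y b‖) := fun b => Real.log_nonneg (by
    have := norm_nonneg (y b); linarith)
  set s := ∑ b ∈ G, Real.log (1 + ‖y b‖) with hs
  have hs0 : 0 ≤ s := Finset.sum_nonneg fun b _ => hpos b
  have h3 : Real.log (1 + ‖y hi‖) ≤ s :=
    Finset.single_le_sum (f := fun b => Real.log (1 + ‖y b‖)) (fun b _ => hpos b)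
      (by rw [hG]; exact Finset.mem_insert_self _ _)
  have h4 : ∑ i, Real.log (1 + ‖y (M.z i)‖) ≤ n * s := by
    calc ∑ i, Real.log (1 + ‖y (M.z i)‖) ≤ ∑ _i : Fin n, s := by
          refine Finset.sum_le_sum fun i _ => ?_
          exact Finset.single_le_sum (f := fun b => Real.log (1 + ‖y b‖)) (fun b _ => hpos b)
            (by rw [hG]; exact Finset.mem_insert_of_mem (Finset.mem_image_of_mem _
              (Finset.mem_univ i)))
      _ = n * s := by rw [Finset.sum_const, Finset.card_univ, Fintype.card_fin, nsmul_eq_mul]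
  have hn : (0 : ℝ) ≤ n := Nat.cast_nonneg n
  have h5 : 1 + (Real.log (1 + ‖y hi‖) + ∑ i, Real.log (1 + ‖y (M.z i)‖)) ≤
      (1 + n) * (1 + s) := by nlinarith
  have h6 := e1 y
  have h7 := e2 y
  rw [Real.log_inv] at h7
  have h8 : 0 ≤ (1 + (n : ℝ)) * (1 + s) := by positivity
  rw [abs_le]
  constructor
  · have h9 : -Real.log (φ y) ≤ A' * ((1 + n) * (1 + s)) :=
      h7.trans (mul_le_mul_of_nonneg_left h5 hA'0)
    nlinarith [mul_nonneg hA0 h8]
  · have h9 : Real.log (φ y) ≤ A * ((1 + n) * (1 + s)) :=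
      h6.trans (mul_le_mul_of_nonneg_left h5 hA0)
    nlinarith [mul_nonneg hA'0 h8]

end growth

/-! ### `LD` -/

namespace LB

variable {d a : ℕ} {T L : Type} [Field T] [Field L] [Algebra ℂ T] [Algebra ℂ L] [Algebra T L]
  [IsScalarTower ℂ T L] {R : RMdl T L (d + 1) a} {V : VData (d + 1) a T L} {Lc : Type}
  [Field Lc] [Algebra ℂ Lc] [Algebra T Lc] {D : DivModel (d + 1) Lc} {j : V.D.A →ₐ[ℂ] D.A}
  {F : Finset Lc} {FL : Finset L} (P : LB R V D j F FL) {c : Fin a → ℂ} (hM : MS V D j c)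

include hM in
/-- growth of functions on `M_L` along the charts -/
theorem growth_le (φ : R.MK.Pts → ℝ) (hφ : ∃ (G : Finset R.MK.B) (C : ℝ), 0 ≤ C ∧
    ∀ x, |φ x| ≤ C * (1 + ∑ b ∈ G, Real.log (1 + ‖x b‖))) :
    ∃ A : ℝ, 1 ≤ A ∧ ∀ y, ∀ ζ ∈ PS d (P.bd.Q.r y),
      |φ (P.s y ζ)| ≤ A * (1 + Real.log (1 / P.bd.Q.r y) + Real.log (1 / ‖ζ 0‖)) := by
  obtain ⟨G, C, hC, h⟩ := hφ
  choose A hA1 hA using P.log_bound hM
  have hsum : 0 ≤ ∑ b ∈ G, A b := Finset.sum_nonneg fun b _ => zero_le_one.trans (hA1 b)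
  refine ⟨1 + C * (1 + ∑ b ∈ G, A b), by nlinarith [mul_nonneg hC hsum], fun y ζ hζ => ?_⟩
  obtain ⟨e1, e2, e3⟩ := P.norm_ζ0 hζ
  have e4 := P.one_le_inv_r y
  have hl1 : 0 ≤ Real.log (1 / ‖ζ 0‖) := Real.log_nonneg e3
  have hl2 : 0 ≤ Real.log (1 / P.bd.Q.r y) := Real.log_nonneg e4
  set X := 1 + Real.log (1 / P.bd.Q.r y) + Real.log (1 / ‖ζ 0‖) with hX
  have hX1 : 1 ≤ X := by linarith
  have h1 : ∑ b ∈ G, Real.log (1 + ‖P.s y ζ b‖) ≤ (∑ b ∈ G, A b) * X := by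
    rw [Finset.sum_mul]
    exact Finset.sum_le_sum fun b _ => hA b y ζ hζ
  calc |φ (P.s y ζ)| ≤ C * (1 + ∑ b ∈ G, Real.log (1 + ‖P.s y ζ b‖)) := h _
    _ ≤ C * (X + (∑ b ∈ G, A b) * X) := by gcongr
    _ ≤ (1 + C * (1 + ∑ b ∈ G, A b)) * X := by nlinarith

include hM in
/-- **the structure `LD` of 327** -/
theorem exists_ld {N w : ℕ} (V' : VHS (d + 1 + a) R.MK.Pts N w) (om : R.MK.Pts → Fin N → ℂ)
    (hψ : ∃ (G : Finset R.MK.B) (C : ℝ), 0 ≤ C ∧
      ∀ x, |VLevi_327.psi V' om x| ≤ C * (1 + ∑ b ∈ G, Real.log (1 + ‖x b‖)))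
    (u : R.MK.B) (hu : (u : L) ∈ FL) {μ : Measure R.ML.Pts} (hμ : IsLeb μ) :
    ∃ l : LD (P.bd.dchart (fun _ => rfl) R.ML.ft hμ) V' om (fun x => x u) R.q,
      l.s = P.s := by
  obtain ⟨A1, hA1, h1⟩ := P.growth_le hM _ hψ
  obtain ⟨ku, A2, G, hA2, h2⟩ := P.unit hM u hu
  obtain ⟨C, k, hC, h3⟩ := P.bd.goodJ.bound
  have hlC := Real.log_nonneg hC
  have hk : (0 : ℝ) ≤ k := Nat.cast_nonneg k
  refine ⟨{ s := P.s
            cont := fun y => P.continuousOn hM y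
            hol := fun y => P.differentiableOn hM y
            fs := fun y q hq => P.q_s hM hq
            compat := fun y e he hy het y' hy' q hq hq' => P.compat hM he hy het hy' hq hq'
            C := A1 + A2 + (Real.log C + k)
            hC := by linarith
            psi_le := fun y q hq => ?_
            ku := ku
            unit := fun y => ⟨G y, (h2 y).1, fun q hq => ⟨((h2 y).2.1 q hq).1, ?_⟩, (h2 y).2.2⟩
            kJ := P.bd.cJ
            jac := fun y => ⟨P.bd.GJ y, fun ζ hζ =>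
              (P.bd.goodJ.anal y ζ hζ).differentiableAt.differentiableWithinAt,
              fun q hq => ⟨P.bd.goodJ.ne hq, ?_⟩, fun q hq => P.bd.dchart_J _ _ hμ hq⟩ }, rfl⟩
  · obtain ⟨e1, e2, e3⟩ := P.norm_ζ0 hq
    have e4 := P.one_le_inv_r y
    have hl1 : 0 ≤ Real.log (1 / ‖q 0‖) := Real.log_nonneg e3
    have hl2 : 0 ≤ Real.log (1 / P.bd.Q.r y) := Real.log_nonneg e4
    refine (h1 y q hq).trans ?_
    refine mul_le_mul_of_nonneg_right (by linarith) (by linarith)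
  · have e4 := P.one_le_inv_r y
    have hl2 : 0 ≤ Real.log (1 / P.bd.Q.r y) := Real.log_nonneg e4
    refine ((h2 y).2.1 q hq).2.trans ?_
    exact mul_le_mul_of_nonneg_right (by linarith) (by linarith)
  · have e4 := P.one_le_inv_r y
    have hl2 : 0 ≤ Real.log (1 / P.bd.Q.r y) := Real.log_nonneg e4
    have hr := P.bd.Q.r_pos y
    have hr1 := P.bd.Q.r_le_one y
    obtain ⟨e1, e2⟩ := h3 y q hq
    have hG0 : 0 < ‖P.bd.GJ y q‖ := norm_pos_iff.2 (P.bd.goodJ.ne hq)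
    have key : |Real.log ‖P.bd.GJ y q‖| ≤ (Real.log C + k) * (1 + Real.log (1 / P.bd.Q.r y)) := by
      rw [abs_le]
      constructor
      · have h3 : ‖P.bd.GJ y q‖⁻¹ ≤ C * (1 / P.bd.Q.r y) ^ k := by
          have h4 := inv_anti₀ (by positivity) e1
          refine h4.trans (le_of_eq ?_)
          rw [mul_inv, inv_inv, one_div, inv_pow]
        have h4 := log_le_of_le (inv_pos.2 hG0) hC hr hr1 h3
        rw [Real.log_inv] at h4
        linarith
      · exact log_le_of_le hG0 hC hr hr1 e2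
    refine key.trans ?_
    exact mul_le_mul_of_nonneg_right (by linarith) (by linarith)

end LB

end Crest.Agent.R276.Ld_828
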