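import Mathlib
import Crest.Agent.R276.LdB_828
import Crest.Agent.R276.C4LocB_327

/-!
# R276, leaf DESC-LD (helper828): growth of the coordinates of `M_T` in the boundary charts

`exists_grow` : `C4Loc_327.Grow` for the charts of `BD` (in particular of `LB.bd`).
-/

set_option autoImplicit false

noncomputable section

open Set Filter Topology Metric MeasureTheory

namespace Crest.Agent.R276.Ld_828

open Crest.Agent.R271.Defs710 Crest.Agent.R271.Rd692 Crest.Agent.R271.Alg255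
open Crest.Agent.R271.Bd741 Crest.Agent.R271.Ho51
open Crest.Agent.R276.BC_986 Crest.Agent.R276.Mod1_987 Crest.Agent.R276.CntDefs_857
open Crest.Agent.R276.Bcq_828

lemma PS_mono {d : ℕ} {r r' : ℝ} (h : r ≤ r') : PS d r ⊆ PS d r' := fun _ hq =>
  ⟨hq.1, fun i => (hq.2 i).trans_le h⟩

/-- the coordinates of `M_T` have at most poles, of bounded order, along the divisor -/
theorem exists_grow {d : ℕ} {T : Type} [Field T] [Algebra ℂ T] {M : Mdl T (d + 1)} {Lc : Type}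
    [Field Lc] [Algebra ℂ Lc] [Algebra T Lc] {D : DivModel (d + 1) Lc} {F : Finset Lc}
    (X : BD D M.B M.z F) {μ : Measure M.Pts} (hμ : IsLeb μ) :
    ∃ A : ℕ, C4Loc_327.Grow (X.dchart (fun _ => rfl) M.ft hμ) A := by
  choose C m k hC h using fun i : Fin (d + 1) => X.P.bound_PS X.h0 (M.z i)
  refine ⟨∑ i, m i, fun y => ⟨∑ i, C i * (1 / X.Q.r y) ^ k i, fun q hq i => ?_⟩⟩
  have hr := X.Q.r_pos y
  have hr1 := X.Q.r_le_one y
  have hq' : q ∈ PS d (X.Q.r y) := PS_mono (by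
    change X.Q.r y / 2 ≤ X.Q.r y
    linarith) hq
  have h0 : 0 < ‖q 0‖ := norm_pos_iff.2 hq'.1
  have h1 : ‖q 0‖ ≤ 1 := ((hq'.2 0).trans_le hr1).le
  have h2 := h i y q hq'
  have h3 : ‖q 0‖ ^ (∑ i, m i) ≤ ‖q 0‖ ^ m i :=
    pow_le_pow_of_le_one h0.le h1 (Finset.single_le_sum (fun _ _ => Nat.zero_le _)
      (Finset.mem_univ i))
  have h4 : (1 / ‖q 0‖) ^ m i * ‖q 0‖ ^ m i = 1 := by
    rw [← mul_pow, one_div, inv_mul_cancel₀ h0.ne', one_pow]
  have h5 : ∀ i, 0 ≤ C i * (1 / X.Q.r y) ^ k i := fun i => by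
    have := hC i
    positivity
  calc ‖(cp ((X.dchart (fun _ => rfl) M.ft hμ).σ y q) : Cn (d + 1)) i‖ * ‖q 0‖ ^ (∑ i, m i)
      = ‖X.P.σ y q (M.z i)‖ * ‖q 0‖ ^ (∑ i, m i) := rfl
    _ ≤ (C i * (1 / ‖q 0‖) ^ m i * (1 / X.Q.r y) ^ k i) * ‖q 0‖ ^ m i := by
        have := hC i
        gcongr
    _ = C i * (1 / X.Q.r y) ^ k i * ((1 / ‖q 0‖) ^ m i * ‖q 0‖ ^ m i) := by ring
    _ = C i * (1 / X.Q.r y) ^ k i := by rw [h4, mul_one]
    _ ≤ ∑ i, C i * (1 / X.Q.r y) ^ k i :=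
        Finset.single_le_sum (f := fun i => C i * (1 / X.Q.r y) ^ k i) (fun i _ => h5 i)
          (Finset.mem_univ i)

end Crest.Agent.R276.Ld_828
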