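import Crest.Agent.R276.R0C_858

/-! # Row 276, helper858: (R0) algebra of relative boundary charts, part D: towers
`ℂ ⊆ K₀ ⊆ L ⊆ K`. -/

set_option autoImplicit false

noncomputable section

namespace Crest.Agent.R276.DivVal_858

open IsLocalRing MvPolynomial Crest.Agent.R276.FKDefs_779 Crest.Agent.R276.BC_986

variable {K₀ L K : Type} [Field K₀] [Field L] [Field K]
variable [Algebra ℂ K₀] [Algebra ℂ L] [Algebra ℂ K] [Algebra K₀ L] [Algebra L K] [Algebra K₀ K]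
variable [IsScalarTower ℂ K₀ L] [IsScalarTower ℂ L K] [IsScalarTower K₀ L K]
variable {ρ m r : ℕ}

/-- divisoriality of `R ∩ L` from an element of `L` outside `R` or from `R ∩ L ≠ ⊤`. -/
theorem isDiv_comap (hm : Algebra.trdeg ℂ L = m) (hn : Algebra.trdeg ℂ K = (m + r : ℕ))
    {R : ValuationSubring K} (hR : IsDiv ℂ (m + r) R) (hne : R.comap (algebraMap L K) ≠ ⊤) :
    IsDiv ℂ m (R.comap (algebraMap L K)) :=
  (restrict_of_ne_top hn hm hR hne).2.2.1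

/-- **Tower, case (H, V)**: `K₀ ⊆ R`, `L ⊄ R`; arbitrary transcendence basis `w₀` of `K₀`. -/
theorem tower_HV [Algebra.EssFiniteType ℂ L] [Algebra.EssFiniteType ℂ K]
    (h0 : Algebra.trdeg ℂ K₀ = ρ) (hm : Algebra.trdeg ℂ L = (ρ + m : ℕ))
    (hn : Algebra.trdeg ℂ K = (ρ + m + r : ℕ)) {R : ValuationSubring K}
    (hR : IsDiv ℂ (ρ + m + r) R) (hK₀ : ∀ c : K₀, algebraMap K₀ K c ∈ R)
    (hL : R.comap (algebraMap L K) ≠ ⊤) (w₀ : Fin ρ → K₀) (hw₀ : AlgebraicIndependent ℂ w₀) :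
    ∃ (hpos : 0 < m) (DL : DivModel (ρ + m) L) (D : DivModel (ρ + m + r) K) (e : ℕ) (u : K),
      DL.ModelOf (R.comap (algebraMap L K)) ∧ D.ModelOf R ∧
      DL.i₀ = Fin.natAdd ρ ⟨0, hpos⟩ ∧ D.i₀ = Fin.castAdd r DL.i₀ ∧
      (∀ i, algebraMap DL.A L (DL.w (Fin.castAdd m i)) = algebraMap K₀ L (w₀ i)) ∧
      (∀ i, i ≠ DL.i₀ → algebraMap D.A K (D.w (Fin.castAdd r i)) =
        algebraMap L K (algebraMap DL.A L (DL.w i))) ∧
      AlgebraicIndependent L (fun j : Fin r => algebraMap D.A K (D.w (Fin.natAdd (ρ + m) j))) ∧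
      0 < e ∧ R.valuation u = 1 ∧
      algebraMap L K (algebraMap DL.A L DL.t) = (algebraMap D.A K D.t) ^ e * u := by
  have hRL := isDiv_comap hm hn hR hL
  have hK₀L : ∀ c : K₀, algebraMap K₀ L c ∈ R.comap (algebraMap L K) := by
    intro c
    rw [ValuationSubring.mem_comap, ← IsScalarTower.algebraMap_apply]
    exact hK₀ c
  obtain ⟨hpos, DL, hDL, hi, hw⟩ := r0_H h0 hm hRL hK₀L w₀ hw₀
  obtain ⟨D, e, u, hD, hi', hw', hind, he, hu, heu⟩ := r0_V hm hn hR DL hDL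
  exact ⟨hpos, DL, D, e, u, hDL, hD, hi, hi', hw, hw', hind, he, hu, heu⟩

/-- **Tower, case (V, V)**: `K₀ ⊄ R`; PRESCRIBED model `D₀` of `R ∩ K₀`. -/
theorem tower_VV [Algebra.EssFiniteType ℂ L] [Algebra.EssFiniteType ℂ K]
    (h0 : Algebra.trdeg ℂ K₀ = ρ) (hm : Algebra.trdeg ℂ L = (ρ + m : ℕ))
    (hn : Algebra.trdeg ℂ K = (ρ + m + r : ℕ)) {R : ValuationSubring K}
    (hR : IsDiv ℂ (ρ + m + r) R) (D₀ : DivModel ρ K₀)
    (hD₀ : D₀.ModelOf (R.comap (algebraMap K₀ K))) :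
    ∃ (DL : DivModel (ρ + m) L) (D : DivModel (ρ + m + r) K) (e₀ e : ℕ) (u₀ : L) (u : K),
      DL.ModelOf (R.comap (algebraMap L K)) ∧ D.ModelOf R ∧
      DL.i₀ = Fin.castAdd m D₀.i₀ ∧ D.i₀ = Fin.castAdd r DL.i₀ ∧
      (∀ i, i ≠ D₀.i₀ → algebraMap DL.A L (DL.w (Fin.castAdd m i)) =
        algebraMap K₀ L (algebraMap D₀.A K₀ (D₀.w i))) ∧
      (∀ i, i ≠ DL.i₀ → algebraMap D.A K (D.w (Fin.castAdd r i)) =
        algebraMap L K (algebraMap DL.A L (DL.w i))) ∧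
      AlgebraicIndependent K₀ (fun j : Fin m => algebraMap DL.A L (DL.w (Fin.natAdd ρ j))) ∧
      AlgebraicIndependent L (fun j : Fin r => algebraMap D.A K (D.w (Fin.natAdd (ρ + m) j))) ∧
      0 < e₀ ∧ (R.comap (algebraMap L K)).valuation u₀ = 1 ∧
      algebraMap K₀ L (algebraMap D₀.A K₀ D₀.t) = (algebraMap DL.A L DL.t) ^ e₀ * u₀ ∧
      0 < e ∧ R.valuation u = 1 ∧
      algebraMap L K (algebraMap DL.A L DL.t) = (algebraMap D.A K D.t) ^ e * u := by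
  have hcomp : (R.comap (algebraMap L K)).comap (algebraMap K₀ L) = R.comap (algebraMap K₀ K) := by
    rw [ValuationSubring.comap_comap, ← IsScalarTower.algebraMap_eq]
  have hL : R.comap (algebraMap L K) ≠ ⊤ := by
    intro htop
    have h1 := hD₀.lt
    have h2 : (algebraMap D₀.A K₀ D₀.t)⁻¹ ∈ R.comap (algebraMap K₀ K) := by
      rw [← hcomp, htop]; trivial
    rw [← ValuationSubring.valuation_le_one_iff, map_inv₀] at h2
    have h3 := (one_lt_inv₀ hD₀.pos).mpr h1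
    exact absurd h2 (not_le.mpr h3)
  have hRL := isDiv_comap hm hn hR hL
  obtain ⟨DL, e₀, u₀, hDL, hi, hw, hind₀, he₀, hu₀, heu₀⟩ :=
    r0_V h0 hm hRL D₀ (by rw [hcomp]; exact hD₀)
  obtain ⟨D, e, u, hD, hi', hw', hind, he, hu, heu⟩ := r0_V hm hn hR DL hDL
  exact ⟨DL, D, e₀, e, u₀, u, hDL, hD, hi, hi', hw, hw', hind₀, hind, he₀, hu₀, heu₀, he, hu, heu⟩

/-- **Tower, case (H, H)**: `L ⊆ R`; arbitrary transcendence basis of `L`. -/
theorem tower_HH [Algebra.EssFiniteType ℂ K] (hm : Algebra.trdeg ℂ L = (ρ + m : ℕ))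
    (hn : Algebra.trdeg ℂ K = (ρ + m + r : ℕ)) {R : ValuationSubring K}
    (hR : IsDiv ℂ (ρ + m + r) R) (hL : ∀ c : L, algebraMap L K c ∈ R) (w : Fin (ρ + m) → L)
    (hw : AlgebraicIndependent ℂ w) :
    ∃ (hr : 0 < r) (D : DivModel (ρ + m + r) K), D.ModelOf R ∧
      D.i₀ = Fin.natAdd (ρ + m) ⟨0, hr⟩ ∧
      ∀ i, algebraMap D.A K (D.w (Fin.castAdd r i)) = algebraMap L K (w i) :=
  r0_H hm hn hR hL w hw

end Crest.Agent.R276.DivVal_858
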