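import Mathlib
import Crest.Agent.R276.BR0_590
import Crest.Agent.R276.BR9_590

/-!
Row 276, conjunct TCh of SkelDefs_220 (helper590), part 1: existence of chart systems for towers,
given the algebraic data (three cases VV, HV, HH).
-/

set_option autoImplicit false

open scoped Topology BigOperators ENNReal
open Set Metric Filter

noncomputable section

namespace Crest.Agent.R276.TChX_590

open Crest.Agent.R271.Defs710 Crest.Agent.R271.Bd741 Crest.Agent.R276.BC_986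
open Crest.Agent.R276.BR_590
open Crest.Agent.R271.Rd692 (nonempty_chart)

lemma VData.nd_ι {m r : ℕ} {L K : Type} [Field L] [Algebra ℂ L] [Field K] [Algebra ℂ K]
    [Algebra L K] (V : VData m r L K) {a : V.DL.A} (ha : ¬ V.DL.t ∣ a) : ¬ V.D.t ∣ V.ι a :=
  fun h => ha (V.lies a h)

lemma VData.ι_t {m r : ℕ} {L K : Type} [Field L] [Algebra ℂ L] [Field K] [Algebra ℂ K]
    [Algebra L K] (V : VData m r L K) {y : V.D.A →ₐ[ℂ] ℂ} (hy : y V.D.t = 0) :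
    y.comp V.ι V.DL.t = 0 := by
  change y (V.ι V.DL.t) = 0
  rw [V.ram, map_mul, map_pow, hy, zero_pow V.e_ne, zero_mul]

section VV

variable {ρ a r : ℕ} {T L K : Type} [Field T] [Algebra ℂ T] [Field L] [Algebra ℂ L] [Field K]
  [Algebra ℂ K] [Algebra T L] [Algebra L K]
  {BT BL BK : Type} [CommRing BT] [IsDomain BT] [Algebra ℂ BT] [Algebra BT T]
  [IsScalarTower ℂ BT T] [IsFractionRing BT T]
  [CommRing BL] [IsDomain BL] [Algebra ℂ BL] [Algebra BL L]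
  [IsScalarTower ℂ BL L] [IsFractionRing BL L]
  [CommRing BK] [IsDomain BK] [Algebra ℂ BK] [Algebra BK K]
  [IsScalarTower ℂ BK K] [IsFractionRing BK K]

/-- **chart systems, case VV** -/
theorem exists_VV (V₀ : VData ρ a T L) (E : VExt V₀.D r K)
    (hBT : Algebra.FiniteType ℂ BT) (hBL : Algebra.FiniteType ℂ BL) (hBK : Algebra.FiniteType ℂ BK)
    (jT : BT →ₐ[ℂ] BL) (jL : BL →ₐ[ℂ] BK)
    (hjT : ∀ b : BT, algebraMap BL L (jT b) = algebraMap T L (algebraMap BT T b))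
    (hjL : ∀ b : BL, algebraMap BK K (jL b) = algebraMap L K (algebraMap BL L b))
    (F : Finset K) (hF : ∀ f ∈ F, f ≠ 0) (FL : Finset L) (hFL : ∀ f ∈ FL, f ≠ 0) :
    ∃ (X : BChart E.D BK) (XL : BChart V₀.D BL) (XT : BChart V₀.DL BT) (G : Cn (ρ + a + r) → ℂ)
      (G₁ : Cn (ρ + a) → ℂ) (S : Root E.D.i₀ X.r G E.e) (S₁ : Root V₀.D.i₀ XL.r G₁ V₀.e) (δ : ℝ),
      0 < δ ∧ δ < 1 ∧ δ < S.ρ ∧ δ < S₁.ρ ∧ δ ≤ XT.r ∧
      (∀ f ∈ F, ∃ k G', Good E.D X f k G') ∧ (∀ f ∈ FL, ∃ k G', Good V₀.D XL f k G') ∧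
      (∀ ξ ∈ ball (0 : Cn (ρ + a + r)) δ, ξ E.D.i₀ ≠ 0 →
        (X.s (S.Ξ ξ)).comp jL = XL.s (S₁.Ξ (pe V₀.D.i₀ E.e (bs ξ)))) ∧
      (∀ η ∈ ball (0 : Cn (ρ + a)) δ, η V₀.D.i₀ ≠ 0 →
        (XL.s (S₁.Ξ η)).comp jT = XT.s (pe V₀.DL.i₀ V₀.e (bs η))) := by
  classical
  obtain ⟨gK, hgK, hgK'⟩ := exists_bchart_at E.D (B := BK) hBK F hF
  obtain ⟨gL, hgL, hgL'⟩ := exists_bchart_at V₀.D (B := BL) hBL FL hFL
  obtain ⟨gT, hgT, hgT'⟩ := exists_bchart_at V₀.DL (B := BT) hBT ∅ (by simp)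
  have hnd : ∀ {x : V₀.D.A}, ¬ V₀.D.t ∣ x → ¬ E.D.t ∣ E.ι x := fun h => VData.nd_ι E.V h
  have hprod : ¬ E.D.t ∣ gK * E.ι gL * (E.ι (V₀.ι gT)) * (E.u * E.ι V₀.u) :=
    E.D.not_dvd_mul (E.D.not_dvd_mul (E.D.not_dvd_mul hgK (hnd hgL))
      (hnd (VData.nd_ι V₀ hgT))) (E.D.not_dvd_mul E.u_nd (hnd V₀.u_nd))
  obtain ⟨y, hyt, hy⟩ := E.D.exists_point _ hprod
  simp only [map_mul] at hy
  have h1 := left_ne_zero_of_mul hy
  have h2 := right_ne_zero_of_mul hy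
  have hyK : y gK ≠ 0 := left_ne_zero_of_mul (left_ne_zero_of_mul h1)
  have hyL : y.comp E.ι gL ≠ 0 := right_ne_zero_of_mul (left_ne_zero_of_mul h1)
  have hyT : (y.comp E.ι).comp V₀.ι gT ≠ 0 := right_ne_zero_of_mul h1
  have hyu : y E.u ≠ 0 := left_ne_zero_of_mul h2
  have hyu₀ : y.comp E.ι V₀.u ≠ 0 := right_ne_zero_of_mul h2
  have hyLt : y.comp E.ι V₀.D.t = 0 := VData.ι_t E.V hyt
  have hyTt : (y.comp E.ι).comp V₀.ι V₀.DL.t = 0 := VData.ι_t V₀ hyLt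
  obtain ⟨X₀, hX₀y, -, -, hX₀F⟩ := hgK' y hyt hyK 1 (by simp) 1 one_pos
  obtain ⟨XL₀, hXL₀y, -, -, hXL₀F⟩ := hgL' _ hyLt hyL 1 (by simp) 1 one_pos
  obtain ⟨XT, hXTy, -, -, -⟩ := hgT' _ hyTt hyT 1 (by simp) 1 one_pos
  -- the root of the chart of `L`
  obtain ⟨r₁, hr₁, hle₁, G₁, S₁, -, hS₁⟩ := vstep V₀ jT hjT XL₀ XT (by rw [hXTy, hXL₀y])
    (by rw [hXL₀y]; exact hyu₀) (Root.one V₀.DL.i₀ XT.r XT.r_pos) 1 one_pos
  obtain ⟨r₂, hr₂, hle₂, G, S, -, hS⟩ := vstep E.V jL hjL X₀ (XL₀.shrink r₁ hr₁ hle₁)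
    (by rw [hX₀y]; exact hXL₀y) (by rw [hX₀y]; exact hyu) S₁ 1 one_pos
  refine ⟨X₀.shrink r₂ hr₂ hle₂, XL₀.shrink r₁ hr₁ hle₁, XT, G, G₁, S, S₁,
    min (1 / 2) (min (S.ρ / 2) (min (S₁.ρ / 2) XT.r)), ?_, ?_, ?_, ?_, ?_, ?_, ?_, ?_, ?_⟩
  · exact lt_min (by norm_num) (lt_min (half_pos S.ρ_pos) (lt_min (half_pos S₁.ρ_pos) XT.r_pos))
  · exact (min_le_left _ _).trans_lt (by norm_num)
  · exact ((min_le_right _ _).trans (min_le_left _ _)).trans_lt (half_lt_self S.ρ_pos)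
  · exact (((min_le_right _ _).trans (min_le_right _ _)).trans (min_le_left _ _)).trans_lt
      (half_lt_self S₁.ρ_pos)
  · exact ((min_le_right _ _).trans (min_le_right _ _)).trans (min_le_right _ _)
  · intro f hf
    obtain ⟨k, G', -, h⟩ := hX₀F f hf
    exact ⟨k, G', h.shrink r₂ hr₂ hle₂⟩
  · intro f hf
    obtain ⟨k, G', -, h⟩ := hXL₀F f hf
    exact ⟨k, G', h.shrink r₁ hr₁ hle₁⟩
  · intro ξ hξ hξ0
    have hξ' : ξ ∈ ball (0 : Cn (ρ + a + r)) S.ρ := ball_subset_ball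
      (((min_le_right _ _).trans (min_le_left _ _)).trans (half_le_self S.ρ_pos.le)) hξ
    exact (hS ξ hξ').2 hξ0
  · intro η hη hη0
    have hη' : η ∈ ball (0 : Cn (ρ + a)) S₁.ρ := ball_subset_ball
      ((((min_le_right _ _).trans (min_le_right _ _)).trans (min_le_left _ _)).trans
        (half_le_self S₁.ρ_pos.le)) hη
    exact (hS₁ η hη').2 hη0

end VV

section HV

variable {ρ a r : ℕ} {T L K : Type} [Field T] [Algebra ℂ T] [Field L] [Algebra ℂ L] [Field K]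
  [Algebra ℂ K] [Algebra T L] [Algebra L K]
  {BT BL BK : Type} [CommRing BT] [Algebra ℂ BT] [Algebra BT T]
  [CommRing BL] [IsDomain BL] [Algebra ℂ BL] [Algebra BL L]
  [IsScalarTower ℂ BL L] [IsFractionRing BL L]
  [CommRing BK] [IsDomain BK] [Algebra ℂ BK] [Algebra BK K]
  [IsScalarTower ℂ BK K] [IsFractionRing BK K] {zT : Fin ρ → BT}

/-- **chart systems, case HV** -/
theorem exists_HV (hch : ∀ y : BT →ₐ[ℂ] ℂ, Nonempty (Chart zT y))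
    (V₀ : HData ρ a T L BT zT) (E : VExt V₀.D r K)
    (hBL : Algebra.FiniteType ℂ BL) (hBK : Algebra.FiniteType ℂ BK)
    (jT : BT →ₐ[ℂ] BL) (jL : BL →ₐ[ℂ] BK)
    (hjT : ∀ b : BT, algebraMap BL L (jT b) = algebraMap T L (algebraMap BT T b))
    (hjL : ∀ b : BL, algebraMap BK K (jL b) = algebraMap L K (algebraMap BL L b))
    (F : Finset K) (hF : ∀ f ∈ F, f ≠ 0) (FL : Finset L) (hFL : ∀ f ∈ FL, f ≠ 0) :
    ∃ (X : BChart E.D BK) (XL : BChart V₀.D BL) (yT : BT →ₐ[ℂ] ℂ) (CT : Chart zT yT)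
      (G : Cn (ρ + a + r) → ℂ) (S : Root E.D.i₀ X.r G E.e) (δ : ℝ),
      0 < δ ∧ δ < 1 ∧ δ < S.ρ ∧ δ < XL.r ∧ δ ≤ CT.r ∧
      (∀ f ∈ F, ∃ k G', Good E.D X f k G') ∧ (∀ f ∈ FL, ∃ k G', Good V₀.D XL f k G') ∧
      (∀ ξ ∈ ball (0 : Cn (ρ + a + r)) δ, ξ E.D.i₀ ≠ 0 →
        (X.s (S.Ξ ξ)).comp jL = XL.s (pe V₀.D.i₀ E.e (bs ξ))) ∧
      (∀ η ∈ ball (0 : Cn (ρ + a)) δ, η V₀.D.i₀ ≠ 0 → (XL.s η).comp jT = CT.s (bs η)) := by
  classical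
  obtain ⟨gK, hgK, hgK'⟩ := exists_bchart_at E.D (B := BK) hBK F hF
  obtain ⟨gL, hgL, hgL'⟩ := exists_bchart_at V₀.D (B := BL) hBL FL hFL
  have hnd : ∀ {x : V₀.D.A}, ¬ V₀.D.t ∣ x → ¬ E.D.t ∣ E.ι x := fun h => VData.nd_ι E.V h
  have hprod : ¬ E.D.t ∣ gK * E.ι gL * E.u :=
    E.D.not_dvd_mul (E.D.not_dvd_mul hgK (hnd hgL)) E.u_nd
  obtain ⟨y, hyt, hy⟩ := E.D.exists_point _ hprod
  simp only [map_mul] at hy
  have h1 := left_ne_zero_of_mul hy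
  have hyu : y E.u ≠ 0 := right_ne_zero_of_mul hy
  have hyK : y gK ≠ 0 := left_ne_zero_of_mul h1
  have hyL : y.comp E.ι gL ≠ 0 := right_ne_zero_of_mul h1
  have hyLt : y.comp E.ι V₀.D.t = 0 := VData.ι_t E.V hyt
  obtain ⟨X₀, hX₀y, -, -, hX₀F⟩ := hgK' y hyt hyK 1 (by simp) 1 one_pos
  obtain ⟨XL₀, hXL₀y, -, -, hXL₀F⟩ := hgL' _ hyLt hyL 1 (by simp) 1 one_pos
  obtain ⟨CT⟩ := hch (XL₀.y.comp V₀.ι)
  obtain ⟨ρ₁, hρ₁, hρ₁X, hρ₁C, hb⟩ := hbase V₀ jT hjT XL₀ CT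
  obtain ⟨r₂, hr₂, hle₂, G, S, -, hS⟩ := vstep E.V jL hjL X₀ XL₀
    (by rw [hX₀y]; exact hXL₀y) (by rw [hX₀y]; exact hyu)
    (Root.one V₀.D.i₀ XL₀.r XL₀.r_pos) 1 one_pos
  have hmin : min (1 / 2) (min (S.ρ / 2) (min (XL₀.r / 2) ρ₁)) ≤ ρ₁ :=
    ((min_le_right _ _).trans (min_le_right _ _)).trans (min_le_right _ _)
  refine ⟨X₀.shrink r₂ hr₂ hle₂, XL₀, _, CT, G, S,
    min (1 / 2) (min (S.ρ / 2) (min (XL₀.r / 2) ρ₁)), ?_, ?_, ?_, ?_, ?_, ?_, ?_, ?_, ?_⟩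
  · exact lt_min (by norm_num) (lt_min (half_pos S.ρ_pos) (lt_min (half_pos XL₀.r_pos) hρ₁))
  · exact (min_le_left _ _).trans_lt (by norm_num)
  · exact ((min_le_right _ _).trans (min_le_left _ _)).trans_lt (half_lt_self S.ρ_pos)
  · exact (((min_le_right _ _).trans (min_le_right _ _)).trans (min_le_left _ _)).trans_lt
      (half_lt_self XL₀.r_pos)
  · exact hmin.trans hρ₁C
  · intro f hf
    obtain ⟨k, G', -, h⟩ := hX₀F f hf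
    exact ⟨k, G', h.shrink r₂ hr₂ hle₂⟩
  · intro f hf
    obtain ⟨k, G', -, h⟩ := hXL₀F f hf
    exact ⟨k, G', h⟩
  · intro ξ hξ hξ0
    have hξ' : ξ ∈ ball (0 : Cn (ρ + a + r)) S.ρ := ball_subset_ball
      (((min_le_right _ _).trans (min_le_left _ _)).trans (half_le_self S.ρ_pos.le)) hξ
    exact (hS ξ hξ').2 hξ0
  · intro η hη hη0
    exact (hb η (ball_subset_ball hmin hη)).2 hη0

end HV

section HH

variable {ρ a r : ℕ} {L K : Type} [Field L] [Algebra ℂ L] [Field K]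
  [Algebra ℂ K] [Algebra L K]
  {BT BL BK : Type} [CommRing BT] [Algebra ℂ BT]
  [CommRing BL] [IsDomain BL] [Algebra ℂ BL] [Algebra BL L]
  [IsScalarTower ℂ BL L] [IsFractionRing BL L]
  [CommRing BK] [IsDomain BK] [Algebra ℂ BK] [Algebra BK K]
  [IsScalarTower ℂ BK K] [IsFractionRing BK K] {zT : Fin ρ → BT} {zL : Fin (ρ + a) → BL}

omit [IsScalarTower ℂ BL L] in
/-- **chart systems, case HH** -/
theorem exists_HH (hchT : ∀ y : BT →ₐ[ℂ] ℂ, Nonempty (Chart zT y))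
    (hchL : ∀ y : BL →ₐ[ℂ] ℂ, Nonempty (Chart zL y)) (V : HData (ρ + a) r L K BL zL)
    (hBK : Algebra.FiniteType ℂ BK)
    (jT : BT →ₐ[ℂ] BL) (jL : BL →ₐ[ℂ] BK) (hz : ∀ i, zL (Fin.castAdd a i) = jT (zT i))
    (hjL : ∀ b : BL, algebraMap BK K (jL b) = algebraMap L K (algebraMap BL L b))
    (hnd : ∀ b : BL, b ≠ 0 → ¬ V.D.t ∣ V.ι b)
    (F : Finset K) (hF : ∀ f ∈ F, f ≠ 0) (FL : Finset L) (hFL : ∀ f ∈ FL, f ≠ 0) :
    ∃ (X : BChart V.D BK) (yL : BL →ₐ[ℂ] ℂ) (CL : Chart zL yL) (yT : BT →ₐ[ℂ] ℂ)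
      (CT : Chart zT yT) (δ : ℝ),
      0 < δ ∧ δ < 1 ∧ δ < X.r ∧ δ ≤ CL.r ∧ δ ≤ CT.r ∧
      (∀ f ∈ F, ∃ k G', Good V.D X f k G') ∧
      (∀ f ∈ FL, ∃ b₀ c₀ : BL, algebraMap BL L b₀ = f * algebraMap BL L c₀ ∧
        ∀ ζ ∈ ball (0 : Cn (ρ + a)) δ, CL.s ζ b₀ ≠ 0 ∧ CL.s ζ c₀ ≠ 0) ∧
      (∀ ξ ∈ ball (0 : Cn (ρ + a + r)) δ, ξ V.D.i₀ ≠ 0 →
        (X.s ξ).comp jL = CL.s (bs ξ)) ∧
      (∀ η ∈ ball (0 : Cn (ρ + a)) δ, (CL.s η).comp jT = CT.s (bs η)) := by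
  classical
  obtain ⟨gK, hgK, hgK'⟩ := exists_bchart_at V.D (B := BK) hBK F hF
  have h1 : ∀ f : L, ∃ b₀ c₀ : BL, f ≠ 0 → b₀ ≠ 0 ∧ c₀ ≠ 0 ∧
      algebraMap BL L b₀ = f * algebraMap BL L c₀ := by
    intro f
    obtain ⟨b, c, hc, h⟩ := IsFractionRing.div_surjective (A := BL) f
    refine ⟨b, c, fun hf => ?_⟩
    have hc0 : c ≠ 0 := nonZeroDivisors.ne_zero hc
    have hcL : algebraMap BL L c ≠ 0 := fun h0 =>
      hc0 (IsFractionRing.injective BL L (by rw [h0, map_zero]))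
    refine ⟨?_, hc0, ?_⟩
    · rintro rfl
      rw [map_zero, zero_div] at h
      exact hf h.symm
    · rw [← h, div_mul_cancel₀ _ hcL]
  choose b₀ c₀ hbc using h1
  have hfac : ∀ f ∈ FL, ¬ V.D.t ∣ V.ι (b₀ f * c₀ f) := by
    intro f hf
    obtain ⟨k1, k2, -⟩ := hbc f (hFL f hf)
    exact hnd _ (mul_ne_zero k1 k2)
  have hprod : ¬ V.D.t ∣ gK * ∏ f ∈ FL, V.ι (b₀ f * c₀ f) := by
    refine V.D.not_dvd_mul hgK ?_
    intro hd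
    obtain ⟨f, hf, hf'⟩ := (V.D.t_prime.dvd_finsetProd_iff _).1 hd
    exact hfac f hf hf'
  obtain ⟨y, hyt, hy⟩ := V.D.exists_point _ hprod
  rw [map_mul, map_prod] at hy
  have hyK : y gK ≠ 0 := left_ne_zero_of_mul hy
  have hyF : ∀ f ∈ FL, y.comp V.ι (b₀ f) ≠ 0 ∧ y.comp V.ι (c₀ f) ≠ 0 := by
    intro f hf
    have h2 := Finset.prod_ne_zero_iff.1 (right_ne_zero_of_mul hy) f hf
    rw [map_mul, map_mul] at h2
    exact ⟨left_ne_zero_of_mul h2, right_ne_zero_of_mul h2⟩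
  obtain ⟨X, hXy, -, -, hXF⟩ := hgK' y hyt hyK 1 (by simp) 1 one_pos
  obtain ⟨CL⟩ := hchL (X.y.comp V.ι)
  obtain ⟨CT⟩ := hchT ((X.y.comp V.ι).comp jT)
  obtain ⟨ρ₁, hρ₁, hρ₁X, hρ₁C, hb⟩ := hbase V jL hjL X CL
  obtain ⟨ρ₂, hρ₂, hρ₂L, hρ₂T, hb'⟩ := chart_comp jT hz CL CT
  have hev : ∀ᶠ ζ in 𝓝 (0 : Cn (ρ + a)), ∀ f ∈ FL, CL.s ζ (b₀ f) ≠ 0 ∧ CL.s ζ (c₀ f) ≠ 0 := by
    rw [Filter.eventually_all_finset]
    intro f hf
    have h0 : (0 : Cn (ρ + a)) ∈ ball (0 : Cn (ρ + a)) CL.r := mem_ball_self CL.r_pos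
    have e1 : CL.s 0 (b₀ f) ≠ 0 := by rw [CL.s_zero, hXy]; exact (hyF f hf).1
    have e2 : CL.s 0 (c₀ f) ≠ 0 := by rw [CL.s_zero, hXy]; exact (hyF f hf).2
    exact ((CL.anal (b₀ f) 0 h0).continuousAt.eventually_ne e1).and
      ((CL.anal (c₀ f) 0 h0).continuousAt.eventually_ne e2)
  obtain ⟨ρ₃, hρ₃, hb3⟩ := Metric.eventually_nhds_iff_ball.1 hev
  refine ⟨X, _, CL, _, CT, min (1 / 2) (min (X.r / 2) (min ρ₁ (min ρ₂ ρ₃))), ?_, ?_, ?_, ?_, ?_,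
    ?_, ?_, ?_, ?_⟩
  · exact lt_min (by norm_num) (lt_min (half_pos X.r_pos) (lt_min hρ₁ (lt_min hρ₂ hρ₃)))
  · exact (min_le_left _ _).trans_lt (by norm_num)
  · exact ((min_le_right _ _).trans (min_le_left _ _)).trans_lt (half_lt_self X.r_pos)
  · exact (((min_le_right _ _).trans (min_le_right _ _)).trans (min_le_left _ _)).trans hρ₁C
  · exact ((((min_le_right _ _).trans (min_le_right _ _)).trans (min_le_right _ _)).trans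
      (min_le_left _ _)).trans hρ₂T
  · intro f hf
    obtain ⟨k, G', -, h⟩ := hXF f hf
    exact ⟨k, G', h⟩
  · intro f hf
    refine ⟨b₀ f, c₀ f, (hbc f (hFL f hf)).2.2, fun ζ hζ => ?_⟩
    exact hb3 ζ (ball_subset_ball ((((min_le_right _ _).trans (min_le_right _ _)).trans
      (min_le_right _ _)).trans (min_le_right _ _)) hζ) f hf
  · intro ξ hξ hξ0
    exact (hb ξ (ball_subset_ball (((min_le_right _ _).trans (min_le_right _ _)).trans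
      (min_le_left _ _)) hξ)).2 hξ0
  · intro η hη
    exact hb' η (ball_subset_ball ((((min_le_right _ _).trans (min_le_right _ _)).trans
      (min_le_right _ _)).trans (min_le_left _ _)) hη)

end HH

end Crest.Agent.R276.TChX_590
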