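import Mathlib
import Crest.Agent.R276.SkelDefs_220
import Crest.Agent.R276.IntC_448
import Crest.Agent.R276.R0D_858
import Crest.Agent.R276.TChX1_590

/-!
Row 276, conjunct TCh of SkelDefs_220 (helper590), part 2: the algebraic trichotomy for towers of
models and the chart systems for `H₁ : Rel MT ML`, `H₂ : Rel ML MK`.
-/

set_option autoImplicit false

open scoped Topology BigOperators ENNReal
open Set Metric Filter

noncomputable section

namespace Crest.Agent.R276.TChX_590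

open Crest.Agent.R271.Defs710 Crest.Agent.R271.Bd741 Crest.Agent.R276.BC_986
open Crest.Agent.R276.BR_590 Crest.Agent.R276.Mod1_987 Crest.Agent.R276.FKDefs_779
open Crest.Agent.R276.SkelDefs_220 (Rel)
open Crest.Agent.R276.DivVal_858

lemma mdl_trdeg {K : Type} [Field K] [Algebra ℂ K] {n : ℕ} (M : Mdl K n) :
    Algebra.trdeg ℂ K = (n : ℕ) := by
  have h := (IntC_448.isTranscendenceBasis M).lift_cardinalMk_eq_trdeg
  simpa using h.symm

lemma mdl_ess {K : Type} [Field K] [Algebra ℂ K] {n : ℕ} (M : Mdl K n) :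
    Algebra.EssFiniteType ℂ K := by
  have h1 : Algebra.EssFiniteType M.B K :=
    Algebra.EssFiniteType.of_isLocalization K (nonZeroDivisors M.B)
  exact Algebra.EssFiniteType.comp ℂ M.B K

section tower

variable {T L K : Type} [Field T] [Field L] [Field K] [Algebra ℂ T] [Algebra ℂ L] [Algebra ℂ K]
  [Algebra T L] [Algebra L K] [IsScalarTower ℂ T L] [IsScalarTower ℂ L K] {ρ a r : ℕ}
  {MT : Mdl T ρ} {ML : Mdl L (ρ + a)} {MK : Mdl K (ρ + a + r)}

/-- case HH: `L ⊆ R` -/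
theorem alg_HH (MK : Mdl K (ρ + a + r)) (ML : Mdl L (ρ + a)) {R : ValuationSubring K}
    (hR : IsDiv ℂ (ρ + a + r) R) (hL : ∀ c : L, algebraMap L K c ∈ R) :
    ∃ V : HData (ρ + a) r L K ML.B ML.z, V.D.ModelOf R ∧
      ∀ b : ML.B, b ≠ 0 → ¬ V.D.t ∣ V.ι b := by
  have _ := mdl_ess MK
  obtain ⟨hr, D, hD, hi, hw⟩ := tower_HH (mdl_trdeg ML) (mdl_trdeg MK) hR hL
    (fun i => (ML.z i : L)) (IntC_448.isTranscendenceBasis ML).1
  obtain ⟨E, g, φ, -, -, hE⟩ := exists_hdata (L := L) hL (BL := ML.B) ML.ft ML.z D hD ⟨0, hr⟩ hi hw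
  exact ⟨E, hE, fun b hb => HData.nd (IsFractionRing.injective ML.B L) E hE hL hb⟩

/-- case HV: `T ⊆ R`, `L ⊄ R` -/
theorem alg_HV (MT : Mdl T ρ) (ML : Mdl L (ρ + a)) (MK : Mdl K (ρ + a + r))
    {R : ValuationSubring K}
    (hR : IsDiv ℂ (ρ + a + r) R) (hT : ∀ c : T, algebraMap L K (algebraMap T L c) ∈ R)
    (hL : R.comap (algebraMap L K) ≠ ⊤) :
    ∃ (V₀ : HData ρ a T L MT.B MT.z) (E : VExt V₀.D r K),
      V₀.D.ModelOf (R.comap (algebraMap L K)) ∧ E.D.ModelOf R ∧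
      IsDiv ℂ (ρ + a) (R.comap (algebraMap L K)) := by
  classical
  have _ := mdl_ess MK
  have _ := mdl_ess ML
  let _ : Algebra T K := ((algebraMap L K).comp (algebraMap T L)).toAlgebra
  have _ : IsScalarTower T L K := IsScalarTower.of_algebraMap_eq fun _ => rfl
  obtain ⟨hpos, DL, D, e, u, hDL, hD, hiL, hi, hwT, hw, -, he, hu, hram⟩ :=
    tower_HV (mdl_trdeg MT) (mdl_trdeg ML) (mdl_trdeg MK) hR hT hL
      (fun i => (MT.z i : T)) (IntC_448.isTranscendenceBasis MT).1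
  have hTL : ∀ c : T, algebraMap T L c ∈ R.comap (algebraMap L K) := fun c => by
    rw [ValuationSubring.mem_comap]; exact hT c
  obtain ⟨V₀, g, φ, hg, hA, hV₀⟩ := exists_hdata (L := T) hTL (BL := MT.B) MT.ft MT.z DL hDL
    ⟨0, hpos⟩ hiL hwT
  have ht : algebraMap V₀.D.A L V₀.D.t = algebraMap DL.A L DL.t := by rw [hA.t_eq, hA.map]
  obtain ⟨E, -, -, -, -, hE, -⟩ := exists_vext V₀.D D hV₀ hD (by rw [hi, hA.i₀])
    (fun i hi' => by
      rw [hw i (by rw [← hA.i₀]; exact hi'), hA.w, hA.map]) he hu (by rw [ht]; exact hram)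
  exact ⟨V₀, E, hV₀, hE, isDiv_comap (mdl_trdeg ML) (mdl_trdeg MK) hR hL⟩

/-- case VV: `T ⊄ R` -/
theorem alg_VV (MT : Mdl T ρ) (ML : Mdl L (ρ + a)) (MK : Mdl K (ρ + a + r))
    {R : ValuationSubring K}
    (hR : IsDiv ℂ (ρ + a + r) R) (hT : ∃ c : T, algebraMap L K (algebraMap T L c) ∉ R) :
    ∃ (V₀ : VData ρ a T L) (E : VExt V₀.D r K),
      V₀.DL.ModelOf ((R.comap (algebraMap L K)).comap (algebraMap T L)) ∧
      V₀.D.ModelOf (R.comap (algebraMap L K)) ∧ E.D.ModelOf R ∧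
      IsDiv ℂ (ρ + a) (R.comap (algebraMap L K)) := by
  classical
  have _ := mdl_ess MK
  have _ := mdl_ess ML
  have _ := mdl_ess MT
  let _ : Algebra T K := ((algebraMap L K).comp (algebraMap T L)).toAlgebra
  have _ : IsScalarTower T L K := IsScalarTower.of_algebraMap_eq fun _ => rfl
  have hcomp : (R.comap (algebraMap L K)).comap (algebraMap T L) = R.comap (algebraMap T K) := by
    rw [ValuationSubring.comap_comap]; rfl
  obtain ⟨c, hc⟩ := hT
  have hL : R.comap (algebraMap L K) ≠ ⊤ := by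
    intro h
    apply hc
    rw [← ValuationSubring.mem_comap, h]
    trivial
  have hTne : (R.comap (algebraMap L K)).comap (algebraMap T L) ≠ ⊤ := by
    intro h
    apply hc
    rw [← ValuationSubring.mem_comap, ← ValuationSubring.mem_comap, h]
    trivial
  have hdL := isDiv_comap (mdl_trdeg ML) (mdl_trdeg MK) hR hL
  have hdT := isDiv_comap (mdl_trdeg MT) (mdl_trdeg ML) hdL hTne
  obtain ⟨D₀, hD₀⟩ := exists_divModel (mdl_trdeg MT) hdT
  rw [hcomp] at hD₀
  obtain ⟨DL, D, e₀, e, u₀, u, hDL, hD, hiL, hi, hwL, hw, -, -, he₀, hu₀, hram₀, he, hu, hram⟩ :=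
    tower_VV (mdl_trdeg MT) (mdl_trdeg ML) (mdl_trdeg MK) hR D₀ hD₀
  rw [← hcomp] at hD₀
  obtain ⟨E₁, g, φ, hg, hA, hE₁, -⟩ := exists_vext (R := R.comap (algebraMap L K)) D₀ DL hD₀ hDL
    hiL hwL he₀ hu₀ hram₀
  have ht : algebraMap E₁.D.A L E₁.D.t = algebraMap DL.A L DL.t := by rw [hA.t_eq, hA.map]
  obtain ⟨E, -, -, -, -, hE, -⟩ := exists_vext E₁.D D hE₁ hD (by rw [hi, hA.i₀])
    (fun i hi' => by
      rw [hw i (by rw [← hA.i₀]; exact hi'), hA.w, hA.map]) he hu (by rw [ht]; exact hram)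
  exact ⟨E₁.V, E, hD₀, hE₁, hE, hdL⟩

end tower

/-! ### inclusions of the rings of a relative model -/

section incl

variable {L K : Type} [Field L] [Field K] [Algebra ℂ L] [Algebra ℂ K] [Algebra L K]
  [IsScalarTower ℂ L K] {m r : ℕ} {ML : Mdl L m} {MK : Mdl K (m + r)} (H : Rel ML MK)

lemma incl_K (b : ML.B) : algebraMap MK.B K (H.incl b) = algebraMap L K (algebraMap ML.B L b) :=
  rfl

lemma coord_incl (i : Fin m) : MK.z (Fin.castAdd r i) = H.incl (ML.z i) :=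
  Subtype.ext (H.coord i)

lemma f_eq (y : MK.Pts) : H.f y = y.comp H.incl := rfl

end incl

end Crest.Agent.R276.TChX_590
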