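import Mathlib
import Crest.Agent.R276.LftDefs_327

/-!
# R276, leaf DESC-WD (helper450), part A: the Gram determinant is constant on the fibres

* `gV_loc`: `Fl V ι`, `Prj ι f` ==> `gV V i j` is locally constant on the fibres of `f`.
* `phT V ι f τ` : the value of `log (gdet V ι)` over `τ`; smooth; `Levi` of it.
-/

set_option autoImplicit false
set_option linter.unusedSectionVars false

noncomputable section

open Set Filter Topology Matrix ComplexConjugate
open scoped ContDiff ComplexOrder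
open Crest.Agent.R271.Ho51 Crest.Agent.R276.Ipc735 Crest.Agent.R276.VPull_327
open Crest.Agent.R276.DescB_327 Crest.Agent.R276.DescC_327

namespace Crest.Agent.R276.Wd_450

open VCalc_442 (dW dB mW mB cx gg gm gden th thb grOp hm sf bn)
open Crest.Agent.R276.VLevi_327 (gV gdet gV_local gdet_smooth CYL)
open Crest.Agent.R276.DescF_327 (Fl eq_of_seg)

section Shift

variable {m : ℕ} {A : Type*} [NormedAddCommGroup A] [NormedSpace ℂ A]

theorem dW_shift (F : (Fin m → ℂ) → A) (δ v c : Fin m → ℂ) :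
    dW (fun c => F (c + δ)) v c = dW F v (c + δ) := by
  unfold VCalc_442.dW
  rw [fderiv_comp_add_right]

theorem dB_shift (F : (Fin m → ℂ) → A) (δ v c : Fin m → ℂ) :
    dB (fun c => F (c + δ)) v c = dB F v (c + δ) := by
  unfold VCalc_442.dB
  rw [fderiv_comp_add_right]

end Shift

attribute [local instance] Matrix.linftyOpNormedRing Matrix.linftyOpNormedAlgebra

variable {m r N w : ℕ} {X T : Type*} [TopologicalSpace X] [RDom m X] [TopologicalSpace T]
  [RDom r T] {ι : Fin r → Fin m} {f : X → T} {V : Ipc735.VHS m X N w}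

/-- the metric is locally constant along the fibres -/
theorem gV_loc (hfl : Fl V ι) (hf : Prj ι f) (z : X) :
    ∃ W ∈ 𝓝 z, ∀ x ∈ W, ∀ y ∈ W, f x = f y → ∀ i j, gV V i j x = gV V i j y := by
  obtain ⟨U0, P0, hU0, hzU0, hU0t, -, -, -, hV0, hgr0, hth0, -, hgg⟩ := gV_local V z
  obtain ⟨ε, hε, hball⟩ := Metric.mem_nhds_iff.1 (hU0.mem_nhds hzU0)
  set B := Metric.ball (cp z) ε with hB
  have hBo : IsOpen B := Metric.isOpen_ball
  have hBc : Convex ℝ B := convex_ball _ _
  refine ⟨(ch z).source ∩ cp ⁻¹' B, inter_mem ((ch z).open_source.mem_nhds (mem_ch z))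
    (cp_cont.continuousAt.preimage_mem_nhds (Metric.ball_mem_nhds _ hε)), ?_⟩
  rintro x ⟨hxs, hxB⟩ y ⟨hys, hyB⟩ hxy i j
  have hxe : (ch z).symm (cp x) = x := (isCh_ch z).symm_cp hxs
  have hye : (ch z).symm (cp y) = y := (isCh_ch z).symm_cp hys
  have hxB' : cp x ∈ B := hxB
  have hyB' : cp y ∈ B := hyB
  set δ : Fin m → ℂ := cp y - cp x with hδ
  have hv : ∀ i, δ (ι i) = 0 := by
    intro i
    rw [hδ, Pi.sub_apply, DescF_327.Prj.cp_ι hf hxy i, sub_self]
  have hth : ∀ c ∈ B, dW (grOp w P0) δ c = 0 := by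
    intro c hc
    have hcU : c ∈ U0 := hball hc
    rw [pi_eq_sum_univ' δ, VCalc_442.dW_sum_dir]
    refine Finset.sum_eq_zero fun j _ => ?_
    by_cases hj : ∃ i, ι i = j
    · obtain ⟨i, rfl⟩ := hj
      rw [hv i, zero_smul]
    · have hj' : ∀ i, ι i ≠ j := fun i hi => hj ⟨i, hi⟩
      rw [← hV0.th_eq hcU, hth0 c hcU j, hfl _ j hj']
      simp
  have hL0 : ∀ c ∈ B, fderiv ℝ (grOp w P0) c δ = 0 := by
    intro c hc
    have hcU : c ∈ U0 := hball hc
    have h2 := hV0.adj_th_tb hcU δ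
    rw [hth c hc] at h2
    unfold VCalc_442.Adj at h2
    rw [Matrix.conjTranspose_zero, Matrix.zero_mul] at h2
    have h3 : VCalc_442.tb (grOp w P0) δ c = 0 :=
      ((hV0.hmPos hcU).isUnit.mul_right_eq_zero).1 h2.symm
    have h6 : dB (grOp w P0) δ c = 0 := by
      unfold VCalc_442.tb at h3
      exact neg_eq_zero.1 h3
    have h7 := VCalc_442.fderiv_eq (grOp w P0) δ c
    rw [hth c hc, h6, add_zero] at h7
    exact h7
  have hshift : grOp w P0 =ᶠ[𝓝 (cp x)] fun c => grOp w P0 (c + δ) := by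
    have h1 : ∀ᶠ c in 𝓝 (cp x), c + δ ∈ B := by
      have h2 : ContinuousAt (fun c : Fin m → ℂ => c + δ) (cp x) := by fun_prop
      refine h2.eventually (hBo.mem_nhds ?_)
      show cp x + δ ∈ B
      rw [hδ, add_sub_cancel]; exact hyB'
    filter_upwards [hBo.mem_nhds hxB', h1] with c hc hc2
    refine (eq_of_seg hBc hc hc2 (fun c hc => hV0.dE (hball hc)) fun c' hc' => ?_).symm
    rw [add_sub_cancel_left]
    exact hL0 c' hc'
  have hW : ∀ v : Fin m → ℂ, dW (grOp w P0) v (cp x) = dW (grOp w P0) v (cp y) := by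
    intro v
    rw [VCalc_442.dW_congr hshift v, dW_shift, hδ, add_sub_cancel]
  have hBb : ∀ v : Fin m → ℂ, dB (grOp w P0) v (cp x) = dB (grOp w P0) v (cp y) := by
    intro v
    rw [VCalc_442.dB_congr hshift v, dB_shift, hδ, add_sub_cancel]
  have e1 := hgg (cp x) (hball hxB') i j
  have e2 := hgg (cp y) (hball hyB') i j
  rw [hxe] at e1
  rw [hye] at e2
  rw [← e1, ← e2, hV0.gg_eq (hball hxB'), hV0.gg_eq (hball hyB')]
  unfold VCalc_442.tb
  rw [hW, hBb]

theorem gdet_loc (hfl : Fl V ι) (hf : Prj ι f) {s : ℕ} (κ : Fin s → Fin m) :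
    LocConstFib f (gdet V κ) := by
  intro z
  obtain ⟨W, hW, h⟩ := gV_loc hfl hf z
  refine ⟨W, hW, fun x hx y hy hxy => ?_⟩
  unfold VLevi_327.gdet
  congr 2
  ext i j
  exact h x hx y hy hxy _ _

/-- the Gram determinants are constant on connected fibres -/
theorem gdet_fib (hfl : Fl V ι) (hf : Prj ι f) (hc : ∀ x, IsPreconnected (f ⁻¹' {f x})) {s : ℕ}
    (κ : Fin s → Fin m) {x y : X} (hxy : f x = f y) : gdet V κ x = gdet V κ y :=
  (gdet_loc hfl hf κ).const hc hxy

/-- descent of a function which is constant on the fibres -/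
def desc {A : Type*} (hs : Function.Surjective f) (g : X → A) (τ : T) : A := g (hs τ).choose

theorem desc_apply {A : Type*} (hs : Function.Surjective f) {g : X → A}
    (hg : ∀ x y, f x = f y → g x = g y) (x : X) : desc hs g (f x) = g x :=
  hg _ _ (hs (f x)).choose_spec

/-- smoothness of the descended function -/
theorem sm_of_comp (hf : Prj ι f) (hs : Function.Surjective f) {g : T → ℝ}
    (hg : ∀ x, SmAt (fun x => g (f x)) x) : Sm g := by
  intro τ
  obtain ⟨x, rfl⟩ := hs τ
  have h1 := hf.smAt_lsec (hg x)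
  refine DescE_327.SmAt.congr h1 ?_
  filter_upwards [hf.f_lsec x] with τ hτ
  rw [hτ]

/-- the projection is a holomorphic map -/
theorem Prj.hMap (hf : Prj ι f) : HMap f := by
  intro x
  refine ⟨hf.cont.continuousAt, ?_⟩
  unfold HolAt
  rw [analyticAt_pi_iff]
  intro i
  have h1 : (fun z => ((fun x' => cp (f x')) ∘ (ch x).symm) z i) =ᶠ[𝓝 (cp x)] fun z => z (ι i) := by
    filter_upwards [(ch x).open_target.mem_nhds ((isCh_ch x).cp_mem (mem_ch x))] with z hz
    show cp (f ((ch x).symm z)) i = z (ι i)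
    rw [hf.cpf, (isCh_ch x).cp_symm hz]
  have h2 : AnalyticAt ℂ (fun z : Fin m → ℂ => z (ι i)) (cp x) :=
    (ContinuousLinearMap.proj (R := ℂ) (φ := fun _ : Fin m => ℂ) (ι i)).analyticAt (cp x)
  exact h2.congr h1.symm

theorem Prj.jac (hf : Prj ι f) (x : X) (v : Fin m → ℂ) :
    VPull_327.jac f x v = fun i => v (ι i) := by
  unfold VPull_327.jac
  have h1 : (fun x' => cp (f x')) ∘ (ch x).symm =ᶠ[𝓝 (cp x)]
      (ContinuousLinearMap.pi fun i : Fin r =>
        (ContinuousLinearMap.proj (R := ℂ) (φ := fun _ : Fin m => ℂ) (ι i))) := by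
    filter_upwards [(ch x).open_target.mem_nhds ((isCh_ch x).cp_mem (mem_ch x))] with z hz
    funext i
    show cp (f ((ch x).symm z)) i = z (ι i)
    rw [hf.cpf, (isCh_ch x).cp_symm hz]
  rw [h1.fderiv_eq, ContinuousLinearMap.fderiv]
  rfl

/-- Levi form of the descended function -/
theorem Prj.levi (hf : Prj ι f) {g : T → ℝ} (hg : Sm g) (x : X) (v : Fin m → ℂ) :
    Levi g (f x) (fun i => v (ι i)) = Levi (fun x => g (f x)) x v := by
  rw [Levi_comp (Eventually.of_forall fun y => Prj.hMap hf y) (Eventually.of_forall fun y => hg y),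
    Prj.jac hf]

end Crest.Agent.R276.Wd_450
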