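import Mathlib
import Crest.Agent.R276.WdA_450
import Crest.Agent.R276.Mod6_987
import Crest.Agent.R276.AB2_590

/-!
# R276, leaf DESC-WD (helper450), part B: the structure `WD` from a relative model

`R : RMdl T L ρ a`, `V` a VHS over `R.MK.Pts`, flat along the fibres of `R.q`, `om` a line of top
type with `|psi V om|` of logarithmic growth: the descending unit `u` is a unit of `R.MK.B`.

* `LG M g` : `|g| ≤ C (1 + log (1 + |z|²) + log⁺ (1/|h|))`.
* `exists_slice` : slices `y = ξ` after shrinking the base.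
* `exists_wd`.
-/

set_option autoImplicit false
set_option linter.unusedSectionVars false

noncomputable section

open Set Filter Topology Matrix
open Crest.Agent.R271.Ho51 Crest.Agent.R276.Ipc735
open Crest.Agent.R271.Defs710 Crest.Agent.R271.Alg255 Crest.Agent.R271.Rd692
open Crest.Agent.R276.Mod1_987
open Crest.Agent.R276.DescC_327 (Prj)
open Crest.Agent.R276.DescF_327 (Fl)
open Crest.Agent.R276.DescE_327 (Slice uu psiT)
open Crest.Agent.R276.LftDefs_327 (WD)
open Crest.Agent.R276.VLevi_327 (gdet CYL psi hn)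

namespace Crest.Agent.R276.Wd_450

/-! ### logarithmic growth -/

lemma log_max_one {x : ℝ} (hx : 0 ≤ x) : Real.log (max 1 x) = Real.posLog x := by
  show Real.log (max 1 x) = max 0 (Real.log x)
  rcases le_total 1 x with h | h
  · rw [max_eq_right h, max_eq_right (Real.log_nonneg h)]
  · rw [max_eq_left h, Real.log_one, max_eq_left (Real.log_nonpos hx h)]

section LG

variable {K : Type} [Field K] [Algebra ℂ K] {n : ℕ} (M : Mdl K n)

/-- `log (1 + |z|²) + log⁺ (1/|h|)` -/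
def lg (y : M.Pts) : ℝ :=
  Real.log (1 + ∑ i, ‖M.pz y i‖ ^ 2) + Real.posLog ‖MvPolynomial.eval (M.pz y) M.h‖⁻¹

lemma lg_nonneg (y : M.Pts) : 0 ≤ lg M y := by
  refine add_nonneg (Real.log_nonneg ?_) Real.posLog_nonneg
  have : 0 ≤ ∑ i, ‖M.pz y i‖ ^ 2 := Finset.sum_nonneg fun _ _ => by positivity
  linarith

/-- logarithmic growth -/
def LG (g : M.Pts → ℝ) : Prop := ∃ C : ℝ, 0 ≤ C ∧ ∀ y, |g y| ≤ C * (1 + lg M y)

variable {M}

lemma LG.add {f g : M.Pts → ℝ} (hf : LG M f) (hg : LG M g) : LG M (fun y => f y + g y) := by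
  obtain ⟨C, hC, h⟩ := hf
  obtain ⟨D, hD, h'⟩ := hg
  refine ⟨C + D, add_nonneg hC hD, fun y => ?_⟩
  calc |f y + g y| ≤ |f y| + |g y| := abs_add_le _ _
    _ ≤ C * (1 + lg M y) + D * (1 + lg M y) := add_le_add (h y) (h' y)
    _ = _ := by ring

lemma LG.const_mul {f : M.Pts → ℝ} (hf : LG M f) (c : ℝ) : LG M (fun y => c * f y) := by
  obtain ⟨C, hC, h⟩ := hf
  refine ⟨|c| * C, by positivity, fun y => ?_⟩
  rw [abs_mul, mul_assoc]
  exact mul_le_mul_of_nonneg_left (h y) (abs_nonneg c)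

lemma LG.neg {f : M.Pts → ℝ} (hf : LG M f) : LG M (fun y => -f y) := by
  have := hf.const_mul (-1)
  simpa using this

lemma LG.sub {f g : M.Pts → ℝ} (hf : LG M f) (hg : LG M g) : LG M (fun y => f y - g y) := by
  have := hf.add hg.neg
  simpa [sub_eq_add_neg] using this

lemma LG.const (c : ℝ) : LG M (fun _ => c) := by
  refine ⟨|c|, abs_nonneg c, fun y => ?_⟩
  have := lg_nonneg M y
  nlinarith [abs_nonneg c]

lemma LG.mono {f g : M.Pts → ℝ} (hf : LG M f) (h : ∀ y, |g y| ≤ |f y|) : LG M g := by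
  obtain ⟨C, hC, h'⟩ := hf
  exact ⟨C, hC, fun y => (h y).trans (h' y)⟩

lemma LG.sum {ι : Type*} (s : Finset ι) {f : ι → M.Pts → ℝ} (h : ∀ i ∈ s, LG M (f i)) :
    LG M (fun y => ∑ i ∈ s, f i y) := by
  classical
  induction s using Finset.induction_on with
  | empty => simpa using LG.const (M := M) 0
  | insert i s hi ih =>
    have h1 := (h i (Finset.mem_insert_self i s)).add
      (ih fun j hj => h j (Finset.mem_insert_of_mem hj))
    simpa [Finset.sum_insert hi] using h1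

variable (M) in
lemma LG.lgz : LG M (fun y => Real.log (1 + ∑ i, ‖M.pz y i‖ ^ 2)) := by
  refine ⟨1, zero_le_one, fun y => ?_⟩
  have h0 : 0 ≤ ∑ i, ‖M.pz y i‖ ^ 2 := Finset.sum_nonneg fun _ _ => by positivity
  have h1 : 0 ≤ Real.log (1 + ∑ i, ‖M.pz y i‖ ^ 2) := Real.log_nonneg (by linarith)
  have h2 : 0 ≤ Real.posLog ‖MvPolynomial.eval (M.pz y) M.h‖⁻¹ := Real.posLog_nonneg
  rw [abs_of_nonneg h1]
  unfold lg
  linarith

/-- elements of `B` -/
theorem LG.elt (b : M.B) : LG M (fun y => Real.log (1 + ‖y b‖)) := by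
  obtain ⟨C, k, l, hC, H⟩ := M.growth b
  refine ⟨max (Real.log (1 + C)) (max k l), ?_, fun y => ?_⟩
  · exact (Nat.cast_nonneg k).trans ((le_max_left _ _).trans (le_max_right _ _))
  set A := max (Real.log (1 + C)) (max (k : ℝ) l) with hA
  have hA0 : 0 ≤ A := (Nat.cast_nonneg k).trans ((le_max_left _ _).trans (le_max_right _ _))
  set W := 1 + ∑ i, ‖M.pz y i‖ ^ 2 with hW
  have hW1 : 1 ≤ W := by
    have h0 : 0 ≤ ∑ i, ‖M.pz y i‖ ^ 2 := Finset.sum_nonneg fun _ _ => by positivity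
    linarith
  set t := ‖MvPolynomial.eval (M.pz y) M.h‖ with ht
  have ht0 : 0 < t := norm_pos_iff.2 (M.eval_h_ne y)
  have h1 : t ^ l * ‖y b‖ ≤ C * W ^ k := H y
  have hm : 1 ≤ max 1 t⁻¹ := le_max_left _ _
  have h2 : ‖y b‖ ≤ C * W ^ k * (max 1 t⁻¹) ^ l := by
    have h3 : ‖y b‖ ≤ C * W ^ k * (t⁻¹) ^ l := by
      rw [inv_pow, ← div_eq_mul_inv, le_div_iff₀ (by positivity), mul_comm]
      exact h1
    refine h3.trans ?_
    have : (t⁻¹) ^ l ≤ (max 1 t⁻¹) ^ l := pow_le_pow_left₀ (by positivity) (le_max_right _ _) _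
    exact mul_le_mul_of_nonneg_left this (by positivity)
  have h4 : 1 + ‖y b‖ ≤ (1 + C) * W ^ k * (max 1 t⁻¹) ^ l := by
    have h5 : 1 ≤ W ^ k * (max 1 t⁻¹) ^ l :=
      one_le_mul_of_one_le_of_one_le (one_le_pow₀ hW1) (one_le_pow₀ hm)
    calc 1 + ‖y b‖ ≤ W ^ k * (max 1 t⁻¹) ^ l + C * W ^ k * (max 1 t⁻¹) ^ l := add_le_add h5 h2
      _ = _ := by ring
  have h6 : 0 ≤ Real.log (1 + ‖y b‖) := Real.log_nonneg (by linarith [norm_nonneg (y b)])
  rw [abs_of_nonneg h6]
  have hp : Real.log (max 1 t⁻¹) = Real.posLog t⁻¹ := log_max_one (by positivity)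
  have h7 := Real.log_le_log (by positivity) h4
  rw [Real.log_mul (by positivity) (by positivity), Real.log_mul (by positivity) (by positivity),
    Real.log_pow, Real.log_pow, hp] at h7
  have h8 : 0 ≤ Real.log W := Real.log_nonneg hW1
  have h9 : 0 ≤ Real.posLog t⁻¹ := Real.posLog_nonneg
  have h10 : (k : ℝ) ≤ A := (le_max_left _ _).trans (le_max_right _ _)
  have h11 : (l : ℝ) ≤ A := (le_max_right _ _).trans (le_max_right _ _)
  have h12 : Real.log (1 + C) ≤ A := le_max_left _ _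
  have h13 := mul_le_mul_of_nonneg_right h10 h8
  have h14 := mul_le_mul_of_nonneg_right h11 h9
  have h15 : lg M y = Real.log W + Real.posLog t⁻¹ := rfl
  rw [h15]
  linarith

/-- the hypothesis in the form of 828 -/
theorem LG.of_elts {g : M.Pts → ℝ} (G : Finset M.B) (C : ℝ)
    (h : ∀ y, |g y| ≤ C * (1 + ∑ b ∈ G, Real.log (1 + ‖y b‖))) : LG M g := by
  have h1 : LG M (fun y => C * (1 + ∑ b ∈ G, Real.log (1 + ‖y b‖))) :=
    ((LG.const 1).add (LG.sum G fun b _ => LG.elt b)).const_mul C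
  exact h1.mono fun y => (h y).trans (le_abs_self _)

/-- **algebraicity**: a nowhere zero holomorphic function with `log |F|` of logarithmic growth is a
unit of `B` -/
theorem exists_unit {F : M.Pts → ℂ} (hF : ∀ y, HolAt F y) (hne : ∀ y, F y ≠ 0)
    (hgr : LG M (fun y => Real.log ‖F y‖)) : ∃ u : (M.B)ˣ, ∀ y : M.Pts, F y = y u := by
  have key : ∀ G : M.Pts → ℂ, (∀ y, HolAt G y) → (∀ y, G y ≠ 0) →
      LG M (fun y => Real.log ‖G y‖) → ∃ b : M.B, ∀ y : M.Pts, G y = y b := by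
    rintro G hG hG0 ⟨C, hC, hgr⟩
    obtain ⟨l, hl⟩ := exists_nat_ge C
    obtain ⟨D, k, j, hD, H⟩ := M.growth (az M.z M.h)
    have hGB : AB2_590.HolB M.z G := (AB2_590.holA_iff M.hch).mp hG
    refine M.alg_of_growth (C := Real.exp l * (1 + D) ^ l) (k := l + k * l) (l := l * (j + 1)) hGB
      fun y => ?_
    set W := 1 + ∑ i, ‖M.pz y i‖ ^ 2 with hW
    have hW1 : 1 ≤ W := by
      have h0 : 0 ≤ ∑ i, ‖M.pz y i‖ ^ 2 := Finset.sum_nonneg fun _ _ => by positivity
      linarith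
    set t := ‖MvPolynomial.eval (M.pz y) M.h‖ with ht
    have ht0 : 0 < t := norm_pos_iff.2 (M.eval_h_ne y)
    have h1 : t ^ (j + 1) ≤ D * W ^ k := by
      have h2 := H y
      rw [M.apply_az'] at h2
      rw [pow_succ]
      exact h2
    have hLp : 0 ≤ Real.posLog t⁻¹ := Real.posLog_nonneg
    have hLW : 0 ≤ Real.log W := Real.log_nonneg hW1
    have h3 : Real.log ‖G y‖ ≤ l * (1 + Real.log W + Real.posLog t⁻¹) := by
      have h4 := (le_abs_self _).trans (hgr y)
      have h5 : lg M y = Real.log W + Real.posLog t⁻¹ := rfl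
      rw [h5] at h4
      refine h4.trans ?_
      rw [← add_assoc]
      exact mul_le_mul_of_nonneg_right hl (by positivity)
    have hGp : 0 < ‖G y‖ := norm_pos_iff.2 (hG0 y)
    have h6 : ‖G y‖ ≤ Real.exp l * W ^ l * (max 1 t⁻¹) ^ l := by
      have hp : Real.log (max 1 t⁻¹) = Real.posLog t⁻¹ := log_max_one (by positivity)
      have hmp : 0 < max 1 t⁻¹ := lt_max_of_lt_left one_pos
      rw [← Real.log_le_log_iff hGp (by positivity), Real.log_mul (by positivity) (by positivity),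
        Real.log_mul (by positivity) (by positivity), Real.log_exp, Real.log_pow, Real.log_pow, hp]
      linarith
    have h7 : (max 1 t⁻¹) ^ l * t ^ (l * (j + 1)) ≤ ((1 + D) * W ^ k) ^ l := by
      rw [mul_comm l (j + 1), pow_mul, ← mul_pow]
      refine pow_le_pow_left₀ (by positivity) ?_ l
      rcases le_total 1 t⁻¹ with h | h
      · rw [max_eq_right h]
        have ht1 : t ≤ 1 := by
          rw [one_le_inv₀ ht0] at h
          exact h
        have h8 : t⁻¹ * t ^ (j + 1) = t ^ j := by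
          rw [pow_succ]
          field_simp
        rw [h8]
        have h9 : t ^ j ≤ 1 := pow_le_one₀ ht0.le ht1
        have h10 : 1 ≤ (1 + D) * W ^ k :=
          one_le_mul_of_one_le_of_one_le (by linarith) (one_le_pow₀ hW1)
        linarith
      · rw [max_eq_left h, one_mul]
        have : 0 ≤ W ^ k := by positivity
        nlinarith
    calc ‖G y‖ * t ^ (l * (j + 1)) ≤ Real.exp l * W ^ l * (max 1 t⁻¹) ^ l * t ^ (l * (j + 1)) :=
          mul_le_mul_of_nonneg_right h6 (by positivity)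
      _ = Real.exp l * W ^ l * ((max 1 t⁻¹) ^ l * t ^ (l * (j + 1))) := by ring
      _ ≤ Real.exp l * W ^ l * ((1 + D) * W ^ k) ^ l :=
          mul_le_mul_of_nonneg_left h7 (by positivity)
      _ = _ := by rw [mul_pow, ← pow_mul, pow_add]; ring
  obtain ⟨u, hu⟩ := key F hF hne hgr
  obtain ⟨v, hv⟩ := key (fun y => 1 / F y)
    (fun y => DescE_327.HolAt.div (DescE_327.HolAt.const 1) (hF y) (hne y))
    (fun y => one_div_ne_zero (hne y)) (by
      have : (fun y : M.Pts => Real.log ‖1 / F y‖) = fun y => -Real.log ‖F y‖ := by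
        funext y
        rw [norm_div, norm_one, one_div, Real.log_inv]
      rw [this]
      exact hgr.neg)
  have huv : u * v = 1 := by
    apply M.ext_of_pts
    intro y
    rw [map_mul, ← hu, ← hv, map_one, mul_one_div_cancel (hne y)]
  exact ⟨⟨u, v, huv, by rw [mul_comm]; exact huv⟩, hu⟩

end LG

/-! ### slices -/

section slice

variable {T L : Type} [Field T] [Field L] [Algebra ℂ T] [Algebra ℂ L] [Algebra T L]
  [IsScalarTower ℂ T L] {ρ a : ℕ}

lemma specR_rename (ξ : Cn a) (p : MvPolynomial (Fin ρ) ℂ) :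
    specR ξ (MvPolynomial.rename (Fin.castAdd a) p) = p := by
  unfold specR
  rw [MvPolynomial.aeval_rename]
  have h1 : (Fin.append (MvPolynomial.X : Fin ρ → MvPolynomial (Fin ρ) ℂ)
      (fun j => MvPolynomial.C (ξ j))) ∘ Fin.castAdd a = MvPolynomial.X := by
    funext i
    simp
  rw [h1, MvPolynomial.aeval_X_left]
  rfl

/-- slices exist after shrinking the base, and on all further shrinkings -/
theorem exists_slice (R : RMdl T L ρ a) (s : MvPolynomial (Fin (ρ + a)) ℂ) (hs : s ≠ 0) :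
    ∃ (ξ : Cn a) (p : MvPolynomial (Fin ρ) ℂ), p ≠ 0 ∧
      ∀ (p' : MvPolynomial (Fin ρ) ℂ) (hp' : p' ≠ 0), p ∣ p' →
        specR ξ (R.shrink p' hp' s hs).MK.h ∣ (R.shrink p' hp' s hs).ML.h ^ 2 := by
  obtain ⟨ξ, hξ⟩ := RMdl.exists_specR_ne (mul_ne_zero R.MK.h_ne hs)
  refine ⟨ξ, _, hξ, fun p' hp' hd => ?_⟩
  have h1 : specR ξ (R.shrink p' hp' s hs).MK.h = specR ξ (R.MK.h * s) * p' := by
    change specR ξ (R.MK.h * (MvPolynomial.rename (Fin.castAdd a) p' * s)) = _
    rw [map_mul, map_mul, map_mul, specR_rename]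
    ring
  have h2 : (R.shrink p' hp' s hs).ML.h = R.ML.h * p' := rfl
  rw [h1, h2]
  have h3 : specR ξ (R.MK.h * s) * p' ∣ p' * p' := mul_dvd_mul_right hd p'
  refine h3.trans ⟨R.ML.h ^ 2, by ring⟩

variable (R : RMdl T L ρ a)

theorem mem_UR {ξ : Cn a} {j : ℕ} (hdiv : specR ξ R.MK.h ∣ R.ML.h ^ j) (τ : R.ML.Pts) :
    (τ, ξ) ∈ R.UR := by
  change MvPolynomial.eval (R.pL (τ, ξ)) R.MK.h ≠ 0
  intro h0
  have h1 : MvPolynomial.eval (R.ML.pz τ) (specR ξ R.MK.h) = 0 := by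
    rw [eval_specR]; exact h0
  obtain ⟨e, he⟩ := hdiv
  have h2 := congrArg (MvPolynomial.eval (R.ML.pz τ)) he
  rw [map_pow, map_mul, h1, zero_mul] at h2
  exact pow_ne_zero j (R.ML.eval_h_ne τ) h2

theorem surj_q {ξ : Cn a} (hξ : ∀ τ : R.ML.Pts, (τ, ξ) ∈ R.UR) : Function.Surjective R.q := by
  intro τ
  obtain ⟨y, hy⟩ := R.surjective_φU ⟨(τ, ξ), hξ τ⟩
  exact ⟨y, congrArg (fun u : R.UR => u.1.1) hy⟩

theorem prj_q : Prj (Fin.castAdd a) (R.q : R.MK.Pts → R.ML.Pts) where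
  inj := Fin.castAdd_injective ρ a
  cont := R.continuous_q
  cpf := fun x i => R.pz_q x i

/-- the points of the slice -/
def SS {ξ : Cn a} (hξ : ∀ τ : R.ML.Pts, (τ, ξ) ∈ R.UR) (τ : R.ML.Pts) : Finset R.MK.Pts :=
  (R.closed_finite.2 ⟨(τ, ξ), hξ τ⟩).toFinset

theorem mem_SS {ξ : Cn a} (hξ : ∀ τ : R.ML.Pts, (τ, ξ) ∈ R.UR) (τ : R.ML.Pts) (y : R.MK.Pts) :
    y ∈ SS R hξ τ ↔ R.q y = τ ∧ R.x y = ξ := by
  unfold SS
  rw [Set.Finite.mem_toFinset, Set.mem_preimage, Set.mem_singleton_iff]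
  constructor
  · intro h
    exact Prod.ext_iff.1 (congrArg Subtype.val h)
  · intro h
    exact Subtype.ext (Prod.ext h.1 h.2)

theorem exists_slice' {ξ : Cn a} (hξ : ∀ τ : R.ML.Pts, (τ, ξ) ∈ R.UR) :
    ∃ d : ℕ, 0 < d ∧ Slice (Fin.castAdd a) (R.q : R.MK.Pts → R.ML.Pts)
      (Fin.append (fun _ => 0) ξ) d (SS R hξ) := by
  obtain ⟨d, hd, hcard, -⟩ := R.exists_sheets
  refine ⟨d, hd, ⟨fun τ x => ?_, fun τ => ?_⟩⟩
  · rw [mem_SS]
    refine and_congr_right fun _ => ?_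
    constructor
    · rintro h j hj
      revert hj
      refine Fin.addCases (fun i => ?_) (fun j => ?_) j
      · intro hj
        exact absurd rfl (hj i)
      · intro _
        rw [Fin.append_right]
        exact congrFun h j
    · intro h
      funext j
      have h1 := h (Fin.natAdd ρ j) (fun i => by
        intro h2
        have := congrArg Fin.val h2
        simp at this
        omega)
      rw [Fin.append_right] at h1
      exact h1
  · rw [← hcard ⟨(τ, ξ), hξ τ⟩]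
    exact (Nat.card_eq_card_finite_toFinset _).symm

variable {R} in
/-- growth on the slice through the same fibre -/
theorem slice_growth {ξ : Cn a} {j : ℕ} (hdiv : specR ξ R.MK.h ∣ R.ML.h ^ j)
    {g : R.MK.Pts → ℝ} (hg : LG R.MK g) : ∃ C : ℝ, 0 ≤ C ∧ ∀ x s : R.MK.Pts, R.q s = R.q x →
      R.x s = ξ → |g s| ≤ C * (1 + lg R.MK x) := by
  obtain ⟨C, hC, H⟩ := hg
  obtain ⟨e, he⟩ := hdiv
  obtain ⟨c, hc⟩ := R.ML.h_unit.exists_right_inv
  set b0 : R.ML.B := c ^ j * az R.ML.z e with hb0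
  obtain ⟨C1, hC1, H1⟩ := LG.elt (R.incl b0)
  set X := Real.log (1 + ∑ i, ‖ξ i‖ ^ 2) with hX
  have hX0 : 0 ≤ X := Real.log_nonneg (by
    have : 0 ≤ ∑ i, ‖ξ i‖ ^ 2 := Finset.sum_nonneg fun _ _ => by positivity
    linarith)
  refine ⟨C * (2 + X + C1), by positivity, fun x s hq hx => ?_⟩
  have hlx := lg_nonneg R.MK x
  have hpz : R.MK.pz s = Fin.append (R.ML.pz (R.q x)) ξ := by
    rw [← R.append_eq s, hq, hx]
  set τ := R.q x with hτ
  -- the first summand
  have h1 : Real.log (1 + ∑ i, ‖R.MK.pz s i‖ ^ 2) ≤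
      Real.log (1 + ∑ i, ‖R.MK.pz x i‖ ^ 2) + X := by
    have h2 : ∑ i, ‖R.MK.pz s i‖ ^ 2 = ∑ i, ‖R.ML.pz τ i‖ ^ 2 + ∑ i, ‖ξ i‖ ^ 2 := by
      rw [hpz, Fin.sum_univ_add]
      congr 1
      · exact Finset.sum_congr rfl fun i _ => by rw [Fin.append_left]
      · exact Finset.sum_congr rfl fun i _ => by rw [Fin.append_right]
    have h3 : ∑ i, ‖R.ML.pz τ i‖ ^ 2 ≤ ∑ i, ‖R.MK.pz x i‖ ^ 2 := by
      rw [← R.append_eq x, Fin.sum_univ_add]
      have h4 : ∑ i, ‖(Fin.append (R.ML.pz (R.q x)) (R.x x)) (Fin.castAdd a i)‖ ^ 2 =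
          ∑ i, ‖R.ML.pz τ i‖ ^ 2 := Finset.sum_congr rfl fun i _ => by rw [Fin.append_left]
      rw [h4]
      have : 0 ≤ ∑ i, ‖(Fin.append (R.ML.pz (R.q x)) (R.x x)) (Fin.natAdd ρ i)‖ ^ 2 :=
        Finset.sum_nonneg fun _ _ => by positivity
      linarith
    have h5 : 0 ≤ ∑ i, ‖R.ML.pz τ i‖ ^ 2 := Finset.sum_nonneg fun _ _ => by positivity
    have h6 : 0 ≤ ∑ i, ‖ξ i‖ ^ 2 := Finset.sum_nonneg fun _ _ => by positivity
    rw [h2, hX, ← Real.log_mul (by linarith) (by linarith)]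
    apply Real.log_le_log (by linarith)
    nlinarith
  -- the second summand
  have h2 : Real.posLog ‖MvPolynomial.eval (R.MK.pz s) R.MK.h‖⁻¹ ≤ C1 * (1 + lg R.MK x) := by
    have hv : MvPolynomial.eval (R.MK.pz s) R.MK.h =
        MvPolynomial.eval (R.ML.pz τ) (specR ξ R.MK.h) := by
      rw [eval_specR, hpz]
    have h3 : τ b0 * MvPolynomial.eval (R.ML.pz τ) (specR ξ R.MK.h) = 1 := by
      have h4 : τ c * MvPolynomial.eval (R.ML.pz τ) R.ML.h = 1 := by
        have := congrArg τ hc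
        rw [map_mul, map_one, R.ML.apply_az'] at this
        rw [mul_comm]; exact this
      have h5 := congrArg (MvPolynomial.eval (R.ML.pz τ)) he
      rw [map_pow, map_mul] at h5
      rw [hb0, map_mul, map_pow, R.ML.apply_az']
      calc τ c ^ j * MvPolynomial.eval (R.ML.pz τ) e *
            MvPolynomial.eval (R.ML.pz τ) (specR ξ R.MK.h)
          = τ c ^ j * (MvPolynomial.eval (R.ML.pz τ) (specR ξ R.MK.h) *
            MvPolynomial.eval (R.ML.pz τ) e) := by ring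
        _ = τ c ^ j * MvPolynomial.eval (R.ML.pz τ) R.ML.h ^ j := by rw [h5]
        _ = 1 := by rw [← mul_pow, h4, one_pow]
    have h6 : ‖MvPolynomial.eval (R.MK.pz s) R.MK.h‖⁻¹ = ‖x (R.incl b0)‖ := by
      rw [hv, ← R.q_apply, ← hτ, ← norm_inv]
      congr 1
      exact (eq_inv_of_mul_eq_one_left h3).symm
    rw [h6]
    have h7 := (le_abs_self _).trans (H1 x)
    refine le_trans ?_ h7
    rw [← log_max_one (norm_nonneg _)]
    apply Real.log_le_log (lt_max_of_lt_left one_pos)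
    refine max_le ?_ ?_
    · linarith [norm_nonneg (x (R.incl b0))]
    · linarith [norm_nonneg (x (R.incl b0))]
  have h3 : 1 + lg R.MK s ≤ (2 + X + C1) * (1 + lg R.MK x) := by
    have h4 : lg R.MK s = Real.log (1 + ∑ i, ‖R.MK.pz s i‖ ^ 2) +
      Real.posLog ‖MvPolynomial.eval (R.MK.pz s) R.MK.h‖⁻¹ := rfl
    have h5 : Real.log (1 + ∑ i, ‖R.MK.pz x i‖ ^ 2) ≤ lg R.MK x := by
      unfold lg
      linarith [Real.posLog_nonneg (x := ‖MvPolynomial.eval (R.MK.pz x) R.MK.h‖⁻¹)]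
    nlinarith
  calc |g s| ≤ C * (1 + lg R.MK s) := H s
    _ ≤ C * ((2 + X + C1) * (1 + lg R.MK x)) := mul_le_mul_of_nonneg_left h3 hC
    _ = _ := by ring

end slice

/-! ### the theorem -/

section main

variable {T L : Type} [Field T] [Field L] [Algebra ℂ T] [Algebra ℂ L] [Algebra T L]
  [IsScalarTower ℂ T L] {ρ a : ℕ} {N w : ℕ}

/-- **(a) of DESC**: the weights on `M_T` which descend from `M_L`; the descending unit is a unit
of `M_L.B` -/
theorem exists_wd (R : RMdl T L ρ a) (V : Ipc735.VHS (ρ + a) R.MK.Pts N w)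
    (om : R.MK.Pts → Fin N → ℂ) (hL : CYL V om) (hfl : Fl V (Fin.castAdd a))
    (hconn : ∀ x, IsPreconnected ((R.q : R.MK.Pts → R.ML.Pts) ⁻¹' {R.q x}))
    (hpos : ∀ x, 0 < gdet V (Fin.castAdd a) x) {ξ : Cn a} {j : ℕ}
    (hdiv : specR ξ R.MK.h ∣ R.ML.h ^ j) (hgr : LG R.MK (psi V om)) :
    ∃ (u : (R.MK.B)ˣ) (M0 : ℕ) (φ ψ : R.ML.Pts → ℝ),
      WD V om (fun x : R.MK.Pts => x (u : R.MK.B)) M0 (R.q : R.MK.Pts → R.ML.Pts)
        (Fin.castAdd a) φ ψ := by
  have hξ := mem_UR R hdiv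
  have hprj := prj_q R
  have hs := surj_q R hξ
  obtain ⟨d, hd, hS⟩ := exists_slice' R hξ
  obtain ⟨k, hk, hUE⟩ := Desc_327.exists_exp N
  have hD := DescF_327.dat hL hfl hprj hconn
  have hUE' : DescD_327.Dat.UE N k := hUE
  set H : R.MK.Pts → Matrix (Fin N) (Fin N) ℂ := fun x => hodge w (V.S x) (V.E x) with hH
  have hpsi : ∀ x, DescE_327.psi H om x = psi V om x := fun x => rfl
  set F : R.MK.Pts → ℂ := uu hD k (SS R hξ) with hF
  have hFhol : ∀ y, HolAt F y := fun y => DescE_327.uu_hol hD hUE' hprj hL.hol hS y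
  have hFne : ∀ y, F y ≠ 0 := fun y => DescE_327.uu_ne hD hUE' hS y
  have hFlog : ∀ y, Real.log (‖F y‖ ^ 2) =
      k * d * (psi V om y - psiT H om (SS R hξ) d (R.q y)) := fun y =>
    DescE_327.log_uu hD hUE' hS hd y
  have hd0 : (d : ℝ) ≠ 0 := by exact_mod_cast hd.ne'
  have hk0 : (k : ℝ) ≠ 0 := by exact_mod_cast hk.ne'
  have hT : LG R.MK (fun y => psiT H om (SS R hξ) d (R.q y)) := by
    obtain ⟨C, hC, hC'⟩ := slice_growth hdiv hgr
    refine ⟨C, hC, fun y => ?_⟩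
    unfold DescE_327.psiT
    rw [abs_mul, abs_of_nonneg (by positivity : (0 : ℝ) ≤ 1 / d)]
    have h1 : |∑ s ∈ SS R hξ (R.q y), DescE_327.psi H om s| ≤
        ∑ _s ∈ SS R hξ (R.q y), C * (1 + lg R.MK y) := by
      refine (Finset.abs_sum_le_sum_abs _ _).trans (Finset.sum_le_sum fun s hs => ?_)
      obtain ⟨h2, h3⟩ := (mem_SS R hξ _ _).1 hs
      exact hC' y s h2 h3
    rw [Finset.sum_const, hS.card, nsmul_eq_mul] at h1
    calc 1 / (d : ℝ) * |∑ s ∈ SS R hξ (R.q y), DescE_327.psi H om s|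
        ≤ 1 / (d : ℝ) * (d * (C * (1 + lg R.MK y))) :=
          mul_le_mul_of_nonneg_left h1 (by positivity)
      _ = _ := by field_simp
  have hgrF : LG R.MK (fun y => Real.log ‖F y‖) := by
    have h1 : (fun y => Real.log ‖F y‖) = fun y =>
        (1 / 2 * (k * d : ℝ)) * (psi V om y - psiT H om (SS R hξ) d (R.q y)) := by
      funext y
      have h2 := hFlog y
      rw [Real.log_pow] at h2
      push_cast at h2
      linarith
    rw [h1]
    exact (hgr.sub hT).const_mul _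
  obtain ⟨u, hu⟩ := exists_unit hFhol hFne hgrF
  have hFu : F = fun x : R.MK.Pts => x (u : R.MK.B) := funext hu
  refine ⟨u, k * d, desc hs (fun x => Real.log (gdet V (Fin.castAdd a) x)),
    psiT H om (SS R hξ) d, ?_⟩
  exact
    { cyl := hL
      prj := hprj
      fl := hfl
      conn := hconn
      surj := hs
      pos := hpos
      hM := Nat.mul_pos hk hd
      uhol := fun x => by rw [← hFu]; exact hFhol x
      une := fun x => by rw [← hu]; exact hFne x
      hφ := fun x => desc_apply hs (fun x y hxy => by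
        rw [gdet_fib hfl hprj hconn (Fin.castAdd a) hxy]) x
      hψ := fun x => by
        rw [← hu, hFlog]
        push_cast
        field_simp
        ring }

end main

end Crest.Agent.R276.Wd_450
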