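import Mathlib
import Crest.Agent.R276.LdC_828
import Crest.Agent.R276.TChX2_590
import Crest.Agent.R276.CInd_870
import Crest.Agent.R276.WdB_450

/-!
# R276, leaf DESC-LD (helper828): the package for one divisor

For a divisorial valuation ring `R` of `K` with `R ∩ T ≠ T`: boundary charts of `M_T` with lifts to
`M_L` (`LB`), the structure `LD` of 327, growth of the coordinates.
-/

set_option autoImplicit false

noncomputable section

open Set Filter Topology Metric MeasureTheory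

namespace Crest.Agent.R276.Ld_828

open Crest.Agent.R271.Defs710 Crest.Agent.R271.Rd692 Crest.Agent.R271.Alg255
open Crest.Agent.R271.Bd741 Crest.Agent.R271.Ho51
open Crest.Agent.R276.BC_986 Crest.Agent.R276.Mod1_987 Crest.Agent.R276.CntDefs_857
open Crest.Agent.R276.BR_590 (VData)
open Crest.Agent.R276.Bcq_828 Crest.Agent.R276.Ipc735 Crest.Agent.R276.LftDefs_327
open Crest.Agent.R276.SkelDefs_220 (Rel)
open Crest.Agent.R276.FKDefs_779 (IsDiv)
open Crest.Agent.R276.CInd_870 (rm)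

/-- the logarithmic growth of 450 in the form used for boundary charts -/
theorem of_LG {K : Type} [Field K] [Algebra ℂ K] {n : ℕ} (M : Mdl K n) {g : M.Pts → ℝ}
    (h : Wd_450.LG M g) : ∃ (G : Finset M.B) (C : ℝ), 0 ≤ C ∧ ∀ y, |g y| ≤
      C * (1 + ∑ b ∈ G, Real.log (1 + ‖y b‖)) := by
  classical
  obtain ⟨C, hC, h⟩ := h
  obtain ⟨hi, hhi⟩ := M.h_unit.exists_left_inv
  set G : Finset M.B := insert hi (Finset.univ.image M.z) with hG
  refine ⟨G, C * (1 + 2 * n + 1), by positivity, fun y => ?_⟩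
  have hpos : ∀ b : M.B, 0 ≤ Real.log (1 + ‖y b‖) := fun b => Real.log_nonneg (by
    have := norm_nonneg (y b); linarith)
  set s := ∑ b ∈ G, Real.log (1 + ‖y b‖) with hs
  have hs0 : 0 ≤ s := Finset.sum_nonneg fun b _ => hpos b
  have h3 : Real.log (1 + ‖y hi‖) ≤ s :=
    Finset.single_le_sum (f := fun b => Real.log (1 + ‖y b‖)) (fun b _ => hpos b)
      (by rw [hG]; exact Finset.mem_insert_self _ _)
  have h4 : ∑ i, Real.log (1 + ‖y (M.z i)‖) ≤ n * s := by
    calc ∑ i, Real.log (1 + ‖y (M.z i)‖) ≤ ∑ _i : Fin n, s := by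
          refine Finset.sum_le_sum fun i _ => ?_
          exact Finset.single_le_sum (f := fun b => Real.log (1 + ‖y b‖)) (fun b _ => hpos b)
            (by rw [hG]; exact Finset.mem_insert_of_mem (Finset.mem_image_of_mem _
              (Finset.mem_univ i)))
      _ = n * s := by rw [Finset.sum_const, Finset.card_univ, Fintype.card_fin, nsmul_eq_mul]
  have h5 : Real.log (1 + ∑ i, ‖M.pz y i‖ ^ 2) ≤ 2 * (n * s) :=
    (log_one_add_sq_le Finset.univ (fun i => ‖M.pz y i‖) (fun i => norm_nonneg _)).trans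
      (by
        have : ∑ i, Real.log (1 + ‖M.pz y i‖) = ∑ i, Real.log (1 + ‖y (M.z i)‖) := rfl
        rw [this]
        linarith)
  set H := ‖MvPolynomial.eval (M.pz y) M.h‖ with hH
  have hH0 : 0 < H := norm_pos_iff.2 (M.eval_h_ne y)
  have hHi : ‖MvPolynomial.eval (M.pz y) M.h‖⁻¹ = ‖y hi‖ := by
    have h1 := congrArg y hhi
    rw [map_mul, map_one] at h1
    have h2 : y (az M.z M.h) = MvPolynomial.eval (M.pz y) M.h := M.apply_az' y M.h
    rw [h2] at h1
    have h3 : ‖y hi‖ * H = 1 := by rw [hH, ← norm_mul, h1, norm_one]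
    rw [← hH]
    field_simp
    linarith
  have h6 : Real.posLog ‖MvPolynomial.eval (M.pz y) M.h‖⁻¹ ≤ s := by
    rw [hHi]
    refine le_trans ?_ h3
    unfold Real.posLog
    refine max_le (hpos hi) ?_
    rcases eq_or_lt_of_le (norm_nonneg (y hi)) with h0 | h0
    · rw [← h0, Real.log_zero, add_zero, Real.log_one]
    · exact Real.log_le_log h0 (by linarith)
  have h7 : Wd_450.lg M y ≤ (2 * n + 1) * s := by
    unfold Wd_450.lg
    linarith
  have hn : (0 : ℝ) ≤ n := Nat.cast_nonneg n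
  calc |g y| ≤ C * (1 + Wd_450.lg M y) := h y
    _ ≤ C * (1 + (2 * n + 1) * s) := by gcongr
    _ ≤ C * (1 + 2 * n + 1) * (1 + s) := by
        rw [mul_assoc]
        refine mul_le_mul_of_nonneg_left ?_ hC
        nlinarith [mul_nonneg hn hs0]

section tower

variable {T L K : Type} [Field T] [Field L] [Field K] [Algebra ℂ T] [Algebra ℂ L] [Algebra ℂ K]
  [Algebra T L] [Algebra L K] [IsScalarTower ℂ T L] [IsScalarTower ℂ L K] {d a r : ℕ}
  {MT : Mdl T (d + 1)} {ML : Mdl L (d + 1 + a)} {MK : Mdl K (d + 1 + a + r)}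

/-- **the package for one divisor** `R` with `R ∩ T ≠ T` -/
theorem exists_div (H₁ : Rel MT ML) (MK : Mdl K (d + 1 + a + r)) {R : ValuationSubring K}
    (hR : IsDiv ℂ (d + 1 + a + r) R) (hT : ∃ c : T, algebraMap L K (algebraMap T L c) ∉ R)
    (FL : Finset L) (hFL : ∀ f ∈ FL, f ≠ 0) :
    ∃ V : VData (d + 1) a T L, V.D.ModelOf (R.comap (algebraMap L K)) ∧
      V.DL.ModelOf ((R.comap (algebraMap L K)).comap (algebraMap T L)) ∧
      ∃ (Lc : Type) (_ : Field Lc) (_ : Algebra ℂ Lc) (_ : Algebra T Lc)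
        (_ : IsScalarTower ℂ T Lc) (D : DivModel (d + 1) Lc) (j : V.D.A →ₐ[ℂ] D.A)
        (c : Fin a → ℂ) (P : LB (rm H₁) V D j ∅ FL), MS V D j c ∧ j V.u ∈ P.bd.S := by
  obtain ⟨V, E, h1, h2, -, -⟩ := TChX_590.alg_VV MT ML MK hR hT
  obtain ⟨Lc, i1, i2, i3, i4, D, j, c, hM, h⟩ := exists_LB (rm H₁) V FL hFL {V.u}
    (fun s hs => by rw [Finset.mem_singleton] at hs; rw [hs]; exact V.u_nd)
  obtain ⟨g, hg0, hg⟩ := h ∅ (by simp) ∅ (by simp)
  obtain ⟨P, -, hP, -⟩ := hg g hg0 dvd_rfl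
  exact ⟨V, h2, h1, Lc, i1, i2, i3, i4, D, j, c, P, hM, hP _ (Finset.mem_singleton_self _)⟩

/-- `LD` of 327 and growth for a chart of the package -/
theorem exists_ld_grow (H₁ : Rel MT ML) {V : VData (d + 1) a T L} {Lc : Type} [Field Lc]
    [Algebra ℂ Lc] [Algebra T Lc] {D : DivModel (d + 1) Lc} {j : V.D.A →ₐ[ℂ] D.A}
    {F : Finset Lc} {FL : Finset L} (P : LB (rm H₁) V D j F FL) {c : Fin a → ℂ}
    (hM : MS V D j c) {N w : ℕ} (V' : VHS (d + 1 + a) ML.Pts N w) (om : ML.Pts → Fin N → ℂ)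
    (hψ : Wd_450.LG ML (VLevi_327.psi V' om)) (u : ML.B) (hu : (u : L) ∈ FL)
    {μ : Measure MT.Pts} (hμ : IsLeb μ) :
    (∃ l : LD (P.bd.dchart (fun _ => rfl) MT.ft hμ) V' om (fun x => x u) H₁.f, l.s = P.s) ∧
    ∃ A : ℕ, C4Loc_327.Grow (P.bd.dchart (fun _ => rfl) MT.ft hμ) A :=
  ⟨P.exists_ld hM V' om (of_LG ML hψ) u hu hμ, exists_grow (M := MT) P.bd hμ⟩

end tower

end Crest.Agent.R276.Ld_828
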