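import Mathlib
import Crest.Agent.R276.BcqI_828

/-!
# Row 276 (helper231), TRANS, part B: lifting points to a model of the divisor
-/

set_option autoImplicit false
set_option linter.unusedSectionVars false
set_option linter.style.haveILetI false

open Set Filter Topology Metric

noncomputable section

namespace Crest.Agent.R276.TransB_231

open Crest.Agent.R271.Defs710 Crest.Agent.R271.Alg255 Crest.Agent.R276.Mod1_987

/-- a maximal ideal of an algebra of finite type over `ℂ` is the kernel of a point -/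
theorem exists_point_of_maximal {B : Type} [CommRing B] [Algebra ℂ B] (hft : Algebra.FiniteType ℂ B)
    (m : Ideal B) (hm : m.IsMaximal) : ∃ y : B →ₐ[ℂ] ℂ, ∀ b, b ∈ m → y b = 0 := by
  have hfin : Module.Finite ℂ (B ⧸ m) := by
    let _ : Field (B ⧸ m) := Ideal.Quotient.field m
    have : Algebra.FiniteType ℂ (B ⧸ m) :=
      Algebra.FiniteType.of_surjective (Ideal.Quotient.mkₐ ℂ m) (Ideal.Quotient.mkₐ_surjective ℂ m)
    exact finite_of_finite_type_of_isJacobsonRing ℂ (B ⧸ m)
  let _ : Field (B ⧸ m) := Ideal.Quotient.field m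
  have hbij : Function.Bijective (algebraMap ℂ (B ⧸ m)) :=
    IsAlgClosed.algebraMap_bijective_of_isIntegral
  let e : ℂ ≃ₐ[ℂ] (B ⧸ m) := AlgEquiv.ofBijective (Algebra.ofId ℂ (B ⧸ m)) hbij
  refine ⟨(e.symm : (B ⧸ m) →ₐ[ℂ] ℂ).comp (Ideal.Quotient.mkₐ ℂ m), fun b hb => ?_⟩
  have h : Ideal.Quotient.mkₐ ℂ m b = 0 := by
    rw [Ideal.Quotient.mkₐ_eq_mk, Ideal.Quotient.eq_zero_iff_mem]
    exact hb
  simp only [AlgHom.comp_apply, h, map_zero]

/-- **lifting of points**: `A → B`, `B` the ring of a model, the coordinates of the model in `A` -/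
theorem exists_lift {A : Type} [CommRing A] [Algebra ℂ A] {L' : Type} [Field L'] [Algebra ℂ L']
    {d : ℕ} (M : Mdl L' d) (φ : A →ₐ[ℂ] M.B) (z : Fin d → A) (hz : ∀ j, φ (z j) = M.z j)
    (p : A →ₐ[ℂ] ℂ) (hker : ∀ a, φ a = 0 → p a = 0)
    (hp : MvPolynomial.eval (fun j => p (z j)) M.h ≠ 0) :
    ∃ y : M.Pts, ∀ a, y (φ a) = p a := by
  set hA : A := MvPolynomial.aeval z M.h with hhA
  have hφ : ∀ P : MvPolynomial (Fin d) ℂ, φ (MvPolynomial.aeval z P) = az M.z P := by
    intro P
    rw [MvPolynomial.comp_aeval_apply]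
    have : (fun i => φ (z i)) = M.z := funext hz
    rw [this]
    rfl
  have hpA : p hA = MvPolynomial.eval (fun j => p (z j)) M.h := by
    rw [hhA, MvPolynomial.comp_aeval_apply]
    rfl
  let Ah := Localization.Away hA
  have hu : IsUnit ((φ : A →+* M.B) hA) := by
    change IsUnit (φ hA)
    rw [hhA, hφ]
    exact M.h_unit
  have hu' : IsUnit ((p : A →+* ℂ) hA) := by
    change IsUnit (p hA)
    rw [hpA]
    exact IsUnit.mk0 _ hp
  let f : Ah →+* M.B := IsLocalization.Away.lift hA hu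
  let p' : Ah →+* ℂ := IsLocalization.Away.lift hA hu'
  have hf : ∀ a, f (algebraMap A Ah a) = φ a := fun a => IsLocalization.Away.lift_eq hA hu a
  have hp' : ∀ a, p' (algebraMap A Ah a) = p a := fun a => IsLocalization.Away.lift_eq hA hu' a
  letI i1 : Algebra Ah M.B := f.toAlgebra
  have hmap : ∀ x, algebraMap Ah M.B x = f x := fun _ => rfl
  let g : MvPolynomial (Fin d) ℂ →+* Ah :=
    (algebraMap A Ah).comp ((MvPolynomial.aeval z : MvPolynomial (Fin d) ℂ →ₐ[ℂ] A) :
      MvPolynomial (Fin d) ℂ →+* A)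
  have hfg : (algebraMap Ah M.B).comp g = az M.z := by
    refine RingHom.ext fun P => ?_
    change f (algebraMap A Ah (MvPolynomial.aeval z P)) = _
    rw [hf, hφ]
  have hθ : IsIntegral Ah M.θ := by
    refine ⟨M.μ.map g, M.monic.map g, ?_⟩
    rw [Polynomial.eval₂_map, hfg]
    exact M.root
  haveI i2 : Algebra.IsIntegral Ah M.B := by
    refine ⟨fun b => ?_⟩
    obtain ⟨k, q, hq⟩ := M.gen b
    have h1 : IsIntegral Ah (Polynomial.eval₂ (az M.z) M.θ q) := by
      rw [← hfg, ← Polynomial.eval₂_map]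
      apply adjoin_le_integralClosure hθ
      rw [Algebra.adjoin_singleton_eq_range_aeval]
      exact ⟨q.map g, rfl⟩
    have h2 : IsUnit (algebraMap A Ah hA) := IsLocalization.Away.algebraMap_isUnit hA
    obtain ⟨w, hw⟩ := h2
    have h3 : az M.z (M.h ^ k) = algebraMap Ah M.B ((w ^ k : Ahˣ) : Ah) := by
      rw [Units.val_pow_eq_pow_val, map_pow, map_pow, hmap, hw, hf, hhA, hφ]
    have h4 : b = algebraMap Ah M.B (((w ^ k)⁻¹ : Ahˣ) : Ah) *
        Polynomial.eval₂ (az M.z) M.θ q := by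
      rw [← hq, h3, ← mul_assoc, ← map_mul, Units.inv_mul, map_one, one_mul]
    rw [h4]
    exact isIntegral_algebraMap.mul h1
  have hsurj : Function.Surjective p' := fun c => ⟨algebraMap A Ah (algebraMap ℂ A c), by
    rw [hp', AlgHom.commutes]; rfl⟩
  haveI i3 : (RingHom.ker p').IsMaximal := RingHom.ker_isMaximal_of_surjective p' hsurj
  have hle : RingHom.ker (algebraMap Ah M.B) ≤ RingHom.ker p' := by
    intro x hx
    rw [RingHom.mem_ker] at hx ⊢
    obtain ⟨⟨a, s⟩, hs⟩ := IsLocalization.surj (Submonoid.powers hA) x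
    have h1 : φ a = 0 := by
      rw [← hf, ← hs, map_mul, ← hmap x, hx, zero_mul]
    have h2 : p' x * p' (algebraMap A Ah s) = 0 := by
      rw [← map_mul, hs, hp', hker a h1]
    have h3 : IsUnit (p' (algebraMap A Ah s)) :=
      (IsLocalization.map_units Ah s).map p'
    exact (mul_eq_zero.1 h2).resolve_right h3.ne_zero
  obtain ⟨Q, hQ, hQc⟩ := Ideal.exists_ideal_over_maximal_of_isIntegral (S := M.B)
    (RingHom.ker p') hle
  obtain ⟨y, hy⟩ := exists_point_of_maximal M.ft Q hQ
  refine ⟨y, fun a => ?_⟩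
  have h1 : algebraMap A Ah (a - algebraMap ℂ A (p a)) ∈ RingHom.ker p' := by
    rw [RingHom.mem_ker, hp', map_sub, AlgHom.commutes]
    simp
  rw [← hQc, Ideal.mem_comap, hmap, hf] at h1
  have h2 := hy _ h1
  rw [map_sub, map_sub, AlgHom.commutes, AlgHom.commutes, sub_eq_zero] at h2
  exact h2

end Crest.Agent.R276.TransB_231
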