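import Mathlib
import Crest.Agent.R276.TransA_231
import Crest.Agent.R276.TransB_231
import Crest.Agent.R276.BR4_590
import Crest.Agent.R276.BC6_986

/-!
# Row 276 (helper231), TRANS, part C: the local factorisation through the charts of `M_T`
-/

set_option autoImplicit false
set_option linter.unusedSectionVars false
set_option linter.style.haveILetI false

open Set Filter Topology Metric

noncomputable section

namespace Crest.Agent.R276.TransC_231

open Crest.Agent.R271.Defs710 Crest.Agent.R271.Bd741 Crest.Agent.R271.Rd692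
open Crest.Agent.R276.Mod1_987 Crest.Agent.R276.SkelDefs_220
open Crest.Agent.R276.BC_986 Crest.Agent.R276.BR_590 Crest.Agent.R276.Bcq_828
open Crest.Agent.R276.CntDefs_857 (PS)
open Crest.Agent.R276.TransA_231 Crest.Agent.R276.TransB_231

/-! ### polynomial multiples modulo `t` -/

theorem exists_poly_aux {F A : Type} [Field F] [Algebra ℂ F] [CommRing A] [IsDomain A] [Algebra ℂ A]
    [Algebra A F] [IsScalarTower ℂ A F] (hinj : Function.Injective (algebraMap A F)) {d : ℕ}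
    (xb : Fin d → A) (hx : IsTranscendenceBasis ℂ (fun k => algebraMap A F (xb k))) (b : A)
    (hb : b ≠ 0) : ∃ Q : MvPolynomial (Fin d) ℂ, Q ≠ 0 ∧ b ∣ MvPolynomial.aeval xb Q := by
  letI i1 : Algebra (MvPolynomial (Fin d) ℂ) F :=
    ((MvPolynomial.aeval (fun k => algebraMap A F (xb k)) : MvPolynomial (Fin d) ℂ →ₐ[ℂ] F) :
      MvPolynomial (Fin d) ℂ →+* F).toAlgebra
  letI i2 : Algebra (MvPolynomial (Fin d) ℂ) A :=
    ((MvPolynomial.aeval xb : MvPolynomial (Fin d) ℂ →ₐ[ℂ] A) :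
      MvPolynomial (Fin d) ℂ →+* A).toAlgebra
  haveI i3 : IsScalarTower (MvPolynomial (Fin d) ℂ) A F := by
    refine IsScalarTower.of_algebraMap_eq fun Q => ?_
    change MvPolynomial.aeval (fun k => algebraMap A F (xb k)) Q =
      algebraMap A F (MvPolynomial.aeval xb Q)
    exact (MvPolynomial.comp_aeval_apply (f := xb) (IsScalarTower.toAlgHom ℂ A F) Q).symm
  have halg : Algebra.IsAlgebraic (MvPolynomial (Fin d) ℂ) F := Adap.isAlgebraic hx
  have h1 : IsAlgebraic (MvPolynomial (Fin d) ℂ) b := by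
    rw [← isAlgebraic_algebraMap_iff hinj]
    exact halg.isAlgebraic _
  obtain ⟨Q, hQ, hd⟩ := h1.exists_nonzero_dvd (mem_nonZeroDivisors_of_ne_zero hb)
  exact ⟨Q, hQ, hd⟩

/-- every element not divisible by `t` has a multiple congruent to a nonzero polynomial in the
coordinates of the divisor -/
theorem exists_poly_mod {d : ℕ} {K : Type} [Field K] [Algebra ℂ K] (D : DivModel (d + 1) K)
    (h0 : D.i₀ = 0) (b : D.A) (hb : ¬ D.t ∣ b) :
    ∃ (Q : MvPolynomial (Fin d) ℂ) (c : D.A), Q ≠ 0 ∧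
      D.t ∣ b * c - MvPolynomial.aeval (fun k : Fin d => D.w k.succ) Q := by
  have hbb : Ideal.Quotient.mk (dI D) b ≠ 0 := by
    rw [Ne, Ideal.Quotient.eq_zero_iff_mem, Ideal.mem_span_singleton]
    exact hb
  obtain ⟨Q, hQ, c', hc'⟩ := exists_poly_aux (F := LL D) (A := D.A ⧸ dI D)
    (IsFractionRing.injective (D.A ⧸ dI D) (LL D))
    (fun k => Ideal.Quotient.mk (dI D) (D.w k.succ)) (isTranscendenceBasis_res D h0) _ hbb
  obtain ⟨c, rfl⟩ := Ideal.Quotient.mk_surjective c'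
  refine ⟨Q, c, hQ, ?_⟩
  have h2 : MvPolynomial.aeval (fun k : Fin d => Ideal.Quotient.mk (dI D) (D.w k.succ)) Q =
      Ideal.Quotient.mk (dI D) (MvPolynomial.aeval (fun k : Fin d => D.w k.succ) Q) :=
    (MvPolynomial.comp_aeval_apply (f := fun k : Fin d => D.w k.succ)
      (Ideal.Quotient.mkₐ ℂ (dI D)) Q).symm
  rw [h2, ← map_mul, Ideal.Quotient.eq] at hc'
  rw [← Ideal.mem_span_singleton, ← neg_mem_iff, neg_sub]
  exact hc'

section main

variable {d a : ℕ} {T L Lc : Type} [Field T] [Field L] [Field Lc] [Algebra ℂ T] [Algebra ℂ L]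
  [Algebra ℂ Lc] [Algebra T L] [Algebra T Lc] (V : VData (d + 1) a T L)
  {D₁ : DivModel (d + 1) Lc} (jj : V.D.A →ₐ[ℂ] D₁.A)

/-- the transposition of `0` and `i₀` -/
def sw (i : Fin (d + 1)) : Fin (d + 1) := Equiv.swap 0 V.DL.i₀ i

lemma sw_zero : sw V 0 = V.DL.i₀ := Equiv.swap_apply_left _ _

lemma sw_sw (i : Fin (d + 1)) : sw V (sw V i) = i := Equiv.swap_apply_self _ _ _

lemma sw_inj {i k : Fin (d + 1)} (h : sw V i = sw V k) : i = k := (Equiv.swap _ _).injective h

lemma sw_ne {i : Fin (d + 1)} (h : i ≠ 0) : sw V i ≠ V.DL.i₀ := fun h' =>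
  h (sw_inj V (h'.trans (sw_zero V).symm))

variable (h0 : D₁.i₀ = 0) (hw : ∀ i, D₁.w i = jj (V.D.w (Fin.castAdd a (sw V i))))

include h0 hw in
lemma jj_t : jj V.D.t = D₁.t := by
  have h1 : V.D.t = V.D.w (Fin.castAdd a (sw V 0)) := by
    rw [DivModel.t, V.i₀_eq, sw_zero]
  rw [h1, ← hw, DivModel.t, h0]

include hw in
lemma jj_w {k : Fin (d + 1)} (hk : k ≠ V.DL.i₀) : jj (V.ι (V.DL.w k)) = D₁.w (sw V k) := by
  rw [hw, sw_sw, V.base k hk]

include h0 hw in
/-- the kernel of `A_T → D₁.A / (t)` is generated by `t` -/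
theorem lies' (b : V.DL.A) (hb : D₁.t ∣ jj (V.ι b)) : V.DL.t ∣ b := by
  by_contra hcon
  have hcon' : ¬ (normD V.DL).t ∣ b := by rw [normD_t]; exact hcon
  obtain ⟨Q, c, hQ, hdvd⟩ : ∃ (Q : MvPolynomial (Fin d) ℂ) (c : V.DL.A), Q ≠ 0 ∧
      V.DL.t ∣ b * c - MvPolynomial.aeval (fun k : Fin d => V.DL.w (sw V k.succ)) Q := by
    obtain ⟨Q, c, hQ, hdvd⟩ := exists_poly_mod (normD V.DL) rfl b hcon'
    rw [normD_t] at hdvd
    exact ⟨Q, c, hQ, hdvd⟩
  obtain ⟨q, hq⟩ := hdvd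
  have h1 : jj (V.ι V.DL.t) = D₁.t ^ V.e * jj V.u := by
    rw [V.ram, map_mul, map_pow, jj_t V jj h0 hw]
  have h2 : D₁.t ∣ jj (V.ι V.DL.t) := by
    rw [h1]
    exact (dvd_pow_self _ V.e_ne).mul_right _
  have h3 : jj (V.ι (MvPolynomial.aeval (fun k : Fin d => V.DL.w (sw V k.succ)) Q)) =
      MvPolynomial.aeval (fun k : Fin d => D₁.w k.succ) Q := by
    have h4 := MvPolynomial.comp_aeval_apply (f := fun k : Fin d => V.DL.w (sw V k.succ))
      (jj.comp V.ι) Q
    refine h4.trans ?_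
    congr 2
    funext k
    change jj (V.ι (V.DL.w (sw V k.succ))) = _
    rw [jj_w V jj hw (sw_ne V (Fin.succ_ne_zero k)), sw_sw]
  have h5 : D₁.t ∣ MvPolynomial.aeval (fun k : Fin d => D₁.w k.succ) Q := by
    have h6 : jj (V.ι b) * jj (V.ι c) -
        jj (V.ι (MvPolynomial.aeval (fun k : Fin d => V.DL.w (sw V k.succ)) Q)) =
        jj (V.ι V.DL.t) * jj (V.ι q) := by
      have h6' := congrArg (fun x : V.DL.A => jj (V.ι x)) hq
      change jj (V.ι (b * c - MvPolynomial.aeval (fun k : Fin d => V.DL.w (sw V k.succ)) Q)) =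
        jj (V.ι (V.DL.t * q)) at h6'
      rw [map_mul, map_mul] at h6'
      rw [← h6', ← map_mul, ← map_mul, ← map_sub, ← map_sub]
    have h7 : jj (V.ι (MvPolynomial.aeval (fun k : Fin d => V.DL.w (sw V k.succ)) Q)) =
        jj (V.ι b) * jj (V.ι c) - jj (V.ι V.DL.t) * jj (V.ι q) := by
      rw [← h6]; ring
    rw [← h3, h7]
    exact dvd_sub (hb.mul_right _) (h2.mul_right _)
  have h8 : MvPolynomial.aeval (fun k : Fin d => res D₁ (D₁.w k.succ)) Q = 0 := by
    have h9 := MvPolynomial.comp_aeval_apply (f := fun k : Fin d => D₁.w k.succ) (res D₁) Q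
    rw [← h9]
    exact (res_eq_zero_iff D₁ _).2 h5
  have h10 := (isTranscendenceBasis_res D₁ h0).1
  exact hQ ((injective_iff_map_eq_zero _).1 h10 Q h8)

end main

end Crest.Agent.R276.TransC_231
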