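import Mathlib
import Crest.Agent.R276.TransC_231

/-!
# Row 276 (helper231), TRANS, part D: the local factorisation through the charts of `M_T`
-/

set_option autoImplicit false
set_option linter.unusedSectionVars false
set_option linter.style.haveILetI false

open Set Filter Topology Metric

noncomputable section

namespace Crest.Agent.R276.TransD_231

open Crest.Agent.R271.Defs710 Crest.Agent.R271.Bd741 Crest.Agent.R271.Rd692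
open Crest.Agent.R276.Mod1_987 Crest.Agent.R276.SkelDefs_220
open Crest.Agent.R276.BC_986 Crest.Agent.R276.BR_590 Crest.Agent.R276.Bcq_828
open Crest.Agent.R276.CntDefs_857 (PS)
open Crest.Agent.R276.TransA_231 Crest.Agent.R276.TransB_231 Crest.Agent.R276.TransC_231

section main

variable {d a : ℕ} {T L Lc : Type} [Field T] [Field L] [Field Lc] [Algebra ℂ T] [Algebra ℂ L]
  [Algebra ℂ Lc] [Algebra T L] [Algebra T Lc] (V : VData (d + 1) a T L)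
  {D₁ : DivModel (d + 1) Lc} (jj : V.D.A →ₐ[ℂ] D₁.A)

/-- `u` has no zeros in the charts -/
theorem unit_ne {B : Type} [CommRing B] [Algebra ℂ B] [Algebra B Lc] {z : Fin (d + 1) → B}
    {F₁ : Finset Lc} (R₁ : BD D₁ B z F₁) {u : D₁.A} (hu1 : algebraMap D₁.A Lc u ∈ F₁)
    (hu2 : ¬ D₁.t ∣ u) (y : R₁.E) {ζ : Cn (d + 1)} (hζ : ζ ∈ ball (0 : Cn (d + 1)) (R₁.Q.r y)) :
    R₁.Q.s y ζ u ≠ 0 := by
  obtain ⟨k, G, h1, h2⟩ := R₁.good _ hu1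
  have h3 : D₁.HasOrd (algebraMap D₁.A Lc u) 0 :=
    ⟨u, 1, hu2, fun h => D₁.prime.not_isUnit (isUnit_of_dvd_one h), by simp⟩
  have h4 : k = 0 := D₁.hasOrd_unique h1 h3
  subst h4
  have h5 := QGood.isVal' (a := 0) R₁.h0 h2 hζ
  rw [pow_zero, one_mul] at h5
  rw [(isVal_algebraMap (K := Lc) (p := R₁.Q.s y ζ) u).unique D₁.inj h5]
  exact h2.ne hζ

/-- **the local factorisation** -/
theorem local_fac (h0 : D₁.i₀ = 0) (hw : ∀ i, D₁.w i = jj (V.D.w (Fin.castAdd a (sw V i))))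
    (hK : ∀ b : V.DL.A, algebraMap D₁.A Lc (jj (V.ι b)) = algebraMap T Lc (algebraMap V.DL.A T b))
    {MT : Mdl T (d + 1)} {F₁ : Finset Lc} (R₁ : BD D₁ MT.B MT.z F₁)
    (hune : ∀ (y : R₁.E) (ζ : Cn (d + 1)), ζ ∈ ball (0 : Cn (d + 1)) (R₁.Q.r y) →
      R₁.Q.s y ζ (jj V.u) ≠ 0)
    {ML : Mdl L (d + 1 + a)} {δ : ℝ} {i₀ : Option (Fin (d + 1 + a))} {X : AC ML δ i₀}
    {P : Cn (d + 1 + a) → (V.D.A →ₐ[ℂ] ℂ)}
    (hPan : ∀ b, AnalyticOnNhd ℂ (fun ζ => P ζ b) (ball 0 δ))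
    (hP : ∀ ζ ∈ PD δ i₀, ∀ (x : V.D.A) (b c : ML.B), algebraMap V.D.A L x * (c : L) = b →
        P ζ x * X.s ζ c = X.s ζ b)
    {q : ML.B} {kq : ℤ} (hkq : X.Ord (q : L) kq)
    (hq : ∀ x : V.D.A, ∃ (m : ℕ) (b : ML.B), algebraMap V.D.A L x * (q : L) ^ m = b)
    (vT : V.DL.A) (hvT : ∀ b : MT.B, ∃ (m : ℕ) (α : V.DL.A),
      (b : T) * algebraMap V.DL.A T vT ^ m = algebraMap V.DL.A T α)
    {ζ₀ : Cn (d + 1 + a)} (hζ₀ : ζ₀ ∈ ball (0 : Cn (d + 1 + a)) δ) (ht : P ζ₀ V.D.t = 0)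
    (hu : P ζ₀ V.u ≠ 0)
    (hh : P ζ₀ (V.ι (MvPolynomial.aeval (fun k : Fin d => V.DL.w (sw V k.succ)) R₁.X.M.h)) ≠ 0)
    (hv : ∀ᶠ ζ in 𝓝 ζ₀, P ζ V.D.t ≠ 0 → P ζ (V.ι vT) ≠ 0) :
    ∃ (y : R₁.E) (Φ : Cn (d + 1 + a) → Cn (d + 1)) (κ : Cn (d + 1 + a) → ℂ),
      AnalyticAt ℂ Φ ζ₀ ∧ Φ ζ₀ = 0 ∧ AnalyticAt ℂ κ ζ₀ ∧ κ ζ₀ ≠ 0 ∧
      (∀ᶠ ζ in 𝓝 ζ₀, Φ ζ 0 = P ζ V.D.t * κ ζ) ∧
      ∀ᶠ ζ in 𝓝 ζ₀, ζ ∈ PD δ i₀ → P ζ V.D.t ≠ 0 → Φ ζ ∈ PS d (R₁.Q.r y) ∧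
        ∀ (b : MT.B) (b' : ML.B), (b' : L) = algebraMap T L b → X.s ζ b' = R₁.P.σ y (Φ ζ) b := by
  classical
  -- (1) the point `y`
  let φ : V.DL.A →ₐ[ℂ] R₁.X.M.B := R₁.X.ι.comp (jj.comp V.ι)
  have hφz : ∀ k : Fin d, φ (V.DL.w (sw V k.succ)) = R₁.X.M.z k := by
    intro k
    change R₁.X.ι (jj (V.ι (V.DL.w (sw V k.succ)))) = _
    rw [jj_w V jj hw (sw_ne V (Fin.succ_ne_zero k)), sw_sw, R₁.X.ι_w]
  have hιt : P ζ₀ (V.ι V.DL.t) = 0 := by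
    rw [V.ram, map_mul, map_pow, ht, zero_pow V.e_ne, zero_mul]
  obtain ⟨y, hy⟩ := exists_lift R₁.X.M φ (fun k : Fin d => V.DL.w (sw V k.succ)) hφz
    ((P ζ₀).comp V.ι) (by
      intro b hb
      have h1 : D₁.t ∣ jj (V.ι b) := (R₁.X.ι_eq_zero_iff _).1 hb
      obtain ⟨c, rfl⟩ := lies' V jj h0 hw b h1
      change P ζ₀ (V.ι (V.DL.t * c)) = 0
      rw [map_mul, map_mul, hιt, zero_mul]) (by
      have h1 : MvPolynomial.eval (fun k : Fin d => ((P ζ₀).comp V.ι) (V.DL.w (sw V k.succ)))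
          R₁.X.M.h = P ζ₀ (V.ι (MvPolynomial.aeval (fun k : Fin d => V.DL.w (sw V k.succ))
            R₁.X.M.h)) := by
        have h2 := MvPolynomial.comp_aeval_apply (f := fun k : Fin d => V.DL.w (sw V k.succ))
          ((P ζ₀).comp V.ι) R₁.X.M.h
        exact h2.symm
      rw [h1]
      exact hh)
  have hr : 0 < R₁.Q.r y := R₁.Q.r_pos y
  -- the values at the centre of the chart
  have hs0 : ∀ b : V.DL.A, R₁.Q.s y 0 (jj (V.ι b)) = P ζ₀ (V.ι b) := by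
    intro b
    rw [R₁.Q.s_zero]
    exact hy b
  -- (2) the root coordinate
  have hGan : AnalyticOnNhd ℂ (fun x => R₁.Q.s y x (jj V.u)) (ball 0 (R₁.Q.r y)) :=
    R₁.Q.anal y (jj V.u)
  obtain ⟨Tr, -⟩ := exists_rootS (0 : Fin (d + 1)) hr hGan
    (hune y 0 (mem_ball_self hr)) V.e V.e_ne 1 one_pos
  -- (3) the root of `u` on the chart of `L`
  have hGu : AnalyticAt ℂ (fun ζ : Cn (d + 1 + a) => P (ζ₀ + ζ) V.u) 0 := by
    have h1 : AnalyticAt ℂ (fun ζ : Cn (d + 1 + a) => ζ₀ + ζ) 0 :=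
      analyticAt_const.add analyticAt_id
    have h2 : AnalyticAt ℂ (fun ζ => P ζ V.u) (ζ₀ + 0) := by
      rw [add_zero]
      exact hPan V.u ζ₀ hζ₀
    exact h2.comp h1
  obtain ⟨H, hH, hH0, hHe⟩ := exists_root hGu (by simpa using hu) V.e V.e_ne
  have hsub : AnalyticAt ℂ (fun ζ : Cn (d + 1 + a) => ζ - ζ₀) ζ₀ :=
    analyticAt_id.sub analyticAt_const
  have hHs : AnalyticAt ℂ (fun ζ => H (ζ - ζ₀)) ζ₀ := by
    have h2 : AnalyticAt ℂ H (ζ₀ - ζ₀) := by rw [sub_self]; exact hH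
    exact AnalyticAt.comp (g := H) (f := fun ζ : Cn (d + 1 + a) => ζ - ζ₀) h2 hsub
  have hHse : ∀ᶠ ζ in 𝓝 ζ₀, H (ζ - ζ₀) ^ V.e = P ζ V.u := by
    have h1 : Tendsto (fun ζ : Cn (d + 1 + a) => ζ - ζ₀) (𝓝 ζ₀) (𝓝 0) := by
      have := hsub.continuousAt.tendsto
      rwa [sub_self] at this
    filter_upwards [h1.eventually hHe] with ζ hζ
    rw [hζ]
    congr 2
    abel
  -- (4) the map
  let ξ : Cn (d + 1 + a) → Cn (d + 1) := fun ζ i =>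
    if i = 0 then P ζ V.D.t * H (ζ - ζ₀)
    else P ζ (V.D.w (Fin.castAdd a (sw V i))) - P ζ₀ (V.D.w (Fin.castAdd a (sw V i)))
  have hξan : AnalyticAt ℂ ξ ζ₀ := by
    rw [analyticAt_pi_iff]
    intro i
    by_cases hi : i = 0
    · simp only [if_pos hi]
      exact (hPan V.D.t ζ₀ hζ₀).mul hHs
    · simp only [if_neg hi]
      exact (hPan _ ζ₀ hζ₀).sub analyticAt_const
  have hξ0 : ξ ζ₀ = 0 := by
    funext i
    by_cases hi : i = 0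
    · simp [ξ, hi, ht]
    · simp [ξ, hi]
  have hξt : Tendsto ξ (𝓝 ζ₀) (𝓝 0) := by
    have := hξan.continuousAt.tendsto
    rwa [hξ0] at this
  have hξb : ∀ᶠ ζ in 𝓝 ζ₀, ξ ζ ∈ ball (0 : Cn (d + 1)) Tr.ρ :=
    hξt.eventually (ball_mem_nhds _ Tr.ρ_pos)
  have hΦan : AnalyticAt ℂ (fun ζ => Tr.Ξ (ξ ζ)) ζ₀ := by
    have h2 : AnalyticAt ℂ Tr.Ξ (ξ ζ₀) := by
      rw [hξ0]; exact Tr.an 0 (mem_ball_self Tr.ρ_pos)
    exact h2.comp hξan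
  have hΦ0 : Tr.Ξ (ξ ζ₀) = 0 := by rw [hξ0, Tr.zero]
  have hκan : AnalyticAt ℂ (fun ζ => H (ζ - ζ₀) * Tr.E (ξ ζ)) ζ₀ := by
    have h2 : AnalyticAt ℂ Tr.E (ξ ζ₀) := by
      rw [hξ0]; exact Tr.anE 0 (mem_ball_self Tr.ρ_pos)
    exact hHs.mul (h2.comp hξan)
  refine ⟨y, fun ζ => Tr.Ξ (ξ ζ), fun ζ => H (ζ - ζ₀) * Tr.E (ξ ζ), hΦan, hΦ0, hκan, ?_, ?_, ?_⟩
  · refine mul_ne_zero (hH0 _) ?_
    rw [hξ0]
    exact Tr.ne 0 (mem_ball_self Tr.ρ_pos)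
  · filter_upwards [hξb] with ζ hζ
    rw [Tr.eq _ hζ]
    simp only [ξ, if_true]
    ring
  -- (5) comparison
  obtain ⟨C⟩ := nonempty_chart V.DL.w V.DL.etale ((P ζ₀).comp V.ι)
  have hcmp : ∀ᶠ ζ in 𝓝 ζ₀, (R₁.Q.s y (Tr.Ξ (ξ ζ))).comp (jj.comp V.ι) = (P ζ).comp V.ι := by
    refine etale_unique C ?_ ?_ ?_
    · intro b
      have h1 : ContinuousAt (fun x => R₁.Q.s y x (jj (V.ι b))) 0 :=
        (R₁.Q.anal y (jj (V.ι b)) 0 (mem_ball_self hr)).continuousAt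
      have h2 : Tendsto (fun ζ => Tr.Ξ (ξ ζ)) (𝓝 ζ₀) (𝓝 0) := by
        have := hΦan.continuousAt.tendsto
        rwa [hΦ0] at this
      have h3 := h1.tendsto.comp h2
      rw [hs0] at h3
      exact h3
    · intro b
      exact (hPan (V.ι b) ζ₀ hζ₀).continuousAt.tendsto
    · filter_upwards [hξb, hHse] with ζ hζ hζH k
      have hΦm : Tr.Ξ (ξ ζ) ∈ ball (0 : Cn (d + 1)) (R₁.Q.r y) := Tr.maps hζ
      change R₁.Q.s y (Tr.Ξ (ξ ζ)) (jj (V.ι (V.DL.w k))) = P ζ (V.ι (V.DL.w k))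
      by_cases hk : k = V.DL.i₀
      · subst hk
        change R₁.Q.s y (Tr.Ξ (ξ ζ)) (jj (V.ι V.DL.t)) = P ζ (V.ι V.DL.t)
        rw [V.ram]
        simp only [map_mul, map_pow]
        rw [jj_t V jj h0 hw, R₁.Q.s_t h0 hΦm, Tr.pow _ hζ, ← hζH]
        simp only [ξ, if_true]
        rw [mul_pow]
      · have hk0 : sw V k ≠ 0 := by
          intro h
          apply hk
          rw [← sw_sw V k, h, sw_zero]
        rw [jj_w V jj hw hk, R₁.Q.s_z hΦm, Tr.coord _ hζ _ hk0]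
        have h1 : R₁.X.pA y (D₁.w (sw V k)) = P ζ₀ (V.ι (V.DL.w k)) := by
          rw [← jj_w V jj hw hk, ← hs0, R₁.Q.s_zero]
        rw [h1]
        simp only [ξ, if_neg hk0, sw_sw]
        rw [V.base k hk]
        ring
  filter_upwards [hξb, hcmp, hv] with ζ hζ hζc hζv hζPD hζt
  have hΦm : Tr.Ξ (ξ ζ) ∈ ball (0 : Cn (d + 1)) (R₁.Q.r y) := Tr.maps hζ
  have hPS : Tr.Ξ (ξ ζ) ∈ PS d (R₁.Q.r y) := by
    rw [mem_PS_iff hr]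
    refine ⟨hΦm, ?_⟩
    rw [Tr.eq _ hζ]
    refine mul_ne_zero ?_ (Tr.ne _ hζ)
    simp only [ξ, if_true]
    exact mul_ne_zero hζt (hH0 _)
  refine ⟨hPS, fun b b' hb => ?_⟩
  obtain ⟨m, α, hα⟩ := hvT b
  have hval : ∀ x : V.DL.A, R₁.Q.s y (Tr.Ξ (ξ ζ)) (jj (V.ι x)) = P ζ (V.ι x) := fun x =>
    congrArg (fun f : V.DL.A →ₐ[ℂ] ℂ => f x) hζc
  have h1 := R₁.P.spec y _ hPS b (jj (V.ι α)) (jj (V.ι (vT ^ m))) (by
    rw [hK, hK, ← hα, map_pow, map_mul, map_pow]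
    rfl)
  rw [hval, hval] at h1
  have h2 := ext_rel hP hkq hq hζPD (b := b') (u := V.ι α) (v := V.ι (vT ^ m)) (by
    rw [V.ι_K, V.ι_K, hb, ← hα, map_pow, map_mul, map_pow])
  have h3 : P ζ (V.ι (vT ^ m)) ≠ 0 := by
    rw [map_pow, map_pow]
    exact pow_ne_zero _ (hζv hζt)
  exact mul_right_cancel₀ h3 (h2.trans h1.symm)

end main

end Crest.Agent.R276.TransD_231
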