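import Mathlib
import Crest.Agent.R276.TransD_231
import Crest.Agent.R276.LdDefs_828

/-!
# Row 276 (helper231), TRANS, part E: tower charts and the boundary charts of `M_T`

`trans`: near every boundary point of a good tower chart (vertical case) the map to `M_T` factors
through one of 828's boundary charts, `q = Φ(η)` holomorphic, `|q₀| ~ |τ|^k`, `|jN| ≤ C |J|`.
-/

set_option autoImplicit false
set_option linter.unusedSectionVars false
set_option linter.style.haveILetI false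

open Set Filter Topology Metric

noncomputable section

namespace Crest.Agent.R276.TransE_231

open Crest.Agent.R271.Defs710 Crest.Agent.R271.Bd741 Crest.Agent.R271.Rd692
open Crest.Agent.R276.Mod1_987 Crest.Agent.R276.SkelDefs_220
open Crest.Agent.R276.BC_986 Crest.Agent.R276.BR_590 Crest.Agent.R276.Bcq_828
open Crest.Agent.R276.CntDefs_857 (PS)
open Crest.Agent.R276.TCh_858 (PD_sub isOpen_PD mem_PD_some mem_PD_none pw_castAdd)
open Crest.Agent.R276.TransA_231 Crest.Agent.R276.TransB_231 Crest.Agent.R276.TransC_231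
open Crest.Agent.R276.TransD_231

/-! ### orders -/

section ord

variable {K : Type} [Field K] [Algebra ℂ K] {n : ℕ} {M : Mdl K n} {δ : ℝ} {i₀ : Option (Fin n)}
  {X : AC M δ i₀}

/-- the order of the inverse -/
theorem ord_inv {x : K} (hx : x ≠ 0) {k : ℤ} (h : X.Ord x k) : X.Ord x⁻¹ (-k) := by
  obtain ⟨u, ⟨G, hG, hG0, hGu⟩, hu⟩ := h
  refine ⟨fun ζ => (u ζ)⁻¹, ⟨fun ζ => (G ζ)⁻¹, fun ζ hζ => (hG ζ hζ).inv (hG0 ζ hζ),
    fun ζ hζ => inv_ne_zero (hG0 ζ hζ), fun ζ hζ => ?_⟩, fun ζ hζ b c hbc => ?_⟩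
  · simp only [hGu ζ hζ, mul_inv, zpow_neg]
  · have hne : u ζ ≠ 0 := by
      rw [hGu ζ hζ]
      exact mul_ne_zero (zpow_ne_zero _ (tau_ne hζ)) (hG0 ζ (PD_sub hζ))
    have h1 := hu ζ hζ c b (by rw [hbc]; field_simp)
    simp only [h1]
    field_simp

end ord

section tower

variable {T L K : Type} [Field T] [Field L] [Field K] [Algebra ℂ T] [Algebra ℂ L] [Algebra ℂ K]
  [Algebra T L] [Algebra L K] [IsScalarTower ℂ T L] [IsScalarTower ℂ L K] {ρ a r : ℕ}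
  {MT : Mdl T ρ} {ML : Mdl L (ρ + a)} {MK : Mdl K (ρ + a + r)} {H₁ : Rel MT ML} {H₂ : Rel ML MK}
  {R : ValuationSubring K}

/-- `pe` maps punctured polydiscs to punctured polydiscs -/
theorem pe_mem_PD {m : ℕ} {δ : ℝ} (hδ : 0 < δ) (hδ1 : δ ≤ 1) {i : Fin m} {e : ℕ} (he : e ≠ 0)
    {x : Cn m} (hx : x ∈ ball (0 : Cn m) δ) : pe i e x ∈ ball (0 : Cn m) δ := by
  rw [mem_ball_zero_iff] at hx ⊢
  exact norm_pe_lt i e he hδ hδ1 hx

/-- orders on the chart of `L` and on the chart of `K` -/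
theorem ordK (Y : TChart H₁ H₂ R) {i₁ : Fin (ρ + a)} (hi : Y.i₀ = Fin.castAdd r i₁)
    {x : L} {k : ℤ} (h : Y.cL.Ord x k) {b₀ c₀ : ML.B} (hbc : (b₀ : L) = x * c₀)
    (hc₀ : ∀ ζ ∈ PD Y.δ (low (some Y.i₀)), Y.cL.s ζ c₀ ≠ 0) :
    Y.cK.Ord (algebraMap L K x) (Y.e₁ * k) := by
  obtain ⟨u, ⟨G, hG, hG0, hGu⟩, hu⟩ := h
  have hlow : low (some Y.i₀) = some i₁ := by rw [hi]; exact TCh_858.low_castAdd i₁
  have he := Y.e₁_pos.ne'
  have hbsmem : ∀ ζ ∈ ball (0 : Cn (ρ + a + r)) Y.δ, pe i₁ Y.e₁ (bs ζ) ∈ ball (0 : Cn (ρ + a)) Y.δ := by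
    intro ζ hζ
    apply pe_mem_PD Y.δ_pos Y.δ_lt.le he
    rw [mem_ball_zero_iff] at hζ ⊢
    exact (norm_bs_le ζ).trans_lt hζ
  have hpw : ∀ ζ : Cn (ρ + a + r), pw Y.e₁ (some Y.i₀) ζ = pe i₁ Y.e₁ (bs ζ) := by
    intro ζ
    rw [hi]
    exact pw_castAdd _ _ _
  have hPD : ∀ ζ ∈ PD Y.δ (some Y.i₀), pe i₁ Y.e₁ (bs ζ) ∈ PD Y.δ (low (some Y.i₀)) := by
    intro ζ hζ
    rw [hlow, mem_PD_some]
    refine ⟨hbsmem ζ (PD_sub hζ), ?_⟩
    rw [pe_self]
    have h2 := (mem_PD_some.1 hζ).2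
    rw [hi] at h2
    exact pow_ne_zero _ h2
  have hbsan : ∀ ζ : Cn (ρ + a + r), AnalyticAt ℂ (fun ζ : Cn (ρ + a + r) => bs ζ) ζ := by
    intro ζ
    rw [analyticAt_pi_iff]
    intro i
    exact (ContinuousLinearMap.proj (R := ℂ) (φ := fun _ : Fin (ρ + a + r) => ℂ)
      (Fin.castAdd r i)).analyticAt ζ
  refine ⟨fun ζ => u (pe i₁ Y.e₁ (bs ζ)), ⟨fun ζ => G (pe i₁ Y.e₁ (bs ζ)), ?_, ?_, ?_⟩, ?_⟩
  · intro ζ hζ
    have h1 : AnalyticAt ℂ (BR_590.pe i₁ Y.e₁) (bs ζ) := BR_590.analyticAt_pe i₁ Y.e₁ (bs ζ)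
    have h2 : AnalyticAt ℂ G (BR_590.pe i₁ Y.e₁ (bs ζ)) := hG _ (hbsmem ζ hζ)
    exact AnalyticAt.comp (g := G) (f := fun ζ => BR_590.pe i₁ Y.e₁ (bs ζ)) h2
      (AnalyticAt.comp (g := BR_590.pe i₁ Y.e₁) (f := fun ζ : Cn (ρ + a + r) => bs ζ) h1
        (hbsan ζ))
  · intro ζ hζ
    exact hG0 _ (hbsmem ζ hζ)
  · intro ζ hζ
    change u (pe i₁ Y.e₁ (bs ζ)) = _
    rw [hGu _ (hPD ζ hζ), hlow]
    congr 1
    change (pe i₁ Y.e₁ (bs ζ) i₁) ^ k = (ζ Y.i₀) ^ (Y.e₁ * k)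
    rw [pe_self, hi, zpow_mul, zpow_natCast]
    rfl
  · intro ζ hζ b c h1
    change Y.cK.s ζ b = u (pe i₁ Y.e₁ (bs ζ)) * Y.cK.s ζ c
    have hL : ∀ z : ML.B, Y.cK.s ζ (H₂.incl z) = Y.cL.s (pe i₁ Y.e₁ (bs ζ)) z := by
      intro z
      have h2 := Y.compL ζ hζ
      rw [hpw] at h2
      exact congrArg (fun f : ML.Pts => f z) h2
    have h2 := hu _ (hPD ζ hζ) b₀ c₀ hbc
    rw [← hL, ← hL] at h2
    have h3 : H₂.incl c₀ * b = H₂.incl b₀ * c := by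
      apply Subtype.ext
      change algebraMap L K (c₀ : L) * (b : K) = algebraMap L K (b₀ : L) * (c : K)
      rw [h1, hbc, map_mul]
      ring
    have h4 := congrArg (Y.cK.s ζ) h3
    rw [map_mul, map_mul, h2] at h4
    have h5 : Y.cK.s ζ (H₂.incl c₀) ≠ 0 := by
      rw [hL]
      exact hc₀ _ (hPD ζ hζ)
    apply mul_left_cancel₀ h5
    rw [h4]
    ring

/-- the index of the divisor coordinate if there is one on the chart of `L` -/
theorem exists_low {m r : ℕ} {i₀ : Fin (m + r)} {i₁ : Fin m} (h : low (some i₀) = some i₁) :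
    i₀ = Fin.castAdd r i₁ := by
  revert h
  refine Fin.addCases (fun i h => ?_) (fun i h => ?_) i₀
  · rw [TCh_858.low_castAdd] at h
    rw [Option.some.inj h]
  · rw [TCh_858.low_natAdd] at h
    exact absurd h (by simp)

/-- membership in the valuation ring of `L` from the order on the chart of `L` -/
theorem mem_iff_ord (Y : TChart H₁ H₂ R) {i₁ : Fin (ρ + a)} (hi : Y.i₀ = Fin.castAdd r i₁)
    {x : L} {k : ℤ} (h : Y.cL.Ord x k) {b₀ c₀ : ML.B} (hbc : (b₀ : L) = x * c₀)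
    (hc₀ : ∀ ζ ∈ PD Y.δ (low (some Y.i₀)), Y.cL.s ζ c₀ ≠ 0) :
    (x ∈ R.comap (algebraMap L K) ↔ 0 ≤ k) ∧ (x ≠ 0 → (x⁻¹ ∈ R.comap (algebraMap L K) ↔ k ≤ 0)) := by
  have h1 := ordK Y hi h hbc hc₀
  have he : (0 : ℤ) < Y.e₁ := by exact_mod_cast Y.e₁_pos
  refine ⟨?_, fun hx => ?_⟩
  · rw [ValuationSubring.mem_comap, Y.ordR _ _ h1]
    constructor
    · intro h2
      by_contra h3
      have h4 : k < 0 := not_le.1 h3
      have := mul_neg_of_pos_of_neg he h4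
      omega
    · intro h2
      positivity
  · have hx' : algebraMap L K x ≠ 0 := by
      rw [Ne, map_eq_zero]; exact hx
    have h2 := ord_inv hx' h1
    rw [ValuationSubring.mem_comap, map_inv₀, Y.ordR _ _ h2]
    constructor
    · intro h3
      by_contra h4
      have h5 : 0 < k := not_le.1 h4
      have := mul_pos he h5
      omega
    · intro h3
      have : (Y.e₁ : ℤ) * k ≤ 0 := mul_nonpos_of_nonneg_of_nonpos he.le h3
      omega

end tower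

end Crest.Agent.R276.TransE_231
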