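import Mathlib
import Crest.Agent.R276.TransE_231

/-!
# Row 276 (helper231), TRANS: tower charts and the boundary charts of `M_T`

`trans`: near every boundary point of a good tower chart (vertical case) the map to `M_T` factors
through one of 828's boundary charts, `|q₀| ~ |τ|^k`, `|jN| ≤ C |J|`.
-/

set_option autoImplicit false
set_option linter.unusedSectionVars false
set_option linter.style.haveILetI false

open Set Filter Topology Metric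

noncomputable section

namespace Crest.Agent.R276.Trans_231

open Crest.Agent.R271.Defs710 Crest.Agent.R271.Bd741 Crest.Agent.R271.Rd692
open Crest.Agent.R271.Alg255 (az)
open Crest.Agent.R276.Mod1_987 Crest.Agent.R276.SkelDefs_220
open Crest.Agent.R276.BC_986 Crest.Agent.R276.BR_590 Crest.Agent.R276.Bcq_828
open Crest.Agent.R276.CntDefs_857 (PS)
open Crest.Agent.R276.TCh_858 (PD_sub isOpen_PD mem_PD_some mem_PD_none pw_castAdd)
open Crest.Agent.R276.TransA_231 Crest.Agent.R276.TransB_231 Crest.Agent.R276.TransC_231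
open Crest.Agent.R276.TransD_231 Crest.Agent.R276.TransE_231

section jac

variable {d a : ℕ} {T L Lc : Type} [Field T] [Field L] [Field Lc] [Algebra ℂ T] [Algebra ℂ L]
  [Algebra ℂ Lc] [Algebra T L] [Algebra T Lc] [IsScalarTower ℂ T L]
  {D₁ : DivModel (d + 1) Lc} {MT : Mdl T (d + 1)} {ML : Mdl L (d + 1 + a)} {H₁ : Rel MT ML}
  {F₁ : Finset Lc} (R₁ : BD D₁ MT.B MT.z F₁)

/-- the Jacobian of the transversal coordinates along the factorisation -/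
theorem jac_eq {δ : ℝ} {i₀ : Option (Fin (d + 1 + a))} {X : AC ML δ i₀} (y : R₁.E)
    {Φ : Cn (d + 1 + a) → Cn (d + 1)} {η : Cn (d + 1 + a)} (hΦ : AnalyticAt ℂ Φ η)
    (hη : Φ η ∈ PS d (R₁.Q.r y))
    (h : ∀ᶠ x in 𝓝 η, H₁.f (X.s x) = R₁.P.σ y (Φ x)) :
    (fderiv ℂ (fun (x : Cn (d + 1)) (i : Fin (d + 1)) =>
      ML.pz (X.s (Fin.append x (fun k => η (Fin.natAdd (d + 1) k)))) (Fin.castAdd a i))
      (fun i => η (Fin.castAdd a i))).det =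
    (fderiv ℂ (R₁.P.ψ MT.z y) (Φ η)).det * ((fderiv ℂ Φ η).comp (inl (d + 1) a)).det := by
  set x₀ : Cn (d + 1) := fun i => η (Fin.castAdd a i) with hx₀
  set y₀ : Cn a := fun k => η (Fin.natAdd (d + 1) k) with hy₀
  have hcat : Fin.append x₀ y₀ = η := by
    funext i
    refine Fin.addCases (fun i => ?_) (fun i => ?_) i
    · rw [Fin.append_left]
    · rw [Fin.append_right]
  have hd : HasFDerivAt (fun x : Cn (d + 1) => (Fin.append x y₀ : Cn (d + 1 + a)))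
      (inl (d + 1) a) x₀ := by
    have h1 : (fun x : Cn (d + 1) => (Fin.append x y₀ : Cn (d + 1 + a))) =
        fun x => inl (d + 1) a x + inr (d + 1) a y₀ := by
      funext x; exact cat_eq x y₀
    rw [h1]
    exact (inl (d + 1) a).hasFDerivAt.add_const _
  have hΦd : HasFDerivAt Φ (fderiv ℂ Φ η) (Fin.append x₀ y₀) := by
    rw [hcat]; exact hΦ.differentiableAt.hasFDerivAt
  have hψ : HasFDerivAt (R₁.P.ψ MT.z y) (fderiv ℂ (R₁.P.ψ MT.z y) (Φ η))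
      (Φ (Fin.append x₀ y₀)) := by
    rw [hcat]; exact (R₁.P.analyticAt_ψ R₁.h0 MT.z hη).differentiableAt.hasFDerivAt
  have h1 : HasFDerivAt (fun x : Cn (d + 1) => R₁.P.ψ MT.z y (Φ (Fin.append x y₀)))
      ((fderiv ℂ (R₁.P.ψ MT.z y) (Φ η)).comp ((fderiv ℂ Φ η).comp (inl (d + 1) a))) x₀ :=
    HasFDerivAt.comp x₀ (g := R₁.P.ψ MT.z y) (f := fun x : Cn (d + 1) => Φ (Fin.append x y₀)) hψ
      (HasFDerivAt.comp x₀ (g := Φ) (f := fun x : Cn (d + 1) => (Fin.append x y₀ : Cn (d + 1 + a)))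
        hΦd hd)
  have h2 : (fun (x : Cn (d + 1)) (i : Fin (d + 1)) =>
      ML.pz (X.s (Fin.append x y₀)) (Fin.castAdd a i)) =ᶠ[𝓝 x₀]
      fun x => R₁.P.ψ MT.z y (Φ (Fin.append x y₀)) := by
    have h3 : Tendsto (fun x : Cn (d + 1) => (Fin.append x y₀ : Cn (d + 1 + a))) (𝓝 x₀) (𝓝 η) := by
      have := hd.continuousAt.tendsto
      rwa [hcat] at this
    filter_upwards [h3.eventually h] with x hx
    funext i
    have h4 := congrArg (fun f : MT.Pts => f (MT.z i)) hx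
    change H₁.f (X.s (Fin.append x y₀)) (MT.z i) = R₁.P.σ y (Φ (Fin.append x y₀)) (MT.z i) at h4
    change X.s (Fin.append x y₀) (ML.z (Fin.castAdd a i)) = _
    have h5 : H₁.incl (MT.z i) = ML.z (Fin.castAdd a i) := Subtype.ext (H₁.coord i).symm
    rw [← h5]
    exact h4
  rw [(h1.congr_of_eventuallyEq h2).fderiv]
  exact LinearMap.det_comp _ _

end jac

/-! ### the theorem -/

section main

variable {d a r : ℕ} {T L K Lc : Type} [Field T] [Field L] [Field K] [Field Lc] [Algebra ℂ T]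
  [Algebra ℂ L] [Algebra ℂ K] [Algebra ℂ Lc] [Algebra T L] [Algebra L K] [Algebra T Lc]
  [IsScalarTower ℂ T L] [IsScalarTower ℂ L K] {MT : Mdl T (d + 1)} {ML : Mdl L (d + 1 + a)}
  {MK : Mdl K (d + 1 + a + r)} (H₁ : Rel MT ML) (H₂ : Rel ML MK) (R : ValuationSubring K)
  (V : VData (d + 1) a T L) {D₁ : DivModel (d + 1) Lc} (j : V.D.A →ₐ[ℂ] D₁.A)

/-- **TRANS** -/
theorem trans (hV : V.D.ModelOf (R.comap (algebraMap L K))) (h0 : D₁.i₀ = 0)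
    (hw : ∀ i, D₁.w i = j (V.D.w (Fin.castAdd a (sw V i))))
    (hK : ∀ b : V.DL.A, algebraMap D₁.A Lc (j (V.ι b)) = algebraMap T Lc (algebraMap V.DL.A T b))
    {F₁ : Finset Lc} (R₁ : BD D₁ MT.B MT.z F₁)
    (hune : ∀ (y : R₁.E) (ζ : Cn (d + 1)), ζ ∈ ball (0 : Cn (d + 1)) (R₁.Q.r y) →
      R₁.Q.s y ζ (j V.u) ≠ 0) :
    ∃ FL : Finset L, (∀ f ∈ FL, f ≠ 0) ∧ ∀ Y : TChart H₁ H₂ R, Y.GoodL FL → ∃ k : ℕ, 0 < k ∧
      ∀ ζ₀ : Cn (d + 1 + a), ‖ζ₀‖ < Y.δ → tau (low (some Y.i₀)) ζ₀ = 0 →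
      ∃ (y : R₁.E) (C : ℝ), 0 < C ∧ ∀ᶠ η in 𝓝 ζ₀, η ∈ PD Y.δ (low (some Y.i₀)) →
        ∃ q ∈ PS d (R₁.Q.r y / 2), H₁.f (Y.cL.s η) = R₁.P.σ y q ∧
          ‖q 0‖ ≤ C * ‖tau (low (some Y.i₀)) η‖ ^ k ∧ ‖tau (low (some Y.i₀)) η‖ ^ k ≤ C * ‖q 0‖ ∧
          ‖Y.jN η‖ ≤ C * ‖(fderiv ℂ (R₁.P.ψ MT.z y) q).det‖ := by
  classical
  -- generators of `V.D.A`
  obtain ⟨Sg₀, hSg₀⟩ := V.D.ft.out
  set Sg : Finset V.D.A := Sg₀.filter (· ≠ 0) with hSgdef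
  have hSg : Algebra.adjoin ℂ (Sg : Set V.D.A) = ⊤ := by
    rw [← top_le_iff, ← hSg₀, Algebra.adjoin_le_iff]
    intro x hx
    by_cases h : x = 0
    · rw [h]; exact zero_mem _
    · exact Algebra.subset_adjoin (by rw [hSgdef]; simp [h]; exact hx)
  -- denominators
  obtain ⟨q, hq0, hq⟩ := exists_denom (A := ML.B) (B := V.D.A) L V.D.ft
  obtain ⟨vT, hvT0, hvT⟩ := exists_denom (A := V.DL.A) (B := MT.B) T MT.ft
  obtain ⟨kv, v, hv, hvTv⟩ := V.DL.exists_pow_mul vT hvT0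
  -- the polynomial `h`
  set hp : V.DL.A := MvPolynomial.aeval (fun k : Fin d => V.DL.w (sw V k.succ)) R₁.X.M.h with hhp
  have hpt : ¬ V.DL.t ∣ hp := by
    intro hdvd
    have h1 : D₁.t ∣ j (V.ι hp) := by
      obtain ⟨c, hc⟩ := hdvd
      rw [hc, map_mul, map_mul, V.ram, map_mul, map_pow, jj_t V j h0 hw]
      exact ((dvd_pow_self _ V.e_ne).mul_right _).mul_right _
    have h2 : R₁.X.ι (j (V.ι hp)) = 0 := (R₁.X.ι_eq_zero_iff _).2 h1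
    have h3 : R₁.X.ι (j (V.ι hp)) = az R₁.X.M.z R₁.X.M.h := by
      have h4 := MvPolynomial.comp_aeval_apply (f := fun k : Fin d => V.DL.w (sw V k.succ))
        ((R₁.X.ι.comp j).comp V.ι) R₁.X.M.h
      refine h4.trans ?_
      change _ = MvPolynomial.aeval R₁.X.M.z R₁.X.M.h
      congr 2
      funext k
      change R₁.X.ι (j (V.ι (V.DL.w (sw V k.succ)))) = _
      rw [jj_w V j hw (sw_ne V (Fin.succ_ne_zero k)), sw_sw, R₁.X.ι_w]
    rw [h3] at h2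
    exact R₁.X.M.h_unit.ne_zero h2
  -- the finite sets
  set S : Finset V.D.A := Sg ∪ {V.D.t, V.u, V.ι hp, V.ι v} with hS
  have hu0 : V.u ≠ 0 := fun h => V.u_nd (h ▸ dvd_zero _)
  have hιp : ¬ V.D.t ∣ V.ι hp := fun h => hpt (V.lies _ h)
  have hιv : ¬ V.D.t ∣ V.ι v := fun h => hv (V.lies _ h)
  have hS0 : ∀ s ∈ S, s ≠ 0 := by
    intro s hs
    simp only [hS, Finset.mem_union, Finset.mem_insert, Finset.mem_singleton] at hs
    rcases hs with hs | rfl | rfl | rfl | rfl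
    · rw [hSgdef, Finset.mem_filter] at hs
      exact hs.2
    · exact V.D.t_ne
    · exact hu0
    · exact fun h => hιp (h ▸ dvd_zero _)
    · exact fun h => hιv (h ▸ dvd_zero _)
  refine ⟨insert (q : L) (S.image (algebraMap V.D.A L)), ?_, fun Y hY => ?_⟩
  · intro f hf
    rw [Finset.mem_insert, Finset.mem_image] at hf
    rcases hf with rfl | ⟨s, hs, rfl⟩
    · exact fun h => hq0 (Subtype.ext h)
    · exact fun h => hS0 s hs (V.D.inj (by rw [h, map_zero]))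
  -- the case without divisor on the chart of `L`
  rcases Option.eq_none_or_eq_some (low (some Y.i₀)) with hlow | ⟨i₁, hlow⟩
  · refine ⟨1, one_pos, fun ζ₀ _ h => ?_⟩
    rw [hlow] at h
    exact absurd h one_ne_zero
  have hi : Y.i₀ = Fin.castAdd r i₁ := exists_low hlow
  obtain ⟨kq, hkq⟩ := hY (q : L) (Finset.mem_insert_self _ _)
  have hord : ∀ s ∈ S, ∃ k : ℤ, Y.cL.Ord (algebraMap V.D.A L s) k := fun s hs =>
    hY _ (Finset.mem_insert_of_mem (Finset.mem_image_of_mem _ hs))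
  have hq' : ∀ x : V.D.A, ∃ (m : ℕ) (b : ML.B), algebraMap V.D.A L x * (q : L) ^ m = b := hq
  have hqne : ∀ (m : ℕ), ∀ ζ ∈ PD Y.δ (low (some Y.i₀)), Y.cL.s ζ (q ^ m) ≠ 0 := by
    intro m ζ hζ
    rw [map_pow]
    exact pow_ne_zero _ (ord_ne hkq hζ)
  have hmem : ∀ s ∈ S, ∀ k : ℤ, Y.cL.Ord (algebraMap V.D.A L s) k →
      (algebraMap V.D.A L s ∈ R.comap (algebraMap L K) ↔ 0 ≤ k) ∧
      ((algebraMap V.D.A L s)⁻¹ ∈ R.comap (algebraMap L K) ↔ k ≤ 0) := by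
    intro s hs k hk
    obtain ⟨m, b, hb⟩ := hq' s
    have h1 := mem_iff_ord Y hi hk (b₀ := b) (c₀ := q ^ m) (by rw [← hb]; push_cast; ring)
      (hqne m)
    exact ⟨h1.1, h1.2 fun h => hS0 s hs (V.D.inj (by rw [h, map_zero]))⟩
  have hnn : ∀ s ∈ S, ∃ k : ℕ, Y.cL.Ord (algebraMap V.D.A L s) k := by
    intro s hs
    obtain ⟨k, hk⟩ := hord s hs
    obtain ⟨n, rfl⟩ := Int.eq_ofNat_of_zero_le (((hmem s hs k hk).1).1 (hV.mem s))
    exact ⟨n, hk⟩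
  have hun : ∀ s ∈ S, ¬ V.D.t ∣ s → Y.cL.Ord (algebraMap V.D.A L s) (0 : ℕ) := by
    intro s hs hst
    obtain ⟨k, hk⟩ := hnn s hs
    have h1 : (algebraMap V.D.A L s)⁻¹ ∈ R.comap (algebraMap L K) := by
      rw [← ValuationSubring.valuation_le_one_iff, map_inv₀, hV.unit s hst, inv_one]
    have h2 := ((hmem s hs k hk).2).1 h1
    have h3 : k = 0 := by omega
    rw [h3] at hk
    exact hk
  have htS : V.D.t ∈ S := by simp [hS]
  obtain ⟨k, hk⟩ := hnn _ htS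
  have hk0 : 0 < k := by
    rcases Nat.eq_zero_or_pos k with h | h
    · exfalso
      subst h
      have h1 := ((hmem _ htS _ hk).2).2 (by simp)
      rw [← ValuationSubring.valuation_le_one_iff, map_inv₀] at h1
      have h2 := hV.lt
      have h3 := hV.pos
      exact absurd h1 (not_le.2 ((one_lt_inv₀ h3).2 h2))
    · exact h
  refine ⟨k, hk0, fun ζ₀ hζ₀ hτ => ?_⟩
  have hζb : ζ₀ ∈ ball (0 : Cn (d + 1 + a)) Y.δ := by rw [mem_ball_zero_iff]; exact hζ₀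
  -- the extended points
  obtain ⟨P, hPan, hP⟩ := exists_ext (X := Y.cL) Y.δ_pos Sg hSg
    (fun g hg => hnn g (by rw [hS]; exact Finset.mem_union_left _ hg)) q hq' hkq
  obtain ⟨Gt, hGt, hGt0, hPt⟩ := ext_ord hPan hP hkq hq' hk
  have hval : ∀ s ∈ S, ¬ V.D.t ∣ s → P ζ₀ s ≠ 0 := by
    intro s hs hst
    obtain ⟨G, hG, hG0, hPs⟩ := ext_ord hPan hP hkq hq' (hun s hs hst)
    rw [hPs ζ₀ hζb, pow_zero, one_mul]
    exact hG0 ζ₀ hζb
  have ht0 : P ζ₀ V.D.t = 0 := by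
    rw [hPt ζ₀ hζb, hτ, zero_pow hk0.ne', zero_mul]
  have hu' : P ζ₀ V.u ≠ 0 := hval V.u (by simp [hS]) V.u_nd
  have hh' : P ζ₀ (V.ι hp) ≠ 0 := hval _ (by simp [hS]) hιp
  have hv' : P ζ₀ (V.ι v) ≠ 0 := hval _ (by simp [hS]) hιv
  have hcu : ∀ᶠ ζ in 𝓝 ζ₀, P ζ V.u ≠ 0 := (hPan V.u ζ₀ hζb).continuousAt.eventually_ne hu'
  have hcv : ∀ᶠ ζ in 𝓝 ζ₀, P ζ (V.ι v) ≠ 0 :=
    (hPan (V.ι v) ζ₀ hζb).continuousAt.eventually_ne hv'
  have hvev : ∀ᶠ ζ in 𝓝 ζ₀, P ζ V.D.t ≠ 0 → P ζ (V.ι vT) ≠ 0 := by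
    filter_upwards [hcu, hcv] with ζ h1 h2 h3
    rw [hvTv, map_mul, map_pow, V.ram, map_mul, map_pow, map_mul, map_pow]
    exact mul_ne_zero (pow_ne_zero _ (mul_ne_zero (pow_ne_zero _ h3) h1)) h2
  obtain ⟨y, Φ, κ, hΦan, hΦ0, hκan, hκ0, hΦκ, hfac⟩ := local_fac V j h0 hw hK R₁ hune hPan hP hkq
    hq' vT hvT hζb ht0 hu' hh' hvev
  have hr : 0 < R₁.Q.r y := R₁.Q.r_pos y
  -- the constants
  have hg0 : Gt ζ₀ * κ ζ₀ ≠ 0 := mul_ne_zero (hGt0 ζ₀ hζb) hκ0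
  have hgc : ContinuousAt (fun ζ => ‖Gt ζ * κ ζ‖) ζ₀ :=
    (((hGt ζ₀ hζb).mul hκan).continuousAt).norm
  have hg1 : ∀ᶠ ζ in 𝓝 ζ₀, ‖Gt ζ * κ ζ‖ < ‖Gt ζ₀ * κ ζ₀‖ + 1 :=
    hgc.eventually_lt_const (by linarith)
  have hg2 : ∀ᶠ ζ in 𝓝 ζ₀, ‖Gt ζ₀ * κ ζ₀‖ / 2 < ‖Gt ζ * κ ζ‖ :=
    hgc.eventually_const_lt (by have := norm_pos_iff.2 hg0; linarith)
  have hdc : ContinuousAt (fun ζ => ‖((fderiv ℂ Φ ζ).comp (inl (d + 1) a)).det‖) ζ₀ := by
    have h1 : ContinuousAt (fun ζ => fderiv ℂ Φ ζ) ζ₀ := hΦan.fderiv.continuousAt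
    have h2 : Continuous fun A : Cn (d + 1 + a) →L[ℂ] Cn (d + 1) => A.comp (inl (d + 1) a) :=
      continuous_id.clm_comp continuous_const
    have h3 : Continuous fun A : Cn (d + 1) →L[ℂ] Cn (d + 1) => A.det :=
      ContinuousLinearMap.continuous_det
    exact ((h3.comp h2).continuousAt.comp h1).norm
  have hd1 : ∀ᶠ ζ in 𝓝 ζ₀, ‖((fderiv ℂ Φ ζ).comp (inl (d + 1) a)).det‖ <
      ‖((fderiv ℂ Φ ζ₀).comp (inl (d + 1) a)).det‖ + 1 := hdc.eventually_lt_const (by linarith)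
  have hr2 : ∀ᶠ ζ in 𝓝 ζ₀, Φ ζ ∈ ball (0 : Cn (d + 1)) (R₁.Q.r y / 2) := by
    have h1 := hΦan.continuousAt.tendsto
    rw [hΦ0] at h1
    exact h1.eventually (ball_mem_nhds _ (by linarith))
  set g₀ := ‖Gt ζ₀ * κ ζ₀‖ with hg₀
  set m₀ := ‖((fderiv ℂ Φ ζ₀).comp (inl (d + 1) a)).det‖ with hm₀
  have hg₀p : 0 < g₀ := norm_pos_iff.2 hg0
  have hm₀p : 0 ≤ m₀ := norm_nonneg _
  refine ⟨y, (g₀ + 1) + 2 / g₀ + (m₀ + 1), by positivity, ?_⟩
  filter_upwards [hΦκ, hfac, hfac.eventually_nhds, hΦan.eventually_analyticAt, hg1, hg2, hd1, hr2]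
    with η h1 h2 h3 h4 h5 h6 h7 h8 hη
  have hPD : ∀ x ∈ PD Y.δ (low (some Y.i₀)), P x V.D.t ≠ 0 := by
    intro x hx
    rw [hPt x (PD_sub hx)]
    exact mul_ne_zero (pow_ne_zero _ (tau_ne hx)) (hGt0 x (PD_sub hx))
  have hfe : ∀ x, (x ∈ PD Y.δ (low (some Y.i₀)) → P x V.D.t ≠ 0 → Φ x ∈ PS d (R₁.Q.r y) ∧
      ∀ (b : MT.B) (b' : ML.B), (b' : L) = algebraMap T L b → Y.cL.s x b' = R₁.P.σ y (Φ x) b) →
      x ∈ PD Y.δ (low (some Y.i₀)) → H₁.f (Y.cL.s x) = R₁.P.σ y (Φ x) := by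
    intro x hx hxP
    ext b
    exact (hx hxP (hPD x hxP)).2 b (H₁.incl b) rfl
  obtain ⟨hPS, -⟩ := h2 hη (hPD η hη)
  have hτη : ‖Φ η 0‖ = ‖tau (low (some Y.i₀)) η‖ ^ k * ‖Gt η * κ η‖ := by
    rw [h1, hPt η (PD_sub hη), norm_mul, norm_mul, norm_pow, norm_mul]
    ring
  have hτ0 : 0 ≤ ‖tau (low (some Y.i₀)) η‖ ^ k := by positivity
  refine ⟨Φ η, ?_, hfe η h2 hη, ?_, ?_, ?_⟩
  · rw [mem_PS_iff (by linarith)]
    exact ⟨h8, ((mem_PS_iff hr).1 hPS).2⟩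
  · rw [hτη, mul_comm]
    refine mul_le_mul_of_nonneg_right ?_ hτ0
    have : 0 < 2 / g₀ := by positivity
    linarith
  · rw [hτη]
    have e1 : 1 ≤ (2 / g₀) * ‖Gt η * κ η‖ := by
      rw [div_mul_eq_mul_div, le_div_iff₀ hg₀p]
      linarith
    have e2 : (2 / g₀) * ‖Gt η * κ η‖ ≤ ((g₀ + 1) + 2 / g₀ + (m₀ + 1)) * ‖Gt η * κ η‖ := by
      refine mul_le_mul_of_nonneg_right ?_ (norm_nonneg _)
      linarith
    calc ‖tau (low (some Y.i₀)) η‖ ^ k = ‖tau (low (some Y.i₀)) η‖ ^ k * 1 := (mul_one _).symm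
      _ ≤ ‖tau (low (some Y.i₀)) η‖ ^ k * (((g₀ + 1) + 2 / g₀ + (m₀ + 1)) * ‖Gt η * κ η‖) :=
        mul_le_mul_of_nonneg_left (e1.trans e2) hτ0
      _ = _ := by ring
  · have h9 : Y.jN η = (fderiv ℂ (R₁.P.ψ MT.z y) (Φ η)).det *
        ((fderiv ℂ Φ η).comp (inl (d + 1) a)).det := by
      refine jac_eq (H₁ := H₁) R₁ y h4 hPS ?_
      filter_upwards [h3, isOpen_PD.mem_nhds hη] with x hx hxP
      exact hfe x hx hxP
    rw [h9, norm_mul, mul_comm]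
    refine mul_le_mul_of_nonneg_right ?_ (norm_nonneg _)
    have : 0 < 2 / g₀ := by positivity
    linarith

end main

end Crest.Agent.R276.Trans_231
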