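import Mathlib
import Crest.Agent.R276.Trans_231
import Crest.Agent.R276.C4LocB_327
import Crest.Agent.R276.LdPack_828

/-!
# Row 276 (helper231), TRANS in the literal form of 327 (`C4Loc_327.Trans`) for 828's package

`trans_LB`, `trans_LB'` (both inequalities between `‖q 0‖` and `‖τ‖ ^ k`), `exists_pack`.
-/

set_option autoImplicit false
set_option linter.unusedSectionVars false

open Set Filter Topology Metric MeasureTheory

noncomputable section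

namespace Crest.Agent.R276.TransF_231

open Crest.Agent.R271.Defs710 Crest.Agent.R271.Bd741 Crest.Agent.R271.Rd692
open Crest.Agent.R271.Ho51
open Crest.Agent.R276.Mod1_987
open Crest.Agent.R276.SkelDefs_220 hiding ModelOf
open Crest.Agent.R276.BC_986
open Crest.Agent.R276.BR_590 (VData)
open Crest.Agent.R276.Bcq_828
open Crest.Agent.R276.CntDefs_857
open Crest.Agent.R276.FKDefs_779 (IsDiv)
open Crest.Agent.R276.CInd_870 (rm)

variable {d a r : ℕ} {T L K : Type} [Field T] [Field L] [Field K] [Algebra ℂ T]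
  [Algebra ℂ L] [Algebra ℂ K] [Algebra T L] [Algebra L K]
  [IsScalarTower ℂ T L] [IsScalarTower ℂ L K] {MT : Mdl T (d + 1)} {ML : Mdl L (d + 1 + a)}
  {MK : Mdl K (d + 1 + a + r)} (H₁ : Rel MT ML) (H₂ : Rel ML MK) (R : ValuationSubring K)

section LBsec

variable {Lc : Type} [Field Lc] [Algebra ℂ Lc] [Algebra T Lc]
  {V : VData (d + 1) a T L} {D : DivModel (d + 1) Lc} {j : V.D.A →ₐ[ℂ] D.A}
  {F : Finset Lc} {FL : Finset L}

/-- **TRANS for 828's package**, with both inequalities -/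
theorem trans_LB' (hV : V.D.ModelOf (R.comap (algebraMap L K))) {c : Fin a → ℂ}
    (hM : Ld_828.MS V D j c) (P : Ld_828.LB (rm H₁) V D j F FL) (hu : j V.u ∈ P.bd.S)
    {μ : Measure MT.Pts} (hμ : IsLeb μ) :
    ∃ FL' : Finset L, (∀ f ∈ FL', f ≠ 0) ∧ ∀ Y : TChart H₁ H₂ R, Y.GoodL FL' → ∃ k : ℕ, 0 < k ∧
      ∀ ζ₀ : Cn (d + 1 + a), ‖ζ₀‖ < Y.δ → tau (low (some Y.i₀)) ζ₀ = 0 →
      ∃ (y : P.bd.E) (C : ℝ), 0 < C ∧ ∀ᶠ η in 𝓝 ζ₀, η ∈ PD Y.δ (low (some Y.i₀)) →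
        ∃ q ∈ PS d ((P.bd.dchart (fun _ => rfl) MT.ft hμ).r y / 2),
          H₁.f (Y.cL.s η) = (P.bd.dchart (fun _ => rfl) MT.ft hμ).σ y q ∧
          ‖q 0‖ ≤ C * ‖tau (low (some Y.i₀)) η‖ ^ k ∧ ‖tau (low (some Y.i₀)) η‖ ^ k ≤ C * ‖q 0‖ ∧
          ‖Y.jN η‖ ≤ C * ‖(P.bd.dchart (fun _ => rfl) MT.ft hμ).J y q‖ :=
  Trans_231.trans H₁ H₂ R V j hV hM.h0 hM.w_eq hM.base P.bd
    (fun y _ hζ => P.bd.Q.ne hu y hζ)

/-- **TRANS for 828's package**, the literal form of 327 -/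
theorem trans_LB (hV : V.D.ModelOf (R.comap (algebraMap L K))) {c : Fin a → ℂ}
    (hM : Ld_828.MS V D j c) (P : Ld_828.LB (rm H₁) V D j F FL) (hu : j V.u ∈ P.bd.S)
    {μ : Measure MT.Pts} (hμ : IsLeb μ) :
    C4Loc_327.Trans H₁ H₂ R (P.bd.dchart (fun _ => rfl) MT.ft hμ) := by
  obtain ⟨FL', h1, h2⟩ := trans_LB' H₁ H₂ R hV hM P hu hμ
  refine ⟨∅, FL', by simp, h1, fun Y _ _ hYL η₀ hη₀ ht => ?_⟩
  obtain ⟨k, -, h3⟩ := h2 Y hYL
  obtain ⟨y, C, hC, h4⟩ := h3 η₀ hη₀ ht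
  refine ⟨y, C, k, hC, h4.mono fun η h5 hη => ?_⟩
  obtain ⟨q, hq, h6, -, h7, h8⟩ := h5 hη
  exact ⟨q, hq, h6, h7, h8⟩

end LBsec

end Crest.Agent.R276.TransF_231
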