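import Mathlib
import Crest.Agent.R276.TransF_231
import Crest.Agent.R276.C4T_804
import Crest.Agent.R276.GrN_217

/-!
# Row 276 (helper231): the counting data `CDT` (804) of one divisorial valuation ring

`cdt_of`: assembles 828's package, 217's alternative, 327's lower bound and `trans_LB`.
-/

set_option autoImplicit false

open Set Filter Topology Metric MeasureTheory

noncomputable section

namespace Crest.Agent.R276.Cdt_231

open Crest.Agent.R271.Defs710 Crest.Agent.R271.Bd741 Crest.Agent.R271.Rd692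
open Crest.Agent.R271.Ho51
open Crest.Agent.R276.Ipc735
open Crest.Agent.R276.Mod1_987
open Crest.Agent.R276.SkelDefs_220 hiding ModelOf
open Crest.Agent.R276.CntDefs_857
open Crest.Agent.R276.FKDefs_779 (IsDiv)
open Crest.Agent.R276.LftDefs_327 (WD LD)
open Crest.Agent.R276.BdNf3_651 (eN)

variable {d a r : ℕ} {T L K : Type} [Field T] [Field L] [Field K] [Algebra ℂ T]
  [Algebra ℂ L] [Algebra ℂ K] [Algebra T L] [Algebra L K]
  [IsScalarTower ℂ T L] [IsScalarTower ℂ L K] {MT : Mdl T (d + 1)} {ML : Mdl L (d + 1 + a)}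

/-- **the counting data** along `R` with `R ∩ T ≠ T` -/
theorem cdt_of (H₁ : Rel MT ML) {MK : Mdl K (d + 1 + a + r)} (H₂ : Rel ML MK)
    {R : ValuationSubring K} (hR : IsDiv ℂ (d + 1 + a + r) R)
    (hT : ∃ c : T, algebraMap L K (algebraMap T L c) ∉ R) {N w : ℕ}
    {V : VHS (d + 1 + a) ML.Pts N w} {om : ML.Pts → Fin N → ℂ} (hH : HulB_606.HulS V om)
    {u : ML.B} {M0 : ℕ} {φ ψ : MT.Pts → ℝ}
    (hw : WD V om (fun x : ML.Pts => x u) M0 H₁.f (Fin.castAdd a) φ ψ)
    (hg : Wd_450.LG ML (VLevi_327.psi V om)) {ν : ℕ}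
    (hν : ∀ τ : MT.Pts, ∃ W : Submodule ℂ (Fin (d + 1) → ℂ), d + 1 ≤ Module.finrank ℂ W + ν ∧
      ∀ v ∈ W, Levi ψ τ v = 0) (n : ℕ) {μ : Measure MT.Pts} (hμ : IsLeb μ) :
    Nonempty (C4T_804.CDT μ φ (fun y => ((M0 * (eN N * n) : ℕ) : ℝ) * ψ y) ν H₁ H₂ R) := by
  have hu0 : (u : L) ≠ 0 := by
    intro h
    obtain ⟨x⟩ : Nonempty ML.Pts := inferInstance
    refine hw.une x ?_
    have h1 : u = 0 := Subtype.ext h
    rw [h1]
    exact map_zero x
  obtain ⟨V', hV, -, Lc, i1, i2, i3, i4, D, j, c, P, hM, hu⟩ := Ld_828.exists_div H₁ MK hR hT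
    {(u : L)} (by simpa using hu0)
  obtain ⟨⟨l, -⟩, A, hA⟩ := Ld_828.exists_ld_grow H₁ P hM V om hg u (Finset.mem_singleton_self _) hμ
  obtain ⟨k, halt, hlow⟩ := GrN_217.exists_alt hH hw l hν (DescG_327.WD.psi_Sm hw).continuous n
  exact ⟨{ E := P.bd.E
           D := P.bd.dchart (fun _ => rfl) MT.ft hμ
           k := k
           alt := halt
           low := hlow
           A := A
           grow := hA
           trans := TransF_231.trans_LB H₁ H₂ R hV hM P hu hμ }⟩

end Crest.Agent.R276.Cdt_231
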