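import Mathlib

/-!
# Row 276 (S0419): CLQ (helper886)

Finite dimensional Bergman inequality with a measurable weight: `v_1..v_n` functions on a measure
space, `wt : X → [0,∞]`, such that `∫ |∑ b_i v_i|² wt = 0` implies `∑ b_i v_i = 0` everywhere.
Then `|∑ b_i v_i(x)|² ≤ C (∑ |v_i(x)|²) ∫ |∑ b_i v_i|² wt` with `C < ∞` (no independence, the
integrals may be infinite).
-/

set_option autoImplicit false

open Set Filter Topology MeasureTheory
open scoped ENNReal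

noncomputable section

namespace Crest.Agent.R276.Clq_886

variable {X : Type*} [MeasurableSpace X] {μ : Measure X} {n : ℕ}

/-- `∑ b_i v_i` -/
def cb (v : Fin n → X → ℂ) (b : Fin n → ℂ) (x : X) : ℂ := ∑ i, b i * v i x

omit [MeasurableSpace X] in
lemma cb_add (v : Fin n → X → ℂ) (b c : Fin n → ℂ) (x : X) : cb v (b + c) x = cb v b x + cb v c x := by
  unfold cb
  rw [← Finset.sum_add_distrib]
  exact Finset.sum_congr rfl fun i _ => by rw [Pi.add_apply, add_mul]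

omit [MeasurableSpace X] in
lemma cb_smul (v : Fin n → X → ℂ) (t : ℂ) (b : Fin n → ℂ) (x : X) :
    cb v (t • b) x = t * cb v b x := by
  unfold cb
  rw [Finset.mul_sum]
  exact Finset.sum_congr rfl fun i _ => by rw [Pi.smul_apply, smul_eq_mul, mul_assoc]

omit [MeasurableSpace X] in
lemma continuous_cb (v : Fin n → X → ℂ) (x : X) : Continuous fun b => cb v b x := by
  unfold cb
  fun_prop

lemma measurable_cb {v : Fin n → X → ℂ} (hv : ∀ i, Measurable (v i)) (b : Fin n → ℂ) :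
    Measurable (cb v b) := by
  unfold cb
  exact Finset.measurable_sum _ fun i _ => (hv i).const_mul _

/-- the kernel -/
def ker (v : Fin n → X → ℂ) : Submodule ℂ (Fin n → ℂ) where
  carrier := {b | ∀ x, cb v b x = 0}
  add_mem' := fun {a b} ha hb x => by rw [cb_add, ha x, hb x, add_zero]
  zero_mem' := fun x => by simp [cb]
  smul_mem' := fun t b hb x => by rw [cb_smul, hb x, mul_zero]

omit [MeasurableSpace X] in
lemma mem_ker {v : Fin n → X → ℂ} {b : Fin n → ℂ} : b ∈ ker v ↔ ∀ x, cb v b x = 0 := Iff.rfl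

/-- the `L²` form -/
def qf (μ : Measure X) (v : Fin n → X → ℂ) (wt : X → ℝ≥0∞) (b : Fin n → ℂ) : ℝ≥0∞ :=
  ∫⁻ x, ‖cb v b x‖ₑ ^ 2 * wt x ∂μ

lemma qf_smul (v : Fin n → X → ℂ) (wt : X → ℝ≥0∞) (t : ℂ) (b : Fin n → ℂ) :
    qf μ v wt (t • b) = ‖t‖ₑ ^ 2 * qf μ v wt b := by
  unfold qf
  rw [← lintegral_const_mul' _ _ (ENNReal.pow_ne_top enorm_ne_top)]
  refine lintegral_congr fun x => ?_
  rw [cb_smul, enorm_mul, mul_pow, mul_assoc]

/-- positivity of the form on a complement of the kernel -/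
theorem exists_lower {v : Fin n → X → ℂ} (hv : ∀ i, Measurable (v i)) {wt : X → ℝ≥0∞}
    (hwt : Measurable wt) (hwt1 : ∀ x, wt x ≤ 1)
    (hz : ∀ b, qf μ v wt b = 0 → ∀ x, cb v b x = 0) {W : Submodule ℂ (Fin n → ℂ)}
    (hW : Disjoint (ker v) W) :
    ∃ c : ℝ≥0∞, 0 < c ∧ c ≠ ∞ ∧ ∀ b ∈ W, c * ‖b‖ₑ ^ 2 ≤ qf μ v wt b := by
  have key : ∃ k : ℕ, ∀ b ∈ W, ‖b‖ = 1 → ((k : ℝ≥0∞) + 1)⁻¹ ≤ qf μ v wt b := by
    by_contra hcon
    push Not at hcon
    choose b hbW hb1 hbq using hcon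
    have hcpt : IsCompact (Metric.sphere (0 : Fin n → ℂ) 1) := isCompact_sphere _ _
    obtain ⟨b₀, hb₀, φ, hφ, hlim⟩ := hcpt.tendsto_subseq (x := b) fun k => by
      rw [mem_sphere_zero_iff_norm]; exact hb1 k
    have hWc : IsClosed (W : Set (Fin n → ℂ)) := W.closed_of_finiteDimensional
    have hb₀W : b₀ ∈ W := hWc.mem_of_tendsto hlim (Eventually.of_forall fun k => hbW _)
    have hmeas : ∀ k, Measurable fun x => ‖cb v (b (φ k)) x‖ₑ ^ 2 * wt x := fun k =>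
      ((measurable_cb hv _).enorm.pow_const 2).mul hwt
    have hfatou := lintegral_liminf_le (μ := μ) (u := atTop) hmeas
    have hpt : ∀ x, liminf (fun k => ‖cb v (b (φ k)) x‖ₑ ^ 2 * wt x) atTop =
        ‖cb v b₀ x‖ₑ ^ 2 * wt x := by
      intro x
      apply Tendsto.liminf_eq
      have h1 : Tendsto (fun k => cb v (b (φ k)) x) atTop (𝓝 (cb v b₀ x)) :=
        ((continuous_cb v x).tendsto b₀).comp hlim
      have h2 : Tendsto (fun k => ‖cb v (b (φ k)) x‖ₑ ^ 2) atTop (𝓝 (‖cb v b₀ x‖ₑ ^ 2)) :=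
        ((ENNReal.continuous_pow 2).tendsto _).comp ((continuous_enorm.tendsto _).comp h1)
      exact ENNReal.Tendsto.mul_const h2 (Or.inr (ne_top_of_le_ne_top ENNReal.one_ne_top (hwt1 x)))
    simp only [hpt] at hfatou
    have hlim0 : liminf (fun k => qf μ v wt (b (φ k))) atTop = 0 := by
      apply Tendsto.liminf_eq
      refine tendsto_of_tendsto_of_tendsto_of_le_of_le (g := fun _ => 0)
        (h := fun k => ((φ k : ℝ≥0∞) + 1)⁻¹) tendsto_const_nhds ?_ (fun _ => bot_le)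
        (fun k => (hbq (φ k)).le)
      have h3 : Tendsto (fun k : ℕ => ((k : ℝ≥0∞) + 1)⁻¹) atTop (𝓝 0) := by
        have h4 : Tendsto (fun k : ℕ => (((k + 1 : ℕ) : ℝ≥0∞))⁻¹) atTop (𝓝 0) :=
          ENNReal.tendsto_inv_nat_nhds_zero.comp (tendsto_add_atTop_nat 1)
        simpa using h4
      exact h3.comp hφ.tendsto_atTop
    have hq0 : qf μ v wt b₀ = 0 := by
      have h5 : qf μ v wt b₀ ≤ liminf (fun k => qf μ v wt (b (φ k))) atTop := hfatou
      rw [hlim0] at h5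
      exact nonpos_iff_eq_zero.1 h5
    have h6 : b₀ ∈ ker v := hz b₀ hq0
    have h7 : b₀ = 0 := (Submodule.disjoint_def.1 hW) b₀ h6 hb₀W
    rw [mem_sphere_zero_iff_norm, h7, norm_zero] at hb₀
    exact zero_ne_one hb₀
  obtain ⟨k, hk⟩ := key
  refine ⟨((k : ℝ≥0∞) + 1)⁻¹, ENNReal.inv_pos.2 (ENNReal.add_ne_top.2
    ⟨ENNReal.natCast_ne_top k, ENNReal.one_ne_top⟩), ENNReal.inv_ne_top.2 (by simp), fun b hb => ?_⟩
  by_cases hb0 : b = 0
  · simp [hb0]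
  · have hn : 0 < ‖b‖ := norm_pos_iff.2 hb0
    set t : ℂ := ((‖b‖ : ℝ) : ℂ) with ht
    have ht0 : t ≠ 0 := by rw [ht]; exact_mod_cast hn.ne'
    have h1 := hk (t⁻¹ • b) (W.smul_mem _ hb) (by
      rw [norm_smul, norm_inv, ht, Complex.norm_real, norm_norm, inv_mul_cancel₀ hn.ne'])
    have h2 : b = t • (t⁻¹ • b) := by rw [smul_smul, mul_inv_cancel₀ ht0, one_smul]
    have h3 : ‖t‖ₑ = ‖b‖ₑ := by
      rw [← ofReal_norm, ← ofReal_norm, ht, Complex.norm_real, norm_norm]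
    conv_rhs => rw [h2, qf_smul, h3, mul_comm]
    exact mul_le_mul_left h1 _

/-- **CLQ**, form version -/
theorem exists_const {v : Fin n → X → ℂ} (hv : ∀ i, Measurable (v i)) {wt : X → ℝ≥0∞}
    (hwt : Measurable wt) (hz : ∀ b, qf μ v wt b = 0 → ∀ x, cb v b x = 0) :
    ∃ C : ℝ≥0∞, 0 < C ∧ C ≠ ∞ ∧ ∀ (b : Fin n → ℂ) (x : X),
      ‖cb v b x‖ₑ ^ 2 ≤ C * (∑ i, ‖v i x‖ₑ ^ 2) * qf μ v wt b := by
  set wt' : X → ℝ≥0∞ := fun x => min (wt x) 1 with hwt'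
  have hle : ∀ b, qf μ v wt' b ≤ qf μ v wt b := fun b =>
    lintegral_mono fun x => mul_le_mul_right (min_le_left _ _) _
  have hz' : ∀ b, qf μ v wt' b = 0 → ∀ x, cb v b x = 0 := by
    intro b hb
    apply hz
    unfold qf at hb ⊢
    have m1 : Measurable fun x => ‖cb v b x‖ₑ ^ 2 * wt x :=
      ((measurable_cb hv b).enorm.pow_const 2).mul hwt
    have m2 : Measurable fun x => ‖cb v b x‖ₑ ^ 2 * wt' x :=
      ((measurable_cb hv b).enorm.pow_const 2).mul (hwt.min measurable_const)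
    rw [lintegral_eq_zero_iff m1]
    rw [lintegral_eq_zero_iff m2] at hb
    filter_upwards [hb] with x hx
    simp only [Pi.zero_apply, mul_eq_zero] at hx ⊢
    rcases hx with h1 | h1
    · exact Or.inl h1
    · right
      rcases min_choice (wt x) 1 with h2 | h2
      · rw [← h2]; exact h1
      · have h3 : min (wt x) 1 = 0 := h1
        rw [h2] at h3
        exact absurd h3 one_ne_zero
  obtain ⟨W, hW⟩ := (ker v).exists_isCompl
  obtain ⟨c, hc0, hct, hc⟩ := exists_lower hv (hwt.min measurable_const)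
    (fun x => min_le_right _ _) hz' hW.disjoint
  refine ⟨(n + 1 : ℝ≥0∞) * c⁻¹, ?_, ?_, fun b x => ?_⟩
  · exact ENNReal.mul_pos (by simp) (ENNReal.inv_ne_zero.2 hct)
  · exact ENNReal.mul_ne_top (by simp) (ENNReal.inv_ne_top.2 hc0.ne')
  · have hbt : b ∈ ker v ⊔ W := by rw [hW.sup_eq_top]; exact Submodule.mem_top
    obtain ⟨b₁, hb₁, b₂, hb₂, rfl⟩ := Submodule.mem_sup.1 hbt
    have hcb : ∀ x, cb v (b₁ + b₂) x = cb v b₂ x := fun x => by rw [cb_add, hb₁ x, zero_add]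
    have hq : qf μ v wt (b₁ + b₂) = qf μ v wt b₂ := by
      unfold qf
      exact lintegral_congr fun x => by rw [hcb]
    rw [hcb, hq]
    have h1 : ‖cb v b₂ x‖ₑ ^ 2 ≤ (n : ℝ≥0∞) * ‖b₂‖ₑ ^ 2 * ∑ i, ‖v i x‖ₑ ^ 2 := by
      have h2 : ‖cb v b₂ x‖ ^ 2 ≤ (n : ℝ) * ‖b₂‖ ^ 2 * ∑ i, ‖v i x‖ ^ 2 := by
        have h3 : ‖cb v b₂ x‖ ≤ ∑ i, ‖b₂ i‖ * ‖v i x‖ := by
          unfold cb
          exact (norm_sum_le _ _).trans (le_of_eq (Finset.sum_congr rfl fun i _ => norm_mul _ _))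
        have h4 : ∑ i, ‖b₂ i‖ ^ 2 ≤ (n : ℝ) * ‖b₂‖ ^ 2 := by
          calc ∑ i, ‖b₂ i‖ ^ 2 ≤ ∑ _i : Fin n, ‖b₂‖ ^ 2 :=
                Finset.sum_le_sum fun i _ => pow_le_pow_left₀ (norm_nonneg _) (norm_le_pi_norm _ i) 2
            _ = _ := by rw [Finset.sum_const, Finset.card_univ, Fintype.card_fin, nsmul_eq_mul]
        calc ‖cb v b₂ x‖ ^ 2 ≤ (∑ i, ‖b₂ i‖ * ‖v i x‖) ^ 2 := by gcongr
          _ ≤ (∑ i, ‖b₂ i‖ ^ 2) * ∑ i, ‖v i x‖ ^ 2 := Finset.sum_mul_sq_le_sq_mul_sq _ _ _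
          _ ≤ _ := by gcongr
      have e : ∀ z : ℂ, ‖z‖ₑ ^ 2 = ENNReal.ofReal (‖z‖ ^ 2) := fun z => by
        rw [← ofReal_norm, ENNReal.ofReal_pow (norm_nonneg _)]
      have e' : ‖b₂‖ₑ ^ 2 = ENNReal.ofReal (‖b₂‖ ^ 2) := by
        rw [← ofReal_norm, ENNReal.ofReal_pow (norm_nonneg _)]
      simp only [e, e']
      rw [← ENNReal.ofReal_sum_of_nonneg (fun i _ => by positivity), ← ENNReal.ofReal_natCast,
        ← ENNReal.ofReal_mul (by positivity), ← ENNReal.ofReal_mul (by positivity)]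
      exact ENNReal.ofReal_le_ofReal h2
    have h5 := (hc b₂ hb₂).trans (hle b₂)
    have h6 : ‖b₂‖ₑ ^ 2 ≤ c⁻¹ * qf μ v wt b₂ := by
      rw [mul_comm, ← ENNReal.le_div_iff_mul_le (Or.inl hc0.ne') (Or.inl hct)] at h5
      rwa [ENNReal.div_eq_inv_mul] at h5
    calc ‖cb v b₂ x‖ₑ ^ 2 ≤ (n : ℝ≥0∞) * ‖b₂‖ₑ ^ 2 * ∑ i, ‖v i x‖ₑ ^ 2 := h1
      _ ≤ ((n : ℝ≥0∞) + 1) * (c⁻¹ * qf μ v wt b₂) * ∑ i, ‖v i x‖ₑ ^ 2 := by
          gcongr
          exact le_self_add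
      _ = _ := by ring

end Crest.Agent.R276.Clq_886
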