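import Mathlib

/-!
R276 (S0419), leaf by helper840: linear algebra for the curvature step of Part B (3).

* `exists_nil_bound`: for every `n` there is `c > 0` with
  `c * (∑ |A i j|²)² ≤ ∑ |(Aᴴ A - A Aᴴ) i j|²` for every nilpotent `A : Matrix (Fin n) (Fin n) ℂ`.
* `det_le_prod_diag`: Hadamard's inequality for positive semidefinite matrices.
-/

set_option autoImplicit false

open Matrix Finset
open scoped ComplexOrder

namespace Crest.Agent.R276.Nil_840

variable {n : ℕ}

/-- squared Frobenius norm -/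
noncomputable def fr (A : Matrix (Fin n) (Fin n) ℂ) : ℝ := ∑ i, ∑ j, ‖A i j‖ ^ 2

theorem fr_nonneg (A : Matrix (Fin n) (Fin n) ℂ) : 0 ≤ fr A :=
  Finset.sum_nonneg fun _ _ => Finset.sum_nonneg fun _ _ => by positivity

theorem fr_eq_zero {A : Matrix (Fin n) (Fin n) ℂ} (h : fr A = 0) : A = 0 := by
  ext i j
  have h1 := (Finset.sum_eq_zero_iff_of_nonneg (fun i _ =>
    Finset.sum_nonneg fun j _ => by positivity)).1 h i (Finset.mem_univ i)
  have h2 := (Finset.sum_eq_zero_iff_of_nonneg (fun j _ => by positivity)).1 h1 j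
    (Finset.mem_univ j)
  simpa using h2

theorem fr_smul (c : ℂ) (A : Matrix (Fin n) (Fin n) ℂ) : fr (c • A) = ‖c‖ ^ 2 * fr A := by
  unfold fr
  simp only [Matrix.smul_apply, smul_eq_mul, norm_mul, mul_pow, Finset.mul_sum]

theorem continuous_fr : Continuous (fr : Matrix (Fin n) (Fin n) ℂ → ℝ) := by
  unfold fr
  fun_prop

/-- A Hermitian matrix with a vanishing power is zero. -/
theorem herm_pow_eq_zero {B : Matrix (Fin n) (Fin n) ℂ} (hB : Bᴴ = B) :
    ∀ k : ℕ, B ^ (2 ^ k) = 0 → B = 0 := by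
  intro k
  induction k with
  | zero => intro h; simpa using h
  | succ k ih =>
    intro h
    apply ih
    have h1 : (B ^ (2 ^ k))ᴴ * B ^ (2 ^ k) = 0 := by
      rw [Matrix.conjTranspose_pow, hB, ← pow_add, ← two_mul, ← pow_succ']
      exact h
    exact Matrix.conjTranspose_mul_self_eq_zero.1 h1

theorem normal_nilpotent {A : Matrix (Fin n) (Fin n) ℂ} (hn : IsNilpotent A)
    (hc : Aᴴ * A = A * Aᴴ) : A = 0 := by
  obtain ⟨k, hk⟩ := hn
  have hB : (Aᴴ * A)ᴴ = Aᴴ * A := by
    rw [Matrix.conjTranspose_mul, Matrix.conjTranspose_conjTranspose]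
  have hcomm : Commute Aᴴ A := hc
  have h1 : (Aᴴ * A) ^ (2 ^ k) = 0 := by
    rw [hcomm.mul_pow]
    have : A ^ (2 ^ k) = 0 := pow_eq_zero_of_le (Nat.lt_two_pow_self).le hk
    rw [this, mul_zero]
  have h2 := herm_pow_eq_zero hB k h1
  exact Matrix.conjTranspose_mul_self_eq_zero.1 h2

theorem isNilpotent_iff_pow {A : Matrix (Fin n) (Fin n) ℂ} : IsNilpotent A ↔ A ^ n = 0 := by
  constructor
  · intro h
    have h1 : A.charpoly = Polynomial.X ^ (Fintype.card (Fin n)) :=
      Matrix.isNilpotent_charpoly_sub_pow_of_isNilpotent h |>.eq_zero |> sub_eq_zero.1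
    have h2 := Matrix.aeval_self_charpoly A
    rw [h1] at h2
    simpa using h2
  · intro h
    exact ⟨n, h⟩

/-- (NIL) the commutator of a nilpotent matrix with its adjoint controls the matrix. -/
theorem exists_nil_bound (n : ℕ) : ∃ c : ℝ, 0 < c ∧ ∀ A : Matrix (Fin n) (Fin n) ℂ,
    IsNilpotent A → c * fr A ^ 2 ≤ fr (Aᴴ * A - A * Aᴴ) := by
  classical
  set K : Set (Matrix (Fin n) (Fin n) ℂ) := {A | A ^ n = 0 ∧ fr A = 1} with hK
  have hclosed : IsClosed K := by
    apply IsClosed.inter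
    · exact isClosed_eq (by fun_prop) continuous_const
    · exact isClosed_eq continuous_fr continuous_const
  have hcomp : IsCompact K := by
    have hsub : K ⊆ Set.pi Set.univ (fun _ : Fin n => Set.pi Set.univ
        (fun _ : Fin n => Metric.closedBall (0 : ℂ) 1)) := by
      intro A hA i _ j _
      have h1 : ‖A i j‖ ^ 2 ≤ 1 := by
        rw [← hA.2]
        unfold fr
        exact (Finset.single_le_sum (f := fun j => ‖A i j‖ ^ 2) (fun _ _ => by positivity)
          (Finset.mem_univ j)).trans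
          (Finset.single_le_sum (f := fun i => ∑ j, ‖A i j‖ ^ 2)
            (fun _ _ => Finset.sum_nonneg fun _ _ => by positivity) (Finset.mem_univ i))
      have h2 : ‖A i j‖ ≤ 1 := by nlinarith [norm_nonneg (A i j)]
      simpa using h2
    have hc2 : IsCompact (Set.pi Set.univ (fun _ : Fin n => Set.pi Set.univ
        (fun _ : Fin n => Metric.closedBall (0 : ℂ) 1))) :=
      isCompact_univ_pi fun _ => isCompact_univ_pi fun _ => isCompact_closedBall 0 1
    exact hc2.of_isClosed_subset hclosed hsub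
  have hcont : Continuous fun A : Matrix (Fin n) (Fin n) ℂ => fr (Aᴴ * A - A * Aᴴ) :=
    continuous_fr.comp (by fun_prop)
  have key : ∃ c : ℝ, 0 < c ∧ ∀ A ∈ K, c ≤ fr (Aᴴ * A - A * Aᴴ) := by
    rcases K.eq_empty_or_nonempty with he | hne
    · exact ⟨1, one_pos, fun A hA => by rw [he] at hA; exact absurd hA (Set.notMem_empty A)⟩
    · obtain ⟨A0, hA0, hmin⟩ := hcomp.exists_isMinOn hne hcont.continuousOn
      refine ⟨fr (A0ᴴ * A0 - A0 * A0ᴴ), ?_, fun A hA => hmin hA⟩
      refine lt_of_le_of_ne (fr_nonneg _) ?_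
      intro h0
      have h1 := fr_eq_zero h0.symm
      have h2 : A0 = 0 := normal_nilpotent ⟨n, hA0.1⟩ (sub_eq_zero.1 h1)
      have h3 := hA0.2
      rw [h2] at h3
      simp [fr] at h3
  obtain ⟨c, hc, hcK⟩ := key
  refine ⟨c, hc, fun A hA => ?_⟩
  by_cases h0 : fr A = 0
  · rw [h0]
    simpa using fr_nonneg (Aᴴ * A - A * Aᴴ)
  · have hpos : 0 < fr A := lt_of_le_of_ne (fr_nonneg A) (Ne.symm h0)
    set t : ℝ := (Real.sqrt (fr A))⁻¹ with ht
    have ht2 : t ^ 2 = (fr A)⁻¹ := by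
      rw [ht, inv_pow, Real.sq_sqrt hpos.le]
    have hB : ((t : ℂ) • A) ∈ K := by
      refine ⟨?_, ?_⟩
      · rw [smul_pow, isNilpotent_iff_pow.1 hA, smul_zero]
      · rw [fr_smul]
        rw [Complex.norm_real, Real.norm_eq_abs, sq_abs, ht2, inv_mul_cancel₀ h0]
    have h1 := hcK _ hB
    have h2 : ((t : ℂ) • A)ᴴ * ((t : ℂ) • A) - ((t : ℂ) • A) * ((t : ℂ) • A)ᴴ
        = ((t ^ 2 : ℝ) : ℂ) • (Aᴴ * A - A * Aᴴ) := by
      rw [Matrix.conjTranspose_smul]
      simp only [Matrix.smul_mul, Matrix.mul_smul, smul_smul, smul_sub]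
      have : star (t : ℂ) = (t : ℂ) := Complex.conj_ofReal t
      rw [this]
      push_cast
      ring_nf
    rw [h2, fr_smul, Complex.norm_real, Real.norm_eq_abs, sq_abs, ht2] at h1
    have h3 : (fr A)⁻¹ ^ 2 * fr A ^ 2 = 1 := by
      field_simp
    nlinarith [fr_nonneg (Aᴴ * A - A * Aᴴ), sq_nonneg (fr A), mul_le_mul_of_nonneg_right h1 (sq_nonneg (fr A))]

/-- endomorphism version of (NIL) is obtained through an orthonormal basis; see `exists_nil_bound`. -/
theorem prod_le_one_of_sum {ι : Type*} (s : Finset ι) (l : ι → ℝ) (h0 : ∀ i ∈ s, 0 ≤ l i)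
    (hs : ∑ i ∈ s, l i ≤ s.card) : ∏ i ∈ s, l i ≤ 1 := by
  calc ∏ i ∈ s, l i ≤ ∏ i ∈ s, Real.exp (l i - 1) := by
        apply Finset.prod_le_prod h0
        intro i _
        have := Real.add_one_le_exp (l i - 1)
        linarith
    _ = Real.exp (∑ i ∈ s, (l i - 1)) := (Real.exp_sum s _).symm
    _ ≤ Real.exp 0 := by
        apply Real.exp_le_exp.2
        rw [Finset.sum_sub_distrib]
        simp only [Finset.sum_const, nsmul_eq_mul, mul_one]
        linarith
    _ = 1 := Real.exp_zero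

theorem det_le_prod_diag_of_posDef {P : Matrix (Fin n) (Fin n) ℂ} (hP : P.PosDef) :
    P.det.re ≤ ∏ i, (P i i).re := by
  classical
  have hd : ∀ i, 0 < (P i i).re := by
    intro i
    have h1 := hP.diag_pos (i := i)
    exact (Complex.pos_iff.1 h1).1
  have hdim : ∀ i, (P i i).im = 0 := by
    intro i
    have h1 := hP.diag_pos (i := i)
    exact (Complex.pos_iff.1 h1).2.symm
  set d : Fin n → ℝ := fun i => (Real.sqrt (P i i).re)⁻¹ with hdd
  have hdpos : ∀ i, 0 < d i := fun i => by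
    simp only [hdd]
    exact inv_pos.2 (Real.sqrt_pos.2 (hd i))
  have hd2 : ∀ i, d i ^ 2 * (P i i).re = 1 := by
    intro i
    simp only [hdd, inv_pow, Real.sq_sqrt (hd i).le]
    exact inv_mul_cancel₀ (hd i).ne'
  set D : Matrix (Fin n) (Fin n) ℂ := Matrix.diagonal fun i => (d i : ℂ) with hD
  have hDH : Dᴴ = D := by
    rw [hD, Matrix.diagonal_conjTranspose]
    congr 1
    ext i
    simp [Pi.star_apply]
  set Q : Matrix (Fin n) (Fin n) ℂ := Dᴴ * P * D with hQ
  have hQp : Q.PosSemidef := hP.posSemidef.conjTranspose_mul_mul_same D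
  have hQd : ∀ i, Q i i = 1 := by
    intro i
    rw [hQ, hDH, hD, Matrix.mul_diagonal, Matrix.diagonal_mul]
    apply Complex.ext
    · simp only [Complex.mul_re, Complex.ofReal_re, Complex.ofReal_im, zero_mul, sub_zero,
        Complex.mul_im, add_zero, mul_zero, Complex.one_re, hdim i]
      nlinarith [hd2 i]
    · simp [Complex.mul_re, Complex.mul_im, hdim i]
  have htr : Q.trace = (n : ℂ) := by
    simp [Matrix.trace, Matrix.diag, hQd]
  have hQH := hQp.isHermitian
  have hdetQ : Q.det.re ≤ 1 := by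
    rw [hQH.det_eq_prod_eigenvalues]
    have h1 : (∏ i, ((hQH.eigenvalues i : ℝ) : ℂ)) = ((∏ i, hQH.eigenvalues i : ℝ) : ℂ) := by
      push_cast; rfl
    have h2 : (∏ i, ((hQH.eigenvalues i : ℝ) : ℂ)).re = ∏ i, hQH.eigenvalues i := by
      rw [h1, Complex.ofReal_re]
    have h3 : ∏ i, hQH.eigenvalues i ≤ 1 := by
      apply prod_le_one_of_sum Finset.univ _ (fun i _ => hQp.eigenvalues_nonneg i)
      have h4 := hQH.trace_eq_sum_eigenvalues
      rw [htr] at h4
      have h5 : ((∑ i, hQH.eigenvalues i : ℝ) : ℂ) = (n : ℂ) := by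
        push_cast; exact h4.symm
      have h6 : (∑ i, hQH.eigenvalues i : ℝ) = n := by exact_mod_cast h5
      rw [h6]
      simp
    calc _ = ∏ i, hQH.eigenvalues i := h2
      _ ≤ 1 := h3
  have hdet : Q.det = ((∏ i, d i ^ 2 : ℝ) : ℂ) * P.det := by
    rw [hQ, hDH, Matrix.det_mul, Matrix.det_mul, hD, Matrix.det_diagonal]
    push_cast
    rw [Finset.prod_pow]
    ring
  have hpp : (∏ i, d i ^ 2) * ∏ i, (P i i).re = 1 := by
    rw [← Finset.prod_mul_distrib]
    exact Finset.prod_eq_one fun i _ => hd2 i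
  have h7 : Q.det.re = (∏ i, d i ^ 2) * P.det.re := by
    rw [hdet, Complex.re_ofReal_mul]
  have hdp : 0 < ∏ i, d i ^ 2 := Finset.prod_pos fun i _ => by have := hdpos i; positivity
  have h8 : (∏ i, d i ^ 2) * P.det.re ≤ (∏ i, d i ^ 2) * ∏ i, (P i i).re := by
    rw [hpp, ← h7]; exact hdetQ
  exact le_of_mul_le_mul_left h8 hdp

/-- (HAD) Hadamard's inequality for positive semidefinite matrices. -/
theorem det_le_prod_diag {P : Matrix (Fin n) (Fin n) ℂ} (hP : P.PosSemidef) :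
    P.det.re ≤ ∏ i, (P i i).re := by
  have h : ∀ e : ℝ, 0 < e → (P + (e : ℂ) • (1 : Matrix (Fin n) (Fin n) ℂ)).det.re ≤
      ∏ i, ((P + (e : ℂ) • (1 : Matrix (Fin n) (Fin n) ℂ)) i i).re := by
    intro e he
    apply det_le_prod_diag_of_posDef
    apply Matrix.PosDef.posSemidef_add hP
    exact Matrix.PosDef.one.smul (by exact_mod_cast he)
  have hc1 : Continuous fun e : ℝ => (P + (e : ℂ) • (1 : Matrix (Fin n) (Fin n) ℂ)).det.re := by
    fun_prop
  have hc2 : Continuous fun e : ℝ =>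
      ∏ i, ((P + (e : ℂ) • (1 : Matrix (Fin n) (Fin n) ℂ)) i i).re := by
    simp only [Matrix.add_apply, Matrix.smul_apply]
    fun_prop
  have h1 := ge_of_tendsto' (f := fun k : ℕ => ∏ i, ((P + ((((1:ℝ)/(k+1) : ℝ)) : ℂ) •
      (1 : Matrix (Fin n) (Fin n) ℂ)) i i).re - (P + ((((1:ℝ)/(k+1) : ℝ)) : ℂ) •
      (1 : Matrix (Fin n) (Fin n) ℂ)).det.re) (b := 0) (x := Filter.atTop)
      (a := ∏ i, ((P + (((0 : ℝ)) : ℂ) • (1 : Matrix (Fin n) (Fin n) ℂ)) i i).re -
        (P + (((0 : ℝ)) : ℂ) • (1 : Matrix (Fin n) (Fin n) ℂ)).det.re)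
      (((hc2.sub hc1).tendsto 0).comp tendsto_one_div_add_atTop_nhds_zero_nat)
      (fun k => sub_nonneg.2 (h _ (by positivity)))
  simp only [Complex.ofReal_zero, zero_smul, add_zero] at h1
  linarith

end Crest.Agent.R276.Nil_840
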