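import Mathlib
import Crest.Agent.R276.Aue_999
import Crest.Agent.R276.Nil_840

/-!
# R276 DETB (helper606): uniform equivalence of the CY metric `∫ |det σ_i(x_j)|^p` and `det H`

`X` measure space, `0 < p ≤ 1`, `σ : Fin s → X → ℂ` measurable,
`Φ c = ∫⁻ ‖∑ c_i σ_i‖^p`.

* `upper` : `Φ e_i ≤ 1` for all `i` implies `∫ |det σ_i(x_j)|^p ≤ s!`
* `lower` : `|c_i|^p ≤ Φ c` for all `c, i` implies `1 ≤ ∫ |det σ_i(x_j)|^p`
* `exists_auerbach` : existence of Auerbach bases for a continuous `p`-homogeneous definite function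
* `detB` : for every linearly independent family and every Hermitian form `H` with
  `H ≤ Φ^N ≤ s^(N-1) H`, `p N = 2`:
  `det Gram ≤ (∫ |det|^p)^N ≤ (s!)^N s^(N s) det Gram`.
-/

set_option autoImplicit false

open MeasureTheory ENNReal Finset
open scoped ComplexOrder

namespace Crest.Agent.R276.DetB_606

variable {X : Type*} [MeasurableSpace X]

/-- subadditivity of `t ↦ t^p`, `0 < p ≤ 1`, for finite sums -/
theorem rpow_sum_le {ι : Type*} (s : Finset ι) (f : ι → ℝ≥0∞) {p : ℝ} (hp : 0 < p) (hp1 : p ≤ 1) :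
    (∑ i ∈ s, f i) ^ p ≤ ∑ i ∈ s, f i ^ p := by
  classical
  induction s using Finset.induction_on with
  | empty => simp [hp]
  | insert a s ha ih =>
    rw [Finset.sum_insert ha, Finset.sum_insert ha]
    exact (ENNReal.rpow_add_le_add_rpow _ _ hp.le hp1).trans (add_le_add le_rfl ih)

/-- the CY norm -/
noncomputable def DD (μ : Measure X) (p : ℝ) {s : ℕ} (σ : Fin s → X → ℂ) : ℝ≥0∞ :=
  ∫⁻ x : Fin s → X, ‖Matrix.det (Matrix.of fun i j => σ i (x j))‖ₑ ^ p ∂(Measure.pi fun _ => μ)

/-- the `L^p` functional on the span of `σ` -/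
noncomputable def Phi (μ : Measure X) (p : ℝ) {s : ℕ} (σ : Fin s → X → ℂ) (c : Fin s → ℂ) : ℝ≥0∞ :=
  ∫⁻ x, ‖∑ i, c i * σ i x‖ₑ ^ p ∂μ

theorem lintegral_succ {μ : Measure X} [SigmaFinite μ] {n : ℕ} {F : (Fin (n + 1) → X) → ℝ≥0∞}
    (hF : Measurable F) :
    ∫⁻ x, F x ∂(Measure.pi fun _ => μ) =
      ∫⁻ y : Fin n → X, ∫⁻ x, F (Fin.cons x y) ∂μ ∂(Measure.pi fun _ => μ) := by
  have h := (measurePreserving_piFinSuccAbove (fun _ : Fin (n + 1) => μ) 0).symm
  rw [← h.lintegral_comp hF, lintegral_prod_symm]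
  · refine lintegral_congr fun y => lintegral_congr fun x => ?_
    congr 1
    simp [MeasurableEquiv.piFinSuccAbove, Fin.insertNthEquiv]
  · exact (hF.comp (MeasurableEquiv.measurable _)).aemeasurable

theorem lintegral_prod_eq {μ : Measure X} [SigmaFinite μ] {n : ℕ} {g : Fin n → X → ℝ≥0∞}
    (hg : ∀ i, Measurable (g i)) :
    ∫⁻ x : Fin n → X, ∏ i, g i (x i) ∂(Measure.pi fun _ => μ) = ∏ i, ∫⁻ x, g i x ∂μ := by
  induction n with
  | zero => simp [lintegral_unique]
  | succ n ih =>
    rw [lintegral_succ]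
    · simp only [Fin.prod_univ_succ, Fin.cons_zero, Fin.cons_succ]
      rw [← ih (fun i => hg i.succ), mul_comm, ← lintegral_mul_const]
      · refine lintegral_congr fun y => ?_
        rw [lintegral_mul_const _ (hg 0), mul_comm]
      · exact Finset.measurable_prod _ fun i _ => (hg i.succ).comp (measurable_pi_apply i)
    · exact Finset.measurable_prod _ fun i _ => (hg i).comp (measurable_pi_apply i)


theorem measurable_det {n : ℕ} {σ : Fin n → X → ℂ} (hσ : ∀ i, Measurable (σ i)) :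
    Measurable fun x : Fin n → X => Matrix.det (Matrix.of fun i j => σ i (x j)) := by
  simp only [Matrix.det_apply]
  refine Finset.measurable_sum _ fun π _ => Measurable.const_smul ?_ _
  refine Finset.measurable_prod _ fun i _ => ?_
  exact (hσ (π i)).comp (measurable_pi_apply i)

theorem enorm_prod' {ι : Type*} (s : Finset ι) (f : ι → ℂ) :
    ‖∏ i ∈ s, f i‖ₑ = ∏ i ∈ s, ‖f i‖ₑ := by
  classical
  induction s using Finset.induction_on with
  | empty => simp
  | insert a s ha ih => rw [Finset.prod_insert ha, Finset.prod_insert ha, enorm_mul, ih]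

/-- upper bound -/
theorem upper {μ : Measure X} [SigmaFinite μ] {p : ℝ} (hp : 0 < p) (hp1 : p ≤ 1) {s : ℕ}
    {σ : Fin s → X → ℂ} (hσ : ∀ i, Measurable (σ i)) (h1 : ∀ i, ∫⁻ x, ‖σ i x‖ₑ ^ p ∂μ ≤ 1) :
    DD μ p σ ≤ (s.factorial : ℝ≥0∞) := by
  have key : ∀ x : Fin s → X, ‖Matrix.det (Matrix.of fun i j => σ i (x j))‖ₑ ^ p ≤
      ∑ π : Equiv.Perm (Fin s), ∏ j, ‖σ (π j) (x j)‖ₑ ^ p := by
    intro x
    rw [Matrix.det_apply]
    refine (ENNReal.rpow_le_rpow (enorm_sum_le _ _) hp.le).trans ?_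
    refine (rpow_sum_le _ _ hp hp1).trans (Finset.sum_le_sum fun π _ => ?_)
    have : ‖Equiv.Perm.sign π • ∏ i, Matrix.of (fun i j => σ i (x j)) (π i) i‖ₑ =
        ∏ j, ‖σ (π j) (x j)‖ₑ := by
      rcases Int.units_eq_one_or (Equiv.Perm.sign π) with h | h <;> rw [h] <;>
        simp [enorm_prod']
    rw [this]
    exact le_of_eq (ENNReal.prod_rpow_of_nonneg hp.le).symm
  refine (lintegral_mono key).trans ?_
  rw [lintegral_finsetSum]
  · have : ∀ π ∈ (Finset.univ : Finset (Equiv.Perm (Fin s))),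
        ∫⁻ x : Fin s → X, ∏ j, ‖σ (π j) (x j)‖ₑ ^ p ∂(Measure.pi fun _ => μ) ≤ 1 := by
      intro π _
      rw [lintegral_prod_eq (fun i => (hσ (π i)).enorm.pow_const p)]
      exact Finset.prod_le_one' fun i _ => h1 (π i)
    refine (Finset.sum_le_sum this).trans ?_
    simp [Fintype.card_perm]
  · intro π _
    exact Finset.measurable_prod _ fun i _ =>
      ((hσ (π i)).comp (measurable_pi_apply i)).enorm.pow_const p

/-- lower bound -/
theorem lower {μ : Measure X} [SigmaFinite μ] {p : ℝ} {s : ℕ}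
    {σ : Fin s → X → ℂ} (hσ : ∀ i, Measurable (σ i))
    (hA : ∀ (c : Fin s → ℂ) (i : Fin s), ‖c i‖ₑ ^ p ≤ Phi μ p σ c) :
    1 ≤ DD μ p σ := by
  induction s with
  | zero => simp [DD, lintegral_unique]
  | succ n ih =>
    have hσ' : ∀ i : Fin n, Measurable (σ i.castSucc) := fun i => hσ _
    have hA' : ∀ (c : Fin n → ℂ) (i : Fin n),
        ‖c i‖ₑ ^ p ≤ Phi μ p (fun i : Fin n => σ i.castSucc) c := by
      intro c i
      have h := hA (Fin.snoc (α := fun _ => ℂ) c 0) i.castSucc
      simp only [Fin.snoc_castSucc] at h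
      refine h.trans (le_of_eq ?_)
      unfold Phi
      refine lintegral_congr fun x => ?_
      rw [Fin.sum_univ_castSucc]
      simp
    refine (ih hσ' hA').trans ?_
    unfold DD
    rw [lintegral_succ ((measurable_det hσ).enorm.pow_const p)]
    refine lintegral_mono fun y => ?_
    -- expand along the first column
    set c : Fin (n + 1) → ℂ := fun i => (-1) ^ (i : ℕ) *
      Matrix.det (Matrix.of fun k j => σ (i.succAbove k) (y j)) with hc
    have h1 : ∀ x, Matrix.det (Matrix.of fun i j => σ i ((Fin.cons x y : Fin (n + 1) → X) j)) =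
        ∑ i, c i * σ i x := by
      intro x
      rw [Matrix.det_succ_column_zero]
      refine Finset.sum_congr rfl fun i _ => ?_
      simp only [Matrix.of_apply, Fin.cons_zero, hc]
      have : (Matrix.of fun i j => σ i ((Fin.cons x y : Fin (n + 1) → X) j)).submatrix
          i.succAbove Fin.succ = Matrix.of fun k j => σ (i.succAbove k) (y j) := by
        ext k j
        simp
      rw [this]
      ring
    simp only [h1]
    refine le_trans (le_of_eq ?_) (hA c (Fin.last n))
    congr 1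
    simp only [hc, enorm_mul, Fin.succAbove_last]
    simp


section main

open Module

variable {V : Type*} [NormedAddCommGroup V] [NormedSpace ℂ V] [FiniteDimensional ℂ V]

/-- change of basis for `DD` -/
theorem DD_mul {μ : Measure X} {p : ℝ} (hp : 0 ≤ p) {n : ℕ} (σ τ : Fin n → X → ℂ)
    (A : Matrix (Fin n) (Fin n) ℂ) (h : ∀ i x, τ i x = ∑ j, A i j * σ j x) :
    DD μ p τ = ‖A.det‖ₑ ^ p * DD μ p σ := by
  unfold DD
  rw [← lintegral_const_mul' _ _ (ENNReal.rpow_ne_top_of_nonneg hp (by simp))]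
  refine lintegral_congr fun x => ?_
  rw [← ENNReal.mul_rpow_of_nonneg _ _ hp, ← enorm_mul, ← Matrix.det_mul]
  congr 3
  ext i j
  simp [Matrix.mul_apply, h]

/-- **DETB**: the metrics `(∫ |det σ_i(x_j)|^(2/N))^N` and `det H` on `det V` are equivalent with
explicit constants depending only on `n = dim V` and `N`. -/
theorem detB {n : ℕ} (hn : finrank ℂ V = n) (ev : X → V →ₗ[ℂ] ℂ)
    (hev : ∀ v, Measurable fun x => ev x v) {μ : Measure X} [SigmaFinite μ] {N : ℕ} (hN : 2 ≤ N)
    (Φ : V → ℝ) (hΦ : ∀ v, ∫⁻ x, ‖ev x v‖ₑ ^ (2 / N : ℝ) ∂μ = ENNReal.ofReal (Φ v))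
    (hcont : Continuous Φ) (hpos : ∀ v, v ≠ 0 → 0 < Φ v)
    (H : V →ₗ⋆[ℂ] V →ₗ[ℂ] ℂ) (hH : ∀ v w, star (H v w) = H w v)
    (hN0 : ∀ v, (H v v).re ≤ Φ v ^ N) (hN1 : ∀ v, Φ v ^ N ≤ (n : ℝ) ^ (N - 1) * (H v v).re)
    (e : Fin n → V) :
    DD μ (2 / N) (fun i x => ev x (e i)) ≠ ⊤ ∧
      (Matrix.det (Matrix.of fun i j => H (e i) (e j))).re ≤
        (DD μ (2 / N) (fun i x => ev x (e i))).toReal ^ N ∧
      (DD μ (2 / N) (fun i x => ev x (e i))).toReal ^ N ≤
        (n.factorial : ℝ) ^ N * (n : ℝ) ^ (N * n) *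
          (Matrix.det (Matrix.of fun i j => H (e i) (e j))).re := by
  classical
  have hNpos : (0 : ℝ) < N := by positivity
  set p : ℝ := 2 / N with hp
  have hp0 : 0 < p := by positivity
  have hp1 : p ≤ 1 := by
    rw [hp, div_le_one hNpos]
    exact_mod_cast hN
  have hpN : p * N = 2 := by
    rw [hp]; field_simp
  -- homogeneity
  have h0 : Φ 0 ≤ 0 := by
    have h1 := hΦ 0
    simp only [map_zero, enorm_zero, ENNReal.zero_rpow_of_pos hp0, lintegral_zero] at h1
    exact ENNReal.ofReal_eq_zero.1 h1.symm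
  have hcont0 : 0 ≤ Φ 0 := by
    by_contra hneg
    push Not at hneg
    -- `Φ` is continuous and positive outside `0`
    by_cases hV : ∃ v : V, v ≠ 0
    · obtain ⟨v, hv⟩ := hV
      have ht : Filter.Tendsto (fun t : ℝ => Φ ((t : ℂ) • v)) (nhdsWithin 0 (Set.Ioi 0))
          (nhds (Φ 0)) := by
        have h1 : Continuous fun t : ℝ => Φ ((t : ℂ) • v) :=
          hcont.comp (Complex.continuous_ofReal.smul continuous_const)
        have h2 := h1.tendsto 0
        simp only [Complex.ofReal_zero, zero_smul] at h2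
        exact h2.mono_left nhdsWithin_le_nhds
      have h3 : 0 ≤ Φ 0 := by
        refine ge_of_tendsto ht ?_
        filter_upwards [self_mem_nhdsWithin] with t ht'
        refine (hpos _ ?_).le
        simp only [ne_eq, smul_eq_zero, Complex.ofReal_eq_zero, not_or]
        exact ⟨(ne_of_gt ht'), hv⟩
      linarith
    · push Not at hV
      have h1 := hN1 0
      simp only [map_zero, Complex.zero_re, mul_zero] at h1
      have h2 := hN0 0
      simp only [map_zero, Complex.zero_re] at h2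
      have h3 : Φ 0 ^ N = 0 := le_antisymm h1 h2
      have h4 : Φ 0 = 0 := pow_eq_zero_iff (by omega) |>.1 h3
      linarith
  have hnn : ∀ v, 0 ≤ Φ v := by
    intro v
    by_cases hv : v = 0
    · rw [hv]; exact hcont0
    · exact (hpos v hv).le
  have hhom : ∀ (c : ℂ) (v : V), Φ (c • v) = ‖c‖ ^ p * Φ v := by
    intro c v
    have h1 : ENNReal.ofReal (Φ (c • v)) = ENNReal.ofReal (‖c‖ ^ p * Φ v) := by
      rw [← hΦ, ENNReal.ofReal_mul (by positivity), ← hΦ,
        ← ENNReal.ofReal_rpow_of_nonneg (norm_nonneg _) hp0.le, ofReal_norm,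
        ← lintegral_const_mul' _ _ (ENNReal.rpow_ne_top_of_nonneg hp0.le (by simp))]
      refine lintegral_congr fun x => ?_
      rw [map_smul, smul_eq_mul, enorm_mul, ENNReal.mul_rpow_of_nonneg _ _ hp0.le]
    exact (ENNReal.ofReal_eq_ofReal_iff (hnn _) (by have := hnn v; positivity)).1 h1
  -- Auerbach basis
  obtain ⟨b0, hb1', hb2'⟩ := Aue_999.exists_auerbach Φ hcont hpos p hp0 hhom
  let b : Basis (Fin n) ℂ V := b0.reindex (finCongr hn)
  have hb1 : ∀ i, Φ (b i) ≤ 1 := by
    intro i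
    simp only [b, Basis.reindex_apply]
    exact hb1' _
  have hb2 : ∀ v, Φ v ≤ 1 → ∀ i, ‖b.repr v i‖ ≤ 1 := by
    intro v hv i
    simp only [b, Basis.repr_reindex_apply]
    exact hb2' v hv _
  have hb3 : ∀ v i, ‖b.repr v i‖ ^ p ≤ Φ v := by
    intro v i
    by_cases hv : v = 0
    · simp [hv, Real.zero_rpow hp0.ne', hcont0]
    have hv' := hpos v hv
    set t : ℝ := (Φ v) ^ (-(1 / p)) with ht
    have htpos : 0 < t := Real.rpow_pos_of_pos hv' _
    have htp : t ^ p = (Φ v)⁻¹ := by
      rw [ht, ← Real.rpow_mul hv'.le]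
      have : -(1 / p) * p = -1 := by field_simp
      rw [this, Real.rpow_neg_one]
    have h1 : Φ ((t : ℂ) • v) ≤ 1 := by
      rw [hhom, Complex.norm_real, Real.norm_of_nonneg htpos.le, htp, inv_mul_cancel₀ hv'.ne']
    have h2 := hb2 _ h1 i
    rw [map_smul, Finsupp.smul_apply, norm_smul, Complex.norm_real,
      Real.norm_of_nonneg htpos.le] at h2
    have h3 : (t * ‖b.repr v i‖) ^ p ≤ 1 :=
      Real.rpow_le_one (by positivity) h2 hp0.le
    rw [Real.mul_rpow htpos.le (norm_nonneg _), htp, inv_mul_le_iff₀ hv', mul_one] at h3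
    exact h3
  -- the basis functions
  set σ : Fin n → X → ℂ := fun i x => ev x (b i) with hσ
  have hσm : ∀ i, Measurable (σ i) := fun i => hev _
  have hup : DD μ p σ ≤ (n.factorial : ℝ≥0∞) := by
    refine upper hp0 hp1 hσm fun i => ?_
    have := hΦ (b i)
    simp only [hσ]
    rw [this]
    exact ENNReal.ofReal_le_one.2 (hb1 i)
  have hlow : 1 ≤ DD μ p σ := by
    refine lower hσm fun c i => ?_
    have h1 : Phi μ p σ c = ENNReal.ofReal (Φ (∑ j, c j • b j)) := by
      rw [← hΦ]
      unfold Phi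
      refine lintegral_congr fun x => ?_
      simp [hσ]
    rw [h1]
    have h2 := hb3 (∑ j, c j • b j) i
    rw [b.repr_sum_self] at h2
    rw [← ofReal_norm, ENNReal.ofReal_rpow_of_nonneg (norm_nonneg _) hp0.le]
    exact ENNReal.ofReal_le_ofReal h2
  have hfin : DD μ p σ ≠ ⊤ := ne_top_of_le_ne_top (by simp) hup
  -- change of basis
  set A : Matrix (Fin n) (Fin n) ℂ := Matrix.of fun i j => b.repr (e i) j with hA
  have hAe : ∀ i, e i = ∑ j, A i j • b j := fun i => (b.sum_repr (e i)).symm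
  have hDD : DD μ p (fun i x => ev x (e i)) = ‖A.det‖ₑ ^ p * DD μ p σ := by
    refine DD_mul hp0.le σ _ A fun i x => ?_
    conv_lhs => rw [hAe i]
    simp [hσ]
  -- Gram matrices
  set G : Matrix (Fin n) (Fin n) ℂ := Matrix.of fun i j => H (b i) (b j) with hG
  have hGram : (Matrix.of fun i j => H (e i) (e j)) = A.map star * G * A.transpose := by
    ext i j
    simp only [Matrix.of_apply, Matrix.mul_apply, Matrix.map_apply, Matrix.transpose_apply, hG]
    conv_lhs => rw [hAe i, hAe j]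
    simp only [map_sum, LinearMap.sum_apply, LinearMap.map_smulₛₗ, LinearMap.smul_apply,
      map_smul, smul_eq_mul]
    simp only [Finset.mul_sum, Finset.sum_mul]
    refine Finset.sum_congr rfl fun k _ => Finset.sum_congr rfl fun l _ => ?_
    simp only [RCLike.star_def]
    ring
  have hdet : (Matrix.det (Matrix.of fun i j => H (e i) (e j))) =
      ((‖A.det‖ ^ 2 : ℝ) : ℂ) * G.det := by
    rw [hGram, Matrix.det_mul, Matrix.det_mul, Matrix.det_transpose]
    have h1 : (A.map star).det = star A.det := by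
      rw [← Matrix.det_conjTranspose, ← Matrix.det_transpose (A.map star)]
      rfl
    rw [h1]
    have h2 : ((‖A.det‖ ^ 2 : ℝ) : ℂ) = star A.det * A.det := by
      rw [RCLike.star_def, mul_comm, Complex.mul_conj, Complex.normSq_eq_norm_sq]
    rw [h2]; ring
  -- the quadratic form of `G`
  have hquad : ∀ c : Fin n → ℂ, star c ⬝ᵥ (G.mulVec c) =
      H (∑ j, c j • b j) (∑ j, c j • b j) := by
    intro c
    simp only [dotProduct, Matrix.mulVec, hG, Matrix.of_apply, Pi.star_apply, map_sum,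
      LinearMap.sum_apply, LinearMap.map_smulₛₗ, LinearMap.smul_apply, map_smul, smul_eq_mul,
      Finset.mul_sum, RCLike.star_def]
    rw [Finset.sum_comm]
    refine Finset.sum_congr rfl fun k _ => Finset.sum_congr rfl fun l _ => ?_
    ring
  have hGH : G.IsHermitian := Matrix.IsHermitian.ext fun i j => by
    simp only [hG, Matrix.of_apply]
    exact hH _ _
  have him : ∀ v, (H v v).im = 0 := by
    intro v
    have := hH v v
    rw [RCLike.star_def] at this
    exact Complex.conj_eq_iff_im.1 this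
  have hcoord : ∀ (c : Fin n → ℂ) i, ‖c i‖ ^ 2 ≤
      (n : ℝ) ^ (N - 1) * (H (∑ j, c j • b j) (∑ j, c j • b j)).re := by
    intro c i
    refine le_trans ?_ (hN1 _)
    have h1 := hb3 (∑ j, c j • b j) i
    rw [b.repr_sum_self] at h1
    calc ‖c i‖ ^ 2 = (‖c i‖ ^ p) ^ N := by
          rw [← Real.rpow_natCast (‖c i‖ ^ p), ← Real.rpow_mul (norm_nonneg _), hpN]
          norm_num
      _ ≤ _ := pow_le_pow_left₀ (by positivity) h1 N
  have hpsd : G.PosSemidef := by
    refine Matrix.PosSemidef.of_dotProduct_mulVec_nonneg hGH fun c => ?_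
    rw [hquad, Complex.le_def]
    refine ⟨?_, (him _).symm⟩
    simp only [Complex.zero_re]
    by_cases hn0 : n = 0
    · subst hn0
      simp
    · have hnpos : (0 : ℝ) < n := by positivity
      have h1 := hcoord c ⟨0, Nat.pos_of_ne_zero hn0⟩
      have h2 : 0 ≤ (n : ℝ) ^ (N - 1) * (H (∑ j, c j • b j) (∑ j, c j • b j)).re :=
        le_trans (by positivity) h1
      exact nonneg_of_mul_nonneg_right h2 (by positivity)
  -- upper bound for `det G`
  have hGup : G.det.re ≤ 1 := by
    refine (Nil_840.det_le_prod_diag hpsd).trans ?_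
    refine Finset.prod_le_one (fun i _ => ?_) fun i _ => ?_
    · exact (Complex.le_def.1 (hpsd.diag_nonneg (i := i))).1
    · simp only [hG, Matrix.of_apply]
      exact (hN0 _).trans (pow_le_one₀ (hnn _) (hb1 i))
  -- lower bound for `det G`
  have hGlow : 1 ≤ (n : ℝ) ^ (N * n) * G.det.re := by
    have hev' : ∀ i, 1 ≤ (n : ℝ) ^ N * hGH.eigenvalues i := by
      intro i
      have hnpos : (0 : ℝ) < n := by
        have : 0 < n := Fin.pos i
        exact_mod_cast this
      set w : Fin n → ℂ := ⇑(hGH.eigenvectorBasis i) with hw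
      have h1 : hGH.eigenvalues i = (H (∑ j, w j • b j) (∑ j, w j • b j)).re := by
        rw [hGH.eigenvalues_eq, ← hw, hquad]
        rfl
      have h2 : ∑ j, ‖w j‖ ^ 2 = 1 := by
        have h3 := hGH.eigenvectorBasis.orthonormal.1 i
        rw [EuclideanSpace.norm_eq, Real.sqrt_eq_one] at h3
        exact h3
      have h3 : ∑ j : Fin n, ‖w j‖ ^ 2 ≤ ∑ _j : Fin n,
          (n : ℝ) ^ (N - 1) * (H (∑ j, w j • b j) (∑ j, w j • b j)).re :=
        Finset.sum_le_sum fun j _ => hcoord w j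
      rw [h2, Finset.sum_const, Finset.card_univ, Fintype.card_fin, nsmul_eq_mul, ← mul_assoc,
        ← pow_succ', Nat.sub_add_cancel (by omega)] at h3
      rw [h1]; exact h3
    have h1 : (n : ℝ) ^ (N * n) * G.det.re = ∏ i, ((n : ℝ) ^ N * hGH.eigenvalues i) := by
      rw [Finset.prod_mul_distrib, Finset.prod_const, Finset.card_univ, Fintype.card_fin,
        ← pow_mul, hGH.det_eq_prod_eigenvalues]
      congr 1
      change (∏ i, Complex.ofReal (hGH.eigenvalues i)).re = _
      rw [← Complex.ofReal_prod, Complex.ofReal_re]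
    rw [h1]
    simpa using Finset.prod_le_prod (s := Finset.univ) (f := fun _ : Fin n => (1 : ℝ))
      (fun i _ => zero_le_one) (fun i _ => hev' i)
  -- conclusion
  have hdetre : (Matrix.det (Matrix.of fun i j => H (e i) (e j))).re = ‖A.det‖ ^ 2 * G.det.re := by
    rw [hdet, Complex.re_ofReal_mul]
  have hDDr : (DD μ p (fun i x => ev x (e i))).toReal ^ N =
      ‖A.det‖ ^ 2 * (DD μ p σ).toReal ^ N := by
    rw [hDD, ENNReal.toReal_mul, mul_pow, ← ENNReal.toReal_rpow, toReal_enorm]
    congr 1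
    rw [← Real.rpow_natCast, ← Real.rpow_mul (norm_nonneg _), hpN]
    norm_num
  have hD1 : 1 ≤ (DD μ p σ).toReal := by
    rw [← ENNReal.toReal_one]
    exact ENNReal.toReal_mono hfin hlow
  have hD2 : (DD μ p σ).toReal ≤ n.factorial := by
    have := ENNReal.toReal_mono (by simp) hup
    simpa using this
  refine ⟨?_, ?_, ?_⟩
  · rw [hDD]
    exact ENNReal.mul_ne_top (ENNReal.rpow_ne_top_of_nonneg hp0.le (by simp)) hfin
  · rw [hdetre, hDDr]
    refine mul_le_mul_of_nonneg_left ?_ (by positivity)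
    exact hGup.trans (one_le_pow₀ hD1)
  · rw [hdetre, hDDr]
    have h1 : (DD μ p σ).toReal ^ N ≤ (n.factorial : ℝ) ^ N :=
      pow_le_pow_left₀ ENNReal.toReal_nonneg hD2 N
    have h2 : (n.factorial : ℝ) ^ N ≤ (n.factorial : ℝ) ^ N * ((n : ℝ) ^ (N * n) * G.det.re) :=
      le_mul_of_one_le_right (by positivity) hGlow
    calc ‖A.det‖ ^ 2 * (DD μ p σ).toReal ^ N
        ≤ ‖A.det‖ ^ 2 * ((n.factorial : ℝ) ^ N * ((n : ℝ) ^ (N * n) * G.det.re)) :=
          mul_le_mul_of_nonneg_left (h1.trans h2) (by positivity)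
      _ = _ := by ring

end main

end Crest.Agent.R276.DetB_606
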