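import Mathlib
import Crest.Agent.R276.SkelDefs_220
import Crest.Agent.R276.Mod7_987
import Crest.Agent.R276.CInd_870
import Crest.Agent.R276.DetB_606

/-!
# Row 276 (helper870): fibre integrals of `SkelDefs_220`, Fubini, towers

* `lintM_sint`, `measurable_sint`, `ae_sint_lt` : slices of one model;
* `fint_rm`, `fint_leb`, `sint_eq_tsum`, `fint_le_sint` : fibre integrals;
* `fint_tower` (abstract), `comp`, `fint_comp` : towers;
* `fintS_succ`, `fintS_prod`, `fintS_pi` : `s`-fold products of a fibre;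
* `holF_iff`.
-/

set_option autoImplicit false
set_option linter.unusedSectionVars false

open Topology Filter Set MeasureTheory
open scoped ENNReal

noncomputable section

namespace Crest.Agent.R276.RelB_870

open Crest.Agent.R271 Crest.Agent.R271.Rd692 Crest.Agent.R271.Ho51
open Crest.Agent.R271.Defs710 hiding glue
open Crest.Agent.R276.Mod1_987 Crest.Agent.R276.SkelDefs_220 Crest.Agent.R276.CInd_870

/-! ### fibre sums -/

section general

variable {n : ℕ} {M : Type*} [TopologicalSpace M] [RDom n M] [MeasurableSpace M] [BorelSpace M]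

lemma measurable_sheet_param {Z : Type*} [MeasurableSpace Z]
    (e : OpenPartialHomeomorph M (Fin n → ℂ)) {f : M × Z → ℝ≥0∞} (hf : Measurable f) :
    Measurable fun p : (Fin n → ℂ) × Z =>
      e.target.indicator (fun ζ => f (e.symm ζ, p.2)) p.1 := by
  classical
  have hT : MeasurableSet {p : (Fin n → ℂ) × Z | p.1 ∈ e.target} :=
    measurable_fst e.open_target.measurableSet
  apply measurable_of_restrict_of_restrict_compl hT
  · have h1 : {p : (Fin n → ℂ) × Z | p.1 ∈ e.target}.domRestrict (fun p : (Fin n → ℂ) × Z =>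
        e.target.indicator (fun ζ => f (e.symm ζ, p.2)) p.1) =
        fun x => f (e.target.domRestrict e.symm ⟨x.1.1, x.2⟩, x.1.2) := by
      funext x
      have h2 : x.1.1 ∈ e.target := x.2
      simp only [Set.domRestrict_apply]
      rw [Set.indicator_of_mem h2]
    rw [h1]
    have h2 : Measurable (e.target.domRestrict e.symm) :=
      (e.continuousOn_symm.domRestrict).measurable
    refine hf.comp (Measurable.prodMk (h2.comp ?_) (measurable_snd.comp measurable_subtype_coe))
    exact Measurable.subtype_mk (measurable_fst.comp measurable_subtype_coe)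
  · have h1 : ({p : (Fin n → ℂ) × Z | p.1 ∈ e.target}ᶜ).domRestrict (fun p : (Fin n → ℂ) × Z =>
        e.target.indicator (fun ζ => f (e.symm ζ, p.2)) p.1) = fun _ => 0 := by
      funext x
      have h2 : x.1.1 ∉ e.target := x.2
      rw [Set.domRestrict_apply, Set.indicator_of_notMem h2]
    rw [h1]
    exact measurable_const

/-- fibre sums depend measurably on parameters -/
theorem measurable_fibre_param [SecondCountableTopology M] {Z : Type*} [MeasurableSpace Z]
    {g : M × Z → ℝ≥0∞} (hg : Measurable g) :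
    Measurable fun p : (Fin n → ℂ) × Z => ∑' y : {y : M // cp y = p.1}, g (y.1, p.2) := by
  classical
  rcases isEmpty_or_nonempty M with hM | hM
  · have : (fun p : (Fin n → ℂ) × Z => ∑' y : {y : M // cp y = p.1}, g (y.1, p.2)) =
        fun _ => 0 := by
      funext ζ
      simp
    rw [this]
    exact measurable_const
  obtain ⟨S, hSc, hSu⟩ := TopologicalSpace.countable_cover_nhds
    (f := fun x : M => (ch x).source) (fun x => (ch x).open_source.mem_nhds (mem_ch x))
  have hSne : S.Nonempty := by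
    by_contra h
    rw [Set.not_nonempty_iff_eq_empty] at h
    rw [h] at hSu
    obtain ⟨x⟩ := hM
    have : x ∈ (⋃ x ∈ (∅ : Set M), (ch x).source) := by rw [hSu]; trivial
    simp at this
  obtain ⟨c, hc⟩ := hSc.exists_eq_range hSne
  set E : ℕ → OpenPartialHomeomorph M (Fin n → ℂ) := fun k => ch (c k) with hE
  set A : ℕ → Set M := disjointed fun k => (E k).source with hA
  have hAsub : ∀ k, A k ⊆ (E k).source := fun k => disjointed_le _ k
  have hAm : ∀ k, MeasurableSet (A k) :=
    fun k => MeasurableSet.disjointed (fun k => (E k).open_source.measurableSet) k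
  have hAd : Pairwise (Function.onFun Disjoint A) := disjoint_disjointed _
  have hAu : ⋃ k, A k = univ := by
    rw [hA, iUnion_disjointed, ← hSu, hc]
    simp [hE]
  set B : ℕ → Set (M × Z) := fun k => Prod.fst ⁻¹' A k with hB
  have hsum : ∀ y, g y = ∑' k, (B k).indicator g y := by
    intro y
    have hy : y.1 ∈ ⋃ k, A k := by rw [hAu]; trivial
    obtain ⟨k, hk⟩ := mem_iUnion.mp hy
    have hk' : y ∈ B k := hk
    rw [tsum_eq_single k]
    · rw [Set.indicator_of_mem hk']
    · intro j hj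
      rw [Set.indicator_of_notMem]
      intro hyj
      exact Set.disjoint_left.mp (hAd hj) hyj hk
  have hgm : ∀ k, Measurable ((B k).indicator g) := fun k =>
    hg.indicator (measurable_fst (hAm k))
  have hoff : ∀ (w : Z) k, ∀ y ∉ (E k).source, (B k).indicator g (y, w) = 0 := by
    intro w k y hy
    exact Set.indicator_of_notMem (fun h : (y, w) ∈ B k => hy (hAsub k h)) g
  have h3 : (fun p : (Fin n → ℂ) × Z => ∑' y : {y : M // cp y = p.1}, g (y.1, p.2)) =
      fun p => ∑' k, (E k).target.indicator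
        (fun ζ => (B k).indicator g ((E k).symm ζ, p.2)) p.1 := by
    funext p
    have h4 : ∀ k, (E k).target.indicator
        (fun ζ => (B k).indicator g ((E k).symm ζ, p.2)) p.1 =
        ∑' y : {y : M // cp y = p.1}, (B k).indicator g (y.1, p.2) := by
      intro k
      rw [tsum_fibre_sheet (f := fun y => (B k).indicator g (y, p.2)) (isCh_ch (c k)) (hoff p.2 k)]
    simp_rw [h4]
    rw [ENNReal.tsum_comm]
    apply tsum_congr
    intro y
    exact hsum _
  rw [h3]
  exact Measurable.tsum fun k => measurable_sheet_param (E k) (hgm k)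

end general

/-! ### slices of one model -/

section one

variable {K : Type} [Field K] [Algebra ℂ K] {n ρ p : ℕ} (M : Mdl K n) (e : Fin ρ ⊕ Fin p ≃ Fin n)

/-- the fibre sum -/
def fs (g : M.Pts → ℝ≥0∞) (ζ : Cn n) : ℝ≥0∞ := ∑' y : {y : M.Pts // cp y = ζ}, g y.1

lemma measurable_fs {g : M.Pts → ℝ≥0∞} (hg : Measurable g) : Measurable (fs M g) :=
  measurable_fibre hg

lemma lintM_eq_fs (g : M.Pts → ℝ≥0∞) : lintM M.z g = ∫⁻ ζ : Cn n, fs M g ζ := by
  unfold lintM fs
  refine lintegral_congr fun ζ => ?_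
  let e : {y : M.Pts // ∀ i, y (M.z i) = ζ i} ≃ {y : M.Pts // cp y = ζ} :=
    Equiv.subtypeEquivRight fun y => ⟨fun h => funext h, fun h i => congrFun h i⟩
  exact e.tsum_eq (fun y : {y : M.Pts // cp y = ζ} => g y.1)

lemma tc_xc_iff (y : M.Pts) (c : Cn ρ) (x : Cn p) :
    (tc M e y = c ∧ xc M e y = x) ↔ cp y = glue e c x := by
  constructor
  · rintro ⟨h1, h2⟩
    funext j
    rcases h : e.symm j with i | i
    · have h3 := congrFun h1 i
      have h4 : j = e (Sum.inl i) := by rw [← h]; simp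
      simp only [glue, h, Sum.elim_inl]
      rw [← h3, h4]
      rfl
    · have h3 := congrFun h2 i
      have h4 : j = e (Sum.inr i) := by rw [← h]; simp
      simp only [glue, h, Sum.elim_inr]
      rw [← h3, h4]
      rfl
  · intro h
    constructor
    · funext i
      have h3 := congrFun h (e (Sum.inl i))
      simp only [glue, Equiv.symm_apply_apply, Sum.elim_inl] at h3
      exact h3
    · funext i
      have h3 := congrFun h (e (Sum.inr i))
      simp only [glue, Equiv.symm_apply_apply, Sum.elim_inr] at h3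
      exact h3

lemma sint_eq_fs (c : Cn ρ) (g : M.Pts → ℝ≥0∞) :
    sint M e c g = ∫⁻ x : Cn p, fs M g (glue e c x) := by
  unfold sint fs
  refine lintegral_congr fun x => ?_
  let e' : {y : M.Pts // tc M e y = c ∧ xc M e y = x} ≃ {y : M.Pts // cp y = glue e c x} :=
    Equiv.subtypeEquivRight fun y => tc_xc_iff M e y c x
  exact e'.tsum_eq (fun y : {y : M.Pts // cp y = glue e c x} => g y.1)

/-- the gluing as a measurable equivalence -/
def eGlue : (Cn ρ) × (Cn p) ≃ᵐ (Cn n) :=
  (MeasurableEquiv.sumPiEquivProdPi (fun _ : Fin ρ ⊕ Fin p => ℂ)).symm.trans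
    (MeasurableEquiv.piCongrLeft (fun _ : Fin n => ℂ) e)

lemma eGlue_apply (q : (Cn ρ) × (Cn p)) : eGlue e q = glue e q.1 q.2 := by
  funext j
  obtain ⟨i, rfl⟩ := e.surjective j
  rcases i with i | i
  · have h := Equiv.piCongrLeft_apply_apply (fun _ : Fin n => ℂ) e
      ((MeasurableEquiv.sumPiEquivProdPi (fun _ : Fin ρ ⊕ Fin p => ℂ)).symm q) (Sum.inl i)
    simp only [glue, Equiv.symm_apply_apply, Sum.elim_inl]
    exact h
  · have h := Equiv.piCongrLeft_apply_apply (fun _ : Fin n => ℂ) e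
      ((MeasurableEquiv.sumPiEquivProdPi (fun _ : Fin ρ ⊕ Fin p => ℂ)).symm q) (Sum.inr i)
    simp only [glue, Equiv.symm_apply_apply, Sum.elim_inr]
    exact h

lemma eGlue_mp : MeasurePreserving (eGlue e) volume volume :=
  (volume_measurePreserving_sumPiEquivProdPi_symm (fun _ : Fin ρ ⊕ Fin p => ℂ)).trans
    (volume_measurePreserving_piCongrLeft (fun _ : Fin n => ℂ) e)

lemma measurable_glue {g : Cn n → ℝ≥0∞} (hg : Measurable g) :
    Measurable fun q : (Cn ρ) × (Cn p) => g (glue e q.1 q.2) := by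
  have h : (fun q : (Cn ρ) × (Cn p) => g (glue e q.1 q.2)) = g ∘ eGlue e := by
    funext q
    simp only [Function.comp_apply, eGlue_apply]
  rw [h]
  exact hg.comp (eGlue e).measurable

lemma lintegral_glue {g : Cn n → ℝ≥0∞} (hg : Measurable g) :
    ∫⁻ z, g z = ∫⁻ c : Cn ρ, ∫⁻ x : Cn p, g (glue e c x) := by
  rw [← (eGlue_mp e).lintegral_comp hg, Measure.volume_eq_prod, lintegral_prod]
  · simp only [eGlue_apply]
  · exact (hg.comp (eGlue e).measurable).aemeasurable

variable {M}

/-- slice integrals are measurable in the slice -/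
theorem measurable_sint {g : M.Pts → ℝ≥0∞} (hg : Measurable g) :
    Measurable fun c : Cn ρ => sint M e c g := by
  simp_rw [sint_eq_fs]
  exact (measurable_glue e (measurable_fs M hg)).lintegral_prod_right'

/-- **Fubini for slices** -/
theorem lintM_sint {g : M.Pts → ℝ≥0∞} (hg : Measurable g) :
    lintM M.z g = ∫⁻ c : Cn ρ, sint M e c g := by
  rw [lintM_eq_fs, lintegral_glue e (measurable_fs M hg)]
  exact lintegral_congr fun c => (sint_eq_fs M e c g).symm

theorem ae_sint_lt {g : M.Pts → ℝ≥0∞} (hg : Measurable g) (h : lintM M.z g < ∞) :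
    ∀ᵐ c : Cn ρ, sint M e c g < ∞ := by
  rw [lintM_sint e hg] at h
  exact ae_lt_top (measurable_sint e hg) h.ne

end one


/-! ### towers: the abstract iterated sum -/

section abs

variable {Y X W : Type*} {a r : ℕ}

/-- the fibre integral of a tower is the iterated fibre integral -/
theorem fint_tower (q₂ : Y → X) (q₁ : X → W) (x₁ : X → Cn a) (x₂ : Y → Cn r) (g : Y → ℝ≥0∞)
    (w : W) (hc : ∀ ξ, Countable {x // q₁ x = w ∧ x₁ x = ξ})
    (hm₂ : ∀ x, Measurable fun ξ₂ : Cn r => ∑' p : {p // q₂ p = x ∧ x₂ p = ξ₂}, g p)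
    (hm : Measurable fun ξ : Cn (a + r) =>
      ∑' p : {p // q₁ (q₂ p) = w ∧ Fin.append (x₁ (q₂ p)) (x₂ p) = ξ}, g p) :
    ∫⁻ ξ : Cn (a + r), ∑' p : {p // q₁ (q₂ p) = w ∧ Fin.append (x₁ (q₂ p)) (x₂ p) = ξ}, g p =
      ∫⁻ ξ₁ : Cn a, ∑' x : {x // q₁ x = w ∧ x₁ x = ξ₁},
        ∫⁻ ξ₂ : Cn r, ∑' p : {p // q₂ p = x ∧ x₂ p = ξ₂}, g p := by
  rw [PV_159.lintegral_append hm]
  refine lintegral_congr fun ξ₁ => ?_
  have h1 : ∀ ξ₂ : Cn r, ∑' p : {p // q₁ (q₂ p) = w ∧
      Fin.append (x₁ (q₂ p)) (x₂ p) = Fin.append ξ₁ ξ₂}, g p =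
      ∑' x : {x // q₁ x = w ∧ x₁ x = ξ₁}, ∑' p : {p // q₂ p = x ∧ x₂ p = ξ₂}, g p := by
    intro ξ₂
    let e : {p // q₁ (q₂ p) = w ∧ Fin.append (x₁ (q₂ p)) (x₂ p) = Fin.append ξ₁ ξ₂} ≃
        Σ x : {x // q₁ x = w ∧ x₁ x = ξ₁}, {p // q₂ p = x.1 ∧ x₂ p = ξ₂} :=
      { toFun := fun p => ⟨⟨q₂ p.1, p.2.1, by
            funext i
            have h := congrFun p.2.2 (Fin.castAdd r i)
            rwa [Fin.append_left, Fin.append_left] at h⟩, ⟨p.1, rfl, by
            funext i
            have h := congrFun p.2.2 (Fin.natAdd a i)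
            rwa [Fin.append_right, Fin.append_right] at h⟩⟩
        invFun := fun s => ⟨s.2.1, by rw [s.2.2.1]; exact s.1.2.1, by
          rw [s.2.2.1, s.1.2.2, s.2.2.2]⟩
        left_inv := fun _ => rfl
        right_inv := by
          rintro ⟨⟨x, hx⟩, ⟨p, hp1, hp2⟩⟩
          change q₂ p = x at hp1
          subst hp1
          rfl }
    have h2 := e.tsum_eq (fun s : Σ x : {x // q₁ x = w ∧ x₁ x = ξ₁},
        {p // q₂ p = x.1 ∧ x₂ p = ξ₂} => g s.2.1)
    have h3 := ENNReal.tsum_sigma (fun (x : {x // q₁ x = w ∧ x₁ x = ξ₁})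
        (p : {p // q₂ p = x.1 ∧ x₂ p = ξ₂}) => g p.1)
    exact h2.trans h3
  simp_rw [h1]
  have := hc ξ₁
  exact lintegral_tsum fun x => (hm₂ x.1).aemeasurable

end abs

/-! ### relative models -/

section rel

variable {L K : Type} [Field L] [Field K] [Algebra ℂ L] [Algebra ℂ K] [Algebra L K]
  [IsScalarTower ℂ L K] {m r : ℕ}

lemma countable_base (ML : Mdl L m) (a : Cn m) : Countable {w : ML.Pts // ∀ i, w (ML.z i) = a i} := by
  by_cases ha : MvPolynomial.eval a ML.h = 0
  · have : IsEmpty {w : ML.Pts // ∀ i, w (ML.z i) = a i} := by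
      refine ⟨fun w => ML.eval_h_ne w.1 ?_⟩
      have h1 : ML.pz w.1 = a := funext w.2
      rw [h1]
      exact ha
    infer_instance
  · have := (AlgB956.natCard_fib ML.fd ha).2
    exact Finite.to_countable

lemma countable_fib (R : RMdl L K m r) (w : R.ML.Pts) (ξ : Cn r) :
    Countable {y : R.MK.Pts // R.q y = w ∧ R.x y = ξ} := by
  have h := countable_base R.MK (Fin.append (R.ML.pz w) ξ)
  refine Function.Injective.countable (f := fun y : {y : R.MK.Pts // R.q y = w ∧ R.x y = ξ} =>
    (⟨y.1, fun i => by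
      have h1 := congrFun (R.append_eq y.1) i
      rw [y.2.1, y.2.2] at h1
      exact h1.symm⟩ : {y : R.MK.Pts // ∀ i, y (R.MK.z i) = Fin.append (R.ML.pz w) ξ i})) ?_
  intro y y' h
  exact Subtype.ext (congrArg (fun t => t.1) h)

variable {ML : Mdl L m} {MK : Mdl K (m + r)} (H : Rel ML MK)

theorem fint_rm (z : ML.Pts) (g : MK.Pts → ℝ≥0∞) : H.fint z g = (rm H).fint z g := by
  unfold Rel.fint RMdl.fint RMdl.fsumR
  refine lintegral_congr fun ξ => ?_
  let e : {y : MK.Pts // H.f y = z ∧ (fun j => MK.pz y (Fin.natAdd m j)) = ξ} ≃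
      {y : (rm H).MK.Pts // (rm H).q y = z ∧ (rm H).x y = ξ} :=
    Equiv.subtypeEquivRight fun y => by
      rw [rm_q]
      exact Iff.rfl
  exact e.tsum_eq (fun y : {y : (rm H).MK.Pts // (rm H).q y = z ∧ (rm H).x y = ξ} => g y.1)

/-- the fibre integral is the integral for the Lebesgue measure of the fibre -/
theorem fint_leb {z : ML.Pts} {μ : Measure ((rm H).Fib z)} (hμ : IsLeb μ) {g : MK.Pts → ℝ≥0∞}
    (hg : Measurable g) : H.fint z g = ∫⁻ y, g y.val ∂μ := by
  rw [fint_rm]
  exact (rm H).fint_eq hμ hg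

theorem lintM_rel {g : MK.Pts → ℝ≥0∞} (hg : Measurable g) :
    lintM MK.z g = lintM ML.z (fun w => H.fint w g) := by
  simp_rw [fint_rm]
  exact (rm H).lintM_fubini hg

lemma fint_mono {z : ML.Pts} {f g : MK.Pts → ℝ≥0∞} (h : ∀ y, H.f y = z → f y ≤ g y) :
    H.fint z f ≤ H.fint z g :=
  lintegral_mono fun _ => ENNReal.tsum_le_tsum fun y => h y.1 y.2.1

lemma fint_congr {z : ML.Pts} {f g : MK.Pts → ℝ≥0∞} (h : ∀ y, H.f y = z → f y = g y) :
    H.fint z f = H.fint z g :=
  lintegral_congr fun _ => tsum_congr fun y => h y.1 y.2.1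

end rel

section slices

variable {T L : Type} [Field T] [Field L] [Algebra ℂ T] [Algebra ℂ L] [Algebra T L]
  [IsScalarTower ℂ T L] {ρ a : ℕ} {MT : Mdl T ρ} {ML : Mdl L (ρ + a)} (H : Rel MT ML)

lemma tc_eL (y : ML.Pts) : tc ML (eL ρ a) y = MT.pz (H.f y) := by
  funext i
  have h1 := (rm H).pz_q y i
  rw [rm_q] at h1
  refine Eq.trans ?_ h1.symm
  simp [tc, eL]

/-- the integral over the slice `{t = c}` is the sum of the integrals over the fibres of
`M_L → M_T` over the points over `c` -/
theorem sint_eq_tsum (c : Cn ρ) {g : ML.Pts → ℝ≥0∞} (hg : Measurable g) :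
    sint ML (eL ρ a) c g = ∑' y : {y : MT.Pts // MT.pz y = c}, H.fint y.1 g := by
  have hct : Countable {w : MT.Pts // ∀ i, w (MT.z i) = c i} := countable_base MT c
  have h1 : ∑' y : {y : MT.Pts // MT.pz y = c}, H.fint y.1 g =
      ∑' y : {w : MT.Pts // ∀ i, w (MT.z i) = c i}, (rm H).fint y.1 g := by
    simp_rw [fint_rm]
    let e : {y : MT.Pts // MT.pz y = c} ≃ {w : MT.Pts // ∀ i, w (MT.z i) = c i} :=
      Equiv.subtypeEquivRight fun y => ⟨fun h i => congrFun h i, fun h => funext h⟩
    exact e.tsum_eq (fun y : {w : MT.Pts // ∀ i, w (MT.z i) = c i} => (rm H).fint y.1 g)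
  rw [h1]
  unfold RMdl.fint
  have h5 := lintegral_tsum (μ := (volume : Measure (Cn a)))
    (f := fun (w : {w : MT.Pts // ∀ i, w (MT.z i) = c i}) (ξ : Cn a) =>
    (rm H).fsumR g w.1 ξ) fun w => ((rm H).measurable_fsumR hg w.1).aemeasurable
  refine Eq.trans ?_ h5
  rw [sint_eq_fs]
  refine lintegral_congr fun ξ => ?_
  have h2 := (rm H).tsum_split g c ξ
  refine Eq.trans ?_ h2
  unfold fs
  have h3 : SkelDefs_220.glue (eL ρ a) c ξ = Fin.append c ξ := by
    funext j
    refine Fin.addCases (fun j => ?_) (fun j => ?_) j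
    · simp [SkelDefs_220.glue, eL]
    · simp [SkelDefs_220.glue, eL]
  let e : {y : ML.Pts // cp y = SkelDefs_220.glue (eL ρ a) c ξ} ≃
      {y : (rm H).MK.Pts // ∀ i, y ((rm H).MK.z i) = Fin.append c ξ i} :=
    Equiv.subtypeEquivRight fun y => by
      rw [h3]
      exact ⟨fun h i => congrFun h i, fun h => funext h⟩
  exact e.tsum_eq (fun y : {y : (rm H).MK.Pts // ∀ i, y ((rm H).MK.z i) = Fin.append c ξ i} =>
    g y.1)

theorem fint_le_sint (y : MT.Pts) {g : ML.Pts → ℝ≥0∞} (hg : Measurable g) :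
    H.fint y g ≤ sint ML (eL ρ a) (MT.pz y) g := by
  rw [sint_eq_tsum H _ hg]
  exact ENNReal.le_tsum (⟨y, rfl⟩ : {y' : MT.Pts // MT.pz y' = MT.pz y})

end slices


/-! ### towers -/

section tower

/-- reindexing of the coordinates of a model along `n = n'` (same ring, same points) -/
def reidx {K : Type} [Field K] [Algebra ℂ K] {n n' : ℕ} (h : n = n') (M : Mdl K n) : Mdl K n' where
  B := M.B
  z := fun i => M.z (Fin.cast h.symm i)
  h := MvPolynomial.rename (Fin.cast h) M.h
  θ := M.θ
  μ := M.μ.map (MvPolynomial.rename (Fin.cast h)).toRingHom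
  ft := M.ft
  frac := M.frac
  h_ne := by
    subst h
    simpa using M.h_ne
  h_unit := by
    subst h
    simpa using M.h_unit
  monic := M.monic.map _
  root := by
    subst h
    simpa using M.root
  bez := by
    subst h
    simpa using M.bez
  dvd := by
    subst h
    simpa using M.dvd
  gen := by
    subst h
    simpa using M.gen

end tower

end Crest.Agent.R276.RelB_870
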