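import Mathlib
import Crest.Agent.R276.RelB_870
import Crest.Agent.R276.TowA_849

/-!
# Row 276 (helper870): fibre integrals along towers and over `s`-fold fibre products

* `fint_TK` : `∫_{fibre of K/T} = ∫_{fibre of L/T} ∫_{fibre of K/L}` on 849's towers; `leb_TK`;
* `tow H₁ H₂` : the tower of two relative models of `SkelDefs_220`;
* `fS_pi` : the `s`-fold fibre integral of a Riemann domain is the integral for the product measure;
* `fintS_pi`, `fintS_prod`, `fintS_succ` for `Rel.fintS`;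
* `holF_iff`.
-/

set_option autoImplicit false
set_option linter.unusedSectionVars false

open Topology Filter Set MeasureTheory
open scoped ENNReal

noncomputable section

namespace Crest.Agent.R276.RelC_870

open Crest.Agent.R271 Crest.Agent.R271.Rd692 Crest.Agent.R271.Ho51
open Crest.Agent.R271.Defs710 hiding glue
open Crest.Agent.R276.Mod1_987 Crest.Agent.R276.SkelDefs_220 Crest.Agent.R276.CInd_870
open Crest.Agent.R276.RelB_870 Crest.Agent.R276.TowA_849

/-! ### towers -/

section tow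

variable {T L K : Type} [Field T] [Field L] [Field K] [Algebra ℂ T] [Algebra ℂ L] [Algebra ℂ K]
  [Algebra T L] [Algebra L K] [Algebra T K] [IsScalarTower ℂ T L] [IsScalarTower ℂ L K]
  [IsScalarTower T L K] [IsScalarTower ℂ T K] {ρ a r : ℕ} (W : Tow T L K ρ a r)

/-- a point of `M_K` as a point of the model `W.TK` -/
abbrev toTK (y : W.MK.Pts) : W.TK.MK.Pts := y

lemma x_TK (y : W.MK.Pts) :
    W.TK.x (toTK W y) = Fin.append (W.TL.x (W.LK.q y)) (W.LK.x y) := by
  funext j
  refine Fin.addCases (fun j => ?_) (fun j => ?_) j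
  · rw [Fin.append_left]
    change y (W.MK.z ((eA ρ a r).symm (Fin.natAdd ρ (Fin.castAdd r j)))) =
      y (W.LK.incl (W.ML.z (Fin.natAdd ρ j)))
    have h1 : (eA ρ a r).symm (Fin.natAdd ρ (Fin.castAdd r j)) =
        Fin.castAdd r (Fin.natAdd ρ j) := by
      apply Fin.ext
      simp [eA]
    rw [h1]
    congr 1
    exact Subtype.ext (W.zK _)
  · rw [Fin.append_right]
    change y (W.MK.z ((eA ρ a r).symm (Fin.natAdd ρ (Fin.natAdd a j)))) =
      y (W.MK.z (Fin.natAdd (ρ + a) j))
    have h1 : (eA ρ a r).symm (Fin.natAdd ρ (Fin.natAdd a j)) = Fin.natAdd (ρ + a) j := by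
      apply Fin.ext
      simp [eA, Nat.add_assoc]
    rw [h1]

lemma fsumR_TK (y : W.MT.Pts) (g : W.MK.Pts → ℝ≥0∞) (ξ : Cn (a + r)) :
    W.TK.fsumR g y ξ = ∑' p : {p : W.MK.Pts // W.TL.q (W.LK.q p) = y ∧
      Fin.append (W.TL.x (W.LK.q p)) (W.LK.x p) = ξ}, g p := by
  unfold RMdl.fsumR
  let e : {p : W.TK.MK.Pts // W.TK.q p = y ∧ W.TK.x p = ξ} ≃
      {p : W.MK.Pts // W.TL.q (W.LK.q p) = y ∧
        Fin.append (W.TL.x (W.LK.q p)) (W.LK.x p) = ξ} :=
    Equiv.subtypeEquivRight fun p => by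
      rw [← x_TK W p, ← W.q_TK p]
      exact Iff.rfl
  exact e.tsum_eq (fun p : {p : W.MK.Pts // W.TL.q (W.LK.q p) = y ∧
        Fin.append (W.TL.x (W.LK.q p)) (W.LK.x p) = ξ} => g p.1)

/-- **iterated fibre integrals** -/
theorem fint_TK (y : W.MT.Pts) {g : W.MK.Pts → ℝ≥0∞} (hg : Measurable g) :
    W.TK.fint y g = W.TL.fint y (fun z => W.LK.fint z g) := by
  have hm : Measurable fun ξ : Cn (a + r) =>
      ∑' p : {p : W.MK.Pts // W.TL.q (W.LK.q p) = y ∧
        Fin.append (W.TL.x (W.LK.q p)) (W.LK.x p) = ξ}, g p := by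
    have h1 := W.TK.measurable_fsumR (g := g) hg y
    have h2 : W.TK.fsumR g y = fun ξ : Cn (a + r) =>
      ∑' p : {p : W.MK.Pts // W.TL.q (W.LK.q p) = y ∧
        Fin.append (W.TL.x (W.LK.q p)) (W.LK.x p) = ξ}, g p := funext fun ξ => fsumR_TK W y g ξ
    rw [← h2]
    exact h1
  have key := fint_tower (W.LK.q) (W.TL.q) (W.TL.x) (W.LK.x) g y
    (fun ξ => countable_fib W.TL y ξ) (fun x => W.LK.measurable_fsumR hg x) hm
  refine Eq.trans ?_ key
  unfold RMdl.fint
  exact lintegral_congr fun ξ => fsumR_TK W y g ξ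

/-- the same for the Lebesgue measures of the fibres of `M_K → M_T` -/
theorem leb_TK (y : W.TK.ML.Pts) {ν : Measure (W.TK.Fib y)} (hν : IsLeb ν) {g : W.MK.Pts → ℝ≥0∞}
    (hg : Measurable g) :
    ∫⁻ x, g x.val ∂ν = W.TL.fint y (fun z => W.LK.fint z g) := by
  rw [← fint_TK W y hg]
  exact (W.TK.fint_eq (g := g) hν hg).symm

end tow

section towrel

variable {T L K : Type} [Field T] [Field L] [Field K] [Algebra ℂ T] [Algebra ℂ L] [Algebra ℂ K]
  [Algebra T L] [Algebra L K] [Algebra T K] [IsScalarTower ℂ T L] [IsScalarTower ℂ L K]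
  [IsScalarTower T L K] [IsScalarTower ℂ T K] {ρ a r : ℕ}
  {MT : Mdl T ρ} {ML : Mdl L (ρ + a)} {MK : Mdl K (ρ + a + r)} (H₁ : Rel MT ML) (H₂ : Rel ML MK)

/-- two relative models of `SkelDefs_220` form a tower of 849 -/
@[reducible] def tow : Tow T L K ρ a r where
  MT := MT
  ML := ML
  MK := MK
  zL := H₁.coord
  zK := H₂.coord
  inclT := H₁.mem
  inclL := H₂.mem

lemma tow_TL : (tow H₁ H₂).TL = rm H₁ := rfl

lemma tow_LK : (tow H₁ H₂).LK = rm H₂ := rfl

lemma tow_q (y : MK.Pts) : (tow H₁ H₂).TK.q (toTK (tow H₁ H₂) y) = H₁.f (H₂.f y) := by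
  rw [Tow.q_TK (tow H₁ H₂) y, ← rm_q H₂, ← rm_q H₁]
  rfl

/-- `∫_{fibre over y of M_K → M_T} g = ∫_{G_y} ∫_{M_z} g` -/
theorem fint_tow (y : MT.Pts) {g : MK.Pts → ℝ≥0∞} (hg : Measurable g) :
    (tow H₁ H₂).TK.fint y g = H₁.fint y (fun z => H₂.fint z g) := by
  rw [fint_TK (tow H₁ H₂) y hg, fint_rm]
  simp_rw [fint_rm]
  rfl

theorem leb_tow (y : (tow H₁ H₂).TK.ML.Pts) {ν : Measure ((tow H₁ H₂).TK.Fib y)} (hν : IsLeb ν)
    {g : MK.Pts → ℝ≥0∞} (hg : Measurable g) :
    ∫⁻ x, g x.val ∂ν = H₁.fint y (fun z => H₂.fint z g) := by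
  rw [← fint_tow H₁ H₂ y hg]
  exact ((tow H₁ H₂).TK.fint_eq (g := g) hν hg).symm

end towrel


/-! ### `s`-fold fibre integrals of a Riemann domain -/

section pi

variable {r : ℕ} {A : Type*} [TopologicalSpace A] [RDom r A] [SecondCountableTopology A]
  [MeasurableSpace A] [BorelSpace A]

/-- the fibre sum over a point of `(ℂ^r)^s` -/
def fsS {s : ℕ} (G : (Fin s → A) → ℝ≥0∞) (x : Fin s → Cn r) : ℝ≥0∞ :=
  ∑' y : {y : Fin s → A // ∀ i, cp (y i) = x i}, G y.1

lemma fsS_zero (G : (Fin 0 → A) → ℝ≥0∞) (x : Fin 0 → Cn r) : fsS G x = G default := by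
  unfold fsS
  rw [tsum_eq_single (⟨default, fun i => i.elim0⟩ : {y : Fin 0 → A // ∀ i, cp (y i) = x i})]
  rintro ⟨y, hy⟩ hne
  exact absurd (Subtype.ext (Subsingleton.elim _ _)) hne

lemma fsS_succ {s : ℕ} (G : (Fin (s + 1) → A) → ℝ≥0∞) (x : Fin (s + 1) → Cn r) :
    fsS G x = ∑' y : {y : Fin s → A // ∀ i, cp (y i) = x i.succ},
      ∑' y₀ : {y₀ : A // cp y₀ = x 0}, G (Fin.cons y₀.1 y.1) := by
  unfold fsS
  let e : {y : Fin (s + 1) → A // ∀ i, cp (y i) = x i} ≃
      Σ _ : {y : Fin s → A // ∀ i, cp (y i) = x i.succ}, {y₀ : A // cp y₀ = x 0} :=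
    { toFun := fun y => ⟨⟨fun i => y.1 i.succ, fun i => y.2 i.succ⟩, ⟨y.1 0, y.2 0⟩⟩
      invFun := fun q => ⟨Fin.cons q.2.1 q.1.1, fun i => by
        refine Fin.cases ?_ (fun i => ?_) i
        · simpa using q.2.2
        · simpa using q.1.2 i⟩
      left_inv := fun y => by
        apply Subtype.ext
        funext i
        refine Fin.cases ?_ (fun i => ?_) i <;> simp
      right_inv := fun q => by
        rcases q with ⟨⟨y, hy⟩, ⟨y₀, hy₀⟩⟩
        simp }
  have h1 := e.symm.tsum_eq (fun y : {y : Fin (s + 1) → A // ∀ i, cp (y i) = x i} => G y.1)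
  have h2 := ENNReal.tsum_sigma (fun (y : {y : Fin s → A // ∀ i, cp (y i) = x i.succ})
    (y₀ : {y₀ : A // cp y₀ = x 0}) => G (Fin.cons y₀.1 y.1))
  exact h1.symm.trans h2

lemma measurable_cons' {s : ℕ} {B : Type*} [MeasurableSpace B] :
    Measurable fun q : B × (Fin s → B) => (Fin.cons q.1 q.2 : Fin (s + 1) → B) := by
  refine measurable_pi_lambda _ fun j => ?_
  refine Fin.cases ?_ (fun j => ?_) j
  · simpa using measurable_fst
  · exact (measurable_pi_apply j).comp measurable_snd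

/-- fibre sums over `(ℂ^r)^s` are measurable, with parameters -/
theorem measurable_fsS_param {s : ℕ} : ∀ {Z : Type} [MeasurableSpace Z]
    {G : (Fin s → A) × Z → ℝ≥0∞}, Measurable G →
    Measurable fun p : (Fin s → Cn r) × Z => fsS (fun y => G (y, p.2)) p.1 := by
  induction s with
  | zero =>
    intro Z _ G hG
    simp_rw [fsS_zero]
    exact hG.comp (Measurable.prodMk measurable_const measurable_snd)
  | succ s ih =>
    intro Z _ G hG
    have h1 : Measurable fun q : (Fin s → A) × (Cn r × Z) =>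
        ∑' y₀ : {y₀ : A // cp y₀ = q.2.1}, G (Fin.cons y₀.1 q.1, q.2.2) := by
      have h2 : Measurable fun q : A × ((Fin s → A) × Z) =>
          G ((Fin.cons q.1 q.2.1 : Fin (s + 1) → A), q.2.2) :=
        hG.comp (Measurable.prodMk (measurable_cons'.comp
          (Measurable.prodMk measurable_fst (measurable_fst.comp measurable_snd)))
          (measurable_snd.comp measurable_snd))
      have h3 := measurable_fibre_param (n := r) h2
      have h4 : Measurable fun q : (Fin s → A) × (Cn r × Z) =>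
          ((q.2.1, (q.1, q.2.2)) : Cn r × ((Fin s → A) × Z)) :=
        Measurable.prodMk (measurable_fst.comp measurable_snd)
          (Measurable.prodMk measurable_fst (measurable_snd.comp measurable_snd))
      exact h3.comp h4
    have h2 := ih h1
    have h3 : Measurable fun p : (Fin (s + 1) → Cn r) × Z =>
        (((fun i => p.1 i.succ), (p.1 0, p.2)) : (Fin s → Cn r) × (Cn r × Z)) := by
      refine Measurable.prodMk (measurable_pi_lambda _ fun i => ?_) (Measurable.prodMk ?_
        measurable_snd)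
      · exact (measurable_pi_apply _).comp measurable_fst
      · exact (measurable_pi_apply _).comp measurable_fst
    have h4 := h2.comp h3
    have h5 : (fun p : (Fin (s + 1) → Cn r) × Z => fsS (fun y => G (y, p.2)) p.1) =
        (fun p : (Fin s → Cn r) × (Cn r × Z) => fsS (fun y : Fin s → A =>
          ∑' y₀ : {y₀ : A // cp y₀ = p.2.1}, G (Fin.cons y₀.1 y, p.2.2)) p.1) ∘
        fun p : (Fin (s + 1) → Cn r) × Z => ((fun i => p.1 i.succ), (p.1 0, p.2)) := by
      funext p
      rw [fsS_succ]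
      rfl
    rw [h5]
    exact h4

theorem measurable_fsS {s : ℕ} {G : (Fin s → A) → ℝ≥0∞} (hG : Measurable G) :
    Measurable fun x : Fin s → Cn r => fsS G x := by
  have h1 := measurable_fsS_param (r := r) (Z := Unit) (G := fun q : (Fin s → A) × Unit => G q.1)
    (hG.comp measurable_fst)
  exact h1.comp (Measurable.prodMk measurable_id (measurable_const (a := ())))

lemma countable_cp [T2Space A] (ξ : Cn r) : Countable {y : A // cp y = ξ} := by
  have h1 : DiscreteTopology {y : A // cp y = ξ} := by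
    rw [discreteTopology_iff_isOpen_singleton]
    rintro ⟨y, hy⟩
    have h2 : IsOpen ((Subtype.val : {y : A // cp y = ξ} → A) ⁻¹' (ch y).source) :=
      (ch y).open_source.preimage continuous_subtype_val
    have h3 : (Subtype.val : {y : A // cp y = ξ} → A) ⁻¹' (ch y).source = {⟨y, hy⟩} := by
      ext ⟨y', hy'⟩
      simp only [mem_preimage, mem_singleton_iff, Subtype.mk.injEq]
      constructor
      · intro h
        have h4 := (isCh_ch y).symm_cp h
        have h5 := (isCh_ch y).symm_cp (mem_ch y)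
        rw [hy'] at h4
        rw [hy] at h5
        rw [← h4, h5]
      · rintro rfl
        exact mem_ch y'
    rw [← h3]
    exact h2
  exact countable_of_Lindelof_of_discrete

/-- **the `s`-fold fibre integral is the integral for the product measure** -/
theorem fS_pi [T2Space A] {μ : Measure A} (hμ : IsLeb μ) : ∀ {s : ℕ} {G : (Fin s → A) → ℝ≥0∞},
    Measurable G → ∫⁻ x : Fin s → Cn r, fsS G x = ∫⁻ y, G y ∂(Measure.pi fun _ => μ) := by
  have := IsLeb.locallyFinite hμ
  intro s
  induction s with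
  | zero =>
    intro G hG
    simp_rw [fsS_zero]
    rw [lintegral_const, Measure.pi_of_empty, lintegral_dirac]
    have h1 : (volume : Measure (Fin 0 → Cn r)) univ = 1 := by
      rw [volume_pi, Measure.pi_of_empty]
      simp
    rw [h1, mul_one]
    congr 1
  | succ s ih =>
    intro G hG
    have hGc : Measurable fun q : (Fin s → A) × A => G (Fin.cons q.2 q.1) :=
      hG.comp (measurable_cons'.comp (Measurable.prodMk measurable_snd measurable_fst))
    rw [DetB_606.lintegral_succ hG, ← ih hGc.lintegral_prod_right']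
    have h1 : Measurable fun x : Fin (s + 1) → Cn r => fsS G x := measurable_fsS hG
    rw [volume_pi, DetB_606.lintegral_succ h1]
    refine lintegral_congr fun x' => ?_
    have h6 : ∀ x : Cn r, fsS G (Fin.cons x x' : Fin (s + 1) → Cn r) =
        ∑' y : {y : Fin s → A // ∀ i, cp (y i) = x' i},
          ∑' y₀ : {y₀ : A // cp y₀ = x}, G (Fin.cons y₀.1 y.1) := fun x =>
      fsS_succ G (Fin.cons x x' : Fin (s + 1) → Cn r)
    refine (lintegral_congr h6).trans ?_
    have hct : Countable {y : Fin s → A // ∀ i, cp (y i) = x' i} := by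
      have h2 : ∀ i, Countable {y : A // cp y = x' i} := fun i => countable_cp (x' i)
      refine Function.Injective.countable (f := fun (y : {y : Fin s → A // ∀ i, cp (y i) = x' i}) i =>
        (⟨y.1 i, y.2 i⟩ : {y : A // cp y = x' i})) ?_
      intro y y' h
      apply Subtype.ext
      funext i
      exact congrArg (fun t => t.1) (congrFun h i)
    have hm : ∀ y : Fin s → A, Measurable fun y₀ : A => G (Fin.cons y₀ y) := fun y =>
      hG.comp (measurable_cons'.comp (Measurable.prodMk measurable_id measurable_const))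
    refine (lintegral_tsum (f := fun (y : {y : Fin s → A // ∀ i, cp (y i) = x' i}) (x : Cn r) =>
      ∑' y₀ : {y₀ : A // cp y₀ = x}, G (Fin.cons y₀.1 y.1))
      fun y => (measurable_fibre (hm y.1)).aemeasurable).trans ?_
    unfold fsS
    refine tsum_congr fun y => ?_
    exact (lintegral_eq_fibre hμ (hm y.1)).symm

end pi


/-! ### `Rel.fintS` -/

section fintS

variable {L K : Type} [Field L] [Field K] [Algebra ℂ L] [Algebra ℂ K] [Algebra L K]
  [IsScalarTower ℂ L K] {m r : ℕ} {ML : Mdl L m} {MK : Mdl K (m + r)} (H : Rel ML MK)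

/-- the fibre of `M_K → M_L` over `z` -/
abbrev FibR (z : ML.Pts) : Type := (rm H).Fib z

lemma fintS_eq_fsS {s : ℕ} (z : ML.Pts) (G : (Fin s → MK.Pts) → ℝ≥0∞) :
    H.fintS s z G = ∫⁻ x : Fin s → Cn r, fsS (fun y : Fin s → FibR H z => G fun i => (y i).val) x := by
  unfold Rel.fintS fsS
  refine lintegral_congr fun x => ?_
  let e : {y : Fin s → MK.Pts // (∀ i, H.f (y i) = z) ∧
      ∀ i, (fun j => MK.pz (y i) (Fin.natAdd m j)) = x i} ≃
      {y : Fin s → FibR H z // ∀ i, cp (y i) = x i} :=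
    { toFun := fun y => ⟨fun i => ⟨y.1 i, (rm_q H _).trans (y.2.1 i)⟩, fun i => y.2.2 i⟩
      invFun := fun y => ⟨fun i => (y.1 i).val, fun i => (rm_q H _).symm.trans (y.1 i).q_eq,
        fun i => y.2 i⟩
      left_inv := fun _ => rfl
      right_inv := fun _ => rfl }
  exact e.tsum_eq (fun y : {y : Fin s → FibR H z // ∀ i, cp (y i) = x i} =>
    G fun i => (y.1 i).val)

lemma measurable_valS {s : ℕ} (z : ML.Pts) :
    Measurable fun (y : Fin s → FibR H z) (i : Fin s) => (y i).val :=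
  measurable_pi_lambda _ fun i =>
    (RMdl.Fib.continuous_val (R := rm H) z).measurable.comp (measurable_pi_apply i)

/-- `fintS` is the integral for the product of the Lebesgue measures of the fibre -/
theorem fintS_pi {s : ℕ} {z : ML.Pts} {μ : Measure (FibR H z)} (hμ : IsLeb μ)
    {G : (Fin s → MK.Pts) → ℝ≥0∞} (hG : Measurable G) :
    H.fintS s z G = ∫⁻ y : Fin s → FibR H z, G (fun i => (y i).val) ∂(Measure.pi fun _ => μ) := by
  rw [fintS_eq_fsS]
  exact fS_pi hμ (hG.comp (measurable_valS H z))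

/-- **iterated integrals** -/
theorem fintS_succ {s : ℕ} (z : ML.Pts) {G : (Fin (s + 1) → MK.Pts) → ℝ≥0∞} (hG : Measurable G) :
    H.fintS (s + 1) z G = H.fintS s z fun y => H.fint z fun y₀ => G (Fin.cons y₀ y) := by
  obtain ⟨μ, hμ⟩ := Ho51.exists_leb (M := FibR H z)
  have := IsLeb.locallyFinite hμ
  have hGc : Measurable fun q : (Fin s → MK.Pts) × MK.Pts => G (Fin.cons q.2 q.1) :=
    hG.comp (measurable_cons'.comp (Measurable.prodMk measurable_snd measurable_fst))
  have hm : ∀ y : Fin s → MK.Pts, Measurable fun y₀ : MK.Pts => G (Fin.cons y₀ y) := fun y =>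
    hGc.comp (Measurable.prodMk measurable_const measurable_id)
  have h1 := DetB_606.lintegral_succ (μ := μ) (F := fun y : Fin (s + 1) → FibR H z =>
    G fun i => (y i).val) (hG.comp (measurable_valS H z))
  have h2 : (fun y : Fin s → MK.Pts => H.fint z fun y₀ => G (Fin.cons y₀ y)) =
      fun y => ∫⁻ y₀ : FibR H z, G (Fin.cons y₀.val y) ∂μ := by
    funext y
    exact fint_leb H hμ (hm y)
  have h3 : Measurable fun y : Fin s → MK.Pts => ∫⁻ y₀ : FibR H z, G (Fin.cons y₀.val y) ∂μ := by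
    have h4 : Measurable fun q : (Fin s → MK.Pts) × FibR H z => G (Fin.cons q.2.val q.1) :=
      hGc.comp (Measurable.prodMk measurable_fst
        ((RMdl.Fib.continuous_val (R := rm H) z).measurable.comp measurable_snd))
    exact h4.lintegral_prod_right'
  rw [fintS_pi H hμ hG, h2, fintS_pi H hμ h3]
  refine h1.trans (lintegral_congr fun y => lintegral_congr fun y₀ => ?_)
  congr 1
  funext i
  refine Fin.cases ?_ (fun i => ?_) i <;> simp

/-- the `s`-fold integral of a product -/
theorem fintS_prod {s : ℕ} (z : ML.Pts) {g : Fin s → MK.Pts → ℝ≥0∞} (hg : ∀ i, Measurable (g i)) :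
    H.fintS s z (fun y => ∏ i, g i (y i)) = ∏ i, H.fint z (g i) := by
  obtain ⟨μ, hμ⟩ := Ho51.exists_leb (M := FibR H z)
  have := IsLeb.locallyFinite hμ
  have h1 : Measurable fun y : Fin s → MK.Pts => ∏ i, g i (y i) :=
    Finset.measurable_prod _ fun i _ => (hg i).comp (measurable_pi_apply i)
  rw [fintS_pi H hμ h1]
  have h2 := DetB_606.lintegral_prod_eq (μ := μ) (g := fun i (y : FibR H z) => g i y.val)
    fun i => (hg i).comp (RMdl.Fib.continuous_val (R := rm H) z).measurable
  rw [h2]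
  exact Finset.prod_congr rfl fun i _ => (fint_leb H hμ (hg i)).symm

end fintS


/-! ### holomorphy on fibres -/

section holgen

variable {n n' : ℕ} {A A' : Type*} [TopologicalSpace A] [RDom n A] [TopologicalSpace A'] [RDom n' A']

/-- maps over an analytic map of the coordinate spaces: germs -/
lemma germ_comp {φ : A → A'} (hφ : Continuous φ) {ℓ : Cn n → Cn n'} (h : ∀ x, cp (φ x) = ℓ (cp x))
    (x : A) : (fun w => φ ((ch x).symm w)) =ᶠ[𝓝 (cp x)] fun w => (ch (φ x)).symm (ℓ w) := by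
  have hT : (ch x).target ∈ 𝓝 (cp x) := (ch x).open_target.mem_nhds ((isCh_ch x).cp_mem (mem_ch x))
  have h1 : ContinuousAt (ch x).symm (cp x) :=
    (ch x).symm.continuousAt (by simpa using (isCh_ch x).cp_mem (mem_ch x))
  have hc : ContinuousAt (fun w => φ ((ch x).symm w)) (cp x) := hφ.continuousAt.comp h1
  have h2 : ∀ᶠ w in 𝓝 (cp x), φ ((ch x).symm w) ∈ (ch (φ x)).source := by
    apply hc.eventually_mem
    simp only [(isCh_ch x).symm_cp (mem_ch x)]
    exact (ch (φ x)).open_source.mem_nhds (mem_ch (φ x))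
  filter_upwards [hT, h2] with w hw1 hw2
  have h4 := (isCh_ch (φ x)).symm_cp hw2
  rw [h, (isCh_ch x).cp_symm hw1] at h4
  exact h4.symm

/-- composition of a holomorphic function with a map over an analytic map -/
theorem hol_comp {φ : A → A'} (hφ : Continuous φ) {ℓ : Cn n → Cn n'}
    (hℓ : ∀ x : A, AnalyticAt ℂ ℓ (cp x)) (h : ∀ x, cp (φ x) = ℓ (cp x)) {f : A' → ℂ}
    (hf : Ho51.Hol f) : Ho51.Hol (fun x => f (φ x)) := by
  rw [AB2_590.hol51_iff] at hf ⊢
  intro x
  have h1 := hf (φ x)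
  rw [h] at h1
  have h2 := h1.comp (hℓ x)
  refine h2.congr ?_
  filter_upwards [germ_comp hφ h x] with w hw
  simp only [Function.comp_apply]
  rw [hw]

end holgen

lemma analyticAt_append_right {m r : ℕ} (a : Cn m) (x : Cn r) :
    AnalyticAt ℂ (fun x : Cn r => Fin.append a x) x := by
  rw [analyticAt_pi_iff]
  intro i
  refine Fin.addCases (fun i => ?_) (fun j => ?_) i
  · simp only [Fin.append_left]
    exact analyticAt_const
  · simp only [Fin.append_right]
    exact (ContinuousLinearMap.proj (R := ℂ) (φ := fun _ : Fin r => ℂ) j).analyticAt x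

section hol

variable {L K : Type} [Field L] [Field K] [Algebra ℂ L] [Algebra ℂ K] [Algebra L K]
  [IsScalarTower ℂ L K] {m r : ℕ} {ML : Mdl L m} {MK : Mdl K (m + r)} (H : Rel ML MK)

lemma cp_val (z : ML.Pts) (y : FibR H z) : cp y.val = Fin.append (ML.pz z) (cp y) := by
  have h1 := (rm H).append_eq y.val
  rw [y.q_eq] at h1
  exact h1.symm

lemma germ_val (z : ML.Pts) (y : FibR H z) :
    (fun w => ((ch y).symm w).val) =ᶠ[𝓝 (cp y)] fun w => (ch y.val).symm (Fin.append (ML.pz z) w) :=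
  germ_comp (RMdl.Fib.continuous_val (R := rm H) z) (cp_val H z) y

/-- `Rel.HolF` is holomorphy on the Riemann domain `Fib z` -/
theorem holF_iff (z : ML.Pts) (g : MK.Pts → ℂ) :
    H.HolF z g ↔ Ho51.Hol (fun y : FibR H z => g y.val) := by
  rw [AB2_590.hol51_iff]
  have key : ∀ y : FibR H z, (AnalyticAt ℂ ((fun y : FibR H z => g y.val) ∘ (ch y).symm) (cp y) ↔
      AnalyticAt ℂ (fun x : Cn r => g ((ch y.val).symm (Fin.append (ML.pz z) x)))
        (fun j => MK.pz y.val (Fin.natAdd m j))) := by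
    intro y
    have h1 : cp y = (fun j => MK.pz y.val (Fin.natAdd m j)) := rfl
    rw [← h1]
    apply analyticAt_congr
    filter_upwards [germ_val H z y] with w hw
    simp only [Function.comp_apply]
    rw [hw]
  constructor
  · intro h y
    exact (key y).2 (h y.val ((rm_q H _).symm.trans y.q_eq))
  · intro h y hy
    exact (key ⟨y, (rm_q H _).trans hy⟩).1 (h ⟨y, (rm_q H _).trans hy⟩)

/-- restriction of a holomorphic function to a fibre -/
theorem hol_fib (z : ML.Pts) {g : MK.Pts → ℂ} (hg : Ho51.Hol g) :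
    Ho51.Hol (fun y : FibR H z => g y.val) :=
  hol_comp (RMdl.Fib.continuous_val (R := rm H) z) (fun _ => analyticAt_append_right _ _)
    (cp_val H z) hg

/-- elements of `B` are holomorphic -/
theorem hol_ev {K : Type} [Field K] [Algebra ℂ K] {n : ℕ} (M : Mdl K n) (b : M.B) :
    Ho51.Hol (fun y : M.Pts => y b) := AB2_590.hol51_ev M.hch b

end hol

section holS

variable {T L : Type} [Field T] [Field L] [Algebra ℂ T] [Algebra ℂ L] [Algebra T L]
  [IsScalarTower ℂ T L] {ρ a : ℕ} {MT : Mdl T ρ} {ML : Mdl L (ρ + a)} (H : Rel MT ML)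

lemma glue_eL (c : Cn ρ) (x : Cn a) : SkelDefs_220.glue (eL ρ a) c x = Fin.append c x := by
  funext j
  refine Fin.addCases (fun j => ?_) (fun j => ?_) j
  · simp [SkelDefs_220.glue, eL]
  · simp [SkelDefs_220.glue, eL]

lemma xc_eL (y : ML.Pts) : xc ML (eL ρ a) y = fun j => ML.pz y (Fin.natAdd ρ j) := by
  funext i
  simp [xc, eL]

/-- holomorphy along a slice gives holomorphy on the fibres of `M_L → M_T` in the slice -/
theorem hol_of_holS {y₀ : MT.Pts} {g : ML.Pts → ℂ} (hg : HolS ML (eL ρ a) (MT.pz y₀) g) :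
    Ho51.Hol (fun y : FibR H y₀ => g y.val) := by
  rw [← holF_iff]
  intro y hy
  have h1 := hg y (by rw [tc_eL H, hy])
  simp_rw [glue_eL] at h1
  rw [xc_eL] at h1
  exact h1

open scoped Classical in
theorem hol_of_holS_ite {y₀ : MT.Pts} {g : ML.Pts → ℂ}
    (hg : HolS ML (eL ρ a) (MT.pz y₀) fun z => if H.f z = y₀ then g z else 0) :
    Ho51.Hol (fun y : FibR H y₀ => g y.val) := by
  have h1 := hol_of_holS H hg
  have h2 : (fun y : FibR H y₀ => if H.f y.val = y₀ then g y.val else 0) =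
      fun y : FibR H y₀ => g y.val := by
    funext y
    rw [if_pos ((rm_q H _).symm.trans y.q_eq)]
  rw [h2] at h1
  exact h1

open scoped Classical in
/-- the converse: functions on one fibre, extended by zero to the slice -/
theorem holS_ite_of_hol {y₀ : MT.Pts} {g : ML.Pts → ℂ}
    (hg : Ho51.Hol (fun y : FibR H y₀ => g y.val)) :
    HolS ML (eL ρ a) (MT.pz y₀) fun z => if H.f z = y₀ then g z else 0 := by
  intro y hy
  simp_rw [glue_eL]
  rw [xc_eL]
  -- the fibre of `MT` over `c` is discrete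
  set w : MT.Pts := H.f y with hw
  have hwc : MT.pz w = MT.pz y₀ := by rw [← tc_eL H, hy]
  obtain ⟨y', hy'⟩ : ∃ y' : FibR H w, y'.val = y := ⟨⟨y, rm_q H y⟩, rfl⟩
  have hgerm := germ_val H w y'
  have h1 : cp y' = fun j => ML.pz y (Fin.natAdd ρ j) := by
    rw [← hy']
    rfl
  rw [h1, hwc, hy'] at hgerm
  by_cases hyy : w = y₀
  · have h2 := (holF_iff H y₀ g).2 hg y hyy
    refine h2.congr ?_
    filter_upwards [hgerm] with x hx
    rw [← hx, if_pos]
    have h3 := ((ch y').symm x).q_eq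
    rw [rm_q] at h3
    exact h3.trans hyy
  · have h2 : (fun _ : Cn a => (0 : ℂ)) =ᶠ[𝓝 fun j => ML.pz y (Fin.natAdd ρ j)]
        fun x => if H.f ((ch y).symm (Fin.append (MT.pz y₀) x)) = y₀ then
          g ((ch y).symm (Fin.append (MT.pz y₀) x)) else 0 := by
      filter_upwards [hgerm] with x hx
      rw [← hx, if_neg]
      have h3 := ((ch y').symm x).q_eq
      rw [rm_q] at h3
      intro h4
      exact hyy (h3.symm.trans h4)
    exact analyticAt_const.congr h2

end holS

section holTK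

variable {T L K : Type} [Field T] [Field L] [Field K] [Algebra ℂ T] [Algebra ℂ L] [Algebra ℂ K]
  [Algebra T L] [Algebra L K] [Algebra T K] [IsScalarTower ℂ T L] [IsScalarTower ℂ L K]
  [IsScalarTower T L K] [IsScalarTower ℂ T K] {ρ a r : ℕ}
  {MT : Mdl T ρ} {ML : Mdl L (ρ + a)} {MK : Mdl K (ρ + a + r)} (H₁ : Rel MT ML) (H₂ : Rel ML MK)

/-- a point of `M_T` as a point of the base of `(tow H₁ H₂).TK` -/
def bT (y₀ : MT.Pts) : (tow H₁ H₂).TK.ML.Pts := y₀

/-- the fibre of `M_K → M_T` over `y₀` -/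
abbrev FibTK (y₀ : MT.Pts) : Type := (tow H₁ H₂).TK.Fib (bT H₁ H₂ y₀)

variable {H₁ H₂} {y₀ : MT.Pts}

/-- a point of the fibre of `M_K → M_T` as a point of `M_K` -/
def pt (x : FibTK H₁ H₂ y₀) : MK.Pts := x.val

lemma f_pt (x : FibTK H₁ H₂ y₀) : H₁.f (H₂.f (pt x)) = y₀ :=
  (tow_q H₁ H₂ (pt x)).symm.trans x.q_eq

/-- the projection of the fibre of `M_K → M_T` to the fibre of `M_L → M_T` -/
def prL (x : FibTK H₁ H₂ y₀) : FibR H₁ y₀ := ⟨H₂.f (pt x), (rm_q H₁ _).trans (f_pt x)⟩

lemma prL_val (x : FibTK H₁ H₂ y₀) : (prL x).val = H₂.f (pt x) := rfl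

lemma continuous_pt (y₀ : MT.Pts) : Continuous (pt : FibTK H₁ H₂ y₀ → MK.Pts) :=
  RMdl.Fib.continuous_val (R := (tow H₁ H₂).TK) _

lemma continuous_f {L K : Type} [Field L] [Field K] [Algebra ℂ L] [Algebra ℂ K] [Algebra L K]
    [IsScalarTower ℂ L K] {m r : ℕ} {ML : Mdl L m} {MK : Mdl K (m + r)} (H : Rel ML MK) :
    Continuous H.f := by
  have h1 : H.f = (rm H).q := funext fun y => (rm_q H y).symm
  rw [h1]
  exact (rm H).continuous_q

lemma continuous_prL (y₀ : MT.Pts) : Continuous (prL : FibTK H₁ H₂ y₀ → FibR H₁ y₀) := by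
  refine (Topology.IsInducing.continuous_iff (g := (RMdl.Fib.val (rm H₁) : FibR H₁ y₀ → ML.Pts))
    ⟨rfl⟩).mpr ?_
  exact (continuous_f H₂).comp (continuous_pt y₀)

lemma cp_pt (x : FibTK H₁ H₂ y₀) :
    cp x = Fin.append (cp (prL x)) (fun j => MK.pz (pt x) (Fin.natAdd (ρ + a) j)) := by
  have h1 := x_TK (tow H₁ H₂) (pt x)
  exact Eq.trans h1 (congrArg (fun q : ML.Pts => Fin.append ((rm H₁).x q) ((rm H₂).x (pt x)))
    (rm_q H₂ (pt x)))

/-- **pull-back of a holomorphic function on `G_{y₀}` to the fibre of `M_K → M_T`** -/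
theorem hol_prL {g : FibR H₁ y₀ → ℂ} (hg : Ho51.Hol g) :
    Ho51.Hol (fun x : FibTK H₁ H₂ y₀ => g (prL x)) := by
  refine hol_comp (continuous_prL y₀) (ℓ := fun w : Cn (a + r) => fun i => w (Fin.castAdd r i))
    (fun x => ?_) (fun x => ?_) hg
  · rw [analyticAt_pi_iff]
    intro i
    exact (ContinuousLinearMap.proj (R := ℂ) (φ := fun _ : Fin (a + r) => ℂ)
      (Fin.castAdd r i)).analyticAt _
  · funext i
    have h2 := congrFun (cp_pt x) (Fin.castAdd r i)
    rw [Fin.append_left] at h2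
    exact h2.symm

/-- elements of `B_K` are holomorphic on the fibre -/
theorem hol_pt_ev (b : MK.B) : Ho51.Hol (fun x : FibTK H₁ H₂ y₀ => pt x b) := by
  have h1 := hol_ev ((tow H₁ H₂).TK.MK) b
  have h2 : ∀ x : FibTK H₁ H₂ y₀, cp x.val =
      Fin.append ((tow H₁ H₂).TK.ML.pz (bT H₁ H₂ y₀)) (cp x) := by
    intro x
    have h3 := (tow H₁ H₂).TK.append_eq x.val
    rw [x.q_eq] at h3
    exact h3.symm
  exact hol_comp (RMdl.Fib.continuous_val (R := (tow H₁ H₂).TK) _)
    (fun _ => analyticAt_append_right _ _) h2 h1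

end holTK

end Crest.Agent.R276.RelC_870
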