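import Mathlib
import Crest.Agent.R276.Mod3_987

/-!
# Row 276 (S0419), GRO-LOW, part 0 (helper358): absolute traces on a model

For `b` in the coordinate ring of a model `M : Mdl K n` there are `k` and a polynomial `Q` with
`h(ζ)^k ∑_{y over ζ} y(b) = Q(ζ)` for all `ζ` with `h(ζ) ≠ 0` (`exists_trace`).  Purely algebraic:
for a monic polynomial `μ` with distinct roots `t`, `∑ q(t)` is the coefficient of `X^(d-1)` in
`(q μ') mod μ` (Euler).  Also: sheets over a point are separated by elements of `B` (`exists_sep`).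
-/

set_option autoImplicit false

open Polynomial Topology Filter MeasureTheory

noncomputable section

namespace Crest.Agent.R276.Gram0_358

open Crest.Agent.R271.Defs710 Crest.Agent.R271.Alg255 Crest.Agent.R271.Rd692
open Crest.Agent.R271.AlgB956 Crest.Agent.R271.Ho51 Crest.Agent.R276.Mod1_987

/-! ### Euler's formula -/

section euler

variable {F ι : Type*} [Field F] [DecidableEq ι]

omit [DecidableEq ι] in
/-- a monic polynomial of degree `#s` vanishing at the distinct nodes is the nodal polynomial -/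
lemma eq_nodal {s : Finset ι} {v : ι → F} (hvs : Set.InjOn v s) {μ : F[X]} (hm : μ.Monic)
    (hd : μ.natDegree = s.card) (h0 : ∀ i ∈ s, μ.eval (v i) = 0) : μ = Lagrange.nodal s v := by
  apply Polynomial.eq_of_degree_sub_lt_of_eval_index_eq s hvs
  · have h1 : μ.degree = (Lagrange.nodal s v).degree := by
      rw [Lagrange.degree_nodal, degree_eq_natDegree hm.ne_zero, hd]
    have h2 := degree_sub_lt_left h1 hm.ne_zero (by
      rw [hm.leadingCoeff, (Lagrange.nodal_monic (s := s) (v := v)).leadingCoeff])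
    rw [degree_eq_natDegree hm.ne_zero, hd] at h2
    exact h2
  · intro i hi
    rw [h0 i hi, Lagrange.eval_nodal_at_node hi]

/-- the sum of the values of `q` at the roots of `μ` -/
lemma sum_eval_eq {s : Finset ι} {v : ι → F} (hvs : Set.InjOn v s) {μ : F[X]} (hm : μ.Monic)
    (hd : μ.natDegree = s.card) (h0 : ∀ i ∈ s, μ.eval (v i) = 0) (q : F[X]) :
    ∑ i ∈ s, q.eval (v i) = ((q * derivative μ) %ₘ μ).coeff (s.card - 1) := by
  have hdeg : ((q * derivative μ) %ₘ μ).degree < s.card := by
    have h1 := degree_modByMonic_lt (q * derivative μ) hm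
    rw [degree_eq_natDegree hm.ne_zero, hd] at h1
    exact h1
  rw [Lagrange.coeff_eq_sum hvs hdeg]
  apply Finset.sum_congr rfl
  intro i hi
  have h2 : ((q * derivative μ) %ₘ μ).eval (v i) = q.eval (v i) * (derivative μ).eval (v i) := by
    have h3 := congrArg (Polynomial.eval (v i)) (modByMonic_add_div (q * derivative μ) μ)
    rw [eval_add, eval_mul, h0 i hi, zero_mul, add_zero, eval_mul] at h3
    exact h3
  have h4 : (derivative μ).eval (v i) = ∏ j ∈ s.erase i, (v i - v j) := by
    rw [eq_nodal hvs hm hd h0, Lagrange.eval_nodal_derivative_eval_node_eq hi,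
      Lagrange.eval_nodal]
  have h5 : ∏ j ∈ s.erase i, (v i - v j) ≠ 0 := by
    rw [Finset.prod_ne_zero_iff]
    intro j hj h
    rw [Finset.mem_erase] at hj
    exact hj.1 (hvs hj.2 hi (sub_eq_zero.mp h).symm)
  rw [h2, h4, mul_div_assoc, div_self h5, mul_one]

end euler

/-! ### finite fibres -/

section model

variable {K : Type} [Field K] [Algebra ℂ K] {n : ℕ} (M : Mdl K n)

lemma fib_finite (ζ : Cn n) : {y : M.Pts | M.pz y = ζ}.Finite := by
  by_cases hζ : MvPolynomial.eval ζ M.h = 0
  · have : {y : M.Pts | M.pz y = ζ} = ∅ := by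
      ext y
      simp only [Set.mem_ofPred_eq, Set.mem_empty_iff_false, iff_false]
      intro hy
      exact M.eval_h_ne y (by rw [hy]; exact hζ)
    rw [this]
    exact Set.finite_empty
  · exact Set.toFinite_toSet_of M hζ
where
  Set.toFinite_toSet_of {K : Type} [Field K] [Algebra ℂ K] {n : ℕ} (M : Mdl K n) {ζ : Cn n}
    (hζ : MvPolynomial.eval ζ M.h ≠ 0) : {y : M.Pts | M.pz y = ζ}.Finite := by
    have h1 := (M.card_fib hζ).2
    exact Set.finite_coe_iff.mp h1

/-- the finite set of points over `ζ` -/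
def fs (ζ : Cn n) : Finset M.Pts := (fib_finite M ζ).toFinset

@[simp] lemma mem_fs {ζ : Cn n} {y : M.Pts} : y ∈ fs M ζ ↔ M.pz y = ζ := by
  simp [fs]

lemma card_fs {ζ : Cn n} (hζ : MvPolynomial.eval ζ M.h ≠ 0) : (fs M ζ).card = M.deg := by
  have h1 := (M.card_fib hζ).1
  rw [← h1]
  have h2 : Nat.card {y : M.Pts // M.pz y = ζ} = Nat.card (fs M ζ) :=
    Nat.card_congr (Equiv.subtypeEquivRight fun y => by simp)
  rw [h2, Nat.card_eq_fintype_card, Fintype.card_coe]

lemma card_fs_le (ζ : Cn n) : (fs M ζ).card ≤ M.deg := by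
  by_cases hζ : MvPolynomial.eval ζ M.h = 0
  · have : fs M ζ = ∅ := by
      ext y
      simp only [mem_fs, Finset.notMem_empty, iff_false]
      intro hy
      exact M.eval_h_ne y (by rw [hy]; exact hζ)
    rw [this]
    simp
  · exact (card_fs M hζ).le

lemma injOn_θ (ζ : Cn n) : Set.InjOn (fun y : M.Pts => y M.θ) (fs M ζ) := by
  intro y hy y' hy' h
  rw [Finset.mem_coe, mem_fs] at hy hy'
  exact M.pt_ext (hy.trans hy'.symm) h

lemma apply_eval₂ (y : M.Pts) (q : Polynomial (MvPolynomial (Fin n) ℂ)) :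
    y (Polynomial.eval₂ (az M.z) M.θ q) = (q.map (MvPolynomial.eval (M.pz y))).eval (y M.θ) := by
  have h1 := Polynomial.hom_eval₂ q (az M.z) (y : M.B →+* ℂ) M.θ
  have h2 : (y : M.B →+* ℂ).comp (az M.z) = MvPolynomial.eval (M.pz y) :=
    RingHom.ext fun p => M.apply_az' y p
  rw [h2] at h1
  rw [eval_map]
  exact h1

/-- **absolute traces are polynomials divided by powers of `h`** -/
theorem exists_trace (b : M.B) : ∃ (k : ℕ) (Q : MvPolynomial (Fin n) ℂ), ∀ ζ : Cn n,
    MvPolynomial.eval ζ M.h ≠ 0 →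
    MvPolynomial.eval ζ M.h ^ k * ∑ y ∈ fs M ζ, y b = MvPolynomial.eval ζ Q := by
  classical
  obtain ⟨k, q, hq⟩ := M.gen b
  refine ⟨k, ((q * derivative M.μ) %ₘ M.μ).coeff (M.deg - 1), fun ζ hζ => ?_⟩
  have hm : (M.μ.map (MvPolynomial.eval ζ)).Monic := M.monic.map _
  have hd : (M.μ.map (MvPolynomial.eval ζ)).natDegree = (fs M ζ).card := by
    rw [card_fs M hζ, M.monic.natDegree_map]
  have h0 : ∀ y ∈ fs M ζ, (M.μ.map (MvPolynomial.eval ζ)).eval (y M.θ) = 0 := by
    intro y hy
    rw [mem_fs] at hy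
    have := M.eval_μ_eq_zero y
    rw [hy] at this
    exact this
  have h1 := sum_eval_eq (injOn_θ M ζ) hm hd h0 (q.map (MvPolynomial.eval ζ))
  rw [Finset.mul_sum]
  have h2 : ∀ y ∈ fs M ζ, MvPolynomial.eval ζ M.h ^ k * y b =
      (q.map (MvPolynomial.eval ζ)).eval (y M.θ) := by
    intro y hy
    rw [mem_fs] at hy
    have h3 := congrArg y hq
    rw [map_mul, M.apply_az', map_pow, apply_eval₂, hy] at h3
    exact h3
  rw [Finset.sum_congr rfl h2, h1, card_fs M hζ, Polynomial.derivative_map, ← Polynomial.map_mul,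
    ← Polynomial.map_modByMonic _ M.monic, Polynomial.coeff_map]

/-- an element of `B` which is `1` at `y₀` and `0` at the other points over `pz y₀` -/
theorem exists_sep (y₀ : M.Pts) : ∃ v : M.B, y₀ v = 1 ∧
    ∀ y : M.Pts, M.pz y = M.pz y₀ → y ≠ y₀ → y v = 0 := by
  classical
  let s := fs M (M.pz y₀)
  have hinj := injOn_θ M (M.pz y₀)
  have hy₀ : y₀ ∈ s := by simp [s]
  let P : ℂ[X] := Lagrange.basis s (fun y : M.Pts => y M.θ) y₀
  have hP : ∀ y : M.Pts, y (aeval M.θ P) = P.eval (y M.θ) := by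
    intro y
    rw [← Polynomial.aeval_algHom_apply, Polynomial.aeval_def, Polynomial.eval₂_eq_eval_map]
    simp
  refine ⟨aeval M.θ P, ?_, ?_⟩
  · rw [hP]
    exact Lagrange.eval_basis_self hinj hy₀
  · intro y hy hne
    rw [hP]
    have hys : y ∈ s := (mem_fs M).mpr hy
    exact Lagrange.eval_basis_of_ne (s := s) (v := fun y : M.Pts => y M.θ) (Ne.symm hne) hys

end model

end Crest.Agent.R276.Gram0_358
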