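import Mathlib
import Crest.Agent.R276.Gram0_358

/-!
# Row 276 (S0419), GRO-LOW, part 1 (helper358): relative models and relative traces

`Rel ML MK`: minimal data of a relative model (`L → K`, `ML.B → MK.B`, the first coordinates of `MK`
are those of `ML`).  `q : MK.Pts → ML.Pts`, `xx` the last `r` coordinates, `fsr w x` the finite set
of points over `(w, x)`.

`exists_rtrace`: `h(z,x)^k ∑_{y ∈ fsr w x} y(b) = w(a)` for some `a : ML.B`, for all `w` with
`h(pz w, x) ≠ 0`.
-/

set_option autoImplicit false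

open Polynomial Topology Filter MeasureTheory

noncomputable section

namespace Crest.Agent.R276.Gram1_358

open Crest.Agent.R271.Defs710 Crest.Agent.R271.Alg255 Crest.Agent.R271.Rd692
open Crest.Agent.R271.AlgB956 Crest.Agent.R271.Ho51 Crest.Agent.R276.Mod1_987
open Crest.Agent.R276.Gram0_358

/-! ### substitution of the last coordinates -/

section sub

variable {m r : ℕ}

/-- substitution of the last `r` coordinates -/
def sx (x : Cn r) : MvPolynomial (Fin (m + r)) ℂ →ₐ[ℂ] MvPolynomial (Fin m) ℂ :=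
  MvPolynomial.aeval (Fin.append (fun i => MvPolynomial.X i) (fun i => MvPolynomial.C (x i)))

lemma eval_sx (x : Cn r) (z : Cn m) (p : MvPolynomial (Fin (m + r)) ℂ) :
    MvPolynomial.eval z (sx x p) = MvPolynomial.eval (Fin.append z x) p := by
  unfold sx
  have h1 := MvPolynomial.comp_aeval_apply (R := ℂ)
    (Fin.append (fun i => (MvPolynomial.X i : MvPolynomial (Fin m) ℂ))
      (fun i => MvPolynomial.C (x i))) (MvPolynomial.aeval z : MvPolynomial (Fin m) ℂ →ₐ[ℂ] ℂ) p
  have h2 : (fun i => MvPolynomial.aeval z (Fin.append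
      (fun i => (MvPolynomial.X i : MvPolynomial (Fin m) ℂ))
      (fun i => MvPolynomial.C (x i)) i)) = Fin.append z x := by
    funext i
    refine Fin.addCases (fun i => ?_) (fun i => ?_) i
    · simp
    · simp
  rw [h2] at h1
  have h3 : ∀ (k : ℕ) (t : Fin k → ℂ) (p : MvPolynomial (Fin k) ℂ),
      MvPolynomial.eval t p = MvPolynomial.aeval t p := fun k t p => by
    rw [MvPolynomial.aeval_eq_eval]
  rw [h3, h3]
  exact h1

end sub

/-! ### relative models -/

section rel

variable {L K : Type} [Field L] [Algebra ℂ L] [Field K] [Algebra ℂ K] [Algebra L K] {m r : ℕ}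

/-- minimal data of a relative model -/
structure Rel (ML : Mdl L m) (MK : Mdl K (m + r)) where
  /-- the inclusion of the coordinate rings -/
  inc : ML.B →ₐ[ℂ] MK.B
  inc_val : ∀ b : ML.B, ((inc b : MK.B) : K) = algebraMap L K b
  hz : ∀ i, MK.z (Fin.castAdd r i) = inc (ML.z i)

namespace Rel

variable {ML : Mdl L m} {MK : Mdl K (m + r)} (R : Rel ML MK)

/-- the projection -/
def q (y : MK.Pts) : ML.Pts := y.comp R.inc

@[simp] lemma q_apply (y : MK.Pts) (b : ML.B) : R.q y b = y (R.inc b) := rfl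

/-- the fibre coordinates -/
def xx (_ : Rel ML MK) (y : MK.Pts) : Cn r := fun i => y (MK.z (Fin.natAdd m i))

lemma pz_eq (y : MK.Pts) : MK.pz y = Fin.append (ML.pz (R.q y)) (R.xx y) := by
  funext i
  refine Fin.addCases (fun i => ?_) (fun i => ?_) i
  · rw [Fin.append_left]
    change y (MK.z (Fin.castAdd r i)) = y (R.inc (ML.z i))
    rw [R.hz]
  · rw [Fin.append_right]
    rfl

open Classical in
/-- the points over `(w, x)` -/
def fsr (w : ML.Pts) (x : Cn r) : Finset MK.Pts :=
  (fs MK (Fin.append (ML.pz w) x)).filter fun y => R.q y = w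

open Classical in
@[simp] lemma mem_fsr {w : ML.Pts} {x : Cn r} {y : MK.Pts} :
    y ∈ R.fsr w x ↔ R.q y = w ∧ R.xx y = x := by
  unfold fsr
  rw [Finset.mem_filter, mem_fs, R.pz_eq]
  constructor
  · rintro ⟨h1, h2⟩
    refine ⟨h2, ?_⟩
    rw [h2] at h1
    funext i
    have h3 := congrFun h1 (Fin.natAdd m i)
    rw [Fin.append_right, Fin.append_right] at h3
    exact h3
  · rintro ⟨h1, h2⟩
    rw [h1, h2]
    exact ⟨rfl, rfl⟩

open Classical in
lemma card_fsr_le (w : ML.Pts) (x : Cn r) : (R.fsr w x).card ≤ MK.deg :=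
  (Finset.card_filter_le _ _).trans (card_fs_le MK _)

/-- **relative traces** -/
theorem exists_rtrace (b : MK.B) (x : Cn r) : ∃ (k : ℕ) (a : ML.B), ∀ w : ML.Pts,
    MvPolynomial.eval (Fin.append (ML.pz w) x) MK.h ≠ 0 →
    MvPolynomial.eval (Fin.append (ML.pz w) x) MK.h ^ k * ∑ y ∈ R.fsr w x, y b = w a := by
  classical
  -- the quotient `μ / (T - θ)` over `ML.B`
  set μB : Polynomial ML.B := ML.μ.map (az ML.z) with hμB
  have hroot : μB.IsRoot ML.θ := by
    rw [hμB, IsRoot.def, eval_map]
    exact ML.root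
  set g : Polynomial ML.B := μB /ₘ (X - C ML.θ) with hg
  have hgm : (X - C ML.θ) * g = μB := mul_divByMonic_eq_iff_isRoot.mpr hroot
  -- the derivative is a unit
  set D : ML.B := (derivative μB).eval ML.θ with hD
  have hDg : D = g.eval ML.θ := by
    have h1 := congrArg (fun p => (derivative p).eval ML.θ) hgm
    simp only [derivative_mul, derivative_sub, derivative_X, derivative_C, sub_zero, one_mul,
      eval_add, eval_mul, eval_sub, eval_X, eval_C, sub_self, zero_mul, add_zero] at h1
    exact h1.symm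
  have hDu : IsUnit D := by
    obtain ⟨a, b, hab⟩ := ML.bez
    have h1 := congrArg (Polynomial.eval₂ (az ML.z) ML.θ) hab
    rw [Polynomial.eval₂_add, Polynomial.eval₂_mul, Polynomial.eval₂_mul, ML.root,
      Polynomial.eval₂_C, mul_zero, zero_add] at h1
    have h2 : Polynomial.eval₂ (az ML.z) ML.θ (derivative ML.μ) = D := by
      rw [hD, hμB, Polynomial.derivative_map, eval_map]
    rw [h2] at h1
    have h3 : IsUnit (Polynomial.eval₂ (az ML.z) ML.θ b * D) := by
      rw [h1]
      exact ML.h_unit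
    exact isUnit_of_mul_isUnit_right h3
  obtain ⟨Du, hDu'⟩ := hDu
  -- absolute traces
  choose k Q hQ using fun j : ℕ => exists_trace MK (b * R.inc ML.θ ^ j)
  set N := g.natDegree + 1 with hN
  set kk := ∑ j ∈ Finset.range N, k j with hkk
  refine ⟨kk, ((Du⁻¹ : ML.Bˣ) : ML.B) *
    ∑ j ∈ Finset.range N, g.coeff j * az ML.z (sx x (MK.h ^ (kk - k j) * Q j)), fun w hw => ?_⟩
  have hle : ∀ j ∈ Finset.range N, k j ≤ kk := fun j hj =>
    Finset.single_le_sum (f := k) (fun _ _ => Nat.zero_le _) hj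
  set ζ := Fin.append (ML.pz w) x with hζ
  -- values of `g` at the sheets
  have hgw : ∀ t : ℂ, (t - w ML.θ) * (g.map (w : ML.B →+* ℂ)).eval t =
      (ML.μ.map (MvPolynomial.eval (ML.pz w))).eval t := by
    intro t
    have h1 := congrArg (fun p => (p.map (w : ML.B →+* ℂ)).eval t) hgm
    simp only [Polynomial.map_mul, Polynomial.map_sub, Polynomial.map_X, Polynomial.map_C,
      eval_mul, eval_sub, eval_X, eval_C] at h1
    rw [hμB, Polynomial.map_map] at h1
    have h2 : (w : ML.B →+* ℂ).comp (az ML.z) = MvPolynomial.eval (ML.pz w) :=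
      RingHom.ext fun p => ML.apply_az' w p
    rw [h2] at h1
    exact h1
  have hsum : ∀ t : ℂ, (g.map (w : ML.B →+* ℂ)).eval t =
      ∑ j ∈ Finset.range N, w (g.coeff j) * t ^ j := by
    intro t
    rw [eval_map, Polynomial.eval₂_eq_sum_range]
    rfl
  have key : w D * ∑ y ∈ R.fsr w x, y b =
      ∑ y ∈ fs MK ζ, y b * (g.map (w : ML.B →+* ℂ)).eval (y (R.inc ML.θ)) := by
    rw [fsr, Finset.sum_filter, Finset.mul_sum]
    apply Finset.sum_congr rfl
    intro y hy
    rw [mem_fs, R.pz_eq] at hy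
    have hz : ML.pz (R.q y) = ML.pz w := by
      funext i
      have h3 := congrFun hy (Fin.castAdd r i)
      rw [Fin.append_left, Fin.append_left] at h3
      exact h3
    by_cases hyw : R.q y = w
    · rw [if_pos hyw]
      have h4 : y (R.inc ML.θ) = w ML.θ := by
        rw [← R.q_apply, hyw]
      have h5 : (g.map (w : ML.B →+* ℂ)).eval (w ML.θ) = w D := by
        have h6 := Polynomial.eval_map_apply (f := (w : ML.B →+* ℂ)) (p := g) ML.θ
        rw [hDg]
        exact h6
      rw [h4, h5, mul_comm]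
    · rw [if_neg hyw, mul_zero]
      have h4 : (ML.μ.map (MvPolynomial.eval (ML.pz w))).eval (y (R.inc ML.θ)) = 0 := by
        have := ML.eval_μ_eq_zero (R.q y)
        rw [hz] at this
        exact this
      have h5 := hgw (y (R.inc ML.θ))
      rw [h4] at h5
      have h6 : y (R.inc ML.θ) - w ML.θ ≠ 0 := by
        intro h
        apply hyw
        apply ML.pt_ext hz
        exact sub_eq_zero.mp h
      rw [(mul_eq_zero.mp h5).resolve_left h6, mul_zero]
  have key2 : ∑ y ∈ fs MK ζ, y b * (g.map (w : ML.B →+* ℂ)).eval (y (R.inc ML.θ)) =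
      ∑ j ∈ Finset.range N, w (g.coeff j) * ∑ y ∈ fs MK ζ, y (b * R.inc ML.θ ^ j) := by
    simp only [hsum, Finset.mul_sum]
    rw [Finset.sum_comm]
    apply Finset.sum_congr rfl
    intro j _
    apply Finset.sum_congr rfl
    intro y _
    rw [map_mul, map_pow]
    ring
  have hDw : w D * w ((Du⁻¹ : ML.Bˣ) : ML.B) = 1 := by
    rw [← map_mul, ← hDu', Units.mul_inv, map_one]
  have hfin : w (∑ j ∈ Finset.range N, g.coeff j * az ML.z (sx x (MK.h ^ (kk - k j) * Q j))) =
      MvPolynomial.eval ζ MK.h ^ kk * (w D * ∑ y ∈ R.fsr w x, y b) := by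
    rw [key, key2, map_sum, Finset.mul_sum]
    apply Finset.sum_congr rfl
    intro j hj
    rw [map_mul, ML.apply_az', eval_sx, map_mul, map_pow, ← hQ j ζ hw, ← hζ]
    have h7 : MvPolynomial.eval ζ MK.h ^ kk =
        MvPolynomial.eval ζ MK.h ^ (kk - k j) * MvPolynomial.eval ζ MK.h ^ (k j) := by
      rw [← pow_add, Nat.sub_add_cancel (hle j hj)]
    rw [h7]
    ring
  rw [map_mul, hfin]
  calc MvPolynomial.eval ζ MK.h ^ kk * ∑ y ∈ R.fsr w x, y b
      = (w D * w ((Du⁻¹ : ML.Bˣ) : ML.B)) *
        (MvPolynomial.eval ζ MK.h ^ kk * ∑ y ∈ R.fsr w x, y b) := by rw [hDw, one_mul]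
    _ = _ := by ring

/-- relative traces of finitely many elements, with one exponent -/
theorem exists_rtrace_family {ι : Type*} [Fintype ι] (b : ι → MK.B) (x : Cn r) :
    ∃ (k : ℕ) (a : ι → ML.B), ∀ (i : ι) (w : ML.Pts),
      MvPolynomial.eval (Fin.append (ML.pz w) x) MK.h ≠ 0 →
      MvPolynomial.eval (Fin.append (ML.pz w) x) MK.h ^ k * ∑ y ∈ R.fsr w x, y (b i) =
        w (a i) := by
  classical
  choose k a ha using fun i => R.exists_rtrace (b i) x
  refine ⟨∑ i, k i, fun i => az ML.z (sx x MK.h) ^ ((∑ i, k i) - k i) * a i, fun i w hw => ?_⟩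
  have hle : k i ≤ ∑ i, k i :=
    Finset.single_le_sum (f := k) (fun _ _ => Nat.zero_le _) (Finset.mem_univ i)
  rw [map_mul, ← ha i w hw, map_pow, ML.apply_az', eval_sx, ← mul_assoc, ← pow_add,
    Nat.sub_add_cancel hle]

end Rel

end rel

end Crest.Agent.R276.Gram1_358
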