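import Mathlib
import Crest.Agent.R276.Gram1_358

/-!
# Row 276 (S0419), GRO-LOW, part 2 (helper358): the Gram lemma

`exists_gram`: `u : Fin s → MK.B` linearly independent over `L` ⇒ there are `x₁, …, x_s ∈ ℂ^r`,
`P ≠ 0` in `ℂ[z]`, `c > 0`, `A`, `B` such that for ALL `w ∈ ML.Pts` with `P(pz w) ≠ 0` there are points
`y_j` over `(w, x_j)` with `c |P|^A ≤ |det (y_j u_i)| (1+|z|²)^B` and the same for `|h_K(pz y_j)|`.
-/

set_option autoImplicit false

open Polynomial Topology Filter MeasureTheory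

noncomputable section

namespace Crest.Agent.R276.Gram2_358

open Crest.Agent.R271.Defs710 Crest.Agent.R271.Alg255 Crest.Agent.R271.Rd692
open Crest.Agent.R271.AlgB956 Crest.Agent.R271.Ho51 Crest.Agent.R276.Mod1_987
open Crest.Agent.R276.Gram0_358 Crest.Agent.R276.Gram1_358

/-! ### linear algebra -/

/-- a set of vectors with zero orthogonal complement contains a basis -/
theorem exists_det_ne_zero {F : Type*} [Field F] {s : ℕ} (S : Set (Fin s → F))
    (h : ∀ d : Fin s → F, (∀ c ∈ S, ∑ i, d i * c i = 0) → d = 0) :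
    ∃ c : Fin s → Fin s → F, (∀ j, c j ∈ S) ∧ (Matrix.of c).det ≠ 0 := by
  classical
  have hspan : ⊤ ≤ Submodule.span F S := by
    by_contra hlt
    rw [top_le_iff] at hlt
    obtain ⟨f, hf0, hf⟩ := Submodule.exists_le_ker_of_lt_top _ (lt_top_iff_ne_top.mpr hlt)
    apply hf0
    have h1 : ∀ c : Fin s → F, f c = ∑ i, f (Pi.single i 1) * c i := by
      intro c
      conv_lhs => rw [← (Pi.basisFun F (Fin s)).sum_repr c]
      rw [map_sum]
      apply Finset.sum_congr rfl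
      intro i _
      rw [map_smul, Pi.basisFun_repr, Pi.basisFun_apply, smul_eq_mul, mul_comm]
    have h2 := h (fun i => f (Pi.single i 1)) (by
      intro c hc
      rw [← h1 c]
      exact hf (Submodule.subset_span hc))
    ext i
    have h3 := congrFun h2 i
    simpa using h3
  let b := Module.Basis.ofSpan hspan
  let e := b.indexEquiv (Pi.basisFun F (Fin s))
  let b' := b.reindex e
  refine ⟨fun j => b' j, fun j => ?_, ?_⟩
  · apply Module.Basis.ofSpan_subset hspan
    refine ⟨e.symm j, ?_⟩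
    simp [b', b]
  · have h1 : LinearIndependent F (Matrix.of fun j => b' j).row := b'.linearIndependent
    rw [Matrix.linearIndependent_rows_iff_isUnit, Matrix.isUnit_iff_isUnit_det] at h1
    exact h1.ne_zero

/-- multilinear expansion of a determinant whose rows are sums -/
theorem det_sum_rows {F Y : Type*} [CommRing F] [DecidableEq Y] {s : ℕ} (A : Fin s → Finset Y)
    (t : Fin s → Y → F) (V : Fin s → Y → Fin s → F) :
    (Matrix.of fun j i => ∑ y ∈ A j, t j y * V j y i).det =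
      ∑ y ∈ Fintype.piFinset A, (∏ j, t j (y j)) * (Matrix.of fun j i => V j (y j) i).det := by
  have h1 := (Matrix.detRowAlternating (n := Fin s) (R := F)).toMultilinearMap.map_sum_finset
    (fun j y => t j y • V j y) A
  have h2 : (fun j => ∑ y ∈ A j, t j y • V j y) =
      (Matrix.of fun j i => ∑ y ∈ A j, t j y * V j y i) := by
    ext j i
    simp [Finset.sum_apply]
  have h3 : ∀ y : Fin s → Y, (Matrix.detRowAlternating (n := Fin s) (R := F)).toMultilinearMap
      (fun j => t j (y j) • V j (y j)) =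
      (∏ j, t j (y j)) * (Matrix.of fun j i => V j (y j) i).det := by
    intro y
    rw [MultilinearMap.map_smul_univ]
    rfl
  rw [h2] at h1
  simp only [h3] at h1
  exact h1

/-! ### weights -/

section wt

variable {n : ℕ}

/-- the weight `1 + |z|²` -/
def wt (z : Cn n) : ℝ := 1 + ∑ i, ‖z i‖ ^ 2

lemma one_le_wt (z : Cn n) : 1 ≤ wt z := by
  unfold wt
  have : 0 ≤ ∑ i, ‖z i‖ ^ 2 := Finset.sum_nonneg fun _ _ => by positivity
  linarith

lemma wt_pos (z : Cn n) : 0 < wt z := lt_of_lt_of_le one_pos (one_le_wt z)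

lemma norm_le_wt (z : Cn n) (i : Fin n) : ‖z i‖ ≤ wt z := by
  have h1 : ‖z i‖ ^ 2 ≤ ∑ i, ‖z i‖ ^ 2 :=
    Finset.single_le_sum (f := fun i => ‖z i‖ ^ 2) (fun _ _ => by positivity) (Finset.mem_univ i)
  unfold wt
  nlinarith [sq_nonneg (‖z i‖ - 1), norm_nonneg (z i)]

lemma wt_append {m r : ℕ} (z : Cn m) (x : Cn r) : wt (Fin.append z x) ≤ wt z * wt x := by
  unfold wt
  rw [Fin.sum_univ_add]
  simp only [Fin.append_left, Fin.append_right]
  have h1 : 0 ≤ ∑ i, ‖z i‖ ^ 2 := Finset.sum_nonneg fun _ _ => by positivity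
  have h2 : 0 ≤ ∑ i, ‖x i‖ ^ 2 := Finset.sum_nonneg fun _ _ => by positivity
  nlinarith [mul_nonneg h1 h2]

lemma pow_le_wt {z : Cn n} {k l : ℕ} (h : k ≤ l) : wt z ^ k ≤ wt z ^ l :=
  pow_le_pow_right₀ (one_le_wt z) h

/-- polynomials have polynomial growth -/
theorem exists_poly_bound (p : MvPolynomial (Fin n) ℂ) : ∃ (C : ℝ) (k : ℕ), 0 < C ∧
    ∀ z : Cn n, ‖MvPolynomial.eval z p‖ ≤ C * wt z ^ k := by
  induction p using MvPolynomial.induction_on with
  | C a =>
    refine ⟨‖a‖ + 1, 0, by positivity, fun z => ?_⟩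
    rw [MvPolynomial.eval_C, pow_zero, mul_one]
    linarith
  | add p q hp hq =>
    obtain ⟨C, k, hC, h1⟩ := hp
    obtain ⟨D, l, hD, h2⟩ := hq
    refine ⟨C + D, k + l, by positivity, fun z => ?_⟩
    rw [map_add]
    have h3 : wt z ^ k ≤ wt z ^ (k + l) := pow_le_wt (Nat.le_add_right _ _)
    have h4 : wt z ^ l ≤ wt z ^ (k + l) := pow_le_wt (Nat.le_add_left _ _)
    calc ‖MvPolynomial.eval z p + MvPolynomial.eval z q‖ ≤ C * wt z ^ k + D * wt z ^ l :=
          (norm_add_le _ _).trans (add_le_add (h1 z) (h2 z))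
      _ ≤ C * wt z ^ (k + l) + D * wt z ^ (k + l) := by gcongr
      _ = _ := by ring
  | mul_X p i hp =>
    obtain ⟨C, k, hC, h1⟩ := hp
    refine ⟨C, k + 1, hC, fun z => ?_⟩
    rw [map_mul, MvPolynomial.eval_X, norm_mul]
    calc ‖MvPolynomial.eval z p‖ * ‖z i‖ ≤ (C * wt z ^ k) * wt z :=
          mul_le_mul (h1 z) (norm_le_wt z i) (norm_nonneg _)
            (mul_nonneg hC.le (pow_nonneg (wt_pos z).le _))
      _ = _ := by ring

end wt

/-! ### lower bounds -/

section LB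

variable {L : Type} [Field L] [Algebra ℂ L] {m : ℕ} {ML : Mdl L m}

/-- `F` is bounded from below by powers of `P` and of `1 + |z|²` -/
def LB (ML : Mdl L m) (P : MvPolynomial (Fin m) ℂ) (F : ML.Pts → ℝ) : Prop :=
  ∃ (c : ℝ) (A B : ℕ), 0 < c ∧ ∀ w : ML.Pts,
    c * ‖MvPolynomial.eval (ML.pz w) P‖ ^ A ≤ F w * wt (ML.pz w) ^ B

variable {P : MvPolynomial (Fin m) ℂ}

lemma LB.nonneg {F : ML.Pts → ℝ} (h : LB ML P F) (w : ML.Pts) : 0 ≤ F w := by
  obtain ⟨c, A, B, hc, h1⟩ := h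
  have h2 : 0 ≤ F w * wt (ML.pz w) ^ B := le_trans (by positivity) (h1 w)
  exact nonneg_of_mul_nonneg_left h2 (pow_pos (wt_pos _) _)

lemma LB.mul {F G : ML.Pts → ℝ} (hF : LB ML P F) (hG : LB ML P G) :
    LB ML P (fun w => F w * G w) := by
  have hF0 := hF.nonneg
  obtain ⟨c, A, B, hc, h1⟩ := hF
  obtain ⟨d, A', B', hd, h2⟩ := hG
  refine ⟨c * d, A + A', B + B', mul_pos hc hd, fun w => ?_⟩
  calc c * d * ‖MvPolynomial.eval (ML.pz w) P‖ ^ (A + A')
      = (c * ‖MvPolynomial.eval (ML.pz w) P‖ ^ A) *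
        (d * ‖MvPolynomial.eval (ML.pz w) P‖ ^ A') := by ring
    _ ≤ (F w * wt (ML.pz w) ^ B) * (G w * wt (ML.pz w) ^ B') :=
        mul_le_mul (h1 w) (h2 w) (by positivity)
          (mul_nonneg (hF0 w) (pow_nonneg (wt_pos _).le _))
    _ = _ := by ring

lemma LB.const {c : ℝ} (hc : 0 < c) : LB ML P (fun _ => c) :=
  ⟨c, 0, 0, hc, fun w => by simp⟩

lemma LB.pow {F : ML.Pts → ℝ} (hF : LB ML P F) (k : ℕ) : LB ML P (fun w => F w ^ k) := by
  induction k with
  | zero => simpa using LB.const one_pos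
  | succ k ih => simpa [pow_succ] using ih.mul hF

lemma LB.prod {ι : Type*} (T : Finset ι) {F : ι → ML.Pts → ℝ} (hF : ∀ j ∈ T, LB ML P (F j)) :
    LB ML P (fun w => ∏ j ∈ T, F j w) := by
  classical
  induction T using Finset.induction_on with
  | empty => simpa using LB.const one_pos
  | insert a T ha ih =>
    simp only [Finset.prod_insert ha]
    exact (hF a (Finset.mem_insert_self _ _)).mul
      (ih fun j hj => hF j (Finset.mem_insert_of_mem hj))

/-- comparison up to polynomial factors -/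
lemma LB.of_le {F G : ML.Pts → ℝ} (hF : LB ML P F) {C : ℝ} {k : ℕ} (hC : 0 < C)
    (h : ∀ w, F w ≤ C * (G w * wt (ML.pz w) ^ k)) : LB ML P G := by
  obtain ⟨c, A, B, hc, h1⟩ := hF
  refine ⟨c / C, A, k + B, div_pos hc hC, fun w => ?_⟩
  have h2 : 0 ≤ wt (ML.pz w) ^ B := pow_nonneg (wt_pos _).le _
  have h3 := (h1 w).trans (mul_le_mul_of_nonneg_right (h w) h2)
  rw [div_mul_eq_mul_div, div_le_iff₀ hC]
  calc c * ‖MvPolynomial.eval (ML.pz w) P‖ ^ A
      ≤ C * (G w * wt (ML.pz w) ^ k) * wt (ML.pz w) ^ B := h3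
    _ = _ := by ring

lemma LB.of_dvd {Q : MvPolynomial (Fin m) ℂ} (h : Q ∣ P) :
    LB ML P (fun w => ‖MvPolynomial.eval (ML.pz w) Q‖) := by
  obtain ⟨R, hR⟩ := h
  obtain ⟨C, k, hC, h1⟩ := exists_poly_bound R
  refine ⟨1 / C, 1, k, by positivity, fun w => ?_⟩
  rw [pow_one, hR, map_mul, norm_mul, one_div, inv_mul_le_iff₀ hC]
  calc ‖MvPolynomial.eval (ML.pz w) Q‖ * ‖MvPolynomial.eval (ML.pz w) R‖
      ≤ ‖MvPolynomial.eval (ML.pz w) Q‖ * (C * wt (ML.pz w) ^ k) := by
        gcongr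
        exact h1 _
    _ = _ := by ring

/-- a nonzero element of `B` divides a nonzero polynomial -/
theorem exists_poly_dvd {g : ML.B} (hg : g ≠ 0) :
    ∃ P0 : MvPolynomial (Fin m) ℂ, P0 ≠ 0 ∧ ∃ g' : ML.B, az ML.z P0 = g * g' := by
  let _ : Algebra (MvPolynomial (Fin m) ℂ) ML.B := (az ML.z).toAlgebra
  have _ : Algebra.Etale (MvPolynomial (Fin m) ℂ) ML.B := ML.het
  have h1 := (Crest.Agent.R271.KT661.injective_and_isAlgebraic_of_etale
      (R := MvPolynomial (Fin m) ℂ) (S := ML.B)).2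
  obtain ⟨r, hr, h⟩ := (h1.isAlgebraic g).exists_nonzero_dvd (mem_nonZeroDivisors_of_ne_zero hg)
  obtain ⟨g', hg'⟩ := h
  exact ⟨r, hr, g', hg'⟩

/-- growth, with `wt` -/
lemma growth' {K : Type} [Field K] [Algebra ℂ K] {n : ℕ} (M : Mdl K n) (b : M.B) :
    ∃ (C : ℝ) (k l : ℕ), 0 < C ∧ ∀ y : M.Pts,
      ‖MvPolynomial.eval (M.pz y) M.h‖ ^ l * ‖y b‖ ≤ C * wt (M.pz y) ^ k := by
  obtain ⟨C, k, l, hC, h⟩ := M.growth b
  refine ⟨C + 1, k, l, by positivity, fun y => (h y).trans ?_⟩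
  have h1 : 0 ≤ wt (M.pz y) ^ k := pow_nonneg (wt_pos _).le _
  have h2 : (1 + ∑ i, ‖y (M.z i)‖ ^ 2) = wt (M.pz y) := rfl
  rw [h2]
  nlinarith

/-- lower bounds of nonzero elements of `B` -/
theorem LB.elem {g : ML.B} (hg : g ≠ 0) : ∃ P0 : MvPolynomial (Fin m) ℂ, P0 ≠ 0 ∧
    ∀ P : MvPolynomial (Fin m) ℂ, P0 ∣ P → LB ML P (fun w => ‖w g‖) := by
  obtain ⟨P0, hP0, g', hg'⟩ := exists_poly_dvd hg
  obtain ⟨C, k, l, hC, h1⟩ := growth' ML g'
  refine ⟨P0 * ML.h, mul_ne_zero hP0 ML.h_ne, fun P hP => ?_⟩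
  have h2 : LB ML P (fun w => ‖MvPolynomial.eval (ML.pz w) P0‖ *
      ‖MvPolynomial.eval (ML.pz w) ML.h‖ ^ l) :=
    (LB.of_dvd (dvd_trans (dvd_mul_right _ _) hP)).mul
      ((LB.of_dvd (dvd_trans (dvd_mul_left _ _) hP)).pow l)
  refine h2.of_le hC (k := k) fun w => ?_
  have h3 : ‖MvPolynomial.eval (ML.pz w) P0‖ = ‖w g‖ * ‖w g'‖ := by
    rw [← ML.apply_az', hg', map_mul, norm_mul]
  rw [h3]
  calc ‖w g‖ * ‖w g'‖ * ‖MvPolynomial.eval (ML.pz w) ML.h‖ ^ l
      = ‖w g‖ * (‖MvPolynomial.eval (ML.pz w) ML.h‖ ^ l * ‖w g'‖) := by ring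
    _ ≤ ‖w g‖ * (C * wt (ML.pz w) ^ k) := mul_le_mul_of_nonneg_left (h1 w) (norm_nonneg _)
    _ = _ := by ring

end LB

/-! ### the Gram lemma -/

section gram

variable {L K : Type} [Field L] [Algebra ℂ L] [Field K] [Algebra ℂ K] [Algebra L K] {m r : ℕ}
  {ML : Mdl L m} {MK : Mdl K (m + r)} (R : Rel ML MK)

/-- a trace determinant which is not zero -/
theorem exists_trace_det {s : ℕ} (u : Fin s → MK.B)
    (hu : LinearIndependent L fun i => (u i : K)) :
    ∃ (x : Fin s → Cn r) (v : Fin s → MK.B) (k : Fin s → ℕ) (a : Fin s → Fin s → ML.B),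
      (∀ j, sx (m := m) (x j) MK.h ≠ 0) ∧
      (∀ (j i : Fin s) (w : ML.Pts), MvPolynomial.eval (Fin.append (ML.pz w) (x j)) MK.h ≠ 0 →
        MvPolynomial.eval (Fin.append (ML.pz w) (x j)) MK.h ^ (k j) *
          ∑ y ∈ R.fsr w (x j), y (u i * v j) = w (a j i)) ∧
      (Matrix.of a).det ≠ 0 := by
  classical
  obtain ⟨c, hcS, hdet⟩ := exists_det_ne_zero (F := L) (s := s)
    {c | ∃ (x : Cn r) (v : MK.B) (k : ℕ) (a : Fin s → ML.B), sx (m := m) x MK.h ≠ 0 ∧
      (∀ i, c i = (a i : L)) ∧ ∀ (i : Fin s) (w : ML.Pts),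
        MvPolynomial.eval (Fin.append (ML.pz w) x) MK.h ≠ 0 →
        MvPolynomial.eval (Fin.append (ML.pz w) x) MK.h ^ k *
          ∑ y ∈ R.fsr w x, y (u i * v) = w (a i)} (by
    intro d hd
    -- clear denominators
    obtain ⟨e, he⟩ := IsLocalization.exist_integer_multiples (nonZeroDivisors ML.B)
      (Finset.univ : Finset (Fin s)) d
    choose d' hd' using fun i => he i (Finset.mem_univ i)
    have he0 : ((e : ML.B) : L) ≠ 0 := by
      have h1 : (e : ML.B) ≠ 0 := nonZeroDivisors.ne_zero e.2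
      exact fun h => h1 (Subtype.ext h)
    have hd'' : ∀ i, ((d' i : ML.B) : L) = ((e : ML.B) : L) * d i := by
      intro i
      have h1 := hd' i
      rw [Algebra.smul_def] at h1
      exact h1
    by_contra hd0
    set b : MK.B := ∑ i, R.inc (d' i) * u i with hb
    have hb0 : b ≠ 0 := by
      intro h0
      apply hd0
      have h1 : ∑ i, ((d' i : ML.B) : L) • (u i : K) = 0 := by
        have h2 := congrArg (fun t : MK.B => (t : K)) h0
        rw [hb] at h2
        simp only [AddSubmonoidClass.coe_finsetSum, MulMemClass.coe_mul, R.inc_val,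
          ZeroMemClass.coe_zero] at h2
        simp only [Algebra.smul_def]
        exact h2
      have h3 := Fintype.linearIndependent_iff.mp hu _ h1
      funext i
      have h4 := h3 i
      rw [hd''] at h4
      exact (mul_eq_zero.mp h4).resolve_left he0
    obtain ⟨y₀, hy₀⟩ : ∃ y₀ : MK.Pts, y₀ b ≠ 0 := by
      by_contra hall
      push Not at hall
      exact hb0 (MK.ext_of_pts fun y => by rw [hall y, map_zero])
    obtain ⟨v, hv1, hv2⟩ := exists_sep MK y₀
    set x := R.xx y₀ with hx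
    set w := R.q y₀ with hw
    have hζ : MK.pz y₀ = Fin.append (ML.pz w) x := R.pz_eq y₀
    have hne : MvPolynomial.eval (Fin.append (ML.pz w) x) MK.h ≠ 0 := by
      rw [← hζ]
      exact MK.eval_h_ne y₀
    obtain ⟨k, a, ha⟩ := R.exists_rtrace_family (fun i => u i * v) x
    have hsx : sx (m := m) x MK.h ≠ 0 := by
      intro h0
      apply hne
      rw [← eval_sx, h0, map_zero]
    have h5 := hd (fun i => (a i : L)) ⟨x, v, k, a, hsx, fun _ => rfl, ha⟩
    have h6 : ∑ i, d' i * a i = 0 := by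
      apply Subtype.ext
      simp only [AddSubmonoidClass.coe_finsetSum, MulMemClass.coe_mul, ZeroMemClass.coe_zero, hd'']
      simp only [mul_assoc]
      rw [← Finset.mul_sum, h5, mul_zero]
    have h7 : ∀ i, w (a i) = MvPolynomial.eval (Fin.append (ML.pz w) x) MK.h ^ k * y₀ (u i) := by
      intro i
      rw [← ha i w hne]
      congr 1
      rw [Finset.sum_eq_single y₀]
      · rw [map_mul, hv1, mul_one]
      · intro y hy hyne
        rw [R.mem_fsr] at hy
        rw [map_mul, hv2 y ?_ hyne, mul_zero]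
        rw [hζ, R.pz_eq, hy.1, hy.2]
      · intro h
        exact absurd (R.mem_fsr.mpr ⟨rfl, rfl⟩) h
    have h8 := congrArg w h6
    rw [map_zero, map_sum] at h8
    have h9 : ∑ i, w (d' i * a i) =
        MvPolynomial.eval (Fin.append (ML.pz w) x) MK.h ^ k * y₀ b := by
      rw [hb, map_sum, Finset.mul_sum]
      apply Finset.sum_congr rfl
      intro i _
      rw [map_mul, h7, map_mul, hw, R.q_apply]
      ring
    rw [h9] at h8
    exact (mul_ne_zero (pow_ne_zero _ hne) hy₀) h8)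
  choose x v k a h1 h2 h3 using hcS
  refine ⟨x, v, k, a, h1, fun j i w hw => h3 j i w hw, fun h0 => hdet ?_⟩
  have h4 : Matrix.of c = (Matrix.of a).map (algebraMap ML.B L) := by
    ext j i
    exact h2 j i
  rw [h4, ← RingHom.mapMatrix_apply, ← RingHom.map_det, h0, map_zero]

/-- the value of `h_K` at the chosen points -/
abbrev hx (MK : Mdl K (m + r)) (x : Cn r) (w : ML.Pts) : ℂ :=
  MvPolynomial.eval (Fin.append (ML.pz w) x) MK.h

open Classical in
/-- **Gram lemma**, sum form -/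
theorem exists_gram_sum {s : ℕ} (u : Fin s → MK.B)
    (hu : LinearIndependent L fun i => (u i : K)) :
    ∃ (x : Fin s → Cn r) (P0 : MvPolynomial (Fin m) ℂ), P0 ≠ 0 ∧
      ∀ P : MvPolynomial (Fin m) ℂ, P0 ∣ P →
      (∀ j, LB ML P (fun w => ‖hx MK (x j) w‖)) ∧
      LB ML P (fun w => ∑ y ∈ Fintype.piFinset (fun j => R.fsr w (x j)),
          ‖(Matrix.of fun j i => y j (u i)).det‖) := by
  obtain ⟨x, v, k, a, hx0, ha, hdet⟩ := exists_trace_det R u hu
  set g := (Matrix.of a).det with hg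
  obtain ⟨P1, hP1, hLB⟩ := LB.elem (ML := ML) hdet
  refine ⟨x, P1 * ∏ j, sx (m := m) (x j) MK.h, mul_ne_zero hP1 (Finset.prod_ne_zero_iff.mpr
    fun j _ => hx0 j), fun P hP => ?_⟩
  have hLh : ∀ j, LB ML P (fun w => ‖hx MK (x j) w‖) := by
    intro j
    have h1 : sx (m := m) (x j) MK.h ∣ P :=
      ((Finset.dvd_prod_of_mem (fun j => sx (m := m) (x j) MK.h) (Finset.mem_univ j)).trans
        (dvd_mul_left _ _)).trans hP
    have h2 := LB.of_dvd (ML := ML) h1
    simpa only [eval_sx] using h2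
  refine ⟨hLh, ?_⟩
  choose C k' l hC hgr using fun j => growth' MK (v j)
  -- bounds for the factors
  have hfac : ∀ j, ∃ (D : ℝ) (b : ℕ), 0 < D ∧ ∀ w : ML.Pts,
      ‖hx MK (x j) w‖ ^ (k j + 1) * (C j * wt (Fin.append (ML.pz w) (x j)) ^ (k' j)) ≤
        D * wt (ML.pz w) ^ b := by
    intro j
    obtain ⟨D, e, hD, h⟩ := exists_poly_bound (sx (m := m) (x j) MK.h ^ (k j + 1))
    refine ⟨D * (C j * wt (x j) ^ (k' j)), e + k' j, mul_pos hD (mul_pos (hC j)
      (pow_pos (wt_pos _) _)), fun w => ?_⟩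
    have h1 := h (ML.pz w)
    rw [map_pow, norm_pow, eval_sx] at h1
    have h2 : wt (Fin.append (ML.pz w) (x j)) ^ (k' j) ≤
        (wt (ML.pz w) * wt (x j)) ^ (k' j) :=
      pow_le_pow_left₀ (wt_pos _).le (wt_append _ _) _
    have h3 : 0 ≤ wt (Fin.append (ML.pz w) (x j)) ^ (k' j) := pow_nonneg (wt_pos _).le _
    calc ‖hx MK (x j) w‖ ^ (k j + 1) * (C j * wt (Fin.append (ML.pz w) (x j)) ^ (k' j))
        ≤ (D * wt (ML.pz w) ^ e) * (C j * (wt (ML.pz w) * wt (x j)) ^ (k' j)) := by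
          apply mul_le_mul h1 (mul_le_mul_of_nonneg_left h2 (hC j).le)
            (mul_nonneg (hC j).le h3)
          exact mul_nonneg hD.le (pow_nonneg (wt_pos _).le _)
      _ = _ := by rw [mul_pow, pow_add]; ring
  choose D b hD hfac using hfac
  have hF : LB ML P (fun w => ‖w g‖ * ∏ j, ‖hx MK (x j) w‖ ^ (l j + 1)) :=
    (hLB P ((dvd_mul_right _ _).trans hP)).mul (LB.prod _ fun j _ => (hLh j).pow _)
  refine hF.of_le (C := ∏ j, D j) (k := ∑ j, b j) (Finset.prod_pos fun j _ => hD j) fun w => ?_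
  by_cases hne : ∀ j, hx MK (x j) w ≠ 0
  · -- the expansion of the determinant
    have hwg : w g = ∑ y ∈ Fintype.piFinset (fun j => R.fsr w (x j)),
        (∏ j, (hx MK (x j) w ^ (k j) * y j (v j))) *
          (Matrix.of fun j i => y j (u i)).det := by
      have h1 := det_sum_rows (fun j => R.fsr w (x j))
        (fun j (y : MK.Pts) => hx MK (x j) w ^ (k j) * y (v j)) (fun _ y i => y (u i))
      rw [← h1, hg]
      have h2 : w (Matrix.of a).det = ((w : ML.B →+* ℂ).mapMatrix (Matrix.of a)).det :=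
        RingHom.map_det _ _
      rw [h2]
      congr 1
      ext j i
      rw [RingHom.mapMatrix_apply, Matrix.map_apply, Matrix.of_apply, Matrix.of_apply]
      change w (a j i) = _
      rw [← ha j i w (hne j), Finset.mul_sum]
      apply Finset.sum_congr rfl
      intro y _
      rw [map_mul]
      ring
    have hle : ‖w g‖ * ∏ j, ‖hx MK (x j) w‖ ^ (l j + 1) ≤
        ∑ y ∈ Fintype.piFinset (fun j => R.fsr w (x j)),
          (∏ j, (D j * wt (ML.pz w) ^ (b j))) * ‖(Matrix.of fun j i => y j (u i)).det‖ := by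
      rw [hwg]
      refine (mul_le_mul_of_nonneg_right (norm_sum_le _ _)
        (Finset.prod_nonneg fun j _ => by positivity)).trans ?_
      rw [Finset.sum_mul]
      apply Finset.sum_le_sum
      intro y hy
      rw [Fintype.mem_piFinset] at hy
      rw [norm_mul, norm_prod, mul_right_comm, ← Finset.prod_mul_distrib]
      apply mul_le_mul_of_nonneg_right _ (norm_nonneg _)
      apply Finset.prod_le_prod
      · intro j _
        positivity
      · intro j _
        have hyj := (R.mem_fsr.mp (hy j))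
        have hpz : MK.pz (y j) = Fin.append (ML.pz w) (x j) := by
          rw [R.pz_eq, hyj.1, hyj.2]
        have h3 := hgr j (y j)
        rw [hpz] at h3
        calc ‖hx MK (x j) w ^ k j * (y j) (v j)‖ * ‖hx MK (x j) w‖ ^ (l j + 1)
            = ‖hx MK (x j) w‖ ^ (k j + 1) * (‖hx MK (x j) w‖ ^ (l j) * ‖(y j) (v j)‖) := by
              rw [norm_mul, norm_pow]
              ring
          _ ≤ ‖hx MK (x j) w‖ ^ (k j + 1) *
              (C j * wt (Fin.append (ML.pz w) (x j)) ^ (k' j)) :=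
              mul_le_mul_of_nonneg_left h3 (by positivity)
          _ ≤ _ := hfac j w
    refine hle.trans (le_of_eq ?_)
    rw [← Finset.mul_sum, Finset.prod_mul_distrib, Finset.prod_pow_eq_pow_sum]
    ring
  · push Not at hne
    obtain ⟨j, hj⟩ := hne
    have h1 : ∏ j, ‖hx MK (x j) w‖ ^ (l j + 1) = 0 := by
      apply Finset.prod_eq_zero (Finset.mem_univ j)
      rw [hj, norm_zero, zero_pow (Nat.succ_ne_zero _)]
    rw [h1, mul_zero]
    refine mul_nonneg (Finset.prod_nonneg fun j _ => (hD j).le) (mul_nonneg ?_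
      (pow_nonneg (wt_pos _).le _))
    exact Finset.sum_nonneg fun _ _ => norm_nonneg _

/-- **GRAM LEMMA** -/
theorem exists_gram {s : ℕ} (u : Fin s → MK.B)
    (hu : LinearIndependent L fun i => (u i : K)) :
    ∃ (x : Fin s → Cn r) (P0 : MvPolynomial (Fin m) ℂ), P0 ≠ 0 ∧
      ∀ P : MvPolynomial (Fin m) ℂ, P0 ∣ P →
      (∀ j, LB ML P (fun w => ‖hx MK (x j) w‖)) ∧
      ∃ D : ML.Pts → ℝ, LB ML P D ∧ ∀ w : ML.Pts, MvPolynomial.eval (ML.pz w) P ≠ 0 →
        0 < D w ∧ ∃ y : Fin s → MK.Pts, (∀ j, R.q (y j) = w) ∧ (∀ j, R.xx (y j) = x j) ∧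
          D w ≤ ‖(Matrix.of fun j i => y j (u i)).det‖ := by
  classical
  obtain ⟨x, P0, hP0, h⟩ := exists_gram_sum R u hu
  refine ⟨x, P0, hP0, fun P hP => ⟨(h P hP).1, ?_⟩⟩
  have hLB := (h P hP).2
  have hd : (0 : ℝ) < (MK.deg : ℝ) ^ s := pow_pos (Nat.cast_pos.mpr MK.deg_pos) _
  refine ⟨fun w => (∑ y ∈ Fintype.piFinset (fun j => R.fsr w (x j)),
      ‖(Matrix.of fun j i => y j (u i)).det‖) / (MK.deg : ℝ) ^ s, ?_, fun w hw => ?_⟩
  · refine hLB.of_le (C := (MK.deg : ℝ) ^ s) (k := 0) hd fun w => ?_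
    rw [pow_zero, mul_one, mul_div_cancel₀ _ hd.ne']
  · set T := Fintype.piFinset (fun j => R.fsr w (x j)) with hT
    have hpos : 0 < ∑ y ∈ T, ‖(Matrix.of fun j i => y j (u i)).det‖ := by
      obtain ⟨c, A, B, hc, h1⟩ := hLB
      have h2 := h1 w
      have h3 : 0 < ‖MvPolynomial.eval (ML.pz w) P‖ := norm_pos_iff.mpr hw
      have h4 : 0 < (∑ y ∈ T, ‖(Matrix.of fun j i => y j (u i)).det‖) * wt (ML.pz w) ^ B :=
        lt_of_lt_of_le (by positivity) h2
      exact pos_of_mul_pos_left h4 (pow_pos (wt_pos _) _).le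
    refine ⟨div_pos hpos hd, ?_⟩
    by_contra hcon
    push Not at hcon
    have h1 : ∀ y ∈ T, ‖(Matrix.of fun j i => y j (u i)).det‖ <
        (∑ y ∈ T, ‖(Matrix.of fun j i => y j (u i)).det‖) / (MK.deg : ℝ) ^ s := by
      intro y hy
      rw [hT, Fintype.mem_piFinset] at hy
      exact hcon y (fun j => (R.mem_fsr.mp (hy j)).1) (fun j => (R.mem_fsr.mp (hy j)).2)
    have hne : T.Nonempty := by
      by_contra h2
      rw [Finset.not_nonempty_iff_eq_empty] at h2
      rw [h2, Finset.sum_empty] at hpos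
      exact lt_irrefl _ hpos
    have h2 := Finset.sum_lt_sum_of_nonempty hne h1
    rw [Finset.sum_const, nsmul_eq_mul] at h2
    have h3 : (T.card : ℝ) ≤ (MK.deg : ℝ) ^ s := by
      have h4 : T.card ≤ MK.deg ^ s := by
        rw [hT, Fintype.card_piFinset]
        calc ∏ j, (R.fsr w (x j)).card ≤ ∏ _j : Fin s, MK.deg :=
              Finset.prod_le_prod' fun j _ => R.card_fsr_le w (x j)
          _ = _ := by simp
      exact_mod_cast h4
    have h4 : (T.card : ℝ) * ((∑ y ∈ T, ‖(Matrix.of fun j i => y j (u i)).det‖) /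
        (MK.deg : ℝ) ^ s) ≤ (MK.deg : ℝ) ^ s *
        ((∑ y ∈ T, ‖(Matrix.of fun j i => y j (u i)).det‖) / (MK.deg : ℝ) ^ s) :=
      mul_le_mul_of_nonneg_right h3 (div_pos hpos hd).le
    rw [mul_div_cancel₀ _ hd.ne'] at h4
    exact absurd h2 (not_lt.mpr h4)

end gram

end Crest.Agent.R276.Gram2_358
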