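import Mathlib
import Crest.Agent.R276.Gram2_358

/-!
# Row 276 (S0419), GRO-LOW, part 3 (helper358): Cramer form of the Gram lemma

`exists_sampling`: `u : Fin s → MK.B` linearly independent over `L`, then there are `x_j ∈ ℂ^r`,
`P0 ≠ 0`, and for `P0 ∣ P` a lower bound `E` (`LB ML P E`, `E > 0` where `P ≠ 0`) such that for all `w`
with `P(pz w) ≠ 0` there are `y_j` over `(w, x_j)` with `E w * ‖v‖ ≤ ∑ j, ‖∑ i, v i * y j (u i)‖` for
ALL `v ∈ ℂ^s`.
-/

set_option autoImplicit false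

open Polynomial Topology Filter MeasureTheory

noncomputable section

namespace Crest.Agent.R276.Gram3_358

open Crest.Agent.R271.Defs710 Crest.Agent.R271.Alg255 Crest.Agent.R271.Rd692
open Crest.Agent.R271.AlgB956 Crest.Agent.R271.Ho51 Crest.Agent.R276.Mod1_987
open Crest.Agent.R276.Gram0_358 Crest.Agent.R276.Gram1_358 Crest.Agent.R276.Gram2_358

/-! ### Cramer -/

/-- Cramer's rule with bounds -/
theorem cramer {s : ℕ} (M : Matrix (Fin s) (Fin s) ℂ) {T : ℝ} (hT1 : 1 ≤ T)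
    (hT : ∀ j i, ‖M j i‖ ≤ T) (v : Fin s → ℂ) :
    ‖M.det‖ * ‖v‖ ≤ (s.factorial * T ^ s) * ∑ j, ‖(M.mulVec v) j‖ := by
  have hT0 : 0 ≤ T := le_trans zero_le_one hT1
  have h1 : M.det • v = M.adjugate.mulVec (M.mulVec v) := by
    rw [Matrix.mulVec_mulVec, Matrix.adjugate_mul, Matrix.smul_mulVec, Matrix.one_mulVec]
  rw [← norm_smul, h1]
  have hR : 0 ≤ (s.factorial * T ^ s) * ∑ j, ‖(M.mulVec v) j‖ :=
    mul_nonneg (by positivity) (Finset.sum_nonneg fun _ _ => norm_nonneg _)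
  rw [pi_norm_le_iff_of_nonneg hR]
  intro i
  have hadj : ∀ j, ‖M.adjugate i j‖ ≤ s.factorial * T ^ s := by
    intro j
    rw [Matrix.adjugate_apply]
    have h2 := Matrix.det_le (abv := IsAbsoluteValue.toAbsoluteValue (norm : ℂ → ℝ))
      (A := M.updateRow j (Pi.single i 1)) (x := T) (by
        intro a b
        change ‖(M.updateRow j (Pi.single i 1)) a b‖ ≤ T
        by_cases ha : a = j
        · rw [ha, Matrix.updateRow_self]
          by_cases hb : b = i
          · rw [hb, Pi.single_eq_same, norm_one]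
            exact hT1
          · rw [Pi.single_eq_of_ne hb, norm_zero]
            exact hT0
        · rw [Matrix.updateRow_ne ha]
          exact hT a b)
    rw [Fintype.card_fin, nsmul_eq_mul] at h2
    exact h2
  calc ‖(M.adjugate.mulVec (M.mulVec v)) i‖ = ‖∑ j, M.adjugate i j * (M.mulVec v) j‖ := rfl
    _ ≤ ∑ j, ‖M.adjugate i j * (M.mulVec v) j‖ := norm_sum_le _ _
    _ ≤ ∑ j, (s.factorial * T ^ s) * ‖(M.mulVec v) j‖ := by
        apply Finset.sum_le_sum
        intro j _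
        rw [norm_mul]
        exact mul_le_mul_of_nonneg_right (hadj j) (norm_nonneg _)
    _ = _ := by rw [Finset.mul_sum]

/-! ### real powers of lower bounds -/

section LB

variable {L : Type} [Field L] [Algebra ℂ L] {m : ℕ} {ML : Mdl L m}
  {P : MvPolynomial (Fin m) ℂ}

/-- division of a lower bound by polynomial growth -/
lemma LB.div {F : ML.Pts → ℝ} (hF : LB ML P F) {C : ℝ} (hC : 0 < C) (k : ℕ) :
    LB ML P (fun w => F w / (C * wt (ML.pz w) ^ k)) := by
  refine hF.of_le hC (k := k) fun w => le_of_eq ?_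
  have h1 : wt (ML.pz w) ^ k ≠ 0 := (pow_pos (wt_pos _) _).ne'
  field_simp

/-- real powers -/
theorem LB.rpow {F : ML.Pts → ℝ} (hF : LB ML P F) {p : ℝ} (hp : 0 < p) :
    LB ML P (fun w => F w ^ p) := by
  have hF0 := hF.nonneg
  obtain ⟨c, A, B, hc, h⟩ := hF
  obtain ⟨C, k, hC, hP⟩ := exists_poly_bound (P ^ A)
  -- `t ≤ 1`, `t ≤ F`
  set C' : ℝ := max 1 (c * C) with hC'
  have hC'1 : 1 ≤ C' := le_max_left _ _
  have hC'0 : 0 < C' := lt_of_lt_of_le one_pos hC'1
  set N := ⌈p⌉₊ with hN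
  have hpN : p ≤ (N : ℝ) := Nat.le_ceil p
  refine ⟨(c / C') ^ N, A * N, (B + k) * N, pow_pos (div_pos hc hC'0) _, fun w => ?_⟩
  set a := ‖MvPolynomial.eval (ML.pz w) P‖ with ha
  set W := wt (ML.pz w) with hW
  have hW1 : 1 ≤ W := one_le_wt _
  have hW0 : 0 < W := wt_pos _
  set t : ℝ := (c / C') * a ^ A / W ^ (B + k) with ht
  have ht0 : 0 ≤ t := by positivity
  have haA : a ^ A ≤ C * W ^ k := by
    have := hP (ML.pz w)
    rwa [map_pow, norm_pow] at this
  have ht1 : t ≤ 1 := by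
    rw [ht, div_le_one (by positivity)]
    calc (c / C') * a ^ A ≤ (c / C') * (C * W ^ k) :=
          mul_le_mul_of_nonneg_left haA (by positivity)
      _ = (c * C / C') * W ^ k := by ring
      _ ≤ 1 * W ^ k := by
          apply mul_le_mul_of_nonneg_right _ (by positivity)
          rw [div_le_one hC'0]
          exact le_max_right _ _
      _ ≤ W ^ (B + k) := by
          rw [one_mul]
          exact pow_le_pow_right₀ hW1 (Nat.le_add_left _ _)
  have htF : t ≤ F w := by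
    rw [ht, div_le_iff₀ (by positivity)]
    calc (c / C') * a ^ A ≤ c * a ^ A := by
          apply mul_le_mul_of_nonneg_right _ (by positivity)
          exact div_le_self hc.le hC'1
      _ ≤ F w * W ^ B := h w
      _ ≤ F w * W ^ (B + k) := by
          apply mul_le_mul_of_nonneg_left _ (hF0 w)
          exact pow_le_pow_right₀ hW1 (Nat.le_add_right _ _)
  have h1 : t ^ N ≤ F w ^ p := by
    rcases eq_or_lt_of_le ht0 with h0 | h0
    · rw [← h0, zero_pow (Nat.ceil_pos.mpr hp).ne']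
      exact Real.rpow_nonneg (hF0 w) _
    · calc t ^ N = t ^ (N : ℝ) := (Real.rpow_natCast t N).symm
        _ ≤ t ^ p := Real.rpow_le_rpow_of_exponent_ge h0 ht1 hpN
        _ ≤ F w ^ p := Real.rpow_le_rpow ht0 htF hp.le
  have h2 : t ^ N = (c / C') ^ N * a ^ (A * N) / W ^ ((B + k) * N) := by
    rw [ht, div_pow, mul_pow, ← pow_mul, ← pow_mul]
  rw [h2, div_le_iff₀ (by positivity)] at h1
  exact h1

end LB

/-! ### sampling -/

section samp

variable {L K : Type} [Field L] [Algebra ℂ L] [Field K] [Algebra ℂ K] [Algebra L K] {m r : ℕ}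
  {ML : Mdl L m} {MK : Mdl K (m + r)} (R : Rel ML MK)

/-- an upper bound at the points over `(w, x)`: `|y b| |h(z,x)|^l ≤ C (1+|z|²)^k` -/
lemma growth_x (b : MK.B) (x : Cn r) : ∃ (C : ℝ) (k l : ℕ), 0 < C ∧
    ∀ (w : ML.Pts) (y : MK.Pts), R.q y = w → R.xx y = x →
      ‖hx MK x w‖ ^ l * ‖y b‖ ≤ C * wt (ML.pz w) ^ k := by
  obtain ⟨C, k, l, hC, h⟩ := growth' MK b
  refine ⟨C * wt x ^ k, k, l, mul_pos hC (pow_pos (wt_pos _) _), fun w y hq hxx => ?_⟩
  have h1 := h y
  have h2 : MK.pz y = Fin.append (ML.pz w) x := by rw [R.pz_eq, hq, hxx]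
  rw [h2] at h1
  refine h1.trans ?_
  calc C * wt (Fin.append (ML.pz w) x) ^ k ≤ C * (wt (ML.pz w) * wt x) ^ k := by
        apply mul_le_mul_of_nonneg_left _ hC.le
        exact pow_le_pow_left₀ (wt_pos _).le (wt_append _ _) _
    _ = _ := by rw [mul_pow]; ring

/-- **sampling**: the Gram lemma with Cramer's rule -/
theorem exists_sampling {s : ℕ} (u : Fin s → MK.B)
    (hu : LinearIndependent L fun i => (u i : K)) :
    ∃ (x : Fin s → Cn r) (P0 : MvPolynomial (Fin m) ℂ), P0 ≠ 0 ∧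
      ∀ P : MvPolynomial (Fin m) ℂ, P0 ∣ P →
      (∀ j, LB ML P (fun w => ‖hx MK (x j) w‖)) ∧
      ∃ E : ML.Pts → ℝ, LB ML P E ∧ ∀ w : ML.Pts, MvPolynomial.eval (ML.pz w) P ≠ 0 →
        0 < E w ∧ ∃ y : Fin s → MK.Pts, (∀ j, R.q (y j) = w) ∧ (∀ j, R.xx (y j) = x j) ∧
          ∀ v : Fin s → ℂ, E w * ‖v‖ ≤ ∑ j, ‖∑ i, v i * y j (u i)‖ := by
  classical
  obtain ⟨x, P0, hP0, h⟩ := exists_gram R u hu
  refine ⟨x, P0, hP0, fun P hP => ⟨(h P hP).1, ?_⟩⟩
  obtain ⟨hLh, D, hLD, hD⟩ := h P hP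
  choose C k l hC hgr using fun ji : Fin s × Fin s => growth_x R (u ji.2) (x ji.1)
  -- bounds for `h`
  choose Ch kh hCh hhb using fun j : Fin s => exists_poly_bound (sx (m := m) (x j) MK.h)
  have hhb' : ∀ j w, ‖hx MK (x j) w‖ ≤ Ch j * wt (ML.pz w) ^ (kh j) := by
    intro j w
    have := hhb j (ML.pz w)
    rwa [eval_sx] at this
  -- uniform constants
  set l0 := ∑ ji, l ji with hl0
  set Hf : ML.Pts → ℝ := fun w => ∏ j, ‖hx MK (x j) w‖ ^ l0 with hHf
  have hHf0 : ∀ w, 0 ≤ Hf w := fun w => Finset.prod_nonneg fun j _ => by positivity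
  -- each entry, multiplied by `Hf`, has polynomial growth
  have hent : ∀ ji : Fin s × Fin s, ∃ (C' : ℝ) (k' : ℕ), 0 < C' ∧ ∀ (w : ML.Pts) (y : MK.Pts),
      R.q y = w → R.xx y = x ji.1 → Hf w * ‖y (u ji.2)‖ ≤ C' * wt (ML.pz w) ^ k' := by
    rintro ⟨j, i⟩
    have hle : l (j, i) ≤ l0 :=
      Finset.single_le_sum (f := l) (fun _ _ => Nat.zero_le _) (Finset.mem_univ _)
    refine ⟨(C (j, i)) * ((Ch j) ^ (l0 - l (j, i)) *
      ∏ j' ∈ Finset.univ.erase j, (Ch j') ^ l0),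
      k (j, i) + (kh j * (l0 - l (j, i)) + ∑ j' ∈ Finset.univ.erase j, kh j' * l0),
      mul_pos (hC _) (mul_pos (pow_pos (hCh j) _)
        (Finset.prod_pos fun j' _ => pow_pos (hCh j') _)), fun w y hq hxx => ?_⟩
    have h1 : Hf w = ‖hx MK (x j) w‖ ^ (l (j, i)) * (‖hx MK (x j) w‖ ^ (l0 - l (j, i)) *
        ∏ j' ∈ Finset.univ.erase j, ‖hx MK (x j') w‖ ^ l0) := by
      rw [hHf]
      simp only
      rw [← Finset.mul_prod_erase _ _ (Finset.mem_univ j), ← mul_assoc, ← pow_add,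
        Nat.add_sub_cancel' hle]
    have hW : 0 ≤ wt (ML.pz w) := (wt_pos _).le
    have h2 : ‖hx MK (x j) w‖ ^ (l0 - l (j, i)) ≤
        (Ch j) ^ (l0 - l (j, i)) * wt (ML.pz w) ^ (kh j * (l0 - l (j, i))) := by
      rw [pow_mul, ← mul_pow]
      exact pow_le_pow_left₀ (norm_nonneg _) (hhb' j w) _
    have h3 : ∏ j' ∈ Finset.univ.erase j, ‖hx MK (x j') w‖ ^ l0 ≤
        (∏ j' ∈ Finset.univ.erase j, (Ch j') ^ l0) *
          wt (ML.pz w) ^ (∑ j' ∈ Finset.univ.erase j, kh j' * l0) := by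
      rw [← Finset.prod_pow_eq_pow_sum, ← Finset.prod_mul_distrib]
      apply Finset.prod_le_prod
      · intro j' _
        positivity
      · intro j' _
        rw [pow_mul, ← mul_pow]
        exact pow_le_pow_left₀ (norm_nonneg _) (hhb' j' w) _
    have h4 := hgr (j, i) w y hq hxx
    have h30 : 0 ≤ ∏ j' ∈ Finset.univ.erase j, ‖hx MK (x j') w‖ ^ l0 :=
      Finset.prod_nonneg fun j' _ => by positivity
    have hCp : 0 ≤ ∏ j' ∈ Finset.univ.erase j, (Ch j') ^ l0 :=
      Finset.prod_nonneg fun j' _ => (pow_pos (hCh j') _).le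
    calc Hf w * ‖y (u i)‖ = (‖hx MK (x j) w‖ ^ (l (j, i)) * ‖y (u i)‖) *
          (‖hx MK (x j) w‖ ^ (l0 - l (j, i)) *
            ∏ j' ∈ Finset.univ.erase j, ‖hx MK (x j') w‖ ^ l0) := by rw [h1]; ring
      _ ≤ (C (j, i) * wt (ML.pz w) ^ (k (j, i))) *
          (((Ch j) ^ (l0 - l (j, i)) * wt (ML.pz w) ^ (kh j * (l0 - l (j, i)))) *
            ((∏ j' ∈ Finset.univ.erase j, (Ch j') ^ l0) *
          wt (ML.pz w) ^ (∑ j' ∈ Finset.univ.erase j, kh j' * l0))) := by
          apply mul_le_mul h4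
          · exact mul_le_mul h2 h3 h30 (mul_nonneg (pow_nonneg (hCh j).le _) (pow_nonneg hW _))
          · exact mul_nonneg (by positivity) h30
          · exact mul_nonneg (hC _).le (pow_nonneg hW _)
      _ = _ := by rw [pow_add, pow_add]; ring
  choose C' k' hC' hent using hent
  -- one constant
  obtain ⟨Cb, kb, hCb, hkb⟩ : ∃ (Cb : ℝ) (kb : ℕ), 0 < Cb ∧ ∀ w : ML.Pts,
      Hf w ≤ Cb * wt (ML.pz w) ^ kb := by
    refine ⟨∏ j, (Ch j) ^ l0, ∑ j, kh j * l0, Finset.prod_pos fun j _ => pow_pos (hCh j) _,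
      fun w => ?_⟩
    rw [← Finset.prod_pow_eq_pow_sum, ← Finset.prod_mul_distrib]
    apply Finset.prod_le_prod
    · intro j' _
      positivity
    · intro j' _
      rw [pow_mul, ← mul_pow]
      exact pow_le_pow_left₀ (norm_nonneg _) (hhb' j' w) _
  set CT := Cb + ∑ ji, C' ji with hCT
  set kT := kb + ∑ ji, k' ji with hkT
  have hsumC : 0 ≤ ∑ ji, C' ji := Finset.sum_nonneg fun ji _ => (hC' ji).le
  have hCT0 : 0 < CT := by positivity
  -- the bound `T` for the entries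
  set T : ML.Pts → ℝ := fun w => CT * wt (ML.pz w) ^ kT / Hf w with hTdef
  have hfac : (0 : ℝ) < s.factorial := Nat.cast_pos.mpr (Nat.factorial_pos s)
  have hLH : LB ML P Hf := LB.prod _ fun j _ => (hLh j).pow _
  refine ⟨fun w => D w * Hf w ^ s / ((s.factorial * CT ^ s) * wt (ML.pz w) ^ (kT * s)), ?_,
    fun w hw => ?_⟩
  · exact LB.div (hLD.mul (hLH.pow s)) (mul_pos hfac (pow_pos hCT0 _)) _
  · obtain ⟨hD0, y, hq, hxx, hdet⟩ := hD w hw
    have hne : ∀ j, hx MK (x j) w ≠ 0 := by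
      intro j
      have h1 := MK.eval_h_ne (y j)
      rw [R.pz_eq, hq j, hxx j] at h1
      exact h1
    have hHpos : 0 < Hf w := Finset.prod_pos fun j _ => pow_pos (norm_pos_iff.mpr (hne j)) _
    have hWpos : 0 < wt (ML.pz w) := wt_pos _
    have hW1 : 1 ≤ wt (ML.pz w) := one_le_wt _
    refine ⟨by positivity, y, hq, hxx, fun v => ?_⟩
    have hT1 : 1 ≤ T w := by
      rw [hTdef]
      simp only
      rw [one_le_div hHpos]
      refine (hkb w).trans (mul_le_mul ?_ (pow_le_wt (Nat.le_add_right _ _))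
        (pow_nonneg hWpos.le _) hCT0.le)
      rw [hCT]
      linarith
    have hT : ∀ j i, ‖(Matrix.of fun j i => y j (u i)) j i‖ ≤ T w := by
      intro j i
      rw [hTdef]
      simp only [Matrix.of_apply]
      rw [le_div_iff₀ hHpos, mul_comm]
      refine (hent (j, i) w (y j) (hq j) (hxx j)).trans (mul_le_mul ?_ (pow_le_wt ?_)
        (pow_nonneg hWpos.le _) hCT0.le)
      · have h5 : C' (j, i) ≤ ∑ ji, C' ji :=
          Finset.single_le_sum (f := C') (fun ji _ => (hC' ji).le) (Finset.mem_univ _)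
        rw [hCT]
        linarith
      · have h5 : k' (j, i) ≤ ∑ ji, k' ji :=
          Finset.single_le_sum (f := k') (fun _ _ => Nat.zero_le _) (Finset.mem_univ _)
        omega
    have h6 := cramer (Matrix.of fun j i => y j (u i)) hT1 hT v
    have h7 : ∀ j, ((Matrix.of fun j i => y j (u i)).mulVec v) j = ∑ i, v i * y j (u i) := by
      intro j
      rw [Matrix.mulVec, dotProduct]
      exact Finset.sum_congr rfl fun i _ => mul_comm _ _
    simp only [h7] at h6
    have h8 : D w * ‖v‖ ≤ (s.factorial * T w ^ s) * ∑ j, ‖∑ i, v i * y j (u i)‖ :=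
      (mul_le_mul_of_nonneg_right hdet (norm_nonneg _)).trans h6
    have h9 : T w ^ s * Hf w ^ s = CT ^ s * wt (ML.pz w) ^ (kT * s) := by
      rw [← mul_pow, hTdef]
      simp only
      rw [div_mul_cancel₀ _ hHpos.ne', mul_pow, pow_mul]
    rw [div_mul_eq_mul_div, div_le_iff₀ (by positivity)]
    calc D w * Hf w ^ s * ‖v‖ = (D w * ‖v‖) * Hf w ^ s := by ring
      _ ≤ ((s.factorial * T w ^ s) * ∑ j, ‖∑ i, v i * y j (u i)‖) * Hf w ^ s :=
          mul_le_mul_of_nonneg_right h8 (pow_nonneg hHpos.le _)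
      _ = (s.factorial * (T w ^ s * Hf w ^ s)) * ∑ j, ‖∑ i, v i * y j (u i)‖ := by ring
      _ = _ := by rw [h9]; ring

end samp

end Crest.Agent.R276.Gram3_358
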