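import Mathlib

/-!
# R276, leaf LM (helper976): local Morse inequalities, part 1

`sq_mul_measure_le` : sub-mean value inequality of `‖g‖²` on balanced open sets, `g` holomorphic.
`lm1`               : the weighted version.
-/

set_option autoImplicit false

open MeasureTheory Set Metric Topology Filter
open scoped ENNReal Real

namespace Crest.Agent.R276.LM1_976

noncomputable section

variable {E : Type*} [NormedAddCommGroup E] [NormedSpace ℂ E]

theorem enorm_sq_eq (z : ℂ) : ENNReal.ofReal (‖z‖ ^ 2) = ‖z‖ₑ ^ 2 := by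
  rw [ENNReal.ofReal_pow (norm_nonneg z), ofReal_norm]

/-- circle mean value inequality for `‖g‖²` on a complex line -/
theorem sq_norm_le_circle {g : E → ℂ} {S : Set E} (hb : Balanced ℂ S)
    (hg : DifferentiableOn ℂ g S) {w : E} (hw : w ∈ S) :
    ENNReal.ofReal (2 * π) * ‖g 0‖ₑ ^ 2 ≤
      ∫⁻ θ in Ioc 0 (2 * π), ‖g (circleMap 0 1 θ • w)‖ₑ ^ 2 := by
  set F : ℂ → ℂ := fun l => g (l • w) ^ 2 with hF
  have hcl : DifferentiableOn ℂ F (closure (ball 0 |(1 : ℝ)|)) := by
    rw [abs_one, closure_ball 0 one_ne_zero]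
    refine DifferentiableOn.pow ?_ 2
    refine hg.comp (t := S) ?_ ?_
    · exact (differentiable_id.smul_const w).differentiableOn
    · intro l hl
      exact hb.smul_mem (by simpa using hl) hw
  have h1 := hcl.diffContOnCl.circleAverage
  have h2 : F 0 = g 0 ^ 2 := by simp [hF]
  have h3 : (∫ θ in (0 : ℝ)..2 * π, F (circleMap 0 1 θ)) = (2 * π : ℝ) • g 0 ^ 2 := by
    rw [← h2, ← h1, Real.circleAverage_def, smul_smul, mul_inv_cancel₀ (by positivity), one_smul]
  have h4 : ‖∫ θ in (0 : ℝ)..2 * π, F (circleMap 0 1 θ)‖ₑ ≤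
      ∫⁻ θ in Ioc 0 (2 * π), ‖F (circleMap 0 1 θ)‖ₑ := by
    rw [intervalIntegral.integral_of_le (by positivity)]
    exact enorm_integral_le_lintegral_enorm _
  rw [h3] at h4
  have h5 : ‖(2 * π : ℝ) • g 0 ^ 2‖ₑ = ENNReal.ofReal (2 * π) * ‖g 0‖ₑ ^ 2 := by
    rw [enorm_smul, enorm_pow, Real.enorm_eq_ofReal (by positivity)]
  rw [h5] at h4
  refine h4.trans (le_of_eq ?_)
  refine lintegral_congr fun θ => ?_
  simp [hF, enorm_pow]

variable [FiniteDimensional ℂ E] [MeasurableSpace E] [BorelSpace E]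

/-- multiplication by a unit complex number preserves Haar measure -/
theorem measurePreserving_smul_of_norm_one (μ : Measure E) [μ.IsAddHaarMeasure] {c : ℂ}
    (hc : ‖c‖ = 1) : MeasurePreserving (fun w : E => c • w) μ μ := by
  have : FiniteDimensional ℝ E := FiniteDimensional.complexToReal E
  refine ⟨(continuous_const_smul c).measurable, ?_⟩
  set L : E →ₗ[ℝ] E := ((LinearMap.lsmul ℂ E c).restrictScalars ℝ) with hL
  have hdet : LinearMap.det L = 1 := by
    rw [hL, LinearMap.det_restrictScalars]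
    have : LinearMap.det (LinearMap.lsmul ℂ E c) = c ^ Module.finrank ℂ E := by
      have h0 : LinearMap.lsmul ℂ E c = c • (LinearMap.id : E →ₗ[ℂ] E) := by
        ext w; simp
      rw [h0, LinearMap.det_smul, LinearMap.det_id, mul_one]
    rw [this, Algebra.norm_complex_apply, map_pow, Complex.normSq_eq_norm_sq, hc]
    simp
  have h := Measure.map_linearMap_addHaar_eq_smul_addHaar μ (f := L) (by rw [hdet]; norm_num)
  rw [hdet] at h
  simp only [inv_one, abs_one, ENNReal.ofReal_one, one_smul] at h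
  exact h

/-- **Sub-mean value inequality** for `‖g‖²`, `g` holomorphic, on a balanced open set. -/
theorem sq_mul_measure_le (μ : Measure E) [μ.IsAddHaarMeasure] {g : E → ℂ} {S : Set E}
    (hS : IsOpen S) (hb : Balanced ℂ S) (hg : DifferentiableOn ℂ g S) :
    ‖g 0‖ₑ ^ 2 * μ S ≤ ∫⁻ w in S, ‖g w‖ₑ ^ 2 ∂μ := by
  classical
  have : FiniteDimensional ℝ E := FiniteDimensional.complexToReal E
  set G : E → ℝ≥0∞ := S.indicator (fun w => ‖g w‖ₑ ^ 2) with hG
  have hGm : Measurable G := by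
    have h1 : ContinuousOn (fun w => ‖g w‖ₑ ^ 2) S :=
      (ENNReal.continuous_pow 2).comp_continuousOn (continuous_enorm.comp_continuousOn hg.continuousOn)
    have h2 : Measurable (S.piecewise (fun w => ‖g w‖ₑ ^ 2) (fun _ => (0 : ℝ≥0∞))) :=
      h1.measurable_piecewise continuousOn_const hS.measurableSet
    have h3 : S.piecewise (fun w => ‖g w‖ₑ ^ 2) (fun _ => (0 : ℝ≥0∞)) = G := by
      ext w; by_cases hw : w ∈ S <;> simp [hG, hw]
    rwa [h3] at h2
  have hsmul : Measurable (fun p : ℝ × E => circleMap 0 1 p.1 • p.2) := by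
    refine Continuous.measurable ?_
    exact ((continuous_circleMap 0 1).comp continuous_fst).smul continuous_snd
  set ν : Measure ℝ := (volume : Measure ℝ).restrict (Ioc 0 (2 * π)) with hν
  have hνu : ν univ = ENNReal.ofReal (2 * π) := by
    rw [hν, Measure.restrict_apply_univ, Real.volume_Ioc, sub_zero]
  have hswap : (∫⁻ θ, ∫⁻ w, G (circleMap 0 1 θ • w) ∂μ ∂ν) =
      ∫⁻ w, ∫⁻ θ, G (circleMap 0 1 θ • w) ∂ν ∂μ :=
    lintegral_lintegral_swap (hGm.comp hsmul).aemeasurable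
  have hinner : ∀ θ : ℝ, (∫⁻ w, G (circleMap 0 1 θ • w) ∂μ) = ∫⁻ w, G w ∂μ := by
    intro θ
    exact (measurePreserving_smul_of_norm_one μ (c := circleMap 0 1 θ) (by simp)).lintegral_comp hGm
  have hleft : (∫⁻ θ, ∫⁻ w, G (circleMap 0 1 θ • w) ∂μ ∂ν) =
      ENNReal.ofReal (2 * π) * ∫⁻ w, G w ∂μ := by
    rw [lintegral_congr hinner, lintegral_const, hνu, mul_comm]
  have hright : ENNReal.ofReal (2 * π) * (‖g 0‖ₑ ^ 2 * μ S) ≤
      ∫⁻ w, ∫⁻ θ, G (circleMap 0 1 θ • w) ∂ν ∂μ := by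
    have : ENNReal.ofReal (2 * π) * (‖g 0‖ₑ ^ 2 * μ S) =
        ∫⁻ w, S.indicator (fun _ => ENNReal.ofReal (2 * π) * ‖g 0‖ₑ ^ 2) w ∂μ := by
      rw [lintegral_indicator hS.measurableSet, lintegral_const, Measure.restrict_apply_univ,
        mul_assoc]
    rw [this]
    refine lintegral_mono fun w => ?_
    by_cases hw : w ∈ S
    · rw [indicator_of_mem hw]
      refine (sq_norm_le_circle hb hg hw).trans (le_of_eq ?_)
      refine lintegral_congr fun θ => ?_
      have : circleMap 0 1 θ • w ∈ S := hb.smul_mem (by simp) hw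
      simp only [hG, indicator_of_mem this]
    · rw [indicator_of_notMem hw]; exact zero_le
  rw [← hswap, hleft] at hright
  have hpos : ENNReal.ofReal (2 * π) ≠ 0 := by
    rw [Ne, ENNReal.ofReal_eq_zero, not_le]; positivity
  have h := (ENNReal.mul_le_mul_iff_right hpos ENNReal.ofReal_ne_top).1 hright
  refine h.trans (le_of_eq ?_)
  rw [hG, lintegral_indicator hS.measurableSet]

/-- **LM1.** Weighted sub-mean value inequality on a balanced open set. -/
theorem lm1 (μ : Measure E) [μ.IsAddHaarMeasure] {S : Set E} (hS : IsOpen S) (hb : Balanced ℂ S)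
    {u h : E → ℂ} {ψ : E → ℝ} {z : E} {c : ℝ}
    (hu : DifferentiableOn ℂ (fun w => u (z + w)) S) (hh : DifferentiableOn ℂ h S) (h0 : h 0 = 0)
    (hψ : ∀ w ∈ S, ψ (z + w) ≤ ψ z + (h w).re + c) :
    ENNReal.ofReal (‖u z‖ ^ 2 * Real.exp (-ψ z)) * μ S ≤
      ENNReal.ofReal (Real.exp c) *
        ∫⁻ w in S, ENNReal.ofReal (‖u (z + w)‖ ^ 2 * Real.exp (-ψ (z + w))) ∂μ := by
  set g : E → ℂ := fun w => u (z + w) * Complex.exp (((-(1 / 2) : ℝ) : ℂ) * h w) with hg
  have hgd : DifferentiableOn ℂ g S :=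
    hu.mul ((hh.const_mul _).cexp)
  have hmain := sq_mul_measure_le μ hS hb hgd
  have hg0 : g 0 = u z := by simp [hg, h0]
  have hnorm : ∀ w, ‖g w‖ ^ 2 = ‖u (z + w)‖ ^ 2 * Real.exp (-(h w).re) := by
    intro w
    simp only [hg, norm_mul, Complex.norm_exp, mul_pow]
    congr 1
    rw [← Real.exp_nat_mul]
    congr 1
    rw [Complex.re_ofReal_mul]
    push_cast
    ring
  have hle : ∀ w ∈ S, ‖g w‖ₑ ^ 2 ≤ ENNReal.ofReal (Real.exp (ψ z + c)) *
      ENNReal.ofReal (‖u (z + w)‖ ^ 2 * Real.exp (-ψ (z + w))) := by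
    intro w hw
    rw [← enorm_sq_eq, hnorm, ← ENNReal.ofReal_mul (Real.exp_pos _).le]
    refine ENNReal.ofReal_le_ofReal ?_
    have : Real.exp (-(h w).re) ≤ Real.exp (ψ z + c) * Real.exp (-ψ (z + w)) := by
      rw [← Real.exp_add]
      refine Real.exp_le_exp.2 ?_
      linarith [hψ w hw]
    calc ‖u (z + w)‖ ^ 2 * Real.exp (-(h w).re)
        ≤ ‖u (z + w)‖ ^ 2 * (Real.exp (ψ z + c) * Real.exp (-ψ (z + w))) := by gcongr
      _ = _ := by ring
  have h1 : ∫⁻ w in S, ‖g w‖ₑ ^ 2 ∂μ ≤ ENNReal.ofReal (Real.exp (ψ z + c)) *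
      ∫⁻ w in S, ENNReal.ofReal (‖u (z + w)‖ ^ 2 * Real.exp (-ψ (z + w))) ∂μ := by
    rw [← lintegral_const_mul' _ _ ENNReal.ofReal_ne_top]
    exact setLIntegral_mono' hS.measurableSet hle
  have h2 := hmain.trans h1
  rw [hg0, ← enorm_sq_eq] at h2
  have h3 : ENNReal.ofReal (‖u z‖ ^ 2 * Real.exp (-ψ z)) =
      ENNReal.ofReal (Real.exp (-ψ z)) * ENNReal.ofReal (‖u z‖ ^ 2) := by
    rw [mul_comm, ENNReal.ofReal_mul (Real.exp_pos _).le]
  have h4 : ENNReal.ofReal (Real.exp c) =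
      ENNReal.ofReal (Real.exp (-ψ z)) * ENNReal.ofReal (Real.exp (ψ z + c)) := by
    rw [← ENNReal.ofReal_mul (Real.exp_pos _).le, ← Real.exp_add]
    congr 2; ring
  rw [h3, h4, mul_assoc, mul_assoc]
  gcongr

end

end Crest.Agent.R276.LM1_976
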