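import Mathlib
import Crest.Agent.R276.LM1_976

/-!
# Row 276 (S0419), GRO-LOW (helper358): sub-mean value inequality for `‖g‖^p`, `p > 0` real

* `circle_rpow` : `2π ‖F 0‖^p ≤ ∫ ‖F (e^{iθ})‖^p dθ` (Jensen's formula and convexity of `exp`);
* `rpow_mul_measure_le` : `‖g 0‖^p μ(S) ≤ ∫_S ‖g‖^p dμ` on balanced open sets `S` of a finite
  dimensional complex space, `g` holomorphic on `S`;
* `rpow_mul_ball_le` : the same on balls around an arbitrary point.
-/

set_option autoImplicit false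

open MeasureTheory Set Metric Topology Filter
open scoped ENNReal Real

namespace Crest.Agent.R276.SubP_358

noncomputable section

/-- Jensen's inequality -/
theorem log_norm_le {f : ℂ → ℂ} (hf : AnalyticOnNhd ℂ f (closedBall 0 1)) (h0 : f 0 ≠ 0) :
    Real.log ‖f 0‖ ≤ Real.circleAverage (fun z => Real.log ‖f z‖) 0 1 := by
  have hf' : AnalyticOnNhd ℂ f (closedBall 0 |(1 : ℝ)|) := by simpa using hf
  rw [hf'.circleAverage_log_norm one_ne_zero h0]
  have h1 : 0 ≤ ∑ᶠ u, (MeromorphicOn.divisor f (closedBall 0 |(1 : ℝ)|)) u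
      * Real.log (1 * ‖(0 : ℂ) - u‖⁻¹) := by
    refine finsum_nonneg (fun u => ?_)
    by_cases hu : u ∈ closedBall (0 : ℂ) |(1 : ℝ)|
    · have h2 : (0 : ℤ) ≤ (MeromorphicOn.divisor f (closedBall 0 |(1 : ℝ)|)) u :=
        (MeromorphicOn.AnalyticOnNhd.divisor_nonneg hf') u
      have h3 : 0 ≤ Real.log (1 * ‖(0 : ℂ) - u‖⁻¹) := by
        have h4 : ‖u‖ ≤ 1 := by simpa using hu
        rcases eq_or_ne u 0 with rfl | hu0
        · simp
        · apply Real.log_nonneg
          rw [one_mul, zero_sub, norm_neg]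
          exact (one_le_inv₀ (norm_pos_iff.2 hu0)).2 h4
      exact mul_nonneg (by exact_mod_cast h2) h3
    · have h2 : (MeromorphicOn.divisor f (closedBall 0 |(1 : ℝ)|)) u = 0 :=
        Function.locallyFinsuppWithin.apply_eq_zero_of_notMem _ hu
      rw [h2]
      simp
  linarith

/-- zeros of an analytic function on a circle are negligible -/
theorem ae_circleMap_ne_zero {f : ℂ → ℂ} (hf : AnalyticOnNhd ℂ f (closedBall 0 1))
    (h0 : f 0 ≠ 0) :
    ∀ᵐ θ ∂(volume.restrict (uIoc (0 : ℝ) (2 * π))), f (circleMap 0 1 θ) ≠ 0 := by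
  have h1 : f ⁻¹' {0}ᶜ ∈ codiscreteWithin (closedBall (0 : ℂ) 1) :=
    hf.preimage_zero_mem_codiscreteWithin h0 (by simp)
      ((convex_closedBall (0 : ℂ) 1).isConnected ⟨0, by simp⟩)
  have h2 : f ⁻¹' {0}ᶜ ∈ codiscreteWithin (sphere (0 : ℂ) |(1 : ℝ)|) := by
    rw [abs_one]
    exact codiscreteWithin_mono sphere_subset_closedBall h1
  have h3 : (circleMap 0 1) ⁻¹' (f ⁻¹' {0}ᶜ) ∈ codiscrete ℝ :=
    circleMap_preimage_codiscrete one_ne_zero h2
  have h4 : (circleMap 0 1) ⁻¹' (f ⁻¹' {0}ᶜ) ∈ codiscreteWithin (uIoc (0 : ℝ) (2 * π)) :=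
    codiscreteWithin_mono (subset_univ _) h3
  exact ae_restrict_le_codiscreteWithin measurableSet_uIoc h4

/-- circle mean value inequality for `‖F‖^p` -/
theorem circle_rpow {F : ℂ → ℂ} (hF : AnalyticOnNhd ℂ F (closedBall 0 1)) {p : ℝ} (hp : 0 < p) :
    ENNReal.ofReal (2 * π) * ‖F 0‖ₑ ^ p ≤
      ∫⁻ θ in Ioc 0 (2 * π), ‖F (circleMap 0 1 θ)‖ₑ ^ p := by
  rcases eq_or_ne (F 0) 0 with h0 | h0
  · rw [h0, enorm_zero, ENNReal.zero_rpow_of_pos hp, mul_zero]
    exact zero_le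
  set ν : Measure ℝ := (volume : Measure ℝ).restrict (Ioc 0 (2 * π)) with hν
  have hνu : ν univ = ENNReal.ofReal (2 * π) := by
    rw [hν, Measure.restrict_apply_univ, Real.volume_Ioc, sub_zero]
  have hfin : IsFiniteMeasure ν := ⟨by rw [hνu]; exact ENNReal.ofReal_lt_top⟩
  have hpi : (0 : ℝ) < 2 * π := by positivity
  have hne : NeZero ν := ⟨fun h => by
    have h1 : ν univ = 0 := by rw [h]; rfl
    rw [hνu, ENNReal.ofReal_eq_zero] at h1
    exact absurd hpi (not_lt.mpr h1)⟩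
  have hreal : ν.real univ = 2 * π := by
    rw [measureReal_def, hνu, ENNReal.toReal_ofReal hpi.le]
  -- integrability of the logarithm
  have hI : Integrable (fun θ => Real.log ‖F (circleMap 0 1 θ)‖) ν := by
    have h1 : CircleIntegrable (fun z => Real.log ‖F z‖) 0 1 := by
      apply MeromorphicOn.circleIntegrable_log_norm
      intro z hz
      apply AnalyticAt.meromorphicAt
      apply hF
      rw [abs_one] at hz
      exact sphere_subset_closedBall hz
    exact (intervalIntegrable_iff_integrableOn_Ioc_of_le hpi.le).mp h1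
  have hcont : Continuous (fun θ : ℝ => ‖F (circleMap 0 1 θ)‖ ^ p) := by
    rw [continuous_iff_continuousAt]
    intro θ
    have h1 : ContinuousAt F (circleMap 0 1 θ) :=
      (hF _ (by simp)).continuousAt
    have h2 : ContinuousAt (fun θ : ℝ => F (circleMap 0 1 θ)) θ :=
      ContinuousAt.comp (f := circleMap 0 1) h1 (continuous_circleMap 0 1).continuousAt
    exact h2.norm.rpow_const (Or.inr hp.le)
  have hIp : Integrable (fun θ : ℝ => ‖F (circleMap 0 1 θ)‖ ^ p) ν := by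
    have h1 : IntervalIntegrable (fun θ : ℝ => ‖F (circleMap 0 1 θ)‖ ^ p) volume 0 (2 * π) :=
      hcont.intervalIntegrable _ _
    exact (intervalIntegrable_iff_integrableOn_Ioc_of_le hpi.le).mp h1
  have hae : ∀ᵐ θ ∂ν, Real.exp (p * Real.log ‖F (circleMap 0 1 θ)‖) =
      ‖F (circleMap 0 1 θ)‖ ^ p := by
    have h1 := ae_circleMap_ne_zero hF h0
    rw [uIoc_of_le hpi.le] at h1
    filter_upwards [h1] with θ hθ
    rw [Real.rpow_def_of_pos (norm_pos_iff.mpr hθ), mul_comm]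
  -- Jensen
  have hJ : Real.exp (⨍ θ, p * Real.log ‖F (circleMap 0 1 θ)‖ ∂ν) ≤
      ⨍ θ, Real.exp (p * Real.log ‖F (circleMap 0 1 θ)‖) ∂ν := by
    refine convexOn_exp.map_average_le Real.continuous_exp.continuousOn isClosed_univ
      (Eventually.of_forall fun _ => mem_univ _) (hI.const_mul p) ?_
    exact hIp.congr (hae.mono fun θ hθ => hθ.symm)
  have h1 : ‖F 0‖ ^ p ≤ Real.exp (⨍ θ, p * Real.log ‖F (circleMap 0 1 θ)‖ ∂ν) := by
    rw [Real.rpow_def_of_pos (norm_pos_iff.mpr h0)]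
    apply Real.exp_le_exp.mpr
    have h2 := log_norm_le hF h0
    have h3 : Real.circleAverage (fun z => Real.log ‖F z‖) 0 1 =
        ⨍ θ, Real.log ‖F (circleMap 0 1 θ)‖ ∂ν := by
      rw [Real.circleAverage_def, average_eq, hreal, intervalIntegral.integral_of_le hpi.le]
    rw [h3] at h2
    have h4 : (⨍ θ, p * Real.log ‖F (circleMap 0 1 θ)‖ ∂ν) =
        p * ⨍ θ, Real.log ‖F (circleMap 0 1 θ)‖ ∂ν := by
      rw [average_eq, average_eq, integral_const_mul, smul_eq_mul, smul_eq_mul]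
      ring
    rw [h4, mul_comm]
    exact mul_le_mul_of_nonneg_left h2 hp.le
  have h5 : (⨍ θ, Real.exp (p * Real.log ‖F (circleMap 0 1 θ)‖) ∂ν) =
      (2 * π)⁻¹ * ∫ θ, ‖F (circleMap 0 1 θ)‖ ^ p ∂ν := by
    rw [average_eq, hreal, smul_eq_mul, integral_congr_ae hae]
  have h6 : 2 * π * ‖F 0‖ ^ p ≤ ∫ θ, ‖F (circleMap 0 1 θ)‖ ^ p ∂ν := by
    have h7 := h1.trans (hJ.trans h5.le)
    rwa [inv_mul_eq_div, le_div_iff₀ hpi, mul_comm] at h7
  have h8 : ENNReal.ofReal (∫ θ, ‖F (circleMap 0 1 θ)‖ ^ p ∂ν) =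
      ∫⁻ θ, ENNReal.ofReal (‖F (circleMap 0 1 θ)‖ ^ p) ∂ν :=
    ofReal_integral_eq_lintegral_ofReal hIp (Eventually.of_forall fun _ => by positivity)
  have h9 : ∀ z : ℂ, ENNReal.ofReal (‖z‖ ^ p) = ‖z‖ₑ ^ p := fun z => by
    rw [← ENNReal.ofReal_rpow_of_nonneg (norm_nonneg z) hp.le, ofReal_norm]
  calc ENNReal.ofReal (2 * π) * ‖F 0‖ₑ ^ p = ENNReal.ofReal (2 * π * ‖F 0‖ ^ p) := by
        rw [ENNReal.ofReal_mul hpi.le, h9]
    _ ≤ ENNReal.ofReal (∫ θ, ‖F (circleMap 0 1 θ)‖ ^ p ∂ν) := ENNReal.ofReal_le_ofReal h6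
    _ = _ := by
        rw [h8]
        exact lintegral_congr fun θ => h9 _

variable {E : Type*} [NormedAddCommGroup E] [NormedSpace ℂ E]

/-- circle mean value inequality for `‖g‖^p` on a complex line -/
theorem rpow_norm_le_circle {g : E → ℂ} {S : Set E} (hS : IsOpen S) (hb : Balanced ℂ S)
    (hg : DifferentiableOn ℂ g S) {w : E} (hw : w ∈ S) {p : ℝ} (hp : 0 < p) :
    ENNReal.ofReal (2 * π) * ‖g 0‖ₑ ^ p ≤
      ∫⁻ θ in Ioc 0 (2 * π), ‖g (circleMap 0 1 θ • w)‖ₑ ^ p := by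
  set F : ℂ → ℂ := fun l => g (l • w) with hF
  have hV : IsOpen {l : ℂ | l • w ∈ S} := hS.preimage (by fun_prop)
  have hd : DifferentiableOn ℂ F {l : ℂ | l • w ∈ S} := by
    refine hg.comp (t := S) ?_ fun l hl => hl
    exact (differentiable_id.smul_const w).differentiableOn
  have han : AnalyticOnNhd ℂ F (closedBall 0 1) := by
    refine (hd.analyticOnNhd hV).mono fun l hl => ?_
    exact hb.smul_mem (by simpa using hl) hw
  have h1 := circle_rpow han hp
  have h2 : F 0 = g 0 := by simp [hF]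
  rw [h2] at h1
  exact h1

variable [FiniteDimensional ℂ E] [MeasurableSpace E] [BorelSpace E]

/-- **Sub-mean value inequality** for `‖g‖^p`, `g` holomorphic, on a balanced open set. -/
theorem rpow_mul_measure_le (μ : Measure E) [μ.IsAddHaarMeasure] {g : E → ℂ} {S : Set E}
    (hS : IsOpen S) (hb : Balanced ℂ S) (hg : DifferentiableOn ℂ g S) {p : ℝ} (hp : 0 < p) :
    ‖g 0‖ₑ ^ p * μ S ≤ ∫⁻ w in S, ‖g w‖ₑ ^ p ∂μ := by
  classical
  have : FiniteDimensional ℝ E := FiniteDimensional.complexToReal E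
  set G : E → ℝ≥0∞ := S.indicator (fun w => ‖g w‖ₑ ^ p) with hG
  have hGm : Measurable G := by
    have h1 : ContinuousOn (fun w => ‖g w‖ₑ ^ p) S :=
      (ENNReal.continuous_rpow_const).comp_continuousOn
        (continuous_enorm.comp_continuousOn hg.continuousOn)
    have h2 : Measurable (S.piecewise (fun w => ‖g w‖ₑ ^ p) (fun _ => (0 : ℝ≥0∞))) :=
      h1.measurable_piecewise continuousOn_const hS.measurableSet
    have h3 : S.piecewise (fun w => ‖g w‖ₑ ^ p) (fun _ => (0 : ℝ≥0∞)) = G := by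
      ext w; by_cases hw : w ∈ S <;> simp [hG, hw]
    rwa [h3] at h2
  have hsmul : Measurable (fun p : ℝ × E => circleMap 0 1 p.1 • p.2) := by
    refine Continuous.measurable ?_
    exact ((continuous_circleMap 0 1).comp continuous_fst).smul continuous_snd
  set ν : Measure ℝ := (volume : Measure ℝ).restrict (Ioc 0 (2 * π)) with hν
  have hνu : ν univ = ENNReal.ofReal (2 * π) := by
    rw [hν, Measure.restrict_apply_univ, Real.volume_Ioc, sub_zero]
  have hswap : (∫⁻ θ, ∫⁻ w, G (circleMap 0 1 θ • w) ∂μ ∂ν) =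
      ∫⁻ w, ∫⁻ θ, G (circleMap 0 1 θ • w) ∂ν ∂μ :=
    lintegral_lintegral_swap (hGm.comp hsmul).aemeasurable
  have hinner : ∀ θ : ℝ, (∫⁻ w, G (circleMap 0 1 θ • w) ∂μ) = ∫⁻ w, G w ∂μ := by
    intro θ
    exact (LM1_976.measurePreserving_smul_of_norm_one μ (c := circleMap 0 1 θ)
      (by simp)).lintegral_comp hGm
  have hleft : (∫⁻ θ, ∫⁻ w, G (circleMap 0 1 θ • w) ∂μ ∂ν) =
      ENNReal.ofReal (2 * π) * ∫⁻ w, G w ∂μ := by
    rw [lintegral_congr hinner, lintegral_const, hνu, mul_comm]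
  have hright : ENNReal.ofReal (2 * π) * (‖g 0‖ₑ ^ p * μ S) ≤
      ∫⁻ w, ∫⁻ θ, G (circleMap 0 1 θ • w) ∂ν ∂μ := by
    have : ENNReal.ofReal (2 * π) * (‖g 0‖ₑ ^ p * μ S) =
        ∫⁻ w, S.indicator (fun _ => ENNReal.ofReal (2 * π) * ‖g 0‖ₑ ^ p) w ∂μ := by
      rw [lintegral_indicator hS.measurableSet, lintegral_const, Measure.restrict_apply_univ,
        mul_assoc]
    rw [this]
    refine lintegral_mono fun w => ?_
    by_cases hw : w ∈ S
    · rw [indicator_of_mem hw]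
      refine (rpow_norm_le_circle hS hb hg hw hp).trans (le_of_eq ?_)
      refine lintegral_congr fun θ => ?_
      have : circleMap 0 1 θ • w ∈ S := hb.smul_mem (by simp) hw
      simp only [hG, indicator_of_mem this]
    · rw [indicator_of_notMem hw]; exact zero_le
  rw [← hswap, hleft] at hright
  have hpos : ENNReal.ofReal (2 * π) ≠ 0 := by
    rw [Ne, ENNReal.ofReal_eq_zero, not_le]; positivity
  have h := (ENNReal.mul_le_mul_iff_right hpos ENNReal.ofReal_ne_top).1 hright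
  refine h.trans (le_of_eq ?_)
  rw [hG, lintegral_indicator hS.measurableSet]

/-- sub-mean value inequality for `‖g‖^p` on a ball -/
theorem rpow_mul_ball_le (μ : Measure E) [μ.IsAddHaarMeasure] {g : E → ℂ} {z : E} {ρ : ℝ}
    (hg : DifferentiableOn ℂ g (ball z ρ)) {p : ℝ} (hp : 0 < p) :
    ‖g z‖ₑ ^ p * μ (ball z ρ) ≤ ∫⁻ w in ball z ρ, ‖g w‖ₑ ^ p ∂μ := by
  have hpre : (fun w => z + w) ⁻¹' (ball z ρ) = ball 0 ρ := by
    ext w
    simp
  have hg' : DifferentiableOn ℂ (fun w => g (z + w)) (ball 0 ρ) := by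
    refine hg.comp (t := ball z ρ) ?_ fun w hw => ?_
    · exact (differentiable_id.const_add z).differentiableOn
    · rw [← hpre] at hw
      exact hw
  have h1 := rpow_mul_measure_le μ isOpen_ball (balanced_ball_zero (𝕜 := ℂ)) hg' hp
  have h2 : μ (ball z ρ) = μ (ball (0 : E) ρ) := by
    rw [← hpre, measure_preimage_add]
  have h3 : ∫⁻ w in ball (0 : E) ρ, ‖g (z + w)‖ₑ ^ p ∂μ = ∫⁻ w in ball z ρ, ‖g w‖ₑ ^ p ∂μ := by
    have hmp : MeasurePreserving (fun w => z + w) μ μ := measurePreserving_add_left μ z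
    have h4 := (hmp.restrict_preimage_emb (measurableEmbedding_addLeft z)
      (ball z ρ)).lintegral_comp_emb (measurableEmbedding_addLeft z) (fun w => ‖g w‖ₑ ^ p)
    rw [hpre] at h4
    exact h4
  rw [h2, ← h3]
  simpa using h1

end

end Crest.Agent.R276.SubP_358
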