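import Mathlib
import Crest.Agent.R276.Gram3_358
import Crest.Agent.R276.SubP_358
import Crest.Agent.R276.Top8b_815

/-!
# Row 276 (S0419), GRO-LOW (helper358): lower bounds of fibre integrals

* `Rel.toFSp` : a relative model as a fibred space `FSp m r ML.Pts MK.Pts` (815's interface);
* `subm` : `‖f y₀‖^p vol(polydisc) ≤ ∫_fibre ‖f‖^p` if the fibre has a section over the polydisc;
* `exists_section` : on a relative model the section exists as long as `h ≠ 0` on the polydisc;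
* `gro_low` : `u : Fin s → MK.B` linearly independent over `L` ⇒
  `∫_{fibre over w} ‖∑ v_i u_i‖^p ≥ κ(w) ‖v‖^p` for all `v ∈ ℂ^s`, `κ ≥ c |P|^A (1+|z|²)^(-B)`.
-/

set_option autoImplicit false

open Polynomial Topology Filter MeasureTheory Metric
open scoped ENNReal

noncomputable section

namespace Crest.Agent.R276.GroLow_358

open Crest.Agent.R271.Defs710 Crest.Agent.R271.Alg255 Crest.Agent.R271.Rd692
open Crest.Agent.R271.AlgB956 Crest.Agent.R271.Ho51 Crest.Agent.R276.Mod1_987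
open Crest.Agent.R276.Gram0_358 Crest.Agent.R276.Gram1_358 Crest.Agent.R276.Gram2_358
open Crest.Agent.R276.Gram3_358 Crest.Agent.R276.Top8_815

/-! ### sub-mean value on fibred spaces -/

section fsp

variable {n d : ℕ} {X Y : Type*} [TopologicalSpace X] [RDom n X] [TopologicalSpace Y]
  (F : FSp n d X Y)

/-- **sub-mean value inequality** on a fibre with a section over a polydisc -/
theorem subm {u : X} {f : Y → ℂ} (hf : F.FH u f) {y₀ : Y} {ρ : ℝ}
    {σ : (Fin d → ℂ) → Y} (hσ : ContinuousOn σ (ball (F.t y₀) ρ))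
    (hq : ∀ x ∈ ball (F.t y₀) ρ, F.q (σ x) = u) (ht : ∀ x ∈ ball (F.t y₀) ρ, F.t (σ x) = x)
    (h0 : σ (F.t y₀) = y₀) {p : ℝ} (hp : 0 < p) :
    ‖f y₀‖ₑ ^ p * volume (ball (F.t y₀) ρ) ≤ F.fint u fun y => ‖f y‖ₑ ^ p := by
  have hd : DifferentiableOn ℂ (fun x => f (σ x)) (ball (F.t y₀) ρ) := by
    intro x hx
    obtain ⟨g, hg, hev⟩ := hf (σ x) (hq x hx)
    rw [ht x hx] at hg
    have hnhds : ball (F.t y₀) ρ ∈ 𝓝 x := isOpen_ball.mem_nhds hx
    have hc : ContinuousAt σ x := hσ.continuousAt hnhds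
    have h1 : (fun x => f (σ x)) =ᶠ[𝓝 x] g := by
      filter_upwards [hc.eventually hev, hnhds] with x' hx' hx'b
      have h2 := hx' (hq x' hx'b)
      rw [h2, ht x' hx'b]
    exact (hg.differentiableAt.congr_of_eventuallyEq h1).differentiableWithinAt
  have h1 := SubP_358.rpow_mul_ball_le (volume : Measure (Fin d → ℂ)) hd hp
  rw [h0] at h1
  refine h1.trans ?_
  unfold FSp.fint
  refine le_trans (setLIntegral_mono' measurableSet_ball ?_) (setLIntegral_le_lintegral _ _)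
  intro x hx
  exact ENNReal.le_tsum (f := fun y : {y : Y // F.q y = u ∧ F.t y = x} => ‖f y.1‖ₑ ^ p)
    ⟨σ x, hq x hx, ht x hx⟩

end fsp

/-! ### relative models -/

section rel

variable {L K : Type} [Field L] [Algebra ℂ L] [Field K] [Algebra ℂ K] [Algebra L K] {m r : ℕ}
  {ML : Mdl L m} {MK : Mdl K (m + r)} (R : Rel ML MK)

lemma continuous_q : Continuous R.q :=
  continuous_iff_ev.mpr fun b => continuous_ev (R.inc b)

lemma continuous_xx : Continuous R.xx := continuous_pi fun _ => continuous_ev _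

/-- a relative model as a fibred space -/
def toFSp : FSp m r ML.Pts MK.Pts where
  q := R.q
  t := R.xx
  lh := by
    have h1 : IsLocalHomeomorph (fun p : ML.Pts × Cn r => (ML.pz p.1, p.2)) := by
      refine IsLocalHomeomorph.mk _ fun p => ?_
      obtain ⟨e, he, hee⟩ := isLocalHomeomorph_pr ML.hch p.1
      refine ⟨e.prod (OpenPartialHomeomorph.refl (Cn r)), ⟨he, trivial⟩, fun x _ => ?_⟩
      change (ML.pz x.1, x.2) = (e x.1, x.2)
      rw [← hee]
    have h2 : IsLocalHomeomorph (fun p : ML.Pts × Cn r => Fin.append (ML.pz p.1) p.2) :=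
      ((Fin.appendHomeomorph (X := ℂ) m r).isLocalHomeomorph).comp h1
    have h3 : IsLocalHomeomorph ((fun p : ML.Pts × Cn r => Fin.append (ML.pz p.1) p.2) ∘
        fun y : MK.Pts => (R.q y, R.xx y)) := by
      have h4 : ((fun p : ML.Pts × Cn r => Fin.append (ML.pz p.1) p.2) ∘
        fun y : MK.Pts => (R.q y, R.xx y)) = MK.pz := by
        funext y
        exact (R.pz_eq y).symm
      rw [h4]
      exact isLocalHomeomorph_pr MK.hch
    exact h3.of_comp h2 ((continuous_q R).prodMk (continuous_xx R))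

/-- sections over polydiscs -/
theorem exists_section (y₀ : MK.Pts) {ρ : ℝ} (hρ : 0 < ρ)
    (hh : ∀ x ∈ ball (R.xx y₀) ρ,
      MvPolynomial.eval (Fin.append (ML.pz (R.q y₀)) x) MK.h ≠ 0) :
    ∃ σ : Cn r → MK.Pts, ContinuousOn σ (ball (R.xx y₀) ρ) ∧
      (∀ x ∈ ball (R.xx y₀) ρ, R.q (σ x) = R.q y₀) ∧
      (∀ x ∈ ball (R.xx y₀) ρ, R.xx (σ x) = x) ∧ σ (R.xx y₀) = y₀ := by
  classical
  set A := ball (R.xx y₀) ρ with hA
  have ha : R.xx y₀ ∈ A := mem_ball_self hρ
  have hne : A.Nonempty := ⟨_, ha⟩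
  have _ : ContractibleSpace A := (convex_ball (R.xx y₀) ρ).contractibleSpace hne
  have _ : LocallyPathConnectedSpace A := (isOpen_ball (x := R.xx y₀) (ε := ρ)).locallyPathConnectedSpace
  let f : C(A, MK.U) := ⟨fun x => ⟨Fin.append (ML.pz (R.q y₀)) x.1, hh x.1 x.2⟩, by
    refine Continuous.subtype_mk ?_ _
    have h1 : Continuous (fun x : A => ((ML.pz (R.q y₀), x.1) : Cn m × Cn r)) :=
      continuous_const.prodMk continuous_subtype_val
    exact (Fin.appendHomeomorph (X := ℂ) m r).continuous.comp h1⟩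
  obtain ⟨G, ⟨hG0, hG⟩, _⟩ := MK.isCoveringMap.existsUnique_continuousMap_lifts f ⟨R.xx y₀, ha⟩ y₀
    (Subtype.ext (R.pz_eq y₀))
  have hGz : ∀ a : A, MK.pz (G a) = Fin.append (ML.pz (R.q y₀)) a.1 := fun a =>
    congrArg Subtype.val (congrFun hG a)
  have hGq : ∀ a : A, R.q (G a) = R.q y₀ := by
    intro a
    have h1 : (fun a : A => R.q (G a)) = fun _ => R.q y₀ := by
      refine ML.isCoveringMap.eq_of_comp_eq ((continuous_q R).comp G.continuous)
        continuous_const ?_ ⟨R.xx y₀, ha⟩ ?_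
      · funext a
        apply Subtype.ext
        change ML.pz (R.q (G a)) = ML.pz (R.q y₀)
        have h2 := hGz a
        rw [R.pz_eq] at h2
        funext i
        have h3 := congrFun h2 (Fin.castAdd r i)
        rw [Fin.append_left, Fin.append_left] at h3
        exact h3
      · rw [hG0]
    exact congrFun h1 a
  refine ⟨fun x => if h : x ∈ A then G ⟨x, h⟩ else y₀, ?_, ?_, ?_, ?_⟩
  · rw [continuousOn_iff_continuous_domRestrict]
    have h1 : A.domRestrict (fun x => if h : x ∈ A then G ⟨x, h⟩ else y₀) = G := by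
      funext a
      rw [Set.domRestrict_apply, dif_pos a.2]
    rw [h1]
    exact G.continuous
  · intro x hx
    simp only [dif_pos hx]
    exact hGq _
  · intro x hx
    simp only [dif_pos hx]
    have h2 := hGz ⟨x, hx⟩
    rw [R.pz_eq] at h2
    funext i
    have h3 := congrFun h2 (Fin.natAdd m i)
    rw [Fin.append_right, Fin.append_right] at h3
    exact h3
  · simp only [dif_pos ha]
    exact hG0

/-- elements of `B` are holomorphic on the fibres -/
lemma fh_elem (w : ML.Pts) (b : MK.B) : (toFSp R).FH w fun y => y b := by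
  intro y hy
  change R.q y = w at hy
  obtain ⟨C⟩ := MK.hch y
  have hpz : ∀ y' : MK.Pts, R.q y' = w → MK.pz y' - MK.pz y =
      Fin.append 0 (R.xx y' - R.xx y) := by
    intro y' hy'
    rw [R.pz_eq, R.pz_eq, hy', hy]
    funext i
    refine Fin.addCases (fun i => ?_) (fun i => ?_) i
    · rw [Pi.sub_apply, Fin.append_left, Fin.append_left, Fin.append_left, sub_self]
      rfl
    · rw [Pi.sub_apply, Fin.append_right, Fin.append_right, Fin.append_right]
      rfl
  have hlin : AnalyticAt ℂ (fun x : Cn r => (Fin.append 0 (x - R.xx y) : Cn (m + r)))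
      (R.xx y) := by
    rw [analyticAt_pi_iff]
    intro i
    refine Fin.addCases (fun i => ?_) (fun i => ?_) i
    · simp only [Fin.append_left]
      exact analyticAt_const
    · simp only [Fin.append_right, Pi.sub_apply]
      exact ((ContinuousLinearMap.proj (R := ℂ) (φ := fun _ : Fin r => ℂ) i).analyticAt _).sub
        analyticAt_const
  have h0 : (Fin.append 0 (R.xx y - R.xx y) : Cn (m + r)) = 0 := by
    rw [← hpz y hy, sub_self]
  refine ⟨fun x => C.s (Fin.append 0 (x - R.xx y)) b, ?_, ?_⟩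
  · have h1 := C.anal b 0 (Metric.mem_ball_self C.r_pos)
    rw [← h0] at h1
    exact AnalyticAt.comp (g := fun ζ => C.s ζ b)
      (f := fun x : Cn r => (Fin.append 0 (x - R.xx y) : Cn (m + r))) h1 hlin
  · filter_upwards [(isOpen_sheet MK.hch C).mem_nhds (self_mem_sheet C)] with y' hy' hq
    have h1 := hy'.2
    have h2 : pr MK.z y' - pr MK.z y = Fin.append 0 (R.xx y' - R.xx y) := hpz y' hq
    rw [h2] at h1
    conv_lhs => rw [h1]
    rfl

/-! ### radii -/

/-- Lipschitz estimate for polynomials -/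
theorem exists_lip {n : ℕ} (p : MvPolynomial (Fin n) ℂ) : ∃ (C : ℝ) (k : ℕ), 0 < C ∧
    ∀ z z' : Cn n, ‖z' - z‖ ≤ 1 →
      ‖MvPolynomial.eval z' p - MvPolynomial.eval z p‖ ≤ C * wt z ^ k * ‖z' - z‖ := by
  induction p using MvPolynomial.induction_on with
  | C a =>
    refine ⟨1, 0, one_pos, fun z z' _ => ?_⟩
    rw [MvPolynomial.eval_C, MvPolynomial.eval_C, sub_self, norm_zero]
    positivity
  | add p q hp hq =>
    obtain ⟨C, k, hC, h1⟩ := hp
    obtain ⟨D, l, hD, h2⟩ := hq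
    refine ⟨C + D, k + l, by positivity, fun z z' hz => ?_⟩
    rw [map_add, map_add]
    have h3 : wt z ^ k ≤ wt z ^ (k + l) := pow_le_wt (Nat.le_add_right _ _)
    have h4 : wt z ^ l ≤ wt z ^ (k + l) := pow_le_wt (Nat.le_add_left _ _)
    have h5 : MvPolynomial.eval z' p + MvPolynomial.eval z' q -
        (MvPolynomial.eval z p + MvPolynomial.eval z q) =
        (MvPolynomial.eval z' p - MvPolynomial.eval z p) +
        (MvPolynomial.eval z' q - MvPolynomial.eval z q) := by ring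
    rw [h5]
    calc ‖(MvPolynomial.eval z' p - MvPolynomial.eval z p) +
        (MvPolynomial.eval z' q - MvPolynomial.eval z q)‖ ≤
          C * wt z ^ k * ‖z' - z‖ + D * wt z ^ l * ‖z' - z‖ :=
          (norm_add_le _ _).trans (add_le_add (h1 z z' hz) (h2 z z' hz))
      _ ≤ C * wt z ^ (k + l) * ‖z' - z‖ + D * wt z ^ (k + l) * ‖z' - z‖ := by gcongr
      _ = _ := by ring
  | mul_X p i hp =>
    obtain ⟨C, k, hC, h1⟩ := hp
    obtain ⟨D, l, hD, h2⟩ := exists_poly_bound p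
    refine ⟨2 * C + D, (k + 1) + l, by positivity, fun z z' hz => ?_⟩
    rw [map_mul, map_mul, MvPolynomial.eval_X, MvPolynomial.eval_X]
    have h5 : MvPolynomial.eval z' p * z' i - MvPolynomial.eval z p * z i =
        (MvPolynomial.eval z' p - MvPolynomial.eval z p) * z' i +
        MvPolynomial.eval z p * (z' i - z i) := by ring
    have h6 : ‖z' i - z i‖ ≤ ‖z' - z‖ := norm_le_pi_norm (z' - z) i
    have h7 : ‖z' i‖ ≤ 2 * wt z := by
      have h8 : ‖z' i‖ ≤ ‖z' i - z i‖ + ‖z i‖ := by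
        have := norm_add_le (z' i - z i) (z i)
        simpa using this
      have h9 := norm_le_wt z i
      have h10 := one_le_wt z
      linarith
    have h3 : wt z ^ (k + 1) ≤ wt z ^ ((k + 1) + l) := pow_le_wt (Nat.le_add_right _ _)
    have h4 : wt z ^ l ≤ wt z ^ ((k + 1) + l) := pow_le_wt (Nat.le_add_left _ _)
    have hW : 0 < wt z := wt_pos z
    rw [h5]
    calc ‖(MvPolynomial.eval z' p - MvPolynomial.eval z p) * z' i +
        MvPolynomial.eval z p * (z' i - z i)‖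
        ≤ ‖MvPolynomial.eval z' p - MvPolynomial.eval z p‖ * ‖z' i‖ +
          ‖MvPolynomial.eval z p‖ * ‖z' i - z i‖ := by
          refine (norm_add_le _ _).trans (le_of_eq ?_)
          rw [norm_mul, norm_mul]
      _ ≤ (C * wt z ^ k * ‖z' - z‖) * (2 * wt z) + (D * wt z ^ l) * ‖z' - z‖ := by
          gcongr
          · exact h1 z z' hz
          · exact h2 z
      _ = 2 * C * wt z ^ (k + 1) * ‖z' - z‖ + D * wt z ^ l * ‖z' - z‖ := by ring
      _ ≤ 2 * C * wt z ^ ((k + 1) + l) * ‖z' - z‖ + D * wt z ^ ((k + 1) + l) * ‖z' - z‖ := by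
          gcongr
      _ = _ := by ring

omit [Algebra L K] in
/-- radii on which `h` does not vanish -/
theorem exists_radius {P : MvPolynomial (Fin m) ℂ} (x₀ : Cn r)
    (hP : LB ML P (fun w => ‖hx MK x₀ w‖)) :
    ∃ ρ : ML.Pts → ℝ, LB ML P ρ ∧ (∀ w, ρ w ≤ 1) ∧ ∀ w : ML.Pts, hx MK x₀ w ≠ 0 →
      0 < ρ w ∧ ∀ x ∈ ball x₀ (ρ w), MvPolynomial.eval (Fin.append (ML.pz w) x) MK.h ≠ 0 := by
  obtain ⟨C, k, hC, h1⟩ := exists_lip MK.h
  obtain ⟨D, l, hD, h2⟩ := exists_poly_bound (sx (m := m) x₀ MK.h)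
  set C1 := D + 2 * C * wt x₀ ^ k with hC1
  have hx0 : 0 < wt x₀ := wt_pos _
  have hC10 : 0 < C1 := by positivity
  refine ⟨fun w => ‖hx MK x₀ w‖ / (C1 * wt (ML.pz w) ^ (l + k)), LB.div hP hC10 _,
    fun w => ?_, fun w hw => ?_⟩
  · have hW : 0 < wt (ML.pz w) := wt_pos _
    rw [div_le_one (by positivity)]
    have h3 := h2 (ML.pz w)
    rw [eval_sx] at h3
    refine h3.trans (mul_le_mul ?_ (pow_le_wt (Nat.le_add_right _ _)) (pow_nonneg hW.le _) hC10.le)
    rw [hC1]
    have : 0 ≤ 2 * C * wt x₀ ^ k := by positivity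
    linarith
  · have hW : 0 < wt (ML.pz w) := wt_pos _
    have hpos : 0 < ‖hx MK x₀ w‖ := norm_pos_iff.mpr hw
    have hρ1 : ‖hx MK x₀ w‖ / (C1 * wt (ML.pz w) ^ (l + k)) ≤ 1 := by
      rw [div_le_one (by positivity)]
      have h3 := h2 (ML.pz w)
      rw [eval_sx] at h3
      refine h3.trans (mul_le_mul ?_ (pow_le_wt (Nat.le_add_right _ _))
        (pow_nonneg hW.le _) hC10.le)
      rw [hC1]
      have : 0 ≤ 2 * C * wt x₀ ^ k := by positivity
      linarith
    refine ⟨by positivity, fun x hx' h0 => ?_⟩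
    rw [mem_ball, dist_eq_norm] at hx'
    have hnorm : ‖Fin.append (ML.pz w) x - Fin.append (ML.pz w) x₀‖ ≤ ‖x - x₀‖ := by
      rw [pi_norm_le_iff_of_nonneg (norm_nonneg _)]
      intro i
      refine Fin.addCases (fun i => ?_) (fun i => ?_) i
      · rw [Pi.sub_apply, Fin.append_left, Fin.append_left, sub_self, norm_zero]
        exact norm_nonneg _
      · rw [Pi.sub_apply, Fin.append_right, Fin.append_right]
        exact norm_le_pi_norm (x - x₀) i
    have h3 := h1 (Fin.append (ML.pz w) x₀) (Fin.append (ML.pz w) x)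
      (hnorm.trans (hx'.le.trans hρ1))
    rw [h0, zero_sub, norm_neg] at h3
    have h4 : C * wt (Fin.append (ML.pz w) x₀) ^ k ≤
        C1 / 2 * wt (ML.pz w) ^ (l + k) := by
      calc C * wt (Fin.append (ML.pz w) x₀) ^ k ≤ C * (wt (ML.pz w) * wt x₀) ^ k := by
            apply mul_le_mul_of_nonneg_left _ hC.le
            exact pow_le_pow_left₀ (wt_pos _).le (wt_append _ _) _
        _ = (C * wt x₀ ^ k) * wt (ML.pz w) ^ k := by rw [mul_pow]; ring
        _ ≤ _ := by
            refine mul_le_mul ?_ (pow_le_wt (Nat.le_add_left _ _)) (pow_nonneg hW.le _)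
              (by positivity)
            rw [hC1]
            linarith
    have h5 : ‖hx MK x₀ w‖ ≤ C1 / 2 * wt (ML.pz w) ^ (l + k) * ‖x - x₀‖ :=
      h3.trans (mul_le_mul h4 hnorm (norm_nonneg _) (by positivity))
    have h6 : C1 / 2 * wt (ML.pz w) ^ (l + k) * ‖x - x₀‖ ≤ ‖hx MK x₀ w‖ / 2 := by
      calc C1 / 2 * wt (ML.pz w) ^ (l + k) * ‖x - x₀‖
          ≤ C1 / 2 * wt (ML.pz w) ^ (l + k) *
            (‖hx MK x₀ w‖ / (C1 * wt (ML.pz w) ^ (l + k))) := by
            apply mul_le_mul_of_nonneg_left hx'.le (by positivity)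
        _ = _ := by field_simp
    linarith

/-- sub-mean value inequality on a model -/
theorem subm_model {w : ML.Pts} {f : MK.Pts → ℂ} (hf : (toFSp R).FH w f) {y₀ : MK.Pts}
    (hy₀ : R.q y₀ = w) {ρ : ℝ} (hρ : 0 < ρ)
    (hh : ∀ x ∈ ball (R.xx y₀) ρ, MvPolynomial.eval (Fin.append (ML.pz w) x) MK.h ≠ 0)
    {p : ℝ} (hp : 0 < p) :
    ‖f y₀‖ₑ ^ p * volume (ball (R.xx y₀) ρ) ≤ (toFSp R).fint w fun y => ‖f y‖ₑ ^ p := by
  obtain ⟨σ, h1, h2, h3, h4⟩ := exists_section R y₀ hρ (by rw [hy₀]; exact hh)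
  rw [hy₀] at h2
  exact subm (toFSp R) hf (σ := σ) h1 h2 h3 h4 hp

lemma fh_sum (w : ML.Pts) {s : ℕ} (u : Fin s → MK.B) (v : Fin s → ℂ) :
    (toFSp R).FH w fun y => ∑ i, v i * y (u i) := by
  have h1 : (fun y : MK.Pts => ∑ i, v i * y (u i)) = fun y => y (∑ i, v i • u i) := by
    funext y
    rw [map_sum]
    exact Finset.sum_congr rfl fun i _ => by rw [map_smul, smul_eq_mul]
  rw [h1]
  exact fh_elem R w _

/-- the volume of a polydisc -/
lemma volume_ball' (x : Cn r) {ρ : ℝ} (hρ : 0 < ρ) :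
    volume (ball x ρ) = ENNReal.ofReal (ρ ^ (2 * r) * (volume (ball (0 : Cn r) 1)).toReal) := by
  have h1 := Measure.addHaar_ball_of_pos (volume : Measure (Cn r)) x hρ
  have h2 : Module.finrank ℝ (Cn r) = 2 * r := by
    rw [Module.finrank_pi_fintype]
    simp [Complex.finrank_real_complex, mul_comm]
  rw [h1, h2, ENNReal.ofReal_mul (by positivity), ENNReal.ofReal_toReal measure_ball_lt_top.ne]

/-- **GRO-LOW**: lower bound of the fibre integrals `∫ ‖∑ v_i u_i‖^p` -/
theorem gro_low {s : ℕ} (u : Fin s → MK.B) (hu : LinearIndependent L fun i => (u i : K))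
    {p : ℝ} (hp : 0 < p) :
    ∃ P0 : MvPolynomial (Fin m) ℂ, P0 ≠ 0 ∧ ∀ P : MvPolynomial (Fin m) ℂ, P0 ∣ P →
      ∃ κ : ML.Pts → ℝ, LB ML P κ ∧ ∀ w : ML.Pts, MvPolynomial.eval (ML.pz w) P ≠ 0 →
        0 < κ w ∧ ∀ v : Fin s → ℂ, ENNReal.ofReal (κ w * ‖v‖ ^ p) ≤
          (toFSp R).fint w fun y => ‖∑ i, v i * y (u i)‖ₑ ^ p := by
  classical
  obtain ⟨x, P0, hP0, h⟩ := exists_sampling R u hu
  refine ⟨P0, hP0, fun P hP => ?_⟩
  obtain ⟨hLh, E, hLE, hE⟩ := h P hP
  choose ρ hLρ hρ1 hρ using fun j => exists_radius (MK := MK) (x j) (hLh j)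
  set V := (volume (ball (0 : Cn r) 1)).toReal with hV
  have hV0 : 0 < V := ENNReal.toReal_pos (measure_ball_pos _ _ one_pos).ne' measure_ball_lt_top.ne
  have hs1 : (0 : ℝ) < s + 1 := by positivity
  refine ⟨fun w => (E w / (s + 1)) ^ p * ((∏ j, ρ j w) ^ (2 * r) * V), ?_, fun w hw => ?_⟩
  · have h1 : LB ML P (fun w => E w / (s + 1)) := by
      have := LB.div hLE hs1 0
      simpa using this
    exact (LB.rpow h1 hp).mul (((LB.prod _ fun j _ => hLρ j).pow _).mul (LB.const hV0))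
  · obtain ⟨hE0, y, hq, hxx, hy⟩ := hE w hw
    have hne : ∀ j, hx MK (x j) w ≠ 0 := by
      intro j
      have h1 := MK.eval_h_ne (y j)
      rw [R.pz_eq, hq j, hxx j] at h1
      exact h1
    have hρpos : ∀ j, 0 < ρ j w := fun j => (hρ j w (hne j)).1
    have hprod : 0 < ∏ j, ρ j w := Finset.prod_pos fun j _ => hρpos j
    have hEp : 0 < (E w / (s + 1)) ^ p := Real.rpow_pos_of_pos (div_pos hE0 hs1) _
    refine ⟨by positivity, fun v => ?_⟩
    rcases Nat.eq_zero_or_pos s with hs | hs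
    · have h1 : ‖v‖ = 0 := by
        rw [norm_eq_zero]
        funext i
        subst hs
        exact i.elim0
      rw [h1, Real.zero_rpow hp.ne', mul_zero, ENNReal.ofReal_zero]
      exact zero_le
    · -- a point where the value is large
      obtain ⟨j, hj⟩ : ∃ j, E w / (s + 1) * ‖v‖ ≤ ‖∑ i, v i * y j (u i)‖ := by
        by_contra hcon
        push Not at hcon
        have h1 : ∑ j : Fin s, ‖∑ i, v i * y j (u i)‖ ≤ ∑ _j : Fin s, E w / (s + 1) * ‖v‖ :=
          Finset.sum_le_sum fun j _ => (hcon j).le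
        rw [Finset.sum_const, Finset.card_univ, Fintype.card_fin, nsmul_eq_mul] at h1
        have h2 := (hy v).trans h1
        have h3 : 0 < ‖v‖ := by
          have h4 := hcon ⟨0, hs⟩
          have h5 : 0 < E w / (s + 1) * ‖v‖ := lt_of_le_of_lt (norm_nonneg _) h4
          exact pos_of_mul_pos_right h5 (div_pos hE0 hs1).le
        have h6 : (s : ℝ) * (E w / (s + 1) * ‖v‖) < E w * ‖v‖ := by
          have h7 : (s : ℝ) * (E w / (s + 1) * ‖v‖) = (E w * ‖v‖) * (s / (s + 1)) := by ring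
          rw [h7]
          have h8 : (s : ℝ) / (s + 1) < 1 := by
            rw [div_lt_one hs1]
            linarith
          calc (E w * ‖v‖) * (s / (s + 1)) < (E w * ‖v‖) * 1 :=
                mul_lt_mul_of_pos_left h8 (mul_pos hE0 h3)
            _ = _ := mul_one _
        exact absurd h2 (not_le.mpr h6)
      have hball := (hρ j w (hne j)).2
      rw [← hxx j] at hball
      have h1 := subm_model R (fh_sum R w u v) (hq j) (hρpos j) hball hp
      refine le_trans ?_ h1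
      rw [volume_ball' _ (hρpos j)]
      have h2 : ‖∑ i, v i * y j (u i)‖ₑ ^ p = ENNReal.ofReal (‖∑ i, v i * y j (u i)‖ ^ p) := by
        rw [← ENNReal.ofReal_rpow_of_nonneg (norm_nonneg _) hp.le, ofReal_norm]
      rw [h2, ← ENNReal.ofReal_mul (by positivity)]
      apply ENNReal.ofReal_le_ofReal
      have h3 : (E w / (s + 1)) ^ p * ‖v‖ ^ p ≤ ‖∑ i, v i * y j (u i)‖ ^ p := by
        rw [← Real.mul_rpow (div_pos hE0 hs1).le (norm_nonneg _)]
        exact Real.rpow_le_rpow (by positivity) hj hp.le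
      have h4 : (∏ j, ρ j w) ≤ ρ j w := by
        rw [← Finset.mul_prod_erase _ _ (Finset.mem_univ j)]
        have h5 : ∏ j' ∈ Finset.univ.erase j, ρ j' w ≤ 1 :=
          Finset.prod_le_one (fun j' _ => (hρpos j').le) fun j' _ => hρ1 j' w
        calc ρ j w * ∏ j' ∈ Finset.univ.erase j, ρ j' w ≤ ρ j w * 1 :=
              mul_le_mul_of_nonneg_left h5 (hρpos j).le
          _ = _ := mul_one _
      calc (E w / (s + 1)) ^ p * ((∏ j, ρ j w) ^ (2 * r) * V) * ‖v‖ ^ p
          = ((E w / (s + 1)) ^ p * ‖v‖ ^ p) * ((∏ j, ρ j w) ^ (2 * r) * V) := by ring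
        _ ≤ ‖∑ i, v i * y j (u i)‖ ^ p * (ρ j w ^ (2 * r) * V) := by
            gcongr

/-- explicit form of `gro_low` -/
theorem gro_low' {s : ℕ} (u : Fin s → MK.B) (hu : LinearIndependent L fun i => (u i : K))
    {p : ℝ} (hp : 0 < p) :
    ∃ P0 : MvPolynomial (Fin m) ℂ, P0 ≠ 0 ∧ ∀ P : MvPolynomial (Fin m) ℂ, P0 ∣ P →
      ∃ (c : ℝ) (A B : ℕ), 0 < c ∧ ∀ w : ML.Pts, MvPolynomial.eval (ML.pz w) P ≠ 0 →
        ∀ v : Fin s → ℂ, ENNReal.ofReal (c * ‖MvPolynomial.eval (ML.pz w) P‖ ^ A /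
          (1 + ∑ i, ‖ML.pz w i‖ ^ 2) ^ B * ‖v‖ ^ p) ≤
          (toFSp R).fint w fun y => ‖∑ i, v i * y (u i)‖ₑ ^ p := by
  obtain ⟨P0, hP0, h⟩ := gro_low R u hu hp
  refine ⟨P0, hP0, fun P hP => ?_⟩
  obtain ⟨κ, ⟨c, A, B, hc, h1⟩, h2⟩ := h P hP
  refine ⟨c, A, B, hc, fun w hw v => le_trans (ENNReal.ofReal_le_ofReal ?_) ((h2 w hw).2 v)⟩
  apply mul_le_mul_of_nonneg_right _ (by positivity)
  rw [div_le_iff₀ (by positivity)]
  exact h1 w

/-- **GRO-LOW** for one function -/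
theorem gro_low_one {f : MK.B} (hf : f ≠ 0) {p : ℝ} (hp : 0 < p) :
    ∃ P0 : MvPolynomial (Fin m) ℂ, P0 ≠ 0 ∧ ∀ P : MvPolynomial (Fin m) ℂ, P0 ∣ P →
      ∃ (c : ℝ) (A B : ℕ), 0 < c ∧ ∀ w : ML.Pts, MvPolynomial.eval (ML.pz w) P ≠ 0 →
        ENNReal.ofReal (c * ‖MvPolynomial.eval (ML.pz w) P‖ ^ A /
          (1 + ∑ i, ‖ML.pz w i‖ ^ 2) ^ B) ≤ (toFSp R).fint w fun y => ‖y f‖ₑ ^ p := by
  have hu : LinearIndependent L fun _ : Fin 1 => (f : K) := by
    rw [linearIndependent_unique_iff]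
    exact fun h => hf (Subtype.ext h)
  obtain ⟨P0, hP0, h⟩ := gro_low' R (fun _ : Fin 1 => f) hu hp
  refine ⟨P0, hP0, fun P hP => ?_⟩
  obtain ⟨c, A, B, hc, h1⟩ := h P hP
  refine ⟨c, A, B, hc, fun w hw => ?_⟩
  have h2 := h1 w hw (fun _ => 1)
  simpa using h2

end rel

end Crest.Agent.R276.GroLow_358
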