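import Crest.Agent.R276.SatB_210

/-!
# Row 276 (S0419), SAT (helper210), part C: saturation of `V_N`

`InE R F` : `∫_{MK} F |p(z)| (1+|z|)^{-a} < ∞` for some `p ≠ 0`, `a` (`F` with values in `[0,∞]`).
`kk u y = ∑ ‖u_i(y)‖²`.
`saturated` : if `u_i ∈ W_N`, `G` holomorphic on `MK` and `InE (‖G‖² kk^{-(N-1)/N})` then `G ∈ B_K ∩ W_N`.
-/

set_option autoImplicit false

noncomputable section

open Set Filter Topology Metric MeasureTheory
open scoped ENNReal Real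

namespace Crest.Agent.R276.SatC_210

open Crest.Agent.R271 Crest.Agent.R271.Defs710 Crest.Agent.R271.Alg255 Crest.Agent.R271.Rd692
open Crest.Agent.R271.AlgB956 Crest.Agent.R271.Ho51
open Crest.Agent.R276 Crest.Agent.R276.AB2_590 Crest.Agent.R276.Mod1_987
open Crest.Agent.R276.SatA_210 Crest.Agent.R276.LqG_464 Crest.Agent.R276.SatB_210

variable {L K : Type} [Field L] [Field K] [Algebra ℂ L] [Algebra ℂ K] [Algebra L K]
  [IsScalarTower ℂ L K] {m r : ℕ} (R : RMdl L K m r)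

/-- weighted integrable functions with values in `[0,∞]` -/
def InE (F : R.MK.Pts → ℝ≥0∞) : Prop := ∃ (p : MvPolynomial (Fin m) ℂ) (a : ℕ), p ≠ 0 ∧
  lintM R.MK.z (fun y => F y * ENNReal.ofReal (wL R p a (R.q y))) < ∞

variable {R}

lemma inL_iff_inE {F : R.MK.Pts → ℝ} (h0 : ∀ y, 0 ≤ F y) :
    InL R F ↔ InE R fun y => ENNReal.ofReal (F y) := by
  unfold InL InE
  have h1 : ∀ (p : MvPolynomial (Fin m) ℂ) (a : ℕ),
      (fun y => ENNReal.ofReal (F y * wL R p a (R.q y))) =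
        fun y => ENNReal.ofReal (F y) * ENNReal.ofReal (wL R p a (R.q y)) := fun p a =>
    funext fun y => ENNReal.ofReal_mul (h0 y)
  simp only [h1]

lemma enorm_rpow_eq (x : ℂ) {s : ℝ} (hs : 0 ≤ s) : ‖x‖ₑ ^ s = ENNReal.ofReal (‖x‖ ^ s) := by
  rw [← ENNReal.ofReal_rpow_of_nonneg (norm_nonneg _) hs, ofReal_norm]

lemma inW_iff_inE {N : ℕ} {G : R.MK.Pts → ℂ} :
    InW R N G ↔ InE R fun y => ‖G y‖ₑ ^ (2 / N : ℝ) := by
  rw [inW_iff, inL_iff_inE fun y => by positivity]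
  have h1 : (fun y => ‖G y‖ₑ ^ (2 / N : ℝ)) = fun y => ENNReal.ofReal (‖G y‖ ^ (2 / N : ℝ)) :=
    funext fun y => enorm_rpow_eq (G y) (by positivity)
  rw [h1]

lemma InE.mono {F F' : R.MK.Pts → ℝ≥0∞} (h : InE R F) {C : ℝ≥0∞} (hC0 : C ≠ ∞)
    (hC : ∀ y, F' y ≤ C * F y) : InE R F' := by
  obtain ⟨p, a, hp, hi⟩ := h
  refine ⟨p, a, hp, lt_of_le_of_lt (lintM_mono _ (g := fun y => C *
    (F y * ENNReal.ofReal (wL R p a (R.q y)))) fun y => ?_) ?_⟩
  · rw [← mul_assoc]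
    exact mul_le_mul_left (hC y) _
  · rw [lintM_const_mul _ _ hC0]
    exact ENNReal.mul_lt_top hC0.lt_top hi

lemma InE.add {F F' : R.MK.Pts → ℝ≥0∞} (h : InE R F) (h' : InE R F') (hm : Measurable F)
    (hm' : Measurable F') : InE R fun y => F y + F' y := by
  obtain ⟨p, a, hp, hi⟩ := h
  obtain ⟨p', a', hp', hi'⟩ := h'
  obtain ⟨D, hD⟩ := wL_dom R p p' a
  obtain ⟨D', hD'⟩ := wL_dom R p' p a'
  obtain ⟨C, hC0, hC⟩ := hD (a + D + (a' + D')) (by omega)
  obtain ⟨C', hC0', hC'⟩ := hD' (a + D + (a' + D')) (by omega)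
  refine ⟨p * p', a + D + (a' + D'), mul_ne_zero hp hp', ?_⟩
  have hq : Measurable R.q := R.continuous_q.measurable
  have hw : ∀ p a, Measurable fun y => ENNReal.ofReal (wL R p a (R.q y)) := fun p a =>
    ((continuous_wL R p a).measurable.comp hq).ennreal_ofReal
  refine lt_of_le_of_lt (lintM_mono _ (g := fun y =>
    (ENNReal.ofReal C * (F y * ENNReal.ofReal (wL R p a (R.q y)))) +
    (ENNReal.ofReal C' * (F' y * ENNReal.ofReal (wL R p' a' (R.q y))))) fun y => ?_) ?_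
  · rw [add_mul]
    apply add_le_add
    · have := ENNReal.ofReal_le_ofReal (hC (R.q y))
      rw [ENNReal.ofReal_mul hC0] at this
      calc F y * ENNReal.ofReal (wL R (p * p') (a + D + (a' + D')) (R.q y))
          ≤ F y * (ENNReal.ofReal C * ENNReal.ofReal (wL R p a (R.q y))) := by gcongr
        _ = _ := by ring
    · have := ENNReal.ofReal_le_ofReal (hC' (R.q y))
      rw [ENNReal.ofReal_mul hC0', mul_comm p' p] at this
      calc F' y * ENNReal.ofReal (wL R (p * p') (a + D + (a' + D')) (R.q y))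
          ≤ F' y * (ENNReal.ofReal C' * ENNReal.ofReal (wL R p' a' (R.q y))) := by gcongr
        _ = _ := by ring
  · have e1 : Measurable fun y => ENNReal.ofReal C * (F y * ENNReal.ofReal (wL R p a (R.q y))) :=
      (hm.mul (hw p a)).const_mul _
    have e2 : Measurable fun y =>
        ENNReal.ofReal C' * (F' y * ENNReal.ofReal (wL R p' a' (R.q y))) :=
      (hm'.mul (hw p' a')).const_mul _
    rw [lintM_add' R.MK e1 e2, lintM_const_mul _ _ ENNReal.ofReal_ne_top,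
      lintM_const_mul _ _ ENNReal.ofReal_ne_top]
    exact ENNReal.add_lt_top.2 ⟨ENNReal.mul_lt_top ENNReal.ofReal_lt_top hi,
      ENNReal.mul_lt_top ENNReal.ofReal_lt_top hi'⟩

lemma inE_zero : InE R fun _ => 0 := by
  refine ⟨1, 0, one_ne_zero, ?_⟩
  simp [lintM]

lemma InE.sum {ι : Type*} (s : Finset ι) {F : ι → R.MK.Pts → ℝ≥0∞} (h : ∀ i ∈ s, InE R (F i))
    (hm : ∀ i, Measurable (F i)) : InE R fun y => ∑ i ∈ s, F i y := by
  classical
  induction s using Finset.induction_on with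
  | empty => simpa using inE_zero
  | insert a s ha ih =>
    simp only [Finset.sum_insert ha]
    exact (h a (Finset.mem_insert_self _ _)).add (ih fun i hi => h i (Finset.mem_insert_of_mem hi))
      (hm a) (Finset.measurable_sum _ fun i _ => hm i)

/-! ### the kernel -/

variable {s : ℕ}

/-- `∑ ‖u_i‖²` -/
def kk (u : Fin s → R.MK.B) (y : R.MK.Pts) : ℝ := ∑ i, ‖y (u i)‖ ^ 2

lemma kk_nonneg (u : Fin s → R.MK.B) (y : R.MK.Pts) : 0 ≤ kk u y :=
  Finset.sum_nonneg fun _ _ => by positivity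

lemma continuous_kk (u : Fin s → R.MK.B) : Continuous (kk u) :=
  continuous_finsetSum _ fun i _ => (continuous_evK (u i)).norm.pow 2

/-- the weight `kk^{-(N-1)/N}` -/
def kw (N : ℕ) (u : Fin s → R.MK.B) (y : R.MK.Pts) : ℝ≥0∞ :=
  (ENNReal.ofReal (kk u y)) ^ (-((N - 1 : ℝ) / N))

lemma measurable_kw (N : ℕ) (u : Fin s → R.MK.B) : Measurable (kw N u) :=
  ((continuous_kk u).measurable.ennreal_ofReal).pow_const _

/-- `(a b)`: `a^t b^{1-t} ≤ a + b` -/
lemma rpow_mul_rpow_le (a b : ℝ≥0∞) {t t' : ℝ} (ht : 0 ≤ t) (ht' : 0 ≤ t') (h : t + t' = 1) :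
    a ^ t * b ^ t' ≤ a + b := by
  calc a ^ t * b ^ t' ≤ (a + b) ^ t * (a + b) ^ t' := by
        gcongr
        · exact le_self_add
        · exact le_add_self
    _ = (a + b) ^ (t + t') := (ENNReal.rpow_add_of_nonneg _ _ ht ht').symm
    _ = a + b := by rw [h, ENNReal.rpow_one]

/-- the pointwise inequality behind saturation -/
lemma young_pt {N : ℕ} (hN : 0 < N) (g k : ℝ≥0∞) (hg : g ≠ ∞) (hk : k ≠ ∞) :
    g ^ (2 / N : ℝ) ≤ g ^ 2 * k ^ (-((N - 1 : ℝ) / N)) + k ^ (1 / N : ℝ) := by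
  have hN1 : (1 : ℝ) ≤ N := by exact_mod_cast hN
  have hN0 : (0 : ℝ) < N := by linarith
  have ha : 0 ≤ (N - 1 : ℝ) / N := div_nonneg (by linarith) hN0.le
  rcases eq_or_ne g 0 with rfl | hg0
  · rw [ENNReal.zero_rpow_of_pos (by positivity)]
    exact bot_le
  rcases eq_or_ne k 0 with rfl | hk0
  · rcases eq_or_lt_of_le hN1 with h1 | h1
    · -- `N = 1`
      have : (N - 1 : ℝ) / N = 0 := by rw [← h1]; norm_num
      rw [this, neg_zero, ENNReal.rpow_zero, mul_one, ← h1, div_one]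
      refine le_trans (le_of_eq ?_) le_self_add
      rw [← ENNReal.rpow_natCast]
      norm_num
    · have h2 : -((N - 1 : ℝ) / N) < 0 := by
        rw [neg_lt_zero]
        exact div_pos (by linarith) hN0
      rw [ENNReal.zero_rpow_of_neg h2, ENNReal.mul_top (pow_ne_zero 2 hg0), top_add]
      exact le_top
  -- main case
  have h1 := rpow_mul_rpow_le (g ^ 2 * k ^ (-((N - 1 : ℝ) / N))) (k ^ (1 / N : ℝ))
    (t := 1 / N) (t' := (N - 1 : ℝ) / N) (by positivity) ha (by field_simp; ring)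
  refine le_trans (le_of_eq ?_) h1
  rw [ENNReal.mul_rpow_of_nonneg _ _ (by positivity), ← ENNReal.rpow_mul, ← ENNReal.rpow_mul,
    mul_assoc, ← ENNReal.rpow_add _ _ hk0 hk]
  have e1 : -((N - 1 : ℝ) / N) * (1 / N) + 1 / N * ((N - 1 : ℝ) / N) = 0 := by ring
  rw [e1, ENNReal.rpow_zero, mul_one, ← ENNReal.rpow_natCast, ← ENNReal.rpow_mul]
  congr 1
  push_cast
  ring

/-- `(∑ a_i)^t ≤ ∑ a_i^t` for `0 < t ≤ 1` -/
lemma sum_rpow_le {ι : Type*} (s : Finset ι) (a : ι → ℝ≥0∞) {t : ℝ} (ht : 0 < t) (ht1 : t ≤ 1) :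
    (∑ i ∈ s, a i) ^ t ≤ ∑ i ∈ s, a i ^ t := by
  classical
  induction s using Finset.induction_on with
  | empty => simp [ENNReal.zero_rpow_of_pos ht]
  | insert i s hi ih =>
    rw [Finset.sum_insert hi, Finset.sum_insert hi]
    exact (ENNReal.rpow_add_le_add_rpow _ _ ht.le ht1).trans (add_le_add_right ih _)

lemma kk_rpow_le {N : ℕ} (hN : 0 < N) (u : Fin s → R.MK.B) (y : R.MK.Pts) :
    ENNReal.ofReal (kk u y) ^ (1 / N : ℝ) ≤ ∑ i, ‖y (u i)‖ₑ ^ (2 / N : ℝ) := by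
  have hN1 : (1 : ℝ) ≤ N := by exact_mod_cast hN
  have hN0 : (0 : ℝ) < N := by linarith
  have h1 : ENNReal.ofReal (kk u y) = ∑ i, ‖y (u i)‖ₑ ^ (2 : ℕ) := by
    unfold kk
    rw [ENNReal.ofReal_sum_of_nonneg fun _ _ => by positivity]
    refine Finset.sum_congr rfl fun i _ => ?_
    rw [ENNReal.ofReal_pow (norm_nonneg _), ofReal_norm]
  rw [h1]
  refine (sum_rpow_le _ _ (by positivity) (by rw [div_le_one hN0]; exact hN1)).trans
    (le_of_eq ?_)
  refine Finset.sum_congr rfl fun i _ => ?_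
  rw [← ENNReal.rpow_natCast, ← ENNReal.rpow_mul]
  congr 1
  push_cast
  ring

/-- `∫ kk^{1/N} < ∞` -/
lemma inE_kk {N : ℕ} (hN : 0 < N) {u : Fin s → R.MK.B} (hu : ∀ i, InW R N fun y => y (u i)) :
    InE R fun y => ENNReal.ofReal (kk u y) ^ (1 / N : ℝ) := by
  have h1 : InE R fun y => ∑ i, ‖y (u i)‖ₑ ^ (2 / N : ℝ) :=
    InE.sum _ (fun i _ => inW_iff_inE.1 (hu i)) fun i =>
      ((continuous_evK (u i)).enorm.measurable).pow_const _
  exact h1.mono ENNReal.one_ne_top fun y => by rw [one_mul]; exact kk_rpow_le hN u y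

/-- saturation, integrability part -/
theorem inW_of_inE {N : ℕ} (hN : 0 < N) {u : Fin s → R.MK.B} (hu : ∀ i, InW R N fun y => y (u i))
    {G : R.MK.Pts → ℂ} (hG : Continuous G) (h : InE R fun y => ‖G y‖ₑ ^ 2 * kw N u y) :
    InW R N G := by
  rw [inW_iff_inE]
  have h1 := h.add (inE_kk hN hu) ((hG.enorm.measurable.pow_const 2).mul (measurable_kw N u))
    (((continuous_kk u).measurable.ennreal_ofReal).pow_const _)
  refine h1.mono ENNReal.one_ne_top fun y => ?_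
  rw [one_mul]
  exact young_pt hN _ _ enorm_ne_top ENNReal.ofReal_ne_top

/-- `k^{-α} ≥ 1/(1+k)` -/
lemma le_kw {N : ℕ} (hN : 0 < N) (u : Fin s → R.MK.B) (y : R.MK.Pts) :
    ENNReal.ofReal (1 / (1 + kk u y)) ≤ kw N u y := by
  have hN1 : (1 : ℝ) ≤ N := by exact_mod_cast hN
  have hN0 : (0 : ℝ) < N := by linarith
  have ha : 0 ≤ (N - 1 : ℝ) / N := div_nonneg (by linarith) hN0.le
  have ha1 : (N - 1 : ℝ) / N ≤ 1 := by rw [div_le_one hN0]; linarith
  have hk := kk_nonneg u y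
  unfold kw
  rw [ENNReal.rpow_neg]
  rw [one_div, ENNReal.ofReal_inv_of_pos (by linarith)]
  apply ENNReal.inv_le_inv.2
  calc ENNReal.ofReal (kk u y) ^ ((N - 1 : ℝ) / N)
      ≤ ENNReal.ofReal (1 + kk u y) ^ ((N - 1 : ℝ) / N) := by
        gcongr
        linarith
    _ ≤ ENNReal.ofReal (1 + kk u y) ^ (1 : ℝ) := by
        apply ENNReal.rpow_le_rpow_of_exponent_le _ ha1
        rw [← ENNReal.ofReal_one]
        exact ENNReal.ofReal_le_ofReal (by linarith)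
    _ = _ := ENNReal.rpow_one _

/-- saturation, algebraicity part -/
theorem alg_of_inE {N : ℕ} (hN : 0 < N) {u : Fin s → R.MK.B} {G : R.MK.Pts → ℂ}
    (hG : HolB R.MK.z G) (h : InE R fun y => ‖G y‖ₑ ^ 2 * kw N u y) :
    ∃ b : R.MK.B, ∀ y : R.MK.Pts, G y = y b := by
  obtain ⟨p, a, hp, hi⟩ := h
  set p' : MvPolynomial (Fin (m + r)) ℂ := MvPolynomial.rename (Fin.castAdd r) p with hp'
  -- growth of the data
  choose C k l hC hg using fun i => R.MK.growth (u i)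
  obtain ⟨Ch, Dh, hCh, hh1, -⟩ := poly_bound R.MK.h
  obtain ⟨Cp, Dp, hCp, hp1, -⟩ := poly_bound p
  set lT : ℕ := ∑ i, l i with hlT
  set kT : ℕ := ∑ i, k i with hkT
  have hlle : ∀ i, l i ≤ lT := fun i =>
    Finset.single_le_sum (f := l) (fun _ _ => Nat.zero_le _) (Finset.mem_univ i)
  have hkle : ∀ i, k i ≤ kT := fun i =>
    Finset.single_le_sum (f := k) (fun _ _ => Nat.zero_le _) (Finset.mem_univ i)
  clear_value lT kT
  -- `h ^ lT * p'` is the denominator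
  set U : R.MK.B := az R.MK.z (R.MK.h ^ lT * p') with hU
  have hU0 : U ≠ 0 := by
    intro h0
    have h1 : (R.MK.h ^ lT * p') = 0 := R.MK.az_injective (by rw [← hU, h0, map_zero])
    rcases mul_eq_zero.1 h1 with h2 | h2
    · exact pow_ne_zero _ R.MK.h_ne h2
    · rw [hp', map_eq_zero_iff _ (MvPolynomial.rename_injective _ (Fin.castAdd_injective m r))] at h2
      exact hp h2
  have hUy : ∀ y : R.MK.Pts, ‖y U‖ = ‖MvPolynomial.eval (R.MK.pz y) R.MK.h‖ ^ lT *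
      ‖MvPolynomial.eval (zc (R.MK.pz y)) p‖ := by
    intro y
    rw [hU, R.MK.apply_az', map_mul, map_pow, norm_mul, norm_pow, hp', eval_rename_castAdd]
  -- the lower bound of the weight
  obtain ⟨c, M', hc, hW⟩ : ∃ (c : ℝ) (M' : ℕ), 0 < c ∧ ∀ y : R.MK.Pts,
      ENNReal.ofReal (c * ‖y U‖ ^ (2 * 1) / (1 + ∑ i, ‖y (R.MK.z i)‖ ^ 2) ^ M') ≤
        kw N u y * ENNReal.ofReal (wL R p a (R.q y)) := by
    set c0 : ℝ := (Ch * 2 ^ Dh) ^ (2 * lT) * (1 + ∑ i, C i ^ 2) * (Cp * 2 ^ (Dp + a)) with hc0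
    have hsum0 : 0 ≤ ∑ i, C i ^ 2 := Finset.sum_nonneg fun _ _ => by positivity
    have hc00 : 0 < c0 := by positivity
    refine ⟨c0⁻¹, 2 * lT * Dh + 2 * kT + (Dp + a), by positivity, fun y => ?_⟩
    refine le_trans ?_ (mul_le_mul_left (le_kw hN u y) _)
    rw [← ENNReal.ofReal_mul (by have := kk_nonneg u y; positivity)]
    apply ENNReal.ofReal_le_ofReal
    set S : ℝ := 1 + ∑ i, ‖y (R.MK.z i)‖ ^ 2 with hS
    have hS1 : 1 ≤ S := by
      have : 0 ≤ ∑ i, ‖y (R.MK.z i)‖ ^ 2 := Finset.sum_nonneg fun _ _ => by positivity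
      rw [hS]; linarith
    have hS0 : 0 < S := by linarith
    have hζS : 1 + ‖R.MK.pz y‖ ≤ 2 * S := AlgLq_464.one_add_norm_le (R.MK.pz y)
    have hzS : 1 + ‖zc (R.MK.pz y)‖ ≤ 2 * S := by
      have := norm_zc_le (R.MK.pz y)
      linarith
    set H : ℝ := ‖MvPolynomial.eval (R.MK.pz y) R.MK.h‖ with hH
    set Q : ℝ := ‖MvPolynomial.eval (zc (R.MK.pz y)) p‖ with hQ
    have hH0 : 0 ≤ H := norm_nonneg _
    have hQ0 : 0 ≤ Q := norm_nonneg _
    set B0 : ℝ := Ch * (2 * S) ^ Dh with hB0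
    have hB1 : 1 ≤ B0 := by
      have : 1 ≤ (2 * S) ^ Dh := one_le_pow₀ (by linarith)
      rw [hB0]; nlinarith
    have hHB : H ≤ B0 := by
      refine (hh1 _).trans ?_
      rw [hB0]
      gcongr
    have hQB : Q ≤ Cp * (2 * S) ^ Dp := by
      refine (hp1 _).trans ?_
      gcongr
    -- the kernel
    have hu1 : ∀ i, H ^ (2 * lT) * ‖y (u i)‖ ^ 2 ≤ B0 ^ (2 * lT) * (C i ^ 2 * S ^ (2 * kT)) := by
      intro i
      have h1 := hlle i
      have h2 := hkle i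
      have h3 : H ^ l i * ‖y (u i)‖ ≤ C i * S ^ k i := hg i y
      have h4 : H ^ lT * ‖y (u i)‖ ≤ B0 ^ lT * (C i * S ^ kT) := by
        calc H ^ lT * ‖y (u i)‖ = H ^ (lT - l i) * (H ^ l i * ‖y (u i)‖) := by
              rw [← mul_assoc, ← pow_add, Nat.sub_add_cancel h1]
          _ ≤ B0 ^ (lT - l i) * (C i * S ^ k i) := by gcongr
          _ ≤ B0 ^ lT * (C i * S ^ kT) := by
              have e1 : B0 ^ (lT - l i) ≤ B0 ^ lT := pow_le_pow_right₀ hB1 (Nat.sub_le _ _)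
              have e2 : S ^ k i ≤ S ^ kT := pow_le_pow_right₀ hS1 h2
              have := hC i
              gcongr
      calc H ^ (2 * lT) * ‖y (u i)‖ ^ 2 = (H ^ lT * ‖y (u i)‖) ^ 2 := by
            rw [mul_pow, ← pow_mul, mul_comm lT 2]
        _ ≤ (B0 ^ lT * (C i * S ^ kT)) ^ 2 := by gcongr
        _ = _ := by
          rw [mul_pow (B0 ^ lT), ← pow_mul B0, mul_pow (C i), ← pow_mul S, mul_comm lT 2,
            mul_comm kT 2]
    have hkk : H ^ (2 * lT) * (1 + kk u y) ≤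
        B0 ^ (2 * lT) * ((1 + ∑ i, C i ^ 2) * S ^ (2 * kT)) := by
      have h1 : H ^ (2 * lT) * kk u y ≤ B0 ^ (2 * lT) * ((∑ i, C i ^ 2) * S ^ (2 * kT)) := by
        unfold kk
        rw [Finset.mul_sum, Finset.sum_mul, Finset.mul_sum]
        exact Finset.sum_le_sum fun i _ => hu1 i
      have h2 : H ^ (2 * lT) ≤ B0 ^ (2 * lT) * S ^ (2 * kT) := by
        have e1 : H ^ (2 * lT) ≤ B0 ^ (2 * lT) := by gcongr
        have e2 : 1 ≤ S ^ (2 * kT) := one_le_pow₀ hS1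
        have e3 : 0 ≤ B0 ^ (2 * lT) := by positivity
        nlinarith
      calc H ^ (2 * lT) * (1 + kk u y) = H ^ (2 * lT) + H ^ (2 * lT) * kk u y := by ring
        _ ≤ B0 ^ (2 * lT) * S ^ (2 * kT) + B0 ^ (2 * lT) * ((∑ i, C i ^ 2) * S ^ (2 * kT)) :=
          add_le_add h2 h1
        _ = _ := by ring
    have hkk0 := kk_nonneg u y
    have hZ0 : 0 < 1 + ‖zc (R.MK.pz y)‖ := by positivity
    have hwL : wL R p a (R.q y) = Q / (1 + ‖zc (R.MK.pz y)‖) ^ a := by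
      unfold wL
      rw [pz_q']
    rw [hwL, hUy y, mul_one, div_mul_div_comm, one_mul, div_le_div_iff₀ (by positivity)
      (by positivity), ← hH, ← hQ]
    calc c0⁻¹ * (H ^ lT * Q) ^ 2 * ((1 + kk u y) * (1 + ‖zc (R.MK.pz y)‖) ^ a)
        = c0⁻¹ * (H ^ (2 * lT) * (1 + kk u y)) * (Q * (Q * (1 + ‖zc (R.MK.pz y)‖) ^ a)) := by
          rw [mul_pow, ← pow_mul, mul_comm lT 2]; ring
      _ ≤ c0⁻¹ * (B0 ^ (2 * lT) * ((1 + ∑ i, C i ^ 2) * S ^ (2 * kT))) *
            (Q * ((Cp * (2 * S) ^ Dp) * (2 * S) ^ a)) := by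
          gcongr
      _ = Q * S ^ (2 * lT * Dh + 2 * kT + (Dp + a)) := by
          rw [hB0, hc0, mul_pow 2 S, mul_pow 2 S, mul_pow 2 S, pow_add S, pow_add S,
            pow_add S, pow_add 2]
          rw [show (Ch * (2 ^ Dh * S ^ Dh)) ^ (2 * lT) =
            (Ch * 2 ^ Dh) ^ (2 * lT) * S ^ (2 * lT * Dh) by
            rw [← mul_assoc, mul_pow, ← pow_mul S, mul_comm Dh (2 * lT)]]
          field_simp
  refine mem_of_weight R.MK.het hG hU0 one_ne_zero 1 M' hc (fun y _ => hW y) ?_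
  refine lt_of_le_of_lt (le_of_eq ?_) hi
  congr 1
  funext y
  rw [ENNReal.ofReal_pow (norm_nonneg _), ofReal_norm]
  ring

end Crest.Agent.R276.SatC_210
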