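import Mathlib
import Crest.Agent.R276.ExtC_723
import Crest.Agent.R276.FlatDefs_236

/-!
# Row 276 (S0419): SAT (C) (helper886)

`R : RMdl L K m r`, `u : Fin s → R.MK.B`, `α ≥ 0`.  Black box `ClosB R α u` (part (B) of SAT):
every holomorphic `F` on `M_K` with `∫ |F|² / (K^α (1+|z|²)^k) < ∞`, `K = ∑ |u_i|²`, is an
`L`-combination of the `u_i`.  Then for EVERY `w` with `u_i | Fib w` linearly independent, every
holomorphic `f` on `Fib w` with `∫ |f|² K^{-α} < ∞` is a combination of the `u_i` on `Fib w`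
(`clos_of`).  Tools: extension from the fibre (`End_723.ext_fib`, Ohsawa–Takegoshi) and Cramer.
-/

set_option autoImplicit false
set_option linter.unusedSectionVars false

open Set Filter Topology MeasureTheory
open scoped ENNReal Matrix

noncomputable section

namespace Crest.Agent.R276.SatC_886

open Crest.Agent.R271 Crest.Agent.R271.Defs710 Crest.Agent.R271.Ho51 Crest.Agent.R271.Rd692
open Crest.Agent.R271.Alg255 Crest.Agent.R271.AlgB956
open Crest.Agent.R276.AB2_590 Crest.Agent.R276.Mod1_987 Crest.Agent.R276.End_723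
open Crest.Agent.R276.EngU_29 Crest.Agent.R276.FlatDefs_236
open Crest.Agent.R276.Sat_210 (IK IW KK)

/-! ### linear algebra -/

/-- evaluation points for a finite family of linearly independent functions -/
theorem exists_points {Y : Type*} {s : ℕ} {v : Y → Fin s → ℂ}
    (h : ∀ a : Fin s → ℂ, (∀ y, ∑ i, a i * v y i = 0) → a = 0) :
    ∃ y : Fin s → Y, (Matrix.of fun j i => v (y j) i).det ≠ 0 := by
  classical
  have hspan : Submodule.span ℂ (range v) = ⊤ := by
    by_contra hne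
    obtain ⟨f, hf0, hf⟩ := Submodule.exists_le_ker_of_lt_top _ (lt_top_iff_ne_top.2 hne)
    apply hf0
    have h1 : (fun i => f (Pi.single i 1)) = (0 : Fin s → ℂ) := by
      apply h
      intro y
      have h2 : f (v y) = 0 := hf (Submodule.subset_span ⟨y, rfl⟩)
      rw [← h2]
      conv_rhs => rw [pi_eq_sum_univ' (v y)]
      rw [map_sum]
      refine Finset.sum_congr rfl fun i _ => ?_
      rw [map_smul, smul_eq_mul, mul_comm]
    refine LinearMap.pi_ext' fun i => ?_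
    refine LinearMap.ext_ring ?_
    simpa using congrFun h1 i
  obtain ⟨f, hf, hfs, hfi⟩ := Submodule.exists_fun_fin_finrank_span_eq ℂ (range v)
  have hr : Module.finrank ℂ (Submodule.span ℂ (range v)) = s := by
    rw [hspan, finrank_top, Module.finrank_fin_fun]
  choose y hy using hf
  refine ⟨fun j => y (Fin.cast hr.symm j), ?_⟩
  have h3 : LinearIndependent ℂ (fun j : Fin s => f (Fin.cast hr.symm j)) :=
    hfi.comp _ (Fin.cast_injective _)
  have h4 : (Matrix.of fun j i => v (y (Fin.cast hr.symm j)) i) =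
      fun j : Fin s => f (Fin.cast hr.symm j) := by
    funext j i
    rw [Matrix.of_apply, hy]
  rw [h4]
  have h5 := (Matrix.linearIndependent_rows_iff_isUnit
    (A := (fun j : Fin s => f (Fin.cast hr.symm j) : Matrix (Fin s) (Fin s) ℂ))).1 h3
  exact ((Matrix.isUnit_iff_isUnit_det _).1 h5).ne_zero

variable {L K : Type} [Field L] [Field K] [Algebra ℂ L] [Algebra ℂ K] [Algebra L K]
  [IsScalarTower ℂ L K] {m r : ℕ} (R : RMdl L K m r)

/-! ### local sections of `q` -/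

/-- a local section of `q` through `y` -/
theorem exists_section (y : R.MK.Pts) : ∃ σ : R.ML.Pts → R.MK.Pts, σ (R.q y) = y ∧
    ContinuousAt σ (R.q y) ∧ ∀ᶠ w in 𝓝 (R.q y), R.q (σ w) = w := by
  obtain ⟨e, he, hfe⟩ := R.isLocalHomeomorph_φ y
  have hy : e y = (R.q y, R.x y) := (congrFun hfe y).symm
  have hT : (R.q y, R.x y) ∈ e.target := by
    rw [← hy]
    exact e.map_source he
  have hc : Continuous fun w : R.ML.Pts => (w, R.x y) := by fun_prop
  refine ⟨fun w => e.symm (w, R.x y), ?_, ?_, ?_⟩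
  · simp only
    rw [← hy, e.left_inv he]
  · exact (e.symm.continuousAt (x := (R.q y, R.x y)) (by simpa using hT)).comp
      (f := fun w : R.ML.Pts => (w, R.x y)) hc.continuousAt
  · filter_upwards [hc.continuousAt.preimage_mem_nhds (e.open_target.mem_nhds hT)] with w hw
    have h1 : R.φ (e.symm (w, R.x y)) = e (e.symm (w, R.x y)) := congrFun hfe _
    rw [e.right_inv hw] at h1
    exact congrArg Prod.fst h1

/-- a nonzero polynomial does not vanish near any point -/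
theorem frequently_eval_ne {n : ℕ} {P : MvPolynomial (Fin n) ℂ} (hP : P ≠ 0) (a : Fin n → ℂ) :
    ∃ᶠ z in 𝓝 a, MvPolynomial.eval z P ≠ 0 := by
  have h1 := Null956.ae_eval_ne hP
  rw [Filter.Frequently]
  intro hcon
  simp only [ne_eq, not_not] at hcon
  obtain ⟨U, hU, hUo, haU⟩ := mem_nhds_iff.1 hcon
  have h2 : 0 < volume U := hUo.measure_pos volume ⟨a, haU⟩
  have h3 : volume U = 0 := by
    rw [ae_iff] at h1
    refine measure_mono_null ?_ h1
    intro z hz
    simpa using hU hz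
  exact h2.ne' h3

/-- a nonzero element of the coordinate ring does not vanish near any point -/
theorem frequently_ne_zero {K₀ : Type} [Field K₀] [Algebra ℂ K₀] {n : ℕ} (M : Mdl K₀ n) {d : M.B}
    (hd : d ≠ 0) (w : M.Pts) : ∃ᶠ w' in 𝓝 w, (w' : M.B →ₐ[ℂ] ℂ) d ≠ 0 := by
  obtain ⟨p, hp, c', hc'⟩ := exists_poly_dvd M.het hd
  have h1 : ∃ᶠ ζ in 𝓝 (M.pz w), MvPolynomial.eval ζ p ≠ 0 := frequently_eval_ne hp _
  have h2 : ∃ᶠ ζ in 𝓝 (cp w), MvPolynomial.eval ζ p ≠ 0 := h1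
  have h3 : Tendsto (ch w).symm (𝓝 (cp w)) (𝓝 w) := by
    have h4 : ContinuousAt (ch w).symm (cp w) :=
      (ch w).symm.continuousAt (by simpa using (isCh_ch w).cp_mem (mem_ch w))
    have h5 := h4.tendsto
    rwa [(isCh_ch w).symm_cp (mem_ch w)] at h5
  refine h3.frequently (h2.mp ?_)
  filter_upwards [(ch w).open_target.mem_nhds ((isCh_ch w).cp_mem (mem_ch w))] with ζ hζ hne hd0
  apply hne
  have h6 : M.pz ((ch w).symm ζ) = ζ := (isCh_ch w).cp_symm hζ
  have h7 := M.apply_az' ((ch w).symm ζ) p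
  rw [h6] at h7
  rw [← h7]
  have h8 : az M.z p = d * c' := hc'
  rw [h8, map_mul, hd0, zero_mul]

/-! ### Cramer -/

variable {R} {s : ℕ}

/-- **Cramer**: a continuous function `F` on `M_K` which is generically an `L`-combination of the
`u_i` is a combination of the `u_i` on EVERY fibre on which the `u_i` are independent. -/
theorem comb_of_generic (u : Fin s → R.MK.B) {F : R.MK.Pts → ℂ} (hF : Continuous F) {d : R.ML.B}
    (hd : d ≠ 0) (a : Fin s → R.ML.B)
    (hrel : ∀ y : R.MK.Pts, (R.q y : R.ML.B →ₐ[ℂ] ℂ) d * F y =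
      ∑ i, (R.q y : R.ML.B →ₐ[ℂ] ℂ) (a i) * (y : R.MK.B →ₐ[ℂ] ℂ) (u i))
    (w : R.ML.Pts) (hw : ∀ c : Fin s → ℂ, (∀ y : R.Fib w, ∑ i, c i * sg u w y i = 0) → c = 0) :
    ∃ b : Fin s → ℂ, ∀ y : R.Fib w, F y.val = ∑ i, b i * sg u w y i := by
  classical
  obtain ⟨Y, hY⟩ := exists_points (v := fun y : R.Fib w => sg u w y) hw
  have hq : ∀ j, R.q (Y j).val = w := fun j => (Y j).q_eq
  choose σ hσ0 hσc hσq using fun j => exists_section R (Y j).val
  simp only [hq] at hσ0 hσc hσq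
  have hu : ∀ i, Continuous fun y : R.MK.Pts => (y : R.MK.B →ₐ[ℂ] ℂ) (u i) := fun i =>
    continuous_ev _
  set U : R.ML.Pts → Matrix (Fin s) (Fin s) ℂ := fun w' =>
    Matrix.of fun j i => (σ j w' : R.MK.B →ₐ[ℂ] ℂ) (u i) with hU
  have hUw : U w = Matrix.of fun j i => sg u w (Y j) i := by
    ext j i
    simp only [hU, Matrix.of_apply, hσ0]
    rfl
  have hUc : ContinuousAt U w := by
    refine continuousAt_pi.2 fun j => continuousAt_pi.2 fun i => ?_
    exact ContinuousAt.comp (g := fun y : R.MK.Pts => (y : R.MK.B →ₐ[ℂ] ℂ) (u i))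
      (f := σ j) (hu i).continuousAt (hσc j)
  have hdet : (U w).det ≠ 0 := by rw [hUw]; exact hY
  have hdetc : ContinuousAt (fun w' => (U w').det) w :=
    ContinuousAt.comp (g := Matrix.det) (f := U) (Continuous.matrix_det continuous_id).continuousAt
      hUc
  set b : R.ML.Pts → Fin s → ℂ := fun w' => (U w')⁻¹ *ᵥ (fun j => F (σ j w')) with hb
  have hinvc : ContinuousAt (fun w' => (U w')⁻¹) w := by
    have h1 : (fun w' => (U w')⁻¹) = fun w' => ((U w').det)⁻¹ • (U w').adjugate := by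
      funext w'
      rw [Matrix.inv_def, Ring.inverse_eq_inv']
    rw [h1]
    refine (hdetc.inv₀ hdet).smul ?_
    exact ContinuousAt.comp (g := Matrix.adjugate) (f := U)
      (Continuous.matrix_adjugate continuous_id).continuousAt hUc
  have hbc : ContinuousAt b w := by
    refine continuousAt_pi.2 fun i => ?_
    have h1 : ∀ j, ContinuousAt (fun w' => (U w')⁻¹ i j) w := fun j =>
      (continuousAt_pi.1 (continuousAt_pi.1 hinvc i)) j
    have h2 : ∀ j, ContinuousAt (fun w' => F (σ j w')) w := fun j =>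
      ContinuousAt.comp (g := F) (f := σ j) hF.continuousAt (hσc j)
    have h3 : (fun w' => b w' i) = fun w' => ∑ j, (U w')⁻¹ i j * F (σ j w') := by
      funext w'
      rfl
    rw [h3]
    exact tendsto_finsetSum _ fun j _ => (h1 j).mul (h2 j)
  refine ⟨b w, fun y => ?_⟩
  obtain ⟨τ, hτ0, hτc, hτq⟩ := exists_section R y.val
  rw [y.q_eq] at hτ0 hτc hτq
  -- near `w`, off `{d = 0}`
  have hfr := frequently_ne_zero R.ML hd w
  have hdet' : ∀ᶠ w' in 𝓝 w, (U w').det ≠ 0 := hdetc.eventually_ne hdet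
  have hσq' : ∀ᶠ w' in 𝓝 w, ∀ j, R.q (σ j w') = w' := eventually_all.2 hσq
  have key : ∃ᶠ w' in 𝓝 w, F (τ w') - ∑ i, b w' i * (τ w' : R.MK.B →ₐ[ℂ] ℂ) (u i) = 0 := by
    refine hfr.mp ?_
    filter_upwards [hdet', hσq', hτq] with w' h1 h2 h3 h4
    have h5 : U w' *ᵥ (fun i => (w' : R.ML.B →ₐ[ℂ] ℂ) (a i) / (w' : R.ML.B →ₐ[ℂ] ℂ) d) =
        fun j => F (σ j w') := by
      funext j
      have h6 := hrel (σ j w')
      rw [h2 j] at h6
      simp only [Matrix.mulVec, dotProduct, hU, Matrix.of_apply]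
      rw [eq_comm, ← mul_right_inj' h4, h6, Finset.mul_sum]
      refine Finset.sum_congr rfl fun i _ => ?_
      field_simp
    have h7 : b w' = fun i => (w' : R.ML.B →ₐ[ℂ] ℂ) (a i) / (w' : R.ML.B →ₐ[ℂ] ℂ) d := by
      simp only [hb]
      rw [← h5, Matrix.mulVec_mulVec, Matrix.nonsing_inv_mul _ (Ne.isUnit h1), Matrix.one_mulVec]
    rw [h7]
    have h8 := hrel (τ w')
    rw [h3] at h8
    rw [sub_eq_zero, ← mul_right_inj' h4, h8, Finset.mul_sum]
    refine Finset.sum_congr rfl fun i _ => ?_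
    field_simp
  have hcont : ContinuousAt (fun w' => F (τ w') -
      ∑ i, b w' i * (τ w' : R.MK.B →ₐ[ℂ] ℂ) (u i)) w := by
    refine (ContinuousAt.comp (g := F) (f := τ) hF.continuousAt hτc).sub ?_
    refine tendsto_finsetSum _ fun i _ => ?_
    exact ((continuousAt_pi.1 hbc i).mul (ContinuousAt.comp
      (g := fun y : R.MK.Pts => (y : R.MK.B →ₐ[ℂ] ℂ) (u i)) (f := τ) (hu i).continuousAt hτc))
  have h0 : F (τ w) - ∑ i, b w i * (τ w : R.MK.B →ₐ[ℂ] ℂ) (u i) = 0 := by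
    by_contra hne
    have h9 := hcont.eventually_ne hne
    obtain ⟨w', h10, h11⟩ := (key.and_eventually h9).exists
    exact h11 h10
  rw [hτ0, sub_eq_zero] at h0
  exact h0

/-! ### the closure condition on every fibre -/

/-- the weight `(∑ |u_i|²)^α` on `M_K` -/
def Bw (u : Fin s → R.MK.B) (α : ℝ) (y : R.MK.Pts) : ℝ :=
  (∑ i, ‖(y : R.MK.B →ₐ[ℂ] ℂ) (u i)‖ ^ 2) ^ α

lemma lpsh_Bw (u : Fin s → R.MK.B) {α : ℝ} (hα : 0 ≤ α) (l : ℕ) :
    LPsh (fun y : R.MK.Pts => Bw u α y ^ l) := by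
  refine LPsh.pow ?_ l
  unfold Bw
  exact LPsh.rpow (LPsh.sum_hol Finset.univ fun i _ => R.MK.hol51_ev (u i)) hα

lemma KK_eq {X : Type*} [MeasurableSpace X] (v : Fin s → X → ℂ) (x : X) :
    KK v x = ENNReal.ofReal (∑ i, ‖v i x‖ ^ 2) := by
  unfold KK
  rw [ENNReal.ofReal_sum_of_nonneg fun i _ => by positivity]
  refine Finset.sum_congr rfl fun i _ => ?_
  rw [← ofReal_norm, ENNReal.ofReal_rpow_of_nonneg (norm_nonneg _) (by norm_num), Real.rpow_two]

lemma ofReal_Bw_inv (u : Fin s → R.MK.B) {α : ℝ} (hα : 0 ≤ α) {w : R.ML.Pts} (x : R.Fib w) :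
    KK (fun i y => sg u w y i) x ^ (-α) = (ENNReal.ofReal (Bw u α x.val))⁻¹ := by
  rw [KK_eq, ENNReal.rpow_neg]
  congr 1
  unfold Bw sg
  rw [ENNReal.ofReal_rpow_of_nonneg (Finset.sum_nonneg fun i _ => by positivity) hα]

/-- BLACK BOX (B): `F` holomorphic on `M_K` with `∫ |F|² / (K^α (1+|z|²)^k) < ∞` is an
`L`-combination of the `u_i` -/
def ClosB (R : RMdl L K m r) (α : ℝ) (u : Fin s → R.MK.B) : Prop :=
  ∀ F : (R.MK.B →ₐ[ℂ] ℂ) → ℂ, HolB R.MK.z F →
    (∃ k : ℕ, Fin2 (etChart R.MK) (Bw u α) (sb m r) 1 k F) →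
    ∃ d : R.ML.B, d ≠ 0 ∧ ∃ a : Fin s → R.ML.B, ∀ y : R.MK.Pts,
      (R.q y : R.ML.B →ₐ[ℂ] ℂ) d * F y =
        ∑ i, (R.q y : R.ML.B →ₐ[ℂ] ℂ) (a i) * (y : R.MK.B →ₐ[ℂ] ℂ) (u i)

/-- **(C) of SAT**: the closure condition on EVERY fibre with independent sections -/
theorem clos_of {α : ℝ} (hα : 0 ≤ α) (u : Fin s → R.MK.B) (hB : ClosB R α u)
    (w : R.ML.Pts) (hw : ∀ c : Fin s → ℂ, (∀ y : R.Fib w, ∑ i, c i * sg u w y i = 0) → c = 0)
    (f : R.Fib w → ℂ) (hf : Ho51.Hol f)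
    (hint : IK (nu R w) α f (fun i y => sg u w y i) ≠ ∞) :
    ∃ b : Fin s → ℂ, ∀ y : R.Fib w, f y = ∑ i, b i * sg u w y i := by
  have hint' : ∫⁻ x, ENNReal.ofReal (‖f x‖ ^ 2) / ENNReal.ofReal (Bw u α x.val ^ 1) ∂(nu R w) <
      ∞ := by
    refine lt_of_eq_of_lt ?_ (lt_top_iff_ne_top.2 hint)
    unfold IK
    refine lintegral_congr fun x => ?_
    rw [ofReal_Bw_inv u hα, pow_one, ← ofReal_norm,
      ENNReal.ofReal_rpow_of_nonneg (norm_nonneg _) (by norm_num), Real.rpow_two, div_eq_mul_inv]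
  obtain ⟨F, hF, hFf, hFi⟩ := ext_fib R otSlice restrLPsh (lpsh_Bw u hα 1) (nu_leb R w) f hf hint'
  obtain ⟨d, hd, a, hrel⟩ := hB F hF ⟨_, hFi⟩
  have hFc : Continuous F := by
    have h1 : AB2_590.HolA (M := (R.MK.B →ₐ[ℂ] ℂ)) F := (holA_iff R.MK.hch).2 hF
    have h2 : Ho51.Hol (M := (R.MK.B →ₐ[ℂ] ℂ)) F := hol51_iff.2 h1
    exact (Crest.Agent.R273.OTA_34.hol_of _ h2).sm.continuous
  obtain ⟨b, hb⟩ := comb_of_generic u hFc hd a hrel w hw
  exact ⟨b, fun y => by rw [← hFf, hb]⟩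

end Crest.Agent.R276.SatC_886
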