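import Mathlib
import Crest.Agent.R276.SatC_886
import Crest.Agent.R276.SatC_210
import Crest.Agent.R276.GroLow_358
import Crest.Agent.R276.CJ_505

/-!
# Row 276 (S0419): SAT (C2), (D) (helper886)

`R : RMdl L K m r`, `u : Fin s → R.MK.B`, `N > 0`, weight `kw N u = (∑ ‖u_i‖²)^{-(N-1)/N}` (210).

* `closB_of` : black box `ClosB` from (B2) "`b ∈ B_K`, `∫ |b|² kw < ∞` (weighted) implies
  `b ∈ span_L u`" (and 210's `alg_of_inE`);
* `exists_indep` : `u` linearly independent over `L` implies independence on the fibres over the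
  complement of a hypersurface;
* `ae_fin` : `u_i ∈ InW` implies `Phi N u w a < ∞` for all `w` over almost every point of `ℂ^m`;
* `sat_clos` : `indep` and `clos` of `SatFam` off a hypersurface.
-/

set_option autoImplicit false
set_option linter.unusedSectionVars false

open Set Filter Topology MeasureTheory
open scoped ENNReal Matrix

noncomputable section

namespace Crest.Agent.R276.SatC_886

open Crest.Agent.R271 Crest.Agent.R271.Defs710 Crest.Agent.R271.Ho51 Crest.Agent.R271.Rd692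
open Crest.Agent.R271.Alg255 Crest.Agent.R271.AlgB956
open Crest.Agent.R276.AB2_590 Crest.Agent.R276.Mod1_987 Crest.Agent.R276.End_723
open Crest.Agent.R276.EngU_29 Crest.Agent.R276.FlatDefs_236
open Crest.Agent.R276.Sat_210 (IK IW KK)

variable {L K : Type} [Field L] [Field K] [Algebra ℂ L] [Algebra ℂ K] [Algebra L K]
  [IsScalarTower ℂ L K] {m r : ℕ} {R : RMdl L K m r} {s : ℕ}

/-! ### from `Fin2` to 210's `InE` -/

lemma tn_le (y : R.MK.Pts) : tn (etChart R.MK) (sb m r) y ≤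
    (1 + m) * (1 + ‖R.ML.pz (R.q y)‖) ^ 2 := by
  unfold tn sb
  rw [Finset.sum_map]
  have h1 : ∀ i : Fin m, ‖(y : R.MK.B →ₐ[ℂ] ℂ)
      (BC_986.zA (etChart R.MK) (Fin.castAddEmb r i))‖ ^ 2 ≤ ‖R.ML.pz (R.q y)‖ ^ 2 := by
    intro i
    have h2 : (y : R.MK.B →ₐ[ℂ] ℂ) (BC_986.zA (etChart R.MK) (Fin.castAddEmb r i)) =
        R.ML.pz (R.q y) i := (R.pz_q y i).symm
    rw [h2]
    gcongr
    exact norm_le_pi_norm _ i
  have h3 := Finset.sum_le_sum fun (i : Fin m) (_ : i ∈ Finset.univ) => h1 i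
  rw [Finset.sum_const, Finset.card_univ, Fintype.card_fin, nsmul_eq_mul] at h3
  have h4 : 0 ≤ ‖R.ML.pz (R.q y)‖ := norm_nonneg _
  have h5 : (0 : ℝ) ≤ m := Nat.cast_nonneg m
  nlinarith [mul_nonneg h5 h4]

/-- the weights of `Fin2` and `InE` -/
lemma inE_of_fin2 {N : ℕ} (hN : 0 < N) {u : Fin s → R.MK.B} {F : R.MK.Pts → ℂ} {k : ℕ}
    (h : End_723.Fin2 (etChart R.MK) (Bw u (((N : ℝ) - 1) / N)) (sb m r) 1 k F) :
    SatC_210.InE R fun y => ‖F y‖ₑ ^ 2 * SatC_210.kw N u y := by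
  have hN1 : (1 : ℝ) ≤ N := by exact_mod_cast hN
  have hα : 0 ≤ ((N : ℝ) - 1) / N := div_nonneg (by linarith) (by linarith)
  refine ⟨1, 2 * k, one_ne_zero, ?_⟩
  unfold End_723.Fin2 at h
  rw [zA_etChart] at h
  set C : ℝ := (1 + (m : ℝ)) ^ k with hC
  have hC0 : 0 < C := by positivity
  refine lt_of_le_of_lt (lintM_mono _ (g := fun y => ENNReal.ofReal C * (ENNReal.ofReal (‖F y‖ ^ 2) *
    (ENNReal.ofReal (Bw u (((N : ℝ) - 1) / N) y ^ 1 * tn (etChart R.MK) (sb m r) y ^ k))⁻¹))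
    fun y => ?_) ?_
  · have ht1 := one_le_tn (etChart R.MK) (sb m r) y
    set t := tn (etChart R.MK) (sb m r) y with ht
    have ht0 : 0 < t := by linarith
    have hB0 : 0 ≤ Bw u (((N : ℝ) - 1) / N) y := by unfold Bw; positivity
    have h1 : SatC_210.kw N u y = (ENNReal.ofReal (Bw u (((N : ℝ) - 1) / N) y))⁻¹ := by
      unfold SatC_210.kw Bw SatC_210.kk
      rw [ENNReal.rpow_neg, ENNReal.ofReal_rpow_of_nonneg (by positivity) hα]
    have h2 : SatB_210.wL R 1 (2 * k) (R.q y) ≤ C * (t ^ k)⁻¹ := by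
      unfold SatB_210.wL
      rw [map_one, norm_one]
      have h3 := tn_le y
      rw [← ht] at h3
      have h4 : t ^ k ≤ C * (1 + ‖R.ML.pz (R.q y)‖) ^ (2 * k) := by
        calc t ^ k ≤ ((1 + m) * (1 + ‖R.ML.pz (R.q y)‖) ^ 2) ^ k :=
              pow_le_pow_left₀ ht0.le h3 k
          _ = _ := by rw [mul_pow, ← pow_mul]
      rw [div_le_iff₀ (by positivity), mul_assoc, mul_comm, mul_assoc, ← div_eq_inv_mul,
        le_div_iff₀ (by positivity), one_mul, mul_comm]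
      exact h4
    beta_reduce
    rw [h1, pow_one, ENNReal.ofReal_mul hB0, ENNReal.mul_inv (Or.inr ENNReal.ofReal_ne_top)
      (Or.inr (by simpa using pow_pos ht0 k)), ← ENNReal.ofReal_inv_of_pos (pow_pos ht0 k)]
    have h5 : ENNReal.ofReal (SatB_210.wL R 1 (2 * k) (R.q y)) ≤
        ENNReal.ofReal C * ENNReal.ofReal (t ^ k)⁻¹ := by
      rw [← ENNReal.ofReal_mul hC0.le]
      exact ENNReal.ofReal_le_ofReal h2
    have h6 : ‖F y‖ₑ ^ 2 = ENNReal.ofReal (‖F y‖ ^ 2) := by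
      rw [← ofReal_norm, ENNReal.ofReal_pow (norm_nonneg _)]
    rw [h6]
    calc ENNReal.ofReal (‖F y‖ ^ 2) * (ENNReal.ofReal (Bw u (((N : ℝ) - 1) / N) y))⁻¹ *
          ENNReal.ofReal (SatB_210.wL R 1 (2 * k) (R.q y))
        ≤ ENNReal.ofReal (‖F y‖ ^ 2) * (ENNReal.ofReal (Bw u (((N : ℝ) - 1) / N) y))⁻¹ *
          (ENNReal.ofReal C * ENNReal.ofReal (t ^ k)⁻¹) := by gcongr
      _ = _ := by ring
  · rw [SatB_210.lintM_const_mul _ _ ENNReal.ofReal_ne_top]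
    exact ENNReal.mul_lt_top ENNReal.ofReal_lt_top h

/-- common denominators -/
lemma exists_den (u : Fin s → R.MK.B) {b : R.MK.B}
    (hb : (b : K) ∈ Submodule.span L (range fun i => (u i : K))) :
    ∃ d : R.ML.B, d ≠ 0 ∧ ∃ a : Fin s → R.ML.B, R.incl d * b = ∑ i, R.incl (a i) * u i := by
  obtain ⟨c, hc⟩ := (Submodule.mem_span_range_iff_exists_fun L).1 hb
  choose x y hy hxy using fun i => R.ML.frac (c i)
  refine ⟨∏ j, y j, Finset.prod_ne_zero_iff.2 fun j _ => hy j,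
    fun i => x i * ∏ j ∈ Finset.univ.erase i, y j, ?_⟩
  apply Subtype.ext
  push_cast
  simp only [RMdl.incl_coe]
  rw [← hc, Finset.mul_sum]
  refine Finset.sum_congr rfl fun i _ => ?_
  rw [Algebra.smul_def, ← mul_assoc]
  congr 1
  rw [← map_mul]
  congr 1
  rw [hxy i]
  have h0 : (y i : L) ≠ 0 := fun h => hy i (Subtype.ext h)
  have h1 : (∏ j, (y j : L)) = (y i : L) * ∏ j ∈ Finset.univ.erase i, (y j : L) :=
    (Finset.mul_prod_erase _ _ (Finset.mem_univ i)).symm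
  push_cast
  rw [h1]
  field_simp

/-- the black box `ClosB` from (B2) -/
theorem closB_of {N : ℕ} (hN : 0 < N) {u : Fin s → R.MK.B}
    (hB : ∀ b : R.MK.B, SatC_210.InE R (fun y => ‖(y : R.MK.B →ₐ[ℂ] ℂ) b‖ₑ ^ 2 * SatC_210.kw N u y) →
      (b : K) ∈ Submodule.span L (range fun i => (u i : K))) :
    ClosB R (((N : ℝ) - 1) / N) u := by
  rintro F hF ⟨k, hk⟩
  have h1 := inE_of_fin2 hN hk
  obtain ⟨b, hb⟩ := SatC_210.alg_of_inE hN hF h1
  have h2 : SatC_210.InE R (fun y => ‖(y : R.MK.B →ₐ[ℂ] ℂ) b‖ₑ ^ 2 * SatC_210.kw N u y) := by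
    have h3 : (fun y : R.MK.Pts => ‖F y‖ₑ ^ 2 * SatC_210.kw N u y) =
        fun y : R.MK.Pts => ‖(y : R.MK.B →ₐ[ℂ] ℂ) b‖ₑ ^ 2 * SatC_210.kw N u y := by
      funext y
      rw [hb]
    rw [← h3]
    exact h1
  obtain ⟨d, hd, a, ha⟩ := exists_den u (hB b h2)
  refine ⟨d, hd, a, fun y => ?_⟩
  have h4 := congrArg (fun c => (y : R.MK.B →ₐ[ℂ] ℂ) c) ha
  simp only [map_mul, map_sum] at h4
  rw [hb]
  simpa only [RMdl.q_apply] using h4

/-! ### independence on the fibres -/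

/-- 358's relative model -/
def rel' (R : RMdl L K m r) : Gram1_358.Rel R.ML R.MK where
  inc := R.incl
  inc_val _ := rfl
  hz i := Subtype.ext (R.z_eq i)

/-- independence over `L` implies independence on the fibres off a hypersurface -/
theorem exists_indep {u : Fin s → R.MK.B} (hu : LinearIndependent L fun i => (u i : K)) :
    ∃ P : MvPolynomial (Fin m) ℂ, P ≠ 0 ∧ ∀ w : R.ML.Pts, MvPolynomial.eval (R.ML.pz w) P ≠ 0 →
      ∀ a : Fin s → ℂ, (∀ y : R.Fib w, ∑ i, a i * sg u w y i = 0) → a = 0 := by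
  obtain ⟨P0, hP0, h⟩ := GroLow_358.gro_low' (rel' R) u hu one_pos
  obtain ⟨c, A, B, hc, h1⟩ := h P0 dvd_rfl
  refine ⟨P0, hP0, fun w hw a ha => ?_⟩
  by_contra hne
  have h2 := h1 w hw a
  have h3 : (GroLow_358.toFSp (rel' R)).fint w (fun y => ‖∑ i, a i * y (u i)‖ₑ ^ (1 : ℝ)) =
      R.fint w fun y => ‖∑ i, a i * (y : R.MK.B →ₐ[ℂ] ℂ) (u i)‖ₑ ^ (1 : ℝ) := rfl
  have h4 : (R.fint w fun y => ‖∑ i, a i * (y : R.MK.B →ₐ[ℂ] ℂ) (u i)‖ₑ ^ (1 : ℝ)) = 0 := by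
    unfold RMdl.fint RMdl.fsumR
    have h5 : ∀ ξ, ∑' y : {y : R.MK.Pts // R.q y = w ∧ R.x y = ξ},
        ‖∑ i, a i * (y.1 : R.MK.B →ₐ[ℂ] ℂ) (u i)‖ₑ ^ (1 : ℝ) = 0 := by
      intro ξ
      rw [ENNReal.tsum_eq_zero]
      rintro ⟨y, hy, -⟩
      have h6 : ∑ i, a i * (y : R.MK.B →ₐ[ℂ] ℂ) (u i) = 0 := ha ⟨y, hy⟩
      simp only [h6, enorm_zero]
      simp
    simp only [h5, lintegral_zero]
  rw [h3, h4] at h2
  have h7 := ENNReal.ofReal_eq_zero.1 (nonpos_iff_eq_zero.1 h2)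
  have h8 : 0 < ‖a‖ := norm_pos_iff.2 hne
  have h9 : 0 < ‖MvPolynomial.eval (R.ML.pz w) P0‖ := norm_pos_iff.2 hw
  have h10 : 0 < c * ‖MvPolynomial.eval (R.ML.pz w) P0‖ ^ A /
      (1 + ∑ i, ‖R.ML.pz w i‖ ^ 2) ^ B * ‖a‖ ^ (1 : ℝ) := by positivity
  linarith

/-! ### finiteness almost everywhere -/

/-- weighted integrability on `M_K` implies integrability on almost all fibres -/
theorem ae_fint_of_inE {g : R.MK.Pts → ℝ≥0∞} (hg : Measurable g) (h : SatC_210.InE R g) :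
    ∀ᵐ c : Cn m, ∀ w : R.ML.Pts, R.ML.pz w = c → R.fint w g < ∞ := by
  obtain ⟨p, a, hp, hi⟩ := h
  obtain ⟨μ, hμ⟩ := R.MK.exists_leb
  have hm : Measurable fun y : R.MK.Pts => g y * ENNReal.ofReal (SatB_210.wL R p a (R.q y)) :=
    hg.mul (((SatB_210.continuous_wL R p a).comp R.continuous_q).measurable.ennreal_ofReal)
  rw [R.MK.lintM_eq hμ hm] at hi
  filter_upwards [CJ_505.ae_fint R hμ hm hi.ne, Null956.ae_eval_ne hp] with c hc hpc w hw
  have h1 := hc w hw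
  have hw0 : 0 < SatB_210.wL R p a w := by
    unfold SatB_210.wL
    rw [hw]
    have h2 : 0 < ‖MvPolynomial.eval c p‖ := norm_pos_iff.2 hpc
    positivity
  have h3 : R.fint w (fun y => g y * ENNReal.ofReal (SatB_210.wL R p a (R.q y))) =
      R.fint w g * ENNReal.ofReal (SatB_210.wL R p a w) := by
    unfold RMdl.fint RMdl.fsumR
    rw [← lintegral_mul_const' _ _ ENNReal.ofReal_ne_top]
    refine lintegral_congr fun ξ => ?_
    rw [← ENNReal.tsum_mul_right]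
    refine tsum_congr fun y => ?_
    beta_reduce
    rw [y.2.1]
  rw [h3] at h1
  by_contra hcon
  rw [not_lt, top_le_iff] at hcon
  rw [hcon, ENNReal.top_mul (by simpa using hw0)] at h1
  exact lt_irrefl _ h1

/-- `Phi` is finite when the `u_i` are `L^{2/N}` on the fibre -/
theorem fin_of {N : ℕ} (hN : 2 ≤ N) {u : Fin s → R.MK.B} {w : R.ML.Pts}
    (h : ∀ i, R.fint w (fun y => ‖(y : R.MK.B →ₐ[ℂ] ℂ) (u i)‖ₑ ^ (2 / N : ℝ)) < ∞)
    (a : Fin s → ℂ) : Phi N u w a ≠ ∞ := by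
  have hN2 : (2 : ℝ) ≤ N := by exact_mod_cast hN
  have hp : (0 : ℝ) < 2 / N := by positivity
  have hp1 : (2 / N : ℝ) ≤ 1 := by rw [div_le_one (by linarith)]; exact hN2
  have hm : ∀ i, Measurable fun y : R.MK.Pts => ‖(y : R.MK.B →ₐ[ℂ] ℂ) (u i)‖ₑ ^ (2 / N : ℝ) :=
    fun i => ((continuous_ev (u i)).enorm.measurable).pow_const _
  have hmv : Measurable (RMdl.Fib.val R : R.Fib w → R.MK.Pts) :=
    (RMdl.Fib.continuous_val w).measurable
  have h1 : ∀ i, ∫⁻ y : R.Fib w, ‖sg u w y i‖ₑ ^ (2 / N : ℝ) ∂(nu R w) < ∞ := by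
    intro i
    have h2 := R.fint_eq (nu_leb R w) (hm i)
    refine lt_of_eq_of_lt ?_ (h i)
    rw [h2]
    rfl
  refine ne_of_lt (lt_of_le_of_lt (b := ∑ i, ‖a i‖ₑ ^ (2 / N : ℝ) *
    ∫⁻ y : R.Fib w, ‖sg u w y i‖ₑ ^ (2 / N : ℝ) ∂(nu R w)) ?_ ?_)
  · have h3 : ∀ i ∈ (Finset.univ : Finset (Fin s)), Measurable fun y : R.Fib w =>
        ‖a i‖ₑ ^ (2 / N : ℝ) * ‖sg u w y i‖ₑ ^ (2 / N : ℝ) := fun i _ =>
      ((hm i).comp hmv).const_mul _
    have h4 : ∑ i, ‖a i‖ₑ ^ (2 / N : ℝ) * ∫⁻ y : R.Fib w, ‖sg u w y i‖ₑ ^ (2 / N : ℝ) ∂(nu R w) =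
        ∫⁻ y : R.Fib w, ∑ i, ‖a i‖ₑ ^ (2 / N : ℝ) * ‖sg u w y i‖ₑ ^ (2 / N : ℝ) ∂(nu R w) := by
      rw [lintegral_finsetSum _ h3]
      refine Finset.sum_congr rfl fun i _ => ?_
      rw [lintegral_const_mul' _ _ (ENNReal.rpow_ne_top_of_nonneg hp.le enorm_ne_top)]
    rw [h4]
    refine lintegral_mono fun y => ?_
    rw [← SatC_210.enorm_rpow_eq _ hp.le]
    calc ‖∑ i, a i * sg u w y i‖ₑ ^ (2 / N : ℝ)
        ≤ (∑ i, ‖a i * sg u w y i‖ₑ) ^ (2 / N : ℝ) :=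
          ENNReal.rpow_le_rpow (enorm_sum_le _ _) hp.le
      _ ≤ ∑ i, ‖a i * sg u w y i‖ₑ ^ (2 / N : ℝ) := SatC_210.sum_rpow_le _ _ hp hp1
      _ = _ := by
          refine Finset.sum_congr rfl fun i _ => ?_
          rw [enorm_mul, ENNReal.mul_rpow_of_nonneg _ _ hp.le]
  · refine ENNReal.sum_lt_top.2 fun i _ => ?_
    exact ENNReal.mul_lt_top (ENNReal.rpow_lt_top_of_nonneg hp.le enorm_ne_top) (h1 i)

/-- **(D)** `Phi` is finite on almost all fibres -/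
theorem ae_fin {N : ℕ} (hN : 2 ≤ N) {u : Fin s → R.MK.B}
    (hu : ∀ i, SatB_210.InW R N fun y => (y : R.MK.B →ₐ[ℂ] ℂ) (u i)) :
    ∀ᵐ c : Cn m, ∀ w : R.ML.Pts, R.ML.pz w = c → ∀ a : Fin s → ℂ, Phi N u w a ≠ ∞ := by
  have hm : ∀ i, Measurable fun y : R.MK.Pts => ‖(y : R.MK.B →ₐ[ℂ] ℂ) (u i)‖ₑ ^ (2 / N : ℝ) :=
    fun i => ((continuous_ev (u i)).enorm.measurable).pow_const _
  have h1 := fun i => ae_fint_of_inE (hm i) (SatC_210.inW_iff_inE.1 (hu i))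
  filter_upwards [ae_all_iff.2 h1] with c hc w hw a
  exact fin_of hN (fun i => hc i w hw) a

/-- **SAT, `indep` and `clos`** off a hypersurface, from (B2) -/
theorem sat_clos {N : ℕ} (hN : 0 < N) {u : Fin s → R.MK.B}
    (hu : LinearIndependent L fun i => (u i : K))
    (hB : ∀ b : R.MK.B, SatC_210.InE R (fun y => ‖(y : R.MK.B →ₐ[ℂ] ℂ) b‖ₑ ^ 2 * SatC_210.kw N u y) →
      (b : K) ∈ Submodule.span L (range fun i => (u i : K))) :
    ∃ P : MvPolynomial (Fin m) ℂ, P ≠ 0 ∧ ∀ w : R.ML.Pts, MvPolynomial.eval (R.ML.pz w) P ≠ 0 →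
      (∀ a : Fin s → ℂ, (∀ y : R.Fib w, ∑ i, a i * sg u w y i = 0) → a = 0) ∧
      ∀ f : R.Fib w → ℂ, Ho51.Hol f →
        IK (nu R w) (((N : ℝ) - 1) / N) f (fun i y => sg u w y i) ≠ ∞ →
        ∃ b : Fin s → ℂ, ∀ y : R.Fib w, f y = ∑ i, b i * sg u w y i := by
  obtain ⟨P, hP, h⟩ := exists_indep hu
  have hN1 : (1 : ℝ) ≤ N := by exact_mod_cast hN
  have hα : 0 ≤ ((N : ℝ) - 1) / N := div_nonneg (by linarith) (by linarith)
  exact ⟨P, hP, fun w hw => ⟨h w hw, fun f hf hint =>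
    clos_of hα u (closB_of hN hB) w (h w hw) f hf hint⟩⟩

end Crest.Agent.R276.SatC_886
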