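import Mathlib
import Crest.Agent.R276.SatC2_886
import Crest.Agent.R276.Clq_886
import Crest.Agent.R276.RelC_870

/-!
# Row 276 (S0419): SAT (E4) (helper886): the condition (Cl) of 185

`R : RMdl L K m r`, `v : Fin n → R.MK.B` ANY finite family (dependent families allowed), `N > 0`,
`K = ∑ |v_i|²`, closed: `b ∈ B_K`, weighted `∫ |b|² K^{-(N-1)/N} < ∞` implies `b ∈ span_L v`.  Then
off a hypersurface of `ℂ^m`:
* `clos_dep` : `f` holomorphic on `Fib w`, `∫ |f|² K^{-(N-1)/N} < ∞` implies `f ∈ span v | Fib w`;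
* `cl_dep` : `|f(y)|² ≤ C K(y) ∫ |f|² K^{-(N-1)/N}`, `C` depending only on `w`.
-/

set_option autoImplicit false
set_option linter.unusedSectionVars false

open Set Filter Topology MeasureTheory
open scoped ENNReal Matrix

noncomputable section

namespace Crest.Agent.R276.SatC_886

open Crest.Agent.R271 Crest.Agent.R271.Defs710 Crest.Agent.R271.Ho51 Crest.Agent.R271.Rd692
open Crest.Agent.R271.Alg255 Crest.Agent.R271.AlgB956
open Crest.Agent.R276.AB2_590 Crest.Agent.R276.Mod1_987 Crest.Agent.R276.End_723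
open Crest.Agent.R276.EngU_29 Crest.Agent.R276.FlatDefs_236
open Crest.Agent.R276.Sat_210 (IK IW KK)

variable {L K : Type} [Field L] [Field K] [Algebra ℂ L] [Algebra ℂ K] [Algebra L K]
  [IsScalarTower ℂ L K] {m r : ℕ} {R : RMdl L K m r} {s n : ℕ}

/-- `clos_of` with different families for the weight and for the combinations -/
theorem clos_of2 {α : ℝ} (hα : 0 ≤ α) (v : Fin n → R.MK.B) (u : Fin s → R.MK.B)
    (hB : ∀ F : (R.MK.B →ₐ[ℂ] ℂ) → ℂ, HolB R.MK.z F →
      (∃ k : ℕ, End_723.Fin2 (etChart R.MK) (Bw v α) (sb m r) 1 k F) →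
      ∃ d : R.ML.B, d ≠ 0 ∧ ∃ a : Fin s → R.ML.B, ∀ y : R.MK.Pts,
        (R.q y : R.ML.B →ₐ[ℂ] ℂ) d * F y =
          ∑ i, (R.q y : R.ML.B →ₐ[ℂ] ℂ) (a i) * (y : R.MK.B →ₐ[ℂ] ℂ) (u i))
    (w : R.ML.Pts) (hw : ∀ c : Fin s → ℂ, (∀ y : R.Fib w, ∑ i, c i * sg u w y i = 0) → c = 0)
    (f : R.Fib w → ℂ) (hf : Ho51.Hol f)
    (hint : IK (nu R w) α f (fun i y => sg v w y i) ≠ ∞) :
    ∃ b : Fin s → ℂ, ∀ y : R.Fib w, f y = ∑ i, b i * sg u w y i := by
  have hint' : ∫⁻ x, ENNReal.ofReal (‖f x‖ ^ 2) / ENNReal.ofReal (Bw v α x.val ^ 1) ∂(nu R w) <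
      ∞ := by
    refine lt_of_eq_of_lt ?_ (lt_top_iff_ne_top.2 hint)
    unfold IK
    refine lintegral_congr fun x => ?_
    rw [ofReal_Bw_inv v hα, pow_one, ← ofReal_norm,
      ENNReal.ofReal_rpow_of_nonneg (norm_nonneg _) (by norm_num), Real.rpow_two, div_eq_mul_inv]
  obtain ⟨F, hF, hFf, hFi⟩ := ext_fib R otSlice restrLPsh (lpsh_Bw v hα 1) (nu_leb R w) f hf hint'
  obtain ⟨d, hd, a, hrel⟩ := hB F hF ⟨_, hFi⟩
  have hFc : Continuous F := by
    have h1 : AB2_590.HolA (M := (R.MK.B →ₐ[ℂ] ℂ)) F := (holA_iff R.MK.hch).2 hF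
    have h2 : Ho51.Hol (M := (R.MK.B →ₐ[ℂ] ℂ)) F := hol51_iff.2 h1
    exact (Crest.Agent.R273.OTA_34.hol_of _ h2).sm.continuous
  obtain ⟨b, hb⟩ := comb_of_generic u hFc hd a hrel w hw
  exact ⟨b, fun y => by rw [← hFf, hb]⟩

/-- a maximal independent subfamily -/
lemma exists_sub (v : Fin n → R.MK.B) : ∃ (t : ℕ) (a : Fin t → Fin n),
    (LinearIndependent L fun i => (v (a i) : K)) ∧
    Submodule.span L (range fun i => (v (a i) : K)) = Submodule.span L (range fun i => (v i : K)) := by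
  obtain ⟨κ, a, ha, hs, hi⟩ := exists_linearIndependent' L (fun i => (v i : K))
  have hfin : Finite κ := Finite.of_injective a ha
  obtain ⟨t, ⟨e⟩⟩ := Finite.exists_equiv_fin κ
  refine ⟨t, a ∘ e.symm, hi.comp _ e.symm.injective, ?_⟩
  rw [← hs]
  congr 1
  ext x
  constructor
  · rintro ⟨i, rfl⟩
    exact ⟨e.symm i, rfl⟩
  · rintro ⟨k, rfl⟩
    exact ⟨e k, by simp⟩

/-- combination of a subfamily = combination of the family -/
lemma comb_sub {Y : Type*} {t : ℕ} (a : Fin t → Fin n) (g : Y → Fin n → ℂ) (b : Fin t → ℂ) :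
    ∃ b' : Fin n → ℂ, ∀ y, ∑ i, b i * g y (a i) = ∑ j, b' j * g y j := by
  classical
  refine ⟨fun j => ∑ i ∈ Finset.univ.filter (fun i => a i = j), b i, fun y => ?_⟩
  have h1 : ∀ j, (∑ i ∈ Finset.univ.filter (fun i => a i = j), b i) * g y j =
      ∑ i ∈ Finset.univ.filter (fun i => a i = j), b i * g y (a i) := by
    intro j
    rw [Finset.sum_mul]
    refine Finset.sum_congr rfl fun i hi => ?_
    rw [(Finset.mem_filter.1 hi).2]
  simp only [h1]
  exact (Finset.sum_fiberwise Finset.univ a fun i => b i * g y (a i)).symm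

/-- **closure on the fibres for a dependent family** -/
theorem clos_dep {N : ℕ} (hN : 0 < N) {v : Fin n → R.MK.B}
    (hB : ∀ b : R.MK.B, SatC_210.InE R (fun y => ‖(y : R.MK.B →ₐ[ℂ] ℂ) b‖ₑ ^ 2 * SatC_210.kw N v y) →
      (b : K) ∈ Submodule.span L (range fun i => (v i : K))) :
    ∃ P : MvPolynomial (Fin m) ℂ, P ≠ 0 ∧ ∀ w : R.ML.Pts, MvPolynomial.eval (R.ML.pz w) P ≠ 0 →
      ∀ f : R.Fib w → ℂ, Ho51.Hol f →
        IK (nu R w) (((N : ℝ) - 1) / N) f (fun i y => sg v w y i) ≠ ∞ →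
        ∃ b : Fin n → ℂ, ∀ y : R.Fib w, f y = ∑ i, b i * sg v w y i := by
  obtain ⟨t, a, hi, hs⟩ := exists_sub v
  obtain ⟨P, hP, h⟩ := exists_indep (R := R) (u := fun i => v (a i)) hi
  have hN1 : (1 : ℝ) ≤ N := by exact_mod_cast hN
  have hα : 0 ≤ ((N : ℝ) - 1) / N := div_nonneg (by linarith) (by linarith)
  refine ⟨P, hP, fun w hw f hf hint => ?_⟩
  have key := clos_of2 hα v (fun i => v (a i)) (fun F hF hk => by
    obtain ⟨k, hk⟩ := hk
    have h1 := inE_of_fin2 hN hk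
    obtain ⟨b, hb⟩ := SatC_210.alg_of_inE hN hF h1
    have h2 : SatC_210.InE R (fun y => ‖(y : R.MK.B →ₐ[ℂ] ℂ) b‖ₑ ^ 2 * SatC_210.kw N v y) := by
      have h3 : (fun y : R.MK.Pts => ‖F y‖ₑ ^ 2 * SatC_210.kw N v y) =
          fun y : R.MK.Pts => ‖(y : R.MK.B →ₐ[ℂ] ℂ) b‖ₑ ^ 2 * SatC_210.kw N v y := by
        funext y
        rw [hb]
      rw [← h3]
      exact h1
    have h4 := hB b h2
    rw [← hs] at h4
    obtain ⟨d, hd, a', ha'⟩ := exists_den (R := R) (fun i => v (a i)) h4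
    refine ⟨d, hd, a', fun y => ?_⟩
    have h5 := congrArg (fun c => (y : R.MK.B →ₐ[ℂ] ℂ) c) ha'
    simp only [map_mul, map_sum] at h5
    rw [hb]
    simpa only [RMdl.q_apply] using h5) w (h w hw) f hf hint
  obtain ⟨b, hb⟩ := key
  obtain ⟨b', hb'⟩ := comb_sub a (fun (y : R.Fib w) j => sg v w y j) b
  exact ⟨b', fun y => by rw [hb y]; exact hb' y⟩

/-! ### the constant form -/

/-- a Lebesgue measure is positive on nonempty open sets -/
lemma leb_pos {k : ℕ} {M : Type*} [TopologicalSpace M] [RDom k M] [MeasurableSpace M]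
    [BorelSpace M] {μ : Measure M} (hμ : IsLeb μ) {U : Set M} (hU : IsOpen U) {y : M}
    (hy : y ∈ U) : 0 < μ U := by
  have h1 := hμ (ch y) (isCh_ch y)
  set e := ch y with he
  have hys : y ∈ e.source := mem_ch y
  have h2 : μ.restrict e.source U ≤ μ U := Measure.restrict_apply_le _ _
  refine lt_of_lt_of_le ?_ h2
  have hem : AEMeasurable e.symm (volume.restrict e.target) :=
    (e.continuousOn_symm).aemeasurable e.open_target.measurableSet
  rw [h1, Measure.map_apply_of_aemeasurable hem hU.measurableSet]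
  rw [Measure.restrict_apply' e.open_target.measurableSet]
  have h3 : IsOpen (e.symm ⁻¹' U ∩ e.target) := by
    have := e.symm.isOpen_inter_preimage hU
    rw [inter_comm]
    simpa using this
  refine h3.measure_pos volume ⟨e y, ?_, e.map_source hys⟩
  show e.symm (e y) ∈ U
  rw [e.left_inv hys]
  exact hy

/-- zero sets of combinations: `∫ |∑ b_i v_i|² K^{-α} = 0` implies `∑ b_i v_i = 0` on the fibre -/
lemma qf_zero {α : ℝ} (hα : 0 ≤ α) (v : Fin n → R.MK.B) (w : R.ML.Pts) (b : Fin n → ℂ)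
    (h : Clq_886.qf (nu R w) (fun i y => sg v w y i) (fun y => KK (fun i y => sg v w y i) y ^ (-α))
      b = 0) (y : R.Fib w) : Clq_886.cb (fun i y => sg v w y i) b y = 0 := by
  have hc : ∀ i, Continuous fun y : R.Fib w => sg v w y i := fun i =>
    (continuous_ev (v i)).comp (RMdl.Fib.continuous_val w)
  have hcb : Continuous fun y : R.Fib w => Clq_886.cb (fun i y => sg v w y i) b y := by
    unfold Clq_886.cb
    exact continuous_finsetSum _ fun i _ => continuous_const.mul (hc i)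
  have hm : Measurable fun y : R.Fib w => ‖Clq_886.cb (fun i y => sg v w y i) b y‖ₑ ^ 2 *
      KK (fun i y => sg v w y i) y ^ (-α) :=
    (hcb.enorm.measurable.pow_const 2).mul ((Sat_210.meas_KK fun i => (hc i).measurable).pow_const _)
  unfold Clq_886.qf at h
  rw [lintegral_eq_zero_iff hm] at h
  by_contra hne
  have hopen : IsOpen {y : R.Fib w | Clq_886.cb (fun i y => sg v w y i) b y ≠ 0} :=
    isOpen_ne_fun hcb continuous_const
  have h1 : 0 < nu R w {y : R.Fib w | Clq_886.cb (fun i y => sg v w y i) b y ≠ 0} :=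
    leb_pos (nu_leb R w) hopen hne
  have h2 : nu R w {y : R.Fib w | Clq_886.cb (fun i y => sg v w y i) b y ≠ 0} = 0 := by
    refine measure_mono_null ?_ (ae_iff.1 h)
    intro y' hy' h3
    simp only [Pi.zero_apply, mul_eq_zero] at h3
    rcases h3 with h3 | h3
    · simp only [ne_eq, OfNat.ofNat_ne_zero, not_false_eq_true, pow_eq_zero_iff, enorm_eq_zero] at h3
      exact hy' h3
    · rw [ENNReal.rpow_eq_zero_iff] at h3
      rcases h3 with ⟨_, h5⟩ | ⟨h4, _⟩
      · linarith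
      · exact Sat_210.KK_ne_top _ _ h4
  exact h1.ne' h2

/-- **(Cl)** at one point `w`, from the closure property at `w` -/
theorem cl_at {α : ℝ} (hα : 0 ≤ α) (v : Fin n → R.MK.B) (w : R.ML.Pts)
    (hcl : ∀ f : R.Fib w → ℂ, Ho51.Hol f → IK (nu R w) α f (fun i y => sg v w y i) ≠ ∞ →
      ∃ b : Fin n → ℂ, ∀ y : R.Fib w, f y = ∑ i, b i * sg v w y i) :
    ∃ C : ℝ≥0∞, 0 < C ∧ C ≠ ∞ ∧ ∀ f : R.Fib w → ℂ, Ho51.Hol f →
      IK (nu R w) α f (fun i y => sg v w y i) ≠ ∞ → ∀ y : R.Fib w,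
      ‖f y‖ₑ ^ (2 : ℝ) ≤ C * KK (fun i y => sg v w y i) y *
        IK (nu R w) α f (fun i y => sg v w y i) := by
  have hc : ∀ i, Continuous fun y : R.Fib w => sg v w y i := fun i =>
    (continuous_ev (v i)).comp (RMdl.Fib.continuous_val w)
  obtain ⟨C, hC0, hC, h⟩ := Clq_886.exists_const (μ := nu R w) (v := fun i y => sg v w y i)
    (fun i => (hc i).measurable) (wt := fun y => KK (fun i y => sg v w y i) y ^ (-α))
    ((Sat_210.meas_KK fun i => (hc i).measurable).pow_const _) (fun b hb y => qf_zero hα v w b hb y)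
  refine ⟨C, hC0, hC, fun f hf hint y => ?_⟩
  obtain ⟨b, hb⟩ := hcl f hf hint
  have h1 := h b y
  have h2 : ∀ y, Clq_886.cb (fun i y => sg v w y i) b y = f y := fun y => (hb y).symm
  have h3 : Clq_886.qf (nu R w) (fun i y => sg v w y i) (fun y => KK (fun i y => sg v w y i) y ^ (-α))
      b = IK (nu R w) α f (fun i y => sg v w y i) := by
    unfold Clq_886.qf IK
    refine lintegral_congr fun y => ?_
    rw [h2, ENNReal.rpow_two]
  rw [h2, h3] at h1
  unfold KK
  simpa only [ENNReal.rpow_two] using h1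

end Crest.Agent.R276.SatC_886
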