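import Mathlib
import Crest.Agent.R276.Cl_886

/-!
# Row 276 (S0419): SAT (E4) (helper886): (Cl) in the notation of SkelDefs_220

`H : Rel ML MK`, `v : Fin n → MK.B` any finite family, closed in weight `N > 0`.  Off a hypersurface:
* `cl_rel` : `f` holomorphic on the fibre over `z`, `∫ |f|² K^{-(N-1)/N} < ∞` implies
  `|f(y)|² ≤ C K(y) ∫ |f|² K^{-(N-1)/N}`;
* `cl_rel_pos` : the same for ALL `f` when `K > 0` on the fibre (some `v_i` a unit).
-/

set_option autoImplicit false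
set_option linter.unusedSectionVars false

open Set Filter Topology MeasureTheory
open scoped ENNReal Matrix

noncomputable section

namespace Crest.Agent.R276.SatC_886

open Crest.Agent.R271 Crest.Agent.R271.Ho51 Crest.Agent.R271.Rd692
open Crest.Agent.R271.Defs710 hiding glue
open Crest.Agent.R271.Alg255 Crest.Agent.R271.AlgB956
open Crest.Agent.R276.AB2_590 Crest.Agent.R276.Mod1_987 Crest.Agent.R276.End_723
open Crest.Agent.R276.EngU_29 Crest.Agent.R276.FlatDefs_236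
open Crest.Agent.R276.SkelDefs_220 Crest.Agent.R276.CInd_870 Crest.Agent.R276.RelC_870
open Crest.Agent.R276.RelB_870
open Crest.Agent.R276.Sat_210 (IK IW KK)

variable {L K : Type} [Field L] [Field K] [Algebra ℂ L] [Algebra ℂ K] [Algebra L K]
  [IsScalarTower ℂ L K] {m r n : ℕ}

/-- the fibre integral only needs measurability on the fibre -/
theorem fint_eq' (R : RMdl L K m r) {w : R.ML.Pts} {μ : Measure (R.Fib w)} (hμ : IsLeb μ)
    {g : R.MK.Pts → ℝ≥0∞} (hg : Measurable fun y : R.Fib w => g y.val) :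
    R.fint w g = ∫⁻ y, g y.val ∂μ := by
  have h1 := lintegral_eq_fibre hμ (g := fun y : R.Fib w => g y.val) hg
  rw [h1]
  unfold RMdl.fint
  exact lintegral_congr fun ξ => R.fsumR_eq g w ξ

variable {ML : Mdl L m} {MK : Mdl K (m + r)} (H : Rel ML MK)

/-- `K^{-(N-1)/N}`, `K = ∑ |v_i|²` -/
def kv (N : ℕ) (v : Fin n → MK.B) (y : MK.Pts) : ℝ≥0∞ :=
  (ENNReal.ofReal (∑ i, ‖y (v i)‖ ^ 2)) ^ (-(((N : ℝ) - 1) / N))

lemma ik_eq {N : ℕ} (v : Fin n → MK.B) (z : ML.Pts) {f : MK.Pts → ℂ} (hf : H.HolF z f) :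
    IK (nu (rm H) z) (((N : ℝ) - 1) / N) (fun y : (rm H).Fib z => f y.val)
      (fun i y => sg (R := rm H) v z y i) = H.fint z (fun y => ‖f y‖ₑ ^ 2 * kv N v y) := by
  have hh := (holF_iff H z f).1 hf
  have hfc : Continuous fun y : (rm H).Fib z => f y.val :=
    (Crest.Agent.R273.OTA_34.hol_of _ hh).sm.continuous
  have hvc : ∀ i, Continuous fun y : (rm H).Fib z => (y.val : MK.B →ₐ[ℂ] ℂ) (v i) := fun i =>
    (continuous_ev (v i)).comp (RMdl.Fib.continuous_val (R := rm H) z)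
  have hKm : Measurable fun y : (rm H).Fib z => kv N v y.val := by
    unfold kv
    exact (continuous_finsetSum _ fun i _ => ((hvc i).norm.pow 2)).measurable.ennreal_ofReal.pow_const _
  rw [fint_rm, fint_eq' (rm H) (nu_leb (rm H) z) ((hfc.enorm.measurable.pow_const 2).mul hKm)]
  unfold IK
  refine lintegral_congr fun y => ?_
  rw [KK_eq, ENNReal.rpow_two]
  rfl

/-- the closure hypothesis, weight `N`: `b ∈ B_K` with `∫ |b|² K^{-(N-1)/N} < ∞` (weighted in the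
base variables) is in `span_L v` -/
def Closed (N : ℕ) (v : Fin n → MK.B) : Prop :=
  ∀ b : MK.B, SatC_210.InE (rm H) (fun y => ‖(y : MK.B →ₐ[ℂ] ℂ) b‖ₑ ^ 2 *
    SatC_210.kw (R := rm H) N v y) → (b : K) ∈ Submodule.span L (range fun i => (v i : K))

/-- **(Cl)** of 185 -/
theorem cl_rel {N : ℕ} (hN : 0 < N) {v : Fin n → MK.B} (hB : Closed H N v) :
    ∃ P : MvPolynomial (Fin m) ℂ, P ≠ 0 ∧ ∀ z : ML.Pts, MvPolynomial.eval (ML.pz z) P ≠ 0 →
      ∃ C : ℝ≥0∞, 0 < C ∧ C ≠ ∞ ∧ ∀ f : MK.Pts → ℂ, H.HolF z f →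
        H.fint z (fun y => ‖f y‖ₑ ^ 2 * kv N v y) ≠ ∞ → ∀ y : MK.Pts, H.f y = z →
        ‖f y‖ₑ ^ 2 ≤ C * ENNReal.ofReal (∑ i, ‖y (v i)‖ ^ 2) *
          H.fint z (fun y => ‖f y‖ₑ ^ 2 * kv N v y) := by
  obtain ⟨P, hP, h⟩ := clos_dep (R := rm H) hN (v := v) hB
  have hN1 : (1 : ℝ) ≤ N := by exact_mod_cast hN
  have hα : 0 ≤ ((N : ℝ) - 1) / N := div_nonneg (by linarith) (by linarith)
  refine ⟨P, hP, fun z hz => ?_⟩
  obtain ⟨C, hC0, hC, h1⟩ := cl_at (R := rm H) hα v z (h z hz)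
  refine ⟨C, hC0, hC, fun f hf hint y hy => ?_⟩
  have h2 := h1 (fun y => f y.val) ((holF_iff H z f).1 hf) (by rw [ik_eq H v z hf]; exact hint)
    ⟨y, (rm_q H y).trans hy⟩
  rw [ik_eq H v z hf, KK_eq, ENNReal.rpow_two] at h2
  exact h2

/-- **(Cl)** for all `f`, when `K > 0` on the fibre -/
theorem cl_rel_pos {N : ℕ} (hN : 0 < N) {v : Fin n → MK.B} (hB : Closed H N v)
    (hpos : ∀ y : MK.Pts, ∃ i, y (v i) ≠ 0) :
    ∃ P : MvPolynomial (Fin m) ℂ, P ≠ 0 ∧ ∀ z : ML.Pts, MvPolynomial.eval (ML.pz z) P ≠ 0 →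
      ∃ C : ℝ≥0∞, 0 < C ∧ C ≠ ∞ ∧ ∀ f : MK.Pts → ℂ, H.HolF z f → ∀ y : MK.Pts, H.f y = z →
        ‖f y‖ₑ ^ 2 ≤ C * ENNReal.ofReal (∑ i, ‖y (v i)‖ ^ 2) *
          H.fint z (fun y => ‖f y‖ₑ ^ 2 * kv N v y) := by
  obtain ⟨P, hP, h⟩ := cl_rel H hN hB
  refine ⟨P, hP, fun z hz => ?_⟩
  obtain ⟨C, hC0, hC, h1⟩ := h z hz
  refine ⟨C, hC0, hC, fun f hf y hy => ?_⟩
  by_cases hint : H.fint z (fun y => ‖f y‖ₑ ^ 2 * kv N v y) = ∞
  · obtain ⟨i, hi⟩ := hpos y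
    have h2 : 0 < ∑ i, ‖y (v i)‖ ^ 2 := by
      have h3 : 0 < ‖y (v i)‖ ^ 2 := by have := norm_pos_iff.2 hi; positivity
      exact lt_of_lt_of_le h3 (Finset.single_le_sum (f := fun i => ‖y (v i)‖ ^ 2)
        (fun i _ => by positivity) (Finset.mem_univ i))
    rw [hint, ENNReal.mul_top]
    · exact le_top
    · exact mul_ne_zero hC0.ne' (by simpa using h2)
  · exact h1 f hf hint y hy

end Crest.Agent.R276.SatC_886
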