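import Crest.Agent.R276.SatH_152
import Crest.Agent.R276.SatC2_886

/-!
# Row 276 (S0419), SAT (helper152), part I: `indep` and `clos` without hypotheses

* `exists_fam` : a basis over `L` of `{v | Pluri L bK N v}`;
* `sat_indep_clos` : the fields `indep` and `clos` of `SatFam` off a hypersurface.
-/

set_option autoImplicit false

noncomputable section

open Set Filter Topology Metric MeasureTheory
open scoped ENNReal

namespace Crest.Agent.R276.SatG_152

open Crest.Agent.R271 Crest.Agent.R271.Defs710 Crest.Agent.R271.Alg255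
open Crest.Agent.R276.Mod1_987 Crest.Agent.R276.FKDefs_779 Crest.Agent.R276.FlatDefs_236
open Crest.Agent.R276.SatB_210 Crest.Agent.R276.SatC_210
open Crest.Agent.R276.EngU_29
open Crest.Agent.R276.Sat_210 (IK)

variable {L K : Type} [Field L] [Field K] [Algebra ℂ L] [Algebra ℂ K] [Algebra L K]
  [IsScalarTower ℂ L K] {m r : ℕ} {R : RMdl L K m r} {s : ℕ}

variable (R) in
include R in
lemma fgf_rel : FGF L K := by
  have hess : Algebra.EssFiniteType ℂ K := Cmp_595.essFiniteType R.MK
  have : Algebra.EssFiniteType L K := Algebra.EssFiniteType.of_comp ℂ L K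
  exact IntermediateField.fg_top_iff.mpr this

variable (R) in
include R in
/-- a basis over `L` of the space of regular relative `N`-forms -/
theorem exists_fam (bK : Module.Basis (Fin r) K (Ω[K⁄L])) (N : ℕ) :
    ∃ (s : ℕ) (u : Fin s → K), LinearIndependent L u ∧ (∀ i, Pluri L bK N (u i)) ∧
      ∀ v, Pluri L bK N v → v ∈ Submodule.span L (Set.range u) := by
  have hcL : CharZero L := charZero_of_injective_algebraMap (algebraMap ℂ L).injective
  have hfin := PFin_337.pluriSp_finite (fgf_rel R) bK N
  let e := Module.finBasis L (PFin_337.PluriSp L bK N)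
  refine ⟨_, fun i => (e i : K), ?_, fun i => PFin_337.mem_PluriSp.1 (e i).2, fun v hv => ?_⟩
  · exact e.linearIndependent.map' (Submodule.subtype _) (Submodule.ker_subtype _)
  · have h1 : (⟨v, PFin_337.mem_PluriSp.2 hv⟩ : PFin_337.PluriSp L bK N) ∈
        Submodule.span L (Set.range e) := by rw [e.span_eq]; trivial
    have h2 := Submodule.mem_map_of_mem (f := Submodule.subtype _) h1
    rw [Submodule.map_span, ← Set.range_comp] at h2
    exact h2

/-- **SAT: `indep` and `clos`** off a hypersurface, for a basis `u` of the regular relative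
`N`-forms -/
theorem sat_indep_clos {N : ℕ} (hN : 0 < N) (bK : Module.Basis (Fin r) K (Ω[K⁄L]))
    (hbK : ∀ j, bK j = KaehlerDifferential.D L K (R.MK.zK (Fin.natAdd m j)))
    {u : Fin s → R.MK.B} (hli : LinearIndependent L fun i => (u i : K))
    (hu : ∀ i, Pluri L bK N (u i : K))
    (hspan : ∀ v : K, Pluri L bK N v →
      v ∈ Submodule.span L (Set.range fun i => ((u i : R.MK.B) : K))) :
    ∃ P : MvPolynomial (Fin m) ℂ, P ≠ 0 ∧ ∀ w : R.ML.Pts, MvPolynomial.eval (R.ML.pz w) P ≠ 0 →
      (∀ a : Fin s → ℂ, (∀ y : R.Fib w, ∑ i, a i * sg u w y i = 0) → a = 0) ∧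
      ∀ f : R.Fib w → ℂ, Ho51.Hol f →
        IK (nu R w) (((N : ℝ) - 1) / N) f (fun i y => sg u w y i) ≠ ∞ →
        ∃ b : Fin s → ℂ, ∀ y : R.Fib w, f y = ∑ i, b i * sg u w y i :=
  SatC_886.sat_clos hN hli fun b hb => hspan _ (pluri_of_inE hN bK hbK u hu b hb)

end Crest.Agent.R276.SatG_152
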