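import Mathlib
import Crest.Agent.R276.Cl2_886
import Crest.Agent.R276.SatI_152

/-!
# Row 276 (S0419): (Cl) of 185, unconditional (helper886)

`H : Rel ML MK`, `bK` the basis `dx` of `Ω[K⁄L]`, `v : Fin n → MK.B` regular relative `N`-forms
(`Pluri L bK N (v i)`) spanning all of them over `L` (dependent families allowed).
-/

set_option autoImplicit false

open Set Filter Topology MeasureTheory
open scoped ENNReal

noncomputable section

namespace Crest.Agent.R276.SatC_886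

open Crest.Agent.R276.Mod1_987 Crest.Agent.R276.SkelDefs_220 Crest.Agent.R276.CInd_870
open Crest.Agent.R276.FKDefs_779

variable {L K : Type} [Field L] [Field K] [Algebra ℂ L] [Algebra ℂ K] [Algebra L K]
  [IsScalarTower ℂ L K] {m r n : ℕ} {ML : Mdl L m} {MK : Mdl K (m + r)} (H : SkelDefs_220.Rel ML MK)

/-- a spanning family of regular relative `N`-forms is closed -/
theorem closed_of_pluri {N : ℕ} (hN : 0 < N) {bK : Module.Basis (Fin r) K (Ω[K⁄L])}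
    (hbK : IsRelBasis MK bK) {v : Fin n → MK.B} (hv : ∀ i, Pluri L bK N (v i : K))
    (hspan : ∀ g : K, Pluri L bK N g → g ∈ Submodule.span L (range fun i => (v i : K))) :
    Closed H N v := fun b hb =>
  hspan _ (SatG_152.pluri_of_inE (R := rm H) hN bK hbK v hv b hb)

/-- **(Cl)** -/
theorem cl_pluri {N : ℕ} (hN : 0 < N) {bK : Module.Basis (Fin r) K (Ω[K⁄L])}
    (hbK : IsRelBasis MK bK) {v : Fin n → MK.B} (hv : ∀ i, Pluri L bK N (v i : K))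
    (hspan : ∀ g : K, Pluri L bK N g → g ∈ Submodule.span L (range fun i => (v i : K))) :
    ∃ P : MvPolynomial (Fin m) ℂ, P ≠ 0 ∧ ∀ z : ML.Pts, MvPolynomial.eval (ML.pz z) P ≠ 0 →
      ∃ C : ℝ≥0∞, 0 < C ∧ C ≠ ∞ ∧ ∀ f : MK.Pts → ℂ, H.HolF z f →
        H.fint z (fun y => ‖f y‖ₑ ^ 2 * kv N v y) ≠ ∞ → ∀ y : MK.Pts, H.f y = z →
        ‖f y‖ₑ ^ 2 ≤ C * ENNReal.ofReal (∑ i, ‖y (v i)‖ ^ 2) *
          H.fint z (fun y => ‖f y‖ₑ ^ 2 * kv N v y) :=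
  cl_rel H hN (closed_of_pluri H hN hbK hv hspan)

/-- **(Cl)**, `K > 0` -/
theorem cl_pluri_pos {N : ℕ} (hN : 0 < N) {bK : Module.Basis (Fin r) K (Ω[K⁄L])}
    (hbK : IsRelBasis MK bK) {v : Fin n → MK.B} (hv : ∀ i, Pluri L bK N (v i : K))
    (hspan : ∀ g : K, Pluri L bK N g → g ∈ Submodule.span L (range fun i => (v i : K)))
    (hpos : ∀ y : MK.Pts, ∃ i, y (v i) ≠ 0) :
    ∃ P : MvPolynomial (Fin m) ℂ, P ≠ 0 ∧ ∀ z : ML.Pts, MvPolynomial.eval (ML.pz z) P ≠ 0 →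
      ∃ C : ℝ≥0∞, 0 < C ∧ C ≠ ∞ ∧ ∀ f : MK.Pts → ℂ, H.HolF z f → ∀ y : MK.Pts, H.f y = z →
        ‖f y‖ₑ ^ 2 ≤ C * ENNReal.ofReal (∑ i, ‖y (v i)‖ ^ 2) *
          H.fint z (fun y => ‖f y‖ₑ ^ 2 * kv N v y) :=
  cl_rel_pos H hN (closed_of_pluri H hN hbK hv hspan) hpos

end Crest.Agent.R276.SatC_886
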