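import Mathlib
import Crest.Agent.R276.CmpB_595

/-!
Row 276 (S0419), MODPACK (helper595), part D: polynomial growth under change of models.

`Gr M f` : `f y · |h(z)|^j ≤ C (1+|z|²)^k` (the predicate `PGr` of `SkelDefs_220`).
* closure under sums, products, powers, monotonicity; values of elements of `B`;
* `Gr.rs` : `f` of polynomial growth on `M` ⟹ `f ∘ rs` of polynomial growth on `M'`.
-/

set_option autoImplicit false

open Polynomial Topology Filter Set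

noncomputable section

namespace Crest.Agent.R276.Cmp_595

open Crest.Agent.R271.Defs710 Crest.Agent.R271.Alg255 Crest.Agent.R271.Rd692
open Crest.Agent.R271.Ho51 Crest.Agent.R276.Mod1_987

variable {K : Type} [Field K] [Algebra ℂ K] {n : ℕ}

/-- polynomial growth on the model: `f |h|^j ≤ C (1 + |z|²)^k` -/
def Gr (M : Mdl K n) (f : M.Pts → ℝ) : Prop :=
  ∃ (C : ℝ) (j k : ℕ), ∀ y : M.Pts,
    f y * ‖MvPolynomial.eval (M.pz y) M.h‖ ^ j ≤ C * (1 + ∑ i, ‖M.pz y i‖ ^ 2) ^ k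

variable {M M' : Mdl K n}

lemma one_le_base (y : M.Pts) : (1 : ℝ) ≤ 1 + ∑ i, ‖M.pz y i‖ ^ 2 := by
  have : 0 ≤ ∑ i, ‖M.pz y i‖ ^ 2 := Finset.sum_nonneg fun i _ => by positivity
  linarith

/-- polynomials in the coordinates grow polynomially -/
lemma exists_poly_bound (M : Mdl K n) (p : MvPolynomial (Fin n) ℂ) : ∃ (C : ℝ) (k : ℕ), 0 ≤ C ∧
    ∀ y : M.Pts, ‖MvPolynomial.eval (M.pz y) p‖ ≤ C * (1 + ∑ i, ‖M.pz y i‖ ^ 2) ^ k := by
  induction p using MvPolynomial.induction_on with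
  | C a => exact ⟨‖a‖, 0, norm_nonneg _, fun y => by simp⟩
  | add p q hp hq =>
    obtain ⟨C, k, hC, h1⟩ := hp
    obtain ⟨C', k', hC', h2⟩ := hq
    refine ⟨C + C', k + k', by positivity, fun y => ?_⟩
    have hb := one_le_base y
    rw [map_add]
    calc ‖MvPolynomial.eval (M.pz y) p + MvPolynomial.eval (M.pz y) q‖
        ≤ C * (1 + ∑ i, ‖M.pz y i‖ ^ 2) ^ k + C' * (1 + ∑ i, ‖M.pz y i‖ ^ 2) ^ k' :=
          (norm_add_le _ _).trans (add_le_add (h1 y) (h2 y))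
      _ ≤ C * (1 + ∑ i, ‖M.pz y i‖ ^ 2) ^ (k + k') +
          C' * (1 + ∑ i, ‖M.pz y i‖ ^ 2) ^ (k + k') := by
          gcongr
          · omega
          · omega
      _ = _ := by ring
  | mul_X p i hp =>
    obtain ⟨C, k, hC, h1⟩ := hp
    refine ⟨C, k + 1, hC, fun y => ?_⟩
    have hb := one_le_base y
    rw [map_mul, MvPolynomial.eval_X, norm_mul, pow_succ]
    have h2 : ‖M.pz y i‖ ≤ 1 + ∑ i, ‖M.pz y i‖ ^ 2 := by
      have h3 : ‖M.pz y i‖ ^ 2 ≤ ∑ i, ‖M.pz y i‖ ^ 2 :=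
        Finset.single_le_sum (f := fun i => ‖M.pz y i‖ ^ 2) (fun i _ => by positivity)
          (Finset.mem_univ i)
      nlinarith [sq_nonneg (‖M.pz y i‖ - 1)]
    calc ‖MvPolynomial.eval (M.pz y) p‖ * ‖M.pz y i‖
        ≤ C * (1 + ∑ i, ‖M.pz y i‖ ^ 2) ^ k * (1 + ∑ i, ‖M.pz y i‖ ^ 2) := by
          gcongr
          exact h1 y
      _ = _ := by ring

/-- a uniform exponent for a given function -/
lemma Gr.raise {f : M.Pts → ℝ} (hf : Gr M f) :
    ∃ j : ℕ, ∀ j' ≥ j, ∃ (C : ℝ) (k : ℕ), 0 ≤ C ∧ ∀ y : M.Pts,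
      f y * ‖MvPolynomial.eval (M.pz y) M.h‖ ^ j' ≤ C * (1 + ∑ i, ‖M.pz y i‖ ^ 2) ^ k := by
  obtain ⟨C, j, k, h⟩ := hf
  obtain ⟨D, l, hD, h1⟩ := exists_poly_bound M M.h
  refine ⟨j, fun j' hj => ⟨|C| * D ^ (j' - j), k + l * (j' - j), by positivity, fun y => ?_⟩⟩
  have hb := one_le_base y
  calc f y * ‖MvPolynomial.eval (M.pz y) M.h‖ ^ j'
      = (f y * ‖MvPolynomial.eval (M.pz y) M.h‖ ^ j) *
        ‖MvPolynomial.eval (M.pz y) M.h‖ ^ (j' - j) := by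
        rw [mul_assoc, ← pow_add, Nat.add_sub_cancel' hj]
    _ ≤ (|C| * (1 + ∑ i, ‖M.pz y i‖ ^ 2) ^ k) *
        (D * (1 + ∑ i, ‖M.pz y i‖ ^ 2) ^ l) ^ (j' - j) := by
        have h2 : f y * ‖MvPolynomial.eval (M.pz y) M.h‖ ^ j ≤
            |C| * (1 + ∑ i, ‖M.pz y i‖ ^ 2) ^ k :=
          (h y).trans (by gcongr; exact le_abs_self C)
        gcongr
        exact h1 y
    _ = _ := by rw [mul_pow, ← pow_mul]; ring

lemma Gr.mono {f g : M.Pts → ℝ} (hf : Gr M f) (h : ∀ y, g y ≤ f y) : Gr M g := by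
  obtain ⟨C, j, k, h1⟩ := hf
  refine ⟨C, j, k, fun y => ?_⟩
  refine le_trans ?_ (h1 y)
  gcongr
  exact h y

lemma Gr.const (M : Mdl K n) (c : ℝ) : Gr M fun _ => c := by
  refine ⟨|c|, 0, 0, fun y => ?_⟩
  simpa using le_abs_self c

lemma Gr.mul {f g : M.Pts → ℝ} (hf : Gr M f) (hg : Gr M g)
    (hg0 : ∀ y, 0 ≤ g y) : Gr M fun y => f y * g y := by
  obtain ⟨C, j, k, h1⟩ := hf
  obtain ⟨C', j', k', h2⟩ := hg
  refine ⟨|C| * |C'|, j + j', k + k', fun y => ?_⟩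
  have hb := one_le_base y
  calc f y * g y * ‖MvPolynomial.eval (M.pz y) M.h‖ ^ (j + j')
      = (f y * ‖MvPolynomial.eval (M.pz y) M.h‖ ^ j) *
        (g y * ‖MvPolynomial.eval (M.pz y) M.h‖ ^ j') := by ring
    _ ≤ (|C| * (1 + ∑ i, ‖M.pz y i‖ ^ 2) ^ k) * (|C'| * (1 + ∑ i, ‖M.pz y i‖ ^ 2) ^ k') := by
        have h3 : f y * ‖MvPolynomial.eval (M.pz y) M.h‖ ^ j ≤
            |C| * (1 + ∑ i, ‖M.pz y i‖ ^ 2) ^ k := (h1 y).trans (by gcongr; exact le_abs_self C)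
        have h4 : g y * ‖MvPolynomial.eval (M.pz y) M.h‖ ^ j' ≤
            |C'| * (1 + ∑ i, ‖M.pz y i‖ ^ 2) ^ k' := (h2 y).trans (by gcongr; exact le_abs_self C')
        have h5 : 0 ≤ g y * ‖MvPolynomial.eval (M.pz y) M.h‖ ^ j' :=
          mul_nonneg (hg0 y) (by positivity)
        gcongr
    _ = _ := by ring

lemma Gr.add {f g : M.Pts → ℝ} (hf : Gr M f) (hg : Gr M g) : Gr M fun y => f y + g y := by
  obtain ⟨j, h1⟩ := hf.raise
  obtain ⟨j', h2⟩ := hg.raise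
  obtain ⟨C, k, hC, h1⟩ := h1 (j + j') (by omega)
  obtain ⟨C', k', hC', h2⟩ := h2 (j + j') (by omega)
  refine ⟨C + C', j + j', k + k', fun y => ?_⟩
  have hb := one_le_base y
  calc (f y + g y) * ‖MvPolynomial.eval (M.pz y) M.h‖ ^ (j + j')
      ≤ C * (1 + ∑ i, ‖M.pz y i‖ ^ 2) ^ k + C' * (1 + ∑ i, ‖M.pz y i‖ ^ 2) ^ k' := by
        rw [add_mul]
        exact add_le_add (h1 y) (h2 y)
    _ ≤ C * (1 + ∑ i, ‖M.pz y i‖ ^ 2) ^ (k + k') +
        C' * (1 + ∑ i, ‖M.pz y i‖ ^ 2) ^ (k + k') := by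
        gcongr
        · omega
        · omega
    _ = _ := by ring

lemma Gr.pow {f : M.Pts → ℝ} (hf : Gr M f) (hf0 : ∀ y, 0 ≤ f y) (k : ℕ) :
    Gr M fun y => f y ^ k := by
  induction k with
  | zero => simpa using Gr.const M 1
  | succ k ih =>
    simp only [pow_succ]
    exact ih.mul hf hf0

lemma Gr.sum {ι : Type*} (s : Finset ι) {f : ι → M.Pts → ℝ} (hf : ∀ i ∈ s, Gr M (f i)) :
    Gr M fun y => ∑ i ∈ s, f i y := by
  classical
  induction s using Finset.induction_on with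
  | empty => simpa using Gr.const M 0
  | insert a s ha ih =>
    simp only [Finset.sum_insert ha]
    exact (hf a (by simp)).add (ih fun i hi => hf i (by simp [hi]))

lemma Gr.prod {ι : Type*} (s : Finset ι) {f : ι → M.Pts → ℝ} (hf : ∀ i ∈ s, Gr M (f i))
    (hf0 : ∀ i ∈ s, ∀ y, 0 ≤ f i y) : Gr M fun y => ∏ i ∈ s, f i y := by
  classical
  induction s using Finset.induction_on with
  | empty => simpa using Gr.const M 1
  | insert a s ha ih =>
    simp only [Finset.prod_insert ha]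
    exact (hf a (by simp)).mul (ih (fun i hi => hf i (by simp [hi]))
      fun i hi => hf0 i (by simp [hi]))
      fun y => Finset.prod_nonneg fun i hi => hf0 i (by simp [hi]) y

/-- real powers -/
lemma Gr.rpow {f : M.Pts → ℝ} (hf : Gr M f) (hf0 : ∀ y, 0 ≤ f y) {t : ℝ} (ht : 0 ≤ t) :
    Gr M fun y => f y ^ t := by
  obtain ⟨N, hN⟩ := exists_nat_ge t
  refine ((Gr.const M 1).add (hf.pow hf0 N)).mono fun y => ?_
  rcases le_total (f y) 1 with h1 | h1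
  · have h2 : f y ^ t ≤ 1 := Real.rpow_le_one (hf0 y) h1 ht
    have h3 : 0 ≤ f y ^ N := pow_nonneg (hf0 y) N
    linarith
  · have h2 : f y ^ t ≤ f y ^ N := by
      rw [← Real.rpow_natCast]
      exact Real.rpow_le_rpow_of_exponent_le h1 hN
    linarith

/-- elements of `B` grow polynomially -/
lemma Gr.ev (M : Mdl K n) (b : M.B) : Gr M fun y => ‖y b‖ := by
  obtain ⟨C, k, l, _, h⟩ := M.growth b
  exact ⟨C, l, k, fun y => by rw [mul_comm]; exact h y⟩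

/-- `1/|h|` grows polynomially -/
lemma Gr.inv_h (M : Mdl K n) : Gr M fun y => ‖MvPolynomial.eval (M.pz y) M.h‖⁻¹ := by
  refine ⟨1, 1, 0, fun y => ?_⟩
  rw [pow_one, pow_zero, one_mul]
  exact (inv_mul_cancel₀ (norm_ne_zero_iff.mpr (M.eval_h_ne y))).le

/-- the value of a unit is bounded below -/
lemma Gr.inv_ev (M : Mdl K n) {b : M.B} (hb : IsUnit b) : Gr M fun y => ‖y b‖⁻¹ := by
  obtain ⟨u, rfl⟩ := hb
  refine (Gr.ev M ((u⁻¹ : M.Bˣ) : M.B)).mono fun y => ?_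
  have h1 : y (u : M.B) * y ((u⁻¹ : M.Bˣ) : M.B) = 1 := by
    rw [← map_mul, Units.mul_inv, map_one]
  rw [← norm_inv]
  apply le_of_eq
  congr 1
  exact (eq_inv_of_mul_eq_one_right h1).symm

lemma Gr.base (M : Mdl K n) (k : ℕ) : Gr M fun y => (1 + ∑ i, ‖M.pz y i‖ ^ 2) ^ k :=
  ⟨1, 0, k, fun y => by simp⟩

/-- **growth under change of models** -/
theorem Gr.rs (h : M.B ≤ M'.B) {f : M.Pts → ℝ} (hf : Gr M f) :
    Gr M' fun y => f (Mdl.resB h y) := by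
  obtain ⟨C, j, k, h1⟩ := hf
  -- `1/h` and the old coordinates on `M'`
  have h2 : Gr M' fun y => ‖MvPolynomial.eval (M.pz (Mdl.resB h y)) M.h‖⁻¹ := by
    have h3 : ∀ y : M'.Pts, MvPolynomial.eval (M.pz (Mdl.resB h y)) M.h =
        y ⟨(az M.z M.h : M.B), h (Subtype.property _)⟩ := fun y => (M.apply_az' _ _).symm
    simp only [h3]
    apply Gr.inv_ev
    obtain ⟨u, hu⟩ := M.h_unit
    refine IsUnit.of_mul_eq_one (⟨((u⁻¹ : M.Bˣ) : M.B), h (Subtype.property _)⟩ : M'.B) ?_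
    apply Subtype.ext
    have h4 := congrArg (Subtype.val : M.B → K) (show (az M.z M.h : M.B) *
      ((u⁻¹ : M.Bˣ) : M.B) = 1 by rw [← hu, Units.mul_inv])
    exact h4
  have h3 : Gr M' fun y => 1 + ∑ i, ‖M.pz (Mdl.resB h y) i‖ ^ 2 := by
    refine (Gr.const M' 1).add (Gr.sum _ fun i _ => ?_)
    exact (Gr.ev M' ⟨M.z i, h (M.z i).2⟩).pow (fun y => norm_nonneg _) 2
  have h4 := ((Gr.const M' |C|).mul (h3.pow (fun y => by positivity) k)
    fun y => by positivity).mul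
    (h2.pow (fun y => by positivity) j) fun y => by positivity
  refine h4.mono fun y => ?_
  have h5 : 0 < ‖MvPolynomial.eval (M.pz (Mdl.resB h y)) M.h‖ :=
    norm_pos_iff.mpr (M.eval_h_ne _)
  rw [inv_pow, ← div_eq_mul_inv, le_div_iff₀ (pow_pos h5 j)]
  refine (h1 _).trans ?_
  gcongr
  exact le_abs_self C

end Crest.Agent.R276.Cmp_595
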