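import Crest.Agent.R276.CntB_857

/-!
# R276, leaf COUNT (helper857), part C: growth of the leading coefficient in the metric of `L`

`avg_mul`: product formula for the lowest coefficient; `gr`: the estimate; `ext`: if all
coefficients of index `< a` vanish, then `q₀^{-a} fI` extends holomorphically to the polydiscs.
-/

set_option autoImplicit false

noncomputable section

open Set Filter Topology MeasureTheory Metric

namespace Crest.Agent.R276.CntC_857

open Crest.Agent.R271.Ho51 Crest.Agent.R276.CntDefs_857 Crest.Agent.R276.SliA_217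
  Crest.Agent.R276.CntA_857 Crest.Agent.R276.CntB_857

theorem circ_int {f : ℂ → ℂ} {s : ℝ} (hs : 0 < s) (hf : ContinuousOn f (sphere 0 s)) :
    CircleIntegrable f 0 s := hf.circleIntegrable hs.le

/-- product with a polynomial -/
theorem avg_poly {F : ℂ → ℂ} {s : ℝ} (hs : 0 < s) (hF : ContinuousOn F (sphere 0 s))
    (h0 : ∀ m : ℕ, 1 ≤ m → Real.circleAverage (fun x => F x * x ^ m) 0 s = 0) (a : ℕ → ℂ) (N : ℕ) :
    Real.circleAverage (fun x => F x * ∑ j ∈ Finset.range (N + 1), a j * x ^ j) 0 s =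
      a 0 * Real.circleAverage F 0 s := by
  induction N with
  | zero =>
    have h1 : (fun x : ℂ => F x * ∑ j ∈ Finset.range (0 + 1), a j * x ^ j) = fun x => a 0 • F x := by
      funext x; simp [mul_comm]
    rw [h1, Real.circleAverage_fun_smul]
    rfl
  | succ N ih =>
    have h1 : (fun x : ℂ => F x * ∑ j ∈ Finset.range (N + 1 + 1), a j * x ^ j) =
        fun x => (F x * ∑ j ∈ Finset.range (N + 1), a j * x ^ j) +
          a (N + 1) • (F x * x ^ (N + 1)) := by
      funext x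
      rw [Finset.sum_range_succ, smul_eq_mul]; ring
    have i1 : CircleIntegrable (fun x => F x * ∑ j ∈ Finset.range (N + 1), a j * x ^ j) 0 s :=
      circ_int hs (hF.mul (by fun_prop : Continuous fun x : ℂ =>
        ∑ j ∈ Finset.range (N + 1), a j * x ^ j).continuousOn)
    have i2 : CircleIntegrable (fun x => a (N + 1) • (F x * x ^ (N + 1))) 0 s := by
      have h2 : ContinuousOn (fun x : ℂ => F x * x ^ (N + 1)) (sphere 0 s) :=
        hF.mul (by fun_prop : Continuous fun x : ℂ => x ^ (N + 1)).continuousOn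
      exact circ_int hs (continuousOn_const.mul h2)
    rw [h1, Real.circleAverage_fun_add i1 i2, ih,
      Real.circleAverage_fun_smul, h0 _ (by omega)]
    simp

/-- product formula for the lowest coefficient -/
theorem avg_mul {F g : ℂ → ℂ} {s R : ℝ} (hs : 0 < s) (hsR : s < R)
    (hF : ContinuousOn F (sphere 0 s)) (hg : DifferentiableOn ℂ g (ball 0 R))
    (h0 : ∀ m : ℕ, 1 ≤ m → Real.circleAverage (fun x => F x * x ^ m) 0 s = 0) :
    Real.circleAverage (fun x => F x * g x) 0 s = g 0 * Real.circleAverage F 0 s := by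
  -- bound of `F`
  obtain ⟨B, hB⟩ := (isCompact_sphere (0 : ℂ) s).exists_bound_of_continuousOn hF
  have hB0 : 0 ≤ B := (norm_nonneg _).trans (hB (s : ℂ) (by simp [abs_of_pos hs]))
  -- power series
  set R' : ℝ := (s + R) / 2 with hR'
  have hR'0 : 0 < R' := by linarith
  have hsR' : s < R' := by linarith
  have hR'R : R' < R := by linarith
  obtain ⟨R₂, hR₂⟩ : ∃ R₂ : NNReal, (R₂ : ℝ) = R' := ⟨⟨R', hR'0.le⟩, rfl⟩
  have hR₂0 : 0 < R₂ := by rw [← NNReal.coe_pos, hR₂]; exact hR'0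
  have hp := (hg.mono (closedBall_subset_ball hR'R) : DifferentiableOn ℂ g
    (closedBall 0 R'))
  rw [← hR₂] at hp
  replace hp := hp.hasFPowerSeriesOnBall hR₂0
  generalize cauchyPowerSeries g 0 (R₂ : ℝ) = p at hp
  obtain ⟨r₁, hr₁⟩ : ∃ r₁ : NNReal, (r₁ : ℝ) = (s + R') / 2 :=
    ⟨⟨(s + R') / 2, by positivity⟩, rfl⟩
  have hu := hp.tendstoUniformlyOn (r' := r₁) (by
    rw [ENNReal.coe_lt_coe, ← NNReal.coe_lt_coe, hr₁, hR₂]
    linarith)
  have ha0 : p.coeff 0 = g 0 := by
    rw [← hp.coeff_zero (fun _ => (1 : ℂ)), FormalMultilinearSeries.apply_eq_pow_smul_coeff]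
    simp
  have hgc : ContinuousOn g (sphere 0 s) :=
    hg.continuousOn.mono (fun x hx => by
      rw [mem_sphere_zero_iff_norm] at hx
      rw [mem_ball_zero_iff, hx]; exact hsR)
  -- conclusion
  have key : ∀ ε : ℝ, 0 < ε → ‖Real.circleAverage (fun x => F x * g x) 0 s -
      g 0 * Real.circleAverage F 0 s‖ ≤ B * ε := by
    intro ε hε
    rw [Metric.tendstoUniformlyOn_iff] at hu
    obtain ⟨N, hN⟩ := (hu ε hε).exists_forall_of_atTop
    have h1 := avg_poly hs hF h0 (fun j => p.coeff j) N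
    simp only [ha0] at h1
    rw [← h1]
    have hPc : Continuous fun x : ℂ => ∑ j ∈ Finset.range (N + 1), p.coeff j * x ^ j := by
      fun_prop
    have h2 : Real.circleAverage (fun x => F x * g x) 0 s -
        Real.circleAverage (fun x => F x * ∑ j ∈ Finset.range (N + 1), p.coeff j * x ^ j) 0 s =
        Real.circleAverage (fun x => F x * (g x -
          ∑ j ∈ Finset.range (N + 1), p.coeff j * x ^ j)) 0 s := by
      have i1 : CircleIntegrable (fun x => F x * g x) 0 s := circ_int hs (hF.mul hgc)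
      have i2 : CircleIntegrable (fun x => F x * ∑ j ∈ Finset.range (N + 1), p.coeff j * x ^ j) 0 s :=
        circ_int hs (hF.mul hPc.continuousOn)
      rw [← Real.circleAverage_fun_sub i1 i2]
      congr 1
      funext x; ring
    rw [h2]
    refine norm_avg_le hs fun x hx => ?_
    have hxs : x ∈ sphere (0 : ℂ) s := by rw [mem_sphere_zero_iff_norm, hx]
    have h3 := hN (N + 1) (by omega) x (by
      rw [mem_ball_zero_iff, hx, hr₁]
      linarith)
    rw [dist_eq_norm, zero_add, FormalMultilinearSeries.partialSum] at h3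
    have h4 : ∑ j ∈ Finset.range (N + 1), p.coeff j * x ^ j =
        ∑ j ∈ Finset.range (N + 1), (p j) fun _ => x := by
      refine Finset.sum_congr rfl fun j _ => ?_
      rw [FormalMultilinearSeries.apply_eq_pow_smul_coeff, smul_eq_mul, mul_comm]
    rw [norm_mul, h4]
    exact mul_le_mul (hB x hxs) h3.le (norm_nonneg _) hB0
  have h5 : ‖Real.circleAverage (fun x => F x * g x) 0 s - g 0 * Real.circleAverage F 0 s‖ ≤ 0 := by
    refine le_of_forall_pos_le_add fun ε hε => ?_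
    refine (key (ε / (B + 1)) (by positivity)).trans ?_
    rw [zero_add, mul_div_assoc', div_le_iff₀ (by positivity)]
    nlinarith
  exact sub_eq_zero.1 (norm_le_zero_iff.1 h5)

variable {d : ℕ} {M E : Type*} [TopologicalSpace M] [RDom (d + 1) M] [MeasurableSpace M]
    {μ : Measure M} [TopologicalSpace E] [RDom d E]

variable (D : DChart M E μ)

/-- **growth of the leading coefficient in the metric of `L`** -/
theorem gr [BorelSpace M] {φ ψ : M → ℝ} (hφ : Measurable φ) (hψ : Measurable ψ) {k : ℤ} {ρ : ℕ}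
    (P : Full D φ ψ k ρ) : ∃ B : ℕ, ∀ n t : ℕ, 1 ≤ n → ∀ l : ℤ, ∀ F ∈ V μ hφ hψ n t,
      (∀ l' < l, co D n t k F l' = 0) →
      ∃ C' : ℝ, ∀ y, ‖co D n t k F l y‖ ^ 2 * Real.exp (-P.τ y) ^ (n * t) ≤
        C' * (1 / D.r y) ^ (B * (n + l.natAbs + 1)) := by
  set c := ⌈P.C⌉₊ with hc
  refine ⟨2 * (c + d + 1), fun n t hn l F hF hvan => ?_⟩
  set Q := (nrm μ φ ψ n t F).toReal with hQ
  have hC0 : 0 < P.C := lt_of_lt_of_le one_pos P.hC
  set B : ℝ := P.C ^ (n * t) * (2 ^ (2 * l.natAbs) * (P.C ^ (n * t) *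
    Real.exp ((n - 1 : ℕ) * c) * (D.N * Q) * 10 ^ (2 * (d + 1)))) with hB
  have hB0 : 0 ≤ B := by positivity
  refine ⟨B, fun y => ?_⟩
  have hr := r_pos D y
  have hr1 := r_le_one D y
  set r := D.r y with hrdef
  have h1r : 1 ≤ 1 / r := by rw [le_div_iff₀ hr]; linarith
  have hnR : ((n - 1 : ℕ) : ℝ) = (n : ℝ) - 1 := by push_cast [Nat.cast_sub hn]; ring
  obtain ⟨Λ, hΛ, hΛ1, hΛ2⟩ := P.Lam y
  rw [← hrdef] at hΛ hΛ1
  -- product formula
  have hprod : Real.circleAverage (fun x : ℂ => (D.fI n t k F y (Fin.cons x 0) * x ^ (-l)) *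
      Λ (Fin.cons x 0) ^ (n * t)) 0 (r / 2) = Λ 0 ^ (n * t) * co D n t k F l y := by
    have hz : (Fin.cons (0 : ℂ) (0 : Fin d → ℂ) : Fin (d + 1) → ℂ) = 0 := by
      funext i; refine Fin.cases ?_ (fun j => ?_) i <;> simp
    have h1 := avg_mul (F := fun x : ℂ => D.fI n t k F y (Fin.cons x 0) * x ^ (-l))
      (g := fun x : ℂ => Λ (Fin.cons x 0) ^ (n * t)) (s := r / 2) (R := r) (by positivity)
      (by linarith) ?_ ?_ ?_
    · rw [h1, hz]; rfl
    · intro x hx
      rw [mem_sphere_zero_iff_norm] at hx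
      refine (diffAt_x D n t k hF.1 l y (by simpa using hr) ?_ ?_).continuousAt.continuousWithinAt
      · intro h; rw [h, norm_zero] at hx; linarith
      · rw [hx]; linarith
    · refine DifferentiableOn.pow ?_ _
      refine hΛ.comp (diff_cons1 0).differentiableOn ?_
      intro x hx
      rw [mem_ball_zero_iff] at hx
      rw [mem_ball_zero_iff, pi_norm_lt_iff hr]
      intro i
      refine Fin.cases ?_ (fun j => ?_) i
      · simpa using hx
      · simpa using hr
    · intro m hm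
      have h2 := congrFun (hvan (l - m) (by omega)) y
      rw [Pi.zero_apply] at h2
      refine Eq.trans ?_ h2
      unfold co
      refine Real.circleAverage_congr_sphere (E := ℂ) ?_
      intro x hx
      rw [abs_of_pos (by positivity), mem_sphere_zero_iff_norm] at hx
      have hx0 : x ≠ 0 := by
        intro h; rw [h, norm_zero] at hx; linarith
      simp only
      rw [mul_assoc, ← zpow_natCast, ← zpow_add₀ hx0]
      congr 2; ring
  -- pointwise bound
  have h1 : ∀ x : ℂ, ‖x‖ = r / 2 →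
      ‖D.fI n t k F y (Fin.cons x 0) * Λ (Fin.cons x 0) ^ (n * t)‖ ^ 2 ≤
      P.C ^ (n * t) * (Real.exp ((n - 1 : ℕ) * c) * (1 / r) ^ ((n - 1) * c)) * (D.N * Q) *
        (10 / r) ^ (2 * (d + 1)) := by
    intro x hx
    refine core D hφ hψ (k := k) hF y (g := fun q => D.fI n t k F y q * Λ q ^ (n * t)) ?_
      (by positivity) ?_ hx
    · exact ((diff_fI D n t k hF.1 y).mono (Sh_subset hr)).mul
        ((hΛ.mono (Sh_subset_ball hr)).pow _)
    intro q hq
    have h3 := exp_log_le (C := P.C) (m := n - 1) hr hr1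
    rw [← hc] at h3
    have h4 : Real.exp (((n : ℝ) - 1) * D.phW φ y q) ≤
        Real.exp ((n - 1 : ℕ) * (P.C * (1 + Real.log (1 / r)))) := by
      apply Real.exp_le_exp.2
      have h5 := P.g1 y q hq
      rw [hnR]
      apply mul_le_mul_of_nonneg_left h5
      rw [← hnR]; positivity
    have h6 : (‖Λ q‖ ^ 2) ^ (n * t) ≤ P.C ^ (n * t) * Real.exp (-(n * t * D.psI ψ k y q)) := by
      have h7 := pow_le_pow_left₀ (by positivity) (hΛ1 q hq) (n * t)
      rw [mul_pow, ← Real.exp_nat_mul] at h7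
      refine h7.trans (le_of_eq ?_)
      congr 2
      push_cast; ring
    rw [norm_mul, norm_pow, mul_pow, ← pow_mul, mul_comm (n * t) 2, pow_mul ‖Λ q‖]
    have h8 : 1 ≤ (Real.exp ((n - 1 : ℕ) * c) * (1 / r) ^ ((n - 1) * c)) *
        Real.exp (-(((n : ℝ) - 1) * D.phW φ y q)) := by
      rw [Real.exp_neg, le_mul_inv_iff₀ (Real.exp_pos _), one_mul]
      exact h4.trans h3
    calc ‖D.fI n t k F y q‖ ^ 2 * (‖Λ q‖ ^ 2) ^ (n * t)
        ≤ ‖D.fI n t k F y q‖ ^ 2 * (P.C ^ (n * t) * Real.exp (-(n * t * D.psI ψ k y q))) := by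
          gcongr
      _ = ‖D.fI n t k F y q‖ ^ 2 * (P.C ^ (n * t) * Real.exp (-(n * t * D.psI ψ k y q))) * 1 := by
          ring
      _ ≤ ‖D.fI n t k F y q‖ ^ 2 * (P.C ^ (n * t) * Real.exp (-(n * t * D.psI ψ k y q))) *
          ((Real.exp ((n - 1 : ℕ) * c) * (1 / r) ^ ((n - 1) * c)) *
        Real.exp (-(((n : ℝ) - 1) * D.phW φ y q))) := by gcongr
      _ = _ := by
          rw [neg_add, Real.exp_add]; ring
  -- the average
  have h2 : ‖Λ 0 ^ (n * t) * co D n t k F l y‖ ^ 2 ≤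
      (2 ^ (2 * l.natAbs) * (P.C ^ (n * t) * Real.exp ((n - 1 : ℕ) * c) * (D.N * Q) *
        10 ^ (2 * (d + 1)))) * (1 / r) ^ ((n - 1) * c + 2 * (d + 1) + 2 * l.natAbs) := by
    rw [← hprod]
    set X : ℝ := (2 ^ (2 * l.natAbs) * (P.C ^ (n * t) * Real.exp ((n - 1 : ℕ) * c) * (D.N * Q) *
        10 ^ (2 * (d + 1)))) * (1 / r) ^ ((n - 1) * c + 2 * (d + 1) + 2 * l.natAbs) with hX
    have hX0 : 0 ≤ X := by positivity
    have h3 : ‖Real.circleAverage (fun x : ℂ => (D.fI n t k F y (Fin.cons x 0) * x ^ (-l)) *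
      Λ (Fin.cons x 0) ^ (n * t)) 0 (r / 2)‖ ≤ Real.sqrt X := by
      refine norm_avg_le (by positivity) fun x hx => ?_
      refine Real.le_sqrt_of_sq_le ?_
      have h4 : ((r / 2) ^ (-l)) ^ 2 ≤ 2 ^ (2 * l.natAbs) * (1 / r) ^ (2 * l.natAbs) := by
        have h5 := zpow_half_le hr hr1 l
        have h6 : 0 ≤ (r / 2) ^ (-l) := by positivity
        calc ((r / 2) ^ (-l)) ^ 2 ≤ ((2 / r) ^ l.natAbs) ^ 2 := by gcongr
          _ = 2 ^ (2 * l.natAbs) * (1 / r) ^ (2 * l.natAbs) := by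
            rw [← pow_mul, ← mul_pow, mul_comm l.natAbs 2]; congr 1; ring
      have h5 : D.fI n t k F y (Fin.cons x 0) * x ^ (-l) * Λ (Fin.cons x 0) ^ (n * t) =
          (D.fI n t k F y (Fin.cons x 0) * Λ (Fin.cons x 0) ^ (n * t)) * x ^ (-l) := by ring
      rw [h5, norm_mul, mul_pow, norm_zpow, hx]
      calc _ ≤ (P.C ^ (n * t) * (Real.exp ((n - 1 : ℕ) * c) * (1 / r) ^ ((n - 1) * c)) *
            (D.N * Q) * (10 / r) ^ (2 * (d + 1))) *
            (2 ^ (2 * l.natAbs) * (1 / r) ^ (2 * l.natAbs)) := by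
            gcongr
            exact h1 x hx
        _ = X := by
            rw [hX, show (10 / r : ℝ) = 10 * (1 / r) by ring, mul_pow, pow_add, pow_add]; ring
    calc _ ≤ (Real.sqrt X) ^ 2 := by gcongr
      _ = X := Real.sq_sqrt hX0
  have h3 : Real.exp (-P.τ y) ^ (n * t) ≤ P.C ^ (n * t) * ‖Λ 0 ^ (n * t)‖ ^ 2 := by
    have h4 := pow_le_pow_left₀ (Real.exp_pos _).le hΛ2 (n * t)
    refine h4.trans (le_of_eq ?_)
    rw [mul_pow, norm_pow, ← pow_mul, ← pow_mul, mul_comm 2]
  calc ‖co D n t k F l y‖ ^ 2 * Real.exp (-P.τ y) ^ (n * t)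
      ≤ ‖co D n t k F l y‖ ^ 2 * (P.C ^ (n * t) * ‖Λ 0 ^ (n * t)‖ ^ 2) := by gcongr
    _ = P.C ^ (n * t) * ‖Λ 0 ^ (n * t) * co D n t k F l y‖ ^ 2 := by rw [norm_mul]; ring
    _ ≤ P.C ^ (n * t) * ((2 ^ (2 * l.natAbs) * (P.C ^ (n * t) * Real.exp ((n - 1 : ℕ) * c) *
        (D.N * Q) * 10 ^ (2 * (d + 1)))) *
        (1 / r) ^ ((n - 1) * c + 2 * (d + 1) + 2 * l.natAbs)) := by gcongr
    _ = B * (1 / r) ^ ((n - 1) * c + 2 * (d + 1) + 2 * l.natAbs) := by rw [hB]; ring
    _ ≤ B * (1 / r) ^ (2 * (c + d + 1) * (n + l.natAbs + 1)) := by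
        refine mul_le_mul_of_nonneg_left (pow_le_pow_right₀ h1r ?_) hB0
        have h7 : (n - 1) * c ≤ c * (n + l.natAbs + 1) := by
          rw [mul_comm]; exact Nat.mul_le_mul_left c (by omega)
        have h8 : (d + 1) + l.natAbs ≤ (d + 1) * (n + l.natAbs + 1) := by
          nlinarith [Nat.zero_le (d * l.natAbs), Nat.zero_le ((d + 1) * n)]
        have h10 : 2 * (c + d + 1) * (n + l.natAbs + 1) =
          2 * (c * (n + l.natAbs + 1)) + 2 * ((d + 1) * (n + l.natAbs + 1)) := by ring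
        omega

end Crest.Agent.R276.CntC_857
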