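import Crest.Agent.R271.W_792
import Crest.Agent.R271.H3_51

/-!
# Row 276, COUNT-LOW, part A: cut-off logarithmic poles (helper804)

`X a δ s = η(s) log (s + δ)`, `η = 1` for `s ≤ a/4`, `η = 0` for `s ≥ a`.  If `Q ≥ 0` is smooth with
`dsq Q ≤ Q · lev Q` then `lev (X a δ ∘ Q) ≥ - C · lev Q` with `C` independent of `δ ∈ (0, 1/2]`.
-/

set_option autoImplicit false
set_option linter.unusedSectionVars false

noncomputable section

open Set Filter Topology Complex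

namespace Crest.Agent.R276.CntLowA_804

open Crest.Agent.R271.Ho51 Crest.Agent.R271.W792

/-! ### one real variable -/

/-- cut-off: `1` for `s ≤ a/4`, `0` for `s ≥ a` -/
def eta (a s : ℝ) : ℝ := Real.smoothTransition ((a - s) / (3 * a / 4))

lemma eta_contDiff (a : ℝ) : ContDiff ℝ (⊤ : ℕ∞) (eta a) := by
  unfold eta
  exact Real.smoothTransition.contDiff.comp (by fun_prop)

lemma eta_nonneg (a s : ℝ) : 0 ≤ eta a s := Real.smoothTransition.nonneg _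

lemma eta_le_one (a s : ℝ) : eta a s ≤ 1 := Real.smoothTransition.le_one _

lemma eta_one {a s : ℝ} (ha : 0 < a) (hs : s ≤ a / 4) : eta a s = 1 := by
  unfold eta
  apply Real.smoothTransition.one_of_one_le
  rw [le_div_iff₀ (by positivity)]
  linarith

lemma eta_zero {a s : ℝ} (ha : 0 < a) (hs : a ≤ s) : eta a s = 0 := by
  unfold eta
  apply Real.smoothTransition.zero_of_nonpos
  exact div_nonpos_of_nonpos_of_nonneg (by linarith) (by positivity)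

/-- first derivative of `eta` -/
def eta1 (a : ℝ) : ℝ → ℝ := deriv (eta a)

/-- second derivative of `eta` -/
def eta2 (a : ℝ) : ℝ → ℝ := deriv (eta1 a)

lemma eta1_contDiff (a : ℝ) : ContDiff ℝ (⊤ : ℕ∞) (eta1 a) :=
  (contDiff_infty_iff_deriv.1 (eta_contDiff a)).2

lemma eta2_contDiff (a : ℝ) : ContDiff ℝ (⊤ : ℕ∞) (eta2 a) :=
  (contDiff_infty_iff_deriv.1 (eta1_contDiff a)).2

lemma eta_hasDerivAt (a s : ℝ) : HasDerivAt (eta a) (eta1 a s) s :=
  ((eta_contDiff a).differentiable (by simp) s).hasDerivAt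

lemma eta1_hasDerivAt (a s : ℝ) : HasDerivAt (eta1 a) (eta2 a s) s :=
  ((eta1_contDiff a).differentiable (by simp) s).hasDerivAt

lemma eta1_zero_of_lt {a s : ℝ} (ha : 0 < a) (hs : s < a / 4) : eta1 a s = 0 := by
  have h : eta a =ᶠ[𝓝 s] fun _ => 1 := by
    filter_upwards [Iio_mem_nhds hs] with t ht using eta_one ha (le_of_lt ht)
  rw [eta1, h.deriv_eq, deriv_const]

lemma eta1_zero_of_gt {a s : ℝ} (ha : 0 < a) (hs : a < s) : eta1 a s = 0 := by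
  have h : eta a =ᶠ[𝓝 s] fun _ => 0 := by
    filter_upwards [Ioi_mem_nhds hs] with t ht using eta_zero ha (le_of_lt ht)
  rw [eta1, h.deriv_eq, deriv_const]

lemma eta2_zero_of_lt {a s : ℝ} (ha : 0 < a) (hs : s < a / 4) : eta2 a s = 0 := by
  have h : eta1 a =ᶠ[𝓝 s] fun _ => 0 := by
    filter_upwards [Iio_mem_nhds hs] with t ht using eta1_zero_of_lt ha ht
  rw [eta2, h.deriv_eq, deriv_const]

lemma eta2_zero_of_gt {a s : ℝ} (ha : 0 < a) (hs : a < s) : eta2 a s = 0 := by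
  have h : eta1 a =ᶠ[𝓝 s] fun _ => 0 := by
    filter_upwards [Ioi_mem_nhds hs] with t ht using eta1_zero_of_gt ha ht
  rw [eta2, h.deriv_eq, deriv_const]

/-- the cut-off logarithm -/
def X (a δ s : ℝ) : ℝ := eta a s * Real.log (s + δ)

/-- its first derivative -/
def X1 (a δ s : ℝ) : ℝ := eta1 a s * Real.log (s + δ) + eta a s * (s + δ)⁻¹

/-- its second derivative -/
def X2 (a δ s : ℝ) : ℝ :=
  (eta2 a s * Real.log (s + δ) + eta1 a s * (s + δ)⁻¹) +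
    (eta1 a s * (s + δ)⁻¹ + eta a s * (-((s + δ) ^ 2)⁻¹))

lemma hasDerivAt_log_add {δ s : ℝ} (h : 0 < s + δ) :
    HasDerivAt (fun s : ℝ => Real.log (s + δ)) (s + δ)⁻¹ s := by
  have h0 : HasDerivAt (fun t : ℝ => t + δ) 1 s := (hasDerivAt_id' s).add_const δ
  have h5 := h0.log h.ne'
  simpa [one_div] using h5

lemma hasDerivAt_inv_add {δ s : ℝ} (h : 0 < s + δ) :
    HasDerivAt (fun s : ℝ => (s + δ)⁻¹) (-((s + δ) ^ 2)⁻¹) s := by
  have h2 : HasDerivAt (fun t : ℝ => t + δ) 1 s := (hasDerivAt_id' _).add_const δ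
  have h5 := h2.inv h.ne'
  have h6 : -(1 : ℝ) / (s + δ) ^ 2 = -((s + δ) ^ 2)⁻¹ := by rw [neg_div, one_div]
  rw [h6] at h5
  exact h5

lemma X_hasDerivAt {a δ s : ℝ} (h : 0 < s + δ) : HasDerivAt (X a δ) (X1 a δ s) s :=
  (eta_hasDerivAt a s).mul (hasDerivAt_log_add h)

lemma X1_hasDerivAt {a δ s : ℝ} (h : 0 < s + δ) : HasDerivAt (X1 a δ) (X2 a δ s) s :=
  ((eta1_hasDerivAt a s).mul (hasDerivAt_log_add h)).add
    ((eta_hasDerivAt a s).mul (hasDerivAt_inv_add h))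

lemma contDiffAt_log_add {δ s : ℝ} (h : 0 < s + δ) :
    ContDiffAt ℝ (⊤ : ℕ∞) (fun s : ℝ => Real.log (s + δ)) s :=
  (contDiffAt_id.add contDiffAt_const).log h.ne'

lemma contDiffAt_inv_add {δ s : ℝ} (h : 0 < s + δ) :
    ContDiffAt ℝ (⊤ : ℕ∞) (fun s : ℝ => (s + δ)⁻¹) s :=
  (contDiffAt_id.add contDiffAt_const).inv h.ne'

lemma X_contDiffAt {a δ s : ℝ} (h : 0 < s + δ) : ContDiffAt ℝ (⊤ : ℕ∞) (X a δ) s :=
  (eta_contDiff a).contDiffAt.mul (contDiffAt_log_add h)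

lemma X1_contDiffAt {a δ s : ℝ} (h : 0 < s + δ) : ContDiffAt ℝ (⊤ : ℕ∞) (X1 a δ) s :=
  ((eta1_contDiff a).contDiffAt.mul (contDiffAt_log_add h)).add
    ((eta_contDiff a).contDiffAt.mul (contDiffAt_inv_add h))

/-- uniform lower bounds of the curvature terms -/
lemma X_bounds {a : ℝ} (ha : 0 < a) : ∃ C : ℝ, 0 < C ∧ ∀ δ s : ℝ, 0 < δ → δ ≤ 1 → 0 ≤ s →
    -C ≤ X1 a δ s ∧ -C ≤ X1 a δ s + s * X2 a δ s := by
  -- bound on the compact region
  have hK : IsCompact (Icc (a / 4) a ×ˢ Icc (0 : ℝ) 1) := isCompact_Icc.prod isCompact_Icc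
  have hpos : ∀ p ∈ Icc (a / 4) a ×ˢ Icc (0 : ℝ) 1, 0 < p.1 + p.2 := by
    rintro ⟨s, δ⟩ ⟨hs, hδ⟩
    have h1 : a / 4 ≤ s := hs.1
    have h2 : 0 ≤ δ := hδ.1
    show 0 < s + δ
    linarith
  have hlog : ContinuousOn (fun p : ℝ × ℝ => Real.log (p.1 + p.2))
      (Icc (a / 4) a ×ˢ Icc (0 : ℝ) 1) :=
    ContinuousOn.log (by fun_prop) fun p hp => (hpos p hp).ne'
  have hinv : ContinuousOn (fun p : ℝ × ℝ => (p.1 + p.2)⁻¹)
      (Icc (a / 4) a ×ˢ Icc (0 : ℝ) 1) :=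
    ContinuousOn.inv₀ (by fun_prop) fun p hp => (hpos p hp).ne'
  have hinv2 : ContinuousOn (fun p : ℝ × ℝ => -((p.1 + p.2) ^ 2)⁻¹)
      (Icc (a / 4) a ×ˢ Icc (0 : ℝ) 1) :=
    (ContinuousOn.inv₀ (by fun_prop) fun p hp => (pow_pos (hpos p hp) 2).ne').neg
  have he : Continuous (fun p : ℝ × ℝ => eta a p.1) :=
    (eta_contDiff a).continuous.comp continuous_fst
  have he1 : Continuous (fun p : ℝ × ℝ => eta1 a p.1) :=
    (eta1_contDiff a).continuous.comp continuous_fst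
  have he2 : Continuous (fun p : ℝ × ℝ => eta2 a p.1) :=
    (eta2_contDiff a).continuous.comp continuous_fst
  have hX1 : ContinuousOn (fun p : ℝ × ℝ => X1 a p.2 p.1) (Icc (a / 4) a ×ˢ Icc (0 : ℝ) 1) :=
    (he1.continuousOn.mul hlog).add (he.continuousOn.mul hinv)
  have hX2 : ContinuousOn (fun p : ℝ × ℝ => X2 a p.2 p.1) (Icc (a / 4) a ×ˢ Icc (0 : ℝ) 1) :=
    ((he2.continuousOn.mul hlog).add (he1.continuousOn.mul hinv)).add
      ((he1.continuousOn.mul hinv).add (he.continuousOn.mul hinv2))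
  obtain ⟨C1, hC1⟩ := hK.exists_bound_of_continuousOn hX1
  obtain ⟨C2, hC2⟩ := hK.exists_bound_of_continuousOn
    (hX1.add (continuous_fst.continuousOn.mul hX2))
  refine ⟨max 1 (max C1 C2), lt_max_of_lt_left one_pos, fun δ s hδ hδ1 hs => ?_⟩
  have hsd : 0 < s + δ := by linarith
  have hC0 : (0 : ℝ) ≤ max 1 (max C1 C2) := le_trans zero_le_one (le_max_left _ _)
  rcases lt_or_ge s (a / 4) with h1 | h1
  · -- near the pole
    have e0 : eta a s = 1 := eta_one ha h1.le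
    have e1 : eta1 a s = 0 := eta1_zero_of_lt ha h1
    have e2 : eta2 a s = 0 := eta2_zero_of_lt ha h1
    have hx1 : X1 a δ s = (s + δ)⁻¹ := by simp [X1, e0, e1]
    have hx2 : X2 a δ s = -((s + δ) ^ 2)⁻¹ := by simp [X2, e0, e1, e2]
    rw [hx1, hx2]
    have h3 : 0 < (s + δ)⁻¹ := inv_pos.2 hsd
    have h4 : (s + δ)⁻¹ + s * -((s + δ) ^ 2)⁻¹ = δ / (s + δ) ^ 2 := by field_simp; ring
    rw [h4]
    have h5 : 0 ≤ δ / (s + δ) ^ 2 := by positivity
    constructor <;> linarith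
  · rcases le_or_gt s a with h2 | h2
    · have hm : (s, δ) ∈ Icc (a / 4) a ×ˢ Icc (0 : ℝ) 1 := ⟨⟨h1, h2⟩, ⟨hδ.le, hδ1⟩⟩
      have h3 := hC1 _ hm
      have h4 := hC2 _ hm
      simp only [Pi.add_apply, Pi.mul_apply, Real.norm_eq_abs] at h3 h4
      have h5 := (abs_le.1 h3).1
      have h6 := (abs_le.1 h4).1
      have h7 : C1 ≤ max 1 (max C1 C2) := le_trans (le_max_left _ _) (le_max_right _ _)
      have h8 : C2 ≤ max 1 (max C1 C2) := le_trans (le_max_right _ _) (le_max_right _ _)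
      constructor <;> linarith
    · have e0 : eta a s = 0 := eta_zero ha h2.le
      have e1 : eta1 a s = 0 := eta1_zero_of_gt ha h2
      have e2 : eta2 a s = 0 := eta2_zero_of_gt ha h2
      have hx1 : X1 a δ s = 0 := by simp [X1, e0, e1]
      have hx2 : X2 a δ s = 0 := by simp [X2, e0, e1, e2]
      rw [hx1, hx2]
      constructor <;> simp

lemma X_nonpos {a δ s : ℝ} (ha : 0 < a) (ha1 : a ≤ 1 / 2) (hδ : 0 < δ) (hδ1 : δ ≤ 1 / 2)
    (hs : 0 ≤ s) : X a δ s ≤ 0 := by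
  unfold X
  rcases le_or_gt a s with h | h
  · rw [eta_zero ha h]; simp
  · exact mul_nonpos_of_nonneg_of_nonpos (eta_nonneg _ _)
      (Real.log_nonpos (by linarith) (by linarith))

lemma X_mono {a δ δ' s : ℝ} (hδ : 0 < δ) (h : δ ≤ δ') (hs : 0 ≤ s) : X a δ s ≤ X a δ' s := by
  unfold X
  exact mul_le_mul_of_nonneg_left (Real.log_le_log (by linarith) (by linarith)) (eta_nonneg _ _)

lemma X_ge {a δ s b : ℝ} (hb : 0 < b) (hb1 : b ≤ 1) (hδ : 0 < δ)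
    (hs : b ≤ s) : Real.log b ≤ X a δ s := by
  unfold X
  have h1 : Real.log b ≤ 0 := Real.log_nonpos hb.le hb1
  have h2 : Real.log b ≤ Real.log (s + δ) := Real.log_le_log hb (by linarith)
  have h3 := eta_nonneg a s
  have h4 := eta_le_one a s
  rcases le_or_gt 0 (Real.log (s + δ)) with h5 | h5
  · exact h1.trans (mul_nonneg h3 h5)
  · nlinarith

lemma X_near {a δ s : ℝ} (ha : 0 < a) (hs : s ≤ a / 4) : X a δ s = Real.log (s + δ) := by
  unfold X; rw [eta_one ha hs, one_mul]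

lemma X_far {a δ s : ℝ} (ha : 0 < a) (hs : a ≤ s) : X a δ s = 0 := by
  unfold X; rw [eta_zero ha hs, zero_mul]

/-! ### on a Riemann domain -/

variable {n : ℕ} {M : Type*} [TopologicalSpace M] [RDom n M]

lemma sm_X {Q : M → ℝ} (hQ : Sm Q) (h0 : ∀ x, 0 ≤ Q x) (a : ℝ) {δ : ℝ} (hδ : 0 < δ) :
    Sm (fun x => X a δ (Q x)) :=
  Sm.comp_at (g := X a δ) hQ fun x => X_contDiffAt (by linarith [h0 x])

lemma sm_X1 {Q : M → ℝ} (hQ : Sm Q) (h0 : ∀ x, 0 ≤ Q x) (a : ℝ) {δ : ℝ} (hδ : 0 < δ) :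
    Sm (fun x => X1 a δ (Q x)) :=
  Sm.comp_at (g := X1 a δ) hQ fun x => X1_contDiffAt (by linarith [h0 x])

lemma lev_X {Q : M → ℝ} (hQ : Sm Q) (h0 : ∀ x, 0 ≤ Q x) (a : ℝ) {δ : ℝ} (hδ : 0 < δ) (x : M)
    (w : Fin n → ℂ) : lev (fun x => X a δ (Q x)) x w =
      X2 a δ (Q x) * dsq Q x w + X1 a δ (Q x) * lev Q x w := by
  refine lev_comp (g := X a δ) (g' := X1 a δ) hQ x ?_ (X1_hasDerivAt (by linarith [h0 x])) w
    (sm_X1 hQ h0 a hδ)
  have h1 : -δ < Q x := by linarith [h0 x]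
  filter_upwards [Ioi_mem_nhds h1] with t ht
  exact X_hasDerivAt (by linarith [mem_Ioi.1 ht])

lemma lev_X_ge {a C δ : ℝ} (hC : 0 ≤ C)
    (hb : ∀ s : ℝ, 0 ≤ s → -C ≤ X1 a δ s ∧ -C ≤ X1 a δ s + s * X2 a δ s) (hδ : 0 < δ)
    {Q : M → ℝ} (hQ : Sm Q) (h0 : ∀ x, 0 ≤ Q x) {x : M} {w : Fin n → ℂ}
    (hlev : 0 ≤ lev Q x w) (hd : dsq Q x w ≤ Q x * lev Q x w) :
    -C * lev Q x w ≤ lev (fun x => X a δ (Q x)) x w := by
  rw [lev_X hQ h0 a hδ]
  obtain ⟨h1, h2⟩ := hb (Q x) (h0 x)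
  have h3 := dsq_nonneg Q x w
  rcases le_or_gt 0 (X2 a δ (Q x)) with h4 | h4
  · nlinarith [mul_nonneg h4 h3]
  · have h5 : X2 a δ (Q x) * (Q x * lev Q x w) ≤ X2 a δ (Q x) * dsq Q x w :=
      mul_le_mul_of_nonpos_left hd h4.le
    nlinarith

lemma lev_X_far {a δ : ℝ} (ha : 0 < a) (hδ : 0 < δ)
    {Q : M → ℝ} (hQ : Sm Q) (h0 : ∀ x, 0 ≤ Q x) {x : M} (hx : a < Q x) (w : Fin n → ℂ) :
    lev (fun x => X a δ (Q x)) x w = 0 := by
  rw [lev_X hQ h0 a hδ]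
  have e0 : eta a (Q x) = 0 := eta_zero ha hx.le
  have e1 : eta1 a (Q x) = 0 := eta1_zero_of_gt ha hx
  have e2 : eta2 a (Q x) = 0 := eta2_zero_of_gt ha hx
  simp [X1, X2, e0, e1, e2]

/-! ### local versions of the Levi form of `∑ |f_j|²` -/

/-- `f` is holomorphic near `x` -/
def HolAt (f : M → ℂ) (x : M) : Prop :=
  ∀ᶠ y in 𝓝 x, ∀ w : Fin n → ℂ, D f y (I • w) = I * D f y w

lemma D2_I' {f : M → ℂ} (hs : Sm f) {x : M} (hf : HolAt f x) (w : Fin n → ℂ) :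
    D (fun y => D f y (I • w)) x (I • w) = - D (fun y => D f y w) x w := by
  have h1 : (fun y => D f y (I • w)) =ᶠ[𝓝 x] fun y => I * D f y w := by
    filter_upwards [hf] with y hy using hy w
  rw [D_congr h1, D_const_mulC (hs.D.apply w)]
  rw [D_D_comm hs x w (I • w), D_congr h1, D_const_mulC (hs.D.apply w), ← mul_assoc, I_mul_I]
  ring

lemma lev_normSq' {f : M → ℂ} (hS : Sm f) {x : M} (hf : HolAt f x) (w : Fin n → ℂ) :
    lev (fun x => ‖f x‖ ^ 2) x w = ‖D f x w‖ ^ 2 := by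
  have h : ∀ v : Fin n → ℂ, D (fun y => D (fun x => ‖f x‖ ^ 2) y v) x v =
      2 * ((D (fun y => D f y v) x v * (starRingEnd ℂ) (f x)).re + ‖D f x v‖ ^ 2) := by
    intro v
    have h1 : (fun y => D (fun x => ‖f x‖ ^ 2) y v) =
        fun y => 2 * (D f y v * (starRingEnd ℂ) (f y)).re := by
      funext y; exact D_normSq hS y v
    have hs : Sm (fun y => D f y v * (starRingEnd ℂ) (f y)) := (hS.D.apply v).mul hS.conj
    have hs' : Sm (fun y => (D f y v * (starRingEnd ℂ) (f y)).re) := hs.clm Complex.reCLM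
    have h3 := D_smul (Sm.const (M := M) (2 : ℝ)) hs' x v
    simp only [smul_eq_mul] at h3
    rw [h1, h3, D_const, D_re hs, D_mul (hS.D.apply v) hS.conj, Crest.Agent.R271.W792.D_conj hS]
    have h4 : D f x v * (starRingEnd ℂ) (D f x v) = ((‖D f x v‖ ^ 2 : ℝ) : ℂ) := by
      rw [Complex.mul_conj, Complex.normSq_eq_norm_sq]
    rw [h4, Complex.add_re, Complex.ofReal_re]
    simp
  unfold lev
  have hcl := hf.self_of_nhds w
  rw [h, h, D2_I' hS hf, hcl]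
  have h5 : ‖I * D f x w‖ = ‖D f x w‖ := by simp
  rw [h5]
  have h6 : (-(D (fun y => D f y w) x w) * (starRingEnd ℂ) (f x)).re =
      -((D (fun y => D f y w) x w) * (starRingEnd ℂ) (f x)).re := by
    rw [neg_mul, Complex.neg_re]
  rw [h6]; ring

lemma lev_nS' {ι : Type*} [Fintype ι] {f : ι → M → ℂ} (hs : ∀ j, Sm (f j)) {x : M}
    (hf : ∀ j, HolAt (f j) x) (w : Fin n → ℂ) : lev (nS f) x w = nT f x w := by
  unfold nS nT
  rw [lev_sum _ (fun j _ => Hol.sm_normSq (hs j))]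
  exact Finset.sum_congr rfl fun j _ => lev_normSq' (hs j) (hf j) w

lemma dsq_nS' {ι : Type*} [Fintype ι] {f : ι → M → ℂ} (hs : ∀ j, Sm (f j)) {x : M}
    (hf : ∀ j, HolAt (f j) x) (w : Fin n → ℂ) : dsq (nS f) x w = ‖nA f x w‖ ^ 2 := by
  unfold dsq
  rw [D_nS hs, D_nS hs]
  have h1 : nA f x (I • w) = I * nA f x w := by
    unfold nA
    rw [Finset.mul_sum]
    refine Finset.sum_congr rfl fun j _ => ?_
    rw [(hf j).self_of_nhds w]; ring
  rw [h1]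
  have h2 : ‖nA f x w‖ ^ 2 = (nA f x w).re ^ 2 + (nA f x w).im ^ 2 := by
    rw [← Complex.normSq_eq_norm_sq, Complex.normSq_apply]; ring
  rw [h2]
  simp only [Complex.mul_re, Complex.I_re, Complex.I_im]
  ring

lemma dsq_nS_le {ι : Type*} [Fintype ι] {f : ι → M → ℂ} (hs : ∀ j, Sm (f j)) {x : M}
    (hf : ∀ j, HolAt (f j) x) (w : Fin n → ℂ) : dsq (nS f) x w ≤ nS f x * nT f x w := by
  rw [dsq_nS' hs hf]; exact nA_le f x w

end Crest.Agent.R276.CntLowA_804
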