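import Crest.Agent.R276.CntLowA_804
import Crest.Agent.R271.Engine_51

/-!
# Row 276, COUNT-LOW, part B: Hörmander with many cut-off logarithmic poles (helper804)
-/

set_option autoImplicit false
set_option linter.unusedSectionVars false

noncomputable section

open Set Filter Topology Complex MeasureTheory

namespace Crest.Agent.R276.CntLowB_804

open Crest.Agent.R271.Ho51 Crest.Agent.R271.W792 Crest.Agent.R276.CntLowA_804
open Crest.Agent.R271

/-- the regularisation parameters -/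
def dl (k : ℕ) : ℝ := 1 / ((k : ℝ) + 2)

lemma dl_pos (k : ℕ) : 0 < dl k := by unfold dl; positivity

lemma dl_le (k : ℕ) : dl k ≤ 1 / 2 := by
  unfold dl
  apply one_div_le_one_div_of_le (by norm_num)
  have : (0 : ℝ) ≤ k := by positivity
  linarith

lemma dl_anti {k l : ℕ} (h : k ≤ l) : dl l ≤ dl k := by
  unfold dl
  apply one_div_le_one_div_of_le (by positivity)
  have : (k : ℝ) ≤ l := by exact_mod_cast h
  linarith

lemma dl_tendsto : Tendsto dl atTop (𝓝 0) := by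
  unfold dl
  have h1 : Tendsto (fun k : ℕ => (k : ℝ) + 2) atTop atTop :=
    tendsto_atTop_add_const_right _ _ tendsto_natCast_atTop_atTop
  have h2 := tendsto_inv_atTop_zero.comp h1
  refine h2.congr fun k => ?_
  simp

variable {n : ℕ} {M : Type} [TopologicalSpace M] [RDom n M]

/-- the pole part of the weight -/
def Pw {J : Type} [Fintype J] (a : ℝ) (Q : J → M → ℝ) (k : ℕ) (x : M) : ℝ :=
  ∑ j, X a (dl k) (Q j x)

variable {J : Type} [Fintype J] {a : ℝ} {Q : J → M → ℝ}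

lemma sm_Pw (hQ : ∀ j, Sm (Q j)) (hQ0 : ∀ j x, 0 ≤ Q j x) (k : ℕ) : Sm (Pw a Q k) := by
  unfold Pw
  exact Sm.sum fun j _ => sm_X (hQ j) (hQ0 j) a (dl_pos k)

omit [TopologicalSpace M] [RDom n M] in
lemma Pw_anti (hQ0 : ∀ j x, 0 ≤ Q j x) (x : M) : Antitone (fun k => Pw a Q k x) := by
  intro k l hkl
  unfold Pw
  exact Finset.sum_le_sum fun j _ => X_mono (dl_pos l) (dl_anti hkl) (hQ0 j x)

omit [TopologicalSpace M] [RDom n M] in
lemma Pw_nonpos (ha : 0 < a) (ha1 : a ≤ 1 / 2) (hQ0 : ∀ j x, 0 ≤ Q j x) (k : ℕ) (x : M) :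
    Pw a Q k x ≤ 0 :=
  Finset.sum_nonpos fun j _ => X_nonpos ha ha1 (dl_pos k) (dl_le k) (hQ0 j x)

omit [TopologicalSpace M] [RDom n M] in
lemma Pw_ge {b : ℝ} (hb : 0 < b) (hb1 : b ≤ 1) (k : ℕ) {x : M} (hx : ∀ j, b ≤ Q j x) :
    (Fintype.card J : ℝ) * Real.log b ≤ Pw a Q k x := by
  unfold Pw
  have h : ∑ _j : J, Real.log b ≤ ∑ j, X a (dl k) (Q j x) :=
    Finset.sum_le_sum fun j _ => X_ge hb hb1 (dl_pos k) (hx j)
  simpa using h

omit [TopologicalSpace M] [RDom n M] in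
lemma Pw_near (ha : 0 < a) (hdis : ∀ i j x, Q i x ≤ a → Q j x ≤ a → i = j) (k : ℕ) {x : M}
    {j : J} (hx : Q j x ≤ a / 4) : Pw a Q k x = Real.log (Q j x + dl k) := by
  unfold Pw
  rw [Finset.sum_eq_single j, X_near ha hx]
  · intro i _ hij
    apply X_far ha
    by_contra hcon
    exact hij (hdis i j x (not_le.1 hcon).le (by linarith))
  · intro h; exact absurd (Finset.mem_univ j) h

/-- curvature of the pole part -/
lemma lev_Pw (ha : 0 < a) (hQ : ∀ j, Sm (Q j)) (hQ0 : ∀ j x, 0 ≤ Q j x)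
    {B : Set M} {q : M → (Fin n → ℂ) → ℝ} (hq : ∀ x ∈ B, ∀ w, 0 ≤ q x w)
    (hQl : ∀ j, ∀ x ∈ B, ∀ w, lev (Q j) x w = q x w)
    (hQd : ∀ j, ∀ x ∈ B, ∀ w, dsq (Q j) x w ≤ Q j x * q x w)
    (hQB : ∀ j, ∀ x, x ∉ B → a < Q j x)
    (hdis : ∀ i j x, Q i x ≤ a → Q j x ≤ a → i = j)
    {C : ℝ} (hC : 0 ≤ C)
    (hb : ∀ δ s : ℝ, 0 < δ → δ ≤ 1 → 0 ≤ s → -C ≤ X1 a δ s ∧ -C ≤ X1 a δ s + s * X2 a δ s)
    (k : ℕ) (x : M) (w : Fin n → ℂ) :
    (x ∈ B → -C * q x w ≤ lev (Pw a Q k) x w) ∧ (x ∉ B → lev (Pw a Q k) x w = 0) := by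
  have h1 : lev (Pw a Q k) x w = ∑ j, lev (fun x => X a (dl k) (Q j x)) x w := by
    unfold Pw
    exact lev_sum _ (fun j _ => sm_X (hQ j) (hQ0 j) a (dl_pos k)) x w
  have hb' : ∀ s : ℝ, 0 ≤ s → -C ≤ X1 a (dl k) s ∧ -C ≤ X1 a (dl k) s + s * X2 a (dl k) s :=
    fun s hs => hb _ _ (dl_pos k) ((dl_le k).trans (by norm_num)) hs
  constructor
  · intro hx
    rw [h1]
    by_cases h2 : ∃ j, Q j x ≤ a
    · obtain ⟨j, hj⟩ := h2
      rw [Finset.sum_eq_single j]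
      · have h3 := lev_X_ge hC hb' (dl_pos k) (hQ j) (hQ0 j) (x := x) (w := w)
          (by rw [hQl j x hx]; exact hq x hx w) (by rw [hQl j x hx]; exact hQd j x hx w)
        rwa [hQl j x hx] at h3
      · intro i _ hij
        apply lev_X_far ha (dl_pos k) (hQ i) (hQ0 i)
        by_contra hcon
        exact hij (hdis i j x (not_lt.1 hcon) hj)
      · intro h; exact absurd (Finset.mem_univ j) h
    · push Not at h2
      rw [Finset.sum_eq_zero fun j _ => lev_X_far ha (dl_pos k) (hQ j) (hQ0 j) (h2 j) w]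
      have := hq x hx w
      nlinarith
  · intro hx
    rw [h1]
    exact Finset.sum_eq_zero fun j _ => lev_X_far ha (dl_pos k) (hQ j) (hQ0 j) (hQB j x hx) w

variable [T2Space M] [SecondCountableTopology M] [MeasurableSpace M] [BorelSpace M]
  {μ : Measure M}

lemma cs_nsq (u w : Fin n → ℂ) : ‖∑ j, u j * (starRingEnd ℂ) (w j)‖ ^ 2 ≤ nsq u * nsq w := by
  have h1 : ‖∑ j, u j * (starRingEnd ℂ) (w j)‖ ≤ ∑ j, ‖u j‖ * ‖w j‖ := by
    refine (norm_sum_le _ _).trans (Finset.sum_le_sum fun j _ => ?_)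
    rw [norm_mul, RCLike.norm_conj]
  calc ‖∑ j, u j * (starRingEnd ℂ) (w j)‖ ^ 2 ≤ (∑ j, ‖u j‖ * ‖w j‖) ^ 2 := by gcongr
    _ ≤ (∑ j, ‖u j‖ ^ 2) * ∑ j, ‖w j‖ ^ 2 := Finset.sum_mul_sq_le_sq_mul_sq _ _ _
    _ = nsq u * nsq w := rfl

/-- **Hörmander with many poles** -/
theorem solve_poles (hμ : IsLeb μ) {ρ : M → ℝ} (hρ : Sm ρ)
    (hcpt : ∀ c, IsCompact {x | ρ x ≤ c}) (hL : ∀ x w, nsq w ≤ Levi ρ x w)
    {W : ℕ → M → ℝ} (hWs : ∀ k, Sm (W k)) (hWa : ∀ x, Antitone (fun k => W k x))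
    (hW0 : ∀ k x w, 0 ≤ Levi (W k) x w)
    (ha : 0 < a) (hQ : ∀ j, Sm (Q j)) (hQ0 : ∀ j x, 0 ≤ Q j x)
    {B : Set M} {q : M → (Fin n → ℂ) → ℝ} (hq : ∀ x ∈ B, ∀ w, nsq w ≤ q x w)
    (hQl : ∀ j, ∀ x ∈ B, ∀ w, lev (Q j) x w = q x w)
    (hQd : ∀ j, ∀ x ∈ B, ∀ w, dsq (Q j) x w ≤ Q j x * q x w)
    (hQB : ∀ j, ∀ x, x ∉ B → a < Q j x)
    (hdis : ∀ i j x, Q i x ≤ a → Q j x ≤ a → i = j)
    {C : ℝ} (hC : 0 ≤ C)
    (hb : ∀ δ s : ℝ, 0 < δ → δ ≤ 1 → 0 ≤ s → -C ≤ X1 a δ s ∧ -C ≤ X1 a δ s + s * X2 a δ s)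
    {p C1 : ℝ} (hp : 0 ≤ p) (hC1 : 0 < C1)
    (hWB : ∀ k, ∀ x ∈ B, ∀ w, (p * C + C1) * q x w ≤ Levi (W k) x w)
    {G : M → ℂ} (hG : Sm G) (hGc : HasCompactSupport G)
    (hGB : ∀ x, x ∉ B → ∀ j, db j G x = 0)
    {b : ℝ} (hb0 : 0 < b) (hb1 : b ≤ 1)
    (hGQ : ∀ x, (∃ i, db i G x ≠ 0) → ∀ j, b ≤ Q j x)
    {Wl : M → ℝ} (hWl : Continuous Wl) (hWl' : ∀ k, ∀ x ∈ tsupport G, Wl x ≤ W k x) :
    ∃ F : M → ℂ, Ho51.Hol F ∧ ∃ K : ENNReal, K < ⊤ ∧
      ∫⁻ x, ENNReal.ofReal (‖F x - G x‖ ^ 2) *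
        (⨆ k, ENNReal.ofReal (Real.exp (-(W k x + p * Pw a Q k x)))) ∂μ ≤ K := by
  have hLF := hμ.locallyFinite
  have hPs : ∀ k, Sm (fun x => p * Pw a Q k x) := fun k =>
    (Sm.const p).mulR (sm_Pw hQ hQ0 k)
  have hφs : ∀ k, Sm (fun x => W k x + p * Pw a Q k x) := fun k => (hWs k).add (hPs k)
  have hq0 : ∀ x ∈ B, ∀ w, 0 ≤ q x w := fun x hx w => (nsq_nonneg w).trans (hq x hx w)
  have hlev : ∀ k x w, Levi (fun x => W k x + p * Pw a Q k x) x w =
      Levi (W k) x w + p * lev (Pw a Q k) x w := by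
    intro k x w
    rw [Levi_add (hWs k) (hPs k), Levi_eq_lev (hPs k), lev_const_mul (sm_Pw hQ hQ0 k)]
  have hlevB : ∀ k, ∀ x ∈ B, ∀ w, C1 * q x w ≤ Levi (fun x => W k x + p * Pw a Q k x) x w := by
    intro k x hx w
    rw [hlev]
    have h1 := hWB k x hx w
    have h2 := (lev_Pw ha hQ hQ0 hq0 hQl hQd hQB hdis hC hb k x w).1 hx
    nlinarith [mul_le_mul_of_nonneg_left h2 hp]
  have hlevN : ∀ k x, x ∉ B → ∀ w, Levi (fun x => W k x + p * Pw a Q k x) x w =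
      Levi (W k) x w := by
    intro k x hx w
    rw [hlev, (lev_Pw ha hQ hQ0 hq0 hQl hQd hQB hdis hC hb k x w).2 hx]; ring
  -- the bound on the right hand side
  let α : M → (Fin n → ℂ) := fun x j => db j G x
  have hα : Continuous α := continuous_pi fun j => (hG.db j).continuous
  have hαn : Continuous (fun x => nsq (α x)) := by
    unfold nsq
    exact continuous_finsetSum _ fun j _ => ((continuous_apply j).comp hα).norm.pow 2
  have hα0 : ∀ x, x ∉ tsupport G → nsq (α x) = 0 := by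
    intro x hx
    have h1 : G =ᶠ[𝓝 x] fun _ => 0 := notMem_tsupport_iff_eventuallyEq.1 hx
    have h2 : ∀ j, db j G x = 0 := fun j => by rw [db_congr h1, db_const]
    simp [nsq, α, h2]
  set c0 : ℝ := p * (Fintype.card J * Real.log b) with hc0
  let h : M → ℝ := fun x => nsq (α x) / C1 * Real.exp (-(Wl x + c0))
  have hh : Continuous h := by
    have := hWl
    fun_prop
  have hhc : HasCompactSupport h := by
    refine HasCompactSupport.intro hGc fun x hx => ?_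
    simp [h, hα0 x hx]
  have hhi : Integrable h μ := hh.integrable_of_hasCompactSupport hhc
  have hK : ∫⁻ x, ENNReal.ofReal (h x) ∂μ < ⊤ := hhi.lintegral_lt_top
  obtain ⟨F, hF, hFK⟩ := engineP n M μ hμ ρ hρ hcpt hL
    (fun k x => W k x + p * Pw a Q k x) hφs
    (fun x => by
      intro k l hkl
      have h1 := hWa x hkl
      have h2 := Pw_anti (a := a) hQ0 x hkl
      simp only at h1 h2 ⊢
      nlinarith [mul_le_mul_of_nonneg_left h2 hp])
    (fun k x w => by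
      by_cases hx : x ∈ B
      · exact (mul_nonneg hC1.le (hq0 x hx w)).trans (hlevB k x hx w)
      · rw [hlevN k x hx]; exact hW0 k x w)
    G hG (fun _ x => nsq (α x) / C1)
    (fun k x w => by
      by_cases hx : x ∈ B
      · refine (cs_nsq (α x) w).trans ?_
        have h1 := hlevB k x hx w
        have h2 := hq x hx w
        have h3 := nsq_nonneg (α x)
        have h4 : nsq w ≤ Levi (fun x => W k x + p * Pw a Q k x) x w / C1 := by
          rw [le_div_iff₀ hC1]; nlinarith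
        calc nsq (α x) * nsq w
            ≤ nsq (α x) * (Levi (fun x => W k x + p * Pw a Q k x) x w / C1) := by gcongr
          _ = _ := by ring
      · have h1 : ∀ j, db j G x = 0 := hGB x hx
        have h2 : 0 ≤ Levi (fun x => W k x + p * Pw a Q k x) x w := by
          rw [hlevN k x hx]; exact hW0 k x w
        simp only [h1, zero_mul, Finset.sum_const_zero, norm_zero]
        have h3 := nsq_nonneg (α x)
        have h4 : 0 ≤ nsq (α x) / C1 := div_nonneg h3 hC1.le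
        simpa using mul_nonneg h4 h2)
    (∫⁻ x, ENNReal.ofReal (h x) ∂μ)
    (fun k => by
      refine lintegral_mono fun x => ENNReal.ofReal_le_ofReal ?_
      by_cases hx : ∃ i, db i G x ≠ 0
      · have h1 := hGQ x hx
        have h2 := Pw_ge (a := a) hb0 hb1 k h1
        have h3 : x ∈ tsupport G := by
          by_contra hcon
          obtain ⟨i, hi⟩ := hx
          have h4 : G =ᶠ[𝓝 x] fun _ => 0 := notMem_tsupport_iff_eventuallyEq.1 hcon
          exact hi (by rw [db_congr h4, db_const])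
        have h4 := hWl' k x h3
        have h5 := mul_le_mul_of_nonneg_left h2 hp
        have h6 := nsq_nonneg (α x)
        show nsq (α x) / C1 * Real.exp (-(W k x + p * Pw a Q k x)) ≤
          nsq (α x) / C1 * Real.exp (-(Wl x + c0))
        gcongr
      · push Not at hx
        have h1 : nsq (α x) = 0 := by simp [nsq, α, hx]
        show nsq (α x) / C1 * Real.exp (-(W k x + p * Pw a Q k x)) ≤
          nsq (α x) / C1 * Real.exp (-(Wl x + c0))
        simp [h1])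
  exact ⟨F, hF, 2 * ∫⁻ x, ENNReal.ofReal (h x) ∂μ, ENNReal.mul_lt_top (by norm_num) hK, hFK⟩

end Crest.Agent.R276.CntLowB_804
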