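import Crest.Agent.R271.RExt1_747
import Crest.Agent.R271.H3_51

/-!
# Row 276, COUNT-LOW, part C: vanishing order from `L²` decay, independence of jets (helper804)
-/

set_option autoImplicit false
set_option linter.unusedSectionVars false

noncomputable section

open Set Filter Topology Complex MeasureTheory Metric

namespace Crest.Agent.R276.CntLowC_804

variable {n : ℕ}

/-- decay of the `L²` norm on small balls gives pointwise decay -/
theorem order_of_decay {f : (Fin n → ℂ) → ℂ} {z0 : Fin n → ℂ} {R : ℝ}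
    (hf : DifferentiableOn ℂ f (ball z0 R)) {p : ℕ} (hp : n < p) {A R' : ℝ} (hA : 0 ≤ A)
    (hR' : 0 < R') (hRR : R' ≤ R) {K : ENNReal} (hK : K < ⊤)
    (h : ∀ s : ℝ, 0 < s → s < R' → ∫⁻ y in closedBall z0 s, ‖f y‖ₑ ^ 2 ≤
      K * ENNReal.ofReal ((A * s ^ 2) ^ p)) :
    ∃ C : ℝ, ∀ᶠ z in 𝓝 z0, ‖f z‖ ≤ C * ‖z - z0‖ ^ (p - n) := by
  set v : ENNReal := volume (ball (0 : Fin n → ℂ) 1) with hv
  have hv0 : v ≠ 0 := (measure_ball_pos volume _ one_pos).ne'
  have hvt : v ≠ ⊤ := measure_ball_lt_top.ne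
  have hv' : 0 < v.toReal := ENNReal.toReal_pos hv0 hvt
  set C : ℝ := Real.sqrt (K.toReal * (4 * A) ^ p / v.toReal) with hC
  -- the main estimate
  have main : ∀ z : Fin n → ℂ, ∀ s : ℝ, 0 < s → s < R' / 2 → ‖z - z0‖ ≤ s →
      ‖f z‖ ≤ C * s ^ (p - n) := by
    intro z s hs0 hs2 hzs
    have hsub : closedBall z s ⊆ closedBall z0 (2 * s) := by
      apply closedBall_subset_closedBall'
      rw [dist_eq_norm]; linarith
    have hsub2 : closedBall z s ⊆ ball z0 R := by
      refine hsub.trans (closedBall_subset_ball (by linarith))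
    have h1 := Crest.Agent.R271.RExt747.submean isOpen_ball hf hsub2
    have h2 : ∫⁻ y in closedBall z s, ‖f y‖ₑ ^ 2 ≤ K * ENNReal.ofReal ((A * (2 * s) ^ 2) ^ p) :=
      (lintegral_mono_set hsub).trans (h (2 * s) (by linarith) (by linarith))
    have h3 : volume (closedBall z s) = ENNReal.ofReal (s ^ (2 * n)) * v := by
      have := Measure.addHaar_closedBall (volume : Measure (Fin n → ℂ)) z hs0.le
      have hfr : Module.finrank ℝ (Fin n → ℂ) = 2 * n := by
        rw [Module.finrank_pi_fintype]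
        simp [Complex.finrank_real_complex, mul_comm]
      rw [hfr] at this
      exact this
    rw [h3] at h1
    have h4 := h1.trans h2
    -- to real numbers
    have h5 : s ^ (2 * n) * v.toReal * ‖f z‖ ^ 2 ≤ K.toReal * (A * (2 * s) ^ 2) ^ p := by
      have h6 := ENNReal.toReal_mono (ENNReal.mul_lt_top hK ENNReal.ofReal_lt_top).ne h4
      rw [ENNReal.toReal_mul, ENNReal.toReal_mul, ENNReal.toReal_mul, ENNReal.toReal_pow,
        ENNReal.toReal_ofReal (by positivity), ENNReal.toReal_ofReal (by positivity)] at h6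
      simpa using h6
    have h6 : (A * (2 * s) ^ 2) ^ p = (4 * A) ^ p * (s ^ (2 * n) * (s ^ (p - n)) ^ 2) := by
      have e1 : A * (2 * s) ^ 2 = 4 * A * s ^ 2 := by ring
      have e2 : s ^ (2 * n) * (s ^ (p - n)) ^ 2 = (s ^ 2) ^ p := by
        rw [← pow_mul, ← pow_add, ← pow_mul]
        congr 1
        omega
      rw [e1, mul_pow, e2]
    rw [h6] at h5
    have hsn : 0 < s ^ (2 * n) := by positivity
    have h7 : v.toReal * ‖f z‖ ^ 2 ≤ K.toReal * (4 * A) ^ p * (s ^ (p - n)) ^ 2 := by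
      have h8 : s ^ (2 * n) * (v.toReal * ‖f z‖ ^ 2) ≤
          s ^ (2 * n) * (K.toReal * (4 * A) ^ p * (s ^ (p - n)) ^ 2) := by
        calc s ^ (2 * n) * (v.toReal * ‖f z‖ ^ 2) = s ^ (2 * n) * v.toReal * ‖f z‖ ^ 2 := by ring
          _ ≤ _ := h5
          _ = _ := by ring
      exact le_of_mul_le_mul_left h8 hsn
    have h8 : ‖f z‖ ^ 2 ≤ (K.toReal * (4 * A) ^ p / v.toReal) * (s ^ (p - n)) ^ 2 := by
      rw [div_mul_eq_mul_div, le_div_iff₀ hv']
      linarith
    have h9 : ‖f z‖ ≤ Real.sqrt ((K.toReal * (4 * A) ^ p / v.toReal) * (s ^ (p - n)) ^ 2) :=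
      Real.le_sqrt_of_sq_le h8
    rwa [Real.sqrt_mul (by positivity), Real.sqrt_sq (by positivity)] at h9
  refine ⟨C, ?_⟩
  have hb : ball z0 (R' / 2) ∈ 𝓝 z0 := ball_mem_nhds _ (by positivity)
  filter_upwards [hb] with z hz
  by_cases hne : z = z0
  · subst hne
    have hpn : p - n ≠ 0 := by omega
    rw [sub_self, norm_zero, zero_pow hpn, mul_zero]
    have hlim : Tendsto (fun s : ℝ => C * s ^ (p - n)) (𝓝[>] 0) (𝓝 0) := by
      have h3 : Tendsto (fun s : ℝ => C * s ^ (p - n)) (𝓝 0) (𝓝 (C * 0 ^ (p - n))) := by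
        apply Continuous.tendsto
        fun_prop
      rw [zero_pow hpn, mul_zero] at h3
      exact h3.mono_left nhdsWithin_le_nhds
    refine ge_of_tendsto hlim ?_
    have h4 : ∀ᶠ s in 𝓝[>] (0 : ℝ), s < R' / 2 :=
      (Ioo_mem_nhdsGT (by positivity : (0 : ℝ) < R' / 2)) |> fun h => by
        filter_upwards [h] with s hs using hs.2
    filter_upwards [self_mem_nhdsWithin, h4] with s hs hs2
    exact main z s hs hs2 (by rw [sub_self, norm_zero]; exact (mem_Ioi.1 hs).le)
  · have hs0 : 0 < ‖z - z0‖ := norm_pos_iff.2 (sub_ne_zero.2 hne)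
    exact main z _ hs0 (by rw [mem_ball, dist_eq_norm] at hz; exact hz) le_rfl

/-- a polynomial in one variable which is `O(s^k)` is divisible by `X^k` -/
lemma X_pow_dvd_of_bigO {g : Polynomial ℂ} {k : ℕ} {C : ℝ}
    (h : ∀ᶠ s : ℂ in 𝓝[≠] 0, ‖g.eval s‖ ≤ C * ‖s‖ ^ k) : Polynomial.X ^ k ∣ g := by
  suffices H : ∀ j ≤ k, Polynomial.X ^ j ∣ g from H k le_rfl
  intro j
  induction j with
  | zero => intro _; simp
  | succ j ih =>
    intro hj
    obtain ⟨u, hu⟩ := ih (by omega)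
    have h1 : ∀ᶠ s : ℂ in 𝓝[≠] 0, ‖u.eval s‖ ≤ C * ‖s‖ ^ (k - j) := by
      filter_upwards [h, self_mem_nhdsWithin] with s hs hs0
      have hs0' : 0 < ‖s‖ := norm_pos_iff.2 hs0
      rw [hu] at hs
      simp only [Polynomial.eval_mul, Polynomial.eval_pow, Polynomial.eval_X, norm_mul,
        norm_pow] at hs
      have h2 : ‖s‖ ^ k = ‖s‖ ^ j * ‖s‖ ^ (k - j) := by
        rw [← pow_add]; congr 1; omega
      rw [h2] at hs
      have h3 : ‖s‖ ^ j * ‖u.eval s‖ ≤ ‖s‖ ^ j * (C * ‖s‖ ^ (k - j)) := by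
        calc _ ≤ _ := hs
          _ = _ := by ring
      exact le_of_mul_le_mul_left h3 (by positivity)
    have h2 : Tendsto (fun s : ℂ => C * ‖s‖ ^ (k - j)) (𝓝[≠] 0) (𝓝 0) := by
      have h3 : Tendsto (fun s : ℂ => C * ‖s‖ ^ (k - j)) (𝓝 0) (𝓝 (C * ‖(0 : ℂ)‖ ^ (k - j))) := by
        apply Continuous.tendsto
        fun_prop
      have h4 : k - j ≠ 0 := by omega
      simp only [norm_zero, zero_pow h4, mul_zero] at h3
      exact h3.mono_left nhdsWithin_le_nhds
    have h3 : Tendsto (fun s : ℂ => u.eval s) (𝓝[≠] 0) (𝓝 (u.eval 0)) :=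
      (u.continuous.tendsto 0).mono_left nhdsWithin_le_nhds
    have h4 : Tendsto (fun s : ℂ => u.eval s) (𝓝[≠] 0) (𝓝 0) :=
      squeeze_zero_norm' h1 h2
    have h5 : u.eval 0 = 0 := tendsto_nhds_unique h3 h4
    have h6 : Polynomial.X ∣ u := by
      rw [Polynomial.X_dvd_iff, Polynomial.coeff_zero_eq_eval_zero, h5]
    obtain ⟨t, ht⟩ := h6
    exact ⟨t, by rw [hu, ht, pow_succ]; ring⟩

/-- monomials -/
def mo (α : Fin n → ℕ) (z : Fin n → ℂ) : ℂ := ∏ i, z i ^ α i

lemma mo_smul (α : Fin n → ℕ) (s : ℂ) (z : Fin n → ℂ) :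
    mo α (s • z) = s ^ (∑ i, α i) * mo α z := by
  unfold mo
  rw [← Finset.prod_pow_eq_pow_sum, ← Finset.prod_mul_distrib]
  refine Finset.prod_congr rfl fun i _ => ?_
  simp [mul_pow]

/-- a polynomial of degree `< k` which is `O(|z|^k)` has zero coefficients -/
lemma coeff_zero_of_bigO {A : Type*} [Fintype A] {d : A → (Fin n → ℕ)}
    (hd : Function.Injective d) {k : ℕ} (hk : ∀ α, ∑ i, d α i < k) {c : A → ℂ} {C : ℝ}
    (h : ∀ᶠ z : Fin n → ℂ in 𝓝 0, ‖∑ α, c α * mo (d α) z‖ ≤ C * ‖z‖ ^ k) :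
    ∀ α, c α = 0 := by
  classical
  have h0 : ∀ ζ : Fin n → ℂ, ∑ α, c α * mo (d α) ζ = 0 := by
    intro ζ
    let g : Polynomial ℂ := ∑ α, Polynomial.C (c α * mo (d α) ζ) * Polynomial.X ^ (∑ i, d α i)
    have hg : ∀ s : ℂ, g.eval s = ∑ α, c α * mo (d α) (s • ζ) := by
      intro s
      simp only [g, Polynomial.eval_finsetSum, Polynomial.eval_mul, Polynomial.eval_C,
        Polynomial.eval_pow, Polynomial.eval_X, mo_smul]
      refine Finset.sum_congr rfl fun α _ => by ring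
    have h1 : ∀ᶠ s : ℂ in 𝓝[≠] 0, ‖g.eval s‖ ≤ (C * ‖ζ‖ ^ k) * ‖s‖ ^ k := by
      have h2 : Tendsto (fun s : ℂ => s • ζ) (𝓝[≠] 0) (𝓝 0) := by
        have h3 : Tendsto (fun s : ℂ => s • ζ) (𝓝 0) (𝓝 ((0 : ℂ) • ζ)) := by
          apply Continuous.tendsto
          fun_prop
        rw [zero_smul] at h3
        exact h3.mono_left nhdsWithin_le_nhds
      filter_upwards [h2.eventually h] with s hs
      rw [hg]
      refine hs.trans (le_of_eq ?_)
      rw [norm_smul, mul_pow]; ring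
    have h2 := X_pow_dvd_of_bigO h1
    have h3 : g = 0 := by
      rcases k with _ | k
      · -- no monomials
        have hA : IsEmpty A := ⟨fun α => by have := hk α; omega⟩
        simp [g]
      · refine Polynomial.eq_zero_of_dvd_of_degree_lt h2 ?_
        rw [Polynomial.degree_X_pow]
        refine lt_of_le_of_lt (Polynomial.degree_sum_le _ _) ?_
        rw [Finset.sup_lt_iff (WithBot.bot_lt_coe _)]
        intro α _
        refine lt_of_le_of_lt (Polynomial.degree_C_mul_X_pow_le _ _) ?_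
        exact_mod_cast hk α
    have h4 := hg 1
    rw [h3, one_smul] at h4
    rw [← h4]; simp
  let P : MvPolynomial (Fin n) ℂ :=
    ∑ α, MvPolynomial.monomial (Finsupp.equivFunOnFinite.symm (d α)) (c α)
  have hP : P = 0 := by
    apply MvPolynomial.funext
    intro ζ
    simp only [P, map_sum, MvPolynomial.eval_monomial, map_zero]
    rw [← h0 ζ]
    refine Finset.sum_congr rfl fun α _ => ?_
    congr 1
    rw [Finsupp.prod_fintype _ _ (fun i => pow_zero _)]
    rfl
  intro α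
  have h1 : P.coeff (Finsupp.equivFunOnFinite.symm (d α)) = c α := by
    simp only [P, MvPolynomial.coeff_sum, MvPolynomial.coeff_monomial]
    rw [Finset.sum_eq_single α]
    · simp
    · intro β _ hβ
      rw [if_neg]
      intro hcon
      exact hβ (hd (Finsupp.equivFunOnFinite.symm.injective hcon))
    · intro hcon; exact absurd (Finset.mem_univ α) hcon
  rw [← h1, hP]; simp

/-- linear independence from jets: `F (j, α)` has at `z i` the jet `δ_{ij} (z - z i)^α` modulo
`O(|z - z i|^k)` -/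
theorem linInd_of_jets {M : Type*} {J A : Type*} [Fintype J] [Fintype A] [DecidableEq J]
    {d : A → (Fin n → ℕ)} (hd : Function.Injective d) {k : ℕ} (hk : ∀ α, ∑ i, d α i < k)
    {F : J × A → M → ℂ} {z : J → (Fin n → ℂ)} {s : J → (Fin n → ℂ) → M}
    (hF : ∀ (j : J) (α : A) (i : J), ∃ C : ℝ, ∀ᶠ y in 𝓝 (z i),
      ‖F (j, α) (s i y) - (if i = j then mo (d α) (y - z i) else 0)‖ ≤ C * ‖y - z i‖ ^ k) :
    LinearIndependent ℂ F := by
  classical
  rw [Fintype.linearIndependent_iff]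
  rintro g hg ⟨i, α⟩
  choose C hC using hF
  have h1 : ∀ᶠ y in 𝓝 (z i), ‖∑ β, g (i, β) * mo (d β) (y - z i)‖ ≤
      (∑ q : J × A, ‖g q‖ * C q.1 q.2 i) * ‖y - z i‖ ^ k := by
    have h2 : ∀ᶠ y in 𝓝 (z i), ∀ q : J × A,
        ‖F (q.1, q.2) (s i y) - (if i = q.1 then mo (d q.2) (y - z i) else 0)‖ ≤
          C q.1 q.2 i * ‖y - z i‖ ^ k := by
      rw [eventually_all]
      exact fun q => hC q.1 q.2 i
    filter_upwards [h2] with y hy
    have h3 : ∑ q : J × A, g q * F q (s i y) = 0 := by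
      have := congrFun hg (s i y)
      simpa [Finset.sum_apply] using this
    have h4 : ∑ q : J × A, g q * (if i = q.1 then mo (d q.2) (y - z i) else 0) =
        ∑ β, g (i, β) * mo (d β) (y - z i) := by
      rw [Fintype.sum_prod_type]
      rw [Finset.sum_eq_single i]
      · simp
      · intro j _ hj
        simp [Ne.symm hj]
      · intro hcon; exact absurd (Finset.mem_univ i) hcon
    have h5 : ∑ β, g (i, β) * mo (d β) (y - z i) =
        -∑ q : J × A, g q * (F q (s i y) - (if i = q.1 then mo (d q.2) (y - z i) else 0)) := by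
      rw [← h4]
      simp only [mul_sub, Finset.sum_sub_distrib]
      rw [h3]; ring
    rw [h5, norm_neg]
    refine (norm_sum_le _ _).trans ?_
    rw [Finset.sum_mul]
    refine Finset.sum_le_sum fun q _ => ?_
    rw [norm_mul, mul_assoc]
    exact mul_le_mul_of_nonneg_left (hy q) (norm_nonneg _)
  have h2 : ∀ᶠ y : Fin n → ℂ in 𝓝 0, ‖∑ β, g (i, β) * mo (d β) y‖ ≤
      (∑ q : J × A, ‖g q‖ * C q.1 q.2 i) * ‖y‖ ^ k := by
    have h3 : Tendsto (fun y : Fin n → ℂ => y + z i) (𝓝 0) (𝓝 (z i)) := by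
      have : Tendsto (fun y : Fin n → ℂ => y + z i) (𝓝 0) (𝓝 (0 + z i)) := by
        apply Continuous.tendsto
        fun_prop
      rwa [zero_add] at this
    filter_upwards [h3.eventually h1] with y hy
    simpa using hy
  exact coeff_zero_of_bigO hd hk h2 α

end Crest.Agent.R276.CntLowC_804
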