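import Crest.Agent.R276.CntLowB_804
import Crest.Agent.R276.CntLowC_804
import Crest.Agent.R271.G3a_792
import Crest.Agent.R266.SCV

/-!
# Row 276, COUNT-LOW, part D: the pole functions `Q_j` in a chart (helper804)
-/

set_option autoImplicit false
set_option linter.unusedSectionVars false

noncomputable section

open Set Filter Topology Complex MeasureTheory Metric

namespace Crest.Agent.R276.CntLowD_804

open Crest.Agent.R271.Ho51 Crest.Agent.R271.W792 Crest.Agent.R276.CntLowA_804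
open Crest.Agent.R271 Crest.Agent.R276.CntLowB_804 Crest.Agent.R276.CntLowC_804

variable {n ν : ℕ} {M : Type} [TopologicalSpace M] [T2Space M] [RDom n M]

/-- local data: a chart, a polydisc in it, a holomorphic map to `ℂ^ν` -/
structure LD (n ν : ℕ) (M : Type) [TopologicalSpace M] [RDom n M] where
  e : OpenPartialHomeomorph M (Fin n → ℂ)
  he : IsCh e
  z0 : Fin n → ℂ
  r : ℝ
  hr : 0 < r
  hB : ball z0 r ⊆ e.target
  β : (Fin n → ℂ) → (Fin ν → ℂ)
  hβ : DifferentiableOn ℂ β (ball z0 r)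

namespace LD

variable (S : LD n ν M)

/-- the cut-off function -/
def bump : ContDiffBump S.z0 := ⟨S.r / 4, S.r / 2, by have := S.hr; positivity,
  by have := S.hr; linarith⟩

lemma bump_tsupport : tsupport (S.bump : (Fin n → ℂ) → ℝ) ⊆ ball S.z0 S.r := by
  rw [S.bump.tsupport_eq]
  apply closedBall_subset_ball
  have := S.hr
  show S.r / 2 < S.r
  linarith

lemma bump_one {z : Fin n → ℂ} (hz : z ∈ closedBall S.z0 (S.r / 4)) : S.bump z = 1 :=
  S.bump.one_of_mem_closedBall hz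

/-- cut-off coordinates of `β` in the chart -/
def g (i : Fin ν) (z : Fin n → ℂ) : ℂ := (S.bump z : ℂ) * S.β z i

lemma β_apply_diff (i : Fin ν) : DifferentiableOn ℂ (fun z => S.β z i) (ball S.z0 S.r) :=
  fun z hz => (differentiableWithinAt_pi.1 (S.hβ z hz)) i

lemma g_contDiff (i : Fin ν) : ContDiff ℝ (⊤ : ℕ∞) (S.g i) := by
  rw [contDiff_iff_contDiffAt]
  intro z
  by_cases hz : z ∈ ball S.z0 S.r
  · have h1 : AnalyticAt ℂ (fun z => S.β z i) z :=
      R266.SCV.analyticOnNhd_of_differentiableOn isOpen_ball (S.β_apply_diff i) z hz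
    have h2 : ContDiffAt ℝ (⊤ : ℕ∞) (fun z => S.β z i) z := h1.restrictScalars.contDiffAt
    have h3 : ContDiffAt ℝ (⊤ : ℕ∞) (fun z => (S.bump z : ℂ)) z :=
      Complex.ofRealCLM.contDiff.contDiffAt.comp z S.bump.contDiff.contDiffAt
    exact h3.mul h2
  · have h1 : S.g i =ᶠ[𝓝 z] fun _ => 0 := by
      have h2 : (tsupport (S.bump : (Fin n → ℂ) → ℝ))ᶜ ∈ 𝓝 z :=
        (isClosed_tsupport _).isOpen_compl.mem_nhds fun h => hz (S.bump_tsupport h)
      filter_upwards [h2] with y hy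
      have h3 : S.bump y = 0 := image_eq_zero_of_notMem_tsupport hy
      simp [g, h3]
    exact contDiffAt_const.congr_of_eventuallyEq h1

lemma g_tsupport (i : Fin ν) : tsupport (S.g i) ⊆ ball S.z0 S.r := by
  refine (closure_mono ?_).trans S.bump_tsupport
  intro z hz h
  apply hz
  simp [g, h]

lemma g_compact (i : Fin ν) : HasCompactSupport (S.g i) := by
  refine HasCompactSupport.intro S.bump.hasCompactSupport fun z hz => ?_
  have h3 : S.bump z = 0 := image_eq_zero_of_notMem_tsupport hz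
  simp [g, h3]

/-- the cut-off coordinates on `M` -/
def bt (i : Fin ν) : M → ℂ := pull S.e (S.g i)

/-- the cut-off function on `M` -/
def th : M → ℝ := pull S.e S.bump

lemma sm_bt (i : Fin ν) : Sm (S.bt i) :=
  pull_sm S.he (S.g_contDiff i) ((S.g_tsupport i).trans S.hB) (S.g_compact i)

lemma sm_th : Sm S.th :=
  pull_sm S.he S.bump.contDiff (S.bump_tsupport.trans S.hB) S.bump.hasCompactSupport

lemma th_le (x : M) : S.th x ≤ 1 := by
  by_cases hx : x ∈ S.e.source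
  · rw [th, pull_of_mem S.e _ hx]; exact S.bump.le_one
  · simp [th, pull, indicator_of_notMem hx]

lemma th_nonneg (x : M) : 0 ≤ S.th x := by
  by_cases hx : x ∈ S.e.source
  · rw [th, pull_of_mem S.e _ hx]; exact S.bump.nonneg
  · simp [th, pull, indicator_of_notMem hx]

/-- the polydisc on `M` -/
def B : Set M := S.e.source ∩ cp ⁻¹' ball S.z0 (S.r / 4)

lemma isOpen_B : IsOpen S.B := S.e.open_source.inter (isOpen_ball.preimage cp_cont)

lemma B_source {x : M} (hx : x ∈ S.B) : x ∈ S.e.source := hx.1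

lemma B_ball {x : M} (hx : x ∈ S.B) : cp x ∈ ball S.z0 (S.r / 4) := hx.2

lemma ball_sub : ball S.z0 (S.r / 4) ⊆ ball S.z0 S.r :=
  ball_subset_ball (by have := S.hr; linarith)

lemma th_one {x : M} (hx : x ∈ S.B) : S.th x = 1 := by
  rw [th, pull_of_mem S.e _ hx.1]
  exact S.bump_one (ball_subset_closedBall hx.2)

lemma bt_eq {x : M} (hx : x ∈ S.B) (i : Fin ν) : S.bt i x = S.β (cp x) i := by
  rw [bt, pull_of_mem S.e _ hx.1, g, S.bump_one (ball_subset_closedBall hx.2)]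
  simp

lemma D_bt {x : M} (hx : x ∈ S.B) (i : Fin ν) (w : Fin n → ℂ) :
    D (S.bt i) x w = fderiv ℂ S.β (cp x) w i := by
  have hz : cp x ∈ ball S.z0 S.r := S.ball_sub hx.2
  have h1 : D (S.bt i) x = fderiv ℝ (fun z => S.β z i) (cp x) := by
    have h2 : S.bt i =ᶠ[𝓝 x] fun y => S.g i (cp y) := pull_eventually hx.1
    rw [D_congr h2, D_of_coord]
    apply Filter.EventuallyEq.fderiv_eq
    have h3 : ball S.z0 (S.r / 4) ∈ 𝓝 (cp x) := isOpen_ball.mem_nhds hx.2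
    filter_upwards [h3] with z hz
    rw [g, S.bump_one (ball_subset_closedBall hz)]; simp
  have h4 : DifferentiableAt ℂ S.β (cp x) := (S.hβ _ hz).differentiableAt (isOpen_ball.mem_nhds hz)
  have h5 : DifferentiableAt ℂ (fun z => S.β z i) (cp x) := (differentiableAt_pi.1 h4) i
  rw [h1, R266.SCV.fderiv_real_eq h5]
  have h6 : HasFDerivAt (fun z => S.β z i)
      ((ContinuousLinearMap.proj (R := ℂ) i).comp (fderiv ℂ S.β (cp x))) (cp x) :=
    (hasFDerivAt_pi'.1 h4.hasFDerivAt) i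
  rw [h6.fderiv]
  rfl

lemma holAt_bt {x : M} (hx : x ∈ S.B) (i : Fin ν) : HolAt (S.bt i) x := by
  filter_upwards [S.isOpen_B.mem_nhds hx] with y hy w
  rw [S.D_bt hy, S.D_bt hy]
  simp

/-- the family `(z - z_j, √t (β - b))` -/
def fam (t : ℝ) (zj : Fin n → ℂ) (b : Fin ν → ℂ) : Fin n ⊕ Fin ν → M → ℂ :=
  Sum.elim (fun i x => cp x i - zj i) (fun i x => (Real.sqrt t : ℂ) * (S.bt i x - b i))

lemma sm_coord (i : Fin n) : Sm (fun x : M => cp x i) := (G792.hol_coord (M := M) i).sm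

lemma sm_fam (t : ℝ) (zj : Fin n → ℂ) (b : Fin ν → ℂ) (k : Fin n ⊕ Fin ν) :
    Sm (S.fam t zj b k) := by
  rcases k with i | i
  · exact (sm_coord i).sub (Sm.const _)
  · exact (Sm.const _).mul ((S.sm_bt i).sub (Sm.const _))

lemma D_fam_inl (t : ℝ) (zj : Fin n → ℂ) (b : Fin ν → ℂ) (i : Fin n) (x : M) (w : Fin n → ℂ) :
    D (S.fam t zj b (Sum.inl i)) x w = w i := by
  show D (fun x : M => cp x i - zj i) x w = w i
  rw [D_sub (sm_coord i) (Sm.const _), D_const]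
  simp [G792.D_coord]

lemma D_fam_inr (t : ℝ) (zj : Fin n → ℂ) (b : Fin ν → ℂ) (i : Fin ν) (x : M) (w : Fin n → ℂ) :
    D (S.fam t zj b (Sum.inr i)) x w = (Real.sqrt t : ℂ) * D (S.bt i) x w := by
  show D (fun x : M => (Real.sqrt t : ℂ) * (S.bt i x - b i)) x w = _
  rw [D_const_mulC ((S.sm_bt i).sub (Sm.const _)), D_sub (S.sm_bt i) (Sm.const _), D_const]
  simp

lemma holAt_fam (t : ℝ) (zj : Fin n → ℂ) (b : Fin ν → ℂ) (k : Fin n ⊕ Fin ν) {x : M}
    (hx : x ∈ S.B) : HolAt (S.fam t zj b k) x := by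
  rcases k with i | i
  · refine Eventually.of_forall fun y w => ?_
    rw [D_fam_inl, D_fam_inl]; simp
  · filter_upwards [S.holAt_bt hx i] with y hy w
    rw [D_fam_inr, D_fam_inr, hy]; ring

/-- the pole function -/
def Qf (t : ℝ) (zj : Fin n → ℂ) (b : Fin ν → ℂ) (x : M) : ℝ :=
  nS (S.fam t zj b) x + (1 - S.th x)

lemma sm_Qf (t : ℝ) (zj : Fin n → ℂ) (b : Fin ν → ℂ) : Sm (S.Qf t zj b) :=
  (sm_nS (S.sm_fam t zj b)).add ((Sm.const 1).sub S.sm_th)

lemma Qf_nonneg (t : ℝ) (zj : Fin n → ℂ) (b : Fin ν → ℂ) (x : M) : 0 ≤ S.Qf t zj b x :=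
  add_nonneg (nS_nonneg _ _) (by linarith [S.th_le x])

/-- the curvature of the pole function -/
def qf (t : ℝ) (x : M) (w : Fin n → ℂ) : ℝ := nsq w + t * ∑ i, ‖D (S.bt i) x w‖ ^ 2

lemma nT_fam {t : ℝ} (ht : 0 ≤ t) (zj : Fin n → ℂ) (b : Fin ν → ℂ) (x : M) (w : Fin n → ℂ) :
    nT (S.fam t zj b) x w = S.qf t x w := by
  unfold nT qf nsq
  rw [Fintype.sum_sum_type]
  simp only [D_fam_inl, D_fam_inr, norm_mul, mul_pow]
  rw [← Finset.mul_sum]
  congr 2
  rw [Complex.norm_real, Real.norm_eq_abs, sq_abs, Real.sq_sqrt ht]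

lemma nsq_le_qf {t : ℝ} (ht : 0 ≤ t) (x : M) (w : Fin n → ℂ) : nsq w ≤ S.qf t x w := by
  unfold qf
  have : 0 ≤ t * ∑ i, ‖D (S.bt i) x w‖ ^ 2 :=
    mul_nonneg ht (Finset.sum_nonneg fun _ _ => by positivity)
  linarith

lemma Qf_germ (t : ℝ) (zj : Fin n → ℂ) (b : Fin ν → ℂ) {x : M} (hx : x ∈ S.B) :
    S.Qf t zj b =ᶠ[𝓝 x] nS (S.fam t zj b) := by
  filter_upwards [S.isOpen_B.mem_nhds hx] with y hy
  simp [Qf, S.th_one hy]

lemma lev_congr {φ ψ : M → ℝ} {x : M} (h : φ =ᶠ[𝓝 x] ψ) (w : Fin n → ℂ) :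
    lev φ x w = lev ψ x w := by
  unfold lev
  have h1 : ∀ v : Fin n → ℂ, (fun y => D φ y v) =ᶠ[𝓝 x] fun y => D ψ y v := by
    intro v
    filter_upwards [h.eventuallyEq_nhds] with y hy
    rw [D_congr hy]
  rw [D_congr (h1 w), D_congr (h1 (I • w))]

lemma dsq_congr {φ ψ : M → ℝ} {x : M} (h : φ =ᶠ[𝓝 x] ψ) (w : Fin n → ℂ) :
    dsq φ x w = dsq ψ x w := by
  unfold dsq
  rw [D_congr h]

lemma lev_Qf {t : ℝ} (ht : 0 ≤ t) (zj : Fin n → ℂ) (b : Fin ν → ℂ) {x : M} (hx : x ∈ S.B)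
    (w : Fin n → ℂ) : lev (S.Qf t zj b) x w = S.qf t x w := by
  rw [lev_congr (S.Qf_germ t zj b hx), lev_nS' (S.sm_fam t zj b)
    (fun k => S.holAt_fam t zj b k hx), nT_fam S ht]

lemma dsq_Qf {t : ℝ} (ht : 0 ≤ t) (zj : Fin n → ℂ) (b : Fin ν → ℂ) {x : M} (hx : x ∈ S.B)
    (w : Fin n → ℂ) : dsq (S.Qf t zj b) x w ≤ S.Qf t zj b x * S.qf t x w := by
  rw [dsq_congr (S.Qf_germ t zj b hx), (S.Qf_germ t zj b hx).self_of_nhds, ← nT_fam S ht zj b]
  exact dsq_nS_le (S.sm_fam t zj b) (fun k => S.holAt_fam t zj b k hx) w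

lemma coord_le_nS (t : ℝ) (zj : Fin n → ℂ) (b : Fin ν → ℂ) (x : M) :
    ‖cp x - zj‖ ^ 2 ≤ nS (S.fam t zj b) x := by
  have h1 : ∀ i, ‖cp x i - zj i‖ ^ 2 ≤ nS (S.fam t zj b) x := by
    intro i
    exact Finset.single_le_sum (f := fun k => ‖S.fam t zj b k x‖ ^ 2)
      (fun k _ => by positivity) (Finset.mem_univ (Sum.inl i))
  have h0 := nS_nonneg (S.fam t zj b) x
  have h2 : ‖cp x - zj‖ ≤ Real.sqrt (nS (S.fam t zj b) x) := by
    rw [pi_norm_le_iff_of_nonneg (Real.sqrt_nonneg _)]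
    intro i
    exact Real.le_sqrt_of_sq_le (h1 i)
  calc ‖cp x - zj‖ ^ 2 ≤ (Real.sqrt (nS (S.fam t zj b) x)) ^ 2 := by gcongr
    _ = _ := Real.sq_sqrt h0

lemma beta_le_nS {t : ℝ} (ht : 0 ≤ t) (zj : Fin n → ℂ) (b : Fin ν → ℂ) (x : M) (i : Fin ν) :
    t * ‖S.bt i x - b i‖ ^ 2 ≤ nS (S.fam t zj b) x := by
  have h1 : ‖S.fam t zj b (Sum.inr i) x‖ ^ 2 ≤ nS (S.fam t zj b) x :=
    Finset.single_le_sum (f := fun k => ‖S.fam t zj b k x‖ ^ 2)
      (fun k _ => by positivity) (Finset.mem_univ (Sum.inr i))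
  have h2 : ‖S.fam t zj b (Sum.inr i) x‖ ^ 2 = t * ‖S.bt i x - b i‖ ^ 2 := by
    show ‖(Real.sqrt t : ℂ) * (S.bt i x - b i)‖ ^ 2 = _
    rw [norm_mul, mul_pow, Complex.norm_real, Real.norm_eq_abs, sq_abs, Real.sq_sqrt ht]
  rwa [h2] at h1

/-- off `B` the pole function is `> a` -/
lemma Qf_far {t : ℝ} {a : ℝ} (ha1 : a < 1) (har : a < (S.r / 8) ^ 2) {zj : Fin n → ℂ}
    (hzj : ‖zj - S.z0‖ ≤ S.r / 8) (b : Fin ν → ℂ) {x : M} (hx : x ∉ S.B) :
    a < S.Qf t zj b x := by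
  have h0 := nS_nonneg (S.fam t zj b) x
  by_cases hs : x ∈ S.e.source
  · have h1 : cp x ∉ ball S.z0 (S.r / 4) := fun h => hx ⟨hs, h⟩
    rw [mem_ball, dist_eq_norm, not_lt] at h1
    have h2 : S.r / 8 ≤ ‖cp x - zj‖ := by
      have h3 : ‖cp x - S.z0‖ ≤ ‖cp x - zj‖ + ‖zj - S.z0‖ := by
        have : cp x - S.z0 = (cp x - zj) + (zj - S.z0) := by abel
        rw [this]; exact norm_add_le _ _
      linarith
    have h3 := S.coord_le_nS t zj b x
    have h4 := S.th_le x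
    have h5 : (S.r / 8) ^ 2 ≤ ‖cp x - zj‖ ^ 2 := by
      have := S.hr
      gcongr
    unfold Qf
    linarith
  · have h1 : S.th x = 0 := by simp [th, pull, indicator_of_notMem hs]
    unfold Qf
    rw [h1]; linarith

/-- the polydisc is relatively compact -/
lemma sub_compact : IsCompact (S.e.symm '' closedBall S.z0 (S.r / 4)) := by
  refine isCompact_symm_image (isCompact_closedBall _ _) ?_
  refine (closedBall_subset_ball ?_).trans S.hB
  have := S.hr
  linarith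

lemma B_sub_compact : S.B ⊆ S.e.symm '' closedBall S.z0 (S.r / 4) := by
  intro x hx
  exact ⟨cp x, ball_subset_closedBall hx.2, S.he.symm_cp hx.1⟩

end LD

end Crest.Agent.R276.CntLowD_804
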