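import Crest.Agent.R276.CntLowD_804

/-!
# Row 276, COUNT-LOW, part E: holomorphic functions with prescribed jets at many points (helper804)
-/

set_option autoImplicit false
set_option linter.unusedSectionVars false

noncomputable section

open Set Filter Topology Complex MeasureTheory Metric

namespace Crest.Agent.R276.CntLowE_804

open Crest.Agent.R271.Ho51 Crest.Agent.R271.W792 Crest.Agent.R276.CntLowA_804
open Crest.Agent.R271 Crest.Agent.R276.CntLowB_804 Crest.Agent.R276.CntLowC_804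
open Crest.Agent.R276.CntLowD_804

variable {n ν : ℕ} {M : Type} [TopologicalSpace M] [T2Space M] [RDom n M]

/-- holomorphic functions are continuous -/
lemma hol_continuous {F : M → ℂ} (hF : Ho51.Hol F) : Continuous F := by
  rw [continuous_iff_continuousAt]
  intro y
  have h1 := (hF (ch y) (isCh_ch y)).continuousOn.continuousAt
    ((ch y).open_target.mem_nhds ((isCh_ch y).cp_mem (mem_ch y)))
  have h2 : F =ᶠ[𝓝 y] fun x => (F ∘ (ch y).symm) (cp x) := by
    filter_upwards [(ch y).open_source.mem_nhds (mem_ch y)] with x hx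
    simp only [Function.comp_apply]
    rw [(isCh_ch y).symm_cp hx]
  refine ContinuousAt.congr ?_ h2.symm
  exact ContinuousAt.comp (g := F ∘ (ch y).symm) (f := cp) h1 cp_cont.continuousAt

lemma mo_contDiff (α : Fin n → ℕ) (c : Fin n → ℂ) :
    ContDiff ℝ (⊤ : ℕ∞) (fun z : Fin n → ℂ => mo α (z - c)) := by
  unfold mo
  refine contDiff_prod fun i _ => ContDiff.pow ?_ _
  have : ContDiff ℝ (⊤ : ℕ∞) (fun z : Fin n → ℂ => z i) :=
    contDiff_apply ℝ ℂ i
  exact this.sub contDiff_const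

lemma mo_differentiable (α : Fin n → ℕ) (c : Fin n → ℂ) :
    Differentiable ℂ (fun z : Fin n → ℂ => mo α (z - c)) := by
  have h : ContDiff ℂ 1 (fun z : Fin n → ℂ => mo α (z - c)) := by
    unfold mo
    refine contDiff_prod fun i _ => ContDiff.pow ?_ _
    have : ContDiff ℂ 1 (fun z : Fin n → ℂ => z i) := contDiff_apply ℂ ℂ i
    exact this.sub contDiff_const
  exact h.differentiable (by norm_num)

lemma db_mo (α : Fin n → ℕ) (c : Fin n → ℂ) (j : Fin n) (x : M) :
    db j (fun y : M => mo α (cp y - c)) x = 0 := by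
  have h1 : D (fun y : M => mo α (cp y - c)) x =
      fderiv ℝ (fun z : Fin n → ℂ => mo α (z - c)) (cp x) :=
    D_of_coord (g := fun z : Fin n → ℂ => mo α (z - c)) x
  have h2 : (Pi.single j Complex.I : Fin n → ℂ) = Complex.I • (Pi.single j 1 : Fin n → ℂ) := by
    rw [← Pi.single_smul]; simp
  rw [db_eq, h1, h2, R266.SCV.fderiv_real_smul_I (mo_differentiable α c _)]
  rw [smul_eq_mul, ← mul_assoc, Complex.I_mul_I]
  ring

namespace LDE

variable (S : LD n ν M) {J : Type} [Fintype J]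

/-- the model function -/
def Gf (a t : ℝ) (zj : Fin n → ℂ) (b : Fin ν → ℂ) (α : Fin n → ℕ) (x : M) : ℂ :=
  ((eta a (S.Qf t zj b x) : ℝ) : ℂ) * mo α (cp x - zj)

variable (a t : ℝ) (zj : Fin n → ℂ) (b : Fin ν → ℂ) (α : Fin n → ℕ)

lemma sm_Gf : Sm (Gf S a t zj b α) := by
  unfold Gf
  exact ((Sm.comp (eta_contDiff a) (S.sm_Qf t zj b)).ofReal).mul
    (Sm.of_coord (mo_contDiff α zj))

lemma Gf_far (ha : 0 < a) {x : M} (hx : a < S.Qf t zj b x) : Gf S a t zj b α =ᶠ[𝓝 x] fun _ => 0 := by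
  have h1 : ∀ᶠ y in 𝓝 x, a < S.Qf t zj b y :=
    (S.sm_Qf t zj b).continuous.continuousAt.eventually (lt_mem_nhds hx)
  filter_upwards [h1] with y hy
  simp [Gf, eta_zero ha hy.le]

lemma Gf_near (ha : 0 < a) {x : M} (hx : S.Qf t zj b x < a / 4) :
    Gf S a t zj b α =ᶠ[𝓝 x] fun y => mo α (cp y - zj) := by
  have h1 : ∀ᶠ y in 𝓝 x, S.Qf t zj b y < a / 4 :=
    (S.sm_Qf t zj b).continuous.continuousAt.eventually (gt_mem_nhds hx)
  filter_upwards [h1] with y hy
  simp [Gf, eta_one ha hy.le]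

lemma db_Gf_far (ha : 0 < a) {x : M} (hx : a < S.Qf t zj b x) (i : Fin n) :
    db i (Gf S a t zj b α) x = 0 := by
  rw [db_congr (Gf_far S a t zj b α ha hx), db_const]

lemma db_Gf_near (ha : 0 < a) {x : M} (hx : S.Qf t zj b x < a / 4) (i : Fin n) :
    db i (Gf S a t zj b α) x = 0 := by
  rw [db_congr (Gf_near S a t zj b α ha hx), db_mo]

lemma Gf_compact (ha : 0 < a) (ha1 : a < 1) (har : a < (S.r / 8) ^ 2)
    (hzj : ‖zj - S.z0‖ ≤ S.r / 8) : HasCompactSupport (Gf S a t zj b α) := by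
  refine HasCompactSupport.intro S.sub_compact fun x hx => ?_
  have h1 : x ∉ S.B := fun h => hx (S.B_sub_compact h)
  have h2 := S.Qf_far (t := t) ha1 har hzj b h1
  simp [Gf, eta_zero ha h2.le]

lemma Gf_tsupport (ha : 0 < a) (ha1 : a < 1) (har : a < (S.r / 8) ^ 2)
    (hzj : ‖zj - S.z0‖ ≤ S.r / 8) :
    tsupport (Gf S a t zj b α) ⊆ S.e.symm '' closedBall S.z0 (S.r / 4) := by
  refine closure_minimal ?_ S.sub_compact.isClosed
  intro x hx
  by_contra hcon
  apply hx
  have h1 : x ∉ S.B := fun h => hcon (S.B_sub_compact h)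
  have h2 := S.Qf_far (t := t) ha1 har hzj b h1
  simp [Gf, eta_zero ha h2.le]

/-- quadratic upper bound of the pole function near its centre -/
lemma Qf_le (ht : 0 ≤ t) (hzj : ‖zj - S.z0‖ < S.r / 4) :
    ∃ A : ℝ, 0 < A ∧ ∀ᶠ y in 𝓝 zj, y ∈ ball S.z0 (S.r / 4) ∧ S.e.symm y ∈ S.B ∧
      S.Qf t zj (S.β zj) (S.e.symm y) ≤ A * ‖y - zj‖ ^ 2 := by
  have hz : zj ∈ ball S.z0 (S.r / 4) := by rw [mem_ball, dist_eq_norm]; exact hzj
  have hz2 : zj ∈ ball S.z0 S.r := S.ball_sub hz
  have hd : HasFDerivAt S.β (fderiv ℂ S.β zj) zj :=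
    ((S.hβ _ hz2).differentiableAt (isOpen_ball.mem_nhds hz2)).hasFDerivAt
  obtain ⟨L, hL⟩ := hd.isBigO_sub.bound
  refine ⟨n + t * (ν * L ^ 2) + 1, by positivity, ?_⟩
  have hzn : ball S.z0 (S.r / 4) ∈ 𝓝 zj := isOpen_ball.mem_nhds hz
  filter_upwards [hL, hzn] with y hy hyb
  have hyt : y ∈ S.e.target := S.hB (S.ball_sub hyb)
  have hcp : cp (S.e.symm y) = y := S.he.cp_symm hyt
  have hyB : S.e.symm y ∈ S.B := ⟨S.e.map_target hyt, by
    show cp (S.e.symm y) ∈ ball S.z0 (S.r / 4)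
    rw [hcp]; exact hyb⟩
  refine ⟨hyb, hyB, ?_⟩
  have h1 : S.Qf t zj (S.β zj) (S.e.symm y) = nS (S.fam t zj (S.β zj)) (S.e.symm y) := by
    simp [LD.Qf, S.th_one hyB]
  rw [h1]
  unfold nS
  rw [Fintype.sum_sum_type]
  have h2 : ∑ i : Fin n, ‖S.fam t zj (S.β zj) (Sum.inl i) (S.e.symm y)‖ ^ 2 ≤
      n * ‖y - zj‖ ^ 2 := by
    have h3 : ∀ i ∈ (Finset.univ : Finset (Fin n)),
        ‖S.fam t zj (S.β zj) (Sum.inl i) (S.e.symm y)‖ ^ 2 ≤ ‖y - zj‖ ^ 2 := by
      intro i _
      have h4 : S.fam t zj (S.β zj) (Sum.inl i) (S.e.symm y) = (y - zj) i := by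
        show cp (S.e.symm y) i - zj i = _
        rw [hcp]; rfl
      rw [h4]
      gcongr
      exact norm_le_pi_norm _ i
    have := Finset.sum_le_card_nsmul _ _ _ h3
    simpa using this
  have h3 : ∑ i : Fin ν, ‖S.fam t zj (S.β zj) (Sum.inr i) (S.e.symm y)‖ ^ 2 ≤
      ν * (t * (L ^ 2 * ‖y - zj‖ ^ 2)) := by
    have h3 : ∀ i ∈ (Finset.univ : Finset (Fin ν)),
        ‖S.fam t zj (S.β zj) (Sum.inr i) (S.e.symm y)‖ ^ 2 ≤ t * (L ^ 2 * ‖y - zj‖ ^ 2) := by
      intro i _
      have h4 : S.fam t zj (S.β zj) (Sum.inr i) (S.e.symm y) =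
          (Real.sqrt t : ℂ) * (S.β y - S.β zj) i := by
        show (Real.sqrt t : ℂ) * (S.bt i (S.e.symm y) - S.β zj i) = _
        rw [S.bt_eq hyB, hcp]; rfl
      rw [h4, norm_mul, mul_pow, Complex.norm_real, Real.norm_eq_abs, sq_abs, Real.sq_sqrt ht]
      have h5 : ‖(S.β y - S.β zj) i‖ ≤ L * ‖y - zj‖ := (norm_le_pi_norm _ i).trans hy
      have h6 : ‖(S.β y - S.β zj) i‖ ^ 2 ≤ (L * ‖y - zj‖) ^ 2 := by gcongr
      rw [mul_pow] at h6
      gcongr
    have := Finset.sum_le_card_nsmul _ _ _ h3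
    simpa using this
  nlinarith [sq_nonneg (‖y - zj‖)]

end LDE

open LDE

variable [SecondCountableTopology M] [MeasurableSpace M] [BorelSpace M] {μ : Measure M}

/-- **prescribed jets** -/
theorem jets (hμ : IsLeb μ) {ρ : M → ℝ} (hρ : Sm ρ)
    (hcpt : ∀ c, IsCompact {x | ρ x ≤ c}) (hL : ∀ x w, nsq w ≤ Levi ρ x w)
    {W : ℕ → M → ℝ} (hWs : ∀ k, Sm (W k)) (hWa : ∀ x, Antitone (fun k => W k x))
    (hW0 : ∀ k x w, 0 ≤ Levi (W k) x w)
    (S : LD n ν M) {a t : ℝ} (ha : 0 < a) (ha1 : a ≤ 1 / 2) (har : a < (S.r / 8) ^ 2)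
    (ht : 0 ≤ t) {J : Type} [Fintype J] [DecidableEq J] {z : J → (Fin n → ℂ)}
    (hz : ∀ j, ‖z j - S.z0‖ ≤ S.r / 8)
    (hsep : ∀ i j, i ≠ j → ∃ l, 4 * a < t * ‖S.β (z i) l - S.β (z j) l‖ ^ 2)
    {C : ℝ} (hC : 0 ≤ C)
    (hb : ∀ δ s : ℝ, 0 < δ → δ ≤ 1 → 0 ≤ s → -C ≤ X1 a δ s ∧ -C ≤ X1 a δ s + s * X2 a δ s)
    {p : ℕ} (hp : n < p) {C1 : ℝ} (hC1 : 0 < C1)
    (hWB : ∀ k, ∀ x ∈ S.B, ∀ w, (p * C + C1) * S.qf t x w ≤ Levi (W k) x w)
    {Wl : M → ℝ} (hWl : Continuous Wl)
    (hWl' : ∀ k, ∀ x ∈ S.e.symm '' closedBall S.z0 (S.r / 4), Wl x ≤ W k x)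
    (j : J) (α : Fin n → ℕ) :
    ∃ F : M → ℂ, Ho51.Hol F ∧
      ∫⁻ x, ENNReal.ofReal (‖F x‖ ^ 2) * (⨆ k, ENNReal.ofReal (Real.exp (-(W k x)))) ∂μ < ⊤ ∧
      ∀ i, ∃ C' : ℝ, ∀ᶠ y in 𝓝 (z i),
        ‖F (S.e.symm y) - (if i = j then mo α (y - z i) else 0)‖ ≤ C' * ‖y - z i‖ ^ (p - n) := by
  have hLF := hμ.locallyFinite
  have ha1' : a < 1 := by linarith
  set Q : J → M → ℝ := fun j => S.Qf t (z j) (S.β (z j)) with hQdef
  have hQ : ∀ j, Sm (Q j) := fun j => S.sm_Qf _ _ _
  have hQ0 : ∀ j x, 0 ≤ Q j x := fun j x => S.Qf_nonneg _ _ _ x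
  have hQB : ∀ j, ∀ x, x ∉ S.B → a < Q j x := fun j x hx => S.Qf_far ha1' har (hz j) _ hx
  have hdis : ∀ i j x, Q i x ≤ a → Q j x ≤ a → i = j := by
    intro i j x hi hj
    by_contra hij
    have hxB : x ∈ S.B := by
      by_contra hx
      exact absurd hi (not_le.2 (hQB i x hx))
    obtain ⟨l, hl⟩ := hsep i j hij
    have e1 : Q i x = nS (S.fam t (z i) (S.β (z i))) x := by
      simp [hQdef, LD.Qf, S.th_one hxB]
    have e2 : Q j x = nS (S.fam t (z j) (S.β (z j))) x := by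
      simp [hQdef, LD.Qf, S.th_one hxB]
    have h1 := S.beta_le_nS ht (z i) (S.β (z i)) x l
    have h2 := S.beta_le_nS ht (z j) (S.β (z j)) x l
    rw [← e1] at h1
    rw [← e2] at h2
    have h3 : ‖S.β (z i) l - S.β (z j) l‖ ≤ ‖S.bt l x - S.β (z i) l‖ + ‖S.bt l x - S.β (z j) l‖ := by
      have : S.β (z i) l - S.β (z j) l = -(S.bt l x - S.β (z i) l) + (S.bt l x - S.β (z j) l) := by
        ring
      rw [this]
      refine (norm_add_le _ _).trans ?_
      rw [norm_neg]
    have h4 : ‖S.β (z i) l - S.β (z j) l‖ ^ 2 ≤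
        2 * ‖S.bt l x - S.β (z i) l‖ ^ 2 + 2 * ‖S.bt l x - S.β (z j) l‖ ^ 2 := by
      have h5 : ‖S.β (z i) l - S.β (z j) l‖ ^ 2 ≤
          (‖S.bt l x - S.β (z i) l‖ + ‖S.bt l x - S.β (z j) l‖) ^ 2 := by gcongr
      nlinarith [sq_nonneg (‖S.bt l x - S.β (z i) l‖ - ‖S.bt l x - S.β (z j) l‖)]
    have h5 := mul_le_mul_of_nonneg_left h4 ht
    nlinarith
  set G : M → ℂ := Gf S a t (z j) (S.β (z j)) α with hGdef
  have hG : Sm G := sm_Gf S a t _ _ α
  have hGc : HasCompactSupport G := Gf_compact S a t _ _ α ha ha1' har (hz j)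
  have hGt : tsupport G ⊆ S.e.symm '' closedBall S.z0 (S.r / 4) :=
    Gf_tsupport S a t _ _ α ha ha1' har (hz j)
  obtain ⟨F, hF, K, hK, hFK⟩ := solve_poles (μ := μ) hμ hρ hcpt hL hWs hWa hW0 ha hQ hQ0
    (B := S.B) (q := S.qf t) (fun x _ w => S.nsq_le_qf ht x w)
    (fun j x hx w => S.lev_Qf ht _ _ hx w) (fun j x hx w => S.dsq_Qf ht _ _ hx w) hQB hdis hC hb
    (p := p) (by positivity) hC1 hWB hG hGc
    (fun x hx i => db_Gf_far S a t _ _ α ha (hQB j x hx) i)
    (b := a / 4) (by positivity) (by linarith)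
    (fun x hx i => by
      obtain ⟨l, hl⟩ := hx
      by_contra hcon
      rw [not_le] at hcon
      by_cases hij : i = j
      · subst hij
        exact hl (db_Gf_near S a t _ _ α ha hcon l)
      · have h1 : a < Q j x := by
          by_contra h2
          exact hij (hdis i j x (by linarith) (not_lt.1 h2))
        exact hl (db_Gf_far S a t _ _ α ha h1 l))
    hWl (fun k x hx => hWl' k x (hGt hx))
  refine ⟨F, hF, ?_, ?_⟩
  · -- finiteness of the integral
    have hFc := hol_continuous hF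
    have hpt : ∀ x, ENNReal.ofReal (‖F x‖ ^ 2) * (⨆ k, ENNReal.ofReal (Real.exp (-(W k x)))) ≤
        2 * (ENNReal.ofReal (‖F x - G x‖ ^ 2) *
          (⨆ k, ENNReal.ofReal (Real.exp (-(W k x + p * Pw a Q k x))))) +
        ENNReal.ofReal (2 * ‖G x‖ ^ 2 * Real.exp (-Wl x)) := by
      intro x
      have h1 : ‖F x‖ ^ 2 ≤ 2 * ‖F x - G x‖ ^ 2 + 2 * ‖G x‖ ^ 2 := by
        have h2 : ‖F x‖ ≤ ‖F x - G x‖ + ‖G x‖ := by
          have : F x = (F x - G x) + G x := by ring
          conv_lhs => rw [this]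
          exact norm_add_le _ _
        have h3 : ‖F x‖ ^ 2 ≤ (‖F x - G x‖ + ‖G x‖) ^ 2 := by gcongr
        nlinarith [sq_nonneg (‖F x - G x‖ - ‖G x‖)]
      have h2 : ENNReal.ofReal (‖F x‖ ^ 2) ≤
          2 * ENNReal.ofReal (‖F x - G x‖ ^ 2) + ENNReal.ofReal (2 * ‖G x‖ ^ 2) := by
        refine (ENNReal.ofReal_le_ofReal h1).trans ?_
        rw [ENNReal.ofReal_add (by positivity) (by positivity), ENNReal.ofReal_mul (by norm_num)]
        simp
      have h3 : (⨆ k, ENNReal.ofReal (Real.exp (-(W k x)))) ≤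
          ⨆ k, ENNReal.ofReal (Real.exp (-(W k x + p * Pw a Q k x))) := by
        refine iSup_mono fun k => ENNReal.ofReal_le_ofReal (Real.exp_le_exp.2 ?_)
        have h4 := Pw_nonpos ha ha1 hQ0 k x
        have h5 : (0 : ℝ) ≤ p := by positivity
        nlinarith
      refine (mul_le_mul' h2 le_rfl).trans ?_
      rw [add_mul]
      refine add_le_add ?_ ?_
      · rw [mul_assoc]
        refine mul_le_mul' (le_refl (2 : ENNReal)) ?_
        exact mul_le_mul' (le_refl (ENNReal.ofReal (‖F x - G x‖ ^ 2))) h3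
      · by_cases hx : x ∈ tsupport G
        · have h8 : ENNReal.ofReal (2 * ‖G x‖ ^ 2 * Real.exp (-Wl x)) =
              ENNReal.ofReal (2 * ‖G x‖ ^ 2) * ENNReal.ofReal (Real.exp (-Wl x)) :=
            ENNReal.ofReal_mul (by positivity)
          rw [h8]
          refine mul_le_mul' le_rfl ?_
          refine iSup_le fun k => ENNReal.ofReal_le_ofReal (Real.exp_le_exp.2 ?_)
          linarith [hWl' k x (hGt hx)]
        · have h4 : G x = 0 := image_eq_zero_of_notMem_tsupport hx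
          simp [h4]
    refine lt_of_le_of_lt (lintegral_mono hpt) ?_
    have hGi : Integrable (fun x => 2 * ‖G x‖ ^ 2 * Real.exp (-Wl x)) μ := by
      have hc : Continuous (fun x => 2 * ‖G x‖ ^ 2 * Real.exp (-Wl x)) := by
        have := hG.continuous
        fun_prop
      refine hc.integrable_of_hasCompactSupport (HasCompactSupport.intro hGc fun x hx => ?_)
      have h4 : G x = 0 := image_eq_zero_of_notMem_tsupport hx
      simp [h4]
    have hm : Measurable (fun x => ENNReal.ofReal (2 * ‖G x‖ ^ 2 * Real.exp (-Wl x))) := by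
      have hc : Continuous (fun x => 2 * ‖G x‖ ^ 2 * Real.exp (-Wl x)) := by
        have := hG.continuous
        fun_prop
      exact hc.measurable.ennreal_ofReal
    rw [lintegral_add_right _ hm, lintegral_const_mul' _ _ (by norm_num)]
    refine ENNReal.add_lt_top.2 ⟨?_, hGi.lintegral_lt_top⟩
    exact ENNReal.mul_lt_top (by norm_num) (lt_of_le_of_lt hFK hK)
  · intro i
    have hzi : ‖z i - S.z0‖ < S.r / 4 := by
      have := hz i
      have := S.hr
      linarith
    obtain ⟨A, hA, hAev⟩ := Qf_le S t (z i) ht hzi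
    obtain ⟨R0, hR0, hR0b⟩ := Metric.eventually_nhds_iff_ball.1 hAev
    -- the radius
    set R : ℝ := min (R0 / 2) (Real.sqrt (a / (8 * A))) with hRdef
    have hR : 0 < R := lt_min (by positivity) (Real.sqrt_pos.2 (by positivity))
    have hRR0 : R < R0 := lt_of_le_of_lt (min_le_left _ _) (by linarith)
    have hR2 : A * R ^ 2 ≤ a / 8 := by
      have h1 : R ≤ Real.sqrt (a / (8 * A)) := min_le_right _ _
      have h2 : R ^ 2 ≤ a / (8 * A) := by
        calc R ^ 2 ≤ (Real.sqrt (a / (8 * A))) ^ 2 := by gcongr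
          _ = _ := Real.sq_sqrt (by positivity)
      calc A * R ^ 2 ≤ A * (a / (8 * A)) := by gcongr
        _ = a / 8 := by field_simp
    set f : (Fin n → ℂ) → ℂ := fun y =>
      F (S.e.symm y) - (if i = j then mo α (y - z i) else 0) with hfdef
    have hballs : ∀ y ∈ ball (z i) R, y ∈ S.e.target ∧ S.e.symm y ∈ S.B ∧
        Q i (S.e.symm y) ≤ A * ‖y - z i‖ ^ 2 := by
      intro y hy
      have h1 := hR0b y (ball_subset_ball hRR0.le hy)
      exact ⟨S.hB (S.ball_sub h1.1), h1.2.1, h1.2.2⟩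
    have hQi : ∀ y ∈ ball (z i) R, Q i (S.e.symm y) < a / 4 := by
      intro y hy
      have h1 := (hballs y hy).2.2
      have h2 : ‖y - z i‖ < R := by rw [← dist_eq_norm]; exact hy
      have h3 : A * ‖y - z i‖ ^ 2 ≤ A * R ^ 2 := by gcongr
      linarith
    have hfG : ∀ y ∈ ball (z i) R, f y = F (S.e.symm y) - G (S.e.symm y) := by
      intro y hy
      have hyt := (hballs y hy).1
      have hcp : cp (S.e.symm y) = y := S.he.cp_symm hyt
      have h1 := hQi y hy
      simp only [hfdef]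
      congr 1
      by_cases hij : i = j
      · rw [if_pos hij]
        subst hij
        simp only [hGdef, Gf]
        rw [eta_one ha h1.le, hcp]; simp
      · rw [if_neg hij]
        have h2 : a < Q j (S.e.symm y) := by
          by_contra h3
          exact hij (hdis i j _ (by linarith) (not_lt.1 h3))
        simp only [hGdef, Gf]
        rw [eta_zero ha h2.le]; simp
    have hfd : DifferentiableOn ℂ f (ball (z i) R) := by
      have h1 : DifferentiableOn ℂ (F ∘ S.e.symm) (ball (z i) R) :=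
        (hF S.e S.he).mono fun y hy => (hballs y hy).1
      refine DifferentiableOn.sub h1 ?_
      by_cases hij : i = j
      · simp only [if_pos hij]
        exact (mo_differentiable α (z i)).differentiableOn
      · simp only [if_neg hij]
        exact differentiableOn_const _
    -- upper bound of `W 0`
    have hKc : IsCompact (S.e.symm '' closedBall S.z0 (S.r / 4)) := S.sub_compact
    obtain ⟨Wt, hWt⟩ := (hKc.image (hWs 0).continuous).bddAbove
    have hWt' : ∀ k, ∀ x ∈ S.B, W k x ≤ Wt := by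
      intro k x hx
      exact (hWa x (Nat.zero_le k)).trans (hWt ⟨x, S.B_sub_compact hx, rfl⟩)
    -- measurability of the integrand
    have hFc := hol_continuous hF
    have hmeas : Measurable (fun x => ENNReal.ofReal (‖F x - G x‖ ^ 2) *
        (⨆ k, ENNReal.ofReal (Real.exp (-(W k x + p * Pw a Q k x))))) := by
      apply Measurable.mul
      · have : Continuous (fun x => ‖F x - G x‖ ^ 2) := ((hFc.sub hG.continuous).norm).pow 2
        exact this.measurable.ennreal_ofReal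
      · apply Measurable.iSup
        intro k
        have : Continuous (fun x => Real.exp (-(W k x + p * Pw a Q k x))) := by
          have h1 := (hWs k).continuous
          have h2 := (sm_Pw (a := a) hQ hQ0 k).continuous
          fun_prop
        exact this.measurable.ennreal_ofReal
    have hchart := lintegral_chart hμ S.he (f := fun x => ENNReal.ofReal (‖F x - G x‖ ^ 2) *
        (⨆ k, ENNReal.ofReal (Real.exp (-(W k x + p * Pw a Q k x))))) hmeas.aemeasurable
    have hT : ∫⁻ y in S.e.target, ENNReal.ofReal (‖F (S.e.symm y) - G (S.e.symm y)‖ ^ 2) *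
        (⨆ k, ENNReal.ofReal (Real.exp (-(W k (S.e.symm y) + p * Pw a Q k (S.e.symm y))))) ≤ K := by
      rw [← hchart]
      exact (setLIntegral_le_lintegral _ _).trans hFK
    refine order_of_decay (p := p) hfd hp (A := 2 * A) (R' := R) (by positivity) hR le_rfl
      (K := K * ENNReal.ofReal (Real.exp Wt))
      (ENNReal.mul_lt_top hK ENNReal.ofReal_lt_top) ?_
    intro s hs hsR
    -- pointwise comparison on the small ball
    have hpt : ∀ y ∈ closedBall (z i) s, ‖f y‖ₑ ^ 2 ≤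
        (ENNReal.ofReal (Real.exp Wt) * ENNReal.ofReal ((2 * A * s ^ 2) ^ p)) *
        (ENNReal.ofReal (‖F (S.e.symm y) - G (S.e.symm y)‖ ^ 2) *
        (⨆ k, ENNReal.ofReal (Real.exp (-(W k (S.e.symm y) + p * Pw a Q k (S.e.symm y)))))) := by
      intro y hy
      have hyR : y ∈ ball (z i) R := closedBall_subset_ball hsR hy
      have h1 : Q i (S.e.symm y) ≤ A * s ^ 2 := by
        refine (hballs y hyR).2.2.trans ?_
        have h2 : ‖y - z i‖ ≤ s := by rw [← dist_eq_norm]; exact hy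
        gcongr
      obtain ⟨k, hk⟩ : ∃ k, dl k < A * s ^ 2 :=
        (dl_tendsto.eventually (gt_mem_nhds (by positivity : (0 : ℝ) < A * s ^ 2))).exists
      have h2 : Pw a Q k (S.e.symm y) ≤ Real.log (2 * A * s ^ 2) := by
        rw [Pw_near ha hdis k (hQi y hyR).le]
        apply Real.log_le_log
        · have := hQ0 i (S.e.symm y)
          have := dl_pos k
          linarith
        · linarith
      have h3 : W k (S.e.symm y) ≤ Wt := hWt' k _ (hballs y hyR).2.1
      have hp0 : (0 : ℝ) ≤ p := by positivity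
      have hpos : 0 < 2 * A * s ^ 2 := by positivity
      have h4 : 1 ≤ Real.exp Wt * (2 * A * s ^ 2) ^ p *
          Real.exp (-(W k (S.e.symm y) + p * Pw a Q k (S.e.symm y))) := by
        have h5 : (2 * A * s ^ 2) ^ p = Real.exp (p * Real.log (2 * A * s ^ 2)) := by
          rw [Real.exp_nat_mul, Real.exp_log hpos]
        rw [h5, ← Real.exp_add, ← Real.exp_add]
        apply Real.one_le_exp
        nlinarith [mul_le_mul_of_nonneg_left h2 hp0]
      have h5 : (1 : ENNReal) ≤ (ENNReal.ofReal (Real.exp Wt) *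
          ENNReal.ofReal ((2 * A * s ^ 2) ^ p)) *
          (⨆ k, ENNReal.ofReal (Real.exp (-(W k (S.e.symm y) + p * Pw a Q k (S.e.symm y))))) := by
        have h6 : (1 : ENNReal) ≤ ENNReal.ofReal (Real.exp Wt * (2 * A * s ^ 2) ^ p *
          Real.exp (-(W k (S.e.symm y) + p * Pw a Q k (S.e.symm y)))) := by
          rw [← ENNReal.ofReal_one]
          exact ENNReal.ofReal_le_ofReal h4
        rw [ENNReal.ofReal_mul (by positivity), ENNReal.ofReal_mul (by positivity)] at h6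
        refine h6.trans (mul_le_mul' le_rfl ?_)
        exact le_iSup (fun k => ENNReal.ofReal
          (Real.exp (-(W k (S.e.symm y) + p * Pw a Q k (S.e.symm y))))) k
      have h6 : ‖f y‖ₑ ^ 2 = ENNReal.ofReal (‖F (S.e.symm y) - G (S.e.symm y)‖ ^ 2) := by
        rw [hfG y hyR, ENNReal.ofReal_pow (norm_nonneg _), ofReal_norm]
      rw [h6]
      calc ENNReal.ofReal (‖F (S.e.symm y) - G (S.e.symm y)‖ ^ 2)
          = 1 * ENNReal.ofReal (‖F (S.e.symm y) - G (S.e.symm y)‖ ^ 2) := (one_mul _).symm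
        _ ≤ _ := mul_le_mul' h5 le_rfl
        _ = _ := by ring
    calc ∫⁻ y in closedBall (z i) s, ‖f y‖ₑ ^ 2
        ≤ ∫⁻ y in closedBall (z i) s,
          (ENNReal.ofReal (Real.exp Wt) * ENNReal.ofReal ((2 * A * s ^ 2) ^ p)) *
          (ENNReal.ofReal (‖F (S.e.symm y) - G (S.e.symm y)‖ ^ 2) *
          (⨆ k, ENNReal.ofReal (Real.exp (-(W k (S.e.symm y) + p * Pw a Q k (S.e.symm y)))))) :=
          setLIntegral_mono' measurableSet_closedBall hpt
      _ = (ENNReal.ofReal (Real.exp Wt) * ENNReal.ofReal ((2 * A * s ^ 2) ^ p)) *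
          ∫⁻ y in closedBall (z i) s, (ENNReal.ofReal (‖F (S.e.symm y) - G (S.e.symm y)‖ ^ 2) *
          (⨆ k, ENNReal.ofReal (Real.exp (-(W k (S.e.symm y) + p * Pw a Q k (S.e.symm y)))))) :=
          lintegral_const_mul' _ _ (ENNReal.mul_ne_top ENNReal.ofReal_ne_top ENNReal.ofReal_ne_top)
      _ ≤ (ENNReal.ofReal (Real.exp Wt) * ENNReal.ofReal ((2 * A * s ^ 2) ^ p)) * K := by
          refine mul_le_mul' le_rfl ((lintegral_mono_set fun y hy => ?_).trans hT)
          exact (hballs y (closedBall_subset_ball hsR hy)).1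
      _ = K * ENNReal.ofReal (Real.exp Wt) * ENNReal.ofReal ((2 * A * s ^ 2) ^ p) := by ring

end Crest.Agent.R276.CntLowE_804
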