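import Crest.Agent.R276.CntLowE_804

/-!
# Row 276, COUNT-LOW (post 808 (I)(a)): the lower bound of the counting (helper804)

`M` a Riemann domain over `ℂⁿ` with a smooth strictly psh exhaustion, `φ_k ↓` smooth psh weights,
`ψ` a smooth psh weight; near one point `Levi φ_k ≥ c |w|²`, `Levi ψ ≥ c |Dβ(w)|²` for a holomorphic
submersion `β` to `ℂ^ν`.  Then for `N ≥ N₀` and all real `t ≥ 1` there are at least
`c₁ Nⁿ t^ν` linearly independent holomorphic functions with
`∫ |f|² sup_k e^{-((N-1) φ_k + N t ψ)} < ∞`.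
-/

set_option autoImplicit false
set_option linter.unusedSectionVars false

noncomputable section

open Set Filter Topology Complex MeasureTheory Metric

namespace Crest.Agent.R276.CntLow_804

open Crest.Agent.R271.Ho51 Crest.Agent.R271.W792 Crest.Agent.R276.CntLowA_804
open Crest.Agent.R271 Crest.Agent.R276.CntLowB_804 Crest.Agent.R276.CntLowC_804
open Crest.Agent.R276.CntLowD_804 Crest.Agent.R276.CntLowE_804

variable {n ν : ℕ} {M : Type} [TopologicalSpace M] [T2Space M] [RDom n M]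

lemma Levi_const_mul {φ : M → ℝ} (hφ : Sm φ) (c : ℝ) (x : M) (w : Fin n → ℂ) :
    Levi (fun y => c * φ y) x w = c * Levi φ x w := by
  rw [Levi_eq_lev ((Sm.const c).mulR hφ), lev_const_mul hφ, Levi_eq_lev hφ]

/-- `β` is open at `z0` -/
lemma exists_ball_image (S : LD n ν M) (hs : Function.Surjective (fderiv ℂ S.β S.z0)) :
    ∃ s0 : ℝ, 0 < s0 ∧ ∀ b ∈ closedBall (S.β S.z0) s0, ∃ z ∈ closedBall S.z0 (S.r / 8),
      S.β z = b := by
  have hz : S.z0 ∈ ball S.z0 S.r := mem_ball_self S.hr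
  have h1 : AnalyticAt ℂ S.β S.z0 :=
    R266.SCV.analyticOnNhd_of_differentiableOn isOpen_ball S.hβ _ hz
  have h2 : HasStrictFDerivAt S.β (fderiv ℂ S.β S.z0) S.z0 := h1.hasStrictFDerivAt
  have h3 := h2.map_nhds_eq_of_surj (LinearMap.range_eq_top.2 hs)
  have h4 : closedBall S.z0 (S.r / 8) ∈ 𝓝 S.z0 :=
    closedBall_mem_nhds _ (by have := S.hr; positivity)
  have h5 : S.β '' closedBall S.z0 (S.r / 8) ∈ 𝓝 (S.β S.z0) := by
    rw [← h3]; exact image_mem_map h4
  obtain ⟨s0, hs0, hs1⟩ := Metric.nhds_basis_closedBall.mem_iff.1 h5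
  refine ⟨s0, hs0, fun b hb => ?_⟩
  obtain ⟨z, hz, hzb⟩ := hs1 hb
  exact ⟨z, hz, hzb⟩

/-- the grid of points -/
lemma exists_grid (S : LD n ν M) {s0 : ℝ} (hs0 : 0 < s0)
    (him : ∀ b ∈ closedBall (S.β S.z0) s0, ∃ z ∈ closedBall S.z0 (S.r / 8), S.β z = b)
    {a t : ℝ} (ha : 0 < a) (has : a ≤ (s0 / 6) ^ 2) (ht : 1 ≤ t) :
    ∃ (J : Type) (_ : Fintype J) (_ : DecidableEq J) (z : J → (Fin n → ℂ)),
      (∀ j, ‖z j - S.z0‖ ≤ S.r / 8) ∧
      (∀ i j, i ≠ j → ∃ l, 4 * a < t * ‖S.β (z i) l - S.β (z j) l‖ ^ 2) ∧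
      (s0 ^ 2 / (144 * a)) ^ ν * t ^ ν ≤ (Fintype.card J : ℝ) := by
  have ht0 : 0 < t := by linarith
  set h : ℝ := 3 * Real.sqrt (a / t) with hh
  have hat : 0 < a / t := by positivity
  have hh0 : 0 < h := by positivity
  have hh2 : h ^ 2 = 9 * a / t := by
    rw [hh, mul_pow, Real.sq_sqrt hat.le]; ring
  have hhs : h ≤ s0 / 2 := by
    have h1 : Real.sqrt (a / t) ≤ s0 / 6 := by
      apply Real.sqrt_le_iff.2
      refine ⟨by positivity, ?_⟩
      refine le_trans ?_ has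
      exact div_le_self ha.le ht
    linarith
  set L : ℕ := ⌊s0 / (2 * h)⌋₊ with hL
  have hy1 : 1 ≤ s0 / (2 * h) := by
    rw [le_div_iff₀ (by positivity)]; linarith
  have hLle : (L : ℝ) ≤ s0 / (2 * h) := Nat.floor_le (by positivity)
  have hLlt : s0 / (2 * h) < L + 1 := Nat.lt_floor_add_one _
  have hL1 : (1 : ℝ) ≤ L := by
    have : 1 ≤ L := Nat.le_floor (by simpa using hy1)
    exact_mod_cast this
  have hLge : s0 / (4 * h) ≤ L := by
    have h1 : s0 / (2 * h) = 2 * (s0 / (4 * h)) := by field_simp; ring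
    rw [h1] at hLlt
    linarith
  let bb : (Fin ν → Fin L × Fin L) → (Fin ν → ℂ) := fun j l =>
    S.β S.z0 l + h * (((j l).1 : ℕ) + Complex.I * ((j l).2 : ℕ))
  have hbb : ∀ j, bb j ∈ closedBall (S.β S.z0) s0 := by
    intro j
    rw [mem_closedBall, dist_pi_le_iff hs0.le]
    intro l
    rw [dist_eq_norm]
    have h1 : bb j l - S.β S.z0 l = h * (((j l).1 : ℕ) + Complex.I * ((j l).2 : ℕ)) := by
      simp [bb]
    rw [h1, norm_mul, Complex.norm_real, Real.norm_of_nonneg hh0.le]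
    have h2 : ‖((((j l).1 : ℕ) : ℂ) + Complex.I * (((j l).2 : ℕ) : ℂ))‖ ≤ 2 * L := by
      refine (norm_add_le _ _).trans ?_
      rw [norm_mul, Complex.norm_I, one_mul, Complex.norm_natCast, Complex.norm_natCast]
      have h3 : (((j l).1 : ℕ) : ℝ) ≤ L := by exact_mod_cast (j l).1.2.le
      have h4 : (((j l).2 : ℕ) : ℝ) ≤ L := by exact_mod_cast (j l).2.2.le
      linarith
    calc h * ‖((((j l).1 : ℕ) : ℂ) + Complex.I * (((j l).2 : ℕ) : ℂ))‖ ≤ h * (2 * L) := by gcongr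
      _ ≤ h * (2 * (s0 / (2 * h))) := by gcongr
      _ = s0 := by field_simp
  choose z hz hzb using fun j => him (bb j) (hbb j)
  refine ⟨(Fin ν → Fin L × Fin L), inferInstance, inferInstance, z, ?_, ?_, ?_⟩
  · intro j
    rw [← dist_eq_norm]; exact hz j
  · intro i j hij
    obtain ⟨l, hl⟩ := Function.ne_iff.1 hij
    refine ⟨l, ?_⟩
    rw [hzb, hzb]
    have h1 : bb i l - bb j l = h * (((((i l).1 : ℕ) : ℤ) - (((j l).1 : ℕ) : ℤ) : ℤ) +
        Complex.I * (((((i l).2 : ℕ) : ℤ) - (((j l).2 : ℕ) : ℤ) : ℤ))) := by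
      simp only [bb]; push_cast; ring
    have h2 : 1 ≤ ‖((((((i l).1 : ℕ) : ℤ) - (((j l).1 : ℕ) : ℤ) : ℤ) : ℂ) +
        Complex.I * ((((((i l).2 : ℕ) : ℤ) - (((j l).2 : ℕ) : ℤ) : ℤ)) : ℂ))‖ := by
      set u : ℤ := (((i l).1 : ℕ) : ℤ) - (((j l).1 : ℕ) : ℤ) with hu
      set v : ℤ := (((i l).2 : ℕ) : ℤ) - (((j l).2 : ℕ) : ℤ) with hv
      have h3 : u ≠ 0 ∨ v ≠ 0 := by
        by_contra hcon
        push Not at hcon
        apply hl
        apply Prod.ext
        · apply Fin.ext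
          have := hcon.1
          omega
        · apply Fin.ext
          have := hcon.2
          omega
      have hre : ((u : ℂ) + Complex.I * (v : ℂ)).re = u := by simp
      have him' : ((u : ℂ) + Complex.I * (v : ℂ)).im = v := by simp
      rcases h3 with h3 | h3
      · have h4 : (1 : ℝ) ≤ |(u : ℝ)| := by
          have := Int.one_le_abs h3
          exact_mod_cast this
        refine h4.trans ?_
        rw [← hre]; exact Complex.abs_re_le_norm _
      · have h4 : (1 : ℝ) ≤ |(v : ℝ)| := by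
          have := Int.one_le_abs h3
          exact_mod_cast this
        refine h4.trans ?_
        rw [← him']; exact Complex.abs_im_le_norm _
    have h3 : h ≤ ‖bb i l - bb j l‖ := by
      rw [h1, norm_mul, Complex.norm_real, Real.norm_of_nonneg hh0.le]
      nlinarith
    have h4 : h ^ 2 ≤ ‖bb i l - bb j l‖ ^ 2 := by gcongr
    rw [hh2] at h4
    have h5 : t * (9 * a / t) ≤ t * ‖bb i l - bb j l‖ ^ 2 := by gcongr
    have h6 : t * (9 * a / t) = 9 * a := by field_simp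
    rw [h6] at h5
    linarith
  · have h1 : (Fintype.card (Fin ν → Fin L × Fin L) : ℝ) = ((L : ℝ) * L) ^ ν := by
      rw [Fintype.card_fun, Fintype.card_prod, Fintype.card_fin, Fintype.card_fin]
      push_cast; ring
    rw [h1, ← mul_pow]
    have h2 : s0 ^ 2 / (144 * a) * t ≤ (L : ℝ) * L := by
      have h3 : (s0 / (4 * h)) ^ 2 ≤ (L : ℝ) ^ 2 := by gcongr
      have h4 : (s0 / (4 * h)) ^ 2 = s0 ^ 2 / (144 * a) * t := by
        rw [div_pow, mul_pow, hh2]; field_simp; ring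
      rw [h4] at h3
      nlinarith
    gcongr

variable [SecondCountableTopology M] [MeasurableSpace M] [BorelSpace M] {μ : Measure M}

/-- arithmetic of the curvature estimate -/
lemma curv_arith {N t c pC a s P Q : ℝ} (hN : 2 ≤ N) (ht : 0 ≤ t) (hc : 0 < c)
    (hpC : pC ≤ N * c / 4) (ha : 0 ≤ a) (hs : 0 ≤ s) (hP : c * a ≤ P) (hQ : c * s ≤ Q) :
    (pC + N * c / 4) * (a + t * s) ≤ (N - 1) * P + N * t * Q := by
  have h5 : (pC + N * c / 4) * (a + t * s) ≤ (N * c / 2) * (a + t * s) := by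
    apply mul_le_mul_of_nonneg_right (by linarith)
    positivity
  have h6 : (N * c / 2) * a ≤ (N - 1) * P := by
    calc (N * c / 2) * a ≤ (N - 1) * (c * a) := by
          have h7 : 0 ≤ c * a := by positivity
          nlinarith
      _ ≤ _ := by
          apply mul_le_mul_of_nonneg_left hP
          linarith
  have h7 : (N * c / 2) * (t * s) ≤ N * t * Q := by
    have hNt : 0 ≤ N * t := by positivity
    calc (N * c / 2) * (t * s) ≤ N * t * (c * s) := by
          have h8 : 0 ≤ N * t * (c * s) := by positivity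
          nlinarith
      _ ≤ _ := mul_le_mul_of_nonneg_left hQ hNt
  have h8 : (N * c / 2) * (a + t * s) = (N * c / 2) * a + (N * c / 2) * (t * s) := by ring
  linarith

set_option maxHeartbeats 1000000 in
/-- **COUNT-LOW** -/
theorem count_low (hμ : IsLeb μ) {ρ : M → ℝ} (hρ : Sm ρ)
    (hcpt : ∀ c, IsCompact {x | ρ x ≤ c}) (hL : ∀ x w, nsq w ≤ Levi ρ x w)
    {φs : ℕ → M → ℝ} (hφs : ∀ k, Sm (φs k)) (hφa : ∀ x, Antitone (fun k => φs k x))
    (hφ0 : ∀ k x w, 0 ≤ Levi (φs k) x w)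
    {ψ : M → ℝ} (hψ : Sm ψ) (hψ0 : ∀ x w, 0 ≤ Levi ψ x w)
    (S : LD n ν M) (hs : Function.Surjective (fderiv ℂ S.β S.z0)) {c A : ℝ} (hc : 0 < c)
    (hφc : ∀ k, ∀ z ∈ ball S.z0 S.r, ∀ w, c * nsq w ≤ Levi (φs k) (S.e.symm z) w)
    (hφA : ∀ k, ∀ z ∈ ball S.z0 S.r, -A ≤ φs k (S.e.symm z))
    (hψc : ∀ z ∈ ball S.z0 S.r, ∀ w, c * ∑ i, ‖fderiv ℂ S.β z w i‖ ^ 2 ≤
      Levi ψ (S.e.symm z) w) :
    ∃ c1 : ℝ, 0 < c1 ∧ ∃ N0 : ℕ, ∀ N : ℕ, N0 ≤ N → ∀ t : ℝ, 1 ≤ t →
      ∃ (ι : Type) (_ : Fintype ι) (f : ι → M → ℂ), LinearIndependent ℂ f ∧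
        (∀ i, Ho51.Hol (f i) ∧ ∫⁻ x, ENNReal.ofReal (‖f i x‖ ^ 2) *
          (⨆ k, ENNReal.ofReal (Real.exp (-(((N : ℝ) - 1) * φs k x + N * t * ψ x)))) ∂μ < ⊤) ∧
        c1 * (N : ℝ) ^ n * t ^ ν ≤ (Fintype.card ι : ℝ) := by
  classical
  obtain ⟨s0, hs0, him⟩ := exists_ball_image S hs
  -- the threshold
  have hr := S.hr
  obtain ⟨a, ha, ha1, har, has⟩ : ∃ a : ℝ, 0 < a ∧ a ≤ 1 / 2 ∧ a < (S.r / 8) ^ 2 ∧
      a ≤ (s0 / 6) ^ 2 := by
    refine ⟨min (1 / 2) (min ((S.r / 8) ^ 2 / 2) ((s0 / 6) ^ 2)), ?_, min_le_left _ _, ?_, ?_⟩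
    · exact lt_min (by norm_num) (lt_min (by positivity) (by positivity))
    · refine lt_of_le_of_lt ((min_le_right _ _).trans (min_le_left _ _)) ?_
      have : 0 < (S.r / 8) ^ 2 := by positivity
      linarith
    · exact (min_le_right _ _).trans (min_le_right _ _)
  obtain ⟨C, hC, hb⟩ := X_bounds ha
  set ε : ℝ := c / (16 * C * (n + 1)) with hε
  have hε0 : 0 < ε := by positivity
  set c1 : ℝ := (s0 ^ 2 / (144 * a)) ^ ν * ε ^ n with hc1
  obtain ⟨N0, hN0⟩ : ∃ N0 : ℕ, (2 * n + 4) * (4 * C) / c ≤ N0 := exists_nat_ge _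
  refine ⟨c1, by positivity, max N0 2, fun N hN t ht => ?_⟩
  have hN2 : 2 ≤ N := le_trans (le_max_right _ _) hN
  have hN2' : (2 : ℝ) ≤ N := by exact_mod_cast hN2
  have hNN : (2 * n + 4) * (4 * C) / c ≤ (N : ℝ) :=
    hN0.trans (by exact_mod_cast le_trans (le_max_left _ _) hN)
  have hNc : (2 * n + 4 : ℝ) ≤ N * c / (4 * C) := by
    rw [le_div_iff₀ (by positivity)]
    rw [div_le_iff₀ hc] at hNN
    exact hNN
  have ht0 : 0 ≤ t := by linarith
  obtain ⟨J, hJ1, hJ2, z, hz, hsep, hcard⟩ := exists_grid S hs0 him ha has ht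
  -- the order of the poles
  set p : ℕ := ⌊(N : ℝ) * c / (4 * C)⌋₊ with hp
  have hple : (p : ℝ) ≤ N * c / (4 * C) := Nat.floor_le (by positivity)
  have hplt : (N : ℝ) * c / (4 * C) < p + 1 := Nat.lt_floor_add_one _
  have hpn : 2 * n + 2 < p + 1 := by
    have h1 : ((2 * n + 2 : ℕ) : ℝ) < ((p + 1 : ℕ) : ℝ) := by push_cast; linarith
    exact_mod_cast h1
  set q : ℕ := p / (n + 1) with hq
  have hq1 : 1 ≤ q := by
    rw [hq, Nat.one_le_div_iff (by omega)]; omega
  have hq2 : (n + 1) * q ≤ p := Nat.mul_div_le p (n + 1)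
  have hq3 : p < (n + 1) * q + (n + 1) := by
    have h := Nat.lt_mul_div_succ p (Nat.succ_pos n)
    rw [Nat.succ_eq_add_one, mul_add, mul_one] at h
    rw [hq]; exact h
  have hq4 : n * q < p := by nlinarith
  -- the weights
  set W : ℕ → M → ℝ := fun k x => ((N : ℝ) - 1) * φs k x + N * t * ψ x with hW
  have hN1 : 0 ≤ (N : ℝ) - 1 := by linarith
  have hNt : 0 ≤ (N : ℝ) * t := by positivity
  have hWs : ∀ k, Sm (W k) := fun k =>
    ((Sm.const _).mulR (hφs k)).add ((Sm.const _).mulR hψ)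
  have hWL : ∀ k x w, Levi (W k) x w =
      ((N : ℝ) - 1) * Levi (φs k) x w + N * t * Levi ψ x w := by
    intro k x w
    simp only [hW]
    rw [Levi_add ((Sm.const _).mulR (hφs k)) ((Sm.const _).mulR hψ), Levi_const_mul (hφs k),
      Levi_const_mul hψ]
  have hWa : ∀ x, Antitone (fun k => W k x) := by
    intro x k l hkl
    have := hφa x hkl
    simp only [hW] at this ⊢
    nlinarith [mul_le_mul_of_nonneg_left this hN1]
  have hW0 : ∀ k x w, 0 ≤ Levi (W k) x w := by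
    intro k x w
    rw [hWL]
    exact add_nonneg (mul_nonneg hN1 (hφ0 k x w)) (mul_nonneg hNt (hψ0 x w))
  have hpC : (p : ℝ) * C ≤ N * c / 4 := by
    calc (p : ℝ) * C ≤ N * c / (4 * C) * C := by gcongr
      _ = N * c / 4 := by field_simp
  have hWB : ∀ k, ∀ x ∈ S.B, ∀ w, (p * C + N * c / 4) * S.qf t x w ≤ Levi (W k) x w := by
    intro k x hx w
    have hxz : S.e.symm (cp x) = x := S.he.symm_cp hx.1
    have hxb : cp x ∈ ball S.z0 S.r := S.ball_sub hx.2
    have h1 := hφc k _ hxb w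
    have h2 := hψc _ hxb w
    rw [hxz] at h1 h2
    have h3 : S.qf t x w = nsq w + t * ∑ i, ‖fderiv ℂ S.β (cp x) w i‖ ^ 2 := by
      unfold LD.qf
      congr 2
      refine Finset.sum_congr rfl fun i _ => ?_
      rw [S.D_bt hx]
    rw [hWL, h3]
    exact curv_arith hN2' ht0 hc hpC (nsq_nonneg w)
      (Finset.sum_nonneg fun _ _ => by positivity) h1 h2
  have hWl : Continuous (fun x => ((N : ℝ) - 1) * (-A) + N * t * ψ x) := by
    have := hψ.continuous
    fun_prop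
  have hWl' : ∀ k, ∀ x ∈ S.e.symm '' closedBall S.z0 (S.r / 4),
      ((N : ℝ) - 1) * (-A) + N * t * ψ x ≤ W k x := by
    rintro k _ ⟨y, hy, rfl⟩
    have h1 := hφA k y (closedBall_subset_ball (by linarith) hy)
    simp only [hW]
    nlinarith [mul_le_mul_of_nonneg_left h1 hN1]
  have key := fun (j : J) (α : Fin n → Fin q) =>
    jets (μ := μ) hμ hρ hcpt hL hWs hWa hW0 S ha ha1 har ht0 hz hsep hC.le hb
      (p := p) (by omega) (C1 := N * c / 4) (by positivity) hWB hWl hWl' j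
      (fun i => ((α i : Fin q) : ℕ))
  choose F hF hFi hFj using key
  refine ⟨J × (Fin n → Fin q), inferInstance, fun x => F x.1 x.2, ?_, ?_, ?_⟩
  · refine linInd_of_jets (n := n) (d := fun (α : Fin n → Fin q) (i : Fin n) => ((α i : Fin q) : ℕ))
      ?_ (k := p - n) ?_ (z := z) (s := fun _ => S.e.symm) ?_
    · intro α β h
      funext i
      exact Fin.ext (congrFun h i)
    · intro α
      have h1 : ∑ i, ((α i : Fin q) : ℕ) ≤ n * (q - 1) := by
        have h2 : ∀ i ∈ (Finset.univ : Finset (Fin n)), ((α i : Fin q) : ℕ) ≤ q - 1 := by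
          intro i _
          have := (α i).2
          omega
        have := Finset.sum_le_card_nsmul _ _ _ h2
        simpa using this
      have h3 : n * (q - 1) = n * q - n := by
        rw [Nat.mul_sub, mul_one]
      omega
    · intro j α i
      exact hFj j α i
  · intro x
    exact ⟨hF x.1 x.2, hFi x.1 x.2⟩
  · rw [Fintype.card_prod, Fintype.card_fun, Fintype.card_fin, Fintype.card_fin]
    push_cast
    have hq5 : ε * N ≤ q := by
      have h1 : (p : ℝ) < (n + 1) * q + (n + 1) := by exact_mod_cast hq3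
      have h2 : (p : ℝ) ≥ N * c / (8 * C) + n + 1 := by
        have h3 : (N : ℝ) * c / (4 * C) = 2 * (N * c / (8 * C)) := by field_simp; ring
        rw [h3] at hplt hNc
        linarith
      have h3 : ε * N * (n + 1) = N * c / (16 * C) := by
        rw [hε]; field_simp
      have h4 : (N : ℝ) * c / (8 * C) = 2 * (N * c / (16 * C)) := by field_simp; ring
      have h5 : 0 ≤ (N : ℝ) * c / (16 * C) := by positivity
      have h6 : ε * N * (n + 1) ≤ q * (n + 1) := by
        rw [h3]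
        rw [h4] at h2
        linarith
      exact le_of_mul_le_mul_right h6 (by positivity)
    calc c1 * (N : ℝ) ^ n * t ^ ν
        = ((s0 ^ 2 / (144 * a)) ^ ν * t ^ ν) * (ε * N) ^ n := by
          rw [hc1, mul_pow]; ring
      _ ≤ (Fintype.card J : ℝ) * (q : ℝ) ^ n := by gcongr

end Crest.Agent.R276.CntLow_804
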