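import Mathlib

/-!
Row 276, leaf ALG-COA (helper375), part 1: a change of variables formula for correspondences given
by equal values of two maps.
-/

set_option autoImplicit false
set_option linter.unusedSectionVars false

noncomputable section

open Set Filter Topology MeasureTheory
open scoped ENNReal NNReal

namespace Crest.Agent.R276.Coa_375

variable {E : Type*} [NormedAddCommGroup E] [NormedSpace ℝ E] [FiniteDimensional ℝ E]
  [MeasurableSpace E] [BorelSpace E] (μ : Measure E) [μ.IsAddHaarMeasure]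
variable {V : Type*} [NormedAddCommGroup V] [NormedSpace ℝ V]

/-- A map which vanishes on a measurable set has zero derivative at almost every point of it. -/
theorem ae_deriv_eq_zero [FiniteDimensional ℝ V] {s : Set E} (hs : MeasurableSet s) {u : E → V}
    (hu : ∀ x ∈ s, u x = 0) {u' : E → E →L[ℝ] V}
    (hu' : ∀ x ∈ s, HasFDerivWithinAt u (u' x) s x) : ∀ᵐ x ∂μ.restrict s, u' x = 0 := by
  rcases subsingleton_or_nontrivial E with hE | hE
  · refine Eventually.of_forall fun x => ?_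
    ext v
    rw [Subsingleton.elim v 0]; simp
  obtain ⟨e0, he0⟩ := exists_ne (0 : E)
  let bV := Module.finBasis ℝ V
  have h1 : ∀ i, ∀ᵐ x ∂μ.restrict s, ∀ v, bV.coord i (u' x v) = 0 := by
    intro i
    let l : V →L[ℝ] E :=
      (LinearMap.toContinuousLinearMap (bV.coord i)).smulRight e0
    have h2 : ApproximatesLinearOn (fun x => l (u x)) (0 : E →L[ℝ] E) s 0 := by
      intro x hx y hy
      simp [hu x hx, hu y hy]
    have h3 : ∀ x ∈ s, HasFDerivWithinAt (fun x => l (u x)) (l.comp (u' x)) s x := fun x hx =>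
      l.hasFDerivAt.comp_hasFDerivWithinAt x (hu' x hx)
    have h4 := h2.norm_fderiv_sub_le μ hs (fun x => l.comp (u' x)) h3
    filter_upwards [h4] with x hx v
    have h5 : l.comp (u' x) = 0 := by
      have : ‖l.comp (u' x) - 0‖₊ = 0 := le_antisymm hx bot_le
      simpa using this
    have h6 : l (u' x v) = 0 := congrArg (fun L : E →L[ℝ] E => L v) h5
    simp only [ContinuousLinearMap.smulRight_apply, l,
      LinearMap.coe_toContinuousLinearMap', smul_eq_zero] at h6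
    exact h6.resolve_right he0
  have h7 : ∀ᵐ x ∂μ.restrict s, ∀ i, ∀ v, bV.coord i (u' x v) = 0 := ae_all_iff.2 h1
  filter_upwards [h7] with x hx
  ext v
  exact (bV.forall_coord_eq_zero_iff).1 fun i => hx i v

section inverse

variable {X Y : Type*} [NormedAddCommGroup X] [NormedSpace ℝ X] [CompleteSpace X]
  [NormedAddCommGroup Y] [NormedSpace ℝ Y]

/-- an injective local diffeomorphism: data at a point -/
theorem inv_at {Ψ : X → Y} {Ω : Set X} (hΩ : IsOpen Ω) (inj : InjOn Ψ Ω) {x : X} (hx : x ∈ Ω)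
    {L : X ≃L[ℝ] Y} (hL : HasStrictFDerivAt Ψ (L : X →L[ℝ] Y) x) [Nonempty X] :
    Ψ '' Ω ∈ 𝓝 (Ψ x) ∧
      HasFDerivAt (Function.invFunOn Ψ Ω) (L.symm : Y →L[ℝ] X) (Ψ x) := by
  constructor
  · rw [← hL.map_nhds_eq_of_equiv]
    exact image_mem_map (hΩ.mem_nhds hx)
  · have h1 := hL.to_localInverse
    have h2 : ∀ᶠ y in 𝓝 (Ψ x), Ψ (hL.localInverse Ψ L x y) = y := hL.eventually_right_inverse
    have h3 : ∀ᶠ y in 𝓝 (Ψ x), hL.localInverse Ψ L x y ∈ Ω :=
      hL.localInverse_tendsto.eventually (hΩ.mem_nhds hx)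
    have h4 : Function.invFunOn Ψ Ω =ᶠ[𝓝 (Ψ x)] hL.localInverse Ψ L x := by
      filter_upwards [h2, h3] with y hy1 hy2
      have h5 : y ∈ Ψ '' Ω := ⟨_, hy2, hy1⟩
      have h6 := Function.invFunOn_pos h5
      exact inj h6.1 hy2 (h6.2.trans hy1.symm)
    exact h1.hasFDerivAt.congr_of_eventuallyEq h4

end inverse

variable (E V) in
/-- a foliated box in coordinates `(ζ, y) ∈ ℂ × E` -/
structure CBox where
  /-- the domain -/
  Ω : Set (ℂ × E)
  hΩ : IsOpen Ω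
  /-- the map whose level sets are the plaques -/
  F : ℂ × E → V
  hF : ContDiffOn ℝ 1 F Ω
  /-- a linear projection making `F` a transversal coordinate -/
  π : V →L[ℝ] E
  inj : InjOn (fun p : ℂ × E => (p.1, π (F p))) Ω
  der : ∀ p ∈ Ω, ∀ v : E, π (fderiv ℝ F p (0, v)) = 0 → v = 0

namespace CBox

variable (B : CBox E V)

/-- the foliated coordinates -/
def Ψ (p : ℂ × E) : ℂ × E := (p.1, B.π (B.F p))

/-- the inverse of the foliated coordinates -/
def Φ : ℂ × E → ℂ × E := Function.invFunOn B.Ψ B.Ω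

lemma inj' : InjOn B.Ψ B.Ω := B.inj

lemma Φ_Ψ {p : ℂ × E} (hp : p ∈ B.Ω) : B.Φ (B.Ψ p) = p :=
  B.inj'.leftInvOn_invFunOn hp

lemma hasFDerivAt {p : ℂ × E} (hp : p ∈ B.Ω) : HasFDerivAt B.F (fderiv ℝ B.F p) p :=
  ((B.hF.contDiffAt (B.hΩ.mem_nhds hp)).differentiableAt (by simp)).hasFDerivAt

/-- the derivative of the foliated coordinates -/
def DΨ (p : ℂ × E) : ℂ × E →L[ℝ] ℂ × E :=
  (ContinuousLinearMap.fst ℝ ℂ E).prod (B.π.comp (fderiv ℝ B.F p))

lemma DΨ_inj {p : ℂ × E} (hp : p ∈ B.Ω) : Function.Injective (B.DΨ p) := by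
  rw [injective_iff_map_eq_zero]
  rintro ⟨a, v⟩ h
  simp only [DΨ, ContinuousLinearMap.prod_apply, ContinuousLinearMap.coe_fst',
    ContinuousLinearMap.comp_apply, Prod.mk_eq_zero] at h
  obtain ⟨rfl, h2⟩ := h
  rw [B.der p hp v h2]
  rfl

/-- the derivative of the foliated coordinates as an equivalence -/
def LΨ {p : ℂ × E} (hp : p ∈ B.Ω) : (ℂ × E) ≃L[ℝ] (ℂ × E) :=
  (LinearEquiv.ofInjectiveEndo (B.DΨ p : (ℂ × E) →ₗ[ℝ] (ℂ × E)) (B.DΨ_inj hp)).toContinuousLinearEquiv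

lemma coe_LΨ {p : ℂ × E} (hp : p ∈ B.Ω) : (B.LΨ hp : ℂ × E →L[ℝ] ℂ × E) = B.DΨ p := by
  ext v <;> rfl

lemma hasStrictFDerivAt_Ψ {p : ℂ × E} (hp : p ∈ B.Ω) :
    HasStrictFDerivAt B.Ψ (B.LΨ hp : ℂ × E →L[ℝ] ℂ × E) p := by
  rw [coe_LΨ]
  have h1 : HasStrictFDerivAt B.F (fderiv ℝ B.F p) p :=
    (B.hF.contDiffAt (B.hΩ.mem_nhds hp)).hasStrictFDerivAt (by simp)
  exact hasStrictFDerivAt_fst.prodMk (B.π.hasStrictFDerivAt.comp p h1)

lemma isOpen_image : IsOpen (B.Ψ '' B.Ω) := by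
  rw [isOpen_iff_mem_nhds]
  rintro _ ⟨p, hp, rfl⟩
  exact (inv_at B.hΩ B.inj' hp (B.hasStrictFDerivAt_Ψ hp)).1

lemma hasFDerivAt_Φ {p : ℂ × E} (hp : p ∈ B.Ω) :
    HasFDerivAt B.Φ ((B.LΨ hp).symm : ℂ × E →L[ℝ] ℂ × E) (B.Ψ p) :=
  (inv_at B.hΩ B.inj' hp (B.hasStrictFDerivAt_Ψ hp)).2

lemma continuousOn_Φ : ContinuousOn B.Φ (B.Ψ '' B.Ω) := by
  rintro _ ⟨p, hp, rfl⟩
  exact (B.hasFDerivAt_Φ hp).continuousAt.continuousWithinAt

lemma Φ_mem {q : ℂ × E} (hq : q ∈ B.Ψ '' B.Ω) : B.Φ q ∈ B.Ω :=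
  (Function.invFunOn_pos hq).1

lemma Ψ_Φ {q : ℂ × E} (hq : q ∈ B.Ψ '' B.Ω) : B.Ψ (B.Φ q) = q :=
  (Function.invFunOn_pos hq).2

section corr

variable {X : Type*} [TopologicalSpace X]

/-- the correspondence: pairs `(ζ, x)` such that the value `G x` is attained in the box over `ζ` -/
def A (T : Set X) (G : X → V) : Set (ℂ × X) :=
  {q | q.2 ∈ T ∧ ∃ y, (q.1, y) ∈ B.Ω ∧ B.F (q.1, y) = G q.2}

/-- the point of the box over `ζ` with value `G x` -/
def h (G : X → V) (q : ℂ × X) : ℂ × E := B.Φ (q.1, B.π (G q.2))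

lemma h_eq {G : X → V} {ζ : ℂ} {x : X} {y : E} (hy : (ζ, y) ∈ B.Ω) (hG : B.F (ζ, y) = G x) :
    B.h G (ζ, x) = (ζ, y) := by
  have := B.Φ_Ψ hy
  simp only [Ψ, hG] at this
  exact this

lemma A_eq (T : Set X) (G : X → V) : B.A T G =
    {q | q.2 ∈ T ∧ (q.1, B.π (G q.2)) ∈ B.Ψ '' B.Ω ∧ B.F (B.h G q) = G q.2} := by
  ext ⟨ζ, x⟩
  simp only [A, mem_ofPred_eq]
  constructor
  · rintro ⟨h1, y, hy, hG⟩
    refine ⟨h1, ⟨(ζ, y), hy, ?_⟩, ?_⟩
    · simp [Ψ, hG]
    · rw [B.h_eq hy hG, hG]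
  · rintro ⟨h1, h2, h3⟩
    refine ⟨h1, (B.h G (ζ, x)).2, ?_⟩
    have h4 : B.h G (ζ, x) ∈ B.Ω := B.Φ_mem h2
    have h5 : (B.h G (ζ, x)).1 = ζ := by
      have := congrArg Prod.fst (B.Ψ_Φ h2)
      exact this
    have h6 : (ζ, (B.h G (ζ, x)).2) = B.h G (ζ, x) := Prod.ext h5.symm rfl
    rw [h6]
    exact ⟨h4, h3⟩

lemma continuousOn_h {T : Set X} {G : X → V} (hG : ContinuousOn G T) :
    ContinuousOn (B.h G) {q | q.2 ∈ T ∧ (q.1, B.π (G q.2)) ∈ B.Ψ '' B.Ω} := by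
  refine B.continuousOn_Φ.comp ?_ fun q hq => hq.2
  have h1 : ContinuousOn (fun q : ℂ × X => G q.2)
      {q | q.2 ∈ T ∧ (q.1, B.π (G q.2)) ∈ B.Ψ '' B.Ω} :=
    hG.comp continuousOn_snd fun q hq => hq.1
  exact continuousOn_fst.prodMk (B.π.continuous.comp_continuousOn h1)

lemma isOpen_O {T : Set X} (hT : IsOpen T) {G : X → V} (hG : ContinuousOn G T) :
    IsOpen {q : ℂ × X | q.2 ∈ T ∧ (q.1, B.π (G q.2)) ∈ B.Ψ '' B.Ω} := by
  have h1 : ContinuousOn (fun q : ℂ × X => (q.1, B.π (G q.2))) (Prod.snd ⁻¹' T) := by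
    refine continuousOn_fst.prodMk (B.π.continuous.comp_continuousOn ?_)
    exact hG.comp continuousOn_snd fun q hq => hq
  exact h1.isOpen_inter_preimage (hT.preimage continuous_snd) B.isOpen_image

lemma measurableSet_A [MeasurableSpace X] [BorelSpace X] [SecondCountableTopology X]
    {T : Set X} (hT : IsOpen T) {G : X → V} (hG : ContinuousOn G T) :
    MeasurableSet (B.A T G) := by
  rw [A_eq]
  set O : Set (ℂ × X) := {q | q.2 ∈ T ∧ (q.1, B.π (G q.2)) ∈ B.Ψ '' B.Ω} with hO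
  have hOo : IsOpen O := B.isOpen_O hT hG
  have h1 : ContinuousOn (fun q : ℂ × X => B.F (B.h G q) - G q.2) O := by
    refine ContinuousOn.sub ?_ ?_
    · exact B.hF.continuousOn.comp (B.continuousOn_h hG) fun q hq => B.Φ_mem hq.2
    · exact hG.comp continuousOn_snd fun q hq => hq.1
  obtain ⟨C, hC, hC2⟩ := (continuousOn_iff_isClosed.1 h1) {0} isClosed_singleton
  have h2 : {q : ℂ × X | q.2 ∈ T ∧ (q.1, B.π (G q.2)) ∈ B.Ψ '' B.Ω ∧ B.F (B.h G q) = G q.2}
      = C ∩ O := by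
    rw [← hC2]
    ext q
    simp only [mem_ofPred_eq, mem_inter_iff, mem_preimage, mem_singleton_iff, sub_eq_zero, hO]
    tauto
  rw [h2]
  exact hC.measurableSet.inter hOo.measurableSet

end corr

section cv

variable [FiniteDimensional ℝ V]

/-- the slice of the correspondence over `ζ` -/
def As (ζ : ℂ) (T : Set E) (G : E → V) : Set E := {t | (ζ, t) ∈ B.A T G}

/-- the slice map -/
def hs (ζ : ℂ) (G : E → V) (t : E) : E := (B.h G (ζ, t)).2

lemma measurableSet_As {T : Set E} (hT : IsOpen T) {G : E → V} (hG : ContinuousOn G T) (ζ : ℂ) :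
    MeasurableSet (B.As ζ T G) :=
  (B.measurableSet_A hT hG).preimage (by fun_prop : Measurable fun t : E => (ζ, t))

open Classical in
/-- derivative of `t ↦ B.h G (ζ, t)` -/
def Dh (ζ : ℂ) (G : E → V) (t : E) : E →L[ℝ] ℂ × E :=
  if hp : B.h G (ζ, t) ∈ B.Ω then
    ((B.LΨ hp).symm : ℂ × E →L[ℝ] ℂ × E).comp
      ((0 : E →L[ℝ] ℂ).prod (B.π.comp (fderiv ℝ G t)))
  else 0

lemma of_mem_As {ζ : ℂ} {T : Set E} {G : E → V} {t : E} (ht : t ∈ B.As ζ T G) :
    t ∈ T ∧ B.h G (ζ, t) = (ζ, B.hs ζ G t) ∧ (ζ, B.hs ζ G t) ∈ B.Ω ∧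
      B.F (ζ, B.hs ζ G t) = G t := by
  obtain ⟨h1, y, hy, hG⟩ := ht
  have h2 := B.h_eq (x := t) hy hG
  have h3 : B.hs ζ G t = y := by rw [hs, h2]
  rw [h3]
  exact ⟨h1, h2, hy, hG⟩

lemma hasFDerivAt_h {ζ : ℂ} {T : Set E} (hT : IsOpen T) {G : E → V} (hG : ContDiffOn ℝ 1 G T)
    {t : E} (ht : t ∈ B.As ζ T G) :
    HasFDerivAt (fun t => B.h G (ζ, t)) (B.Dh ζ G t) t := by
  obtain ⟨h1, h2, h3, h4⟩ := B.of_mem_As ht
  have hp : B.h G (ζ, t) ∈ B.Ω := by rw [h2]; exact h3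
  have hd : HasFDerivAt G (fderiv ℝ G t) t :=
    ((hG.contDiffAt (hT.mem_nhds h1)).differentiableAt (by simp)).hasFDerivAt
  have h5 : HasFDerivAt (fun t => (ζ, B.π (G t)))
      ((0 : E →L[ℝ] ℂ).prod (B.π.comp (fderiv ℝ G t))) t :=
    (hasFDerivAt_const ζ t).prodMk (B.π.hasFDerivAt.comp t hd)
  have h6 : B.Ψ (B.h G (ζ, t)) = (ζ, B.π (G t)) := by
    rw [h2, Ψ, h4]
  have h7 := B.hasFDerivAt_Φ hp
  rw [h6] at h7
  rw [Dh, dif_pos hp]
  exact h7.comp t h5

lemma Dh_fst {ζ : ℂ} {T : Set E} {G : E → V} {t : E} (ht : t ∈ B.As ζ T G) (v : E) :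
    (B.Dh ζ G t v).1 = 0 := by
  obtain ⟨h1, h2, h3, h4⟩ := B.of_mem_As ht
  have hp : B.h G (ζ, t) ∈ B.Ω := by rw [h2]; exact h3
  rw [Dh, dif_pos hp]
  have h5 := (B.LΨ hp).apply_symm_apply (0, B.π (fderiv ℝ G t v))
  have h6 := congrArg Prod.fst h5
  exact h6

/-- **Change of variables** for the correspondence `F (ζ, y) = G t`. -/
theorem cv (ζ : ℂ) {T : Set E} (hT : IsOpen T) {G : E → V} (hG : ContDiffOn ℝ 1 G T)
    (hGi : InjOn G T) (wT : E → ℝ≥0∞) (w : ℂ × E → ℝ≥0∞)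
    (hw : ∀ y t, (ζ, y) ∈ B.Ω → t ∈ T → B.F (ζ, y) = G t → ∀ L : E →L[ℝ] E,
      (∀ v, fderiv ℝ B.F (ζ, y) (0, L v) = fderiv ℝ G t v) →
        wT t = ENNReal.ofReal |L.det| * w (ζ, y))
    (f : ℂ × E → ℝ≥0∞) :
    MeasurableSet (B.hs ζ G '' B.As ζ T G) ∧
      ∫⁻ t in B.As ζ T G, f (B.h G (ζ, t)) * wT t ∂μ =
        ∫⁻ y in B.hs ζ G '' B.As ζ T G, f (ζ, y) * w (ζ, y) ∂μ := by
  have hA := B.measurableSet_As hT hG.continuousOn ζ
  set h' : E → E →L[ℝ] E := fun t => (ContinuousLinearMap.snd ℝ ℂ E).comp (B.Dh ζ G t) with hh'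
  have hd : ∀ t ∈ B.As ζ T G, HasFDerivWithinAt (B.hs ζ G) (h' t) (B.As ζ T G) t := by
    intro t ht
    exact ((ContinuousLinearMap.snd ℝ ℂ E).hasFDerivAt.comp t
      (B.hasFDerivAt_h hT hG ht)).hasFDerivWithinAt
  have hinj : InjOn (B.hs ζ G) (B.As ζ T G) := by
    intro t ht s hs hts
    obtain ⟨h1, h2, h3, h4⟩ := B.of_mem_As ht
    obtain ⟨k1, k2, k3, k4⟩ := B.of_mem_As hs
    apply hGi h1 k1
    rw [← h4, ← k4, hts]
  refine ⟨measurable_image_of_fderivWithin hA hd hinj, ?_⟩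
  rw [lintegral_image_eq_lintegral_abs_det_fderiv_mul μ hA hd hinj]
  have hae := ae_deriv_eq_zero μ hA (u := fun t => B.F (B.h G (ζ, t)) - G t)
    (u' := fun t => (fderiv ℝ B.F (ζ, B.hs ζ G t)).comp (B.Dh ζ G t) - fderiv ℝ G t)
    (fun t ht => by
      obtain ⟨h1, h2, h3, h4⟩ := B.of_mem_As ht
      rw [h2, h4, sub_self])
    (fun t ht => by
      obtain ⟨h1, h2, h3, h4⟩ := B.of_mem_As ht
      have hdG : HasFDerivAt G (fderiv ℝ G t) t :=
        ((hG.contDiffAt (hT.mem_nhds h1)).differentiableAt (by simp)).hasFDerivAt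
      have hdF := B.hasFDerivAt h3
      rw [← h2] at hdF
      have := (hdF.comp t (B.hasFDerivAt_h hT hG ht)).sub hdG
      rw [h2] at this
      exact this.hasFDerivWithinAt)
  refine lintegral_congr_ae ?_
  filter_upwards [hae, ae_restrict_mem hA] with t ht htA
  obtain ⟨h1, h2, h3, h4⟩ := B.of_mem_As htA
  have h5 := hw (B.hs ζ G t) t h3 h1 h4 (h' t) (fun v => by
    have h6 := congrArg (fun L : E →L[ℝ] V => L v) ht
    simp only [_root_.sub_apply, ContinuousLinearMap.comp_apply,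
      _root_.zero_apply, sub_eq_zero] at h6
    rw [← h6]
    congr 1
    exact Prod.ext (B.Dh_fst htA v).symm rfl)
  rw [h5, h2]
  ring

end cv

end CBox

section sum

variable [FiniteDimensional ℝ V] {J Γ : Type*} [Countable J] [Countable Γ]

open Classical in
/-- Summed form over all boxes and all group elements, for a fixed pair `(ζ, ζ₀)`. -/
theorem sum_le (B : J → CBox E V) (B0 : CBox E V) (act : Γ → V →L[ℝ] V)
    (hact : ∀ γ, Function.Injective (act γ)) (w : J → ℂ × E → ℝ≥0∞) (w0 : ℂ × E → ℝ≥0∞)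
    (hw : ∀ j γ p p0, p ∈ (B j).Ω → p0 ∈ B0.Ω → (B j).F p = act γ (B0.F p0) →
      ∀ L : E →L[ℝ] E, (∀ v, fderiv ℝ (B j).F p (0, L v) = act γ (fderiv ℝ B0.F p0 (0, v))) →
        w0 p0 = ENNReal.ofReal |L.det| * w j p)
    (N : ℕ) (hN : ∀ j p, p ∈ (B j).Ω → ∀ s : Finset Γ,
      (∀ γ ∈ s, ∃ p0 ∈ B0.Ω, (B j).F p = act γ (B0.F p0)) → s.card ≤ N)
    (f : J → ℂ × E → ℝ≥0∞) (hf : ∀ j, Measurable (f j)) (hwm : ∀ j, Measurable (w j))
    (ζ ζ0 : ℂ) :
    ∑' j, ∑' γ, ∫⁻ t in {t | (ζ0, t) ∈ B0.Ω},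
        ((B j).As ζ {t | (ζ0, t) ∈ B0.Ω} fun t => act γ (B0.F (ζ0, t))).indicator
          (fun t => f j ((B j).h (fun t => act γ (B0.F (ζ0, t))) (ζ, t))) t * w0 (ζ0, t) ∂μ ≤
      N * ∑' j, ∫⁻ y in {y | (ζ, y) ∈ (B j).Ω}, f j (ζ, y) * w j (ζ, y) ∂μ := by
  set T : Set E := {t | (ζ0, t) ∈ B0.Ω} with hTdef
  have hT : IsOpen T := B0.hΩ.preimage (by fun_prop : Continuous fun t : E => (ζ0, t))
  have hF0 : ContDiffOn ℝ 1 (fun t : E => B0.F (ζ0, t)) T :=
    B0.hF.comp (by fun_prop : ContDiff ℝ 1 fun t : E => (ζ0, t)).contDiffOn fun t ht => ht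
  have hG : ∀ γ, ContDiffOn ℝ 1 (fun t : E => act γ (B0.F (ζ0, t))) T := fun γ =>
    (act γ).contDiff.comp_contDiffOn hF0
  have hinj0 : InjOn (fun t : E => B0.F (ζ0, t)) T := by
    intro t ht s hs hts
    have := B0.inj ht hs (by simp only [hts])
    exact (Prod.mk.inj this).2
  have hGi : ∀ γ, InjOn (fun t : E => act γ (B0.F (ζ0, t))) T := fun γ t ht s hs hts =>
    hinj0 ht hs (hact γ hts)
  have hdG : ∀ γ, ∀ t ∈ T, ∀ v, fderiv ℝ (fun t : E => act γ (B0.F (ζ0, t))) t v =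
      act γ (fderiv ℝ B0.F (ζ0, t) (0, v)) := by
    intro γ t ht v
    have h1 : HasFDerivAt (fun t : E => (ζ0, t)) (ContinuousLinearMap.inr ℝ ℂ E) t :=
      (hasFDerivAt_const ζ0 t).prodMk (hasFDerivAt_id t)
    have h2 := (act γ).hasFDerivAt.comp t ((B0.hasFDerivAt (p := (ζ0, t)) ht).comp t h1)
    have h3 := h2.fderiv
    have h4 : fderiv ℝ (fun t : E => act γ (B0.F (ζ0, t))) t =
      (act γ).comp ((fderiv ℝ B0.F (ζ0, t)).comp (ContinuousLinearMap.inr ℝ ℂ E)) := h3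
    rw [h4]
    rfl
  rw [← ENNReal.tsum_mul_left]
  refine ENNReal.tsum_le_tsum fun j => ?_
  have hcv := fun γ => (B j).cv μ ζ hT (hG γ) (hGi γ) (fun t => w0 (ζ0, t)) (w j)
    (fun y t hy ht hyt L hL => hw j γ (ζ, y) (ζ0, t) hy ht hyt L fun v => by
      rw [hL v, hdG γ t ht v]) (f j)
  set A : Γ → Set E := fun γ => (B j).As ζ T fun t => act γ (B0.F (ζ0, t)) with hAdef
  set I : Γ → Set E := fun γ => (B j).hs ζ (fun t => act γ (B0.F (ζ0, t))) '' A γ with hIdef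
  have hAm : ∀ γ, MeasurableSet (A γ) := fun γ =>
    (B j).measurableSet_As hT (hG γ).continuousOn ζ
  have hAT : ∀ γ, A γ ⊆ T := fun γ t ht => ht.1
  have hterm : ∀ γ, ∫⁻ t in T, (A γ).indicator
        (fun t => f j ((B j).h (fun t => act γ (B0.F (ζ0, t))) (ζ, t))) t * w0 (ζ0, t) ∂μ =
      ∫⁻ y in {y | (ζ, y) ∈ (B j).Ω}, (I γ).indicator (fun _ => 1) y *
        (f j (ζ, y) * w j (ζ, y)) ∂μ := by
    intro γ
    have h1 : ∫⁻ t in T, (A γ).indicator
        (fun t => f j ((B j).h (fun t => act γ (B0.F (ζ0, t))) (ζ, t))) t * w0 (ζ0, t) ∂μ =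
        ∫⁻ t in A γ, f j ((B j).h (fun t => act γ (B0.F (ζ0, t))) (ζ, t)) * w0 (ζ0, t) ∂μ := by
      have h2 : (fun t => (A γ).indicator
          (fun t => f j ((B j).h (fun t => act γ (B0.F (ζ0, t))) (ζ, t))) t * w0 (ζ0, t)) =
          (A γ).indicator
          (fun t => f j ((B j).h (fun t => act γ (B0.F (ζ0, t))) (ζ, t)) * w0 (ζ0, t)) := by
        funext t
        by_cases ht : t ∈ A γ
        · simp [ht]
        · simp [ht]
      rw [h2, lintegral_indicator (hAm γ), Measure.restrict_restrict (hAm γ),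
        inter_eq_left.2 (hAT γ)]
    rw [h1, (hcv γ).2]
    have h3 : (fun y => (I γ).indicator (fun _ => (1 : ℝ≥0∞)) y * (f j (ζ, y) * w j (ζ, y))) =
        (I γ).indicator (fun y => f j (ζ, y) * w j (ζ, y)) := by
      funext y
      by_cases hy : y ∈ I γ
      · simp [hy]
      · simp [hy]
    rw [h3, lintegral_indicator (hcv γ).1, Measure.restrict_restrict (hcv γ).1,
      inter_eq_left.2]
    rintro _ ⟨t, ht, rfl⟩
    exact ((B j).of_mem_As ht).2.2.1
  have hm : Measurable fun y : E => f j (ζ, y) * w j (ζ, y) :=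
    ((hf j).comp (by fun_prop : Measurable fun y : E => (ζ, y))).mul
      ((hwm j).comp (by fun_prop : Measurable fun y : E => (ζ, y)))
  rw [tsum_congr hterm, ← lintegral_tsum, ← lintegral_const_mul _ hm]
  · refine lintegral_mono_ae ?_
    have hYm : MeasurableSet {y : E | (ζ, y) ∈ (B j).Ω} :=
      ((B j).hΩ.preimage (by fun_prop : Continuous fun y : E => (ζ, y))).measurableSet
    filter_upwards [ae_restrict_mem hYm] with y hy
    rw [ENNReal.tsum_mul_right]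
    refine mul_le_mul_left ?_ _
    rw [ENNReal.tsum_eq_iSup_sum]
    refine iSup_le fun s => ?_
    have h5 : ∑ γ ∈ s, (I γ).indicator (fun _ => (1 : ℝ≥0∞)) y =
        ((s.filter fun γ => y ∈ I γ).card : ℝ≥0∞) := by
      rw [Finset.card_filter, Nat.cast_sum]
      refine Finset.sum_congr rfl fun γ _ => ?_
      by_cases hy : y ∈ I γ
      · simp [hy]
      · simp [hy]
    rw [h5]
    refine Nat.cast_le.2 (hN j (ζ, y) hy _ fun γ hγ => ?_)
    obtain ⟨t, ht, rfl⟩ := (Finset.mem_filter.1 hγ).2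
    obtain ⟨h1, h2, h3, h4⟩ := (B j).of_mem_As ht
    exact ⟨(ζ0, t), h1, h4⟩
  · intro γ
    refine AEMeasurable.mul ?_ ?_
    · exact ((measurable_one.indicator (hcv γ).1)).aemeasurable
    · exact hm.aemeasurable

/-- Fubini over the slices of an open set -/
lemma lintegral_slices [SFinite μ] {Ω : Set (ℂ × E)} (hΩ : IsOpen Ω) {g : ℂ × E → ℝ≥0∞}
    (hg : Measurable g) : ∫⁻ p in Ω, g p ∂((volume : Measure ℂ).prod μ) =
      ∫⁻ ζ : ℂ, ∫⁻ y in {y | (ζ, y) ∈ Ω}, g (ζ, y) ∂μ := by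
  rw [← lintegral_indicator hΩ.measurableSet, lintegral_prod]
  · refine lintegral_congr fun ζ => ?_
    have hYm : MeasurableSet {y : E | (ζ, y) ∈ Ω} :=
      (hΩ.preimage (by fun_prop : Continuous fun y : E => (ζ, y))).measurableSet
    rw [← lintegral_indicator hYm]
    rfl
  · exact (hg.indicator hΩ.measurableSet).aemeasurable

open Classical in
/-- the value of `f` at the point of the box over `ζ` corresponding to `p` (zero if there is no
such point) -/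
def term (B B0 : CBox E V) (a : V →L[ℝ] V) (f : ℂ × E → ℝ≥0∞) (q : ℂ × (ℂ × E)) : ℝ≥0∞ :=
  (B.A B0.Ω fun p => a (B0.F p)).indicator (fun q => f (B.h (fun p => a (B0.F p)) q)) q

lemma measurable_term (B B0 : CBox E V) (a : V →L[ℝ] V) {f : ℂ × E → ℝ≥0∞} (hf : Measurable f) :
    Measurable (term B B0 a f) := by
  classical
  have hG : ContinuousOn (fun p => a (B0.F p)) B0.Ω :=
    a.continuous.comp_continuousOn B0.hF.continuousOn
  have hA : MeasurableSet (B.A B0.Ω fun p => a (B0.F p)) := B.measurableSet_A B0.hΩ hG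
  have hsub : (B.A B0.Ω fun p => a (B0.F p)) ⊆
      {q | q.2 ∈ B0.Ω ∧ (q.1, B.π (a (B0.F q.2))) ∈ B.Ψ '' B.Ω} := by
    rw [B.A_eq]
    exact fun q hq => ⟨hq.1, hq.2.1⟩
  have h1 : Measurable ((B.A B0.Ω fun p => a (B0.F p)).piecewise
      (B.h fun p => a (B0.F p)) (fun _ => (0 : ℂ × E))) :=
    ContinuousOn.measurable_piecewise ((B.continuousOn_h hG).mono hsub) continuousOn_const hA
  have h2 : term B B0 a f = (B.A B0.Ω fun p => a (B0.F p)).indicator
      (fun q => f (((B.A B0.Ω fun p => a (B0.F p)).piecewise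
      (B.h fun p => a (B0.F p)) (fun _ => (0 : ℂ × E))) q)) := by
    funext q
    by_cases hq : q ∈ B.A B0.Ω fun p => a (B0.F p)
    · simp [term, hq]
    · simp [term, hq]
  rw [h2]
  exact (hf.comp h1).indicator hA

/-- the sum over all boxes and group elements -/
def Ssum (B : J → CBox E V) (B0 : CBox E V) (act : Γ → V →L[ℝ] V) (f : J → ℂ × E → ℝ≥0∞)
    (q : ℂ × (ℂ × E)) : ℝ≥0∞ := ∑' j, ∑' γ, term (B j) B0 (act γ) (f j) q

lemma measurable_Ssum (B : J → CBox E V) (B0 : CBox E V) (act : Γ → V →L[ℝ] V)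
    {f : J → ℂ × E → ℝ≥0∞} (hf : ∀ j, Measurable (f j)) : Measurable (Ssum B B0 act f) :=
  Measurable.tsum fun j => Measurable.tsum fun _ => measurable_term _ _ _ (hf j)

/-- **The coarea inequality in coordinates.** -/
theorem int_le (B : J → CBox E V) (B0 : CBox E V) (act : Γ → V →L[ℝ] V)
    (hact : ∀ γ, Function.Injective (act γ)) (w : J → ℂ × E → ℝ≥0∞) (w0 : ℂ × E → ℝ≥0∞)
    (hw : ∀ j γ p p0, p ∈ (B j).Ω → p0 ∈ B0.Ω → (B j).F p = act γ (B0.F p0) →
      ∀ L : E →L[ℝ] E, (∀ v, fderiv ℝ (B j).F p (0, L v) = act γ (fderiv ℝ B0.F p0 (0, v))) →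
        w0 p0 = ENNReal.ofReal |L.det| * w j p)
    (N : ℕ) (hN : ∀ j p, p ∈ (B j).Ω → ∀ s : Finset Γ,
      (∀ γ ∈ s, ∃ p0 ∈ B0.Ω, (B j).F p = act γ (B0.F p0)) → s.card ≤ N)
    (f : J → ℂ × E → ℝ≥0∞) (hf : ∀ j, Measurable (f j)) (hwm : ∀ j, Measurable (w j))
    (hw0 : Measurable w0) :
    ∫⁻ p in B0.Ω, (w0 p * ∫⁻ ζ : ℂ, Ssum B B0 act f (ζ, p)) ∂((volume : Measure ℂ).prod μ) ≤
      volume (Prod.fst '' B0.Ω) *
        (N * ∑' j, ∫⁻ p in (B j).Ω, f j p * w j p ∂((volume : Measure ℂ).prod μ)) := by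
  have hS := measurable_Ssum B B0 act hf
  have hSp : ∀ p, Measurable fun ζ : ℂ => Ssum B B0 act f (ζ, p) := fun p =>
    hS.comp (by fun_prop : Measurable fun ζ : ℂ => (ζ, p))
  calc ∫⁻ p in B0.Ω, (w0 p * ∫⁻ ζ : ℂ, Ssum B B0 act f (ζ, p)) ∂((volume : Measure ℂ).prod μ)
      = ∫⁻ p in B0.Ω, (∫⁻ ζ : ℂ, w0 p * Ssum B B0 act f (ζ, p)) ∂((volume : Measure ℂ).prod μ) := by
        refine lintegral_congr fun p => ?_
        rw [lintegral_const_mul _ (hSp p)]
    _ = ∫⁻ ζ : ℂ, (∫⁻ p in B0.Ω, w0 p * Ssum B B0 act f (ζ, p)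
          ∂((volume : Measure ℂ).prod μ)) := by
        rw [lintegral_lintegral_swap]
        refine Measurable.aemeasurable ?_
        exact (hw0.comp measurable_fst).mul (hS.comp measurable_swap)
    _ = ∫⁻ ζ : ℂ, ∫⁻ ζ0 : ℂ, ∫⁻ t in {t | (ζ0, t) ∈ B0.Ω},
          w0 (ζ0, t) * Ssum B B0 act f (ζ, (ζ0, t)) ∂μ := by
        refine lintegral_congr fun ζ => ?_
        rw [lintegral_slices μ B0.hΩ]
        exact hw0.mul (hS.comp (by fun_prop : Measurable fun p : ℂ × E => (ζ, p)))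
    _ ≤ ∫⁻ ζ : ℂ, ∫⁻ ζ0 : ℂ, (Prod.fst '' B0.Ω).indicator (fun _ => N * ∑' j,
          ∫⁻ y in {y | (ζ, y) ∈ (B j).Ω}, f j (ζ, y) * w j (ζ, y) ∂μ) ζ0 := by
        refine lintegral_mono fun ζ => lintegral_mono fun ζ0 => ?_
        by_cases h0 : ζ0 ∈ Prod.fst '' B0.Ω
        · rw [indicator_of_mem h0]
          refine le_trans (le_of_eq ?_)
            (sum_le μ B B0 act hact w w0 hw N hN f hf hwm ζ ζ0)
          have h3 : ∀ j γ, Measurable fun t : E => term (B j) B0 (act γ) (f j) (ζ, (ζ0, t)) *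
              w0 (ζ0, t) := fun j γ =>
            ((measurable_term (B j) B0 (act γ) (hf j)).comp
              (by fun_prop : Measurable fun t : E => (ζ, (ζ0, t)))).mul
              (hw0.comp (by fun_prop : Measurable fun t : E => (ζ0, t)))
          have h1 : ∀ t, w0 (ζ0, t) * Ssum B B0 act f (ζ, (ζ0, t)) =
              ∑' j, ∑' γ, term (B j) B0 (act γ) (f j) (ζ, (ζ0, t)) * w0 (ζ0, t) := by
            intro t
            rw [mul_comm, Ssum, ← ENNReal.tsum_mul_right]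
            refine tsum_congr fun j => ?_
            rw [ENNReal.tsum_mul_right]
          simp only [h1]
          rw [lintegral_tsum fun j => (Measurable.tsum (h3 j)).aemeasurable]
          refine tsum_congr fun j => ?_
          rw [lintegral_tsum fun γ => (h3 j γ).aemeasurable]
          rfl
        · rw [indicator_of_notMem h0]
          have : {t : E | (ζ0, t) ∈ B0.Ω} = ∅ := by
            ext t
            simp only [mem_ofPred_eq, mem_empty_iff_false, iff_false]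
            exact fun ht => h0 ⟨_, ht, rfl⟩
          rw [this]
          simp
    _ = _ := by
        have hO : MeasurableSet (Prod.fst '' B0.Ω) := (isOpenMap_fst _ B0.hΩ).measurableSet
        simp only [lintegral_indicator hO, lintegral_const, Measure.restrict_apply_univ]
        have hmj : ∀ j, Measurable fun ζ : ℂ =>
            ∫⁻ y in {y | (ζ, y) ∈ (B j).Ω}, f j (ζ, y) * w j (ζ, y) ∂μ := by
          intro j
          have h4 : (fun ζ : ℂ =>
              ∫⁻ y in {y | (ζ, y) ∈ (B j).Ω}, f j (ζ, y) * w j (ζ, y) ∂μ) =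
              fun ζ : ℂ => ∫⁻ y, (B j).Ω.indicator (fun p => f j p * w j p) (ζ, y) ∂μ := by
            funext ζ
            have hYm : MeasurableSet {y : E | (ζ, y) ∈ (B j).Ω} :=
              ((B j).hΩ.preimage (by fun_prop : Continuous fun y : E => (ζ, y))).measurableSet
            rw [← lintegral_indicator hYm]
            rfl
          rw [h4]
          exact ((((hf j).mul (hwm j)).indicator (B j).hΩ.measurableSet)).lintegral_prod_right'
        rw [lintegral_mul_const _ (Measurable.const_mul (Measurable.tsum hmj) _),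
          lintegral_const_mul _ (Measurable.tsum hmj),
          lintegral_tsum fun j => (hmj j).aemeasurable, mul_comm]
        congr 2
        refine tsum_congr fun j => ?_
        exact (lintegral_slices μ (B j).hΩ ((hf j).mul (hwm j))).symm

end sum

end Crest.Agent.R276.Coa_375
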