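import Mathlib
import Crest.Agent.R271.H3_51
import Crest.Agent.R276.Coa_375

/-!
Row 276, leaf ALG-COA (helper375), part 2: on a Riemann domain with a foliation by curves given by
level sets of maps `F j` up to a countable group, almost every leaf has finite area.
-/

set_option autoImplicit false
set_option linter.unusedSectionVars false

noncomputable section

open Set Filter Topology MeasureTheory
open scoped ENNReal NNReal
open Crest.Agent.R271.Ho51
open Crest.Agent.R276.Coa_375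

namespace Crest.Agent.R276.Coa2_375

section ins

variable {m' : ℕ} (i0 : Fin (m' + 1))

/-- insertion of the coordinate number `i0` -/
def ins : (ℂ × (Fin m' → ℂ)) →L[ℝ] (Fin (m' + 1) → ℂ) :=
  ContinuousLinearMap.pi (i0.insertNth (α := fun _ => (ℂ × (Fin m' → ℂ)) →L[ℝ] ℂ)
    (ContinuousLinearMap.fst ℝ ℂ (Fin m' → ℂ)) fun k =>
      (ContinuousLinearMap.proj k).comp (ContinuousLinearMap.snd ℝ ℂ (Fin m' → ℂ)))

lemma ins_apply (p : ℂ × (Fin m' → ℂ)) : ins i0 p = i0.insertNth p.1 p.2 := by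
  funext k
  rcases Fin.eq_self_or_eq_succAbove i0 k with rfl | ⟨k, rfl⟩ <;> simp [ins]

@[simp] lemma ins_self (p : ℂ × (Fin m' → ℂ)) : ins i0 p i0 = p.1 := by
  rw [ins_apply]; simp

/-- the coordinates as a pair -/
def cut (z : Fin (m' + 1) → ℂ) : ℂ × (Fin m' → ℂ) := (z i0, fun k => z (i0.succAbove k))

@[simp] lemma ins_cut (z : Fin (m' + 1) → ℂ) : ins i0 (cut i0 z) = z := by
  rw [ins_apply]
  funext k
  rcases Fin.eq_self_or_eq_succAbove i0 k with rfl | ⟨k, rfl⟩ <;> simp [cut]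

@[simp] lemma cut_ins (p : ℂ × (Fin m' → ℂ)) : cut i0 (ins i0 p) = p := by
  rw [ins_apply]
  ext <;> simp [cut]

lemma ins_inj : Function.Injective (ins i0 : ℂ × (Fin m' → ℂ) → _) := fun p q h => by
  rw [← cut_ins i0 p, h, cut_ins]

lemma mp : MeasurePreserving (ins i0 : ℂ × (Fin m' → ℂ) → _)
    ((volume : Measure ℂ).prod (volume : Measure (Fin m' → ℂ))) volume := by
  have h1 := (volume_preserving_piFinSuccAbove (fun _ : Fin (m' + 1) => ℂ) i0).symm
  have h2 : (⇑(MeasurableEquiv.piFinSuccAbove (fun _ : Fin (m' + 1) => ℂ) i0).symm) =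
      (ins i0 : ℂ × (Fin m' → ℂ) → _) := by
    funext p
    rw [ins_apply]
    rfl
  rw [h2] at h1
  exact h1

lemma me : MeasurableEmbedding (ins i0 : ℂ × (Fin m' → ℂ) → _) := by
  have h2 : (⇑(MeasurableEquiv.piFinSuccAbove (fun _ : Fin (m' + 1) => ℂ) i0).symm) =
      (ins i0 : ℂ × (Fin m' → ℂ) → _) := by
    funext p
    rw [ins_apply]
    rfl
  rw [← h2]
  exact MeasurableEquiv.measurableEmbedding _

end ins

variable {m' : ℕ} {M : Type*} [TopologicalSpace M] [RDom (m' + 1) M]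
variable {V : Type*} [NormedAddCommGroup V] [NormedSpace ℝ V] [FiniteDimensional ℝ V]

variable (M V) in
/-- A foliation of `M` by curves, transversal to `{z i0 = const}`: boxes `e j` with maps `F j`
whose level sets in the box are the plaques, and a countable group acting on the values. -/
structure Fol (i0 : Fin (m' + 1)) (J Γ : Type*) where
  e : J → OpenPartialHomeomorph M (Fin (m' + 1) → ℂ)
  he : ∀ j, IsCh (e j)
  F : J → (Fin (m' + 1) → ℂ) → V
  hF : ∀ j, ContDiffOn ℝ 1 (F j) (e j).target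
  π : J → V →L[ℝ] (Fin m' → ℂ)
  inj : ∀ j, InjOn (fun z => (z i0, π j (F j z))) (e j).target
  der : ∀ j, ∀ z ∈ (e j).target, ∀ v : Fin (m' + 1) → ℂ, v i0 = 0 →
    π j (fderiv ℝ (F j) z v) = 0 → v = 0
  act : Γ → V →L[ℝ] V
  act_inj : ∀ γ, Function.Injective (act γ)

variable {i0 : Fin (m' + 1)} {J Γ : Type*}

namespace Fol

variable (W : Fol M V i0 J Γ)

lemma hasFDerivAt (j : J) {z : Fin (m' + 1) → ℂ} (hz : z ∈ (W.e j).target) :
    HasFDerivAt (W.F j) (fderiv ℝ (W.F j) z) z :=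
  (((W.hF j).contDiffAt ((W.e j).open_target.mem_nhds hz)).differentiableAt (by simp)).hasFDerivAt

lemma fderiv_comp (j : J) {p : ℂ × (Fin m' → ℂ)} (hp : ins i0 p ∈ (W.e j).target)
    (v : ℂ × (Fin m' → ℂ)) :
    fderiv ℝ (fun p => W.F j (ins i0 p)) p v = fderiv ℝ (W.F j) (ins i0 p) (ins i0 v) := by
  have h1 := (W.hasFDerivAt j hp).comp p (ins i0 : ℂ × (Fin m' → ℂ) →L[ℝ] _).hasFDerivAt
  have h2 := h1.fderiv
  have h3 : fderiv ℝ (fun p => W.F j (ins i0 p)) p =
    (fderiv ℝ (W.F j) (ins i0 p)).comp (ins i0) := h2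
  rw [h3]
  rfl

/-- the box in coordinates -/
def box (j : J) : CBox (Fin m' → ℂ) V where
  Ω := ins i0 ⁻¹' (W.e j).target
  hΩ := (W.e j).open_target.preimage (ins i0).continuous
  F := fun p => W.F j (ins i0 p)
  hF := (W.hF j).comp (ins i0).contDiff.contDiffOn fun p hp => hp
  π := W.π j
  inj := by
    intro p hp q hq hpq
    apply ins_inj i0
    apply W.inj j hp hq
    simp only [ins_self]
    exact hpq
  der := by
    intro p hp v hv
    rw [W.fderiv_comp j hp] at hv
    have h1 := W.der j _ hp (ins i0 (0, v)) (by simp) hv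
    have h2 : ((0 : ℂ), v) = 0 := ins_inj i0 (by rw [h1, map_zero])
    exact (Prod.mk.inj h2).2

section meas

variable [MeasurableSpace M] [BorelSpace M]

open Classical in
/-- a function on `M` in the coordinates of the box `j` -/
def pull (j : J) (g : M → ℝ≥0∞) : ℂ × (Fin m' → ℂ) → ℝ≥0∞ :=
  (ins i0 ⁻¹' (W.e j).target).indicator fun p => g ((W.e j).symm (ins i0 p))

lemma measurable_pull (j : J) {g : M → ℝ≥0∞} (hg : Measurable g) : Measurable (W.pull j g) := by
  classical
  have hO : MeasurableSet (ins i0 ⁻¹' (W.e j).target) :=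
    ((W.e j).open_target.preimage (ins i0).continuous).measurableSet
  rcases isEmpty_or_nonempty M with hM | ⟨⟨x0⟩⟩
  · have : W.pull j g = fun _ => 0 := by
      funext p
      exact (hM.false ((W.e j).symm (ins i0 p))).elim
    rw [this]
    exact measurable_const
  have h1 : Measurable ((ins i0 ⁻¹' (W.e j).target).piecewise
      (fun p => (W.e j).symm (ins i0 p)) (fun _ => x0)) :=
    ContinuousOn.measurable_piecewise
      ((W.e j).symm.continuousOn.comp (ins i0).continuous.continuousOn fun p hp => hp)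
      continuousOn_const hO
  have h2 : W.pull j g = (ins i0 ⁻¹' (W.e j).target).indicator fun p =>
      g (((ins i0 ⁻¹' (W.e j).target).piecewise
      (fun p => (W.e j).symm (ins i0 p)) (fun _ => x0)) p) := by
    funext p
    by_cases hp : p ∈ ins i0 ⁻¹' (W.e j).target
    · simp [pull, hp]
    · simp [pull, hp]
  rw [h2]
  exact (hg.comp h1).indicator hO

lemma lintegral_source {μ : Measure M} (hμ : IsLeb μ) (j : J) {g : M → ℝ≥0∞}
    (hg : Measurable g) : ∫⁻ x in (W.e j).source, g x ∂μ =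
      ∫⁻ p in (W.box j).Ω, W.pull j g p
        ∂((volume : Measure ℂ).prod (volume : Measure (Fin m' → ℂ))) := by
  rw [hμ (W.e j) (W.he j), lintegral_map' hg.aemeasurable (aem_symm _),
    ← (mp i0).setLIntegral_comp_preimage_emb (me i0)]
  have hO : MeasurableSet (ins i0 ⁻¹' (W.e j).target) :=
    ((W.e j).open_target.preimage (ins i0).continuous).measurableSet
  refine lintegral_congr_ae ?_
  filter_upwards [ae_restrict_mem hO] with p hp
  simp [pull, hp]

section area

variable [Countable J] [Countable Γ]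

/-- all boxes together -/
def dom : Set M := ⋃ j, (W.e j).source

open Classical in
/-- disjoint pieces of the boxes -/
def piece (j : J) : Set M :=
  (W.e j).source \ ⋃ k ∈ {k : J | (Encodable.ofCountable J).encode k <
    (Encodable.ofCountable J).encode j}, (W.e k).source

lemma piece_sub (j : J) : W.piece j ⊆ (W.e j).source := sdiff_subset

lemma measurableSet_piece (j : J) : MeasurableSet (W.piece j) :=
  (W.e j).open_source.measurableSet.diff
    (isOpen_biUnion fun k _ => (W.e k).open_source).measurableSet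

lemma piece_disj {j k : J} (h : j ≠ k) : Disjoint (W.piece j) (W.piece k) := by
  rw [Set.disjoint_left]
  intro x hxj hxk
  rcases lt_trichotomy ((Encodable.ofCountable J).encode j)
    ((Encodable.ofCountable J).encode k) with h1 | h1 | h1
  · exact hxk.2 (mem_biUnion (show j ∈ _ from h1) hxj.1)
  · exact h ((Encodable.ofCountable J).encode_injective h1)
  · exact hxj.2 (mem_biUnion (show k ∈ _ from h1) hxk.1)

lemma exists_piece {x : M} (hx : x ∈ W.dom) : ∃ j, x ∈ W.piece j := by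
  classical
  obtain ⟨j0, hj0⟩ := mem_iUnion.1 hx
  have hex : ∃ n, ∃ j, (Encodable.ofCountable J).encode j = n ∧ x ∈ (W.e j).source :=
    ⟨_, j0, rfl, hj0⟩
  obtain ⟨j, hj, hxj⟩ := Nat.find_spec hex
  refine ⟨j, hxj, fun hx2 => ?_⟩
  obtain ⟨k, hk, hxk⟩ := mem_iUnion₂.1 hx2
  rw [mem_ofPred_eq, hj] at hk
  exact Nat.find_min hex hk ⟨k, rfl, hxk⟩

/-- area of the part of the set `S p` in the boxes, with density `a` with respect to the
coordinate `i0` -/
def area (S : M → Set M) (a : M → ℝ≥0∞) (p : M) : ℝ≥0∞ :=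
  ∫⁻ ζ : ℂ, ∑' q : {q // q ∈ S p ∧ q ∈ W.dom ∧ cp q i0 = ζ}, a q

/-- upper bound of the area -/
def up (a : M → ℝ≥0∞) (i : J) (q : ℂ × (ℂ × (Fin m' → ℂ))) : ℝ≥0∞ :=
  Ssum W.box (W.box i) W.act (fun j => W.pull j ((W.piece j).indicator a)) q

lemma tsum_le_up (a : M → ℝ≥0∞) (S : M → Set M)
    (hS : ∀ i j p q, p ∈ (W.e i).source → q ∈ (W.e j).source → q ∈ S p →
      ∃ γ, W.F j (cp q) = W.act γ (W.F i (cp p)))
    (i : J) {p : M} (hp : p ∈ (W.e i).source) (ζ : ℂ) :
    ∑' q : {q // q ∈ S p ∧ q ∈ W.dom ∧ cp q i0 = ζ}, a q ≤ W.up a i (ζ, cut i0 (cp p)) := by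
  classical
  have h1 : ∀ q : {q // q ∈ S p ∧ q ∈ W.dom ∧ cp q i0 = ζ}, ∃ φ : J × Γ,
      q.1 ∈ W.piece φ.1 ∧ W.F φ.1 (cp q.1) = W.act φ.2 (W.F i (cp p)) := by
    intro q
    obtain ⟨j, hj⟩ := W.exists_piece q.2.2.1
    obtain ⟨γ, hγ⟩ := hS i j p q.1 hp (W.piece_sub j hj) q.2.1
    exact ⟨(j, γ), hj, hγ⟩
  choose φ hφ1 hφ2 using h1
  have hkey : ∀ q : {q // q ∈ S p ∧ q ∈ W.dom ∧ cp q i0 = ζ},
      (ζ, cut i0 (cp p)) ∈ (W.box (φ q).1).A (W.box i).Ω
        (fun x => W.act (φ q).2 ((W.box i).F x)) ∧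
      (W.box (φ q).1).h (fun x => W.act (φ q).2 ((W.box i).F x)) (ζ, cut i0 (cp p)) =
        cut i0 (cp q.1) := by
    intro q
    have hcut : cut i0 (cp q.1) = (ζ, (cut i0 (cp q.1)).2) := by
      refine Prod.ext ?_ rfl
      exact q.2.2.2
    have h2 : (ζ, (cut i0 (cp q.1)).2) ∈ (W.box (φ q).1).Ω := by
      rw [← hcut]
      change ins i0 (cut i0 (cp q.1)) ∈ (W.e (φ q).1).target
      rw [ins_cut]
      exact (W.he _).cp_mem (W.piece_sub _ (hφ1 q))
    have h3 : (W.box (φ q).1).F (ζ, (cut i0 (cp q.1)).2) =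
        W.act (φ q).2 ((W.box i).F (cut i0 (cp p))) := by
      rw [← hcut]
      change W.F (φ q).1 (ins i0 (cut i0 (cp q.1))) =
        W.act (φ q).2 (W.F i (ins i0 (cut i0 (cp p))))
      rw [ins_cut, ins_cut]
      exact hφ2 q
    refine ⟨⟨?_, _, h2, h3⟩, ?_⟩
    · change ins i0 (cut i0 (cp p)) ∈ (W.e i).target
      rw [ins_cut]
      exact (W.he _).cp_mem hp
    · rw [(W.box (φ q).1).h_eq (G := fun x => W.act (φ q).2 ((W.box i).F x))
        (x := cut i0 (cp p)) h2 h3, ← hcut]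
  have hinj : Function.Injective φ := by
    intro q1 q2 h12
    have h2 := (hkey q1).2
    have h3 := (hkey q2).2
    rw [h12] at h2
    have h4 : cut i0 (cp q1.1) = cut i0 (cp q2.1) := h2.symm.trans h3
    have h5 : cp q1.1 = cp q2.1 := by
      rw [← ins_cut i0 (cp q1.1), h4, ins_cut]
    apply Subtype.ext
    refine (W.he (φ q1).1).injOn (W.piece_sub _ (hφ1 q1)) ?_ h5
    rw [h12]
    exact W.piece_sub _ (hφ1 q2)
  rw [up, Ssum, ← ENNReal.tsum_prod]
  refine le_trans (le_of_eq (tsum_congr fun q => ?_))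
    (ENNReal.tsum_comp_le_tsum_of_injective hinj _)
  rw [term, indicator_of_mem (hkey q).1, (hkey q).2, pull, indicator_of_mem, ins_cut,
    (W.he _).symm_cp (W.piece_sub _ (hφ1 q)), indicator_of_mem (hφ1 q)]
  change ins i0 (cut i0 (cp q.1)) ∈ (W.e (φ q).1).target
  rw [ins_cut]
  exact (W.he _).cp_mem (W.piece_sub _ (hφ1 q))

/-- **COA.** Almost every leaf has finite area. -/
theorem ae_area_lt_top {μ : Measure M} (hμ : IsLeb μ) (w : M → ℝ≥0∞) (hwm : Measurable w)
    (hw : ∀ i j γ, ∀ z ∈ (W.e i).target, ∀ z' ∈ (W.e j).target, W.F j z' = W.act γ (W.F i z) →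
      ∀ L : (Fin m' → ℂ) →L[ℝ] (Fin m' → ℂ),
        (∀ v, fderiv ℝ (W.F j) z' (ins i0 (0, L v)) = W.act γ (fderiv ℝ (W.F i) z (ins i0 (0, v))))
        → w ((W.e i).symm z) = ENNReal.ofReal |L.det| * w ((W.e j).symm z'))
    (hfin : ∀ i, ∃ N : ℕ, ∀ j, ∀ z' ∈ (W.e j).target, ∀ s : Finset Γ,
      (∀ γ ∈ s, ∃ z ∈ (W.e i).target, W.F j z' = W.act γ (W.F i z)) → s.card ≤ N)
    (hbd : ∀ i, volume ((fun z => z i0) '' (W.e i).target) ≠ ⊤)
    (a : M → ℝ≥0∞) (ha : Measurable a) (hmass : ∫⁻ x, a x * w x ∂μ ≠ ⊤)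
    (S : M → Set M)
    (hS : ∀ i j p q, p ∈ (W.e i).source → q ∈ (W.e j).source → q ∈ S p →
      ∃ γ, W.F j (cp q) = W.act γ (W.F i (cp p))) :
    ∀ᵐ p ∂μ, p ∈ W.dom → w p ≠ 0 → W.area S a p < ⊤ := by
  set ν : Measure (ℂ × (Fin m' → ℂ)) :=
    (volume : Measure ℂ).prod (volume : Measure (Fin m' → ℂ)) with hν
  suffices h : ∀ i, ∀ᵐ p ∂μ, p ∈ (W.e i).source → w p ≠ 0 → W.area S a p < ⊤ by
    rw [← ae_all_iff] at h
    filter_upwards [h] with p hp hpd hwp
    obtain ⟨i, hi⟩ := mem_iUnion.1 hpd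
    exact hp i hi hwp
  intro i
  obtain ⟨N, hN⟩ := hfin i
  have hpm : ∀ j, Measurable ((W.piece j).indicator a) := fun j =>
    ha.indicator (W.measurableSet_piece j)
  have hle := int_le (μ := (volume : Measure (Fin m' → ℂ))) W.box (W.box i) W.act W.act_inj
    (fun j => W.pull j w) (W.pull i w)
    (fun j γ p p0 hp hp0 h L hL => by
      rw [pull, pull, indicator_of_mem (show p ∈ ins i0 ⁻¹' (W.e j).target from hp),
        indicator_of_mem (show p0 ∈ ins i0 ⁻¹' (W.e i).target from hp0)]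
      refine hw i j γ (ins i0 p0) hp0 (ins i0 p) hp h L fun v => ?_
      rw [← W.fderiv_comp j hp, ← W.fderiv_comp i hp0]
      exact hL v)
    N (fun j p hp s hs => hN j (ins i0 p) hp s fun γ hγ => by
      obtain ⟨p0, hp0, h⟩ := hs γ hγ
      exact ⟨ins i0 p0, hp0, h⟩)
    (fun j => W.pull j ((W.piece j).indicator a)) (fun j => W.measurable_pull j (hpm j))
    (fun j => W.measurable_pull j hwm) (W.measurable_pull i hwm)
  have hmass2 : ∑' j, ∫⁻ p in (W.box j).Ω, W.pull j ((W.piece j).indicator a) p * W.pull j w p ∂ν ≤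
      ∫⁻ x, a x * w x ∂μ := by
    have h1 : ∀ j, ∫⁻ p in (W.box j).Ω,
        W.pull j ((W.piece j).indicator a) p * W.pull j w p ∂ν =
        ∫⁻ x in W.piece j, a x * w x ∂μ := by
      intro j
      have h2 : (fun p => W.pull j ((W.piece j).indicator a) p * W.pull j w p) =
          W.pull j ((W.piece j).indicator fun x => a x * w x) := by
        funext p
        by_cases hp : p ∈ ins i0 ⁻¹' (W.e j).target
        · by_cases hq : (W.e j).symm (ins i0 p) ∈ W.piece j
          · simp [pull, hp, hq]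
          · simp [pull, hp, hq]
        · simp [pull, hp]
      have hm : Measurable fun x => a x * w x := ha.mul hwm
      rw [h2, ← W.lintegral_source hμ j (hm.indicator (W.measurableSet_piece j)),
        lintegral_indicator (W.measurableSet_piece j),
        Measure.restrict_restrict (W.measurableSet_piece j), inter_eq_left.2 (W.piece_sub j)]
    rw [tsum_congr h1, ← lintegral_iUnion (fun j => W.measurableSet_piece j)
      (fun j k hjk => W.piece_disj hjk)]
    exact setLIntegral_le_lintegral _ _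
  have hfin1 : ∫⁻ p in (W.box i).Ω, (W.pull i w p * ∫⁻ ζ : ℂ, W.up a i (ζ, p)) ∂ν ≠ ⊤ := by
    refine ne_top_of_le_ne_top ?_ hle
    refine ENNReal.mul_ne_top ?_ (ENNReal.mul_ne_top (by simp)
      (ne_top_of_le_ne_top hmass hmass2))
    have h3 : Prod.fst '' (W.box i).Ω = (fun z : Fin (m' + 1) → ℂ => z i0) '' (W.e i).target := by
      ext ζ
      constructor
      · rintro ⟨p, hp, rfl⟩
        exact ⟨ins i0 p, hp, ins_self i0 p⟩
      · rintro ⟨z, hz, rfl⟩
        refine ⟨cut i0 z, ?_, rfl⟩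
        change ins i0 (cut i0 z) ∈ (W.e i).target
        rw [ins_cut]
        exact hz
    rw [h3]
    exact hbd i
  have hupm : Measurable fun p => ∫⁻ ζ : ℂ, W.up a i (ζ, p) := by
    have : Measurable (W.up a i) :=
      measurable_Ssum _ _ _ (fun j => W.measurable_pull j (hpm j))
    exact this.lintegral_prod_left'
  have hae : ∀ᵐ p ∂ν.restrict (W.box i).Ω,
      W.pull i w p * ∫⁻ ζ : ℂ, W.up a i (ζ, p) < ⊤ :=
    ae_lt_top ((W.measurable_pull i hwm).mul hupm) hfin1
  have hae2 : ∀ᵐ p ∂μ.restrict (W.e i).source,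
      w p * ∫⁻ ζ : ℂ, W.up a i (ζ, cut i0 (cp p)) < ⊤ := by
    rw [hμ (W.e i) (W.he i)]
    have hcm : Measurable fun z : Fin (m' + 1) → ℂ => cut i0 z := by
      unfold cut
      fun_prop
    have hcpm : Measurable (cp : M → (Fin (m' + 1) → ℂ)) := cp_cont.measurable
    rw [ae_map_iff (aem_symm _)]
    · have hmp := (mp i0).restrict_preimage_emb (me i0) (W.e i).target
      have h4 : ∀ᵐ z ∂(volume.restrict (W.e i).target),
          W.pull i w (cut i0 z) * ∫⁻ ζ : ℂ, W.up a i (ζ, cut i0 z) < ⊤ := by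
        rw [← hmp.map_eq, ae_map_iff (ins i0).continuous.measurable.aemeasurable]
        · simp only [cut_ins]
          exact hae
        · exact measurableSet_lt ((W.measurable_pull i hwm).comp hcm |>.mul (hupm.comp hcm))
            measurable_const
      filter_upwards [h4, ae_restrict_mem (W.e i).open_target.measurableSet] with z hz hzt
      rw [(W.he i).cp_symm hzt]
      rw [pull, indicator_of_mem, ins_cut] at hz
      · exact hz
      · change ins i0 (cut i0 z) ∈ (W.e i).target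
        rw [ins_cut]
        exact hzt
    · exact measurableSet_lt (hwm.mul (hupm.comp (hcm.comp hcpm))) measurable_const
  rw [ae_restrict_iff' (W.e i).open_source.measurableSet] at hae2
  filter_upwards [hae2] with p hp hps hwp
  have h5 := hp hps
  have h6 : ∫⁻ ζ : ℂ, W.up a i (ζ, cut i0 (cp p)) < ⊤ := by
    rcases ENNReal.mul_lt_top_iff.1 h5 with h | h | h
    · exact h.2
    · exact absurd h hwp
    · rw [h]; exact ENNReal.zero_lt_top
  exact lt_of_le_of_lt (lintegral_mono fun ζ => W.tsum_le_up a S hS i hps ζ) h6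

end area

end meas

end Fol

end Crest.Agent.R276.Coa2_375
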