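import Crest.Agent.R276.LsB_450
import Crest.Agent.R273.OTA_34

/-!
# Row 276 (S0419): calculus on integral curves of a holomorphic vector field (helper450)

`Integral X ι` : `ι : A → M` is a map from a Riemann domain over `ℂ` to a Riemann domain over `ℂ^m` which is
locally an integral curve of `X`. Functions on `M` are restricted to `A`; `D`, `dz`, `db`, `Levi` of the
restriction.
-/

set_option autoImplicit false
set_option linter.unusedSectionVars false

noncomputable section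

open Set Filter Topology MeasureTheory
open Crest.Agent.R271.Ho51
open Crest.Agent.R271 (W792.lev)
open Crest.Agent.R273 (OTA_34.hol_of OTA_34.hol_to OTA_34.db_hol)
open Crest.Agent.R276.Ipc735 (SmAt HolAt)
open Crest.Agent.R276.LsDefs_450 Crest.Agent.R276.LsA_450 Crest.Agent.R276.LsB_450

namespace Crest.Agent.R276.LsC_450

variable {m : ℕ} {M : Type*} [TopologicalSpace M] [RDom m M]
  {A : Type*} [TopologicalSpace A] [RDom 1 A]

/-- `ι` is locally an integral curve of `X` -/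
def Integral (X : M → Fin m → ℂ) (ι : A → M) : Prop :=
  ∀ q : A, ∃ g : ℂ → (Fin m → ℂ), g (cp q 0) = cp (ι q) ∧ ∀ᶠ z in 𝓝 (cp q),
    ι ((ch q).symm z) = (ch (ι q)).symm (g (z 0)) ∧ HasDerivAt g (X (ι ((ch q).symm z))) (z 0)

variable {X : M → Fin m → ℂ} {ι : A → M}

/-- evaluation of the coordinate -/
def ev0 : (Fin 1 → ℂ) →L[ℂ] ℂ := ContinuousLinearMap.proj 0

lemma Integral.data (h : Integral X ι) (q : A) : ∃ g : ℂ → (Fin m → ℂ), g (cp q 0) = cp (ι q) ∧
    (∀ᶠ z in 𝓝 (cp q), ι ((ch q).symm z) = (ch (ι q)).symm (g (z 0))) ∧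
    HasDerivAt g (X (ι q)) (cp q 0) ∧ AnalyticAt ℂ g (cp q 0) := by
  obtain ⟨g, h1, h2⟩ := h q
  refine ⟨g, h1, h2.mono fun z hz => hz.1, ?_, ?_⟩
  · have := (h2.self_of_nhds).2
    rwa [symm_cp] at this
  · rw [Complex.analyticAt_iff_eventually_differentiableAt]
    have hc : Tendsto (fun ζ : ℂ => (fun _ : Fin 1 => ζ)) (𝓝 (cp q 0)) (𝓝 (cp q)) := by
      have h3 : Continuous (fun ζ : ℂ => (fun _ : Fin 1 => ζ)) := by fun_prop
      have h4 := h3.tendsto (cp q 0)
      have h5 : (fun _ : Fin 1 => cp q 0) = cp q := by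
        funext i; rw [Subsingleton.elim i 0]
      rwa [h5] at h4
    filter_upwards [hc.eventually h2] with ζ hζ
    exact hζ.2.differentiableAt

lemma Integral.continuous (h : Integral X ι) : Continuous ι := by
  rw [continuous_iff_continuousAt]
  intro q
  obtain ⟨g, h1, h2, h3, h4⟩ := h.data q
  have h5 : ContinuousAt (fun y : A => (ch (ι q)).symm (g (cp y 0))) q := by
    have e1 : ContinuousAt (ch (ι q)).symm (g (cp q 0)) := by
      rw [h1]
      exact (ch (ι q)).symm.continuousAt (by simpa using (isCh_ch (ι q)).cp_mem (mem_ch (ι q)))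
    have e2 : ContinuousAt (fun y : A => g (cp y 0)) q :=
      ContinuousAt.comp (g := g) (f := fun y : A => cp y 0) h3.continuousAt
        ((continuous_apply 0).continuousAt.comp cp_cont.continuousAt)
    exact ContinuousAt.comp (g := (ch (ι q)).symm) (f := fun y : A => g (cp y 0)) e1 e2
  refine h5.congr ?_
  filter_upwards [cp_cont.continuousAt.eventually h2, (ch q).open_source.mem_nhds (mem_ch q)]
    with y hy hys
  rw [(isCh_ch q).symm_cp hys] at hy
  exact hy.symm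

/-- the restriction of `f` in the chart at `q` -/
lemma Integral.germ {B : Type*} (h : Integral X ι) (f : M → B) (q : A) :
    ∃ g : ℂ → (Fin m → ℂ), g (cp q 0) = cp (ι q) ∧ HasDerivAt g (X (ι q)) (cp q 0) ∧
      AnalyticAt ℂ g (cp q 0) ∧
      ((fun y => f (ι y)) ∘ (ch q).symm) =ᶠ[𝓝 (cp q)]
        ((f ∘ (ch (ι q)).symm) ∘ g ∘ (fun z : Fin 1 → ℂ => z 0)) := by
  obtain ⟨g, h1, h2, h3, h4⟩ := h.data q
  refine ⟨g, h1, h3, h4, ?_⟩
  filter_upwards [h2] with z hz
  simp only [Function.comp_apply, hz]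

variable {W : Type*} [NormedAddCommGroup W] [NormedSpace ℝ W]

lemma analyticAt_comp0 {g : ℂ → (Fin m → ℂ)} {q : A} (h : AnalyticAt ℂ g (cp q 0)) :
    AnalyticAt ℂ (g ∘ (fun z : Fin 1 → ℂ => z 0)) (cp q) :=
  AnalyticAt.comp (g := g) (f := fun z : Fin 1 → ℂ => z 0) h (ev0.analyticAt (cp q))

/-- smoothness at a point of the restriction -/
theorem Integral.smAt (h : Integral X ι) {f : M → W} {q : A} (hf : SmAt f (ι q)) :
    SmAt (fun y => f (ι y)) q := by
  obtain ⟨g, h1, h2, h3, h4⟩ := h.germ f q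
  refine ContDiffAt.congr_of_eventuallyEq ?_ h4
  have h5 : ContDiffAt ℝ (⊤ : ℕ∞) (g ∘ (fun z : Fin 1 → ℂ => z 0)) (cp q) :=
    ((analyticAt_comp0 h3).restrictScalars (𝕜 := ℝ)).contDiffAt
  have h6 : ContDiffAt ℝ (⊤ : ℕ∞) (f ∘ (ch (ι q)).symm)
      ((g ∘ (fun z : Fin 1 → ℂ => z 0)) (cp q)) := by
    show ContDiffAt ℝ (⊤ : ℕ∞) (f ∘ (ch (ι q)).symm) (g (cp q 0))
    rw [h1]; exact hf
  exact h6.comp (cp q) h5

theorem Integral.sm (h : Integral X ι) {f : M → W} (hf : Sm f) : Sm (fun y => f (ι y)) :=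
  fun q => h.smAt (hf (ι q))

/-- holomorphy at a point of the restriction -/
theorem Integral.holAt (h : Integral X ι) {W' : Type*} [NormedAddCommGroup W'] [NormedSpace ℂ W']
    {f : M → W'} {q : A} (hf : HolAt f (ι q)) : HolAt (fun y => f (ι y)) q := by
  obtain ⟨g, h1, h2, h3, h4⟩ := h.germ f q
  have h6 : AnalyticAt ℂ (f ∘ (ch (ι q)).symm)
      ((g ∘ (fun z : Fin 1 → ℂ => z 0)) (cp q)) := by
    show AnalyticAt ℂ (f ∘ (ch (ι q)).symm) (g (cp q 0))
    rw [h1]; exact hf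
  exact (AnalyticAt.comp h6 (analyticAt_comp0 h3)).congr h4.symm

/-- chain rule -/
theorem Integral.D_eq (h : Integral X ι) {f : M → W} {q : A}
    (hf : DifferentiableAt ℝ (f ∘ (ch (ι q)).symm) (cp (ι q))) (v : Fin 1 → ℂ) :
    D (fun y => f (ι y)) q v = D f (ι q) (v 0 • X (ι q)) := by
  obtain ⟨g, h1, h2, h3, h4⟩ := h.germ f q
  have e1 : D (fun y => f (ι y)) q =
      fderiv ℝ ((f ∘ (ch (ι q)).symm) ∘ g ∘ (fun z : Fin 1 → ℂ => z 0)) (cp q) := h4.fderiv_eq
  have e2 : HasFDerivAt (fun z : Fin 1 → ℂ => z 0) ((ev0).restrictScalars ℝ) (cp q) :=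
    ((ev0).restrictScalars ℝ).hasFDerivAt
  have e3 : HasFDerivAt g
      ((ContinuousLinearMap.toSpanSingleton ℂ (X (ι q)) : ℂ →L[ℂ] (Fin m → ℂ)).restrictScalars ℝ)
      (cp q 0) := HasFDerivAt.restrictScalars ℝ h2
  have e4 : HasFDerivAt (f ∘ (ch (ι q)).symm) (D f (ι q)) (g (cp q 0)) := by
    rw [h1]; exact hf.hasFDerivAt
  have e5 := (e4.comp (cp q 0) e3).comp (cp q) e2
  have e6 : D (fun y => f (ι y)) q = _ := e1.trans e5.fderiv
  rw [e6]
  simp [ev0, ContinuousLinearMap.toSpanSingleton_apply]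

theorem Integral.D_sm (h : Integral X ι) {f : M → W} (hf : Sm f) (q : A) (v : Fin 1 → ℂ) :
    D (fun y => f (ι y)) q v = D f (ι q) (v 0 • X (ι q)) :=
  h.D_eq (hf.differentiableAt (ι q)) v

theorem Integral.hol (h : Integral X ι) {f : M → ℂ} (hf : Hol f) : Hol (fun y => f (ι y)) := by
  have hf' := OTA_34.hol_of f hf
  refine OTA_34.hol_to _ ⟨h.sm hf'.sm, fun q w => ?_⟩
  rw [h.D_sm hf'.sm, h.D_sm hf'.sm]
  have : ((Complex.I • w) 0 • X (ι q)) = Complex.I • (w 0 • X (ι q)) := by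
    rw [Pi.smul_apply, smul_assoc]
  rw [this, hf'.cl]

lemma sum_wz (B : (Fin m → ℂ) →L[ℝ] ℂ) (w : Fin m → ℂ) :
    ∑ j, w j * wz j B = (1 / 2 : ℂ) * (B w - Complex.I * B (Complex.I • w)) := by
  have h1 := Crest.Agent.R271.W792.clm_wirtinger B w
  have h2 := Crest.Agent.R271.W792.clm_wirtinger B (Complex.I • w)
  rw [h1, h2, Finset.mul_sum, ← Finset.sum_sub_distrib, Finset.mul_sum]
  refine Finset.sum_congr rfl fun j _ => ?_
  simp only [Pi.smul_apply, smul_eq_mul, map_mul, Complex.conj_I]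
  ring_nf
  rw [Complex.I_sq]
  ring

lemma sum_wb (B : (Fin m → ℂ) →L[ℝ] ℂ) (w : Fin m → ℂ) :
    ∑ j, (starRingEnd ℂ) (w j) * wb j B =
      (1 / 2 : ℂ) * (B w + Complex.I * B (Complex.I • w)) := by
  have h1 := Crest.Agent.R271.W792.clm_wirtinger B w
  have h2 := Crest.Agent.R271.W792.clm_wirtinger B (Complex.I • w)
  rw [h1, h2, Finset.mul_sum, ← Finset.sum_add_distrib, Finset.mul_sum]
  refine Finset.sum_congr rfl fun j _ => ?_
  simp only [Pi.smul_apply, smul_eq_mul, map_mul, Complex.conj_I]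
  ring_nf
  rw [Complex.I_sq]
  ring

lemma Integral.D_smul_I (h : Integral X ι) {f : M → W} (hf : Sm f) (q : A) :
    D (fun y => f (ι y)) q (Pi.single 0 1) = D f (ι q) (X (ι q)) ∧
    D (fun y => f (ι y)) q (Pi.single 0 Complex.I) = D f (ι q) (Complex.I • X (ι q)) := by
  rw [h.D_sm hf, h.D_sm hf]
  simp

theorem Integral.dz_eq (h : Integral X ι) {f : M → ℂ} (hf : Sm f) (q : A) :
    dz 0 (fun y => f (ι y)) q = ∑ j, X (ι q) j * dz j f (ι q) := by
  obtain ⟨h1, h2⟩ := h.D_smul_I hf q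
  rw [Crest.Agent.R271.Ho51.dz_eq, h1, h2]
  exact (sum_wz _ _).symm

theorem Integral.db_eq (h : Integral X ι) {f : M → ℂ} (hf : Sm f) (q : A) :
    db 0 (fun y => f (ι y)) q = ∑ j, (starRingEnd ℂ) (X (ι q) j) * db j f (ι q) := by
  obtain ⟨h1, h2⟩ := h.D_smul_I hf q
  rw [Crest.Agent.R271.Ho51.db_eq, h1, h2]
  exact (sum_wb _ _).symm

/-- the Levi form of the restriction -/
theorem Integral.levi (h : Integral X ι) (hX : ∀ j, Hol (fun y => X y j)) {f : M → ℝ} (hf : Sm f)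
    (q : A) (w : Fin 1 → ℂ) :
    Levi (fun y => f (ι y)) q w = Levi f (ι q) (w 0 • X (ι q)) := by
  have hXs : ∀ j, Crest.Agent.R271.W792.Hol (fun y => X y j) := fun j => OTA_34.hol_of _ (hX j)
  have hXc : ∀ j, Sm (fun y => (starRingEnd ℂ) (X y j)) := fun j => (hXs j).sm.conj
  have hfc : Sm (fun y => (f y : ℂ)) := hf.ofReal
  -- the function `∑ conj X_j ∂f/∂\bar z_j`
  have e1 : (db 0 fun y : A => ((f (ι y) : ℝ) : ℂ)) =
      fun q => (fun y => ∑ j, (starRingEnd ℂ) (X y j) * db j (fun y => (f y : ℂ)) y) (ι q) := by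
    funext y
    exact h.db_eq hfc y
  have hterm : ∀ j, Sm (fun y => (starRingEnd ℂ) (X y j) * db j (fun y => (f y : ℂ)) y) :=
    fun j => (hXc j).mul (hfc.db j)
  have e2 : Lv (fun y => f (ι y)) q 0 0 =
      ∑ k, X (ι q) k * ∑ j, (starRingEnd ℂ) (X (ι q) j) * Lv f (ι q) k j := by
    unfold Lv
    rw [e1, h.dz_eq (Sm.sum fun j _ => hterm j)]
    refine Finset.sum_congr rfl fun k _ => ?_
    congr 1
    rw [dz_sum _ (fun j _ => hterm j)]
    refine Finset.sum_congr rfl fun j _ => ?_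
    rw [dz_mul (hXc j) (hfc.db j), dz_conj (hXs j).sm, OTA_34.db_hol (hXs j)]
    simp
  unfold Levi
  rw [Fin.sum_univ_one, Fin.sum_univ_one, e2]
  congr 1
  simp only [Pi.smul_apply, smul_eq_mul, map_mul]
  rw [Finset.sum_mul, Finset.sum_mul]
  refine Finset.sum_congr rfl fun k _ => ?_
  rw [Finset.mul_sum, Finset.sum_mul, Finset.sum_mul]
  refine Finset.sum_congr rfl fun j _ => ?_
  ring

/-! ### the classes -/

variable {i₀ : Fin m} {V : Type*} [NormedAddCommGroup V] [NormedSpace ℝ V] {G : Type*} [Group G]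
  (I : Inv M i₀ V G)

theorem integral_S [FiniteDimensional ℝ V] {p : M} (h : I.S p ⊆ I.Mst) :
    letI := rdomS I h
    Integral I.X (fun q : I.S p => (q : M)) := by
  letI := rdomS I h
  intro q
  obtain ⟨e, g, h1, h2, h3, h4⟩ := exists_chart I q (h q.2)
  have he : IsCh e := h2
  refine ⟨g, h3, ?_⟩
  filter_upwards [(isCh_ch q).germ he (mem_ch q) h1, e.open_target.mem_nhds (he.cp_mem h1)]
    with z hz hzt
  obtain ⟨h5, h6, h7⟩ := h4 z hzt
  rw [hz]
  exact ⟨h6, h7⟩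

theorem main_LS : LS := by
  intro m M _ _ _ i₀ V _ _ _ G _ I p
  refine ⟨isClosed_S I p, fun h => ⟨rdomS I h, fun q => rfl, ?_⟩⟩
  letI := rdomS I h
  have hi : Integral I.X (fun q : I.S p => (q : M)) := integral_S I h
  exact ⟨fun f hf => hi.hol hf, fun f hf => hi.sm hf,
    fun f hf => ⟨hi.sm hf, fun q => ⟨hi.dz_eq hf q, hi.db_eq hf q⟩⟩,
    fun f hf q w => hi.levi I.holX hf q w⟩

end Crest.Agent.R276.LsC_450
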