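import Mathlib
import Crest.Agent.R276.Coa2_375
import Crest.Agent.R276.LsC_450
import Crest.Agent.R276.Area_448

/-!
Row 276, leaf ALG-COA (helper375), part 3: the coarea theorem for the structure `Inv` of
`LsDefs_450`: almost every class contained in `M*` is a curve of finite area.
-/

set_option autoImplicit false
set_option linter.unusedSectionVars false

noncomputable section

open Set Filter Topology MeasureTheory
open scoped ENNReal NNReal
open Crest.Agent.R271.Ho51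
open Crest.Agent.R276.Ipc735 (SmAt HolAt)
open Crest.Agent.R276.LsDefs_450 Crest.Agent.R276.LsB_450
open Crest.Agent.R276.Coa_375 Crest.Agent.R276.Coa2_375

namespace Crest.Agent.R276.Coa3_375

variable {m' : ℕ} {M : Type*} [TopologicalSpace M] [RDom (m' + 1) M] {i₀ : Fin (m' + 1)}
  {V : Type*} [NormedAddCommGroup V] [NormedSpace ℝ V] [FiniteDimensional ℝ V]
  {G : Type*} [Group G] (I : Inv M i₀ V G)

/-- a left inverse of an injective linear map -/
lemma exists_leftInv {E : Type*} [NormedAddCommGroup E] [NormedSpace ℝ E]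
    (L : E →L[ℝ] V) (hL : ∀ v, L v = 0 → v = 0) :
    ∃ π : V →L[ℝ] E, ∀ v, π (L v) = v := by
  obtain ⟨g, hg⟩ := LinearMap.exists_leftInverse_of_injective (L : E →ₗ[ℝ] V)
    (LinearMap.ker_eq_bot'.2 hL)
  refine ⟨LinearMap.toContinuousLinearMap g, fun v => ?_⟩
  exact LinearMap.congr_fun hg v

/-- **A foliated box** around a point of `M*`. -/
theorem exists_box {z0 : M} (hz0 : z0 ∈ I.Mst) :
    ∃ (e : OpenPartialHomeomorph M (Fin (m' + 1) → ℂ)) (π : V →L[ℝ] (Fin m' → ℂ)) (T0 : Set G),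
      IsCh e ∧ z0 ∈ e.source ∧ ContDiffOn ℝ 1 (I.F z0 ∘ e.symm) e.target ∧
      InjOn (fun z => (z i₀, π (I.F z0 (e.symm z)))) e.target ∧
      (∀ z ∈ e.target, ∀ v : Fin (m' + 1) → ℂ, v i₀ = 0 →
        π (fderiv ℝ (I.F z0 ∘ e.symm) z v) = 0 → v = 0) ∧
      (∀ x ∈ e.source, ∃ γ, ∀ᶠ y in 𝓝 x, I.F z0 y = I.ρ γ (I.F x y)) ∧
      e.target ⊆ Metric.ball (cp z0) 1 ∧ T0.Finite ∧
      ∀ γ, (∃ x ∈ e.source, ∃ y ∈ e.source, I.ρ γ (I.F z0 x) = I.F z0 y) → γ ∈ T0 := by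
  obtain ⟨U0, hU0, W0, hW0, hfin⟩ := I.pd z0 z0
  set Φ : (Fin (m' + 1) → ℂ) → V := I.F z0 ∘ (ch z0).symm with hΦ
  have hsm : ContDiffAt ℝ 1 Φ (cp z0) := ContDiffAt.of_le (I.sm z0) (by exact_mod_cast le_top)
  obtain ⟨π, hπ⟩ := exists_leftInv ((fderiv ℝ Φ (cp z0)).comp
    ((ins i₀).comp (ContinuousLinearMap.inr ℝ ℂ (Fin m' → ℂ)))) (fun v hv => by
      have h1 : ins i₀ (0, v) = 0 := hz0 (ins i₀ (0, v)) (by simp) hv
      have h2 : ((0 : ℂ), v) = 0 := ins_inj i₀ (by rw [h1, map_zero])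
      exact (Prod.mk.inj h2).2)
  have hπ' : ∀ v, π (fderiv ℝ Φ (cp z0) (ins i₀ (0, v))) = v := hπ
  -- transversality near the centre
  have hder : ∀ᶠ z in 𝓝 (cp z0), ∀ v : Fin (m' + 1) → ℂ, v i₀ = 0 →
      π (fderiv ℝ Φ z v) = 0 → v = 0 := by
    have hc : ContinuousAt (fun z => fderiv ℝ Φ z) (cp z0) :=
      (hsm.fderiv_right (m := 0) (by simp)).continuousAt
    set A : (Fin (m' + 1) → ℂ) → ((Fin m' → ℂ) →L[ℝ] (Fin m' → ℂ)) := fun z =>
      π.comp ((fderiv ℝ Φ z).comp ((ins i₀).comp (ContinuousLinearMap.inr ℝ ℂ (Fin m' → ℂ))))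
      with hA
    have hA0 : A (cp z0) = ContinuousLinearMap.id ℝ _ := by
      ext1 v
      exact hπ' v
    have hAc : ContinuousAt A (cp z0) := by
      have h1 : ContinuousAt (fun z => (fderiv ℝ Φ z).comp
          ((ins i₀).comp (ContinuousLinearMap.inr ℝ ℂ (Fin m' → ℂ)))) (cp z0) :=
        ((ContinuousLinearMap.compL ℝ (Fin m' → ℂ) (Fin (m' + 1) → ℂ) V).flip
          ((ins i₀).comp (ContinuousLinearMap.inr ℝ ℂ (Fin m' → ℂ)))).continuous.continuousAt.comp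
          hc
      exact ((ContinuousLinearMap.compL ℝ (Fin m' → ℂ) V (Fin m' → ℂ)) π).continuous.continuousAt.comp
        h1
    have h2 : ∀ᶠ z in 𝓝 (cp z0), ‖A z - ContinuousLinearMap.id ℝ _‖ < 1 := by
      have h3 : ContinuousAt (fun z => ‖A z - ContinuousLinearMap.id ℝ _‖) (cp z0) :=
        (hAc.sub continuousAt_const).norm
      have h4 : ‖A (cp z0) - ContinuousLinearMap.id ℝ _‖ < 1 := by rw [hA0]; simp
      exact h3.eventually (gt_mem_nhds h4)
    filter_upwards [h2] with z hz v hv hv2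
    have h5 : v = ins i₀ (0, (cut i₀ v).2) := by
      have : cut i₀ v = (0, (cut i₀ v).2) := Prod.ext hv rfl
      rw [← this, ins_cut]
    set v' := (cut i₀ v).2 with hv'
    have h6 : A z v' = 0 := by
      rw [h5] at hv2
      exact hv2
    have h7 : v' = 0 := by
      by_contra hne
      have h8 : ‖v'‖ ≤ ‖A z - ContinuousLinearMap.id ℝ _‖ * ‖v'‖ := by
        have := (A z - ContinuousLinearMap.id ℝ _).le_opNorm v'
        rw [_root_.sub_apply, h6, zero_sub, norm_neg] at this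
        exact this
      have h9 : 0 < ‖v'‖ := norm_pos_iff.2 hne
      nlinarith
    rw [h5, h7]
    exact map_zero _
  -- injectivity near the centre
  have hinj : ∃ S ∈ 𝓝 (cp z0), InjOn (fun z => (z i₀, π (Φ z))) S := by
    have hst : HasStrictFDerivAt Φ (fderiv ℝ Φ (cp z0)) (cp z0) := hsm.hasStrictFDerivAt (by simp)
    set p0 := cut i₀ (cp z0) with hp0
    have hp0' : ins i₀ p0 = cp z0 := ins_cut _ _
    set D1 : ℂ × (Fin m' → ℂ) →L[ℝ] ℂ × (Fin m' → ℂ) :=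
      (ContinuousLinearMap.fst ℝ ℂ _).prod (π.comp ((fderiv ℝ Φ (cp z0)).comp (ins i₀))) with hD1
    have hD1inj : Function.Injective D1 := by
      rw [injective_iff_map_eq_zero]
      rintro ⟨a, v⟩ h
      have h1 := congrArg Prod.fst h
      have h2 := congrArg Prod.snd h
      have h1' : a = 0 := h1
      subst h1'
      have h3 : π (fderiv ℝ Φ (cp z0) (ins i₀ (0, v))) = 0 := h2
      rw [hπ'] at h3
      rw [h3]; rfl
    set L1 : (ℂ × (Fin m' → ℂ)) ≃L[ℝ] (ℂ × (Fin m' → ℂ)) :=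
      (LinearEquiv.ofInjectiveEndo (D1 : (ℂ × (Fin m' → ℂ)) →ₗ[ℝ] (ℂ × (Fin m' → ℂ)))
        hD1inj).toContinuousLinearEquiv with hL1
    have hcoe : (L1 : ℂ × (Fin m' → ℂ) →L[ℝ] ℂ × (Fin m' → ℂ)) = D1 := by
      apply ContinuousLinearMap.ext
      intro v
      rfl
    have hst1 : HasStrictFDerivAt (fun p => ((ins i₀ p) i₀, π (Φ (ins i₀ p))))
        (L1 : ℂ × (Fin m' → ℂ) →L[ℝ] ℂ × (Fin m' → ℂ)) p0 := by
      rw [hcoe]
      have h1 : HasStrictFDerivAt (fun p => Φ (ins i₀ p))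
          ((fderiv ℝ Φ (cp z0)).comp (ins i₀)) p0 := by
        refine HasStrictFDerivAt.comp p0 (g := Φ) ?_ (ins i₀).hasStrictFDerivAt
        rw [hp0']
        exact hst
      have h2 : (fun p : ℂ × (Fin m' → ℂ) => ((ins i₀ p) i₀, π (Φ (ins i₀ p)))) =
          fun p => (p.1, π (Φ (ins i₀ p))) := by
        funext p; simp
      rw [h2]
      exact hasStrictFDerivAt_fst.prodMk (π.hasStrictFDerivAt.comp p0 h1)
    set hh := hst1.toOpenPartialHomeomorph _
    have hmem : hh.source ∈ 𝓝 p0 :=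
      hh.open_source.mem_nhds hst1.mem_toOpenPartialHomeomorph_source
    have hio : InjOn (fun p : ℂ × (Fin m' → ℂ) => ((ins i₀ p) i₀, π (Φ (ins i₀ p))))
        hh.source := by
      have := hh.injOn
      rwa [hst1.toOpenPartialHomeomorph_coe] at this
    have hcc : Continuous fun z : Fin (m' + 1) → ℂ => cut i₀ z := by
      unfold cut
      fun_prop
    refine ⟨(fun z => cut i₀ z) ⁻¹' hh.source, hcc.continuousAt.preimage_mem_nhds hmem, ?_⟩
    intro z hz z' hz' hzz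
    have h5 : cut i₀ z = cut i₀ z' := by
      apply hio hz hz'
      simp only [ins_cut]
      exact hzz
    rw [← ins_cut i₀ z, h5, ins_cut]
  obtain ⟨S, hS, hSinj⟩ := hinj
  have hcp : Tendsto (cp : M → (Fin (m' + 1) → ℂ)) (𝓝 z0) (𝓝 (cp z0)) := cp_cont.continuousAt
  have hcd : ∀ᶠ z in 𝓝 (cp z0), ContDiffAt ℝ 1 Φ z := hsm.eventually (by simp)
  have hall : ∀ᶠ x in 𝓝 z0, x ∈ U0 ∧ x ∈ W0 ∧ cp x ∈ S ∧ ContDiffAt ℝ 1 Φ (cp x) ∧
      (∀ v : Fin (m' + 1) → ℂ, v i₀ = 0 → π (fderiv ℝ Φ (cp x) v) = 0 → v = 0) ∧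
      (∃ γ, ∀ᶠ y in 𝓝 x, I.F z0 y = I.ρ γ (I.F x y)) ∧ cp x ∈ Metric.ball (cp z0) 1 := by
    filter_upwards [hU0, hW0, hcp hS, hcp.eventually hcd, hcp.eventually hder, I.ndc z0,
      hcp (Metric.ball_mem_nhds _ one_pos)] with x h1 h2 h3 h4 h5 h6 h7
    exact ⟨h1, h2, h3, h4, h5, h6, h7⟩
  obtain ⟨U, hUsub, hUo, hUz⟩ := mem_nhds_iff.1 hall
  set e := (ch z0).restrOpen U hUo with he
  have hes : e.source = (ch z0).source ∩ U := (ch z0).restrOpen_source U hUo
  have hsy : ∀ z, e.symm z = (ch z0).symm z := fun z => rfl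
  have hich : IsCh e := isCh_ch z0
  have htU : ∀ z ∈ e.target, e.symm z ∈ U := fun z hz => by
    have := e.map_target hz
    rw [hes] at this
    exact this.2
  have hcpz : ∀ z ∈ e.target, cp (e.symm z) = z := fun z hz => hich.cp_symm hz
  refine ⟨e, π, _, hich, ?_, ?_, ?_, ?_, ?_, ?_, hfin, ?_⟩
  · rw [hes]; exact ⟨mem_ch z0, hUz⟩
  · intro z hz
    have h1 := (hUsub (htU z hz)).2.2.2.1
    rw [hcpz z hz] at h1
    exact h1.contDiffWithinAt
  · intro z hz z' hz' hzz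
    have h1 := (hUsub (htU z hz)).2.2.1
    have h2 := (hUsub (htU z' hz')).2.2.1
    rw [hcpz z hz] at h1
    rw [hcpz z' hz'] at h2
    exact hSinj h1 h2 hzz
  · intro z hz
    have h1 := (hUsub (htU z hz)).2.2.2.2.1
    rw [hcpz z hz] at h1
    exact h1
  · intro x hx
    rw [hes] at hx
    exact (hUsub hx.2).2.2.2.2.2.1
  · intro z hz
    have h1 := (hUsub (htU z hz)).2.2.2.2.2.2
    rw [hcpz z hz] at h1
    exact h1
  · rintro γ ⟨x, hx, y, hy, hxy⟩
    rw [hes] at hx hy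
    exact ⟨x, (hUsub hx.2).1, y, (hUsub hy.2).2.1, hxy⟩

/-- derivative of `F z0` in the box at a point `x` of it -/
lemma fderiv_box {z0 : M} {e : OpenPartialHomeomorph M (Fin (m' + 1) → ℂ)} (he : IsCh e)
    {x : M} (hx : x ∈ e.source) {γ : G} (hγ : ∀ᶠ y in 𝓝 x, I.F z0 y = I.ρ γ (I.F x y)) :
    fderiv ℝ (I.F z0 ∘ e.symm) (cp x) = (I.ρ γ).comp (D (I.F x) x) := by
  rw [← D_eq he hx, D_congr hγ]
  have h1 : HasFDerivAt ((fun y => I.ρ γ (I.F x y)) ∘ (ch x).symm)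
      ((I.ρ γ).comp (D (I.F x) x)) (cp x) :=
    (I.ρ γ).hasFDerivAt.comp (cp x) (diffAt_F I x).hasFDerivAt
  exact h1.fderiv

/-- **Existence of the foliated atlas** for `Inv`. -/
theorem exists_fol [SecondCountableTopology M] : ∃ (t : Set I.Mst) (W : Fol M V i₀ t G),
    t.Countable ∧ I.Mst ⊆ W.dom ∧ (∀ j, W.F j = I.F (j : I.Mst) ∘ (W.e j).symm) ∧
    (∀ γ, W.act γ = I.ρ γ) ∧
    (∀ j : t, ∀ x ∈ (W.e j).source, ∃ γ, ∀ᶠ y in 𝓝 x, I.F (j : I.Mst) y = I.ρ γ (I.F x y)) ∧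
    (∀ j : t, (W.e j).target ⊆ Metric.ball (cp ((j : I.Mst) : M)) 1) ∧
    (∀ j : t, ∃ T0 : Set G, T0.Finite ∧
      ∀ γ, (∃ x ∈ (W.e j).source, ∃ y ∈ (W.e j).source,
        I.ρ γ (I.F (j : I.Mst) x) = I.F (j : I.Mst) y) → γ ∈ T0) := by
  choose e π T0 h1 h2 h3 h4 h5 h6 h7 h8 h9 using fun z : I.Mst => exists_box I z.2
  obtain ⟨t, htc, htcov⟩ := TopologicalSpace.isOpen_iUnion_countable
    (fun z : I.Mst => (e z).source) (fun z => (e z).open_source)
  refine ⟨t,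
    { e := fun j => e j
      he := fun j => h1 j
      F := fun j => I.F (j : I.Mst) ∘ (e j).symm
      hF := fun j => h3 j
      π := fun j => π j
      inj := fun j => h4 j
      der := fun j => h5 j
      act := fun γ => I.ρ γ
      act_inj := fun γ v w hvw => by
        have := congrArg (I.ρ γ⁻¹) hvw
        rwa [ρ_inv, ρ_inv] at this },
    htc, ?_, fun j => rfl, fun γ => rfl, fun j => h6 j, fun j => h7 j,
    fun j => ⟨T0 j, h8 j, h9 j⟩⟩
  intro x hx
  have h10 : x ∈ ⋃ z : I.Mst, (e z).source := mem_iUnion.2 ⟨⟨x, hx⟩, h2 ⟨x, hx⟩⟩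
  rw [← htcov] at h10
  obtain ⟨z, hz, hxz⟩ := mem_iUnion₂.1 h10
  exact mem_iUnion.2 ⟨⟨z, hz⟩, hxz⟩

/-- **COA for `Inv`.** For almost every `p ∈ M*` with `w p ≠ 0` and `S p ⊆ M*` the class of `p` has
finite area with density `a`. -/
theorem coa_inv [SecondCountableTopology M] [MeasurableSpace M] [BorelSpace M] [Countable G]
    {μ : Measure M} (hμ : IsLeb μ) (w : M → ℝ≥0∞) (hwm : Measurable w)
    (hw : ∀ x y γ, I.e y = I.ρ γ (I.e x) → ∀ L : (Fin m' → ℂ) →L[ℝ] (Fin m' → ℂ),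
      (∀ v, D (I.F y) y (ins i₀ (0, L v)) = I.ρ γ (D (I.F x) x (ins i₀ (0, v)))) →
        w x = ENNReal.ofReal |L.det| * w y)
    (a : M → ℝ≥0∞) (ha : Measurable a) (hmass : ∫⁻ x, a x * w x ∂μ ≠ ⊤) :
    ∀ᵐ p ∂μ, p ∈ I.Mst → w p ≠ 0 → I.S p ⊆ I.Mst →
      ∫⁻ ζ : ℂ, ∑' q : {q // q ∈ I.S p ∧ cp q i₀ = ζ}, a q < ⊤ := by
  obtain ⟨t, W, htc, hdom, hF, hact, hch, hball, hT⟩ := exists_fol I
  have : Countable t := htc.to_subtype
  have hmain := W.ae_area_lt_top hμ w hwm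
    (by
      intro i j γ z hz z' hz' hzz L hL
      set x := (W.e i).symm z with hx
      set y := (W.e j).symm z' with hy
      have hxs : x ∈ (W.e i).source := (W.e i).map_target hz
      have hys : y ∈ (W.e j).source := (W.e j).map_target hz'
      have hcx : cp x = z := (W.he i).cp_symm hz
      have hcy : cp y = z' := (W.he j).cp_symm hz'
      obtain ⟨γx, hγx⟩ := hch i x hxs
      obtain ⟨γy, hγy⟩ := hch j y hys
      have ex : I.F (i : I.Mst) x = I.ρ γx (I.e x) := by rw [hγx.self_of_nhds, I.Fz]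
      have ey : I.F (j : I.Mst) y = I.ρ γy (I.e y) := by rw [hγy.self_of_nhds, I.Fz]
      refine hw x y (γy⁻¹ * γ * γx) ?_ L fun v => ?_
      · have h1 : I.F (j : I.Mst) y = I.ρ γ (I.F (i : I.Mst) x) := by
          rw [hF, hF, hact] at hzz
          exact hzz
        rw [ρ_mul, ρ_mul, ← ex, ← h1, ey, ρ_inv]
      · have h2 := hL v
        rw [hF, hF, hact, ← hcx, ← hcy, fderiv_box I (W.he i) hxs hγx,
          fderiv_box I (W.he j) hys hγy] at h2
        rw [ρ_mul, ρ_mul]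
        have h3 : I.ρ γy (D (I.F y) y (ins i₀ (0, L v))) =
            I.ρ γ (I.ρ γx (D (I.F x) x (ins i₀ (0, v)))) := h2
        rw [← h3, ρ_inv])
    (by
      intro i
      obtain ⟨T0, hT0, hT1⟩ := hT i
      refine ⟨hT0.toFinset.card, fun j z' hz' s hs => ?_⟩
      rcases s.eq_empty_or_nonempty with rfl | ⟨γ1, hγ1⟩
      · simp
      classical
      obtain ⟨z1, hz1, h1⟩ := hs γ1 hγ1
      rw [hF, hF, hact] at h1
      refine Finset.card_le_card_of_injOn (fun γ => γ⁻¹ * γ1) ?_ ?_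
      · intro γ hγ
        obtain ⟨z2, hz2, h2⟩ := hs γ hγ
        rw [hF, hF, hact] at h2
        simp only [Finset.mem_coe, Set.Finite.mem_toFinset]
        refine hT1 _ ⟨(W.e i).symm z1, (W.e i).map_target hz1, (W.e i).symm z2,
          (W.e i).map_target hz2, ?_⟩
        have h3 : I.ρ γ1 (I.F (i : I.Mst) ((W.e i).symm z1)) =
            I.ρ γ (I.F (i : I.Mst) ((W.e i).symm z2)) :=
          h1.symm.trans h2
        rw [ρ_mul, h3, ρ_inv]
      · intro γ _ γ' _ hγγ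
        have : γ⁻¹ = γ'⁻¹ := mul_right_cancel hγγ
        exact inv_injective this)
    (by
      intro i
      have hsub : (fun z : Fin (m' + 1) → ℂ => z i₀) '' (W.e i).target ⊆
          Metric.ball (cp ((i : I.Mst) : M) i₀) 1 := by
        rintro _ ⟨z, hz, rfl⟩
        have h1 := hball i hz
        rw [Metric.mem_ball] at h1 ⊢
        exact lt_of_le_of_lt (dist_le_pi_dist z (cp ((i : I.Mst) : M)) i₀) h1
      exact ne_top_of_le_ne_top Metric.isBounded_ball.measure_lt_top.ne (measure_mono hsub))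
    a ha hmass I.S
    (by
      rintro i j p q hp hq ⟨γ, hγ⟩
      obtain ⟨γp, hγp⟩ := hch i p hp
      obtain ⟨γq, hγq⟩ := hch j q hq
      have ep : I.F (i : I.Mst) p = I.ρ γp (I.e p) := by rw [hγp.self_of_nhds, I.Fz]
      have eq : I.F (j : I.Mst) q = I.ρ γq (I.e q) := by rw [hγq.self_of_nhds, I.Fz]
      refine ⟨γq * γ * γp⁻¹, ?_⟩
      rw [hF, hF, hact]
      simp only [Function.comp_apply]
      rw [(W.he j).symm_cp hq, (W.he i).symm_cp hp, eq, ep, ρ_mul, ρ_mul, ρ_inv, hγ])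
  filter_upwards [hmain] with p hp hpM hwp hSp
  have h1 := hp (hdom hpM) hwp
  refine lt_of_le_of_lt (lintegral_mono fun ζ => ?_) h1
  have hinc : ∀ q : {q // q ∈ I.S p ∧ cp q i₀ = ζ},
      q.1 ∈ I.S p ∧ q.1 ∈ W.dom ∧ cp q.1 i₀ = ζ := fun q =>
    ⟨q.2.1, hdom (hSp q.2.1), q.2.2⟩
  exact ENNReal.tsum_comp_le_tsum_of_injective
    (f := fun q : {q // q ∈ I.S p ∧ cp q i₀ = ζ} =>
      (⟨q.1, hinc q⟩ : {q // q ∈ I.S p ∧ q ∈ W.dom ∧ cp q i₀ = ζ}))
    (fun q q' h => by simpa [Subtype.ext_iff] using h) (fun q => a q.1)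

/-- the Lebesgue integral over a Riemann domain of dimension one -/
lemma lintegral_eq_fibres {A : Type*} [TopologicalSpace A] [RDom 1 A] [SecondCountableTopology A]
    [MeasurableSpace A] [BorelSpace A] {ν : Measure A} (hν : IsLeb ν) {f : A → ℝ≥0∞}
    (hf : Measurable f) :
    ∫⁻ x, f x ∂ν = ∫⁻ ζ : ℂ, ∑' x : {x : A // cp x 0 = ζ}, f x := by
  have hSD : Area_448.SD (cp : A → (Fin 1 → ℂ))
      (fun _ => ContinuousLinearMap.id ℂ (Fin 1 → ℂ)) := by
    intro x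
    have h1 : (cp ∘ (ch x).symm) =ᶠ[𝓝 (cp x)] (fun z : Fin 1 → ℂ => z) := by
      filter_upwards [(ch x).open_target.mem_nhds ((isCh_ch x).cp_mem (mem_ch x))] with z hz
      exact (isCh_ch x).cp_symm hz
    exact (hasStrictFDerivAt_id (cp x)).congr_of_eventuallyEq h1.symm
  have h1 := Area_448.area hν hSD (by simpa using continuous_const) hf
  simp only [ContinuousLinearMap.det, ContinuousLinearMap.coe_id, LinearMap.det_id, norm_one,
    one_pow, ENNReal.ofReal_one, mul_one] at h1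
  rw [h1]
  have hmp : MeasurePreserving (MeasurableEquiv.funUnique (Fin 1) ℂ)
    (volume : Measure (Fin 1 → ℂ)) volume := volume_preserving_funUnique (Fin 1) ℂ
  rw [← hmp.lintegral_comp_emb (MeasurableEquiv.measurableEmbedding _)]
  refine lintegral_congr fun η => ?_
  have h2 : ∀ x : A, cp x = η ↔ cp x 0 = MeasurableEquiv.funUnique (Fin 1) ℂ η := by
    intro x
    constructor
    · rintro rfl; rfl
    · intro h
      funext k
      rw [Subsingleton.elim k 0, h]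
      rfl
  have h3 : {x : A // cp x = η} ≃ {x : A // cp x 0 = MeasurableEquiv.funUnique (Fin 1) ℂ η} :=
    Equiv.subtypeEquivRight h2
  rw [← (Equiv.subtypeEquivRight h2).tsum_eq]
  refine tsum_congr fun x => ?_
  simp

/-- **COA, final form**: finite area with respect to any Lebesgue measure of the curve `S p`. -/
theorem coa_curve [SecondCountableTopology M] [MeasurableSpace M] [BorelSpace M] [Countable G]
    {μ : Measure M} (hμ : IsLeb μ) (w : M → ℝ≥0∞) (hwm : Measurable w)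
    (hw : ∀ x y γ, I.e y = I.ρ γ (I.e x) → ∀ L : (Fin m' → ℂ) →L[ℝ] (Fin m' → ℂ),
      (∀ v, D (I.F y) y (ins i₀ (0, L v)) = I.ρ γ (D (I.F x) x (ins i₀ (0, v)))) →
        w x = ENNReal.ofReal |L.det| * w y)
    (a : M → ℝ≥0∞) (ha : Measurable a) (hmass : ∫⁻ x, a x * w x ∂μ ≠ ⊤) :
    ∀ᵐ p ∂μ, p ∈ I.Mst → w p ≠ 0 → ∀ h : I.S p ⊆ I.Mst,
      letI := rdomS I h
      ∀ ν : Measure (I.S p), IsLeb ν → ∫⁻ q, a q ∂ν < ⊤ := by
  filter_upwards [coa_inv I hμ w hwm hw a ha hmass] with p hp hpM hwp h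
  let := rdomS I h
  intro ν hν
  have h1 := hp hpM hwp h
  rw [lintegral_eq_fibres hν (f := fun q : I.S p => a q) (ha.comp measurable_subtype_coe)]
  refine lt_of_le_of_lt (le_of_eq ?_) h1
  refine lintegral_congr fun ζ => ?_
  let E : {x : I.S p // cp x 0 = ζ} ≃ {q // q ∈ I.S p ∧ cp q i₀ = ζ} :=
    { toFun := fun x => ⟨x.1.1, x.1.2, x.2⟩
      invFun := fun q => ⟨⟨q.1, q.2.1⟩, q.2.2⟩
      left_inv := fun x => rfl
      right_inv := fun q => rfl }
  exact E.tsum_eq (fun q => a q.1)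

end Crest.Agent.R276.Coa3_375
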