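import Crest.Agent.R276.TChB_858
import Crest.Agent.R276.TChX2_590

/-! # Row 276, helper858 (with helper590): `tch`, the conjunct `TCh` of `GeoOut`. -/

set_option autoImplicit false

open scoped Topology BigOperators
open Set Metric Filter

noncomputable section

namespace Crest.Agent.R276.TCh_858

open Crest.Agent.R271.Defs710 Crest.Agent.R271.Bd741
open Crest.Agent.R276.FKDefs_779 Crest.Agent.R276.BC_986 Crest.Agent.R276.DivVal_858
open Crest.Agent.R276.BR_590 Crest.Agent.R276.Mod1_987 Crest.Agent.R276.End0_508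
open Crest.Agent.R276.TChX_590
open Crest.Agent.R276.SkelDefs_220 (AC PD tau Mono low pw Rel TChart)

variable {T L K : Type} [Field T] [Field L] [Field K] [Algebra ℂ T] [Algebra ℂ L] [Algebra ℂ K]
  [Algebra T L] [Algebra L K] [IsScalarTower ℂ T L] [IsScalarTower ℂ L K] {ρ a r : ℕ}
  {MT : Mdl T ρ} {ML : Mdl L (ρ + a)} {MK : Mdl K (ρ + a + r)}

lemma modelOf_skel {n : ℕ} {D : DivModel n K} {R : ValuationSubring K} (h : D.ModelOf R) :
    SkelDefs_220.ModelOf D R := fun y => h.mem_iff_exists y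

theorem tch (H₁ : Rel MT ML) (H₂ : Rel ML MK) : SkelDefs_220.TCh H₁ H₂ := by
  classical
  intro R hR
  obtain ⟨b, hb⟩ := exists_basis MK
  obtain ⟨bL, hbL⟩ := exists_basis ML
  have hchT : ∀ y : MT.B →ₐ[ℂ] ℂ, Nonempty (Chart MT.z y) := fun y => MT.hch y
  have hchL : ∀ y : ML.B →ₐ[ℂ] ℂ, Nonempty (Chart ML.z y) := fun y => ML.hch y
  have hjT : ∀ c : MT.B, algebraMap ML.B L (H₁.incl c) = algebraMap T L (algebraMap MT.B T c) :=
    fun c => TChX_590.incl_K H₁ c
  have hjL : ∀ c : ML.B, algebraMap MK.B K (H₂.incl c) = algebraMap L K (algebraMap ML.B L c) :=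
    fun c => TChX_590.incl_K H₂ c
  by_cases hL : ∀ c : L, algebraMap L K c ∈ R
  · -- `L ⊆ R`
    obtain ⟨V, hD, hnd⟩ := alg_HH MK ML hR hL
    refine ⟨V.D, modelOf_skel hD, fun F FL hF hFL => ?_⟩
    obtain ⟨X, yL, CL, yT, CT, δ, hδ0, hδ1, hδX, hδL, hδT, hXF, hXFL, hc1, hc2⟩ :=
      exists_HH hchT hchL V MK.ft H₁.incl H₂.incl (fun i => TChX_590.coord_incl H₁ i) hjL hnd
        (insert (V.D.dw.toMatrix b).det F) (by
          intro f hf
          rcases Finset.mem_insert.1 hf with rfl | hf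
          · exact DivModel.det_ne_zero _ _
          · exact hF f hf) FL hFL
    obtain ⟨c, GJ, hJ⟩ := hXF _ (Finset.mem_insert_self _ _)
    exact buildH X CL hD hL hδ0 hδ1 hδX.le hδL hc1 (acH MT CT hδT _) hc2 hb hJ
      (fun f hf => hXF f (Finset.mem_insert_of_mem hf)) hXFL
  · have hLne : R.comap (algebraMap L K) ≠ ⊤ := by
      intro h
      apply hL
      intro c
      rw [← ValuationSubring.mem_comap, h]
      trivial
    by_cases hT : ∀ c : T, algebraMap L K (algebraMap T L c) ∈ R
    · -- `T ⊆ R`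
      obtain ⟨V₀, E, hDL, hD, -⟩ := alg_HV MT ML MK hR hT hLne
      refine ⟨E.D, modelOf_skel hD, fun F FL hF hFL => ?_⟩
      obtain ⟨X, XL, yT, CT, G, S, δ, hδ0, hδ1, hδS, hδL, hδT, hXF, hXFL, hc1, hc2⟩ :=
        exists_HV hchT V₀ E ML.ft MK.ft H₁.incl H₂.incl hjT hjL
          (insert (E.D.dw.toMatrix b).det F) (by
            intro f hf
            rcases Finset.mem_insert.1 hf with rfl | hf
            · exact DivModel.det_ne_zero _ _
            · exact hF f hf)
          (insert (V₀.D.dw.toMatrix bL).det FL) (by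
            intro f hf
            rcases Finset.mem_insert.1 hf with rfl | hf
            · exact DivModel.det_ne_zero _ _
            · exact hFL f hf)
      obtain ⟨c, GJ, hJ⟩ := hXF _ (Finset.mem_insert_self _ _)
      obtain ⟨cL, GL', hJL⟩ := hXFL _ (Finset.mem_insert_self _ _)
      have hlow : low (low (some E.V.D.i₀)) = (none : Option (Fin ρ)) := by
        rw [low_V E.V]
        change low (some V₀.D.i₀) = none
        rw [V₀.i₀_eq]
        exact low_natAdd _
      exact buildV (V := E.V) X XL S (Root.one V₀.D.i₀ XL.r XL.r_pos) hD hDL hδ0 hδ1 hδS.le hδL.le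
        hc1 (acH MT CT hδT _) 1 one_pos
        (fun η h1 h2 => (hc2 η h1 h2).trans
          (congrArg CT.s (pw_of_low_none 1 hlow η).symm)) hb hbL hJ hJL
        (fun f hf => hXF f (Finset.mem_insert_of_mem hf))
        (fun f hf => hXFL f (Finset.mem_insert_of_mem hf))
    · -- `T ⊄ R`
      push Not at hT
      obtain ⟨V₀, E, hDT, hDL, hD, -⟩ := alg_VV MT ML MK hR hT
      refine ⟨E.D, modelOf_skel hD, fun F FL hF hFL => ?_⟩
      obtain ⟨X, XL, XT, G, G₁, S, S₁, δ, hδ0, hδ1, hδS, hδL, hδT, hXF, hXFL, hc1, hc2⟩ :=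
        exists_VV V₀ E MT.ft ML.ft MK.ft H₁.incl H₂.incl hjT hjL
          (insert (E.D.dw.toMatrix b).det F) (by
            intro f hf
            rcases Finset.mem_insert.1 hf with rfl | hf
            · exact DivModel.det_ne_zero _ _
            · exact hF f hf)
          (insert (V₀.D.dw.toMatrix bL).det FL) (by
            intro f hf
            rcases Finset.mem_insert.1 hf with rfl | hf
            · exact DivModel.det_ne_zero _ _
            · exact hFL f hf)
      obtain ⟨c, GJ, hJ⟩ := hXF _ (Finset.mem_insert_self _ _)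
      obtain ⟨cL, GL', hJL⟩ := hXFL _ (Finset.mem_insert_self _ _)
      have hlow1 : low (some E.V.D.i₀) = some V₀.D.i₀ := low_V E.V
      have hlow : low (low (some E.V.D.i₀)) = some V₀.DL.i₀ := by
        rw [hlow1, V₀.i₀_eq]
        exact low_castAdd _
      have hpw : ∀ η : Cn (ρ + a), pw V₀.e (low (some E.V.D.i₀)) η = pe V₀.DL.i₀ V₀.e (bs η) := by
        intro η
        rw [hlow1, V₀.i₀_eq]
        exact pw_castAdd _ _ _
      exact buildV (V := E.V) X XL S S₁ hD hDL hδ0 hδ1 hδS.le hδL.le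
        hc1 (acV MT XT (Root.one V₀.DL.i₀ XT.r XT.r_pos) hδT hlow) V₀.e
        (Nat.pos_of_ne_zero V₀.e_ne)
        (fun η h1 h2 => (hc2 η h1 h2).trans (congrArg XT.s (hpw η).symm)) hb hbL hJ hJL
        (fun f hf => hXF f (Finset.mem_insert_of_mem hf))
        (fun f hf => hXFL f (Finset.mem_insert_of_mem hf))

end Crest.Agent.R276.TCh_858
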