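import Crest.Agent.R276.W2a_748
import Crest.Agent.R276.WPack_505
import Crest.Agent.R276.AcOpen_89

/-!
# Row 276, W2 (helper748): the weight `b₂` of (C2), assembly
-/

set_option autoImplicit false
set_option linter.unusedSectionVars false

open Set Filter Topology MeasureTheory
open scoped ENNReal

noncomputable section

namespace Crest.Agent.R276.W2_748

open Crest.Agent.R271 Crest.Agent.R271.Rd692 Crest.Agent.R271.Ho51
open Crest.Agent.R271.Defs710 hiding glue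
open Crest.Agent.R276.Mod1_987 Crest.Agent.R276.FKDefs_779
open Crest.Agent.R276.EngU_29 (LPsh)
open Crest.Agent.R276.SkelDefs_220 Crest.Agent.R276.W2Defs_748
open Crest.Agent.R276.Sl_748 (SD bt fx gl gl_eq_iff FHs fs bR bE)
open Crest.Agent.R273.Reg_844 (ush LocB ush_le)
open Crest.Agent.R276.AcOpen_89

variable {T L K : Type} [Field T] [Field L] [Field K] [Algebra ℂ T] [Algebra ℂ L] [Algebra ℂ K]
  [Algebra T L] [Algebra L K] [IsScalarTower ℂ T L] [IsScalarTower ℂ L K] {ρ a r : ℕ}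
  {MT : Mdl T ρ} {ML : Mdl L (ρ + a)} {MK : Mdl K (ρ + a + r)}
  {H₁ : Rel MT ML} {H₂ : Rel ML MK}

/-- the fibre block of a linear map -/
def blA (ρ a : ℕ) : Cn (ρ + a) →L[ℂ] Cn a :=
  ContinuousLinearMap.pi fun j => ContinuousLinearMap.proj (Fin.natAdd ρ j)

/-- inclusion of the fibre coordinates -/
def blB (ρ a : ℕ) : Cn a →L[ℂ] Cn (ρ + a) :=
  ContinuousLinearMap.pi fun k => Fin.addCases (motive := fun _ => Cn a →L[ℂ] ℂ) (fun _ => 0)
    (fun j => ContinuousLinearMap.proj j) k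

lemma append_eq (c : Cn ρ) (x : Cn a) : (Fin.append c x : Cn (ρ + a)) = Fin.append c 0 + blB ρ a x := by
  funext k
  refine Fin.addCases (fun i => ?_) (fun j => ?_) k
  · simp [blB]
  · simp [blB]

lemma append_self (η : Cn (ρ + a)) : (Fin.append (fun i => η (Fin.castAdd a i))
    (fun j => η (Fin.natAdd ρ j)) : Cn (ρ + a)) = η := by
  funext k
  refine Fin.addCases (fun i => ?_) (fun j => ?_) k
  · simp
  · simp

/-- `jG` is a minor of the differential -/
lemma jG_eq {R : ValuationSubring K} (Y : TChart H₁ H₂ R) {η : Cn (ρ + a)}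
    (hη : η ∈ PD Y.δ (low (some Y.i₀))) :
    Y.jG η = ((blA ρ a).comp ((fderiv ℂ (fun ζ => ML.pz (Y.cL.s ζ)) η).comp (blB ρ a))).det := by
  unfold TChart.jG
  congr 1
  apply HasFDerivAt.fderiv
  have h1 : HasFDerivAt (fun ζ => ML.pz (Y.cL.s ζ)) (fderiv ℂ (fun ζ => ML.pz (Y.cL.s ζ)) η)
      (Fin.append (fun i => η (Fin.castAdd a i)) (fun j => η (Fin.natAdd ρ j))) := by
    rw [append_self]
    exact (analyticAt_pz Y.cL hη).differentiableAt.hasFDerivAt
  have h2 : HasFDerivAt (fun x : Cn a => (Fin.append (fun i => η (Fin.castAdd a i)) x : Cn (ρ + a)))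
      (blB ρ a) (fun j => η (Fin.natAdd ρ j)) := by
    have h3 : (fun x : Cn a => (Fin.append (fun i => η (Fin.castAdd a i)) x : Cn (ρ + a))) =
        fun x => Fin.append (fun i => η (Fin.castAdd a i)) 0 + blB ρ a x := by
      funext x
      exact append_eq _ x
    rw [h3]
    exact (blB ρ a).hasFDerivAt.const_add _
  have h3 := h1.comp (fun j => η (Fin.natAdd ρ j)) h2
  exact (blA ρ a).hasFDerivAt.comp (fun j => η (Fin.natAdd ρ j)) h3

lemma continuousAt_jG {R : ValuationSubring K} (Y : TChart H₁ H₂ R) {η : Cn (ρ + a)}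
    (hη : η ∈ PD Y.δ (low (some Y.i₀))) : ContinuousAt Y.jG η := by
  have h1 : ContinuousAt (fun η => ((blA ρ a).comp
      ((fderiv ℂ (fun ζ => ML.pz (Y.cL.s ζ)) η).comp (blB ρ a))).det) η := by
    have h2 : ContinuousAt (fderiv ℂ (fun ζ => ML.pz (Y.cL.s ζ))) η :=
      (analyticAt_pz Y.cL hη).fderiv.continuousAt
    refine ContinuousLinearMap.continuous_det.continuousAt.comp ?_
    exact ContinuousAt.clm_comp continuousAt_const (h2.clm_comp continuousAt_const)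
  refine h1.congr ?_
  filter_upwards [(isOpen_PD _ _).mem_nhds hη] with ζ hζ
  exact (jG_eq Y hζ).symm

/-- **(C2), boundary behaviour** -/
theorem bd {e : ℕ} {w : Fin (e + 1) → ML.B} {e₀ : ℕ} (he : 0 < e₀) {R : ValuationSubring K}
    (h : BdStmt H₁ H₂ w e₀ R) : BdL H₁ H₂ R fun Y η =>
      b2 ML w he (Y.cL.s η) * ‖Y.jG η‖ ^ 2 * ‖Y.cL.J η‖ ^ (2 * (e₀ - 1)) := by
  obtain ⟨F, FL, hF, hFL, h⟩ := h
  refine ⟨F, FL, hF, hFL, fun Y hD hG hGL => WPack_505.logB_of_bdd ?_⟩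
  intro δ' hδ'
  obtain ⟨δ'', h1, h2⟩ := exists_between hδ'
  obtain ⟨C, hC⟩ := h Y hD hG hGL δ'' h2
  obtain ⟨k, hJ, -⟩ := hD.JL
  refine ⟨C, fun η hη => ?_⟩
  show b2 ML w he (Y.cL.s η) * ‖Y.jG η‖ ^ 2 * ‖Y.cL.J η‖ ^ (2 * (e₀ - 1)) ≤ C
  have hη2 : η ∈ PD δ'' (low (some Y.i₀)) := PD_mono h1.le _ hη
  have hη3 : η ∈ PD Y.δ (low (some Y.i₀)) := PD_mono h2.le _ hη2
  have hC0 : 0 ≤ C := by
    have := hC η hη2 (fun _ => 0) ((inBall_iff ML w he _ _).2 ⟨fhs_zero _, nr_zero _ _⟩)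
    simpa using this
  by_cases hj : Y.jG η = 0
  · rw [hj]
    simpa using hC0
  have hJ0 : Y.cL.J η ≠ 0 := Mono.ne_zero hJ hη3
  set P : Cn (ρ + a) → ℝ := fun η => ‖Y.jG η‖ ^ 2 * ‖Y.cL.J η‖ ^ (2 * (e₀ - 1)) with hP
  have hPc : ContinuousAt P η := by
    refine ContinuousAt.mul ?_ ?_
    · exact (continuousAt_jG Y hη3).norm.pow 2
    · exact (analyticOnNhd_J Y.cL η hη3).continuousAt.norm.pow _
  have hP0 : 0 < P η := by
    have := norm_pos_iff.2 hj
    have := norm_pos_iff.2 hJ0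
    positivity
  have hGc : ContinuousAt (fun η => C / P η) η := continuousAt_const.div hPc hP0.ne'
  have hle : b2 ML w he (Y.cL.s η) ≤ C / P η := by
    refine le_of_forall_pos_le_add fun ε hε => ?_
    apply ush_le
    have h3 : ∀ᶠ η' in 𝓝 η, bR (eL ρ a) (SDw ML w e₀ he) (Y.cL.s η') ≤ C / P η + ε := by
      have h4 : ∀ᶠ η' in 𝓝 η, C / P η' < C / P η + ε :=
        hGc.eventually (gt_mem_nhds (by linarith))
      have h5 : ∀ᶠ η' in 𝓝 η, 0 < P η' := hPc.eventually (lt_mem_nhds hP0)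
      filter_upwards [h4, h5, (isOpen_PD _ _).mem_nhds hη2] with η' h6 h7 h8
      refine le_trans (bR_le _ (by positivity) fun s hs1 hs2 => ?_) h6.le
      rw [le_div_iff₀ h7]
      have h9 := hC η' h8 s ((inBall_iff ML w he _ _).2 ⟨hs1, hs2⟩)
      rw [mul_assoc] at h9
      exact h9
    exact (nhds_le Y.cL hη3 hJ0) h3
  calc b2 ML w he (Y.cL.s η) * ‖Y.jG η‖ ^ 2 * ‖Y.cL.J η‖ ^ (2 * (e₀ - 1))
      = b2 ML w he (Y.cL.s η) * P η := by rw [hP]; ring
    _ ≤ C / P η * P η := by gcongr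
    _ = C := div_mul_cancel₀ _ hP0.ne'

/-- **(C2)** from the bound `BdStmt` at the divisors -/
theorem c2_of_bd (H₁ : Rel MT ML) (H₂ : Rel ML MK) {e : ℕ} (w : Fin (e + 1) → ML.B) {e₀ : ℕ}
    (he : 0 < e₀)
    (h : ∀ R : ValuationSubring K, IsDiv ℂ (ρ + a + r) R → BdStmt H₁ H₂ w e₀ R) :
    C2 H₁ H₂ w e₀ (b2 ML w he) where
  psh := psh_b2 ML w he
  gr := gr_b2 ML w he
  bd := fun R hR => bd he (h R hR)
  low := Eventually.of_forall fun c hc z hz => by
    subst hz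
    exact low_b2 ML w he z hc

end Crest.Agent.R276.W2_748
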