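import Crest.Agent.R276.W2b_748
import Crest.Agent.R276.W2_748

/-!
# Row 276, W2 (helper748): `c2`, the complete (C2) of `SkelDefs_220`
-/

set_option autoImplicit false
set_option linter.unusedSectionVars false

open Set Filter Topology MeasureTheory Metric
open scoped ENNReal

noncomputable section

namespace Crest.Agent.R276.W2_748

open Crest.Agent.R271 Crest.Agent.R271.Rd692 Crest.Agent.R271.Ho51
open Crest.Agent.R271.Defs710 hiding glue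
open Crest.Agent.R276.Mod1_987 Crest.Agent.R276.FKDefs_779
open Crest.Agent.R276.SkelDefs_220 Crest.Agent.R276.W2Defs_748
open Crest.Agent.R276.AcOpen_89 Crest.Agent.R276.BR_590 Crest.Agent.R276.WPack_505

variable {T L K : Type} [Field T] [Field L] [Field K] [Algebra ℂ T] [Algebra ℂ L] [Algebra ℂ K]
  [Algebra T L] [Algebra L K] [IsScalarTower ℂ T L] [IsScalarTower ℂ L K] {ρ a r : ℕ}
  {MT : Mdl T ρ} {ML : Mdl L (ρ + a)} {MK : Mdl K (ρ + a + r)}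
  {H₁ : Rel MT ML} {H₂ : Rel ML MK}

lemma tc_f (H₁ : Rel MT ML) (y : ML.Pts) : tc ML (eL ρ a) y = MT.pz (H₁.f y) := by
  funext i
  rw [C1bd_986.pz_f]
  show ML.pz y (eL ρ a (Sum.inl i)) = _
  simp [eL]

lemma fib_cL {R : ValuationSubring K} (Y : TChart H₁ H₂ R) :
    ∀ ζ ∈ PD Y.δ (SkelDefs_220.low (some Y.i₀)), ∀ ζ' ∈ PD Y.δ (SkelDefs_220.low (some Y.i₀)),
    bs ζ = bs ζ' → tc ML (eL ρ a) (Y.cL.s ζ) = tc ML (eL ρ a) (Y.cL.s ζ') := by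
  intro ζ hζ ζ' hζ' h
  have h1 : pw Y.e₂ (SkelDefs_220.low (some Y.i₀)) ζ = pw Y.e₂ (SkelDefs_220.low (some Y.i₀)) ζ' := by
    funext j
    have h1 : ζ (Fin.castAdd a j) = ζ' (Fin.castAdd a j) := congrFun h j
    unfold pw
    rw [h1]
  rw [tc_f H₁, tc_f H₁, Y.compT ζ hζ, Y.compT ζ' hζ', h1]

/-- **(W2-BD)** -/
theorem bdw (H₁ : Rel MT ML) (H₂ : Rel ML MK) {e e₀ : ℕ} (w : Fin (e + 1) → ML.B) (he : 0 < e₀)
    (b : Module.Basis (Fin (ρ + a)) L (Ω[L⁄ℂ]))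
    (hb : ∀ j, b j = KaehlerDifferential.D ℂ L (ML.z j)) {R : ValuationSubring K}
    (hw : ∀ j, RegAt ℂ (R.comap (algebraMap L K)) b e₀ (w j : L)) : BdStmt H₁ H₂ w e₀ R := by
  classical
  refine ⟨∅, (Finset.univ.image fun j => (w j : L)).filter (· ≠ 0), by simp, fun f hf =>
    (Finset.mem_filter.1 hf).2, fun Y hD _ hGL δ' hδ' => ?_⟩
  refine bd_leaf he Y.cL (fib_cL Y) (fun δ'' hδ'' => ?_) hδ'
  have key : ∀ j, ∃ C : ℝ, ∀ η ∈ PD δ'' (SkelDefs_220.low (some Y.i₀)),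
      ‖Y.cL.s η (w j)‖ ^ 2 * ‖Y.cL.J η‖ ^ (2 * e₀) ≤ C := by
    intro j
    by_cases h0 : (w j : L) = 0
    · refine ⟨0, fun η _ => ?_⟩
      have : w j = 0 := Subtype.ext h0
      rw [this, map_zero]
      simp
    · obtain ⟨k, hk⟩ := hGL (w j : L) (Finset.mem_filter.2 ⟨Finset.mem_image.2
        ⟨j, Finset.mem_univ j, rfl⟩, h0⟩)
      obtain ⟨C, hC⟩ := form_bound Y hD hb (hw j) hk hδ''
      refine ⟨C ^ 2, fun η hη => ?_⟩
      have h1 := hC η hη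
      calc ‖Y.cL.s η (w j)‖ ^ 2 * ‖Y.cL.J η‖ ^ (2 * e₀) =
            (‖Y.cL.s η (w j)‖ * ‖Y.cL.J η‖ ^ e₀) ^ 2 := by ring
        _ ≤ C ^ 2 := by gcongr
  choose C hC using key
  refine ⟨∑ j, C j, fun η hη => ?_⟩
  show (∑ j, ‖Y.cL.s η (w j)‖ ^ 2) * ‖Y.cL.J η‖ ^ (2 * e₀) ≤ ∑ j, C j
  rw [Finset.sum_mul]
  exact Finset.sum_le_sum fun j _ => hC j η hη

/-- **(C2)** for `e₀`-canonical forms `w_j` -/
theorem c2 (H₁ : Rel MT ML) (H₂ : Rel ML MK) {e e₀ : ℕ} (w : Fin (e + 1) → ML.B) (he : 0 < e₀)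
    (b : Module.Basis (Fin (ρ + a)) L (Ω[L⁄ℂ]))
    (hb : ∀ j, b j = KaehlerDifferential.D ℂ L (ML.z j))
    (hw : ∀ j, PluriS ℂ b e₀ (w j : L)) : C2 H₁ H₂ w e₀ (b2 ML w he) :=
  c2_of_bd H₁ H₂ w he fun _ hR => bdw H₁ H₂ w he b hb fun j => regAt_comap hR.alg (hw j)

end Crest.Agent.R276.W2_748
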