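import Crest.Agent.R276.ModPack_849
import Crest.Agent.R276.TChC_858
import Crest.Agent.R276.WPack_505
import Crest.Agent.R276.W2c_748
import Crest.Agent.R276.CJ_505
import Crest.Agent.R276.CInd_870
import Crest.Agent.R276.FK1_779

/-!
# Row 276, composition (helper858): the conjuncts of `GeoOut` which depend only on `κ(L/ℂ) ≥ e`

`wpart` : `TCh`, `C2`, `C3`, `CJ`, `CInd`, `CNz` on all sufficiently small towers.
-/

set_option autoImplicit false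

noncomputable section

namespace Crest.Agent.R276.CompW_858

open Crest.Agent.R271.Defs710 Crest.Agent.R276.FKDefs_779 Crest.Agent.R276.Mod1_987
open Crest.Agent.R276.TowA_849 Crest.Agent.R276.ModPack_849
open Crest.Agent.R276.SkelDefs_220 (Rel TCh C2 C3 CJ CInd CNz)

section field

variable {k K : Type*} [Field k] [Field K] [Algebra k K]

/-- forms with respect to a prescribed basis -/
theorem exists_forms {n : ℕ} (b : Module.Basis (Fin n) K (Ω[K⁄k])) {e : ℕ} (hL : KapGeS k K e) :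
    ∃ e₀ : ℕ, 0 < e₀ ∧ ∃ f : Fin (e + 1) → K, (∀ i, f i ≠ 0 ∧ PluriS k b e₀ (f i)) ∧
      AlgebraicIndependent k (fun i : Fin e => f i.succ / f 0) := by
  obtain ⟨n', b', m, hm, f, hf, hind⟩ := hL
  obtain rfl : n' = n := Fin.equiv_iff_eq.mp ⟨b'.indexEquiv b⟩
  have hd : (b.det b') ^ m ≠ 0 := pow_ne_zero _ (FK1_779.det_ne_zero b b')
  refine ⟨m, hm, fun i => f i * (b.det b') ^ m, fun i => ⟨mul_ne_zero (hf i).1 hd, ?_⟩, ?_⟩
  · rw [FK1_779.pluriS_change b b', mul_div_cancel_right₀ _ hd]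
    exact (hf i).2
  · have h : (fun i : Fin e => f i.succ * (b.det b') ^ m / (f 0 * (b.det b') ^ m)) =
        fun i : Fin e => f i.succ / f 0 := by
      funext i
      exact mul_div_mul_right _ _ hd
    rw [h]
    exact hind

end field

section tower

variable {T L K : Type} [Field T] [Field L] [Field K] [Algebra ℂ T] [Algebra ℂ L] [Algebra ℂ K]
  [Algebra T L] [Algebra L K] [IsScalarTower ℂ T L] [IsScalarTower ℂ L K] {ρ a r : ℕ}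

/-- **the conjuncts `TCh`, `C2`, `C3`, `CJ`, `CInd`, `CNz` of `GeoOut`** on one tower, from forms
`w` in the ring of `M_L`. -/
theorem wconj {MT : Mdl T ρ} {ML : Mdl L (ρ + a)} {MK : Mdl K (ρ + a + r)} {e e₀ : ℕ}
    (he : 0 < e₀) (b : Module.Basis (Fin (ρ + a)) L (Ω[L⁄ℂ]))
    (hb : ∀ j, b j = KaehlerDifferential.D ℂ L (ML.z j : L)) (w : Fin (e + 1) → ML.B)
    (hw : ∀ j, PluriS ℂ b e₀ (w j : L)) (hw0 : w 0 ≠ 0)
    (hind : AlgebraicIndependent ℂ (fun i : Fin e => (w i.succ : L) / (w 0 : L)))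
    (H₁ : Rel MT ML) (H₂ : Rel ML MK) :
    TCh H₁ H₂ ∧ (∃ b₂, C2 H₁ H₂ w e₀ b₂) ∧ C3 H₁ H₂ w e₀ ∧ CJ ML w e₀ ∧ CInd H₁ w ∧ CNz H₁ :=
  ⟨TCh_858.tch H₁ H₂, ⟨_, W2_748.c2 H₁ H₂ w he b hb hw⟩, WPack_505.c3 w b hb hw,
    CJ_505.cj ML he b hb w hw, CInd_870.cInd H₁ w hw0 hind, CInd_870.cNz H₁⟩

/-- forms of weight `e₀` in the ring of `M_L`, with independent ratios -/
structure WD (ML : Mdl L (ρ + a)) (e e₀ : ℕ) (w : Fin (e + 1) → ML.B) : Prop where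
  pos : 0 < e₀
  form : ∃ b : Module.Basis (Fin (ρ + a)) L (Ω[L⁄ℂ]),
    (∀ j, b j = KaehlerDifferential.D ℂ L (ML.z j : L)) ∧ ∀ j, PluriS ℂ b e₀ (w j : L)
  ne : ∀ j, w j ≠ 0
  ind : AlgebraicIndependent ℂ (fun i : Fin e => (w i.succ : L) / (w 0 : L))

theorem exists_WD (ML : Mdl L (ρ + a)) {e : ℕ} (hL : KapGeS ℂ L e) :
    ∃ (e₀ : ℕ) (f : Fin (e + 1) → L), 0 < e₀ ∧ ∀ ML' : Mdl L (ρ + a), ML.zK = ML'.zK →
      ∀ hmem : ∀ j, f j ∈ ML'.B, WD ML' e e₀ fun j => ⟨f j, hmem j⟩ := by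
  obtain ⟨b, hb⟩ := TCh_858.exists_basis ML
  obtain ⟨e₀, he₀, f, hf, hind⟩ := exists_forms b hL
  refine ⟨e₀, f, he₀, fun ML' hz hmem => ⟨he₀, ⟨b, fun j => ?_, fun j => (hf j).2⟩,
    fun j h0 => (hf j).1 (congrArg (fun x : ML'.B => (x : L)) h0), hind⟩⟩
  rw [hb j]
  congr 1
  exact congrFun hz j

theorem WD.conj {MT : Mdl T ρ} {ML : Mdl L (ρ + a)} {MK : Mdl K (ρ + a + r)} {e e₀ : ℕ}
    {w : Fin (e + 1) → ML.B} (h : WD ML e e₀ w) (H₁ : Rel MT ML) (H₂ : Rel ML MK) :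
    TCh H₁ H₂ ∧ (∃ b₂, C2 H₁ H₂ w e₀ b₂) ∧ C3 H₁ H₂ w e₀ ∧ CJ ML w e₀ ∧ CInd H₁ w ∧
      CNz H₁ := by
  obtain ⟨b, hb, hw⟩ := h.form
  exact wconj h.pos b hb w hw (h.ne 0) h.ind H₁ H₂

/-- **the w-part of `GeoOut`**: `κ(L/ℂ) ≥ e` gives `e₀`, and forms `w` on every sufficiently small
tower (then `WD.conj` gives `TCh`, `C2`, `C3`, `CJ`, `CInd`, `CNz`). -/
theorem wpart (W : Tow T L K ρ a r) {e : ℕ} (hL : KapGeS ℂ L e) :
    ∃ e₀ : ℕ, 0 < e₀ ∧ Ev W fun W' => ∃ w : Fin (e + 1) → W'.ML.B, WD W'.ML e e₀ w := by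
  classical
  obtain ⟨e₀, f, he₀, h⟩ := exists_WD W.ML hL
  refine ⟨e₀, he₀, ((ev_tle W).and (ev_units W ∅ (Finset.univ.image f) ∅)).mono ?_⟩
  intro W' hW
  have hmem : ∀ j, f j ∈ W'.ML.B := fun j =>
    (hW.2.2.1 (f j) (Finset.mem_image.2 ⟨j, Finset.mem_univ j, rfl⟩)).1
  exact ⟨_, h W'.ML hW.1.zL hmem⟩

end tower

end Crest.Agent.R276.CompW_858
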