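import Mathlib
import Crest.Agent.R271.H3_51
import Crest.Agent.R271.W_792

/-!
# A curve of finite area: jets of order `≤ C (d+1)` determine the polynomials of degree `≤ d`
(helper409, row 276, "algebraicity of period fibres")

`A` Riemann surface (`RDom 1 A`), `x_i` holomorphic functions on `A`, `ω = ∂∂̄ log (1 + |x|²)`,
`u ≥ 0` smooth proper with `∂∂̄ u ≤ C ω`, `∫_A ω < ∞`.
-/

set_option autoImplicit false

noncomputable section

open Set Filter Topology MeasureTheory Complex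

namespace Crest.Agent.R276.Cur_409

open Crest.Agent.R271.Ho51 hiding Hol
open Crest.Agent.R271.W792

section parts

variable {n : ℕ} {M : Type*} [TopologicalSpace M] [RDom n M] [T2Space M] [MeasurableSpace M]
  [BorelSpace M] {μ : Measure M}

/-- second derivatives in the direction `v` by parts -/
theorem D2_parts (hμ : IsLeb μ) {φ χ : M → ℝ} (hφ : Sm φ) (hχ : Sm χ)
    (hc : HasCompactSupport χ) (v : Fin n → ℂ) :
    ∫ y, χ y * D (fun y => D φ y v) y v ∂μ = ∫ y, φ y * D (fun y => D χ y v) y v ∂μ := by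
  have h1φ : Sm (fun y => D φ y v) := hφ.D.apply v
  have h1χ : Sm (fun y => D χ y v) := hχ.D.apply v
  have hcD : HasCompactSupport (fun y => D χ y v) :=
    (hasCompactSupport_D hc).comp_left (g := fun A : (Fin n → ℂ) →L[ℝ] ℝ => A v) (by simp)
  have hcDD : HasCompactSupport (fun y => D (fun y => D χ y v) y v) :=
    (hasCompactSupport_D hcD).comp_left (g := fun A : (Fin n → ℂ) →L[ℝ] ℝ => A v) (by simp)
  have hF : Sm (fun y => χ y * D φ y v - φ y * D χ y v) :=
    (hχ.mulR h1φ).sub (hφ.mulR h1χ)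
  have hFc : HasCompactSupport (fun y => χ y * D φ y v - φ y * D χ y v) := by
    have e1 : HasCompactSupport (fun y => χ y * D φ y v) := hc.mul_right
    have e2 : HasCompactSupport (fun y => φ y * D χ y v) := hcD.mul_left
    exact e1.sub e2
  have h0 := integral_D_eq_zero hμ hF hFc v
  have hD : ∀ y, D (fun y => χ y * D φ y v - φ y * D χ y v) y v =
      χ y * D (fun y => D φ y v) y v - φ y * D (fun y => D χ y v) y v := by
    intro y
    rw [D_sub (hχ.mulR h1φ) (hφ.mulR h1χ)]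
    have e1 := D_smul hχ h1φ y v
    have e2 := D_smul hφ h1χ y v
    simp only [smul_eq_mul] at e1 e2
    rw [_root_.sub_apply, e1, e2]
    ring
  simp only [hD] at h0
  have i1 : Integrable (fun y => χ y * D (fun y => D φ y v) y v) μ := by
    have : Sm (fun y => χ y * D (fun y => D φ y v) y v) := hχ.mulR (h1φ.D.apply v)
    exact this.integrable hμ hc.mul_right
  have i2 : Integrable (fun y => φ y * D (fun y => D χ y v) y v) μ := by
    have : Sm (fun y => φ y * D (fun y => D χ y v) y v) := hφ.mulR (h1χ.D.apply v)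
    exact this.integrable hμ hcDD.mul_left
  rw [integral_sub i1 i2] at h0
  linarith

omit [T2Space M] [MeasurableSpace M] [BorelSpace M] in
theorem sm_lev {φ : M → ℝ} (hφ : Sm φ) (w : Fin n → ℂ) : Sm (fun y => lev φ y w) := by
  unfold lev
  have h1 : Sm (fun y => D (fun y => D φ y w) y w) := (hφ.D.apply w).D.apply w
  have h2 : Sm (fun y => D (fun y => D φ y (I • w)) y (I • w)) := (hφ.D.apply _).D.apply _
  exact (Sm.const (1 / 4 : ℝ)).mulR (h1.add h2)

omit [T2Space M] [MeasurableSpace M] [BorelSpace M] in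
theorem tsupport_lev (φ : M → ℝ) (w : Fin n → ℂ) : tsupport (fun y => lev φ y w) ⊆ tsupport φ := by
  refine closure_minimal ?_ isClosed_closure
  intro x hx
  by_contra hx'
  have h1 : φ =ᶠ[𝓝 x] fun _ => 0 := notMem_tsupport_iff_eventuallyEq.1 hx'
  have h2 : ∀ v : Fin n → ℂ, (fun y => D φ y v) =ᶠ[𝓝 x] fun _ => 0 := by
    intro v
    filter_upwards [eventually_eventually_nhds.2 h1] with y hy
    rw [D_congr hy, D_const]; rfl
  apply hx
  show lev φ x w = 0
  unfold lev
  rw [D_congr (h2 w), D_congr (h2 (I • w)), D_const]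
  simp

omit [T2Space M] [MeasurableSpace M] [BorelSpace M] in
theorem hasCompactSupport_lev {φ : M → ℝ} (hc : HasCompactSupport φ) (w : Fin n → ℂ) :
    HasCompactSupport (fun y => lev φ y w) :=
  hc.of_isClosed_subset isClosed_closure (tsupport_lev φ w)

/-- **integration by parts for the Levi form** -/
theorem lev_parts (hμ : IsLeb μ) {φ χ : M → ℝ} (hφ : Sm φ) (hχ : Sm χ)
    (hc : HasCompactSupport χ) (w : Fin n → ℂ) :
    ∫ y, χ y * lev φ y w ∂μ = ∫ y, φ y * lev χ y w ∂μ := by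
  have h1 := D2_parts hμ hφ hχ hc w
  have h2 := D2_parts hμ hφ hχ hc (I • w)
  have i1 : ∀ v, Integrable (fun y => χ y * D (fun y => D φ y v) y v) μ := by
    intro v
    have : Sm (fun y => χ y * D (fun y => D φ y v) y v) :=
      hχ.mulR ((hφ.D.apply v).D.apply v)
    exact this.integrable hμ hc.mul_right
  have i2 : ∀ v, Integrable (fun y => φ y * D (fun y => D χ y v) y v) μ := by
    intro v
    have hcD : HasCompactSupport (fun y => D χ y v) :=
      (hasCompactSupport_D hc).comp_left (g := fun A : (Fin n → ℂ) →L[ℝ] ℝ => A v) (by simp)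
    have hcDD : HasCompactSupport (fun y => D (fun y => D χ y v) y v) :=
      (hasCompactSupport_D hcD).comp_left (g := fun A : (Fin n → ℂ) →L[ℝ] ℝ => A v) (by simp)
    have : Sm (fun y => φ y * D (fun y => D χ y v) y v) :=
      hφ.mulR ((hχ.D.apply v).D.apply v)
    exact this.integrable hμ hcDD.mul_left
  have e1 : ∀ y, χ y * lev φ y w = (1 / 4) * (χ y * D (fun y => D φ y w) y w +
      χ y * D (fun y => D φ y (I • w)) y (I • w)) := by
    intro y; unfold lev; ring
  have e2 : ∀ y, φ y * lev χ y w = (1 / 4) * (φ y * D (fun y => D χ y w) y w +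
      φ y * D (fun y => D χ y (I • w)) y (I • w)) := by
    intro y; unfold lev; ring
  simp only [e1, e2]
  rw [integral_const_mul, integral_const_mul, integral_add (i1 _) (i1 _),
    integral_add (i2 _) (i2 _), h1, h2]

end parts

/-! ### the convex cut-off function -/

section gam

/-- smooth convex nondecreasing, `0` on `t ≤ 0` -/
def gam (t : ℝ) : ℝ := ∫ s in (0 : ℝ)..t, Real.smoothTransition s

theorem hasDerivAt_gam (t : ℝ) : HasDerivAt gam (Real.smoothTransition t) t :=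
  intervalIntegral.integral_hasDerivAt_right
    (Real.smoothTransition.continuous.intervalIntegrable _ _)
    (Real.smoothTransition.continuous.stronglyMeasurableAtFilter _ _)
    Real.smoothTransition.continuous.continuousAt

theorem deriv_gam : deriv gam = Real.smoothTransition := by
  funext t; exact (hasDerivAt_gam t).deriv

theorem contDiff_gam : ContDiff ℝ (⊤ : ℕ∞) gam := by
  rw [contDiff_infty_iff_deriv]
  refine ⟨fun t => (hasDerivAt_gam t).differentiableAt, ?_⟩
  rw [deriv_gam]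
  exact Real.smoothTransition.contDiff

theorem gam_mono : Monotone gam :=
  monotone_of_deriv_nonneg (fun t => (hasDerivAt_gam t).differentiableAt)
    (fun t => by rw [deriv_gam]; exact Real.smoothTransition.nonneg t)

theorem gam_zero {t : ℝ} (ht : t ≤ 0) : gam t = 0 := by
  unfold gam
  rw [intervalIntegral.integral_congr (g := fun _ => (0 : ℝ))]
  · simp
  · intro s hs
    rw [uIcc_of_ge ht] at hs
    exact Real.smoothTransition.zero_of_nonpos hs.2

theorem gam_nonneg (t : ℝ) : 0 ≤ gam t := by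
  rcases le_total t 0 with h | h
  · rw [gam_zero h]
  · rw [← gam_zero (le_refl (0 : ℝ))]; exact gam_mono h

theorem gam_le_one {t : ℝ} (ht : t ≤ 1) : gam t ≤ 1 := by
  refine (gam_mono ht).trans ?_
  unfold gam
  have h1 : ∫ s in (0 : ℝ)..1, Real.smoothTransition s ≤ ∫ s in (0 : ℝ)..1, (1 : ℝ) := by
    refine intervalIntegral.integral_mono_on zero_le_one
      (Real.smoothTransition.continuous.intervalIntegrable _ _) (by simp) ?_
    intro s _; exact Real.smoothTransition.le_one s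
  simpa using h1

theorem gam_pos {t : ℝ} (ht : 0 < t) : 0 < gam t := by
  unfold gam
  refine intervalIntegral.intervalIntegral_pos_of_pos_on
    (Real.smoothTransition.continuous.intervalIntegrable _ _) ?_ ht
  intro s hs; exact Real.smoothTransition.pos_of_pos hs.1

theorem deriv2_gam_nonneg (t : ℝ) : 0 ≤ deriv Real.smoothTransition t :=
  Real.smoothTransition.monotone.deriv_nonneg

end gam

/-! ### the global inequality -/

section glob

variable {n : ℕ} {M : Type*} [TopologicalSpace M] [RDom n M] [T2Space M] [MeasurableSpace M]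
  [BorelSpace M] {μ : Measure M}

theorem main_ineq (hμ : IsLeb μ) (w : Fin n → ℂ) {ω : M → ℝ} (hω : Sm ω) (hω0 : ∀ y, 0 ≤ ω y)
    (hint : Integrable ω μ) {u : M → ℝ} (hu : Sm u) (hu0 : ∀ y, 0 ≤ u y)
    (hprop : ∀ R : ℝ, IsCompact {y | u y ≤ R}) {C : ℝ} (hC0 : 0 ≤ C)
    (hC : ∀ y, lev u y w ≤ C * ω y) {G : M → ℝ} (hG : Sm G) {T : ℝ} (hT : ∀ y, -T ≤ G y)
    (hG0 : ∀ y, G y ≤ 0) {d : ℝ} (hd : 0 ≤ d) (hpos : ∀ y, 0 ≤ lev G y w + d * ω y)
    {ψ : M → ℝ} (hψ : Sm ψ) (hψc : HasCompactSupport ψ) (hψ0 : ∀ y, 0 ≤ ψ y)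
    (hψ1 : ∀ y, ψ y ≤ 1) :
    gam (1 / 2) * ∫ y, ψ y * (lev G y w + d * ω y) ∂μ ≤ d * ∫ y, ω y ∂μ := by
  have hV : 0 ≤ ∫ y, ω y ∂μ := integral_nonneg hω0
  rcases isEmpty_or_nonempty M with hM | ⟨⟨y0⟩⟩
  · have h1 : ∀ f : M → ℝ, ∫ y, f y ∂μ = 0 := by
      intro f
      rw [Measure.eq_zero_of_isEmpty μ]; simp
    rw [h1, h1]; simp
  have hT0 : 0 ≤ T := by linarith [hT y0, hG0 y0]
  -- bound for `u` on the support of `ψ`
  obtain ⟨R, hR⟩ : ∃ R : ℝ, ∀ y ∈ tsupport ψ, u y ≤ R := by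
    obtain ⟨R, hR⟩ := (hψc.isCompact.image hu.continuous).bddAbove
    exact ⟨R, fun y hy => hR ⟨y, hy, rfl⟩⟩
  have hsm1 : Sm (fun y => lev G y w + d * ω y) :=
    (sm_lev hG w).add ((Sm.const d).mulR hω)
  have key : ∀ ε : ℝ, 0 < ε → ε * R ≤ 1 / 2 →
      gam (1 / 2) * ∫ y, ψ y * (lev G y w + d * ω y) ∂μ ≤
        T * (ε * C) * (∫ y, ω y ∂μ) + d * ∫ y, ω y ∂μ := by
    intro ε hε hεR
    set g : ℝ → ℝ := fun t => gam (1 - ε * t) with hg
    have hgd : ContDiff ℝ (⊤ : ℕ∞) g :=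
      contDiff_gam.comp (contDiff_const.sub (contDiff_const.mul contDiff_id))
    set χ : M → ℝ := fun y => g (u y) with hχ
    have hχs : Sm χ := Sm.comp hgd hu
    have hχc : HasCompactSupport χ := by
      refine HasCompactSupport.intro (hprop (1 / ε)) ?_
      intro y hy
      have h1 : 1 / ε < u y := by simpa using hy
      have h2 : 1 - ε * u y ≤ 0 := by
        rw [div_lt_iff₀ hε] at h1
        nlinarith
      exact gam_zero h2
    have hχ1 : ∀ y, χ y ≤ 1 := fun y => gam_le_one (by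
      have := mul_nonneg hε.le (hu0 y); linarith)
    have hχ0 : ∀ y, 0 ≤ χ y := fun y => gam_nonneg _
    -- derivatives of `g`
    have hder1 : ∀ t : ℝ, HasDerivAt g (-ε * Real.smoothTransition (1 - ε * t)) t := by
      intro t
      have h1 : HasDerivAt (fun t : ℝ => 1 - ε * t) (-ε) t := by
        have := ((hasDerivAt_id' t).const_mul ε).const_sub 1
        simpa using this
      have h2 := (hasDerivAt_gam (1 - ε * t)).comp t h1
      have h3 : Real.smoothTransition (1 - ε * t) * -ε =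
        -ε * Real.smoothTransition (1 - ε * t) := by ring
      rw [h3] at h2
      exact h2
    have hder2 : ∀ t : ℝ, HasDerivAt (fun t : ℝ => -ε * Real.smoothTransition (1 - ε * t))
        (ε ^ 2 * deriv Real.smoothTransition (1 - ε * t)) t := by
      intro t
      have h1 : HasDerivAt (fun t : ℝ => 1 - ε * t) (-ε) t := by
        have := ((hasDerivAt_id' t).const_mul ε).const_sub 1
        simpa using this
      have h0 : HasDerivAt Real.smoothTransition (deriv Real.smoothTransition (1 - ε * t))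
          (1 - ε * t) := by
        have : DifferentiableAt ℝ Real.smoothTransition (1 - ε * t) :=
          (Real.smoothTransition.contDiff (n := 1)).differentiable (by simp) _
        exact this.hasDerivAt
      have h2 := (h0.comp t h1).const_mul (-ε)
      have h3 : -ε * (deriv Real.smoothTransition (1 - ε * t) * -ε) =
        ε ^ 2 * deriv Real.smoothTransition (1 - ε * t) := by ring
      rw [h3] at h2
      exact h2
    have hg's : Sm (fun y => (fun t : ℝ => -ε * Real.smoothTransition (1 - ε * t)) (u y)) := by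
      refine Sm.comp (g := fun t : ℝ => -ε * Real.smoothTransition (1 - ε * t)) ?_ hu
      exact contDiff_const.mul ((Real.smoothTransition.contDiff (n := (⊤ : ℕ∞))).comp
        (contDiff_const.sub (contDiff_const.mul contDiff_id)))
    have hlev : ∀ y, -(ε * C) * ω y ≤ lev χ y w := by
      intro y
      have h1 := lev_comp hu y (g := g)
        (g' := fun t : ℝ => -ε * Real.smoothTransition (1 - ε * t))
        (g'' := ε ^ 2 * deriv Real.smoothTransition (1 - ε * u y))
        (Eventually.of_forall hder1) (hder2 (u y)) w hg's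
      have h2 : lev χ y w = lev (fun y => g (u y)) y w := rfl
      rw [h2, h1]
      have h3 := dsq_nonneg u y w
      have h4 := deriv2_gam_nonneg (1 - ε * u y)
      have h5 := Real.smoothTransition.nonneg (1 - ε * u y)
      have h6 := Real.smoothTransition.le_one (1 - ε * u y)
      have h7 := hC y
      have h8 := hω0 y
      have h9 : 0 ≤ ε ^ 2 * deriv Real.smoothTransition (1 - ε * u y) * dsq u y w := by positivity
      have h10 : Real.smoothTransition (1 - ε * u y) * lev u y w ≤ C * ω y := by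
        calc Real.smoothTransition (1 - ε * u y) * lev u y w
            ≤ Real.smoothTransition (1 - ε * u y) * (C * ω y) := by gcongr
          _ ≤ 1 * (C * ω y) := by gcongr
          _ = C * ω y := one_mul _
      nlinarith
    -- comparison with `ψ`
    have i1 : Integrable (fun y => ψ y * (lev G y w + d * ω y)) μ :=
      (hψ.mulR hsm1).integrable hμ hψc.mul_right
    have i2 : Integrable (fun y => χ y * (lev G y w + d * ω y)) μ :=
      (hχs.mulR hsm1).integrable hμ hχc.mul_right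
    have s1 : gam (1 / 2) * ∫ y, ψ y * (lev G y w + d * ω y) ∂μ ≤
        ∫ y, χ y * (lev G y w + d * ω y) ∂μ := by
      rw [← integral_const_mul]
      refine integral_mono (i1.const_mul _) i2 ?_
      intro y
      simp only
      by_cases hy : y ∈ tsupport ψ
      · have h1 : gam (1 / 2) ≤ χ y := by
          refine gam_mono ?_
          have := hR y hy
          nlinarith
        have h2 : gam (1 / 2) * ψ y ≤ χ y := by
          have h3 := hψ0 y
          have h4 := hψ1 y
          have h5 := gam_nonneg (1 / 2)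
          nlinarith
        have := mul_le_mul_of_nonneg_right h2 (hpos y)
        linarith
      · rw [image_eq_zero_of_notMem_tsupport hy]
        have := mul_nonneg (hχ0 y) (hpos y)
        linarith
    have i3 : Integrable (fun y => χ y * lev G y w) μ :=
      (hχs.mulR (sm_lev hG w)).integrable hμ hχc.mul_right
    have i4 : Integrable (fun y => χ y * ω y) μ :=
      (hχs.mulR hω).integrable hμ hχc.mul_right
    have s2 : ∫ y, χ y * (lev G y w + d * ω y) ∂μ =
        ∫ y, χ y * lev G y w ∂μ + d * ∫ y, χ y * ω y ∂μ := by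
      rw [← integral_const_mul, ← integral_add i3 (i4.const_mul _)]
      refine integral_congr_ae (Eventually.of_forall fun y => ?_)
      simp only
      ring
    have s3 : ∫ y, χ y * lev G y w ∂μ ≤ T * (ε * C) * ∫ y, ω y ∂μ := by
      rw [lev_parts hμ hG hχs hχc w, ← integral_const_mul]
      refine integral_mono ?_ (hint.const_mul _) ?_
      · exact (hG.mulR (sm_lev hχs w)).integrable hμ (hasCompactSupport_lev hχc w).mul_left
      · intro y
        simp only
        have h1 := hlev y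
        have h2 := hG0 y
        have h3 := hT y
        have h4 := hω0 y
        have h5 : G y * lev χ y w ≤ G y * (-(ε * C) * ω y) :=
          mul_le_mul_of_nonpos_left h1 h2
        have h6 : G y * (-(ε * C) * ω y) ≤ T * (ε * C) * ω y := by
          have h7 : 0 ≤ (ε * C) * ω y := by positivity
          nlinarith
        exact h5.trans h6
    have s4 : ∫ y, χ y * ω y ∂μ ≤ ∫ y, ω y ∂μ := by
      refine integral_mono i4 hint ?_
      intro y
      simp only
      have := hχ1 y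
      have := hω0 y
      nlinarith
    have s5 : d * ∫ y, χ y * ω y ∂μ ≤ d * ∫ y, ω y ∂μ := by gcongr
    linarith
  -- let `ε → 0`
  refine le_of_forall_pos_le_add fun η hη => ?_
  set V := ∫ y, ω y ∂μ with hVdef
  obtain ⟨ε, hε, h1, h2⟩ : ∃ ε : ℝ, 0 < ε ∧ ε * R ≤ 1 / 2 ∧ T * (ε * C) * V ≤ η := by
    set A : ℝ := T * C * V with hA
    have hA0 : 0 ≤ A := by positivity
    set B : ℝ := max R 0 with hB
    have hB0 : 0 ≤ B := le_max_right _ _
    refine ⟨min (1 / (2 * (B + 1))) (η / (A + 1)), ?_, ?_, ?_⟩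
    · positivity
    · have h3 : min (1 / (2 * (B + 1))) (η / (A + 1)) ≤ 1 / (2 * (B + 1)) := min_le_left _ _
      have h4 : 0 < min (1 / (2 * (B + 1))) (η / (A + 1)) := by positivity
      have h5 : R ≤ B := le_max_left _ _
      calc min (1 / (2 * (B + 1))) (η / (A + 1)) * R
          ≤ min (1 / (2 * (B + 1))) (η / (A + 1)) * (B + 1) := by
            apply mul_le_mul_of_nonneg_left _ h4.le; linarith
        _ ≤ 1 / (2 * (B + 1)) * (B + 1) := by gcongr
        _ = 1 / 2 := by field_simp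
    · have h3 : min (1 / (2 * (B + 1))) (η / (A + 1)) ≤ η / (A + 1) := min_le_right _ _
      calc T * (min (1 / (2 * (B + 1))) (η / (A + 1)) * C) * V
          = min (1 / (2 * (B + 1))) (η / (A + 1)) * A := by rw [hA]; ring
        _ ≤ η / (A + 1) * A := by gcongr
        _ ≤ η := by
            rw [div_mul_eq_mul_div, div_le_iff₀ (by positivity)]
            nlinarith
  have h3 := key ε hε h1
  linarith

end glob

/-! ### holomorphic functions -/

section hol

variable {n : ℕ} {M : Type*} [TopologicalSpace M] [RDom n M]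

theorem hol_const (c : ℂ) : Hol (fun _ : M => c) where
  sm := Sm.const c
  cl := fun x w => by rw [D_const]; simp

theorem hol_add {f g : M → ℂ} (hf : Hol f) (hg : Hol g) : Hol (fun x => f x + g x) where
  sm := hf.sm.add hg.sm
  cl := fun x w => by
    rw [D_add hf.sm hg.sm]
    simp only [_root_.add_apply]
    rw [hf.cl, hg.cl]; ring

theorem hol_mul {f g : M → ℂ} (hf : Hol f) (hg : Hol g) : Hol (fun x => f x * g x) where
  sm := hf.sm.mul hg.sm
  cl := fun x w => by
    rw [D_mul hf.sm hg.sm, D_mul hf.sm hg.sm, hf.cl, hg.cl]; ring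

theorem hol_sum {ι : Type*} (s : Finset ι) {f : ι → M → ℂ} (hf : ∀ i ∈ s, Hol (f i)) :
    Hol (fun x => ∑ i ∈ s, f i x) := by
  classical
  induction s using Finset.induction_on with
  | empty => simpa using hol_const (M := M) 0
  | insert a s ha ih =>
    simp only [Finset.sum_insert ha]
    exact hol_add (hf a (by simp)) (ih fun i hi => hf i (by simp [hi]))

theorem hol_prod {ι : Type*} (s : Finset ι) {f : ι → M → ℂ} (hf : ∀ i ∈ s, Hol (f i)) :
    Hol (fun x => ∏ i ∈ s, f i x) := by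
  classical
  induction s using Finset.induction_on with
  | empty => simpa using hol_const (M := M) 1
  | insert a s ha ih =>
    simp only [Finset.prod_insert ha]
    exact hol_mul (hf a (by simp)) (ih fun i hi => hf i (by simp [hi]))

theorem hol_pow {f : M → ℂ} (hf : Hol f) (k : ℕ) : Hol (fun x => f x ^ k) := by
  have := hol_prod (Finset.range k) (f := fun _ => f) (fun _ _ => hf)
  simpa using this

theorem D_of_coord' {G : Type*} [NormedAddCommGroup G] [NormedSpace ℝ G] {g : (Fin n → ℂ) → G}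
    (x : M) : D (fun y : M => g (cp y)) x = fderiv ℝ g (cp x) := by
  unfold D
  apply Filter.EventuallyEq.fderiv_eq
  filter_upwards [(ch x).open_target.mem_nhds ((isCh_ch x).cp_mem (mem_ch x))] with z hz
  simp [(isCh_ch x).cp_symm hz]

/-- the coordinate functions are holomorphic -/
theorem hol_coord (j : Fin n) (c : ℂ) : Hol (fun y : M => cp y j - c) where
  sm := by
    refine Sm.of_coord (g := fun z : Fin n → ℂ => z j - c) ?_
    fun_prop
  cl := fun x w => by
    have h : D (fun y : M => cp y j - c) x = ContinuousLinearMap.proj (R := ℝ) j := by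
      have h1 := D_of_coord' (M := M) (g := fun z : Fin n → ℂ => z j - c) x
      rw [h1]
      have h2 : HasFDerivAt (fun z : Fin n → ℂ => z j - c)
          (ContinuousLinearMap.proj (R := ℝ) j : (Fin n → ℂ) →L[ℝ] ℂ) (cp x) :=
        ((ContinuousLinearMap.proj (R := ℝ) j : (Fin n → ℂ) →L[ℝ] ℂ).hasFDerivAt).sub_const c
      exact h2.fderiv
    rw [h]; simp

theorem D_coord (j : Fin n) (c : ℂ) (x : M) (w : Fin n → ℂ) :
    D (fun y : M => cp y j - c) x w = w j := by
  have h1 := D_of_coord' (M := M) (g := fun z : Fin n → ℂ => z j - c) x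
  rw [h1]
  have h2 : HasFDerivAt (fun z : Fin n → ℂ => z j - c)
      (ContinuousLinearMap.proj (R := ℝ) j : (Fin n → ℂ) →L[ℝ] ℂ) (cp x) :=
    ((ContinuousLinearMap.proj (R := ℝ) j : (Fin n → ℂ) →L[ℝ] ℂ).hasFDerivAt).sub_const c
  rw [h2.fderiv]; rfl

/-- polynomials in holomorphic functions are holomorphic -/
theorem hol_aeval {σ : Type*} {x : σ → M → ℂ} (hx : ∀ i, Hol (x i)) (P : MvPolynomial σ ℂ) :
    Hol (fun y => MvPolynomial.aeval (fun i => x i y) P) := by
  induction P using MvPolynomial.induction_on with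
  | C a => simpa using hol_const (M := M) a
  | add p q hp hq =>
    simp only [map_add]
    exact hol_add hp hq
  | mul_X p i hp =>
    simp only [map_mul, MvPolynomial.aeval_X]
    exact hol_mul hp (hx i)

end hol

/-! ### the logarithmic potential of a polynomial of degree `≤ d` -/

section pot

variable {n : ℕ} {M : Type*} [TopologicalSpace M] [RDom n M]

/-- `1 + ∑ |x_i|²` -/
def sx {m : ℕ} (x : Fin m → M → ℂ) (y : M) : ℝ := nS x y + 1

omit [TopologicalSpace M] [RDom n M] in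
theorem one_le_sx {m : ℕ} (x : Fin m → M → ℂ) (y : M) : 1 ≤ sx x y := by
  have := nS_nonneg x y
  unfold sx; linarith

/-- homogenised coordinates -/
def ox {m : ℕ} (x : Fin m → M → ℂ) : Option (Fin m) → M → ℂ
  | none => fun _ => 1
  | some i => x i

omit [TopologicalSpace M] [RDom n M] in
theorem sum_ox {m : ℕ} (x : Fin m → M → ℂ) (y : M) : ∑ i, ‖ox x i y‖ ^ 2 = sx x y := by
  rw [Fintype.sum_option]
  simp only [ox, norm_one, one_pow, sx, nS]
  ring

omit [TopologicalSpace M] [RDom n M] in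
theorem sx_pow {m : ℕ} (x : Fin m → M → ℂ) (d : ℕ) (y : M) :
    sx x y ^ d = ∑ σ : Fin d → Option (Fin m), ‖∏ k, ox x (σ k) y‖ ^ 2 := by
  have h1 : sx x y ^ d = ∏ _k : Fin d, ∑ i, ‖ox x i y‖ ^ 2 := by
    rw [sum_ox]; simp
  rw [h1, Finset.prod_univ_sum]
  simp only [Fintype.piFinset_univ]
  refine Finset.sum_congr rfl fun σ _ => ?_
  rw [norm_prod, ← Finset.prod_pow]

/-- the family `f, √δ · monomials` -/
def fam {m : ℕ} (x : Fin m → M → ℂ) (f : M → ℂ) (δ : ℝ) (d : ℕ) :
    Option (Fin d → Option (Fin m)) → M → ℂ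
  | none => f
  | some σ => fun y => (Real.sqrt δ : ℂ) * ∏ k, ox x (σ k) y

omit [TopologicalSpace M] [RDom n M] in
theorem nS_fam {m : ℕ} (x : Fin m → M → ℂ) (f : M → ℂ) {δ : ℝ} (hδ : 0 ≤ δ) (d : ℕ) (y : M) :
    nS (fam x f δ d) y = ‖f y‖ ^ 2 + δ * sx x y ^ d := by
  unfold nS
  rw [Fintype.sum_option, sx_pow, Finset.mul_sum]
  simp only [fam]
  congr 1
  refine Finset.sum_congr rfl fun σ _ => ?_
  rw [norm_mul, mul_pow]
  congr 1
  rw [Complex.norm_real, Real.norm_eq_abs, abs_of_nonneg (Real.sqrt_nonneg _), Real.sq_sqrt hδ]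

theorem hol_ox {m : ℕ} {x : Fin m → M → ℂ} (hx : ∀ i, Hol (x i)) (i : Option (Fin m)) :
    Hol (ox x i) := by
  cases i with
  | none => exact hol_const 1
  | some i => exact hx i

theorem hol_fam {m : ℕ} {x : Fin m → M → ℂ} (hx : ∀ i, Hol (x i)) {f : M → ℂ} (hf : Hol f)
    (δ : ℝ) (d : ℕ) (j : Option (Fin d → Option (Fin m))) : Hol (fam x f δ d j) := by
  cases j with
  | none => exact hf
  | some σ => exact hol_mul (hol_const _) (hol_prod _ fun k _ => hol_ox hx (σ k))

/-- `h_δ = log (|f|² + δ (1+|x|²)^d)` -/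
def hd {m : ℕ} (x : Fin m → M → ℂ) (f : M → ℂ) (δ : ℝ) (d : ℕ) (y : M) : ℝ :=
  Real.log (‖f y‖ ^ 2 + δ * sx x y ^ d)

omit [TopologicalSpace M] [RDom n M] in
theorem hd_eq {m : ℕ} (x : Fin m → M → ℂ) (f : M → ℂ) {δ : ℝ} (hδ : 0 ≤ δ) (d : ℕ) :
    hd x f δ d = lg (fam x f δ d) 0 := by
  funext y
  unfold hd lg
  rw [nS_fam x f hδ, add_zero]

omit [TopologicalSpace M] [RDom n M] in
theorem pos_fam {m : ℕ} (x : Fin m → M → ℂ) (f : M → ℂ) {δ : ℝ} (hδ : 0 < δ) (d : ℕ) (y : M) :
    0 < nS (fam x f δ d) y + 0 := by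
  rw [nS_fam x f hδ.le, add_zero]
  have := one_le_sx x y
  positivity

theorem sm_hd {m : ℕ} {x : Fin m → M → ℂ} (hx : ∀ i, Hol (x i)) {f : M → ℂ} (hf : Hol f)
    {δ : ℝ} (hδ : 0 < δ) (d : ℕ) : Sm (hd x f δ d) := by
  rw [hd_eq x f hδ.le]
  exact sm_lg (fun j => (hol_fam hx hf δ d j).sm) (pos_fam x f hδ d)

theorem lev_hd_nonneg {m : ℕ} {x : Fin m → M → ℂ} (hx : ∀ i, Hol (x i)) {f : M → ℂ} (hf : Hol f)
    {δ : ℝ} (hδ : 0 < δ) (d : ℕ) (y : M) (w : Fin n → ℂ) : 0 ≤ lev (hd x f δ d) y w := by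
  rw [hd_eq x f hδ.le]
  exact lev_lg_nonneg (fun j => hol_fam hx hf δ d j) le_rfl (pos_fam x f hδ d) y w

omit [TopologicalSpace M] [RDom n M] in
/-- growth of a polynomial -/
theorem norm_aeval_le {m : ℕ} (x : Fin m → M → ℂ) (P : MvPolynomial (Fin m) ℂ) {d : ℕ}
    (hP : P.totalDegree ≤ d) : ∃ K : ℝ, 0 ≤ K ∧ ∀ y : M,
      ‖MvPolynomial.aeval (fun i => x i y) P‖ ^ 2 ≤ K * sx x y ^ d := by
  refine ⟨(∑ α ∈ P.support, ‖P.coeff α‖) ^ 2, by positivity, fun y => ?_⟩
  set s := sx x y with hs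
  have hs1 : 1 ≤ s := one_le_sx x y
  have hroot : 1 ≤ Real.sqrt s := Real.one_le_sqrt.2 hs1
  have hxi : ∀ i, ‖x i y‖ ≤ Real.sqrt s := by
    intro i
    apply Real.le_sqrt_of_sq_le
    have h1 : ‖x i y‖ ^ 2 ≤ nS x y := by
      unfold nS
      exact Finset.single_le_sum (f := fun j => ‖x j y‖ ^ 2) (fun j _ => by positivity)
        (Finset.mem_univ i)
    have : s = nS x y + 1 := rfl
    linarith
  have h1 : ‖MvPolynomial.aeval (fun i => x i y) P‖ ≤
      (∑ α ∈ P.support, ‖P.coeff α‖) * Real.sqrt s ^ d := by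
    rw [MvPolynomial.aeval_def, MvPolynomial.eval₂_eq', Finset.sum_mul]
    refine (norm_sum_le _ _).trans (Finset.sum_le_sum fun α hα => ?_)
    rw [norm_mul, norm_prod]
    have e1 : ‖(algebraMap ℂ ℂ) (P.coeff α)‖ = ‖P.coeff α‖ := rfl
    rw [e1]
    refine mul_le_mul_of_nonneg_left ?_ (norm_nonneg _)
    have e2 : ∏ i, ‖x i y ^ α i‖ ≤ ∏ i, Real.sqrt s ^ α i := by
      refine Finset.prod_le_prod (fun i _ => norm_nonneg _) fun i _ => ?_
      rw [norm_pow]
      exact pow_le_pow_left₀ (norm_nonneg _) (hxi i) _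
    refine e2.trans ?_
    rw [Finset.prod_pow_eq_pow_sum]
    refine pow_le_pow_right₀ hroot ?_
    have e3 : ∑ i, α i = α.sum fun _ e => e := by
      rw [Finsupp.sum_fintype _ _ (by simp)]
    rw [e3]
    exact (MvPolynomial.le_totalDegree hα).trans hP
  calc ‖MvPolynomial.aeval (fun i => x i y) P‖ ^ 2
      ≤ ((∑ α ∈ P.support, ‖P.coeff α‖) * Real.sqrt s ^ d) ^ 2 :=
        pow_le_pow_left₀ (norm_nonneg _) h1 2
    _ = (∑ α ∈ P.support, ‖P.coeff α‖) ^ 2 * s ^ d := by
        rw [mul_pow, ← pow_mul, mul_comm d 2, pow_mul, Real.sq_sqrt (by linarith)]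

end pot

/-! ### local analysis at a point of a Riemann surface -/

section loc

variable {A : Type*} [TopologicalSpace A] [RDom 1 A]

/-- the direction `1` -/
def e1 : Fin 1 → ℂ := fun _ => 1

/-- `ℂ → ℂ^1` -/
def cst (t : ℂ) : Fin 1 → ℂ := fun _ => t

theorem cst_apply (z : Fin 1 → ℂ) : cst (z 0) = z := by
  funext i; rw [Subsingleton.elim i 0]; rfl

theorem norm_fin1 (v : Fin 1 → ℂ) : ‖v‖ = ‖v 0‖ := by
  apply le_antisymm
  · rw [pi_norm_le_iff_of_nonneg (norm_nonneg _)]
    intro i; rw [Subsingleton.elim i 0]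
  · exact norm_le_pi_norm v 0

theorem continuous_cst : Continuous cst := continuous_pi fun _ => continuous_id

/-- local expression -/
def loc (f : A → ℂ) (p : A) (t : ℂ) : ℂ := f ((ch p).symm (cst t))

theorem loc_differentiableAt {f : A → ℂ} (hf : Hol f) (p : A) {t : ℂ}
    (ht : cst t ∈ (ch p).target) : DifferentiableAt ℂ (loc f p) t := by
  rw [differentiableAt_complex_iff_differentiableAt_real]
  have h1 : HasFDerivAt (f ∘ (ch p).symm) (D f ((ch p).symm (cst t))) (cst t) := by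
    rw [D_symm (isCh_ch p) ht]
    exact ((hf.sm.contDiffAt' (isCh_ch p) ht).differentiableAt (by simp)).hasFDerivAt
  let cL : ℂ →L[ℝ] (Fin 1 → ℂ) := ContinuousLinearMap.pi fun _ => ContinuousLinearMap.id ℝ ℂ
  have h2 : HasFDerivAt cst cL t := cL.hasFDerivAt
  have h3 : HasFDerivAt (loc f p) ((D f ((ch p).symm (cst t))).comp cL) t := h1.comp t h2
  refine ⟨h3.differentiableAt, ?_⟩
  rw [h3.fderiv]
  simp only [ContinuousLinearMap.comp_apply, smul_eq_mul]
  have h4 : cL I = I • cL 1 := by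
    funext i; simp [cL]
  rw [h4, hf.cl]

theorem loc_analyticAt {f : A → ℂ} (hf : Hol f) (p : A) :
    AnalyticAt ℂ (loc f p) (cp p 0) := by
  have h1 : {t : ℂ | cst t ∈ (ch p).target} ∈ 𝓝 (cp p 0) := by
    apply continuous_cst.continuousAt.preimage_mem_nhds
    rw [cst_apply]
    exact (ch p).open_target.mem_nhds ((isCh_ch p).cp_mem (mem_ch p))
  obtain ⟨U, hU, hUo, hUt⟩ := mem_nhds_iff.1 h1
  have h2 : DifferentiableOn ℂ (loc f p) U := fun t ht =>
    (loc_differentiableAt hf p (hU ht)).differentiableWithinAt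
  exact h2.analyticAt (hUo.mem_nhds hUt)

theorem loc_cp {f : A → ℂ} (p : A) {y : A} (hy : y ∈ (ch p).source) :
    loc f p (cp y 0) = f y := by
  unfold loc
  rw [cst_apply, (isCh_ch p).symm_cp hy]

/-- the Levi form of the real part of a holomorphic function vanishes -/
theorem lev_re_zero {φ : A → ℝ} {L : ℂ → ℂ} {c : ℝ} {y : A} (hL : AnalyticAt ℂ L (cp y 0))
    (h : φ =ᶠ[𝓝 y] fun z => c + 2 * (L (cp z 0)).re) : lev φ y e1 = 0 := by
  have hder : ∀ (F : ℂ → ℂ) (a : ℂ) (c' : ℝ) (z : Fin 1 → ℂ), AnalyticAt ℂ F (z 0) →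
      ∀ v : Fin 1 → ℂ, fderiv ℝ (fun z : Fin 1 → ℂ => c' + 2 * (F (z 0) * a).re) z v =
        2 * (deriv F (z 0) * v 0 * a).re := by
    intro F a c' z hF v
    have h1 : HasFDerivAt (fun z : Fin 1 → ℂ => z 0)
        (ContinuousLinearMap.proj (R := ℝ) 0 : (Fin 1 → ℂ) →L[ℝ] ℂ) z :=
      (ContinuousLinearMap.proj (R := ℝ) 0 : (Fin 1 → ℂ) →L[ℝ] ℂ).hasFDerivAt
    have h2 : HasFDerivAt F ((fderiv ℂ F (z 0)).restrictScalars ℝ) (z 0) :=
      hF.differentiableAt.hasFDerivAt.restrictScalars ℝ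
    have h3 := h2.comp z h1
    have h4 := (h3.mul_const a)
    have h5 := (Complex.reCLM.hasFDerivAt (x := F (z 0) * a)).comp z h4
    have h6 := (h5.const_mul 2).const_add c'
    have h7 : fderiv ℝ (fun z : Fin 1 → ℂ => c' + 2 * (F (z 0) * a).re) z = _ := h6.fderiv
    rw [h7]
    simp only [_root_.smul_apply, ContinuousLinearMap.comp_apply,
      ContinuousLinearMap.coe_restrictScalars', ContinuousLinearMap.proj_apply, smul_eq_mul,
      Complex.reCLM_apply]
    congr 2
    have h8 : (fderiv ℂ F (z 0)) (v 0) = deriv F (z 0) * v 0 := by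
      rw [← fderiv_apply_one_eq_deriv]
      have : v 0 = (v 0) • (1 : ℂ) := by simp
      conv_lhs => rw [this]
      rw [map_smul, smul_eq_mul, mul_comm]
    rw [← h8]
    ring
  have hnear : ∀ᶠ y' in 𝓝 y, AnalyticAt ℂ L (cp y' 0) := by
    have h1 : ContinuousAt (fun y' : A => cp y' 0) y :=
      ((continuous_apply 0).comp cp_cont).continuousAt
    exact h1.eventually hL.eventually_analyticAt
  have hD1 : ∀ v : Fin 1 → ℂ, (fun y' => D φ y' v) =ᶠ[𝓝 y]
      fun y' => 0 + 2 * (deriv L (cp y' 0) * v 0).re := by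
    intro v
    filter_upwards [hnear, eventually_eventually_nhds.2 h] with y' h1 h2
    rw [D_congr h2]
    have h3 := D_of_coord' (M := A) (g := fun z : Fin 1 → ℂ => c + 2 * (L (z 0)).re) y'
    rw [h3]
    have h4 := hder L 1 c (cp y') h1 v
    simp only [mul_one] at h4
    rw [h4, zero_add]
  have hD2 : ∀ v : Fin 1 → ℂ, D (fun y' => D φ y' v) y v =
      2 * (deriv (deriv L) (cp y 0) * v 0 * v 0).re := by
    intro v
    rw [D_congr (hD1 v)]
    have h3 := D_of_coord' (M := A)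
      (g := fun z : Fin 1 → ℂ => 0 + 2 * (deriv L (z 0) * v 0).re) y
    rw [h3]
    exact hder (deriv L) (v 0) 0 (cp y) hL.deriv v
  unfold lev
  rw [hD2, hD2]
  simp only [e1, Pi.smul_apply, smul_eq_mul, mul_one]
  have : deriv (deriv L) (cp y 0) * I * I = - deriv (deriv L) (cp y 0) := by
    rw [mul_assoc, I_mul_I]; ring
  rw [this]
  simp

/-- Levi form of `log (|ζ|² + ε)` -/
theorem lev_log_coord (c : ℂ) {ε : ℝ} (hε : 0 < ε) (y : A) :
    lev (lg (fun (_ : Unit) (y : A) => cp y 0 - c) ε) y e1 =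
      ε / (‖cp y 0 - c‖ ^ 2 + ε) ^ 2 := by
  have hp : ∀ x : A, 0 < nS (fun (_ : Unit) (y : A) => cp y 0 - c) x + ε := fun x => by
    have := nS_nonneg (fun (_ : Unit) (y : A) => cp y 0 - c) x
    linarith
  rw [lev_lg (fun _ => hol_coord 0 c) hp]
  have h1 : nS (fun (_ : Unit) (y : A) => cp y 0 - c) y = ‖cp y 0 - c‖ ^ 2 := by simp [nS]
  have h2 : nT (fun (_ : Unit) (y : A) => cp y 0 - c) y e1 = 1 := by
    simp only [nT, Finset.univ_unique, Finset.sum_singleton]
    rw [D_coord]; simp [e1]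
  have h3 : ‖nA (fun (_ : Unit) (y : A) => cp y 0 - c) y e1‖ ^ 2 = ‖cp y 0 - c‖ ^ 2 := by
    simp only [nA, Finset.univ_unique, Finset.sum_singleton]
    rw [D_coord, norm_mul, RCLike.norm_conj]; simp [e1]
  rw [h1, h2, h3]
  have h4 : 0 < ‖cp y 0 - c‖ ^ 2 + ε := by positivity
  field_simp
  ring

/-- area of small discs -/
theorem measure_disc [MeasurableSpace A] [BorelSpace A] {μ : Measure A} (hμ : IsLeb μ) (p : A)
    {r : ℝ} (hsub : Metric.ball (cp p) r ⊆ (ch p).target) :
    μ ((ch p).source ∩ cp ⁻¹' (Metric.ball (cp p) r)) = ENNReal.ofReal r ^ 2 * NNReal.pi := by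
  have hm : MeasurableSet ((ch p).source ∩ cp ⁻¹' (Metric.ball (cp p) r)) :=
    (((ch p).open_source).inter (Metric.isOpen_ball.preimage cp_cont)).measurableSet
  have h1 : μ ((ch p).source ∩ cp ⁻¹' (Metric.ball (cp p) r)) =
      chm (ch p) ((ch p).source ∩ cp ⁻¹' (Metric.ball (cp p) r)) := by
    rw [chm, ← hμ (ch p) (isCh_ch p), Measure.restrict_apply hm]
    congr 1
    ext y; simp only [mem_inter_iff]; tauto
  rw [h1, chm_apply_sub (isCh_ch p) hm inter_subset_left]
  have h2 : cp '' ((ch p).source ∩ cp ⁻¹' (Metric.ball (cp p) r)) = Metric.ball (cp p) r := by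
    ext z
    constructor
    · rintro ⟨y, ⟨_, hy⟩, rfl⟩; exact hy
    · intro hz
      have hzt := hsub hz
      refine ⟨(ch p).symm z, ⟨(ch p).map_target hzt, ?_⟩, (isCh_ch p).cp_symm hzt⟩
      show cp ((ch p).symm z) ∈ Metric.ball (cp p) r
      rw [(isCh_ch p).cp_symm hzt]; exact hz
  rw [h2]
  have h3 := (volume_preserving_funUnique (Fin 1) ℂ).measure_preimage
    (s := Metric.ball (cp p 0) r) measurableSet_ball.nullMeasurableSet
  rw [← Complex.volume_ball (cp p 0) r, ← h3]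
  congr 1
  ext z
  simp only [Metric.mem_ball, mem_preimage, dist_eq_norm]
  rw [norm_fin1]
  rfl

/-- scalar comparison -/
theorem scal_cmp {N : ℕ} {Z F lamv ε δ b B R2 : ℝ} (hF : 0 < F) (hR : 0 < R2) (hZ : R2 ≤ Z)
    (hlog : Real.log F = N * Real.log Z + lamv) (hε : 0 < ε) (hδ : 0 < δ) (hb : 0 < b)
    (hB : b / F ≤ B) (hB0 : 0 ≤ B) :
    |N * Real.log (Z + ε) + lamv - Real.log (F + δ * b)| ≤ δ * B + N * ε / R2 := by
  have hZ0 : 0 < Z := lt_of_lt_of_le hR hZ
  have h5 : (0 : ℝ) ≤ N := Nat.cast_nonneg N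
  have a1 : Real.log (Z + ε) - Real.log Z ≤ ε / R2 := by
    rw [← Real.log_div (by positivity) (by positivity)]
    have h2 : (Z + ε) / Z = 1 + ε / Z := by field_simp
    rw [h2]
    have h3 := Real.log_le_sub_one_of_pos (x := 1 + ε / Z) (by positivity)
    have h4 : ε / Z ≤ ε / R2 := by gcongr
    linarith
  have a2 : Real.log Z ≤ Real.log (Z + ε) := Real.log_le_log hZ0 (by linarith)
  have a3 : Real.log (F + δ * b) - Real.log F ≤ δ * B := by
    rw [← Real.log_div (by positivity) (by positivity)]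
    have h2 : (F + δ * b) / F = 1 + δ * (b / F) := by field_simp
    rw [h2]
    have h3 := Real.log_le_sub_one_of_pos (x := 1 + δ * (b / F)) (by positivity)
    have h4 := mul_le_mul_of_nonneg_left hB hδ.le
    linarith
  have a4 : Real.log F ≤ Real.log (F + δ * b) := Real.log_le_log hF (by
    have : 0 < δ * b := by positivity
    linarith)
  have b1 := mul_le_mul_of_nonneg_left a1 h5
  have b2 := mul_le_mul_of_nonneg_left a2 h5
  have h7 : (N : ℝ) * (ε / R2) = N * ε / R2 := by ring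
  have h8 : 0 ≤ δ * B := by positivity
  have h9 : 0 ≤ N * ε / R2 := by positivity
  rw [abs_le]
  constructor <;> nlinarith

/-- the mass of the model `N log (|ζ|² + ε)` -/
theorem model_mass [T2Space A] [MeasurableSpace A] [BorelSpace A] {μ : Measure A}
    (hμ : IsLeb μ) (p : A) {r r4 : ℝ} (hr : r ≤ r4)
    (htar : Metric.ball (cp p) r4 ⊆ (ch p).target) {ψ : A → ℝ} (hψs : Sm ψ)
    (hψc : HasCompactSupport ψ) (hψ0 : ∀ y, 0 ≤ ψ y)
    (hψone : ∀ y ∈ (ch p).source, ‖cp y - cp p‖ ≤ r → ψ y = 1) (N : ℕ) {ε : ℝ} (hε0 : 0 < ε)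
    (hr0 : 0 < r) (hεr : ε < r ^ 2) :
    N * (Real.pi / 4) ≤
      ∫ y, ψ y * ((N : ℝ) * (ε / (‖cp y 0 - cp p 0‖ ^ 2 + ε) ^ 2)) ∂μ := by
  have hpos1 : ∀ x : A, 0 < nS (fun (_ : Unit) (y : A) => cp y 0 - cp p 0) x + ε := fun x => by
    have := nS_nonneg (fun (_ : Unit) (y : A) => cp y 0 - cp p 0) x
    linarith
  have hlgs : Sm (lg (fun (_ : Unit) (y : A) => cp y 0 - cp p 0) ε) :=
    sm_lg (fun _ => (hol_coord 0 (cp p 0)).sm) hpos1
  set S : Set A := (ch p).source ∩ cp ⁻¹' (Metric.ball (cp p) (Real.sqrt ε)) with hS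
  have hsq : Real.sqrt ε < r := by
    rw [Real.sqrt_lt' hr0]; exact hεr
  have hSm : MeasurableSet S :=
    (((ch p).open_source).inter (Metric.isOpen_ball.preimage cp_cont)).measurableSet
  have hSμ : μ S = ENNReal.ofReal (Real.sqrt ε) ^ 2 * NNReal.pi := by
    refine measure_disc hμ p ?_
    exact (Metric.ball_subset_ball (by linarith)).trans htar
  have hSr : μ.real S = ε * Real.pi := by
    rw [Measure.real, hSμ, ENNReal.toReal_mul, ENNReal.toReal_pow,
      ENNReal.toReal_ofReal (Real.sqrt_nonneg _), Real.sq_sqrt hε0.le]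
    simp
  have hcontm : Sm (fun y : A => (N : ℝ) * (ε / (‖cp y 0 - cp p 0‖ ^ 2 + ε) ^ 2)) := by
    have h1 : (fun y : A => (N : ℝ) * (ε / (‖cp y 0 - cp p 0‖ ^ 2 + ε) ^ 2)) =
        fun y : A => (N : ℝ) * lev (lg (fun (_ : Unit) (y : A) => cp y 0 - cp p 0) ε) y e1 := by
      funext y; rw [lev_log_coord (cp p 0) hε0]
    rw [h1]
    exact (Sm.const (N : ℝ)).mulR (sm_lev hlgs e1)
  have im : Integrable (fun y => ψ y * ((N : ℝ) * (ε / (‖cp y 0 - cp p 0‖ ^ 2 + ε) ^ 2))) μ :=
    (hψs.mulR hcontm).integrable hμ hψc.mul_right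
  have h1 : ∫ y, S.indicator (fun _ => (N : ℝ) / (4 * ε)) y ∂μ ≤
      ∫ y, ψ y * ((N : ℝ) * (ε / (‖cp y 0 - cp p 0‖ ^ 2 + ε) ^ 2)) ∂μ := by
    refine integral_mono ?_ im ?_
    · rw [integrable_indicator_iff hSm]
      refine integrableOn_const ?_
      rw [hSμ]
      exact ENNReal.mul_ne_top (ENNReal.pow_ne_top ENNReal.ofReal_ne_top) ENNReal.coe_ne_top
    · intro y
      by_cases hy : y ∈ S
      · rw [indicator_of_mem hy]
        simp only
        have hy2 : ‖cp y - cp p‖ < Real.sqrt ε := by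
          have := hy.2
          rwa [mem_preimage, Metric.mem_ball, dist_eq_norm] at this
        rw [hψone y hy.1 (by linarith), one_mul]
        have h3 : ‖cp y 0 - cp p 0‖ ^ 2 ≤ ε := by
          rw [norm_fin1] at hy2
          have h4 : ‖cp y 0 - cp p 0‖ < Real.sqrt ε := hy2
          have h5 : ‖cp y 0 - cp p 0‖ ^ 2 ≤ Real.sqrt ε ^ 2 := by gcongr
          rwa [Real.sq_sqrt hε0.le] at h5
        have h6 : ε / (2 * ε) ^ 2 ≤ ε / (‖cp y 0 - cp p 0‖ ^ 2 + ε) ^ 2 := by
          gcongr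
          linarith
        have h7 : ε / (2 * ε) ^ 2 = 1 / (4 * ε) := by field_simp; ring
        rw [h7] at h6
        have h8 : (0 : ℝ) ≤ N := Nat.cast_nonneg N
        calc (N : ℝ) / (4 * ε) = N * (1 / (4 * ε)) := by ring
          _ ≤ _ := mul_le_mul_of_nonneg_left h6 h8
      · rw [indicator_of_notMem hy]
        have := hψ0 y
        positivity
  refine le_trans (le_of_eq ?_) h1
  rw [integral_indicator hSm, setIntegral_const, smul_eq_mul, hSr]
  field_simp

set_option maxHeartbeats 1000000 in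
/-- **local lower bound**: a zero of order `N` carries mass `≥ N π / 4`. -/
theorem local_lower [T2Space A] [MeasurableSpace A] [BorelSpace A] {μ : Measure A}
    (hμ : IsLeb μ) {f : A → ℂ} (hf : Hol f) {b : A → ℝ} (hb : Sm b) (hb0 : ∀ y, 0 < b y) (p : A)
    {N : ℕ} (hN : analyticOrderAt (loc f p) (cp p 0) = N) :
    ∃ ψ : A → ℝ, Sm ψ ∧ HasCompactSupport ψ ∧ (∀ y, 0 ≤ ψ y) ∧ (∀ y, ψ y ≤ 1) ∧
      ∀ η : ℝ, 0 < η → ∃ δ0 : ℝ, 0 < δ0 ∧ ∀ δ : ℝ, 0 < δ → δ ≤ δ0 →
        Sm (fun y => Real.log (‖f y‖ ^ 2 + δ * b y)) →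
        N * (Real.pi / 4) - η ≤
          ∫ y, ψ y * lev (fun y => Real.log (‖f y‖ ^ 2 + δ * b y)) y e1 ∂μ := by
  set t0 : ℂ := cp p 0 with ht0
  have hcp : cst t0 = cp p := cst_apply _
  obtain ⟨g, hg, hg0, hfg⟩ := (loc_analyticAt hf p).analyticOrderAt_eq_natCast.1 hN
  -- a logarithm of `g`
  set L : ℂ → ℂ := fun t => Complex.log (g t / g t0) with hLdef
  have hq : AnalyticAt ℂ (fun t => g t / g t0) t0 := hg.div_const
  have hL : AnalyticAt ℂ L t0 := hq.clog (by
    show g t0 / g t0 ∈ slitPlane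
    rw [div_self hg0]; exact one_mem_slitPlane)
  set c0 : ℝ := Real.log (‖g t0‖ ^ 2) with hc0
  have hgne : ∀ᶠ t in 𝓝 t0, g t ≠ 0 := hg.continuousAt.eventually_ne hg0
  have htar : ∀ᶠ t in 𝓝 t0, cst t ∈ (ch p).target := by
    apply continuous_cst.continuousAt.eventually
    rw [hcp]
    exact (ch p).open_target.mem_nhds ((isCh_ch p).cp_mem (mem_ch p))
  obtain ⟨r4, hr4, hball⟩ := Metric.eventually_nhds_iff_ball.1
    (((hfg.and hgne).and htar).and hL.eventually_analyticAt)
  set r : ℝ := r4 / 4 with hr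
  have hr0 : 0 < r := by positivity
  have hr44 : r4 = 4 * r := by rw [hr]; ring
  have hLog : ∀ t ∈ Metric.ball t0 r4, Real.log (‖g t‖ ^ 2) = c0 + 2 * (L t).re := by
    intro t ht
    have h1 : g t ≠ 0 := (hball t ht).1.1.2
    have h2 : (L t).re = Real.log ‖g t / g t0‖ := Complex.log_re _
    rw [h2, norm_div, Real.log_div (norm_ne_zero_iff.2 h1) (norm_ne_zero_iff.2 hg0), hc0,
      Real.log_pow, Real.log_pow]
    push_cast; ring
  -- the bump functions
  let ψ0 : ContDiffBump (cp p) := ⟨r, 2 * r, hr0, by linarith⟩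
  let b0 : ContDiffBump (cp p) := ⟨3 * r, 7 / 2 * r, by positivity, by linarith⟩
  have hsubT : ∀ z : Fin 1 → ℂ, ‖z - cp p‖ < r4 → z ∈ (ch p).target ∧ z 0 ∈ Metric.ball t0 r4 := by
    intro z hz
    have h1 : z 0 ∈ Metric.ball t0 r4 := by
      rw [Metric.mem_ball, dist_eq_norm]
      rw [norm_fin1] at hz
      exact hz
    refine ⟨?_, h1⟩
    have := (hball _ h1).1.2
    rwa [cst_apply] at this
  have hψt : tsupport (ψ0 : (Fin 1 → ℂ) → ℝ) ⊆ (ch p).target := by
    rw [ψ0.tsupport_eq]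
    intro z hz
    rw [Metric.mem_closedBall, dist_eq_norm] at hz
    have hz' : ‖z - cp p‖ ≤ 2 * r := hz
    exact (hsubT z (by rw [hr44]; linarith)).1
  set ψ : A → ℝ := pull (ch p) ψ0 with hψdef
  have hψs : Sm ψ := pull_sm (isCh_ch p) ψ0.contDiff hψt ψ0.hasCompactSupport
  have hψc : HasCompactSupport ψ :=
    pull_hasCompactSupport (isCh_ch p) hψt ψ0.hasCompactSupport
  have hψ0 : ∀ y, 0 ≤ ψ y := fun y => by
    rw [hψdef]; unfold pull
    exact indicator_nonneg (fun y _ => ψ0.nonneg) y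
  have hψ1 : ∀ y, ψ y ≤ 1 := fun y => by
    by_cases hy : y ∈ (ch p).source
    · rw [hψdef, pull_of_mem _ _ hy]; exact ψ0.le_one
    · rw [hψdef]; simp [pull, indicator_of_notMem hy]
  have hψsup : ∀ y ∈ tsupport ψ, y ∈ (ch p).source ∧ ‖cp y - cp p‖ ≤ 2 * r := by
    intro y hy
    obtain ⟨z, hz, rfl⟩ := pull_tsupport (isCh_ch p) hψt ψ0.hasCompactSupport hy
    have hzt := hψt hz
    refine ⟨(ch p).map_target hzt, ?_⟩
    rw [(isCh_ch p).cp_symm hzt]
    rw [ψ0.tsupport_eq, Metric.mem_closedBall, dist_eq_norm] at hz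
    exact hz
  have hψone : ∀ y ∈ (ch p).source, ‖cp y - cp p‖ ≤ r → ψ y = 1 := by
    intro y hy hyr
    rw [hψdef, pull_of_mem _ _ hy]
    refine ψ0.one_of_mem_closedBall ?_
    rw [Metric.mem_closedBall, dist_eq_norm]; exact hyr
  -- the harmonic function `log |g|²`, cut off
  set Λ : (Fin 1 → ℂ) → ℝ := fun z => b0 z * (c0 + 2 * (L (z 0)).re) with hΛ
  have hΛs : ContDiff ℝ (⊤ : ℕ∞) Λ := by
    rw [contDiff_iff_contDiffAt]
    intro z
    by_cases hz : ‖z - cp p‖ < r4
    · have h1 : AnalyticAt ℂ L (z 0) := (hball _ (hsubT z hz).2).2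
      have h2 : ContDiffAt ℝ (⊤ : ℕ∞) L (z 0) := (h1.contDiffAt (n := (⊤ : ℕ∞))).restrict_scalars ℝ
      have h3 : ContDiffAt ℝ (⊤ : ℕ∞) (fun z : Fin 1 → ℂ => L (z 0)) z :=
        h2.comp z (contDiff_apply ℝ ℂ (0 : Fin 1)).contDiffAt
      have h4 : ContDiffAt ℝ (⊤ : ℕ∞) (fun z : Fin 1 → ℂ => (L (z 0)).re) z :=
        Complex.reCLM.contDiff.contDiffAt.comp z h3
      exact b0.contDiff.contDiffAt.mul (contDiffAt_const.add (contDiffAt_const.mul h4))
    · have h1 : z ∉ tsupport (b0 : (Fin 1 → ℂ) → ℝ) := by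
        rw [b0.tsupport_eq, Metric.mem_closedBall, dist_eq_norm]
        show ¬ ‖z - cp p‖ ≤ 7 / 2 * r
        rw [hr44] at hz
        intro h; apply hz; linarith
      have h2 : Λ =ᶠ[𝓝 z] fun _ => 0 := by
        filter_upwards [notMem_tsupport_iff_eventuallyEq.1 h1] with z' hz'
        simp [hΛ, hz']
      exact contDiffAt_const.congr_of_eventuallyEq h2
  have hΛt : tsupport Λ ⊆ (ch p).target := by
    refine (tsupport_mul_subset_left).trans ?_
    rw [b0.tsupport_eq]
    intro z hz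
    rw [Metric.mem_closedBall, dist_eq_norm] at hz
    have hz' : ‖z - cp p‖ ≤ 7 / 2 * r := hz
    exact (hsubT z (by rw [hr44]; linarith)).1
  have hΛc : HasCompactSupport Λ := b0.hasCompactSupport.mul_right
  set lam : A → ℝ := pull (ch p) Λ with hlam
  have hlams : Sm lam := pull_sm (isCh_ch p) hΛs hΛt hΛc
  have hlamEq : ∀ y ∈ (ch p).source, ‖cp y - cp p‖ < 3 * r →
      lam y = c0 + 2 * (L (cp y 0)).re := by
    intro y hy hyr
    rw [hlam, pull_of_mem _ _ hy, hΛ]
    simp only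
    rw [b0.one_of_mem_closedBall, one_mul]
    rw [Metric.mem_closedBall, dist_eq_norm]; exact hyr.le
  have hopen : ∀ ρ : ℝ, IsOpen {y : A | y ∈ (ch p).source ∧ ‖cp y - cp p‖ < ρ} := by
    intro ρ
    exact (ch p).open_source.inter
      (isOpen_lt ((cp_cont (M := A)).sub continuous_const).norm continuous_const)
  have hlevlam : ∀ y ∈ tsupport ψ, lev lam y e1 = 0 := by
    intro y hy
    obtain ⟨hys, hyr⟩ := hψsup y hy
    have hyr3 : ‖cp y - cp p‖ < 3 * r := by linarith
    have h1 : AnalyticAt ℂ L (cp y 0) :=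
      (hball _ (hsubT (cp y) (by rw [hr44]; linarith)).2).2
    refine lev_re_zero h1 (c := c0) ?_
    filter_upwards [(hopen (3 * r)).mem_nhds ⟨hys, hyr3⟩] with z hz
    exact hlamEq z hz.1 hz.2
  -- `lev ψ` lives on the annulus
  have hann : ∀ y, lev ψ y e1 ≠ 0 → y ∈ tsupport ψ ∧ r ≤ ‖cp y - cp p‖ := by
    intro y hy
    have h1 : y ∈ tsupport ψ := tsupport_lev ψ e1 (subset_tsupport _ hy)
    refine ⟨h1, ?_⟩
    by_contra hlt
    push Not at hlt
    apply hy
    have h2 : ψ =ᶠ[𝓝 y] fun _ => 1 := by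
      filter_upwards [(hopen r).mem_nhds ⟨(hψsup y h1).1, hlt⟩] with z hz
      exact hψone z hz.1 hz.2.le
    have h3 : ∀ v : Fin 1 → ℂ, (fun z => D ψ z v) =ᶠ[𝓝 y] fun _ => 0 := by
      intro v
      filter_upwards [eventually_eventually_nhds.2 h2] with z hz
      rw [D_congr hz, D_const]; rfl
    unfold lev
    rw [D_congr (h3 e1), D_congr (h3 (I • e1)), D_const]
    simp
  -- `f` on the annulus
  have hfann : ∀ y ∈ tsupport ψ, r ≤ ‖cp y - cp p‖ → f y ≠ 0 ∧
      Real.log (‖f y‖ ^ 2) = N * Real.log (‖cp y 0 - t0‖ ^ 2) + lam y := by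
    intro y hy hyr
    obtain ⟨hys, hyr2⟩ := hψsup y hy
    have hb1 := (hsubT (cp y) (by rw [hr44]; linarith)).2
    have h1 : f y = (cp y 0 - t0) ^ N * g (cp y 0) :=
      (loc_cp (f := f) p hys).symm.trans (hball _ hb1).1.1.1
    have h2 : cp y 0 - t0 ≠ 0 := by
      rw [norm_fin1] at hyr
      intro h
      have : ‖cp y 0 - t0‖ = 0 := by rw [h, norm_zero]
      have h3 : ‖(cp y - cp p) 0‖ = ‖cp y 0 - t0‖ := rfl
      rw [h3, this] at hyr
      linarith
    have h3 : g (cp y 0) ≠ 0 := (hball _ hb1).1.1.2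
    refine ⟨by rw [h1]; exact mul_ne_zero (pow_ne_zero _ h2) h3, ?_⟩
    rw [hlamEq y hys (by linarith), ← hLog _ hb1, h1, norm_mul, norm_pow, mul_pow, ← pow_mul,
      mul_comm N 2, pow_mul, Real.log_mul (by positivity) (by positivity), Real.log_pow]
  -- compactness bound
  have hKc : IsCompact {y | y ∈ tsupport ψ ∧ r ≤ ‖cp y - cp p‖} :=
    hψc.isCompact.inter_right
      (isClosed_le continuous_const ((cp_cont (M := A)).sub continuous_const).norm)
  obtain ⟨B, hB⟩ : ∃ B : ℝ, ∀ y ∈ {y | y ∈ tsupport ψ ∧ r ≤ ‖cp y - cp p‖},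
      b y / ‖f y‖ ^ 2 ≤ B := by
    have hcont : ContinuousOn (fun y => b y / ‖f y‖ ^ 2)
        {y | y ∈ tsupport ψ ∧ r ≤ ‖cp y - cp p‖} := by
      refine hb.continuous.continuousOn.div ((hf.sm.continuous.norm.pow 2).continuousOn) ?_
      intro y hy
      have := (hfann y hy.1 hy.2).1
      positivity
    obtain ⟨B, hB⟩ := (hKc.image_of_continuousOn hcont).bddAbove
    exact ⟨B, fun y hy => hB ⟨y, hy, rfl⟩⟩
  set B' : ℝ := max B 0 with hB'
  have hB'0 : 0 ≤ B' := le_max_right _ _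
  have hlevψ : Sm (fun y => lev ψ y e1) := sm_lev hψs e1
  have hlevψc : HasCompactSupport (fun y => lev ψ y e1) := hasCompactSupport_lev hψc e1
  have ilev : Integrable (fun y => |lev ψ y e1|) μ := (hlevψ.integrable hμ hlevψc).abs
  set Cψ : ℝ := ∫ y, |lev ψ y e1| ∂μ with hCψ
  have hCψ0 : 0 ≤ Cψ := integral_nonneg fun y => abs_nonneg _
  refine ⟨ψ, hψs, hψc, hψ0, hψ1, fun η hη => ?_⟩
  -- choice of `ε`
  set ε : ℝ := min (r ^ 2 / 2) (η * r ^ 2 / (2 * ((N + 1) * (Cψ + 1)))) with hε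
  have hε0 : 0 < ε := by positivity
  have hεr : ε < r ^ 2 := by
    have := min_le_left (r ^ 2 / 2) (η * r ^ 2 / (2 * ((N + 1) * (Cψ + 1))))
    have h2 : 0 < r ^ 2 := by positivity
    rw [hε]; linarith
  have hεη : N * ε / r ^ 2 * Cψ ≤ η / 2 := by
    have h1 : ε ≤ η * r ^ 2 / (2 * ((N + 1) * (Cψ + 1))) := min_le_right _ _
    have h2 : N * ε / r ^ 2 * Cψ ≤ (N + 1) * (η * r ^ 2 / (2 * ((N + 1) * (Cψ + 1)))) / r ^ 2 *
        (Cψ + 1) := by
      gcongr
      · linarith
      · linarith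
    refine h2.trans (le_of_eq ?_)
    field_simp
  refine ⟨η / (2 * ((B' + 1) * (Cψ + 1))), by positivity, fun δ hδ hδ0 hh => ?_⟩
  have hδη : δ * B' * Cψ ≤ η / 2 := by
    calc δ * B' * Cψ ≤ (η / (2 * ((B' + 1) * (Cψ + 1)))) * (B' + 1) * (Cψ + 1) := by
          gcongr
          · linarith
          · linarith
      _ = η / 2 := by field_simp
  set h : A → ℝ := fun y => Real.log (‖f y‖ ^ 2 + δ * b y) with hhdef
  set ks : A → ℝ := fun y => N * lg (fun (_ : Unit) (y : A) => cp y 0 - t0) ε y + lam y with hks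
  have hpos1 : ∀ x : A, 0 < nS (fun (_ : Unit) (y : A) => cp y 0 - t0) x + ε := fun x => by
    have := nS_nonneg (fun (_ : Unit) (y : A) => cp y 0 - t0) x
    linarith
  have hlgs : Sm (lg (fun (_ : Unit) (y : A) => cp y 0 - t0) ε) :=
    sm_lg (fun _ => (hol_coord 0 t0).sm) hpos1
  have hkss : Sm ks := ((Sm.const (N : ℝ)).mulR hlgs).add hlams
  -- integrals
  have I1 := lev_parts hμ hh hψs hψc e1
  have I2 := lev_parts hμ hkss hψs hψc e1
  -- comparison on the annulus
  have hcmp : ∀ y, (ks y - h y) * lev ψ y e1 ≤ (δ * B' + N * ε / r ^ 2) * |lev ψ y e1| := by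
    intro y
    by_cases hy : lev ψ y e1 = 0
    · rw [hy]; simp
    obtain ⟨hy1, hy2⟩ := hann y hy
    obtain ⟨hfy, hlogf⟩ := hfann y hy1 hy2
    have hζ : r ≤ ‖cp y 0 - t0‖ := by
      rw [norm_fin1] at hy2; exact hy2
    have hζ2 : r ^ 2 ≤ ‖cp y 0 - t0‖ ^ 2 := pow_le_pow_left₀ hr0.le hζ 2
    have hks1 : ks y = N * Real.log (‖cp y 0 - t0‖ ^ 2 + ε) + lam y := by
      simp [hks, lg, nS]
    have hf2 : 0 < ‖f y‖ ^ 2 := by positivity
    have e5 : |ks y - h y| ≤ δ * B' + N * ε / r ^ 2 := by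
      rw [hks1]
      exact scal_cmp hf2 (by positivity) hζ2 hlogf hε0 hδ (hb0 y)
        ((hB y ⟨hy1, hy2⟩).trans (le_max_left _ _)) hB'0
    refine (le_abs_self _).trans ?_
    rw [abs_mul]
    exact mul_le_mul_of_nonneg_right e5 (abs_nonneg _)
  have ih : Integrable (fun y => h y * lev ψ y e1) μ :=
    (hh.mulR hlevψ).integrable hμ hlevψc.mul_left
  have ik : Integrable (fun y => ks y * lev ψ y e1) μ :=
    (hkss.mulR hlevψ).integrable hμ hlevψc.mul_left
  have hdiff : ∫ y, ks y * lev ψ y e1 ∂μ - ∫ y, h y * lev ψ y e1 ∂μ ≤ η := by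
    rw [← integral_sub ik ih]
    have h1 : ∫ y, (ks y * lev ψ y e1 - h y * lev ψ y e1) ∂μ ≤
        ∫ y, (δ * B' + N * ε / r ^ 2) * |lev ψ y e1| ∂μ := by
      refine integral_mono (ik.sub ih) (ilev.const_mul _) ?_
      intro y
      have := hcmp y
      simp only
      linarith
    rw [integral_const_mul] at h1
    have h2 : (δ * B' + N * ε / r ^ 2) * Cψ ≤ η := by
      have : (δ * B' + N * ε / r ^ 2) * Cψ = δ * B' * Cψ + N * ε / r ^ 2 * Cψ := by ring
      rw [this]; linarith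
    exact h1.trans h2
  -- the mass of the model
  have hmodel : N * (Real.pi / 4) ≤ ∫ y, ψ y * lev ks y e1 ∂μ := by
    have hlevks : ∀ y, ψ y * lev ks y e1 = ψ y * (N * (ε / (‖cp y 0 - t0‖ ^ 2 + ε) ^ 2)) := by
      intro y
      by_cases hy : y ∈ tsupport ψ
      · have h1 : lev ks y e1 = N * (ε / (‖cp y 0 - t0‖ ^ 2 + ε) ^ 2) := by
          have h2 := lev_add ((Sm.const (N : ℝ)).mulR hlgs) hlams y e1
          rw [hks, h2, hlevlam y hy, lev_const_mul hlgs, lev_log_coord t0 hε0, add_zero]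
        rw [h1]
      · rw [image_eq_zero_of_notMem_tsupport hy]; simp
    simp only [hlevks]
    refine model_mass hμ p (r := r) (r4 := r4) (by rw [hr44]; linarith) ?_ hψs hψc hψ0 hψone N
      hε0 hr0 hεr
    intro z hz
    rw [Metric.mem_ball, dist_eq_norm] at hz
    exact (hsubT z hz).1
  rw [I2] at hmodel
  rw [I1]
  linarith

end loc

/-! ### the counting theorem -/

section count

variable {A : Type*} [TopologicalSpace A] [RDom 1 A] [T2Space A] [MeasurableSpace A]
  [BorelSpace A] {μ : Measure A}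

omit [T2Space A] [MeasurableSpace A] [BorelSpace A] in
theorem sm_lg1 {m : ℕ} {x : Fin m → A → ℂ} (hx : ∀ i, Hol (x i)) : Sm (lg x 1) :=
  sm_lg (fun i => (hx i).sm) fun y => by
    have := nS_nonneg x y
    linarith

/-- the order of vanishing of a polynomial of degree `≤ d` on a curve of finite area -/
theorem order_le (hμ : IsLeb μ) {m : ℕ} {x : Fin m → A → ℂ} (hx : ∀ i, Hol (x i))
    (hint : Integrable (fun y => lev (lg x 1) y e1) μ) {u : A → ℝ} (hu : Sm u)
    (hu0 : ∀ y, 0 ≤ u y) (hprop : ∀ R : ℝ, IsCompact {y | u y ≤ R}) {C : ℝ} (hC0 : 0 ≤ C)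
    (hC : ∀ y, lev u y e1 ≤ C * lev (lg x 1) y e1) (p : A) {d : ℕ} (P : MvPolynomial (Fin m) ℂ)
    (hP : P.totalDegree ≤ d) {N : ℕ}
    (hN : analyticOrderAt (loc (fun y => MvPolynomial.aeval (fun i => x i y) P) p) (cp p 0) = N) :
    gam (1 / 2) * (N * (Real.pi / 4)) ≤ d * ∫ y, lev (lg x 1) y e1 ∂μ := by
  set f : A → ℂ := fun y => MvPolynomial.aeval (fun i => x i y) P with hfdef
  have hf : Hol f := hol_aeval hx P
  obtain ⟨K, hK0, hK⟩ := norm_aeval_le x P hP
  have hω : Sm (fun y => lev (lg x 1) y e1) := sm_lev (sm_lg1 hx) e1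
  have hω0 : ∀ y, 0 ≤ lev (lg x 1) y e1 := fun y =>
    lev_lg_nonneg hx zero_le_one (fun z => by
      have := nS_nonneg x z
      linarith) y e1
  have hsxs : Sm (sx x) := (sm_nS fun i => (hx i).sm).add (Sm.const 1)
  have hb : Sm (fun y => sx x y ^ d) := Sm.comp (g := fun t : ℝ => t ^ d) (contDiff_id.pow d) hsxs
  have hb0 : ∀ y, 0 < sx x y ^ d := fun y => by
    have := one_le_sx x y
    positivity
  obtain ⟨ψ, hψs, hψc, hψ0, hψ1, hψ⟩ := local_lower hμ hf hb hb0 p hN
  refine le_of_forall_pos_le_add fun η hη => ?_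
  have hg0 : 0 < gam (1 / 2) := gam_pos (by norm_num)
  have hg1 : gam (1 / 2) ≤ 1 := gam_le_one (by norm_num)
  obtain ⟨δ, hδ, hδ0⟩ := hψ η hη
  have hsmh : Sm (hd x f δ d) := sm_hd hx hf hδ d
  have hlow := hδ0 δ hδ le_rfl hsmh
  -- the normalised potential
  set G : A → ℝ := fun y => (hd x f δ d y + (-(d : ℝ)) * lg x 1 y) + (-Real.log (K + δ)) with hG
  have hGs : Sm G := (hsmh.add ((Sm.const _).mulR (sm_lg1 hx))).add (Sm.const _)
  have hlevG : ∀ y, lev G y e1 + d * lev (lg x 1) y e1 = lev (hd x f δ d) y e1 := by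
    intro y
    have h1 := lev_add (hsmh.add ((Sm.const (-(d : ℝ))).mulR (sm_lg1 hx)))
      (Sm.const (-Real.log (K + δ))) y e1
    have h2 := lev_add hsmh ((Sm.const (-(d : ℝ))).mulR (sm_lg1 hx)) y e1
    have h3 := lev_const_mul (sm_lg1 hx) (-(d : ℝ)) y e1
    rw [lev_const] at h1
    have h4 : lev G y e1 = lev (fun y => (hd x f δ d y + (-(d : ℝ)) * lg x 1 y) +
        (-Real.log (K + δ))) y e1 := rfl
    rw [h4, h1, h2, h3]; ring
  have hlg : ∀ y, (d : ℝ) * lg x 1 y = Real.log (sx x y ^ d) := by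
    intro y
    rw [Real.log_pow]; rfl
  have hKδ : 0 < K + δ := by linarith
  have hG0 : ∀ y, G y ≤ 0 := by
    intro y
    have h1 : hd x f δ d y ≤ Real.log (K + δ) + Real.log (sx x y ^ d) := by
      rw [← Real.log_mul hKδ.ne' (hb0 y).ne']
      refine Real.log_le_log ?_ ?_
      · have := hb0 y
        positivity
      · have := hK y
        have h2 : ‖f y‖ ^ 2 ≤ K * sx x y ^ d := this
        nlinarith
    have h2 : G y = hd x f δ d y - d * lg x 1 y - Real.log (K + δ) := by rw [hG]; ring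
    rw [h2, hlg]
    linarith
  have hGT : ∀ y, -(Real.log (K + δ) - Real.log δ) ≤ G y := by
    intro y
    have h1 : Real.log δ + Real.log (sx x y ^ d) ≤ hd x f δ d y := by
      rw [← Real.log_mul hδ.ne' (hb0 y).ne']
      refine Real.log_le_log (mul_pos hδ (hb0 y)) ?_
      have : 0 ≤ ‖f y‖ ^ 2 := by positivity
      linarith
    have h2 : G y = hd x f δ d y - d * lg x 1 y - Real.log (K + δ) := by rw [hG]; ring
    rw [h2, hlg]
    linarith
  have hmain := main_ineq hμ e1 hω hω0 hint hu hu0 hprop hC0 hC hGs hGT hG0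
    (Nat.cast_nonneg d) (fun y => by rw [hlevG y]; exact lev_hd_nonneg hx hf hδ d y e1)
    hψs hψc hψ0 hψ1
  simp only [hlevG] at hmain
  have h5 : gam (1 / 2) * (N * (Real.pi / 4) - η) ≤
      gam (1 / 2) * ∫ y, ψ y * lev (hd x f δ d) y e1 ∂μ :=
    mul_le_mul_of_nonneg_left hlow hg0.le
  nlinarith

/-- **Curves of finite area.** The jets of order `≤ C (d+1)` at `p` of polynomials of degree `≤ d`
determine all jets. -/
theorem jets_determine (hμ : IsLeb μ) {m : ℕ} {x : Fin m → A → ℂ} (hx : ∀ i, Hol (x i))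
    (hint : Integrable (fun y => lev (lg x 1) y e1) μ) {u : A → ℝ} (hu : Sm u)
    (hu0 : ∀ y, 0 ≤ u y) (hprop : ∀ R : ℝ, IsCompact {y | u y ≤ R}) {C : ℝ} (hC0 : 0 ≤ C)
    (hC : ∀ y, lev u y e1 ≤ C * lev (lg x 1) y e1) (p : A) :
    ∃ C' : ℕ, ∀ (d : ℕ) (P : MvPolynomial (Fin m) ℂ), P.totalDegree ≤ d →
      (∀ j ≤ C' * (d + 1), iteratedDeriv j
        (loc (fun y => MvPolynomial.aeval (fun i => x i y) P) p) (cp p 0) = 0) →
      ∀ j, iteratedDeriv j
        (loc (fun y => MvPolynomial.aeval (fun i => x i y) P) p) (cp p 0) = 0 := by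
  have hg0 : 0 < gam (1 / 2) := gam_pos (by norm_num)
  have hω0 : ∀ y, 0 ≤ lev (lg x 1) y e1 := fun y =>
    lev_lg_nonneg hx zero_le_one (fun z => by
      have := nS_nonneg x z
      linarith) y e1
  set V : ℝ := ∫ y, lev (lg x 1) y e1 ∂μ with hV
  have hV0 : 0 ≤ V := integral_nonneg hω0
  obtain ⟨C', hC'⟩ := exists_nat_ge (V / (gam (1 / 2) * (Real.pi / 4)))
  refine ⟨C', fun d P hP hj => ?_⟩
  have han : AnalyticAt ℂ (loc (fun y => MvPolynomial.aeval (fun i => x i y) P) p) (cp p 0) :=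
    loc_analyticAt (hol_aeval hx P) p
  by_cases htop : analyticOrderAt (loc (fun y => MvPolynomial.aeval (fun i => x i y) P) p)
      (cp p 0) = ⊤
  · intro j
    refine (natCast_le_analyticOrderAt_iff_iteratedDeriv_eq_zero (n := j + 1) han).1 ?_ j
      (Nat.lt_succ_self j)
    rw [htop]; exact le_top
  · exfalso
    obtain ⟨N, hN⟩ := ENat.ne_top_iff_exists.1 htop
    have h1 := order_le hμ hx hint hu hu0 hprop hC0 hC p P hP hN.symm
    have h2 : ((C' * (d + 1) + 1 : ℕ) : ℕ∞) ≤ analyticOrderAt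
        (loc (fun y => MvPolynomial.aeval (fun i => x i y) P) p) (cp p 0) := by
      refine (natCast_le_analyticOrderAt_iff_iteratedDeriv_eq_zero han).2 ?_
      intro i hi
      exact hj i (Nat.lt_succ_iff.1 hi)
    rw [← hN] at h2
    have h3 : C' * (d + 1) + 1 ≤ N := by exact_mod_cast h2
    have h4 : (C' : ℝ) * (d + 1) + 1 ≤ N := by exact_mod_cast h3
    have h5 : V ≤ C' * (gam (1 / 2) * (Real.pi / 4)) := by
      rwa [div_le_iff₀ (by positivity)] at hC'
    have h6 : (d : ℝ) * V ≤ d * (C' * (gam (1 / 2) * (Real.pi / 4))) := by gcongr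
    have h7 : 0 < gam (1 / 2) * (Real.pi / 4) := by positivity
    have h8 : gam (1 / 2) * (N * (Real.pi / 4)) = N * (gam (1 / 2) * (Real.pi / 4)) := by ring
    rw [h8] at h1
    have h9 : (C' * (d + 1) + 1 : ℝ) * (gam (1 / 2) * (Real.pi / 4)) ≤
        N * (gam (1 / 2) * (Real.pi / 4)) := mul_le_mul_of_nonneg_right h4 h7.le
    have h10 : (0 : ℝ) ≤ C' := Nat.cast_nonneg C'
    nlinarith

end count

end Crest.Agent.R276.Cur_409
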