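import Crest.Agent.R276.Iso_425
import Crest.Agent.R276.GeoN_348
import Crest.Agent.R276.RestrA_236

/-!
# Row 276 (S0419), `hone`, part 1 (helper425): the alternating line on a power of a Riemann domain

`line_abs`: `M` a connected Riemann domain, `σ_1, …, σ_s` a basis of a space `V` of holomorphic
functions which is closed in the sense of (Cl).  A symmetric function `b` on `M^s`, holomorphic off
`{δ = 0}`, `δ = det σ_i(x_j)`, with `∫ |b|² |δ|^{2/N} < ∞`, is constant off `{δ = 0}`.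
-/

set_option autoImplicit false
set_option linter.unusedSectionVars false

noncomputable section

open Set Filter Topology MeasureTheory
open Crest.Agent.R271 Crest.Agent.R271.Ho51 Crest.Agent.R276.AB2_590 Crest.Agent.R276.Restr_236
open Crest.Agent.R276.GeoN_348 Crest.Agent.R276.GeoY_519 Crest.Agent.R276.Iso_425
open scoped ENNReal

namespace Crest.Agent.R276.Hone_425

section gen

variable {n : ℕ} {M : Type*} [TopologicalSpace M] [RDom n M]

lemma tendsto_symm (z : M) : Tendsto (ch z).symm (𝓝 (cp z)) (𝓝 z) := by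
  have := (ch z).symm.continuousAt (x := cp z) (by simpa using (isCh_ch z).cp_mem (mem_ch z))
  rwa [ContinuousAt, (isCh_ch z).symm_cp (mem_ch z)] at this

lemma eventually_cp_symm (z : M) : ∀ᶠ x in 𝓝 (cp z : Fin n → ℂ), cp ((ch z).symm x) = x := by
  filter_upwards [(ch z).open_target.mem_nhds ((isCh_ch z).cp_mem (mem_ch z))] with x hx
  exact (isCh_ch z).cp_symm hx

/-- a function which near `x` is an analytic function of the coordinates -/
lemma anal_iff {f : M → ℂ} {x : M} : AnalyticAt ℂ (f ∘ (ch x).symm) (cp x) ↔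
    ∃ g : (Fin n → ℂ) → ℂ, AnalyticAt ℂ g (cp x) ∧ ∀ᶠ y in 𝓝 x, f y = g (cp y) := by
  constructor
  · intro h
    refine ⟨f ∘ (ch x).symm, h, ?_⟩
    filter_upwards [(ch x).open_source.mem_nhds (mem_ch x)] with y hy
    simp [(isCh_ch x).symm_cp hy]
  · rintro ⟨g, hg, h⟩
    refine hg.congr ?_
    filter_upwards [(tendsto_symm x).eventually h, eventually_cp_symm x] with z hz hz2
    simp only [Function.comp_apply]
    rw [hz, hz2]

lemma anal_continuousAt {f : M → ℂ} {x : M} (h : AnalyticAt ℂ (f ∘ (ch x).symm) (cp x)) :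
    ContinuousAt f x := by
  obtain ⟨g, hg, hfg⟩ := anal_iff.1 h
  have h1 : ContinuousAt (fun y : M => g (cp y)) x :=
    ContinuousAt.comp (f := (cp : M → (Fin n → ℂ))) hg.continuousAt cp_cont.continuousAt
  exact h1.congr (hfg.mono fun y hy => hy.symm)

/-- `IsLeb` measures charge open sets -/
lemma leb_open_pos [MeasurableSpace M] [BorelSpace M] {μ : Measure M} (hμ : IsLeb μ) :
    μ.IsOpenPosMeasure := by
  refine ⟨fun U hU hne h0 => ?_⟩
  obtain ⟨x, hx⟩ := hne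
  have he := isCh_ch x
  have hW : IsOpen (U ∩ (ch x).source) := hU.inter (ch x).open_source
  have h1 : μ (U ∩ (ch x).source) = 0 := measure_mono_null inter_subset_left h0
  have h2 : μ.restrict (ch x).source U = 0 := by
    rw [Measure.restrict_apply hU.measurableSet]; exact h1
  rw [hμ (ch x) he, Measure.map_apply_of_aemeasurable (aem_symm (ch x)) hU.measurableSet,
    Measure.restrict_apply' (ch x).open_target.measurableSet] at h2
  have hO : IsOpen ((ch x).symm ⁻¹' U ∩ (ch x).target) := by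
    rw [inter_comm]
    exact (ch x).symm.isOpen_inter_preimage hU
  have hne2 : ((ch x).symm ⁻¹' U ∩ (ch x).target).Nonempty :=
    ⟨cp x, by simpa [he.symm_cp (mem_ch x)] using hx, he.cp_mem (mem_ch x)⟩
  exact hO.measure_ne_zero volume hne2 h2

end gen

section pw

variable {r : ℕ} {M : Type*} [TopologicalSpace M] [RDom r M]

/-- functions of one of the points -/
lemma holA_coord {s : ℕ} {f : M → ℂ} (hf : HolA f) (j : Fin s) :
    @HolA (s * r) (Fin s → M) _ (rdPi r M s) (fun x => f (x j)) := by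
  let _ := rdPi r M s
  intro x
  rw [anal_iff]
  obtain ⟨g, hg, hfg⟩ := anal_iff.1 (hf (x j))
  have hb : ∀ y : Fin s → M, blk (cp y : Fin (s * r) → ℂ) j = cp (y j) := fun y =>
    blk_flat (fun j => (cp (y j) : Fin r → ℂ)) j
  refine ⟨fun τ => g (blk τ j), ?_, ?_⟩
  · have h1 : AnalyticAt ℂ (fun τ : Fin (s * r) → ℂ => blk τ j) (cp x) := by
      refine analyticAt_pi_iff.2 fun i => ?_
      exact (ContinuousLinearMap.proj (R := ℂ) (φ := fun _ : Fin (s * r) => ℂ)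
        (finProdFinEquiv (j, i))).analyticAt _
    refine AnalyticAt.comp (g := g) (f := fun τ : Fin (s * r) → ℂ => blk τ j) ?_ h1
    rw [hb x]
    exact hg
  · filter_upwards [(continuous_apply j).continuousAt.eventually hfg] with y hy
    rw [hb y]
    exact hy

variable {n : ℕ} {M' : Type*} [TopologicalSpace M'] [RDom n M']

lemma holA_add {f g : M' → ℂ} (hf : HolA f) (hg : HolA g) : HolA (fun x => f x + g x) :=
  fun x => (hf x).add (hg x)

lemma holA_mul {f g : M' → ℂ} (hf : HolA f) (hg : HolA g) : HolA (fun x => f x * g x) :=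
  fun x => (hf x).mul (hg x)

lemma holA_const (c : ℂ) : HolA (fun _ : M' => c) := fun _ => analyticAt_const

lemma holA_sum {κ : Type*} (t : Finset κ) {f : κ → M' → ℂ} (hf : ∀ i ∈ t, HolA (f i)) :
    HolA (fun x => ∑ i ∈ t, f i x) := fun x => by
  have h := Finset.analyticAt_fun_sum t (f := fun i => f i ∘ (ch x).symm) (c := cp x)
    fun i hi => hf i hi x
  exact h

lemma holA_prod {κ : Type*} (t : Finset κ) {f : κ → M' → ℂ} (hf : ∀ i ∈ t, HolA (f i)) :
    HolA (fun x => ∏ i ∈ t, f i x) := fun x => by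
  have h := Finset.analyticAt_fun_prod t (f := fun i => f i ∘ (ch x).symm) (c := cp x)
    fun i hi => hf i hi x
  exact h

lemma holA_alt {s : ℕ} {σ : Fin s → M → ℂ} (hσ : ∀ i, HolA (σ i)) :
    @HolA (s * r) (Fin s → M) _ (rdPi r M s) (alt σ) := by
  let _ := rdPi r M s
  have h1 : (alt σ) = fun x : Fin s → M => ∑ π : Equiv.Perm (Fin s),
      ((Equiv.Perm.sign π : ℤ) : ℂ) * ∏ j, σ (π j) (x j) := by
    funext x
    unfold alt
    rw [Matrix.det_apply']
    rfl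
  rw [h1]
  refine holA_sum _ fun π _ => ?_
  refine holA_mul (holA_const _) ?_
  exact holA_prod _ fun j _ => holA_coord (hσ (π j)) j

/-- slices of holomorphic functions on a power -/
lemma holA_slice {k : ℕ} {u : (Fin (k + 1) → M) → ℂ}
    (hu : @HolA ((k + 1) * r) (Fin (k + 1) → M) _ (rdPi r M (k + 1)) u) (j : Fin (k + 1))
    (y : Fin k → M) : HolA (fun t => u (j.insertNth t y)) := by
  let _ := rdPi r M (k + 1)
  intro t
  rw [anal_iff]
  obtain ⟨g, hg, hfg⟩ := anal_iff.1 (hu (j.insertNth t y))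
  set A : (Fin r → ℂ) → Fin ((k + 1) * r) → ℂ := fun z =>
    flat (j.insertNth (α := fun _ => Fin r → ℂ) z fun i => cp (y i)) with hA
  have hcp : ∀ t : M, (cp (j.insertNth (α := fun _ => M) t y) : Fin ((k + 1) * r) → ℂ) = A (cp t) := by
    intro t
    show flat (fun i => (cp (j.insertNth (α := fun _ => M) t y i) : Fin r → ℂ)) = _
    rw [hA]
    congr 1
    funext i
    refine Fin.succAboveCases j ?_ (fun i => ?_) i
    · simp
    · simp
  refine ⟨fun z => g (A z), ?_, ?_⟩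
  · refine AnalyticAt.comp (g := g) (f := A) ?_ ?_
    · rw [← hcp]; exact hg
    · refine analyticAt_pi_iff.2 fun K => ?_
      show AnalyticAt ℂ (fun z => (j.insertNth (α := fun _ => Fin r → ℂ) z fun i => cp (y i))
        (finProdFinEquiv.symm K).1 (finProdFinEquiv.symm K).2) _
      generalize (finProdFinEquiv.symm K).1 = a
      generalize (finProdFinEquiv.symm K).2 = b
      refine Fin.succAboveCases j ?_ (fun i => ?_) a
      · simp only [Fin.insertNth_apply_same]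
        exact (ContinuousLinearMap.proj (R := ℂ) (φ := fun _ : Fin r => ℂ) b).analyticAt _
      · simp only [Fin.insertNth_apply_succAbove]
        exact analyticAt_const
  · have hc : Continuous fun t : M => (j.insertNth (α := fun _ => M) t y) := by
      refine continuous_pi fun i => ?_
      refine Fin.succAboveCases j ?_ (fun i => ?_) i
      · simp only [Fin.insertNth_apply_same]
        exact continuous_id
      · simp only [Fin.insertNth_apply_succAbove]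
        exact continuous_const
    filter_upwards [hc.continuousAt.eventually hfg] with t' ht'
    rw [ht', hcp]

variable [T2Space M] [SecondCountableTopology M] [PreconnectedSpace M] [MeasurableSpace M]
  [BorelSpace M]

lemma enorm_rpow_le {x y c : ℝ≥0∞} (h : x ≤ c * y) (hc0 : c ≠ 0) (hct : c ≠ ∞) :
    y⁻¹ ≤ c * x⁻¹ := by
  have h1 : (c * y)⁻¹ ≤ x⁻¹ := ENNReal.inv_le_inv.2 h
  rw [ENNReal.mul_inv (Or.inl hc0) (Or.inl hct)] at h1
  calc y⁻¹ = c * (c⁻¹ * y⁻¹) := by rw [← mul_assoc, ENNReal.mul_inv_cancel hc0 hct, one_mul]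
    _ ≤ c * x⁻¹ := by gcongr

/-- comparison of the weights -/
lemma weight_le {s : ℕ} {α : ℝ} (hα : 0 < α) (a v : Fin s → ℂ) (ha : a ≠ 0) :
    (∑ i, ‖v i‖ₑ ^ 2) ^ (-α) ≤
      (∑ i, ‖a i‖ₑ ^ 2) ^ α * ‖∑ i, a i * v i‖ₑ ^ (-(2 * α)) := by
  have hA0 : (∑ i, ‖a i‖ₑ ^ 2) ≠ 0 := by
    obtain ⟨i, hi⟩ := Function.ne_iff.1 ha
    rw [Ne, Finset.sum_eq_zero_iff]
    intro h
    have := h i (Finset.mem_univ i)
    simp only [pow_eq_zero_iff, ne_eq, OfNat.ofNat_ne_zero, not_false_eq_true, enorm_eq_zero] at this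
    exact hi (by simpa using this)
  have hAt : (∑ i, ‖a i‖ₑ ^ 2) ≠ ∞ := by
    refine ENNReal.sum_ne_top.2 fun i _ => ?_
    exact ENNReal.pow_ne_top enorm_ne_top
  have hcs : ‖∑ i, a i * v i‖ₑ ^ 2 ≤ (∑ i, ‖a i‖ₑ ^ 2) * ∑ i, ‖v i‖ₑ ^ 2 := by
    have h1 : ‖∑ i, a i * v i‖ ^ 2 ≤ (∑ i, ‖a i‖ ^ 2) * ∑ i, ‖v i‖ ^ 2 := by
      have h2 : ‖∑ i, a i * v i‖ ≤ ∑ i, ‖a i‖ * ‖v i‖ := by
        refine (norm_sum_le _ _).trans (Finset.sum_le_sum fun i _ => ?_)
        rw [norm_mul]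
      calc ‖∑ i, a i * v i‖ ^ 2 ≤ (∑ i, ‖a i‖ * ‖v i‖) ^ 2 := by gcongr
        _ ≤ _ := Finset.sum_mul_sq_le_sq_mul_sq _ _ _
    have h3 : ∀ z : ℂ, ‖z‖ₑ ^ 2 = ENNReal.ofReal (‖z‖ ^ 2) := fun z => by
      rw [← ofReal_norm, ENNReal.ofReal_pow (norm_nonneg _)]
    simp only [h3]
    rw [← ENNReal.ofReal_sum_of_nonneg (fun i _ => by positivity),
      ← ENNReal.ofReal_sum_of_nonneg (fun i _ => by positivity),
      ← ENNReal.ofReal_mul (Finset.sum_nonneg fun i _ => by positivity)]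
    exact ENNReal.ofReal_le_ofReal h1
  have h4 : ‖∑ i, a i * v i‖ₑ ^ (2 * α) ≤
      (∑ i, ‖a i‖ₑ ^ 2) ^ α * (∑ i, ‖v i‖ₑ ^ 2) ^ α := by
    rw [← ENNReal.mul_rpow_of_nonneg _ _ hα.le, ENNReal.rpow_mul]
    refine ENNReal.rpow_le_rpow ?_ hα.le
    rw [ENNReal.rpow_two]
    exact hcs
  rw [ENNReal.rpow_neg, ENNReal.rpow_neg]
  refine enorm_rpow_le h4 ?_ ?_
  · rw [Ne, ENNReal.rpow_eq_zero_iff]
    rintro (⟨h, _⟩ | ⟨_, h⟩)
    · exact hA0 h
    · linarith
  · exact ENNReal.rpow_ne_top_of_nonneg hα.le hAt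

/-- **the alternating line**: a symmetric function on `M^s`, `s = dim V`, with finite
`∫ |b|² |δ|^{2/N}`, is constant off `{δ = 0}` -/
theorem line_abs {μ : Measure M} (hμ : IsLeb μ) {N : ℕ} (hN : 2 ≤ N) {k : ℕ}
    {σ : Fin (k + 1) → M → ℂ} (hσ : ∀ i, HolA (σ i))
    (hli : ∀ a : Fin (k + 1) → ℂ, (∀ y, ∑ i, a i * σ i y = 0) → a = 0)
    (hcl : ∀ f : M → ℂ, HolA f →
      ∫⁻ y, ‖f y‖ₑ ^ 2 * (∑ i, ‖σ i y‖ₑ ^ 2) ^ (-((N - 1 : ℝ) / N)) ∂μ ≠ ∞ →
      ∃ a : Fin (k + 1) → ℂ, ∀ y, f y = ∑ i, a i * σ i y)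
    {b : (Fin (k + 1) → M) → ℂ}
    (hb : ∀ x, alt σ x ≠ 0 → AnalyticAt ℂ (b ∘ (@ch ((k + 1) * r) (Fin (k + 1) → M) _
      (rdPi r M (k + 1)) x).symm) (@RDom.p ((k + 1) * r) (Fin (k + 1) → M) _ (rdPi r M (k + 1)) x))
    (hsym : ∀ (π : Equiv.Perm (Fin (k + 1))) x, alt σ x ≠ 0 → b (x ∘ π) = b x)
    (hint : ∫⁻ x, ‖b x‖ₑ ^ 2 * ‖alt σ x‖ₑ ^ (2 / (N : ℝ))
      ∂(Measure.pi fun _ : Fin (k + 1) => μ) ≠ ∞) :
    ∃ C : ℂ, ∀ x, alt σ x ≠ 0 → b x = C := by
  classical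
  let _ := rdPi r M (k + 1)
  have hloc : IsLocallyFiniteMeasure μ := hμ.locallyFinite
  have hop : μ.IsOpenPosMeasure := leb_open_pos hμ
  have hπ : IsLeb (Measure.pi fun _ : Fin (k + 1) => μ) := leb_pi hμ (k + 1)
  have hσc : ∀ i, Continuous (σ i) := fun i => HolA.cont (hσ i)
  have hN0 : (0 : ℝ) < N := by exact_mod_cast (by omega : 0 < N)
  have hN2 : (2 : ℝ) ≤ N := by exact_mod_cast hN
  set α : ℝ := (N - 1 : ℝ) / N with hα
  have hα0 : 0 < α := by rw [hα]; apply div_pos <;> linarith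
  have h2α : 2 * α = 2 - 2 / (N : ℝ) := by rw [hα]; field_simp
  -- the space `V`
  set V : Submodule ℂ (M → ℂ) := Submodule.span ℂ (Set.range σ) with hV
  have hVmem : ∀ g ∈ V, ∃ a : Fin (k + 1) → ℂ, g = fun y => ∑ i, a i * σ i y := by
    intro g hg
    obtain ⟨a, ha⟩ := (Submodule.mem_span_range_iff_exists_fun ℂ).1 hg
    refine ⟨a, ?_⟩
    rw [← ha]
    funext y
    simp
  have hVhol : ∀ g ∈ V, HolA g := by
    intro g hg
    obtain ⟨a, rfl⟩ := hVmem g hg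
    exact holA_sum _ fun i _ => holA_mul (holA_const _) (hσ i)
  have hVc : ∀ g ∈ V, Continuous g := fun g hg => HolA.cont (hVhol g hg)
  have hNZ : ∀ g ∈ V, g ≠ 0 → ∀ᵐ x ∂μ, g x ≠ 0 := by
    intro g hg hg0
    obtain ⟨y, hy⟩ := Function.ne_iff.1 hg0
    exact ae_ne hμ (hVhol g hg) (freq_ne (hVhol g hg) ⟨y, hy⟩)
  have hLI : LinearIndependent ℂ σ := by
    rw [Fintype.linearIndependent_iff]
    intro a ha i
    have h1 := hli a fun y => by
      have := congrFun ha y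
      simpa using this
    rw [h1]; rfl
  have hCl : ∀ g ∈ V, g ≠ 0 → ∀ f ∈ {f : M → ℂ | HolA f},
      ∫⁻ x, ‖f x‖ₑ ^ 2 * ‖g x‖ₑ ^ (-(2 * α)) ∂μ < ∞ → f ∈ V := by
    intro g hg hg0 f hf hfi
    obtain ⟨a, rfl⟩ := hVmem g hg
    have ha : a ≠ 0 := by
      rintro rfl
      apply hg0
      funext y
      simp
    obtain ⟨a', ha'⟩ := hcl f hf (by
      refine ne_of_lt (lt_of_le_of_lt (lintegral_mono (g := fun x =>
        (∑ i, ‖a i‖ₑ ^ 2) ^ α * (‖f x‖ₑ ^ 2 * ‖∑ i, a i * σ i x‖ₑ ^ (-(2 * α)))) ?_) ?_)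
      · intro x
        calc ‖f x‖ₑ ^ 2 * (∑ i, ‖σ i x‖ₑ ^ 2) ^ (-α)
            ≤ ‖f x‖ₑ ^ 2 * ((∑ i, ‖a i‖ₑ ^ 2) ^ α * ‖∑ i, a i * σ i x‖ₑ ^ (-(2 * α))) := by
              gcongr
              exact weight_le hα0 a (fun i => σ i x) ha
          _ = _ := by ring
      · rw [lintegral_const_mul' _ _ (ENNReal.rpow_ne_top_of_nonneg hα0.le
          (ENNReal.sum_ne_top.2 fun i _ => ENNReal.pow_ne_top enorm_ne_top))]
        exact ENNReal.mul_lt_top (ENNReal.rpow_lt_top_of_nonneg hα0.le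
          (ENNReal.sum_ne_top.2 fun i _ => ENNReal.pow_ne_top enorm_ne_top)) hfi)
    rw [show f = fun y => ∑ i, a' i * σ i y from funext ha']
    have h3 : (fun y => ∑ i, a' i * σ i y) = ∑ i, a' i • σ i := by
      funext y; simp
    rw [h3]
    exact Submodule.sum_mem _ fun i _ => Submodule.smul_mem _ _ (Submodule.subset_span ⟨i, rfl⟩)
  -- the function `δ`
  set Dl : (Fin (k + 1) → M) → ℂ := alt σ with hDl
  have hDh : HolA Dl := holA_alt hσ
  have hDc : Continuous Dl := HolA.cont hDh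
  have hDae : ∀ᵐ x ∂(Measure.pi fun _ : Fin (k + 1) => μ), Dl x ≠ 0 := by
    exact alt_ne_zero_ae hVc hNZ σ hLI (by rw [hV]; exact fun i => Submodule.subset_span ⟨i, rfl⟩)
  have hop2 : (Measure.pi fun _ : Fin (k + 1) => μ).IsOpenPosMeasure := leb_open_pos hπ
  have hDfr : ∀ x, ∃ᶠ y in 𝓝 x, Dl y ≠ 0 := by
    intro x hcon
    have h1 : {y | ¬ Dl y ≠ 0} ∈ 𝓝 x := hcon
    have h2 : (Measure.pi fun _ : Fin (k + 1) => μ) {y | ¬ Dl y ≠ 0} ≠ 0 :=
      (Measure.measure_pos_of_mem_nhds _ h1).ne'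
    exact h2 (ae_iff.1 hDae)
  have hUo : IsOpen {x | Dl x ≠ 0} := isOpen_ne_fun hDc continuous_const
  set f : (Fin (k + 1) → M) → ℂ := fun x => if Dl x ≠ 0 then b x * Dl x else 0 with hf
  have hfm : Measurable f := by
    have h1 : ContinuousOn (fun x => b x * Dl x) {x | Dl x ≠ 0} := fun x hx =>
      ((anal_continuousAt (hb x hx)).mul hDc.continuousAt).continuousWithinAt
    exact h1.measurable_piecewise (continuous_const (y := (0 : ℂ))).continuousOn
      hUo.measurableSet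
  have hfa : ∀ x, Dl x ≠ 0 → AnalyticAt ℂ (f ∘ (ch x).symm) (cp x) := by
    intro x hx
    have h0 : AnalyticAt ℂ ((fun y => b y * Dl y) ∘ (ch x).symm) (cp x) := (hb x hx).mul (hDh x)
    obtain ⟨g, hg, hgf⟩ := anal_iff.1 h0
    refine anal_iff.2 ⟨g, hg, ?_⟩
    filter_upwards [hgf, hUo.mem_nhds hx] with y hy hy2
    rw [← hy]
    exact if_pos hy2
  have hfL : ∀ x, ∃ W ∈ 𝓝 x, ∫⁻ y in W, ‖f y‖ₑ ^ 2 ∂(Measure.pi fun _ : Fin (k + 1) => μ) < ⊤ := by
    intro x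
    refine ⟨{y | ‖Dl y‖ₑ < ‖Dl x‖ₑ + 1}, ?_, ?_⟩
    · have hc : Continuous fun y => ‖Dl y‖ₑ := continuous_enorm.comp hDc
      refine (isOpen_lt hc continuous_const).mem_nhds ?_
      exact ENNReal.lt_add_right enorm_ne_top one_ne_zero
    · have hC : (‖Dl x‖ₑ + 1) ^ (2 * α) ≠ ∞ :=
        ENNReal.rpow_ne_top_of_nonneg (by positivity) (ENNReal.add_ne_top.2 ⟨enorm_ne_top, by simp⟩)
      calc ∫⁻ y in {y | ‖Dl y‖ₑ < ‖Dl x‖ₑ + 1}, ‖f y‖ₑ ^ 2 ∂(Measure.pi fun _ : Fin (k + 1) => μ)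
          ≤ ∫⁻ y in {y | ‖Dl y‖ₑ < ‖Dl x‖ₑ + 1}, (‖Dl x‖ₑ + 1) ^ (2 * α) *
              (‖b y‖ₑ ^ 2 * ‖Dl y‖ₑ ^ (2 / (N : ℝ))) ∂(Measure.pi fun _ : Fin (k + 1) => μ) := by
            refine setLIntegral_mono' (isOpen_lt (continuous_enorm.comp hDc)
              continuous_const).measurableSet fun y hy => ?_
            by_cases hy0 : Dl y ≠ 0
            · have h1 : f y = b y * Dl y := if_pos hy0
              have h2 : ‖Dl y‖ₑ ^ 2 = ‖Dl y‖ₑ ^ (2 * α) * ‖Dl y‖ₑ ^ (2 / (N : ℝ)) := by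
                rw [← ENNReal.rpow_add _ _ (enorm_ne_zero.2 hy0) enorm_ne_top, h2α,
                  sub_add_cancel, ENNReal.rpow_two]
              rw [h1, enorm_mul, mul_pow, h2]
              calc ‖b y‖ₑ ^ 2 * (‖Dl y‖ₑ ^ (2 * α) * ‖Dl y‖ₑ ^ (2 / (N : ℝ)))
                  = ‖Dl y‖ₑ ^ (2 * α) * (‖b y‖ₑ ^ 2 * ‖Dl y‖ₑ ^ (2 / (N : ℝ))) := by ring
                _ ≤ _ := by
                  gcongr
                  exact le_of_lt hy
            · have h1 : f y = 0 := if_neg hy0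
              rw [h1]; simp
        _ ≤ ∫⁻ y, (‖Dl x‖ₑ + 1) ^ (2 * α) *
              (‖b y‖ₑ ^ 2 * ‖Dl y‖ₑ ^ (2 / (N : ℝ))) ∂(Measure.pi fun _ : Fin (k + 1) => μ) :=
            setLIntegral_le_lintegral _ _
        _ = (‖Dl x‖ₑ + 1) ^ (2 * α) * ∫⁻ y,
              (‖b y‖ₑ ^ 2 * ‖Dl y‖ₑ ^ (2 / (N : ℝ))) ∂(Measure.pi fun _ : Fin (k + 1) => μ) :=
            lintegral_const_mul' _ _ hC
        _ < ⊤ := ENNReal.mul_lt_top (lt_top_iff_ne_top.2 hC) (lt_top_iff_ne_top.2 hint)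
  obtain ⟨u, hu, huf⟩ := ext_sq hπ hDh hDfr hfm hfa hfL
  have huc : Continuous u := HolA.cont hu
  have hub : ∀ x, Dl x ≠ 0 → u x = b x * Dl x := fun x hx => (huf x hx).trans (if_pos hx)
  have hdense : Dense {x | Dl x ≠ 0} := fun x => mem_closure_iff_frequently.2 (hDfr x)
  have halt : ∀ (π : Equiv.Perm (Fin (k + 1))) (x : Fin (k + 1) → M),
      u (x ∘ π) = ((Equiv.Perm.sign π : ℤ) : ℂ) * u x := by
    intro π
    have hc1 : Continuous fun x : Fin (k + 1) → M => u (x ∘ π) :=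
      huc.comp (continuous_pi fun i => continuous_apply (π i))
    have hc2 : Continuous fun x : Fin (k + 1) → M => ((Equiv.Perm.sign π : ℤ) : ℂ) * u x :=
      continuous_const.mul huc
    have h1 := hc1.ext_on hdense hc2 fun x hx => by
      have h2 : Dl (x ∘ π) = ((Equiv.Perm.sign π : ℤ) : ℂ) * Dl x := alt_perm σ π x
      have h3 : ((Equiv.Perm.sign π : ℤ) : ℂ) ≠ 0 := by
        rcases Int.units_eq_one_or (Equiv.Perm.sign π) with h | h <;> simp [h]
      have h4 : Dl (x ∘ π) ≠ 0 := by rw [h2]; exact mul_ne_zero h3 hx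
      show u (x ∘ π) = ((Equiv.Perm.sign π : ℤ) : ℂ) * u x
      rw [hub _ h4, hub _ hx, hsym π x hx, h2]
      ring
    exact fun x => congrFun h1 x
  have hint2 : ∫⁻ x, ‖u x‖ₑ ^ 2 * ‖alt σ x‖ₑ ^ (-(2 * α))
      ∂(Measure.pi fun _ : Fin (k + 1) => μ) ≠ ∞ := by
    have h1 : ∫⁻ x, ‖u x‖ₑ ^ 2 * ‖alt σ x‖ₑ ^ (-(2 * α)) ∂(Measure.pi fun _ : Fin (k + 1) => μ)
        = ∫⁻ x, ‖b x‖ₑ ^ 2 * ‖alt σ x‖ₑ ^ (2 / (N : ℝ))
          ∂(Measure.pi fun _ : Fin (k + 1) => μ) := by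
      refine lintegral_congr_ae ?_
      filter_upwards [hDae] with x hx
      have hx' : ‖alt σ x‖ₑ ≠ 0 := enorm_ne_zero.2 hx
      rw [hub x hx, enorm_mul, mul_pow, mul_assoc]
      congr 1
      show ‖alt σ x‖ₑ ^ 2 * ‖alt σ x‖ₑ ^ (-(2 * α)) = _
      rw [← ENNReal.rpow_two, ← ENNReal.rpow_add _ _ hx' enorm_ne_top, h2α]
      congr 1
      ring
    rw [h1]
    exact hint
  obtain ⟨C, hC⟩ := alternating_line (μ := μ) hVc hNZ (HH := {f : M → ℂ | HolA f}) (a := 2 * α) hCl σ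
    hLI hV.symm huc (fun j y => holA_slice hu j y) hint2 halt
  refine ⟨C, fun x hx => ?_⟩
  have h1 := hub x hx
  rw [hC x] at h1
  exact (mul_right_cancel₀ hx h1).symm

end pw

end Crest.Agent.R276.Hone_425
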