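import Crest.Agent.R276.Cov1_425
import Crest.Agent.R276.Hone1_425

/-!
# Row 276 (S0419), `hone`, part 2 (helper425): the isotypic part of the top piece of the root cover

`F : FSp m r S Y`, `σ_i : Y → ℂ`, `δ = det σ_i(y_j)` on the `s`-fold fibre power, `Root δ N` the root
cover `η ^ N = δ ≠ 0`.  `hone`: a function on the fibre of the root cover over `u`, holomorphic, square
integrable and equivariant under `(y, η) ↦ (y ∘ π, ζ η)`, `ζ ^ N = sign π`, is a multiple of `η`.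
-/

set_option autoImplicit false
set_option linter.unusedSectionVars false

noncomputable section

open Set Filter Topology MeasureTheory
open Crest.Agent.R271 Crest.Agent.R271.Ho51 Crest.Agent.R276.AB2_590 Crest.Agent.R276.Restr_236
open Crest.Agent.R276.GeoN_348 Crest.Agent.R276.Iso_425 Crest.Agent.R276.Top8_815
open Crest.Agent.R276.Cov_425 Crest.Agent.R276.Rc_348
open scoped ENNReal

namespace Crest.Agent.R276.Hone_425

variable {m r : ℕ} {S Y : Type*} [TopologicalSpace S] [RDom m S] [TopologicalSpace Y]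

instance sct_fib [SecondCountableTopology Y] (F : FSp m r S Y) (u : S) :
    SecondCountableTopology (Fib F u) :=
  (Topology.IsInducing.mk rfl : Topology.IsInducing
    (Subtype.val : Fib F u → Y)).secondCountableTopology

section pts

variable (F : FSp m r S Y) {s : ℕ} {u : S}

/-- the point of the fibre power given by a tuple of points of the fibre -/
def pt (x : Fin s → Fib F u) : FPow F s := ⟨(u, fun i => (x i).1), fun i => (x i).2⟩

lemma continuous_pt : Continuous (pt F : (Fin s → Fib F u) → FPow F s) := by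
  refine Continuous.subtype_mk ?_ _
  exact continuous_const.prodMk (continuous_pi fun i =>
    continuous_subtype_val.comp (continuous_apply i))

end pts

variable {F : FSp m r S Y} {s : ℕ} {σ : Fin s → Y → ℂ} {δ : FPow F s → ℂ} {N : ℕ}

/-- the sections on the fibre -/
def sgf (F : FSp m r S Y) (σ : Fin s → Y → ℂ) (u : S) (i : Fin s) (y : Fib F u) : ℂ := σ i y.1

lemma dl_pt (hδσ : ∀ p : FPow F s, δ p = (Matrix.of fun i j => σ i (p.1.2 j)).det) {u : S}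
    (x : Fin s → Fib F u) : δ (pt F x) = alt (sgf F σ u) x := by
  rw [hδσ]
  rfl

section bfun

variable (hδσ : ∀ p : FPow F s, δ p = (Matrix.of fun i j => σ i (p.1.2 j)).det) (u : S)

/-- point of the root cover -/
def mkR {u : S} (x : Fin s → Fib F u) (η : ℂ) (h : η ^ N = alt (sgf F σ u) x)
    (h0 : alt (sgf F σ u) x ≠ 0) : Root δ N :=
  ⟨(pt F x, η), by rw [dl_pt hδσ]; exact h, by rw [dl_pt hδσ]; exact h0⟩

/-- a root -/
def rt0 (N : ℕ) (a : ℂ) : ℂ := a ^ ((N : ℂ)⁻¹)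

lemma rt0_pow (hN : N ≠ 0) (a : ℂ) : rt0 N a ^ N = a := Complex.cpow_nat_inv_pow a hN

open Classical in
/-- the quotient `f / η` -/
def bq (hN : N ≠ 0) (f : Root δ N → ℂ) (x : Fin s → Fib F u) : ℂ :=
  if h : alt (sgf F σ u) x ≠ 0 then
    f (mkR hδσ x (rt0 N (alt (sgf F σ u) x)) (rt0_pow hN _) h) / rt0 N (alt (sgf F σ u) x) else 0

end bfun

variable (hδσ : ∀ p : FPow F s, δ p = (Matrix.of fun i j => σ i (p.1.2 j)).det) {u : S}
  (hN : N ≠ 0) {f : Root δ N → ℂ}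

/-- equivariance under `(y, η) ↦ (y ∘ π, ζ η)`, `ζ ^ N = sign π` -/
def Eqv (u : S) (f : Root δ N → ℂ) : Prop :=
  ∀ (π : Equiv.Perm (Fin s)) (ζ : ℂ), ζ ^ N = ((Equiv.Perm.sign π : ℤ) : ℂ) → ∀ y y' : Root δ N,
    y.1.1.1.1 = u → y'.1.1.1.1 = u → y'.1.1.1.2 = y.1.1.1.2 ∘ π → y'.1.2 = ζ * y.1.2 →
    f y' = ζ * f y

lemma root_ne {a η : ℂ} (hN : N ≠ 0) (h : η ^ N = a) (h0 : a ≠ 0) : η ≠ 0 := by
  rintro rfl
  rw [zero_pow hN] at h
  exact h0 h.symm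

lemma bq_eq (hf : Eqv u f) {x : Fin s → Fib F u} (h0 : alt (sgf F σ u) x ≠ 0) {η : ℂ}
    (h : η ^ N = alt (sgf F σ u) x) : bq hδσ u hN f x = f (mkR hδσ x η h h0) / η := by
  unfold bq
  rw [dif_pos h0]
  set η₀ := rt0 N (alt (sgf F σ u) x) with hη₀
  have h1 : η₀ ^ N = alt (sgf F σ u) x := rt0_pow hN _
  have hn0 : η₀ ≠ 0 := root_ne hN h1 h0
  have hn : η ≠ 0 := root_ne hN h h0
  have h2 := hf 1 (η / η₀) (by rw [div_pow, h, h1, div_self h0]; simp)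
    (mkR hδσ x η₀ h1 h0) (mkR hδσ x η h h0) rfl rfl rfl (by
      show η = η / η₀ * η₀
      rw [div_mul_cancel₀ _ hn0])
  show f (mkR hδσ x η₀ h1 h0) / η₀ = _
  rw [h2]
  field_simp

lemma bq_symm (hf : Eqv u f) {x : Fin s → Fib F u} (h0 : alt (sgf F σ u) x ≠ 0)
    (π : Equiv.Perm (Fin s)) : bq hδσ u hN f (x ∘ π) = bq hδσ u hN f x := by
  set η := rt0 N (alt (sgf F σ u) x) with hη
  have h1 : η ^ N = alt (sgf F σ u) x := rt0_pow hN _
  have hn : η ≠ 0 := root_ne hN h1 h0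
  set ζ := rt0 N ((Equiv.Perm.sign π : ℤ) : ℂ) with hζ
  have h2 : ζ ^ N = ((Equiv.Perm.sign π : ℤ) : ℂ) := rt0_pow hN _
  have hs : ((Equiv.Perm.sign π : ℤ) : ℂ) ≠ 0 := by
    rcases Int.units_eq_one_or (Equiv.Perm.sign π) with h | h <;> simp [h]
  have hζ0 : ζ ≠ 0 := root_ne hN h2 hs
  have h3 : alt (sgf F σ u) (x ∘ π) = ((Equiv.Perm.sign π : ℤ) : ℂ) * alt (sgf F σ u) x :=
    alt_perm _ π x
  have h4 : alt (sgf F σ u) (x ∘ π) ≠ 0 := by rw [h3]; exact mul_ne_zero hs h0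
  have h5 : (ζ * η) ^ N = alt (sgf F σ u) (x ∘ π) := by rw [mul_pow, h1, h2, h3]
  rw [bq_eq hδσ hN hf h4 h5, bq_eq hδσ hN hf h0 h1]
  have h6 := hf π ζ h2 (mkR hδσ x η h1 h0) (mkR hδσ (x ∘ π) (ζ * η) h5 h4) rfl rfl rfl rfl
  rw [h6]
  field_simp

lemma bq_anal (hδ : Continuous δ) (hσ : ∀ i, HolA (sgf F σ u i)) (hf : Eqv u f)
    (hFH : (root (pow F s) hδ hN).FH u f) {x₀ : Fin s → Fib F u}
    (h0 : alt (sgf F σ u) x₀ ≠ 0) :
    AnalyticAt ℂ (bq hδσ u hN f ∘ (@ch (s * r) (Fin s → Fib F u) _ (rdPi r (Fib F u) s) x₀).symm)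
      (@RDom.p (s * r) (Fin s → Fib F u) _ (rdPi r (Fib F u) s) x₀) := by
  classical
  let _ := rdPi r (Fib F u) s
  have hD : HolA (alt (sgf F σ u)) := holA_alt hσ
  have hDc : Continuous (alt (sgf F σ u)) := HolA.cont hD
  obtain ⟨Dg, hDg, hDgf⟩ := anal_iff.1 (hD x₀)
  set η₀ := rt0 N (alt (sgf F σ u) x₀) with hη₀
  have h1 : η₀ ^ N = alt (sgf F σ u) x₀ := rt0_pow hN _
  have hn : η₀ ≠ 0 := root_ne hN h1 h0
  set δ₀ := alt (sgf F σ u) x₀ with hδ₀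
  set y₀ : Root δ N := mkR hδσ x₀ η₀ h1 h0 with hy₀
  obtain ⟨g, hg, hgf⟩ := hFH y₀ rfl
  have hslit : δ₀ / δ₀ ∈ Complex.slitPlane := by
    rw [div_self h0]; exact Complex.one_mem_slitPlane
  -- the section
  set sec : (Fin s → Fib F u) → Root δ N := fun x =>
    if h : alt (sgf F σ u) x ≠ 0 then
      mkR hδσ x (lroot N η₀ δ₀ (alt (sgf F σ u) x)) (lroot_pow hN h1 h0 h) h else y₀ with hsec
  have hne : ∀ᶠ x in 𝓝 x₀, alt (sgf F σ u) x ≠ 0 := hDc.continuousAt.eventually_ne h0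
  have hsecv : ∀ᶠ x in 𝓝 x₀, (sec x).1 = (pt F x, lroot N η₀ δ₀ (alt (sgf F σ u) x)) := by
    filter_upwards [hne] with x hx
    rw [hsec]
    simp only
    rw [dif_pos hx]
    rfl
  have htend : Tendsto sec (𝓝 x₀) (𝓝 y₀) := by
    rw [tendsto_subtype_rng]
    have h2 : Tendsto (fun x => (pt F x, lroot N η₀ δ₀ (alt (sgf F σ u) x))) (𝓝 x₀)
        (𝓝 (pt F x₀, η₀)) := by
      refine Tendsto.prodMk_nhds (continuous_pt F).continuousAt ?_
      have h3 : ContinuousAt (lroot N η₀ δ₀) (alt (sgf F σ u) x₀) :=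
        (lroot_analyticAt h0 hslit).continuousAt
      have h4 : ContinuousAt (fun x => lroot N η₀ δ₀ (alt (sgf F σ u) x)) x₀ :=
        ContinuousAt.comp (g := lroot N η₀ δ₀) h3 hDc.continuousAt
      have h5 : lroot N η₀ δ₀ (alt (sgf F σ u) x₀) = η₀ := lroot_self h0
      rw [ContinuousAt, h5] at h4
      exact h4
    exact h2.congr' (hsecv.mono fun x hx => hx.symm)
  have hDg0 : Dg (cp x₀) = δ₀ := (hDgf.self_of_nhds).symm
  rw [anal_iff]
  refine ⟨fun τ => g τ / lroot N η₀ δ₀ (Dg τ), ?_, ?_⟩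
  · refine AnalyticAt.div hg ?_ ?_
    · refine AnalyticAt.comp (g := lroot N η₀ δ₀) (f := Dg) ?_ hDg
      rw [hDg0]
      exact lroot_analyticAt h0 hslit
    · rw [hDg0, lroot_self h0]
      exact hn
  · filter_upwards [hne, htend.eventually hgf, hDgf] with x hx hx2 hx3
    have h6 : sec x = mkR hδσ x (lroot N η₀ δ₀ (alt (sgf F σ u) x)) (lroot_pow hN h1 h0 hx) hx :=
      dif_pos hx
    rw [bq_eq hδσ hN hf hx (lroot_pow hN h1 h0 hx), ← h6, ← hx3, hx2 (by rw [h6]; rfl), h6]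
    rfl

/-- the measure of the fibre -/
lemma lint_le [T2Space Y] [SecondCountableTopology Y] [MeasurableSpace (Fib F u)]
    [BorelSpace (Fib F u)] (hδ : Continuous δ) {μ : Measure (Fib F u)}
    (hμ : IsLeb μ) (hσ : ∀ i, HolA (sgf F σ u i)) (hf : Eqv u f)
    (hFH : (root (pow F s) hδ hN).FH u f) :
    ∫⁻ x, ‖bq hδσ u hN f x‖ₑ ^ 2 * ‖alt (sgf F σ u) x‖ₑ ^ (2 / (N : ℝ))
      ∂(Measure.pi fun _ : Fin s => μ) ≤ (root (pow F s) hδ hN).fnorm u f := by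
  classical
  let _ := rdPi r (Fib F u) s
  have hD : HolA (alt (sgf F σ u)) := holA_alt hσ
  have hDc : Continuous (alt (sgf F σ u)) := HolA.cont hD
  have hUo : IsOpen {x | alt (sgf F σ u) x ≠ 0} := isOpen_ne_fun hDc continuous_const
  have hbm : Measurable (bq hδσ u hN f) := by
    have h1 : ContinuousOn (bq hδσ u hN f) {x | alt (sgf F σ u) x ≠ 0} := fun x hx =>
      (anal_continuousAt (bq_anal hδσ hN hδ hσ hf hFH hx)).continuousWithinAt
    have h2 : bq hδσ u hN f = {x | alt (sgf F σ u) x ≠ 0}.piecewise (bq hδσ u hN f) 0 := by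
      funext x
      by_cases hx : x ∈ {x | alt (sgf F σ u) x ≠ 0}
      · rw [Set.piecewise_eq_of_mem _ _ _ hx]
      · rw [Set.piecewise_eq_of_notMem _ _ _ hx]
        exact dif_neg hx
    rw [h2]
    exact h1.measurable_piecewise (continuous_const (y := (0 : ℂ))).continuousOn hUo.measurableSet
  have hm : Measurable fun x : Fin s → Fib F u =>
      ‖bq hδσ u hN f x‖ₑ ^ 2 * ‖alt (sgf F σ u) x‖ₑ ^ (2 / (N : ℝ)) :=
    (hbm.enorm.pow_const 2).mul (hDc.measurable.enorm.pow_const _)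
  rw [lintegral_pi_fibre hμ hm]
  unfold FSp.fnorm FSp.fint
  refine lintegral_mono fun τ => ?_
  set A := {y : Fin s → Fib F u // ∀ j, (cp (y j) : Fin r → ℂ) = GeoY_519.blk τ j}
  have h1 : ∑' y : A, ‖bq hδσ u hN f y.1‖ₑ ^ 2 * ‖alt (sgf F σ u) y.1‖ₑ ^ (2 / (N : ℝ))
      = ∑' y : {y : A // alt (sgf F σ u) y.1 ≠ 0}, ‖bq hδσ u hN f y.1.1‖ₑ ^ 2 *
        ‖alt (sgf F σ u) y.1.1‖ₑ ^ (2 / (N : ℝ)) := by
    symm
    refine tsum_subtype_eq_of_support_subset (s := {y : A | alt (sgf F σ u) y.1 ≠ 0})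
      (f := fun y : A => ‖bq hδσ u hN f y.1‖ₑ ^ 2 * ‖alt (sgf F σ u) y.1‖ₑ ^ (2 / (N : ℝ))) ?_
    intro y hy
    by_contra h
    apply hy
    have : bq hδσ u hN f y.1 = 0 := dif_neg h
    simp [this]
  refine (le_of_eq h1).trans ?_
  set B := {y : Root δ N // (root (pow F s) hδ hN).q y = u ∧ (root (pow F s) hδ hN).t y = τ}
  let e : {y : A // alt (sgf F σ u) y.1 ≠ 0} → B := fun y =>
    ⟨mkR hδσ y.1.1 (rt0 N (alt (sgf F σ u) y.1.1)) (rt0_pow hN _) y.2, rfl, by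
      show unblk (fun i => F.t (y.1.1 i).1) = τ
      apply GeoY_519.blk_ext
      intro j
      rw [← y.1.2 j]
      exact blk_unblk (fun i => F.t (y.1.1 i).1) j⟩
  have hinj : Function.Injective e := by
    intro y y' h
    have h2 : (e y).1.1.1.1.2 = (e y').1.1.1.1.2 := by rw [h]
    apply Subtype.ext
    apply Subtype.ext
    funext i
    apply Subtype.ext
    exact congrFun h2 i
  refine le_trans (le_of_eq ?_) (ENNReal.tsum_comp_le_tsum_of_injective hinj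
    (fun y : B => ‖f y.1‖ₑ ^ 2))
  refine tsum_congr fun y => ?_
  show _ = ‖f (mkR hδσ y.1.1 (rt0 N (alt (sgf F σ u) y.1.1)) (rt0_pow hN _) y.2)‖ₑ ^ 2
  have h3 := rt0_pow hN (alt (sgf F σ u) y.1.1)
  rw [bq_eq hδσ hN hf y.2 h3]
  set η := rt0 N (alt (sgf F σ u) y.1.1) with hη
  have hn : η ≠ 0 := root_ne hN h3 y.2
  have h4 : ‖alt (sgf F σ u) y.1.1‖ₑ ^ (2 / (N : ℝ)) = ‖η‖ₑ ^ 2 := by
    rw [← h3, enorm_pow, ← ENNReal.rpow_natCast, ← ENNReal.rpow_mul, mul_div_cancel₀,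
      ENNReal.rpow_two]
    exact_mod_cast hN
  rw [h4, ← mul_pow, ← enorm_mul, div_mul_cancel₀ _ hn]

include hδσ in
/-- **(ONE)** -/
theorem hone [T2Space Y] [SecondCountableTopology Y] [MeasurableSpace (Fib F u)]
    [BorelSpace (Fib F u)] [PreconnectedSpace (Fib F u)] (hδ : Continuous δ) (hN2 : 2 ≤ N)
    (hs : s ≠ 0) {μ : Measure (Fib F u)} (hμ : IsLeb μ) (hσ : ∀ i, HolA (sgf F σ u i))
    (hli : ∀ a : Fin s → ℂ, (∀ y : Fib F u, ∑ i, a i * σ i y.1 = 0) → a = 0)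
    (hcl : ∀ g : Fib F u → ℂ, HolA g →
      ∫⁻ y, ‖g y‖ₑ ^ 2 * (∑ i, ‖σ i y.1‖ₑ ^ 2) ^ (-((N - 1 : ℝ) / N)) ∂μ ≠ ∞ →
      ∃ a : Fin s → ℂ, ∀ y, g y = ∑ i, a i * σ i y.1)
    (hf : Eqv u f) (hFH : (root (pow F s) hδ hN).FH u f)
    (hfin : (root (pow F s) hδ hN).fnorm u f < ∞) :
    ∃ c : ℂ, ∀ y : Root δ N, y.1.1.1.1 = u → f y = c * y.1.2 := by
  obtain ⟨k, rfl⟩ := Nat.exists_eq_succ_of_ne_zero hs
  obtain ⟨C, hC⟩ := line_abs hμ hN2 (σ := sgf F σ u) hσ hli hcl (b := bq hδσ u hN f)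
    (fun x hx => bq_anal hδσ hN hδ hσ hf hFH hx) (fun π x hx => bq_symm hδσ hN hf hx π)
    (ne_of_lt ((lint_le hδσ hN hδ hμ hσ hf hFH).trans_lt hfin))
  refine ⟨C, fun y hy => ?_⟩
  set x : Fin (k + 1) → Fib F u := fun i => ⟨y.1.1.1.2 i, (y.1.1.2 i).trans hy⟩ with hx
  have hpt : pt F x = y.1.1 := Subtype.ext (Prod.ext hy.symm rfl)
  have h1 : δ y.1.1 = alt (sgf F σ u) x := by rw [← dl_pt hδσ, hpt]
  have h2 : y.1.2 ^ N = alt (sgf F σ u) x := y.2.1.trans h1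
  have h3 : alt (sgf F σ u) x ≠ 0 := by rw [← h1]; exact y.2.2
  have h4 : mkR hδσ x y.1.2 h2 h3 = y := Subtype.ext (Prod.ext hpt rfl)
  have h5 := bq_eq hδσ hN hf h3 h2
  rw [hC x h3, h4] at h5
  have h6 : y.1.2 ≠ 0 := root_ne hN h2 h3
  rw [h5, div_mul_cancel₀ _ h6]

end Crest.Agent.R276.Hone_425
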