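import Crest.Agent.R276.VCalcC_442
import Crest.Agent.R266.SCV

/-!
# Row 276, IPC step (8): holomorphic frames of the top piece, local form (helper815)

`A : X → Mat_N(ℂ)` smooth on an open set `U`, `[A, ∂_v A] = -∂_v A`, `S A = Aᴴ S`, `S` invertible,
`∏_{p ≤ w} (A - p) = 0`.  Then near every `x₀ ∈ U` there is a holomorphic matrix function `M` with
`A M = w M`, `Π₀ M = Π₀` (`Π₀` = projector on `ker (A x₀ - w)`), and every `v` with `A x v = w v` is
`M x (Π₀ v)`.
-/

set_option autoImplicit false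
set_option linter.unusedSectionVars false

open Set Filter Topology Matrix Finset Polynomial
open scoped ContDiff ComplexConjugate

namespace Crest.Agent.R276.Top8_815

open Crest.Agent.R276.VCalc_442

/-! ### algebra of the projector -/

section alg

variable {R : Type*} [Ring R] [Algebra ℂ R]

/-- the polynomial `∏_{p ≤ w} (X - p)` -/
noncomputable def eigP (w : ℕ) : ℂ[X] := ∏ p ∈ Finset.range (w + 1), (X - C (p : ℂ))

/-- the Lagrange polynomial which is `1` at `w` and `0` at `0, …, w - 1` -/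
noncomputable def topP (w : ℕ) : ℂ[X] :=
  Lagrange.basis (Finset.range (w + 1)) (fun q : ℕ => (q : ℂ)) w

theorem injOn_cast (w : ℕ) :
    Set.InjOn (fun q : ℕ => (q : ℂ)) (Finset.range (w + 1) : Set ℕ) := fun _ _ _ _ h =>
  Nat.cast_injective h

theorem eval_topP (w : ℕ) : (topP w).eval (w : ℂ) = 1 := by
  have := Lagrange.eval_basis_self (s := Finset.range (w + 1)) (v := fun q : ℕ => (q : ℂ))
    (i := w) (injOn_cast w) (by simp)
  exact this

/-- `(X - w) * topP w` is a multiple of `eigP w` -/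
theorem mul_topP (w : ℕ) : ∃ c : ℂ, (X - C (w : ℂ)) * topP w = C c * eigP w := by
  classical
  refine ⟨∏ q ∈ (Finset.range (w + 1)).erase w, ((w : ℂ) - q)⁻¹, ?_⟩
  rw [topP, Lagrange.basis, eigP, ← Finset.mul_prod_erase (Finset.range (w + 1))
    (fun p : ℕ => (X - C (p : ℂ) : ℂ[X])) (show w ∈ Finset.range (w + 1) by simp)]
  simp only [Lagrange.basisDivisor]
  rw [Finset.prod_mul_distrib, ← map_prod]
  ring

/-- the Lagrange polynomial which is `1` at `p` and `0` at the other `q ≤ w` -/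
noncomputable def lagP (w p : ℕ) : ℂ[X] :=
  Lagrange.basis (Finset.range (w + 1)) (fun q : ℕ => (q : ℂ)) p

theorem mul_lagP {w p : ℕ} (hp : p ≤ w) : ∃ c : ℂ, (X - C (p : ℂ)) * lagP w p = C c * eigP w := by
  classical
  refine ⟨∏ q ∈ (Finset.range (w + 1)).erase p, ((p : ℂ) - q)⁻¹, ?_⟩
  rw [lagP, Lagrange.basis, eigP, ← Finset.mul_prod_erase (Finset.range (w + 1))
    (fun p : ℕ => (X - C (p : ℂ) : ℂ[X])) (show p ∈ Finset.range (w + 1) by simp; omega)]
  simp only [Lagrange.basisDivisor]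
  rw [Finset.prod_mul_distrib, ← map_prod]
  ring

theorem sum_lagP (w : ℕ) : ∑ p ∈ Finset.range (w + 1), lagP w p = 1 :=
  Lagrange.sum_basis (injOn_cast w) (by simp)

theorem A_mul_lag {w p : ℕ} (hp : p ≤ w) {A : R} (h : aeval A (eigP w) = 0) :
    A * aeval A (lagP w p) = (p : ℂ) • aeval A (lagP w p) := by
  obtain ⟨c, hc⟩ := mul_lagP hp
  have h1 : aeval A ((X - C (p : ℂ)) * lagP w p) = 0 := by
    rw [hc, map_mul, h, mul_zero]
  rw [map_mul, map_sub, aeval_X, aeval_C, sub_mul, sub_eq_zero] at h1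
  rw [h1, Algebra.smul_def]

theorem sum_lag_aeval (w : ℕ) (A : R) :
    ∑ p ∈ Finset.range (w + 1), aeval A (lagP w p) = 1 := by
  rw [← map_sum, sum_lagP, map_one]

theorem A_mul_top {w : ℕ} {A : R} (h : aeval A (eigP w) = 0) :
    A * aeval A (topP w) = (w : ℂ) • aeval A (topP w) := by
  obtain ⟨c, hc⟩ := mul_topP w
  have h1 : aeval A ((X - C (w : ℂ)) * topP w) = 0 := by
    rw [hc, map_mul, h, mul_zero]
  rw [map_mul, map_sub, aeval_X, aeval_C, sub_mul, sub_eq_zero] at h1
  rw [h1, Algebra.smul_def]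

theorem top_mul_A {w : ℕ} {A : R} (h : aeval A (eigP w) = 0) :
    aeval A (topP w) * A = (w : ℂ) • aeval A (topP w) := by
  rw [← A_mul_top h]
  have h1 : Commute (aeval A (topP w)) (aeval A (X : ℂ[X])) := by
    rw [Commute, SemiconjBy, ← map_mul, ← map_mul, mul_comm]
  rw [aeval_X] at h1
  exact h1

/-- polynomials act by their value on the left ideal of eigenelements -/
theorem aeval_mul_of_eig {A B : R} {l : ℂ} (h : A * B = l • B) (p : ℂ[X]) :
    aeval A p * B = (p.eval l) • B := by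
  induction p using Polynomial.induction_on' with
  | add p q hp hq => rw [map_add, add_mul, hp, hq, eval_add, add_smul]
  | monomial k c =>
      have h1 : A ^ k * B = (l ^ k) • B := by
        induction k with
        | zero => simp
        | succ k ih => rw [pow_succ, mul_assoc, h, mul_smul_comm, ih, smul_smul, pow_succ, mul_comm l]
      rw [aeval_monomial, eval_monomial, mul_assoc, h1, ← Algebra.smul_def, smul_smul]

theorem top_mul_of_eig {w : ℕ} {A B : R} (h : A * B = (w : ℂ) • B) :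
    aeval A (topP w) * B = B := by
  rw [aeval_mul_of_eig h, eval_topP, one_smul]

theorem top_idem {w : ℕ} {A : R} (h : aeval A (eigP w) = 0) :
    aeval A (topP w) * aeval A (topP w) = aeval A (topP w) :=
  top_mul_of_eig (A_mul_top h)

/-- there is no eigenvalue `w + 1` -/
theorem eq_zero_of_eig_succ {w : ℕ} {A B : R} (h : aeval A (eigP w) = 0)
    (hB : A * B = ((w : ℂ) + 1) • B) : B = 0 := by
  have h1 := aeval_mul_of_eig hB (eigP w)
  rw [h, zero_mul] at h1
  have h2 : (eigP w).eval ((w : ℂ) + 1) ≠ 0 := by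
    rw [eigP, eval_prod, Finset.prod_ne_zero_iff]
    intro p hp
    rw [eval_sub, eval_X, eval_C]
    have hp' : p ≤ w := by simpa [Nat.lt_succ_iff] using hp
    have : ((w : ℂ) + 1 - p) = ((w + 1 - p : ℕ) : ℂ) := by
      push_cast [Nat.cast_sub (show p ≤ w + 1 by omega)]
      ring
    rw [this]
    exact_mod_cast (show w + 1 - p ≠ 0 by omega)
  exact (smul_eq_zero.1 h1.symm).resolve_left h2

end alg

section loc

attribute [local instance] Matrix.linftyOpNormedRing Matrix.linftyOpNormedAlgebra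

variable {X : Type*} [NormedAddCommGroup X] [NormedSpace ℂ X] {N : ℕ}

local notation "Mat" => Matrix (Fin N) (Fin N) ℂ

/-- `(∂_v A)ᴴ S = S ∂̄_v A` -/
theorem adj_dW' {U : Set X} (hU : IsOpen U) {A : X → Mat} (hA : ContDiffOn ℝ ∞ A U) {S : Mat}
    (had : ∀ y ∈ U, S * A y = (A y)ᴴ * S) {x : X} (hx : x ∈ U) (v : X) :
    (dW A v x)ᴴ * S = S * dB A v x := by
  have d1 : DifferentiableAt ℝ A x := diffAt hU hA hx
  have h1 : (fun y => (A y)ᴴ * S) =ᶠ[𝓝 x] fun y => S * A y :=
    Filter.eventually_of_mem (hU.mem_nhds hx) fun y hy => (had y hy).symm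
  have h2 := dB_congr h1 v
  rw [dB_mul (diff_ct d1) (differentiableAt_const S), dB_mul (differentiableAt_const S) d1,
    dB_const, mul_zero, add_zero, zero_mul, zero_add, dB_ct d1] at h2
  exact h2

theorem hB_of {U : Set X} (hU : IsOpen U) {A : X → Mat} (hA : ContDiffOn ℝ ∞ A U) {S : Mat}
    (hS : IsUnit S) (had : ∀ y ∈ U, S * A y = (A y)ᴴ * S)
    (hW : ∀ x ∈ U, ∀ v, A x * dW A v x - dW A v x * A x = - dW A v x) {x : X} (hx : x ∈ U) (v : X) :
    A x * dB A v x - dB A v x * A x = dB A v x := by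
  have h1 := adj_dW' hU hA had hx v
  have h2 := congrArg (fun a : Mat => aᴴ * S) (hW x hx v)
  simp only [Matrix.conjTranspose_sub, Matrix.conjTranspose_mul, Matrix.conjTranspose_neg,
    sub_mul, neg_mul] at h2
  have e1 : (dW A v x)ᴴ * (A x)ᴴ * S = S * (dB A v x * A x) := by
    rw [Matrix.mul_assoc, ← had x hx, ← Matrix.mul_assoc, h1, Matrix.mul_assoc]
  have e2 : (A x)ᴴ * (dW A v x)ᴴ * S = S * (A x * dB A v x) := by
    rw [Matrix.mul_assoc, h1, ← Matrix.mul_assoc, ← had x hx, Matrix.mul_assoc]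
  rw [e1, e2, h1, ← Matrix.mul_sub, ← Matrix.mul_neg] at h2
  have h3 := hS.mul_left_cancel h2
  rw [← neg_inj, neg_sub]
  exact h3

/-- polynomials in a smooth matrix function are smooth -/
theorem contDiffOn_aeval {U : Set X} {A : X → Mat} (hA : ContDiffOn ℝ ∞ A U) (p : ℂ[X]) :
    ContDiffOn ℝ ∞ (fun x => aeval (A x) p) U := by
  simp only [aeval_eq_sum_range]
  exact ContDiffOn.sum fun i _ => (hA.pow i).const_smul (p.coeff i)

/-- **Holomorphic frames of the top piece** (matrix form). -/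
theorem exists_topM [FiniteDimensional ℂ X] {U : Set X} (hU : IsOpen U) {A : X → Mat}
    (hA : ContDiffOn ℝ ∞ A U) {S : Mat} (hS : IsUnit S) (had : ∀ y ∈ U, S * A y = (A y)ᴴ * S)
    (hW : ∀ x ∈ U, ∀ v, A x * dW A v x - dW A v x * A x = - dW A v x) {w : ℕ}
    (heig : ∀ x ∈ U, aeval (A x) (eigP w) = 0) {x₀ : X} (hx₀ : x₀ ∈ U) :
    ∃ (M : X → Mat) (U' : Set X), IsOpen U' ∧ x₀ ∈ U' ∧ U' ⊆ U ∧ AnalyticOnNhd ℂ M U' ∧
      (∀ x ∈ U', A x * M x = (w : ℂ) • M x) ∧
      (∀ x ∈ U', aeval (A x₀) (topP w) * M x = aeval (A x₀) (topP w)) ∧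
      (∀ x ∈ U', ∀ B : Mat, A x * B = (w : ℂ) • B → B = M x * (aeval (A x₀) (topP w) * B)) ∧
      (∀ x ∈ U', M x * aeval (A x₀) (topP w) = M x) := by
  classical
  set P : X → Mat := fun x => aeval (A x) (topP w) with hP
  set P0 : Mat := aeval (A x₀) (topP w) with hP0
  have hPsm : ContDiffOn ℝ ∞ P U := contDiffOn_aeval hA _
  have hP0P0 : P0 * P0 = P0 := top_idem (heig x₀ hx₀)
  -- the two invertible matrix functions
  set G : X → Mat := fun x => P0 * P x * P0 + (1 - P0) with hG
  set G' : X → Mat := fun x => P x * P0 * P x + (1 - P x) with hG'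
  have hGsm : ContDiffOn ℝ ∞ G U :=
    ((contDiffOn_const.mul hPsm).mul contDiffOn_const).add contDiffOn_const
  have hG'sm : ContDiffOn ℝ ∞ G' U :=
    ((hPsm.mul contDiffOn_const).mul hPsm).add (contDiffOn_const.sub hPsm)
  have hG0 : G x₀ = 1 := by
    simp only [hG]
    change P0 * P0 * P0 + (1 - P0) = 1
    rw [hP0P0, hP0P0, add_sub_cancel]
  have hG'0 : G' x₀ = 1 := by
    simp only [hG']
    change P0 * P0 * P0 + (1 - P0) = 1
    rw [hP0P0, hP0P0, add_sub_cancel]
  have hunit : ∀ᶠ a : Mat in 𝓝 1, IsUnit a := Units.isOpen.mem_nhds (by exact isUnit_one)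
  have hc1 : ContinuousAt G x₀ := hGsm.continuousOn.continuousAt (hU.mem_nhds hx₀)
  have hc2 : ContinuousAt G' x₀ := hG'sm.continuousOn.continuousAt (hU.mem_nhds hx₀)
  have hev : ∀ᶠ x in 𝓝 x₀, x ∈ U ∧ IsUnit (G x) ∧ IsUnit (G' x) := by
    refine Filter.Eventually.and (hU.mem_nhds hx₀) (Filter.Eventually.and ?_ ?_)
    · have := hc1.tendsto
      rw [hG0] at this
      exact this.eventually hunit
    · have := hc2.tendsto
      rw [hG'0] at this
      exact this.eventually hunit
  obtain ⟨U', hU'sub, hU'op, hU'mem⟩ := mem_nhds_iff.1 hev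
  set M : X → Mat := fun x => P x * P0 * Ring.inverse (G x) * P0 with hM
  -- `G` commutes with `P0`
  have hGc : ∀ x, G x * P0 = P0 * G x := by
    intro x
    simp only [hG, add_mul, mul_add, sub_mul, mul_sub, one_mul, mul_one]
    rw [mul_assoc (P0 * P x) P0 P0, hP0P0, sub_self, add_zero, add_zero,
      ← mul_assoc, ← mul_assoc, hP0P0]
  have hGic : ∀ x, IsUnit (G x) → Ring.inverse (G x) * P0 = P0 * Ring.inverse (G x) := by
    intro x hx
    have h1 : Ring.inverse (G x) * (G x * P0) * Ring.inverse (G x) =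
        Ring.inverse (G x) * (P0 * G x) * Ring.inverse (G x) := by rw [hGc]
    have e1 : Ring.inverse (G x) * (G x * P0) * Ring.inverse (G x) =
        P0 * Ring.inverse (G x) := by
      rw [← mul_assoc, Ring.inverse_mul_cancel _ hx, one_mul]
    have e2 : Ring.inverse (G x) * (P0 * G x) * Ring.inverse (G x) =
        Ring.inverse (G x) * P0 := by
      rw [← mul_assoc, mul_assoc (Ring.inverse (G x) * P0), Ring.mul_inverse_cancel _ hx, mul_one]
    rw [e1, e2] at h1
    exact h1.symm
  have hMsm : ∀ x ∈ U', DifferentiableAt ℝ M x := by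
    intro x hx
    have hxU := (hU'sub hx).1
    have d1 : DifferentiableAt ℝ P x := diffAt hU hPsm hxU
    have d2 : DifferentiableAt ℝ G x := diffAt hU hGsm hxU
    obtain ⟨u, hu⟩ := (hU'sub hx).2.1
    have d3 : DifferentiableAt ℝ (fun x => Ring.inverse (G x)) x := by
      have h1 : DifferentiableAt ℝ (Ring.inverse : Mat → Mat) (G x) := by
        rw [← hu]
        exact differentiableAt_inverse (𝕜 := ℝ) u.isUnit
      exact h1.comp x d2
    exact ((d1.mul (differentiableAt_const P0)).mul d3).mul (differentiableAt_const P0)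
  have hAM : ∀ x ∈ U', A x * M x = (w : ℂ) • M x := by
    intro x hx
    simp only [hM]
    rw [mul_assoc (P x), mul_assoc (P x), ← mul_assoc (A x)]
    simp only [hP]
    rw [A_mul_top (heig x (hU'sub hx).1), smul_mul_assoc]
  have hPM : ∀ x ∈ U', P0 * M x = P0 := by
    intro x hx
    have hu := (hU'sub hx).2.1
    have e1 : P0 * M x = (P0 * P x * P0) * (Ring.inverse (G x) * P0) := by
      simp only [hM]; noncomm_ring
    have e2 : P0 * P x * P0 = G x - (1 - P0) := by simp only [hG]; noncomm_ring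
    rw [e1, e2, sub_mul, ← mul_assoc, Ring.mul_inverse_cancel _ hu, one_mul, hGic x hu,
      ← mul_assoc, sub_mul, one_mul, hP0P0, sub_self, zero_mul, sub_zero]
  have hinj : ∀ x ∈ U', ∀ B : Mat, A x * B = (w : ℂ) • B → P0 * B = 0 → B = 0 := by
    intro x hx B hB h0
    have h1 : P x * B = B := top_mul_of_eig hB
    have h2 : G' x * B = 0 := by
      simp only [hG', add_mul, sub_mul, one_mul]
      rw [mul_assoc (P x * P0), h1, mul_assoc, h0, mul_zero, sub_self, add_zero]
    exact (hU'sub hx).2.2.mul_left_cancel (by rw [h2, mul_zero])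
  have hdB : ∀ x ∈ U', ∀ v, dB M v x = 0 := by
    intro x hx v
    have hxU := (hU'sub hx).1
    have dA : DifferentiableAt ℝ A x := diffAt hU hA hxU
    have dM := hMsm x hx
    have h1 : (fun y => A y * M y) =ᶠ[𝓝 x] fun y => (w : ℂ) • M y :=
      Filter.eventually_of_mem (hU'op.mem_nhds hx) hAM
    have h2 := dB_congr h1 v
    rw [dB_mul dA dM, dB_const_smul _ dM] at h2
    have h3 : dB A v x * M x = 0 := by
      apply eq_zero_of_eig_succ (heig x hxU)
      have h4 := hB_of hU hA hS had hW hxU v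
      have h5 : A x * dB A v x = dB A v x * A x + dB A v x := by
        rw [← sub_eq_iff_eq_add']; exact h4
      rw [← mul_assoc, h5, add_mul, mul_assoc, hAM x hx, mul_smul_comm, add_smul, one_smul]
    rw [h3, zero_add] at h2
    refine hinj x hx _ h2 ?_
    have h6 : (fun y => P0 * M y) =ᶠ[𝓝 x] fun _ => P0 :=
      Filter.eventually_of_mem (hU'op.mem_nhds hx) hPM
    have h7 := dB_congr h6 v
    rw [dB_mul (differentiableAt_const P0) dM, dB_const, zero_mul, zero_add] at h7
    exact h7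
  have hMM : ∀ x, M x * P0 = M x := by
    intro x
    simp only [hM]
    rw [mul_assoc, hP0P0]
  refine ⟨M, U', hU'op, hU'mem, fun x hx => (hU'sub hx).1, ?_, hAM, hPM, ?_, fun x _ => hMM x⟩
  · refine Crest.Agent.R266.SCV.analyticOnNhd_of_real hU'op
      (fun x hx => (hMsm x hx).differentiableWithinAt) ?_
    intro x hx v
    have h1 := fderiv_I_smul M v x
    have h2 := dW_add_dB M v x
    rw [hdB x hx v, smul_zero, sub_zero] at h1
    rw [hdB x hx v, add_zero] at h2
    rw [h1, h2]
  · intro x hx B hB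
    have h1 : A x * (B - M x * (P0 * B)) = (w : ℂ) • (B - M x * (P0 * B)) := by
      rw [mul_sub, hB, ← mul_assoc (A x), hAM x hx, smul_mul_assoc, smul_sub]
    have h2 : P0 * (B - M x * (P0 * B)) = 0 := by
      rw [mul_sub, ← mul_assoc P0 (M x), hPM x hx, ← mul_assoc, hP0P0, sub_self]
    have h3 := hinj x hx _ h1 h2
    exact sub_eq_zero.1 h3

theorem mul_repCol (A : Mat) (v : Fin N → ℂ) :
    A * Matrix.of (fun i (_ : Fin N) => v i) = Matrix.of (fun i _ => (A *ᵥ v) i) := by
  ext i j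
  simp [Matrix.mul_apply, Matrix.mulVec, dotProduct]

end loc

section vec

variable {N : ℕ}

/-- vector version of the last property of `exists_topM` -/
theorem vec_of_mat {A M P0 : Matrix (Fin N) (Fin N) ℂ} {l : ℂ}
    (h : ∀ B : Matrix (Fin N) (Fin N) ℂ, A * B = l • B → B = M * (P0 * B)) {v : Fin N → ℂ}
    (hv : A *ᵥ v = l • v) : v = M *ᵥ (P0 *ᵥ v) := by
  have h1 := h (Matrix.of fun i _ => v i) (by
    rw [mul_repCol, hv]
    rfl)
  rw [mul_repCol, mul_repCol] at h1
  funext i
  have := congrFun (congrFun h1 i) i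
  simpa using this

end vec

end Crest.Agent.R276.Top8_815
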