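import Crest.Agent.R276.Top8b_815
import Crest.Agent.R276.Top8c_815

/-!
# Row 276, IPC step (8): holomorphic frames of the top piece of a `VHS` (helper815)

* `hnsq_top`, `hnsq_pos`: the Hodge norm on the top piece.
* `holAt_iff`, `HolAt.eventually`: holomorphy on a Riemann domain.
* `exists_frame`: near every `u₀` the top piece has a holomorphic frame `e_k` with holomorphic coordinates.
-/

set_option autoImplicit false
set_option linter.unusedSectionVars false

noncomputable section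

open Set Filter Topology MeasureTheory Matrix Polynomial
open Crest.Agent.R271.Ho51 Crest.Agent.R276.Ipc735
open scoped ContDiff

namespace Crest.Agent.R276.Top8_815

section cmf

variable {N : ℕ}

theorem cm_mul (g h : GL (Fin N) ℤ) : cm (g * h) = cm g * cm h := by
  unfold cm
  rw [Units.val_mul]
  ext i j
  simp [Matrix.mul_apply]

theorem cm_one : cm (1 : GL (Fin N) ℤ) = 1 := by
  unfold cm
  ext i j
  by_cases h : i = j
  · subst h; simp
  · simp [h]

theorem cm_mul_inv (g : GL (Fin N) ℤ) : cm g * cm g⁻¹ = 1 := by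
  rw [← cm_mul, mul_inv_cancel, cm_one]

theorem cm_inv_mul (g : GL (Fin N) ℤ) : cm g⁻¹ * cm g = 1 := by
  rw [← cm_mul, inv_mul_cancel, cm_one]

theorem isUnit_cm (g : GL (Fin N) ℤ) : IsUnit (cm g) :=
  ⟨⟨cm g, cm g⁻¹, cm_mul_inv g, cm_inv_mul g⟩, rfl⟩

theorem cm_mulVec_inv (g : GL (Fin N) ℤ) (v : Fin N → ℂ) : cm g *ᵥ (cm g⁻¹ *ᵥ v) = v := by
  rw [Matrix.mulVec_mulVec, cm_mul_inv, Matrix.one_mulVec]

theorem cm_inv_mulVec (g : GL (Fin N) ℤ) (v : Fin N → ℂ) : cm g⁻¹ *ᵥ (cm g *ᵥ v) = v := by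
  rw [Matrix.mulVec_mulVec, cm_inv_mul, Matrix.one_mulVec]

/-- conjugation of a polynomial in a matrix -/
theorem aeval_conj (g : GL (Fin N) ℤ) (A : Matrix (Fin N) (Fin N) ℂ) (p : ℂ[X]) :
    aeval (cm g * A * cm g⁻¹) p = cm g * aeval A p * cm g⁻¹ := by
  induction p using Polynomial.induction_on' with
  | add p q hp hq => rw [map_add, map_add, hp, hq, mul_add, add_mul]
  | monomial k c =>
      have h1 : (cm g * A * cm g⁻¹) ^ k = cm g * A ^ k * cm g⁻¹ := by
        induction k with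
        | zero => simp [cm_mul_inv]
        | succ k ih =>
          rw [pow_succ, ih, pow_succ]
          calc cm g * A ^ k * cm g⁻¹ * (cm g * A * cm g⁻¹)
              = cm g * A ^ k * (cm g⁻¹ * cm g) * A * cm g⁻¹ := by simp only [mul_assoc]
            _ = cm g * (A ^ k * A) * cm g⁻¹ := by rw [cm_inv_mul, mul_one]; simp only [mul_assoc]
      rw [aeval_monomial, aeval_monomial, h1, ← Algebra.smul_def, ← Algebra.smul_def,
        mul_smul_comm, smul_mul_assoc]

end cmf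

section hs

variable {N w : ℕ} {S E : Matrix (Fin N) (Fin N) ℂ}

theorem hpr_eq (w p : ℕ) (E : Matrix (Fin N) (Fin N) ℂ) : hpr w p E = aeval E (lagP w p) := rfl

theorem aeval_mulVec_of_eig {A : Matrix (Fin N) (Fin N) ℂ} {v : Fin N → ℂ} {l : ℂ}
    (h : A *ᵥ v = l • v) (p : ℂ[X]) : aeval A p *ᵥ v = (p.eval l) • v := by
  induction p using Polynomial.induction_on' with
  | add p q hp hq => rw [map_add, add_mulVec, hp, hq, eval_add, add_smul]
  | monomial k c =>
      have h1 : A ^ k *ᵥ v = (l ^ k) • v := by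
        induction k with
        | zero => simp
        | succ k ih =>
          rw [pow_succ, ← mulVec_mulVec, h, mulVec_smul, ih, smul_smul, pow_succ, mul_comm l]
      rw [aeval_monomial, eval_monomial, ← Algebra.smul_def, smul_mulVec, h1, smul_smul]

theorem hpr_top {v : Fin N → ℂ} (hv : IsTop w E v) {p : ℕ} (hp : p ∈ Finset.range (w + 1)) :
    hpr w p E *ᵥ v = if p = w then v else 0 := by
  rw [hpr_eq, aeval_mulVec_of_eig hv]
  split_ifs with h
  · subst h
    rw [lagP, Lagrange.eval_basis_self (injOn_cast p) (by simp), one_smul]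
  · have h1 : (lagP w p).eval ((w : ℕ) : ℂ) = 0 :=
      Lagrange.eval_basis_of_ne (v := fun q : ℕ => (q : ℂ)) h (by simp)
    rw [h1, zero_smul]

theorem weil_top {v : Fin N → ℂ} (hv : IsTop w E v) : weil w E *ᵥ v = (-1 : ℂ) ^ w • v := by
  rw [weil, Matrix.sum_mulVec, Finset.sum_eq_single_of_mem w (by simp)]
  · rw [smul_mulVec, hpr_top hv (by simp), if_pos rfl]
  · intro p hp hne
    rw [smul_mulVec, hpr_top hv hp, if_neg hne, smul_zero]

theorem hodge_top {v : Fin N → ℂ} (hv : IsTop w E v) :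
    hodge w S E *ᵥ v = (-1 : ℂ) ^ w • (S *ᵥ v) := by
  rw [hodge, ← mulVec_mulVec, weil_top hv, mulVec_smul]

theorem re_hodge_top {v : Fin N → ℂ} (hv : IsTop w E v) :
    (star v ⬝ᵥ hodge w S E *ᵥ v).re = (-1 : ℝ) ^ w * (star v ⬝ᵥ S *ᵥ v).re := by
  rw [hodge_top hv, dotProduct_smul, smul_eq_mul]
  have : ((-1 : ℂ) ^ w) = (((-1 : ℝ) ^ w : ℝ) : ℂ) := by push_cast; ring
  rw [this, Complex.re_ofReal_mul]

theorem re_hodge_pos (h : IsHS w S E) {v : Fin N → ℂ} (hv : IsTop w E v) (h0 : v ≠ 0) :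
    0 < (star v ⬝ᵥ hodge w S E *ᵥ v).re := by
  rw [re_hodge_top hv]
  exact h.pos w v le_rfl h0 hv

theorem S_mul_aeval (h : IsHS w S E) (p : ℂ[X]) : S * aeval E p = aeval Eᴴ p * S := by
  induction p using Polynomial.induction_on' with
  | add p q hp hq => rw [map_add, map_add, mul_add, add_mul, hp, hq]
  | monomial k c =>
      have h1 : S * E ^ k = (Eᴴ) ^ k * S := by
        induction k with
        | zero => simp
        | succ k ih =>
          rw [pow_succ, ← mul_assoc, ih, mul_assoc, h.adj, ← mul_assoc, ← pow_succ]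
      rw [aeval_monomial, aeval_monomial, ← Algebra.smul_def, ← Algebra.smul_def,
        mul_smul_comm, h1, smul_mul_assoc]

theorem isUnit_S (h : IsHS w S E) : IsUnit S := by
  rw [← Matrix.mulVec_injective_iff_isUnit]
  intro a b hab
  rw [← sub_eq_zero]
  set v := a - b with hv
  have hSv : S *ᵥ v = 0 := by rw [hv, mulVec_sub]; exact sub_eq_zero.2 hab
  have key : ∀ p ∈ Finset.range (w + 1), hpr w p E *ᵥ v = 0 := by
    intro p hp
    have hp' : p ≤ w := by simpa [Nat.lt_succ_iff] using hp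
    by_contra hne
    have h1 : E *ᵥ (hpr w p E *ᵥ v) = (p : ℂ) • (hpr w p E *ᵥ v) := by
      rw [mulVec_mulVec, hpr_eq, A_mul_lag hp' h.eig, smul_mulVec]
    have h2 := h.pos p _ hp' hne h1
    rw [mulVec_mulVec, hpr_eq, S_mul_aeval h, ← mulVec_mulVec, hSv, mulVec_zero,
      dotProduct_zero, Complex.zero_re, mul_zero] at h2
    exact lt_irrefl _ h2
  have h3 : (∑ p ∈ Finset.range (w + 1), hpr w p E) *ᵥ v = v := by
    have := sum_lag_aeval w E
    simp only [← hpr_eq] at this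
    rw [this, one_mulVec]
  rw [← h3, Matrix.sum_mulVec]
  exact Finset.sum_eq_zero key

theorem isTop_add {v v' : Fin N → ℂ} (h : IsTop w E v) (h' : IsTop w E v') :
    IsTop w E (v + v') := by
  unfold IsTop at *
  rw [mulVec_add, h, h', smul_add]

theorem isTop_smul {v : Fin N → ℂ} (c : ℂ) (h : IsTop w E v) : IsTop w E (c • v) := by
  unfold IsTop at *
  rw [mulVec_smul, h, smul_comm]

theorem isTop_zero : IsTop w E (0 : Fin N → ℂ) := by
  unfold IsTop
  simp

theorem isTop_sum {ι : Type*} (s : Finset ι) {v : ι → Fin N → ℂ} (h : ∀ i ∈ s, IsTop w E (v i)) :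
    IsTop w E (∑ i ∈ s, v i) := by
  classical
  induction s using Finset.induction_on with
  | empty => simpa using isTop_zero
  | insert a s ha ih =>
      rw [Finset.sum_insert ha]
      exact isTop_add (h a (Finset.mem_insert_self a s))
        (ih fun i hi => h i (Finset.mem_insert_of_mem hi))

end hs

section hol

variable {m : ℕ} {X : Type*} [TopologicalSpace X] [RDom m X] {G : Type*} [NormedAddCommGroup G]
  [NormedSpace ℂ G]

theorem tendsto_symm (z : X) : Tendsto (ch z).symm (𝓝 (cp z)) (𝓝 z) := by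
  have := (ch z).symm.continuousAt (x := cp z) (by simpa using (isCh_ch z).cp_mem (mem_ch z))
  rwa [ContinuousAt, (isCh_ch z).symm_cp (mem_ch z)] at this

theorem eventually_cp_symm (z : X) : ∀ᶠ x in 𝓝 (cp z), cp ((ch z).symm x) = x := by
  filter_upwards [(ch z).open_target.mem_nhds ((isCh_ch z).cp_mem (mem_ch z))] with x hx
  exact (isCh_ch z).cp_symm hx

theorem holAt_iff {f : X → G} {z : X} :
    HolAt f z ↔ ∃ g : (Fin m → ℂ) → G, AnalyticAt ℂ g (cp z) ∧ ∀ᶠ y in 𝓝 z, f y = g (cp y) := by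
  constructor
  · intro h
    exact ⟨f ∘ (ch z).symm, h, eventually_eq_comp (isCh_ch z) (mem_ch z) f⟩
  · rintro ⟨g, hg, h⟩
    refine AnalyticAt.congr hg ?_
    filter_upwards [(tendsto_symm z).eventually h, eventually_cp_symm z] with x hx hx2
    rw [Function.comp_apply, hx, hx2]

theorem hol_congr {f g : X → G} {z : X} (h : HolAt f z) (hfg : f =ᶠ[𝓝 z] g) : HolAt g z := by
  rw [holAt_iff] at h ⊢
  obtain ⟨F, hF, h1⟩ := h
  exact ⟨F, hF, by filter_upwards [h1, hfg] with y hy hy2; rw [← hy2, hy]⟩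

theorem hol_eventually [CompleteSpace G] {f : X → G} {z : X} (h : HolAt f z) : ∀ᶠ y in 𝓝 z, HolAt f y := by
  rw [holAt_iff] at h
  obtain ⟨g, hg, h1⟩ := h
  have h2 : ∀ᶠ y in 𝓝 z, AnalyticAt ℂ g (cp y) :=
    cp_cont.continuousAt.eventually hg.eventually_analyticAt
  filter_upwards [h2, h1.eventually_nhds] with y hy hy2
  rw [holAt_iff]
  exact ⟨g, hy, hy2⟩

theorem hol_clm {G' : Type*} [NormedAddCommGroup G'] [NormedSpace ℂ G'] {f : X → G} {z : X}
    (L : G →L[ℂ] G') (h : HolAt f z) : HolAt (fun y => L (f y)) z := by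
  rw [holAt_iff] at h ⊢
  obtain ⟨g, hg, h1⟩ := h
  refine ⟨fun x => L (g x), (L.analyticAt _).comp hg, ?_⟩
  filter_upwards [h1] with y hy
  rw [hy]

theorem hol_mulVec {N : ℕ} {f : X → Fin N → ℂ} {z : X} (B : Matrix (Fin N) (Fin N) ℂ)
    (h : HolAt f z) : HolAt (fun y => B *ᵥ f y) z :=
  hol_clm (LinearMap.toContinuousLinearMap (Matrix.mulVecLin B)) h

theorem hol_add {f g : X → G} {z : X} (hf : HolAt f z) (hg : HolAt g z) :
    HolAt (fun y => f y + g y) z := AnalyticAt.add hf hg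

theorem hol_smul {f : X → ℂ} {g : X → G} {z : X} (hf : HolAt f z) (hg : HolAt g z) :
    HolAt (fun y => f y • g y) z := AnalyticAt.smul hf hg

theorem hol_const (c : G) (z : X) : HolAt (fun _ : X => c) z := analyticAt_const

theorem hol_sum {ι : Type*} (s : Finset ι) {f : ι → X → G} {z : X}
    (h : ∀ i ∈ s, HolAt (f i) z) : HolAt (fun y => ∑ i ∈ s, f i y) z := by
  classical
  induction s using Finset.induction_on with
  | empty => simpa using hol_const (0 : G) z
  | insert a s ha ih =>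
      simp only [Finset.sum_insert ha]
      exact hol_add (h a (Finset.mem_insert_self a s))
        (ih fun i hi => h i (Finset.mem_insert_of_mem hi))

theorem holAt_pi {N : ℕ} {f : X → Fin N → ℂ} {z : X} :
    HolAt f z ↔ ∀ i, HolAt (fun y => f y i) z := by
  constructor
  · intro h i
    exact hol_clm (ContinuousLinearMap.proj (R := ℂ) (φ := fun _ : Fin N => ℂ) i) h
  · intro h
    exact AnalyticAt.pi (fun i => h i)

/-- the class of holomorphic functions at `z` is closed under the field operations -/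
theorem cl_holAt (z : X) : Cl (fun f : X → ℂ => HolAt f z) z where
  const c := hol_const c z
  add _ _ hf hg := hol_add hf hg
  mul _ _ hf hg := hol_smul hf hg
  inv f hf h0 := by
    refine AnalyticAt.inv (f := f ∘ (ch z).symm) hf ?_
    rw [Function.comp_apply, (isCh_ch z).symm_cp (mem_ch z)]
    exact h0

end hol

section frame

variable {n N w : ℕ} {X : Type*} [TopologicalSpace X] [RDom n X]

theorem ndc_nhd {P : X → X → GL (Fin N) ℤ} (h : NDC P) (u₀ : X) :
    ∃ O : Set X, IsOpen O ∧ u₀ ∈ O ∧ O ⊆ (ch u₀).source ∧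
      ∀ x ∈ O, ∀ y ∈ O, ∀ z ∈ O, P x y * P y z = P x z := by
  obtain ⟨U, hU, h1⟩ := h u₀
  obtain ⟨V, hV, hVo, hV0⟩ :=
    mem_nhds_iff.1 (Filter.inter_mem hU ((ch u₀).open_source.mem_nhds (mem_ch u₀)))
  exact ⟨V, hVo, hV0, fun x hx => (hV hx).2,
    fun x hx y hy z hz => h1 x (hV hx).1 y (hV hy).1 z (hV hz).1⟩

theorem P_self' {P : X → X → GL (Fin N) ℤ} {O : Set X}
    (hO : ∀ x ∈ O, ∀ y ∈ O, ∀ z ∈ O, P x y * P y z = P x z) {x : X} (hx : x ∈ O) : P x x = 1 := by
  have := hO x hx x hx x hx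
  exact mul_eq_left.mp this

theorem P_inv' {P : X → X → GL (Fin N) ℤ} {O : Set X}
    (hO : ∀ x ∈ O, ∀ y ∈ O, ∀ z ∈ O, P x y * P y z = P x z) {x y : X} (hx : x ∈ O) (hy : y ∈ O) :
    P x y * P y x = 1 := by
  rw [hO x hx y hy x hx, P_self' hO hx]

theorem P_self {P : X → X → GL (Fin N) ℤ} (h : NDC P) (x : X) : P x x = 1 := by
  obtain ⟨U, hU, h1⟩ := h x
  have := h1 x (mem_of_mem_nhds hU) x (mem_of_mem_nhds hU) x (mem_of_mem_nhds hU)
  exact mul_eq_left.mp this

/-- change of the centre -/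
theorem lV_change {P : X → X → GL (Fin N) ℤ} {O : Set X}
    (hO : ∀ x ∈ O, ∀ y ∈ O, ∀ z ∈ O, P x y * P y z = P x z) {u₀ u y : X} (h0 : u₀ ∈ O) (hu : u ∈ O)
    (hy : y ∈ O) (v : X → Fin N → ℂ) : lV P v u₀ y = cm (P u₀ u) *ᵥ lV P v u y := by
  unfold lV
  rw [mulVec_mulVec, ← cm_mul, hO u₀ h0 u hu y hy]

/-- a section which is holomorphic at `u₀` is holomorphic at the points near `u₀` -/
theorem holAt_lV_eventually {P : X → X → GL (Fin N) ℤ} (h : NDC P) {u₀ : X} {v : X → Fin N → ℂ}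
    (hv : HolAt (lV P v u₀) u₀) : ∀ᶠ u in 𝓝 u₀, HolAt (lV P v u) u := by
  obtain ⟨O, hOo, h0, _, hO⟩ := ndc_nhd h u₀
  filter_upwards [hol_eventually hv, hOo.mem_nhds h0] with u hu huO
  refine hol_congr (hol_mulVec (cm (P u u₀)) hu) ?_
  filter_upwards [hOo.mem_nhds huO] with y hy
  rw [lV_change hO huO h0 hy]

attribute [local instance] Matrix.linftyOpNormedRing Matrix.linftyOpNormedAlgebra

open Crest.Agent.R276.VCalc_442

theorem contDiffAt_matrix {E : Type*} [NormedAddCommGroup E] [NormedSpace ℂ E]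
    {F : E → Matrix (Fin N) (Fin N) ℂ} {x : E}
    (h : ∀ i j, ContDiffAt ℝ ∞ (fun x => F x i j) x) : ContDiffAt ℝ ∞ F x := by
  have e : F = fun x => ∑ i, ∑ j, (F x i j) • Matrix.single i j (1 : ℂ) := by
    funext x
    conv_lhs => rw [Matrix.matrix_eq_sum_single (F x)]
    simp only [Matrix.smul_single, smul_eq_mul, mul_one]
  rw [e]
  exact ContDiffAt.sum fun i _ => ContDiffAt.sum fun j _ => (h i j).smul contDiffAt_const

/-- transversality in all directions -/
theorem tr_all (V : VHS n X N w) (u : X) (v : Fin n → ℂ) :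
    V.E u * dW (fun x => lM V.P V.E u ((ch u).symm x)) v (cp u) -
      dW (fun x => lM V.P V.E u ((ch u).symm x)) v (cp u) * V.E u =
      - dW (fun x => lM V.P V.E u ((ch u).symm x)) v (cp u) := by
  set B : (Fin n → ℂ) → Matrix (Fin N) (Fin N) ℂ := fun x => lM V.P V.E u ((ch u).symm x) with hB
  have hsm : ContDiffAt ℝ ∞ B (cp u) := contDiffAt_matrix fun i j => V.smE u i j
  have hd : DifferentiableAt ℝ B (cp u) := hsm.differentiableAt (by simp)
  have h1 : ∀ j : Fin n, dW B (Pi.single j 1) (cp u) = dM V.P V.E j u := by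
    intro j
    ext i k
    have h2 := dW_clm (ent i k) hd (Pi.single j 1)
    have h3 : dW (fun x => B x i k) (Pi.single j 1) (cp u) = dM V.P V.E j u i k := by
      have h4 : Complex.I • (Pi.single j 1 : Fin n → ℂ) = Pi.single j Complex.I := by
        rw [← Pi.single_smul, smul_eq_mul, mul_one]
      rw [dW, h4]
      rfl
    rw [← h3]
    exact h2.symm
  have hv : v = ∑ j, v j • (Pi.single j 1 : Fin n → ℂ) := by
    funext i
    simp [Finset.sum_apply, Pi.single_apply]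
  have hs : ∀ s : Finset (Fin n), V.E u * dW B (∑ j ∈ s, v j • (Pi.single j 1 : Fin n → ℂ)) (cp u) -
      dW B (∑ j ∈ s, v j • (Pi.single j 1 : Fin n → ℂ)) (cp u) * V.E u =
      - dW B (∑ j ∈ s, v j • (Pi.single j 1 : Fin n → ℂ)) (cp u) := by
    intro s
    classical
    induction s using Finset.induction_on with
    | empty =>
      have h0 : dW B 0 (cp u) = 0 := by
        have := dW_smul_dir B (cp u) 0 0
        simpa using this
      simp [h0]
    | insert a s ha ih =>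
      rw [Finset.sum_insert ha, dW_add_dir, dW_smul_dir, h1, mul_add, add_mul, neg_add, ← ih,
        mul_smul_comm, smul_mul_assoc, ← smul_neg, ← V.tr u a, smul_sub]
      abel
  rw [hv]
  exact hs _

/-- **Holomorphic frames of the top piece.** -/
theorem exists_frame (V : VHS n X N w) (u₀ : X) :
    ∃ (ρ : ℕ) (e : Fin ρ → X → Fin N → ℂ) (β : Fin ρ → (Fin N → ℂ) →ₗ[ℂ] ℂ),
      (∀ k, HolAt (lV V.P (e k) u₀) u₀) ∧
      ∀ᶠ u in 𝓝 u₀, (∀ k, IsTop w (V.E u) (e k u)) ∧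
        (∀ k l, β k (cm (V.P u₀ u) *ᵥ e l u) = if l = k then 1 else 0) ∧
        ∀ v, IsTop w (V.E u) v → v = ∑ k, β k (cm (V.P u₀ u) *ᵥ v) • e k u := by
  classical
  obtain ⟨O', hO'o, h0', hO'ch, hO'⟩ := ndc_nhd V.ndc u₀
  obtain ⟨O, hOsub, hOo, h0⟩ := mem_nhds_iff.1 (Filter.inter_mem (hO'o.mem_nhds h0') (V.flatS u₀))
  have hO : ∀ x ∈ O, ∀ y ∈ O, ∀ z ∈ O, V.P x y * V.P y z = V.P x z := fun x hx y hy z hz =>
    hO' x (hOsub hx).1 y (hOsub hy).1 z (hOsub hz).1
  have hOch : O ⊆ (ch u₀).source := fun x hx => hO'ch (hOsub hx).1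
  have hflat : ∀ y ∈ O, V.S y = (cm (V.P u₀ y))ᴴ * V.S u₀ * cm (V.P u₀ y) := fun y hy =>
    (hOsub hy).2
  set Ω : Set (Fin n → ℂ) := (ch u₀).target ∩ (ch u₀).symm ⁻¹' O with hΩ
  have hΩo : IsOpen Ω := (ch u₀).isOpen_inter_preimage_symm hOo
  have hΩcp : ∀ u ∈ O, cp u ∈ Ω := fun u hu =>
    ⟨(isCh_ch u₀).cp_mem (hOch hu), by
      show (ch u₀).symm (cp u) ∈ O
      rw [(isCh_ch u₀).symm_cp (hOch hu)]; exact hu⟩
  set A : (Fin n → ℂ) → Matrix (Fin N) (Fin N) ℂ := fun x => lM V.P V.E u₀ ((ch u₀).symm x) with hA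
  -- comparison with the local matrix at `u`
  have hcomp : ∀ u ∈ O, A =ᶠ[𝓝 (cp u)] fun x =>
      cm (V.P u₀ u) * lM V.P V.E u ((ch u).symm x) * cm (V.P u₀ u)⁻¹ := by
    intro u hu
    have h1 := (isCh_ch u₀).germ (isCh_ch u) (hOch hu) (mem_ch u)
    filter_upwards [h1, (tendsto_symm u).eventually (hOo.mem_nhds hu)] with x hx hx2
    rw [hA]
    simp only [lM]
    rw [hx, ← hO u₀ h0 u hu _ hx2, cm_mul, _root_.mul_inv_rev, cm_mul]
    simp only [mul_assoc]
  have hAcp : ∀ u ∈ O, A (cp u) = cm (V.P u₀ u) * V.E u * cm (V.P u₀ u)⁻¹ := by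
    intro u hu
    simp only [hA, lM]
    rw [(isCh_ch u₀).symm_cp (hOch hu)]
  have hinv : ∀ z ∈ Ω, ∃ u ∈ O, cp u = z := fun z hz =>
    ⟨_, hz.2, (isCh_ch u₀).cp_symm hz.1⟩
  have hBsm : ∀ u, ContDiffAt ℝ ∞ (fun x => lM V.P V.E u ((ch u).symm x)) (cp u) := fun u =>
    contDiffAt_matrix fun i j => V.smE u i j
  have hAsm : ContDiffOn ℝ ∞ A Ω := by
    intro z hz
    obtain ⟨u, hu, rfl⟩ := hinv z hz
    refine ContDiffAt.contDiffWithinAt ?_
    refine ContDiffAt.congr_of_eventuallyEq ?_ (hcomp u hu)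
    exact (contDiffAt_const.mul (hBsm u)).mul contDiffAt_const
  have hW : ∀ z ∈ Ω, ∀ v, A z * dW A v z - dW A v z * A z = - dW A v z := by
    intro z hz v
    obtain ⟨u, hu, rfl⟩ := hinv z hz
    have hd : DifferentiableAt ℝ (fun x => lM V.P V.E u ((ch u).symm x)) (cp u) :=
      (hBsm u).differentiableAt (by simp)
    have h1 : dW A v (cp u) = cm (V.P u₀ u) *
        dW (fun x => lM V.P V.E u ((ch u).symm x)) v (cp u) * cm (V.P u₀ u)⁻¹ := by
      have hd2 : DifferentiableAt ℝ (fun x => cm (V.P u₀ u) * lM V.P V.E u ((ch u).symm x))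
        (cp u) := (differentiableAt_const _).mul hd
      rw [dW_congr (hcomp u hu), dW_mul hd2
        (differentiableAt_const _), dW_mul (differentiableAt_const _) hd, dW_const, dW_const,
        mul_zero, zero_mul, zero_add, add_zero]
    have h2 := tr_all V u v
    rw [h1, hAcp u hu]
    set T := dW (fun x => lM V.P V.E u ((ch u).symm x)) v (cp u) with hT
    have h3 := cm_inv_mul (V.P u₀ u)
    calc cm (V.P u₀ u) * V.E u * cm (V.P u₀ u)⁻¹ * (cm (V.P u₀ u) * T * cm (V.P u₀ u)⁻¹) -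
          cm (V.P u₀ u) * T * cm (V.P u₀ u)⁻¹ * (cm (V.P u₀ u) * V.E u * cm (V.P u₀ u)⁻¹)
        = cm (V.P u₀ u) * (V.E u * (cm (V.P u₀ u)⁻¹ * cm (V.P u₀ u)) * T -
          T * (cm (V.P u₀ u)⁻¹ * cm (V.P u₀ u)) * V.E u) * cm (V.P u₀ u)⁻¹ := by noncomm_ring
      _ = cm (V.P u₀ u) * (V.E u * T - T * V.E u) * cm (V.P u₀ u)⁻¹ := by
          rw [h3, mul_one, mul_one]
      _ = _ := by rw [h2]; noncomm_ring
  have had : ∀ z ∈ Ω, V.S u₀ * A z = (A z)ᴴ * V.S u₀ := by
    intro z hz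
    obtain ⟨u, hu, rfl⟩ := hinv z hz
    rw [hAcp u hu]
    have h1 := (V.hs u).adj
    rw [hflat u hu] at h1
    set C := cm (V.P u₀ u) with hC
    set C' := cm (V.P u₀ u)⁻¹ with hC'
    have hCC : C * C' = 1 := cm_mul_inv _
    have hCC' : C' * C = 1 := cm_inv_mul _
    have hCCh : C'ᴴ * Cᴴ = 1 := by rw [← conjTranspose_mul, hCC, conjTranspose_one]
    have h2 := congrArg (fun M => C'ᴴ * M * C') h1
    have e1 : C'ᴴ * (Cᴴ * V.S u₀ * C * V.E u) * C' = V.S u₀ * (C * V.E u * C') := by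
      calc _ = (C'ᴴ * Cᴴ) * V.S u₀ * (C * V.E u * C') := by noncomm_ring
        _ = _ := by rw [hCCh, one_mul]
    have e2 : C'ᴴ * ((V.E u)ᴴ * (Cᴴ * V.S u₀ * C)) * C' = (C * V.E u * C')ᴴ * V.S u₀ := by
      rw [conjTranspose_mul, conjTranspose_mul]
      calc _ = C'ᴴ * ((V.E u)ᴴ * Cᴴ) * V.S u₀ * (C * C') := by noncomm_ring
        _ = _ := by rw [hCC, mul_one]
    rw [← e1, ← e2]
    exact h2
  have heig : ∀ z ∈ Ω, aeval (A z) (eigP w) = 0 := by
    intro z hz
    obtain ⟨u, hu, rfl⟩ := hinv z hz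
    rw [hAcp u hu, aeval_conj, (show aeval (V.E u) (eigP w) = 0 from (V.hs u).eig), mul_zero,
      zero_mul]
  obtain ⟨M, U', hU'o, hU'0, hU'sub, hMan, hAM, hPM, hvec, hMP⟩ :=
    exists_topM hΩo hAsm (isUnit_S (V.hs u₀)) had hW heig (hΩcp u₀ h0)
  set P0 : Matrix (Fin N) (Fin N) ℂ := aeval (A (cp u₀)) (topP w) with hP0
  have hP0P0 : P0 * P0 = P0 := top_idem (heig _ (hΩcp u₀ h0))
  -- basis of the range
  let K : Submodule ℂ (Fin N → ℂ) := LinearMap.range (Matrix.mulVecLin P0)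
  let b : Module.Basis (Fin (Module.finrank ℂ K)) ℂ K := Module.finBasis ℂ K
  let pr : (Fin N → ℂ) →ₗ[ℂ] K := (Matrix.mulVecLin P0).rangeRestrict
  have hpr : ∀ x, ((pr x : K) : Fin N → ℂ) = P0 *ᵥ x := fun x => rfl
  have hfix : ∀ x : K, P0 *ᵥ (x : Fin N → ℂ) = x := by
    rintro ⟨_, y, rfl⟩
    show P0 *ᵥ (P0 *ᵥ y) = P0 *ᵥ y
    rw [mulVec_mulVec, hP0P0]
  refine ⟨Module.finrank ℂ K, fun k u => cm (V.P u₀ u)⁻¹ *ᵥ (M (cp u) *ᵥ (b k : Fin N → ℂ)),
    fun k => (b.coord k).comp pr, ?_, ?_⟩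
  · intro k
    rw [holAt_iff]
    refine ⟨fun x => M x *ᵥ (b k : Fin N → ℂ), ?_, ?_⟩
    · let L : Matrix (Fin N) (Fin N) ℂ →L[ℂ] (Fin N → ℂ) :=
        LinearMap.toContinuousLinearMap
          ((LinearMap.applyₗ (b k : Fin N → ℂ)).comp
            (Matrix.toLin' : Matrix (Fin N) (Fin N) ℂ ≃ₗ[ℂ] _).toLinearMap)
      have h1 : AnalyticAt ℂ (fun x => L (M x)) (cp u₀) :=
        (L.analyticAt _).comp (hMan (cp u₀) hU'0)
      exact h1
    · filter_upwards with u
      simp only [lV]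
      rw [cm_mulVec_inv]
  · have hev : ∀ᶠ u in 𝓝 u₀, u ∈ O ∧ cp u ∈ U' :=
      Filter.Eventually.and (hOo.mem_nhds h0)
        (cp_cont.continuousAt.eventually (hU'o.mem_nhds hU'0))
    filter_upwards [hev] with u hu
    obtain ⟨huO, hu'⟩ := hu
    have hE : V.E u * cm (V.P u₀ u)⁻¹ = cm (V.P u₀ u)⁻¹ * A (cp u) := by
      rw [hAcp u huO, ← mul_assoc, ← mul_assoc, cm_inv_mul, one_mul]
    have hE' : A (cp u) * cm (V.P u₀ u) = cm (V.P u₀ u) * V.E u := by
      rw [hAcp u huO, mul_assoc, cm_inv_mul, mul_one]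
    refine ⟨?_, ?_, ?_⟩
    · intro k
      show V.E u *ᵥ (cm (V.P u₀ u)⁻¹ *ᵥ (M (cp u) *ᵥ (b k : Fin N → ℂ))) = _
      rw [mulVec_mulVec, hE, ← mulVec_mulVec, mulVec_mulVec _ (A (cp u)), hAM _ hu', smul_mulVec,
        mulVec_smul]
    · intro k l
      have h1 : P0 *ᵥ (cm (V.P u₀ u) *ᵥ (cm (V.P u₀ u)⁻¹ *ᵥ (M (cp u) *ᵥ (b l : Fin N → ℂ)))) =
          (b l : Fin N → ℂ) := by
        rw [cm_mulVec_inv, mulVec_mulVec, hPM _ hu', hfix]
      have h2 : pr (cm (V.P u₀ u) *ᵥ (cm (V.P u₀ u)⁻¹ *ᵥ (M (cp u) *ᵥ (b l : Fin N → ℂ)))) =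
          b l := Subtype.ext h1
      show b.coord k (pr _) = _
      rw [h2, Module.Basis.coord_apply, Module.Basis.repr_self, Finsupp.single_apply]
    · intro v hv
      have h1 : A (cp u) *ᵥ (cm (V.P u₀ u) *ᵥ v) = (w : ℂ) • (cm (V.P u₀ u) *ᵥ v) := by
        rw [mulVec_mulVec, hE', ← mulVec_mulVec, (show V.E u *ᵥ v = (w : ℂ) • v from hv),
          mulVec_smul]
      have h2 := vec_of_mat (hvec _ hu') h1
      set v' := cm (V.P u₀ u) *ᵥ v with hv'
      have h3 : P0 *ᵥ v' = ∑ k, b.coord k (pr v') • (b k : Fin N → ℂ) := by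
        have h4 := b.sum_repr (pr v')
        have h5 := congrArg (fun x : K => (x : Fin N → ℂ)) h4
        simp only [Submodule.coe_sum, Submodule.coe_smul] at h5
        rw [hpr] at h5
        exact h5.symm
      have h6 : v = cm (V.P u₀ u)⁻¹ *ᵥ v' := by rw [hv', cm_inv_mulVec]
      conv_lhs => rw [h6, h2, h3]
      simp only [mulVec_sum, mulVec_smul]
      rfl

end frame

end Crest.Agent.R276.Top8_815
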