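import Crest.Agent.R276.Par_425
import Crest.Agent.R276.Hone2_425
import Crest.Agent.R276.Top8d_815

/-!
# Row 276 (S0419), `cy_line` (helper425): the Calabi–Yau line of the root cover

* `GG s N` : the finite group of all `(π, ζ)`, `ζ ^ N = sign π`, its action on the root cover of the
  fibre power (`al`), `gact : GAct`;
* `pb_rt` : the function `η` is holomorphic on the root cover;
* `hfr` : local holomorphic sections of the top piece through a given vector;
* `cy_line` : the section `ω` of the top piece with `ι ω = η` is holomorphic, nowhere zero, and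
  `D_j ω ∈ (dE/dz_j) ω + ℂ ω`.
-/

set_option autoImplicit false
set_option linter.unusedSectionVars false

noncomputable section

open Set Filter Topology MeasureTheory Matrix
open Crest.Agent.R271 Crest.Agent.R271.Ho51 Crest.Agent.R276.AB2_590 Crest.Agent.R276.Ipc735
open Crest.Agent.R276.Iso_425 Crest.Agent.R276.Top8_815 Crest.Agent.R276.Hone_425
open Crest.Agent.R276.Cov_425 Crest.Agent.R276.Rc_348 Crest.Agent.R276.Par_425
open scoped ENNReal

namespace Crest.Agent.R276.Cy_425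

/-! ### functions which are pull backs of analytic functions -/

section pb

variable {Y E : Type*} [TopologicalSpace Y] [NormedAddCommGroup E] [NormedSpace ℂ E] {p : Y → E}
  {f g : Y → ℂ} {y : Y}

lemma pb_mul (hf : PB p f y) (hg : PB p g y) : PB p (fun y => f y * g y) y := by
  obtain ⟨k, hk, hk2⟩ := hf
  obtain ⟨l, hl, hl2⟩ := hg
  exact ⟨fun x => k x * l x, hk.mul hl, by filter_upwards [hk2, hl2] with y h1 h2; rw [h1, h2]⟩

lemma pb_add (hf : PB p f y) (hg : PB p g y) : PB p (fun y => f y + g y) y := by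
  obtain ⟨k, hk, hk2⟩ := hf
  obtain ⟨l, hl, hl2⟩ := hg
  exact ⟨fun x => k x + l x, hk.add hl, by filter_upwards [hk2, hl2] with y h1 h2; rw [h1, h2]⟩

lemma pb_const (c : ℂ) : PB p (fun _ => c) y :=
  ⟨fun _ => c, analyticAt_const, Eventually.of_forall fun _ => rfl⟩

lemma pb_sum {κ : Type*} (t : Finset κ) {f : κ → Y → ℂ} (hf : ∀ i ∈ t, PB p (f i) y) :
    PB p (fun y => ∑ i ∈ t, f i y) y := by
  classical
  induction t using Finset.induction_on with
  | empty => simpa using pb_const (p := p) (y := y) 0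
  | insert i t hi ih =>
    have h1 := pb_add (hf i (Finset.mem_insert_self _ _))
      (ih fun j hj => hf j (Finset.mem_insert_of_mem hj))
    simpa only [Finset.sum_insert hi] using h1

lemma pb_prod {κ : Type*} (t : Finset κ) {f : κ → Y → ℂ} (hf : ∀ i ∈ t, PB p (f i) y) :
    PB p (fun y => ∏ i ∈ t, f i y) y := by
  classical
  induction t using Finset.induction_on with
  | empty => simpa using pb_const (p := p) (y := y) 1
  | insert i t hi ih =>
    have h1 := pb_mul (hf i (Finset.mem_insert_self _ _))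
      (ih fun j hj => hf j (Finset.mem_insert_of_mem hj))
    simpa only [Finset.prod_insert hi] using h1

end pb

variable {m r : ℕ} {S Y : Type*} [TopologicalSpace S] [RDom m S] [TopologicalSpace Y]
variable {F : FSp m r S Y} {s : ℕ} {σ : Fin s → Y → ℂ} {δ : FPow F s → ℂ} {N : ℕ}

/-! ### the holomorphic functions `δ` and `η` -/

lemma pb_coord {f : Y → ℂ} (p : FPow F s) (j : Fin s) (hf : PB F.pc f (p.1.2 j)) :
    PB (pow F s).pc (fun p => f (p.1.2 j)) p := by
  obtain ⟨k, hk, hk2⟩ := hf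
  have hpc : ∀ p : FPow F s, F.pc (p.1.2 j) = (((pow F s).pc p).1, blk ((pow F s).pc p).2 j) := by
    intro p
    show (cp (F.q (p.1.2 j)), F.t (p.1.2 j)) = (cp p.1.1, blk (unblk fun i => F.t (p.1.2 i)) j)
    rw [p.2 j, blk_unblk]
  refine ⟨fun x => k (x.1, blk x.2 j), ?_, ?_⟩
  · rw [hpc] at hk
    refine AnalyticAt.comp (g := k)
      (f := fun x : (Fin m → ℂ) × (Fin (s * r) → ℂ) => (x.1, blk x.2 j)) hk ?_
    refine analyticAt_fst.prod (analyticAt_pi_iff.2 fun i => ?_)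
    exact ((ContinuousLinearMap.proj (R := ℂ) (φ := fun _ : Fin (s * r) => ℂ)
      (finProdFinEquiv (j, i))).analyticAt _).comp analyticAt_snd
  · have hc : Continuous fun p : FPow F s => p.1.2 j :=
      (continuous_apply j).comp (continuous_snd.comp continuous_subtype_val)
    filter_upwards [hc.continuousAt.eventually hk2] with p' hp'
    rw [hp', hpc]

lemma pb_delta (hδσ : ∀ p : FPow F s, δ p = (Matrix.of fun i j => σ i (p.1.2 j)).det)
    (hσ : ∀ i y, PB F.pc (σ i) y) (p : FPow F s) : PB (pow F s).pc δ p := by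
  have h1 : δ = fun p : FPow F s => ∑ π : Equiv.Perm (Fin s),
      ((Equiv.Perm.sign π : ℤ) : ℂ) * ∏ j, σ (π j) (p.1.2 j) := by
    funext p
    rw [hδσ, Matrix.det_apply']
    rfl
  rw [h1]
  exact pb_sum _ fun π _ => pb_mul (pb_const _) (pb_prod _ fun j _ => pb_coord p j (hσ _ _))

lemma root_ev (hδ : Continuous δ) (hN : N ≠ 0) (q₀ : Root δ N) :
    ∀ᶠ q : Root δ N in 𝓝 q₀, q.1.2 = lroot N q₀.1.2 (δ q₀.1.1) (δ q.1.1) := by
  set j : Root δ N → RC δ N := fun q => RC.mk q.1.1 q.1.2 q.2.1 with hj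
  have hjc : Continuous j := by
    refine Continuous.subtype_mk ?_ _
    exact continuous_subtype_val
  exact hjc.continuousAt.eventually (RC.eventually_eq hN hδ (j q₀) q₀.2.2)

/-- `η` is holomorphic -/
lemma pb_rt (hδ : Continuous δ) (hN : N ≠ 0) (hpb : ∀ p, PB (pow F s).pc δ p) (q₀ : Root δ N) :
    PB (root (pow F s) hδ hN).pc (fun q => q.1.2) q₀ := by
  obtain ⟨k, hk, hk2⟩ := hpb q₀.1.1
  have h0 : δ q₀.1.1 ≠ 0 := q₀.2.2
  have hc : Continuous fun q : Root δ N => q.1.1 := continuous_fst.comp continuous_subtype_val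
  refine ⟨fun x => lroot N q₀.1.2 (δ q₀.1.1) (k x), ?_, ?_⟩
  · have hk0 : k ((pow F s).pc q₀.1.1) = δ q₀.1.1 := (hk2.self_of_nhds).symm
    refine AnalyticAt.comp (g := lroot N q₀.1.2 (δ q₀.1.1)) (f := k) ?_ hk
    show AnalyticAt ℂ _ (k ((pow F s).pc q₀.1.1))
    rw [hk0]
    exact lroot_analyticAt h0 (by rw [div_self h0]; exact Complex.one_mem_slitPlane)
  · filter_upwards [root_ev hδ hN q₀, hc.continuousAt.eventually hk2] with q hq hq2
    rw [hq, hq2]
    rfl

/-! ### the group -/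

/-- the group of all `(π, ζ)` with `ζ ^ N = sign π` -/
def GG (s N : ℕ) : Subgroup (Equiv.Perm (Fin s) × ℂˣ) where
  carrier := {g | (g.2 : ℂ) ^ N = ((Equiv.Perm.sign g.1 : ℤ) : ℂ)}
  mul_mem' := by
    intro a b ha hb
    simp only [mem_ofPred_eq] at *
    rw [Prod.snd_mul, Prod.fst_mul, Units.val_mul, mul_pow, ha, hb, Equiv.Perm.sign_mul]
    simp
  one_mem' := by simp
  inv_mem' := by
    intro a ha
    simp only [mem_ofPred_eq] at *
    rw [Prod.snd_inv, Prod.fst_inv, Units.val_inv_eq_inv_val, inv_pow, ha, Equiv.Perm.sign_inv]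
    rcases Int.units_eq_one_or (Equiv.Perm.sign a.1) with h | h <;> simp [h]

lemma gg_spec {s N : ℕ} (g : GG s N) : (g.1.2 : ℂ) ^ N = ((Equiv.Perm.sign g.1.1 : ℤ) : ℂ) := g.2

lemma finite_gg {s N : ℕ} (hN : N ≠ 0) : Finite (GG s N) := by
  have h2N : NeZero (2 * N) := ⟨by omega⟩
  have hfin : ({ζ : ℂˣ | ζ ^ (2 * N) = 1}).Finite := by
    have : Finite (rootsOfUnity (2 * N) ℂ) := inferInstance
    have h1 : {ζ : ℂˣ | ζ ^ (2 * N) = 1} = (rootsOfUnity (2 * N) ℂ : Set ℂˣ) := by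
      ext ζ
      simp [mem_rootsOfUnity]
    rw [h1]
    exact Set.toFinite _
  have h3 : ((GG s N : Set (Equiv.Perm (Fin s) × ℂˣ))).Finite := by
    refine (Set.finite_univ.prod hfin).subset ?_
    rintro g hg
    refine ⟨mem_univ _, ?_⟩
    have hg' : (g.2 : ℂ) ^ N = ((Equiv.Perm.sign g.1 : ℤ) : ℂ) := hg
    have h4 : ((g.2 : ℂ)) ^ (2 * N) = 1 := by
      rw [mul_comm, pow_mul, hg']
      rcases Int.units_eq_one_or (Equiv.Perm.sign g.1) with h | h <;> simp [h]
    apply Units.ext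
    simpa using h4
  exact h3.to_subtype

/-- the character `(π, ζ) ↦ ζ` -/
def chi {s N : ℕ} (g : GG s N) : ℂ := (g.1.2 : ℂ)

lemma chi_norm {s N : ℕ} (hN : N ≠ 0) (g : GG s N) : ‖chi g‖ = 1 := by
  have h1 := gg_spec g
  have h2 : ‖chi g‖ ^ N = 1 := by
    unfold chi
    rw [← norm_pow, h1]
    rcases Int.units_eq_one_or (Equiv.Perm.sign g.1.1) with h | h <;> simp [h]
  exact (pow_eq_one_iff_of_nonneg (norm_nonneg _) hN).1 h2

lemma chi_mul {s N : ℕ} (g h : GG s N) : chi (g * h) = chi g * chi h := by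
  unfold chi
  simp

/-- permutation of the points -/
def pp (π : Equiv.Perm (Fin s)) (p : FPow F s) : FPow F s :=
  ⟨(p.1.1, fun i => p.1.2 (π i)), fun i => p.2 (π i)⟩

lemma continuous_pp (π : Equiv.Perm (Fin s)) : Continuous (pp (F := F) π) := by
  refine Continuous.subtype_mk ?_ _
  exact (continuous_fst.comp continuous_subtype_val).prodMk (continuous_pi fun i =>
    (continuous_apply (π i)).comp (continuous_snd.comp continuous_subtype_val))

lemma delta_pp (hδσ : ∀ p : FPow F s, δ p = (Matrix.of fun i j => σ i (p.1.2 j)).det)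
    (π : Equiv.Perm (Fin s)) (p : FPow F s) :
    δ (pp π p) = ((Equiv.Perm.sign π : ℤ) : ℂ) * δ p := by
  rw [hδσ, hδσ]
  exact alt_perm σ π p.1.2

variable (hδσ : ∀ p : FPow F s, δ p = (Matrix.of fun i j => σ i (p.1.2 j)).det)

lemma sgn_ne {s : ℕ} (π : Equiv.Perm (Fin s)) : ((Equiv.Perm.sign π : ℤ) : ℂ) ≠ 0 := by
  rcases Int.units_eq_one_or (Equiv.Perm.sign π) with h | h <;> simp [h]

/-- the action on the root cover -/
def al (g : GG s N) (y : Root δ N) : Root δ N :=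
  ⟨(pp g.1.1⁻¹ y.1.1, (g.1.2 : ℂ) * y.1.2), by
    show ((g.1.2 : ℂ) * y.1.2) ^ N = δ (pp g.1.1⁻¹ y.1.1)
    rw [delta_pp hδσ, mul_pow, y.2.1, gg_spec, Equiv.Perm.sign_inv], by
    show δ (pp g.1.1⁻¹ y.1.1) ≠ 0
    rw [delta_pp hδσ]
    exact mul_ne_zero (sgn_ne _) y.2.2⟩

/-- permutation of the coordinates -/
def ce (s r : ℕ) (π : Equiv.Perm (Fin s)) : Equiv.Perm (Fin (s * r)) :=
  (finProdFinEquiv.symm.trans (π.prodCongr (Equiv.refl (Fin r)))).trans finProdFinEquiv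

/-- the linear map on the fibre coordinates -/
def LL {s N : ℕ} (r : ℕ) (g : GG s N) : (Fin (s * r) → ℂ) ≃L[ℂ] (Fin (s * r) → ℂ) :=
  (LinearEquiv.funCongrLeft ℂ ℂ (ce s r g.1.1⁻¹)).toContinuousLinearEquiv

lemma LL_apply {s N : ℕ} (r : ℕ) (g : GG s N) (τ : Fin (s * r) → ℂ) (k : Fin (s * r)) :
    LL r g τ k = τ (ce s r g.1.1⁻¹ k) := rfl

lemma LL_unblk {s N : ℕ} (r : ℕ) (g : GG s N) (x : Fin s → Fin r → ℂ) :
    LL r g (unblk x) = unblk fun i => x (g.1.1⁻¹ i) := by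
  funext k
  rw [LL_apply]
  simp only [unblk, ce, Equiv.trans_apply, Equiv.symm_apply_apply, Equiv.prodCongr_apply,
    Prod.map_fst, Prod.map_snd, Equiv.refl_apply]

theorem gact (hδ : Continuous δ) (hN : N ≠ 0) :
    GAct (root (pow F s) hδ hN) (GG s N) (al hδσ) (LL r) where
  one := by
    intro y
    apply Subtype.ext
    refine Prod.ext (Subtype.ext (Prod.ext rfl ?_)) ?_
    · show (fun i => y.1.1.1.2 (((1 : GG s N).1.1)⁻¹ i)) = y.1.1.1.2
      funext i
      simp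
    · show (((1 : GG s N).1.2 : ℂˣ) : ℂ) * y.1.2 = y.1.2
      simp
  mul := by
    intro g h y
    apply Subtype.ext
    refine Prod.ext (Subtype.ext (Prod.ext rfl ?_)) ?_
    · show (fun i => y.1.1.1.2 (((g * h).1.1)⁻¹ i)) = fun i => y.1.1.1.2 (h.1.1⁻¹ (g.1.1⁻¹ i))
      funext i
      simp
    · show (((g * h).1.2 : ℂˣ) : ℂ) * y.1.2 = (g.1.2 : ℂ) * ((h.1.2 : ℂ) * y.1.2)
      simp [mul_assoc]
  cont := by
    intro g
    refine Continuous.subtype_mk ?_ _
    exact ((continuous_pp _).comp (continuous_fst.comp continuous_subtype_val)).prodMk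
      (continuous_const.mul (continuous_snd.comp continuous_subtype_val))
  q := fun _ _ => rfl
  t := by
    intro g y
    show unblk (fun i => F.t (y.1.1.1.2 (g.1.1⁻¹ i))) = LL r g (unblk fun i => F.t (y.1.1.1.2 i))
    rw [LL_unblk]
  vol := by
    intro g
    have h1 := volume_measurePreserving_piCongrLeft (fun _ : Fin (s * r) => ℂ)
      (ce s r g.1.1⁻¹).symm
    have h2 : ((MeasurableEquiv.piCongrLeft (fun _ : Fin (s * r) => ℂ) (ce s r g.1.1⁻¹).symm :
        (Fin (s * r) → ℂ) ≃ᵐ (Fin (s * r) → ℂ)) : (Fin (s * r) → ℂ) → (Fin (s * r) → ℂ))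
        = (LL r g : (Fin (s * r) → ℂ) → (Fin (s * r) → ℂ)) := by
      funext τ k
      rw [LL_apply]
      have h3 := MeasurableEquiv.piCongrLeft_apply_apply (β := fun _ : Fin (s * r) => ℂ)
        (ce s r g.1.1⁻¹).symm τ (ce s r g.1.1⁻¹ k)
      rw [Equiv.symm_apply_apply] at h3
      exact h3
    rw [← h2]
    exact h1

lemma eqv_of {hδ : Continuous δ} {hN : N ≠ 0} {u : S} {f : Root δ N → ℂ}
    (hf : ∀ (g : GG s N) y, (root (pow F s) hδ hN).q y = u → f (al hδσ g y) = chi g * f y) :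
    Eqv u f := by
  intro π ζ hζ y y' hy hy' h1 h2
  have hζ0 : ζ ≠ 0 := root_ne hN hζ (sgn_ne π)
  set g : GG s N := ⟨(π⁻¹, Units.mk0 ζ hζ0), by
    show (ζ : ℂ) ^ N = ((Equiv.Perm.sign π⁻¹ : ℤ) : ℂ)
    rw [hζ, Equiv.Perm.sign_inv]⟩ with hg
  have h3 : al hδσ g y = y' := by
    apply Subtype.ext
    refine Prod.ext (Subtype.ext (Prod.ext ?_ ?_)) ?_
    · show y.1.1.1.1 = y'.1.1.1.1
      rw [hy, hy']
    · show (fun i => y.1.1.1.2 ((π⁻¹)⁻¹ i)) = y'.1.1.1.2
      rw [h1]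
      funext i
      simp
    · show ζ * y.1.2 = y'.1.2
      exact h2.symm
  rw [← h3]
  exact hf g y hy

/-- local holomorphic sections of the top piece through a given vector -/
lemma hfr {n N w : ℕ} {X : Type*} [TopologicalSpace X] [RDom n X] (V : VHS n X N w) (u₀ : X)
    (a : Fin N → ℂ) (ha : Top8_815.IsTop w (V.E u₀) a) : ∃ e : X → Fin N → ℂ, e u₀ = a ∧
      HolAt (lV V.P e u₀) u₀ ∧ ∀ᶠ u in 𝓝 u₀, Top8_815.IsTop w (V.E u) (e u) := by
  obtain ⟨ρ, e, β, he, hev⟩ := exists_frame V u₀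
  obtain ⟨h1, h2, h3⟩ := hev.self_of_nhds
  refine ⟨fun u => ∑ k, β k (cm (V.P u₀ u₀) *ᵥ a) • e k u, (h3 a ha).symm, ?_, ?_⟩
  · exact holAt_sum _ fun k _ => Par_425.holAt_smul _ (he k)
  · filter_upwards [hev] with u hu
    exact tp_sum _ fun k _ => tp_smul _ (hu.1 k)

include hδσ in
/-- **THE CALABI–YAU LINE.** -/
theorem cy_line [T2Space Y] [SecondCountableTopology Y] (hδ : Continuous δ) (hN : N ≠ 0)
    (hN2 : 2 ≤ N) (hs : s ≠ 0) (hσ : ∀ i y, PB F.pc (σ i) y)
    (hconn : ∀ u, PreconnectedSpace (Fib F u))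
    (hli : ∀ (u : S) (a : Fin s → ℂ), (∀ y : Fib F u, ∑ i, a i * σ i y.1 = 0) → a = 0)
    (hcl : ∀ (u : S) (_ : MeasurableSpace (Fib F u)) (_ : BorelSpace (Fib F u))
      (μ : Measure (Fib F u)), IsLeb μ → ∀ g : Fib F u → ℂ, HolA g →
      ∫⁻ y, ‖g y‖ₑ ^ 2 * (∑ i, ‖σ i y.1‖ₑ ^ 2) ^ (-((N - 1 : ℝ) / N)) ∂μ ≠ ∞ →
      ∃ a : Fin s → ℂ, ∀ y, g y = ∑ i, a i * σ i y.1)
    {N' w : ℕ} {V : VHS m S N' w} {ι : S → (Fin N' → ℂ) → Root δ N → ℂ}
    (hR : Rz V (root (pow F s) hδ hN) ι)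
    (hfin : ∀ u, (root (pow F s) hδ hN).fnorm u (fun y => y.1.2) < ∞) :
    ∃ v : S → Fin N' → ℂ, (∀ u, Top8_815.IsTop w (V.E u) (v u)) ∧
      (∀ u (y : Root δ N), y.1.1.1.1 = u → ι u (v u) y = y.1.2) ∧
      (∀ u, (root (pow F s) hδ hN).fnorm u (fun y => y.1.2) = ENNReal.ofReal (hnsq V u (v u))) ∧
      (∀ u, HolAt (lV V.P v u) u) ∧ (∀ u, v u ≠ 0) ∧
      ∀ u j, ∃ c : ℂ, Dv V.P v j u = dM V.P V.E j u *ᵥ v u + c • v u := by
  have := finite_gg (s := s) hN
  have : Fintype (GG s N) := Fintype.ofFinite _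
  have hσA : ∀ u i, HolA (sgf F σ u i) := by
    intro u i y
    rw [anal_iff]
    obtain ⟨k, hk, hk2⟩ := hσ i y.1
    refine ⟨fun τ => k (cp u, τ), ?_, ?_⟩
    · have h1 : AnalyticAt ℂ (fun τ : Fin r → ℂ => ((cp u : Fin m → ℂ), τ)) (F.t y.1) :=
        analyticAt_const.prod analyticAt_id
      have h2 : F.pc y.1 = (cp u, F.t y.1) := by rw [FSp.pc, y.2]
      rw [h2] at hk
      exact AnalyticAt.comp (g := k) (f := fun τ : Fin r → ℂ => ((cp u : Fin m → ℂ), τ)) hk h1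
    · have hc : Continuous fun y : Fib F u => y.1 := continuous_subtype_val
      filter_upwards [hc.continuousAt.eventually hk2] with y' hy'
      show σ i y'.1 = _
      rw [hy', FSp.pc, y'.2]
      rfl
  have hPB : ∀ y, PB (root (pow F s) hδ hN).pc (fun y => y.1.2) y :=
    pb_rt hδ hN (pb_delta hδσ hσ)
  obtain ⟨v, hv1, hv2, hv3, hv4, hv5⟩ := par hR (gact hδσ hδ hN) (χ := chi) (chi_norm hN) chi_mul
    hPB hfin (fun g y => rfl) (fun u f hf hff hfe => by
      let _ : MeasurableSpace (Fib F u) := borel _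
      have _ : BorelSpace (Fib F u) := ⟨rfl⟩
      have _ := hconn u
      obtain ⟨μ, hμ⟩ := exists_leb (M := Fib F u)
      exact hone hδσ hN hδ hN2 hs hμ (hσA u) (hli u) (hcl u _ ⟨rfl⟩ μ hμ) (eqv_of hδσ hfe) hf hff)
    (hfr V)
  refine ⟨v, hv1, hv2, hv3, hv4, fun u h0 => ?_, hv5⟩
  -- the fibre of the root cover is not empty
  have hLI : LinearIndependent ℂ (sgf F σ u) := by
    rw [Fintype.linearIndependent_iff]
    intro a ha i
    have h1 := hli u a fun y => by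
      have := congrFun ha y
      simpa [sgf] using this
    rw [h1]; rfl
  obtain ⟨x, hx⟩ := Iso_425.exists_points (sgf F σ u) hLI
  have h1 := hv2 u (mkR hδσ x (rt0 N (alt (sgf F σ u) x)) (rt0_pow hN _) hx) rfl
  rw [h0, iota_zero hR u _ rfl] at h1
  exact root_ne hN (rt0_pow hN _) hx h1.symm

end Crest.Agent.R276.Cy_425
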