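import Crest.Agent.R276.Cyl_593

/-!
# R276, IPC leaf CYL, plane version (helper593)

Local identities for a section `φ` with `D*D φ = 0` of a harmonic bundle in a flat frame on an open
set `U` of `ℂ` (any coordinate), in the shape consumed by IPC-GL5 (post 1034):
`dA = 2F + 2G`, `div F = E`, `div G = 2Y - 2X`, Cauchy-Schwarz inequalities; harmonicity of the metric
from the grading operator (`H_x = 2i H E_y`, `H_y = -2i H E_x`); flat sections: `log |u|²` subharmonic.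
-/

set_option autoImplicit false

open Set Filter Topology
open scoped ComplexOrder Matrix ContDiff

noncomputable section

namespace Crest.Agent.R276.CylP_593

open Crest.Agent.R276.Cyl_593

variable {κ : Type*} [Fintype κ]

/-- entrywise directional derivative of a matrix valued function -/
def dM (H : ℂ → Matrix κ κ ℂ) (z v : ℂ) : Matrix κ κ ℂ :=
  Matrix.of fun i j => fderiv ℝ (fun y => H y i j) z v

/-- entrywise directional derivative of a vector valued function -/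
def dV (φ : ℂ → κ → ℂ) (z v : ℂ) : κ → ℂ := fun i => fderiv ℝ (fun y => φ y i) z v

/-- second derivative in the direction `v` -/
def d2M (H : ℂ → Matrix κ κ ℂ) (z v : ℂ) : Matrix κ κ ℂ := dM (fun y => dM H y v) z v

/-- second derivative in the direction `v` -/
def d2V (φ : ℂ → κ → ℂ) (z v : ℂ) : κ → ℂ := dV (fun y => dV φ y v) z v

/-- `MC n H U`: all entries are `C^n` on `U` -/
def MC (n : WithTop ℕ∞) (H : ℂ → Matrix κ κ ℂ) (U : Set ℂ) : Prop :=
  ∀ i j, ContDiffOn ℝ n (fun y => H y i j) U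

def VC (n : WithTop ℕ∞) (φ : ℂ → κ → ℂ) (U : Set ℂ) : Prop :=
  ∀ i, ContDiffOn ℝ n (fun y => φ y i) U

lemma hasDerivAt_line {F : Type*} [NormedAddCommGroup F] [NormedSpace ℝ F] {g : ℂ → F} {z v : ℂ}
    (hg : DifferentiableAt ℝ g z) : HasDerivAt (fun x : ℝ => g (z + x * v)) (fderiv ℝ g z v) 0 := by
  have h1 : HasDerivAt (fun x : ℝ => z + x * v) v 0 := by
    simpa using ((Complex.ofRealCLM.hasDerivAt (x := (0 : ℝ))).mul_const v).const_add z
  have h2 : HasFDerivAt g (fderiv ℝ g z) ((fun x : ℝ => z + x * v) 0) := by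
    simpa using hg.hasFDerivAt
  exact h2.comp_hasDerivAt 0 h1

omit [Fintype κ] in
lemma MD_line {n : WithTop ℕ∞} {H : ℂ → Matrix κ κ ℂ} {U : Set ℂ} (hU : IsOpen U)
    (hn : 1 ≤ n) (hH : MC n H U) {z : ℂ} (hz : z ∈ U) (v : ℂ) :
    ∀ i j, HasDerivAt (fun x : ℝ => H (z + x * v) i j) (dM H z v i j) 0 := fun i j =>
  hasDerivAt_line (((hH i j).contDiffAt (hU.mem_nhds hz)).differentiableAt (by
    intro h; rw [h] at hn; exact absurd hn (by simp)))

omit [Fintype κ] in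
lemma VD_line {n : WithTop ℕ∞} {φ : ℂ → κ → ℂ} {U : Set ℂ} (hU : IsOpen U)
    (hn : 1 ≤ n) (hφ : VC n φ U) {z : ℂ} (hz : z ∈ U) (v : ℂ) :
    ∀ i, HasDerivAt (fun x : ℝ => φ (z + x * v) i) (dV φ z v i) 0 := fun i =>
  hasDerivAt_line (((hφ i).contDiffAt (hU.mem_nhds hz)).differentiableAt (by
    intro h; rw [h] at hn; exact absurd hn (by simp)))

/-- regularity of the scalars -/
lemma contDiffOn_S {n : WithTop ℕ∞} {U : Set ℂ} {H : ℂ → Matrix κ κ ℂ} {u v : ℂ → κ → ℂ}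
    (hH : MC n H U) (hu : VC n u U) (hv : VC n v U) :
    ContDiffOn ℝ n (fun z => (S (H z) (u z) (v z)).re) U := by
  have h3 : (fun p => (S (H p) (u p) (v p)).re)
      = fun p => (∑ i, ∑ j, star (u p i) * H p i j * v p j).re := by
    funext y
    rw [S_eq]
  rw [h3]
  refine Complex.reCLM.contDiff.comp_contDiffOn ?_
  refine ContDiffOn.sum fun i _ => ContDiffOn.sum fun j _ => ?_
  exact ((Complex.conjCLE.contDiff.comp_contDiffOn (hu i)).mul (hH i j)).mul (hv j)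

omit [Fintype κ] in
lemma MC.dM {n : WithTop ℕ∞} {H : ℂ → Matrix κ κ ℂ} {U : Set ℂ} (hU : IsOpen U)
    (hH : MC (n + 1) H U) (v : ℂ) : MC n (fun z => dM H z v) U := fun i j =>
  ((hH i j).fderiv_of_isOpen hU le_rfl).clm_apply contDiffOn_const

omit [Fintype κ] in
lemma VC.dV {n : WithTop ℕ∞} {φ : ℂ → κ → ℂ} {U : Set ℂ} (hU : IsOpen U)
    (hφ : VC (n + 1) φ U) (v : ℂ) : VC n (fun z => dV φ z v) U := fun i =>
  ((hφ i).fderiv_of_isOpen hU le_rfl).clm_apply contDiffOn_const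

/-- product rule for the scalars, directional form -/
lemma fderiv_S {n : WithTop ℕ∞} {U : Set ℂ} (hU : IsOpen U) (hn : 1 ≤ n) {H : ℂ → Matrix κ κ ℂ}
    {u w : ℂ → κ → ℂ} (hH : MC n H U) (hu : VC n u U) (hw : VC n w U) {z : ℂ} (hz : z ∈ U)
    (v : ℂ) : fderiv ℝ (fun z => (S (H z) (u z) (w z)).re) z v
      = (S (H z) (dV u z v) (w z)).re + (S (dM H z v) (u z) (w z)).re
        + (S (H z) (u z) (dV w z v)).re := by
  have h0 : n ≠ 0 := by
    intro h; rw [h] at hn; exact absurd hn (by simp)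
  have h1 := hasDerivAt_line (v := v) (((contDiffOn_S hH hu hw).contDiffAt
    (hU.mem_nhds hz)).differentiableAt h0)
  have h2 := re_S_hasDerivAt (H := fun x : ℝ => H (z + x * v)) (u := fun x : ℝ => u (z + x * v))
    (v := fun x : ℝ => w (z + x * v)) (MD_line hU hn hH hz v) (VD_line hU hn hu hz v)
    (VD_line hU hn hw hz v)
  have h3 := h1.unique h2
  simpa using h3

section

variable [DecidableEq κ]

/-- the pointwise data: a harmonic metric and a section with `D*D φ = 0` in a flat frame -/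
structure PlaneData (H : ℂ → Matrix κ κ ℂ) (φ : ℂ → κ → ℂ) (U : Set ℂ) : Prop where
  op : IsOpen U
  cH : MC 2 H U
  cφ : VC 2 φ U
  pos : ∀ z ∈ U, (H z).PosDef
  harm : ∀ z ∈ U, d2M H z 1 + d2M H z Complex.I
    = dM H z 1 * (H z)⁻¹ * dM H z 1 + dM H z Complex.I * (H z)⁻¹ * dM H z Complex.I
  eqn : ∀ z ∈ U, dM H z 1 *ᵥ dV φ z 1 + H z *ᵥ d2V φ z 1
    + (dM H z Complex.I *ᵥ dV φ z Complex.I + H z *ᵥ d2V φ z Complex.I) = 0

end

variable (H : ℂ → Matrix κ κ ℂ) (φ : ℂ → κ → ℂ)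

def pA (z : ℂ) : ℝ := (S (H z) (φ z) (φ z)).re
def pf (v z : ℂ) : ℝ := (S (H z) (φ z) (dV φ z v)).re
def pg (v z : ℂ) : ℝ := 1 / 2 * (S (dM H z v) (φ z) (φ z)).re
def pe (v z : ℂ) : ℝ := (S (H z) (dV φ z v) (dV φ z v)).re
def px (v z : ℂ) : ℝ := -(1 / 2) * (S (dM H z v) (φ z) (dV φ z v)).re
def pF (z : ℂ) : ℂ →L[ℝ] ℝ := pf H φ 1 z • Complex.reCLM + pf H φ Complex.I z • Complex.imCLM
def pG (z : ℂ) : ℂ →L[ℝ] ℝ := pg H φ 1 z • Complex.reCLM + pg H φ Complex.I z • Complex.imCLM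
def pE (z : ℂ) : ℝ := pe H φ 1 z + pe H φ Complex.I z
def pX (z : ℂ) : ℝ := px H φ 1 z + px H φ Complex.I z
def pY (z : ℂ) : ℝ := 1 / 4 * (S (d2M H z 1 + d2M H z Complex.I) (φ z) (φ z)).re

/-- `div` of a one-form on the plane -/
def div (F : ℂ → ℂ →L[ℝ] ℝ) (z : ℂ) : ℝ := (fderiv ℝ F z 1) 1 + (fderiv ℝ F z Complex.I) Complex.I

lemma div_eq {f g : ℂ → ℝ} {z : ℂ} (hf : DifferentiableAt ℝ f z) (hg : DifferentiableAt ℝ g z) :
    div (fun z => f z • Complex.reCLM + g z • Complex.imCLM) z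
      = fderiv ℝ f z 1 + fderiv ℝ g z Complex.I := by
  have h : HasFDerivAt (fun z => f z • Complex.reCLM + g z • Complex.imCLM)
      ((fderiv ℝ f z).smulRight Complex.reCLM + (fderiv ℝ g z).smulRight Complex.imCLM) z :=
    (hf.hasFDerivAt.smul_const Complex.reCLM).add (hg.hasFDerivAt.smul_const Complex.imCLM)
  rw [div, h.fderiv]
  simp

lemma lin_apply (f g : ℝ) (v : ℂ) :
    (f • Complex.reCLM + g • Complex.imCLM : ℂ →L[ℝ] ℝ) v = f * v.re + g * v.im := by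
  simp

/-- two continuous real linear maps on `ℂ` agreeing at `1` and `I` are equal -/
lemma clm_ext {F : Type*} [NormedAddCommGroup F] [NormedSpace ℝ F] {L M : ℂ →L[ℝ] F}
    (h1 : L 1 = M 1) (hI : L Complex.I = M Complex.I) : L = M := by
  refine ContinuousLinearMap.ext fun x => ?_
  have hx : x = x.re • (1 : ℂ) + x.im • Complex.I := by
    simp
  rw [hx, map_add, map_add, map_smul, map_smul, map_smul, map_smul, h1, hI]

section main

variable [DecidableEq κ] {H : ℂ → Matrix κ κ ℂ} {φ : ℂ → κ → ℂ} {U : Set ℂ}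

namespace PlaneData

variable (D : PlaneData H φ U)
include D

lemma cH1 : MC 1 H U := fun i j => (D.cH i j).of_le (by norm_num)
lemma cφ1 : VC 1 φ U := fun i => (D.cφ i).of_le (by norm_num)
lemma cdH (v : ℂ) : MC 1 (fun z => dM H z v) U := MC.dM D.op (by simpa [one_add_one_eq_two] using D.cH) v
lemma cdφ (v : ℂ) : VC 1 (fun z => dV φ z v) U := VC.dV D.op (by simpa [one_add_one_eq_two] using D.cφ) v

lemma herm {z : ℂ} (hz : z ∈ U) (v : ℂ) : (dM H z v).IsHermitian := by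
  have h1 := MD_line D.op le_rfl D.cH1 hz v
  refine MD.isHermitian (H := fun x : ℝ => H (z + x * v)) (x := 0) h1 ?_
  have h2 : Tendsto (fun x : ℝ => z + x * v) (𝓝 0) (𝓝 z) := by
    have : Continuous (fun x : ℝ => z + x * v) := by fun_prop
    simpa using this.tendsto 0
  filter_upwards [h2 (D.op.mem_nhds hz)] with x hx
  exact (D.pos _ hx).isHermitian

/-- `pA` is `C²` -/
lemma contDiffOn_A : ContDiffOn ℝ 2 (pA H φ) U := contDiffOn_S D.cH D.cφ D.cφ
lemma contDiffOn_f (v : ℂ) : ContDiffOn ℝ 1 (pf H φ v) U := contDiffOn_S D.cH1 D.cφ1 (D.cdφ v)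
lemma contDiffOn_g (v : ℂ) : ContDiffOn ℝ 1 (pg H φ v) U :=
  contDiffOn_const.mul (contDiffOn_S (D.cdH v) D.cφ1 D.cφ1)
lemma contDiffOn_F : ContDiffOn ℝ 1 (pF H φ) U :=
  ((D.contDiffOn_f 1).smul contDiffOn_const).add ((D.contDiffOn_f Complex.I).smul contDiffOn_const)
lemma contDiffOn_G : ContDiffOn ℝ 1 (pG H φ) U :=
  ((D.contDiffOn_g 1).smul contDiffOn_const).add ((D.contDiffOn_g Complex.I).smul contDiffOn_const)

lemma contDiffOn_E : ContDiffOn ℝ 1 (pE H φ) U :=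
  (contDiffOn_S D.cH1 (D.cdφ _) (D.cdφ _)).add (contDiffOn_S D.cH1 (D.cdφ _) (D.cdφ _))
lemma contDiffOn_X : ContDiffOn ℝ 1 (pX H φ) U :=
  (contDiffOn_const.mul (contDiffOn_S (D.cdH _) D.cφ1 (D.cdφ _))).add
    (contDiffOn_const.mul (contDiffOn_S (D.cdH _) D.cφ1 (D.cdφ _)))

lemma continuousOn_Y : ContinuousOn (pY H φ) U := by
  have h0 : ∀ v, MC 0 (fun z => d2M H z v) U := fun v => MC.dM D.op (by simpa using D.cdH v) v
  have h1 : MC 0 (fun z => d2M H z 1 + d2M H z Complex.I) U := fun i j =>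
    (h0 1 i j).add (h0 Complex.I i j)
  have h2 : VC 0 φ U := fun i => (D.cφ i).of_le (by norm_num)
  exact (contDiffOn_const.mul (contDiffOn_S h1 h2 h2)).continuousOn

lemma A_nonneg {z : ℂ} (hz : z ∈ U) : 0 ≤ pA H φ z := re_S_nonneg (D.pos z hz).posSemidef _
lemma e_nonneg {z : ℂ} (hz : z ∈ U) (v : ℂ) : 0 ≤ pe H φ v z :=
  re_S_nonneg (D.pos z hz).posSemidef _
lemma E_nonneg {z : ℂ} (hz : z ∈ U) : 0 ≤ pE H φ z := add_nonneg (D.e_nonneg hz _) (D.e_nonneg hz _)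

omit D in
variable (H φ) in
/-- `|Θ_v φ|²` -/
def py (v z : ℂ) : ℝ := 1 / 4 * (S (dM H z v * (H z)⁻¹ * dM H z v) (φ z) (φ z)).re

lemma y_nonneg {z : ℂ} (hz : z ∈ U) (v : ℂ) : 0 ≤ py H φ v z :=
  mul_nonneg (by norm_num) (re_S_conj_nonneg (D.pos z hz) (D.herm hz v) _)

lemma Y_eq {z : ℂ} (hz : z ∈ U) : pY H φ z = py H φ 1 z + py H φ Complex.I z := by
  rw [pY, py, py, D.harm z hz, S_add_mat, Complex.add_re]
  ring

lemma Y_nonneg {z : ℂ} (hz : z ∈ U) : 0 ≤ pY H φ z := by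
  rw [D.Y_eq hz]
  exact add_nonneg (D.y_nonneg hz _) (D.y_nonneg hz _)

/-- `dA = 2 F + 2 G` -/
lemma fderiv_A {z : ℂ} (hz : z ∈ U) : fderiv ℝ (pA H φ) z = (2 : ℝ) • pF H φ z + (2 : ℝ) • pG H φ z := by
  have key : ∀ v : ℂ, fderiv ℝ (pA H φ) z v = 2 * pf H φ v z + 2 * pg H φ v z := by
    intro v
    have h := fderiv_S D.op le_rfl D.cH1 D.cφ1 D.cφ1 hz v
    have h2 : fderiv ℝ (pA H φ) z v = fderiv ℝ (fun z => (S (H z) (φ z) (φ z)).re) z v := rfl
    rw [h2, h, re_S_comm (D.pos z hz).isHermitian (dV φ z v) (φ z), pf, pg]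
    ring
  refine clm_ext ?_ ?_
  · rw [key 1]
    simp [pF, pG]
  · rw [key Complex.I]
    simp [pF, pG]

lemma diff_f {z : ℂ} (hz : z ∈ U) (v : ℂ) : DifferentiableAt ℝ (pf H φ v) z :=
  ((D.contDiffOn_f v).contDiffAt (D.op.mem_nhds hz)).differentiableAt one_ne_zero
lemma diff_g {z : ℂ} (hz : z ∈ U) (v : ℂ) : DifferentiableAt ℝ (pg H φ v) z :=
  ((D.contDiffOn_g v).contDiffAt (D.op.mem_nhds hz)).differentiableAt one_ne_zero

lemma fderiv_f {z : ℂ} (hz : z ∈ U) (v : ℂ) : fderiv ℝ (pf H φ v) z v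
    = pe H φ v z + (S (dM H z v) (φ z) (dV φ z v)).re + (S (H z) (φ z) (d2V φ z v)).re :=
  fderiv_S D.op le_rfl D.cH1 D.cφ1 (D.cdφ v) hz v

lemma fderiv_g {z : ℂ} (hz : z ∈ U) (v : ℂ) : fderiv ℝ (pg H φ v) z v
    = (S (dM H z v) (φ z) (dV φ z v)).re + 1 / 2 * (S (d2M H z v) (φ z) (φ z)).re := by
  have h := fderiv_S D.op le_rfl (D.cdH v) D.cφ1 D.cφ1 hz v
  have hd : DifferentiableAt ℝ (fun z => (S (dM H z v) (φ z) (φ z)).re) z :=
    ((contDiffOn_S (D.cdH v) D.cφ1 D.cφ1).contDiffAt (D.op.mem_nhds hz)).differentiableAt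
      one_ne_zero
  have h2 : fderiv ℝ (pg H φ v) z v
      = 1 / 2 * fderiv ℝ (fun z => (S (dM H z v) (φ z) (φ z)).re) z v := by
    have : pg H φ v = fun z => 1 / 2 * (S (dM H z v) (φ z) (φ z)).re := rfl
    rw [this, fderiv_const_mul hd]
    simp
  rw [h2, h, re_S_comm (D.herm hz v) (dV φ z v) (φ z), d2M]
  ring

/-- `div F = E` -/
lemma div_F {z : ℂ} (hz : z ∈ U) : div (pF H φ) z = pE H φ z := by
  have h0 : div (pF H φ) z = fderiv ℝ (pf H φ 1) z 1 + fderiv ℝ (pf H φ Complex.I) z Complex.I :=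
    div_eq (D.diff_f hz _) (D.diff_f hz _)
  rw [h0, D.fderiv_f hz, D.fderiv_f hz, pE]
  have h := congrArg (fun v => (star (φ z) ⬝ᵥ v).re) (D.eqn z hz)
  simp only [dotProduct_add, dotProduct_zero, Complex.add_re, Complex.zero_re] at h
  simp only [S]
  linarith

/-- `div G = 2 Y - 2 X` -/
lemma div_G {z : ℂ} (hz : z ∈ U) : div (pG H φ) z = 2 * pY H φ z - 2 * pX H φ z := by
  have h0 : div (pG H φ) z = fderiv ℝ (pg H φ 1) z 1 + fderiv ℝ (pg H φ Complex.I) z Complex.I :=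
    div_eq (D.diff_g hz _) (D.diff_g hz _)
  rw [h0, D.fderiv_g hz, D.fderiv_g hz, pX, px, px, pY, S_add_mat, Complex.add_re]
  ring

lemma f_sq {z : ℂ} (hz : z ∈ U) (v : ℂ) : pf H φ v z ^ 2 ≤ pA H φ z * pe H φ v z :=
  re_S_sq_le (D.pos z hz).posSemidef _ _

lemma g_sq {z : ℂ} (hz : z ∈ U) (v : ℂ) : pg H φ v z ^ 2 ≤ pA H φ z * py H φ v z := by
  have h := re_S_sq_le' (D.pos z hz) (D.herm hz v) (φ z) (φ z)
  simp only [pg, pA, py]
  nlinarith

lemma x_sq {z : ℂ} (hz : z ∈ U) (v : ℂ) : px H φ v z ^ 2 ≤ pe H φ v z * py H φ v z := by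
  have h := re_S_sq_le' (D.pos z hz) (D.herm hz v) (φ z) (dV φ z v)
  rw [re_S_comm (D.herm hz v)] at h
  simp only [px, pe, py]
  nlinarith

lemma X_sq {z : ℂ} (hz : z ∈ U) : pX H φ z ^ 2 ≤ pE H φ z * pY H φ z := by
  rw [pX, pE, D.Y_eq hz]
  exact CylData.two_cs (D.e_nonneg hz _) (D.e_nonneg hz _) (D.y_nonneg hz _) (D.y_nonneg hz _)
    (D.x_sq hz _) (D.x_sq hz _)

lemma EYX_nonneg {z : ℂ} (hz : z ∈ U) : 0 ≤ pE H φ z + pY H φ z - 2 * pX H φ z := by
  have h := D.X_sq hz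
  have hE := D.E_nonneg hz
  have hY := D.Y_nonneg hz
  have h2 : (2 * pX H φ z) ^ 2 ≤ (pE H φ z + pY H φ z) ^ 2 := by
    nlinarith [sq_nonneg (pE H φ z - pY H φ z)]
  have := (abs_le_of_sq_le_sq' h2 (add_nonneg hE hY)).2
  linarith

omit D [Fintype κ] [DecidableEq κ] in
lemma lin_sq_le {f g a e e' : ℝ} (hf : f ^ 2 ≤ a * e) (hg : g ^ 2 ≤ a * e') (v : ℂ) :
    (f * v.re + g * v.im) ^ 2 ≤ (e + e') * ‖v‖ ^ 2 * a := by
  have h1 : (f * v.re + g * v.im) ^ 2 ≤ (f ^ 2 + g ^ 2) * (v.re ^ 2 + v.im ^ 2) := by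
    nlinarith [sq_nonneg (f * v.im - g * v.re)]
  have h2 : ‖v‖ ^ 2 = v.re ^ 2 + v.im ^ 2 := by
    rw [Complex.sq_norm, Complex.normSq_apply]; ring
  rw [h2]
  nlinarith [mul_le_mul_of_nonneg_right (add_le_add hf hg)
    (add_nonneg (sq_nonneg v.re) (sq_nonneg v.im))]

/-- `|F|² ≤ E A` -/
lemma F_sq {z : ℂ} (hz : z ∈ U) (v : ℂ) :
    (pF H φ z v) ^ 2 ≤ pE H φ z * ‖v‖ ^ 2 * pA H φ z := by
  rw [pF, lin_apply]
  exact lin_sq_le (D.f_sq hz _) (D.f_sq hz _) v

/-- `|G|² ≤ Y A` -/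
lemma G_sq {z : ℂ} (hz : z ∈ U) (v : ℂ) :
    (pG H φ z v) ^ 2 ≤ pY H φ z * ‖v‖ ^ 2 * pA H φ z := by
  rw [pG, lin_apply, D.Y_eq hz]
  exact lin_sq_le (D.g_sq hz _) (D.g_sq hz _) v

end PlaneData

/-! ### product rules for matrix valued functions -/

omit [DecidableEq κ] in
lemma dM_mul {A B : ℂ → Matrix κ κ ℂ} (hU : IsOpen U) (hA : MC 1 A U) (hB : MC 1 B U) {z : ℂ}
    (hz : z ∈ U) (v : ℂ) : dM (fun y => A y * B y) z v = dM A z v * B z + A z * dM B z v := by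
  ext i j
  have h1 := MD_line hU le_rfl hA hz v
  have h2 := MD_line hU le_rfl hB hz v
  have hc : ContDiffOn ℝ 1 (fun y => (A y * B y) i j) U := by
    simp only [Matrix.mul_apply]
    exact ContDiffOn.sum fun k _ => (hA i k).mul (hB k j)
  have h3 := hasDerivAt_line (v := v) ((hc.contDiffAt (hU.mem_nhds hz)).differentiableAt one_ne_zero)
  have h4 : HasDerivAt (fun x : ℝ => (A (z + x * v) * B (z + x * v)) i j)
      (∑ k, (dM A z v i k * B (z + (0 : ℝ) * v) k j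
        + A (z + (0 : ℝ) * v) i k * dM B z v k j)) 0 := by
    simp only [Matrix.mul_apply]
    exact HasDerivAt.fun_sum fun k _ => (h1 i k).mul (h2 k j)
  have h5 := h3.unique h4
  simp only [dM, Matrix.of_apply, Matrix.add_apply, Matrix.mul_apply] at h5 ⊢
  rw [h5]
  simp [Finset.sum_add_distrib]

omit [DecidableEq κ] in
lemma dV_mulVec {A : ℂ → Matrix κ κ ℂ} {u : ℂ → κ → ℂ} (hU : IsOpen U) (hA : MC 1 A U)
    (hu : VC 1 u U) {z : ℂ} (hz : z ∈ U) (v : ℂ) :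
    dV (fun y => A y *ᵥ u y) z v = dM A z v *ᵥ u z + A z *ᵥ dV u z v := by
  ext i
  have h1 := MD_line hU le_rfl hA hz v
  have h2 := VD_line hU le_rfl hu hz v
  have hc : ContDiffOn ℝ 1 (fun y => (A y *ᵥ u y) i) U := by
    simp only [Matrix.mulVec, dotProduct]
    exact ContDiffOn.sum fun k _ => (hA i k).mul (hu k)
  have h3 := hasDerivAt_line (v := v) ((hc.contDiffAt (hU.mem_nhds hz)).differentiableAt one_ne_zero)
  have h4 : HasDerivAt (fun x : ℝ => (A (z + x * v) *ᵥ u (z + x * v)) i)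
      (∑ k, (dM A z v i k * u (z + (0 : ℝ) * v) k
        + A (z + (0 : ℝ) * v) i k * dV u z v k)) 0 := by
    simp only [Matrix.mulVec, dotProduct]
    exact HasDerivAt.fun_sum fun k _ => (h1 i k).mul (h2 k)
  have h5 := h3.unique h4
  simp only [dV, Pi.add_apply, Matrix.mulVec, dotProduct] at h5 ⊢
  rw [h5]
  simp [Finset.sum_add_distrib]

omit [Fintype κ] [DecidableEq κ] in
lemma dM_congr {A B : ℂ → Matrix κ κ ℂ} (hU : IsOpen U) (h : ∀ z ∈ U, A z = B z) {z : ℂ}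
    (hz : z ∈ U) (v : ℂ) : dM A z v = dM B z v := by
  ext i j
  simp only [dM, Matrix.of_apply]
  have : (fun y => A y i j) =ᶠ[𝓝 z] fun y => B y i j := by
    filter_upwards [hU.mem_nhds hz] with y hy
    rw [h y hy]
  rw [this.fderiv_eq]

omit [Fintype κ] [DecidableEq κ] in
lemma dM_smul {A : ℂ → Matrix κ κ ℂ} (hU : IsOpen U) (hA : MC 1 A U) (c : ℂ) {z : ℂ}
    (hz : z ∈ U) (v : ℂ) : dM (fun y => c • A y) z v = c • dM A z v := by
  ext i j
  simp only [dM, Matrix.of_apply, Matrix.smul_apply, smul_eq_mul]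
  have hd := ((hA i j).contDiffAt (hU.mem_nhds hz)).differentiableAt one_ne_zero
  rw [fderiv_const_mul hd]
  rfl

omit [Fintype κ] [DecidableEq κ] in
/-- symmetry of the second derivatives -/
lemma dM_symm {E : ℂ → Matrix κ κ ℂ} (hU : IsOpen U) (hE : MC 2 E U) {z : ℂ} (hz : z ∈ U)
    (v w : ℂ) : dM (fun y => dM E y v) z w = dM (fun y => dM E y w) z v := by
  ext i j
  simp only [dM, Matrix.of_apply]
  have h2 : ContDiffAt ℝ 2 (fun y => E y i j) z := (hE i j).contDiffAt (hU.mem_nhds hz)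
  have hs : IsSymmSndFDerivAt ℝ (fun y => E y i j) z := h2.isSymmSndFDerivAt (by simp)
  have hd : DifferentiableAt ℝ (fderiv ℝ (fun y => E y i j)) z :=
    (h2.fderiv_right (m := 1) (by norm_num)).differentiableAt one_ne_zero
  have key : ∀ a b : ℂ, fderiv ℝ (fun y => fderiv ℝ (fun y => E y i j) y a) z b
      = fderiv ℝ (fderiv ℝ (fun y => E y i j)) z b a := by
    intro a b
    have := (hd.hasFDerivAt.clm_apply (hasFDerivAt_const a z)).fderiv
    rw [this]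
    simp
  rw [key, key]
  exact hs w v

/-- **the metric of a graded bundle is harmonic**: `H_x = 2i H E_y`, `H_y = -2i H E_x`
(`E` = grading operator, `[E, ∂E] = -∂E`, `H = S (-1)^E`) -/
lemma harm_of_grading {E : ℂ → Matrix κ κ ℂ} (hU : IsOpen U) (hH : MC 1 H U) (hE : MC 2 E U)
    (hdet : ∀ z ∈ U, IsUnit (H z).det)
    (h1 : ∀ z ∈ U, dM H z 1 = (2 * Complex.I) • (H z * dM E z Complex.I))
    (h2 : ∀ z ∈ U, dM H z Complex.I = (-(2 * Complex.I)) • (H z * dM E z 1)) {z : ℂ}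
    (hz : z ∈ U) : d2M H z 1 + d2M H z Complex.I
      = dM H z 1 * (H z)⁻¹ * dM H z 1 + dM H z Complex.I * (H z)⁻¹ * dM H z Complex.I := by
  have cE : ∀ v, MC 1 (fun y => dM E y v) U := fun v =>
    MC.dM hU (by simpa [one_add_one_eq_two] using hE) v
  have cp : ∀ v, MC 1 (fun y => H y * dM E y v) U := fun v i j => by
    simp only [Matrix.mul_apply]
    exact ContDiffOn.sum fun k _ => (hH i k).mul (cE v k j)
  have e1 : d2M H z 1 = (2 * Complex.I) • (dM H z 1 * dM E z Complex.I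
      + H z * dM (fun y => dM E y Complex.I) z 1) := by
    rw [d2M, dM_congr hU h1 hz 1, dM_smul hU (cp _) _ hz, dM_mul hU hH (cE _) hz]
  have e2 : d2M H z Complex.I = (-(2 * Complex.I)) • (dM H z Complex.I * dM E z 1
      + H z * dM (fun y => dM E y 1) z Complex.I) := by
    rw [d2M, dM_congr hU h2 hz Complex.I, dM_smul hU (cp _) _ hz, dM_mul hU hH (cE _) hz]
  have e3 : dM (fun y => dM E y Complex.I) z 1 = dM (fun y => dM E y 1) z Complex.I :=
    dM_symm hU hE hz _ _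
  have e4 : dM H z 1 * (H z)⁻¹ * dM H z 1 = (2 * Complex.I) • (dM H z 1 * dM E z Complex.I) := by
    conv_lhs => rhs; rw [h1 z hz]
    rw [Matrix.mul_smul, Matrix.mul_assoc, ← Matrix.mul_assoc (H z)⁻¹,
      Matrix.nonsing_inv_mul _ (hdet z hz), Matrix.one_mul]
  have e5 : dM H z Complex.I * (H z)⁻¹ * dM H z Complex.I
      = (-(2 * Complex.I)) • (dM H z Complex.I * dM E z 1) := by
    conv_lhs => rhs; rw [h2 z hz]
    rw [Matrix.mul_smul, Matrix.mul_assoc, ← Matrix.mul_assoc (H z)⁻¹,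
      Matrix.nonsing_inv_mul _ (hdet z hz), Matrix.one_mul]
  rw [e1, e2, e3, e4, e5]
  module

omit [DecidableEq κ] in
/-- the equation `D*D φ = 0` in divergence form -/
lemma eqn_of_div (hU : IsOpen U) (hH : MC 1 H U) (hφ : VC 2 φ U) {z : ℂ} (hz : z ∈ U)
    (h : dV (fun y => H y *ᵥ dV φ y 1) z 1
      + dV (fun y => H y *ᵥ dV φ y Complex.I) z Complex.I = 0) :
    dM H z 1 *ᵥ dV φ z 1 + H z *ᵥ d2V φ z 1
    + (dM H z Complex.I *ᵥ dV φ z Complex.I + H z *ᵥ d2V φ z Complex.I) = 0 := by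
  have cφ : ∀ v, VC 1 (fun y => dV φ y v) U := fun v =>
    VC.dV hU (by simpa [one_add_one_eq_two] using hφ) v
  rw [dV_mulVec hU hH (cφ _) hz, dV_mulVec hU hH (cφ _) hz] at h
  exact h

/-! ### flat sections -/

omit [Fintype κ] [DecidableEq κ] in
lemma dV_const (u : κ → ℂ) (z v : ℂ) : dV (fun _ => u) z v = 0 := by
  ext i
  simp [dV]

omit [Fintype κ] [DecidableEq κ] in
lemma d2V_const (u : κ → ℂ) (z v : ℂ) : d2V (fun _ => u) z v = 0 := by
  ext i
  simp [d2V, dV]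

/-- a harmonic metric together with a constant (= flat) section is `PlaneData` -/
lemma PlaneData.of_flat (hU : IsOpen U) (cH : MC 2 H U) (pos : ∀ z ∈ U, (H z).PosDef)
    (harm : ∀ z ∈ U, d2M H z 1 + d2M H z Complex.I
      = dM H z 1 * (H z)⁻¹ * dM H z 1 + dM H z Complex.I * (H z)⁻¹ * dM H z Complex.I)
    (u : κ → ℂ) : PlaneData H (fun _ => u) U where
  op := hU
  cH := cH
  cφ := fun i => contDiffOn_const
  pos := pos
  harm := harm
  eqn := fun z _ => by simp [dV_const, d2V_const]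

omit [Fintype κ] [DecidableEq κ] in
/-- the Laplacian is the divergence of the differential -/
lemma laplacian_eq_div (f : ℂ → ℝ) (z : ℂ) :
    Laplacian.laplacian f z = div (fderiv ℝ f) z := by
  rw [InnerProductSpace.laplacian_eq_iteratedFDeriv_complexPlane]
  simp [div, iteratedFDeriv_two_apply]

section flat

variable {u : κ → ℂ} (hu : u ≠ 0) (D : PlaneData H (fun _ => u) U)
include D hu

lemma flat_A_pos {z : ℂ} (hz : z ∈ U) : 0 < pA H (fun _ => u) z := re_S_pos (D.pos z hz) hu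

omit hu in
lemma flat_fderiv_A {z : ℂ} (hz : z ∈ U) :
    fderiv ℝ (pA H (fun _ => u)) z = (2 : ℝ) • pG H (fun _ => u) z := by
  have h := D.fderiv_A hz
  have h2 : pF H (fun _ => u) z = 0 := by
    simp [pF, pf, dV_const, S]
  rw [h2] at h
  simpa using h

/-- `|d log |u|²|` is bounded by `2 |Θ|` -/
lemma flat_fderiv_log_le {z : ℂ} (hz : z ∈ U) {c : ℝ} (hc : 0 ≤ c)
    (hY : pY H (fun _ => u) z ≤ c ^ 2 * pA H (fun _ => u) z) (v : ℂ) :
    |fderiv ℝ (fun z => Real.log (pA H (fun _ => u) z)) z v| ≤ 2 * c * ‖v‖ := by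
  have hA := flat_A_pos hu D hz
  have hd : DifferentiableAt ℝ (pA H (fun _ => u)) z :=
    (D.contDiffOn_A.contDiffAt (D.op.mem_nhds hz)).differentiableAt two_ne_zero
  have h1 : fderiv ℝ (fun z => Real.log (pA H (fun _ => u) z)) z v
      = 2 * (pG H (fun _ => u) z v) / pA H (fun _ => u) z := by
    rw [(hd.hasFDerivAt.log hA.ne').fderiv, flat_fderiv_A D hz]
    simp
    field_simp
  have h2 := D.G_sq hz v
  rw [h1, abs_div, abs_of_pos hA, div_le_iff₀ hA]
  have h3 : (pG H (fun _ => u) z v) ^ 2 ≤ (c * ‖v‖ * pA H (fun _ => u) z) ^ 2 := by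
    refine h2.trans ?_
    have : pY H (fun _ => u) z * ‖v‖ ^ 2 * pA H (fun _ => u) z
        ≤ (c ^ 2 * pA H (fun _ => u) z) * ‖v‖ ^ 2 * pA H (fun _ => u) z :=
      mul_le_mul_of_nonneg_right (mul_le_mul_of_nonneg_right hY (sq_nonneg _)) hA.le
    refine this.trans (le_of_eq ?_)
    ring
  have h4 : |pG H (fun _ => u) z v| ≤ c * ‖v‖ * pA H (fun _ => u) z :=
    abs_le_of_sq_le_sq h3 (by positivity)
  rw [abs_mul, abs_of_pos (by norm_num : (0 : ℝ) < 2)]
  nlinarith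

/-- `log |u|²` is subharmonic for flat `u` (divergence form) -/
lemma flat_div_log_nonneg {z : ℂ} (hz : z ∈ U) :
    0 ≤ div (fderiv ℝ (fun z => Real.log (pA H (fun _ => u) z))) z := by
  set A := pA H (fun _ => u) with hAdef
  set g := fun v => pg H (fun _ => u) v with hgdef
  have hA : 0 < A z := flat_A_pos hu D hz
  have hdA : ∀ y ∈ U, DifferentiableAt ℝ A y := fun y hy =>
    (D.contDiffOn_A.contDiffAt (D.op.mem_nhds hy)).differentiableAt two_ne_zero
  have h1 : ∀ y ∈ U, fderiv ℝ (fun z => Real.log (A z)) y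
      = (2 * g 1 y / A y) • Complex.reCLM + (2 * g Complex.I y / A y) • Complex.imCLM := by
    intro y hy
    have hAy := flat_A_pos hu D hy
    rw [((hdA y hy).hasFDerivAt.log hAy.ne').fderiv, flat_fderiv_A D hy, pG]
    refine clm_ext ?_ ?_
    · simp
      ring
    · simp
      ring
  have h2 : fderiv ℝ (fun z => Real.log (A z)) =ᶠ[𝓝 z] fun y =>
      (2 * g 1 y / A y) • Complex.reCLM + (2 * g Complex.I y / A y) • Complex.imCLM := by
    filter_upwards [D.op.mem_nhds hz] with y hy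
    exact h1 y hy
  have hdq : ∀ v, HasFDerivAt (fun y => 2 * g v y / A y)
      ((A z)⁻¹ • ((2 : ℝ) • fderiv ℝ (g v) z) - (2 * g v z / (A z) ^ 2) • fderiv ℝ A z) z := by
    intro v
    have h3 : HasFDerivAt (fun y => 2 * g v y) ((2 : ℝ) • fderiv ℝ (g v) z) z :=
      (D.diff_g hz v).hasFDerivAt.const_mul 2
    have h4 := h3.mul ((hasDerivAt_inv hA.ne').comp_hasFDerivAt z (hdA z hz).hasFDerivAt)
    have h5 : (fun y => 2 * g v y / A y) = (fun y => 2 * g v y) * (Inv.inv ∘ A) := by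
      funext y
      simp [div_eq_mul_inv]
    rw [h5]
    refine h4.congr_fderiv ?_
    refine ContinuousLinearMap.ext fun w => ?_
    simp
    field_simp
    ring
  have h3 : div (fderiv ℝ (fun z => Real.log (A z))) z
      = fderiv ℝ (fun y => 2 * g 1 y / A y) z 1
        + fderiv ℝ (fun y => 2 * g Complex.I y / A y) z Complex.I := by
    rw [← div_eq (hdq 1).differentiableAt (hdq Complex.I).differentiableAt, div, div,
      h2.fderiv_eq]
  rw [h3, (hdq 1).fderiv, (hdq Complex.I).fderiv]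
  have h4 : fderiv ℝ (g 1) z 1 + fderiv ℝ (g Complex.I) z Complex.I = 2 * pY H (fun _ => u) z := by
    have h5 := D.div_G hz
    have h6 : div (pG H (fun _ => u)) z = fderiv ℝ (g 1) z 1 + fderiv ℝ (g Complex.I) z Complex.I :=
      div_eq (D.diff_g hz _) (D.diff_g hz _)
    have h7 : pX H (fun _ => u) z = 0 := by
      simp [pX, px, dV_const, S]
    rw [← h6, h5, h7]
    ring
  have h5 : fderiv ℝ A z 1 = 2 * g 1 z := by
    rw [flat_fderiv_A D hz]
    simp [pG, hgdef]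
  have h6 : fderiv ℝ A z Complex.I = 2 * g Complex.I z := by
    rw [flat_fderiv_A D hz]
    simp [pG, hgdef]
  have h7 : g 1 z ^ 2 + g Complex.I z ^ 2 ≤ A z * pY H (fun _ => u) z := by
    rw [D.Y_eq hz, mul_add]
    exact add_le_add (D.g_sq hz _) (D.g_sq hz _)
  have h8 : ((A z)⁻¹ • ((2 : ℝ) • fderiv ℝ (g 1) z) - (2 * g 1 z / (A z) ^ 2) • fderiv ℝ A z) 1
      + ((A z)⁻¹ • ((2 : ℝ) • fderiv ℝ (g Complex.I) z)
        - (2 * g Complex.I z / (A z) ^ 2) • fderiv ℝ A z) Complex.I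
      = (4 * (A z * pY H (fun _ => u) z) - 4 * (g 1 z ^ 2 + g Complex.I z ^ 2)) / (A z) ^ 2 := by
    simp only [sub_apply, smul_apply, smul_eq_mul, h5, h6]
    have h9 : fderiv ℝ (g Complex.I) z Complex.I
        = 2 * pY H (fun _ => u) z - fderiv ℝ (g 1) z 1 := by linarith
    rw [h9]
    field_simp
    ring
  rw [h8]
  refine div_nonneg ?_ (sq_nonneg _)
  linarith

/-- `log |u|²` is subharmonic for flat `u` -/
lemma flat_laplacian_log_nonneg {z : ℂ} (hz : z ∈ U) :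
    0 ≤ Laplacian.laplacian (fun z => Real.log (pA H (fun _ => u) z)) z := by
  rw [laplacian_eq_div]
  exact flat_div_log_nonneg hu D hz

end flat

end main

end Crest.Agent.R276.CylP_593
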