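import Mathlib

/-!
# R276 / IPC: the one-dimensional growth lemma (step (5) of helper735's iterated parabolic cohomology)

On the end of a punctured curve, with `s = log 1/|x|`, a section `φ` of a polarised VHS with
`D^* D φ = 0` and `∫ |Dφ|^2 < ∞` gives the functions
`a = ∮|φ|²`, `f = Re ∮⟨D_s φ, φ⟩`, `g = -∮⟨Θ_s φ, φ⟩`, `e = ∮|Dφ|²`, `p = ∮|Θφ|²`,
`q = Re ∮⟨Dφ, Θφ⟩` with
`f' = e`, `a' = 2f + 2g`, `g' = 2p - 2q`, `q² ≤ e p`, `g² ≤ p a`, `s² p ≤ C² a`, `f² ≤ a e`.
If `f` is bounded above (equivalently `∫ e < ∞`) then `f → 0`.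
No integral appears in the proof.
-/

set_option autoImplicit false

open Set Filter Topology

namespace Crest.Agent.R276.IpcOde_817

/-- Monotonicity on `[s1, ∞)` from a nonnegative derivative. -/
lemma mono_of_hasDerivAt {F F' : ℝ → ℝ} {s1 : ℝ} (hF : ∀ s, s1 ≤ s → HasDerivAt F (F' s) s)
    (h : ∀ s, s1 ≤ s → 0 ≤ F' s) {u v : ℝ} (hu : s1 ≤ u) (huv : u ≤ v) : F u ≤ F v := by
  have hmono : MonotoneOn F (Ici s1) := by
    apply monotoneOn_of_deriv_nonneg (convex_Ici s1)
    · intro s hs
      exact (hF s hs).continuousAt.continuousWithinAt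
    · intro s hs
      rw [interior_Ici] at hs
      exact (hF s (le_of_lt hs)).differentiableAt.differentiableWithinAt
    · intro s hs
      rw [interior_Ici] at hs
      rw [(hF s (le_of_lt hs)).deriv]
      exact h s (le_of_lt hs)
  exact hmono hu (le_trans hu huv) huv

/-- AM-GM in the form used below. -/
lemma abs_le_amgm {u X Y lam : ℝ} (hX : 0 ≤ X) (hY : 0 ≤ Y) (hlam : 0 < lam)
    (h : u ^ 2 ≤ X * Y) : |u| ≤ lam / 4 * X + Y / lam := by
  apply abs_le_of_sq_le_sq
  · have h1 : (lam / 4 * X + Y / lam) ^ 2 - X * Y = (lam / 4 * X - Y / lam) ^ 2 := by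
      field_simp
      ring
    nlinarith [sq_nonneg (lam / 4 * X - Y / lam)]
  · positivity

/-- A function with derivative bounded below by `c/s` is unbounded above. -/
lemma not_bdd_of_deriv_ge {f e : ℝ → ℝ} {s1 c M : ℝ} (hs1 : 0 < s1) (hc : 0 < c)
    (hf : ∀ s, s1 ≤ s → HasDerivAt f (e s) s) (he : ∀ s, s1 ≤ s → c / s ≤ e s)
    (hM : ∀ s, s1 ≤ s → f s ≤ M) : False := by
  have hd : ∀ s, s1 ≤ s → HasDerivAt (fun s => f s - c * Real.log s) (e s - c * s⁻¹) s :=
    fun s hs => (hf s hs).sub ((Real.hasDerivAt_log (by linarith : s ≠ 0)).const_mul c)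
  have hnn : ∀ s, s1 ≤ s → 0 ≤ e s - c * s⁻¹ := by
    intro s hs
    have h2 : c * s⁻¹ = c / s := by rw [div_eq_mul_inv]
    rw [h2]
    linarith [he s hs]
  have htend : Tendsto (fun s : ℝ => c * Real.log s) atTop atTop :=
    Tendsto.const_mul_atTop hc Real.tendsto_log_atTop
  obtain ⟨s, hs1s, hsM⟩ := ((eventually_ge_atTop s1).and
    (htend.eventually_gt_atTop (M - (f s1 - c * Real.log s1)))).exists
  have h1 := mono_of_hasDerivAt hd hnn le_rfl hs1s
  have h2 := hM s hs1s
  linarith

/-- The derivative estimate for `x = g/a`. -/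
lemma x_deriv_ge {a f g e p q C s a1 lam : ℝ} (hs : 0 < s) (ha1 : 0 < a1) (haa : a1 ≤ a)
    (he : 0 ≤ e) (hp : 0 ≤ p) (hq : q ^ 2 ≤ e * p) (hg : g ^ 2 ≤ p * a)
    (hpa : s ^ 2 * p ≤ C ^ 2 * a) (hfe : f ^ 2 ≤ a * e) (hlam : 0 < lam) :
    0 ≤ ((2 * p - 2 * q) * a - g * (2 * f + 2 * g)) / a ^ 2 + lam * e
      + 4 * C ^ 2 / (lam * a1) * (1 / s ^ 2) := by
  have ha : 0 < a := lt_of_lt_of_le ha1 haa
  have h1 : |q| ≤ (lam * a) / 4 * e + p / (lam * a) := abs_le_amgm he hp (by positivity) hq
  have h2 : |g * f| ≤ (lam * a) / 4 * (a * e) + (p * a) / (lam * a) := by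
    apply abs_le_amgm (by positivity) (by positivity) (by positivity)
    calc (g * f) ^ 2 = g ^ 2 * f ^ 2 := by ring
      _ ≤ (p * a) * (a * e) := by gcongr
      _ = a * e * (p * a) := by ring
  have h1' := (abs_le.mp h1).2
  have h2' := (abs_le.mp h2).2
  have h3 : p / a ≤ C ^ 2 / s ^ 2 := by
    rw [div_le_div_iff₀ ha (by positivity)]
    linarith
  have h4 : (p / a) / (lam * a) ≤ (C ^ 2 / s ^ 2) / (lam * a1) := by gcongr
  have hident : ((2 * p - 2 * q) * a - g * (2 * f + 2 * g)) / a ^ 2
      = 2 * (p * a - g ^ 2) / a ^ 2 - 2 * q / a - 2 * (g * f) / a ^ 2 := by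
    field_simp
    ring
  have h5 : 0 ≤ 2 * (p * a - g ^ 2) / a ^ 2 := by
    apply div_nonneg _ (by positivity)
    linarith
  have h6 : 2 * q / a ≤ lam / 2 * e + 2 * ((p / a) / (lam * a)) := by
    have : 2 * q / a ≤ 2 * ((lam * a) / 4 * e + p / (lam * a)) / a := by gcongr
    refine this.trans (le_of_eq ?_)
    field_simp
    ring
  have h7 : 2 * (g * f) / a ^ 2 ≤ lam / 2 * e + 2 * ((p / a) / (lam * a)) := by
    have : 2 * (g * f) / a ^ 2 ≤
        2 * ((lam * a) / 4 * (a * e) + (p * a) / (lam * a)) / a ^ 2 := by gcongr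
    refine this.trans (le_of_eq ?_)
    field_simp
    ring
  have h8 : 4 * C ^ 2 / (lam * a1) * (1 / s ^ 2) = 4 * ((C ^ 2 / s ^ 2) / (lam * a1)) := by
    field_simp
  rw [hident, h8]
  linarith

/-- **Growth lemma** (step (5) of IPC). -/
theorem flux_tendsto_zero {a f g e p q : ℝ → ℝ} {s0 C M : ℝ} (hs0 : 0 < s0)
    (ha : ∀ s, s0 ≤ s → 0 ≤ a s)
    (he : ∀ s, s0 ≤ s → 0 ≤ e s)
    (hp : ∀ s, s0 ≤ s → 0 ≤ p s)
    (hf' : ∀ s, s0 ≤ s → HasDerivAt f (e s) s)
    (ha' : ∀ s, s0 ≤ s → HasDerivAt a (2 * f s + 2 * g s) s)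
    (hg' : ∀ s, s0 ≤ s → HasDerivAt g (2 * p s - 2 * q s) s)
    (hq : ∀ s, s0 ≤ s → q s ^ 2 ≤ e s * p s)
    (hg : ∀ s, s0 ≤ s → g s ^ 2 ≤ p s * a s)
    (hpa : ∀ s, s0 ≤ s → s ^ 2 * p s ≤ C ^ 2 * a s)
    (hfe : ∀ s, s0 ≤ s → f s ^ 2 ≤ a s * e s)
    (hM : ∀ s, s0 ≤ s → f s ≤ M) :
    Tendsto f atTop (𝓝 0) := by
  -- the limit of `f`
  have hfmono : ∀ u v, s0 ≤ u → u ≤ v → f u ≤ f v :=
    fun u v hu huv => mono_of_hasDerivAt hf' he hu huv
  obtain ⟨l, hl⟩ : ∃ l, Tendsto f atTop (𝓝 l) := by
    have hmono : Monotone (fun s => f (max s s0)) := fun u v huv =>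
      hfmono _ _ (le_max_right _ _) (max_le_max_right _ huv)
    have hbdd : BddAbove (range fun s => f (max s s0)) :=
      ⟨M, by rintro _ ⟨s, rfl⟩; exact hM _ (le_max_right _ _)⟩
    refine ⟨_, (tendsto_atTop_ciSup hmono hbdd).congr' ?_⟩
    filter_upwards [eventually_ge_atTop s0] with s hs
    rw [max_eq_left hs]
  have hfl : ∀ s, s0 ≤ s → f s ≤ l := by
    intro s hs
    refine ge_of_tendsto hl ?_
    filter_upwards [eventually_ge_atTop s] with t ht
    exact hfmono s t hs ht
  -- linear growth of `a`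
  have hlin : ∃ K s1, s0 ≤ s1 ∧ 0 < K ∧ ∀ s, s1 ≤ s → a s ≤ K * s := by
    by_cases hA : ∀ s, s0 ≤ s → f s + g s ≤ 0
    · refine ⟨a s0 / s0 + 1, s0, le_rfl, ?_, fun s hs => ?_⟩
      · have := div_nonneg (ha s0 le_rfl) hs0.le
        linarith
      · have h1 := mono_of_hasDerivAt (F := fun s => - a s) (fun s hs => (ha' s hs).neg)
          (fun s hs => by have := hA s hs; linarith) le_rfl hs
        have h2 : a s ≤ a s0 := by linarith
        have h3 : a s0 / s0 * s0 = a s0 := div_mul_cancel₀ _ hs0.ne'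
        have h4 : a s0 / s0 * s0 ≤ a s0 / s0 * s :=
          mul_le_mul_of_nonneg_left hs (div_nonneg (ha s0 le_rfl) hs0.le)
        have h5 : 0 < s := lt_of_lt_of_le hs0 hs
        nlinarith
    · push Not at hA
      obtain ⟨s2, hs2, hc⟩ := hA
      -- `f + g` is monotone
      have hfg : ∀ s, s2 ≤ s → f s2 + g s2 ≤ f s + g s := by
        intro s hs
        refine mono_of_hasDerivAt (F := fun s => f s + g s) (s1 := s0)
          (fun s hs => (hf' s hs).add (hg' s hs)) (fun s hs => ?_) hs2 hs
        have h1 : |q s| ≤ 2 / 4 * e s + p s / 2 :=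
          abs_le_amgm (he s hs) (hp s hs) (by norm_num) (hq s hs)
        have h2 := (abs_le.mp h1).2
        have h3 := hp s hs
        linarith
      have hpos : ∀ s, s2 ≤ s → 0 ≤ 2 * f s + 2 * g s := fun s hs => by
        have := hfg s hs
        linarith
      have hamono : ∀ u v, s2 ≤ u → u ≤ v → a u ≤ a v := fun u v hu huv =>
        mono_of_hasDerivAt (fun s hs => ha' s (le_trans hs2 hs)) hpos hu huv
      -- `a` is positive from `s3` on
      set s3 := s2 + 1 with hs3
      have hs23 : s2 ≤ s3 := by linarith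
      have ha3 : 0 < a s3 := by
        have h1 := mono_of_hasDerivAt (F := fun s => a s - 2 * (f s2 + g s2) * s) (s1 := s2)
          (fun s hs => (ha' s (le_trans hs2 hs)).sub ((hasDerivAt_id s).const_mul _))
          (fun s hs => by have := hfg s hs; simp only [mul_one]; linarith) le_rfl hs23
        simp only [hs3] at h1 ⊢
        have h2 := ha s2 hs2
        nlinarith
      have hapos : ∀ s, s3 ≤ s → 0 < a s := fun s hs =>
        lt_of_lt_of_le ha3 (hamono s3 s hs23 hs)
      have hs3pos : 0 < s3 := by linarith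
      set K0 := l - f s0 + 4 * C ^ 2 with hK0
      have hK0n : 0 ≤ K0 := by
        have := hfl s0 le_rfl
        have h2 : 0 ≤ 4 * C ^ 2 := by positivity
        linarith
      have hgbd : ∀ s, s3 ≤ s → g s ≤ K0 * Real.sqrt (a s / s) := by
        intro r hr
        have hrpos : 0 < r := lt_of_lt_of_le hs3pos hr
        have har : 0 < a r := hapos r hr
        have hr0 : s0 ≤ r := le_trans hs2 (le_trans hs23 hr)
        set w := Real.sqrt (a r * r) with hw
        have hwpos : 0 < w := Real.sqrt_pos.mpr (by positivity)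
        have hwsq : w ^ 2 = a r * r := Real.sq_sqrt (by positivity)
        set lam := 1 / w with hlam
        have hlampos : 0 < lam := by positivity
        let G : ℝ → ℝ := fun s => g s / a s + lam * f s - 4 * C ^ 2 / (lam * a r) * (1 / s)
        have hG : ∀ s, r ≤ s → HasDerivAt G
            (((2 * p s - 2 * q s) * a s - g s * (2 * f s + 2 * g s)) / a s ^ 2 + lam * e s
              + 4 * C ^ 2 / (lam * a r) * (1 / s ^ 2)) s := by
          intro s hs
          have hs0' : s0 ≤ s := le_trans hr0 hs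
          have hsp : 0 < s := lt_of_lt_of_le hrpos hs
          have has : a s ≠ 0 := (hapos s (le_trans hr hs)).ne'
          have h1 := (hg' s hs0').div (ha' s hs0') has
          have h2 := (hf' s hs0').const_mul lam
          have h3 : HasDerivAt (fun s : ℝ => 1 / s) (-(1 / s ^ 2)) s := by
            have := hasDerivAt_inv hsp.ne'
            simpa [one_div] using this
          have h4 := (h1.add h2).sub (h3.const_mul (4 * C ^ 2 / (lam * a r)))
          refine h4.congr_deriv ?_
          ring
        have hGnn : ∀ s, r ≤ s → 0 ≤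
            (((2 * p s - 2 * q s) * a s - g s * (2 * f s + 2 * g s)) / a s ^ 2 + lam * e s
              + 4 * C ^ 2 / (lam * a r) * (1 / s ^ 2)) := by
          intro s hs
          have hs0' : s0 ≤ s := le_trans hr0 hs
          exact x_deriv_ge (lt_of_lt_of_le hrpos hs) har
            (hamono r s (le_trans hs23 hr) hs) (he s hs0') (hp s hs0') (hq s hs0') (hg s hs0')
            (hpa s hs0') (hfe s hs0') hlampos
        have hGmono : ∀ s, r ≤ s → G r ≤ G s := fun s hs =>
          mono_of_hasDerivAt hG hGnn le_rfl hs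
        -- the limit of `G`
        have hx0 : Tendsto (fun s => g s / a s) atTop (𝓝 0) := by
          have hb : Tendsto (fun s : ℝ => |C| / s) atTop (𝓝 0) :=
            tendsto_const_nhds.div_atTop tendsto_id
          refine squeeze_zero_norm' ?_ hb
          filter_upwards [eventually_ge_atTop r] with s hs
          have hs0' : s0 ≤ s := le_trans hr0 hs
          have hsp : 0 < s := lt_of_lt_of_le hrpos hs
          have has : 0 < a s := hapos s (le_trans hr hs)
          rw [Real.norm_eq_abs, abs_div, abs_of_pos has, div_le_div_iff₀ has hsp]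
          apply le_of_sq_le_sq _ (by positivity)
          calc (|g s| * s) ^ 2 = g s ^ 2 * s ^ 2 := by rw [mul_pow, sq_abs]
            _ ≤ (p s * a s) * s ^ 2 := by
                have := hg s hs0'
                gcongr
            _ = (s ^ 2 * p s) * a s := by ring
            _ ≤ (C ^ 2 * a s) * a s := by
                have := hpa s hs0'
                gcongr
            _ = (|C| * a s) ^ 2 := by rw [mul_pow, sq_abs]; ring
        have hGlim : Tendsto G atTop (𝓝 (lam * l)) := by
          have h1 : Tendsto (fun s : ℝ => 1 / s) atTop (𝓝 0) :=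
            tendsto_const_nhds.div_atTop tendsto_id
          have h2 := (hx0.add (hl.const_mul lam)).sub (h1.const_mul (4 * C ^ 2 / (lam * a r)))
          simpa [G] using h2
        have hGr : G r ≤ lam * l := by
          refine ge_of_tendsto hGlim ?_
          filter_upwards [eventually_ge_atTop r] with s hs using hGmono s hs
        have h1 : g r / a r ≤ K0 / w := by
          have hfr : f s0 ≤ f r := hfmono s0 r le_rfl hr0
          have h2 : 4 * C ^ 2 / (lam * a r) * (1 / r) = 4 * C ^ 2 / w := by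
            rw [hlam]
            have : 4 * C ^ 2 / (1 / w * a r) * (1 / r) = 4 * C ^ 2 * w / (a r * r) := by
              field_simp
            rw [this, ← hwsq]
            field_simp
          have h3 : g r / a r + lam * f r - 4 * C ^ 2 / w ≤ lam * l := by
            rw [← h2]
            exact hGr
          have h4 : K0 / w = lam * (l - f s0) + 4 * C ^ 2 / w := by
            rw [hK0, hlam]
            ring
          rw [h4]
          nlinarith
        have h5 : Real.sqrt (a r / r) = a r / w := by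
          rw [Real.sqrt_eq_iff_mul_self_eq (by positivity) (by positivity)]
          rw [div_mul_div_comm, ← sq w, hwsq]
          field_simp
        rw [h5]
        rw [div_le_div_iff₀ har hwpos] at h1
        rw [mul_div_assoc', le_div_iff₀ hwpos]
        linarith
      -- the barrier for `b = a / s`
      set B := max (a s3 / s3) (16 * K0 ^ 2 + 4 * |l| + 1) with hB
      have hBpos : 0 < B := lt_of_lt_of_le (by positivity) (le_max_right _ _)
      refine ⟨B, s3, le_trans hs2 hs23, hBpos, fun s hs => ?_⟩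
      have hspos : 0 < s := lt_of_lt_of_le hs3pos hs
      suffices h : a s / s ≤ B by
        rwa [div_le_iff₀ hspos] at h
      have hderiv : ∀ r, s3 ≤ r → HasDerivAt (fun r => a r / r)
          (((2 * f r + 2 * g r) * r - a r * 1) / r ^ 2) r := fun r hr =>
        (ha' r (le_trans hs2 (le_trans hs23 hr))).div (hasDerivAt_id r)
          (lt_of_lt_of_le hs3pos hr).ne'
      refine image_le_of_deriv_right_lt_deriv_boundary
        (f := fun r => a r / r) (f' := fun r => ((2 * f r + 2 * g r) * r - a r * 1) / r ^ 2)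
        (a := s3) (b := s) (B := fun _ => B) (B' := fun _ => 0) ?_ ?_ ?_ ?_ ?_ ?_
      · intro r hr
        exact (hderiv r hr.1).continuousAt.continuousWithinAt
      · intro r hr
        exact (hderiv r hr.1).hasDerivWithinAt
      · exact le_max_left _ _
      · intro r
        exact hasDerivAt_const r B
      · intro r hr hrB
        have hrpos : 0 < r := lt_of_lt_of_le hs3pos hr.1
        have h1 := hgbd r hr.1
        have hrB' : a r / r = B := hrB
        rw [hrB'] at h1
        have h2 : a r = B * r := by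
          rw [← hrB']
          field_simp
        have h3 := hfl r (le_trans hs2 (le_trans hs23 hr.1))
        set u := Real.sqrt B with hu
        have hu2 : u ^ 2 = B := Real.sq_sqrt hBpos.le
        have hu0 : 0 ≤ u := Real.sqrt_nonneg _
        have hB16 : 16 * K0 ^ 2 + 4 * |l| + 1 ≤ B := le_max_right _ _
        have h4 : 4 * K0 ≤ u := by
          apply le_of_sq_le_sq _ hu0
          rw [hu2]
          have : 0 ≤ 4 * |l| := by positivity
          nlinarith
        have h5 : 2 * l ≤ B / 2 - 1 / 2 := by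
          have := le_abs_self l
          have h6 : 0 ≤ 16 * K0 ^ 2 := by positivity
          linarith
        have h6 : 2 * (K0 * u) ≤ B / 2 := by
          rw [← hu2]
          nlinarith
        have h7 : 2 * f r + 2 * g r < B := by linarith
        rw [h2]
        apply div_neg_of_neg_of_pos _ (by positivity)
        nlinarith
      · exact ⟨hs, le_rfl⟩
  obtain ⟨K, s1, hs1, hK, hlin⟩ := hlin
  by_contra hne
  have hl0 : l ≠ 0 := by
    rintro rfl
    exact hne hl
  have hev : ∀ᶠ s in atTop, l ^ 2 / 4 ≤ f s ^ 2 := by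
    have h1 : Tendsto (fun s => f s ^ 2) atTop (𝓝 (l ^ 2)) := hl.pow 2
    have h2 : l ^ 2 / 4 < l ^ 2 := by
      have : 0 < l ^ 2 := by positivity
      linarith
    filter_upwards [h1.eventually (lt_mem_nhds h2)] with s hs using hs.le
  obtain ⟨s2, hs2⟩ := eventually_atTop.mp hev
  have hs3 : 0 < max s1 s2 := lt_of_lt_of_le (lt_of_lt_of_le hs0 hs1) (le_max_left _ _)
  refine not_bdd_of_deriv_ge (f := f) (e := e) (s1 := max s1 s2) (c := l ^ 2 / 4 / K) (M := M)
    hs3 (by positivity) (fun s hs => hf' s (le_trans hs1 (le_trans (le_max_left _ _) hs)))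
    (fun s hs => ?_) (fun s hs => hM s (le_trans hs1 (le_trans (le_max_left _ _) hs)))
  have hsa : s1 ≤ s := le_trans (le_max_left _ _) hs
  have hsb : s2 ≤ s := le_trans (le_max_right _ _) hs
  have hspos : 0 < s := lt_of_lt_of_le hs3 hs
  have h1 := hs2 s hsb
  have h2 := hfe s (le_trans hs1 hsa)
  have h3 := hlin s hsa
  have h4 := he s (le_trans hs1 hsa)
  rw [div_div, div_le_iff₀ (by positivity)]
  nlinarith [mul_le_mul_of_nonneg_right h3 h4]

end Crest.Agent.R276.IpcOde_817
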