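import Mathlib
import Crest.Agent.R276.IpcOde_817

/-!
# R276, IPC leaf CYL (helper593): the cylinder identities (step (5) of post 755)

Flat frame on the half cylinder `s > s0`, real coordinates `(s, t)`; `H` = Hodge metric (positive
definite matrix), `φ` = section (vector), `Θ_i = -(1/2) H⁻¹ ∂_i H`.
* harmonicity of the metric: `H_ss + H_tt = H_s H⁻¹ H_s + H_t H⁻¹ H_t`;
* `D*D φ = 0`: `∂_s (H φ_s) + ∂_t (H φ_t) = 0`.
`A = |φ|²`, `E = |Dφ|²`, `F_i = Re ⟨D_i φ, φ⟩`, `G_i = -⟨Θ_i φ, φ⟩`, `Y = |Θ φ|²`,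
`X = Re ⟨D φ, Θ φ⟩` satisfy `∂_i A = 2 F_i + 2 G_i`, `div F = E`, `div G = 2 Y - 2 X`; integration over
the circle gives exactly the hypotheses of the growth lemma (`IpcOde_817.flux_tendsto_zero`).
-/

set_option autoImplicit false

open Set Filter Topology MeasureTheory
open scoped ComplexOrder Matrix

noncomputable section

namespace Crest.Agent.R276.Cyl_593

variable {κ : Type*} [Fintype κ]

/-- the sesquilinear form of a matrix -/
def S (M : Matrix κ κ ℂ) (u v : κ → ℂ) : ℂ := star u ⬝ᵥ (M *ᵥ v)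

lemma S_eq (M : Matrix κ κ ℂ) (u v : κ → ℂ) :
    S M u v = ∑ i, ∑ j, star (u i) * M i j * v j := by
  simp only [S, dotProduct, Matrix.mulVec, Pi.star_apply, Finset.mul_sum, mul_assoc]

lemma S_add_left (M : Matrix κ κ ℂ) (u u' v : κ → ℂ) : S M (u + u') v = S M u v + S M u' v := by
  simp [S, star_add, add_dotProduct]

lemma S_add_right (M : Matrix κ κ ℂ) (u v v' : κ → ℂ) : S M u (v + v') = S M u v + S M u v' := by
  simp [S, Matrix.mulVec_add, dotProduct_add]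

lemma S_add_mat (M M' : Matrix κ κ ℂ) (u v : κ → ℂ) : S (M + M') u v = S M u v + S M' u v := by
  simp [S, Matrix.add_mulVec, dotProduct_add]

lemma S_smul_right (M : Matrix κ κ ℂ) (c : ℂ) (u v : κ → ℂ) : S M u (c • v) = c * S M u v := by
  simp [S, Matrix.mulVec_smul, dotProduct_smul]

lemma S_smul_left (M : Matrix κ κ ℂ) (c : ℂ) (u v : κ → ℂ) :
    S M (c • u) v = star c * S M u v := by
  simp [S, star_smul, smul_dotProduct]

lemma S_mul (M P : Matrix κ κ ℂ) (u v : κ → ℂ) : S (M * P) u v = S M u (P *ᵥ v) := by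
  simp [S, Matrix.mulVec_mulVec]

lemma S_conjTranspose (M : Matrix κ κ ℂ) (u v : κ → ℂ) : S Mᴴ u v = star (S M v u) := by
  rw [S_eq, S_eq, star_sum, Finset.sum_comm]
  refine Finset.sum_congr rfl fun i _ => ?_
  rw [star_sum]
  refine Finset.sum_congr rfl fun j _ => ?_
  simp only [Matrix.conjTranspose_apply, star_mul', star_star]
  ring

lemma S_mulVec_left (M P : Matrix κ κ ℂ) (u v : κ → ℂ) : S M (P *ᵥ u) v = S (Pᴴ * M) u v := by
  rw [S, S, Matrix.star_mulVec, ← Matrix.dotProduct_mulVec, Matrix.mulVec_mulVec]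

lemma re_S_comm {M : Matrix κ κ ℂ} (hM : M.IsHermitian) (u v : κ → ℂ) :
    (S M u v).re = (S M v u).re := by
  conv_lhs => rw [← hM.eq, S_conjTranspose]
  simp

/-- the quadratic form -/
lemma re_S_nonneg {M : Matrix κ κ ℂ} (hM : M.PosSemidef) (u : κ → ℂ) : 0 ≤ (S M u u).re := by
  have := hM.dotProduct_mulVec_nonneg u
  exact (Complex.le_def.1 this).1

lemma re_S_pos {M : Matrix κ κ ℂ} (hM : M.PosDef) {u : κ → ℂ} (hu : u ≠ 0) :
    0 < (S M u u).re := by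
  have := hM.dotProduct_mulVec_pos hu
  exact (Complex.lt_def.1 this).1

/-- Cauchy-Schwarz -/
lemma re_S_sq_le {M : Matrix κ κ ℂ} (hM : M.PosSemidef) (u v : κ → ℂ) :
    (S M u v).re ^ 2 ≤ (S M u u).re * (S M v v).re := by
  have key : ∀ x : ℝ, 0 ≤ (S M v v).re * (x * x) + (2 * (S M u v).re) * x + (S M u u).re := by
    intro x
    have h := re_S_nonneg hM (u + (x : ℂ) • v)
    have h2 : (S M (u + (x : ℂ) • v) (u + (x : ℂ) • v)).re
        = (S M v v).re * (x * x) + (2 * (S M u v).re) * x + (S M u u).re := by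
      rw [S_add_left, S_add_right, S_add_right, S_smul_right, S_smul_left, S_smul_left,
        S_smul_right]
      have hc : (S M v u).re = (S M u v).re := re_S_comm hM.isHermitian v u
      simp [hc]
      ring
    rw [h2] at h
    exact h
  have := discrim_le_zero key
  unfold discrim at this
  nlinarith

/-- entrywise derivative of a matrix valued function -/
def MD (H : ℝ → Matrix κ κ ℂ) (H' : Matrix κ κ ℂ) (x : ℝ) : Prop :=
  ∀ i j, HasDerivAt (fun y => H y i j) (H' i j) x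

/-- entrywise derivative of a vector valued function -/
def VD (u : ℝ → κ → ℂ) (u' : κ → ℂ) (x : ℝ) : Prop :=
  ∀ i, HasDerivAt (fun y => u y i) (u' i) x

lemma S_hasDerivAt {H : ℝ → Matrix κ κ ℂ} {u v : ℝ → κ → ℂ} {H' : Matrix κ κ ℂ} {u' v' : κ → ℂ}
    {x : ℝ} (hH : MD H H' x) (hu : VD u u' x) (hv : VD v v' x) :
    HasDerivAt (fun y => S (H y) (u y) (v y))
      (S (H x) u' (v x) + S H' (u x) (v x) + S (H x) (u x) v') x := by
  have h1 : ∀ i j, HasDerivAt (fun y => star (u y i) * H y i j * v y j)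
      (star (u' i) * H x i j * v x j + star (u x i) * H' i j * v x j
        + star (u x i) * H x i j * v' j) x := by
    intro i j
    have h := ((hu i).star.mul (hH i j)).mul (hv j)
    refine h.congr_deriv ?_
    simp only [Pi.mul_apply]
    ring
  have h2 := HasDerivAt.fun_sum (u := Finset.univ) (fun i _ =>
    HasDerivAt.fun_sum (u := Finset.univ) (fun j _ => h1 i j))
  have h3 : (fun y => S (H y) (u y) (v y))
      = fun y => ∑ i, ∑ j, star (u y i) * H y i j * v y j := by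
    funext y
    exact S_eq _ _ _
  rw [h3]
  refine h2.congr_deriv ?_
  simp only [S_eq, Finset.sum_add_distrib]

lemma re_hasDerivAt {f : ℝ → ℂ} {f' : ℂ} {x : ℝ} (h : HasDerivAt f f' x) :
    HasDerivAt (fun y => (f y).re) f'.re x := by
  exact (Complex.reCLM.hasFDerivAt.comp_hasDerivAt x h)

lemma re_S_hasDerivAt {H : ℝ → Matrix κ κ ℂ} {u v : ℝ → κ → ℂ} {H' : Matrix κ κ ℂ}
    {u' v' : κ → ℂ} {x : ℝ} (hH : MD H H' x) (hu : VD u u' x) (hv : VD v v' x) :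
    HasDerivAt (fun y => (S (H y) (u y) (v y)).re)
      ((S (H x) u' (v x)).re + (S H' (u x) (v x)).re + (S (H x) (u x) v').re) x := by
  have := re_hasDerivAt (S_hasDerivAt hH hu hv)
  simpa using this

omit [Fintype κ] in
/-- the derivative of a Hermitian matrix valued function is Hermitian -/
lemma MD.isHermitian {H : ℝ → Matrix κ κ ℂ} {H' : Matrix κ κ ℂ} {x : ℝ} (hH : MD H H' x)
    (h : ∀ᶠ y in 𝓝 x, (H y).IsHermitian) : H'.IsHermitian := by
  ext i j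
  rw [Matrix.conjTranspose_apply]
  have h1 : HasDerivAt (fun y => star (H y j i)) (star (H' j i)) x := (hH j i).star
  have h2 : (fun y => star (H y j i)) =ᶠ[𝓝 x] fun y => H y i j := by
    filter_upwards [h] with y hy
    exact hy.apply i j
  exact (h1.congr_of_eventuallyEq h2.symm).unique (hH i j)

/-- continuity of `S` -/
lemma continuousOn_S {α : Type*} [TopologicalSpace α] {D : Set α} {H : α → Matrix κ κ ℂ}
    {u v : α → κ → ℂ} (hH : ∀ i j, ContinuousOn (fun p => H p i j) D)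
    (hu : ∀ i, ContinuousOn (fun p => u p i) D) (hv : ∀ i, ContinuousOn (fun p => v p i) D) :
    ContinuousOn (fun p => (S (H p) (u p) (v p)).re) D := by
  have h3 : (fun p => (S (H p) (u p) (v p)).re)
      = fun p => (∑ i, ∑ j, star (u p i) * H p i j * v p j).re := by
    funext y
    rw [S_eq]
  rw [h3]
  refine Complex.continuous_re.comp_continuousOn ?_
  refine continuousOn_finsetSum _ fun i _ => continuousOn_finsetSum _ fun j _ => ?_
  exact ((continuous_star.comp_continuousOn (hu i)).mul (hH i j)).mul (hv j)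

section circle

/-- differentiation under the circle integral -/
lemma hasDerivAt_circle {s0 a b : ℝ} {f f' : ℝ → ℝ → ℝ}
    (hd : ∀ s, s0 < s → ∀ t, HasDerivAt (fun x => f x t) (f' s t) s)
    (hf : ContinuousOn (fun p : ℝ × ℝ => f p.1 p.2) {p | s0 < p.1})
    (hf' : ContinuousOn (fun p : ℝ × ℝ => f' p.1 p.2) {p | s0 < p.1}) {s : ℝ} (hs : s0 < s) :
    HasDerivAt (fun x => ∫ t in a..b, f x t) (∫ t in a..b, f' s t) s := by
  have hcont : ∀ {g : ℝ → ℝ → ℝ}, ContinuousOn (fun p : ℝ × ℝ => g p.1 p.2) {p | s0 < p.1} →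
      ∀ x, s0 < x → Continuous (fun t => g x t) := by
    intro g hg x hx
    rw [← continuousOn_univ]
    refine hg.comp (by fun_prop : ContinuousOn (fun t : ℝ => (x, t)) univ) ?_
    intro t _
    exact hx
  obtain ⟨c, hc1, hc2⟩ := exists_between hs
  have hK : IsCompact (Icc c (s + 1) ×ˢ uIcc a b) := isCompact_Icc.prod isCompact_uIcc
  have hKs : Icc c (s + 1) ×ˢ uIcc a b ⊆ {p : ℝ × ℝ | s0 < p.1} := by
    intro p hp
    exact lt_of_lt_of_le hc1 hp.1.1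
  obtain ⟨B, hB⟩ := hK.exists_bound_of_continuousOn (hf'.mono hKs)
  refine (intervalIntegral.hasDerivAt_integral_of_dominated_loc_of_deriv_le (bound := fun _ => B)
    (s := Ioo c (s + 1)) (Ioo_mem_nhds hc2 (by linarith)) ?_ ?_ ?_ ?_ ?_ ?_).2
  · filter_upwards [Ioo_mem_nhds hc2 (by linarith : s < s + 1)] with x hx
    exact ((hcont hf x (hc1.trans hx.1)).aestronglyMeasurable)
  · exact (hcont hf s hs).intervalIntegrable _ _
  · exact (hcont hf' s hs).aestronglyMeasurable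
  · refine Eventually.of_forall fun t ht x hx => ?_
    exact hB (x, t) ⟨⟨hx.1.le, hx.2.le⟩, uIoc_subset_uIcc ht⟩
  · exact intervalIntegrable_const
  · exact Eventually.of_forall fun t _ x hx => hd x (hc1.trans hx.1) t

/-- integral Cauchy-Schwarz inequality from the pointwise one -/
lemma integral_sq_le {a b : ℝ} (hab : a ≤ b) {u v w : ℝ → ℝ} (hu : Continuous u)
    (hv : Continuous v) (hw : Continuous w) (hv0 : ∀ t, 0 ≤ v t) (hw0 : ∀ t, 0 ≤ w t)
    (h : ∀ t, u t ^ 2 ≤ v t * w t) :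
    (∫ t in a..b, u t) ^ 2 ≤ (∫ t in a..b, v t) * ∫ t in a..b, w t := by
  have key : ∀ x : ℝ, 0 ≤ (∫ t in a..b, w t) * (x * x) + (2 * ∫ t in a..b, u t) * x
      + ∫ t in a..b, v t := by
    intro x
    have h1 : (∫ t in a..b, w t) * (x * x) + (2 * ∫ t in a..b, u t) * x + ∫ t in a..b, v t
        = ∫ t in a..b, (w t * (x * x) + 2 * u t * x + v t) := by
      rw [intervalIntegral.integral_add, intervalIntegral.integral_add,
        intervalIntegral.integral_mul_const, intervalIntegral.integral_mul_const,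
        intervalIntegral.integral_const_mul]
      · exact (hw.mul continuous_const).intervalIntegrable _ _
      · exact ((continuous_const.mul hu).mul continuous_const).intervalIntegrable _ _
      · exact ((hw.mul continuous_const).add
          ((continuous_const.mul hu).mul continuous_const)).intervalIntegrable _ _
      · exact hv.intervalIntegrable _ _
    rw [h1]
    refine intervalIntegral.integral_nonneg hab fun t _ => ?_
    by_cases hw1 : w t = 0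
    · have h2 : u t = 0 := by
        have := h t
        rw [hw1, mul_zero] at this
        nlinarith [sq_nonneg (u t), sq_eq_zero_iff.1 (le_antisymm this (sq_nonneg (u t)))]
      simp [hw1, h2, hv0 t]
    · have hw2 : 0 < w t := lt_of_le_of_ne (hw0 t) (Ne.symm hw1)
      have h3 : 0 ≤ w t * (w t * (x * x) + 2 * u t * x + v t) := by
        nlinarith [h t, sq_nonneg (w t * x + u t)]
      exact nonneg_of_mul_nonneg_right h3 hw2
  have := discrim_le_zero key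
  unfold discrim at this
  nlinarith

end circle

section data

variable [DecidableEq κ]

lemma inv_mul_cancel' {H : Matrix κ κ ℂ} (hH : H.PosDef) (P : Matrix κ κ ℂ) :
    H * (H⁻¹ * P) = P := by
  rw [← Matrix.mul_assoc, Matrix.mul_nonsing_inv _ ((Matrix.isUnit_iff_isUnit_det _).1 hH.isUnit),
    Matrix.one_mul]

/-- `S (P H⁻¹ P) u u = |H⁻¹ P u|²` -/
lemma S_conj_inv {H P : Matrix κ κ ℂ} (hH : H.PosDef) (hP : P.IsHermitian) (u : κ → ℂ) :
    S (P * H⁻¹ * P) u u = S H ((H⁻¹ * P) *ᵥ u) ((H⁻¹ * P) *ᵥ u) := by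
  have h1 : (H⁻¹ * P)ᴴ * H * (H⁻¹ * P) = P * H⁻¹ * P := by
    rw [Matrix.conjTranspose_mul, hP.eq, (hH.inv).isHermitian.eq]
    have : P * H⁻¹ * H = P := by
      rw [Matrix.mul_assoc, Matrix.nonsing_inv_mul _ ((Matrix.isUnit_iff_isUnit_det _).1 hH.isUnit),
        Matrix.mul_one]
    rw [this, Matrix.mul_assoc]
  rw [S_mulVec_left, ← S_mul, h1]

/-- `S P v u = S H v (H⁻¹ P u)` -/
lemma S_inv_right {H P : Matrix κ κ ℂ} (hH : H.PosDef) (u v : κ → ℂ) :
    S P v u = S H v ((H⁻¹ * P) *ᵥ u) := by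
  rw [← S_mul, inv_mul_cancel' hH]

lemma re_S_sq_le' {H P : Matrix κ κ ℂ} (hH : H.PosDef) (hP : P.IsHermitian) (u v : κ → ℂ) :
    (S P v u).re ^ 2 ≤ (S H v v).re * (S (P * H⁻¹ * P) u u).re := by
  rw [S_inv_right hH, S_conj_inv hH hP]
  exact re_S_sq_le hH.posSemidef _ _

lemma re_S_conj_nonneg {H P : Matrix κ κ ℂ} (hH : H.PosDef) (hP : P.IsHermitian) (u : κ → ℂ) :
    0 ≤ (S (P * H⁻¹ * P) u u).re := by
  rw [S_conj_inv hH hP]
  exact re_S_nonneg hH.posSemidef _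

/-- flat frame data on the half cylinder `s > s0` (real coordinates `(s, t)`, `t` the angle) -/
structure CylData (κ : Type*) [Fintype κ] [DecidableEq κ] (s0 : ℝ) where
  H : ℝ → ℝ → Matrix κ κ ℂ
  Hs : ℝ → ℝ → Matrix κ κ ℂ
  Ht : ℝ → ℝ → Matrix κ κ ℂ
  Hss : ℝ → ℝ → Matrix κ κ ℂ
  Htt : ℝ → ℝ → Matrix κ κ ℂ
  φ : ℝ → ℝ → κ → ℂ
  φs : ℝ → ℝ → κ → ℂ
  φt : ℝ → ℝ → κ → ℂ
  φss : ℝ → ℝ → κ → ℂ
  φtt : ℝ → ℝ → κ → ℂ
  /-- the monodromy -/
  T : Matrix κ κ ℂ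
  pos : ∀ s, s0 < s → ∀ t, (H s t).PosDef
  dH_s : ∀ s, s0 < s → ∀ t, MD (fun x => H x t) (Hs s t) s
  dH_t : ∀ s, s0 < s → ∀ t, MD (fun x => H s x) (Ht s t) t
  dHs_s : ∀ s, s0 < s → ∀ t, MD (fun x => Hs x t) (Hss s t) s
  dHt_t : ∀ s, s0 < s → ∀ t, MD (fun x => Ht s x) (Htt s t) t
  dφ_s : ∀ s, s0 < s → ∀ t, VD (fun x => φ x t) (φs s t) s
  dφ_t : ∀ s, s0 < s → ∀ t, VD (fun x => φ s x) (φt s t) t
  dφs_s : ∀ s, s0 < s → ∀ t, VD (fun x => φs x t) (φss s t) s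
  dφt_t : ∀ s, s0 < s → ∀ t, VD (fun x => φt s x) (φtt s t) t
  cH : ∀ i j, ContinuousOn (fun p : ℝ × ℝ => H p.1 p.2 i j) {p | s0 < p.1}
  cHs : ∀ i j, ContinuousOn (fun p : ℝ × ℝ => Hs p.1 p.2 i j) {p | s0 < p.1}
  cHt : ∀ i j, ContinuousOn (fun p : ℝ × ℝ => Ht p.1 p.2 i j) {p | s0 < p.1}
  cHss : ∀ i j, ContinuousOn (fun p : ℝ × ℝ => Hss p.1 p.2 i j) {p | s0 < p.1}
  cHtt : ∀ i j, ContinuousOn (fun p : ℝ × ℝ => Htt p.1 p.2 i j) {p | s0 < p.1}
  cφ : ∀ i, ContinuousOn (fun p : ℝ × ℝ => φ p.1 p.2 i) {p | s0 < p.1}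
  cφs : ∀ i, ContinuousOn (fun p : ℝ × ℝ => φs p.1 p.2 i) {p | s0 < p.1}
  cφt : ∀ i, ContinuousOn (fun p : ℝ × ℝ => φt p.1 p.2 i) {p | s0 < p.1}
  cφss : ∀ i, ContinuousOn (fun p : ℝ × ℝ => φss p.1 p.2 i) {p | s0 < p.1}
  cφtt : ∀ i, ContinuousOn (fun p : ℝ × ℝ => φtt p.1 p.2 i) {p | s0 < p.1}
  /-- the metric is harmonic -/
  harm : ∀ s, s0 < s → ∀ t, Hss s t + Htt s t
    = Hs s t * (H s t)⁻¹ * Hs s t + Ht s t * (H s t)⁻¹ * Ht s t
  /-- `D*D φ = 0` -/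
  eqn : ∀ s, s0 < s → ∀ t, Hs s t *ᵥ φs s t + H s t *ᵥ φss s t
    + (Ht s t *ᵥ φt s t + H s t *ᵥ φtt s t) = 0
  perφ : ∀ s, s0 < s → ∀ t, φ s (t + 2 * Real.pi) = T *ᵥ φ s t
  perH : ∀ s, s0 < s → ∀ t, Tᴴ * H s (t + 2 * Real.pi) * T = H s t

namespace CylData

variable {s0 : ℝ} (D : CylData κ s0)

def A (s t : ℝ) : ℝ := (S (D.H s t) (D.φ s t) (D.φ s t)).re
def Es (s t : ℝ) : ℝ := (S (D.H s t) (D.φs s t) (D.φs s t)).re
def Et (s t : ℝ) : ℝ := (S (D.H s t) (D.φt s t) (D.φt s t)).re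
def E (s t : ℝ) : ℝ := D.Es s t + D.Et s t
def Fs (s t : ℝ) : ℝ := (S (D.H s t) (D.φ s t) (D.φs s t)).re
def Ft (s t : ℝ) : ℝ := (S (D.H s t) (D.φ s t) (D.φt s t)).re
def Gs (s t : ℝ) : ℝ := 1 / 2 * (S (D.Hs s t) (D.φ s t) (D.φ s t)).re
def Gt (s t : ℝ) : ℝ := 1 / 2 * (S (D.Ht s t) (D.φ s t) (D.φ s t)).re
def Y (s t : ℝ) : ℝ := 1 / 4 * (S (D.Hss s t + D.Htt s t) (D.φ s t) (D.φ s t)).re
def Ys (s t : ℝ) : ℝ := 1 / 4 * (S (D.Hs s t * (D.H s t)⁻¹ * D.Hs s t) (D.φ s t) (D.φ s t)).re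
def Yt (s t : ℝ) : ℝ := 1 / 4 * (S (D.Ht s t * (D.H s t)⁻¹ * D.Ht s t) (D.φ s t) (D.φ s t)).re
def Xs (s t : ℝ) : ℝ := -(1 / 2) * (S (D.Hs s t) (D.φ s t) (D.φs s t)).re
def Xt (s t : ℝ) : ℝ := -(1 / 2) * (S (D.Ht s t) (D.φ s t) (D.φt s t)).re
def X (s t : ℝ) : ℝ := D.Xs s t + D.Xt s t

variable {D} {s : ℝ} (hs : s0 < s) (t : ℝ)
include hs

lemma hermHs : (D.Hs s t).IsHermitian :=
  (D.dH_s s hs t).isHermitian (by
    filter_upwards [Ioi_mem_nhds hs] with y hy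
    exact (D.pos y hy t).isHermitian)

lemma hermHt : (D.Ht s t).IsHermitian :=
  (D.dH_t s hs t).isHermitian (Eventually.of_forall fun y => (D.pos s hs y).isHermitian)

lemma Y_eq : D.Y s t = D.Ys s t + D.Yt s t := by
  rw [Y, Ys, Yt, D.harm s hs t, S_add_mat]
  simp
  ring

lemma A_nonneg : 0 ≤ D.A s t := re_S_nonneg (D.pos s hs t).posSemidef _
lemma Es_nonneg : 0 ≤ D.Es s t := re_S_nonneg (D.pos s hs t).posSemidef _
lemma Et_nonneg : 0 ≤ D.Et s t := re_S_nonneg (D.pos s hs t).posSemidef _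
lemma E_nonneg : 0 ≤ D.E s t := add_nonneg (Es_nonneg hs t) (Et_nonneg hs t)
lemma Ys_nonneg : 0 ≤ D.Ys s t :=
  mul_nonneg (by norm_num) (re_S_conj_nonneg (D.pos s hs t) (hermHs hs t) _)
lemma Yt_nonneg : 0 ≤ D.Yt s t :=
  mul_nonneg (by norm_num) (re_S_conj_nonneg (D.pos s hs t) (hermHt hs t) _)
lemma Y_nonneg : 0 ≤ D.Y s t := by
  rw [Y_eq hs t]
  exact add_nonneg (Ys_nonneg hs t) (Yt_nonneg hs t)

lemma A_s : HasDerivAt (fun x => D.A x t) (2 * D.Fs s t + 2 * D.Gs s t) s := by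
  have h := re_S_hasDerivAt (D.dH_s s hs t) (D.dφ_s s hs t) (D.dφ_s s hs t)
  refine h.congr_deriv ?_
  rw [re_S_comm (D.pos s hs t).isHermitian (D.φs s t) (D.φ s t), Fs, Gs]
  ring

lemma A_t : HasDerivAt (fun x => D.A s x) (2 * D.Ft s t + 2 * D.Gt s t) t := by
  have h := re_S_hasDerivAt (D.dH_t s hs t) (D.dφ_t s hs t) (D.dφ_t s hs t)
  refine h.congr_deriv ?_
  rw [re_S_comm (D.pos s hs t).isHermitian (D.φt s t) (D.φ s t), Ft, Gt]
  ring

omit hs in
variable (D) in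
/-- `∂_s F_s` -/
def Fs' (s t : ℝ) : ℝ := D.Es s t + (S (D.Hs s t) (D.φ s t) (D.φs s t)).re
  + (S (D.H s t) (D.φ s t) (D.φss s t)).re

omit hs in
variable (D) in
/-- `∂_t F_t` -/
def Ft' (s t : ℝ) : ℝ := D.Et s t + (S (D.Ht s t) (D.φ s t) (D.φt s t)).re
  + (S (D.H s t) (D.φ s t) (D.φtt s t)).re

lemma Fs_s : HasDerivAt (fun x => D.Fs x t) (D.Fs' s t) s :=
  re_S_hasDerivAt (D.dH_s s hs t) (D.dφ_s s hs t) (D.dφs_s s hs t)

lemma Ft_t : HasDerivAt (fun x => D.Ft s x) (D.Ft' s t) t :=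
  re_S_hasDerivAt (D.dH_t s hs t) (D.dφ_t s hs t) (D.dφt_t s hs t)

/-- `div F = E` -/
lemma divF : D.Fs' s t + D.Ft' s t = D.E s t := by
  have h := congrArg (fun v => (star (D.φ s t) ⬝ᵥ v).re) (D.eqn s hs t)
  simp only [dotProduct_add, dotProduct_zero, Complex.add_re, Complex.zero_re] at h
  simp only [Fs', Ft', E, S]
  linarith

omit hs in
variable (D) in
/-- `∂_s G_s` -/
def Gs' (s t : ℝ) : ℝ := (S (D.Hs s t) (D.φ s t) (D.φs s t)).re
  + 1 / 2 * (S (D.Hss s t) (D.φ s t) (D.φ s t)).re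

omit hs in
variable (D) in
/-- `∂_t G_t` -/
def Gt' (s t : ℝ) : ℝ := (S (D.Ht s t) (D.φ s t) (D.φt s t)).re
  + 1 / 2 * (S (D.Htt s t) (D.φ s t) (D.φ s t)).re

lemma Gs_s : HasDerivAt (fun x => D.Gs x t) (D.Gs' s t) s := by
  have h := (re_S_hasDerivAt (D.dHs_s s hs t) (D.dφ_s s hs t) (D.dφ_s s hs t)).const_mul
    (1 / 2 : ℝ)
  refine h.congr_deriv ?_
  rw [re_S_comm (hermHs hs t) (D.φs s t) (D.φ s t), Gs']
  ring

lemma Gt_t : HasDerivAt (fun x => D.Gt s x) (D.Gt' s t) t := by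
  have h := (re_S_hasDerivAt (D.dHt_t s hs t) (D.dφ_t s hs t) (D.dφ_t s hs t)).const_mul
    (1 / 2 : ℝ)
  refine h.congr_deriv ?_
  rw [re_S_comm (hermHt hs t) (D.φt s t) (D.φ s t), Gt']
  ring

omit hs in
/-- `div G = 2 Y - 2 X` -/
lemma divG : D.Gs' s t + D.Gt' s t = 2 * D.Y s t - 2 * D.X s t := by
  simp only [Gs', Gt', Y, X, Xs, Xt, S_add_mat, Complex.add_re]
  ring

lemma Fs_sq : D.Fs s t ^ 2 ≤ D.A s t * D.Es s t :=
  re_S_sq_le (D.pos s hs t).posSemidef _ _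

lemma Gs_sq : D.Gs s t ^ 2 ≤ D.A s t * D.Ys s t := by
  have h := re_S_sq_le' (D.pos s hs t) (hermHs (D := D) hs t) (D.φ s t) (D.φ s t)
  simp only [Gs, A, Ys]
  nlinarith

lemma Xs_sq : D.Xs s t ^ 2 ≤ D.Es s t * D.Ys s t := by
  have h := re_S_sq_le' (D.pos s hs t) (hermHs (D := D) hs t) (D.φ s t) (D.φs s t)
  rw [re_S_comm (hermHs (D := D) hs t)] at h
  simp only [Xs, Es, Ys]
  nlinarith

lemma Xt_sq : D.Xt s t ^ 2 ≤ D.Et s t * D.Yt s t := by
  have h := re_S_sq_le' (D.pos s hs t) (hermHt (D := D) hs t) (D.φ s t) (D.φt s t)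
  rw [re_S_comm (hermHt (D := D) hs t)] at h
  simp only [Xt, Et, Yt]
  nlinarith

omit hs in
lemma two_cs {x x' e e' y y' : ℝ} (he : 0 ≤ e) (he' : 0 ≤ e') (hy : 0 ≤ y) (hy' : 0 ≤ y')
    (h : x ^ 2 ≤ e * y) (h' : x' ^ 2 ≤ e' * y') : (x + x') ^ 2 ≤ (e + e') * (y + y') := by
  have h1 : 2 * (x * x') ≤ e * y' + e' * y := by
    have h2 : (x * x') ^ 2 ≤ (e * y') * (e' * y) := by
      calc (x * x') ^ 2 = x ^ 2 * x' ^ 2 := by ring
        _ ≤ (e * y) * (e' * y') := mul_le_mul h h' (sq_nonneg _) (mul_nonneg he hy)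
        _ = _ := by ring
    have h3 : 0 ≤ e * y' + e' * y := add_nonneg (mul_nonneg he hy') (mul_nonneg he' hy)
    have h4 : (2 * (x * x')) ^ 2 ≤ (e * y' + e' * y) ^ 2 := by
      nlinarith [sq_nonneg (e * y' - e' * y)]
    exact (abs_le_of_sq_le_sq' h4 h3).2
  nlinarith

lemma X_sq : D.X s t ^ 2 ≤ D.E s t * D.Y s t := by
  rw [X, E, Y_eq hs t]
  exact two_cs (Es_nonneg hs t) (Et_nonneg hs t) (Ys_nonneg hs t) (Yt_nonneg hs t)
    (Xs_sq hs t) (Xt_sq hs t)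

lemma Fs_sq' : D.Fs s t ^ 2 ≤ D.A s t * D.E s t :=
  (Fs_sq hs t).trans (mul_le_mul_of_nonneg_left (le_add_of_nonneg_right (Et_nonneg hs t))
    (A_nonneg hs t))

lemma Gs_sq' : D.Gs s t ^ 2 ≤ D.A s t * D.Y s t := by
  rw [Y_eq hs t]
  exact (Gs_sq hs t).trans (mul_le_mul_of_nonneg_left (le_add_of_nonneg_right (Yt_nonneg hs t))
    (A_nonneg hs t))

lemma EYX_nonneg : 0 ≤ D.E s t + D.Y s t - 2 * D.X s t := by
  have h := X_sq (D := D) hs t
  have hE := E_nonneg (D := D) hs t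
  have hY := Y_nonneg (D := D) hs t
  nlinarith [sq_nonneg (D.E s t - D.Y s t), abs_le_of_sq_le_sq' (show (2 * D.X s t) ^ 2
    ≤ (D.E s t + D.Y s t) ^ 2 by nlinarith [sq_nonneg (D.E s t - D.Y s t)]) (add_nonneg hE hY)]

/-! ### periodicity -/

lemma perφt : D.φt s (t + 2 * Real.pi) = D.T *ᵥ D.φt s t := by
  funext i
  have h1 : HasDerivAt (fun x => D.φ s (x + 2 * Real.pi) i) (D.φt s (t + 2 * Real.pi) i) t :=
    HasDerivAt.comp_add_const t (2 * Real.pi) (D.dφ_t s hs (t + 2 * Real.pi) i)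
  have h2 : HasDerivAt (fun x => (D.T *ᵥ D.φ s x) i) ((D.T *ᵥ D.φt s t) i) t := by
    simp only [Matrix.mulVec, dotProduct]
    exact HasDerivAt.fun_sum fun j _ => (D.dφ_t s hs t j).const_mul (D.T i j)
  have h3 : (fun x => D.φ s (x + 2 * Real.pi) i) = fun x => (D.T *ᵥ D.φ s x) i := by
    funext x
    rw [D.perφ s hs x]
  rw [h3] at h1
  exact h1.unique h2

lemma perHt : D.Tᴴ * D.Ht s (t + 2 * Real.pi) * D.T = D.Ht s t := by
  ext i j
  have h1 : ∀ k l, HasDerivAt (fun x => D.H s (x + 2 * Real.pi) k l)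
      (D.Ht s (t + 2 * Real.pi) k l) t := fun k l =>
    HasDerivAt.comp_add_const t (2 * Real.pi) (D.dH_t s hs (t + 2 * Real.pi) k l)
  have h2 : HasDerivAt (fun x => (D.Tᴴ * D.H s (x + 2 * Real.pi) * D.T) i j)
      ((D.Tᴴ * D.Ht s (t + 2 * Real.pi) * D.T) i j) t := by
    simp only [Matrix.mul_apply]
    refine HasDerivAt.fun_sum fun l _ => HasDerivAt.mul_const ?_ _
    exact HasDerivAt.fun_sum fun k _ => (h1 k l).const_mul _
  have h3 : (fun x => (D.Tᴴ * D.H s (x + 2 * Real.pi) * D.T) i j) = fun x => D.H s x i j := by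
    funext x
    rw [D.perH s hs x]
  rw [h3] at h2
  exact h2.unique (D.dH_t s hs t i j)

omit hs [DecidableEq κ] in
lemma S_conj (P M : Matrix κ κ ℂ) (u v : κ → ℂ) :
    S M (P *ᵥ u) (P *ᵥ v) = S (Pᴴ * M * P) u v := by
  rw [S_mulVec_left, ← S_mul]

lemma per_A : D.A s (t + 2 * Real.pi) = D.A s t := by
  rw [A, D.perφ s hs t, S_conj, D.perH s hs t, A]

lemma per_Ft : D.Ft s (t + 2 * Real.pi) = D.Ft s t := by
  rw [Ft, D.perφ s hs t, perφt hs t, S_conj, D.perH s hs t, Ft]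

lemma per_Gt : D.Gt s (t + 2 * Real.pi) = D.Gt s t := by
  rw [Gt, D.perφ s hs t, S_conj, perHt hs t, Gt]

/-! ### the circle integrals -/

omit hs

variable (D) in
/-- `a = ∮ |φ|²` -/
def ia (s : ℝ) : ℝ := ∫ t in (0 : ℝ)..2 * Real.pi, D.A s t
variable (D) in
/-- `e = ∮ |Dφ|²` -/
def ie (s : ℝ) : ℝ := ∫ t in (0 : ℝ)..2 * Real.pi, D.E s t
variable (D) in
/-- `f = Re ∮ ⟨D_s φ, φ⟩` -/
def jf (s : ℝ) : ℝ := ∫ t in (0 : ℝ)..2 * Real.pi, D.Fs s t
variable (D) in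
/-- `g = -∮ ⟨Θ_s φ, φ⟩` -/
def ig (s : ℝ) : ℝ := ∫ t in (0 : ℝ)..2 * Real.pi, D.Gs s t
variable (D) in
/-- `p = ∮ |Θ φ|²` -/
def ip (s : ℝ) : ℝ := ∫ t in (0 : ℝ)..2 * Real.pi, D.Y s t
variable (D) in
/-- `q = Re ∮ ⟨D φ, Θ φ⟩` -/
def iq (s : ℝ) : ℝ := ∫ t in (0 : ℝ)..2 * Real.pi, D.X s t

lemma contA : ContinuousOn (fun p : ℝ × ℝ => D.A p.1 p.2) {p | s0 < p.1} :=
  continuousOn_S D.cH D.cφ D.cφ
lemma contEs : ContinuousOn (fun p : ℝ × ℝ => D.Es p.1 p.2) {p | s0 < p.1} :=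
  continuousOn_S D.cH D.cφs D.cφs
lemma contEt : ContinuousOn (fun p : ℝ × ℝ => D.Et p.1 p.2) {p | s0 < p.1} :=
  continuousOn_S D.cH D.cφt D.cφt
lemma contE : ContinuousOn (fun p : ℝ × ℝ => D.E p.1 p.2) {p | s0 < p.1} := contEs.add contEt
lemma contFs : ContinuousOn (fun p : ℝ × ℝ => D.Fs p.1 p.2) {p | s0 < p.1} :=
  continuousOn_S D.cH D.cφ D.cφs
lemma contFt : ContinuousOn (fun p : ℝ × ℝ => D.Ft p.1 p.2) {p | s0 < p.1} :=
  continuousOn_S D.cH D.cφ D.cφt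
lemma contFs' : ContinuousOn (fun p : ℝ × ℝ => D.Fs' p.1 p.2) {p | s0 < p.1} :=
  (contEs.add (continuousOn_S D.cHs D.cφ D.cφs)).add (continuousOn_S D.cH D.cφ D.cφss)
lemma contFt' : ContinuousOn (fun p : ℝ × ℝ => D.Ft' p.1 p.2) {p | s0 < p.1} :=
  (contEt.add (continuousOn_S D.cHt D.cφ D.cφt)).add (continuousOn_S D.cH D.cφ D.cφtt)
lemma contGs : ContinuousOn (fun p : ℝ × ℝ => D.Gs p.1 p.2) {p | s0 < p.1} :=
  continuousOn_const.mul (continuousOn_S D.cHs D.cφ D.cφ)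
lemma contGs' : ContinuousOn (fun p : ℝ × ℝ => D.Gs' p.1 p.2) {p | s0 < p.1} :=
  (continuousOn_S D.cHs D.cφ D.cφs).add (continuousOn_const.mul (continuousOn_S D.cHss D.cφ D.cφ))
lemma contGt' : ContinuousOn (fun p : ℝ × ℝ => D.Gt' p.1 p.2) {p | s0 < p.1} :=
  (continuousOn_S D.cHt D.cφ D.cφt).add (continuousOn_const.mul (continuousOn_S D.cHtt D.cφ D.cφ))
lemma contX : ContinuousOn (fun p : ℝ × ℝ => D.X p.1 p.2) {p | s0 < p.1} :=
  (continuousOn_const.mul (continuousOn_S D.cHs D.cφ D.cφs)).add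
    (continuousOn_const.mul (continuousOn_S D.cHt D.cφ D.cφt))
lemma contY : ContinuousOn (fun p : ℝ × ℝ => D.Y p.1 p.2) {p | s0 < p.1} :=
  continuousOn_const.mul (continuousOn_S (H := fun p : ℝ × ℝ => D.Hss p.1 p.2 + D.Htt p.1 p.2)
    (fun i j => (D.cHss i j).add (D.cHtt i j)) D.cφ D.cφ)

lemma cont_slice {g : ℝ → ℝ → ℝ} (hg : ContinuousOn (fun p : ℝ × ℝ => g p.1 p.2) {p | s0 < p.1})
    {x : ℝ} (hx : s0 < x) : Continuous (fun t => g x t) := by
  rw [← continuousOn_univ]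
  refine hg.comp (by fun_prop : ContinuousOn (fun t : ℝ => (x, t)) univ) ?_
  intro t _
  exact hx

lemma twopi : (0 : ℝ) ≤ 2 * Real.pi := by positivity

include hs

lemma ia_nonneg : 0 ≤ D.ia s :=
  intervalIntegral.integral_nonneg twopi fun t _ => A_nonneg hs t
lemma ie_nonneg : 0 ≤ D.ie s :=
  intervalIntegral.integral_nonneg twopi fun t _ => E_nonneg hs t
lemma ip_nonneg : 0 ≤ D.ip s :=
  intervalIntegral.integral_nonneg twopi fun t _ => Y_nonneg hs t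

omit hs in
/-- the circle integral of a `t`-derivative of a periodic function vanishes -/
lemma circle_zero {G G' : ℝ → ℝ} (h : ∀ t, HasDerivAt G (G' t) t) (hG : Continuous G')
    (hper : ∀ t, G (t + 2 * Real.pi) = G t) : ∫ t in (0 : ℝ)..2 * Real.pi, G' t = 0 := by
  rw [intervalIntegral.integral_eq_sub_of_hasDerivAt (fun t _ => h t)
    (hG.intervalIntegrable _ _)]
  have := hper 0
  rw [zero_add] at this
  rw [this, sub_self]

/-- `f' = e` -/
lemma jf_deriv : HasDerivAt D.jf (D.ie s) s := by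
  have h := hasDerivAt_circle (a := 0) (b := 2 * Real.pi) (fun x hx t => Fs_s hx t)
    (contFs (D := D)) (contFs' (D := D)) hs
  refine h.congr_deriv ?_
  have h2 : ∫ t in (0 : ℝ)..2 * Real.pi, D.Ft' s t = 0 :=
    circle_zero (fun t => Ft_t hs t) (cont_slice contFt' hs) (fun t => per_Ft hs t)
  have h3 : D.ie s = (∫ t in (0 : ℝ)..2 * Real.pi, D.Fs' s t)
      + ∫ t in (0 : ℝ)..2 * Real.pi, D.Ft' s t := by
    rw [ie, ← intervalIntegral.integral_add ((cont_slice contFs' hs).intervalIntegrable _ _)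
      ((cont_slice contFt' hs).intervalIntegrable _ _)]
    exact intervalIntegral.integral_congr fun t _ => (divF hs t).symm
  rw [h3, h2, add_zero]

/-- `a' = 2 f + 2 g` -/
lemma ia_deriv : HasDerivAt D.ia (2 * D.jf s + 2 * D.ig s) s := by
  have h := hasDerivAt_circle (a := 0) (b := 2 * Real.pi) (fun x hx t => A_s hx t)
    (contA (D := D)) ((continuousOn_const.mul (contFs (D := D))).add
      (continuousOn_const.mul (contGs (D := D)))) hs
  refine h.congr_deriv ?_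
  rw [intervalIntegral.integral_add, intervalIntegral.integral_const_mul,
    intervalIntegral.integral_const_mul, jf, ig]
  · exact (continuous_const.mul (cont_slice contFs hs)).intervalIntegrable _ _
  · exact (continuous_const.mul (cont_slice contGs hs)).intervalIntegrable _ _

/-- `g' = 2 p - 2 q` -/
lemma ig_deriv : HasDerivAt D.ig (2 * D.ip s - 2 * D.iq s) s := by
  have h := hasDerivAt_circle (a := 0) (b := 2 * Real.pi) (fun x hx t => Gs_s hx t)
    (contGs (D := D)) (contGs' (D := D)) hs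
  refine h.congr_deriv ?_
  have h2 : ∫ t in (0 : ℝ)..2 * Real.pi, D.Gt' s t = 0 :=
    circle_zero (fun t => Gt_t hs t) (cont_slice contGt' hs) (fun t => per_Gt hs t)
  have h3 : (∫ t in (0 : ℝ)..2 * Real.pi, D.Gs' s t)
      + ∫ t in (0 : ℝ)..2 * Real.pi, D.Gt' s t = 2 * D.ip s - 2 * D.iq s := by
    have h4 : IntervalIntegrable (fun t => 2 * D.Y s t) volume 0 (2 * Real.pi) :=
      (continuous_const.mul (cont_slice contY hs)).intervalIntegrable _ _
    have h5 : IntervalIntegrable (fun t => 2 * D.X s t) volume 0 (2 * Real.pi) :=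
      (continuous_const.mul (cont_slice contX hs)).intervalIntegrable _ _
    rw [← intervalIntegral.integral_add ((cont_slice contGs' hs).intervalIntegrable _ _)
      ((cont_slice contGt' hs).intervalIntegrable _ _), ip, iq,
      ← intervalIntegral.integral_const_mul, ← intervalIntegral.integral_const_mul,
      ← intervalIntegral.integral_sub h4 h5]
    exact intervalIntegral.integral_congr fun t _ => divG t
  rw [← h3, h2, add_zero]

lemma jf_sq : D.jf s ^ 2 ≤ D.ia s * D.ie s :=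
  integral_sq_le twopi (cont_slice contFs hs) (cont_slice contA hs) (cont_slice contE hs)
    (fun t => A_nonneg hs t) (fun t => E_nonneg hs t) (fun t => Fs_sq' hs t)

lemma ig_sq : D.ig s ^ 2 ≤ D.ip s * D.ia s := by
  rw [mul_comm]
  exact integral_sq_le twopi (cont_slice contGs hs) (cont_slice contA hs) (cont_slice contY hs)
    (fun t => A_nonneg hs t) (fun t => Y_nonneg hs t) (fun t => Gs_sq' hs t)

lemma iq_sq : D.iq s ^ 2 ≤ D.ie s * D.ip s :=
  integral_sq_le twopi (cont_slice contX hs) (cont_slice contE hs) (cont_slice contY hs)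
    (fun t => E_nonneg hs t) (fun t => Y_nonneg hs t) (fun t => X_sq hs t)

lemma ip_le {C : ℝ} (h : ∀ t, s ^ 2 * D.Y s t ≤ C ^ 2 * D.A s t) :
    s ^ 2 * D.ip s ≤ C ^ 2 * D.ia s := by
  rw [ip, ia, ← intervalIntegral.integral_const_mul, ← intervalIntegral.integral_const_mul]
  exact intervalIntegral.integral_mono_on twopi
    ((continuous_const.mul (cont_slice contY hs)).intervalIntegrable _ _)
    ((continuous_const.mul (cont_slice contA hs)).intervalIntegrable _ _) fun t _ => h t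

/-- the bound on `Y` from the operator bounds on `Θ_i = -(1/2) H⁻¹ H_i` -/
lemma Y_le {c : ℝ} (h1 : ∀ v, (S (D.H s t) ((-(1 / 2 : ℂ) • ((D.H s t)⁻¹ * D.Hs s t)) *ᵥ v)
      ((-(1 / 2 : ℂ) • ((D.H s t)⁻¹ * D.Hs s t)) *ᵥ v)).re ≤ c * (S (D.H s t) v v).re)
    (h2 : ∀ v, (S (D.H s t) ((-(1 / 2 : ℂ) • ((D.H s t)⁻¹ * D.Ht s t)) *ᵥ v)
      ((-(1 / 2 : ℂ) • ((D.H s t)⁻¹ * D.Ht s t)) *ᵥ v)).re ≤ c * (S (D.H s t) v v).re) :
    D.Y s t ≤ 2 * c * D.A s t := by
  have key : ∀ P : Matrix κ κ ℂ, P.IsHermitian → ∀ v,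
      (S (D.H s t) ((-(1 / 2 : ℂ) • ((D.H s t)⁻¹ * P)) *ᵥ v)
        ((-(1 / 2 : ℂ) • ((D.H s t)⁻¹ * P)) *ᵥ v)).re
        = 1 / 4 * (S (P * (D.H s t)⁻¹ * P) v v).re := by
    intro P hP v
    rw [S_conj_inv (D.pos s hs t) hP, Matrix.smul_mulVec, S_smul_left, S_smul_right,
      ← mul_assoc]
    have : star (-(1 / 2 : ℂ)) * -(1 / 2 : ℂ) = ((1 / 4 : ℝ) : ℂ) := by
      rw [Complex.star_def, map_neg, map_div₀, map_one, Complex.conj_ofNat]
      push_cast
      ring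
    rw [this, Complex.re_ofReal_mul]
  have k1 := h1 (D.φ s t)
  have k2 := h2 (D.φ s t)
  rw [key _ (hermHs hs t)] at k1
  rw [key _ (hermHt hs t)] at k2
  rw [Y_eq hs t, Ys, Yt, A]
  linarith

end CylData

/-- **(5) of #755 on one end**: the flux of an exact harmonic form of finite energy tends to `0`. -/
theorem flux_tendsto_zero {s0 C M s1 : ℝ} (D : CylData κ s0) (hs1 : 0 < s1) (h01 : s0 < s1)
    (hY : ∀ s, s1 ≤ s → ∀ t, s ^ 2 * D.Y s t ≤ C ^ 2 * D.A s t)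
    (hM : ∀ s, s1 ≤ s → D.jf s ≤ M) : Tendsto D.jf atTop (𝓝 0) := by
  have h : ∀ s, s1 ≤ s → s0 < s := fun s hs => lt_of_lt_of_le h01 hs
  exact IpcOde_817.flux_tendsto_zero (a := D.ia) (f := D.jf) (g := D.ig) (e := D.ie) (p := D.ip)
    (q := D.iq) (C := C) (M := M) hs1
    (fun s hs => CylData.ia_nonneg (h s hs)) (fun s hs => CylData.ie_nonneg (h s hs))
    (fun s hs => CylData.ip_nonneg (h s hs)) (fun s hs => CylData.jf_deriv (h s hs))
    (fun s hs => CylData.ia_deriv (h s hs)) (fun s hs => CylData.ig_deriv (h s hs))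
    (fun s hs => CylData.iq_sq (h s hs)) (fun s hs => CylData.ig_sq (h s hs))
    (fun s hs => CylData.ip_le (h s hs) (hY s hs)) (fun s hs => CylData.jf_sq (h s hs)) hM

end data

end Crest.Agent.R276.Cyl_593
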