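import Mathlib
import Crest.Agent.R276.DR_175

/-!
# Row 276, IPC (helper175): forms and cocycles on open subsets of the plane, part 2

* `exists_rep` (R1) : every smooth closed form represents a cocycle (`u x y` = integral from `x` to `y`).
-/

set_option autoImplicit false
set_option linter.unusedSectionVars false

noncomputable section

open Set Filter Topology MeasureTheory Matrix
open Crest.Agent.R276.Ipc735

namespace Crest.Agent.R276.DR_175

variable {N : ℕ}

/-- choice of radii bounded below locally -/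
lemma exists_rad {O : Set ℂ} (good : ℂ → ℝ → Prop)
    (mono : ∀ x r r', r' ≤ r → good x r → good x r')
    (h : ∀ z ∈ O, ∃ ε > 0, ∀ x ∈ Metric.ball z ε, good x ε) :
    ∃ r : ℂ → ℝ, ∀ z ∈ O, ∃ ε > 0, ∀ x ∈ Metric.ball z ε, ε ≤ r x ∧ good x (r x) := by
  classical
  let S : ℂ → Set ℝ := fun x => {r | 0 < r ∧ r ≤ 1 ∧ good x r}
  have hb : ∀ x, BddAbove (S x) := fun x => ⟨1, fun r hr => hr.2.1⟩
  have h1 : ∀ x, ∃ r, (S x).Nonempty → r ∈ S x ∧ sSup (S x) / 2 ≤ r := by
    intro x
    by_cases hne : (S x).Nonempty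
    · have hpos : 0 < sSup (S x) := by
        obtain ⟨r, hr⟩ := hne
        exact lt_of_lt_of_le hr.1 (le_csSup (hb x) hr)
      obtain ⟨r, hr, hlt⟩ := exists_lt_of_lt_csSup hne (half_lt_self hpos)
      exact ⟨r, fun _ => ⟨hr, hlt.le⟩⟩
    · exact ⟨0, fun h => absurd h hne⟩
  choose r hr using h1
  refine ⟨r, fun z hz => ?_⟩
  obtain ⟨ε, hε, hgood⟩ := h z hz
  refine ⟨min ε 1 / 2, by positivity, fun x hx => ?_⟩
  have hx' : x ∈ Metric.ball z ε := by
    refine Metric.ball_subset_ball ?_ hx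
    have : min ε 1 ≤ ε := min_le_left _ _
    have h0 : 0 < min ε 1 := by positivity
    linarith
  have hmem : min ε 1 ∈ S x :=
    ⟨by positivity, min_le_right _ _, mono x ε _ (min_le_left _ _) (hgood x hx')⟩
  obtain ⟨h2, h3⟩ := hr x ⟨_, hmem⟩
  refine ⟨le_trans ?_ h3, h2.2.2⟩
  have := le_csSup (hb x) hmem
  linarith

section prim

variable {O : Set ℂ} {P : ℂ → ℂ → GL (Fin N) ℤ} {a b : ℂ → Fin N → ℂ}

/-- a ball on which `P` is a genuine cocycle -/
def GoodBall (O : Set ℂ) (P : ℂ → ℂ → GL (Fin N) ℤ) (x : ℂ) (r : ℝ) : Prop :=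
  Metric.ball x r ⊆ O ∧ ∀ s ∈ Metric.ball x r, ∀ y ∈ Metric.ball x r, ∀ t ∈ Metric.ball x r,
    P s y * P y t = P s t

lemma GoodBall.mono {x : ℂ} {r r' : ℝ} (h : r' ≤ r) (hg : GoodBall O P x r) :
    GoodBall O P x r' := by
  have hs := Metric.ball_subset_ball (x := x) h
  exact ⟨hs.trans hg.1, fun s hs' y hy t ht => hg.2 s (hs hs') y (hs hy) t (hs ht)⟩

lemma goodBall_near (hO : IsOpen O) (hP : NDCOn O P) :
    ∀ z ∈ O, ∃ ε > 0, ∀ x ∈ Metric.ball z ε, GoodBall O P x ε := by
  intro z hz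
  obtain ⟨U, hU, h⟩ := hP z hz
  obtain ⟨ε, hε, hball⟩ := Metric.mem_nhds_iff.mp (Filter.inter_mem hU (hO.mem_nhds hz))
  refine ⟨ε / 2, half_pos hε, fun x hx => ?_⟩
  have hs : Metric.ball x (ε / 2) ⊆ Metric.ball z ε := by
    intro y hy
    rw [Metric.mem_ball] at *
    calc dist y z ≤ dist y x + dist x z := dist_triangle _ _ _
      _ < ε / 2 + ε / 2 := add_lt_add hy hx
      _ = ε := by ring
  exact ⟨fun y hy => (hball (hs hy)).2, fun s hs' y hy t ht =>
    h s (hball (hs hs')).1 y (hball (hs hy)).1 t (hball (hs ht)).1⟩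

/-- the value at `y` of the form, in the frame at `x` -/
def frm (P : ℂ → ℂ → GL (Fin N) ℤ) (a b : ℂ → Fin N → ℂ) (x y : ℂ) : ℂ →L[ℝ] (Fin N → ℂ) :=
  wir (lV P a x y) (lV P b x y)

lemma GoodBall.lV_near {x : ℂ} {r : ℝ} (hg : GoodBall O P x r) {y : ℂ} (hy : y ∈ Metric.ball x r)
    (φ : ℂ → Fin N → ℂ) : lV P φ x =ᶠ[𝓝 y] fun t => act (P x y) (lV P φ y t) := by
  filter_upwards [Metric.isOpen_ball.mem_nhds hy] with t ht
  have hx : x ∈ Metric.ball x r := by
    rw [Metric.mem_ball] at hy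
    exact Metric.mem_ball_self (lt_of_le_of_lt dist_nonneg hy)
  rw [lV_eq, lV_eq, ← hg.2 x hx y hy t ht, act_mul_apply]

lemma GoodBall.contDiffAt {x : ℂ} {r : ℝ} (hg : GoodBall O P x r) {φ : ℂ → Fin N → ℂ}
    (hφ : SmOn O P φ) {y : ℂ} (hy : y ∈ Metric.ball x r) :
    ContDiffAt ℝ (⊤ : ℕ∞) (lV P φ x) y := by
  have h1 : ContDiffAt ℝ (⊤ : ℕ∞) (fun t => act (P x y) (lV P φ y t)) y :=
    ((act (P x y)).restrictScalars ℝ).contDiff.contDiffAt.comp y (hφ y (hg.1 hy))
  exact h1.congr_of_eventuallyEq (hg.lV_near hy φ)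

lemma contDiffAt_wir {p q : ℂ → Fin N → ℂ} {y : ℂ} (hp : ContDiffAt ℝ (⊤ : ℕ∞) p y)
    (hq : ContDiffAt ℝ (⊤ : ℕ∞) q y) :
    ContDiffAt ℝ (⊤ : ℕ∞) (fun t => wir (p t) (q t)) y := by
  have h0 : ContDiff ℝ (⊤ : ℕ∞) (fun pq : (Fin N → ℂ) × (Fin N → ℂ) =>
      (wir pq.1 pq.2 : ℂ →L[ℝ] (Fin N → ℂ))) := by
    rw [contDiff_clm_apply_iff]
    intro v
    have h1 : (fun pq : (Fin N → ℂ) × (Fin N → ℂ) => (wir pq.1 pq.2 : ℂ →L[ℝ] (Fin N → ℂ)) v) =
        fun pq => v • pq.1 + (starRingEnd ℂ) v • pq.2 := by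
      funext pq; rw [wir_apply]
    rw [h1]
    exact (contDiff_fst.const_smul v).add (contDiff_snd.const_smul _)
  exact h0.contDiffAt.comp y (hp.prodMk hq)

/-- existence of a primitive on a good ball -/
lemma GoodBall.exists_prim {x : ℂ} {r : ℝ} (hg : GoodBall O P x r) (ha : SmOn O P a)
    (hb : SmOn O P b) (hab : ClOn O P a b) :
    ∃ F : ℂ → Fin N → ℂ, F x = 0 ∧ ∀ y ∈ Metric.ball x r, HasFDerivAt F (frm P a b x y) y := by
  have hd : ∀ y ∈ Metric.ball x r, DifferentiableAt ℝ (frm P a b x) y := fun y hy =>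
    near_diff (contDiffAt_wir (hg.contDiffAt ha hy) (hg.contDiffAt hb hy))
  have hsymm : ∀ y ∈ Metric.ball x r, ∀ u v, fderiv ℝ (frm P a b x) y u v =
      fderiv ℝ (frm P a b x) y v u := by
    intro y hy
    have hda := near_diff (hg.contDiffAt ha hy)
    have hdb := near_diff (hg.contDiffAt hb hy)
    have key : ∀ u v, fderiv ℝ (frm P a b x) y u v =
        v • fderiv ℝ (lV P a x) y u + (starRingEnd ℂ) v • fderiv ℝ (lV P b x) y u := by
      intro u v
      have h1 := ((hd y hy).hasFDerivAt.clm_apply (hasFDerivAt_const v y)).fderiv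
      have h2 : fderiv ℝ (fun t => frm P a b x t v) y u = fderiv ℝ (frm P a b x) y u v := by
        have h1' : fderiv ℝ (fun t => frm P a b x t v) y =
          ((frm P a b x y).comp (0 : ℂ →L[ℝ] ℂ) + (fderiv ℝ (frm P a b x) y).flip v) := h1
        rw [h1']; simp
      rw [← h2]
      have h3 : (fun t => frm P a b x t v) = fun t => v • lV P a x t +
          (starRingEnd ℂ) v • lV P b x t := by
        funext t; rw [frm, wir_apply]
      rw [h3]
      have h4 : HasFDerivAt (fun t => v • lV P a x t + (starRingEnd ℂ) v • lV P b x t)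
          (v • fderiv ℝ (lV P a x) y + (starRingEnd ℂ) v • fderiv ℝ (lV P b x) y) y := by
        have h41 : HasFDerivAt (fun t => v • lV P a x t) (v • fderiv ℝ (lV P a x) y) y :=
          hda.hasFDerivAt.const_smul v
        have h42 : HasFDerivAt (fun t => (starRingEnd ℂ) v • lV P b x t)
            ((starRingEnd ℂ) v • fderiv ℝ (lV P b x) y) y :=
          hdb.hasFDerivAt.const_smul ((starRingEnd ℂ) v)
        exact h41.add h42
      rw [h4.fderiv]
      rfl
    have hcl : wb (lV P a x) y = wz (lV P b x) y := by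
      rw [wb_congr (hg.lV_near hy a), wz_congr (hg.lV_near hy b),
        wb_clm _ (near_diff (ha y (hg.1 hy))), wz_clm _ (near_diff (hb y (hg.1 hy))),
        hab y (hg.1 hy)]
    intro u v
    rw [key, key, fderiv_eq_wir, fderiv_eq_wir, fderiv_eq_wir, fderiv_eq_wir, hcl]
    module
  obtain ⟨F, hF⟩ := (convex_ball x r).exists_forall_hasFDerivAt_of_fderiv_symmetric
    Metric.isOpen_ball (fun y hy => (hd y hy).differentiableWithinAt) hsymm
  exact ⟨fun y => F y - F x, by simp, fun y hy => (hF y hy).sub_const _⟩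

/-- **(R1)** every smooth closed form represents a cocycle; moreover one may take `f = 0`. -/
theorem exists_rep (hO : IsOpen O) (hP : NDCOn O P) (ha : SmOn O P a) (hb : SmOn O P b)
    (hab : ClOn O P a b) : ∃ u, CocOn O P u ∧ RepBy O P u (fun _ => 0) a b := by
  classical
  obtain ⟨r, hr⟩ := exists_rad (O := O) (GoodBall O P) (fun x r r' h hg => hg.mono h)
    (goodBall_near hO hP)
  have h1 : ∀ x, ∃ F : ℂ → Fin N → ℂ, GoodBall O P x (r x) →
      (F x = 0 ∧ ∀ y ∈ Metric.ball x (r x), HasFDerivAt F (frm P a b x y) y) := by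
    intro x
    by_cases hg : GoodBall O P x (r x)
    · obtain ⟨F, hF⟩ := hg.exists_prim ha hb hab
      exact ⟨F, fun _ => hF⟩
    · exact ⟨0, fun h => absurd h hg⟩
  choose F hF using h1
  refine ⟨F, ?_, ?_⟩
  · intro z hz
    obtain ⟨ε, hε, h2⟩ := hr z hz
    refine ⟨Metric.ball z (ε / 2), Metric.ball_mem_nhds z (half_pos hε), ?_⟩
    have hsub : ∀ x ∈ Metric.ball z (ε / 2), x ∈ Metric.ball z ε := fun x hx =>
      Metric.ball_subset_ball (by linarith) hx
    have hin : ∀ x ∈ Metric.ball z (ε / 2), ∀ y ∈ Metric.ball z (ε / 2),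
        y ∈ Metric.ball x (r x) := by
      intro x hx y hy
      have h3 := (h2 x (hsub x hx)).1
      rw [Metric.mem_ball] at *
      calc dist y x ≤ dist y z + dist z x := dist_triangle _ _ _
        _ < ε / 2 + ε / 2 := add_lt_add hy (by rwa [dist_comm])
        _ ≤ r x := by linarith
    intro x hx y hy t ht
    have gx := (h2 x (hsub x hx)).2
    have gy := (h2 y (hsub y hy)).2
    obtain ⟨fx, dx⟩ := hF x gx
    obtain ⟨fy, dy⟩ := hF y gy
    -- the difference is constant
    have hc : F x t - act (P x y) (F y t) = F x y - act (P x y) (F y y) := by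
      refine ((Metric.isOpen_ball (x := x) (ε := r x)).inter
        (Metric.isOpen_ball (x := y) (ε := r y))).is_const_of_fderiv_eq_zero (𝕜 := ℝ)
        (f := fun s => F x s - act (P x y) (F y s))
        ((convex_ball x (r x)).inter (convex_ball y (r y))).isPreconnected ?_ ?_
        ⟨hin x hx t ht, hin y hy t ht⟩ ⟨hin x hx y hy, hin y hy y hy⟩
      · intro s hs
        exact ((dx s hs.1).sub
          (((act (P x y)).restrictScalars ℝ).hasFDerivAt.comp s
            (dy s hs.2))).differentiableAt.differentiableWithinAt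
      · intro s hs
        have h5 := (dx s hs.1).sub
          (((act (P x y)).restrictScalars ℝ).hasFDerivAt.comp s (dy s hs.2))
        have h6 : HasFDerivAt (fun s => F x s - act (P x y) (F y s)) (frm P a b x s -
          ((act (P x y)).restrictScalars ℝ).comp (frm P a b y s)) s := h5
        show fderiv ℝ (fun s => F x s - act (P x y) (F y s)) s = 0
        rw [h6.fderiv]
        ext v : 1
        have hPs : P x y * P y s = P x s :=
          gx.2 x (Metric.mem_ball_self (lt_of_lt_of_le hε (h2 x (hsub x hx)).1)) y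
            (hin x hx y hy) s hs.1
        have e1 : ∀ φ : ℂ → Fin N → ℂ, lV P φ x s = act (P x y) (lV P φ y s) := by
          intro φ
          rw [lV_eq, lV_eq, ← hPs, act_mul_apply]
        show frm P a b x s v - act (P x y) (frm P a b y s v) = 0
        rw [frm, frm, wir_apply, wir_apply, e1 a, e1 b, map_add, map_smul, map_smul, sub_self]
    rw [fy, map_zero, sub_zero] at hc
    rw [← hc]; abel
  · intro z hz
    obtain ⟨ε, hε, h2⟩ := hr z hz
    have hz1 := h2 z (Metric.mem_ball_self hε)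
    have gz := hz1.2
    have hzb : z ∈ Metric.ball z (r z) := Metric.mem_ball_self (lt_of_lt_of_le hε hz1.1)
    obtain ⟨fz, dz⟩ := hF z gz
    have e0 : aff P F (fun _ => 0) z = F z := by
      funext y
      unfold aff
      rw [map_zero, zero_add]
    rw [e0]
    have hder := dz z hzb
    refine ⟨?_, ?_, ?_⟩
    · have h3 : ContDiffOn ℝ (⊤ : ℕ∞) (F z) (Metric.ball z (r z)) := by
        have h4 : ContDiffOn ℝ (⊤ : ℕ∞) (frm P a b z) (Metric.ball z (r z)) := fun y hy =>
          (contDiffAt_wir (gz.contDiffAt ha hy) (gz.contDiffAt hb hy)).contDiffWithinAt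
        rw [contDiffOn_infty_iff_fderiv_of_isOpen Metric.isOpen_ball]
        exact ⟨fun y hy => (dz y hy).differentiableAt.differentiableWithinAt,
          h4.congr fun y hy => (dz y hy).fderiv⟩
      exact h3.contDiffAt (Metric.isOpen_ball.mem_nhds hzb)
    · rw [wz_of_hasFDerivAt hder, lV_self hP hz]
    · rw [wb_of_hasFDerivAt hder, lV_self hP hz]

end prim

end Crest.Agent.R276.DR_175
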