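import Mathlib

/-!
# R276, leaf (TOP1): near-diagonal cocycles with values in a (non-abelian, discrete) group

A *near-diagonal cocycle* (`NDC`) on a topological space `X` with values in a group `G` is a
function `c : X → X → G` such that every point has a neighbourhood `U` with
`c x y * c y w = c x w` for all `x y w ∈ U`.  (No continuity: `G` is thought of as discrete.)
These are local systems with fibre `G` "with a frame chosen at every point".

* `Cob c c'`            : the two cocycles differ by a change of frames `A : X → G`;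
* `Triv c`              : `c` is trivial, i.e. `c x y = A x * (A y)⁻¹` near the diagonal;
* `NDC.triv_of_simplyConnected` : triviality on simply connected, locally path connected spaces;
* `NDC.homotopy`        : the homotopy theorem on `X × T`;
* `NDC.homotopy_Icc`, `NDC.homotopy_real` : `T = [0,1]`, `T = ℝ`;
* `NDC.cob_of_homotopic`: pull-backs by homotopic maps are cohomologous;
* `NDC.triv_of_contractible`, `NDC.triv_of_starConvex`, `NDC.triv_of_convex`;
* `Triv.eq_mul_const`   : uniqueness of trivialisations on preconnected spaces.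
-/

set_option autoImplicit false

open Topology Filter Set

namespace Crest.Agent.R276.Top1_816

variable {X Y Z : Type*} [TopologicalSpace X] [TopologicalSpace Y] [TopologicalSpace Z]
variable {G : Type*} [Group G]

/-- near-diagonal cocycle -/
def NDC (c : X → X → G) : Prop :=
  ∀ z : X, ∃ U ∈ 𝓝 z, ∀ x ∈ U, ∀ y ∈ U, ∀ w ∈ U, c x y * c y w = c x w

/-- `c = A c' A⁻¹` near the diagonal, for one `A`. -/
def CobBy (A : X → G) (c c' : X → X → G) : Prop :=
  ∀ z : X, ∃ U ∈ 𝓝 z, ∀ x ∈ U, ∀ y ∈ U, c x y = A x * c' x y * (A y)⁻¹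

/-- cohomologous cocycles -/
def Cob (c c' : X → X → G) : Prop := ∃ A : X → G, CobBy A c c'

/-- `A` trivialises `c` -/
def TrivBy (A : X → G) (c : X → X → G) : Prop :=
  ∀ z : X, ∃ U ∈ 𝓝 z, ∀ x ∈ U, ∀ y ∈ U, c x y = A x * (A y)⁻¹

/-- trivial cocycles -/
def Triv (c : X → X → G) : Prop := ∃ A : X → G, TrivBy A c

theorem NDC.open_nhds {c : X → X → G} (hc : NDC c) (z : X) :
    ∃ U : Set X, IsOpen U ∧ z ∈ U ∧ ∀ x ∈ U, ∀ y ∈ U, ∀ w ∈ U, c x y * c y w = c x w := by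
  obtain ⟨U, hU, h⟩ := hc z
  obtain ⟨V, hVU, hV, hzV⟩ := mem_nhds_iff.1 hU
  exact ⟨V, hV, hzV, fun x hx y hy w hw => h x (hVU hx) y (hVU hy) w (hVU hw)⟩

theorem NDC.self {c : X → X → G} (hc : NDC c) (x : X) : c x x = 1 := by
  obtain ⟨U, hU, h⟩ := hc x
  have hx := mem_of_mem_nhds hU
  have := h x hx x hx x hx
  simpa using this

theorem NDC.inv {c : X → X → G} (hc : NDC c) (z : X) :
    ∃ U ∈ 𝓝 z, ∀ x ∈ U, ∀ y ∈ U, c y x = (c x y)⁻¹ := by
  obtain ⟨U, hU, h⟩ := hc z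
  refine ⟨U, hU, fun x hx y hy => ?_⟩
  have := h x hx y hy x hx
  rw [hc.self] at this
  exact eq_inv_of_mul_eq_one_right this

/-- eventual form -/
theorem NDC.eventually {c : X → X → G} (hc : NDC c) (z : X) :
    ∀ᶠ p : X × X × X in 𝓝 z ×ˢ 𝓝 z ×ˢ 𝓝 z, c p.1 p.2.1 * c p.2.1 p.2.2 = c p.1 p.2.2 := by
  obtain ⟨U, hU, h⟩ := hc z
  have : U ×ˢ U ×ˢ U ∈ 𝓝 z ×ˢ 𝓝 z ×ˢ 𝓝 z := prod_mem_prod hU (prod_mem_prod hU hU)
  filter_upwards [this] with p hp
  exact h _ hp.1 _ hp.2.1 _ hp.2.2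

theorem NDC.of_eventually {c : X → X → G}
    (h : ∀ z : X, ∀ᶠ p : X × X × X in 𝓝 z ×ˢ 𝓝 z ×ˢ 𝓝 z,
      c p.1 p.2.1 * c p.2.1 p.2.2 = c p.1 p.2.2) : NDC c := by
  intro z
  obtain ⟨U, hU, V, hV, hUV⟩ := mem_prod_iff.1 (h z)
  obtain ⟨V₁, hV₁, V₂, hV₂, hV'⟩ := mem_prod_iff.1 hV
  refine ⟨U ∩ V₁ ∩ V₂, inter_mem (inter_mem hU hV₁) hV₂, fun x hx y hy w hw => ?_⟩
  have : (x, y, w) ∈ U ×ˢ V := ⟨hx.1.1, hV' ⟨hy.1.2, hw.2⟩⟩
  exact hUV this

/-- pull-back under a continuous map -/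
theorem NDC.comp {c : X → X → G} (hc : NDC c) {f : Y → X} (hf : Continuous f) :
    NDC (fun y y' => c (f y) (f y')) := by
  intro z
  obtain ⟨U, hU, h⟩ := hc (f z)
  exact ⟨f ⁻¹' U, hf.continuousAt hU, fun x hx y hy w hw => h _ hx _ hy _ hw⟩

/-- push-forward under a group homomorphism -/
theorem NDC.map {c : X → X → G} (hc : NDC c) {G' : Type*} [Group G'] (φ : G →* G') :
    NDC (fun x y => φ (c x y)) := by
  intro z
  obtain ⟨U, hU, h⟩ := hc z
  exact ⟨U, hU, fun x hx y hy w hw => by rw [← map_mul, h x hx y hy w hw]⟩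

theorem NDC.one : NDC (fun _ _ : X => (1 : G)) := fun _ => ⟨univ, univ_mem, by simp⟩

/-- change of frames -/
theorem NDC.gauge {c : X → X → G} (hc : NDC c) (A : X → G) :
    NDC (fun x y => A x * c x y * (A y)⁻¹) := by
  intro z
  obtain ⟨U, hU, h⟩ := hc z
  refine ⟨U, hU, fun x hx y hy w hw => ?_⟩
  simp only
  rw [← h x hx y hy w hw]
  group

theorem CobBy.refl (c : X → X → G) : CobBy (fun _ => 1) c c :=
  fun _ => ⟨univ, univ_mem, by simp⟩

theorem CobBy.symm {A : X → G} {c c' : X → X → G} (h : CobBy A c c') :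
    CobBy (fun x => (A x)⁻¹) c' c := by
  intro z
  obtain ⟨U, hU, h⟩ := h z
  refine ⟨U, hU, fun x hx y hy => ?_⟩
  rw [h x hx y hy]
  group

theorem CobBy.trans {A B : X → G} {c c' c'' : X → X → G} (h : CobBy A c c')
    (h' : CobBy B c' c'') : CobBy (fun x => A x * B x) c c'' := by
  intro z
  obtain ⟨U, hU, h⟩ := h z
  obtain ⟨V, hV, h'⟩ := h' z
  refine ⟨U ∩ V, inter_mem hU hV, fun x hx y hy => ?_⟩
  rw [h x hx.1 y hy.1, h' x hx.2 y hy.2]
  group

theorem CobBy.comp {A : X → G} {c c' : X → X → G} (h : CobBy A c c') {f : Y → X}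
    (hf : Continuous f) :
    CobBy (fun y => A (f y)) (fun y y' => c (f y) (f y')) (fun y y' => c' (f y) (f y')) := by
  intro z
  obtain ⟨U, hU, h⟩ := h (f z)
  exact ⟨f ⁻¹' U, hf.continuousAt hU, fun x hx y hy => h _ hx _ hy⟩

theorem CobBy.ndc {A : X → G} {c c' : X → X → G} (h : CobBy A c c') (hc' : NDC c') : NDC c := by
  intro z
  obtain ⟨U, hU, h⟩ := h z
  obtain ⟨V, hV, h'⟩ := hc' z
  refine ⟨U ∩ V, inter_mem hU hV, fun x hx y hy w hw => ?_⟩
  rw [h x hx.1 y hy.1, h y hy.1 w hw.1, h x hx.1 w hw.1, ← h' x hx.2 y hy.2 w hw.2]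
  group

theorem Cob.refl (c : X → X → G) : Cob c c := ⟨_, CobBy.refl c⟩
theorem Cob.symm {c c' : X → X → G} (h : Cob c c') : Cob c' c := ⟨_, h.choose_spec.symm⟩
theorem Cob.trans {c c' c'' : X → X → G} (h : Cob c c') (h' : Cob c' c'') : Cob c c'' :=
  ⟨_, h.choose_spec.trans h'.choose_spec⟩
theorem Cob.comp {c c' : X → X → G} (h : Cob c c') {f : Y → X} (hf : Continuous f) :
    Cob (fun y y' => c (f y) (f y')) (fun y y' => c' (f y) (f y')) :=
  ⟨_, h.choose_spec.comp hf⟩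

theorem trivBy_iff_cobBy {A : X → G} {c : X → X → G} :
    TrivBy A c ↔ CobBy A c (fun _ _ => 1) := by
  simp [TrivBy, CobBy]

theorem triv_iff_cob {c : X → X → G} : Triv c ↔ Cob c (fun _ _ => 1) := by
  simp [Triv, Cob, trivBy_iff_cobBy]

theorem TrivBy.comp {A : X → G} {c : X → X → G} (h : TrivBy A c) {f : Y → X}
    (hf : Continuous f) : TrivBy (fun y => A (f y)) (fun y y' => c (f y) (f y')) := by
  rw [trivBy_iff_cobBy] at *
  exact h.comp hf

theorem Triv.comp {c : X → X → G} (h : Triv c) {f : Y → X} (hf : Continuous f) :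
    Triv (fun y y' => c (f y) (f y')) := ⟨_, h.choose_spec.comp hf⟩

theorem TrivBy.mul_const {A : X → G} {c : X → X → G} (h : TrivBy A c) (g : G) :
    TrivBy (fun x => A x * g) c := by
  intro z
  obtain ⟨U, hU, h⟩ := h z
  refine ⟨U, hU, fun x hx y hy => ?_⟩
  rw [h x hx y hy]
  group

/-- normalisation at a base point -/
theorem Triv.normalise {c : X → X → G} (h : Triv c) (x₀ : X) :
    ∃ A : X → G, A x₀ = 1 ∧ TrivBy A c := by
  obtain ⟨A, hA⟩ := h
  exact ⟨fun x => A x * (A x₀)⁻¹, by simp, hA.mul_const _⟩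

/-- The ratio of two trivialisations is locally constant. -/
theorem TrivBy.isLocallyConstant {A B : X → G} {c : X → X → G} (hA : TrivBy A c)
    (hB : TrivBy B c) : IsLocallyConstant (fun x => (A x)⁻¹ * B x) := by
  rw [IsLocallyConstant.iff_eventually_eq]
  intro z
  obtain ⟨U, hU, h⟩ := hA z
  obtain ⟨V, hV, h'⟩ := hB z
  filter_upwards [hU, hV] with x hxU hxV
  have h1 := h x hxU z (mem_of_mem_nhds hU)
  have h2 := h' x hxV z (mem_of_mem_nhds hV)
  rw [h1] at h2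
  have : B x = A x * (A z)⁻¹ * B z := by rw [h2]; group
  rw [this]
  group

/-- uniqueness of trivialisations on preconnected spaces -/
theorem TrivBy.eq_mul_const [PreconnectedSpace X] {A B : X → G} {c : X → X → G}
    (hA : TrivBy A c) (hB : TrivBy B c) (x₀ x : X) :
    B x = A x * ((A x₀)⁻¹ * B x₀) := by
  have := (hA.isLocallyConstant hB).apply_eq_of_preconnectedSpace x x₀
  rw [← this]
  group

theorem TrivBy.eq_of_eq [PreconnectedSpace X] {A B : X → G} {c : X → X → G}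
    (hA : TrivBy A c) (hB : TrivBy B c) {x₀ : X} (h : A x₀ = B x₀) : A = B := by
  funext x
  rw [hA.eq_mul_const hB x₀ x, h]
  group

/-- A cocycle on a set on which the cocycle identity holds globally. -/
theorem trivBy_of_forall {c : X → X → G} (h : ∀ x y w, c x y * c y w = c x w) (x₀ : X) :
    TrivBy (fun x => c x x₀) c := by
  intro z
  refine ⟨univ, univ_mem, fun x _ y _ => ?_⟩
  simp only
  rw [← h x y x₀]
  group

/-! ### The associated covering space -/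

/-- The total space `X × G` of the local system. -/
structure Cov (c : X → X → G) where
  /-- base point -/
  pt : X
  /-- coordinate in the frame at `pt` -/
  val : G

/-- the topology of the total space: `(x, c x z * g)` is close to `(z, g)` for `x` close to `z` -/
instance Cov.top (c : X → X → G) : TopologicalSpace (Cov c) where
  IsOpen W := ∀ p ∈ W, ∀ᶠ x in 𝓝 (Cov.pt p), (⟨x, c x p.pt * p.val⟩ : Cov c) ∈ W
  isOpen_univ := fun _ _ => Eventually.of_forall fun _ => trivial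
  isOpen_inter := fun _ _ hs ht p hp => (hs p hp.1).and (ht p hp.2)
  isOpen_sUnion := fun _ hS p ⟨W, hW, hp⟩ =>
    (hS W hW p hp).mono fun _ hx => ⟨W, hW, hx⟩

theorem Cov.isOpen_iff {c : X → X → G} (W : Set (Cov c)) :
    IsOpen W ↔ ∀ p ∈ W, ∀ᶠ x in 𝓝 (Cov.pt p), (⟨x, c x p.pt * p.val⟩ : Cov c) ∈ W := Iff.rfl

theorem Cov.continuous_pt {c : X → X → G} : Continuous (Cov.pt : Cov c → X) := by
  refine ⟨fun U hU => ?_⟩
  rw [Cov.isOpen_iff]
  intro p hp
  exact hU.mem_nhds hp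

theorem Cov.isOpen_sheet {c : X → X → G} {U : Set X} (hU : IsOpen U)
    (h : ∀ x ∈ U, ∀ y ∈ U, ∀ w ∈ U, c x y * c y w = c x w) {z : X} (hz : z ∈ U)
    (g : G) : IsOpen {p : Cov c | p.pt ∈ U ∧ c z p.pt * p.val = g} := by
  rw [Cov.isOpen_iff]
  rintro ⟨y, g'⟩ ⟨hyU, hyS⟩
  filter_upwards [hU.mem_nhds hyU] with x hxU
  refine ⟨hxU, ?_⟩
  simp only at hyS ⊢
  rw [← mul_assoc, h z hz x hxU y hyU]
  exact hyS

theorem Cov.continuous_sheet {c : X → X → G} {U : Set X}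
    (h : ∀ x ∈ U, ∀ y ∈ U, ∀ w ∈ U, c x y * c y w = c x w) {z : X} (hz : z ∈ U)
    (g : G) : Continuous (fun x : U => (⟨x.1, c x.1 z * g⟩ : Cov c)) := by
  refine ⟨fun W hW => ?_⟩
  rw [isOpen_iff_mem_nhds]
  intro x₀ hx₀
  have h1 := (Cov.isOpen_iff W).1 hW _ hx₀
  have h2 : ∀ᶠ x : U in 𝓝 x₀, (⟨x.1, c x.1 x₀.1 * (c x₀.1 z * g)⟩ : Cov c) ∈ W :=
    continuous_subtype_val.continuousAt.eventually h1
  filter_upwards [h2] with x hx
  rw [← mul_assoc, h x.1 x.2 x₀.1 x₀.2 z hz] at hx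
  exact hx

theorem Cov.isCoveringMap {c : X → X → G} (hc : NDC c) :
    IsCoveringMap (Cov.pt : Cov c → X) := by
  let : TopologicalSpace G := ⊥
  have : DiscreteTopology G := ⟨rfl⟩
  intro z
  refine IsEvenlyCovered.to_isEvenlyCovered_preimage (I := G) ?_
  obtain ⟨U, hU, hz, h⟩ := hc.open_nhds z
  have hone : ∀ x ∈ U, ∀ y ∈ U, c x y * c y x = 1 := fun x hx y hy => by
    rw [h x hx y hy x hx, hc.self]
  refine ⟨inferInstance, U, hz, hU, hU.preimage Cov.continuous_pt, ?_⟩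
  refine ⟨{ toFun := fun e => (⟨e.1.pt, e.2⟩, c z e.1.pt * e.1.val)
            invFun := fun q => ⟨⟨q.1.1, c q.1.1 z * q.2⟩, q.1.2⟩
            left_inv := ?_
            right_inv := ?_
            continuous_toFun := ?_
            continuous_invFun := ?_ }, fun x => rfl⟩
  · rintro ⟨⟨x, g⟩, hx⟩
    have hx : x ∈ U := hx
    simp only [Subtype.mk.injEq, Cov.mk.injEq, true_and]
    rw [← mul_assoc, hone x hx z hz, one_mul]
  · rintro ⟨⟨x, hx⟩, g⟩
    simp only [Prod.mk.injEq, true_and]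
    rw [← mul_assoc, hone z hz x hx, one_mul]
  · refine Continuous.prodMk ?_ ?_
    · exact Continuous.subtype_mk (Cov.continuous_pt.comp continuous_subtype_val) _
    · rw [continuous_discrete_rng]
      intro g
      have := (Cov.isOpen_sheet hU h hz g).preimage
        (continuous_subtype_val : Continuous (Subtype.val : (Cov.pt ⁻¹' U : Set (Cov c)) → Cov c))
      convert this using 1
      ext e
      simp only [mem_preimage, mem_singleton_iff, mem_ofPred_eq]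
      exact ⟨fun h => ⟨e.2, h⟩, fun h => h.2⟩
  · refine Continuous.subtype_mk ?_ _
    rw [continuous_prod_of_discrete_right]
    intro g
    exact Cov.continuous_sheet h hz g

/-- Triviality on simply connected, locally path connected spaces. -/
theorem NDC.triv_of_simplyConnected [SimplyConnectedSpace X] [LocallyPathConnectedSpace X]
    {c : X → X → G} (hc : NDC c) : Triv c := by
  obtain ⟨x₀⟩ : Nonempty X := inferInstance
  obtain ⟨F, ⟨-, hF⟩, -⟩ := (Cov.isCoveringMap hc).existsUnique_continuousMap_lifts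
    (ContinuousMap.id X) x₀ ⟨x₀, 1⟩ rfl
  have hF' : ∀ x, (F x).pt = x := fun x => congrFun hF x
  refine ⟨fun x => (F x).val, fun z => ?_⟩
  obtain ⟨U, hU, hz, h⟩ := hc.open_nhds z
  have hW := Cov.isOpen_sheet hU h hz (F z).val
  have h1 : F ⁻¹' {p : Cov c | p.pt ∈ U ∧ c z p.pt * p.val = (F z).val} ∈ 𝓝 z := by
    refine (hW.preimage F.continuous).mem_nhds ⟨by rw [hF']; exact hz, ?_⟩
    rw [hF', hc.self, one_mul]
  refine ⟨_, h1, fun x hx y hy => ?_⟩
  obtain ⟨hx1, hx2⟩ := hx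
  obtain ⟨hy1, hy2⟩ := hy
  rw [hF'] at hx1 hx2 hy1 hy2
  simp only
  have h3 : (F x).val = c x z * (F z).val := by
    rw [← hx2, ← mul_assoc, h x hx1 z hz x hx1, hc.self, one_mul]
  have h4 : (F y).val = c y z * (F z).val := by
    rw [← hy2, ← mul_assoc, h y hy1 z hz y hy1, hc.self, one_mul]
  have h5 : c y z = (c z y)⁻¹ := by
    apply eq_inv_of_mul_eq_one_left
    rw [h y hy1 z hz y hy1, hc.self]
  rw [h3, h4, ← h x hx1 z hz y hy1, h5]
  group

theorem NDC.triv_real {c : ℝ → ℝ → G} (hc : NDC c) : Triv c := hc.triv_of_simplyConnected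

/-! ### The homotopy theorem -/

/-- HOMOTOPY THEOREM.  `T` is a connected, locally connected space on which every near-diagonal
`G`-cocycle is trivial (e.g. `ℝ`, `[0,1]`, a simply connected locally path connected space). -/
theorem NDC.homotopy {T : Type*} [TopologicalSpace T] [PreconnectedSpace T]
    [LocallyConnectedSpace T] (hT : ∀ c : T → T → G, NDC c → Triv c) {c : X × T → X × T → G}
    (hc : NDC c) (t₀ : T) :
    ∃ A : X × T → G, (∀ x, A (x, t₀) = 1) ∧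
      CobBy A c (fun p q => c (p.1, t₀) (q.1, t₀)) := by
  -- the trivialisations along the slices
  have h1 : ∀ x : X, ∃ a : T → G, a t₀ = 1 ∧ TrivBy a (fun t t' => c (x, t) (x, t')) := by
    intro x
    have : NDC (fun t t' => c (x, t) (x, t')) :=
      hc.comp (f := fun t : T => (x, t)) (by fun_prop)
    exact (hT _ this).normalise t₀
  choose a ha₀ ha using h1
  refine ⟨fun p => a p.1 p.2, fun x => ha₀ x, ?_⟩
  -- local boxes
  have box : ∀ z : X × T, ∃ U ∈ 𝓝 z.1, ∃ J : Set T, IsOpen J ∧ z.2 ∈ J ∧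
      (∀ p ∈ U ×ˢ J, ∀ q ∈ U ×ˢ J, ∀ r ∈ U ×ˢ J, c p q * c q r = c p r) ∧
      (∀ x ∈ U, ∀ t ∈ J, ∀ t' ∈ J, a x t = c (x, t) (x, t') * a x t') := by
    rintro ⟨x₀, s₀⟩
    obtain ⟨W, hW, hcW⟩ := hc (x₀, s₀)
    rw [nhds_prod_eq] at hW
    obtain ⟨U, hU, J₁, hJ₁, hUJ⟩ := mem_prod_iff.1 hW
    obtain ⟨J, ⟨hJo, hsJ, hJc⟩, hJJ⟩ :=
      (locallyConnectedSpace_iff_hasBasis_isOpen_isConnected.1 inferInstance s₀).mem_iff.1 hJ₁
    have hsub : U ×ˢ J ⊆ W := (prod_mono_right hJJ).trans hUJ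
    refine ⟨U, hU, J, hJo, hsJ, fun p hp q hq r hr => hcW p (hsub hp) q (hsub hq) r (hsub hr),
      fun x hx t ht t' ht' => ?_⟩
    -- both sides trivialise the cocycle on `J`
    have : PreconnectedSpace J := isPreconnected_iff_preconnectedSpace.1 hJc.isPreconnected
    have hA : TrivBy (fun s : J => a x s.1) (fun s s' : J => c (x, s.1) (x, s'.1)) :=
      (ha x).comp (f := fun s : J => s.1) continuous_subtype_val
    have hB : TrivBy (fun s : J => c (x, s.1) (x, t')) (fun s s' : J => c (x, s.1) (x, s'.1)) := by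
      refine trivBy_of_forall (c := fun s s' : J => c (x, s.1) (x, s'.1)) (fun s s' s'' => ?_)
        ⟨t', ht'⟩
      exact hcW _ (hsub ⟨hx, s.2⟩) _ (hsub ⟨hx, s'.2⟩) _ (hsub ⟨hx, s''.2⟩)
    have := hB.eq_mul_const hA ⟨t', ht'⟩ ⟨t, ht⟩
    simp only at this
    rw [this, hc.self]
    group
  -- the clopen argument
  have key : ∀ x₀ : X, ∀ t : T, ∃ U ∈ 𝓝 x₀, ∀ x ∈ U, ∀ y ∈ U,
      c (x, t) (y, t) = a x t * c (x, t₀) (y, t₀) * (a y t)⁻¹ := by
    intro x₀
    have hstep : ∀ s₀ : T, ∃ J : Set T, IsOpen J ∧ s₀ ∈ J ∧ ∀ t ∈ J, ∀ t' ∈ J,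
        (∃ U ∈ 𝓝 x₀, ∀ x ∈ U, ∀ y ∈ U,
          c (x, t) (y, t) = a x t * c (x, t₀) (y, t₀) * (a y t)⁻¹) →
        (∃ U ∈ 𝓝 x₀, ∀ x ∈ U, ∀ y ∈ U,
          c (x, t') (y, t') = a x t' * c (x, t₀) (y, t₀) * (a y t')⁻¹) := by
      intro s₀
      obtain ⟨U, hU, J, hJo, hsJ, hcc, haa⟩ := box (x₀, s₀)
      refine ⟨J, hJo, hsJ, fun t ht t' ht' => ?_⟩
      rintro ⟨V, hV, hVV⟩
      refine ⟨U ∩ V, inter_mem hU hV, fun x hx y hy => ?_⟩
      have e1 : c (x, t') (x, t) * c (x, t) (y, t) = c (x, t') (y, t) :=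
        hcc _ ⟨hx.1, ht'⟩ _ ⟨hx.1, ht⟩ _ ⟨hy.1, ht⟩
      have e2 : c (x, t') (y, t) * c (y, t) (y, t') = c (x, t') (y, t') :=
        hcc _ ⟨hx.1, ht'⟩ _ ⟨hy.1, ht⟩ _ ⟨hy.1, ht'⟩
      have e3 := haa x hx.1 t' ht' t ht
      have e4 := haa y hy.1 t ht t' ht'
      rw [← e2, ← e1, hVV x hx.2 y hy.2, e3, e4]
      group
    have hopen : IsOpen {t : T | ∃ U ∈ 𝓝 x₀, ∀ x ∈ U, ∀ y ∈ U,
        c (x, t) (y, t) = a x t * c (x, t₀) (y, t₀) * (a y t)⁻¹} := by
      rw [isOpen_iff_mem_nhds]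
      intro s hs
      obtain ⟨J, hJo, hsJ, hJ⟩ := hstep s
      exact mem_of_superset (hJo.mem_nhds hsJ) fun t ht => hJ s hsJ t ht hs
    have hclosed : IsClosed {t : T | ∃ U ∈ 𝓝 x₀, ∀ x ∈ U, ∀ y ∈ U,
        c (x, t) (y, t) = a x t * c (x, t₀) (y, t₀) * (a y t)⁻¹} := by
      rw [← isOpen_compl_iff, isOpen_iff_mem_nhds]
      intro s hs
      obtain ⟨J, hJo, hsJ, hJ⟩ := hstep s
      exact mem_of_superset (hJo.mem_nhds hsJ) fun t ht h => hs (hJ t ht s hsJ h)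
    have hne : ({t : T | ∃ U ∈ 𝓝 x₀, ∀ x ∈ U, ∀ y ∈ U,
        c (x, t) (y, t) = a x t * c (x, t₀) (y, t₀) * (a y t)⁻¹}).Nonempty :=
      ⟨t₀, univ, univ_mem, fun x _ y _ => by simp [ha₀]⟩
    have := IsClopen.eq_univ ⟨hclosed, hopen⟩ hne
    intro t
    have ht : t ∈ (univ : Set T) := trivial
    rw [← this] at ht
    exact ht
  rintro ⟨x₀, s₀⟩
  obtain ⟨U, hU, J, hJo, hsJ, hcc, haa⟩ := box (x₀, s₀)
  obtain ⟨V, hV, hVV⟩ := key x₀ s₀
  replace hsJ : s₀ ∈ J := hsJ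
  refine ⟨(U ∩ V) ×ˢ J, prod_mem_nhds (inter_mem hU hV) (hJo.mem_nhds hsJ), ?_⟩
  rintro ⟨x, t⟩ ⟨hx, ht⟩ ⟨y, t'⟩ ⟨hy, ht'⟩
  have e1 : c (x, t) (x, s₀) * c (x, s₀) (y, s₀) = c (x, t) (y, s₀) :=
    hcc (x, t) ⟨hx.1, ht⟩ (x, s₀) ⟨hx.1, hsJ⟩ (y, s₀) ⟨hy.1, hsJ⟩
  have e2 : c (x, t) (y, s₀) * c (y, s₀) (y, t') = c (x, t) (y, t') :=
    hcc (x, t) ⟨hx.1, ht⟩ (y, s₀) ⟨hy.1, hsJ⟩ (y, t') ⟨hy.1, ht'⟩
  have e3 := haa x hx.1 t ht s₀ hsJ
  have e4 := haa y hy.1 s₀ hsJ t' ht'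
  simp only
  rw [← e2, ← e1, hVV x hx.2 y hy.2, e3, e4]
  group

/-- the homotopy theorem for `T = ℝ` -/
theorem NDC.homotopy_real {c : X × ℝ → X × ℝ → G} (hc : NDC c) (t₀ : ℝ) :
    ∃ A : X × ℝ → G, (∀ x, A (x, t₀) = 1) ∧
      CobBy A c (fun p q => c (p.1, t₀) (q.1, t₀)) :=
  hc.homotopy (fun _ h => h.triv_real) t₀

/-- the homotopy theorem for `T = [0,1]` -/
theorem NDC.homotopy_unitInterval {c : X × unitInterval → X × unitInterval → G} (hc : NDC c) :
    ∃ A : X × unitInterval → G, (∀ x, A (x, 0) = 1) ∧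
      CobBy A c (fun p q => c (p.1, 0) (q.1, 0)) := by
  -- pull back along the clamp `ℝ → [0,1]`
  let π : X × ℝ → X × unitInterval := fun p => (p.1, projIcc 0 1 zero_le_one p.2)
  have hπ : Continuous π := by
    refine continuous_fst.prodMk ?_
    exact continuous_projIcc.comp continuous_snd
  obtain ⟨A, hA0, hA⟩ := (hc.comp hπ).homotopy_real 0
  refine ⟨fun p => A (p.1, p.2.1), fun x => hA0 x, ?_⟩
  have h2 := hA.comp (f := fun p : X × unitInterval => (p.1, (p.2 : ℝ))) (by fun_prop)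
  have e0 : projIcc (0 : ℝ) 1 zero_le_one 0 = 0 := projIcc_left _
  have e1 : ∀ p : X × unitInterval, π (p.1, (p.2 : ℝ)) = p := by
    rintro ⟨x, t⟩
    simp [π]
  intro z
  obtain ⟨U, hU, h⟩ := h2 z
  refine ⟨U, hU, fun x hx y hy => ?_⟩
  have := h x hx y hy
  simp only [e1] at this
  simp only [π, e0] at this
  exact this

/-- pull-backs of a cocycle by homotopic maps are cohomologous -/
theorem NDC.cob_of_homotopic {c : Y → Y → G} (hc : NDC c) {f g : C(X, Y)}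
    (h : f.Homotopic g) :
    Cob (fun x y => c (f x) (f y)) (fun x y => c (g x) (g y)) := by
  obtain ⟨H⟩ := h
  have h1 : NDC (fun p q : X × unitInterval => c (H (p.2, p.1)) (H (q.2, q.1))) :=
    hc.comp (f := fun p : X × unitInterval => H (p.2, p.1)) (by fun_prop)
  obtain ⟨A, hA0, hA⟩ := h1.homotopy_unitInterval
  have h2 := hA.comp (f := fun x : X => (x, (1 : unitInterval))) (by fun_prop)
  simp only [ContinuousMap.Homotopy.apply_one, ContinuousMap.Homotopy.apply_zero] at h2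
  exact Cob.symm ⟨_, h2⟩

/-- cocycles on contractible spaces are trivial -/
theorem NDC.triv_of_contractible [ContractibleSpace X] {c : X → X → G} (hc : NDC c) : Triv c := by
  obtain ⟨x₀, h⟩ := id_nullhomotopic X
  have := hc.cob_of_homotopic h
  simp only [ContinuousMap.id_apply, ContinuousMap.const_apply, hc.self] at this
  rw [triv_iff_cob]
  exact this

/-! ### Star-shaped and convex sets -/

section Star

variable {E : Type*} [AddCommGroup E] [Module ℝ E] [TopologicalSpace E] [ContinuousAdd E]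
  [ContinuousSMul ℝ E]

/-- cocycles on a star-shaped subset are trivial (`S` arbitrary, as a subtype) -/
theorem NDC.triv_of_starConvex {S : Set E} {p : E} (hp : p ∈ S) (hS : StarConvex ℝ p S)
    {c : S → S → G} (hc : NDC c) : Triv c := by
  -- the contraction
  let H : S × unitInterval → S := fun q =>
    ⟨(1 - (q.2 : ℝ)) • p + (q.2 : ℝ) • (q.1 : E), hS q.1.2 (by linarith [q.2.2.2]) q.2.2.1
      (by ring)⟩
  have hH : Continuous H := by
    refine Continuous.subtype_mk ?_ _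
    fun_prop
  obtain ⟨A, hA0, hA⟩ := (hc.comp hH).homotopy_unitInterval
  have h2 := hA.comp (f := fun x : S => (x, (1 : unitInterval))) (by fun_prop)
  have e1 : ∀ x : S, H (x, 1) = x := fun x => Subtype.ext (by simp [H])
  have e0 : ∀ x : S, H (x, 0) = ⟨p, hp⟩ := fun x => Subtype.ext (by simp [H])
  simp only [e1, e0, hc.self] at h2
  rw [triv_iff_cob]
  exact ⟨_, h2⟩

/-- cocycles on a convex subset are trivial -/
theorem NDC.triv_of_convex {S : Set E} (hS : Convex ℝ S)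
    {c : S → S → G} (hc : NDC c) : Triv c := by
  rcases S.eq_empty_or_nonempty with h | ⟨p, hp⟩
  · subst h
    exact ⟨fun _ => 1, fun z => z.2.elim⟩
  · exact hc.triv_of_starConvex hp (hS.starConvex hp)

end Star

/-! ### Subset versions -/

/-- near-diagonal cocycle on a subset -/
def NDCOn (c : X → X → G) (S : Set X) : Prop :=
  ∀ z ∈ S, ∃ U ∈ 𝓝[S] z, ∀ x ∈ U, ∀ y ∈ U, ∀ w ∈ U, c x y * c y w = c x w

/-- `A` trivialises `c` on `S` -/
def TrivByOn (A : X → G) (c : X → X → G) (S : Set X) : Prop :=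
  ∀ z ∈ S, ∃ U ∈ 𝓝[S] z, ∀ x ∈ U, ∀ y ∈ U, c x y = A x * (A y)⁻¹

theorem NDC.ndcOn {c : X → X → G} (hc : NDC c) (S : Set X) : NDCOn c S := fun z _ => by
  obtain ⟨U, hU, h⟩ := hc z
  exact ⟨U, mem_nhdsWithin_of_mem_nhds hU, h⟩

theorem NDCOn.mono {c : X → X → G} {S S' : Set X} (hc : NDCOn c S) (h : S' ⊆ S) : NDCOn c S' :=
  fun z hz => by
    obtain ⟨U, hU, hUc⟩ := hc z (h hz)
    exact ⟨U, nhdsWithin_mono z h hU, hUc⟩

theorem NDCOn.subtype {c : X → X → G} {S : Set X} (hc : NDCOn c S) :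
    NDC (fun x y : S => c x y) := by
  rintro ⟨z, hz⟩
  obtain ⟨U, hU, h⟩ := hc z hz
  exact ⟨Subtype.val ⁻¹' U, preimage_coe_mem_nhds_subtype.2 hU,
    fun x hx y hy w hw => h _ hx _ hy _ hw⟩

theorem ndcOn_iff_subtype {c : X → X → G} {S : Set X} :
    NDCOn c S ↔ NDC (fun x y : S => c x y) := by
  refine ⟨NDCOn.subtype, fun h z hz => ?_⟩
  obtain ⟨U, hU, hUc⟩ := h ⟨z, hz⟩
  refine ⟨Subtype.val '' U, ?_, ?_⟩
  · rw [nhdsWithin_eq_map_subtype_coe hz]
    exact image_mem_map hU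
  · rintro _ ⟨x, hx, rfl⟩ _ ⟨y, hy, rfl⟩ _ ⟨w, hw, rfl⟩
    exact hUc x hx y hy w hw

theorem TrivByOn.subtype {A : X → G} {c : X → X → G} {S : Set X} (hc : TrivByOn A c S) :
    TrivBy (fun x : S => A x) (fun x y : S => c x y) := by
  rintro ⟨z, hz⟩
  obtain ⟨U, hU, h⟩ := hc z hz
  exact ⟨Subtype.val ⁻¹' U, preimage_coe_mem_nhds_subtype.2 hU, fun x hx y hy => h _ hx _ hy⟩

theorem trivByOn_iff_subtype {A : X → G} {c : X → X → G} {S : Set X} :
    TrivByOn A c S ↔ TrivBy (fun x : S => A x) (fun x y : S => c x y) := by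
  refine ⟨TrivByOn.subtype, fun h z hz => ?_⟩
  obtain ⟨U, hU, hUc⟩ := h ⟨z, hz⟩
  refine ⟨Subtype.val '' U, ?_, ?_⟩
  · rw [nhdsWithin_eq_map_subtype_coe hz]
    exact image_mem_map hU
  · rintro _ ⟨x, hx, rfl⟩ _ ⟨y, hy, rfl⟩
    exact hUc x hx y hy

theorem exists_trivByOn_iff {c : X → X → G} {S : Set X} :
    (∃ A, TrivByOn A c S) ↔ Triv (fun x y : S => c x y) := by
  constructor
  · rintro ⟨A, hA⟩
    exact ⟨_, hA.subtype⟩
  · rintro ⟨A, hA⟩
    classical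
    refine ⟨fun x => if hx : x ∈ S then A ⟨x, hx⟩ else 1, trivByOn_iff_subtype.2 ?_⟩
    convert hA using 2 with x
    simp

/-- For open sets `𝓝[S] z` may be replaced by `𝓝 z`. -/
theorem NDCOn.nhds {c : X → X → G} {S : Set X} (hS : IsOpen S) (hc : NDCOn c S) {z : X}
    (hz : z ∈ S) : ∃ U ∈ 𝓝 z, U ⊆ S ∧ ∀ x ∈ U, ∀ y ∈ U, ∀ w ∈ U, c x y * c y w = c x w := by
  obtain ⟨U, hU, h⟩ := hc z hz
  rw [hS.nhdsWithin_eq hz] at hU
  exact ⟨U ∩ S, inter_mem hU (hS.mem_nhds hz), inter_subset_right,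
    fun x hx y hy w hw => h x hx.1 y hy.1 w hw.1⟩

theorem TrivByOn.nhds {A : X → G} {c : X → X → G} {S : Set X} (hS : IsOpen S)
    (hc : TrivByOn A c S) {z : X}
    (hz : z ∈ S) : ∃ U ∈ 𝓝 z, U ⊆ S ∧ ∀ x ∈ U, ∀ y ∈ U, c x y = A x * (A y)⁻¹ := by
  obtain ⟨U, hU, h⟩ := hc z hz
  rw [hS.nhdsWithin_eq hz] at hU
  exact ⟨U ∩ S, inter_mem hU (hS.mem_nhds hz), inter_subset_right,
    fun x hx y hy => h x hx.1 y hy.1⟩

/-- uniqueness of trivialisations on preconnected subsets -/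
theorem TrivByOn.eq_mul_const {A B : X → G} {c : X → X → G} {S : Set X}
    (hS : IsPreconnected S) (hA : TrivByOn A c S) (hB : TrivByOn B c S) {x₀ x : X}
    (hx₀ : x₀ ∈ S) (hx : x ∈ S) : B x = A x * ((A x₀)⁻¹ * B x₀) := by
  have : PreconnectedSpace S := isPreconnected_iff_preconnectedSpace.1 hS
  exact hA.subtype.eq_mul_const hB.subtype ⟨x₀, hx₀⟩ ⟨x, hx⟩

theorem NDCOn.exists_trivByOn_starConvex {E : Type*} [AddCommGroup E] [Module ℝ E]
    [TopologicalSpace E] [ContinuousAdd E] [ContinuousSMul ℝ E] {S : Set E} {p : E}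
    (hp : p ∈ S) (hS : StarConvex ℝ p S) {c : E → E → G} (hc : NDCOn c S) :
    ∃ A : E → G, TrivByOn A c S :=
  exists_trivByOn_iff.2 (hc.subtype.triv_of_starConvex hp hS)

theorem NDCOn.exists_trivByOn_convex {E : Type*} [AddCommGroup E] [Module ℝ E]
    [TopologicalSpace E] [ContinuousAdd E] [ContinuousSMul ℝ E] {S : Set E}
    (hS : Convex ℝ S) {c : E → E → G} (hc : NDCOn c S) :
    ∃ A : E → G, TrivByOn A c S :=
  exists_trivByOn_iff.2 (hc.subtype.triv_of_convex hS)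

end Crest.Agent.R276.Top1_816
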