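import Mathlib

/-!
# R276, leaf TOP2 (helper937), part 1: de Rham = Čech for 1-forms with values in a local system,
finite covers by convex open sets

`CC E V` : a family of convex open sets `W i` of a real normed space with constant transition maps
`g i j` (a cocycle on non-empty triple intersections).
`Form C` : smooth closed 1-forms `η i` on `W i`, `η i = g i j ∘ η j` on `W i ∩ W j`.
`Form.exists_prim` : local primitives `ψ i` and constants `c i j` with
`ψ i = g i j (ψ j) + c i j` on `W i ∩ W j`.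
`Form.exact_iff` : `η` is exact iff `c` is a coboundary.
`exists_form` : every Čech cocycle is realised by a smooth closed form.
`exists_bound` : the Čech cochain can be chosen bounded by the `L¹` norm on compact subsets;
`exact_of_tendsto` : an `L¹_loc` limit of exact forms is exact.
-/

set_option autoImplicit false
set_option linter.unusedSectionVars false

open Set Filter Topology MeasureTheory
open scoped ContDiff

namespace Crest.Agent.R276.Top2_937

noncomputable section

/-- a family of convex open sets with constant transition maps -/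
structure CC (E V : Type*) [NormedAddCommGroup E] [NormedSpace ℝ E] [NormedAddCommGroup V]
    [NormedSpace ℝ V] where
  ι : Type
  W : ι → Set E
  g : ι → ι → V →L[ℝ] V
  isOpen : ∀ i, IsOpen (W i)
  convex : ∀ i, Convex ℝ (W i)
  g_mul : ∀ i j l, (W i ∩ W j ∩ W l).Nonempty → (g i j).comp (g j l) = g i l
  g_self : ∀ i, (W i).Nonempty → g i i = ContinuousLinearMap.id ℝ V

variable {E V : Type*} [NormedAddCommGroup E] [NormedSpace ℝ E] [NormedAddCommGroup V]
  [NormedSpace ℝ V]

/-- smooth closed 1-form with values in the local system -/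
structure Form (C : CC E V) where
  η : C.ι → E → E →L[ℝ] V
  smooth : ∀ i, ContDiffOn ℝ ∞ (η i) (C.W i)
  closed : ∀ i, ∀ x ∈ C.W i, ∀ u v, fderiv ℝ (η i) x u v = fderiv ℝ (η i) x v u
  compat : ∀ i j, ∀ x ∈ C.W i ∩ C.W j, η i x = (C.g i j).comp (η j x)

/-- local primitives of a form, with their Čech cochain -/
structure Prim {C : CC E V} (F : Form C) where
  ψ : C.ι → E → V
  c : C.ι → C.ι → V
  der : ∀ i, ∀ x ∈ C.W i, HasFDerivAt (ψ i) (F.η i x) x
  rel : ∀ i j, ∀ x ∈ C.W i ∩ C.W j, ψ i x = C.g i j (ψ j x) + c i j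

/-- a smooth global section of the local system with derivative `η` -/
def Form.Exact {C : CC E V} (F : Form C) : Prop :=
  ∃ φ : C.ι → E → V, (∀ i, ∀ x ∈ C.W i, HasFDerivAt (φ i) (F.η i x) x) ∧
    ∀ i j, ∀ x ∈ C.W i ∩ C.W j, φ i x = C.g i j (φ j x)

/-- the Čech cochain `c` is a coboundary -/
def IsCob (C : CC E V) (c : C.ι → C.ι → V) : Prop :=
  ∃ v : C.ι → V, ∀ i j, (C.W i ∩ C.W j).Nonempty → c i j = C.g i j (v j) - v i

theorem contDiffOn_of_hasFDerivAt {W : Set E} (hW : IsOpen W) {f : E → V} {f' : E → E →L[ℝ] V}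
    (hf : ∀ x ∈ W, HasFDerivAt f (f' x) x) (hf' : ContDiffOn ℝ ∞ f' W) : ContDiffOn ℝ ∞ f W := by
  rw [contDiffOn_infty_iff_fderiv_of_isOpen hW]
  refine ⟨fun x hx => (hf x hx).differentiableAt.differentiableWithinAt, ?_⟩
  exact hf'.congr fun x hx => (hf x hx).fderiv

/-- a function with zero derivative on a convex open set is constant there -/
theorem const_of_deriv_zero {W : Set E} (hW : IsOpen W) (hc : Convex ℝ W) {f : E → V}
    (hf : ∀ x ∈ W, HasFDerivAt f (0 : E →L[ℝ] V) x) {x y : E} (hx : x ∈ W) (hy : y ∈ W) :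
    f x = f y := by
  refine hW.is_const_of_fderiv_eq_zero hc.isPreconnected
    (fun z hz => (hf z hz).differentiableAt.differentiableWithinAt) (fun z hz => ?_) hx hy
  rw [(hf z hz).fderiv]; rfl

theorem Form.exists_cochain {C : CC E V} (F : Form C) (ψ : C.ι → E → V)
    (hψ : ∀ i, ∀ x ∈ C.W i, HasFDerivAt (ψ i) (F.η i x) x) :
    ∃ P : Prim F, P.ψ = ψ := by
  classical
  have h1 : ∀ i j, ∃ c : V, ∀ x ∈ C.W i ∩ C.W j, ψ i x = C.g i j (ψ j x) + c := by
    intro i j
    rcases (C.W i ∩ C.W j).eq_empty_or_nonempty with h0 | ⟨y, hy⟩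
    · exact ⟨0, fun x hx => by rw [h0] at hx; exact hx.elim⟩
    · refine ⟨ψ i y - C.g i j (ψ j y), fun x hx => ?_⟩
      have h2 : ψ i x - C.g i j (ψ j x) = ψ i y - C.g i j (ψ j y) := by
        refine const_of_deriv_zero (f := fun z => ψ i z - C.g i j (ψ j z))
          ((C.isOpen i).inter (C.isOpen j)) ((C.convex i).inter (C.convex j)) ?_ hx hy
        intro z hz
        have h3 := (hψ i z hz.1).sub ((C.g i j).hasFDerivAt.comp z (hψ j z hz.2))
        rw [F.compat i j z hz, sub_self] at h3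
        exact h3
      rw [← h2]; abel
  choose c hc using h1
  exact ⟨⟨ψ, c, hψ, hc⟩, rfl⟩

theorem Form.exists_prim {C : CC E V} [CompleteSpace V] (F : Form C) : Nonempty (Prim F) := by
  have h1 : ∀ i, ∃ f : E → V, ∀ x ∈ C.W i, HasFDerivAt f (F.η i x) x := fun i =>
    (C.convex i).exists_forall_hasFDerivAt_of_fderiv_symmetric (C.isOpen i)
      ((F.smooth i).differentiableOn (by simp)) (F.closed i)
  choose ψ hψ using h1
  obtain ⟨P, -⟩ := F.exists_cochain ψ hψ
  exact ⟨P⟩

theorem Prim.smooth {C : CC E V} {F : Form C} (P : Prim F) (i : C.ι) :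
    ContDiffOn ℝ ∞ (P.ψ i) (C.W i) :=
  contDiffOn_of_hasFDerivAt (C.isOpen i) (P.der i) (F.smooth i)

/-- `η` is exact iff the Čech cochain of (any) local primitives is a coboundary -/
theorem Prim.exact_iff {C : CC E V} {F : Form C} (P : Prim F) : F.Exact ↔ IsCob C P.c := by
  classical
  constructor
  · rintro ⟨φ, h1, h2⟩
    have h3 : ∀ i, ∃ v : V, ∀ x ∈ C.W i, φ i x = P.ψ i x + v := by
      intro i
      rcases (C.W i).eq_empty_or_nonempty with h0 | ⟨y, hy⟩
      · exact ⟨0, fun x hx => by rw [h0] at hx; exact hx.elim⟩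
      · refine ⟨φ i y - P.ψ i y, fun x hx => ?_⟩
        have h4 : φ i x - P.ψ i x = φ i y - P.ψ i y := by
          refine const_of_deriv_zero (f := fun z => φ i z - P.ψ i z) (C.isOpen i) (C.convex i) ?_
            hx hy
          intro z hz
          have h5 := (h1 i z hz).sub (P.der i z hz)
          rwa [sub_self] at h5
        rw [← h4]; abel
    choose v hv using h3
    refine ⟨v, fun i j hij => ?_⟩
    obtain ⟨x, hx⟩ := hij
    have h4 := h2 i j x hx
    rw [hv i x hx.1, hv j x hx.2, map_add, P.rel i j x hx] at h4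
    have h5 : P.c i j + v i = C.g i j (v j) := by
      have h6 : C.g i j (P.ψ j x) + (P.c i j + v i) = C.g i j (P.ψ j x) + C.g i j (v j) := by
        rw [← h4]; abel
      exact add_left_cancel h6
    rw [← h5]; abel
  · rintro ⟨v, hv⟩
    refine ⟨fun i x => P.ψ i x + v i, fun i x hx => (P.der i x hx).add_const _, ?_⟩
    intro i j x hx
    show P.ψ i x + v i = C.g i j (P.ψ j x + v j)
    rw [map_add, P.rel i j x hx, hv i j ⟨x, hx⟩]
    abel

/-- the cocycle relation -/
theorem Prim.cocycle {C : CC E V} {F : Form C} (P : Prim F) (i j l : C.ι)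
    (h : (C.W i ∩ C.W j ∩ C.W l).Nonempty) : P.c i j + C.g i j (P.c j l) = P.c i l := by
  obtain ⟨x, ⟨hi, hj⟩, hl⟩ := h
  have h1 := P.rel i j x ⟨hi, hj⟩
  have h2 := P.rel j l x ⟨hj, hl⟩
  have h3 := P.rel i l x ⟨hi, hl⟩
  rw [h2, map_add] at h1
  have h4 : C.g i j (C.g j l (P.ψ l x)) = C.g i l (P.ψ l x) := by
    rw [← C.g_mul i j l ⟨x, ⟨hi, hj⟩, hl⟩]; rfl
  rw [h4] at h1
  rw [h1] at h3
  have h5 : C.g i l (P.ψ l x) + (P.c i j + C.g i j (P.c j l)) = C.g i l (P.ψ l x) + P.c i l := by
    rw [← h3]; abel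
  exact add_left_cancel h5

/-! ### realisation of cocycles -/

/-- derivative of a family of smooth local functions with constant Čech cochain -/
def Form.ofPrim (C : CC E V) (ψ : C.ι → E → V) (c : C.ι → C.ι → V)
    (hs : ∀ i, ContDiffOn ℝ ∞ (ψ i) (C.W i))
    (hr : ∀ i j, ∀ x ∈ C.W i ∩ C.W j, ψ i x = C.g i j (ψ j x) + c i j) : Form C where
  η i x := fderiv ℝ (ψ i) x
  smooth i := (contDiffOn_infty_iff_fderiv_of_isOpen (C.isOpen i)).1 (hs i) |>.2
  closed i x hx u v := by
    have h1 : ContDiffAt ℝ ∞ (ψ i) x := (hs i).contDiffAt ((C.isOpen i).mem_nhds hx)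
    have h2 : IsSymmSndFDerivAt ℝ (ψ i) x := h1.isSymmSndFDerivAt (by
      rw [minSmoothness_of_isRCLikeNormedField]; exact WithTop.coe_le_coe.2 (le_top : (2 : ℕ∞) ≤ ⊤))
    exact h2.eq u v
  compat i j x hx := by
    have h1 : HasFDerivAt (ψ j) (fderiv ℝ (ψ j) x) x :=
      ((hs j).contDiffAt ((C.isOpen j).mem_nhds hx.2)).differentiableAt (by simp) |>.hasFDerivAt
    have h2 : HasFDerivAt (fun y => C.g i j (ψ j y) + c i j)
        ((C.g i j).comp (fderiv ℝ (ψ j) x)) x := ((C.g i j).hasFDerivAt.comp x h1).add_const _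
    have h3 : ψ i =ᶠ[𝓝 x] fun y => C.g i j (ψ j y) + c i j := by
      filter_upwards [((C.isOpen i).inter (C.isOpen j)).mem_nhds hx] with y hy
      exact hr i j y hy
    exact (h2.congr_of_eventuallyEq h3).fderiv

/-- the primitives of `Form.ofPrim` -/
def Prim.ofPrim (C : CC E V) (ψ : C.ι → E → V) (c : C.ι → C.ι → V)
    (hs : ∀ i, ContDiffOn ℝ ∞ (ψ i) (C.W i))
    (hr : ∀ i j, ∀ x ∈ C.W i ∩ C.W j, ψ i x = C.g i j (ψ j x) + c i j) :
    Prim (Form.ofPrim C ψ c hs hr) where
  ψ := ψ
  c := c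
  der i x hx :=
    (((hs i).contDiffAt ((C.isOpen i).mem_nhds hx)).differentiableAt (by simp)).hasFDerivAt
  rel := hr

/-- a smooth partition of unity on the union of finitely many open sets: `ρ i` vanishes exactly
outside `W i` -/
theorem exists_partition [FiniteDimensional ℝ E] {ι : Type} [Fintype ι] {W : ι → Set E}
    (hW : ∀ i, IsOpen (W i)) : ∃ ρ : ι → E → ℝ,
      (∀ i, ContDiffOn ℝ ∞ (ρ i) (⋃ j, W j)) ∧ (∀ i x, ρ i x ≠ 0 → x ∈ W i) ∧
      (∀ i x, 0 ≤ ρ i x) ∧ ∀ x ∈ ⋃ j, W j, ∑ i, ρ i x = 1 := by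
  have h1 : ∀ i, ∃ f : E → ℝ, Function.support f = W i ∧ ContDiff ℝ ∞ f ∧
      Set.range f ⊆ Set.Icc 0 1 := fun i => (hW i).exists_contDiff_support_eq
  choose f hf1 hf2 hf3 using h1
  have h0 : ∀ i x, 0 ≤ f i x := fun i x => (hf3 i ⟨x, rfl⟩).1
  have hpos : ∀ x ∈ ⋃ j, W j, 0 < ∑ i, f i x := by
    intro x hx
    obtain ⟨i, hi⟩ := mem_iUnion.1 hx
    refine Finset.sum_pos' (fun j _ => h0 j x) ⟨i, Finset.mem_univ _, ?_⟩
    have h2 : f i x ≠ 0 := by rw [← hf1 i] at hi; exact hi
    exact lt_of_le_of_ne (h0 i x) h2.symm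
  refine ⟨fun i x => f i x / ∑ j, f j x, fun i => ?_, fun i x hx => ?_, fun i x => ?_,
    fun x hx => ?_⟩
  · refine (hf2 i).contDiffOn.div (ContDiff.sum fun j _ => hf2 j).contDiffOn ?_
    intro x hx
    exact (hpos x hx).ne'
  · have h2 : f i x ≠ 0 := fun h => hx (by simp [h])
    rw [← hf1 i]; exact h2
  · exact div_nonneg (h0 i x) (Finset.sum_nonneg fun j _ => h0 j x)
  · simp only
    rw [← Finset.sum_div, div_self (hpos x hx).ne']

/-- every Čech cocycle is realised by a smooth closed form -/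
theorem exists_form [FiniteDimensional ℝ E] (C : CC E V) [Finite C.ι] (c : C.ι → C.ι → V)
    (hc : ∀ i j l, (C.W i ∩ C.W j ∩ C.W l).Nonempty → c i j + C.g i j (c j l) = c i l) :
    ∃ (F : Form C) (P : Prim F), P.c = c := by
  classical
  have := Fintype.ofFinite C.ι
  obtain ⟨ρ, h1, h2, -, h3⟩ := exists_partition C.isOpen
  have hs : ∀ i, ContDiffOn ℝ ∞ (fun x => ∑ u, ρ u x • c i u) (C.W i) := by
    intro i
    refine ContDiffOn.sum fun u _ => ?_
    exact ((h1 u).mono (subset_iUnion C.W i)).smul contDiffOn_const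
  have hr : ∀ i j, ∀ x ∈ C.W i ∩ C.W j,
      (∑ u, ρ u x • c i u) = C.g i j (∑ u, ρ u x • c j u) + c i j := by
    intro i j x hx
    have h4 : c i j = ∑ u, ρ u x • c i j := by
      rw [← Finset.sum_smul, h3 x (mem_iUnion.2 ⟨i, hx.1⟩), one_smul]
    rw [map_sum]
    conv_rhs => rw [h4]
    rw [← Finset.sum_add_distrib]
    refine Finset.sum_congr rfl fun u _ => ?_
    by_cases h5 : ρ u x = 0
    · simp [h5]
    · rw [← hc i j u ⟨x, hx, h2 u x h5⟩, (C.g i j).map_smul, smul_add, add_comm]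
  exact ⟨Form.ofPrim C _ c hs hr, Prim.ofPrim C _ c hs hr, rfl⟩

/-! ### continuity of the Čech cochain with respect to `L¹_loc` -/

section bound

variable [FiniteDimensional ℝ E] [MeasurableSpace E] [BorelSpace E] (μ : Measure E)
  [μ.IsAddHaarMeasure]

/-- the tube around the segment from `p` to `q` -/
def tube (p q : E) (r : ℝ) : Set E :=
  (fun a : ℝ × E => p + a.1 • (q - p) + a.2) '' (Icc 0 1 ×ˢ Metric.closedBall 0 r)

theorem isCompact_tube (p q : E) (r : ℝ) : IsCompact (tube p q r) := by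
  have := FiniteDimensional.proper_real E
  refine (isCompact_Icc.prod (isCompact_closedBall 0 r)).image ?_
  fun_prop

theorem tube_subset {W : Set E} (hW : Convex ℝ W) {p q : E} {r : ℝ}
    (hp : Metric.closedBall p r ⊆ W) (hq : Metric.closedBall q r ⊆ W) : tube p q r ⊆ W := by
  rintro _ ⟨⟨t, z⟩, ⟨ht, hz⟩, rfl⟩
  simp only [Metric.mem_closedBall, dist_zero_right] at hz
  have h1 : p + z ∈ W := hp (by simpa [Metric.mem_closedBall, dist_eq_norm] using hz)
  have h2 : q + z ∈ W := hq (by simpa [Metric.mem_closedBall, dist_eq_norm] using hz)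
  have h3 := hW h1 h2 (sub_nonneg.2 ht.2) ht.1 (by ring)
  convert h3 using 1
  simp only [smul_add, smul_sub, sub_smul, one_smul]
  abel

theorem avg_bound [CompleteSpace V] {W : Set E} (hW : Convex ℝ W) {p q : E} {r : ℝ}
    (hp : Metric.closedBall p r ⊆ W) (hq : Metric.closedBall q r ⊆ W) {ψ : E → V}
    {η : E → E →L[ℝ] V} (hη : ContinuousOn η W) (hψ : ∀ x ∈ W, HasFDerivAt ψ (η x) x) :
    ∫⁻ z in Metric.closedBall 0 r, ‖ψ (q + z) - ψ (p + z)‖ₑ ∂μ ≤
      ‖q - p‖ₑ * ∫⁻ x in tube p q r, ‖η x‖ₑ ∂μ := by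
  have := FiniteDimensional.proper_real E
  set B : Set E := Metric.closedBall 0 r with hB
  have hBm : MeasurableSet B := Metric.isClosed_closedBall.measurableSet
  have hpt : ∀ z ∈ B, ∀ t ∈ Icc (0 : ℝ) 1, p + t • (q - p) + z ∈ W := fun z hz t ht =>
    tube_subset hW hp hq ⟨(t, z), ⟨ht, hz⟩, rfl⟩
  -- pointwise estimate
  have h1 : ∀ z ∈ B, ‖ψ (q + z) - ψ (p + z)‖ₑ ≤
      ∫⁻ t in Ioc (0 : ℝ) 1, ‖q - p‖ₑ * ‖η (p + t • (q - p) + z)‖ₑ := by
    intro z hz
    have hcont : ContinuousOn (fun t : ℝ => η (p + t • (q - p) + z) (q - p)) (Icc 0 1) := by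
      have h2 : ContinuousOn (fun t : ℝ => η (p + t • (q - p) + z)) (Icc 0 1) :=
        hη.comp (by fun_prop) fun t ht => hpt z hz t ht
      exact h2.clm_apply continuousOn_const
    have h2 : ∀ t ∈ uIcc (0 : ℝ) 1, HasDerivAt (fun t : ℝ => ψ (p + t • (q - p) + z))
        (η (p + t • (q - p) + z) (q - p)) t := by
      intro t ht
      rw [uIcc_of_le zero_le_one] at ht
      have h3 : HasDerivAt (fun t : ℝ => p + t • (q - p) + z) (q - p) t := by
        simpa using (((hasDerivAt_id t).smul_const (q - p)).const_add p).add_const z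
      exact (hψ _ (hpt z hz t ht)).comp_hasDerivAt t h3
    have h3 := intervalIntegral.integral_eq_sub_of_hasDerivAt h2
      (by rw [← uIcc_of_le (zero_le_one' ℝ)] at hcont; exact hcont.intervalIntegrable)
    have h4 : ψ (q + z) - ψ (p + z) = ∫ t in (0 : ℝ)..1, η (p + t • (q - p) + z) (q - p) := by
      rw [h3]; simp
    rw [h4, intervalIntegral.integral_of_le zero_le_one]
    refine (enorm_integral_le_lintegral_enorm _).trans ?_
    refine lintegral_mono fun t => ?_
    rw [mul_comm]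
    exact ContinuousLinearMap.le_opENorm _ _
  calc ∫⁻ z in B, ‖ψ (q + z) - ψ (p + z)‖ₑ ∂μ
      ≤ ∫⁻ z in B, (∫⁻ t in Ioc (0 : ℝ) 1, ‖q - p‖ₑ * ‖η (p + t • (q - p) + z)‖ₑ) ∂μ :=
        setLIntegral_mono' hBm h1
    _ = ∫⁻ t in Ioc (0 : ℝ) 1, ∫⁻ z in B, ‖q - p‖ₑ * ‖η (p + t • (q - p) + z)‖ₑ ∂μ := by
        refine lintegral_lintegral_swap ?_
        have h2 : ContinuousOn (fun a : E × ℝ => η (p + a.2 • (q - p) + a.1)) (B ×ˢ Icc 0 1) :=
          hη.comp (by fun_prop) fun a ha => hpt a.1 ha.1 a.2 ha.2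
        have h3 : ContinuousOn (fun a : E × ℝ => ‖q - p‖ₑ * ‖η (p + a.2 • (q - p) + a.1)‖ₑ)
            (B ×ˢ Ioc 0 1) := by
          have h4 := (h2.mono (Set.prod_mono_right Ioc_subset_Icc_self)).enorm
          exact (ENNReal.continuous_const_mul (by simp)).comp_continuousOn h4
        have h4 := h3.aemeasurable (μ := μ.prod volume) (hBm.prod measurableSet_Ioc)
        rw [Measure.prod_restrict]
        exact h4
    _ ≤ ∫⁻ t in Ioc (0 : ℝ) 1, ‖q - p‖ₑ * ∫⁻ x in tube p q r, ‖η x‖ₑ ∂μ := by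
        refine setLIntegral_mono' measurableSet_Ioc fun t ht => ?_
        rw [lintegral_const_mul' _ _ (by simp)]
        refine mul_le_mul' le_rfl ?_
        have h2 : ∫⁻ z in B, ‖η (p + t • (q - p) + z)‖ₑ ∂μ =
            ∫⁻ x in (fun z => (p + t • (q - p)) + z) '' B, ‖η x‖ₑ ∂μ :=
          (measurePreserving_add_left μ (p + t • (q - p))).setLIntegral_comp_emb
            (MeasurableEquiv.addLeft (p + t • (q - p))).measurableEmbedding (fun x => ‖η x‖ₑ) B
        rw [h2]
        refine lintegral_mono_set ?_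
        rintro _ ⟨z, hz, rfl⟩
        exact ⟨(t, z), ⟨Ioc_subset_Icc_self ht, hz⟩, rfl⟩
    _ = ‖q - p‖ₑ * ∫⁻ x in tube p q r, ‖η x‖ₑ ∂μ := by
        simp

omit [FiniteDimensional ℝ E] [MeasurableSpace E] [BorelSpace E] in
theorem eventually_closedBall_subset {W : Set E} (hW : IsOpen W) {x : E} (hx : x ∈ W) :
    ∀ᶠ r in 𝓝[>] (0 : ℝ), Metric.closedBall x r ⊆ W := by
  obtain ⟨r0, h0, h1⟩ := Metric.nhds_basis_closedBall.mem_iff.1 (hW.mem_nhds hx)
  filter_upwards [Ioo_mem_nhdsGT h0] with r hr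
  exact (Metric.closedBall_subset_closedBall hr.2.le).trans h1

/-- shift of the primitives by constants -/
def Prim.shift {C : CC E V} {F : Form C} (P : Prim F) (m : C.ι → V) : Prim F where
  ψ i x := P.ψ i x - m i
  c i j := P.c i j - m i + C.g i j (m j)
  der i x hx := (P.der i x hx).sub_const _
  rel i j x hx := by
    rw [map_sub, P.rel i j x hx]
    abel

/-- the Čech cochain can be chosen bounded by the `L¹` norms on fixed compact subsets -/
theorem exists_bound [CompleteSpace V] (C : CC E V) [Fintype C.ι] :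
    ∃ (K : C.ι → Set E) (M : ENNReal), (∀ i, IsCompact (K i)) ∧ (∀ i, K i ⊆ C.W i) ∧ M ≠ ⊤ ∧
      ∀ F : Form C, ∃ P : Prim F, ∀ i j, (C.W i ∩ C.W j).Nonempty →
        ‖P.c i j‖ₑ ≤ M * ∑ i, ∫⁻ x in K i, ‖F.η i x‖ₑ ∂μ := by
  classical
  have hp : ∀ i, ∃ p : E, (C.W i).Nonempty → p ∈ C.W i := fun i => by
    by_cases h : (C.W i).Nonempty
    · obtain ⟨p, hp⟩ := h; exact ⟨p, fun _ => hp⟩
    · exact ⟨0, fun h' => (h h').elim⟩
  have hq : ∀ i j, ∃ p : E, (C.W i ∩ C.W j).Nonempty → p ∈ C.W i ∩ C.W j := fun i j => by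
    by_cases h : (C.W i ∩ C.W j).Nonempty
    · obtain ⟨p, hp⟩ := h; exact ⟨p, fun _ => hp⟩
    · exact ⟨0, fun h' => (h h').elim⟩
  choose p hp using hp
  choose q hq using hq
  have hr : ∀ᶠ r in 𝓝[>] (0 : ℝ), (∀ i, (C.W i).Nonempty → Metric.closedBall (p i) r ⊆ C.W i) ∧
      ∀ i j, (C.W i ∩ C.W j).Nonempty → Metric.closedBall (q i j) r ⊆ C.W i ∩ C.W j := by
    refine Filter.Eventually.and ?_ ?_
    · refine Filter.eventually_all.2 fun i => ?_
      by_cases h : (C.W i).Nonempty
      · filter_upwards [eventually_closedBall_subset (C.isOpen i) (hp i h)] with r hr _ using hr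
      · exact Filter.Eventually.of_forall fun r h' => (h h').elim
    · refine Filter.eventually_all.2 fun i => Filter.eventually_all.2 fun j => ?_
      by_cases h : (C.W i ∩ C.W j).Nonempty
      · filter_upwards [eventually_closedBall_subset ((C.isOpen i).inter (C.isOpen j))
          (hq i j h)] with r hr _ using hr
      · exact Filter.Eventually.of_forall fun r h' => (h h').elim
  obtain ⟨r, ⟨hr1, hr2⟩, hr0⟩ := (hr.and self_mem_nhdsWithin).exists
  replace hr0 : 0 < r := hr0
  let T : C.ι → C.ι → Set E := fun i j =>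
    if (C.W i ∩ C.W j).Nonempty then tube (p i) (q i j) r ∪ tube (p i) (q j i) r else ∅
  have hTc : ∀ i j, IsCompact (T i j) := fun i j => by
    simp only [T]; split_ifs
    · exact (isCompact_tube _ _ _).union (isCompact_tube _ _ _)
    · exact isCompact_empty
  have hTs : ∀ i j, T i j ⊆ C.W i := fun i j => by
    simp only [T]; split_ifs with h
    · have h1 : (C.W i).Nonempty := h.mono inter_subset_left
      have h2 : (C.W j ∩ C.W i).Nonempty := by rwa [inter_comm]
      exact union_subset (tube_subset (C.convex i) (hr1 i h1) ((hr2 i j h).trans inter_subset_left))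
        (tube_subset (C.convex i) (hr1 i h1) ((hr2 j i h2).trans inter_subset_right))
    · exact empty_subset _
  set B : Set E := Metric.closedBall 0 r with hB
  have := FiniteDimensional.proper_real E
  have hBm : MeasurableSet B := Metric.isClosed_closedBall.measurableSet
  have hB0 : μ B ≠ 0 := (Metric.measure_closedBall_pos μ 0 hr0).ne'
  have hB1 : μ B ≠ ⊤ := (isCompact_closedBall (0 : E) r).measure_ne_top
  refine ⟨fun i => ⋃ j, T i j, (μ B)⁻¹ * ∑ i, ∑ j, (‖q i j - p i‖ₑ + ‖C.g i j‖ₑ * ‖q i j - p j‖ₑ),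
    fun i => isCompact_iUnion (hTc i), fun i => iUnion_subset (hTs i), ?_, ?_⟩
  · refine ENNReal.mul_ne_top (ENNReal.inv_ne_top.2 hB0) ?_
    refine ENNReal.sum_ne_top.2 fun i _ => ENNReal.sum_ne_top.2 fun j _ => ?_
    refine ENNReal.add_ne_top.2 ⟨by simp, ENNReal.mul_ne_top (by simp) (by simp)⟩
  · intro F
    obtain ⟨P⟩ := F.exists_prim
    let m : C.ι → V := fun i => (μ.real B)⁻¹ • ∫ z in B, P.ψ i (p i + z) ∂μ
    refine ⟨P.shift m, fun i j hij => ?_⟩
    set I : ENNReal := ∑ i, ∫⁻ x in ⋃ j, T i j, ‖F.η i x‖ₑ ∂μ with hI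
    have hi : (C.W i).Nonempty := hij.mono inter_subset_left
    have hj : (C.W j).Nonempty := hij.mono inter_subset_right
    have hji : (C.W j ∩ C.W i).Nonempty := by rwa [inter_comm]
    -- points
    have e1 : ∀ z ∈ B, p i + z ∈ C.W i := fun z hz =>
      hr1 i hi (by simpa [B, Metric.mem_closedBall, dist_eq_norm] using hz)
    have e2 : ∀ z ∈ B, p j + z ∈ C.W j := fun z hz =>
      hr1 j hj (by simpa [B, Metric.mem_closedBall, dist_eq_norm] using hz)
    have e3 : ∀ z ∈ B, q i j + z ∈ C.W i ∩ C.W j := fun z hz =>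
      hr2 i j hij (by simpa [B, Metric.mem_closedBall, dist_eq_norm] using hz)
    have c1 : ContinuousOn (fun z => P.ψ i (p i + z)) B :=
      (P.smooth i).continuousOn.comp (by fun_prop) e1
    have c2 : ContinuousOn (fun z => P.ψ j (p j + z)) B :=
      (P.smooth j).continuousOn.comp (by fun_prop) e2
    have i1 : IntegrableOn (fun z => P.ψ i (p i + z)) B μ :=
      c1.integrableOn_compact (isCompact_closedBall 0 r)
    have i2 : IntegrableOn (fun z => C.g i j (P.ψ j (p j + z))) B μ :=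
      ((C.g i j).continuous.comp_continuousOn c2).integrableOn_compact (isCompact_closedBall 0 r)
    have hmB : μ.real B ≠ 0 := by
      rw [Measure.real]; exact ENNReal.toReal_ne_zero.2 ⟨hB0, hB1⟩
    have k1 : μ.real B • (P.shift m).c i j =
        ∫ z in B, ((P.ψ i (q i j + z) - P.ψ i (p i + z)) -
          C.g i j (P.ψ j (q i j + z) - P.ψ j (p j + z))) ∂μ := by
      have h1 : ∫ z in B, ((P.ψ i (q i j + z) - P.ψ i (p i + z)) -
          C.g i j (P.ψ j (q i j + z) - P.ψ j (p j + z))) ∂μ =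
          ∫ z in B, (P.c i j - P.ψ i (p i + z) + C.g i j (P.ψ j (p j + z))) ∂μ := by
        refine setIntegral_congr_fun hBm fun z hz => ?_
        show P.ψ i (q i j + z) - P.ψ i (p i + z) - C.g i j (P.ψ j (q i j + z) - P.ψ j (p j + z)) =
          P.c i j - P.ψ i (p i + z) + C.g i j (P.ψ j (p j + z))
        rw [P.rel i j _ (e3 z hz), map_sub]
        abel
      have i0 : IntegrableOn (fun _ : E => P.c i j) B μ :=
        integrableOn_const hB1
      have i3 : IntegrableOn (fun z => P.c i j - P.ψ i (p i + z)) B μ := i0.sub i1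
      rw [h1, integral_add i3 i2, integral_sub i0 i1, setIntegral_const,
        ContinuousLinearMap.integral_comp_comm _
          (c2.integrableOn_compact (isCompact_closedBall 0 r))]
      simp only [Prim.shift, m, smul_add, smul_sub, map_smul]
      rw [smul_inv_smul₀ hmB, smul_inv_smul₀ hmB]
    have k2 : μ B * ‖(P.shift m).c i j‖ₑ ≤
        (‖q i j - p i‖ₑ + ‖C.g i j‖ₑ * ‖q i j - p j‖ₑ) * I := by
      have h1 : μ B * ‖(P.shift m).c i j‖ₑ = ‖μ.real B • (P.shift m).c i j‖ₑ := by
        rw [enorm_smul, Measure.real, Real.enorm_of_nonneg ENNReal.toReal_nonneg,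
          ENNReal.ofReal_toReal hB1]
      rw [h1, k1]
      refine (enorm_integral_le_lintegral_enorm _).trans ?_
      have h2 : ∀ z, ‖(P.ψ i (q i j + z) - P.ψ i (p i + z)) -
          C.g i j (P.ψ j (q i j + z) - P.ψ j (p j + z))‖ₑ ≤
          ‖P.ψ i (q i j + z) - P.ψ i (p i + z)‖ₑ +
            ‖C.g i j‖ₑ * ‖P.ψ j (q i j + z) - P.ψ j (p j + z)‖ₑ := fun z => by
        refine (enorm_sub_le).trans ?_
        gcongr
        exact ContinuousLinearMap.le_opENorm _ _
      refine (lintegral_mono h2).trans ?_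
      have c3 : ContinuousOn (fun z => P.ψ i (q i j + z)) B :=
        (P.smooth i).continuousOn.comp (by fun_prop) fun z hz => (e3 z hz).1
      have c4 : ContinuousOn (fun z => ‖P.ψ i (q i j + z) - P.ψ i (p i + z)‖ₑ) B :=
        (c3.sub c1).enorm
      rw [lintegral_add_left' (c4.aemeasurable hBm), lintegral_const_mul' _ _ (by simp), add_mul,
        mul_assoc]
      have d1 := avg_bound μ (C.convex i) (hr1 i hi) ((hr2 i j hij).trans inter_subset_left)
        (F.smooth i).continuousOn (P.der i)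
      have d2 := avg_bound μ (C.convex j) (hr1 j hj) ((hr2 i j hij).trans inter_subset_right)
        (F.smooth j).continuousOn (P.der j)
      have s1 : ∫⁻ x in tube (p i) (q i j) r, ‖F.η i x‖ₑ ∂μ ≤ I := by
        have h3 : tube (p i) (q i j) r ⊆ ⋃ j, T i j := by
          refine subset_iUnion_of_subset j ?_
          simp only [T]; rw [if_pos hij]; exact subset_union_left
        exact (lintegral_mono_set h3).trans
          (Finset.single_le_sum (f := fun i => ∫⁻ x in ⋃ j, T i j, ‖F.η i x‖ₑ ∂μ)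
            (fun _ _ => zero_le) (Finset.mem_univ i))
      have s2 : ∫⁻ x in tube (p j) (q i j) r, ‖F.η j x‖ₑ ∂μ ≤ I := by
        have h3 : tube (p j) (q i j) r ⊆ ⋃ l, T j l := by
          refine subset_iUnion_of_subset i ?_
          simp only [T]; rw [if_pos hji]; exact subset_union_right
        exact (lintegral_mono_set h3).trans
          (Finset.single_le_sum (f := fun i => ∫⁻ x in ⋃ j, T i j, ‖F.η i x‖ₑ ∂μ)
            (fun _ _ => zero_le) (Finset.mem_univ j))
      exact add_le_add (d1.trans (mul_le_mul' le_rfl s1))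
        (mul_le_mul' le_rfl (d2.trans (mul_le_mul' le_rfl s2)))
    have k3 : ‖(P.shift m).c i j‖ₑ ≤ (μ B)⁻¹ *
        ((‖q i j - p i‖ₑ + ‖C.g i j‖ₑ * ‖q i j - p j‖ₑ) * I) := by
      rw [← ENNReal.div_eq_inv_mul, ENNReal.le_div_iff_mul_le (Or.inl hB0) (Or.inl hB1), mul_comm]
      exact k2
    refine k3.trans ?_
    rw [mul_assoc]
    refine mul_le_mul' le_rfl (mul_le_mul' ?_ le_rfl)
    refine le_trans ?_ (Finset.single_le_sum (f := fun i => ∑ j,
      (‖q i j - p i‖ₑ + ‖C.g i j‖ₑ * ‖q i j - p j‖ₑ)) (fun _ _ => zero_le) (Finset.mem_univ i))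
    exact Finset.single_le_sum (f := fun j => (‖q i j - p i‖ₑ + ‖C.g i j‖ₑ * ‖q i j - p j‖ₑ))
      (fun _ _ => zero_le) (Finset.mem_univ j)

/-- difference of two forms -/
def Form.sub {C : CC E V} (F G : Form C) : Form C where
  η i x := F.η i x - G.η i x
  smooth i := (F.smooth i).sub (G.smooth i)
  closed i x hx u v := by
    have h1 : DifferentiableAt ℝ (F.η i) x :=
      ((F.smooth i).contDiffAt ((C.isOpen i).mem_nhds hx)).differentiableAt (by simp)
    have h2 : DifferentiableAt ℝ (G.η i) x :=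
      ((G.smooth i).contDiffAt ((C.isOpen i).mem_nhds hx)).differentiableAt (by simp)
    rw [fderiv_fun_sub h1 h2]
    simp only [sub_apply]
    rw [F.closed i x hx u v, G.closed i x hx u v]
  compat i j x hx := by
    rw [F.compat i j x hx, G.compat i j x hx, ContinuousLinearMap.comp_sub]

/-- difference of primitives -/
def Prim.sub {C : CC E V} {F G : Form C} (P : Prim F) (Q : Prim G) : Prim (F.sub G) where
  ψ i x := P.ψ i x - Q.ψ i x
  c i j := P.c i j - Q.c i j
  der i x hx := (P.der i x hx).sub (Q.der i x hx)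
  rel i j x hx := by
    rw [P.rel i j x hx, Q.rel i j x hx, map_sub]; abel

/-- coboundary operator -/
def cob (C : CC E V) : (C.ι → V) →ₗ[ℝ] (C.ι → C.ι → V) where
  toFun v i j := C.g i j (v j) - v i
  map_add' v w := by
    funext i j
    simp only [Pi.add_apply, map_add]; abel
  map_smul' a v := by
    funext i j
    simp only [Pi.smul_apply, map_smul, RingHom.id_apply, smul_sub]

/-- the cochains which are coboundaries on non-empty intersections form a closed subspace -/
theorem isClosed_isCob [FiniteDimensional ℝ V] (C : CC E V) [Finite C.ι] :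
    IsClosed {c : C.ι → C.ι → V | IsCob C c} := by
  classical
  have := Fintype.ofFinite C.ι
  let r : (C.ι → C.ι → V) →ₗ[ℝ] (C.ι → C.ι → V) :=
    { toFun := fun c i j => if (C.W i ∩ C.W j).Nonempty then c i j else 0
      map_add' := fun c d => by
        funext i j; simp only [Pi.add_apply]; split_ifs <;> simp
      map_smul' := fun a c => by
        funext i j; simp only [Pi.smul_apply, RingHom.id_apply]; split_ifs <;> simp }
  have h1 : {c : C.ι → C.ι → V | IsCob C c} =
      ((LinearMap.range (r ∘ₗ cob C)).comap r : Submodule ℝ (C.ι → C.ι → V)) := by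
    ext c
    simp only [Set.mem_ofPred_eq, SetLike.mem_coe, Submodule.mem_comap, LinearMap.mem_range,
      LinearMap.comp_apply]
    constructor
    · rintro ⟨v, hv⟩
      refine ⟨v, ?_⟩
      funext i j
      show (if _ then _ else _) = (if _ then _ else _)
      split_ifs with h
      · exact (hv i j h).symm
      · rfl
    · rintro ⟨v, hv⟩
      refine ⟨v, fun i j h => ?_⟩
      have h2 := congrFun (congrFun hv i) j
      change (if _ then _ else _) = (if _ then _ else _) at h2
      rw [if_pos h, if_pos h] at h2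
      exact h2.symm
  rw [h1]
  exact Submodule.closed_of_finiteDimensional _

/-- an `L¹_loc` limit of exact forms is exact -/
theorem exact_of_forall_approx [FiniteDimensional ℝ V] (C : CC E V) [Fintype C.ι] (F : Form C)
    (h : ∀ K : C.ι → Set E, (∀ i, IsCompact (K i)) → (∀ i, K i ⊆ C.W i) → ∀ ε : ENNReal, 0 < ε →
      ∃ G : Form C, G.Exact ∧ ∑ i, ∫⁻ x in K i, ‖F.η i x - G.η i x‖ₑ ∂μ ≤ ε) : F.Exact := by
  classical
  have : CompleteSpace V := FiniteDimensional.complete ℝ V
  obtain ⟨K, M, hK1, hK2, hM, hK⟩ := exists_bound μ C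
  obtain ⟨P⟩ := F.exists_prim
  rw [P.exact_iff]
  let r : (C.ι → C.ι → V) → (C.ι → C.ι → V) :=
    fun c i j => if (C.W i ∩ C.W j).Nonempty then c i j else 0
  have hr : ∀ c, IsCob C (r c) ↔ IsCob C c := fun c => by
    constructor
    · rintro ⟨v, hv⟩
      refine ⟨v, fun i j hij => ?_⟩
      have := hv i j hij
      simp only [r] at this
      rwa [if_pos hij] at this
    · rintro ⟨v, hv⟩
      refine ⟨v, fun i j hij => ?_⟩
      simp only [r]
      rw [if_pos hij]; exact hv i j hij
  rw [← hr]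
  refine (isClosed_isCob C).closure_subset ?_
  rw [EMetric.mem_closure_iff]
  intro ε hε
  -- choose a small `δ`
  obtain ⟨δ, hδ0, hδ⟩ : ∃ δ : ENNReal, 0 < δ ∧ M * δ < ε := by
    by_cases hε1 : ε = ⊤
    · exact ⟨1, one_pos, by rw [hε1, mul_one]; exact hM.lt_top⟩
    · refine ⟨ε / (2 * (M + 1)), ?_, ?_⟩
      · exact ENNReal.div_pos hε.ne' (ENNReal.mul_ne_top (by simp) (ENNReal.add_ne_top.2 ⟨hM, by simp⟩))
      · have h1 : M * (ε / (2 * (M + 1))) ≤ ε / 2 := by
          have hM1 : M + 1 ≠ 0 := by simp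
          have hM2 : M + 1 ≠ ⊤ := ENNReal.add_ne_top.2 ⟨hM, by simp⟩
          calc M * (ε / (2 * (M + 1))) ≤ (M + 1) * (ε / (2 * (M + 1))) :=
                mul_le_mul' le_self_add le_rfl
            _ = ε / 2 := by
                rw [div_eq_mul_inv, ENNReal.mul_inv (Or.inl (by simp)) (Or.inl (by simp)),
                  mul_left_comm, mul_comm (2 : ENNReal)⁻¹, ← mul_assoc (M + 1),
                  ENNReal.mul_inv_cancel hM1 hM2, one_mul, div_eq_mul_inv]
        exact h1.trans_lt (ENNReal.half_lt_self hε.ne' hε1)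
  obtain ⟨G, hG, hFG⟩ := h K hK1 hK2 δ hδ0
  obtain ⟨Q, hQ⟩ := hK (F.sub G)
  obtain ⟨R⟩ := G.exists_prim
  -- `P - Q` is a primitive of `G`
  have h2 : IsCob C (fun i j => P.c i j - Q.c i j) := by
    have h3 : IsCob C R.c := R.exact_iff.1 hG
    -- `P - R` is a primitive of `F - G`, as is `Q`
    obtain ⟨v, hv⟩ := h3
    have h4 : IsCob C (fun i j => (P.sub R).c i j - Q.c i j) := by
      have h5 : ∀ i, ∃ w : V, ∀ x ∈ C.W i, (P.sub R).ψ i x = Q.ψ i x + w := by
        intro i
        rcases (C.W i).eq_empty_or_nonempty with h0 | ⟨y, hy⟩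
        · exact ⟨0, fun x hx => by rw [h0] at hx; exact hx.elim⟩
        · refine ⟨(P.sub R).ψ i y - Q.ψ i y, fun x hx => ?_⟩
          have h4 : (P.sub R).ψ i x - Q.ψ i x = (P.sub R).ψ i y - Q.ψ i y := by
            refine const_of_deriv_zero (f := fun z => (P.sub R).ψ i z - Q.ψ i z) (C.isOpen i)
              (C.convex i) ?_ hx hy
            intro z hz
            have h5 := ((P.sub R).der i z hz).sub (Q.der i z hz)
            rwa [sub_self] at h5
          rw [← h4]; abel
      choose w hw using h5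
      refine ⟨fun i => - w i, fun i j hij => ?_⟩
      obtain ⟨x, hx⟩ := hij
      have h6 := (P.sub R).rel i j x hx
      rw [hw i x hx.1, hw j x hx.2, Q.rel i j x hx, map_add] at h6
      have h7 : Q.c i j + w i = C.g i j (w j) + (P.sub R).c i j := by
        have h8 : C.g i j (Q.ψ j x) + (Q.c i j + w i) =
            C.g i j (Q.ψ j x) + (C.g i j (w j) + (P.sub R).c i j) := by
          rw [← add_assoc, ← add_assoc]; exact h6
        exact add_left_cancel h8
      have h8 : (P.sub R).c i j - Q.c i j = w i - C.g i j (w j) := by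
        rw [sub_eq_sub_iff_add_eq_add, add_comm, ← h7]; abel
      show (P.sub R).c i j - Q.c i j = C.g i j (- w j) - (- w i)
      rw [h8, map_neg]; abel
    obtain ⟨w, hw⟩ := h4
    refine ⟨fun i => w i + v i, fun i j hij => ?_⟩
    have h9 := hw i j hij
    have h10 := hv i j hij
    change P.c i j - R.c i j - Q.c i j = _ at h9
    have h11 : P.c i j - Q.c i j = (P.c i j - R.c i j - Q.c i j) + R.c i j := by abel
    show P.c i j - Q.c i j = C.g i j (w j + v j) - (w i + v i)
    rw [h11, h9, h10, map_add]; abel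
  refine ⟨r (fun i j => P.c i j - Q.c i j), (hr _).2 h2, ?_⟩
  have h3 : edist (r P.c) (r fun i j => P.c i j - Q.c i j) ≤ M * δ := by
    rw [edist_pi_le_iff]; intro i
    rw [edist_pi_le_iff]; intro j
    simp only [r]
    by_cases hij : (C.W i ∩ C.W j).Nonempty
    · rw [if_pos hij, if_pos hij, edist_eq_enorm_sub, sub_sub_cancel]
      exact (hQ i j hij).trans (mul_le_mul' le_rfl hFG)
    · rw [if_neg hij, if_neg hij, edist_self]; exact zero_le
  exact h3.trans_lt hδ

end bound

end

end Crest.Agent.R276.Top2_937
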