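import Mathlib
import Crest.Agent.R276.DR2_175
import Crest.Agent.R276.ASH1_175
import Crest.Agent.R276.Top1_816
import Crest.Agent.R276.Top2_937

/-!
# Row 276, IPC (helper175): forms and cocycles on open subsets of the plane, part 3

* `cobOn_of_convex` : cocycles on convex open sets are coboundaries.
* `exists_section` (R4) : every cocycle on `ℂ \ A` has a smooth section of its affine bundle, hence is
  represented by a smooth closed form.
-/

set_option autoImplicit false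
set_option linter.unusedSectionVars false

noncomputable section

open Set Filter Topology MeasureTheory Matrix
open Crest.Agent.R276.Ipc735

namespace Crest.Agent.R276.DR_175

variable {N : ℕ}

/-- the standard representation -/
def stdR (N : ℕ) : Representation ℂ (GL (Fin N) ℤ) (Fin N → ℂ) where
  toFun g := Matrix.mulVecLin (cm g)
  map_one' := by
    apply LinearMap.ext
    intro v
    show cm 1 *ᵥ v = v
    rw [cm_one, Matrix.one_mulVec]
  map_mul' g h := by
    apply LinearMap.ext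
    intro v
    show cm (g * h) *ᵥ v = cm g *ᵥ (cm h *ᵥ v)
    rw [cm_mul, Matrix.mulVec_mulVec]

lemma stdR_apply (g : GL (Fin N) ℤ) (v : Fin N → ℂ) : stdR N g v = act g v := rfl

section convex

variable {O : Set ℂ} {P : ℂ → ℂ → GL (Fin N) ℤ} {u : ℂ → ℂ → Fin N → ℂ}

/-- cocycles are coboundaries on convex open sets -/
theorem cobOn_of_convex {W : Set ℂ} (hW : IsOpen W) (hc : Convex ℝ W) (hP : NDCOn W P)
    (hu : CocOn W P u) : CobOn W P u := by
  let c : ℂ → ℂ → ASH1_175.Aff (stdR N) := ASH1_175.aff (stdR N) P u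
  have h1 : Top1_816.NDCOn c W := by
    intro z hz
    obtain ⟨U, hU, h⟩ := hP z hz
    obtain ⟨U', hU', h'⟩ := hu z hz
    refine ⟨U ∩ U', mem_nhdsWithin_of_mem_nhds (Filter.inter_mem hU hU'),
      fun x hx y hy t ht => ?_⟩
    apply ASH1_175.Aff.ext
    · exact h' x hx.2 y hy.2 t ht.2
    · exact h x hx.1 y hy.1 t ht.1
  obtain ⟨T, hT⟩ := Top1_816.NDCOn.exists_trivByOn_convex hc h1
  refine ⟨fun x => (T x).v, fun z hz => ?_⟩
  obtain ⟨U, hU, h⟩ := hT z hz
  rw [hW.nhdsWithin_eq hz] at hU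
  refine ⟨U, hU, fun x hx y hy => ?_⟩
  have h2 : c x y * T y = T x := by rw [h x hx y hy]; group
  have h3 : u x y + act (P x y) (T y).v = (T x).v := congrArg ASH1_175.Aff.v h2
  show u x y = (T x).v - act (P x y) (T y).v
  rw [← h3]; abel

/-- a flat section of the affine bundle is locally constant, seen from any centre -/
lemma flat_near {W : Set ℂ} {g : ℂ → Fin N → ℂ}
    (hg : ∀ z ∈ W, ∃ U ∈ 𝓝 z, ∀ x ∈ U, ∀ y ∈ U, u x y = g x - act (P x y) (g y)) {z : ℂ}
    {B : Set ℂ} (hB : ∀ x ∈ B, ∀ y ∈ B, ∀ t ∈ B, P x y * P y t = P x t)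
    (hB' : ∀ x ∈ B, ∀ y ∈ B, ∀ t ∈ B, u x y + act (P x y) (u y t) = u x t) (hBo : IsOpen B)
    (hz : z ∈ B) {y : ℂ} (hyB : y ∈ B) (hyW : y ∈ W) :
    aff P u g z =ᶠ[𝓝 y] fun _ => aff P u g z y := by
  obtain ⟨U, hU, h⟩ := hg y hyW
  filter_upwards [hU, hBo.mem_nhds hyB] with t ht htB
  have e1 := h y (mem_of_mem_nhds hU) t ht
  unfold aff
  rw [← hB z hz y hyB t htB, act_mul_apply, ← hB' z hz y hyB t htB, e1, map_sub]
  abel

end convex

/-! ### the finite convex cover of `ℂ \ A` -/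

/-- the four open half planes determined by `a` -/
def hpl (a : ℂ) (i : Fin 4) : Set ℂ :=
  match i with
  | 0 => {x | a.re < x.re}
  | 1 => {x | x.re < a.re}
  | 2 => {x | a.im < x.im}
  | 3 => {x | x.im < a.im}

lemma hpl_open (a : ℂ) (i : Fin 4) : IsOpen (hpl a i) := by
  fin_cases i
  · exact isOpen_lt continuous_const Complex.continuous_re
  · exact isOpen_lt Complex.continuous_re continuous_const
  · exact isOpen_lt continuous_const Complex.continuous_im
  · exact isOpen_lt Complex.continuous_im continuous_const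

lemma hpl_convex (a : ℂ) (i : Fin 4) : Convex ℝ (hpl a i) := by
  have hre : IsLinearMap ℝ Complex.re := ⟨fun _ _ => rfl, fun r x => by simp⟩
  have him : IsLinearMap ℝ Complex.im := ⟨fun _ _ => rfl, fun r x => by simp⟩
  fin_cases i
  · exact convex_halfSpace_gt hre _
  · exact convex_halfSpace_lt hre _
  · exact convex_halfSpace_gt him _
  · exact convex_halfSpace_lt him _

lemma hpl_not_mem (a : ℂ) (i : Fin 4) : a ∉ hpl a i := by
  fin_cases i <;> simp [hpl]

lemma exists_hpl {a x : ℂ} (h : x ≠ a) : ∃ i, x ∈ hpl a i := by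
  by_contra hcon
  push Not at hcon
  have h0 := hcon 0
  have h1 := hcon 1
  have h2 := hcon 2
  have h3 := hcon 3
  simp only [hpl, mem_ofPred_eq, not_lt] at h0 h1 h2 h3
  exact h (Complex.ext (le_antisymm h0 h1) (le_antisymm h2 h3))

/-- the pieces of the convex cover -/
def cvx (A : Finset ℂ) (i : A → Fin 4) : Set ℂ := ⋂ a : A, hpl a (i a)

lemma cvx_open (A : Finset ℂ) (i : A → Fin 4) : IsOpen (cvx A i) :=
  isOpen_iInter_of_finite fun _ => hpl_open _ _

lemma cvx_convex (A : Finset ℂ) (i : A → Fin 4) : Convex ℝ (cvx A i) :=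
  convex_iInter fun _ => hpl_convex _ _

lemma cvx_sub (A : Finset ℂ) (i : A → Fin 4) : cvx A i ⊆ (A : Set ℂ)ᶜ := by
  intro x hx hxA
  have hxA' : x ∈ A := by simpa using hxA
  have := mem_iInter.mp hx ⟨x, hxA'⟩
  exact hpl_not_mem _ _ this

lemma cvx_cover (A : Finset ℂ) : ⋃ i, cvx A i = (A : Set ℂ)ᶜ := by
  apply Subset.antisymm (iUnion_subset (cvx_sub A))
  intro x hx
  have h1 : ∀ a : A, ∃ i, x ∈ hpl (a : ℂ) i := fun a => exists_hpl (fun h => hx (by
    rw [h]; exact a.2))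
  choose i hi using h1
  exact mem_iUnion.mpr ⟨i, mem_iInter.mpr hi⟩

section R4

variable {A : Finset ℂ} {P : ℂ → ℂ → GL (Fin N) ℤ} {u : ℂ → ℂ → Fin N → ℂ}

/-- **(R4)** every affine bundle over `ℂ \ A` has a smooth section -/
theorem exists_section (hP : NDCOn ((A : Set ℂ)ᶜ) P) (hu : CocOn ((A : Set ℂ)ᶜ) P u) :
    ∃ f : ℂ → Fin N → ℂ, ∀ z ∈ ((A : Set ℂ)ᶜ), ContDiffAt ℝ (⊤ : ℕ∞) (aff P u f z) z := by
  classical
  have hO : IsOpen ((A : Set ℂ)ᶜ) := A.finite_toSet.isClosed.isOpen_compl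
  have h1 : ∀ i : A → Fin 4, CobOn (cvx A i) P u := fun i =>
    cobOn_of_convex (cvx_open A i) (cvx_convex A i) (NDCOn.mono hP (cvx_sub A i))
      (CocOn.mono hu (cvx_sub A i))
  choose g hg using h1
  obtain ⟨ρ, hρ1, hρ2, -, hρ4⟩ := Top2_937.exists_partition (cvx_open A)
  rw [cvx_cover] at hρ1 hρ4
  refine ⟨fun x => ∑ i, (ρ i x : ℂ) • g i x, fun z hz => ?_⟩
  -- a small ball around `z`
  obtain ⟨U, hU, hUP⟩ := hP z hz
  obtain ⟨U', hU', hUu⟩ := hu z hz
  obtain ⟨ε, hε, hball⟩ := Metric.mem_nhds_iff.mp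
    (Filter.inter_mem (Filter.inter_mem hU hU') (hO.mem_nhds hz))
  set B := Metric.ball z ε with hBdef
  have hzB : z ∈ B := Metric.mem_ball_self hε
  have hBo : IsOpen B := Metric.isOpen_ball
  have hBP : ∀ x ∈ B, ∀ y ∈ B, ∀ t ∈ B, P x y * P y t = P x t := fun x hx y hy t ht =>
    hUP x (hball hx).1.1 y (hball hy).1.1 t (hball ht).1.1
  have hBu : ∀ x ∈ B, ∀ y ∈ B, ∀ t ∈ B, u x y + act (P x y) (u y t) = u x t :=
    fun x hx y hy t ht => hUu x (hball hx).1.2 y (hball hy).1.2 t (hball ht).1.2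
  have hBO : B ⊆ (A : Set ℂ)ᶜ := fun x hx => (hball hx).2
  -- the value on each piece
  have h2 : ∀ i, ∃ c : Fin N → ℂ, ∀ y ∈ B ∩ cvx A i, aff P u (g i) z y = c := by
    intro i
    rcases (B ∩ cvx A i).eq_empty_or_nonempty with h0 | ⟨y0, hy0⟩
    · exact ⟨0, fun y hy => by rw [h0] at hy; exact hy.elim⟩
    · refine ⟨aff P u (g i) z y0, fun y hy => ?_⟩
      refine (hBo.inter (cvx_open A i)).is_const_of_fderiv_eq_zero (𝕜 := ℝ)
        (f := fun y => aff P u (g i) z y)
        ((convex_ball z ε).inter (cvx_convex A i)).isPreconnected ?_ ?_ hy hy0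
      · intro t ht
        have h3 := flat_near (hg i) hBP hBu hBo hzB ht.1 ht.2
        exact ((differentiableAt_const _).congr_of_eventuallyEq h3).differentiableWithinAt
      · intro t ht
        have h3 := flat_near (hg i) hBP hBu hBo hzB ht.1 ht.2
        show fderiv ℝ (aff P u (g i) z) t = 0
        rw [h3.fderiv_eq]
        simp
  choose c hc using h2
  have h3 : aff P u (fun x => ∑ i, (ρ i x : ℂ) • g i x) z =ᶠ[𝓝 z]
      fun y => ∑ i, (ρ i y : ℂ) • c i := by
    filter_upwards [hBo.mem_nhds hzB] with y hy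
    unfold aff
    have h4 : u z y = ∑ i, (ρ i y : ℂ) • u z y := by
      rw [← Finset.sum_smul]
      have : (∑ i, (ρ i y : ℂ)) = 1 := by
        rw [← Complex.ofReal_sum, hρ4 y (hBO hy), Complex.ofReal_one]
      rw [this, one_smul]
    rw [h4, map_sum, ← Finset.sum_add_distrib]
    refine Finset.sum_congr rfl fun i _ => ?_
    rw [map_smul, ← smul_add]
    by_cases h5 : ρ i y = 0
    · rw [h5]; simp
    · have h6 := hc i y ⟨hy, hρ2 i y h5⟩
      unfold aff at h6
      rw [h6]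
  refine ContDiffAt.congr_of_eventuallyEq ?_ h3
  refine ContDiffAt.sum fun i _ => ?_
  have h7 : ContDiffAt ℝ (⊤ : ℕ∞) (ρ i) z := (hρ1 i).contDiffAt (hO.mem_nhds hz)
  have h8 : ContDiffAt ℝ (⊤ : ℕ∞) (fun y => (ρ i y : ℂ)) z :=
    Complex.ofRealCLM.contDiff.contDiffAt.comp z h7
  exact h8.smul contDiffAt_const

/-- **(R4)** every cocycle is represented by a smooth closed form -/
theorem exists_form (hP : NDCOn ((A : Set ℂ)ᶜ) P) (hu : CocOn ((A : Set ℂ)ᶜ) P u) :
    ∃ a b, Rep ((A : Set ℂ)ᶜ) P u a b := by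
  obtain ⟨f, hf⟩ := exists_section hP hu
  exact ⟨_, _, f, fun z hz => ⟨hf z hz, rfl, rfl⟩⟩

end R4

end Crest.Agent.R276.DR_175
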