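import Mathlib
import Crest.Agent.R276.DR3_175
import Crest.Agent.R276.Psi_563

/-!
# Row 276, IPC (helper175): forms and cocycles on open subsets of the plane, part 4

* `exists_cut` (R5) : a form which is exact near the punctures and near infinity differs from an exact
  form by a form with compact support in `ℂ \ A`.
-/

set_option autoImplicit false
set_option linter.unusedSectionVars false

noncomputable section

open Set Filter Topology MeasureTheory Matrix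
open Crest.Agent.R276.Ipc735 Crest.Agent.R276.Psi_563

namespace Crest.Agent.R276.DR_175

variable {N : ℕ} {P : ℂ → ℂ → GL (Fin N) ℤ}

lemma lV_congr {f g : ℂ → Fin N → ℂ} {z : ℂ} (h : f =ᶠ[𝓝 z] g) : lV P f z =ᶠ[𝓝 z] lV P g z := by
  filter_upwards [h] with y hy
  rw [lV_eq, lV_eq, hy]

lemma e1_congr {f g : ℂ → Fin N → ℂ} {z : ℂ} (h : f =ᶠ[𝓝 z] g) : e1 P f z = e1 P g z :=
  wz_congr (lV_congr h)

lemma e2_congr {f g : ℂ → Fin N → ℂ} {z : ℂ} (h : f =ᶠ[𝓝 z] g) : e2 P f z = e2 P g z :=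
  wb_congr (lV_congr h)

lemma sm_congr {f g : ℂ → Fin N → ℂ} {z : ℂ} (h : f =ᶠ[𝓝 z] g)
    (hg : ContDiffAt ℝ (⊤ : ℕ∞) (lV P g z) z) : ContDiffAt ℝ (⊤ : ℕ∞) (lV P f z) z :=
  hg.congr_of_eventuallyEq (lV_congr h)

lemma sm_zero {z : ℂ} : ContDiffAt ℝ (⊤ : ℕ∞) (lV P (fun _ => 0) z) z := by
  have : lV P (fun _ => 0) z = fun _ => 0 := by
    funext y; rw [lV_eq, map_zero]
  rw [this]; exact contDiffAt_const

lemma sm_smul {f : ℂ → Fin N → ℂ} {χ : ℂ → ℝ} {z : ℂ} (hχ : ContDiffAt ℝ (⊤ : ℕ∞) χ z)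
    (hf : ContDiffAt ℝ (⊤ : ℕ∞) (lV P f z) z) :
    ContDiffAt ℝ (⊤ : ℕ∞) (lV P (fun y => (χ y : ℂ) • f y) z) z := by
  have h1 : lV P (fun y => (χ y : ℂ) • f y) z = fun y => (χ y : ℂ) • lV P f z y := by
    funext y; rw [lV_eq, lV_eq, map_smul]
  rw [h1]
  exact (Complex.ofRealCLM.contDiff.contDiffAt.comp z hχ).smul hf

lemma sm_sum {ι : Type*} {s : Finset ι} {f : ι → ℂ → Fin N → ℂ} {z : ℂ}
    (hf : ∀ i ∈ s, ContDiffAt ℝ (⊤ : ℕ∞) (lV P (f i) z) z) :
    ContDiffAt ℝ (⊤ : ℕ∞) (lV P (fun y => ∑ i ∈ s, f i y) z) z := by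
  have h1 : lV P (fun y => ∑ i ∈ s, f i y) z = fun y => ∑ i ∈ s, lV P (f i) z y := by
    funext y; rw [lV_eq, map_sum]; rfl
  rw [h1]
  exact ContDiffAt.sum hf

lemma sm_add {f g : ℂ → Fin N → ℂ} {z : ℂ} (hf : ContDiffAt ℝ (⊤ : ℕ∞) (lV P f z) z)
    (hg : ContDiffAt ℝ (⊤ : ℕ∞) (lV P g z) z) :
    ContDiffAt ℝ (⊤ : ℕ∞) (lV P (fun y => f y + g y) z) z := by
  have h1 : lV P (fun y => f y + g y) z = fun y => lV P f z y + lV P g z y := by
    funext y; rw [lV_eq, map_add]; rfl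
  rw [h1]
  exact hf.add hg

/-- cut-off of a local section -/
lemma sm_cut {f : ℂ → Fin N → ℂ} {χ : ℂ → ℝ} {z : ℂ} (hχ : ContDiffAt ℝ (⊤ : ℕ∞) χ z)
    (hf : z ∈ tsupport χ → ContDiffAt ℝ (⊤ : ℕ∞) (lV P f z) z) :
    ContDiffAt ℝ (⊤ : ℕ∞) (lV P (fun y => (χ y : ℂ) • f y) z) z := by
  by_cases h : z ∈ tsupport χ
  · exact sm_smul hχ (hf h)
  · refine sm_congr (g := fun _ => 0) ?_ sm_zero
    have h1 := notMem_tsupport_iff_eventuallyEq.mp h
    filter_upwards [h1] with y hy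
    rw [hy]; simp

/-- exactness on an open set minus the punctures -/
def ExactNear (A : Finset ℂ) (P : ℂ → ℂ → GL (Fin N) ℤ) (U : Set ℂ) (a b : ℂ → Fin N → ℂ) : Prop :=
  ∃ φ : ℂ → Fin N → ℂ, ∀ z ∈ U, z ∉ A → ContDiffAt ℝ (⊤ : ℕ∞) (lV P φ z) z ∧
    e1 P φ z = a z ∧ e2 P φ z = b z

lemma exactNear_iff {A : Finset ℂ} {w : ℕ} (V : PVHS A N w) (U : Set ℂ) (a b : ℂ → Fin N → ℂ) :
    V.ExactOn U a b ↔ ExactNear A V.P U a b := Iff.rfl

lemma exactNear_iff_rep {A : Finset ℂ} {U : Set ℂ} {a b : ℂ → Fin N → ℂ} :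
    ExactNear A P U a b ↔ Rep (U ∩ (A : Set ℂ)ᶜ) P (fun _ _ => 0) a b := by
  rw [rep_zero_iff]
  unfold ExactNear
  refine exists_congr fun φ => ⟨fun h z hz => h z hz.1 (by simpa using hz.2),
    fun h z hz hzA => h z ⟨hz, by simpa using hzA⟩⟩

/-- **(R5)** -/
theorem exists_cut {A : Finset ℂ} {a b : ℂ → Fin N → ℂ}
    (h1 : ∀ p ∈ A, ∃ U ∈ 𝓝 p, ExactNear A P U a b)
    (h2 : ∃ R : ℝ, ExactNear A P {z | R < ‖z‖} a b) :
    ∃ g : ℂ → Fin N → ℂ, SmOn ((A : Set ℂ)ᶜ) P g ∧ ∃ K : Set ℂ, IsCompact K ∧ K ⊆ (A : Set ℂ)ᶜ ∧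
      ∀ z ∉ K, z ∉ A → a z = e1 P g z ∧ b z = e2 P g z := by
  classical
  set n := A.card with hn
  let e := A.equivFin
  let pt : Fin n → ℂ := fun i => (e.symm i : ℂ)
  have hpt : Function.Injective pt := fun i j h => e.symm.injective (Subtype.ext h)
  have hptA : ∀ i, pt i ∈ A := fun i => (e.symm i).2
  have hptS : ∀ p ∈ A, ∃ i, pt i = p := fun p hp => ⟨e ⟨p, hp⟩, by simp [pt]⟩
  have h1' : ∀ i, ∃ U ∈ 𝓝 (pt i), ExactNear A P U a b := fun i => h1 _ (hptA i)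
  choose U hU hex using h1'
  choose φ hφ using hex
  obtain ⟨R, φi, hφi⟩ := h2
  -- a common radius
  have hr : ∃ r : ℝ, 0 < r ∧ ∀ i, Metric.ball (pt i) r ⊆ U i := by
    have : ∀ i, ∃ r : ℝ, 0 < r ∧ Metric.ball (pt i) r ⊆ U i := fun i =>
      Metric.mem_nhds_iff.mp (hU i)
    choose r hr0 hr using this
    by_cases hne : Nonempty (Fin n)
    · obtain ⟨i0, hi0⟩ := Finite.exists_min r
      exact ⟨r i0, hr0 i0, fun i => (Metric.ball_subset_ball (hi0 i)).trans (hr i)⟩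
    · exact ⟨1, one_pos, fun i => (hne ⟨i⟩).elim⟩
  obtain ⟨r, hr0, hrU⟩ := hr
  obtain ⟨B, hBa, hBs⟩ := exists_bumps pt hpt hr0
  -- a large radius
  have hR : ∃ R1 : ℝ, 0 < R1 ∧ R < R1 ∧ ∀ i, ‖pt i‖ + r ≤ R1 := by
    have hlt : R < max 1 (R + 1) := lt_of_lt_of_le (by linarith) (le_max_right _ _)
    by_cases hne : Nonempty (Fin n)
    · obtain ⟨i0, hi0⟩ := Finite.exists_max (fun i => ‖pt i‖)
      refine ⟨max (max 1 (R + 1)) (‖pt i0‖ + r), ?_, ?_, fun i => ?_⟩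
      · exact lt_of_lt_of_le one_pos ((le_max_left _ _).trans (le_max_left _ _))
      · exact lt_of_lt_of_le hlt (le_max_left _ _)
      · exact le_trans (by have := hi0 i; linarith) (le_max_right _ _)
    · exact ⟨max 1 (R + 1), lt_of_lt_of_le one_pos (le_max_left _ _), hlt,
        fun i => (hne ⟨i⟩).elim⟩
  obtain ⟨R1, hR10, hRR1, hR1⟩ := hR
  let β : ContDiffBump (0 : ℂ) := ⟨R1, R1 + 1, hR10, by linarith⟩
  have hβ1 : ∀ x, ‖x‖ ≤ R1 → β x = 1 := fun x hx =>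
    β.one_of_mem_closedBall (by simpa [mem_closedBall_zero_iff] using hx)
  have hβ0 : ∀ x, R1 + 1 ≤ ‖x‖ → β x = 0 := fun x hx =>
    β.zero_of_le_dist (by simpa [dist_zero_right] using hx)
  have hsup : ∀ i x, x ∈ tsupport (B.χ i) → x ∈ Metric.ball (pt i) r := fun i x hx => hBs i hx
  have hsupn : ∀ i x, x ∈ Metric.ball (pt i) r → ‖x‖ < R1 := by
    intro i x hx
    have hd : ‖x - pt i‖ < r := by rwa [Metric.mem_ball, dist_eq_norm] at hx
    calc ‖x‖ = ‖(x - pt i) + pt i‖ := by rw [sub_add_cancel]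
      _ ≤ ‖x - pt i‖ + ‖pt i‖ := norm_add_le _ _
      _ < r + ‖pt i‖ := by linarith
      _ ≤ R1 := by have := hR1 i; linarith
  have hχ0 : ∀ i x, x ∉ Metric.ball (pt i) r → B.χ i x = 0 := by
    intro i x hx
    by_contra hne
    exact hx (hsup i x (subset_tsupport _ hne))
  let g : ℂ → Fin N → ℂ := fun y => (∑ i, (B.χ i y : ℂ) • φ i y) + ((1 - β y : ℝ) : ℂ) • φi y
  have hχsm : ∀ i z, ContDiffAt ℝ (⊤ : ℕ∞) (B.χ i) z := fun i z => (B.smooth i).contDiffAt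
  have hβsm : ∀ z, ContDiffAt ℝ (⊤ : ℕ∞) (fun y => 1 - β y) z := fun z =>
    contDiffAt_const.sub (β.contDiff (n := (⊤ : ℕ∞))).contDiffAt
  refine ⟨g, ?_, Metric.closedBall 0 (R1 + 1) \ ⋃ i, Metric.ball (pt i) B.ρ, ?_, ?_, ?_⟩
  · intro z hz
    have hzA : z ∉ A := by simpa using hz
    refine sm_add (sm_sum fun i _ => sm_cut (hχsm i z) fun hzi => ?_) (sm_cut (hβsm z) fun hzi => ?_)
    · exact (hφ i z (hrU i (hsup i z hzi)) hzA).1
    · refine (hφi z ?_ hzA).1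
      -- `z` is in the closed support of `1 - β`, so `‖z‖ ≥ R1`
      by_contra hlt
      have hlt' : ‖z‖ ≤ R := not_lt.mp hlt
      apply (notMem_tsupport_iff_eventuallyEq.mpr ?_) hzi
      have h4 : ∀ᶠ y in 𝓝 z, ‖y‖ < R1 := continuous_norm.continuousAt.eventually_lt
        continuousAt_const (lt_of_le_of_lt hlt' hRR1)
      filter_upwards [h4] with y hy
      rw [hβ1 y hy.le]; simp
  · exact (isCompact_closedBall _ _).diff (isOpen_iUnion fun i => Metric.isOpen_ball)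
  · rintro z ⟨-, hz⟩ hzA
    obtain ⟨i, hi⟩ := hptS z (by simpa using hzA)
    exact hz (mem_iUnion.mpr ⟨i, by rw [← hi]; exact Metric.mem_ball_self B.ρ_pos⟩)
  · intro z hzK hzA
    have hcase : (R1 + 1 < ‖z‖) ∨ ∃ i, z ∈ Metric.ball (pt i) B.ρ := by
      by_contra hcon
      push Not at hcon
      exact hzK ⟨by simpa using hcon.1, fun hm => by
        obtain ⟨i, hi⟩ := mem_iUnion.mp hm
        exact hcon.2 i hi⟩
    rcases hcase with hz | ⟨i, hz⟩
    · have hg : g =ᶠ[𝓝 z] φi := by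
        have h4 : ∀ᶠ y in 𝓝 z, R1 + 1 < ‖y‖ := continuousAt_const.eventually_lt
          continuous_norm.continuousAt hz
        filter_upwards [h4] with y hy
        have h5 : ∀ i, B.χ i y = 0 := fun i => hχ0 i y fun hm => by
          have := hsupn i y hm; linarith
        simp [g, h5, hβ0 y hy.le]
      have hz2 : z ∈ {z : ℂ | R < ‖z‖} := by
        show R < ‖z‖
        linarith
      obtain ⟨-, h6, h7⟩ := hφi z hz2 hzA
      exact ⟨by rw [e1_congr hg, h6], by rw [e2_congr hg, h7]⟩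
    · have hin : ∀ y ∈ Metric.ball (pt i) B.ρ, y ∈ tsupport (B.χ i) := by
        intro y hy
        have : B.χ i y = 1 := B.one i y (by rw [hBa]; exact hy)
        exact subset_tsupport _ (by rw [Function.mem_support, this]; exact one_ne_zero)
      have hg : g =ᶠ[𝓝 z] φ i := by
        filter_upwards [Metric.isOpen_ball.mem_nhds hz] with y hy
        have h5 : ∀ j, j ≠ i → B.χ j y = 0 := by
          intro j hj
          by_contra hne
          exact (Set.disjoint_left.mp (B.disj i j (Ne.symm hj)) (hin y hy)) (subset_tsupport _ hne)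
        have h6 : B.χ i y = 1 := B.one i y (by rw [hBa]; exact hy)
        have h7 : β y = 1 := hβ1 y (hsupn i y (hsup i y (hin y hy))).le
        have h8 : (∑ j, (B.χ j y : ℂ) • φ j y) = φ i y := by
          rw [Finset.sum_eq_single i]
          · rw [h6]; simp
          · intro j _ hj
            rw [h5 j hj]; simp
          · intro h; exact absurd (Finset.mem_univ i) h
        simp only [g]
        rw [h8, h7]; simp
      obtain ⟨-, h6, h7⟩ := hφ i z (hrU i (hsup i z (hin z hz))) hzA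
      exact ⟨by rw [e1_congr hg, h6], by rw [e2_congr hg, h7]⟩

end Crest.Agent.R276.DR_175
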