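import Mathlib
import Crest.Agent.R276.DR_175

/-!
# Row 276, IPC (helper175): forms and cocycles on open subsets of the plane, part 5

* `RepBy.pull` (R6) : naturality for a smooth map together with a change of frames.
-/

set_option autoImplicit false
set_option linter.unusedSectionVars false

noncomputable section

open Set Filter Topology MeasureTheory Matrix
open Crest.Agent.R276.Ipc735

namespace Crest.Agent.R276.DR_175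

variable {N : ℕ}

section chain
variable {F : Type*} [NormedAddCommGroup F] [NormedSpace ℂ F]

lemma hasFDerivAt_comp_wir {h : ℂ → F} {Ψ : ℂ → ℂ} {z : ℂ} (hh : DifferentiableAt ℝ h (Ψ z))
    (hΨ : DifferentiableAt ℝ Ψ z) :
    HasFDerivAt (fun y => h (Ψ y))
      (wir (wz Ψ z • wz h (Ψ z) + (starRingEnd ℂ) (wb Ψ z) • wb h (Ψ z))
        (wb Ψ z • wz h (Ψ z) + (starRingEnd ℂ) (wz Ψ z) • wb h (Ψ z))) z := by
  have h1 : HasFDerivAt (fun y => h (Ψ y)) ((fderiv ℝ h (Ψ z)).comp (fderiv ℝ Ψ z)) z :=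
    hh.hasFDerivAt.comp z hΨ.hasFDerivAt
  convert h1 using 1
  ext v
  show _ = fderiv ℝ h (Ψ z) (fderiv ℝ Ψ z v)
  rw [wir_apply, fderiv_eq_wir h, fderiv_eq_wir Ψ]
  simp only [smul_eq_mul, map_add, map_mul, Complex.conj_conj]
  module

lemma wz_comp {h : ℂ → F} {Ψ : ℂ → ℂ} {z : ℂ} (hh : DifferentiableAt ℝ h (Ψ z))
    (hΨ : DifferentiableAt ℝ Ψ z) : wz (fun y => h (Ψ y)) z =
      wz Ψ z • wz h (Ψ z) + (starRingEnd ℂ) (wb Ψ z) • wb h (Ψ z) :=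
  wz_of_hasFDerivAt (hasFDerivAt_comp_wir hh hΨ)

lemma wb_comp {h : ℂ → F} {Ψ : ℂ → ℂ} {z : ℂ} (hh : DifferentiableAt ℝ h (Ψ z))
    (hΨ : DifferentiableAt ℝ Ψ z) : wb (fun y => h (Ψ y)) z =
      wb Ψ z • wz h (Ψ z) + (starRingEnd ℂ) (wz Ψ z) • wb h (Ψ z) :=
  wb_of_hasFDerivAt (hasFDerivAt_comp_wir hh hΨ)

end chain

/-- pull back of a section -/
def plS (Ψ : ℂ → ℂ) (B : ℂ → GL (Fin N) ℤ) (f : ℂ → Fin N → ℂ) (x : ℂ) : Fin N → ℂ :=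
  act (B x) (f (Ψ x))

/-- pull back of a cocycle -/
def plU (Ψ : ℂ → ℂ) (B : ℂ → GL (Fin N) ℤ) (u : ℂ → ℂ → Fin N → ℂ) (x y : ℂ) : Fin N → ℂ :=
  act (B x) (u (Ψ x) (Ψ y))

/-- pull back of a form, `dx` component -/
def plA (Ψ : ℂ → ℂ) (B : ℂ → GL (Fin N) ℤ) (a b : ℂ → Fin N → ℂ) (x : ℂ) : Fin N → ℂ :=
  wz Ψ x • plS Ψ B a x + (starRingEnd ℂ) (wb Ψ x) • plS Ψ B b x

/-- pull back of a form, `dx̄` component -/
def plB (Ψ : ℂ → ℂ) (B : ℂ → GL (Fin N) ℤ) (a b : ℂ → Fin N → ℂ) (x : ℂ) : Fin N → ℂ :=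
  wb Ψ x • plS Ψ B a x + (starRingEnd ℂ) (wz Ψ x) • plS Ψ B b x

/-- `(Ψ, B)` carries the flat bundle `P1` on `O1` to `P0` on `O0` -/
structure PlFrame (O0 O1 : Set ℂ) (P0 P1 : ℂ → ℂ → GL (Fin N) ℤ) (Ψ : ℂ → ℂ)
    (B : ℂ → GL (Fin N) ℤ) : Prop where
  smooth : ∀ z ∈ O0, ContDiffAt ℝ (⊤ : ℕ∞) Ψ z
  maps : ∀ z ∈ O0, Ψ z ∈ O1
  fr : ∀ z ∈ O0, ∃ U ∈ 𝓝 z, ∀ x ∈ U, ∀ y ∈ U, P0 x y = B x * P1 (Ψ x) (Ψ y) * (B y)⁻¹

variable {O0 O1 : Set ℂ} {P0 P1 : ℂ → ℂ → GL (Fin N) ℤ} {Ψ : ℂ → ℂ} {B : ℂ → GL (Fin N) ℤ}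

lemma PlFrame.cocOn (H : PlFrame O0 O1 P0 P1 Ψ B) {u : ℂ → ℂ → Fin N → ℂ} (hu : CocOn O1 P1 u) :
    CocOn O0 P0 (plU Ψ B u) := by
  intro z hz
  obtain ⟨U, hU, h⟩ := H.fr z hz
  obtain ⟨U', hU', h'⟩ := hu (Ψ z) (H.maps z hz)
  refine ⟨U ∩ Ψ ⁻¹' U', Filter.inter_mem hU
    ((H.smooth z hz).continuousAt.preimage_mem_nhds hU'), fun x hx y hy t ht => ?_⟩
  unfold plU
  rw [← h' _ hx.2 _ hy.2 _ ht.2, map_add, h x hx.1 y hy.1, act_mul_apply, act_mul_apply,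
    act_inv_act]

lemma PlFrame.cobOn (H : PlFrame O0 O1 P0 P1 Ψ B) {u : ℂ → ℂ → Fin N → ℂ} (hu : CobOn O1 P1 u) :
    CobOn O0 P0 (plU Ψ B u) := by
  obtain ⟨g, hg⟩ := hu
  refine ⟨plS Ψ B g, fun z hz => ?_⟩
  obtain ⟨U, hU, h⟩ := H.fr z hz
  obtain ⟨U', hU', h'⟩ := hg (Ψ z) (H.maps z hz)
  refine ⟨U ∩ Ψ ⁻¹' U', Filter.inter_mem hU
    ((H.smooth z hz).continuousAt.preimage_mem_nhds hU'), fun x hx y hy => ?_⟩
  unfold plU plS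
  rw [h' _ hx.2 _ hy.2, map_sub, h x hx.1 y hy.1, act_mul_apply, act_mul_apply, act_inv_act]

/-- **(R6)** naturality -/
theorem RepBy.pull (H : PlFrame O0 O1 P0 P1 Ψ B) {u : ℂ → ℂ → Fin N → ℂ} {f a b : ℂ → Fin N → ℂ}
    (h : RepBy O1 P1 u f a b) :
    RepBy O0 P0 (plU Ψ B u) (plS Ψ B f) (plA Ψ B a b) (plB Ψ B a b) := by
  intro z hz
  obtain ⟨U, hU, hfr⟩ := H.fr z hz
  have h1 : aff P0 (plU Ψ B u) (plS Ψ B f) z =ᶠ[𝓝 z] fun y => act (B z) (aff P1 u f (Ψ z) (Ψ y)) := by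
    filter_upwards [hU] with y hy
    unfold aff plU plS
    rw [hfr z (mem_of_mem_nhds hU) y hy, act_mul_apply, act_mul_apply, act_inv_act, map_add]
  obtain ⟨h2, h3, h4⟩ := h (Ψ z) (H.maps z hz)
  have hΨ := H.smooth z hz
  have h5 : ContDiffAt ℝ (⊤ : ℕ∞) (fun y => aff P1 u f (Ψ z) (Ψ y)) z := h2.comp z hΨ
  refine ⟨?_, ?_, ?_⟩
  · exact (((act (B z)).restrictScalars ℝ).contDiff.contDiffAt.comp z h5).congr_of_eventuallyEq h1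
  · rw [wz_congr h1, wz_clm _ (near_diff h5), wz_comp (near_diff h2) (near_diff hΨ), h3, h4,
      map_add, map_smul, map_smul]
    rfl
  · rw [wb_congr h1, wb_clm _ (near_diff h5), wb_comp (near_diff h2) (near_diff hΨ), h3, h4,
      map_add, map_smul, map_smul]
    rfl

theorem Rep.pull (H : PlFrame O0 O1 P0 P1 Ψ B) {u : ℂ → ℂ → Fin N → ℂ} {a b : ℂ → Fin N → ℂ}
    (h : Rep O1 P1 u a b) : Rep O0 P0 (plU Ψ B u) (plA Ψ B a b) (plB Ψ B a b) := by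
  obtain ⟨f, hf⟩ := h
  exact ⟨_, hf.pull H⟩

/-- pull back of smooth sections -/
theorem SmOn.pull (H : PlFrame O0 O1 P0 P1 Ψ B) {φ : ℂ → Fin N → ℂ} (h : SmOn O1 P1 φ) :
    SmOn O0 P0 (plS Ψ B φ) ∧ (∀ z ∈ O0, e1 P0 (plS Ψ B φ) z = plA Ψ B (e1 P1 φ) (e2 P1 φ) z) ∧
      ∀ z ∈ O0, e2 P0 (plS Ψ B φ) z = plB Ψ B (e1 P1 φ) (e2 P1 φ) z := by
  have h1 : RepBy O1 P1 (fun _ _ => 0) φ (e1 P1 φ) (e2 P1 φ) := by
    intro z hz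
    rw [aff_zero]
    exact ⟨h z hz, rfl, rfl⟩
  have h2 := h1.pull H
  have h3 : plU Ψ B (fun _ _ => (0 : Fin N → ℂ)) = fun _ _ => 0 := by
    funext x y; unfold plU; rw [map_zero]
  rw [h3] at h2
  refine ⟨fun z hz => ?_, fun z hz => ?_, fun z hz => ?_⟩
  · have := (h2 z hz).1; rwa [aff_zero] at this
  · have := (h2 z hz).2.1; rwa [aff_zero] at this
  · have := (h2 z hz).2.2; rwa [aff_zero] at this

end Crest.Agent.R276.DR_175
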