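import Mathlib
import Crest.Agent.R276.FKDefs_779
import Crest.Agent.R276.FK1_779
import Crest.Agent.R276.FKB1_594
import Crest.Agent.R271.Br2_958
import Crest.Agent.R271.UfdF_243

/-!
# Row 276, DEGEN (helper594), part 1: the height one primes of an étale chart

`(A, z)` an étale chart of `K/ℂ` (`FKDefs_779.EtChart`), `p` a height one prime of `A`:
`locAt p` is the local ring at `p` as a subring of `K`, `valAt` the corresponding valuation ring.
* `isDiv_valAt` : it is divisorial,
* `jac_mem` : Jacobians w.r.t. `dz` of elements of it belong to it,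
* `mem_of_regAt` : an element of `K` regular (weight `m`, basis `dz`) at all divisorial valuation
  rings centred at height one primes of `A` belongs to `A`.
* `finite_chart_bad` : only finitely many height one primes of `A` contain a given `h ≠ 0`.
-/

set_option autoImplicit false
set_option linter.all false

noncomputable section

namespace Crest.Agent.R276.Deg1_594

open Crest.Agent.R276.FKDefs_779 Crest.Agent.R276

variable {K : Type} [Field K] [Algebra ℂ K] {n : ℕ} {A : Subalgebra ℂ K} {z : Fin n → K}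

section chart

theorem isFractionRing (hA : EtChart ℂ K A z) : IsFractionRing A K := by
  refine IsFractionRing.of_field A K fun a => ?_
  obtain ⟨b, hb, s, hs, hs0, rfl⟩ := hA.frac a
  exact ⟨⟨b, hb⟩, ⟨s, hs⟩, by rw [div_eq_mul_inv]; rfl⟩

/-- the coordinates as elements of `A` -/
abbrev zA (hA : EtChart ℂ K A z) : Fin n → A := fun i => ⟨z i, hA.mem i⟩

theorem etale (hA : EtChart ℂ K A z) :
    ((MvPolynomial.aeval (zA hA) : MvPolynomial (Fin n) ℂ →ₐ[ℂ] A)).toRingHom.Etale :=
  hA.etale

theorem noeth (hA : EtChart ℂ K A z) : IsNoetherianRing A := by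
  have h1 := Crest.Agent.R271.UFD243.finiteType_of_etale
    (MvPolynomial.aeval (zA hA) : MvPolynomial (Fin n) ℂ →ₐ[ℂ] A) (etale hA)
  exact Algebra.FiniteType.isNoetherianRing ℂ A

theorem intClosed (hA : EtChart ℂ K A z) : IsIntegrallyClosed A := by
  refine IsIntegrallyClosed.of_localization_maximal fun p hp0 hp => ?_
  have hd : IsDomain (Localization.AtPrime p) :=
    IsLocalization.isDomain_localization p.primeCompl_le_nonZeroDivisors
  have := Crest.Agent.R271.UFD243.chart_ufd
    (MvPolynomial.aeval (zA hA) : MvPolynomial (Fin n) ℂ →ₐ[ℂ] A) (etale hA) p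
    (Localization.AtPrime p)
  exact UniqueFactorizationMonoid.instIsIntegrallyClosed

variable (hA : EtChart ℂ K A z) (p : Ideal A) [hp : p.IsPrime]

include hA in
theorem dvr (h1 : p.height = 1) : IsDiscreteValuationRing (Localization.AtPrime p) := by
  have hd : IsDomain (Localization.AtPrime p) :=
    IsLocalization.isDomain_localization p.primeCompl_le_nonZeroDivisors
  have := Crest.Agent.R271.UFD243.chart_ufd
    (MvPolynomial.aeval (zA hA) : MvPolynomial (Fin n) ℂ →ₐ[ℂ] A) (etale hA) p
    (Localization.AtPrime p)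
  have hN := noeth hA
  have hNR : IsNoetherianRing (Localization.AtPrime p) :=
    IsLocalization.isNoetherianRing p.primeCompl _ hN
  apply Crest.Agent.R271.UFD243.isDVR_of_ufd_of_dim_one
  rw [IsLocalization.AtPrime.ringKrullDim_eq_height p (Localization.AtPrime p), h1]
  rfl

/-- membership in the local ring at `p` -/
def InLoc (f : K) : Prop := ∃ a b : A, b ∉ p ∧ (b : K) * f = a

variable {p} in
theorem ne_zero_of_not_mem {b : A} (hb : b ∉ p) : (b : K) ≠ 0 := by
  intro h
  apply hb
  have : b = 0 := Subtype.ext h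
  rw [this]; exact p.zero_mem

/-- the valuation ring of a height one prime -/
def valAt (h1 : p.height = 1) : ValuationSubring K where
  carrier := {f | InLoc p f}
  mul_mem' := by
    rintro f g ⟨a, b, hb, h⟩ ⟨c, d, hd, h'⟩
    refine ⟨a * c, b * d, fun hm => (hp.mem_or_mem hm).elim hb hd, ?_⟩
    push_cast
    rw [← h, ← h']; ring
  one_mem' := ⟨1, 1, fun h => hp.ne_top ((Ideal.eq_top_iff_one p).mpr h), by simp⟩
  add_mem' := by
    rintro f g ⟨a, b, hb, h⟩ ⟨c, d, hd, h'⟩
    refine ⟨a * d + c * b, b * d, fun hm => (hp.mem_or_mem hm).elim hb hd, ?_⟩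
    push_cast
    rw [← h, ← h']; ring
  zero_mem' := ⟨0, 1, fun h => hp.ne_top ((Ideal.eq_top_iff_one p).mpr h), by simp⟩
  neg_mem' := by
    rintro f ⟨a, b, hb, h⟩
    exact ⟨-a, b, hb, by push_cast; rw [← h]; ring⟩
  mem_or_inv_mem' := by
    intro f
    by_cases hf : f = 0
    · left; subst hf
      exact ⟨0, 1, fun h => hp.ne_top ((Ideal.eq_top_iff_one p).mpr h), by simp⟩
    haveI := isFractionRing hA
    haveI := dvr hA p h1
    obtain ⟨a, b, hb0, rfl⟩ := IsFractionRing.div_surjective (A := A) f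
    have hb : b ≠ 0 := nonZeroDivisors.ne_zero hb0
    have ha : a ≠ 0 := by
      rintro rfl
      apply hf
      simp
    have hι : Function.Injective (algebraMap A (Localization.AtPrime p)) :=
      IsLocalization.injective _ p.primeCompl_le_nonZeroDivisors
    -- divisibility in the localization
    have key : ∀ u v : A, v ≠ 0 → algebraMap A (Localization.AtPrime p) v ∣
        algebraMap A (Localization.AtPrime p) u → InLoc p ((u : K) / v) := by
      rintro u v hv ⟨w, hw⟩
      obtain ⟨⟨c, s⟩, hc⟩ := IsLocalization.surj p.primeCompl w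
      have hv' : (v : K) ≠ 0 := fun h => hv (Subtype.ext h)
      refine ⟨c, s, s.2, ?_⟩
      have h2 : (s : A) * u = v * c := by
        apply hι
        rw [map_mul, map_mul, ← hc, hw]
        ring
      have h3 : ((s : A) : K) * u = v * c := by exact_mod_cast congrArg (Subtype.val) h2
      field_simp
      rw [h3]
    rcases ValuationRing.dvd_total (algebraMap A (Localization.AtPrime p) a)
      (algebraMap A (Localization.AtPrime p) b) with h | h
    · right
      have := key b a ha h
      change InLoc p _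
      rw [inv_div]
      exact this
    · left
      exact key a b hb h

theorem mem_valAt (h1 : p.height = 1) (f : K) : f ∈ valAt hA p h1 ↔ InLoc p f := Iff.rfl

theorem A_le_valAt (h1 : p.height = 1) {a : K} (ha : a ∈ A) : a ∈ valAt hA p h1 :=
  ⟨⟨a, ha⟩, 1, fun h => hp.ne_top ((Ideal.eq_top_iff_one p).mpr h), by simp⟩

theorem valuation_eq_one (h1 : p.height = 1) {a : A} (ha : a ∉ p) :
    (valAt hA p h1).valuation (a : K) = 1 := by
  have h0 := ne_zero_of_not_mem ha
  have h2 : (valAt hA p h1).valuation (a : K) ≤ 1 :=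
    (ValuationSubring.valuation_le_one_iff _ _).mpr (A_le_valAt hA p h1 a.2)
  have h3 : (valAt hA p h1).valuation ((a : K)⁻¹) ≤ 1 := by
    refine (ValuationSubring.valuation_le_one_iff _ _).mpr ⟨1, a, ha, ?_⟩
    rw [mul_inv_cancel₀ h0]; simp
  rw [map_inv₀] at h3
  refine le_antisymm h2 ?_
  have h4 : 0 < (valAt hA p h1).valuation (a : K) := by
    rw [zero_lt_iff]
    exact (Valuation.ne_zero_iff _).mpr h0
  exact (inv_le_one₀ h4).mp h3

theorem isDiv_valAt (h1 : p.height = 1) : IsDiv ℂ n (valAt hA p h1) where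
  alg := fun c => A_le_valAt hA p h1 (A.algebraMap_mem c)
  ne_top := by
    intro htop
    have hpne : p ≠ ⊥ := by
      rintro rfl
      rw [Ideal.height_bot] at h1
      exact zero_ne_one h1
    obtain ⟨a, hap, ha0⟩ := Submodule.exists_mem_ne_zero_of_ne_bot hpne
    have h2 : ((a : K))⁻¹ ∈ valAt hA p h1 := by rw [htop]; trivial
    obtain ⟨c, b, hb, hbc⟩ := (mem_valAt hA p h1 _).mp h2
    have ha' : (a : K) ≠ 0 := fun h => ha0 (Subtype.ext h)
    apply hb
    have h3 : b = a * c := by
      apply Subtype.ext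
      push_cast
      rw [← hbc]
      field_simp
    rw [h3]
    exact p.mul_mem_right _ hap
  res := by
    classical
    obtain ⟨j, hj, -⟩ := FKB1_594.trdeg_quotient (zA hA) (etale hA) p h1
    have hn : n - 1 + 1 = n := Nat.succ_pred_eq_of_pos (Fin.pos j)
    have hcard : Fintype.card {i // i ≠ j} = n - 1 := by
      rw [Fintype.card_subtype_compl]; simp
    let e : Fin (n - 1) ≃ {i // i ≠ j} := (Fintype.equivFinOfCardEq hcard).symm
    refine ⟨fun i => z (e i).1, fun i => A_le_valAt hA p h1 (hA.mem _), fun P hP => ?_⟩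
    have h2 : MvPolynomial.aeval (fun i => z (e i).1) P =
        ((MvPolynomial.aeval (fun i => zA hA (e i).1) P : A) : K) := by
      have : (A.val.comp (MvPolynomial.aeval (fun i => zA hA (e i).1))) P =
          MvPolynomial.aeval (fun i => z (e i).1) P := by
        rw [MvPolynomial.comp_aeval]
        rfl
      rw [← this]
      rfl
    rw [h2]
    apply valuation_eq_one
    intro hmem
    apply hP
    have hj2 : AlgebraicIndependent ℂ (fun i : Fin (n - 1) =>
        Ideal.Quotient.mk p (zA hA (e i).1)) := hj.comp e e.injective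
    rw [algebraicIndependent_iff] at hj2
    apply hj2
    have h4 : Ideal.Quotient.mkₐ ℂ p (MvPolynomial.aeval (fun i => zA hA (e i).1) P) = 0 :=
      Ideal.Quotient.eq_zero_iff_mem.2 hmem
    rw [← AlgHom.comp_apply, MvPolynomial.comp_aeval] at h4
    exact h4

/-! ### Jacobians -/

/-- differentials of elements of the chart ring -/
theorem exists_repr (hA : EtChart ℂ K A z) (b : Module.Basis (Fin n) K (Ω[K⁄ℂ]))
    (hb : ∀ i, b i = KaehlerDifferential.D ℂ K (z i)) (a : A) :
    ∃ c : Fin n → A, ∀ i, b.repr (KaehlerDifferential.D ℂ K (a : K)) i = c i := by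
  have hfe : RingHom.FormallyEtale ((MvPolynomial.aeval (zA hA) :
      MvPolynomial (Fin n) ℂ →ₐ[ℂ] A) : MvPolynomial (Fin n) ℂ →+* A) := by
    have h1 : RingHom.Etale ((MvPolynomial.aeval (zA hA) :
      MvPolynomial (Fin n) ℂ →ₐ[ℂ] A) : MvPolynomial (Fin n) ℂ →+* A) := etale hA
    algebraize [((MvPolynomial.aeval (zA hA) :
      MvPolynomial (Fin n) ℂ →ₐ[ℂ] A) : MvPolynomial (Fin n) ℂ →+* A)]
    change Algebra.FormallyEtale _ _
    infer_instance
  obtain ⟨b0, hb0⟩ := FK1_779.exists_basis_of_formallyEtale (zA hA) hfe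
  refine ⟨fun i => b0.repr (KaehlerDifferential.D ℂ A a) i, fun i => ?_⟩
  have h1 : KaehlerDifferential.D ℂ A a = ∑ j, b0.repr (KaehlerDifferential.D ℂ A a) j •
      KaehlerDifferential.D ℂ A (zA hA j) := by
    conv_lhs => rw [← b0.sum_repr (KaehlerDifferential.D ℂ A a)]
    simp only [hb0]
  have h2 := congrArg (KaehlerDifferential.map ℂ ℂ A K) h1
  rw [KaehlerDifferential.map_D, map_sum] at h2
  have h3 : KaehlerDifferential.D ℂ K (a : K) =
      ∑ j, ((b0.repr (KaehlerDifferential.D ℂ A a) j : A) : K) • b j := by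
    refine Eq.trans ?_ (h2.trans ?_)
    · rfl
    · refine Finset.sum_congr rfl fun j _ => ?_
      rw [map_smul, KaehlerDifferential.map_D, hb j]
      rfl
  rw [h3]
  exact congrFun (b.repr_sum_self fun j => ((b0.repr (KaehlerDifferential.D ℂ A a) j : A) : K)) i

/-- differentials of elements of the local ring at `p` -/
theorem repr_mem (h1 : p.height = 1) (b : Module.Basis (Fin n) K (Ω[K⁄ℂ]))
    (hb : ∀ i, b i = KaehlerDifferential.D ℂ K (z i)) {y : K} (hy : y ∈ valAt hA p h1)
    (i : Fin n) : b.repr (KaehlerDifferential.D ℂ K y) i ∈ valAt hA p h1 := by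
  obtain ⟨a, s, hs, hsa⟩ := hy
  obtain ⟨c, hc⟩ := exists_repr hA b hb a
  obtain ⟨e, he⟩ := exists_repr hA b hb s
  have hs0 := ne_zero_of_not_mem hs
  have h2 := congrArg (fun w => b.repr (KaehlerDifferential.D ℂ K w) i) hsa
  simp only [Derivation.leibniz, map_add, map_smul, Finsupp.add_apply, Finsupp.smul_apply,
    smul_eq_mul] at h2
  rw [hc i, he i] at h2
  have h3 : b.repr (KaehlerDifferential.D ℂ K y) i = ((c i : K) - y * e i) * (s : K)⁻¹ := by
    field_simp
    linear_combination h2
  rw [h3]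
  have hyv : y ∈ valAt hA p h1 := ⟨a, s, hs, hsa⟩
  have hsv : ((s : K))⁻¹ ∈ valAt hA p h1 := ⟨1, s, hs, by rw [mul_inv_cancel₀ hs0]; simp⟩
  exact mul_mem (sub_mem (A_le_valAt hA p h1 (c i).2)
    (mul_mem hyv (A_le_valAt hA p h1 (e i).2))) hsv

theorem jac_mem (h1 : p.height = 1) (b : Module.Basis (Fin n) K (Ω[K⁄ℂ]))
    (hb : ∀ i, b i = KaehlerDifferential.D ℂ K (z i)) {y : Fin n → K}
    (hy : ∀ i, y i ∈ valAt hA p h1) : jac ℂ b y ∈ valAt hA p h1 := by
  unfold jac
  rw [Module.Basis.det_apply, Matrix.det_apply]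
  refine sum_mem fun σ _ => ?_
  rw [Units.smul_def, zsmul_eq_mul]
  refine mul_mem (by exact intCast_mem _ _) (prod_mem fun i _ => ?_)
  rw [Module.Basis.toMatrix_apply]
  exact repr_mem hA p h1 b hb (hy i) _

theorem mem_of_regAt_valAt (h1 : p.height = 1) (b : Module.Basis (Fin n) K (Ω[K⁄ℂ]))
    (hb : ∀ i, b i = KaehlerDifferential.D ℂ K (z i)) {m : ℕ} {f : K}
    (hf : RegAt ℂ (valAt hA p h1) b m f) : f ∈ valAt hA p h1 := by
  obtain ⟨y, hy, hle⟩ := hf
  have h2 : (valAt hA p h1).valuation (jac ℂ b y) ≤ 1 :=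
    (ValuationSubring.valuation_le_one_iff _ _).mpr (jac_mem hA p h1 b hb hy)
  exact (ValuationSubring.valuation_le_one_iff _ _).mp (hle.trans (pow_le_one₀ zero_le h2))

end chart

section main

/-- an element of `K` regular at all divisorial valuation rings which are centred at height one
primes of `A` belongs to `A` -/
theorem mem_of_regAt (hA : EtChart ℂ K A z) (b : Module.Basis (Fin n) K (Ω[K⁄ℂ]))
    (hb : ∀ i, b i = KaehlerDifferential.D ℂ K (z i)) {m : ℕ} {f : K}
    (hf : ∀ (p : Ideal A) (hp : p.IsPrime) (h1 : p.height = 1),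
      f ∈ valAt hA p h1 ∨ RegAt ℂ (valAt hA p h1) b m f) : f ∈ A := by
  haveI := isFractionRing hA
  haveI := noeth hA
  haveI := intClosed hA
  obtain ⟨a, ha⟩ := Crest.Agent.R271.Br958.hartogs (A := A) f (fun p hp h1 => by
    have h2 : f ∈ valAt hA p h1 := by
      rcases hf p hp h1 with h | h
      · exact h
      · exact mem_of_regAt_valAt hA p h1 b hb h
    obtain ⟨a, s, hs, h⟩ := h2
    exact ⟨a, s, hs, h⟩)
  rw [← ha]
  exact a.2

/-- only finitely many height one primes contain a given non zero element -/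
theorem finite_bad (hA : EtChart ℂ K A z) {h : A} (hh : h ≠ 0) :
    {p : Ideal A | p.IsPrime ∧ p.height = 1 ∧ h ∈ p}.Finite := by
  haveI := noeth hA
  refine (Ideal.finite_minimalPrimes_of_isNoetherianRing A (Ideal.span {h})).subset ?_
  rintro p ⟨hp, h1, hmem⟩
  refine ⟨⟨hp, by rwa [Ideal.span_singleton_le_iff_mem]⟩, ?_⟩
  rintro q ⟨hq, hle⟩ hqp
  by_contra hcon
  have hlt : q < p := lt_of_le_not_ge hqp hcon
  haveI := hq
  haveI := hp
  have h2 : q.height + 1 ≤ p.height := Ideal.height_add_one_le_of_lt_of_isPrime hlt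
  have hq0 : q ≠ ⊥ := by
    rintro rfl
    rw [Ideal.span_singleton_le_iff_mem] at hle
    exact hh (by simpa using hle)
  have h3 : (⊥ : Ideal A).height + 1 ≤ q.height :=
    Ideal.height_add_one_le_of_lt_of_isPrime (bot_lt_iff_ne_bot.mpr hq0)
  rw [h1] at h2
  have h4 : (1 : ℕ∞) ≤ q.height := le_trans (by simp) h3
  have h5 : (1 : ℕ∞) + 1 ≤ 1 := le_trans (by gcongr) h2
  exact absurd h5 (by decide)

end main

end Crest.Agent.R276.Deg1_594
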