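import Mathlib

set_option autoImplicit false
set_option linter.all false

namespace Crest.Agent.R276.FK3A_595

open TensorProduct

/-- `k'/k` base field extension, `K'` = compositum of `K` and `k'` over `k` in the strong sense
`K' = Frac (K ⊗[k] k')`: `K` and `k'` are linearly disjoint over `k` inside `K'`, and every element of
`K'` is a quotient of `k'`-linear combinations of elements of `K`. -/
structure BaseUp (k K k' K' : Type*) [Field k] [Field K] [Field k'] [Field K']
    [Algebra k K] [Algebra k k'] [Algebra K K'] [Algebra k' K'] [Algebra k K']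
    [IsScalarTower k K K'] [IsScalarTower k k' K'] : Prop where
  ld : ∀ (r : ℕ) (v : Fin r → K), LinearIndependent k v →
    LinearIndependent k' (fun i => algebraMap K K' (v i))
  gen : ∀ x : K', ∃ a ∈ Submodule.span k' (Set.range (algebraMap K K')),
    ∃ b ∈ Submodule.span k' (Set.range (algebraMap K K')), b ≠ 0 ∧ x * b = a

section lemmas

variable {A B M K' : Type*} [CommRing A] [IsDomain A] [CommRing B] [IsDomain B] [Algebra A B]
  [Field M] [Algebra A M] [Field K'] [Algebra B K'] [Algebra M K'] [Algebra A K']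
  [IsScalarTower A B K'] [IsScalarTower A M K']

/-- A field containing the domain `A` is flat over `A`. -/
theorem flat_of_injective (hAM : Function.Injective (algebraMap A M)) : Module.Flat A M := by
  let _ : Algebra (FractionRing A) M := (IsFractionRing.lift hAM).toAlgebra
  have _ : IsScalarTower A (FractionRing A) M := by
    refine IsScalarTower.of_algebraMap_eq' ?_
    ext x
    simp [RingHom.algebraMap_toAlgebra]
  have _ : Module.Flat A (FractionRing A) :=
    IsLocalization.flat (FractionRing A) (nonZeroDivisors A)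
  exact Module.Flat.trans A (FractionRing A) M

variable (A B M K') in
/-- the product map `M ⊗[A] B → K'` -/
noncomputable abbrev pm : M ⊗[A] B →ₐ[A] K' :=
  Algebra.TensorProduct.productMap (IsScalarTower.toAlgHom A M K') (IsScalarTower.toAlgHom A B K')

omit [IsDomain A] [IsDomain B] in
@[simp] theorem pm_tmul (m : M) (b : B) :
    pm A B M K' (m ⊗ₜ b) = algebraMap M K' m * algebraMap B K' b := by
  simp [pm]

omit [IsDomain B] in
/-- linear independence is preserved -/
theorem linInd_of_flat (hAM : Function.Injective (algebraMap A M))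
    (hinj : Function.Injective (pm A B M K')) {r : ℕ} (b : Fin r → B)
    (hb : LinearIndependent A b) :
    LinearIndependent M (fun i => algebraMap B K' (b i)) := by
  have _ := flat_of_injective (A := A) (M := M) hAM
  rw [Fintype.linearIndependent_iff]
  intro c hc
  -- the map A^r → B
  let g : (Fin r → A) →ₗ[A] B := Fintype.linearCombination A b
  have hg : Function.Injective g := by
    rw [← LinearMap.ker_eq_bot, LinearMap.ker_eq_bot']
    intro m hm
    funext i
    exact (Fintype.linearIndependent_iff.mp hb) m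
      (by simpa [g, Fintype.linearCombination_apply] using hm) i
  have hg' : Function.Injective (g.lTensor M) :=
    Module.Flat.lTensor_preserves_injective_linearMap g hg
  have key : g.lTensor M (∑ i, c i ⊗ₜ (Pi.single i (1 : A))) = 0 := by
    apply hinj
    rw [map_zero, map_sum, map_sum, ← hc]
    refine Finset.sum_congr rfl fun i _ => ?_
    rw [LinearMap.lTensor_tmul, pm_tmul]
    simp [g, Fintype.linearCombination_apply, Pi.single_apply, Algebra.smul_def]
  have h0 : (∑ i, c i ⊗ₜ[A] (Pi.single i (1 : A) : Fin r → A)) = 0 :=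
    hg' (by rw [key, map_zero])
  intro i
  have := congrArg ((TensorProduct.rid A M) ∘
    (LinearMap.lTensor M (LinearMap.proj i : (Fin r → A) →ₗ[A] A))) h0
  simpa [Pi.single_apply] using this

omit [IsDomain A] [IsDomain B] in
/-- the image of `M ⊗[A] B` is contained in the `M`-span of the image of `B` -/
theorem pm_mem (t : M ⊗[A] B) :
    pm A B M K' t ∈ Submodule.span M (Set.range (algebraMap B K')) := by
  induction t using TensorProduct.induction_on with
  | zero => simp
  | tmul c b =>
    rw [pm_tmul, ← Algebra.smul_def]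
    exact Submodule.smul_mem _ _ (Submodule.subset_span ⟨b, rfl⟩)
  | add x y hx hy =>
    rw [map_add]
    exact Submodule.add_mem _ hx hy

variable {L0 K0 : Type*} [Field L0] [Field K0] [Algebra A L0] [IsFractionRing A L0]
  [Algebra B K0] [IsFractionRing B K0] [Algebra L0 K0] [Algebra A K0] [IsScalarTower A L0 K0]
  [IsScalarTower A B K0] [Algebra L0 M] [IsScalarTower A L0 M] [Algebra K0 K']
  [IsScalarTower B K0 K'] [Algebra L0 K'] [IsScalarTower L0 K0 K'] [IsScalarTower L0 M K']

/-- **BU**: `A → B` domains, `L0 = Frac A`, `K0 = Frac B`, `M` a field over `A` (injectively), `K'` a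
fraction field of `M ⊗[A] B`: then `K'` is the base extension of `K0/L0` by `M/L0`. -/
theorem baseUp
    (hinj : Function.Injective (pm A B M K'))
    (hgen : ∀ x : K', ∃ s t : M ⊗[A] B, pm A B M K' t ≠ 0 ∧ x * pm A B M K' t = pm A B M K' s) :
    BaseUp L0 K0 M K' := by
  have hAM : Function.Injective (algebraMap A M) := by
    rw [IsScalarTower.algebraMap_eq A L0 M]
    exact (algebraMap L0 M).injective.comp (IsFractionRing.injective A L0)
  refine ⟨?_, ?_⟩
  · intro r v hv
    obtain ⟨b, hb⟩ := IsLocalization.exist_integer_multiples (nonZeroDivisors B)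
      Finset.univ v
    have hb0 : algebraMap B K0 b ≠ 0 := by
      simp
    choose w hw using fun i : Fin r => hb i (by simp)
    have hw' : ∀ i, algebraMap B K0 (w i) = algebraMap B K0 b * v i := by
      intro i
      rw [hw i, Algebra.smul_def]
    have hwi : LinearIndependent A w := by
      have h1 : LinearIndependent L0 (fun i => algebraMap B K0 b * v i) := by
        have := hv.map' (LinearMap.mulLeft L0 (algebraMap B K0 b))
          (by rw [LinearMap.ker_eq_bot]; exact mul_right_injective₀ hb0)
        exact this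
      have h2 : LinearIndependent A (fun i => algebraMap B K0 b * v i) :=
        h1.restrict_scalars (by
          intro x y hxy
          simpa [Algebra.smul_def] using hxy)
      have h3 : (fun i => algebraMap B K0 b * v i) =
          (IsScalarTower.toAlgHom A B K0).toLinearMap ∘ w := by
        funext i; simp [hw']
      rw [h3] at h2
      exact LinearIndependent.of_comp _ h2
    have h4 := linInd_of_flat (K' := K') hAM hinj w hwi
    have hb1 : algebraMap B K' b ≠ 0 := by
      rw [IsScalarTower.algebraMap_apply B K0 K']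
      exact (map_ne_zero _).mpr hb0
    have h5 : LinearIndependent M (fun i => (algebraMap B K' b)⁻¹ * algebraMap B K' (w i)) := by
      have := h4.map' (LinearMap.mulLeft M (algebraMap B K' b)⁻¹)
          (by rw [LinearMap.ker_eq_bot]; exact mul_right_injective₀ (inv_ne_zero hb1))
      exact this
    convert h5 using 2 with i
    rw [eq_inv_mul_iff_mul_eq₀ hb1, IsScalarTower.algebraMap_apply B K0 K',
      IsScalarTower.algebraMap_apply B K0 K', hw', map_mul]
  · intro x
    obtain ⟨s, t, ht, hx⟩ := hgen x
    have hle : Submodule.span M (Set.range (algebraMap B K')) ≤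
        Submodule.span M (Set.range (algebraMap K0 K')) := by
      refine Submodule.span_mono ?_
      rintro _ ⟨b, rfl⟩
      exact ⟨algebraMap B K0 b, (IsScalarTower.algebraMap_apply B K0 K' b).symm⟩
    exact ⟨_, hle (pm_mem s), _, hle (pm_mem t), ht, hx⟩

end lemmas

section change

variable {A0 B0 A B M K' : Type*} [CommRing A0] [CommRing B0] [CommRing A] [CommRing B]
  [Algebra A0 B0] [Algebra A0 A] [Algebra B0 B] [Algebra A0 B] [Algebra A B]
  [IsScalarTower A0 B0 B] [IsScalarTower A0 A B]
  [Field M] [Algebra A M] [Algebra A0 M] [IsScalarTower A0 A M]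
  [Field K'] [Algebra B K'] [Algebra M K'] [Algebra A K'] [IsScalarTower A B K']
  [IsScalarTower A M K'] [Algebra B0 K'] [IsScalarTower B0 B K'] [Algebra A0 K']
  [IsScalarTower A0 B0 K'] [IsScalarTower A0 M K']

/-- if `A ⊗[A0] B0 → B` is bijective, `M ⊗[A0] B0 → K'` factors through an isomorphism onto
`M ⊗[A] B`. -/
theorem exists_equiv (hbij : Function.Bijective (Algebra.TensorProduct.productMap
      (IsScalarTower.toAlgHom A0 A B) (IsScalarTower.toAlgHom A0 B0 B))) :
    ∃ e : M ⊗[A0] B0 ≃ₗ[A] M ⊗[A] B, ∀ t, pm A B M K' (e t) = pm A0 B0 M K' t := by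
  let f : A ⊗[A0] B0 →ₗ[A] B :=
    (Algebra.TensorProduct.lift (Algebra.ofId A B) (IsScalarTower.toAlgHom A0 B0 B)
      (fun _ _ => Commute.all _ _)).toLinearMap
  have hf : ∀ t, f t = Algebra.TensorProduct.productMap
      (IsScalarTower.toAlgHom A0 A B) (IsScalarTower.toAlgHom A0 B0 B) t := by
    intro t
    induction t using TensorProduct.induction_on with
    | zero => simp
    | tmul x y => simp [f, Algebra.ofId_apply]
    | add x y hx hy => rw [map_add, map_add, hx, hy]
  have hfb : Function.Bijective f := by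
    have : (f : A ⊗[A0] B0 → B) = Algebra.TensorProduct.productMap
      (IsScalarTower.toAlgHom A0 A B) (IsScalarTower.toAlgHom A0 B0 B) := funext hf
    rw [this]; exact hbij
  let fe : A ⊗[A0] B0 ≃ₗ[A] B := LinearEquiv.ofBijective f hfb
  let e1 : M ⊗[A] (A ⊗[A0] B0) ≃ₗ[A] M ⊗[A0] B0 :=
    TensorProduct.AlgebraTensorModule.cancelBaseChange A0 A A M B0
  let e2 : M ⊗[A] (A ⊗[A0] B0) ≃ₗ[A] M ⊗[A] B := LinearEquiv.lTensor M fe
  refine ⟨e1.symm.trans e2, fun t => ?_⟩
  induction t using TensorProduct.induction_on with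
  | zero => simp
  | tmul m b =>
    have h1 : e1.symm (m ⊗ₜ b) = m ⊗ₜ (1 ⊗ₜ b) := by
      simp [e1]
    rw [LinearEquiv.trans_apply, h1]
    have h2 : e2 (m ⊗ₜ (1 ⊗ₜ b)) = m ⊗ₜ (algebraMap B0 B b) := by
      simp [e2, fe, f]
    rw [h2, pm_tmul, pm_tmul, ← IsScalarTower.algebraMap_apply]
  | add x y hx hy => rw [map_add, map_add, map_add, hx, hy]

theorem pm_injective_of (hbij : Function.Bijective (Algebra.TensorProduct.productMap
      (IsScalarTower.toAlgHom A0 A B) (IsScalarTower.toAlgHom A0 B0 B)))
    (h : Function.Injective (pm A B M K')) : Function.Injective (pm A0 B0 M K') := by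
  obtain ⟨e, he⟩ := exists_equiv (M := M) (K' := K') hbij
  intro x y hxy
  apply e.injective
  apply h
  rw [he, he, hxy]

theorem pm_gen_of (hbij : Function.Bijective (Algebra.TensorProduct.productMap
      (IsScalarTower.toAlgHom A0 A B) (IsScalarTower.toAlgHom A0 B0 B)))
    (h : ∀ x : K', ∃ s t : M ⊗[A] B, pm A B M K' t ≠ 0 ∧ x * pm A B M K' t = pm A B M K' s)
    (x : K') : ∃ s t : M ⊗[A0] B0, pm A0 B0 M K' t ≠ 0 ∧
      x * pm A0 B0 M K' t = pm A0 B0 M K' s := by
  obtain ⟨e, he⟩ := exists_equiv (M := M) (K' := K') hbij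
  obtain ⟨s, t, ht, hx⟩ := h x
  refine ⟨e.symm s, e.symm t, ?_, ?_⟩
  · rw [← he, LinearEquiv.apply_symm_apply]; exact ht
  · rw [← he, ← he, LinearEquiv.apply_symm_apply, LinearEquiv.apply_symm_apply]; exact hx

end change

section presentation

variable {k A : Type*} [Field k] [CommRing A] [Algebra k A] {ι σ : Type*}
  (P : Algebra.Presentation k A ι σ) (k0 : Type*) [Field k0] [Algebra k0 k] [Algebra k0 A]
  [IsScalarTower k0 k A] [P.HasCoeffs k0]

/-- linear independence over the small field: `∑ cᵢ aᵢ = 0` with `cᵢ ∈ k` linearly independent over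
`k0` and `aᵢ` in the model over `k0` implies `aᵢ = 0` -/
theorem eq_zero_of_sum {τ : Type*} [Fintype τ] (c : τ → k) (hc : LinearIndependent k0 c)
    (y : τ → MvPolynomial ι k0)
    (h : ∑ i, c i • MvPolynomial.aeval P.val (y i) = 0) (i : τ) :
    MvPolynomial.aeval P.val (y i) = 0 := by
  classical
  -- the map k0^n → k
  let g : (τ → k0) →ₗ[k0] k := Fintype.linearCombination k0 c
  have hg : Function.Injective g := by
    rw [← LinearMap.ker_eq_bot, LinearMap.ker_eq_bot']
    intro m hm
    funext i
    exact (Fintype.linearIndependent_iff.mp hc) m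
      (by simpa [g, Fintype.linearCombination_apply] using hm) i
  have hg' : Function.Injective (g.rTensor (P.ModelOfHasCoeffs k0)) :=
    Module.Flat.rTensor_preserves_injective_linearMap g hg
  have key : g.rTensor (P.ModelOfHasCoeffs k0)
      (∑ i, (Pi.single i (1 : k0)) ⊗ₜ (Ideal.Quotient.mk _ (y i))) = 0 := by
    apply (P.tensorModelOfHasCoeffsEquiv k0).injective
    rw [map_zero, map_sum, map_sum, ← h]
    refine Finset.sum_congr rfl fun i _ => ?_
    rw [LinearMap.rTensor_tmul, Algebra.Presentation.tensorModelOfHasCoeffsEquiv_tmul]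
    simp [g, Fintype.linearCombination_apply, Pi.single_apply, Algebra.smul_def]
  have h0 : (∑ i, (Pi.single i (1 : k0) : τ → k0) ⊗ₜ[k0]
      (Ideal.Quotient.mk _ (y i) : P.ModelOfHasCoeffs k0)) = 0 := hg' (by rw [key, map_zero])
  have h1 : (Ideal.Quotient.mk _ (y i) : P.ModelOfHasCoeffs k0) = 0 := by
    have := congrArg ((TensorProduct.lid k0 (P.ModelOfHasCoeffs k0)) ∘
      (LinearMap.rTensor (P.ModelOfHasCoeffs k0) (LinearMap.proj i : (τ → k0) →ₗ[k0] k0))) h0
    simpa [Pi.single_apply] using this
  have h2 := Algebra.Presentation.tensorModelOfHasCoeffsEquiv_symm_tmul (P := P) k0 (y i)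
  rw [h1, TensorProduct.tmul_zero] at h2
  exact (P.tensorModelOfHasCoeffsEquiv k0).symm.injective (by rw [h2, map_zero])

/-- the model inside `A` -/
noncomputable def mdl : Subalgebra k0 A := (MvPolynomial.aeval (R := k0) P.val).range

theorem basis_linInd {Λ : Type*} (e : Module.Basis Λ k0 k) :
    LinearIndependent (mdl P k0) (fun l => algebraMap k A (e l)) := by
  rw [linearIndependent_iff']
  intro s g hg l hl
  choose y hy using fun l => (g l).2
  have h1 := eq_zero_of_sum P k0 (τ := s) (fun l => e l)
    (e.linearIndependent.comp _ Subtype.val_injective) (fun l => y l) ?_ ⟨l, hl⟩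
  · apply Subtype.ext
    rw [← hy l]
    exact h1
  · rw [← hg, ← Finset.sum_coe_sort s]
    refine Finset.sum_congr rfl fun i _ => ?_
    have : (MvPolynomial.aeval P.val) (y i) = (g i : A) := hy i
    rw [this, Algebra.smul_def, Algebra.smul_def, mul_comm]
    rfl

theorem basis_span {Λ : Type*} (e : Module.Basis Λ k0 k) :
    ⊤ ≤ Submodule.span (mdl P k0) (Set.range (fun l => algebraMap k A (e l))) := by
  intro x _
  obtain ⟨p, rfl⟩ : ∃ p : MvPolynomial ι k, MvPolynomial.aeval P.val p = x :=
    ⟨P.σ x, P.aeval_val_σ x⟩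
  induction p using MvPolynomial.induction_on with
  | C c =>
    rw [MvPolynomial.aeval_C]
    have h1 : c ∈ Submodule.span k0 (Set.range e) := by
      rw [e.span_eq]; trivial
    induction h1 using Submodule.span_induction with
    | mem x hx =>
      obtain ⟨l, rfl⟩ := hx
      exact Submodule.subset_span ⟨l, rfl⟩
    | zero => simp
    | add x y _ _ hx hy => rw [map_add]; exact Submodule.add_mem _ (hx trivial) (hy trivial)
    | smul a x _ hx =>
      rw [Algebra.smul_def, map_mul, ← IsScalarTower.algebraMap_apply k0 k A]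
      have : algebraMap k0 A a * algebraMap k A x = (algebraMap k0 (mdl P k0) a) •
          algebraMap k A x := by
        rw [Algebra.smul_def]; rfl
      rw [this]
      exact Submodule.smul_mem _ _ (hx trivial)
  | add p q hp hq => rw [map_add]; exact Submodule.add_mem _ (hp trivial) (hq trivial)
  | mul_X p i hp =>
    rw [map_mul, MvPolynomial.aeval_X]
    have : MvPolynomial.aeval P.val p * P.val i =
        (⟨P.val i, ⟨MvPolynomial.X i, by simp⟩⟩ : mdl P k0) • MvPolynomial.aeval P.val p := by
      rw [Algebra.smul_def, mul_comm]; rfl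
    rw [this]
    exact Submodule.smul_mem _ _ (hp trivial)

/-- a `k0`-basis of `k` is an `A0`-basis of `A` -/
noncomputable def mdlBasis {Λ : Type*} (e : Module.Basis Λ k0 k) : Module.Basis Λ (mdl P k0) A :=
  Module.Basis.mk (basis_linInd P k0 e) (basis_span P k0 e)

theorem mdlBasis_apply {Λ : Type*} (e : Module.Basis Λ k0 k) (l : Λ) :
    mdlBasis P k0 e l = algebraMap k A (e l) := by
  simp [mdlBasis]

end presentation

/-- a countable subfield containing a given countable set -/
theorem countable_closure {k : Type*} [Field k] (S : Set k) (hS : S.Countable) :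
    Countable (Subfield.closure S) := by
  have h := Subfield.cardinalMk_closure_le_max S
  rw [← Cardinal.mk_le_aleph0_iff]
  refine h.trans (max_le ?_ le_rfl)
  exact Cardinal.mk_le_aleph0_iff.mpr hS.to_subtype

theorem countable_mvPolynomial {k0 ι : Type*} [CommRing k0] [Countable k0] [Countable ι] :
    Countable (MvPolynomial ι k0) := by
  rw [← Cardinal.mk_le_aleph0_iff]
  refine (MvPolynomial.cardinalMk_le_max_lift).trans ?_
  simp

/-- bases over the two rings with the same image give a bijection `A ⊗[A0] B0 → B` -/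
theorem bijective_of_basis {A0 B0 A B Λ : Type*} [CommRing A0] [CommRing B0] [CommRing A]
    [CommRing B] [Algebra A0 B0] [Algebra A0 A] [Algebra B0 B] [Algebra A0 B] [Algebra A B]
    [IsScalarTower A0 B0 B] [IsScalarTower A0 A B]
    (bA : Module.Basis Λ A0 A) (bB : Module.Basis Λ B0 B)
    (h : ∀ l, algebraMap A B (bA l) = bB l) :
    Function.Bijective (Algebra.TensorProduct.productMap
      (IsScalarTower.toAlgHom A0 A B) (IsScalarTower.toAlgHom A0 B0 B)) := by
  let b1 : Module.Basis Λ B0 (B0 ⊗[A0] A) := Algebra.TensorProduct.basis B0 bA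
  let T : B0 ⊗[A0] A ≃ₗ[B0] B := b1.equiv bB (Equiv.refl _)
  let T' : B0 ⊗[A0] A →ₗ[B0] B :=
    (Algebra.TensorProduct.lift (Algebra.ofId B0 B) (IsScalarTower.toAlgHom A0 A B)
      (fun _ _ => Commute.all _ _)).toLinearMap
  have hT : (T : B0 ⊗[A0] A →ₗ[B0] B) = T' := by
    apply b1.ext
    intro l
    have e1 : T (b1 l) = bB l := by simp [T]
    have e2 : b1 l = 1 ⊗ₜ[A0] bA l := by simp [b1]
    rw [LinearEquiv.coe_coe, e1, e2]
    simp [T', h]
  have h1 : ∀ t : A ⊗[A0] B0, Algebra.TensorProduct.productMap
      (IsScalarTower.toAlgHom A0 A B) (IsScalarTower.toAlgHom A0 B0 B) t =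
      T (TensorProduct.comm A0 A B0 t) := by
    intro t
    have : T (TensorProduct.comm A0 A B0 t) = T' (TensorProduct.comm A0 A B0 t) := by
      rw [← hT]; rfl
    rw [this]
    induction t using TensorProduct.induction_on with
    | zero => simp
    | tmul x y => simp [T', Algebra.ofId_apply, mul_comm]
    | add x y hx hy => rw [map_add, map_add, map_add, hx (by rw [← hT]; rfl),
        hy (by rw [← hT]; rfl)]
  have h2 : (Algebra.TensorProduct.productMap
      (IsScalarTower.toAlgHom A0 A B) (IsScalarTower.toAlgHom A0 B0 B) : A ⊗[A0] B0 → B) =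
      T ∘ (TensorProduct.comm A0 A B0) := funext h1
  rw [h2]
  exact T.bijective.comp (TensorProduct.comm A0 A B0).bijective


section model

variable {k A B : Type*} [Field k] [CommRing A] [CommRing B] [Algebra k A] [Algebra k B]
  [Algebra A B] [IsScalarTower k A B]

/-- the algebra structure of `B0 ≤ B` over `A0 ≤ A` -/
abbrev subAlg (A0 : Subring A) (B0 : Subring B) (h : ∀ a ∈ A0, algebraMap A B a ∈ B0) :
    Algebra A0 B0 :=
  (((algebraMap A B).comp A0.subtype).codRestrict B0 (fun a => h a a.2)).toAlgebra

omit [Algebra k A] [Algebra k B] [IsScalarTower k A B] [Field k] in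
theorem subAlg_tower (A0 : Subring A) (B0 : Subring B) (h : ∀ a ∈ A0, algebraMap A B a ∈ B0) :
    letI := subAlg A0 B0 h
    IsScalarTower A0 B0 B := by
  letI := subAlg A0 B0 h
  exact IsScalarTower.of_algebraMap_eq' rfl

/-- `A0 ≤ A`, `B0 ≤ B` subrings, `A → B` maps `A0` into `B0` and `B = A ⊗[A0] B0`. -/
structure IsModel (A0 : Subring A) (B0 : Subring B) : Prop where
  map_mem : ∀ a ∈ A0, algebraMap A B a ∈ B0
  bij : letI := subAlg A0 B0 map_mem
    haveI := subAlg_tower A0 B0 map_mem
    Function.Bijective (Algebra.TensorProduct.productMap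
      (IsScalarTower.toAlgHom A0 A B) (IsScalarTower.toAlgHom A0 B0 B))

theorem exists_model [Algebra.FinitePresentation k A] [Algebra.FinitePresentation k B] :
    ∃ (A0 : Subring A) (B0 : Subring B), Countable A0 ∧ Countable B0 ∧ IsModel A0 B0 := by
  classical
  let PA := Algebra.Presentation.ofFinitePresentation k A
  let PB := Algebra.Presentation.ofFinitePresentation k B
  have hq : ∀ i, ∃ q, MvPolynomial.aeval PB.val q = algebraMap A B (PA.val i) := fun i =>
    ⟨PB.σ _, PB.aeval_val_σ _⟩
  choose q hq using hq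
  let S : Set k := PA.coeffs ∪ PB.coeffs ∪ ⋃ i, ((q i).coeffs : Set k)
  have hS : S.Countable := by
    refine ((PA.finite_coeffs.union PB.finite_coeffs).union ?_).countable
    exact Set.finite_iUnion fun i => Finset.finite_toSet _
  let k0 := Subfield.closure S
  have hk0 : Countable k0 := countable_closure S hS
  have hS0 : S ⊆ Set.range (algebraMap k0 k) := by
    intro x hx
    exact ⟨⟨x, Subfield.subset_closure hx⟩, rfl⟩
  haveI : IsScalarTower k0 k A := IsScalarTower.of_algebraMap_eq' rfl
  haveI : IsScalarTower k0 k B := IsScalarTower.of_algebraMap_eq' rfl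
  haveI hA : PA.HasCoeffs k0 := ⟨fun x hx => hS0 (Or.inl (Or.inl hx))⟩
  haveI hB : PB.HasCoeffs k0 := ⟨fun x hx => hS0 (Or.inl (Or.inr hx))⟩
  have hmem : ∀ a ∈ (mdl PA k0).toSubring, algebraMap A B a ∈ (mdl PB k0).toSubring := by
    rintro _ ⟨p, rfl⟩
    change algebraMap A B (MvPolynomial.aeval PA.val p) ∈ mdl PB k0
    induction p using MvPolynomial.induction_on with
    | C c =>
      rw [MvPolynomial.aeval_C, IsScalarTower.algebraMap_apply k0 k A,
        ← IsScalarTower.algebraMap_apply k A B, ← IsScalarTower.algebraMap_apply k0 k B]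
      exact (mdl PB k0).algebraMap_mem c
    | add p q hp hq => rw [map_add, map_add]; exact add_mem hp hq
    | mul_X p i hp =>
      rw [map_mul, map_mul, MvPolynomial.aeval_X]
      refine mul_mem hp ?_
      obtain ⟨q', hq'⟩ : ∃ q', MvPolynomial.map (algebraMap k0 k) q' = q i := by
        exact MvPolynomial.mem_range_map_iff_coeffs_subset.mpr
          (fun x hx => hS0 (Or.inr (Set.mem_iUnion.mpr ⟨i, hx⟩)))
      refine ⟨q', ?_⟩
      change MvPolynomial.aeval PB.val q' = _
      rw [← hq i, ← hq', MvPolynomial.aeval_map_algebraMap]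
  haveI := countable_mvPolynomial (k0 := k0) (ι := Fin (Algebra.Presentation.ofFinitePresentationVars k A))
  haveI := countable_mvPolynomial (k0 := k0) (ι := Fin (Algebra.Presentation.ofFinitePresentationVars k B))
  refine ⟨(mdl PA k0).toSubring, (mdl PB k0).toSubring, ?_, ?_, hmem, ?_⟩
  · exact (Function.Surjective.countable (f := (MvPolynomial.aeval (R := k0) PA.val).rangeRestrict)
      (AlgHom.rangeRestrict_surjective _))
  · exact (Function.Surjective.countable (f := (MvPolynomial.aeval (R := k0) PB.val).rangeRestrict)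
      (AlgHom.rangeRestrict_surjective _))
  · letI := subAlg (mdl PA k0).toSubring (mdl PB k0).toSubring hmem
    haveI := subAlg_tower (mdl PA k0).toSubring (mdl PB k0).toSubring hmem
    let e := Module.Basis.ofVectorSpace k0 k
    let bA : Module.Basis _ (mdl PA k0).toSubring A := mdlBasis PA k0 e
    let bB : Module.Basis _ (mdl PB k0).toSubring B := mdlBasis PB k0 e
    refine bijective_of_basis bA bB fun l => ?_
    have h1 : bA l = algebraMap k A (e l) := mdlBasis_apply PA k0 e l
    have h2 : bB l = algebraMap k B (e l) := mdlBasis_apply PB k0 e l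
    rw [h1, h2, ← IsScalarTower.algebraMap_apply]

end model

section generic

variable {A B L K : Type*} [CommRing A] [IsDomain A] [CommRing B] [IsDomain B] [Algebra A B]
  [Field L] [Algebra A L] [IsFractionRing A L] [Field K] [Algebra B K] [IsFractionRing B K]
  [Algebra L K] [Algebra A K] [IsScalarTower A L K] [IsScalarTower A B K]

omit [IsDomain B] [IsFractionRing B K] in
theorem exists_den (t : L ⊗[A] B) : ∃ s : A, s ≠ 0 ∧ ∃ b : B, s • t = 1 ⊗ₜ b := by
  induction t using TensorProduct.induction_on with
  | zero => exact ⟨1, one_ne_zero, 0, by simp⟩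
  | tmul x b =>
    obtain ⟨⟨a, s⟩, h⟩ := IsLocalization.surj (nonZeroDivisors A) x
    refine ⟨s, nonZeroDivisors.ne_zero s.2, a • b, ?_⟩
    rw [TensorProduct.smul_tmul', Algebra.smul_def, mul_comm]
    change (x * algebraMap A L s) ⊗ₜ b = _
    rw [h, Algebra.algebraMap_eq_smul_one, TensorProduct.smul_tmul]
  | add x y hx hy =>
    obtain ⟨s, hs, b, hb⟩ := hx
    obtain ⟨s', hs', b', hb'⟩ := hy
    refine ⟨s * s', mul_ne_zero hs hs', s' • b + s • b', ?_⟩
    rw [smul_add, mul_smul, smul_comm s s' x, hb, mul_smul, hb', TensorProduct.tmul_add,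
      TensorProduct.tmul_smul, TensorProduct.tmul_smul]

theorem pm_generic_injective :
    Function.Injective (pm A B L K) := by
  rw [injective_iff_map_eq_zero]
  intro t ht
  obtain ⟨s, hs, b, hb⟩ := exists_den t
  have h1 : pm A B L K (s • t) = 0 := by rw [map_smul, ht, smul_zero]
  rw [hb, pm_tmul, map_one, one_mul] at h1
  have h2 : b = 0 := by
    apply IsFractionRing.injective B K
    rw [h1, map_zero]
  rw [h2, TensorProduct.tmul_zero] at hb
  have h3 : (algebraMap A L s) • t = 0 := by rw [algebraMap_smul]; exact hb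
  have h4 : algebraMap A L s ≠ 0 := by
    rw [Ne, FaithfulSMul.algebraMap_eq_zero_iff]; exact hs
  rw [← inv_smul_smul₀ h4 t, h3, smul_zero]

theorem pm_generic_gen (x : K) : ∃ s t : L ⊗[A] B, pm A B L K t ≠ 0 ∧
    x * pm A B L K t = pm A B L K s := by
  obtain ⟨a, b, hb, rfl⟩ := IsFractionRing.div_surjective (A := B) x
  have hb0 : algebraMap B K b ≠ 0 := by
    simpa using nonZeroDivisors.ne_zero hb
  refine ⟨1 ⊗ₜ a, 1 ⊗ₜ b, ?_, ?_⟩
  · simpa using hb0
  · simp [div_mul_cancel₀ _ hb0]

end generic

end Crest.Agent.R276.FK3A_595
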