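import Mathlib
import Crest.Agent.R276.Deg1_594
import Crest.Agent.R276.FKS_594
import Crest.Agent.R276.FKB0_143
import Crest.Agent.R276.BetaDefs_231
import Crest.Agent.R276.Mod1_987

/-!
# Row 276, DEGEN (helper594), part 2

* `essFiniteType_intermediate` : intermediate fields of finitely generated extensions are
  finitely generated.
* `kapGeF_of_mdl` : sufficient condition for `KapGeF` from a model, the open subset of the model may
  depend on the finite set of divisorial valuation rings.
* `kapGeF_of_kapGeS` : `KapGeS ℂ K d → KapGeF ℂ K d`.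
* `coreBeta_of_pos` : `CoreBeta` may be proved under the additional hypotheses
  `trdeg L/ℂ ≥ 1`, `trdeg K/L ≥ 1`.
-/

set_option autoImplicit false
set_option linter.all false

noncomputable section

namespace Crest.Agent.R276.Deg2_594

open Crest.Agent.R276.FKDefs_779 Crest.Agent.R276.BetaDefs_231 Crest.Agent.R276.Mod1_987
open Crest.Agent.R276
open scoped IntermediateField.algebraAdjoinAdjoin

section ess

universe u v

/-- linearly independent elements of an algebraic extension `L/E` stay linearly independent over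
`E(y)`, `y` algebraically independent over `L` -/
theorem linearIndependent_adjoin {E L K : Type*} [Field E] [Field L] [Field K] [Algebra E L]
    [Algebra L K] [Algebra E K] [IsScalarTower E L K] {κ : Type*} {y : κ → K}
    (hy : AlgebraicIndependent L y) {r : ℕ} {v : Fin r → L} (hv : LinearIndependent E v) :
    LinearIndependent (IntermediateField.adjoin E (Set.range y))
      (fun i => algebraMap L K (v i)) := by
  classical
  rw [← LinearIndependent.iff_fractionRing (Algebra.adjoin E (Set.range y))]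
  rw [Fintype.linearIndependent_iff]
  intro g hg
  have h1 : ∀ i, ∃ P : MvPolynomial κ E, MvPolynomial.aeval y P = (g i : K) := by
    intro i
    have h0 : (g i : K) ∈ (MvPolynomial.aeval y : MvPolynomial κ E →ₐ[E] K).range := by
      rw [← Algebra.adjoin_range_eq_range_aeval]
      exact (g i).2
    exact h0
  choose P hP using h1
  have h2 : MvPolynomial.aeval y (∑ i, MvPolynomial.C (v i) *
      MvPolynomial.map (algebraMap E L) (P i)) = 0 := by
    rw [map_sum, ← hg]
    refine Finset.sum_congr rfl fun i _ => ?_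
    rw [map_mul, MvPolynomial.aeval_C, MvPolynomial.aeval_map_algebraMap, hP, mul_comm]
    rfl
  have h3 : ∑ i, MvPolynomial.C (v i) * MvPolynomial.map (algebraMap E L) (P i) = 0 := by
    apply hy
    rw [h2, map_zero]
  intro i
  have h4 : P i = 0 := by
    ext α
    rw [MvPolynomial.coeff_zero]
    have h5 := congrArg (MvPolynomial.coeff α) h3
    rw [MvPolynomial.coeff_sum, MvPolynomial.coeff_zero] at h5
    simp only [MvPolynomial.coeff_C_mul, MvPolynomial.coeff_map] at h5
    refine (Fintype.linearIndependent_iff.mp hv) (fun i => MvPolynomial.coeff α (P i)) ?_ i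
    rw [← h5]
    refine Finset.sum_congr rfl fun i _ => ?_
    rw [Algebra.smul_def, mul_comm]
  apply Subtype.ext
  rw [← hP i, h4, map_zero]
  rfl

theorem finite_of_alg {E L K : Type u} [Field E] [Field L] [Field K] [Algebra E L]
    [Algebra L K] [Algebra E K] [IsScalarTower E L K] [Algebra.IsAlgebraic E L]
    [Algebra.EssFiniteType E K] : FiniteDimensional E L := by
  classical
  obtain ⟨κ, y, hy⟩ := exists_isTranscendenceBasis' L K
  have hE : AlgebraicIndependent E y := hy.1.restrictScalars (algebraMap E L).injective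
  have hyE : IsTranscendenceBasis E y := by
    obtain ⟨ι, x, hx⟩ := exists_isTranscendenceBasis' E L
    have hem : IsEmpty ι := hx.isEmpty_iff_isAlgebraic.mpr inferInstance
    have h1 := hx.sumElim_comp hy
    have h2 : y = (Sum.elim y (algebraMap L K ∘ x)) ∘ (Equiv.sumEmpty κ ι).symm := by
      ext i; simp
    rw [h2, isTranscendenceBasis_equiv]
    exact h1
  have halg : Algebra.IsAlgebraic (IntermediateField.adjoin E (Set.range y)) K :=
    hyE.isAlgebraic_field
  haveI : Algebra.EssFiniteType (IntermediateField.adjoin E (Set.range y)) K :=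
    Algebra.EssFiniteType.of_comp E _ K
  haveI : Module.Finite (IntermediateField.adjoin E (Set.range y)) K :=
    Algebra.finite_of_essFiniteType_of_isAlgebraic
  rw [FiniteDimensional, ← Module.rank_lt_aleph0_iff]
  refine lt_of_le_of_lt (rank_le (n := Module.finrank (IntermediateField.adjoin E (Set.range y)) K)
    fun s hs => ?_) (Cardinal.natCast_lt_aleph0)
  let e : Fin s.card ≃ s := s.equivFin.symm
  have h1 : LinearIndependent E (fun i : Fin s.card => ((e i : s) : L)) :=
    hs.comp e e.injective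
  have h2 := linearIndependent_adjoin hy.1 h1
  simpa using h2.fintype_card_le_finrank

theorem essFiniteType_sub {k L K : Type u} [Field k] [Field L] [Field K] [Algebra k L]
    [Algebra L K] [Algebra k K] [IsScalarTower k L K] [Algebra.EssFiniteType k K] :
    Algebra.EssFiniteType k L := by
  classical
  obtain ⟨ι, x, hx⟩ := exists_isTranscendenceBasis' k L
  have hft : FinTrdeg k L := by
    rw [finTrdeg_iff_trdeg]
    have h1 : Algebra.trdeg k K < Cardinal.aleph0 := trdeg_lt_aleph0 k K
    have h2 := trdeg_add_eq k L (A := K)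
    rw [← h2] at h1
    exact lt_of_le_of_lt (self_le_add_right _ _) h1
  have hfx : Finite ι := finite_of_isTranscendenceBasis hx
  let E : IntermediateField k L := IntermediateField.adjoin k (Set.range x)
  have hEfg : Algebra.EssFiniteType k E :=
    IntermediateField.essFiniteType_iff.mpr
      (IntermediateField.fg_adjoin_of_finite (Set.finite_range x))
  have hLE : Algebra.IsAlgebraic E L := hx.isAlgebraic_field
  haveI : IsScalarTower k E K := IsScalarTower.of_algebraMap_eq fun c => by
    rw [IsScalarTower.algebraMap_apply k L K, IsScalarTower.algebraMap_apply k E L]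
    rfl
  haveI : Algebra.EssFiniteType E K := Algebra.EssFiniteType.of_comp k E K
  haveI : FiniteDimensional E L := finite_of_alg (K := K)
  exact Algebra.EssFiniteType.comp k E L

theorem essFiniteType_intermediate {k K : Type u} [Field k] [Field K] [Algebra k K]
    [Algebra.EssFiniteType k K] (L : IntermediateField k K) : Algebra.EssFiniteType k L :=
  essFiniteType_sub (K := K)

end ess

/-- a transcendence basis indexed by `Fin n` -/
theorem exists_fin_basis (k K : Type*) [Field k] [Field K] [Algebra k K] [FinTrdeg k K] :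
    ∃ (n : ℕ) (x : Fin n → K), IsTranscendenceBasis k x := by
  obtain ⟨ι, x, hx⟩ := exists_isTranscendenceBasis' k K
  have : Finite ι := finite_of_isTranscendenceBasis hx
  obtain ⟨n, ⟨e⟩⟩ := Finite.exists_equiv_fin ι
  exact ⟨n, x ∘ e.symm, hx.comp_equiv e.symm⟩

section kap

variable {K : Type} [Field K] [Algebra ℂ K] {n : ℕ}

theorem etChart_of_mdl (M : Mdl K n) : EtChart ℂ K M.B (fun i => (M.z i : K)) where
  fg := (Subalgebra.fg_iff_finiteType _).mpr M.ft
  frac := fun a => by
    obtain ⟨b, c, hc, rfl⟩ := M.frac a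
    exact ⟨b, b.2, c, c.2, fun h => hc (Subtype.ext h), div_eq_mul_inv _ _⟩
  mem := fun i => (M.z i).2
  etale := M.het

/-- sufficient condition for `KapGeF`: the chart is fixed, but the forms may be constructed on an
open subset `h ≠ 0` of it, which depends on the finite set `S`, if they are regular at all `R` in an
arbitrary finite set `S' ⊇ S`. -/
theorem kapGeF_of_chart {A : Subalgebra ℂ K} {z : Fin n → K} (hA : EtChart ℂ K A z)
    (b : Module.Basis (Fin n) K (Ω[K⁄ℂ])) (hb : ∀ i, b i = KaehlerDifferential.D ℂ K (z i))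
    (d : ℕ)
    (H : ∀ S : Set (ValuationSubring K), S.Finite → (∀ R ∈ S, IsDiv ℂ n R) →
      ∃ h ∈ A, h ≠ 0 ∧ ∀ S' : Set (ValuationSubring K), S ⊆ S' → S'.Finite →
        (∀ R ∈ S', IsDiv ℂ n R) → ∃ m : ℕ, 0 < m ∧ ∃ f : Fin (d + 1) → K,
          (∀ i, f i ≠ 0 ∧ (∃ k : ℕ, h ^ k * f i ∈ A) ∧ ∀ R ∈ S', RegAt ℂ R b m (f i)) ∧
          AlgebraicIndependent ℂ (fun i : Fin d => f i.succ / f 0)) : KapGeF ℂ K d := by
  refine ⟨n, A, z, b, hA, hb, fun S hS hdiv => ?_⟩
  obtain ⟨h, hhA, hh0, H2⟩ := H S hS hdiv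
  have hfin := Deg1_594.finite_bad hA (h := ⟨h, hhA⟩) (fun h0 => hh0 (congrArg Subtype.val h0))
  let T : Set (ValuationSubring K) := {R | ∃ (p : Ideal A) (hp : p.IsPrime) (h1 : p.height = 1),
    (⟨h, hhA⟩ : A) ∈ p ∧ R = Deg1_594.valAt hA p h1}
  have hT : T.Finite := by
    classical
    let φ : Ideal A → ValuationSubring K := fun p =>
      if hp : p.IsPrime ∧ p.height = 1 then @Deg1_594.valAt K _ _ n A z hA p hp.1 hp.2 else ⊤
    refine (hfin.image φ).subset ?_
    rintro R ⟨p, hp, h1, hm, rfl⟩
    exact ⟨p, ⟨hp, h1, hm⟩, dif_pos ⟨hp, h1⟩⟩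
  obtain ⟨m, hm, f, hf, hi⟩ := H2 (S ∪ T) Set.subset_union_left (hS.union hT) (by
    rintro R (hR | ⟨p, hp, h1, -, rfl⟩)
    · exact hdiv R hR
    · exact Deg1_594.isDiv_valAt hA p h1)
  refine ⟨m, hm, f, fun i => ⟨(hf i).1, ?_, fun R hR => (hf i).2.2 R (Or.inl hR)⟩, hi⟩
  refine Deg1_594.mem_of_regAt hA b hb (m := m) fun p hp h1 => ?_
  by_cases hmem : (⟨h, hhA⟩ : A) ∈ p
  · right
    exact (hf i).2.2 _ (Or.inr ⟨p, hp, h1, hmem, rfl⟩)
  · left
    obtain ⟨k, hk⟩ := (hf i).2.1
    refine ⟨⟨_, hk⟩, ⟨h, hhA⟩ ^ k, fun hc => hmem (hp.mem_of_pow_mem k hc), ?_⟩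
    push_cast
    rfl

theorem essFiniteType_of_fgf (h : FGF ℂ K) : Algebra.EssFiniteType ℂ K :=
  IntermediateField.fg_top_iff.mp h

/-- the strong version of `κ ≥ d` implies the finite test version -/
theorem kapGeF_of_kapGeS (hK : FGF ℂ K) {d : ℕ} (h : KapGeS ℂ K d) : KapGeF ℂ K d := by
  haveI := essFiniteType_of_fgf hK
  obtain ⟨n, x, hx⟩ := exists_fin_basis ℂ K
  obtain ⟨b, hb⟩ := FKB0_143.exists_kbasis hx
  obtain ⟨g, hg0, hg⟩ := exists_mdl x hx ∅
  obtain ⟨M, -, hMz, -⟩ := hg g hg0 (dvd_refl g)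
  have hA := etChart_of_mdl M
  have hb' : ∀ i, b i = KaehlerDifferential.D ℂ K ((fun i => (M.z i : K)) i) := by
    intro i
    rw [hb]
    simp only [hMz]
  obtain ⟨m, hm, f, hf, hi⟩ := (FKB0_143.kapGeS_iff b d).mp h
  refine ⟨n, M.B, _, b, hA, hb', fun S hS hdiv => ⟨m, hm, f, fun i => ⟨(hf i).1, ?_,
    fun R hR => (hf i).2 R (hdiv R hR).alg⟩, hi⟩⟩
  refine Deg1_594.mem_of_regAt hA b hb' (m := m) fun p hp h1 => ?_
  right
  exact (hf i).2 _ (Deg1_594.isDiv_valAt hA p h1).alg

end kap

section weights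

variable {k K : Type*} [Field k] [Field K] [Algebra k K] {n : ℕ}

theorem pluriS_pow {b : Module.Basis (Fin n) K (Ω[K⁄k])} {m : ℕ} {g : K} (h : PluriS k b m g)
    (l : ℕ) : PluriS k b (m * l) (g ^ l) := by
  intro R hR
  obtain ⟨y, hy, hle⟩ := h R hR
  refine ⟨y, hy, ?_⟩
  rw [map_pow, pow_mul]
  exact pow_le_pow_left₀ zero_le hle l

theorem algInd_pow {ι : Type*} {x : ι → K} (hx : AlgebraicIndependent k x) {l : ℕ} (hl : 0 < l) :
    AlgebraicIndependent k (fun i => x i ^ l) := by
  have h := hx.polynomial_aeval_of_transcendental (f := fun _ => (Polynomial.X : Polynomial k) ^ l)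
    (fun i => (Polynomial.transcendental_X k).pow hl)
  simpa using h

/-- the weight may be multiplied by any positive integer -/
theorem forms_pow {b : Module.Basis (Fin n) K (Ω[K⁄k])} {m d : ℕ} {f : Fin (d + 1) → K}
    (hf : ∀ i, f i ≠ 0 ∧ PluriS k b m (f i))
    (hi : AlgebraicIndependent k (fun i : Fin d => f i.succ / f 0)) {l : ℕ} (hl : 0 < l) :
    (∀ i, f i ^ l ≠ 0 ∧ PluriS k b (m * l) (f i ^ l)) ∧
      AlgebraicIndependent k (fun i : Fin d => f i.succ ^ l / f 0 ^ l) := by
  refine ⟨fun i => ⟨pow_ne_zero _ (hf i).1, pluriS_pow (hf i).2 l⟩, ?_⟩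
  have := algInd_pow hi hl
  simpa only [div_pow] using this

end weights

section core

/-- `CoreBeta` with positive dimensional base and fibre, and with the finiteness statements which
the analysis needs. -/
def CoreBetaPos : Prop :=
  ∀ (K : Type) [Field K] [Algebra ℂ K] (L : IntermediateField ℂ K),
    Algebra.EssFiniteType ℂ K → Algebra.EssFiniteType ℂ L →
    (∀ a : K, IsAlgebraic L a → a ∈ L) →
    Honest ℂ K → Honest ℂ L → Honest L K →
    ∀ (m r : ℕ) (z : Fin (m + 1) → L) (x : Fin (r + 1) → K),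
      IsTranscendenceBasis ℂ z → IsTranscendenceBasis L x →
      ∀ d e : ℕ, KapGeS L K d → KapGeS ℂ L e → KapGeF ℂ K (d + e)

theorem eq_zero_of_algebraic {k K : Type*} [Field k] [Field K] [Algebra k K]
    [Algebra.IsAlgebraic k K] {d : ℕ} {f : Fin d → K} (hf : AlgebraicIndependent k f) : d = 0 := by
  by_contra hd
  have h1 := hf.isEmpty_of_isAlgebraic
  exact (h1.false ⟨0, Nat.pos_of_ne_zero hd⟩)

theorem coreBeta_of_pos (H : CoreBetaPos) : CoreBeta := by
  intro K _ _ L hK hac h1 h2 h3 d e hd he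
  haveI hKe := essFiniteType_of_fgf hK
  haveI hLe := essFiniteType_intermediate L
  haveI : Algebra.EssFiniteType L K := Algebra.EssFiniteType.of_comp ℂ L K
  obtain ⟨m, z, hz⟩ := exists_fin_basis ℂ L
  obtain ⟨r, x, hx⟩ := exists_fin_basis L K
  rcases Nat.eq_zero_or_pos m with rfl | hm
  · -- `L = ℂ`
    haveI : Algebra.IsAlgebraic ℂ L := hz.isEmpty_iff_isAlgebraic.mp inferInstance
    have he0 : e = 0 := by
      obtain ⟨_, _, _, _, _, _, hi⟩ := he
      exact eq_zero_of_algebraic hi
    subst he0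
    have hbij : Function.Bijective (algebraMap ℂ L) :=
      IsAlgClosed.algebraMap_bijective_of_isIntegral
    let s : ℂ ≃+* L := RingEquiv.ofBijective (algebraMap ℂ L) hbij
    have hd' : KapGeS ℂ K d := (FKS_594.kapGeS_congr s (RingEquiv.refl K) d (fun c => by
      change algebraMap ℂ K c = algebraMap L K (algebraMap ℂ L c)
      exact IsScalarTower.algebraMap_apply ℂ L K c)).mpr hd
    exact kapGeF_of_kapGeS hK hd'
  rcases Nat.eq_zero_or_pos r with rfl | hr
  · -- `K = L`
    haveI : Algebra.IsAlgebraic L K := hx.isEmpty_iff_isAlgebraic.mp inferInstance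
    have hd0 : d = 0 := by
      obtain ⟨_, _, _, _, _, _, hi⟩ := hd
      exact eq_zero_of_algebraic hi
    subst hd0
    have hbij : Function.Bijective (algebraMap L K) :=
      ⟨(algebraMap L K).injective, fun a => ⟨⟨a, hac a (Algebra.IsAlgebraic.isAlgebraic a)⟩, rfl⟩⟩
    let t : L ≃+* K := RingEquiv.ofBijective (algebraMap L K) hbij
    have he' : KapGeS ℂ K e := (FKS_594.kapGeS_congr (RingEquiv.refl ℂ) t e (fun c => by
      change algebraMap L K (algebraMap ℂ L c) = algebraMap ℂ K c
      exact (IsScalarTower.algebraMap_apply ℂ L K c).symm)).mp he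
    rw [zero_add]
    exact kapGeF_of_kapGeS hK he'
  obtain ⟨m, rfl⟩ := Nat.exists_eq_succ_of_ne_zero hm.ne'
  obtain ⟨r, rfl⟩ := Nat.exists_eq_succ_of_ne_zero hr.ne'
  exact H K L hKe hLe hac h1 h2 h3 m r z x hz hx d e hd he

end core

end Crest.Agent.R276.Deg2_594
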