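import Mathlib

/-!
R276 / Pur0_429.  Derivations of a subfield of a discrete valuation ring extend modulo powers of the
maximal ideal (characteristic zero).
-/

set_option autoImplicit false

namespace Crest.Agent.R276.Pur429

open IsLocalRing

universe u

/-- every extension of fields of characteristic zero is formally smooth -/
theorem formallySmooth_of_charZero (M κ : Type*) [Field M] [Field κ] [Algebra M κ] [CharZero M] :
    Algebra.FormallySmooth M κ := by
  obtain ⟨s, hs⟩ := exists_isTranscendenceBasis M κ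
  have halg : Algebra.IsAlgebraic (IntermediateField.adjoin M (Set.range ((↑) : s → κ))) κ :=
    hs.isAlgebraic_field
  have : Algebra.IsSeparable (IntermediateField.adjoin M (Set.range ((↑) : s → κ))) κ :=
    inferInstance
  exact Algebra.FormallySmooth.of_algebraicIndependent_of_isSeparable hs.1

/-- extension of derivations along an extension of fields of characteristic zero -/
theorem exists_derivation_ext {k M κ N : Type*} [CommRing k] [Field M] [Field κ] [CharZero M]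
    [Algebra k M] [Algebra M κ] [Algebra k κ] [IsScalarTower k M κ]
    [AddCommGroup N] [Module κ N] [Module M N] [IsScalarTower M κ N] [Module k N]
    [IsScalarTower k M N] [IsScalarTower k κ N] (D : Derivation k M N) :
    ∃ D' : Derivation k κ N, ∀ a : M, D' (algebraMap M κ a) = D a := by
  have := formallySmooth_of_charZero M κ
  have hinj : Function.Injective (KaehlerDifferential.mapBaseChange k M κ) := by
    rw [injective_iff_map_eq_zero]
    intro x hx
    obtain ⟨x, rfl⟩ := (Algebra.H1Cotangent.exact_δ_mapBaseChange k M κ x).mp hx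
    rw [Subsingleton.elim x 0, map_zero]
  obtain ⟨l, hl⟩ := LinearMap.exists_leftInverse_of_injective
    (KaehlerDifferential.mapBaseChange k M κ) (LinearMap.ker_eq_bot.mpr hinj)
  let φ : TensorProduct M κ (Ω[M⁄k]) →ₗ[κ] N :=
    LinearMap.liftBaseChange κ (D.liftKaehlerDifferential)
  let ψ : Ω[κ⁄k] →ₗ[κ] N := φ ∘ₗ l
  refine ⟨ψ.compDer (KaehlerDifferential.D k κ), fun a => ?_⟩
  have h1 : KaehlerDifferential.D k κ (algebraMap M κ a)
      = KaehlerDifferential.mapBaseChange k M κ (1 ⊗ₜ KaehlerDifferential.D k M a) := by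
    simp
  have h2 : l (KaehlerDifferential.mapBaseChange k M κ (1 ⊗ₜ KaehlerDifferential.D k M a))
      = (1 ⊗ₜ KaehlerDifferential.D k M a) := by
    have := LinearMap.congr_fun hl (1 ⊗ₜ KaehlerDifferential.D k M a)
    simpa using this
  show φ (l (KaehlerDifferential.D k κ (algebraMap M κ a))) = D a
  rw [h1, h2]
  simp [φ]

section quot

variable {k M R : Type*} [CommRing k] [Field M] [CharZero M] [CommRing R] [IsDomain R]
  [IsDiscreteValuationRing R] [Algebra k M] [Algebra M R] [Algebra k R] [IsScalarTower k M R]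

set_option maxHeartbeats 800000 in
/-- A derivation of a subfield `M` of a DVR `R` extends to derivations `R → R / 𝔪 ^ m`. -/
theorem exists_der_quot (D : Derivation k M M) (m : ℕ) :
    ∃ δ : Derivation k R (R ⧸ (maximalIdeal R) ^ m),
      ∀ a : M, δ (algebraMap M R a) = algebraMap M (R ⧸ (maximalIdeal R) ^ m) (D a) := by
  classical
  set 𝔪 := maximalIdeal R with h𝔪
  let _ : Field (R ⧸ 𝔪) := Ideal.Quotient.field 𝔪
  obtain ⟨π, hπ⟩ := IsDiscreteValuationRing.exists_irreducible R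
  have hspan : 𝔪 = Ideal.span {π} := hπ.maximalIdeal_eq
  have hpow : ∀ j : ℕ, 𝔪 ^ j = Ideal.span {π ^ j} := fun j => by
    rw [hspan, Ideal.span_singleton_pow]
  have := formallySmooth_of_charZero M (R ⧸ 𝔪)
  -- the two projections
  let g1 : (R ⧸ 𝔪 ^ (m + 1)) →ₐ[M] (R ⧸ 𝔪) :=
    Ideal.Quotient.factorₐ M (Ideal.pow_le_self (Nat.succ_ne_zero m))
  let p : (R ⧸ 𝔪 ^ (m + 1)) →ₐ[M] (R ⧸ 𝔪 ^ m) :=
    Ideal.Quotient.factorₐ M (Ideal.pow_le_pow_right (Nat.le_succ m))
  have hg1 : ∀ a : R, g1 (Ideal.Quotient.mk _ a) = Ideal.Quotient.mk _ a := fun a => rfl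
  have hp : ∀ a : R, p (Ideal.Quotient.mk _ a) = Ideal.Quotient.mk _ a := fun a => rfl
  have hg1s : Function.Surjective g1 := by
    intro x
    obtain ⟨a, rfl⟩ := Ideal.Quotient.mk_surjective x
    exact ⟨Ideal.Quotient.mk _ a, hg1 a⟩
  have hker : ∀ x : R ⧸ 𝔪 ^ (m + 1), g1 x = 0 →
      ∃ y : R ⧸ 𝔪 ^ (m + 1), x = Ideal.Quotient.mk _ π * y := by
    intro x hx
    obtain ⟨a, rfl⟩ := Ideal.Quotient.mk_surjective x
    rw [hg1, Ideal.Quotient.eq_zero_iff_mem, hspan, Ideal.mem_span_singleton] at hx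
    obtain ⟨b, rfl⟩ := hx
    exact ⟨Ideal.Quotient.mk _ b, by rw [map_mul]⟩
  have hpim : (Ideal.Quotient.mk (𝔪 ^ (m + 1)) π) ^ (m + 1) = 0 := by
    rw [← map_pow, Ideal.Quotient.eq_zero_iff_mem, hpow]
    exact Ideal.mem_span_singleton_self _
  have hnil : IsNilpotent (RingHom.ker (g1 : (R ⧸ 𝔪 ^ (m + 1)) →+* (R ⧸ 𝔪))) := by
    refine ⟨m + 1, ?_⟩
    have hle : RingHom.ker (g1 : (R ⧸ 𝔪 ^ (m + 1)) →+* (R ⧸ 𝔪)) ≤
        Ideal.span {Ideal.Quotient.mk (𝔪 ^ (m + 1)) π} := by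
      intro x hx
      obtain ⟨y, rfl⟩ := hker x hx
      exact Ideal.mul_mem_right _ _ (Ideal.mem_span_singleton_self _)
    have := Ideal.pow_right_mono hle (m + 1)
    rw [Ideal.span_singleton_pow, hpim] at this
    rw [Ideal.zero_eq_bot, eq_bot_iff]
    refine this.trans ?_
    simp
  let s : (R ⧸ 𝔪) →ₐ[M] (R ⧸ 𝔪 ^ (m + 1)) :=
    Algebra.FormallySmooth.liftOfSurjective (AlgHom.id M (R ⧸ 𝔪)) g1 hg1s hnil
  have hs : ∀ x, g1 (s x) = x := fun x =>
    Algebra.FormallySmooth.liftOfSurjective_apply (AlgHom.id M (R ⧸ 𝔪)) g1 hg1s hnil x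
  let s0 : (R ⧸ 𝔪) →ₐ[M] (R ⧸ 𝔪 ^ m) := p.comp s
  -- derivation on the residue field
  obtain ⟨δκ, hδκ⟩ : ∃ δκ : (R ⧸ 𝔪) →+ (R ⧸ 𝔪 ^ m),
      (∀ x y, δκ (x * y) = s0 x * δκ y + s0 y * δκ x) ∧
      (∀ a : M, δκ (algebraMap M (R ⧸ 𝔪) a) = algebraMap M (R ⧸ 𝔪 ^ m) (D a)) := by
    let _ : Algebra (R ⧸ 𝔪) (R ⧸ 𝔪 ^ m) := s0.toRingHom.toAlgebra
    have hst : IsScalarTower M (R ⧸ 𝔪) (R ⧸ 𝔪 ^ m) := IsScalarTower.of_algebraMap_eq
      (fun a => (s0.commutes a).symm)
    have hst1 : IsScalarTower k M (R ⧸ 𝔪 ^ m) := IsScalarTower.of_algebraMap_eq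
      (fun a => congrArg (Ideal.Quotient.mk (𝔪 ^ m)) (IsScalarTower.algebraMap_apply k M R a))
    have hst3 : IsScalarTower k M (R ⧸ 𝔪) := IsScalarTower.of_algebraMap_eq
      (fun a => congrArg (Ideal.Quotient.mk 𝔪) (IsScalarTower.algebraMap_apply k M R a))
    have hst2 : IsScalarTower k (R ⧸ 𝔪) (R ⧸ 𝔪 ^ m) := IsScalarTower.of_algebraMap_eq
      (fun a => by
        rw [IsScalarTower.algebraMap_apply k M (R ⧸ 𝔪 ^ m),
          IsScalarTower.algebraMap_apply k M (R ⧸ 𝔪),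
          IsScalarTower.algebraMap_apply M (R ⧸ 𝔪) (R ⧸ 𝔪 ^ m)])
    obtain ⟨D', hD'⟩ := exists_derivation_ext (κ := R ⧸ 𝔪)
      ((Algebra.linearMap M (R ⧸ 𝔪 ^ m)).compDer D)
    refine ⟨D'.toLinearMap.toAddMonoidHom, ?_, ?_⟩
    · intro x y
      exact D'.leibniz x y
    · intro a
      exact hD' a
  -- the ring homomorphism into the dual numbers
  let Ψκ : (R ⧸ 𝔪) →+* TrivSqZeroExt (R ⧸ 𝔪 ^ m) (R ⧸ 𝔪 ^ m) :=
    { toFun := fun x => TrivSqZeroExt.inl (s0 x) + TrivSqZeroExt.inr (δκ x)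
      map_one' := by
        have h1 : δκ 1 = 0 := by
          have := hδκ.1 1 1
          rw [mul_one, map_one s0, one_mul] at this
          exact left_eq_add.mp this
        ext <;> simp [h1]
      map_mul' := fun x y => by
        ext
        · simp
        · simp [hδκ.1]
          ring
      map_zero' := by ext <;> simp
      map_add' := fun x y => by ext <;> simp }
  have hΨκ1 : ∀ x, (Ψκ x).fst = s0 x := fun x => by simp [Ψκ]
  have hΨκ2 : ∀ x, (Ψκ x).snd = δκ x := fun x => by simp [Ψκ]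
  let Ψ : Polynomial (R ⧸ 𝔪) →+* TrivSqZeroExt (R ⧸ 𝔪 ^ m) (R ⧸ 𝔪 ^ m) :=
    Polynomial.eval₂RingHom Ψκ (TrivSqZeroExt.inl (Ideal.Quotient.mk _ π))
  let Φ : Polynomial (R ⧸ 𝔪) →+* (R ⧸ 𝔪 ^ (m + 1)) :=
    Polynomial.eval₂RingHom (s : (R ⧸ 𝔪) →+* _) (Ideal.Quotient.mk _ π)
  have hΦC : ∀ x, Φ (Polynomial.C x) = s x := fun x => by simp [Φ]
  have hΦX : Φ Polynomial.X = Ideal.Quotient.mk _ π := by simp [Φ]
  have hΨC : ∀ x, Ψ (Polynomial.C x) = Ψκ x := fun x => by simp [Ψ]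
  have hΨX : Ψ Polynomial.X = TrivSqZeroExt.inl (Ideal.Quotient.mk _ π) := by simp [Ψ]
  -- surjectivity
  have hsurj : Function.Surjective Φ := by
    have key : ∀ j : ℕ, ∀ a : R ⧸ 𝔪 ^ (m + 1), ∃ f b, a = Φ f + (Ideal.Quotient.mk _ π) ^ j * b := by
      intro j
      induction j with
      | zero => intro a; exact ⟨0, a, by simp⟩
      | succ j ih =>
        intro a
        obtain ⟨f, b, hfb⟩ := ih a
        obtain ⟨c, hc⟩ := hker (b - s (g1 b)) (by rw [map_sub, hs, sub_self])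
        refine ⟨f + Polynomial.X ^ j * Polynomial.C (g1 b), c, ?_⟩
        rw [map_add, map_mul, map_pow, hΦX, hΦC, hfb]
        have : b = s (g1 b) + Ideal.Quotient.mk _ π * c := by rw [← hc]; ring
        conv_lhs => rw [this]
        ring
    intro a
    obtain ⟨f, b, hfb⟩ := key (m + 1) a
    exact ⟨f, by rw [hfb, hpim, zero_mul, add_zero]⟩
  -- kernel
  have hkerΦ : ∀ f, Φ f = 0 → Polynomial.X ^ (m + 1) ∣ f := by
    intro f hf
    rw [Polynomial.X_pow_dvd_iff]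
    intro i
    induction i using Nat.strong_induction_on with
    | _ i ih =>
      intro hi
      by_contra hne
      have hdvd : Polynomial.X ^ i ∣ f := by
        rw [Polynomial.X_pow_dvd_iff]
        intro j hj
        exact ih j hj (by omega)
      obtain ⟨g, rfl⟩ := hdvd
      have hcoef : (Polynomial.X ^ i * g).coeff i = g.coeff 0 := by
        simpa using Polynomial.coeff_X_pow_mul g i 0
      rw [hcoef] at hne
      rw [map_mul, map_pow, hΦX] at hf
      have hg0 : g1 (Φ g) = g.coeff 0 := by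
        conv_lhs => rw [← Polynomial.divX_mul_X_add g]
        rw [map_add, map_mul, hΦX, hΦC, map_add, map_mul, hs]
        have : g1 (Ideal.Quotient.mk _ π) = 0 := by
          rw [hg1, Ideal.Quotient.eq_zero_iff_mem, hspan]
          exact Ideal.mem_span_singleton_self _
        rw [this, mul_zero, zero_add]
      obtain ⟨a, ha⟩ := Ideal.Quotient.mk_surjective (Φ g)
      have hau : a ∉ 𝔪 := by
        intro hmem
        apply hne
        rw [← hg0, ← ha, hg1, Ideal.Quotient.eq_zero_iff_mem]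
        exact hmem
      rw [← ha, ← map_pow, ← map_mul, Ideal.Quotient.eq_zero_iff_mem, hpow,
        Ideal.mem_span_singleton] at hf
      have hau' : IsUnit a := by
        by_contra h
        exact hau ((mem_maximalIdeal a).mpr h)
      rw [hau'.dvd_mul_right] at hf
      have := (pow_dvd_pow_iff hπ.ne_zero hπ.not_isUnit).mp hf
      omega
  have hle : RingHom.ker Φ ≤ RingHom.ker Ψ := by
    intro f hf
    obtain ⟨g, rfl⟩ := hkerΦ f hf
    show Ψ _ = 0
    rw [map_mul, map_pow, hΨX]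
    have : (TrivSqZeroExt.inl (Ideal.Quotient.mk (𝔪 ^ m) π) :
        TrivSqZeroExt (R ⧸ 𝔪 ^ m) (R ⧸ 𝔪 ^ m)) ^ (m + 1) = 0 := by
      rw [TrivSqZeroExt.inl_pow, ← map_pow]
      have : Ideal.Quotient.mk (𝔪 ^ m) (π ^ (m + 1)) = 0 := by
        rw [Ideal.Quotient.eq_zero_iff_mem, hpow, pow_succ]
        exact Ideal.mul_mem_right _ _ (Ideal.mem_span_singleton_self _)
      rw [this]; simp
    rw [this, zero_mul]
  let G1 : (R ⧸ 𝔪 ^ (m + 1)) →+* TrivSqZeroExt (R ⧸ 𝔪 ^ m) (R ⧸ 𝔪 ^ m) :=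
    Φ.liftOfSurjective hsurj ⟨Ψ, hle⟩
  have hG1 : ∀ f, G1 (Φ f) = Ψ f := fun f => RingHom.liftOfSurjective_comp_apply Φ hsurj _ f
  let G : R →+* TrivSqZeroExt (R ⧸ 𝔪 ^ m) (R ⧸ 𝔪 ^ m) := G1.comp (Ideal.Quotient.mk _)
  have hcomp : ((TrivSqZeroExt.fstHom (R ⧸ 𝔪 ^ m) (R ⧸ 𝔪 ^ m) (R ⧸ 𝔪 ^ m)).toRingHom.comp Ψ)
      = (p : (R ⧸ 𝔪 ^ (m + 1)) →+* (R ⧸ 𝔪 ^ m)).comp Φ := by
    refine Polynomial.ringHom_ext ?_ ?_
    · intro x
      show (Ψ (Polynomial.C x)).fst = p (Φ (Polynomial.C x))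
      rw [hΨC, hΦC, hΨκ1]
      rfl
    · show (Ψ Polynomial.X).fst = p (Φ Polynomial.X)
      rw [hΨX, hΦX, hp]
      rfl
  have hfst : ∀ a : R, (G a).fst = Ideal.Quotient.mk _ a := by
    intro a
    obtain ⟨f, hf⟩ := hsurj (Ideal.Quotient.mk _ a)
    show (G1 (Ideal.Quotient.mk (𝔪 ^ (m + 1)) a)).fst = _
    rw [← hf, hG1]
    have := RingHom.congr_fun hcomp f
    have h2 : (Ψ f).fst = p (Φ f) := this
    rw [h2, hf, hp]
  have hM : ∀ a : M, (G (algebraMap M R a)).snd = algebraMap M (R ⧸ 𝔪 ^ m) (D a) := by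
    intro a
    have h1 : Ideal.Quotient.mk (𝔪 ^ (m + 1)) (algebraMap M R a)
        = Φ (Polynomial.C (algebraMap M (R ⧸ 𝔪) a)) := by
      rw [hΦC]
      exact (s.commutes a).symm
    show (G1 (Ideal.Quotient.mk (𝔪 ^ (m + 1)) (algebraMap M R a))).snd = _
    rw [h1, hG1, hΨC, hΨκ2, hδκ.2]
  have hsnd : ∀ x y : R, (G (x * y)).snd = x • (G y).snd + y • (G x).snd := by
    intro x y
    rw [map_mul, TrivSqZeroExt.snd_mul, hfst, hfst, op_smul_eq_smul, smul_eq_mul, smul_eq_mul,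
      Algebra.smul_def, Algebra.smul_def]
    rfl
  refine ⟨⟨⟨⟨fun a => (G a).snd, fun x y => by rw [map_add, TrivSqZeroExt.snd_add]⟩, ?_⟩, ?_, ?_⟩,
    hM⟩
  · intro c x
    show (G (c • x)).snd = c • (G x).snd
    rw [Algebra.smul_def, hsnd, IsScalarTower.algebraMap_apply k M R, hM]
    simp
  · show (G 1).snd = 0
    rw [map_one]; simp
  · intro x y
    exact hsnd x y

end quot

end Crest.Agent.R276.Pur429
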