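import Mathlib
import Crest.Agent.R276.Pur0_429

/-!
R276 / Pur1_429.  Purity of the differentials of a subfield `M` in a valuation ring containing `M`
(characteristic zero): discrete case, then all valuation rings.
-/

set_option autoImplicit false

namespace Crest.Agent.R276.Pur429

open IsLocalRing

section purity

variable {k M R K : Type*} [CommRing k] [Field M] [CharZero M] [CommRing R] [IsDomain R]
  [IsDiscreteValuationRing R] [Field K] [Algebra k M] [Algebra M R] [Algebra k R]
  [IsScalarTower k M R] [Algebra R K] [IsFractionRing R K] [Algebra k K] [IsScalarTower k R K]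

/-- **Purity for a discrete valuation ring** (functional form): if `∑ cᵢ dτᵢ = ∑ vⱼ dyⱼ` in
`Ω[K⁄k]` with `vⱼ, yⱼ ∈ R` and `τᵢ` in a subfield `M ⊆ R`, then `∑ cᵢ D(τᵢ) ∈ R` for every
derivation `D` of `M`. -/
theorem purity_dvr {ι J : Type*} [Fintype ι] [Fintype J] (c : ι → K) (τ : ι → M)
    (v y : J → R)
    (h : ∑ i, c i • KaehlerDifferential.D k K (algebraMap R K (algebraMap M R (τ i)))
      = ∑ j, algebraMap R K (v j) • KaehlerDifferential.D k K (algebraMap R K (y j)))
    (D : Derivation k M M) :
    ∑ i, c i * algebraMap R K (algebraMap M R (D (τ i))) ∈ (algebraMap R K).range := by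
  classical
  obtain ⟨d, hd⟩ := IsLocalization.exist_integer_multiples_of_finite (nonZeroDivisors R) c
  choose r hr using hd
  have hd0 : (d : R) ≠ 0 := nonZeroDivisors.ne_zero d.2
  have hdK : algebraMap R K (d : R) ≠ 0 := by
    rw [Ne, FaithfulSMul.algebraMap_eq_zero_iff]; exact hd0
  -- the lifted relation
  let ξ : Ω[R⁄k] := ∑ i, r i • KaehlerDifferential.D k R (algebraMap M R (τ i))
    - ∑ j, ((d : R) * v j) • KaehlerDifferential.D k R (y j)
  have hξ : KaehlerDifferential.map k k R K ξ = 0 := by
    simp only [ξ, map_sub, map_sum, map_smul, KaehlerDifferential.map_D]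
    rw [sub_eq_zero]
    have h2 := congrArg (fun z => algebraMap R K (d : R) • z) h
    simp only [Finset.smul_sum, smul_smul] at h2
    refine Eq.trans (Finset.sum_congr rfl fun i _ => ?_)
      (h2.trans (Finset.sum_congr rfl fun j _ => ?_))
    · rw [← algebraMap_smul K (r i), hr i, Algebra.smul_def]
    · rw [← algebraMap_smul K ((d : R) * v j), map_mul]
  obtain ⟨u, hu⟩ := (IsLocalizedModule.eq_zero_iff (nonZeroDivisors R)
    (KaehlerDifferential.map k k R K)).mp hξ
  have hu0 : (u : R) ≠ 0 := nonZeroDivisors.ne_zero u.2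
  have hud : (u : R) * (d : R) ≠ 0 := mul_ne_zero hu0 hd0
  obtain ⟨π, hπ⟩ := IsDiscreteValuationRing.exists_irreducible R
  obtain ⟨m, hm⟩ := IsDiscreteValuationRing.ideal_eq_span_pow_irreducible
    (s := Ideal.span {(u : R) * (d : R)}) (by rw [Ne, Ideal.span_singleton_eq_bot]; exact hud) hπ
  have hm' : maximalIdeal R ^ m = Ideal.span {(u : R) * (d : R)} := by
    rw [hm, hπ.maximalIdeal_eq, Ideal.span_singleton_pow]
  obtain ⟨δ, hδ⟩ := exists_der_quot (k := k) (M := M) (R := R) D m
  set x : R := ∑ i, r i * algebraMap M R (D (τ i)) with hx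
  have h3 : (u : R) • δ.liftKaehlerDifferential ξ = 0 := by
    have : δ.liftKaehlerDifferential ((u : R) • ξ) = 0 := by
      have h4 : (u : R) • ξ = 0 := hu
      rw [h4, map_zero]
    rw [← this, map_smul]
  have h5 : δ.liftKaehlerDifferential ξ = Ideal.Quotient.mk _ x
      - (d : R) • ∑ j, v j • δ (y j) := by
    simp only [ξ, map_sub, map_sum, map_smul, Derivation.liftKaehlerDifferential_comp_D, hx,
      Finset.smul_sum, smul_smul, hδ]
    congr 1
  obtain ⟨e, he⟩ := Ideal.Quotient.mk_surjective (∑ j, v j • δ (y j))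
  have h6 : Ideal.Quotient.mk (maximalIdeal R ^ m) (u * x - u * d * e) = 0 := by
    rw [h5, ← he, Algebra.smul_def, Algebra.smul_def] at h3
    have h7 : Ideal.Quotient.mk (maximalIdeal R ^ m) (u : R) *
      (Ideal.Quotient.mk (maximalIdeal R ^ m) x - Ideal.Quotient.mk (maximalIdeal R ^ m) (d : R)
        * Ideal.Quotient.mk (maximalIdeal R ^ m) e) = 0 := h3
    rw [map_sub, map_mul, map_mul, map_mul, ← h7]
    ring
  rw [Ideal.Quotient.eq_zero_iff_mem, hm', Ideal.mem_span_singleton] at h6
  obtain ⟨f, hf⟩ := h6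
  have h8 : x = d * (e + f) := by
    apply mul_left_cancel₀ hu0
    linear_combination hf
  refine ⟨e + f, ?_⟩
  apply mul_left_cancel₀ hdK
  rw [← map_mul, ← h8, hx, map_sum, Finset.mul_sum]
  refine Finset.sum_congr rfl fun i _ => ?_
  rw [map_mul, hr i, Algebra.smul_def, mul_assoc]

end purity

end Crest.Agent.R276.Pur429
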