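import Mathlib
import Crest.Agent.R276.Pur1_429

/-!
R276 / Pur2_429.  General principle: an implication "finitely many elements of `V` ⇒ `c ∈ V`" holds
for every valuation ring `V ⊇ M` of a finitely generated extension `K/M` (char 0) as soon as it holds
for the discrete valuation rings containing `M`.
-/

set_option autoImplicit false

namespace Crest.Agent.R276.Pur429

open IsLocalRing nonZeroDivisors

universe u

section dvr

variable {M : Type*} {K : Type u} [Field M] [CharZero M] [Field K] [Algebra M K]

/-- A prime of height at most one of a noetherian integrally closed domain is either zero or gives a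
discrete valuation ring. -/
theorem dvr_of_height_le_one {A : Type*} [CommRing A] [IsDomain A] [IsNoetherianRing A]
    [IsIntegrallyClosed A] (p : Ideal A) [p.IsPrime] (hp : p ≠ ⊥) (hh : p.height ≤ 1) :
    IsDiscreteValuationRing (Localization.AtPrime p) := by
  have hA : IsIntegrallyClosed (Localization.AtPrime p) :=
    isIntegrallyClosed_of_isLocalization _ p.primeCompl p.primeCompl_le_nonZeroDivisors
  have hN : IsNoetherianRing (Localization.AtPrime p) :=
    IsLocalization.isNoetherianRing p.primeCompl _ inferInstance
  have hnf : ¬ IsField (Localization.AtPrime p) :=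
    IsLocalization.AtPrime.not_isField A hp _
  have hprime : ∀ P : Ideal (Localization.AtPrime p), P ≠ ⊥ → P.IsPrime →
      P = maximalIdeal (Localization.AtPrime p) := by
    intro P hP0 hP
    have hle : P.comap (algebraMap A (Localization.AtPrime p)) ≤ p := by
      have := Ideal.comap_mono (f := algebraMap A (Localization.AtPrime p))
        (le_maximalIdeal hP.ne_top)
      exact this.trans_eq (IsLocalization.AtPrime.under_maximalIdeal (Localization.AtPrime p) p)
    have hmap : Ideal.map (algebraMap A (Localization.AtPrime p))
        (P.comap (algebraMap A (Localization.AtPrime p))) = P :=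
      IsLocalization.map_under p.primeCompl _ P
    have hprimeP : (P.comap (algebraMap A (Localization.AtPrime p))).IsPrime := Ideal.comap_isPrime _ _
    rcases hle.eq_or_lt with h | h
    · rw [← hmap, h]
      exact Localization.AtPrime.map_eq_maximalIdeal
    · exfalso
      have h1 := (Ideal.height_strict_mono_of_isPrime_of_isPrime h).trans_le hh
      rw [Order.lt_one_iff, Ideal.height_eq_zero_iff] at h1
      rw [IsDomain.minimalPrimes_eq_singleton_bot, Set.mem_singleton_iff] at h1
      rw [h1, Ideal.map_bot] at hmap
      exact hP0 hmap.symm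
  have := (tfae_of_isNoetherianRing_of_isLocalRing_of_isDomain (Localization.AtPrime p)).out 3 0
  have hpir : IsPrincipalIdealRing (Localization.AtPrime p) := this.mp ⟨hA, hprime⟩
  exact { not_a_field' := fun h => hnf (IsLocalRing.isField_iff_maximalIdeal_eq.mpr h) }

theorem exists_dvr [Algebra.EssFiniteType M K] (V : ValuationSubring K)
    (hM : ∀ a : M, algebraMap M K a ∈ V) (S : Finset K) (hS : ∀ x ∈ S, x ∈ V) (c : K)
    (hc : c ∉ V) :
    ∃ (R : Type u) (_ : CommRing R) (_ : IsDomain R) (_ : IsDiscreteValuationRing R)
      (_ : Algebra R K) (_ : IsFractionRing R K) (_ : Algebra M R) (_ : IsScalarTower M R K),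
      (∀ x ∈ S, x ∈ (algebraMap R K).range) ∧ c ∉ (algebraMap R K).range := by
  classical
  have hc0 : c ≠ 0 := fun h => hc (h ▸ V.zero_mem)
  have hcinv : c⁻¹ ∈ V := (V.mem_or_inv_mem c).resolve_left hc
  obtain ⟨T, hT⟩ := IntermediateField.fg_top M K
  let T' : Finset K := T.image (fun g => if g ∈ V then g else g⁻¹)
  let S' : Finset K := S ∪ T' ∪ {c⁻¹}
  let A1 : Subalgebra M K := Algebra.adjoin M (S' : Set K)
  have hS'V : ∀ x ∈ S', x ∈ V := by
    intro x hx
    simp only [S', T', Finset.mem_union, Finset.mem_image, Finset.mem_singleton] at hx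
    rcases hx with (hx | ⟨g, hg, rfl⟩) | rfl
    · exact hS x hx
    · split_ifs with h
      · exact h
      · exact (V.mem_or_inv_mem g).resolve_left h
    · exact hcinv
  have hA1V : ∀ x ∈ A1, x ∈ V := by
    intro x hx
    induction hx using Algebra.adjoin_induction with
    | mem x hx => exact hS'V x hx
    | algebraMap r => exact hM r
    | add x y _ _ h1 h2 => exact V.add_mem _ _ h1 h2
    | mul x y _ _ h1 h2 => exact V.mul_mem _ _ h1 h2
  have hfin : Algebra.FiniteType M A1 :=
    (Subalgebra.fg_iff_finiteType _).mp (Subalgebra.fg_adjoin_finset S')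
  obtain ⟨s, g, hginj, hgfin⟩ := exists_finite_inj_algHom_of_fg M A1
  let P := MvPolynomial (Fin s) M
  let _ : Algebra P K := (A1.val.comp g).toRingHom.toAlgebra
  have hPK : ∀ x : P, algebraMap P K x = (g x : K) := fun x => rfl
  have htower : IsScalarTower M P K := IsScalarTower.of_algebraMap_eq (fun a => by
    rw [hPK]
    show algebraMap M K a = ((g (algebraMap M P a) : A1) : K)
    rw [g.commutes]
    rfl)
  have hPinj : Function.Injective (algebraMap P K) := by
    intro x y hxy
    exact hginj (Subtype.ext hxy)
  have hfaith : FaithfulSMul P K := (faithfulSMul_iff_algebraMap_injective P K).mpr hPinj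
  let F := FractionRing P
  let _ : Algebra F K := FractionRing.liftAlgebra P K
  have htower2 : IsScalarTower P F K := inferInstance
  have hA1int : ∀ x : K, x ∈ A1 → IsIntegral P x := by
    intro x hx
    obtain ⟨q, hqm, hq⟩ := hgfin.to_isIntegral (⟨x, hx⟩ : A1)
    refine ⟨q, hqm, ?_⟩
    have h1 := congrArg (fun z : A1 => (A1.val : A1 →+* K) z) hq
    simp only [Polynomial.hom_eval₂, map_zero] at h1
    exact h1
  have hS'int : ∀ x ∈ S', IsIntegral P x := fun x hx =>
    hA1int x (Algebra.subset_adjoin hx)
  have halg : Algebra.IsAlgebraic F K := by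
    let E := algebraicClosure F K
    have hS'E : ∀ x ∈ S', x ∈ E := fun x hx =>
      (mem_algebraicClosure_iff).mpr (hS'int x hx).tower_top.isAlgebraic
    have hTE : ∀ x ∈ T, x ∈ E := by
      intro x hx
      have h1 : (if x ∈ V then x else x⁻¹) ∈ E := hS'E _ (by
        simp only [S', T', Finset.mem_union, Finset.mem_image, Finset.mem_singleton]
        exact Or.inl (Or.inr ⟨x, hx, rfl⟩))
      split_ifs at h1 with h
      · exact h1
      · have := E.inv_mem h1
        rwa [inv_inv] at this
    have hle : IntermediateField.adjoin M (T : Set K) ≤ E.restrictScalars M :=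
      IntermediateField.adjoin_le_iff.mpr (fun x hx => hTE x hx)
    rw [hT] at hle
    exact ⟨fun x => (mem_algebraicClosure_iff).mp (hle (IntermediateField.mem_top (x := x)))⟩
  have hess : Algebra.EssFiniteType F K := Algebra.EssFiniteType.of_comp M F K
  have hfd : FiniteDimensional F K := Algebra.finite_of_essFiniteType_of_isAlgebraic
  have hcz : CharZero F := charZero_of_injective_algebraMap (algebraMap M F).injective
  have hsep : Algebra.IsSeparable F K := inferInstance
  let A := integralClosure P K
  have hAfrac : IsFractionRing A K := integralClosure.isFractionRing_of_finite_extension F K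
  have hAic : IsIntegrallyClosed A := integralClosure.isIntegrallyClosedOfFiniteExtension F
  have hAN : IsNoetherianRing A := IsIntegralClosure.isNoetherianRing P F K A
  have hPV : ∀ x : P, algebraMap P K x ∈ V := fun x => hA1V _ (g x).2
  have hAV : ∀ x : A, (x : K) ∈ V := by
    intro x
    obtain ⟨q, hqm, hq⟩ := x.2
    let f : P →+* V := (algebraMap P K).codRestrict V.toSubring hPV
    have hint : IsIntegral V (x : K) := by
      refine ⟨q.map f, hqm.map f, ?_⟩
      rw [Polynomial.eval₂_map]
      exact hq
    obtain ⟨y, hy⟩ := IsIntegrallyClosed.isIntegral_iff.mp hint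
    rw [← hy]
    exact y.2
  let ξ : A := ⟨c⁻¹, hS'int _ (by simp [S'])⟩
  have hξ : ¬ IsUnit ξ := by
    intro h
    obtain ⟨η, hη⟩ := h.exists_right_inv
    have h1 : c⁻¹ * (η : K) = 1 := by
      have := congrArg (fun z : A => (z : K)) hη
      simpa [ξ] using this
    have h2 : (η : K) = c := by
      field_simp at h1
      exact h1
    exact hc (h2 ▸ hAV η)
  obtain ⟨p, hp⟩ := Ideal.nonempty_minimalPrimes (I := Ideal.span {ξ})
    (by rwa [Ne, Ideal.span_singleton_eq_top])
  have hpp : p.IsPrime := hp.isPrime
  have hξp : ξ ∈ p := hp.1.2 (Ideal.mem_span_singleton_self ξ)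
  have hξ0 : ξ ≠ 0 := by
    intro h
    have := congrArg (fun z : A => (z : K)) h
    simp only [ξ] at this
    exact hc0 (inv_eq_zero.mp this)
  have hp0 : p ≠ ⊥ := by
    rintro rfl
    exact hξ0 (by simpa using hξp)
  have hh : p.height ≤ 1 :=
    Ideal.height_le_one_of_isPrincipal_of_mem_minimalPrimes (Ideal.span {ξ}) p hp
  have hdvr := dvr_of_height_le_one p hp0 hh
  let R := Localization.AtPrime p
  let _ : Algebra R K := IsLocalization.localizationAlgebraOfSubmonoidLe R K p.primeCompl
    (nonZeroDivisors A) p.primeCompl_le_nonZeroDivisors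
  have htower3 : IsScalarTower A R K :=
    IsLocalization.localization_isScalarTower_of_submonoid_le R K p.primeCompl
      (nonZeroDivisors A) p.primeCompl_le_nonZeroDivisors
  have hfrac : IsFractionRing R K :=
    IsFractionRing.isFractionRing_of_isDomain_of_isLocalization p.primeCompl R K
  have htower4 : IsScalarTower M R K := IsScalarTower.of_algebraMap_eq (fun a => by
    rw [IsScalarTower.algebraMap_apply M A R, ← IsScalarTower.algebraMap_apply A R K]
    exact IsScalarTower.algebraMap_apply M A K a)
  refine ⟨R, inferInstance, inferInstance, hdvr, inferInstance, hfrac, inferInstance, htower4,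
    ?_, ?_⟩
  · intro x hx
    have hxA : IsIntegral P x := hS'int x (by simp [S', hx])
    refine ⟨algebraMap A R ⟨x, hxA⟩, ?_⟩
    rw [← IsScalarTower.algebraMap_apply A R K]
    rfl
  · rintro ⟨r, hr⟩
    have h1 : algebraMap A R ξ * r = 1 := by
      apply IsFractionRing.injective R K
      rw [map_mul, map_one, hr, ← IsScalarTower.algebraMap_apply A R K]
      show c⁻¹ * c = 1
      exact inv_mul_cancel₀ hc0
    have h2 : IsUnit (algebraMap A R ξ) := IsUnit.of_mul_eq_one _ h1
    rw [IsLocalization.AtPrime.isUnit_to_map_iff R p ξ] at h2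
    exact h2 hξp

/-- **Purity for an arbitrary valuation ring** containing the subfield `M`. -/
theorem purity {k : Type*} [CommRing k] [Algebra k M] [Algebra k K] [IsScalarTower k M K]
    [Algebra.EssFiniteType M K] (V : ValuationSubring K) (hM : ∀ a : M, algebraMap M K a ∈ V)
    {ι J : Type*} [Fintype ι] [Fintype J] (c : ι → K) (τ : ι → M) (v y : J → K)
    (hv : ∀ j, v j ∈ V) (hy : ∀ j, y j ∈ V)
    (h : ∑ i, c i • KaehlerDifferential.D k K (algebraMap M K (τ i))
      = ∑ j, v j • KaehlerDifferential.D k K (y j))
    (D : Derivation k M M) :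
    ∑ i, c i * algebraMap M K (D (τ i)) ∈ V := by
  classical
  by_contra hc
  obtain ⟨R, _, _, _, _, _, _, _, hS, hcR⟩ := exists_dvr (M := M) V hM
    (Finset.univ.image v ∪ Finset.univ.image y) (by
      intro x hx
      simp only [Finset.mem_union, Finset.mem_image, Finset.mem_univ, true_and] at hx
      rcases hx with ⟨j, rfl⟩ | ⟨j, rfl⟩
      · exact hv j
      · exact hy j) _ hc
  have hv' : ∀ j, ∃ r : R, algebraMap R K r = v j := fun j => hS _ (by simp)
  have hy' : ∀ j, ∃ r : R, algebraMap R K r = y j := fun j => hS _ (by simp)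
  choose v' hv' using hv'
  choose y' hy' using hy'
  let _ : Algebra k R := ((algebraMap M R).comp (algebraMap k M)).toAlgebra
  have ht1 : IsScalarTower k M R := IsScalarTower.of_algebraMap_eq (fun _ => rfl)
  have ht2 : IsScalarTower k R K := IsScalarTower.of_algebraMap_eq (fun a => by
    show algebraMap k K a = algebraMap R K (algebraMap M R (algebraMap k M a))
    rw [← IsScalarTower.algebraMap_apply M R K, ← IsScalarTower.algebraMap_apply k M K])
  apply hcR
  have h2 := purity_dvr (k := k) (M := M) (R := R) (K := K) c τ v' y' (by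
    simp only [← IsScalarTower.algebraMap_apply M R K, hv', hy']
    exact h) D
  simpa only [← IsScalarTower.algebraMap_apply M R K] using h2

end dvr

end Crest.Agent.R276.Pur429
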