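import Mathlib
import Crest.Agent.R276.Pur2_429
import Crest.Agent.R276.FKDefs_779

/-!
R276 / Pur3_429.  Restriction of regularity to an intermediate field, for ARBITRARY valuation rings:
`RegAt k R (dt ⊕ b') m g → RegAt M R b' m g` when `M ⊆ R`.
-/

set_option autoImplicit false

namespace Crest.Agent.R276.Pur429

open Crest.Agent.R276.FKDefs_779

section linalg

variable {K Ω Ω' : Type*} [Field K] [AddCommGroup Ω] [Module K Ω] [AddCommGroup Ω'] [Module K Ω']
  {s n : ℕ}

theorem repr_natAdd (b : Module.Basis (Fin (s + n)) K Ω) (b' : Module.Basis (Fin n) K Ω')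
    (π : Ω →ₗ[K] Ω') (h1 : ∀ i, π (b (Fin.castAdd n i)) = 0)
    (h2 : ∀ j, π (b (Fin.natAdd s j)) = b' j) (x : Ω) (j : Fin n) :
    b.repr x (Fin.natAdd s j) = b'.repr (π x) j := by
  conv_rhs => rw [← b.sum_repr x]
  rw [map_sum, Fin.sum_univ_add]
  simp only [map_smul, h1, h2, smul_zero, Finset.sum_const_zero, zero_add]
  rw [b'.repr_sum_self]

theorem det_append (b : Module.Basis (Fin (s + n)) K Ω) (b' : Module.Basis (Fin n) K Ω')
    (π : Ω →ₗ[K] Ω') (h1 : ∀ i, π (b (Fin.castAdd n i)) = 0)
    (h2 : ∀ j, π (b (Fin.natAdd s j)) = b' j) (w : Fin n → Ω) :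
    b.det (Fin.append (fun i => b (Fin.castAdd n i)) w) = b'.det (fun j => π (w j)) := by
  rw [Module.Basis.det_apply, Module.Basis.det_apply,
    ← Matrix.det_submatrix_equiv_self (finSumFinEquiv (m := s) (n := n))]
  have : (b.toMatrix (Fin.append (fun i => b (Fin.castAdd n i)) w)).submatrix
      (finSumFinEquiv (m := s) (n := n)) (finSumFinEquiv (m := s) (n := n)) =
      Matrix.fromBlocks 1 (Matrix.of fun i j => b.repr (w j) (Fin.castAdd n i)) 0
        (b'.toMatrix (fun j => π (w j))) := by
    ext i j
    rcases i with i | i <;> rcases j with j | j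
    · simp [Module.Basis.toMatrix_apply, Matrix.one_apply, Finsupp.single_apply, eq_comm]
    · simp [Module.Basis.toMatrix_apply]
    · simp only [Matrix.submatrix_apply, finSumFinEquiv_apply_left, finSumFinEquiv_apply_right,
        Module.Basis.toMatrix_apply, Fin.append_left, Matrix.fromBlocks_apply₂₁, Matrix.zero_apply]
      rw [repr_natAdd b b' π h1 h2, h1]
      simp
    · simp only [Matrix.submatrix_apply, finSumFinEquiv_apply_right,
        Module.Basis.toMatrix_apply, Fin.append_right, Matrix.fromBlocks_apply₂₂]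
      rw [repr_natAdd b b' π h1 h2]
  rw [this, Matrix.det_fromBlocks_zero₂₁, Matrix.det_one, one_mul]

/-- rows combinations -/
theorem det_comb {N : ℕ} (b : Module.Basis (Fin N) K Ω) (C : Matrix (Fin N) (Fin N) K)
    (w : Fin N → Ω) : b.det (fun i => ∑ j, C i j • w j) = C.det * b.det w := by
  rw [Module.Basis.det_apply, Module.Basis.det_apply, ← Matrix.det_transpose C, mul_comm,
    ← Matrix.det_mul]
  congr 1
  ext i j
  simp [Module.Basis.toMatrix_apply, Matrix.mul_apply, map_sum, mul_comm]

theorem det_mem {N : ℕ} (V : ValuationSubring K) (C : Matrix (Fin N) (Fin N) K)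
    (hC : ∀ i j, C i j ∈ V) : C.det ∈ V := by
  rw [Matrix.det_apply]
  refine V.toSubring.sum_mem fun σ _ => ?_
  have h1 : (∏ i, C (σ i) i) ∈ V.toSubring := V.toSubring.prod_mem fun i _ => hC _ _
  rcases Int.units_eq_one_or (Equiv.Perm.sign σ) with h | h
  · rw [h, one_smul]; exact h1
  · rw [h, Units.neg_smul, one_smul]; exact V.toSubring.neg_mem h1

/-- Cramer with control: among finitely many vectors spanning, choose a maximal minor. -/
theorem exists_max_minor {N : ℕ} (V : ValuationSubring K) (b' : Module.Basis (Fin n) K Ω')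
    (w : Fin N → Ω') (hspan : Submodule.span K (Set.range w) = ⊤) :
    ∃ I : Fin n → Fin N, b'.det (w ∘ I) ≠ 0 ∧
      ∀ j : Fin N, ∃ a : Fin n → K, (∀ i, a i ∈ V) ∧ w j = ∑ i, a i • w (I i) := by
  classical
  -- nonemptiness
  have hne : ∃ I : Fin n → Fin N, b'.det (w ∘ I) ≠ 0 := by
    by_contra hall
    push Not at hall
    have hb : ∀ i, ∃ a : Fin N → K, ∑ j, a j • w j = b' i := by
      intro i
      have : b' i ∈ Submodule.span K (Set.range w) := by rw [hspan]; trivial
      exact (Submodule.mem_span_range_iff_exists_fun K).mp this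
    choose a ha using hb
    have h1 : b'.det (fun i => b' i) = 1 := b'.det_self
    have h2 : b'.det (fun i => ∑ j, a i j • w j) = 0 := by
      rw [← AlternatingMap.coe_multilinearMap, MultilinearMap.map_sum]
      refine Finset.sum_eq_zero fun J _ => ?_
      rw [MultilinearMap.map_smul_univ]
      have := hall J
      rw [AlternatingMap.coe_multilinearMap]
      have h3 : b'.det (fun i => w (J i)) = 0 := this
      rw [h3, smul_zero]
    simp only [ha] at h2
    rw [h2] at h1
    exact zero_ne_one h1
  obtain ⟨I0, hI0⟩ := hne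
  have : Nonempty (Fin n → Fin N) := ⟨I0⟩
  obtain ⟨I, hI⟩ := Finite.exists_max (fun I : Fin n → Fin N => V.valuation (b'.det (w ∘ I)))
  have hIne : b'.det (w ∘ I) ≠ 0 := by
    intro h
    have := hI I0
    simp only [h, map_zero, nonpos_iff_eq_zero, map_eq_zero] at this
    exact hI0 this
  refine ⟨I, hIne, fun j => ?_⟩
  obtain ⟨hli, hsp⟩ := (b'.is_basis_iff_det).mpr (isUnit_iff_ne_zero.mpr hIne)
  let B := Module.Basis.mk hli hsp.ge
  refine ⟨fun i => B.repr (w j) i, fun i => ?_, ?_⟩
  · have h1 := b'.det_smul_mk_coord_eq_det_update hli hsp.ge i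
    have h2 := LinearMap.congr_fun h1 (w j)
    rw [LinearMap.smul_apply, MultilinearMap.toLinearMap_apply, smul_eq_mul] at h2
    have h3 : Function.update (w ∘ I) i (w j) = w ∘ (Function.update I i j) := by
      ext l
      by_cases hl : l = i
      · subst hl; simp
      · simp [Function.update_of_ne hl]
    rw [h3] at h2
    have h4 : B.repr (w j) i = b'.det (w ∘ (Function.update I i j)) / b'.det (w ∘ I) := by
      rw [eq_div_iff hIne, mul_comm]
      exact h2
    show B.repr (w j) i ∈ V
    rw [h4, ← ValuationSubring.valuation_le_one_iff, map_div₀]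
    have hpos : 0 < V.valuation (b'.det (w ∘ I)) := by
      simpa [zero_lt_iff] using hIne
    exact (div_le_one₀ hpos).mpr (hI _)
  · conv_lhs => rw [← B.sum_repr (w j)]
    refine Finset.sum_congr rfl fun i _ => ?_
    simp [B]

end linalg

section main

variable {k M K : Type*} [Field k] [Field M] [CharZero M] [Field K] [Algebra k M] [Algebra M K]
  [Algebra k K] [IsScalarTower k M K] {s n : ℕ}

/-- The Jacobian of any tuple of `V ⊇ M` with respect to `dt ⊕ b'` is bounded by a relative Jacobian
of a tuple of `V`. -/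
theorem exists_jac_le [Algebra.EssFiniteType M K] (V : ValuationSubring K)
    (hM : ∀ a : M, algebraMap M K a ∈ V)
    (bt : Module.Basis (Fin s) M (Ω[M⁄k])) (t : Fin s → M)
    (hbt : ∀ i, bt i = KaehlerDifferential.D k M (t i))
    (b : Module.Basis (Fin (s + n)) K (Ω[K⁄k])) (b' : Module.Basis (Fin n) K (Ω[K⁄M]))
    (h1 : ∀ i, b (Fin.castAdd n i) = KaehlerDifferential.D k K (algebraMap M K (t i)))
    (h2 : ∀ j, KaehlerDifferential.map k M K K (b (Fin.natAdd s j)) = b' j)
    (y : Fin (s + n) → K) (hy : ∀ i, y i ∈ V) :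
    ∃ y' : Fin n → K, (∀ i, y' i ∈ V) ∧
      V.valuation (jac k b y) ≤ V.valuation (jac M b' y') := by
  classical
  let π : Ω[K⁄k] →ₗ[K] Ω[K⁄M] := KaehlerDifferential.map k M K K
  have hπD : ∀ x : K, π (KaehlerDifferential.D k K x) = KaehlerDifferential.D M K x := fun x => by
    simp [π]
  have hπ1 : ∀ i, π (b (Fin.castAdd n i)) = 0 := fun i => by
    rw [h1, hπD, Derivation.map_algebraMap]
  by_cases hj : jac k b y = 0
  · exact ⟨0, fun i => V.zero_mem, by rw [hj, map_zero]; exact zero_le⟩
  have hspan : Submodule.span K (Set.range fun j => KaehlerDifferential.D M K (y j)) = ⊤ := by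
    obtain ⟨-, hsp⟩ := (b.is_basis_iff_det).mpr (isUnit_iff_ne_zero.mpr hj)
    have h3 := congrArg (Submodule.map π) hsp
    rw [Submodule.map_span, ← Set.range_comp, Submodule.map_top, LinearMap.range_eq_top.mpr
      (KaehlerDifferential.map_surjective k M K)] at h3
    rw [← h3]
    congr 2
    ext j
    exact (hπD _).symm
  obtain ⟨I, hI, ha⟩ := exists_max_minor V b' (fun j => KaehlerDifferential.D M K (y j)) hspan
  choose a haV ha using ha
  let y' : Fin n → K := y ∘ I
  refine ⟨y', fun i => hy _, ?_⟩
  -- the vertical parts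
  let η : Fin (s + n) → Ω[K⁄k] := fun j =>
    KaehlerDifferential.D k K (y j) - ∑ i, a j i • KaehlerDifferential.D k K (y' i)
  have hπη : ∀ j, π (η j) = 0 := by
    intro j
    simp only [η, map_sub, map_sum, map_smul, hπD]
    rw [sub_eq_zero]
    exact ha j
  let c : Fin (s + n) → Fin s → K := fun j l => b.repr (η j) (Fin.castAdd n l)
  have hη : ∀ j, η j = ∑ l, c j l • b (Fin.castAdd n l) := by
    intro j
    conv_lhs => rw [← b.sum_repr (η j)]
    rw [Fin.sum_univ_add]
    have : ∑ i : Fin n, b.repr (η j) (Fin.natAdd s i) • b (Fin.natAdd s i) = 0 := by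
      refine Finset.sum_eq_zero fun i _ => ?_
      rw [repr_natAdd b b' π hπ1 h2, hπη]
      simp
    rw [this, add_zero]
  have hcV : ∀ j l, c j l ∈ V := by
    intro j l
    let D : Derivation k M M := (bt.coord l).compDer (KaehlerDifferential.D k M)
    have hD : ∀ i, D (t i) = if i = l then 1 else 0 := by
      intro i
      show bt.coord l (KaehlerDifferential.D k M (t i)) = _
      rw [← hbt i, Module.Basis.coord_apply, Module.Basis.repr_self, Finsupp.single_apply]
    have h5 := purity (k := k) (M := M) (K := K) V hM (c j) t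
      (fun o : Option (Fin n) => o.elim 1 (fun i => - a j i))
      (fun o : Option (Fin n) => o.elim (y j) y')
      (by rintro (_ | i)
          · exact V.one_mem
          · exact V.neg_mem _ (haV j i))
      (by rintro (_ | i)
          · exact hy j
          · exact hy _)
      (by
        rw [Fintype.sum_option]
        simp only [Option.elim_none, Option.elim_some, one_smul, neg_smul,
          Finset.sum_neg_distrib, ← sub_eq_add_neg]
        have := hη j
        simp only [h1] at this
        exact this.symm)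
      D
    simpa [hD] using h5
  -- the matrix
  let C : Matrix (Fin (s + n)) (Fin (s + n)) K := fun j => Fin.append (c j) (a j)
  have hCV : ∀ i j, C i j ∈ V := by
    intro i j
    refine Fin.addCases (fun l => ?_) (fun l => ?_) j
    · simp only [C, Fin.append_left]; exact hcV i l
    · simp only [C, Fin.append_right]; exact haV i l
  have hdet : jac k b y = C.det * jac M b' y' := by
    have h6 : jac M b' y' = b.det (Fin.append (fun i => b (Fin.castAdd n i))
        (fun i => KaehlerDifferential.D k K (y' i))) := by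
      rw [det_append b b' π hπ1 h2]
      simp only [hπD]
      rfl
    rw [h6, ← det_comb]
    unfold jac
    congr 1
    ext j : 1
    rw [Fin.sum_univ_add]
    simp only [C, Fin.append_left, Fin.append_right]
    rw [← hη j]
    simp [η]
  rw [hdet, map_mul]
  have h7 := (V.valuation_le_one_iff _).mpr (det_mem V C hCV)
  calc V.valuation C.det * V.valuation (jac M b' y') ≤ 1 * V.valuation (jac M b' y') := by
        gcongr
    _ = _ := one_mul _

/-- restriction of regularity at a valuation ring containing `M` -/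
theorem regAt_restrict [Algebra.EssFiniteType M K] (V : ValuationSubring K)
    (hM : ∀ a : M, algebraMap M K a ∈ V)
    (bt : Module.Basis (Fin s) M (Ω[M⁄k])) (t : Fin s → M)
    (hbt : ∀ i, bt i = KaehlerDifferential.D k M (t i))
    (b : Module.Basis (Fin (s + n)) K (Ω[K⁄k])) (b' : Module.Basis (Fin n) K (Ω[K⁄M]))
    (h1 : ∀ i, b (Fin.castAdd n i) = KaehlerDifferential.D k K (algebraMap M K (t i)))
    (h2 : ∀ j, KaehlerDifferential.map k M K K (b (Fin.natAdd s j)) = b' j)
    (m : ℕ) {g : K} (hg : RegAt k V b m g) : RegAt M V b' m g := by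
  obtain ⟨y, hy, hgy⟩ := hg
  obtain ⟨y', hy', hle⟩ := exists_jac_le V hM bt t hbt b b' h1 h2 y hy
  exact ⟨y', hy', hgy.trans (pow_le_pow_left₀ zero_le hle m)⟩

/-- restriction of strong pluricanonical forms to an intermediate field -/
theorem pluriS_restrict [Algebra.EssFiniteType M K]
    (bt : Module.Basis (Fin s) M (Ω[M⁄k])) (t : Fin s → M)
    (hbt : ∀ i, bt i = KaehlerDifferential.D k M (t i))
    (b : Module.Basis (Fin (s + n)) K (Ω[K⁄k])) (b' : Module.Basis (Fin n) K (Ω[K⁄M]))
    (h1 : ∀ i, b (Fin.castAdd n i) = KaehlerDifferential.D k K (algebraMap M K (t i)))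
    (h2 : ∀ j, KaehlerDifferential.map k M K K (b (Fin.natAdd s j)) = b' j)
    (m : ℕ) {g : K} (hg : PluriS k b m g) : PluriS M b' m g := by
  intro V hV
  refine regAt_restrict V hV bt t hbt b b' h1 h2 m (hg V fun c => ?_)
  rw [IsScalarTower.algebraMap_apply k M K]
  exact hV _

end main

end Crest.Agent.R276.Pur429
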