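import Mathlib
import Crest.Agent.R276.SkelDefs_220
import Crest.Agent.R276.Deg2_594
import Crest.Agent.R276.Pur3_429
import Crest.Agent.R276.SatI_152
import Crest.Agent.R276.BcqI_828
import Crest.Agent.R276.CInd_870

/-!
# Row 276 (helper464): relative pluricanonical forms on a relative model

* `exists_den` : a regular relative form `g (dx)^N` of `K/L` has only vertical poles on `M_K`:
  `a g ∈ B_K` for some `a ∈ B_L`, `a ≠ 0`;
* `exists_v` : a finite family `v` in `B_K` of regular relative `N`-forms spanning all of them over `L`.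
-/

set_option autoImplicit false
set_option linter.unusedSectionVars false

open Set Filter Topology MeasureTheory
open scoped ENNReal

noncomputable section

namespace Crest.Agent.R276.Den_464

open Crest.Agent.R276.Mod1_987 Crest.Agent.R276.FKDefs_779 Crest.Agent.R276.SkelDefs_220
open Crest.Agent.R276.Deg1_594 Crest.Agent.R276.BetaDefs_231

variable {L K : Type} [Field L] [Field K] [Algebra ℂ L] [Algebra ℂ K] [Algebra L K]
  [IsScalarTower ℂ L K] {m r : ℕ} {ML : Mdl L m} {MK : Mdl K (m + r)}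

lemma exists_basis_mdl {K : Type} [Field K] [Algebra ℂ K] {n : ℕ} (M : Mdl K n) :
    ∃ b : Module.Basis (Fin n) K (Ω[K⁄ℂ]), ∀ j, b j = KaehlerDifferential.D ℂ K (M.z j : K) := by
  have := M.frac
  have h1 : Algebra.IsAlgebraic M.B K := IsLocalization.isAlgebraic K (nonZeroDivisors M.B)
  exact Bcq_828.exists_basis_B (K := K) (B := M.B) (IsFractionRing.injective M.B K) M.z M.het

/-- relative Jacobians of elements of the local ring at a height one prime -/
lemma rel_jac_mem (H : Rel ML MK) (bK : Module.Basis (Fin r) K (Ω[K⁄L])) (hb : IsRelBasis MK bK)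
    (p : Ideal MK.B) [hp : p.IsPrime] (h1 : p.height = 1) {y : Fin r → K}
    (hy : ∀ i, y i ∈ valAt (Deg2_594.etChart_of_mdl MK) p h1) :
    jac L bK y ∈ valAt (Deg2_594.etChart_of_mdl MK) p h1 := by
  obtain ⟨b, hb'⟩ := exists_basis_mdl MK
  have hA := Deg2_594.etChart_of_mdl MK
  set π : Ω[K⁄ℂ] →ₗ[K] Ω[K⁄L] := KaehlerDifferential.map ℂ L K K with hπ
  have hD : ∀ x : K, π (KaehlerDifferential.D ℂ K x) = KaehlerDifferential.D L K x := fun x =>
    KaehlerDifferential.map_D ℂ L K K x
  have e1 : ∀ i, π (b (Fin.castAdd r i)) = 0 := by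
    intro i
    rw [hb', hD, H.coord]
    exact Derivation.map_algebraMap _ _
  have e2 : ∀ j, π (b (Fin.natAdd m j)) = bK j := by
    intro j
    rw [hb', hD, hb j]
  unfold jac
  rw [Module.Basis.det_apply, Matrix.det_apply]
  refine sum_mem fun σ _ => ?_
  rw [Units.smul_def, zsmul_eq_mul]
  refine mul_mem (by exact intCast_mem _ _) (prod_mem fun i _ => ?_)
  rw [Module.Basis.toMatrix_apply, ← hD, ← Pur429.repr_natAdd b bK π e1 e2]
  exact repr_mem _ p h1 b hb' (hy i) _

lemma mem_of_regAt_rel (H : Rel ML MK) (bK : Module.Basis (Fin r) K (Ω[K⁄L]))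
    (hb : IsRelBasis MK bK) {N : ℕ} {g : K} (p : Ideal MK.B) [hp : p.IsPrime] (h1 : p.height = 1)
    (hg : RegAt L (valAt (Deg2_594.etChart_of_mdl MK) p h1) bK N g) :
    g ∈ valAt (Deg2_594.etChart_of_mdl MK) p h1 := by
  obtain ⟨y, hy, hle⟩ := hg
  have h2 : (valAt (Deg2_594.etChart_of_mdl MK) p h1).valuation (jac L bK y) ≤ 1 :=
    (ValuationSubring.valuation_le_one_iff _ _).mpr (rel_jac_mem H bK hb p h1 hy)
  exact (ValuationSubring.valuation_le_one_iff _ _).mp (hle.trans (pow_le_one₀ zero_le h2))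

/-- powers of an element of a height one prime kill poles -/
lemma exists_pow_mem (p : Ideal MK.B) [hp : p.IsPrime] (h1 : p.height = 1) {a : MK.B} (ha : a ∈ p)
    (g : K) : ∃ k : ℕ, (a : K) ^ k * g ∈ valAt (Deg2_594.etChart_of_mdl MK) p h1 := by
  have hA := Deg2_594.etChart_of_mdl MK
  obtain ⟨b, c, hc, rfl⟩ := MK.frac g
  have := dvr hA p h1
  have hι : Function.Injective (algebraMap MK.B (Localization.AtPrime p)) :=
    IsLocalization.injective _ p.primeCompl_le_nonZeroDivisors
  obtain ⟨ϖ, hϖ⟩ := IsDiscreteValuationRing.exists_irreducible (Localization.AtPrime p)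
  have hc0 : algebraMap MK.B (Localization.AtPrime p) c ≠ 0 := fun h =>
    hc (hι (by rw [h, map_zero]))
  obtain ⟨k, u, hu⟩ := IsDiscreteValuationRing.eq_unit_mul_pow_irreducible hc0 hϖ
  have hmem : algebraMap MK.B (Localization.AtPrime p) a ∈
      IsLocalRing.maximalIdeal (Localization.AtPrime p) := by
    rw [← IsLocalization.AtPrime.to_map_mem_maximal_iff (Localization.AtPrime p) p] at ha
    exact ha
  rw [hϖ.maximalIdeal_eq, Ideal.mem_span_singleton] at hmem
  obtain ⟨w, hw⟩ := hmem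
  refine ⟨k, ?_⟩
  -- `a ^ k = c * (u⁻¹ * w ^ k)` in the local ring
  have h2 : algebraMap MK.B (Localization.AtPrime p) (a ^ k) =
      algebraMap MK.B (Localization.AtPrime p) c * ((↑u⁻¹ : Localization.AtPrime p) * w ^ k) := by
    rw [map_pow, hw, hu, mul_pow]
    calc ϖ ^ k * w ^ k = ((u : Localization.AtPrime p) * (↑u⁻¹ : Localization.AtPrime p)) *
          (ϖ ^ k * w ^ k) := by rw [Units.mul_inv, one_mul]
      _ = _ := by ring
  obtain ⟨⟨c', s⟩, hc'⟩ := IsLocalization.surj p.primeCompl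
    ((↑u⁻¹ : Localization.AtPrime p) * w ^ k)
  refine ⟨c' * b, s, s.2, ?_⟩
  have h3 : (s : MK.B) * a ^ k = c * c' := by
    apply hι
    rw [map_mul, h2, map_mul, ← hc']
    ring
  have h4 : ((s : MK.B) : K) * (a : K) ^ k = c * c' := by exact_mod_cast congrArg Subtype.val h3
  have hcK : (c : K) ≠ 0 := fun h => hc (Subtype.ext h)
  push_cast
  field_simp
  rw [h4]
  ring

/-- **poles are vertical** -/
theorem exists_den (H : Rel ML MK) (bK : Module.Basis (Fin r) K (Ω[K⁄L])) (hb : IsRelBasis MK bK)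
    {N : ℕ} {g : K} (hg : PluriS L bK N g) :
    ∃ a : ML.B, a ≠ 0 ∧ algebraMap L K a * g ∈ MK.B := by
  classical
  have hA := Deg2_594.etChart_of_mdl MK
  obtain ⟨b0, c0, hc0, hgbc⟩ := MK.frac g
  -- one prime
  have key : ∀ (p : Ideal MK.B), p.IsPrime ∧ p.height = 1 →
      ∃ a : ML.B, a ≠ 0 ∧ ∀ (hp : p.IsPrime) (h1 : p.height = 1),
        algebraMap L K a * g ∈ valAt hA p h1 := by
    rintro p ⟨hp, h1⟩
    by_cases hL : ∃ a : ML.B, a ≠ 0 ∧ H.incl a ∈ p
    · obtain ⟨a, ha, hap⟩ := hL
      obtain ⟨k, hk⟩ := exists_pow_mem p h1 hap g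
      refine ⟨a ^ k, pow_ne_zero _ ha, fun _ _ => ?_⟩
      have e1 : algebraMap L K ((a ^ k : ML.B) : L) = ((H.incl a : MK.B) : K) ^ k := by
        change algebraMap L K ((a : L) ^ k) = (algebraMap L K a) ^ k
        exact map_pow _ _ _
      rw [e1]
      exact hk
    · push Not at hL
      refine ⟨1, one_ne_zero, fun _ _ => ?_⟩
      have e1 : algebraMap L K ((1 : ML.B) : L) * g = g := by
        change algebraMap L K 1 * g = g
        rw [map_one, one_mul]
      rw [e1]
      refine mem_of_regAt_rel H bK hb p h1 (hg _ fun c => ?_)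
      obtain ⟨x, y, hy, rfl⟩ := ML.frac c
      refine ⟨H.incl x, H.incl y, hL y hy, ?_⟩
      have hy0 : algebraMap L K (y : L) ≠ 0 := by
        rw [Ne, map_eq_zero]
        exact fun h => hy (Subtype.ext h)
      change algebraMap L K y * algebraMap L K (x / y) = algebraMap L K x
      rw [map_div₀]
      field_simp
  have hfin := finite_bad hA hc0
  choose! α hα hαm using key
  refine ⟨∏ p ∈ hfin.toFinset, α p, Finset.prod_ne_zero_iff.2 fun p hp => ?_, ?_⟩
  · obtain ⟨h1, h2, -⟩ := hfin.mem_toFinset.1 hp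
    exact hα p ⟨h1, h2⟩
  · obtain ⟨b, hb'⟩ := exists_basis_mdl MK
    refine mem_of_regAt hA b hb' (m := 0) fun p hp h1 => Or.inl ?_
    have hinc : ∀ a : ML.B, algebraMap L K a ∈ valAt hA p h1 := fun a =>
      A_le_valAt hA p h1 (H.mem a)
    by_cases hc : c0 ∈ p
    · have hmem : p ∈ hfin.toFinset := hfin.mem_toFinset.2 ⟨hp, h1, hc⟩
      have e1 : algebraMap L K ((∏ p ∈ hfin.toFinset, α p : ML.B) : L) * g =
          algebraMap L K ((∏ q ∈ hfin.toFinset.erase p, α q : ML.B) : L) *
            (algebraMap L K (α p) * g) := by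
        have e0 : ((∏ p ∈ hfin.toFinset, α p : ML.B) : L) =
            ((∏ q ∈ hfin.toFinset.erase p, α q : ML.B) : L) * (α p : L) := by
          rw [← Finset.prod_erase_mul _ _ hmem]
          rfl
        rw [e0, map_mul, mul_assoc]
      rw [e1]
      exact mul_mem (hinc _) (hαm p ⟨hp, h1⟩ hp h1)
    · refine mul_mem (hinc _) ⟨b0, c0, hc, ?_⟩
      have : (c0 : K) ≠ 0 := fun h => hc0 (Subtype.ext h)
      rw [hgbc]
      field_simp

/-- **a spanning family in `B_K`** -/
theorem exists_v (H : Rel ML MK) (bK : Module.Basis (Fin r) K (Ω[K⁄L])) (hb : IsRelBasis MK bK)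
    (hHon : Honest L K) (N : ℕ) :
    ∃ (n : ℕ) (v : Fin n → MK.B), LinearIndependent L (fun i => (v i : K)) ∧
      (∀ i, PluriS L bK N (v i : K)) ∧
      ∀ g, Pluri L bK N g → g ∈ Submodule.span L (Set.range fun i => ((v i : MK.B) : K)) := by
  classical
  obtain ⟨n, v, hli, hv, hsp⟩ := SatG_152.exists_fam (CInd_870.rm H) bK N
  have h1 : ∀ i, PluriS L bK N (v i) := fun i => hHon r bK N (v i) (hv i)
  choose a ha ham using fun i => exists_den H bK hb (h1 i)
  have ha0 : ∀ i, (a i : L) ≠ 0 := fun i h => ha i (Subtype.ext h)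
  have hsm : ∀ i, algebraMap L K (a i) * v i = (a i : L) • v i := fun i => (Algebra.smul_def _ _).symm
  refine ⟨n, fun i => ⟨_, ham i⟩, ?_, fun i => ?_, fun g hg => ?_⟩
  · have h2 : (fun i => algebraMap L K (a i) * v i) =
        (fun i => (Units.mk0 (a i : L) (ha0 i)) • v i) := by
      funext i
      rw [hsm]
      rfl
    change LinearIndependent L (fun i => algebraMap L K (a i) * v i)
    rw [h2]
    exact hli.units_smul _
  · intro R hR
    obtain ⟨y, hy, hle⟩ := h1 i R hR
    refine ⟨y, hy, ?_⟩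
    change R.valuation (algebraMap L K (a i) * v i) ≤ _
    rw [map_mul]
    have h3 : R.valuation (algebraMap L K (a i)) ≤ 1 :=
      (ValuationSubring.valuation_le_one_iff _ _).2 (hR _)
    calc _ ≤ 1 * R.valuation (v i) := mul_le_mul_left h3 _
      _ ≤ _ := by rw [one_mul]; exact hle
  · refine Submodule.span_le.2 ?_ (hsp g hg)
    rintro _ ⟨i, rfl⟩
    have h4 : v i = (a i : L)⁻¹ • (algebraMap L K (a i) * v i) := by
      rw [hsm, smul_smul, inv_mul_cancel₀ (ha0 i), one_smul]
    have h5 : algebraMap L K (a i) * v i ∈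
        Submodule.span L (Set.range fun i => algebraMap L K (a i) * v i) :=
      Submodule.subset_span ⟨i, rfl⟩
    change v i ∈ Submodule.span L (Set.range fun i => algebraMap L K (a i) * v i)
    rw [h4]
    exact Submodule.smul_mem _ _ h5

end Crest.Agent.R276.Den_464
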