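import Crest.Agent.R276.DivVal8_858

/-! # Row 276, helper858: divisorial valuations, part 10: residual independence, Abhyankar. -/

set_option autoImplicit false

noncomputable section

namespace Crest.Agent.R276.DivVal_858

open IsLocalRing MvPolynomial Crest.Agent.R276.FKDefs_779 Cardinal

/-- `x` is a family of elements of `R` whose residues are algebraically independent over `k`. -/
def ResInd (k : Type*) {K : Type*} [Field k] [Field K] [Algebra k K] (R : ValuationSubring K)
    {ι : Type*} (x : ι → K) : Prop :=
  (∀ i, x i ∈ R) ∧ ∀ P : MvPolynomial ι k, P ≠ 0 → R.valuation (aeval x P) = 1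

section Basic

variable {k K : Type*} [Field k] [Field K] [Algebra k K] {R : ValuationSubring K}

theorem isDiv_iff {n : ℕ} : IsDiv k n R ↔ (∀ c : k, algebraMap k K c ∈ R) ∧ R ≠ ⊤ ∧
    ∃ x : Fin (n - 1) → K, ResInd k R x :=
  ⟨fun h => ⟨h.alg, h.ne_top, h.res⟩, fun h => ⟨h.1, h.2.1, h.2.2⟩⟩

theorem ResInd.algInd {ι : Type*} {x : ι → K} (h : ResInd k R x) : AlgebraicIndependent k x := by
  rw [algebraicIndependent_iff]
  intro P hP
  by_contra h0
  have := h.2 P h0
  rw [hP, map_zero] at this
  exact zero_ne_one this

theorem ResInd.comp {ι ι' : Type*} {x : ι → K} (h : ResInd k R x) (f : ι' → ι)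
    (hf : Function.Injective f) : ResInd k R (x ∘ f) := by
  refine ⟨fun i => h.1 _, fun P hP => ?_⟩
  have h1 : aeval (x ∘ f) P = aeval x (rename f P) := by rw [aeval_rename]
  rw [h1]
  apply h.2
  intro h0
  exact hP ((rename_injective f hf) (by rw [h0, map_zero]))

/-- elements of value `1` are those with non zero residue -/
theorem residue_ne_zero_iff (y : R) : residue R y ≠ 0 ↔ R.valuation (y : K) = 1 := by
  rw [Ne, residue_eq_zero_iff, ValuationSubring.valuation_lt_one_iff R y, not_lt]
  have := R.valuation_le_one y
  constructor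
  · intro h; exact le_antisymm this h
  · intro h; exact h.ge

/-- dictionary with algebraic independence of the residues -/
theorem resInd_iff [Algebra k R] (hkR : ∀ c : k, ((algebraMap k R c : R) : K) = algebraMap k K c)
    {ι : Type*} (x : ι → R) :
    ResInd k R (fun i => (x i : K)) ↔ AlgebraicIndependent k (fun i => residue R (x i)) := by
  have key : ∀ P : MvPolynomial ι k, aeval (fun i => residue R (x i)) P = residue R (aeval x P) := by
    intro P
    have := map_aeval x (residue R) P
    rw [this, aeval_def]
    rfl
  have key2 : ∀ P : MvPolynomial ι k, aeval (fun i => (x i : K)) P = ((aeval x P : R) : K) := by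
    intro P
    have := map_aeval x (algebraMap R K) P
    refine Eq.trans ?_ this.symm
    rw [aeval_def]
    congr 1
    ext c
    exact (hkR c).symm
  constructor
  · intro h
    rw [algebraicIndependent_iff]
    intro P hP
    by_contra h0
    have h1 := h.2 P h0
    rw [key2, ← residue_ne_zero_iff, ← key] at h1
    exact h1 hP
  · intro h
    refine ⟨fun i => (x i).2, fun P hP => ?_⟩
    rw [key2, ← residue_ne_zero_iff, ← key]
    intro h0
    exact hP ((algebraicIndependent_iff.mp h) P h0)

end Basic

section Abh

variable {k L K : Type*} [Field k] [Field L] [Field K] [Algebra L K]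
variable (R : ValuationSubring K) (S : ValuationSubring L)
variable [Algebra S R] [IsLocalHom (algebraMap S R)]

/-- **Abhyankar**: elements of `R` whose residues are algebraically independent over the residue
field of `S = R ∩ L` are algebraically independent over `L`. -/
theorem algInd_of_residue (hSR : ∀ c : S, ((algebraMap S R c : R) : K) = algebraMap L K c)
    {ι : Type*} (x : ι → R)
    (hx : AlgebraicIndependent (ResidueField S) (fun i => residue R (x i))) :
    AlgebraicIndependent L (fun i => (x i : K)) := by
  rw [algebraicIndependent_iff]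
  intro P hP
  by_contra h0
  have hsupp : P.support.Nonempty := by rwa [Finset.nonempty_iff_ne_empty, Ne, support_eq_empty]
  obtain ⟨d, hd, hmax⟩ := P.support.exists_max_image (fun e => S.valuation (P.coeff e)) hsupp
  set c := P.coeff d with hc
  have hc0 : c ≠ 0 := mem_support_iff.mp hd
  let P₁ : MvPolynomial ι L := C c⁻¹ * P
  have hco : ∀ e, P₁.coeff e ∈ S := by
    intro e
    rw [coeff_C_mul, ← ValuationSubring.valuation_le_one_iff, map_mul, map_inv₀]
    by_cases he : e ∈ P.support
    · have h1 := hmax e he
      have h2 : 0 < S.valuation c := (Valuation.pos_iff _).mpr hc0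
      exact inv_mul_le_one_of_le₀ h1 h2.le
    · rw [notMem_support_iff.mp he, map_zero, mul_zero]
      exact zero_le_one
  have hQ : ∃ Q : MvPolynomial ι S, MvPolynomial.map (algebraMap S L) Q = P₁ := by
    have : P₁ ∈ Set.range (MvPolynomial.map (algebraMap S L) : MvPolynomial ι S → MvPolynomial ι L) := by
      have h3 := (mem_range_map_iff_coeffs_subset (f := algebraMap S L) (x := P₁)).mpr
      apply h3
      intro a ha
      obtain ⟨e, -, rfl⟩ := mem_coeffs_iff.mp ha
      exact ⟨⟨_, hco e⟩, rfl⟩
    exact this
  obtain ⟨Q, hQ⟩ := hQ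
  have hQd : Q.coeff d = 1 := by
    have h1 : algebraMap S L (Q.coeff d) = 1 := by
      rw [← coeff_map, hQ, coeff_C_mul, ← hc, inv_mul_cancel₀ hc0]
    exact Subtype.ext h1
  have h2 : ((aeval x Q : R) : K) = 0 := by
    have h3 := map_aeval x (algebraMap R K) Q
    have h4 : eval₂ ((algebraMap R K).comp (algebraMap S R)) (fun i => algebraMap R K (x i)) Q =
        aeval (fun i => (x i : K)) P₁ := by
      rw [← hQ, aeval_def, eval₂_map]
      congr 1
      ext a
      exact hSR a
    have h5 : aeval (fun i => (x i : K)) P₁ = 0 := by
      rw [map_mul, hP, mul_zero]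
    exact h3.trans (h4.trans h5)
  have h6 : aeval x Q = (0 : R) := Subtype.ext h2
  have h7 : aeval (fun i => residue R (x i)) (MvPolynomial.map (residue S) Q) = 0 := by
    have h8 := map_aeval x (residue R) Q
    rw [h6, map_zero] at h8
    rw [aeval_def, eval₂_map]
    refine Eq.trans ?_ h8.symm
    congr 1
  have h9 := (algebraicIndependent_iff.mp hx) _ h7
  have h10 : (MvPolynomial.map (residue S) Q).coeff d = 1 := by rw [coeff_map, hQd, map_one]
  rw [h9, coeff_zero] at h10
  exact zero_ne_one h10

end Abh

end Crest.Agent.R276.DivVal_858
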