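import Crest.Agent.R276.DivVal11_858

/-! # Row 276, helper858: divisorial valuations, part 12: restriction to a subfield. -/

set_option autoImplicit false

noncomputable section

namespace Crest.Agent.R276.DivVal_858

open IsLocalRing MvPolynomial Crest.Agent.R276.FKDefs_779 Cardinal

section Count2

variable {k L K : Type*} [Field k] [Field L] [Field K] [Algebra k L] [Algebra k K] [Algebra L K]
variable [IsScalarTower k L K]
variable {R : ValuationSubring K} {S : ValuationSubring L}
variable [Algebra S R] [IsLocalHom (algebraMap S R)] [Algebra k S] [Algebra k R]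
variable [IsScalarTower k S R]
variable (hkS : ∀ c : k, ((algebraMap k S c : S) : L) = algebraMap k L c)
variable (hkR : ∀ c : k, ((algebraMap k R c : R) : K) = algebraMap k K c)
variable (hSR : ∀ c : S, ((algebraMap S R c : R) : K) = algebraMap L K c)

/-- an independent family over the residue field of `S` gives one over `L`. -/
theorem algInd_lift_of_residue (hSR : ∀ c : S, ((algebraMap S R c : R) : K) = algebraMap L K c)
    {q : ℕ} (x : Fin q → ResidueField R) (hx : AlgebraicIndependent (ResidueField S) x) :
    ∃ y : Fin q → R, (∀ i, residue R (y i) = x i) ∧ AlgebraicIndependent L (fun i => (y i : K)) := by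
  choose y hy using fun i => residue_surjective (R := R) (x i)
  refine ⟨y, hy, algInd_of_residue R S hSR y ?_⟩
  have : (fun i => residue R (y i)) = x := funext hy
  rw [this]
  exact hx

include hkS hkR hSR in
theorem counting {n m : ℕ} (hn : Algebra.trdeg k K = n) (hm : Algebra.trdeg k L = m) :
    ∃ a b : ℕ, Algebra.trdeg k (ResidueField S) = a ∧
      Algebra.trdeg (ResidueField S) (ResidueField R) = b ∧
      Algebra.trdeg k (ResidueField R) = (a + b : ℕ) ∧ a ≤ m ∧ m + b ≤ n := by
  obtain ⟨a, ha, ham⟩ := trdeg_residueField_le hkS hm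
  have hLK : ∃ e : ℕ, Algebra.trdeg L K = e ∧ m + e = n := by
    have h1 := lift_trdeg_add_eq k L K
    rw [hn, hm, Cardinal.lift_natCast, Cardinal.lift_natCast] at h1
    have h2 : Cardinal.lift (Algebra.trdeg L K) < ℵ₀ := by
      refine lt_of_le_of_lt ?_ (Cardinal.natCast_lt_aleph0 (n := n))
      rw [← h1]
      exact self_le_add_left _ _
    obtain ⟨e, he⟩ := Cardinal.lt_aleph0.mp (Cardinal.lift_lt_aleph0.mp h2)
    refine ⟨e, he, ?_⟩
    rw [he, Cardinal.lift_natCast] at h1
    exact_mod_cast h1
  obtain ⟨e, he, hmn⟩ := hLK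
  have hb : ∀ q : ℕ, (q : Cardinal) ≤ Algebra.trdeg (ResidueField S) (ResidueField R) → q ≤ e := by
    intro q hq
    obtain ⟨x, hx⟩ := exists_fin_of_le_trdeg _ _ hq
    obtain ⟨y, -, hy⟩ := algInd_lift_of_residue hSR x hx
    have := hy.lift_cardinalMk_le_trdeg
    rw [he] at this
    simpa using this
  have hblt : Algebra.trdeg (ResidueField S) (ResidueField R) < ℵ₀ := by
    by_contra h
    have h1 : ((e + 1 : ℕ) : Cardinal) ≤ Algebra.trdeg (ResidueField S) (ResidueField R) :=
      (Cardinal.natCast_lt_aleph0.le).trans (not_lt.mp h)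
    have := hb _ h1
    omega
  obtain ⟨b, hb'⟩ := Cardinal.lt_aleph0.mp hblt
  refine ⟨a, b, ha, hb', ?_, ham, ?_⟩
  · have h1 := lift_trdeg_add_eq k (ResidueField S) (ResidueField R)
    rw [ha, hb', Cardinal.lift_natCast, Cardinal.lift_natCast] at h1
    obtain ⟨c, hc, -⟩ := trdeg_residueField_le hkR hn
    rw [hc, Cardinal.lift_natCast] at h1
    rw [hc]
    have : a + b = c := by exact_mod_cast h1
    rw [this]
  · have := hb b hb'.ge
    omega

omit [IsScalarTower k L K] in
include hkS hkR hSR in
/-- extension of a residually independent family of `L` which is as long as possible. -/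
theorem exists_sumElim {a b : ℕ}
    (hb : Algebra.trdeg (ResidueField S) (ResidueField R) = b) (w : Fin a → L)
    (hw : ResInd k S w) :
    ∃ x : Fin b → K, (∀ i, x i ∈ R) ∧ ResInd k R (Sum.elim x (algebraMap L K ∘ w)) ∧
      AlgebraicIndependent L x := by
  obtain ⟨x', hx'⟩ := exists_fin_of_le_trdeg _ _ hb.ge
  obtain ⟨y, hy, hyL⟩ := algInd_lift_of_residue hSR x' hx'
  refine ⟨fun i => (y i : K), fun i => (y i).2, ?_, hyL⟩
  let w' : Fin a → S := fun i => ⟨w i, hw.1 i⟩
  have h1 : AlgebraicIndependent k (fun i => residue S (w' i)) := (resInd_iff hkS w').mp hw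
  have h2 := h1.sumElim_comp hx'
  let z : Fin b ⊕ Fin a → R := Sum.elim y (fun i => algebraMap S R (w' i))
  have h3 : (fun i => residue R (z i)) = Sum.elim x' (algebraMap (ResidueField S) (ResidueField R) ∘
      fun i => residue S (w' i)) := by
    funext i
    rcases i with i | i
    · exact hy i
    · rfl
  have h4 : ResInd k R (fun i => (z i : K)) := by
    rw [resInd_iff hkR z, h3]
    exact h2
  have h5 : (fun i => (z i : K)) = Sum.elim (fun i => (y i : K)) (algebraMap L K ∘ w) := by
    funext i
    rcases i with i | i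
    · rfl
    · exact hSR (w' i)
  rw [← h5]
  exact h4

end Count2

end Crest.Agent.R276.DivVal_858
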