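import Mathlib

/-! # Row 276, helper858: divisorial valuations, part 1.
`A` a domain in which `t` is prime, `C` its integral closure in a field `K` (assumed Noetherian),
`R` a valuation subring of `K` containing `A` with `m_R ∩ A = (t)`. Then `R` is the localisation of
`C` at the prime `m_R ∩ C`. -/

set_option autoImplicit false

namespace Crest.Agent.R276.DivVal_858

open IsLocalRing

section Loc

variable {A K C : Type*} [CommRing A] [IsDomain A] [IsNoetherianRing A] [Field K] [Algebra A K]
  [FaithfulSMul A K] [CommRing C] [IsDomain C] [Algebra A C] [Algebra C K] [IsScalarTower A C K]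
  [IsIntegralClosure C A K] [IsNoetherianRing C] [IsIntegrallyClosed C] [IsFractionRing C K]

/-- A nonzero prime ideal `P` of `C` inside the contraction of `m_R` contracts to `(t)`. -/
theorem mem_of_prime_ne_bot {A C : Type*} [CommRing A] [IsDomain A] [IsNoetherianRing A]
    [CommRing C] [IsDomain C] [Algebra A C] [Algebra.IsIntegral A C]
    (t : A) (ht : Prime t) (P : Ideal C) [P.IsPrime] (hP : P ≠ ⊥)
    (hsub : ∀ a : A, algebraMap A C a ∈ P → t ∣ a) : algebraMap A C t ∈ P := by
  -- P ∩ A ≠ 0
  have h1 : P.comap (algebraMap A C) ≠ ⊥ := by
    intro h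
    exact hP (Ideal.eq_bot_of_comap_eq_bot h)
  obtain ⟨a, haP, ha0⟩ := Submodule.exists_mem_ne_zero_of_ne_bot h1
  rw [Ideal.mem_comap] at haP
  obtain ⟨n, b, hb, rfl⟩ := WfDvdMonoid.max_power_factor ha0 ht.irreducible
  have hb' : algebraMap A C b ∉ P := fun h => hb (hsub b h)
  rw [map_mul, map_pow] at haP
  rcases (inferInstance : P.IsPrime).mem_or_mem haP with h | h
  · exact (inferInstance : P.IsPrime).mem_of_pow_mem _ h
  · exact absurd h hb'

theorem isLocalization_atPrime (R : ValuationSubring K) [Algebra C R] [IsScalarTower C R K]
    (t : A) (ht : Prime t)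
    (htR : ∀ a : A, algebraMap C R (algebraMap A C a) ∈ maximalIdeal R ↔ t ∣ a) :
    IsLocalization.AtPrime R ((maximalIdeal R).comap (algebraMap C R)) := by
  set q : Ideal C := (maximalIdeal R).comap (algebraMap C R) with hq
  have hint : Algebra.IsIntegral A C := IsIntegralClosure.isIntegral_algebra A K
  have hCK : Function.Injective (algebraMap C K) := FaithfulSMul.algebraMap_injective C K
  have hCR : Function.Injective (algebraMap C R) := by
    rw [IsScalarTower.algebraMap_eq C R K, RingHom.coe_comp] at hCK
    exact hCK.of_comp
  have hle : q.primeCompl ≤ nonZeroDivisors C := Ideal.primeCompl_le_nonZeroDivisors q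
  -- the local ring D
  let D := Localization.subalgebra.ofField K q.primeCompl hle
  have hD : IsLocalization.AtPrime D q := Localization.subalgebra.isLocalization_ofField K q.primeCompl hle
  have : IsLocalRing D := IsLocalization.AtPrime.isLocalRing D q
  have : IsNoetherianRing D := IsLocalization.isNoetherianRing q.primeCompl D inferInstance
  have : IsIntegrallyClosed D := isIntegrallyClosed_of_isLocalization D q.primeCompl hle
  have hval : ValuationRing D := by
    have htf := (tfae_of_isNoetherianRing_of_isLocalRing_of_isDomain D).out 1 3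
    refine htf.mpr ⟨inferInstance, fun P hP hPp => ?_⟩
    have hPc : (P.under C).IsPrime := Ideal.IsPrime.comap _
    have h2 : P.under C ≤ q := by
      have := IsLocalization.AtPrime.under_maximalIdeal D q
      rw [← this]
      exact Ideal.comap_mono (le_maximalIdeal hPp.ne_top)
    have h3 : P.under C ≠ ⊥ := by
      intro h
      apply hP
      have := IsLocalization.map_under q.primeCompl D P
      rw [h, Ideal.map_bot] at this
      exact this.symm
    have h4 : algebraMap A C t ∈ P.under C := by
      refine mem_of_prime_ne_bot t ht _ h3 (fun a ha => ?_)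
      exact (htR a).mp (h2 ha)
    have h5 : (P.under C).comap (algebraMap A C) = q.comap (algebraMap A C) := by
      apply le_antisymm (Ideal.comap_mono h2)
      intro a ha
      have ha' : t ∣ a := (htR a).mp ha
      obtain ⟨b, rfl⟩ := ha'
      rw [Ideal.mem_comap, map_mul]
      exact Ideal.mul_mem_right _ _ h4
    have h6 : P.under C = q := by
      by_contra hne
      have hlt : P.under C < q := lt_of_le_of_ne h2 hne
      have hlt' := Ideal.IsIntegral.comap_lt_comap (R := A) hlt
      exact (ne_of_lt hlt') h5
    have h7 := IsLocalization.map_under q.primeCompl D P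
    rw [h6] at h7
    rw [← h7, IsLocalization.AtPrime.map_eq_maximalIdeal q D]
  have : IsFractionRing D K := Localization.subalgebra.isFractionRing_ofField K q.primeCompl hle
  have hmemD : ∀ x : K, x ∈ D → ∃ c s : C, s ∉ q ∧ x * algebraMap C K s = algebraMap C K c := by
    intro x hx
    obtain ⟨⟨c, s⟩, hcs⟩ := IsLocalization.surj (M := q.primeCompl) (⟨x, hx⟩ : D)
    refine ⟨c, s, s.2, ?_⟩
    have := congrArg (fun y : D => (y : K)) hcs
    simpa using this
  rw [IsLocalization.AtPrime, isLocalization_iff]
  refine ⟨?_, ?_, ?_⟩
  · rintro ⟨s, hs⟩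
    by_contra h
    exact hs ((mem_maximalIdeal _).mpr h)
  · intro x
    have key : ∃ c s : C, s ∉ q ∧ (x : K) * algebraMap C K s = algebraMap C K c := by
      rcases (ValuationRing.iff_isInteger_or_isInteger D K).mp hval (x : K) with h | h
      · obtain ⟨y, hy⟩ := h
        apply hmemD
        rw [← hy]
        exact y.2
      · obtain ⟨y, hy⟩ := h
        have hy' : ((x : K))⁻¹ ∈ D := by
          rw [← hy]; exact y.2
        obtain ⟨c, s, hs, hcs⟩ := hmemD _ hy'
        by_cases hx0 : (x : K) = 0
        · exact ⟨0, 1, fun h => (inferInstance : q.IsPrime).ne_top ((Ideal.eq_top_iff_one _).mpr h), by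
            simp [hx0]⟩
        have hxc : (x : K) * algebraMap C K c = algebraMap C K s := by
          rw [← hcs]; field_simp
        have hcq : c ∉ q := by
          intro hc
          apply hs
          rw [hq, Ideal.mem_comap] at hc ⊢
          have : algebraMap C R s = x * algebraMap C R c := by
            apply Subtype.ext
            have e1 : ((algebraMap C R s : R) : K) = algebraMap C K s :=
              (IsScalarTower.algebraMap_apply C R K s).symm
            have e2 : ((algebraMap C R c : R) : K) = algebraMap C K c :=
              (IsScalarTower.algebraMap_apply C R K c).symm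
            rw [e1]
            change _ = (x : K) * ((algebraMap C R c : R) : K)
            rw [e2, hxc]
          rw [this]
          exact Ideal.mul_mem_left _ _ hc
        exact ⟨s, c, hcq, hxc⟩
    obtain ⟨c, s, hs, hcs⟩ := key
    refine ⟨⟨c, ⟨s, hs⟩⟩, ?_⟩
    apply Subtype.ext
    have e1 : ((algebraMap C R s : R) : K) = algebraMap C K s :=
      (IsScalarTower.algebraMap_apply C R K s).symm
    have e2 : ((algebraMap C R c : R) : K) = algebraMap C K c :=
      (IsScalarTower.algebraMap_apply C R K c).symm
    change (x : K) * ((algebraMap C R s : R) : K) = ((algebraMap C R c : R) : K)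
    rw [e1, e2, hcs]
  · intro a b hab
    exact ⟨1, by simp [hCR hab]⟩

end Loc

end Crest.Agent.R276.DivVal_858
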