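import Crest.Agent.R276.DivVal1_858

/-! # Row 276, helper858: divisorial valuations, part 2: étaleness over a DVR. -/

set_option autoImplicit false

namespace Crest.Agent.R276.DivVal_858

open IsLocalRing TensorProduct

section DVR

variable {O K : Type*} [CommRing O] [IsDomain O] [IsDiscreteValuationRing O] [Field K] [Algebra O K]
  [FaithfulSMul O K] (F : Type*) [Field F] [Algebra O F] [IsFractionRing O F] [Algebra F K]
  [IsScalarTower O F K] [FiniteDimensional F K] [Algebra.IsSeparable F K]

include F in
/-- A valuation ring `R` of `K` dominating the DVR `O`, unramified over `O` in the naive sense, is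
formally étale over `O`. -/
theorem formallyEtale_of_dvr (R : ValuationSubring K) [Algebra O R] [IsScalarTower O R K]
    [IsLocalHom (algebraMap O R)]
    (hmap : (maximalIdeal O).map (algebraMap O R) = maximalIdeal R)
    [Algebra.IsSeparable (ResidueField O) (ResidueField R)] :
    Algebra.FormallyEtale O R := by
  obtain ⟨t, ht⟩ := IsDiscreteValuationRing.exists_prime O
  -- the integral closure
  let B := integralClosure O K
  have hBR : ∀ b : B, (b : K) ∈ R := by
    rintro ⟨b, hb⟩
    have hb' : IsIntegral R b := hb.tower_top
    obtain ⟨y, hy⟩ := IsIntegrallyClosed.isIntegral_iff.mp hb'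
    have hy' : (y : K) = b := hy
    change b ∈ R
    exact hy' ▸ y.2
  let : Algebra B R := (RingHom.codRestrict (algebraMap B K) R.toSubring hBR).toAlgebra
  have : IsScalarTower B R K := IsScalarTower.of_algebraMap_eq (fun b => rfl)
  have : IsScalarTower O B R := IsScalarTower.of_algebraMap_eq (fun o => by
    apply Subtype.ext
    have h1 : ((algebraMap O R o : R) : K) = algebraMap O K o :=
      (IsScalarTower.algebraMap_apply O R K o).symm
    rw [h1]
    rfl)
  have : IsIntegralClosure B O K := inferInstance
  have : Module.Finite O B := IsIntegralClosure.finite O F K B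
  have : IsNoetherianRing B := IsIntegralClosure.isNoetherianRing O F K B
  have : IsFractionRing B K := IsIntegralClosure.isFractionRing_of_finite_extension O F K B
  have : IsIntegrallyClosed B := integralClosure.isIntegrallyClosedOfFiniteExtension F
  have hloc : IsLocalization.AtPrime R ((maximalIdeal R).comap (algebraMap B R)) := by
    refine isLocalization_atPrime (A := O) R t ht (fun a => ?_)
    rw [← IsScalarTower.algebraMap_apply O B R]
    have h1 : algebraMap O R a ∈ maximalIdeal R ↔ a ∈ maximalIdeal O := by
      rw [mem_maximalIdeal, mem_maximalIdeal, mem_nonunits_iff, mem_nonunits_iff,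
        isUnit_map_iff]
    rw [h1, ht.irreducible.maximalIdeal_eq, Ideal.mem_span_singleton]
  have : Algebra.FinitePresentation O B := Algebra.FinitePresentation.of_finiteType.mp inferInstance
  have : Module.Flat O R := by
    have : FaithfulSMul O R := by
      rw [faithfulSMul_iff_algebraMap_injective]
      have h1 : Function.Injective (algebraMap O K) := FaithfulSMul.algebraMap_injective O K
      rw [IsScalarTower.algebraMap_eq O R K, RingHom.coe_comp] at h1
      exact h1.of_comp
    rw [Module.Flat.flat_iff_torsion_eq_bot_of_isBezout, ← Submodule.isTorsionFree_iff_torsion_eq_bot]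
    infer_instance
  have : Algebra.EssFiniteType O R := by
    have : Algebra.EssFiniteType B R := Algebra.EssFiniteType.of_isLocalization R
      ((maximalIdeal R).comap (algebraMap B R)).primeCompl
    exact Algebra.EssFiniteType.comp O B R
  have : Algebra.FormallyUnramified O R := Algebra.FormallyUnramified.of_map_maximalIdeal hmap
  have : Algebra.FormallyEtale (ResidueField O) (ResidueField O ⊗[O] R) :=
    Algebra.FormallyEtale.of_formallyUnramified_of_field _ _
  have : Algebra.FormallySmooth O R :=
    Algebra.FormallySmooth.of_formallySmooth_residueField_tensor (R := O) (S := R) (P := B)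
      ((maximalIdeal R).comap (algebraMap B R)).primeCompl
  exact Algebra.FormallyEtale.iff_formallyUnramified_and_formallySmooth.mpr ⟨inferInstance, inferInstance⟩

end DVR

end Crest.Agent.R276.DivVal_858
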