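import Crest.Agent.R276.DivVal2_858

/-! # Row 276, helper858: divisorial valuations, part 3: from a normal domain `A` with prime `t`. -/

set_option autoImplicit false

namespace Crest.Agent.R276.DivVal_858

open IsLocalRing TensorProduct

section Normal

variable (k : Type*) [Field k] [CharZero k]
variable {A K : Type*} [CommRing A] [IsDomain A] [IsNoetherianRing A] [IsIntegrallyClosed A]
  [Algebra k A] [Field K] [Algebra A K]
  [FaithfulSMul A K] (F : Type*) [Field F] [Algebra A F] [IsFractionRing A F] [Algebra F K]
  [IsScalarTower A F K] [FiniteDimensional F K]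

include k F in
theorem formallyEtale_of_prime (R : ValuationSubring K) [Algebra A R] [IsScalarTower A R K]
    (t : A) (ht : Prime t) (htR : ∀ a : A, algebraMap A R a ∈ maximalIdeal R ↔ t ∣ a)
    (hgen : maximalIdeal R = Ideal.span {algebraMap A R t})
    (halg : ∀ x : R, ∃ P : Polynomial A, (∃ i, ¬ t ∣ P.coeff i) ∧
      Polynomial.aeval x P ∈ maximalIdeal R) :
    Algebra.FormallyEtale A R := by
  have hp : (Ideal.span {t}).IsPrime := (Ideal.span_singleton_prime ht.ne_zero).mpr ht
  let O := Localization.AtPrime (Ideal.span {t})
  have hunit : ∀ y : (Ideal.span {t}).primeCompl, IsUnit (algebraMap A R y) := by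
    rintro ⟨y, hy⟩
    by_contra h
    apply hy
    rw [SetLike.mem_coe, Ideal.mem_span_singleton, ← htR]
    exact (mem_maximalIdeal _).mpr h
  let φ : O →+* R := IsLocalization.lift (M := (Ideal.span {t}).primeCompl) hunit
  let : Algebra O R := φ.toAlgebra
  have : IsScalarTower A O R := IsScalarTower.of_algebraMap_eq (fun a => by
    change _ = φ (algebraMap A O a)
    rw [IsLocalization.lift_eq])
  let : Algebra O K := ((algebraMap R K).comp φ).toAlgebra
  have : IsScalarTower O R K := IsScalarTower.of_algebraMap_eq (fun a => rfl)
  have : IsScalarTower A O K := IsScalarTower.of_algebraMap_eq (fun a => by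
    rw [IsScalarTower.algebraMap_apply A R K, IsScalarTower.algebraMap_apply A O R,
      ← IsScalarTower.algebraMap_apply O R K])
  -- the algebra structure on F
  have hunitF : ∀ y : (Ideal.span {t}).primeCompl, IsUnit (algebraMap A F y) := by
    rintro ⟨y, hy⟩
    have hy0 : y ≠ 0 := by
      rintro rfl
      exact hy (Ideal.zero_mem _)
    exact IsUnit.mk0 _ (by simpa using hy0)
  let ψ : O →+* F := IsLocalization.lift (M := (Ideal.span {t}).primeCompl) hunitF
  let : Algebra O F := ψ.toAlgebra
  have : IsScalarTower A O F := IsScalarTower.of_algebraMap_eq (fun a => by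
    change _ = ψ (algebraMap A O a)
    rw [IsLocalization.lift_eq])
  have : IsFractionRing O F :=
    IsFractionRing.isFractionRing_of_isDomain_of_isLocalization (Ideal.span {t}).primeCompl O F
  have : IsScalarTower O F K := by
    have h : algebraMap O K = (algebraMap F K).comp (algebraMap O F) := by
      apply IsLocalization.ringHom_ext (Ideal.span {t}).primeCompl
      rw [RingHom.comp_assoc, ← IsScalarTower.algebraMap_eq A O F,
        ← IsScalarTower.algebraMap_eq A O K, ← IsScalarTower.algebraMap_eq A F K]
    exact IsScalarTower.of_algebraMap_eq' h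
  have : IsDomain O := IsLocalization.isDomain_of_le_nonZeroDivisors O
    (Ideal.primeCompl_le_nonZeroDivisors (Ideal.span {t}))
  have hmaxO : maximalIdeal O = Ideal.span {algebraMap A O t} := by
    rw [← IsLocalization.AtPrime.map_eq_maximalIdeal (Ideal.span {t}) O, Ideal.map_span,
      Set.image_singleton]
  have : IsNoetherianRing O := IsLocalization.isNoetherianRing (Ideal.span {t}).primeCompl O
    inferInstance
  have htO : algebraMap A O t ≠ 0 := by
    intro h
    have h2 : Function.Injective (algebraMap A O) :=
      IsLocalization.injective O (Ideal.primeCompl_le_nonZeroDivisors (Ideal.span {t}))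
    exact ht.ne_zero (h2 (by rw [h, map_zero]))
  have hnf : ¬ IsField O := by
    intro h
    rw [IsLocalRing.isField_iff_maximalIdeal_eq, hmaxO, Ideal.span_singleton_eq_bot] at h
    exact htO h
  have : IsDiscreteValuationRing O := by
    have htf := (IsDiscreteValuationRing.TFAE O hnf).out 0 4
    exact htf.mpr ⟨⟨algebraMap A O t, hmaxO⟩⟩
  have : FaithfulSMul O K := by
    rw [faithfulSMul_iff_algebraMap_injective, IsScalarTower.algebraMap_eq O F K,
      RingHom.coe_comp]
    exact (FaithfulSMul.algebraMap_injective F K).comp (IsFractionRing.injective O F)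
  have htR' : algebraMap A R t ∈ maximalIdeal R := (htR t).mpr dvd_rfl
  have : IsLocalHom (algebraMap O R) := by
    refine ⟨fun a ha => ?_⟩
    by_contra hna
    have h1 : a ∈ maximalIdeal O := (mem_maximalIdeal _).mpr hna
    rw [hmaxO, Ideal.mem_span_singleton] at h1
    obtain ⟨b, rfl⟩ := h1
    rw [map_mul, ← IsScalarTower.algebraMap_apply A O R] at ha
    exact (mem_maximalIdeal _).mp htR' (isUnit_of_mul_isUnit_left ha)
  have hmap : (maximalIdeal O).map (algebraMap O R) = maximalIdeal R := by
    rw [hmaxO, Ideal.map_span, Set.image_singleton, ← IsScalarTower.algebraMap_apply A O R, hgen]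
  have : CharZero (ResidueField O) := by
    let : Algebra k (ResidueField O) :=
      ((algebraMap A (ResidueField O)).comp (algebraMap k A)).toAlgebra
    exact charZero_of_injective_algebraMap (algebraMap k (ResidueField O)).injective
  have : Algebra.IsAlgebraic (ResidueField O) (ResidueField R) := by
    have : IsScalarTower A (ResidueField O) (ResidueField R) := by
      refine IsScalarTower.of_algebraMap_eq (fun a => ?_)
      rw [IsScalarTower.algebraMap_apply A O (ResidueField O),
        IsScalarTower.algebraMap_apply A R (ResidueField R),
        IsScalarTower.algebraMap_apply A O R]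
      rfl
    refine ⟨fun y => ?_⟩
    obtain ⟨x, rfl⟩ := IsLocalRing.residue_surjective y
    obtain ⟨P, ⟨i, hi⟩, hP⟩ := halg x
    refine ⟨P.map (algebraMap A (ResidueField O)), ?_, ?_⟩
    · intro h0
      have h1 : algebraMap A (ResidueField O) (P.coeff i) = 0 := by
        rw [← Polynomial.coeff_map, h0, Polynomial.coeff_zero]
      rw [IsScalarTower.algebraMap_apply A O (ResidueField O)] at h1
      have h2 : algebraMap A O (P.coeff i) ∈ maximalIdeal O :=
        (IsLocalRing.residue_eq_zero_iff _).mp h1
      have h3 : algebraMap O R (algebraMap A O (P.coeff i)) ∈ maximalIdeal R := by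
        rw [mem_maximalIdeal, mem_nonunits_iff, isUnit_map_iff]
        exact (mem_maximalIdeal _).mp h2
      rw [← IsScalarTower.algebraMap_apply A O R, htR] at h3
      exact hi h3
    · rw [Polynomial.aeval_map_algebraMap]
      have h1 : residue R (Polynomial.aeval x P) = 0 := (IsLocalRing.residue_eq_zero_iff _).mpr hP
      have h2 : Polynomial.aeval (residue R x) P = residue R (Polynomial.aeval x P) := by
        have := Polynomial.aeval_algebraMap_apply (ResidueField R) x P
        exact this
      rw [h2, h1]
  have : CharZero F := by
    let : Algebra k F := ((algebraMap A F).comp (algebraMap k A)).toAlgebra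
    exact charZero_of_injective_algebraMap (algebraMap k F).injective
  have : Algebra.FormallyEtale O R := formallyEtale_of_dvr F R hmap
  have : Algebra.FormallyEtale A O := Algebra.FormallyEtale.of_isLocalization (Ideal.span {t}).primeCompl
  exact Algebra.FormallyEtale.comp A O R

end Normal

end Crest.Agent.R276.DivVal_858
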