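import Crest.Agent.R276.DivVal3_858

/-! # Row 276, helper858: divisorial valuations, part 4: the étale model. -/

set_option autoImplicit false

namespace Crest.Agent.R276.DivVal_858

open IsLocalRing TensorProduct

section Model

variable (k : Type*) [Field k] [CharZero k]
variable {A K : Type*} [CommRing A] [IsDomain A] [IsNoetherianRing A] [IsIntegrallyClosed A]
  [Algebra k A] [Field K] [Algebra A K]
  [FaithfulSMul A K] (F : Type*) [Field F] [Algebra A F] [IsFractionRing A F] [Algebra F K]
  [IsScalarTower A F K] [FiniteDimensional F K]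

include k F in
/-- The étale model of a divisorial valuation ring `R` over a normal Noetherian domain `A` in which
`m_R ∩ A = (t)`, `m_R = t R`, with algebraic residue extension. -/
theorem exists_etale_subalgebra (R : ValuationSubring K) [Algebra A R] [IsScalarTower A R K]
    (t : A) (ht : Prime t) (htR : ∀ a : A, algebraMap A R a ∈ maximalIdeal R ↔ t ∣ a)
    (hgen : maximalIdeal R = Ideal.span {algebraMap A R t})
    (halg : ∀ x : R, ∃ P : Polynomial A, (∃ i, ¬ t ∣ P.coeff i) ∧
      Polynomial.aeval x P ∈ maximalIdeal R) :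
    ∃ B : Subalgebra A K, (∀ x ∈ B, x ∈ R) ∧ Algebra.Etale A B ∧ IsFractionRing B K ∧
      Prime (algebraMap A B t) ∧
      (∀ x : K, x ∈ R ↔ ∃ a b : B, ¬ algebraMap A B t ∣ b ∧ x * (b : K) = a) ∧
      (∀ b : B, (∃ y ∈ maximalIdeal R, (y : K) = b) ↔ algebraMap A B t ∣ b) := by
  classical
  have hFE : Algebra.FormallyEtale A R := formallyEtale_of_prime k F R t ht htR hgen halg
  have hF0 : CharZero F := by
    let : Algebra k F := ((algebraMap A F).comp (algebraMap k A)).toAlgebra
    exact charZero_of_injective_algebraMap (algebraMap k F).injective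
  let C := integralClosure A K
  have hCR : ∀ b : C, (b : K) ∈ R := by
    rintro ⟨b, hb⟩
    have hb' : IsIntegral R b := hb.tower_top
    obtain ⟨y, hy⟩ := IsIntegrallyClosed.isIntegral_iff.mp hb'
    have hy' : (y : K) = b := hy
    change b ∈ R
    exact hy' ▸ y.2
  let : Algebra C R := (RingHom.codRestrict (algebraMap C K) R.toSubring hCR).toAlgebra
  have : IsScalarTower C R K := IsScalarTower.of_algebraMap_eq (fun b => rfl)
  have : IsScalarTower A C R := IsScalarTower.of_algebraMap_eq (fun o => by
    apply Subtype.ext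
    have h1 : ((algebraMap A R o : R) : K) = algebraMap A K o :=
      (IsScalarTower.algebraMap_apply A R K o).symm
    rw [h1]
    rfl)
  have : IsIntegralClosure C A K := inferInstance
  have : Module.Finite A C := IsIntegralClosure.finite A F K C
  have : IsNoetherianRing C := IsIntegralClosure.isNoetherianRing A F K C
  have : IsFractionRing C K := IsIntegralClosure.isFractionRing_of_finite_extension A F K C
  have : IsIntegrallyClosed C := integralClosure.isIntegrallyClosedOfFiniteExtension F
  set q : Ideal C := (maximalIdeal R).comap (algebraMap C R) with hq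
  have hqp : q.IsPrime := Ideal.IsPrime.comap _
  have hloc : IsLocalization.AtPrime R q := by
    refine isLocalization_atPrime (A := A) R t ht (fun a => ?_)
    rw [← IsScalarTower.algebraMap_apply A C R]
    exact htR a
  have : Algebra.FinitePresentation A C := Algebra.FinitePresentation.of_finiteType.mp inferInstance
  -- étale at q
  have hEt : Algebra.IsEtaleAt A q := by
    let e : R ≃ₐ[C] Localization.AtPrime q := IsLocalization.algEquiv q.primeCompl R _
    exact Algebra.FormallyEtale.of_equiv (e.restrictScalars A)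
  obtain ⟨g, hgq, hg⟩ := Algebra.exists_etale_of_isEtaleAt (R := A) q
  -- (t) = q near q
  have htq : algebraMap A C t ∈ q := by
    rw [hq, Ideal.mem_comap, ← IsScalarTower.algebraMap_apply A C R]
    exact (htR t).mpr dvd_rfl
  have hs : ∃ s : C, s ∉ q ∧ ∀ c ∈ q, algebraMap A C t ∣ s * c := by
    have hfg : q.FG := (isNoetherianRing_iff_ideal_fg C).mp inferInstance q
    obtain ⟨T, hT⟩ := hfg
    have h1 : ∀ c ∈ q, ∃ s : C, s ∉ q ∧ algebraMap A C t ∣ s * c := by
      intro c hc
      have hc' : algebraMap C R c ∈ maximalIdeal R := hc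
      rw [hgen, Ideal.mem_span_singleton] at hc'
      obtain ⟨x, hx⟩ := hc'
      obtain ⟨⟨a, s⟩, has⟩ := IsLocalization.surj (M := q.primeCompl) x
      refine ⟨s, s.2, a, ?_⟩
      have hinj : Function.Injective (algebraMap C R) :=
        IsLocalization.injective R (Ideal.primeCompl_le_nonZeroDivisors q)
      apply hinj
      rw [map_mul, hx, map_mul, ← IsScalarTower.algebraMap_apply A C R, ← has]
      ring
    choose! s hs1 hs2 using h1
    refine ⟨∏ c ∈ T, s c, ?_, ?_⟩
    · intro h
      obtain ⟨c, hcT, hc⟩ := (Ideal.IsPrime.prod_mem_iff (hp := hqp)).mp h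
      exact hs1 c (hT ▸ Ideal.subset_span hcT) hc
    · intro c hc
      rw [← hT] at hc
      induction hc using Submodule.span_induction with
      | mem x hx =>
        have hxq : x ∈ q := hT ▸ Ideal.subset_span hx
        obtain ⟨d, hd⟩ := hs2 x hxq
        rw [← Finset.mul_prod_erase T s hx]
        exact ⟨d * ∏ c ∈ T.erase x, s c, by rw [mul_right_comm, hd]; ring⟩
      | zero => simp
      | add x y _ _ hx hy => rw [mul_add]; exact dvd_add hx hy
      | smul a x _ hx => rw [smul_eq_mul, mul_left_comm]; exact Dvd.dvd.mul_left hx a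
  obtain ⟨s, hsq, hs⟩ := hs
  set h : C := g * s with hh
  have hhq : h ∉ q := hqp.mul_notMem hgq hsq
  have hle : Submonoid.powers h ≤ nonZeroDivisors C := by
    refine powers_le_nonZeroDivisors_of_noZeroDivisors ?_
    rintro h0
    exact hhq (h0 ▸ q.zero_mem)
  let B0 : Subalgebra C K := Localization.subalgebra.ofField K (Submonoid.powers h) hle
  have hB0 : IsLocalization (Submonoid.powers h) B0 :=
    Localization.subalgebra.isLocalization_ofField K (Submonoid.powers h) hle
  have hB0' : IsLocalization.Away h B0 := hB0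
  let B : Subalgebra A K := B0.restrictScalars A
  have hEtB : Algebra.Etale A B := by
    have h1 : Algebra.Etale A (Localization.Away h) := by
      rw [← Algebra.basicOpen_subset_etaleLocus_iff_etale] at hg ⊢
      exact Set.Subset.trans (PrimeSpectrum.basicOpen_mul_le_left g s) hg
    let e : Localization.Away h ≃ₐ[C] B0 := IsLocalization.algEquiv (Submonoid.powers h) _ _
    exact Algebra.Etale.of_equiv (e.restrictScalars A)
  have hmemB : ∀ x : K, x ∈ B ↔ ∃ (n : ℕ) (c : C), x * (h : K) ^ n = c := by
    intro x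
    constructor
    · intro hx
      obtain ⟨⟨c, ⟨_, n, rfl⟩⟩, hcs⟩ := IsLocalization.surj (M := Submonoid.powers h) (⟨x, hx⟩ : B0)
      refine ⟨n, c, ?_⟩
      have := congrArg (fun y : B0 => (y : K)) hcs
      simpa using this
    · rintro ⟨n, c, hx⟩
      have h2 : ((IsLocalization.mk' B0 c (⟨h ^ n, n, rfl⟩ : Submonoid.powers h) : B0) : K) = x := by
        have h3 := IsLocalization.mk'_spec B0 c (⟨h ^ n, n, rfl⟩ : Submonoid.powers h)
        have h4 := congrArg (fun y : B0 => (y : K)) h3
        have h5 : ((IsLocalization.mk' B0 c (⟨h ^ n, n, rfl⟩ : Submonoid.powers h) : B0) : K) *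
          (h : K) ^ n = c := by simpa using h4
        have h6 : (h : K) ^ n ≠ 0 := by
          apply pow_ne_zero
          intro h0
          have : h = 0 := Subtype.ext (by simpa using h0)
          exact hhq (this ▸ q.zero_mem)
        exact mul_right_cancel₀ h6 (h5.trans hx.symm)
      rw [← h2]
      exact SetLike.coe_mem _
  have hC_coe : ∀ c : C, ((algebraMap C R c : R) : K) = (c : K) := fun c => rfl
  have hhR : IsUnit (algebraMap C R h) := by
    by_contra h0
    exact hhq h0
  obtain ⟨u, hu⟩ := hhR
  have huK : ((u : R) : K) = (h : K) := by rw [hu]; rfl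
  have huinv : (h : K) * ((u⁻¹ : Rˣ) : R) = 1 := by
    rw [← huK]
    exact congrArg (fun y : R => (y : K)) (u.mul_inv)
  have hBR : ∀ x ∈ B, x ∈ R := by
    intro x hx
    obtain ⟨n, c, hxc⟩ := (hmemB x).mp hx
    have h1 : x = (c : K) * (((u⁻¹ : Rˣ) : R) : K) ^ n := by
      rw [← hxc, mul_assoc, ← mul_pow, huinv, one_pow, mul_one]
    rw [h1]
    exact R.mul_mem _ _ (hCR c) (R.toSubring.pow_mem (SetLike.coe_mem _) n)
  have hCB : ∀ c : C, (c : K) ∈ B := fun c => (hmemB _).mpr ⟨0, c, by simp⟩
  have htB : ((algebraMap A B t : B) : K) = algebraMap A K t := rfl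
  have htRK : ((algebraMap A R t : R) : K) = algebraMap A K t :=
    (IsScalarTower.algebraMap_apply A R K t).symm
  have hdvd : ∀ b : B, (∃ y ∈ maximalIdeal R, (y : K) = b) ↔ algebraMap A B t ∣ b := by
    intro b
    constructor
    · rintro ⟨y, hy, hyb⟩
      obtain ⟨n, c, hbc⟩ := (hmemB b).mp b.2
      have hcq : c ∈ q := by
        have h1 : algebraMap C R c = y * algebraMap C R h ^ n := by
          apply Subtype.ext
          have : ((y * algebraMap C R h ^ n : R) : K) = (y : K) * (h : K) ^ n := by
            push_cast; rfl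
          rw [this, hyb, hbc]
          rfl
        rw [hq, Ideal.mem_comap, h1]
        exact Ideal.mul_mem_right _ _ hy
      obtain ⟨d, hd⟩ := hs c hcq
      have hdK : (s : K) * (c : K) = algebraMap A K t * (d : K) := by
        have := congrArg (fun y : C => (y : K)) hd
        simpa using this
      have hh0 : (h : K) ≠ 0 := by
        rintro h0
        rw [h0, zero_mul] at huinv
        exact zero_ne_one huinv
      have hz : (g : K) * (d : K) * ((h : K) ^ (n + 1))⁻¹ ∈ B := by
        rw [hmemB]
        refine ⟨n + 1, g * d, ?_⟩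
        rw [mul_assoc, inv_mul_cancel₀ (pow_ne_zero _ hh0), mul_one]
        rfl
      refine ⟨⟨_, hz⟩, ?_⟩
      apply Subtype.ext
      change (b : K) = algebraMap A K t * ((g : K) * (d : K) * ((h : K) ^ (n + 1))⁻¹)
      have h2 : (h : K) = (g : K) * (s : K) := rfl
      have h3 : (b : K) * (h : K) ^ (n + 1) = algebraMap A K t * ((g : K) * (d : K)) := by
        calc (b : K) * (h : K) ^ (n + 1) = ((b : K) * (h : K) ^ n) * (h : K) := by ring
          _ = (g : K) * ((s : K) * (c : K)) := by rw [hbc, h2]; ring
          _ = algebraMap A K t * ((g : K) * (d : K)) := by rw [hdK]; ring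
      rw [← mul_assoc, eq_mul_inv_iff_mul_eq₀ (pow_ne_zero _ hh0), h3]
    · rintro ⟨d, rfl⟩
      refine ⟨algebraMap A R t * ⟨(d : K), hBR _ d.2⟩, ?_, ?_⟩
      · exact Ideal.mul_mem_right _ _ ((htR t).mpr dvd_rfl)
      · change ((algebraMap A R t : R) : K) * (d : K) = algebraMap A K t * (d : K)
        rw [htRK]
  have hFB : IsFractionRing B K :=
    (inferInstance : IsFractionRing B0 K)
  refine ⟨B, hBR, hEtB, hFB, ?_, ?_, hdvd⟩
  · refine ⟨?_, ?_, ?_⟩
    · intro h0
      have h1 : algebraMap A K t = 0 := by rw [← htB, h0]; rfl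
      exact ht.ne_zero ((FaithfulSMul.algebraMap_injective A K) (by rw [h1, map_zero]))
    · intro h0
      obtain ⟨y, hy, hyt⟩ := (hdvd 1).mpr (h0.dvd)
      have : y = 1 := Subtype.ext (by rw [hyt]; rfl)
      rw [this] at hy
      exact (Ideal.ne_top_iff_one _).mp (maximalIdeal.isMaximal R).ne_top hy
    · intro a b hab
      obtain ⟨y, hy, hyab⟩ := (hdvd _).mpr hab
      have h1 : y = (⟨(a : K), hBR _ a.2⟩ : R) * ⟨(b : K), hBR _ b.2⟩ := by
        apply Subtype.ext
        rw [hyab]
        rfl
      rw [h1] at hy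
      rcases (maximalIdeal.isMaximal R).isPrime.mem_or_mem hy with h2 | h2
      · exact Or.inl ((hdvd a).mp ⟨_, h2, rfl⟩)
      · exact Or.inr ((hdvd b).mp ⟨_, h2, rfl⟩)
  · intro x
    constructor
    · intro hx
      obtain ⟨⟨c, s'⟩, hcs⟩ := IsLocalization.surj (M := q.primeCompl) (⟨x, hx⟩ : R)
      refine ⟨⟨(c : K), hCB c⟩, ⟨((s' : C) : K), hCB s'⟩, ?_, ?_⟩
      · intro h0
        obtain ⟨y, hy, hys⟩ := (hdvd _).mpr h0
        apply s'.2
        change algebraMap C R (s' : C) ∈ maximalIdeal R
        have : algebraMap C R (s' : C) = y := Subtype.ext hys.symm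
        rw [this]
        exact hy
      · have := congrArg (fun y : R => (y : K)) hcs
        exact this
    · rintro ⟨a, b, hb, hab⟩
      have hbu : IsUnit (⟨(b : K), hBR _ b.2⟩ : R) := by
        by_contra h0
        exact hb ((hdvd b).mp ⟨_, (mem_maximalIdeal _).mpr h0, rfl⟩)
      obtain ⟨v, hv⟩ := hbu
      have hvK : (b : K) * (((v⁻¹ : Rˣ) : R) : K) = 1 := by
        have h1 : (b : K) = ((v : R) : K) := by rw [hv]
        rw [h1]
        exact congrArg (fun y : R => (y : K)) (v.mul_inv)
      have : x = (a : K) * (((v⁻¹ : Rˣ) : R) : K) := by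
        rw [← hab, mul_assoc, hvK, mul_one]
      rw [this]
      exact R.mul_mem _ _ (hBR _ a.2) (SetLike.coe_mem _)

end Model

end Crest.Agent.R276.DivVal_858
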