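import Crest.Agent.R276.DivVal4_858
import Crest.Agent.R276.FKDefs_779

/-! # Row 276, helper858: divisorial valuations, part 5: polynomials in a uniformiser and
residually independent elements. -/

set_option autoImplicit false

namespace Crest.Agent.R276.DivVal_858

open IsLocalRing MvPolynomial

section Poly

variable {k K : Type*} [Field k] [Field K] [Algebra k K] {m : ℕ}

/-- valuation of a polynomial in `(t, x)` with `x` residually independent and `v t < 1`. -/
theorem valuation_aeval_le (R : ValuationSubring K) (x : Fin m → K) (t : K)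
    (halg : ∀ c : k, algebraMap k K c ∈ R) (hx : ∀ i, x i ∈ R) (ht : R.valuation t < 1)
    (P : MvPolynomial (Fin (m + 1)) k) :
    R.valuation (aeval (Fin.cons t x : Fin (m + 1) → K) P) ≤ 1 := by
  rw [ValuationSubring.valuation_le_one_iff]
  have hmem : ∀ i, (Fin.cons t x : Fin (m + 1) → K) i ∈ R := by
    intro i
    refine Fin.cases ?_ (fun j => ?_) i
    · rw [Fin.cons_zero, ← ValuationSubring.valuation_le_one_iff]
      exact ht.le
    · rw [Fin.cons_succ]
      exact hx j
  induction P using MvPolynomial.induction_on with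
  | C a => rw [aeval_C]; exact halg a
  | add p q hp hq => rw [map_add]; exact R.add_mem _ _ hp hq
  | mul_X p i hp => rw [map_mul, aeval_X]; exact R.mul_mem _ _ hp (hmem i)

theorem aeval_cons_eq (x : Fin m → K) (t : K) (P : MvPolynomial (Fin (m + 1)) k) :
    aeval (Fin.cons t x : Fin (m + 1) → K) P =
      ((finSuccEquiv k m P).map (aeval x : MvPolynomial (Fin m) k →ₐ[k] K).toRingHom).eval t := by
  induction P using MvPolynomial.induction_on with
  | C a => simp [finSuccEquiv_apply]
  | add p q hp hq => simp [map_add, hp, hq]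
  | mul_X p i hp =>
    rw [map_mul, hp, map_mul, Polynomial.map_mul, Polynomial.eval_mul, aeval_X]
    congr 1
    refine Fin.cases ?_ (fun j => ?_) i
    · simp [finSuccEquiv_X_zero]
    · simp [finSuccEquiv_X_succ]

theorem X_dvd_iff (P : MvPolynomial (Fin (m + 1)) k) :
    (X 0 : MvPolynomial (Fin (m + 1)) k) ∣ P ↔ (finSuccEquiv k m P).coeff 0 = 0 := by
  rw [← Polynomial.X_dvd_iff, ← finSuccEquiv_X_zero (R := k) (n := m)]
  exact (map_dvd_iff (finSuccEquiv k m)).symm

theorem finSuccEquiv_rename (p : MvPolynomial (Fin m) k) :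
    finSuccEquiv k m (rename Fin.succ p) = Polynomial.C p := by
  induction p using MvPolynomial.induction_on with
  | C a => simp [finSuccEquiv_apply]
  | add p q hp hq => rw [map_add, map_add, hp, hq, Polynomial.C_add]
  | mul_X p i hp => rw [map_mul, map_mul, hp, rename_X, finSuccEquiv_X_succ, Polynomial.C_mul]

/-- the valuation is exactly `1` when `X 0` does not divide the polynomial. -/
theorem valuation_aeval_eq_one (R : ValuationSubring K) (x : Fin m → K) (t : K)
    (halg : ∀ c : k, algebraMap k K c ∈ R) (hx : ∀ i, x i ∈ R) (ht : R.valuation t < 1)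
    (hres : ∀ P : MvPolynomial (Fin m) k, P ≠ 0 → R.valuation (aeval x P) = 1)
    (P : MvPolynomial (Fin (m + 1)) k) (hP : ¬ X 0 ∣ P) :
    R.valuation (aeval (Fin.cons t x : Fin (m + 1) → K) P) = 1 := by
  rw [X_dvd_iff] at hP
  -- write P = p0 + X0 * Q
  set p0 := (finSuccEquiv k m P).coeff 0 with hp0
  have h1 : (X 0 : MvPolynomial (Fin (m + 1)) k) ∣ P - rename Fin.succ p0 := by
    rw [X_dvd_iff, map_sub, Polynomial.coeff_sub, finSuccEquiv_rename, Polynomial.coeff_C_zero,
      ← hp0, sub_self]
  obtain ⟨Q, hQ⟩ := h1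
  have h2 : P = rename Fin.succ p0 + X 0 * Q := by rw [← hQ]; ring
  have h3 : aeval (Fin.cons t x : Fin (m + 1) → K) (rename Fin.succ p0) = aeval x p0 := by
    rw [aeval_rename]
    congr 1
  rw [h2, map_add, map_mul, aeval_X, Fin.cons_zero, h3]
  have h4 : R.valuation (aeval x p0) = 1 := hres p0 hP
  have h5 : R.valuation (t * aeval (Fin.cons t x : Fin (m + 1) → K) Q) < 1 := by
    rw [map_mul]
    calc R.valuation t * R.valuation (aeval (Fin.cons t x : Fin (m + 1) → K) Q)
        ≤ R.valuation t * 1 := by
          gcongr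
          exact valuation_aeval_le R x t halg hx ht Q
      _ = R.valuation t := mul_one _
      _ < 1 := ht
  rw [Valuation.map_add_eq_of_lt_left _ (by rw [h4]; exact h5), h4]

theorem valuation_aeval_lt_one_iff (R : ValuationSubring K) (x : Fin m → K) (t : K)
    (halg : ∀ c : k, algebraMap k K c ∈ R) (hx : ∀ i, x i ∈ R) (ht : R.valuation t < 1)
    (hres : ∀ P : MvPolynomial (Fin m) k, P ≠ 0 → R.valuation (aeval x P) = 1)
    (P : MvPolynomial (Fin (m + 1)) k) :
    R.valuation (aeval (Fin.cons t x : Fin (m + 1) → K) P) < 1 ↔ X 0 ∣ P := by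
  constructor
  · intro h
    by_contra h2
    exact (ne_of_lt h) (valuation_aeval_eq_one R x t halg hx ht hres P h2)
  · rintro ⟨Q, rfl⟩
    rw [map_mul, aeval_X, Fin.cons_zero, map_mul]
    calc R.valuation t * R.valuation (aeval (Fin.cons t x : Fin (m + 1) → K) Q)
        ≤ R.valuation t * 1 := by
          gcongr
          exact valuation_aeval_le R x t halg hx ht Q
      _ = R.valuation t := mul_one _
      _ < 1 := ht

theorem prime_X0 : Prime (X 0 : MvPolynomial (Fin (m + 1)) k) := by
  have h : Prime (Polynomial.X : Polynomial (MvPolynomial (Fin m) k)) := Polynomial.prime_X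
  rw [← finSuccEquiv_X_zero (R := k) (n := m)] at h
  exact (MulEquiv.prime_iff (finSuccEquiv k m).toMulEquiv).mp h

/-- `(t, x)` is algebraically independent. -/
theorem aeval_cons_injective (R : ValuationSubring K) (x : Fin m → K) (t : K)
    (halg : ∀ c : k, algebraMap k K c ∈ R) (hx : ∀ i, x i ∈ R) (ht : R.valuation t < 1)
    (ht0 : t ≠ 0)
    (hres : ∀ P : MvPolynomial (Fin m) k, P ≠ 0 → R.valuation (aeval x P) = 1) :
    Function.Injective (aeval (Fin.cons t x : Fin (m + 1) → K) :
      MvPolynomial (Fin (m + 1)) k →ₐ[k] K) := by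
  rw [injective_iff_map_eq_zero]
  intro P hP
  by_contra hP0
  obtain ⟨e, Q, hQ, rfl⟩ := WfDvdMonoid.max_power_factor hP0 (prime_X0 (k := k)).irreducible
  rw [map_mul, map_pow, aeval_X, Fin.cons_zero] at hP
  rcases mul_eq_zero.mp hP with h | h
  · exact pow_ne_zero e ht0 h
  · have := valuation_aeval_eq_one R x t halg hx ht hres Q hQ
    rw [h, map_zero] at this
    exact zero_ne_one this

end Poly

end Crest.Agent.R276.DivVal_858
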