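import Crest.Agent.R276.DivVal5_858

/-! # Row 276, helper858: divisorial valuations, part 6: main theorem. -/

set_option autoImplicit false

namespace Crest.Agent.R276.DivVal_858

open IsLocalRing MvPolynomial Crest.Agent.R276.FKDefs_779

section Main

variable {k K : Type*} [Field k] [Field K] [Algebra k K]

/-- A field extension algebraic over `k` has no non-trivial valuation rings containing `k`. -/
theorem pos_of_isDiv {n : ℕ} (hn : Algebra.trdeg k K = n)
    (R : ValuationSubring K) (hR : IsDiv k n R) : 0 < n := by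
  rcases Nat.eq_zero_or_pos n with h | h
  · exfalso
    subst h
    have h1 : Algebra.IsAlgebraic k K := by
      have : Algebra.trdeg k K = 0 := by simpa using hn
      exact _root_.trdeg_eq_zero_iff.mp this
    apply hR.ne_top
    rw [eq_top_iff]
    intro x _
    let : Algebra k R := ((algebraMap k K).codRestrict R.toSubring hR.alg).toAlgebra
    have : IsScalarTower k R K := IsScalarTower.of_algebraMap_eq (fun _ => rfl)
    have h2 : IsIntegral k x := (h1.isAlgebraic x).isIntegral
    obtain ⟨y, hy⟩ := IsIntegrallyClosed.isIntegral_iff.mp (h2.tower_top (A := R))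
    rw [← hy]
    exact y.2
  · exact h

/-- The data attached to a choice of `t ∈ m_R` and residually independent `x`. -/
structure Adapted (k : Type*) {K : Type*} [Field k] [Field K] [Algebra k K] {m : ℕ}
    (R : ValuationSubring K) (x : Fin m → K) (t : K) : Prop where
  alg : ∀ c : k, algebraMap k K c ∈ R
  mem : ∀ i, x i ∈ R
  lt : R.valuation t < 1
  ne : t ≠ 0
  res : ∀ P : MvPolynomial (Fin m) k, P ≠ 0 → R.valuation (aeval x P) = 1

variable {m : ℕ} {R : ValuationSubring K} {x : Fin m → K} {t : K}

namespace Adapted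

variable (h : Adapted k R x t)
include h

theorem algInd : AlgebraicIndependent k (Fin.cons t x : Fin (m + 1) → K) :=
  aeval_cons_injective R x t h.alg h.mem h.lt h.ne h.res

theorem basis (hn : Algebra.trdeg k K = (m + 1 : ℕ)) :
    IsTranscendenceBasis k (Fin.cons t x : Fin (m + 1) → K) := by
  apply h.algInd.isTranscendenceBasis_of_lift_trdeg_le_of_finite
  rw [hn]
  simp

theorem aeval_mem (P : MvPolynomial (Fin (m + 1)) k) :
    aeval (Fin.cons t x : Fin (m + 1) → K) P ∈ R := by
  rw [← ValuationSubring.valuation_le_one_iff]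
  exact valuation_aeval_le R x t h.alg h.mem h.lt P

end Adapted

/-- `K` is finite over `Frac k[t, x]`, every element of `K` is algebraic over `k[t,x]`. -/
theorem exists_poly_coeff_not_dvd (h : Adapted k R x t) (hn : Algebra.trdeg k K = (m + 1 : ℕ))
    (y : K) : ∃ P : Polynomial (MvPolynomial (Fin (m + 1)) k), (∃ i, ¬ X 0 ∣ P.coeff i) ∧
      Polynomial.eval₂ (aeval (Fin.cons t x : Fin (m + 1) → K) :
        MvPolynomial (Fin (m + 1)) k →ₐ[k] K).toRingHom y P = 0 := by
  set A := MvPolynomial (Fin (m + 1)) k
  set φ : A →ₐ[k] K := aeval (Fin.cons t x : Fin (m + 1) → K) with hφ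
  have hinj : Function.Injective φ := h.algInd
  have hb := h.basis hn
  have halg : Algebra.IsAlgebraic (Algebra.adjoin k (Set.range (Fin.cons t x : Fin (m + 1) → K))) K :=
    hb.isAlgebraic
  obtain ⟨p, hp0, hp⟩ := halg.isAlgebraic y
  -- lift the coefficients
  have hr : φ.range = Algebra.adjoin k (Set.range (Fin.cons t x : Fin (m + 1) → K)) := by
    rw [hφ, ← Algebra.adjoin_range_eq_range_aeval]
  have hlift : ∃ q : Polynomial A, q.map φ.toRingHom = p.map (algebraMap _ K) := by
    have : p.map (algebraMap _ K) ∈ Polynomial.lifts φ.toRingHom := by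
      rw [Polynomial.lifts_iff_coeff_lifts]
      intro i
      rw [Polynomial.coeff_map]
      have : (algebraMap (Algebra.adjoin k (Set.range (Fin.cons t x : Fin (m + 1) → K))) K)
        (p.coeff i) ∈ φ.range := by
        rw [hr]
        exact (p.coeff i).2
      obtain ⟨a, ha⟩ := this
      exact ⟨a, ha⟩
    obtain ⟨q, hq⟩ := this
    exact ⟨q, hq⟩
  obtain ⟨q, hq⟩ := hlift
  have hq0 : q ≠ 0 := by
    rintro rfl
    rw [Polynomial.map_zero] at hq
    apply hp0
    have hinj2 : Function.Injective (algebraMap
      (Algebra.adjoin k (Set.range (Fin.cons t x : Fin (m + 1) → K))) K) :=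
      Subtype.val_injective
    exact (Polynomial.map_eq_zero_iff hinj2).mp hq.symm
  have hqy : Polynomial.eval₂ φ.toRingHom y q = 0 := by
    rw [← Polynomial.eval_map, hq, Polynomial.eval_map]
    exact hp
  have hC : Prime (Polynomial.C (X 0 : A)) := Polynomial.prime_C_iff.mpr prime_X0
  obtain ⟨e, q', hq', rfl⟩ := WfDvdMonoid.max_power_factor hq0 hC.irreducible
  refine ⟨q', ?_, ?_⟩
  · by_contra hne
    push Not at hne
    exact hq' ((Polynomial.C_dvd_iff_dvd_coeff _ _).mpr hne)
  · rw [Polynomial.eval₂_mul, Polynomial.eval₂_pow, Polynomial.eval₂_C] at hqy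
    rcases mul_eq_zero.mp hqy with h1 | h1
    · exfalso
      have h2 : φ (X 0) = t := by rw [hφ, aeval_X, Fin.cons_zero]
      have h3 : (φ.toRingHom (X 0)) = t := h2
      rw [h3] at h1
      exact pow_ne_zero e h.ne h1
    · exact h1

end Main

end Crest.Agent.R276.DivVal_858
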