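import Crest.Agent.R276.DivVal6_858

/-! # Row 276, helper858: divisorial valuations, part 7: main theorem. -/

set_option autoImplicit false

namespace Crest.Agent.R276.DivVal_858

open IsLocalRing MvPolynomial Crest.Agent.R276.FKDefs_779

section Main

variable {k K : Type*} [Field k] [CharZero k] [Field K] [Algebra k K]
variable {m : ℕ} {R : ValuationSubring K} {x : Fin m → K} {t : K}

attribute [local instance] FractionRing.liftAlgebra

omit [CharZero k] in
theorem finite_aux [Algebra.EssFiniteType k K] (h : Adapted k R x t)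
    (hn : Algebra.trdeg k K = (m + 1 : ℕ)) [Algebra (MvPolynomial (Fin (m + 1)) k) K]
    [IsScalarTower k (MvPolynomial (Fin (m + 1)) k) K]
    [FaithfulSMul (MvPolynomial (Fin (m + 1)) k) K]
    (hφ : ∀ P : MvPolynomial (Fin (m + 1)) k, algebraMap _ K P =
      aeval (Fin.cons t x : Fin (m + 1) → K) P) :
    FiniteDimensional (FractionRing (MvPolynomial (Fin (m + 1)) k)) K := by
  have halg : Algebra.IsAlgebraic (MvPolynomial (Fin (m + 1)) k) K := by
    refine ⟨fun y => ?_⟩
    obtain ⟨P, ⟨i, hi⟩, hP⟩ := exists_poly_coeff_not_dvd h hn y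
    refine ⟨P, ?_, ?_⟩
    · rintro rfl
      exact hi (by simp)
    · rw [Polynomial.aeval_def]
      have : algebraMap (MvPolynomial (Fin (m + 1)) k) K =
        (aeval (Fin.cons t x : Fin (m + 1) → K) :
        MvPolynomial (Fin (m + 1)) k →ₐ[k] K).toRingHom := RingHom.ext hφ
      rw [this]
      exact hP
  have : Algebra.EssFiniteType (FractionRing (MvPolynomial (Fin (m + 1)) k)) K :=
    Algebra.EssFiniteType.of_comp k _ K
  have : Algebra.IsAlgebraic (FractionRing (MvPolynomial (Fin (m + 1)) k)) K :=
    Algebra.IsAlgebraic.extendScalars (R := MvPolynomial (Fin (m + 1)) k)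
      (IsFractionRing.injective _ _)
  exact Algebra.finite_of_essFiniteType_of_isAlgebraic

/-- the valuation ring of an adapted system is a discrete valuation ring. -/
theorem Adapted.dvr [Algebra.EssFiniteType k K] (h : Adapted k R x t)
    (hn : Algebra.trdeg k K = (m + 1 : ℕ)) : IsDiscreteValuationRing R := by
  let A := MvPolynomial (Fin (m + 1)) k
  let φ : A →ₐ[k] K := aeval (Fin.cons t x : Fin (m + 1) → K)
  have hinj : Function.Injective φ := h.algInd
  let : Algebra A K := φ.toRingHom.toAlgebra
  have : IsScalarTower k A K := IsScalarTower.of_algebraMap_eq (fun c => (φ.commutes c).symm)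
  have : FaithfulSMul A K := (faithfulSMul_iff_algebraMap_injective A K).mpr hinj
  have hfin : FiniteDimensional (FractionRing A) K := finite_aux h hn (fun P => rfl)
  have hF0 : CharZero (FractionRing A) := by
    let : Algebra k (FractionRing A) :=
      ((algebraMap A (FractionRing A)).comp (algebraMap k A)).toAlgebra
    exact charZero_of_injective_algebraMap (algebraMap k (FractionRing A)).injective
  let : Algebra A R := (φ.toRingHom.codRestrict R.toSubring h.aeval_mem).toAlgebra
  have : IsScalarTower A R K := IsScalarTower.of_algebraMap_eq (fun _ => rfl)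
  let C := integralClosure A K
  have hCR : ∀ b : C, (b : K) ∈ R := by
    rintro ⟨b, hb⟩
    have hb' : IsIntegral R b := hb.tower_top
    obtain ⟨y, hy⟩ := IsIntegrallyClosed.isIntegral_iff.mp hb'
    have hy' : (y : K) = b := hy
    change b ∈ R
    exact hy' ▸ y.2
  let : Algebra C R := (RingHom.codRestrict (algebraMap C K) R.toSubring hCR).toAlgebra
  have : IsScalarTower C R K := IsScalarTower.of_algebraMap_eq (fun b => rfl)
  have : IsScalarTower A C R := IsScalarTower.of_algebraMap_eq (fun o => by
    apply Subtype.ext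
    rfl)
  have : IsIntegralClosure C A K := inferInstance
  have : IsNoetherianRing C := IsIntegralClosure.isNoetherianRing A (FractionRing A) K C
  have : IsFractionRing C K :=
    IsIntegralClosure.isFractionRing_of_finite_extension A (FractionRing A) K C
  have : IsIntegrallyClosed C :=
    integralClosure.isIntegrallyClosedOfFiniteExtension (FractionRing A)
  have hmem : ∀ y : R, y ∈ maximalIdeal R ↔ R.valuation (y : K) < 1 :=
    fun y => ValuationSubring.valuation_lt_one_iff R y
  have hloc : IsLocalization.AtPrime R ((maximalIdeal R).comap (algebraMap C R)) := by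
    refine isLocalization_atPrime (A := A) R (X 0) prime_X0 (fun a => ?_)
    rw [← IsScalarTower.algebraMap_apply A C R, hmem]
    exact valuation_aeval_lt_one_iff R x t h.alg h.mem h.lt h.res a
  have hN : IsNoetherianRing R := IsLocalization.isNoetherianRing
    ((maximalIdeal R).comap (algebraMap C R)).primeCompl R inferInstance
  have hnf : ¬ IsField R := by
    intro hf
    rw [IsLocalRing.isField_iff_maximalIdeal_eq] at hf
    have htR : t ∈ R := by
      rw [← ValuationSubring.valuation_le_one_iff]; exact h.lt.le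
    have : (⟨t, htR⟩ : R) ∈ maximalIdeal R := (hmem _).mpr h.lt
    rw [hf, Ideal.mem_bot] at this
    exact h.ne (congrArg (fun y : R => (y : K)) this)
  have htf := (IsDiscreteValuationRing.TFAE R hnf).out 0 1
  exact htf.mpr inferInstance

omit [CharZero k] in
/-- an adapted system exists as soon as `R` is divisorial. -/
theorem exists_adapted (R : ValuationSubring K) (hR : IsDiv k (m + 1) R) :
    ∃ (x : Fin m → K) (t : K), Adapted k R x t := by
  obtain ⟨x, hx, hres⟩ := hR.res
  have : ∃ y : K, y ∉ R := by
    by_contra hne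
    push Not at hne
    exact hR.ne_top (eq_top_iff.mpr fun y _ => hne y)
  obtain ⟨y, hy⟩ := this
  have hy1 : 1 < R.valuation y := by
    rw [← not_le, ValuationSubring.valuation_le_one_iff]
    exact hy
  have hy0 : y ≠ 0 := by
    rintro rfl
    exact hy R.zero_mem
  refine ⟨x, y⁻¹, hR.alg, hx, ?_, inv_ne_zero hy0, hres⟩
  rw [map_inv₀]
  exact inv_lt_one_of_one_lt₀ hy1

/-- The étale model for an adapted system whose `t` is a uniformiser. -/
theorem Adapted.exists_model [Algebra.EssFiniteType k K] (h : Adapted k R x t)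
    (hn : Algebra.trdeg k K = (m + 1 : ℕ)) (hmax : ∀ y : K, R.valuation y < 1 →
      R.valuation y ≤ R.valuation t) :
    ∃ (B : Subalgebra k K) (hz : EtChart k K B (Fin.cons t x : Fin (m + 1) → K)),
      (∀ y ∈ B, y ∈ R) ∧ Prime (⟨(Fin.cons t x : Fin (m + 1) → K) 0, hz.mem 0⟩ : B) ∧
      (∀ y : K, y ∈ R ↔ ∃ a b : B,
        ¬ (⟨(Fin.cons t x : Fin (m + 1) → K) 0, hz.mem 0⟩ : B) ∣ b ∧ y * (b : K) = a) ∧
      (∀ a : B, R.valuation (a : K) < 1 ↔
        (⟨(Fin.cons t x : Fin (m + 1) → K) 0, hz.mem 0⟩ : B) ∣ a) := by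
  let A := MvPolynomial (Fin (m + 1)) k
  let φ : A →ₐ[k] K := aeval (Fin.cons t x : Fin (m + 1) → K)
  have hinj : Function.Injective φ := h.algInd
  let : Algebra A K := φ.toRingHom.toAlgebra
  have : IsScalarTower k A K := IsScalarTower.of_algebraMap_eq (fun c => (φ.commutes c).symm)
  have : FaithfulSMul A K := (faithfulSMul_iff_algebraMap_injective A K).mpr hinj
  have hfin : FiniteDimensional (FractionRing A) K := finite_aux h hn (fun P => rfl)
  let : Algebra A R := (φ.toRingHom.codRestrict R.toSubring h.aeval_mem).toAlgebra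
  have : IsScalarTower A R K := IsScalarTower.of_algebraMap_eq (fun _ => rfl)
  have hmem : ∀ y : R, y ∈ maximalIdeal R ↔ R.valuation (y : K) < 1 :=
    fun y => ValuationSubring.valuation_lt_one_iff R y
  have htR : ∀ a : A, algebraMap A R a ∈ maximalIdeal R ↔ X 0 ∣ a := by
    intro a
    rw [hmem]
    exact valuation_aeval_lt_one_iff R x t h.alg h.mem h.lt h.res a
  have hφ0 : φ (X 0) = t := by
    change aeval (Fin.cons t x : Fin (m + 1) → K) (X 0) = t
    rw [aeval_X, Fin.cons_zero]
  have hgen : maximalIdeal R = Ideal.span {algebraMap A R (X 0)} := by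
    apply le_antisymm
    · intro y hy
      rw [Ideal.mem_span_singleton]
      have h1 : R.valuation (y : K) ≤ R.valuation t := hmax _ ((hmem y).mp hy)
      have h2 : (y : K) / t ∈ R := by
        rw [← ValuationSubring.valuation_le_one_iff, map_div₀]
        exact div_le_one_of_le₀ h1 zero_le
      refine ⟨⟨(y : K) / t, h2⟩, ?_⟩
      apply Subtype.ext
      change (y : K) = φ (X 0) * ((y : K) / t)
      rw [hφ0, mul_div_cancel₀ _ h.ne]
    · rw [Ideal.span_singleton_le_iff_mem]
      exact (htR _).mpr dvd_rfl
  have halg : ∀ y : R, ∃ P : Polynomial A, (∃ i, ¬ X 0 ∣ P.coeff i) ∧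
      Polynomial.aeval y P ∈ maximalIdeal R := by
    intro y
    obtain ⟨P, hP, hPy⟩ := exists_poly_coeff_not_dvd h hn (y : K)
    refine ⟨P, hP, ?_⟩
    have : Polynomial.aeval y P = 0 := by
      apply Subtype.ext
      have h1 : Polynomial.aeval (y : K) P = ((Polynomial.aeval y P : R) : K) :=
        Polynomial.aeval_algebraMap_apply K y P
      rw [← h1]
      exact hPy
    rw [this]
    exact Ideal.zero_mem _
  obtain ⟨B, hBR, hEt, hFr, hPr, hR1, hR2⟩ := exists_etale_subalgebra k (FractionRing A) R (X 0)
    prime_X0 htR hgen halg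
  let B' : Subalgebra k K := B.restrictScalars k
  have hmemB : ∀ P : A, φ P ∈ B' := fun P => (algebraMap A B P).2
  have hzmem : ∀ i, (Fin.cons t x : Fin (m + 1) → K) i ∈ B' := by
    intro i
    have := hmemB (X i)
    change aeval (Fin.cons t x : Fin (m + 1) → K) (X i) ∈ B' at this
    rwa [aeval_X] at this
  have hFG : B'.FG := by
    have h1 : Algebra.FiniteType A B := inferInstance
    have h2 : Algebra.FiniteType k A := inferInstance
    have h3 : Algebra.FiniteType k B := Algebra.FiniteType.trans h2 h1
    have h4 : Algebra.FiniteType k B' := h3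
    exact (Subalgebra.fg_iff_finiteType B').mpr h4
  have hfrac : ∀ a : K, ∃ b ∈ B', ∃ s ∈ B', s ≠ 0 ∧ a = b * s⁻¹ := by
    intro a
    obtain ⟨b, s, hs, hbs⟩ := IsFractionRing.div_surjective (A := B) a
    refine ⟨(b : K), b.2, (s : K), s.2, ?_, ?_⟩
    · intro h0
      exact (mem_nonZeroDivisors_iff_ne_zero.mp hs) (Subtype.ext h0)
    · rw [← hbs, div_eq_mul_inv]
      rfl
  have hetale : RingHom.Etale ((MvPolynomial.aeval (fun i => (⟨(Fin.cons t x : Fin (m + 1) → K) i,
      hzmem i⟩ : B')) : MvPolynomial (Fin (m + 1)) k →ₐ[k] B') :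
      MvPolynomial (Fin (m + 1)) k →+* B') := by
    have h1 : ((MvPolynomial.aeval (fun i => (⟨(Fin.cons t x : Fin (m + 1) → K) i,
      hzmem i⟩ : B')) : MvPolynomial (Fin (m + 1)) k →ₐ[k] B') :
      MvPolynomial (Fin (m + 1)) k →+* B') = algebraMap A B := by
      apply MvPolynomial.ringHom_ext
      · intro c
        apply Subtype.ext
        have h2 : ((algebraMap A B (C c) : B) : K) = algebraMap k K c := by
          change φ (C c) = _
          exact φ.commutes c
        refine Eq.trans ?_ h2.symm
        change (((MvPolynomial.aeval (fun i => (⟨(Fin.cons t x : Fin (m + 1) → K) i,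
          hzmem i⟩ : B')) : MvPolynomial (Fin (m + 1)) k →ₐ[k] B') (C c) : B') : K) = _
        rw [MvPolynomial.algHom_C]
        rfl
      · intro i
        apply Subtype.ext
        have h2 : ((algebraMap A B (X i) : B) : K) = (Fin.cons t x : Fin (m + 1) → K) i := by
          change φ (X i) = _
          change aeval (Fin.cons t x : Fin (m + 1) → K) (X i) = _
          rw [aeval_X]
        refine Eq.trans ?_ h2.symm
        change (((MvPolynomial.aeval (fun i => (⟨(Fin.cons t x : Fin (m + 1) → K) i,
          hzmem i⟩ : B')) : MvPolynomial (Fin (m + 1)) k →ₐ[k] B') (X i) : B') : K) = _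
        rw [aeval_X]
    have h5 : (algebraMap A B).Etale := RingHom.etale_algebraMap.mpr hEt
    rw [h1]
    exact h5
  have hz : EtChart k K B' (Fin.cons t x : Fin (m + 1) → K) := ⟨hFG, hfrac, hzmem, hetale⟩
  have hX0 : (algebraMap A B (X 0) : B) = (⟨(Fin.cons t x : Fin (m + 1) → K) 0, hz.mem 0⟩ : B') := by
    apply Subtype.ext
    change φ (X 0) = t
    exact hφ0
  refine ⟨B', hz, hBR, ?_, ?_, ?_⟩
  · rw [← hX0]; exact hPr
  · rw [← hX0]; exact hR1
  · intro a
    rw [← hX0]
    refine Iff.trans ?_ (hR2 a)
    constructor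
    · intro ha
      have haR : (a : K) ∈ R := hBR _ a.2
      exact ⟨⟨(a : K), haR⟩, (hmem _).mpr ha, rfl⟩
    · rintro ⟨y, hy, hya⟩
      have hya' : (y : K) = (a : K) := hya
      rw [← hya']
      exact (hmem _).mp hy

end Main

end Crest.Agent.R276.DivVal_858
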