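import Crest.Agent.R276.DivVal7_858

/-! # Row 276, helper858: divisorial valuations, part 8: the final statements. -/

set_option autoImplicit false

namespace Crest.Agent.R276.DivVal_858

open IsLocalRing MvPolynomial Crest.Agent.R276.FKDefs_779

section Main

variable {k K : Type*} [Field k] [CharZero k] [Field K] [Algebra k K]

/-- `t` is a uniformiser of `R` (multiplicative valuation: largest value `< 1`). -/
structure IsUnif (R : ValuationSubring K) (t : K) : Prop where
  lt : R.valuation t < 1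
  ne : t ≠ 0
  max : ∀ y : K, R.valuation y < 1 → R.valuation y ≤ R.valuation t

omit [CharZero k] in
/-- uniformisers exist in a DVR. -/
theorem exists_isUnif (R : ValuationSubring K) [IsDiscreteValuationRing R] :
    ∃ t : K, IsUnif R t := by
  obtain ⟨ϖ, hϖ⟩ := IsDiscreteValuationRing.exists_irreducible R
  have hm := (IsDiscreteValuationRing.irreducible_iff_uniformizer ϖ).mp hϖ
  have hmem : ∀ y : R, y ∈ maximalIdeal R ↔ R.valuation (y : K) < 1 :=
    fun y => ValuationSubring.valuation_lt_one_iff R y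
  refine ⟨(ϖ : K), ?_, ?_, ?_⟩
  · rw [← hmem, hm]
    exact Ideal.mem_span_singleton_self ϖ
  · intro h
    exact hϖ.ne_zero (Subtype.ext h)
  · intro y hy
    have hyR : y ∈ R := by
      rw [← ValuationSubring.valuation_le_one_iff]; exact hy.le
    have h1 : (⟨y, hyR⟩ : R) ∈ maximalIdeal R := (hmem _).mpr hy
    rw [hm, Ideal.mem_span_singleton] at h1
    obtain ⟨c, hc⟩ := h1
    have h2 : y = (ϖ : K) * (c : K) := congrArg (fun z : R => (z : K)) hc
    rw [h2, map_mul]
    have h3 : R.valuation (c : K) ≤ 1 := R.valuation_le_one c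
    exact mul_le_of_le_one_right' h3

variable [Algebra.EssFiniteType k K] {n : ℕ} (hn : Algebra.trdeg k K = n)
include hn

/-- **a divisorial valuation ring is a discrete valuation ring** -/
theorem dvr_of_isDiv {R : ValuationSubring K} (hR : IsDiv k n R) : IsDiscreteValuationRing R := by
  obtain ⟨m, rfl⟩ : ∃ m, n = m + 1 := ⟨n - 1, by have := pos_of_isDiv hn R hR; omega⟩
  obtain ⟨x, t, h⟩ := exists_adapted R hR
  exact h.dvr hn

omit hn in
/-- The étale chart `(B, (t, x))` of `K/k` attached to a uniformiser `t` and to ANY `x : Fin m → K`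
with algebraically independent residues (`m + 1 = trdeg`): `B ⊆ R`, `t` is prime in `B`,
`R = B_(t)`. -/
theorem exists_chart_of_unif {m : ℕ} (hn : Algebra.trdeg k K = (m + 1 : ℕ))
    (R : ValuationSubring K) (hk : ∀ c : k, algebraMap k K c ∈ R) (x : Fin m → K)
    (hx : ∀ i, x i ∈ R) (hres : ∀ P : MvPolynomial (Fin m) k, P ≠ 0 →
      R.valuation (aeval x P) = 1) (t : K) (ht : IsUnif R t) :
    ∃ (B : Subalgebra k K) (hz : EtChart k K B (Fin.cons t x : Fin (m + 1) → K)),
      (∀ y ∈ B, y ∈ R) ∧ Prime (⟨(Fin.cons t x : Fin (m + 1) → K) 0, hz.mem 0⟩ : B) ∧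
      (∀ y : K, y ∈ R ↔ ∃ a b : B,
        ¬ (⟨(Fin.cons t x : Fin (m + 1) → K) 0, hz.mem 0⟩ : B) ∣ b ∧ y * (b : K) = a) ∧
      (∀ a : B, R.valuation (a : K) < 1 ↔
        (⟨(Fin.cons t x : Fin (m + 1) → K) 0, hz.mem 0⟩ : B) ∣ a) :=
  Adapted.exists_model ⟨hk, hx, ht.lt, ht.ne, hres⟩ hn ht.max

/-- **THE CHART OF A DIVISORIAL VALUATION.** -/
theorem exists_chart_of_isDiv {R : ValuationSubring K} (hR : IsDiv k n R) :
    ∃ (B : Subalgebra k K) (z : Fin n → K) (i₀ : Fin n) (hz : EtChart k K B z),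
      IsUnif R (z i₀) ∧ (∀ i, z i ∈ R) ∧
      (∀ P : MvPolynomial {i : Fin n // i ≠ i₀} k, P ≠ 0 →
        R.valuation (aeval (fun i => z i.1) P) = 1) ∧
      (∀ y ∈ B, y ∈ R) ∧ Prime (⟨z i₀, hz.mem i₀⟩ : B) ∧
      (∀ y : K, y ∈ R ↔ ∃ a b : B, ¬ (⟨z i₀, hz.mem i₀⟩ : B) ∣ b ∧ y * (b : K) = a) ∧
      (∀ a : B, R.valuation (a : K) < 1 ↔ (⟨z i₀, hz.mem i₀⟩ : B) ∣ a) := by
  have hdvr := dvr_of_isDiv hn hR
  obtain ⟨m, rfl⟩ : ∃ m, n = m + 1 := ⟨n - 1, by have := pos_of_isDiv hn R hR; omega⟩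
  obtain ⟨x, hx, hres⟩ := hR.res
  obtain ⟨t, ht⟩ := exists_isUnif R
  obtain ⟨B, hz, h1, h2, h3, h4⟩ := exists_chart_of_unif hn R hR.alg x hx hres t ht
  refine ⟨B, Fin.cons t x, 0, hz, ht, ?_, ?_, h1, h2, h3, h4⟩
  · intro i
    exact h1 _ (hz.mem i)
  · intro P hP
    -- transport along `Fin m ≃ {i // i ≠ 0}`
    let f : {i : Fin (m + 1) // i ≠ 0} → Fin m := fun i => i.1.pred i.2
    have hf : Function.Injective f := by
      rintro ⟨i, hi⟩ ⟨j, hj⟩ hij
      exact Subtype.ext (Fin.pred_inj.mp hij)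
    have h5 : (fun i : {i : Fin (m + 1) // i ≠ 0} => (Fin.cons t x : Fin (m + 1) → K) i.1) =
        x ∘ f := by
      funext i
      obtain ⟨j, hj⟩ : ∃ j : Fin m, i.1 = j.succ := ⟨i.1.pred i.2, (Fin.succ_pred _ _).symm⟩
      have : f i = j := by
        change i.1.pred i.2 = j
        rw [Fin.pred_eq_iff_eq_succ]
        exact hj
      rw [Function.comp_apply, this, hj, Fin.cons_succ]
    have h6 : aeval (fun i : {i : Fin (m + 1) // i ≠ 0} => (Fin.cons t x : Fin (m + 1) → K) i.1) P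
        = aeval x (rename f P) := by
      rw [aeval_rename, h5]
    rw [h6]
    apply hres
    intro h0
    exact hP ((rename_injective f hf) (by rw [h0, map_zero]))

end Main

end Crest.Agent.R276.DivVal_858
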