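import Crest.Agent.R276.DivVal8_858
import Crest.Agent.R276.BC0_986

/-! # Row 276, helper858: divisorial valuations, part 9: the `DivModel` of helper986. -/

set_option autoImplicit false

noncomputable section

namespace Crest.Agent.R276.DivVal_858

open IsLocalRing MvPolynomial Crest.Agent.R276.FKDefs_779 Crest.Agent.R276.BC_986

section Main

variable {n : ℕ} {K : Type} [Field K] [Algebra ℂ K]

/-- `B` with fraction field `K` -/
theorem EtChart.isFractionRing {B : Subalgebra ℂ K} {z : Fin n → K} (hz : EtChart ℂ K B z) :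
    IsFractionRing B K := by
  refine ⟨?_, ?_, ?_⟩
  · rintro ⟨s, hs⟩
    rw [isUnit_iff_ne_zero]
    intro h0
    exact (mem_nonZeroDivisors_iff_ne_zero.mp hs) (Subtype.ext h0)
  · intro a
    obtain ⟨b, hb, s, hs, hs0, hab⟩ := hz.frac a
    refine ⟨⟨⟨b, hb⟩, ⟨⟨s, hs⟩, ?_⟩⟩, ?_⟩
    · rw [mem_nonZeroDivisors_iff_ne_zero]
      intro h
      exact hs0 (congrArg (fun y : B => (y : K)) h)
    · change a * s = b
      rw [hab, mul_assoc, inv_mul_cancel₀ hs0, mul_one]
  · intro a b hab
    refine ⟨1, ?_⟩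
    have : a = b := Subtype.ext hab
    rw [this]

/-- the `DivModel` of helper986 given by a chart -/
def divModel (B : Subalgebra ℂ K) (z : Fin n → K) (hz : EtChart ℂ K B z) (i₀ : Fin n)
    (hp : Prime (⟨z i₀, hz.mem i₀⟩ : B)) : DivModel n K where
  A := B
  frac := EtChart.isFractionRing hz
  ft := (Subalgebra.fg_iff_finiteType B).mp hz.fg
  w := fun i => ⟨z i, hz.mem i⟩
  etale := hz.etale
  i₀ := i₀
  prime := hp

/-- **every divisorial valuation ring is the local ring of a `DivModel`.** -/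
theorem exists_divModel [Algebra.EssFiniteType ℂ K] (hn : Algebra.trdeg ℂ K = n)
    {R : ValuationSubring K} (hR : IsDiv ℂ n R) :
    ∃ D : DivModel n K, IsUnif R (algebraMap D.A K D.t) ∧
      (∀ y : D.A, algebraMap D.A K y ∈ R) ∧
      (∀ y : K, y ∈ R ↔ ∃ a b : D.A, ¬ D.t ∣ b ∧ y * algebraMap D.A K b = algebraMap D.A K a) ∧
      (∀ a : D.A, R.valuation (algebraMap D.A K a) < 1 ↔ D.t ∣ a) := by
  obtain ⟨B, z, i₀, hz, h1, h2, h3, h4, h5, h6, h7⟩ := exists_chart_of_isDiv hn hR
  exact ⟨divModel B z hz i₀ h5, h1, fun y => h4 _ y.2, h6, h7⟩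

end Main

end Crest.Agent.R276.DivVal_858
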