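import Crest.Agent.R266.SCV

/-!
# R276, leaf B-767, part 0 (helper767): division by `u` and the uniqueness lemma for
`(A + u ∂_u) g = u (D_y g (a) + b g)`
-/

set_option autoImplicit false
set_option linter.unusedSectionVars false

open Set Filter Topology Metric Complex MeasureTheory
open scoped Real ContDiff ComplexConjugate

noncomputable section

namespace Crest.Agent.R276.Div_767

variable {V : Type*} [NormedAddCommGroup V] [NormedSpace ℂ V] [CompleteSpace V]
variable {E : Type*} [NormedAddCommGroup E] [NormedSpace ℂ E] [FiniteDimensional ℂ E]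

/-- division of a holomorphic function vanishing on `u = 0` by `u` -/
theorem exists_div {F : ℂ × E → V} {r : ℝ} {U : Set E} (hU : IsOpen U)
    (hF : AnalyticOnNhd ℂ F (ball 0 r ×ˢ U)) (h0 : ∀ y ∈ U, F (0, y) = 0) :
    ∃ G : ℂ × E → V, AnalyticOnNhd ℂ G (ball 0 r ×ˢ U) ∧
      ∀ p ∈ ball (0 : ℂ) r ×ˢ U, F p = p.1 • G p := by
  set D : ℂ × E → V := fun p => fderiv ℂ F p ((1 : ℂ), (0 : E)) with hD
  have hDa : AnalyticOnNhd ℂ D (ball 0 r ×ˢ U) := by
    intro p hp
    have h1 : AnalyticAt ℂ (fderiv ℂ F) p := (hF p hp).fderiv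
    exact ((ContinuousLinearMap.apply ℂ V ((1 : ℂ), (0 : E))).analyticAt _).comp h1
  have hmem : ∀ t ∈ Icc (0 : ℝ) 1, ∀ p ∈ ball (0 : ℂ) r ×ˢ U,
      ((t : ℂ) * p.1, p.2) ∈ ball (0 : ℂ) r ×ˢ U := by
    intro t ht p hp
    refine ⟨?_, hp.2⟩
    have h1 : ‖p.1‖ < r := by simpa using hp.1
    rw [mem_ball_zero_iff, norm_mul, Complex.norm_real, Real.norm_eq_abs, abs_of_nonneg ht.1]
    calc t * ‖p.1‖ ≤ 1 * ‖p.1‖ := by
          exact mul_le_mul_of_nonneg_right ht.2 (norm_nonneg _)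
      _ < r := by rw [one_mul]; exact h1
  have hopen : IsOpen (ball (0 : ℂ) r ×ˢ U) := isOpen_ball.prod hU
  refine ⟨fun p => ∫ t in (0 : ℝ)..1, D ((t : ℂ) * p.1, p.2), ?_, ?_⟩
  · refine R266.SCV.analyticOnNhd_intervalIntegral
      (f := fun q : (ℂ × E) × ℝ => D ((q.2 : ℂ) * q.1.1, q.1.2)) hopen ?_ ?_
    · rw [uIcc_of_le zero_le_one]
      refine hDa.continuousOn.comp (by fun_prop) ?_
      rintro ⟨p, t⟩ ⟨hp, ht⟩
      exact hmem t ht p hp
    · intro t ht
      rw [uIcc_of_le zero_le_one] at ht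
      have hd : Differentiable ℂ (fun x : ℂ × E => ((t : ℂ) * x.1, x.2)) :=
        (differentiable_fst.const_mul _).prodMk differentiable_snd
      exact hDa.differentiableOn.comp hd.differentiableOn (fun p hp => hmem t ht p hp)
  · rintro ⟨u, y⟩ hp
    have hline : ∀ t ∈ Icc (0 : ℝ) 1, HasDerivAt (fun s : ℝ => F ((s : ℂ) * u, y))
        (u • D ((t : ℂ) * u, y)) t := by
      intro t ht
      have h1 : HasFDerivAt F (fderiv ℂ F ((t : ℂ) * u, y)) ((t : ℂ) * u, y) :=
        (hF _ (hmem t ht _ hp)).differentiableAt.hasFDerivAt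
      have h2 : HasDerivAt (fun s : ℝ => ((s : ℂ) * u, y)) (u, (0 : E)) t := by
        have h3 : HasDerivAt (fun s : ℝ => (s : ℂ) * u) u t := by
          simpa using (Complex.ofRealCLM.hasDerivAt (x := t)).mul_const u
        exact h3.prodMk (hasDerivAt_const t y)
      have h4 := (h1.restrictScalars ℝ).comp_hasDerivAt t h2
      refine h4.congr_deriv ?_
      have h5 : ((u, (0 : E)) : ℂ × E) = u • ((1 : ℂ), (0 : E)) := by simp
      simp only [ContinuousLinearMap.coe_restrictScalars', hD]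
      rw [h5, map_smul]
    have hint : IntervalIntegrable (fun t : ℝ => u • D ((t : ℂ) * u, y)) volume 0 1 := by
      refine ContinuousOn.intervalIntegrable ?_
      rw [uIcc_of_le zero_le_one]
      refine ContinuousOn.const_smul ?_ u
      exact hDa.continuousOn.comp (by fun_prop) (fun t ht => hmem t ht _ hp)
    have h6 := intervalIntegral.integral_eq_sub_of_hasDerivAt
      (fun t ht => hline t (by rwa [uIcc_of_le zero_le_one] at ht)) hint
    simp only [ofReal_one, one_mul, ofReal_zero, zero_mul] at h6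
    rw [h0 y hp.2, sub_zero, intervalIntegral.integral_smul] at h6
    exact h6.symm

/-- a holomorphic function divisible by all powers of `u` is zero -/
theorem eq_zero_of_div {g : ℂ × E → V} {r : ℝ} {U : Set E}
    (hg : AnalyticOnNhd ℂ g (ball 0 r ×ˢ U))
    (h : ∀ n : ℕ, ∃ G : ℂ × E → V, AnalyticOnNhd ℂ G (ball 0 r ×ˢ U) ∧
      ∀ p ∈ ball (0 : ℂ) r ×ˢ U, g p = p.1 ^ n • G p) :
    ∀ p ∈ ball (0 : ℂ) r ×ˢ U, g p = 0 := by
  rintro ⟨u, y⟩ hp
  have hr : 0 < r := by
    have : ‖u‖ < r := by simpa using hp.1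
    exact (norm_nonneg _).trans_lt this
  have hsl : ∀ {G : ℂ × E → V}, AnalyticOnNhd ℂ G (ball 0 r ×ˢ U) →
      AnalyticOnNhd ℂ (fun z : ℂ => G (z, y)) (ball 0 r) := by
    intro G hG z hz
    exact (hG (z, y) ⟨hz, hp.2⟩).comp_of_eq (analyticAt_id.prod analyticAt_const) rfl
  have h1 := hsl hg
  have h2 : (fun z : ℂ => g (z, y)) =ᶠ[𝓝 0] 0 := by
    have h3 := (h1 0 (mem_ball_self hr)).eventually_eq_zero_or_eventually_ne_zero
    rcases eq_or_ne (analyticOrderAt (fun z : ℂ => g (z, y)) 0) ⊤ with h4 | h4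
    · exact analyticOrderAt_eq_top.1 h4
    · exfalso
      obtain ⟨n, hn⟩ := ENat.ne_top_iff_exists.1 h4
      obtain ⟨G, hG, hgG⟩ := h (n + 1)
      have h5 : ((n + 1 : ℕ) : ℕ∞) ≤ analyticOrderAt (fun z : ℂ => g (z, y)) 0 := by
        rw [natCast_le_analyticOrderAt (h1 0 (mem_ball_self hr))]
        refine ⟨fun z => G (z, y), hsl hG 0 (mem_ball_self hr), ?_⟩
        filter_upwards [isOpen_ball.mem_nhds (mem_ball_self hr)] with z hz
        simpa using hgG (z, y) ⟨hz, hp.2⟩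
      rw [← hn] at h5
      have h6 : n + 1 ≤ n := by exact_mod_cast h5
      omega
  exact h1.eqOn_zero_of_preconnected_of_eventuallyEq_zero (convex_ball 0 r).isPreconnected
    (mem_ball_self hr) h2 hp.1

/-- **uniqueness lemma**: a holomorphic solution of `(A + u ∂_u) g = u (D_y g (a) + b g)` (`u ≠ 0`)
vanishing on `u = 0` is zero, if `A + n` is injective for every `n ≥ 1`. -/
theorem unique {g : ℂ × E → V} {r : ℝ} {U : Set E} (hr : 0 < r) (hU : IsOpen U)
    (hg : AnalyticOnNhd ℂ g (ball 0 r ×ˢ U)) (h0 : ∀ y ∈ U, g (0, y) = 0)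
    (A : V →L[ℂ] V) (hA : ∀ n : ℕ, 1 ≤ n → ∀ v, A v + (n : ℂ) • v = 0 → v = 0)
    (a : ℂ × E → E) (b : ℂ × E → ℂ) (ha : ContinuousOn a (ball 0 r ×ˢ U))
    (hb : ContinuousOn b (ball 0 r ×ˢ U))
    (heq : ∀ p ∈ ball (0 : ℂ) r ×ˢ U, p.1 ≠ 0 →
      A (g p) + p.1 • fderiv ℂ g p ((1 : ℂ), (0 : E)) =
        p.1 • (fderiv ℂ g p ((0 : ℂ), a p) + b p • g p)) :
    ∀ p ∈ ball (0 : ℂ) r ×ˢ U, g p = 0 := by
  have hopen : IsOpen (ball (0 : ℂ) r ×ˢ U) := isOpen_ball.prod hU
  -- the inductive statement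
  have key : ∀ n : ℕ, ∃ G : ℂ × E → V, AnalyticOnNhd ℂ G (ball 0 r ×ˢ U) ∧
      (∀ p ∈ ball (0 : ℂ) r ×ˢ U, g p = p.1 ^ n • G p) ∧ (∀ y ∈ U, G (0, y) = 0) ∧
      ∀ p ∈ ball (0 : ℂ) r ×ˢ U, p.1 ≠ 0 →
        A (G p) + (n : ℂ) • G p + p.1 • fderiv ℂ G p ((1 : ℂ), (0 : E)) =
          p.1 • (fderiv ℂ G p ((0 : ℂ), a p) + b p • G p) := by
    intro n
    induction n with
    | zero =>
      refine ⟨g, hg, ?_, h0, ?_⟩
      · intro p _; simp
      · intro p hp hp0
        simpa using heq p hp hp0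
    | succ n ih =>
      obtain ⟨G, hG, hgG, hG0, hGe⟩ := ih
      obtain ⟨G', hG', hGG'⟩ := exists_div hU hG hG0
      have hfd : ∀ p ∈ ball (0 : ℂ) r ×ˢ U, ∀ v : ℂ × E,
          fderiv ℂ G p v = p.1 • fderiv ℂ G' p v + v.1 • G' p := by
        intro p hp v
        have h1 : G =ᶠ[𝓝 p] fun q => q.1 • G' q := by
          filter_upwards [hopen.mem_nhds hp] with q hq using hGG' q hq
        have h2 : HasFDerivAt (fun q : ℂ × E => q.1 • G' q)
            (p.1 • fderiv ℂ G' p + (ContinuousLinearMap.fst ℂ ℂ E).smulRight (G' p)) p :=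
          (hasFDerivAt_fst (p := p)).smul (hG' p hp).differentiableAt.hasFDerivAt
        rw [h1.fderiv_eq, h2.fderiv]
        simp
      have hE : ∀ p ∈ ball (0 : ℂ) r ×ˢ U, p.1 ≠ 0 →
          A (G' p) + ((n + 1 : ℕ) : ℂ) • G' p + p.1 • fderiv ℂ G' p ((1 : ℂ), (0 : E)) =
            p.1 • (fderiv ℂ G' p ((0 : ℂ), a p) + b p • G' p) := by
        intro p hp hp0
        have h1 := hGe p hp hp0
        rw [hfd p hp, hfd p hp, hGG' p hp, map_smul] at h1
        simp only [one_smul, zero_smul, add_zero] at h1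
        have h2 : p.1 • (A (G' p) + ((n + 1 : ℕ) : ℂ) • G' p +
            p.1 • fderiv ℂ G' p ((1 : ℂ), (0 : E))) =
            p.1 • (p.1 • (fderiv ℂ G' p ((0 : ℂ), a p) + b p • G' p)) := by
          have h3 : p.1 • (p.1 • (fderiv ℂ G' p ((0 : ℂ), a p) + b p • G' p)) =
              p.1 • (p.1 • fderiv ℂ G' p ((0 : ℂ), a p) + b p • p.1 • G' p) := by
            rw [smul_add, smul_comm (b p) p.1 (G' p)]
          rw [h3, ← h1]
          push_cast
          module
        exact smul_right_injective V hp0 h2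
      refine ⟨G', hG', ?_, ?_, hE⟩
      · intro p hp
        rw [hgG p hp, hGG' p hp, smul_smul, pow_succ]
      · intro y hy
        apply hA (n + 1) (by omega)
        have hp0 : ((0 : ℂ), y) ∈ ball (0 : ℂ) r ×ˢ U := ⟨mem_ball_self hr, hy⟩
        -- continuity along `(t, y)`
        have hcont : Tendsto (fun t : ℂ => ((t, y) : ℂ × E)) (𝓝[≠] 0) (𝓝 (0, y)) :=
          (Continuous.tendsto (by fun_prop : Continuous fun t : ℂ => ((t, y) : ℂ × E)) 0).mono_left
            nhdsWithin_le_nhds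
        have hev : ∀ᶠ t : ℂ in 𝓝[≠] 0, ((t, y) : ℂ × E) ∈ ball (0 : ℂ) r ×ˢ U :=
          hcont (hopen.mem_nhds hp0)
        have cG : ContinuousAt G' (0, y) := (hG' _ hp0).continuousAt
        have cD : ContinuousAt (fderiv ℂ G') (0, y) := (hG' _ hp0).fderiv.continuousAt
        have ca : ContinuousAt a (0, y) := ha.continuousAt (hopen.mem_nhds hp0)
        have cb : ContinuousAt b (0, y) := hb.continuousAt (hopen.mem_nhds hp0)
        have L1 : ContinuousAt (fun p : ℂ × E => A (G' p) + ((n + 1 : ℕ) : ℂ) • G' p +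
            p.1 • fderiv ℂ G' p ((1 : ℂ), (0 : E))) (0, y) := by
          have e1 : ContinuousAt (fun p : ℂ × E => fderiv ℂ G' p ((1 : ℂ), (0 : E))) (0, y) :=
            cD.clm_apply continuousAt_const
          exact ((A.continuous.continuousAt.comp cG).add (cG.const_smul _)).add
            (continuousAt_fst.smul e1)
        have L2 : ContinuousAt (fun p : ℂ × E =>
            p.1 • (fderiv ℂ G' p ((0 : ℂ), a p) + b p • G' p)) (0, y) := by
          have e1 : ContinuousAt (fun p : ℂ × E => fderiv ℂ G' p ((0 : ℂ), a p)) (0, y) :=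
            cD.clm_apply (continuousAt_const.prodMk ca)
          exact continuousAt_fst.smul (e1.add (cb.smul cG))
        have T1 := (L1.tendsto).comp hcont
        have T2 := (L2.tendsto).comp hcont
        have h5 : (fun t : ℂ => A (G' (t, y)) + ((n + 1 : ℕ) : ℂ) • G' (t, y) +
            t • fderiv ℂ G' (t, y) ((1 : ℂ), (0 : E))) =ᶠ[𝓝[≠] 0]
            fun t : ℂ => t • (fderiv ℂ G' (t, y) ((0 : ℂ), a (t, y)) + b (t, y) • G' (t, y)) := by
          filter_upwards [hev, self_mem_nhdsWithin] with t ht ht0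
          exact hE (t, y) ht ht0
        have T3 := T1.congr' h5
        have h6 := tendsto_nhds_unique T3 T2
        simpa using h6
  exact eq_zero_of_div hg fun n => by
    obtain ⟨G, hG, hgG, -, -⟩ := key n
    exact ⟨G, hG, hgG⟩

/-- `c N + n` is injective for `N` nilpotent, `n ≥ 1` -/
theorem nil_inj {N : V →L[ℂ] V} (hN : IsNilpotent N) (c : ℂ) (n : ℕ) (hn : 1 ≤ n) (v : V)
    (h : c • N v + (n : ℂ) • v = 0) : v = 0 := by
  have hn0 : (n : ℂ) ≠ 0 := by exact_mod_cast (by omega : n ≠ 0)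
  obtain ⟨k, hk⟩ := hN
  have key : ∀ j : ℕ, ∃ d : ℂ, v = d • (N ^ j) v := by
    intro j
    induction j with
    | zero => exact ⟨1, by simp⟩
    | succ j ih =>
      obtain ⟨d, hd⟩ := ih
      have h1 : v = (-(c / n)) • N v := by
        have h2 : (n : ℂ) • v = -(c • N v) := by
          rw [eq_neg_iff_add_eq_zero, add_comm]; exact h
        calc v = ((n : ℂ)⁻¹ * n) • v := by rw [inv_mul_cancel₀ hn0, one_smul]
          _ = (n : ℂ)⁻¹ • ((n : ℂ) • v) := by rw [smul_smul]
          _ = _ := by rw [h2, smul_neg, smul_smul, neg_smul]; congr 2; field_simp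
      refine ⟨d * (-(c / n)), ?_⟩
      conv_lhs => rw [hd, h1]
      rw [map_smul, smul_smul, pow_succ]
      rfl
  obtain ⟨d, hd⟩ := key k
  rw [hd, hk]
  simp

end Crest.Agent.R276.Div_767
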