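import Crest.Agent.R276.End0A_508
import Crest.Agent.R276.Mod1_987

/-!
# Row 276, END0 (helper508), part B: the field-level statement of the flat case

`kapGeF_of_flat` : `K/ℂ` f.g., `L ≤ K`, `KapGeS ℂ L e`, and `d + 1` relative forms `τ_i` of weight
`q > 0` for `K/L` (coordinates `x`), regular relative to `L` at EVERY divisorial valuation ring of
`K/ℂ` (horizontal and vertical), with ratios algebraically independent over `L`:
then `KapGeF ℂ K (d + e)`.
-/

set_option autoImplicit false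

noncomputable section

open KaehlerDifferential

namespace Crest.Agent.R276.End0_508

open Crest.Agent.R276.FKDefs_779

/-- affine étale charts with prescribed coordinates, containing a prescribed finite set. -/
theorem exists_etChart {K : Type} [Field K] [Algebra ℂ K] [Algebra.EssFiniteType ℂ K] {n : ℕ}
    (x : Fin n → K) (hx : IsTranscendenceBasis ℂ x) (S : Finset K) :
    ∃ A : Subalgebra ℂ K, EtChart ℂ K A x ∧ ∀ s ∈ S, s ∈ A := by
  obtain ⟨g, hg0, hg⟩ := Mod1_987.exists_mdl x hx S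
  obtain ⟨M, -, hMz, hMS⟩ := hg g hg0 dvd_rfl
  have hmem : ∀ i, x i ∈ M.B := fun i => by rw [← hMz i]; exact (M.z i).2
  refine ⟨M.B, ⟨?_, ?_, hmem, ?_⟩, fun s hs => (hMS s hs).1⟩
  · exact M.B.fg_iff_finiteType.mpr M.ft
  · intro a
    obtain ⟨b, c, hc, h⟩ := M.frac a
    refine ⟨b, b.2, c, c.2, ?_, ?_⟩
    · intro h0
      exact hc (Subtype.ext h0)
    · rw [h, div_eq_mul_inv]
  · have h1 : (fun i => (⟨x i, hmem i⟩ : M.B)) = M.z := by
      funext i
      exact Subtype.ext (hMz i).symm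
    rw [h1]
    exact M.het

theorem essFiniteType_of_fgf {k K : Type*} [Field k] [Field K] [Algebra k K] (h : FGF k K) :
    Algebra.EssFiniteType k K := IntermediateField.fg_top_iff.mp h

/-- strong sections of `K/k` on a prescribed basis of `Ω[K⁄k]` -/
theorem kapGeS_basis {k K : Type*} [Field k] [Field K] [Algebra k K] {e : ℕ} (h : KapGeS k K e)
    {n : ℕ} (b' : Module.Basis (Fin n) K (Ω[K⁄k])) :
    ∃ m : ℕ, 0 < m ∧ ∃ f : Fin (e + 1) → K, (∀ i, f i ≠ 0 ∧ PluriS k b' m (f i)) ∧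
      AlgebraicIndependent k (fun i : Fin e => f i.succ / f 0) := by
  obtain ⟨n', b, m, hm, f, hf, hind⟩ := h
  obtain rfl := FKB0_143.card_eq_of_basis b b'
  have hc := pow_ne_zero m (FKB0_143.det_ne_zero b b')
  refine ⟨m, hm, fun i => f i / b.det b' ^ m, fun i => ⟨div_ne_zero (hf i).1 hc,
    FKB0_143.pluriS_change b b' m (hf i).2⟩, ?_⟩
  convert hind using 1
  funext i
  rw [div_div_div_cancel_right₀ hc]

/-- **END0.** -/
theorem kapGeF_of_flat {K : Type} [Field K] [Algebra ℂ K] (L : IntermediateField ℂ K)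
    (hfg : FGF ℂ K) {m r : ℕ} {z : Fin m → L} {x : Fin r → K}
    (hz : IsTranscendenceBasis ℂ z) (hx : IsTranscendenceBasis L x)
    (bK : Module.Basis (Fin r) K (Ω[K⁄L])) (hbK : ∀ i, bK i = D L K (x i))
    {d e q : ℕ} (hq : 0 < q) (hL : KapGeS ℂ L e)
    (τ : Fin (d + 1) → K) (hτ0 : ∀ j, τ j ≠ 0)
    (hτi : AlgebraicIndependent L (fun i : Fin d => τ i.succ / τ 0))
    (hτ : ∀ R : ValuationSubring K, IsDiv ℂ (m + r) R → ∀ i, RegAt L R bK q (τ i)) :
    KapGeF ℂ K (d + e) := by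
  have := essFiniteType_of_fgf hfg
  obtain ⟨bL, hbL⟩ := FKB0_143.exists_kbasis hz
  obtain ⟨q₁, hq₁, w, hw, hwi⟩ := kapGeS_basis hL bL
  refine kapGeF_of hz hx (exists_etChart _ (isTranscendenceBasis_append hz hx)) hbL hbK hq₁ hq w
    (fun j => (hw j).1) hwi ?_ τ hτ0 hτi hτ
  intro R hR j
  refine (hw j).2 _ fun c => ?_
  rw [ValuationSubring.mem_comap, ← IsScalarTower.algebraMap_apply]
  exact hR.alg c

end Crest.Agent.R276.End0_508
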