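import Crest.Agent.R271.H2_51

/-!
# Row 276, LEMMA JET (helper870)

If continuous functions `g j` on a Riemann domain have algebraically independent restrictions to the
slice `{t_i = c_i}` (`t_i` = some of the coordinates), then the `g j` and the `t_i` together are
algebraically independent.  No analyticity is needed.
-/

set_option autoImplicit false
set_option linter.unusedSectionVars false

open Set Filter Topology MvPolynomial

namespace Crest.Agent.R276.Jet_870

/-- one slice -/
theorem step {X : Type*} [TopologicalSpace X] {κ : Type*} (A : Set X) (f : κ → X → ℂ) (t : X → ℂ)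
    (c : ℂ) (hf : ∀ j, ContinuousOn (f j) A) (ht : ContinuousOn t A)
    (hdens : ∀ x ∈ A, t x = c → x ∈ closure (A ∩ {y | t y ≠ c}))
    (h : ∀ Q : MvPolynomial κ ℂ, Q ≠ 0 → ∃ x ∈ A, t x = c ∧ eval (fun j => f j x) Q ≠ 0)
    (P : Polynomial (MvPolynomial κ ℂ)) (hP : P ≠ 0) :
    ∃ x ∈ A, (P.map (eval fun j => f j x)).eval (t x) ≠ 0 := by
  by_contra hcon
  push Not at hcon
  obtain ⟨P1, hP1, hndvd⟩ := Polynomial.exists_eq_pow_rootMultiplicity_mul_and_not_dvd P hP
    (C c : MvPolynomial κ ℂ)
  set k := P.rootMultiplicity (C c : MvPolynomial κ ℂ) with hk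
  have hQ : P1.eval (C c : MvPolynomial κ ℂ) ≠ 0 := fun h0 =>
    hndvd (Polynomial.dvd_iff_isRoot.2 h0)
  obtain ⟨x, hxA, hxc, hx⟩ := h _ hQ
  -- the function `P1(f, t)` vanishes off `t = c`
  have h1 : ∀ y ∈ A, t y ≠ c → (P1.map (eval fun j => f j y)).eval (t y) = 0 := by
    intro y hy hyc
    have h2 := hcon y hy
    rw [hP1] at h2
    simp only [Polynomial.map_mul, Polynomial.map_pow, Polynomial.map_sub, Polynomial.map_X,
      Polynomial.map_C, eval_C, Polynomial.eval_mul, Polynomial.eval_pow, Polynomial.eval_sub,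
      Polynomial.eval_X, Polynomial.eval_C] at h2
    rcases mul_eq_zero.1 h2 with h3 | h3
    · exact absurd (eq_zero_of_pow_eq_zero h3) (sub_ne_zero.2 hyc)
    · exact h3
  have hcont : ContinuousOn (fun y => (P1.map (eval fun j => f j y)).eval (t y)) A := by
    have h4 : ∀ Q : MvPolynomial κ ℂ, ContinuousOn (fun y => eval (fun j => f j y) Q) A := by
      intro Q
      induction Q using MvPolynomial.induction_on with
      | C a => simpa using continuousOn_const
      | add p q hp hq =>
        simp only [map_add]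
        exact hp.add hq
      | mul_X p i hp =>
        simp only [map_mul, eval_X]
        exact hp.mul (hf i)
    have h5 : (fun y => (P1.map (eval fun j => f j y)).eval (t y)) =
        fun y => ∑ i ∈ Finset.range (P1.natDegree + 1), eval (fun j => f j y) (P1.coeff i) * t y ^ i := by
      funext y
      rw [Polynomial.eval_map, Polynomial.eval₂_eq_sum_range]
    rw [h5]
    exact continuousOn_finsetSum _ fun i _ => (h4 _).mul (ht.pow i)
  have h6 : (P1.map (eval fun j => f j x)).eval (t x) = 0 := by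
    have h7 : x ∈ closure (A ∩ {y | t y ≠ c}) := hdens x hxA hxc
    have h8 : Tendsto (fun y => (P1.map (eval fun j => f j y)).eval (t y))
        (𝓝[A ∩ {y | t y ≠ c}] x) (𝓝 ((P1.map (eval fun j => f j x)).eval (t x))) :=
      (hcont x hxA).mono_left (nhdsWithin_mono x inter_subset_left)
    have : NeBot (𝓝[A ∩ {y | t y ≠ c}] x) := mem_closure_iff_nhdsWithin_neBot.1 h7
    refine tendsto_nhds_unique h8 ((tendsto_const_nhds (x := (0 : ℂ))).congr' ?_)
    filter_upwards [self_mem_nhdsWithin] with y hy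
    exact (h1 y hy.1 hy.2).symm
  apply hx
  rw [hxc] at h6
  rw [← h6, Polynomial.eval_map, ← Polynomial.eval₂_id]
  rw [Polynomial.hom_eval₂]
  simp

open Crest.Agent.R271.Ho51

variable {n : ℕ} {M : Type*} [TopologicalSpace M] [RDom n M]

/-- moving in one coordinate direction inside a Riemann domain -/
lemma move (x : M) (i : Fin n) (U : Set M) (hU : U ∈ 𝓝 x) :
    ∃ y ∈ U, (∀ j, j ≠ i → cp y j = cp x j) ∧ cp y i ≠ cp x i := by
  have hsrc : (ch x).symm (cp x) = x := (isCh_ch x).symm_cp (mem_ch x)
  have htgt : cp x ∈ (ch x).target := (isCh_ch x).cp_mem (mem_ch x)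
  have h1 : Tendsto (fun τ : ℂ => (ch x).symm (cp x + Pi.single i τ)) (𝓝 0) (𝓝 x) := by
    have h2 : ContinuousAt (ch x).symm (cp x) := (ch x).symm.continuousAt (by simpa using htgt)
    have h3 : Tendsto (fun τ : ℂ => cp x + Pi.single i τ) (𝓝 0) (𝓝 (cp x)) := by
      have : Continuous (fun τ : ℂ => cp x + Pi.single i τ) :=
        continuous_const.add (continuous_single (A := fun _ : Fin n => ℂ) i)
      simpa using this.tendsto 0
    rw [ContinuousAt, hsrc] at h2
    exact h2.comp h3
  have h4 : ∀ᶠ τ : ℂ in 𝓝 0, cp x + Pi.single i τ ∈ (ch x).target := by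
    have : Continuous (fun τ : ℂ => cp x + Pi.single i τ) :=
      continuous_const.add (continuous_single (A := fun _ : Fin n => ℂ) i)
    exact this.continuousAt.eventually_mem ((ch x).open_target.mem_nhds (by simpa using htgt))
  have h5 := (h1.eventually_mem hU).and h4
  obtain ⟨τ, ⟨hτU, hτt⟩, hτ0⟩ : ∃ τ : ℂ, ((ch x).symm (cp x + Pi.single i τ) ∈ U ∧
      cp x + Pi.single i τ ∈ (ch x).target) ∧ τ ≠ 0 := by
    have h6 : ∀ᶠ τ : ℂ in 𝓝[≠] 0, ((ch x).symm (cp x + Pi.single i τ) ∈ U ∧
      cp x + Pi.single i τ ∈ (ch x).target) := h5.filter_mono nhdsWithin_le_nhds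
    exact (h6.and self_mem_nhdsWithin).exists
  refine ⟨(ch x).symm (cp x + Pi.single i τ), hτU, fun j hj => ?_, ?_⟩
  · rw [(isCh_ch x).cp_symm hτt]
    simp [Pi.single_eq_of_ne hj]
  · rw [(isCh_ch x).cp_symm hτt]
    simpa using hτ0

/-- **LEMMA JET**, inductive form: slices given by a list of distinct coordinates -/
theorem jet_aux (Ω : Set M) (hΩ : IsOpen Ω) (c : Fin n → ℂ) :
    ∀ (s s' : Finset (Fin n)) (_ : Disjoint s s') {κ : Type} (g : κ → M → ℂ)
      (_ : ∀ j, ContinuousOn (g j) Ω)
      (_ : ∀ Q : MvPolynomial κ ℂ, Q ≠ 0 → ∃ x ∈ Ω, (∀ i ∈ s ∪ s', cp x i = c i) ∧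
        eval (fun j => g j x) Q ≠ 0)
      (P : MvPolynomial (κ ⊕ s) ℂ), P ≠ 0 →
      ∃ x ∈ Ω, (∀ i ∈ s', cp x i = c i) ∧
        eval (Sum.elim (fun j => g j x) (fun i : s => cp x i)) P ≠ 0 := by
  intro s
  induction s using Finset.induction_on with
  | empty =>
    intro s' _ κ g hg h P hP
    let e : κ ⊕ (∅ : Finset (Fin n)) ≃ κ := Equiv.sumEmpty _ _
    have hinj := (rename_injective (R := ℂ) e e.injective)
    obtain ⟨x, hx, hs, hne⟩ := h (rename e P) (fun h0 => hP (hinj (by rw [h0, map_zero])))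
    refine ⟨x, hx, fun i hi => hs i (by simp [hi]), ?_⟩
    rw [eval_rename] at hne
    convert hne using 2
    congr 1
    funext j
    rcases j with j | j
    · rfl
    · exact absurd j.2 (Finset.notMem_empty _)
  | insert a s ha ih =>
    intro s' hdis κ g hg h P hP
    rw [Finset.disjoint_insert_left] at hdis
    -- first the coordinates in `s`, on the slice `a ∪ s'`
    have h1 := ih (insert a s') (by
      rw [Finset.disjoint_insert_right]; exact ⟨ha, hdis.2⟩) g hg (fun Q hQ => by
        obtain ⟨x, hx, hs, hne⟩ := h Q hQ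
        exact ⟨x, hx, fun i hi => hs i (by
          simp only [Finset.mem_union, Finset.mem_insert] at hi ⊢; tauto), hne⟩)
    -- then the coordinate `a`
    let f : κ ⊕ s → M → ℂ := fun j x => Sum.elim (fun j => g j x) (fun i : s => cp x i) j
    let A : Set M := {x | x ∈ Ω ∧ ∀ i ∈ s', cp x i = c i}
    have hcp : ∀ i : Fin n, Continuous fun x : M => cp x i := fun i =>
      (continuous_apply i).comp cp_cont
    let e : κ ⊕ ↥(insert a s) ≃ Option (κ ⊕ s) :=
      { toFun := fun j => match j with
          | Sum.inl j => some (Sum.inl j)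
          | Sum.inr i => if hi : (i : Fin n) = a then none else
              some (Sum.inr ⟨i, (Finset.mem_insert.1 i.2).resolve_left hi⟩)
        invFun := fun j => match j with
          | none => Sum.inr ⟨a, Finset.mem_insert_self a s⟩
          | some (Sum.inl j) => Sum.inl j
          | some (Sum.inr i) => Sum.inr ⟨i, Finset.mem_insert_of_mem i.2⟩
        left_inv := by
          rintro (j | i)
          · rfl
          · by_cases hi : (i : Fin n) = a
            · simp only [hi, dite_true]
              congr 1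
              exact Subtype.ext hi.symm
            · simp only [hi, dite_false]
        right_inv := by
          rintro (_ | j | i)
          · simp
          · rfl
          · have : (i : Fin n) ≠ a := fun h => ha (h ▸ i.2)
            simp [this] }
    let P' : Polynomial (MvPolynomial (κ ⊕ s) ℂ) := optionEquivLeft ℂ (κ ⊕ s) (rename e P)
    have hP' : P' ≠ 0 := by
      intro h0
      apply hP
      have h2 : rename e P = 0 := (optionEquivLeft ℂ (κ ⊕ s)).injective (by rw [map_zero]; exact h0)
      exact rename_injective (R := ℂ) e e.injective (by rw [h2, map_zero])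
    obtain ⟨x, hxA, hx⟩ := step A f (fun x => cp x a) (c a) (by
        rintro (j | i)
        · exact (hg j).mono fun x hx => hx.1
        · exact (hcp i).continuousOn) (hcp a).continuousOn (by
        intro x hx hxa
        rw [mem_closure_iff_nhds]
        intro U hU
        obtain ⟨y, hy, hyj, hya⟩ := move x a (U ∩ Ω) (inter_mem hU (hΩ.mem_nhds hx.1))
        refine ⟨y, hy.1, ⟨hy.2, fun i hi => ?_⟩, ?_⟩
        · rw [hyj i (fun h => hdis.1 (h ▸ hi))]
          exact hx.2 i hi
        · show cp y a ≠ c a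
          rw [← hxa]; exact hya) (by
        intro Q hQ
        obtain ⟨x, hx, hs, hne⟩ := h1 Q hQ
        exact ⟨x, ⟨hx, fun i hi => hs i (by simp [hi])⟩, hs a (by simp), hne⟩) P' hP'
    refine ⟨x, hxA.1, hxA.2, ?_⟩
    have h3 : (P'.map (eval fun j => f j x)).eval (cp x a) =
        eval (Sum.elim (fun j => g j x) (fun i : ↥(insert a s) => cp x i)) P := by
      have h4 : ∀ R : MvPolynomial (Option (κ ⊕ s)) ℂ,
          ((optionEquivLeft ℂ (κ ⊕ s) R).map (eval fun j => f j x)).eval (cp x a) =
          eval (fun o : Option (κ ⊕ s) => o.elim (cp x a) (fun j => f j x)) R := by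
        intro R
        induction R using MvPolynomial.induction_on with
        | C b =>
          simp [optionEquivLeft_C]
        | add p q hp hq =>
          rw [map_add, Polynomial.map_add, Polynomial.eval_add, hp, hq, map_add]
        | mul_X p i hp =>
          rw [map_mul, Polynomial.map_mul, Polynomial.eval_mul, hp, map_mul, eval_X]
          congr 1
          rcases i with _ | i
          · simp
          · simp
      show ((optionEquivLeft ℂ (κ ⊕ s) (rename e P)).map (eval fun j => f j x)).eval (cp x a) = _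
      rw [h4, eval_rename]
      congr 2
      funext j
      rcases j with j | i
      · rfl
      · by_cases hi : (i : Fin n) = a
        · simp [e, hi]
        · simp [e, hi, f]
    rw [h3] at hx
    exact hx

/-- **LEMMA JET** -/
theorem jet {κ : Type} (Ω : Set M) (hΩ : IsOpen Ω) (c : Fin n → ℂ) (s : Finset (Fin n))
    (g : κ → M → ℂ) (hg : ∀ j, ContinuousOn (g j) Ω)
    (h : ∀ Q : MvPolynomial κ ℂ, Q ≠ 0 → ∃ x ∈ Ω, (∀ i ∈ s, cp x i = c i) ∧
      eval (fun j => g j x) Q ≠ 0)
    (P : MvPolynomial (κ ⊕ s) ℂ) (hP : P ≠ 0) :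
    ∃ x ∈ Ω, eval (Sum.elim (fun j => g j x) (fun i : s => cp x i)) P ≠ 0 := by
  obtain ⟨x, hx, -, hne⟩ := jet_aux Ω hΩ c s ∅ (by simp) g hg (fun Q hQ => by
    obtain ⟨x, hx, hs, hne⟩ := h Q hQ
    exact ⟨x, hx, fun i hi => hs i (by simpa using hi), hne⟩) P hP
  exact ⟨x, hx, hne⟩

/-- algebraic form: `M` carries evaluations of an algebra `B` whose elements `z i` are the
coordinates -/
theorem jet_algInd {B : Type*} [CommRing B] [Algebra ℂ B] (ev : M → B →ₐ[ℂ] ℂ)
    (hev : ∀ b, Continuous fun x => ev x b) (z : Fin n → B) (hz : ∀ x i, ev x (z i) = cp x i)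
    {κ : Type} (c : Fin n → ℂ) (s : Finset (Fin n)) (b : κ → B)
    (h : ∀ Q : MvPolynomial κ ℂ, Q ≠ 0 → ∃ x, (∀ i ∈ s, cp x i = c i) ∧
      eval (fun j => ev x (b j)) Q ≠ 0) :
    AlgebraicIndependent ℂ (Sum.elim b (fun i : s => z i)) := by
  rw [algebraicIndependent_iff]
  intro P hP0
  by_contra hP
  obtain ⟨x, -, hx⟩ := jet (M := M) univ isOpen_univ c s (fun j x => ev x (b j))
    (fun j => (hev (b j)).continuousOn) (fun Q hQ => by
      obtain ⟨x, hx, hne⟩ := h Q hQ
      exact ⟨x, mem_univ x, hx, hne⟩) P hP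
  apply hx
  have h1 : ev x (aeval (Sum.elim b (fun i : s => z i)) P) = 0 := by rw [hP0, map_zero]
  have h2 : ev x (aeval (Sum.elim b (fun i : s => z i)) P) =
      aeval (fun j => ev x (Sum.elim b (fun i : s => z i) j)) P := by
    rw [← AlgHom.comp_apply, comp_aeval]
  rw [← h1, h2]
  rw [aeval_eq_eval]
  congr 2
  funext j
  rcases j with j | j
  · rfl
  · exact (hz x j).symm

/-- the same with one denominator `F0` -/
theorem jet_algInd_ratio {B : Type*} [CommRing B] [IsDomain B] [Algebra ℂ B] {K : Type*} [Field K]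
    [Algebra ℂ K] [Algebra B K] [IsScalarTower ℂ B K] (hBK : Function.Injective (algebraMap B K))
    (ev : M → B →ₐ[ℂ] ℂ)
    (hev : ∀ b, Continuous fun x => ev x b) (z : Fin n → B) (hz : ∀ x i, ev x (z i) = cp x i)
    {κ : Type} (c : Fin n → ℂ) (s : Finset (Fin n)) (F0 : B) (b : κ → B)
    (h : ∀ Q : MvPolynomial κ ℂ, Q ≠ 0 → ∃ x, (∀ i ∈ s, cp x i = c i) ∧ ev x F0 ≠ 0 ∧
      eval (fun j => ev x (b j) / ev x F0) Q ≠ 0) :
    AlgebraicIndependent ℂ (Sum.elim (fun j => algebraMap B K (b j) / algebraMap B K F0)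
      (fun i : s => algebraMap B K (z i))) := by
  classical
  obtain ⟨x0, -, hx0, -⟩ := h 1 one_ne_zero
  have hF0 : F0 ≠ 0 := fun h0 => hx0 (by rw [h0, map_zero])
  have hF0K : algebraMap B K F0 ≠ 0 := fun h0 => hF0 (hBK (by rw [h0, map_zero]))
  rw [algebraicIndependent_iff]
  intro P hP0
  by_contra hP
  obtain ⟨x, hxΩ, hx⟩ := jet (M := M) {x | ev x F0 ≠ 0}
    (isOpen_ne_fun (hev F0) continuous_const) c s (fun j x => ev x (b j) / ev x F0)
    (fun j => (hev (b j)).continuousOn.div (hev F0).continuousOn fun x hx => hx) (fun Q hQ => by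
      obtain ⟨x, hx, hx0, hne⟩ := h Q hQ
      exact ⟨x, hx0, hx, hne⟩) P hP
  apply hx
  -- extend the evaluation to `B[1/F0]`
  let L := Localization.Away F0
  have hu : IsUnit (ev x F0) := isUnit_iff_ne_zero.2 hxΩ
  have huK : IsUnit (algebraMap B K F0) := isUnit_iff_ne_zero.2 hF0K
  let evL : L →+* ℂ := IsLocalization.Away.lift (x := F0) (g := (ev x : B →+* ℂ)) hu
  let iK : L →+* K := IsLocalization.Away.lift (x := F0) (g := algebraMap B K) huK
  have hevL : ∀ a : B, evL (algebraMap B L a) = ev x a := fun a =>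
    IsLocalization.Away.lift_eq (x := F0) (g := (ev x : B →+* ℂ)) hu a
  have hiK : ∀ a : B, iK (algebraMap B L a) = algebraMap B K a := fun a =>
    IsLocalization.Away.lift_eq (x := F0) (g := algebraMap B K) huK a
  let f : κ ⊕ s → L := Sum.elim (fun j => IsLocalization.mk' L (b j)
    (⟨F0, Submonoid.mem_powers F0⟩ : Submonoid.powers F0)) (fun i : s => algebraMap B L (z i))
  have hspec : ∀ a : B, IsLocalization.mk' L a (⟨F0, Submonoid.mem_powers F0⟩ : Submonoid.powers F0) *
      algebraMap B L F0 = algebraMap B L a := fun a => IsLocalization.mk'_spec L a _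
  have hfK : ∀ j, iK (f j) = Sum.elim (fun j => algebraMap B K (b j) / algebraMap B K F0)
      (fun i : s => algebraMap B K (z i)) j := by
    rintro (j | i)
    · show iK (IsLocalization.mk' L (b j) _) = algebraMap B K (b j) / algebraMap B K F0
      rw [eq_div_iff hF0K, ← hiK F0, ← map_mul, hspec, hiK]
    · exact hiK _
  have hfe : ∀ j, evL (f j) = Sum.elim (fun j => ev x (b j) / ev x F0)
      (fun i : s => cp x i) j := by
    rintro (j | i)
    · show evL (IsLocalization.mk' L (b j) _) = ev x (b j) / ev x F0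
      rw [eq_div_iff hxΩ, ← hevL F0, ← map_mul, hspec, hevL]
    · exact (hevL _).trans (hz x i)
  have hinj : Function.Injective iK := by
    rw [injective_iff_map_eq_zero]
    intro y hy
    obtain ⟨a, m, rfl⟩ := IsLocalization.exists_mk'_eq (Submonoid.powers F0) y
    have h1 : iK (IsLocalization.mk' L a m * algebraMap B L m) = 0 := by rw [map_mul, hy, zero_mul]
    rw [IsLocalization.mk'_spec, hiK] at h1
    have h2 : a = 0 := hBK (by rw [h1, map_zero])
    rw [h2, IsLocalization.mk'_zero]
  have hP1 : iK (MvPolynomial.eval₂ (algebraMap ℂ L) f P) = 0 := by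
    rw [MvPolynomial.hom_eval₂]
    rw [aeval_def] at hP0
    rw [← hP0]
    congr 1
    · ext a
      show iK (algebraMap ℂ L a) = algebraMap ℂ K a
      rw [IsScalarTower.algebraMap_apply ℂ B L, hiK, ← IsScalarTower.algebraMap_apply]
    · funext j
      exact hfK j
  have hP2 : MvPolynomial.eval₂ (algebraMap ℂ L) f P = 0 := hinj (by rw [hP1, map_zero])
  have hP3 : evL (MvPolynomial.eval₂ (algebraMap ℂ L) f P) = 0 := by rw [hP2, map_zero]
  rw [MvPolynomial.hom_eval₂] at hP3
  rw [← hP3]
  have h4 : evL.comp (algebraMap ℂ L) = RingHom.id ℂ := by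
    ext a
    show evL (algebraMap ℂ L a) = a
    rw [IsScalarTower.algebraMap_apply ℂ B L, hevL]
    simp
  rw [h4]
  show eval _ P = eval _ P
  congr 2
  funext j
  rw [hfe]

end Crest.Agent.R276.Jet_870
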