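import Crest.Agent.R276.BC4_986
import Crest.Agent.R276.AB2_590
import Crest.Agent.R276.Jet_870
import Crest.Agent.R276.FKDefs_779
import Crest.Agent.R271.Rd8_692

/-!
# Row 276, D-END (helper723), part A: from one psh weight and extension from a fibre to `d + e + ρ`

Everything happens on `M = Hom(A,ℂ)` for an affine étale chart `(A,z)` of `K/ℂ`.

* `tn s y = 1 + ∑_{i ∈ s} |y(z_i)|²`, `zn y = 1 + ∑ |y(z_i)|²`;
* `Growth B` : polynomial growth of the weight `B ≥ 0`;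
* `Bdd B s κ R` : `B · tn^κ` is bounded in the frame of `K_X` near general points of the divisor `R`;
* `alg_of_fin` : `∫ |F|² / (B^l tn^κ₁) < ∞` implies `F ∈ A`;
* `reg_of_fin` : and `F (dz)^{l+1}` is regular at `R` if `κ₁ ≤ l κ`;
* `sections` : the endgame.
-/

set_option autoImplicit false

open scoped Topology BigOperators ENNReal
open Set Metric MeasureTheory

noncomputable section

namespace Crest.Agent.R276.End_723

open Crest.Agent.R271.Defs710 Crest.Agent.R271.Bd741 Crest.Agent.R276.FKDefs_779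
open Crest.Agent.R276.BC_986 Crest.Agent.R276.AB2_590

variable {K : Type} [Field K] [Algebra ℂ K] {n : ℕ}
variable {A : Subalgebra ℂ K} {z : Fin n → K} (hA : EtChart ℂ K A z)

/-- `1 + ∑_{i ∈ s} |z_i|²` -/
def tn (s : Finset (Fin n)) (y : A →ₐ[ℂ] ℂ) : ℝ := 1 + ∑ i ∈ s, ‖y (zA hA i)‖ ^ 2

/-- `1 + ∑ |z_i|²` -/
def zn (y : A →ₐ[ℂ] ℂ) : ℝ := 1 + ∑ i, ‖y (zA hA i)‖ ^ 2

lemma one_le_tn (s : Finset (Fin n)) (y : A →ₐ[ℂ] ℂ) : 1 ≤ tn hA s y := by
  unfold tn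
  have : 0 ≤ ∑ i ∈ s, ‖y (zA hA i)‖ ^ 2 := Finset.sum_nonneg fun i _ => by positivity
  linarith

lemma tn_le_zn (s : Finset (Fin n)) (y : A →ₐ[ℂ] ℂ) : tn hA s y ≤ zn hA y := by
  unfold tn zn
  have := Finset.sum_le_sum_of_subset_of_nonneg (Finset.subset_univ s)
    (f := fun i => ‖y (zA hA i)‖ ^ 2) (fun i _ _ => by positivity)
  linarith

lemma one_le_zn (y : A →ₐ[ℂ] ℂ) : 1 ≤ zn hA y := (one_le_tn hA ∅ y).trans (tn_le_zn hA ∅ y)

lemma sq_le_tn {s : Finset (Fin n)} {i : Fin n} (hi : i ∈ s) (y : A →ₐ[ℂ] ℂ) :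
    ‖y (zA hA i)‖ ^ 2 ≤ tn hA s y := by
  unfold tn
  have h : ‖y (zA hA i)‖ ^ 2 ≤ ∑ i ∈ s, ‖y (zA hA i)‖ ^ 2 :=
    Finset.single_le_sum (f := fun i => ‖y (zA hA i)‖ ^ 2) (fun i _ => by positivity) hi
  linarith

/-- polynomial growth of a weight -/
structure Growth (B : (A →ₐ[ℂ] ℂ) → ℝ) : Prop where
  nonneg : ∀ y, 0 ≤ B y
  growth : ∃ (u v : A) (N M : ℕ) (C : ℝ), u ≠ 0 ∧ v ≠ 0 ∧
    ∀ y : A →ₐ[ℂ] ℂ, y v ≠ 0 → B y * ‖y u‖ ^ (2 * N) ≤ C * zn hA y ^ M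

/-- `B · tn^κ` is bounded, in the frame of `K_X`, near general points of the divisor `R` -/
def Bdd (B : (A →ₐ[ℂ] ℂ) → ℝ) (s : Finset (Fin n)) (κ : ℝ) (R : ValuationSubring K) : Prop :=
  ∃ D : DivModel n K, D.ModelOf R ∧ ∀ F : Finset K, (∀ f ∈ F, f ≠ 0) →
    ∃ X : BChart D A, (∀ f ∈ F, ∃ (a : ℤ) (G : Cn n → ℂ), Good D X f a G) ∧ ∃ C : ℝ,
      ∀ ζ ∈ X.V, B (X.s ζ) * tn hA s (X.s ζ) ^ κ * ‖(fderiv ℂ (X.ψ (zA hA)) ζ).det‖ ^ 2 ≤ C

/-- the `L²` condition `∫ |F|² / (B^l tn^κ) < ∞` -/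
def Fin2 (B : (A →ₐ[ℂ] ℂ) → ℝ) (s : Finset (Fin n)) (l k : ℕ) (F : (A →ₐ[ℂ] ℂ) → ℂ) : Prop :=
  lintM (zA hA) (fun y => ENNReal.ofReal (‖F y‖ ^ 2) *
    (ENNReal.ofReal (B y ^ l * tn hA s y ^ k))⁻¹) < ∞

lemma le_inv_ofReal {p x : ℝ} (hp : 0 ≤ p) (h : p * x ≤ 1) :
    ENNReal.ofReal p ≤ (ENNReal.ofReal x)⁻¹ := by
  rw [ENNReal.le_inv_iff_mul_le, ← ENNReal.ofReal_mul hp]
  calc ENNReal.ofReal (p * x) ≤ ENNReal.ofReal 1 := ENNReal.ofReal_le_ofReal h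
    _ = 1 := ENNReal.ofReal_one

/-- ALGEBRAICITY -/
theorem alg_of_fin {B : (A →ₐ[ℂ] ℂ) → ℝ} (hB : Growth hA B) {s : Finset (Fin n)} {l k : ℕ}
    {F : (A →ₐ[ℂ] ℂ) → ℂ} (hF : HolB (zA hA) F) (hfin : Fin2 hA B s l k F) :
    ∃ f : A, ∀ y : A →ₐ[ℂ] ℂ, F y = y f := by
  obtain ⟨u, v, N, M, C, hu, hv, hgr⟩ := hB.growth
  have hft := hA.finiteType
  set C' : ℝ := max C 1 with hC'
  have hC'0 : 0 < C' := lt_of_lt_of_le one_pos (le_max_right _ _)
  refine mem_of_weight (z := zA hA) hA.etale hF hu hv (N * l) (M * l + k)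
    (c := (C' ^ l)⁻¹) (by positivity) (fun y hy => ?_) hfin
  have hz := one_le_zn hA y
  have hz0 : 0 < zn hA y := by linarith
  change ENNReal.ofReal ((C' ^ l)⁻¹ * ‖y u‖ ^ (2 * (N * l)) / zn hA y ^ (M * l + k)) ≤ _
  refine le_inv_ofReal (by positivity) ?_
  have h1 : B y * ‖y u‖ ^ (2 * N) ≤ C' * zn hA y ^ M :=
    (hgr y hy).trans (by gcongr; exact le_max_left _ _)
  have h2 : B y ^ l * ‖y u‖ ^ (2 * (N * l)) ≤ C' ^ l * zn hA y ^ (M * l) := by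
    have h3 := pow_le_pow_left₀ (mul_nonneg (hB.nonneg y) (by positivity)) h1 l
    rw [mul_pow, mul_pow, ← pow_mul, ← pow_mul] at h3
    rwa [mul_assoc] at h3
  have h4 : tn hA s y ^ k ≤ zn hA y ^ k :=
    pow_le_pow_left₀ (by linarith [one_le_tn hA s y]) (tn_le_zn hA s y) k
  have ht0 : 0 ≤ tn hA s y ^ k := by
    have := one_le_tn hA s y
    positivity
  rw [pow_add]
  have h5 : (C' ^ l)⁻¹ * ‖y u‖ ^ (2 * (N * l)) / (zn hA y ^ (M * l) * zn hA y ^ k) *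
      (B y ^ l * tn hA s y ^ k) =
      (B y ^ l * ‖y u‖ ^ (2 * (N * l))) * tn hA s y ^ k /
        ((C' ^ l * zn hA y ^ (M * l)) * zn hA y ^ k) := by
    field_simp
  rw [h5, div_le_one (by positivity)]
  exact mul_le_mul h2 h4 ht0 (by positivity)

/-- REGULARITY -/
theorem reg_of_fin {B : (A →ₐ[ℂ] ℂ) → ℝ} (hB0 : ∀ y, 0 ≤ B y) {s : Finset (Fin n)} {κ : ℝ}
    {R : ValuationSubring K} (hR : Bdd hA B s κ R) {b : Module.Basis (Fin n) K (Ω[K⁄ℂ])}
    (hb : ∀ i, b i = KaehlerDifferential.D ℂ K (z i)) {l k : ℕ} (hk : (k : ℝ) ≤ l * κ)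
    (g : A) (hfin : Fin2 hA B s l k (fun y => y g)) : RegAt ℂ R b (l + 1) (g : K) := by
  obtain ⟨D, hD, hX⟩ := hR
  refine regAt_of_lintM hA hb hD g (l + 1)
    (fun y => (ENNReal.ofReal (B y ^ l * tn hA s y ^ k))⁻¹) (fun F hF => ?_) hfin
  obtain ⟨X, hX1, C, hC⟩ := hX F hF
  set C' : ℝ := max C 1 with hC'
  have hC'0 : 0 < C' := lt_of_lt_of_le one_pos (le_max_right _ _)
  refine ⟨X, hX1, (C' ^ l)⁻¹, by positivity, fun ζ hζ => ?_⟩
  have e1 : ((l + 1 : ℕ) : ℤ) - 1 = (l : ℤ) := by push_cast; ring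
  rw [e1, zpow_natCast]
  refine le_inv_ofReal (by positivity) ?_
  have h1 := (hC ζ hζ).trans (le_max_left C 1)
  rw [← hC'] at h1
  set t := tn hA s (X.s ζ) with ht
  set J := ‖(fderiv ℂ (X.ψ (zA hA)) ζ).det‖ with hJ
  have ht1 : 1 ≤ t := one_le_tn hA s _
  have ht0 : 0 < t := by linarith
  have h2 : t ^ k ≤ (t ^ κ) ^ l := by
    rw [← Real.rpow_natCast t k, ← Real.rpow_natCast (t ^ κ) l, ← Real.rpow_mul ht0.le]
    exact Real.rpow_le_rpow_of_exponent_le ht1 (by rw [mul_comm]; exact hk)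
  have h3 : (B (X.s ζ) * t ^ κ * J ^ 2) ^ l ≤ C' ^ l :=
    pow_le_pow_left₀ (by have := hB0 (X.s ζ); positivity) h1 l
  have h4 : B (X.s ζ) ^ l * t ^ k * (J ^ l) ^ 2 ≤ C' ^ l := by
    refine le_trans ?_ h3
    rw [mul_pow, mul_pow, ← pow_mul, ← pow_mul, mul_comm 2 l]
    have := hB0 (X.s ζ)
    gcongr
  have h5 : (C' ^ l)⁻¹ * (J ^ l) ^ 2 * (B (X.s ζ) ^ l * t ^ k) =
      (C' ^ l)⁻¹ * (B (X.s ζ) ^ l * t ^ k * (J ^ l) ^ 2) := by ring
  rw [h5, inv_mul_le_iff₀ (by positivity), mul_one]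
  exact h4

/-- multiplication by a coordinate of `s` -/
lemma fin2_mul {B : (A →ₐ[ℂ] ℂ) → ℝ} {s : Finset (Fin n)} {l k : ℕ}
    {i : Fin n} (hi : i ∈ s) (g : A) (hfin : Fin2 hA B s l k (fun y => y g)) :
    Fin2 hA B s l (k + 1) (fun y => y (g * zA hA i)) := by
  refine lt_of_le_of_lt ?_ hfin
  refine Crest.Agent.R271.Rd692.lintM_mono _ fun y => ?_
  have ht := one_le_tn hA s y
  have ht0 : 0 < tn hA s y := by linarith
  have hb := sq_le_tn hA hi y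
  change ENNReal.ofReal (‖y (g * zA hA i)‖ ^ 2) * _ ≤ ENNReal.ofReal (‖y g‖ ^ 2) * _
  rw [map_mul, norm_mul, mul_pow, pow_succ (tn hA s y) k, ← mul_assoc, ENNReal.ofReal_mul (by positivity),
    ENNReal.ofReal_mul' (q := tn hA s y) ht0.le,
    ENNReal.mul_inv (Or.inr ENNReal.ofReal_ne_top) (Or.inr (by simpa using ht0))]
  set a := ENNReal.ofReal (‖y g‖ ^ 2)
  set w := (ENNReal.ofReal (B y ^ l * tn hA s y ^ k))⁻¹
  have h1 : ENNReal.ofReal (‖y (zA hA i)‖ ^ 2) * (ENNReal.ofReal (tn hA s y))⁻¹ ≤ 1 := by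
    calc _ ≤ ENNReal.ofReal (tn hA s y) * (ENNReal.ofReal (tn hA s y))⁻¹ := by gcongr
      _ = 1 := ENNReal.mul_inv_cancel (by simpa using ht0) ENNReal.ofReal_ne_top
  calc a * ENNReal.ofReal (‖y (zA hA i)‖ ^ 2) * (w * (ENNReal.ofReal (tn hA s y))⁻¹)
      = a * w * (ENNReal.ofReal (‖y (zA hA i)‖ ^ 2) * (ENNReal.ofReal (tn hA s y))⁻¹) := by ring
    _ ≤ a * w * 1 := by gcongr
    _ = a * w := mul_one _

/-- increase the exponent of `tn` -/
lemma fin2_mono {B : (A →ₐ[ℂ] ℂ) → ℝ} (hB0 : ∀ y, 0 ≤ B y) {s : Finset (Fin n)} {l k k' : ℕ}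
    (hk : k ≤ k') {F : (A →ₐ[ℂ] ℂ) → ℂ} (hfin : Fin2 hA B s l k F) : Fin2 hA B s l k' F := by
  refine lt_of_le_of_lt ?_ hfin
  refine Crest.Agent.R271.Rd692.lintM_mono _ fun y => ?_
  have ht := one_le_tn hA s y
  have h1 : B y ^ l * tn hA s y ^ k ≤ B y ^ l * tn hA s y ^ k' :=
    mul_le_mul_of_nonneg_left (pow_le_pow_right₀ ht hk) (pow_nonneg (hB0 y) l)
  gcongr

section powers

open MvPolynomial

/-- substituting powers of the variables is injective -/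
lemma bind_pow_ne {I : Type*} (k : I → ℕ) (hk : ∀ i, 0 < k i) (P : MvPolynomial I ℂ) (hP : P ≠ 0) :
    bind₁ (fun i => (X i : MvPolynomial I ℂ) ^ k i) P ≠ 0 := by
  classical
  obtain ⟨m0, hm0⟩ := ne_zero_iff.1 hP
  let ψ : (I →₀ ℕ) → (I →₀ ℕ) := fun m =>
    Finsupp.onFinset m.support (fun i => k i * m i) (fun i hi => by
      rw [Finsupp.mem_support_iff]; intro h0; rw [h0, mul_zero] at hi; exact hi rfl)
  have hψ : ∀ m i, ψ m i = k i * m i := fun m i => rfl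
  have hinj : Function.Injective ψ := by
    intro m m' h
    ext i
    have h1 := DFunLike.congr_fun h i
    rw [hψ, hψ] at h1
    exact Nat.eq_of_mul_eq_mul_left (hk i) h1
  have hmon : ∀ m (c : ℂ), bind₁ (fun i => (X i : MvPolynomial I ℂ) ^ k i) (monomial m c) =
      monomial (ψ m) c := by
    intro m c
    rw [bind₁_monomial, monomial_eq, Finsupp.prod]
    congr 1
    have hsup : (ψ m).support = m.support := by
      ext i
      rw [Finsupp.mem_support_iff, Finsupp.mem_support_iff, hψ]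
      have := hk i
      constructor
      · rintro h h0; exact h (by rw [h0, mul_zero])
      · intro h; positivity
    rw [hsup]
    exact Finset.prod_congr rfl fun i _ => by rw [hψ, pow_mul]
  have hcoeff : coeff (ψ m0) (bind₁ (fun i => (X i : MvPolynomial I ℂ) ^ k i) P) = coeff m0 P := by
    conv_lhs => rw [P.as_sum, map_sum, coeff_sum]
    simp only [hmon, coeff_monomial, hinj.eq_iff]
    rw [Finset.sum_ite_eq' P.support m0 (fun m => coeff m P)]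
    rw [if_pos (mem_support_iff.2 hm0)]
  intro h0
  rw [h0, coeff_zero] at hcoeff
  exact hm0 hcoeff.symm

end powers

section main

open MvPolynomial

/-- **D-END, part A.**  `Ξ` = the points of one fibre of `(z_i)_{i ∈ s}`, `τ`, `w` functions on the
fibre whose products (suitable powers) extend with `L²` estimates. -/
theorem exists_sections {s : Finset (Fin n)} {B : (A →ₐ[ℂ] ℂ) → ℝ} (hB : Growth hA B)
    {b : Module.Basis (Fin n) K (Ω[K⁄ℂ])} (hb : ∀ i, b i = KaehlerDifferential.D ℂ K (z i))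
    {Ξ : Type*} (e : Ξ → (A →ₐ[ℂ] ℂ)) (c : Fin n → ℂ) (hc : ∀ x, ∀ i ∈ s, e x (zA hA i) = c i)
    {d q : ℕ} (τ : Fin (d + 1) → Ξ → ℂ) (w : Fin (q + 1) → Ξ → ℂ) {N₁ e₀ : ℕ} (hN₁ : 0 < N₁)
    (he₀ : 0 < e₀)
    (hind : ∀ P : MvPolynomial (Fin d ⊕ Fin q) ℂ, P ≠ 0 → ∃ x, τ 0 x ≠ 0 ∧ w 0 x ≠ 0 ∧
      eval (Sum.elim (fun i => τ i.succ x / τ 0 x) (fun j => w j.succ x / w 0 x)) P ≠ 0)
    (k : ℕ)
    (hext : ∀ a : ℕ, 0 < a → ∀ (i : Fin (d + 1)) (j : Fin (q + 1)),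
      ∃ F : (A →ₐ[ℂ] ℂ) → ℂ, HolB (zA hA) F ∧
        (∀ x, F (e x) = τ i x ^ (a * e₀) * w j x ^ (a * N₁)) ∧
        Fin2 hA B s (a * N₁ * e₀ - 1) k F)
    (S : Set (ValuationSubring K)) (hSf : S.Finite) (hS : ∀ R ∈ S, ∃ κ : ℝ, 0 < κ ∧ Bdd hA B s κ R)
    {D : ℕ} (hD : D = (d + q) + s.card) :
    ∃ m : ℕ, 0 < m ∧ ∃ f : Fin (D + 1) → K,
      (∀ i, f i ≠ 0 ∧ f i ∈ A ∧ ∀ R ∈ S, RegAt ℂ R b m (f i)) ∧
      AlgebraicIndependent ℂ (fun i : Fin D => f i.succ / f 0) := by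
  classical
  -- the common `κ`
  obtain ⟨κ, hκ, hS'⟩ : ∃ κ : ℝ, 0 < κ ∧ ∀ R ∈ S, Bdd hA B s κ R := by
    choose! κ hκ hκ' using hS
    rcases S.eq_empty_or_nonempty with rfl | hne
    · exact ⟨1, one_pos, by simp⟩
    · have hne' : hSf.toFinset.Nonempty := by simpa using hne
      refine ⟨hSf.toFinset.inf' hne' κ, ?_, fun R hR => ?_⟩
      · rw [Finset.lt_inf'_iff]
        intro R hR
        exact hκ R (by simpa using hR)
      · obtain ⟨D', hD', hX⟩ := hκ' R hR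
        refine ⟨D', hD', fun F hF => ?_⟩
        obtain ⟨Y, hY, C, hC⟩ := hX F hF
        refine ⟨Y, hY, C, fun ζ hζ => le_trans ?_ (hC ζ hζ)⟩
        have h1 : tn hA s (Y.s ζ) ^ (hSf.toFinset.inf' hne' κ) ≤ tn hA s (Y.s ζ) ^ κ R :=
          Real.rpow_le_rpow_of_exponent_le (one_le_tn hA s _)
            (Finset.inf'_le _ (by simpa using hR))
        have := hB.nonneg (Y.s ζ)
        gcongr
  -- the choice of `a`
  obtain ⟨a, ha, hak⟩ : ∃ a : ℕ, 0 < a ∧ ((k : ℝ) + 1) ≤ (a * N₁ * e₀ - 1 : ℕ) * κ := by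
    obtain ⟨a, ha⟩ := exists_nat_ge (((k : ℝ) + 1) / κ)
    refine ⟨a + 1, Nat.succ_pos a, ?_⟩
    have h1 : a ≤ (a + 1) * N₁ * e₀ - 1 := by
      have : (a + 1) * 1 * 1 ≤ (a + 1) * N₁ * e₀ := by gcongr <;> omega
      omega
    have h2 : (a : ℝ) ≤ ((a + 1) * N₁ * e₀ - 1 : ℕ) := by exact_mod_cast h1
    rw [div_le_iff₀ hκ] at ha
    exact ha.trans (by gcongr)
  set l : ℕ := a * N₁ * e₀ - 1 with hl
  have hl1 : l + 1 = a * N₁ * e₀ := by
    have : 0 < a * N₁ * e₀ := by positivity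
    omega
  -- the extensions
  choose F hF1 hF2 hF3 using hext a ha
  choose f hf using fun i j => alg_of_fin hA hB (hF1 i j) (hF3 i j)
  have hval : ∀ i j x, e x (f i j) = τ i x ^ (a * e₀) * w j x ^ (a * N₁) := fun i j x => by
    rw [← hf, hF2]
  have hfin : ∀ i j, Fin2 hA B s l k (fun y => y (f i j)) := fun i j => by
    have h1 := hF3 i j
    have h2 : F i j = fun y => y (f i j) := funext (hf i j)
    rwa [h2] at h1
  have hk0 : (k : ℝ) ≤ l * κ := by linarith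
  have hk1 : ((k + 1 : ℕ) : ℝ) ≤ l * κ := by push_cast; exact hak
  -- the Riemann domain
  have hch : ∀ y : A →ₐ[ℂ] ℂ, Nonempty (Chart (zA hA) y) :=
    fun y => Crest.Agent.R271.Rd692.nonempty_chart (zA hA) hA.etale y
  let _ := Crest.Agent.R271.Rd692.rdom hch
  have hfrac := hA.isFractionRing
  -- independence
  set κ' : Fin d ⊕ Fin q → ℕ := Sum.elim (fun _ : Fin d => a * e₀) (fun _ : Fin q => a * N₁) with hκ'
  have hκ'0 : ∀ i, 0 < κ' i := by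
    rintro (i | j)
    · exact Nat.mul_pos ha he₀
    · exact Nat.mul_pos ha hN₁
  have hIND := Crest.Agent.R276.Jet_870.jet_algInd_ratio (n := n) (M := A →ₐ[ℂ] ℂ) (B := A) (K := K)
    (IsFractionRing.injective A K) (fun y => y)
    (fun g => Crest.Agent.R271.Rd692.continuous_ev g) (zA hA) (fun x i => rfl) c s (f 0 0)
    (Sum.elim (fun i : Fin d => f i.succ 0) (fun j : Fin q => f 0 j.succ)) (by
      intro Q hQ
      obtain ⟨x, hx1, hx2, hx3⟩ := hind _ (bind_pow_ne κ' hκ'0 Q hQ)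
      refine ⟨e x, fun i hi => hc x i hi, ?_, ?_⟩
      · rw [hval]; exact mul_ne_zero (pow_ne_zero _ hx1) (pow_ne_zero _ hx2)
      · have h1 : (fun j => (e x) (Sum.elim (fun i : Fin d => f i.succ 0)
            (fun j : Fin q => f 0 j.succ) j) / (e x) (f 0 0)) =
            fun j => eval (Sum.elim (fun i => τ i.succ x / τ 0 x) (fun j => w j.succ x / w 0 x))
              ((X j : MvPolynomial (Fin d ⊕ Fin q) ℂ) ^ κ' j) := by
          funext j
          rcases j with i | j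
          · simp only [Sum.elim_inl, hval, map_pow, eval_X, hκ']
            rw [div_pow, mul_div_mul_right _ _ (pow_ne_zero _ hx2)]
          · simp only [Sum.elim_inr, hval, map_pow, eval_X, hκ']
            rw [div_pow, mul_div_mul_left _ _ (pow_ne_zero _ hx1)]
        rw [h1]
        have h2 := eval₂Hom_bind₁ (RingHom.id ℂ)
          (Sum.elim (fun i => τ i.succ x / τ 0 x) (fun j => w j.succ x / w 0 x))
          (fun i => (X i : MvPolynomial (Fin d ⊕ Fin q) ℂ) ^ κ' i) Q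
        change eval₂Hom (RingHom.id ℂ) _ Q ≠ 0
        change eval₂Hom (RingHom.id ℂ) _ _ ≠ 0 at hx3
        rw [h2] at hx3
        exact hx3)
  -- the sections
  let g : ((Fin d ⊕ Fin q) ⊕ s) → A := Sum.elim
    (Sum.elim (fun i : Fin d => f i.succ 0) (fun j : Fin q => f 0 j.succ))
    (fun i => f 0 0 * zA hA i)
  have hf00 : ((f 0 0 : A) : K) ≠ 0 := by
    obtain ⟨x, hx1, hx2, -⟩ := hind 1 one_ne_zero
    intro h0
    have h1 : f 0 0 = 0 := Subtype.ext h0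
    have h2 := hval 0 0 x
    rw [h1, map_zero] at h2
    exact mul_ne_zero (pow_ne_zero _ hx1) (pow_ne_zero _ hx2) h2.symm
  have hratio : (fun i => ((g i : A) : K) / (f 0 0 : K)) = Sum.elim
      (fun j => algebraMap A K (Sum.elim (fun i : Fin d => f i.succ 0)
        (fun j : Fin q => f 0 j.succ) j) / algebraMap A K (f 0 0))
      (fun i : s => algebraMap A K (zA hA i)) := by
    funext i
    rcases i with i | i
    · rfl
    · simp only [g, Sum.elim_inr]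
      change ((f 0 0 : K) * (zA hA i : K)) / (f 0 0 : K) = (zA hA i : K)
      rw [mul_div_cancel_left₀ _ hf00]
  rw [← hratio] at hIND
  have hreg : ∀ i j, ∀ R ∈ S, RegAt ℂ R b (l + 1) (f i j : K) := fun i j R hR =>
    reg_of_fin hA hB.nonneg (hS' R hR) hb hk0 (f i j) (hfin i j)
  have hregg : ∀ i, ∀ R ∈ S, RegAt ℂ R b (l + 1) (g i : K) := by
    rintro ((i | j) | i) R hR
    · exact hreg _ _ R hR
    · exact hreg _ _ R hR
    · exact reg_of_fin hA hB.nonneg (hS' R hR) hb hk1 (f 0 0 * zA hA i)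
        (fin2_mul hA i.2 (f 0 0) (hfin 0 0))
  have hg0 : ∀ i, (g i : K) ≠ 0 := by
    intro i h0
    have := hIND.ne_zero i
    simp only [h0, zero_div] at this
    exact this rfl
  -- back to `Fin`
  have hcard : Fintype.card ((Fin d ⊕ Fin q) ⊕ s) = D := by
    simp [hD]
  let ε : Fin D ≃ ((Fin d ⊕ Fin q) ⊕ s) := (Fintype.equivFinOfCardEq hcard).symm
  refine ⟨l + 1, Nat.succ_pos l, Fin.cons (f 0 0 : K) (fun i => (g (ε i) : K)), ?_, ?_⟩
  · intro i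
    refine Fin.cases ?_ (fun i => ?_) i
    · exact ⟨hf00, (f 0 0).2, hreg 0 0⟩
    · exact ⟨hg0 _, (g (ε i)).2, hregg _⟩
  · exact (hIND.comp ε ε.injective)

end main

end Crest.Agent.R276.End_723
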