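import Mathlib
import Crest.Agent.R276.AB2_590
import Crest.Agent.R276.BC4_986
import Crest.Agent.R276.Mod5_987
import Crest.Agent.R276.Jet_870

/-!
# Row 276, END-ALG (helper870): last algebraic step of BP-END

`M` a model (987) of `K/ℂ`, `w` a weight on `M` with polynomial lower growth which is bounded below
near the divisorial valuation rings of `S` in the frame of `(m-1) K`.  Square integrable
holomorphic functions `F₀, …, F_q`, `F₀ z_k` (`k ∈ s`), whose restrictions to the slice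
`{z_k = c_k, k ∈ s}` are independent, give `q + |s| + 1` pluricanonical forms of weight `m` with
algebraically independent ratios (the inner statement of `KapGeF`).
-/

set_option autoImplicit false

open Topology Filter MeasureTheory Set
open scoped ENNReal

noncomputable section

namespace Crest.Agent.R276.EndAlg_870

open Crest.Agent.R271 Crest.Agent.R271.Defs710 Crest.Agent.R271.Rd692 Crest.Agent.R271.Ho51
open Crest.Agent.R276.FKDefs_779 Crest.Agent.R276.AB2_590 Crest.Agent.R276.BC_986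
open Crest.Agent.R276.Mod1_987

variable {K : Type} [Field K] [Algebra ℂ K] {n : ℕ}

/-- the étale chart of a model -/
theorem etChart (M : Mdl K n) : EtChart ℂ K M.B M.zK where
  fg := (Subalgebra.fg_iff_finiteType M.B).2 M.ft
  frac := fun a => by
    obtain ⟨b, c, hc, h⟩ := M.frac a
    exact ⟨b, b.2, c, c.2, fun h0 => hc (Subtype.ext h0), by rw [h, div_eq_mul_inv]⟩
  mem := fun i => (M.z i).2
  etale := M.het

/-- the weight `w = e^{-φ}` is bounded below near general points of the divisor `R`, in the frame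
of `(m-1) K` -/
def WBd (M : Mdl K n) (w : M.Pts → ℝ≥0∞) (m : ℕ) (R : ValuationSubring K) : Prop :=
  ∃ D : DivModel n K, D.ModelOf R ∧
    ∀ F : Finset K, (∀ f ∈ F, f ≠ 0) → ∃ X : BChart D M.B,
      (∀ f ∈ F, ∃ (a : ℤ) (G : Cn n → ℂ), Good D X f a G) ∧ ∃ κ : ℝ, 0 < κ ∧
        ∀ ζ ∈ X.V, ENNReal.ofReal (κ * (‖(fderiv ℂ (X.ψ M.z) ζ).det‖ ^ ((m : ℤ) - 1)) ^ 2) ≤
          w (X.s ζ)

/-- `w` has at most polynomial decay, off `{v = 0}` -/
def WPG (M : Mdl K n) (w : M.Pts → ℝ≥0∞) : Prop :=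
  ∃ (u v : M.B) (N₁ N₂ : ℕ) (c : ℝ), u ≠ 0 ∧ v ≠ 0 ∧ 0 < c ∧ ∀ y : M.Pts, y v ≠ 0 →
    ENNReal.ofReal (c * ‖y u‖ ^ (2 * N₁) / (1 + ∑ i, ‖y (M.z i)‖ ^ 2) ^ N₂) ≤ w y

/-- square integrable functions are regular pluricanonical forms -/
theorem adm (M : Mdl K n) {b : Module.Basis (Fin n) K (Ω[K⁄ℂ])}
    (hb : ∀ i, b i = KaehlerDifferential.D ℂ K (M.zK i)) (w : M.Pts → ℝ≥0∞) (m : ℕ)
    (hw : WPG M w) {F : M.Pts → ℂ} (hF : Ho51.Hol (M := (M.B →ₐ[ℂ] ℂ)) F)
    (hint : lintM M.z (fun y => ENNReal.ofReal (‖F y‖ ^ 2) * w y) < ∞) :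
    ∃ f : M.B, (∀ y : M.Pts, F y = y f) ∧
      ∀ R : ValuationSubring K, WBd M w m R → RegAt ℂ R b m (f : K) := by
  obtain ⟨u, v, N₁, N₂, c, hu, hv, hc, hle⟩ := hw
  obtain ⟨f, hf⟩ := mem_of_weight (z := M.z) M.het (holB_of_51 M.hch hF) hu hv N₁ N₂ hc hle hint
  refine ⟨f, hf, fun R hR => ?_⟩
  obtain ⟨D, hD, h⟩ := hR
  refine regAt_of_lintM (etChart M) hb hD f m w h ?_
  have h1 : (fun y : M.Pts => ENNReal.ofReal (‖y f‖ ^ 2) * w y) =
      fun y => ENNReal.ofReal (‖F y‖ ^ 2) * w y := by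
    funext y
    rw [hf y]
  exact lt_of_le_of_lt (le_of_eq (congrArg (lintM M.z) h1)) hint

theorem continuous_ev (M : Mdl K n) (b : M.B) : Continuous fun x : M.Pts => x b :=
  (M.hol792_ev b).sm.continuous

/-- **END-ALG** -/
theorem end_alg (M : Mdl K n) {b : Module.Basis (Fin n) K (Ω[K⁄ℂ])}
    (hb : ∀ i, b i = KaehlerDifferential.D ℂ K (M.zK i)) (w : M.Pts → ℝ≥0∞) (m : ℕ)
    (hw : WPG M w) (S : Set (ValuationSubring K)) (hS : ∀ R ∈ S, WBd M w m R)
    (s : Finset (Fin n)) (c : Fin n → ℂ) {κ : Type} [Fintype κ]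
    (F₀ : M.Pts → ℂ) (F : κ → M.Pts → ℂ)
    (hF₀ : Ho51.Hol (M := (M.B →ₐ[ℂ] ℂ)) F₀) (hF : ∀ j, Ho51.Hol (M := (M.B →ₐ[ℂ] ℂ)) (F j))
    (hint₀ : lintM M.z (fun y => ENNReal.ofReal (‖F₀ y‖ ^ 2) * w y) < ∞)
    (hint : ∀ j, lintM M.z (fun y => ENNReal.ofReal (‖F j y‖ ^ 2) * w y) < ∞)
    (hint' : ∀ k ∈ s, lintM M.z (fun y => ENNReal.ofReal (‖F₀ y * y (M.z k)‖ ^ 2) * w y) < ∞)
    (hU : ∀ Q : MvPolynomial κ ℂ, Q ≠ 0 → ∃ x : M.Pts, (∀ i ∈ s, x (M.z i) = c i) ∧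
      F₀ x ≠ 0 ∧ MvPolynomial.eval (fun j => F j x / F₀ x) Q ≠ 0)
    {d : ℕ} (hd : d ≤ Fintype.card κ + s.card) :
    ∃ f : Fin (d + 1) → K,
      (∀ i, f i ≠ 0 ∧ f i ∈ M.B ∧ ∀ R ∈ S, RegAt ℂ R b m (f i)) ∧
      AlgebraicIndependent ℂ (fun i : Fin d => f i.succ / f 0) := by
  classical
  obtain ⟨g₀, hg₀, hgR₀⟩ := adm M hb w m hw hF₀ hint₀
  choose g hg hgR using fun i => adm M hb w m hw (hF i) (hint i)
  -- the functions `F₀ z_k`
  have hk : ∀ k : s, ∃ f : M.B, (∀ y : M.Pts, F₀ y * y (M.z k) = y f) ∧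
      ∀ R : ValuationSubring K, WBd M w m R → RegAt ℂ R b m (f : K) := fun k =>
    adm M hb w m hw (fun e he => (hF₀ e he).mul (M.hol51_ev (M.z k) e he)) (hint' k k.2)
  choose g' hg' hgR' using hk
  have hg'' : ∀ k : s, g' k = g₀ * M.z k := fun k => by
    refine M.ext_of_pts fun y => ?_
    rw [← hg' k y, map_mul, hg₀ y]
  -- independence
  have hind := Jet_870.jet_algInd_ratio (M := (M.B →ₐ[ℂ] ℂ)) (B := M.B) (K := K)
    (κ := κ) Subtype.val_injective (fun x => x)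
    (fun b => continuous_ev M b) M.z (fun x i => rfl) c s g₀ (fun j => g j)
    (fun Q hQ => by
      obtain ⟨x, hx, h0, h1⟩ := hU Q hQ
      refine ⟨x, hx, by rwa [← hg₀ x], ?_⟩
      simpa only [← hg, ← hg₀] using h1)
  have hg0 : (g₀ : K) ≠ 0 := by
    obtain ⟨x, -, hx, -⟩ := hU 1 one_ne_zero
    intro h0
    apply hx
    rw [hg₀ x, show g₀ = 0 from Subtype.ext h0, map_zero]
  -- the family `κ ⊕ s → K`
  let G : κ ⊕ s → K := Sum.elim (fun j => ((g j : M.B) : K)) (fun k => ((g' k : M.B) : K))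
  have hGr : (fun j => G j / (g₀ : K)) =
      Sum.elim (fun j : κ => algebraMap M.B K (g j) / algebraMap M.B K g₀)
        (fun i : s => algebraMap M.B K (M.z i)) := by
    funext j
    rcases j with j | k
    · rfl
    · have h1 : ((g' k : M.B) : K) = (g₀ : K) * (M.z k : K) := by rw [hg'' k]; rfl
      change ((g' k : M.B) : K) / (g₀ : K) = (M.z k : K)
      rw [h1, mul_div_cancel_left₀ _ hg0]
  rw [← hGr] at hind
  -- an injection `Fin d → κ ⊕ s`
  have hcard : Fintype.card (Fin d) ≤ Fintype.card (κ ⊕ s) := by simpa using hd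
  obtain ⟨e⟩ := Function.Embedding.nonempty_of_card_le hcard
  have hind2 : AlgebraicIndependent ℂ (fun i : Fin d => G (e i) / (g₀ : K)) :=
    hind.comp e e.injective
  refine ⟨Fin.cons (g₀ : K) (fun i => G (e i)), fun i => ?_, by simpa using hind2⟩
  refine Fin.cases ?_ (fun i => ?_) i
  · exact ⟨hg0, g₀.2, fun R hR => hgR₀ R (hS R hR)⟩
  · simp only [Fin.cons_succ]
    refine ⟨?_, ?_, fun R hR => ?_⟩
    · intro h0
      have h1 := hind2.ne_zero i
      apply h1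
      rw [h0, zero_div]
    · rcases e i with j | k
      · exact (g j).2
      · exact (g' k).2
    · rcases e i with j | k
      · exact hgR _ R (hS R hR)
      · exact hgR' k R (hS R hR)

end Crest.Agent.R276.EndAlg_870
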