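import Mathlib
import Crest.Agent.R275.FLa_606

/-!
# Row 276 (helper986), LOGB part 1: removable singularities of subharmonic functions of
logarithmic growth `o(log 1/|t|)` (maximum principle on the punctured disc)
-/

set_option autoImplicit false

open MeasureTheory Set Metric Filter Topology

noncomputable section

namespace Crest.Agent.R276.Lgb_986

open Crest.Agent.R275.FL606

/-- the harmonic comparison function -/
lemma avg_cmp {t₂ : ℂ} {κ : ℝ} (c₀ ε η : ℝ) (hne : ∀ w : ℂ, ‖w‖ ≤ 1 → t₂ + w * κ ≠ 0) :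
    CircleIntegrable (fun w : ℂ => c₀ - (ε * Real.log ‖t₂ + w * κ‖ +
      η * (2 * (starRingEnd ℂ t₂) * κ * w).re)) 0 1 ∧
    Real.circleAverage (fun w : ℂ => c₀ - (ε * Real.log ‖t₂ + w * κ‖ +
      η * (2 * (starRingEnd ℂ t₂) * κ * w).re)) 0 1 = c₀ - ε * Real.log ‖t₂‖ := by
  have h : InnerProductSpace.HarmonicOnNhd (fun w : ℂ => c₀ - (ε * Real.log ‖t₂ + w * κ‖ +
      η * (2 * (starRingEnd ℂ t₂) * κ * w).re)) (closedBall (0 : ℂ) |(1 : ℝ)|) := by
    intro w hw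
    rw [abs_one, mem_closedBall, dist_zero_right] at hw
    have h1 : InnerProductSpace.HarmonicAt (fun w : ℂ => Real.log ‖t₂ + w * κ‖) w := by
      refine AnalyticAt.harmonicAt_log_norm (f := fun w : ℂ => t₂ + w * κ) ?_ (hne w hw)
      fun_prop
    have h2 : InnerProductSpace.HarmonicAt
        (fun w : ℂ => (2 * (starRingEnd ℂ t₂) * κ * w).re) w := by
      refine AnalyticAt.harmonicAt_re (f := fun w : ℂ => 2 * (starRingEnd ℂ t₂) * κ * w) ?_
      fun_prop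
    have h3 := (InnerProductSpace.harmonicAt_const (x := w) c₀).sub
      ((h1.const_smul (c := ε)).add (h2.const_smul (c := η)))
    exact h3
  refine ⟨(h.continuousOn.mono sphere_subset_closedBall).circleIntegrable', ?_⟩
  rw [InnerProductSpace.HarmonicOnNhd.circleAverage_eq h]
  simp

/-- **maximum principle on the punctured disc** -/
theorem punct_max {u : ℂ → ℝ} {r ρ M : ℝ} (hρr : ρ < r)
    (husc : ∀ t : ℂ, 0 < ‖t‖ → ‖t‖ < r → ∀ c, u t < c → ∀ᶠ y in 𝓝 t, u y < c)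
    {c₁ : ℝ} (hbdd : ∀ t : ℂ, 0 < ‖t‖ → ‖t‖ < r → c₁ ≤ u t)
    (hsm : SM 0 u {t | 0 < ‖t‖ ∧ ‖t‖ < r})
    (hgr : ∀ ε : ℝ, 0 < ε → ∃ C : ℝ, ∀ t : ℂ, 0 < ‖t‖ → ‖t‖ < r →
      u t ≤ C - ε * Real.log ‖t‖)
    (hM : ∀ t : ℂ, ‖t‖ = ρ → u t ≤ M) {t : ℂ} (h0 : 0 < ‖t‖) (h1 : ‖t‖ ≤ ρ) : u t ≤ M := by
  by_contra hlt
  push Not at hlt
  have hρ : 0 < ρ := h0.trans_le h1
  set L : ℝ := Real.log ρ - Real.log ‖t‖ with hL
  have hL0 : 0 ≤ L := by
    rw [hL]; have := Real.log_le_log h0 h1; linarith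
  set ε : ℝ := (u t - M) / (4 * (1 + L)) with hε
  set η : ℝ := (u t - M) / (4 * (1 + ρ ^ 2)) with hη
  have hd : 0 < u t - M := by linarith
  have hε0 : 0 < ε := by positivity
  have hη0 : 0 < η := by positivity
  have hεL : ε * L < (u t - M) / 4 + (u t - M) / 8 := by
    have h2 : ε * L = (u t - M) / 4 * (L / (1 + L)) := by rw [hε]; field_simp
    have h3 : L / (1 + L) ≤ 1 := by rw [div_le_one (by positivity)]; linarith
    rw [h2]
    nlinarith
  have hηρ : η * ρ ^ 2 ≤ (u t - M) / 4 := by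
    have h2 : η * ρ ^ 2 = (u t - M) / 4 * (ρ ^ 2 / (1 + ρ ^ 2)) := by rw [hη]; field_simp
    have h3 : ρ ^ 2 / (1 + ρ ^ 2) ≤ 1 := by rw [div_le_one (by positivity)]; linarith
    rw [h2]
    nlinarith
  set v : ℂ → ℝ := fun y => u y + ε * Real.log ‖y‖ + η * ‖y‖ ^ 2 with hv
  -- on the outer circle
  have hout : ∀ y : ℂ, ‖y‖ = ρ → v y < v t := by
    intro y hy
    simp only [hv, hy]
    have h2 := hM y hy
    have h3 : 0 ≤ η * ‖t‖ ^ 2 := by positivity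
    have h4 : ε * Real.log ρ = ε * L + ε * Real.log ‖t‖ := by rw [hL]; ring
    linarith
  -- near zero
  obtain ⟨C, hC⟩ := hgr (ε / 2) (by positivity)
  obtain ⟨σ, hσ0, hσt, hσ⟩ : ∃ σ : ℝ, 0 < σ ∧ σ < ‖t‖ ∧ ∀ y : ℂ, 0 < ‖y‖ → ‖y‖ ≤ σ → v y < v t := by
    set X : ℝ := (v t - 1 - C - η * ρ ^ 2) * (2 / ε) with hX
    refine ⟨min (‖t‖ / 2) (Real.exp X), by positivity,
      (min_le_left _ _).trans_lt (by linarith), fun y hy0 hy => ?_⟩
    have h2 : ‖y‖ ≤ ρ := by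
      have := (hy.trans (min_le_left _ _)); linarith
    have h3 := hC y hy0 (h2.trans_lt hρr)
    have h4 : Real.log ‖y‖ ≤ X := by
      rw [Real.log_le_iff_le_exp hy0]; exact hy.trans (min_le_right _ _)
    have h5 : ε / 2 * Real.log ‖y‖ ≤ v t - 1 - C - η * ρ ^ 2 := by
      calc ε / 2 * Real.log ‖y‖ ≤ ε / 2 * X := by gcongr
        _ = _ := by rw [hX]; field_simp
    have h6 : η * ‖y‖ ^ 2 ≤ η * ρ ^ 2 := by gcongr
    have h7 : v y = u y + ε * Real.log ‖y‖ + η * ‖y‖ ^ 2 := rfl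
    rw [h7]
    linarith
  -- the maximum on the annulus
  set S : Set ℂ := {y | σ ≤ ‖y‖ ∧ ‖y‖ ≤ ρ} with hS
  have hSc : IsCompact S := by
    have : S = closedBall (0 : ℂ) ρ ∩ {y | σ ≤ ‖y‖} := by
      ext y; simp [hS, and_comm]
    rw [this]
    exact (isCompact_closedBall _ _).inter_right (isClosed_le continuous_const continuous_norm)
  have htS : t ∈ S := ⟨hσt.le, h1⟩
  have hvu : UpperSemicontinuousOn v S := by
    intro y hy c hc
    have hy0 : 0 < ‖y‖ := hσ0.trans_le hy.1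
    have hyr : ‖y‖ < r := hy.2.trans_lt hρr
    set d : ℝ := (c - v y) / 2 with hd'
    have hd0 : 0 < d := by rw [hd']; have : v y < c := hc; linarith
    have h2 : ∀ᶠ z in 𝓝 y, u z < u y + d := husc y hy0 hyr _ (by linarith)
    have h3 : ContinuousAt (fun z : ℂ => ε * Real.log ‖z‖ + η * ‖z‖ ^ 2) y := by
      have : ContinuousAt (fun z : ℂ => Real.log ‖z‖) y :=
        (Real.continuousAt_log hy0.ne').comp continuous_norm.continuousAt
      fun_prop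
    have h4 : ∀ᶠ z in 𝓝 y, ε * Real.log ‖z‖ + η * ‖z‖ ^ 2 <
        ε * Real.log ‖y‖ + η * ‖y‖ ^ 2 + d := h3.eventually_lt_const (by linarith)
    refine mem_nhdsWithin_of_mem_nhds ?_
    filter_upwards [h2, h4] with z h5 h6
    have h7 : v z = u z + ε * Real.log ‖z‖ + η * ‖z‖ ^ 2 := rfl
    have h8 : v y = u y + ε * Real.log ‖y‖ + η * ‖y‖ ^ 2 := rfl
    show v z < c
    linarith
  obtain ⟨t₂, ht₂, hmax⟩ := hvu.exists_isMaxOn ⟨t, htS⟩ hSc
  have hge : v t ≤ v t₂ := hmax htS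
  have ht₂0 : 0 < ‖t₂‖ := hσ0.trans_le ht₂.1
  have ha : σ < ‖t₂‖ := by
    by_contra hcon
    push Not at hcon
    exact absurd hge (not_le.2 (hσ t₂ ht₂0 hcon))
  have hb : ‖t₂‖ < ρ := by
    rcases ht₂.2.eq_or_lt with h | h
    · exact absurd hge (not_le.2 (hout t₂ h))
    · exact h
  -- a small disc
  set κ : ℝ := min ((‖t₂‖ - σ) / 2) ((ρ - ‖t₂‖) / 2) with hκ
  have hκ0 : 0 < κ := lt_min (by linarith) (by linarith)
  have hnκ : ‖((κ : ℝ) : ℂ)‖ = κ := by rw [Complex.norm_real, Real.norm_of_nonneg hκ0.le]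
  have hmem : ∀ w : ℂ, ‖w‖ ≤ 1 → t₂ + w * κ ∈ S := by
    intro w hw
    have h2 : ‖w * (κ : ℂ)‖ ≤ κ := by
      rw [norm_mul, hnκ]; exact mul_le_of_le_one_left hκ0.le hw
    have h3 : ‖t₂ + w * κ‖ ≤ ‖t₂‖ + ‖w * (κ : ℂ)‖ := norm_add_le _ _
    have h4 : ‖t₂‖ - ‖w * (κ : ℂ)‖ ≤ ‖t₂ + w * κ‖ := by
      have := norm_sub_norm_le t₂ (-(w * (κ : ℂ)))
      rwa [norm_neg, sub_neg_eq_add] at this
    have h5 : κ ≤ (‖t₂‖ - σ) / 2 := min_le_left _ _
    have h6 : κ ≤ (ρ - ‖t₂‖) / 2 := min_le_right _ _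
    exact ⟨by linarith, by linarith⟩
  have hSr : ∀ y ∈ S, 0 < ‖y‖ ∧ ‖y‖ < r := fun y hy => ⟨hσ0.trans_le hy.1, hy.2.trans_lt hρr⟩
  have hne : ∀ w : ℂ, ‖w‖ ≤ 1 → t₂ + w * κ ≠ 0 := fun w hw =>
    norm_pos_iff.1 (hSr _ (hmem w hw)).1
  obtain ⟨hGi, hGa⟩ := avg_cmp (t₂ := t₂) (κ := κ) (v t₂ - η * (‖t₂‖ ^ 2 + κ ^ 2)) ε η hne
  set G : ℂ → ℝ := fun w : ℂ => (v t₂ - η * (‖t₂‖ ^ 2 + κ ^ 2)) - (ε * Real.log ‖t₂ + w * κ‖ +
      η * (2 * (starRingEnd ℂ t₂) * κ * w).re) with hG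
  have hle : ∀ w : ℂ, ‖w‖ = 1 → u (t₂ + w * κ) ≤ G w := by
    intro w hw
    have h2 : v (t₂ + w * κ) ≤ v t₂ := hmax (hmem w hw.le)
    have h3 : ‖t₂ + w * κ‖ ^ 2 = ‖t₂‖ ^ 2 + κ ^ 2 + (2 * (starRingEnd ℂ t₂) * κ * w).re := by
      have h4 : ‖w * (κ : ℂ)‖ ^ 2 = κ ^ 2 := by rw [norm_mul, hnκ, hw, one_mul]
      have h5 : ‖t₂ + w * κ‖ ^ 2 = ‖t₂‖ ^ 2 + ‖w * (κ : ℂ)‖ ^ 2 +
          2 * (t₂ * (starRingEnd ℂ) (w * κ)).re := by
        rw [← Complex.normSq_eq_norm_sq, ← Complex.normSq_eq_norm_sq, ← Complex.normSq_eq_norm_sq,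
          Complex.normSq_add]
      rw [h5, h4]
      have h6 : (2 * (starRingEnd ℂ t₂) * κ * w).re = 2 * (t₂ * (starRingEnd ℂ) (w * κ)).re := by
        simp only [Complex.mul_re, Complex.mul_im, Complex.conj_re, Complex.conj_im,
          Complex.ofReal_re, Complex.ofReal_im, Complex.re_ofNat, Complex.im_ofNat, map_mul]
        ring
      rw [h6]
    have h7 : v (t₂ + w * κ) = u (t₂ + w * κ) + ε * Real.log ‖t₂ + w * κ‖ +
      η * ‖t₂ + w * κ‖ ^ 2 := rfl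
    rw [h7, h3] at h2
    simp only [hG]
    nlinarith
  -- integrability
  have hGc : ContinuousOn G (sphere (0 : ℂ) 1) := by
    have h2 : ContinuousOn (fun w : ℂ => Real.log ‖t₂ + w * κ‖) (sphere (0 : ℂ) 1) := by
      intro w hw
      have hw' : ‖w‖ ≤ 1 := by
        rw [mem_sphere, dist_zero_right] at hw; exact hw.le
      have h3 : ContinuousAt (fun w : ℂ => ‖t₂ + w * κ‖) w := by fun_prop
      exact (h3.log (norm_ne_zero_iff.2 (hne w hw'))).continuousWithinAt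
    simp only [hG]
    fun_prop
  obtain ⟨K, hK⟩ := (isCompact_sphere (0 : ℂ) 1).exists_bound_of_continuousOn hGc
  have hui : CircleIntegrable (fun w : ℂ => u (t₂ + w • (κ : ℂ))) 0 1 := by
    have hcm : ∀ θ : ℝ, ‖circleMap (0 : ℂ) 1 θ‖ = 1 := fun θ => by
      rw [norm_circleMap_zero, abs_one]
    have hmeas : Measurable fun θ : ℝ => u (t₂ + circleMap 0 1 θ • (κ : ℂ)) := by
      apply UpperSemicontinuous.measurable
      intro θ c hc
      have h2 : ContinuousAt (fun θ : ℝ => t₂ + circleMap 0 1 θ • (κ : ℂ)) θ := by fun_prop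
      have h3 := hSr _ (hmem (circleMap 0 1 θ) (hcm θ).le)
      exact h2.eventually (husc _ h3.1 h3.2 c hc)
    unfold CircleIntegrable
    rw [intervalIntegrable_iff]
    refine Integrable.mono' (g := fun _ => max |c₁| K) ?_ hmeas.aestronglyMeasurable ?_
    · exact (integrable_const_iff.2 (Or.inr ⟨by
        rw [Measure.restrict_apply_univ]
        exact measure_Ioc_lt_top⟩))
    · refine Eventually.of_forall fun θ => ?_
      have h3 := hSr _ (hmem (circleMap 0 1 θ) (hcm θ).le)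
      have h4 := hbdd _ h3.1 h3.2
      have h5 := hle _ (hcm θ)
      have h6 := hK (circleMap 0 1 θ) (by rw [mem_sphere, dist_zero_right]; exact hcm θ)
      rw [Real.norm_eq_abs] at h6 ⊢
      have h7 : G (circleMap 0 1 θ) ≤ K := (le_abs_self _).trans h6
      show |u (t₂ + circleMap 0 1 θ * (κ : ℂ))| ≤ max |c₁| K
      rw [abs_le]
      have h8 := neg_abs_le c₁
      have h9 := le_max_left |c₁| K
      have h10 := le_max_right |c₁| K
      constructor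
      · linarith
      · linarith
  have hsm2 := hsm t₂ (κ : ℂ) (fun w hw => hSr _ (hmem w hw))
  have h3 : Real.circleAverage (fun w : ℂ => u (t₂ + w • (κ : ℂ))) 0 1 ≤
      Real.circleAverage G 0 1 := by
    refine Real.circleAverage_mono hui hGi fun w hw => ?_
    rw [abs_one, mem_sphere, dist_zero_right] at hw
    exact hle w hw
  rw [hGa] at h3
  have h4 : v t₂ = u t₂ + ε * Real.log ‖t₂‖ + η * ‖t₂‖ ^ 2 := rfl
  have h5 : 0 < η * κ ^ 2 := by positivity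
  have h6 : u t₂ ≤ v t₂ - η * (‖t₂‖ ^ 2 + κ ^ 2) - ε * Real.log ‖t₂‖ := by
    have := hsm2.trans (add_le_add h3 le_rfl)
    simpa using this
  rw [h4] at h6
  nlinarith

end Crest.Agent.R276.Lgb_986
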