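import Mathlib
import Crest.Agent.R276.Lgb1_986
import Crest.Agent.R276.LPsh_29
import Crest.Agent.R276.MassA_137
import Crest.Agent.R276.BC4_986

/-!
# Row 276 (helper986), LOGB part 2: a plurisubharmonic weight of growth `o(log 1/|ζ_{i₀}|)` on a
boundary chart is bounded near the centre of the chart.

* `pbound` : psh functions on `{‖ζ‖ < r, ζ_{i₀} ≠ 0}`;
* `lpsh_bound` : the same for `LPsh` weights on the Riemann domain `{‖ζ‖ < r, ζ_{i₀} ≠ 0}`;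
* `bchart_bound` : for `b` with `LPsh b` on `M = Hom(B,ℂ)`, `X : BChart D B`, `h` holomorphic without
  zeros on `X.V`, `a : ℝ`: if for all `ε > 0`, `b(s ζ) ‖h ζ‖ ‖ζ_{i₀}‖^a ≤ C_ε ‖ζ_{i₀}‖^{-ε}` on `X.V`
  then `b(s ζ) ‖h ζ‖ ‖ζ_{i₀}‖^a ≤ C` on `(X.shrink ρ).V`, all `ρ < r`.
-/

set_option autoImplicit false
set_option linter.unusedSectionVars false
set_option linter.style.haveILetI false

open MeasureTheory Set Metric Filter Topology

noncomputable section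

namespace Crest.Agent.R276.Lgb_986

open Crest.Agent.R275.FL606 Crest.Agent.R271.Ho51 Crest.Agent.R273.Reg_844
  Crest.Agent.R276.PshA_29 Crest.Agent.R276.PshB_29 Crest.Agent.R276.SubL_29
  Crest.Agent.R276.EngU_29
open TopologicalSpace (Opens)

variable {n : ℕ}

/-- the polydisc minus the divisor -/
def W (i₀ : Fin n) (r : ℝ) : Set (Fin n → ℂ) := ball 0 r ∩ {z | z i₀ ≠ 0}

lemma isOpen_W (i₀ : Fin n) (r : ℝ) : IsOpen (W i₀ r) :=
  isOpen_ball.inter (isOpen_ne_fun (continuous_apply _) continuous_const)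

lemma update_mem_W {i₀ : Fin n} {r ρ : ℝ} {z : Fin n → ℂ} (hz : ‖z‖ < ρ) (hρr : ρ < r) {t : ℂ}
    (ht : 0 < ‖t‖) (ht' : ‖t‖ < r) : Function.update z i₀ t ∈ W i₀ r := by
  have hr : 0 < r := ht.trans ht'
  refine ⟨?_, ?_⟩
  · rw [mem_ball, dist_zero_right, pi_norm_lt_iff hr]
    intro j
    by_cases hj : j = i₀
    · subst hj; rwa [Function.update_self]
    · rw [Function.update_of_ne hj]
      exact (norm_le_pi_norm z j).trans_lt (hz.trans hρr)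
  · show Function.update z i₀ t i₀ ≠ 0
    rw [Function.update_self]
    exact norm_pos_iff.1 ht

/-- **psh functions of growth `o(log 1/|ζ_{i₀}|)` are bounded** -/
theorem pbound {i₀ : Fin n} {u : (Fin n → ℂ) → ℝ} {r ρ : ℝ} (hρr : ρ < r)
    (husc : ∀ z ∈ W i₀ r, ∀ c, u z < c → ∀ᶠ y in 𝓝 z, u y < c)
    {c₁ : ℝ} (hbdd : ∀ z ∈ W i₀ r, c₁ ≤ u z) (hsm : SM 0 u (W i₀ r))
    (hgr : ∀ ε : ℝ, 0 < ε → ∃ C : ℝ, ∀ z ∈ W i₀ r, u z ≤ C - ε * Real.log ‖z i₀‖) :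
    ∃ M : ℝ, ∀ z ∈ W i₀ ρ, u z ≤ M := by
  rcases le_or_gt ρ 0 with hρ | hρ
  · refine ⟨0, fun z hz => ?_⟩
    have h1 := hz.1
    rw [mem_ball, dist_zero_right] at h1
    exact absurd (h1.trans_le hρ) (not_lt.2 (norm_nonneg z))
  set T : Set (Fin n → ℂ) := closedBall 0 ρ ∩ {z | ‖z i₀‖ = ρ} with hT
  have hTc : IsCompact T :=
    (isCompact_closedBall _ _).inter_right (isClosed_eq (continuous_apply i₀).norm continuous_const)
  have hTW : T ⊆ W i₀ r := by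
    intro z hz
    refine ⟨(closedBall_subset_ball hρr) hz.1, ?_⟩
    show z i₀ ≠ 0
    rw [← norm_pos_iff, hz.2]
    exact hρ
  have hTn : T.Nonempty := by
    refine ⟨fun _ => (ρ : ℂ), ?_, ?_⟩
    · rw [mem_closedBall, dist_zero_right, pi_norm_le_iff_of_nonneg hρ.le]
      intro i
      rw [Complex.norm_real, Real.norm_of_nonneg hρ.le]
    · show ‖(ρ : ℂ)‖ = ρ
      rw [Complex.norm_real, Real.norm_of_nonneg hρ.le]
  have hTu : UpperSemicontinuousOn u T := fun z hz c hc =>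
    mem_nhdsWithin_of_mem_nhds (husc z (hTW hz) c hc)
  obtain ⟨z₀, -, hz₀⟩ := hTu.exists_isMaxOn hTn hTc
  refine ⟨u z₀, fun z hz => ?_⟩
  have hz1 : ‖z‖ < ρ := by
    have := hz.1; rwa [mem_ball, dist_zero_right] at this
  have hmem : ∀ t : ℂ, 0 < ‖t‖ → ‖t‖ < r → Function.update z i₀ t ∈ W i₀ r :=
    fun t ht ht' => update_mem_W hz1 hρr ht ht'
  have hcont : Continuous fun t : ℂ => Function.update z i₀ t := by fun_prop
  have key := punct_max (u := fun t => u (Function.update z i₀ t)) (r := r) (ρ := ρ) (M := u z₀)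
    (c₁ := c₁) hρr ?_ ?_ ?_ ?_ ?_ (t := z i₀) (norm_pos_iff.2 hz.2)
    ((norm_le_pi_norm z i₀).trans hz1.le)
  · simpa using key
  · intro t ht ht' c hc
    exact hcont.continuousAt.eventually (husc _ (hmem t ht ht') c hc)
  · intro t ht ht'
    exact hbdd _ (hmem t ht ht')
  · intro t v hd
    have h1 : ∀ w : ℂ, Function.update z i₀ (t + w • v) =
        Function.update z i₀ t + w • (Pi.single i₀ v : Fin n → ℂ) := by
      intro w
      funext j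
      by_cases hj : j = i₀
      · subst hj; simp
      · simp [Function.update_of_ne hj, Pi.single_eq_of_ne hj]
    have h2 := hsm (Function.update z i₀ t) (Pi.single i₀ v) (fun w hw => by
      rw [← h1]
      have := hd w hw
      exact hmem _ this.1 this.2)
    simp only [← h1, zero_mul, add_zero] at h2 ⊢
    exact h2
  · intro ε hε
    obtain ⟨C, hC⟩ := hgr ε hε
    refine ⟨C, fun t ht ht' => ?_⟩
    have := hC _ (hmem t ht ht')
    rwa [Function.update_self] at this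
  · intro t ht
    refine hz₀ ⟨?_, ?_⟩
    · rw [mem_closedBall, dist_zero_right, pi_norm_le_iff_of_nonneg hρ.le]
      intro j
      by_cases hj : j = i₀
      · subst hj; rw [Function.update_self]; exact ht.le
      · rw [Function.update_of_ne hj]
        exact (norm_le_pi_norm z j).trans hz1.le
    · show ‖Function.update z i₀ t i₀‖ = ρ
      rw [Function.update_self]; exact ht

/-! ### `LPsh` -/

attribute [local instance] Crest.Agent.R276.NL_137.flat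

/-- `W i₀ r` as an open subset of `ℂⁿ` -/
def WO (i₀ : Fin n) (r : ℝ) : Opens (Fin n → ℂ) := ⟨W i₀ r, isOpen_W i₀ r⟩

/-- holomorphic functions on an open subset of `ℂⁿ` -/
lemma hol_of_analytic (U : Opens (Fin n → ℂ)) {F : (Fin n → ℂ) → ℂ}
    (hF : ∀ z ∈ U, AnalyticAt ℂ F z) : @Hol n U _ (rdO U) (fun z : U => F z.1) := by
  letI := rdO U
  intro e he
  have h1 : ∀ z ∈ e.target, (e.symm z).1 = z := fun z hz => he.cp_symm hz
  have h2 : e.target ⊆ (U : Set (Fin n → ℂ)) := by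
    intro z hz
    rw [← h1 z hz]
    exact (e.symm z).2
  have h3 : DifferentiableOn ℂ F e.target := fun z hz =>
    (hF z (h2 hz)).differentiableAt.differentiableWithinAt
  refine h3.congr fun z hz => ?_
  show F (e.symm z).1 = F z
  rw [h1 z hz]

/-- the tautological chart of an open subset -/
lemma isCh_coe (U : Opens (Fin n → ℂ)) (h : Nonempty U) :
    letI := rdO U
    IsCh (U.openPartialHomeomorphSubtypeCoe h) := rfl

/-- **psh weights of growth `o(log)` are bounded** -/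
theorem lpsh_bound {i₀ : Fin n} {r ρ : ℝ} (hρr : ρ < r) {b : WO i₀ r → ℝ}
    (h : @LPsh n (WO i₀ r) _ (rdO (WO i₀ r)) b)
    (hgr : ∀ ε : ℝ, 0 < ε → ∃ C : ℝ, ∀ z : WO i₀ r, b z ≤ C * ‖z.1 i₀‖ ^ (-ε)) :
    ∃ C : ℝ, ∀ z : WO i₀ r, ‖z.1‖ < ρ → b z ≤ C := by
  letI := rdO (WO i₀ r)
  by_cases hne : Nonempty (WO i₀ r)
  swap
  · exact ⟨0, fun z => absurd ⟨z⟩ hne⟩
  have hP : PSH (fun z : WO i₀ r => Real.log (b z + 1)) := h.psh 1 one_pos
  set e := (WO i₀ r).openPartialHomeomorphSubtypeCoe hne with he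
  have hch : IsCh e := isCh_coe _ hne
  have htar : e.target = W i₀ r := by
    exact (WO i₀ r).openPartialHomeomorphSubtypeCoe_target hne
  have hsymm : ∀ z (hz : z ∈ W i₀ r), e.symm z = ⟨z, hz⟩ := by
    intro z hz
    apply Subtype.ext
    exact hch.cp_symm (by rw [htar]; exact hz)
  set u : (Fin n → ℂ) → ℝ := (fun z : WO i₀ r => Real.log (b z + 1)) ∘ e.symm with hu
  have hu1 : ∀ z (hz : z ∈ W i₀ r), u z = Real.log (b ⟨z, hz⟩ + 1) := by
    intro z hz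
    rw [hu, Function.comp_apply, hsymm z hz]
  have hr : ∀ z ∈ W i₀ r, 0 < ‖z i₀‖ ∧ ‖z i₀‖ < r := by
    intro z hz
    have h1 := hz.1
    rw [mem_ball, dist_zero_right] at h1
    exact ⟨norm_pos_iff.2 hz.2, (norm_le_pi_norm z i₀).trans_lt h1⟩
  suffices hmain : ∃ M : ℝ, ∀ z ∈ W i₀ ρ, u z ≤ M by
    obtain ⟨M, hM⟩ := hmain
    refine ⟨Real.exp M, fun z hz => ?_⟩
    have h1 := hM z.1 ⟨by rwa [mem_ball, dist_zero_right], z.2.2⟩
    have h0 := h.nonneg z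
    rw [hu1 z.1 z.2, Real.log_le_iff_le_exp (by positivity)] at h1
    linarith
  refine pbound (u := u) (i₀ := i₀) (r := r) (ρ := ρ) (c₁ := 0) hρr ?_ ?_ ?_ ?_
  · intro z hz c hc
    have h1 : ContinuousAt e.symm z := e.symm.continuousAt (by
      rw [e.symm_source, htar]; exact hz)
    exact h1.eventually (hP.usc (e.symm z) c hc)
  · intro z hz
    rw [hu1 z hz]
    exact Real.log_nonneg (by linarith [h.nonneg ⟨z, hz⟩])
  · rw [← htar]; exact hP.sm e hch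
  · intro ε hε
    obtain ⟨C, hC⟩ := hgr ε hε
    set C' : ℝ := max C 0 + r ^ ε with hC'
    refine ⟨Real.log C', fun z hz => ?_⟩
    obtain ⟨h1, h2⟩ := hr z hz
    have hr0 : 0 < r := h1.trans h2
    have h3 := hC ⟨z, hz⟩
    have h0 := h.nonneg ⟨z, hz⟩
    have h4 : 0 < C' := by
      have : 0 < r ^ ε := Real.rpow_pos_of_pos hr0 _
      have := le_max_right C 0
      positivity
    have h5 : 0 < ‖z i₀‖ ^ (-ε) := Real.rpow_pos_of_pos h1 _
    have h6 : 1 ≤ r ^ ε * ‖z i₀‖ ^ (-ε) := by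
      rw [Real.rpow_neg h1.le, ← div_eq_mul_inv, one_le_div (Real.rpow_pos_of_pos h1 _)]
      exact Real.rpow_le_rpow h1.le h2.le hε.le
    have h7 : b ⟨z, hz⟩ + 1 ≤ C' * ‖z i₀‖ ^ (-ε) := by
      rw [hC', add_mul]
      have : C * ‖z i₀‖ ^ (-ε) ≤ max C 0 * ‖z i₀‖ ^ (-ε) :=
        mul_le_mul_of_nonneg_right (le_max_left _ _) h5.le
      have h8 : b ⟨z, hz⟩ ≤ C * ‖z i₀‖ ^ (-ε) := h3
      linarith
    rw [hu1 z hz]
    calc Real.log (b ⟨z, hz⟩ + 1) ≤ Real.log (C' * ‖z i₀‖ ^ (-ε)) :=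
          Real.log_le_log (by positivity) h7
      _ = Real.log C' - ε * Real.log ‖z i₀‖ := by
          rw [Real.log_mul h4.ne' h5.ne', Real.log_rpow h1]; ring

/-! ### boundary charts -/

section bchart

open Crest.Agent.R271.Defs710 Crest.Agent.R276.BC_986
open Crest.Agent.R271.Rd692 (Pt pr)

variable {i₀ : Fin n} {r : ℝ} {B : Type} [CommRing B] [Algebra ℂ B] [RDom n (B →ₐ[ℂ] ℂ)]
  [T2Space (B →ₐ[ℂ] ℂ)]

/-- pull back of a weight to a chart, times `‖h‖ ‖ζ_{i₀}‖^a` -/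
theorem lpsh_chart {z : Fin n → B} (hcp : ∀ (y : B →ₐ[ℂ] ℂ) j, (cp y : Fin n → ℂ) j = y (z j))
    {s : (Fin n → ℂ) → (B →ₐ[ℂ] ℂ)} (hs : ContinuousOn s (W i₀ r))
    (hsa : ∀ j, AnalyticOnNhd ℂ (fun ζ => s ζ (z j)) (W i₀ r))
    {b : (B →ₐ[ℂ] ℂ) → ℝ} (hb : LPsh b)
    {h : (Fin n → ℂ) → ℂ} (hh : AnalyticOnNhd ℂ h (W i₀ r)) (a : ℝ) :
    @LPsh n (WO i₀ r) _ (rdO (WO i₀ r))
      (fun ζ : WO i₀ r => b (s ζ.1) * ‖h ζ.1‖ ^ 2 * ‖ζ.1 i₀‖ ^ a) := by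
  letI := rdO (WO i₀ r)
  have h1 : HolMap (fun ζ : WO i₀ r => s ζ.1) := by
    refine ⟨continuousOn_iff_continuous_domRestrict.1 hs, fun j => ?_⟩
    have := hol_of_analytic (WO i₀ r) (F := fun ζ => s ζ (z j)) (fun ζ hζ => hsa j ζ hζ)
    simpa only [hcp] using this
  have h2 : LPsh (fun ζ : WO i₀ r => b (s ζ.1)) := LPsh.comp_hol h1 hb
  have h3 : LPsh (fun ζ : WO i₀ r => ‖h ζ.1‖ ^ 2) :=
    LPsh.of_hol (hol_of_analytic (WO i₀ r) (F := h) (fun ζ hζ => hh ζ hζ))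
  have h4 : LPsh (fun ζ : WO i₀ r => ‖ζ.1 i₀‖ ^ a) := by
    have ha : ∀ ζ : Fin n → ℂ, AnalyticAt ℂ (fun ζ : Fin n → ℂ => ζ i₀) ζ := fun ζ =>
      (ContinuousLinearMap.proj (R := ℂ) (φ := fun _ : Fin n => ℂ) i₀).analyticAt ζ
    rcases le_total 0 a with h0 | h0
    · exact LPsh.of_hol_rpow (hol_of_analytic (WO i₀ r) (F := fun ζ => ζ i₀) (fun ζ _ => ha ζ)) h0
    · have h5 : LPsh (fun ζ : WO i₀ r => ‖(ζ.1 i₀)⁻¹‖ ^ (-a)) :=
        LPsh.of_hol_rpow (hol_of_analytic (WO i₀ r) (F := fun ζ => (ζ i₀)⁻¹)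
          (fun ζ hζ => (ha ζ).inv hζ.2)) (by linarith)
      have h6 : (fun ζ : WO i₀ r => ‖(ζ.1 i₀)⁻¹‖ ^ (-a)) = fun ζ : WO i₀ r => ‖ζ.1 i₀‖ ^ a := by
        funext ζ
        rw [norm_inv, Real.inv_rpow (norm_nonneg _), Real.rpow_neg (norm_nonneg _), inv_inv]
      rwa [h6] at h5
  exact (h2.mul h3).mul h4

/-- **LOGB ⇒ bounded**, general form -/
theorem chart_bound {ρ : ℝ} (hρr : ρ < r) {z : Fin n → B}
    (hcp : ∀ (y : B →ₐ[ℂ] ℂ) j, (cp y : Fin n → ℂ) j = y (z j))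
    {s : (Fin n → ℂ) → (B →ₐ[ℂ] ℂ)} (hs : ContinuousOn s (W i₀ r))
    (hsa : ∀ j, AnalyticOnNhd ℂ (fun ζ => s ζ (z j)) (W i₀ r))
    {b : (B →ₐ[ℂ] ℂ) → ℝ} (hb : LPsh b)
    {h : (Fin n → ℂ) → ℂ} (hh : AnalyticOnNhd ℂ h (W i₀ r)) (a : ℝ)
    (hgr : ∀ ε : ℝ, 0 < ε → ∃ C : ℝ, ∀ ζ ∈ W i₀ r,
      b (s ζ) * ‖h ζ‖ ^ 2 * ‖ζ i₀‖ ^ a ≤ C * ‖ζ i₀‖ ^ (-ε)) :
    ∃ C : ℝ, ∀ ζ ∈ W i₀ ρ, b (s ζ) * ‖h ζ‖ ^ 2 * ‖ζ i₀‖ ^ a ≤ C := by
  obtain ⟨C, hC⟩ := lpsh_bound hρr (lpsh_chart hcp hs hsa hb hh a) (fun ε hε => by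
    obtain ⟨C, hC⟩ := hgr ε hε
    exact ⟨C, fun ζ => hC ζ.1 ζ.2⟩)
  refine ⟨C, fun ζ hζ => ?_⟩
  have h1 := hζ.1
  rw [mem_ball, dist_zero_right] at h1
  exact hC ⟨ζ, ⟨by rw [mem_ball, dist_zero_right]; exact h1.trans hρr, hζ.2⟩⟩ h1

end bchart

end Crest.Agent.R276.Lgb_986
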