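import Mathlib
import Crest.Agent.R276.Lgb2_986
import Crest.Agent.R276.EndA_723
import Crest.Agent.R276.BR4_590

/-!
# Row 276 (helper986), LOGB part 3: applications

* `BLog` : growth `C (1 + |log x|)^N`; `blog_le` : it is `≤ C_ε x^{-ε}`;
* `BChart.bound` : 986's boundary charts;
* `ach_bound` : 590's analytic boundary charts `ACh`;
* `bdd_of_log` : 723's `Bdd` from an `LPsh` weight of logarithmic growth in the frame of `K_X`.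
-/

set_option autoImplicit false
set_option linter.unusedSectionVars false
set_option linter.style.haveILetI false

open MeasureTheory Set Metric Filter Topology

noncomputable section

namespace Crest.Agent.R276.Lgb_986

open Crest.Agent.R271.Ho51 Crest.Agent.R276.EngU_29
open Crest.Agent.R271.Defs710 Crest.Agent.R271.Bd741 Crest.Agent.R276.BC_986
open Crest.Agent.R276.FKDefs_779
open Crest.Agent.R271.Rd692 (Pt pr rdom)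

/-- powers of the logarithm are `o(x^{-ε})` -/
lemma blog_le (r : ℝ) (N : ℕ) {ε : ℝ} (hε : 0 < ε) :
    ∃ C : ℝ, 0 ≤ C ∧ ∀ x : ℝ, 0 < x → x < r → (1 + |Real.log x|) ^ N ≤ C * x ^ (-ε) := by
  rcases Nat.eq_zero_or_pos N with rfl | hN
  · refine ⟨max r 0 ^ ε, by positivity, fun x hx hxr => ?_⟩
    have hr : 0 < r := hx.trans hxr
    rw [pow_zero, max_eq_left hr.le, Real.rpow_neg hx.le, ← div_eq_mul_inv,
      one_le_div (Real.rpow_pos_of_pos hx _)]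
    exact Real.rpow_le_rpow hx.le hxr.le hε.le
  set d : ℝ := ε / N with hd
  have hN0 : (0 : ℝ) < N := by exact_mod_cast hN
  have hd0 : 0 < d := by positivity
  set r' : ℝ := max r 1 with hr'
  have hr1 : 1 ≤ r' := le_max_right _ _
  set A : ℝ := (1 + Real.log r' + 1 / d) * r' ^ d with hA
  have hlog : 0 ≤ Real.log r' := Real.log_nonneg hr1
  have hA0 : 0 ≤ A := by positivity
  refine ⟨A ^ N, by positivity, fun x hx hxr => ?_⟩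
  have hxd : 0 < x ^ (-d) := Real.rpow_pos_of_pos hx _
  have hxr' : x ≤ r' := hxr.le.trans (le_max_left _ _)
  have h1 : 1 ≤ r' ^ d * x ^ (-d) := by
    rw [Real.rpow_neg hx.le, ← div_eq_mul_inv, one_le_div (Real.rpow_pos_of_pos hx _)]
    exact Real.rpow_le_rpow hx.le hxr' hd0.le
  have h2 : |Real.log x| ≤ Real.log r' + 1 / d * x ^ (-d) := by
    have h4 : 0 < 1 / d := by positivity
    rcases le_total 0 (Real.log x) with h | h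
    · rw [abs_of_nonneg h]
      have := Real.log_le_log hx hxr'
      have : 0 ≤ 1 / d * x ^ (-d) := by positivity
      linarith
    · rw [abs_of_nonpos h]
      have h5 := Real.add_one_le_exp (-d * Real.log x)
      have h6 : Real.exp (-d * Real.log x) = x ^ (-d) := by
        rw [Real.rpow_def_of_pos hx, mul_comm]
      rw [h6] at h5
      have h7 : -Real.log x ≤ 1 / d * x ^ (-d) := by
        rw [one_div, inv_mul_eq_div, le_div_iff₀ hd0]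
        nlinarith
      linarith
  have h3 : 1 + |Real.log x| ≤ A * x ^ (-d) := by
    have h4 : 0 < 1 / d := by positivity
    have h5 : (1 + Real.log r') ≤ (1 + Real.log r') * (r' ^ d * x ^ (-d)) :=
      le_mul_of_one_le_right (by positivity) h1
    have h6 : 1 / d * x ^ (-d) ≤ 1 / d * (r' ^ d * x ^ (-d)) := by
      have h7 : 1 ≤ r' ^ d := Real.one_le_rpow hr1 hd0.le
      have h8 : x ^ (-d) ≤ r' ^ d * x ^ (-d) := le_mul_of_one_le_left hxd.le h7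
      gcongr
    calc 1 + |Real.log x| ≤ (1 + Real.log r') + 1 / d * x ^ (-d) := by linarith
      _ ≤ (1 + Real.log r') * (r' ^ d * x ^ (-d)) + 1 / d * (r' ^ d * x ^ (-d)) := by linarith
      _ = A * x ^ (-d) := by rw [hA]; ring
  calc (1 + |Real.log x|) ^ N ≤ (A * x ^ (-d)) ^ N :=
        pow_le_pow_left₀ (by positivity) h3 N
    _ = A ^ N * x ^ (-ε) := by
        rw [mul_pow, ← Real.rpow_natCast (x ^ (-d)) N, ← Real.rpow_mul hx.le]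
        congr 2
        rw [hd]; field_simp

section general

variable {n : ℕ} {i₀ : Fin n} {r : ℝ} {B : Type} [CommRing B] [Algebra ℂ B]
  [RDom n (B →ₐ[ℂ] ℂ)] [T2Space (B →ₐ[ℂ] ℂ)]

/-- **LOGB ⇒ bounded** with logarithmic growth -/
theorem chart_bound_log {ρ : ℝ} (hρr : ρ < r) {z : Fin n → B}
    (hcp : ∀ (y : B →ₐ[ℂ] ℂ) j, (cp y : Fin n → ℂ) j = y (z j))
    {s : (Fin n → ℂ) → (B →ₐ[ℂ] ℂ)} (hs : ContinuousOn s (W i₀ r))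
    (hsa : ∀ j, AnalyticOnNhd ℂ (fun ζ => s ζ (z j)) (W i₀ r))
    {b : (B →ₐ[ℂ] ℂ) → ℝ} (hb : LPsh b)
    {h : (Fin n → ℂ) → ℂ} (hh : AnalyticOnNhd ℂ h (W i₀ r)) (a : ℝ) {N : ℕ} {C : ℝ}
    (hgr : ∀ ζ ∈ W i₀ r,
      b (s ζ) * ‖h ζ‖ ^ 2 * ‖ζ i₀‖ ^ a ≤ C * (1 + |Real.log ‖ζ i₀‖|) ^ N) :
    ∃ C : ℝ, ∀ ζ ∈ W i₀ ρ, b (s ζ) * ‖h ζ‖ ^ 2 * ‖ζ i₀‖ ^ a ≤ C := by
  refine chart_bound hρr hcp hs hsa hb hh a fun ε hε => ?_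
  obtain ⟨C', hC'0, hC'⟩ := blog_le r N hε
  refine ⟨max C 0 * C', fun ζ hζ => ?_⟩
  have h1 : 0 < ‖ζ i₀‖ := norm_pos_iff.2 hζ.2
  have h2 : ‖ζ i₀‖ < r := by
    have := hζ.1
    rw [mem_ball, dist_zero_right] at this
    exact (norm_le_pi_norm ζ i₀).trans_lt this
  have h3 := hC' _ h1 h2
  have h0 : 0 ≤ (1 + |Real.log ‖ζ i₀‖|) ^ N := by positivity
  calc _ ≤ C * (1 + |Real.log ‖ζ i₀‖|) ^ N := hgr ζ hζ
    _ ≤ max C 0 * (1 + |Real.log ‖ζ i₀‖|) ^ N :=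
        mul_le_mul_of_nonneg_right (le_max_left _ _) h0
    _ ≤ max C 0 * (C' * ‖ζ i₀‖ ^ (-ε)) := mul_le_mul_of_nonneg_left h3 (le_max_right _ _)
    _ = _ := by ring

end general

/-! ### 986's charts -/

section bc

variable {n : ℕ} {K : Type} [Field K] [Algebra ℂ K] {D : DivModel n K} {B : Type} [CommRing B] [Algebra ℂ B]
  [Algebra B K] (X : BChart D B) [RDom n (B →ₐ[ℂ] ℂ)] [T2Space (B →ₐ[ℂ] ℂ)]

/-- **LOGB ⇒ bounded** on 986's boundary charts -/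
theorem bchart_bound {ρ : ℝ} (hρ : 0 < ρ) (hρr : ρ < X.r) {z : Fin n → B}
    (hcp : ∀ (y : B →ₐ[ℂ] ℂ) j, (cp y : Fin n → ℂ) j = y (z j))
    {b : (B →ₐ[ℂ] ℂ) → ℝ} (hb : LPsh b)
    {h : Cn n → ℂ} (hh : AnalyticOnNhd ℂ h X.V) (a : ℝ)
    (hgr : ∀ ε : ℝ, 0 < ε → ∃ C : ℝ, ∀ ζ ∈ X.V,
      b (X.s ζ) * ‖h ζ‖ ^ 2 * ‖ζ D.i₀‖ ^ a ≤ C * ‖ζ D.i₀‖ ^ (-ε)) :
    ∃ C : ℝ, ∀ ζ ∈ (X.shrink ρ hρ hρr.le).V, b (X.s ζ) * ‖h ζ‖ ^ 2 * ‖ζ D.i₀‖ ^ a ≤ C :=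
  chart_bound (i₀ := D.i₀) hρr hcp X.continuousOn_s (fun j => X.anal (z j)) hb hh a hgr

theorem bchart_bound_log {ρ : ℝ} (hρ : 0 < ρ) (hρr : ρ < X.r) {z : Fin n → B}
    (hcp : ∀ (y : B →ₐ[ℂ] ℂ) j, (cp y : Fin n → ℂ) j = y (z j))
    {b : (B →ₐ[ℂ] ℂ) → ℝ} (hb : LPsh b)
    {h : Cn n → ℂ} (hh : AnalyticOnNhd ℂ h X.V) (a : ℝ) {N : ℕ} {C : ℝ}
    (hgr : ∀ ζ ∈ X.V,
      b (X.s ζ) * ‖h ζ‖ ^ 2 * ‖ζ D.i₀‖ ^ a ≤ C * (1 + |Real.log ‖ζ D.i₀‖|) ^ N) :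
    ∃ C : ℝ, ∀ ζ ∈ (X.shrink ρ hρ hρr.le).V, b (X.s ζ) * ‖h ζ‖ ^ 2 * ‖ζ D.i₀‖ ^ a ≤ C :=
  chart_bound_log (i₀ := D.i₀) hρr hcp X.continuousOn_s (fun j => X.anal (z j)) hb hh a hgr

end bc

/-! ### 590's charts -/

section ach

open Crest.Agent.R276.BR_590

variable {n : ℕ} {i₀ : Fin n} {B : Type} [CommRing B] [Algebra ℂ B] (X : ACh n i₀ B)
  [RDom n (B →ₐ[ℂ] ℂ)] [T2Space (B →ₐ[ℂ] ℂ)]

/-- **LOGB ⇒ bounded** on 590's boundary charts -/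
theorem ach_bound {ρ : ℝ} (hρr : ρ < X.ρ) {z : Fin n → B}
    (hcp : ∀ (y : B →ₐ[ℂ] ℂ) j, (cp y : Fin n → ℂ) j = y (z j))
    {b : (B →ₐ[ℂ] ℂ) → ℝ} (hb : LPsh b)
    {h : Cn n → ℂ} (hh : AnalyticOnNhd ℂ h X.V) (a : ℝ)
    (hgr : ∀ ε : ℝ, 0 < ε → ∃ C : ℝ, ∀ ζ ∈ X.V,
      b (X.s ζ) * ‖h ζ‖ ^ 2 * ‖ζ i₀‖ ^ a ≤ C * ‖ζ i₀‖ ^ (-ε)) :
    ∃ C : ℝ, ∀ ζ ∈ ball (0 : Cn n) ρ, ζ i₀ ≠ 0 → b (X.s ζ) * ‖h ζ‖ ^ 2 * ‖ζ i₀‖ ^ a ≤ C := by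
  obtain ⟨C, hC⟩ := chart_bound (i₀ := i₀) hρr hcp X.continuousOn_s (fun j => X.anal (z j)) hb hh
    a hgr
  exact ⟨C, fun ζ h1 h2 => hC ζ ⟨h1, h2⟩⟩

theorem ach_bound_log {ρ : ℝ} (hρr : ρ < X.ρ) {z : Fin n → B}
    (hcp : ∀ (y : B →ₐ[ℂ] ℂ) j, (cp y : Fin n → ℂ) j = y (z j))
    {b : (B →ₐ[ℂ] ℂ) → ℝ} (hb : LPsh b)
    {h : Cn n → ℂ} (hh : AnalyticOnNhd ℂ h X.V) (a : ℝ) {N : ℕ} {C : ℝ}
    (hgr : ∀ ζ ∈ X.V,
      b (X.s ζ) * ‖h ζ‖ ^ 2 * ‖ζ i₀‖ ^ a ≤ C * (1 + |Real.log ‖ζ i₀‖|) ^ N) :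
    ∃ C : ℝ, ∀ ζ ∈ ball (0 : Cn n) ρ, ζ i₀ ≠ 0 → b (X.s ζ) * ‖h ζ‖ ^ 2 * ‖ζ i₀‖ ^ a ≤ C := by
  obtain ⟨C, hC⟩ := chart_bound_log (i₀ := i₀) hρr hcp X.continuousOn_s (fun j => X.anal (z j))
    hb hh a hgr
  exact ⟨C, fun ζ h1 h2 => hC ζ ⟨h1, h2⟩⟩

end ach

/-! ### 723's `Bdd` -/

section bdd

open Crest.Agent.R276.End_723

variable {K : Type} [Field K] [Algebra ℂ K] {n : ℕ} {A : Subalgebra ℂ K} {z : Fin n → K}
  (hA : EtChart ℂ K A z)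

lemma hchA : ∀ y : A →ₐ[ℂ] ℂ, Nonempty (Chart (zA hA) y) :=
  fun y => Crest.Agent.R271.Rd692.nonempty_chart (zA hA) hA.etale y

lemma lpsh_tn (s : Finset (Fin n)) : letI := rdom (hchA hA); LPsh (tn hA s) := by
  letI := rdom (hchA hA)
  have h1 : LPsh (fun y : A →ₐ[ℂ] ℂ => ∑ i ∈ s, ‖y (zA hA i)‖ ^ 2) :=
    LPsh.sum_hol s fun i _ => Crest.Agent.R276.AB2_590.hol51_ev (hchA hA) (zA hA i)
  have h2 := (LPsh.const (M := A →ₐ[ℂ] ℂ) zero_le_one).add h1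
  exact h2

/-- **723's `Bdd` from logarithmic growth** -/
theorem bdd_of_log {b : (A →ₐ[ℂ] ℂ) → ℝ} (hb : letI := rdom (hchA hA); LPsh b)
    {s : Finset (Fin n)} {κ : ℝ} (hκ : 0 ≤ κ) {R : ValuationSubring K}
    (hR : ∃ D : DivModel n K, D.ModelOf R ∧ ∀ F : Finset K, (∀ f ∈ F, f ≠ 0) →
      ∃ X : BChart D A, (∀ f ∈ F, ∃ (a : ℤ) (G : Cn n → ℂ), Good D X f a G) ∧
        ∃ (N : ℕ) (C : ℝ), ∀ ζ ∈ X.V, b (X.s ζ) * tn hA s (X.s ζ) ^ κ *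
          ‖(fderiv ℂ (X.ψ (zA hA)) ζ).det‖ ^ 2 ≤ C * (1 + |Real.log ‖ζ D.i₀‖|) ^ N) :
    Bdd hA b s κ R := by
  letI := rdom (hchA hA)
  obtain ⟨D, hD, hF⟩ := hR
  refine ⟨D, hD, fun F hF0 => ?_⟩
  obtain ⟨X, hX, N, C, hC⟩ := hF F hF0
  have hr2 : 0 < X.r / 2 := by have := X.r_pos; positivity
  have hrr : X.r / 2 < X.r := by have := X.r_pos; linarith
  have hT2 : T2Space (A →ₐ[ℂ] ℂ) := inferInstance
  have hb' : LPsh (fun y => b y * tn hA s y ^ κ) := hb.mul ((lpsh_tn hA s).rpow hκ)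
  have hh : AnalyticOnNhd ℂ (fun ζ => (fderiv ℂ (X.ψ (zA hA)) ζ).det) X.V := fun ζ hζ =>
    Crest.Agent.R276.BR_590.analyticAt_det_fderiv (X.analyticAt_ψ (zA hA) hζ)
  obtain ⟨C', hC'⟩ := bchart_bound_log X hr2 hrr (z := zA hA) (fun y j => rfl) hb' hh 0
    (N := N) (C := C) (fun ζ hζ => by rw [Real.rpow_zero, mul_one]; exact hC ζ hζ)
  refine ⟨X.shrink (X.r / 2) hr2 hrr.le, fun f hf => ?_, C', fun ζ hζ => ?_⟩
  · obtain ⟨a, G, h⟩ := hX f hf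
    exact ⟨a, G, h.shrink _ hr2 hrr.le⟩
  · have := hC' ζ hζ
    rwa [Real.rpow_zero, mul_one] at this

end bdd

end Crest.Agent.R276.Lgb_986
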