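import Mathlib
import Crest.Agent.R276.Lgb3_986
import Crest.Agent.R276.SkelDefs_220

/-!
# Row 276 (helper986): `SkelDefs_220.LogExt`
-/

set_option autoImplicit false
set_option linter.unusedSectionVars false

open MeasureTheory Set Metric Filter Topology

noncomputable section

namespace Crest.Agent.R276.Lgb_986

open Crest.Agent.R271.Ho51 Crest.Agent.R276.EngU_29
open Crest.Agent.R271.Defs710 Crest.Agent.R271.Rd692
open Crest.Agent.R276.Mod1_987 Crest.Agent.R276.SkelDefs_220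

lemma mem_PD {n : ℕ} {δ : ℝ} {i₀ : Fin n} {ζ : Cn n} : ζ ∈ PD δ (some i₀) ↔ ζ ∈ W i₀ δ := by
  constructor
  · rintro ⟨h1, h2⟩
    exact ⟨by rwa [mem_ball, dist_zero_right], h2 i₀ rfl⟩
  · rintro ⟨h1, h2⟩
    refine ⟨by rwa [mem_ball, dist_zero_right] at h1, fun i hi => ?_⟩
    obtain rfl := Option.some.inj hi
    exact h2

variable {K : Type} [Field K] [Algebra ℂ K] {n : ℕ} {M : Mdl K n} {δ : ℝ}

lemma ac_continuousOn {i₀ : Option (Fin n)} (X : AC M δ i₀) : ContinuousOn (X.s : Cn n → Pt M.B) (PD δ i₀) := by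
  rw [continuousOn_iff_ev]
  intro b ζ hζ
  exact (X.anal b ζ hζ).continuousAt.continuousWithinAt

lemma ac_analyticAt_J {i₀ : Option (Fin n)} (X : AC M δ i₀) {ζ : Cn n} (hζ : ζ ∈ PD δ i₀) :
    AnalyticAt ℂ X.J ζ := by
  refine Crest.Agent.R276.BR_590.analyticAt_det_fderiv (Ξ := fun ζ => M.pz (X.s ζ)) ?_
  exact analyticAt_pi_iff.2 fun i => X.anal (M.z i) ζ hζ

/-- an `LPsh` weight which is log-bounded on a chart, after multiplication by `‖h‖²`, `h`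
holomorphic on the chart minus the divisor, is bounded on smaller polydiscs -/
theorem ac_bound {i₀ : Fin n} (X : AC M δ (some i₀)) {b : M.Pts → ℝ} (hb : LPsh b)
    {h : Cn n → ℂ} (hh : AnalyticOnNhd ℂ h (PD δ (some i₀)))
    (hgr : LogB δ (some i₀) (fun ζ => b (X.s ζ) * ‖h ζ‖ ^ 2)) :
    ∀ δ' < δ, ∃ C : ℝ, ∀ ζ ∈ PD δ' (some i₀), b (X.s ζ) * ‖h ζ‖ ^ 2 ≤ C := by
  intro δ' hδ'
  set r : ℝ := (δ' + δ) / 2 with hr
  have h1 : δ' < r := by rw [hr]; linarith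
  have h2 : r < δ := by rw [hr]; linarith
  have hsub : W i₀ r ⊆ PD δ (some i₀) := fun ζ hζ =>
    mem_PD.2 ⟨ball_subset_ball h2.le hζ.1, hζ.2⟩
  obtain ⟨C, k, hC⟩ := hgr r h2
  obtain ⟨C', hC'⟩ := chart_bound_log (i₀ := i₀) (r := r) (ρ := δ') h1 (z := M.z)
    (fun y j => rfl) (s := X.s) ((ac_continuousOn X).mono hsub)
    (fun j => (X.anal (M.z j)).mono hsub) hb (h := h) (hh.mono hsub) 0 (N := k) (C := C)
    (fun ζ hζ => by
      rw [Real.rpow_zero, mul_one]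
      exact hC ζ (mem_PD.2 hζ))
  refine ⟨C', fun ζ hζ => ?_⟩
  have := hC' ζ (mem_PD.1 hζ)
  rwa [Real.rpow_zero, mul_one] at this

/-- **`LogExt`** -/
theorem logExt : LogExt := by
  intro K _ _ n M δ i₀ X c b l hb _ hgr δ' hδ'
  have h1 : ∀ ζ, ‖X.J ζ‖ ^ (2 * l) = ‖X.J ζ ^ l‖ ^ 2 := fun ζ => by
    rw [norm_pow, ← pow_mul, mul_comm]
  simp only [h1] at hgr ⊢
  exact ac_bound X hb (h := fun ζ => X.J ζ ^ l) (fun ζ hζ => (ac_analyticAt_J X hζ).pow l) hgr δ' hδ'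

end Crest.Agent.R276.Lgb_986
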