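import Crest.Agent.R276.EndC2_723
import Crest.Agent.R276.LogExt_986

/-!
# Row 276, EndC (helper723), part 3: the product weight on `M_K → M_T`: growth and frame bound
-/

set_option autoImplicit false
set_option linter.unusedSectionVars false

noncomputable section

open Set Filter Topology MeasureTheory
open scoped ENNReal

namespace Crest.Agent.R276.EndC_723

open Crest.Agent.R271 Crest.Agent.R271.Defs710 Crest.Agent.R271.Ho51 Crest.Agent.R271.Rd692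
open Crest.Agent.R276.FKDefs_779 Crest.Agent.R276.BC_986
open Crest.Agent.R276.Mod1_987 Crest.Agent.R276.EngU_29 Crest.Agent.R276.SkelDefs_220
open Crest.Agent.R276.BR_590 (cat bs fb bs_cat fb_cat cat_bs_fb)
open Crest.Agent.R276.End_723 (etChart zA_etChart tn zn Growth sb)
open Crest.Agent.R276.TowA_849
open Crest.Agent.R271.Alg255 (az)

/-! ### the two notions of models of a valuation ring -/

lemma modelOf_of {K : Type} [Field K] [Algebra ℂ K] {n : ℕ} {D : DivModel n K}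
    {R : ValuationSubring K} (h : SkelDefs_220.ModelOf D R) : D.ModelOf R := by
  have hmem : ∀ a : D.A, algebraMap D.A K a ∈ R := fun a =>
    (h _).2 ⟨a, 1, fun h1 => D.prime.not_isUnit (isUnit_of_dvd_one h1), by simp⟩
  refine ⟨fun a ha => ?_, ?_⟩
  · have ha0 : algebraMap D.A K a ≠ 0 := by
      intro h0
      have : a = 0 := by
        apply IsFractionRing.injective D.A K
        rw [h0, map_zero]
      exact ha (this ▸ dvd_zero _)
    have h1 : (algebraMap D.A K a)⁻¹ ∈ R := (h _).2 ⟨1, a, ha, by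
      rw [inv_mul_cancel₀ ha0, map_one]⟩
    apply le_antisymm ((R.valuation_le_one_iff _).2 (hmem a))
    have h2 := (R.valuation_le_one_iff _).2 h1
    rw [map_inv₀] at h2
    have h3 : R.valuation (algebraMap D.A K a) ≠ 0 := by simpa using ha0
    rwa [inv_le_one₀ (zero_lt_iff.2 h3)] at h2
  · refine lt_of_le_of_ne ((R.valuation_le_one_iff _).2 (hmem D.t)) fun h1 => ?_
    have h2 : R.valuation ((algebraMap D.A K D.t)⁻¹) ≤ 1 := by rw [map_inv₀, h1, inv_one]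
    obtain ⟨u, v, hv, h3⟩ := (h _).1 ((R.valuation_le_one_iff _).1 h2)
    rw [inv_mul_eq_iff_eq_mul₀ D.tK_ne] at h3
    apply hv
    refine ⟨u, ?_⟩
    apply IsFractionRing.injective D.A K
    rw [h3, map_mul]

/-! ### renumbering -/

section reindex

variable {K : Type} [Field K] [Algebra ℂ K]

/-- the identity -/
def toM {N N' : ℕ} (e : Fin N ≃ Fin N') (M : Mdl K N) (y : (M.reindex e).Pts) : M.Pts := y

lemma lpsh_reindex {N N' : ℕ} (e : Fin N ≃ Fin N') (M : Mdl K N) {b : M.Pts → ℝ} (hb : LPsh b) :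
    LPsh (M := (M.reindex e).Pts) (fun y => b (toM e M y)) := by
  have h := hb.comp_hol (holMap_comp M (M.reindex e) (AlgHom.id ℂ M.B))
  exact h

lemma tn_reindex {N N' : ℕ} (e : Fin N ≃ Fin N') (M : Mdl K N) (s : Finset (Fin N))
    (y : (M.reindex e).Pts) :
    tn (etChart (M.reindex e)) (s.map e.toEmbedding) y = tn (etChart M) s (toM e M y) := by
  unfold tn
  rw [Finset.sum_map]
  congr 1
  refine Finset.sum_congr rfl fun i _ => ?_
  change ‖y (M.z (e.symm (e i)))‖ ^ 2 = ‖y (M.z i)‖ ^ 2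
  rw [Equiv.symm_apply_apply]

lemma zn_reindex {N N' : ℕ} (e : Fin N ≃ Fin N') (M : Mdl K N) (y : (M.reindex e).Pts) :
    zn (etChart (M.reindex e)) y = zm M (toM e M y) := by
  unfold zn zm
  congr 1
  exact Equiv.sum_comp e.symm (fun i => ‖y (M.z i)‖ ^ 2)

theorem growth_reindex {N N' : ℕ} (e : Fin N ≃ Fin N') (M : Mdl K N) {b : M.Pts → ℝ}
    (h0 : ∀ y, 0 ≤ b y) (hb : PGr M b) :
    Growth (etChart (M.reindex e)) (fun y => b (toM e M y)) := by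
  refine ⟨fun y => h0 _, ?_⟩
  rw [pgr_iff] at hb
  obtain ⟨C, j, k, hC, h⟩ := hb
  obtain ⟨c, l, hc, hl⟩ := poly_growth M M.h
  have hu : (az M.z M.h : M.B) ≠ 0 := M.h_unit.ne_zero
  refine ⟨(az M.z M.h : M.B), 1, j, k + l * j, C * c ^ j, hu, one_ne_zero, fun y _ => ?_⟩
  rw [zn_reindex e M y]
  change b (toM e M y) * ‖(toM e M y) (az M.z M.h)‖ ^ (2 * j) ≤ _
  rw [M.apply_az']
  set y' : M.Pts := toM e M y with hy'
  have h3 := one_le_zm y'
  calc b y' * ‖MvPolynomial.eval (M.pz y') M.h‖ ^ (2 * j)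
      = (b y' * ‖MvPolynomial.eval (M.pz y') M.h‖ ^ j) *
        ‖MvPolynomial.eval (M.pz y') M.h‖ ^ j := by ring
    _ ≤ (C * zm M y' ^ k) * (c * zm M y' ^ l) ^ j :=
        mul_le_mul (h y') (pow_le_pow_left₀ (norm_nonneg _) (hl y') j) (by positivity)
          (by positivity)
    _ = _ := by rw [mul_pow, ← pow_mul]; ring

theorem bdd_reindex {N N' : ℕ} (h : N = N') (M : Mdl K N) (b : M.Pts → ℝ) (s : Finset (Fin N))
    (κ : ℝ) (V : ValuationSubring K) (hb : End_723.Bdd (etChart M) b s κ V) :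
    End_723.Bdd (etChart (M.reindex (finCongr h))) (fun y => b (toM (finCongr h) M y))
      (s.map (finCongr h).toEmbedding) κ V := by
  subst h
  obtain ⟨D, hD, hF⟩ := hb
  refine ⟨D, hD, fun F hF0 => ?_⟩
  obtain ⟨X, hX, C, hC⟩ := hF F hF0
  refine ⟨X, hX, C, fun ζ hζ => ?_⟩
  have h1 := hC ζ hζ
  have h2 := tn_reindex (finCongr rfl) M s (X.s ζ)
  change b (X.s ζ) * tn (etChart (M.reindex (finCongr rfl)))
    (s.map (finCongr rfl).toEmbedding) (X.s ζ) ^ κ * _ ≤ C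
  rw [h2]
  exact h1

end reindex

/-! ### the frame bound -/

section tower

variable {T L K : Type} [Field T] [Field L] [Field K] [Algebra ℂ T] [Algebra ℂ L] [Algebra ℂ K]
  [Algebra T L] [Algebra L K] [IsScalarTower ℂ T L] [IsScalarTower ℂ L K] {ρ a r : ℕ}
  {MT : Mdl T ρ} {ML : Mdl L (ρ + a)} {MK : Mdl K (ρ + a + r)} {H₁ : Rel MT ML} {H₂ : Rel ML MK}
  {R : ValuationSubring K}

/-- the indices of the coordinates `t` -/
def sT (ρ a r : ℕ) : Finset (Fin (ρ + a + r)) :=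
  Finset.univ.map ((Fin.castAddEmb a).trans (Fin.castAddEmb r))

lemma tn_sT (y : MK.Pts) : tn (etChart MK) (sT ρ a r) y = Tn H₂ y := by
  unfold tn Tn sT
  rw [Finset.sum_map]
  congr 1
  refine Finset.sum_congr rfl fun i _ => ?_
  have h1 : tc ML (eL ρ a) (H₂.f y) i = bs (MK.pz y) (Fin.castAdd a i) := by
    rw [rel_pz H₂]
    unfold tc eL
    rw [finSumFinEquiv_apply_left]
  rw [h1]
  rfl

lemma sT_map : (sT ρ a r).map (eA ρ a r).toEmbedding = sb ρ (a + r) := by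
  unfold sT sb
  rw [Finset.map_map]
  congr 1

lemma lpsh_Tn {κ : ℝ} (hκ : 0 ≤ κ) : LPsh (fun y : MK.Pts => Tn H₂ y ^ κ) := by
  refine LPsh.rpow ?_ hκ
  refine (LPsh.const (c := 1) zero_le_one).add ?_
  exact LPsh.sum_hol Finset.univ fun i _ =>
    MK.hol51_ev (H₂.incl (ML.z (eL ρ a (Sum.inl i))))

/-- **the frame bound** -/
theorem bdd_of_logB (hTC : TCh H₁ H₂) (hdiv : IsDiv ℂ (ρ + a + r) R) {b : MK.Pts → ℝ} (hb : LPsh b)
    {κ : ℝ} (hκ : 0 ≤ κ) (F : Finset K) (FL : Finset L) (hF : ∀ f ∈ F, f ≠ 0)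
    (hFL : ∀ f ∈ FL, f ≠ 0)
    (h : ∀ Y : TChart H₁ H₂ R, Y.Dict → Y.Good F → Y.GoodL FL → LogB Y.δ (some Y.i₀) fun ζ =>
      b (Y.cK.s ζ) * Tn H₂ (Y.cK.s ζ) ^ κ * ‖Y.cK.J ζ‖ ^ 2) :
    End_723.Bdd (etChart MK) b (sT ρ a r) κ R := by
  classical
  obtain ⟨D, hD, hX⟩ := hTC R hdiv
  refine ⟨D, modelOf_of hD, fun F' hF' => ?_⟩
  obtain ⟨X, hX1, Y, hYD, hYF, hYFL, C, hXY⟩ := hX (F ∪ F') FL (fun f hf => by
    rcases Finset.mem_union.1 hf with h1 | h1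
    · exact hF f h1
    · exact hF' f h1) hFL
  refine ⟨X, fun f hf => hX1 f (Finset.mem_union_right _ hf), ?_⟩
  have h1 := h Y hYD (fun f hf => hYF f (Finset.mem_union_left _ hf)) hYFL
  have hb' : LPsh (fun y : MK.Pts => b y * Tn H₂ y ^ κ) := hb.mul (lpsh_Tn hκ)
  obtain ⟨C', hC'⟩ := Lgb_986.ac_bound Y.cK hb' (h := Y.cK.J)
    (fun ζ hζ => Lgb_986.ac_analyticAt_J Y.cK hζ) h1 (Y.δ / 2) (by linarith [Y.δ_pos])
  refine ⟨C ^ 2 * C', fun ζ hζ => ?_⟩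
  obtain ⟨η, hη, hs, hJ⟩ := hXY ζ hζ
  rw [tn_sT (H₂ := H₂), hs, zA_etChart]
  have h2 := hC' η hη
  have h3 : ‖(fderiv ℂ (X.ψ MK.z) ζ).det‖ ^ 2 ≤ (C * ‖Y.cK.J η‖) ^ 2 :=
    pow_le_pow_left₀ (norm_nonneg _) hJ 2
  have h4 : 0 ≤ b (Y.cK.s η) * Tn H₂ (Y.cK.s η) ^ κ := hb'.nonneg _
  calc b (Y.cK.s η) * Tn H₂ (Y.cK.s η) ^ κ * ‖(fderiv ℂ (X.ψ MK.z) ζ).det‖ ^ 2
      ≤ b (Y.cK.s η) * Tn H₂ (Y.cK.s η) ^ κ * (C * ‖Y.cK.J η‖) ^ 2 := by gcongr
    _ = C ^ 2 * (b (Y.cK.s η) * Tn H₂ (Y.cK.s η) ^ κ * ‖Y.cK.J η‖ ^ 2) := by ring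
    _ ≤ C ^ 2 * C' := by gcongr

end tower

end Crest.Agent.R276.EndC_723
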