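import Mathlib

/-!
# Row 276, IPC step (5): the ends.

`end0` : the ODE lemma.  On `(s0,∞)`:
`f' = e ≥ 0`, `f` bounded above, `a' = 2 f + 2 g` nondecreasing, `a ≥ 0`, `f² ≤ e a`,
`|g| ≤ y a`, `0 ≤ y ≤ C / s`, `g' ≥ 2 y² a - 2 y √(e a)`  ==>  `f → 0` at infinity.

`end1` : the cylinder form (integrals over the circle).
-/

open Filter Topology Set MeasureTheory

namespace Crest.Agent.R276.End_425

/-- The derivative inequality for `x = g / a`. -/
lemma x_deriv_bound {t C lam a e f g g' y : ℝ} (ht : 0 < t) (hlam : 0 < lam)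
    (ha : 0 < a) (he : 0 ≤ e) (hfe : f ^ 2 ≤ e * a) (hy0 : 0 ≤ y) (hyC : y ≤ C / t)
    (hgy : |g| ≤ y * a) (hg' : 2 * y ^ 2 * a - 2 * y * √(e * a) ≤ g') :
    -(lam * e + 4 * C ^ 2 / (lam * t ^ 2 * a)) ≤ (g' * a - g * (2 * f + 2 * g)) / a ^ 2 := by
  set r := √(e * a) with hr
  have hr0 : 0 ≤ r := Real.sqrt_nonneg _
  have hr2 : r ^ 2 = e * a := Real.sq_sqrt (mul_nonneg he ha.le)
  have hfr : |f| ≤ r := by
    rw [← Real.sqrt_sq_eq_abs]
    exact Real.sqrt_le_sqrt hfe
  have hgf : g * f ≤ y * a * r := by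
    calc g * f ≤ |g * f| := le_abs_self _
      _ = |g| * |f| := abs_mul _ _
      _ ≤ (y * a) * r := mul_le_mul hgy hfr (abs_nonneg _) (by positivity)
  have hgg : g * g ≤ y ^ 2 * a ^ 2 := by
    have : |g| * |g| ≤ (y * a) * (y * a) := mul_le_mul hgy hgy (abs_nonneg _) (by positivity)
    rw [abs_mul_abs_self] at this
    nlinarith
  have hnum : -(4 * y * r * a) ≤ g' * a - g * (2 * f + 2 * g) := by
    have h1 : (2 * y ^ 2 * a - 2 * y * r) * a ≤ g' * a := mul_le_mul_of_nonneg_right hg' ha.le
    nlinarith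
  have hyr : 4 * y * r ≤ 4 * (C / t) * r := by
    have := mul_le_mul_of_nonneg_right hyC hr0
    nlinarith
  have hyoung : 4 * (C / t) * r ≤ lam * r ^ 2 + 4 * C ^ 2 / (lam * t ^ 2) := by
    have h1 : 0 ≤ (lam * r - 2 * (C / t)) ^ 2 / lam := by positivity
    have h2 : (lam * r - 2 * (C / t)) ^ 2 / lam
        = lam * r ^ 2 + 4 * C ^ 2 / (lam * t ^ 2) - 4 * (C / t) * r := by
      field_simp
      ring
    linarith
  rw [le_div_iff₀ (by positivity)]
  have h3 : -(lam * e + 4 * C ^ 2 / (lam * t ^ 2 * a)) * a ^ 2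
      = -(lam * r ^ 2 + 4 * C ^ 2 / (lam * t ^ 2)) * a := by
    rw [hr2]
    field_simp
  rw [h3]
  have h4 : -(lam * r ^ 2 + 4 * C ^ 2 / (lam * t ^ 2)) * a ≤ -(4 * y * r) * a := by
    apply mul_le_mul_of_nonneg_right _ ha.le
    linarith
  linarith

theorem end0 {s0 C M : ℝ} (hs0 : 0 < s0) {a e f g g' y : ℝ → ℝ}
    (hf : ∀ s, s0 < s → HasDerivAt f (e s) s)
    (ha : ∀ s, s0 < s → HasDerivAt a (2 * f s + 2 * g s) s)
    (hg : ∀ s, s0 < s → HasDerivAt g (g' s) s)
    (he : ∀ s, s0 < s → 0 ≤ e s)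
    (hM : ∀ s, s0 < s → f s ≤ M)
    (ha0 : ∀ s, s0 < s → 0 ≤ a s)
    (hmono : MonotoneOn (fun s => 2 * f s + 2 * g s) (Ioi s0))
    (hfe : ∀ s, s0 < s → f s ^ 2 ≤ e s * a s)
    (hy0 : ∀ s, s0 < s → 0 ≤ y s) (hyC : ∀ s, s0 < s → y s ≤ C / s)
    (hgy : ∀ s, s0 < s → |g s| ≤ y s * a s)
    (hg' : ∀ s, s0 < s → 2 * y s ^ 2 * a s - 2 * y s * √(e s * a s) ≤ g' s) :
    Tendsto f atTop (𝓝 0) := by
  -- `f` is monotone on `(s0, ∞)`
  have hfmono : MonotoneOn f (Ioi s0) := by
    apply monotoneOn_of_deriv_nonneg (convex_Ioi s0)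
    · intro s hs
      exact (hf s hs).continuousAt.continuousWithinAt
    · intro s hs
      rw [interior_Ioi] at hs
      exact (hf s hs).differentiableAt.differentiableWithinAt
    · intro s hs
      rw [interior_Ioi] at hs
      rw [(hf s hs).deriv]
      exact he s hs
  -- linear growth of `a`
  have hgrow : ∃ K s3 : ℝ, 0 < K ∧ s0 < s3 ∧ ∀ s, s3 ≤ s → a s ≤ K * s := by
    by_cases hneg : ∀ s, s0 < s → 2 * f s + 2 * g s ≤ 0
    · -- `a` nonincreasing
      have hanti : AntitoneOn a (Ioi s0) := by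
        apply antitoneOn_of_deriv_nonpos (convex_Ioi s0)
        · intro s hs
          exact (ha s hs).continuousAt.continuousWithinAt
        · intro s hs
          rw [interior_Ioi] at hs
          exact (ha s hs).differentiableAt.differentiableWithinAt
        · intro s hs
          rw [interior_Ioi] at hs
          rw [(ha s hs).deriv]
          exact hneg s hs
      have h1 : s0 < s0 + 1 := by linarith
      refine ⟨(a (s0 + 1) + 1) / (s0 + 1), s0 + 1, ?_, h1, ?_⟩
      · have := ha0 _ h1
        positivity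
      · intro s hs
        have h2 := hanti (mem_Ioi.2 h1) (mem_Ioi.2 (lt_of_lt_of_le h1 hs)) hs
        have h3 := ha0 _ h1
        have h4 : a (s0 + 1) + 1 ≤ (a (s0 + 1) + 1) / (s0 + 1) * s := by
          rw [div_mul_eq_mul_div, le_div_iff₀ (by linarith)]
          exact mul_le_mul_of_nonneg_left hs (by linarith)
        linarith
    · push Not at hneg
      obtain ⟨s1, hs1, hpos⟩ := hneg
      set δ := 2 * f s1 + 2 * g s1 with hδ
      -- `a' ≥ δ` on `[s1, ∞)`
      have ha' : ∀ s, s1 ≤ s → δ ≤ 2 * f s + 2 * g s := fun s hs =>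
        hmono (mem_Ioi.2 hs1) (mem_Ioi.2 (lt_of_lt_of_le hs1 hs)) hs
      have hamono : StrictMonoOn a (Ici s1) := by
        apply strictMonoOn_of_deriv_pos (convex_Ici s1)
        · intro s hs
          exact (ha s (lt_of_lt_of_le hs1 hs)).continuousAt.continuousWithinAt
        · intro s hs
          rw [interior_Ici] at hs
          rw [(ha s (lt_trans hs1 hs)).deriv]
          exact lt_of_lt_of_le hpos (ha' s (le_of_lt hs))
      set s2 := s1 + 1 with hs2
      have hs12 : s1 < s2 := by linarith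
      have hs02 : s0 < s2 := by linarith
      have hapos : ∀ s, s2 ≤ s → 0 < a s := by
        intro s hs
        have h1 := hamono (mem_Ici.2 le_rfl) (mem_Ici.2 (by linarith : s1 ≤ s)) (by linarith)
        have h2 := ha0 s1 hs1
        linarith
      have hamono' : ∀ s t, s2 ≤ s → s ≤ t → a s ≤ a t := by
        intro s t hs hst
        exact hamono.monotoneOn (mem_Ici.2 (by linarith)) (mem_Ici.2 (by linarith)) hst
      -- the bound for x
      have hx : ∀ s, s2 ≤ s → ∀ lam, 0 < lam →
          g s / a s ≤ lam * (M - f s) + 4 * C ^ 2 / (lam * a s) / s := by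
        intro s hs lam hlam
        have has := hapos s hs
        have hspos : 0 < s := by linarith
        -- h(t) monotone on [s,∞)
        have hh : MonotoneOn (fun t => g t / a t + lam * f t - 4 * C ^ 2 / (lam * a s) / t)
            (Ici s) := by
          have hd : ∀ t, s ≤ t → HasDerivAt
              (fun t => g t / a t + lam * f t - 4 * C ^ 2 / (lam * a s) / t)
              ((g' t * a t - g t * (2 * f t + 2 * g t)) / a t ^ 2 + lam * e t
                + 4 * C ^ 2 / (lam * a s) / t ^ 2) t := by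
            intro t ht
            have ht0 : s0 < t := by linarith
            have htpos : 0 < t := by linarith
            have h1 := (hg t ht0).fun_div (ha t ht0) (hapos t (le_trans hs ht)).ne'
            have h2 := (hf t ht0).const_mul lam
            have h3 : HasDerivAt (fun t : ℝ => 4 * C ^ 2 / (lam * a s) / t)
                (-(4 * C ^ 2 / (lam * a s) / t ^ 2)) t := by
              have h3' := (hasDerivAt_inv htpos.ne').const_mul (4 * C ^ 2 / (lam * a s))
              have h3'' : HasDerivAt (fun t : ℝ => 4 * C ^ 2 / (lam * a s) / t)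
                (4 * C ^ 2 / (lam * a s) * (-(t ^ 2)⁻¹)) t := h3'
              refine h3''.congr_deriv ?_
              rw [div_eq_mul_inv _ (t ^ 2)]
              exact mul_neg _ _
            have h4 := (h1.fun_add h2).fun_sub h3
            refine h4.congr_deriv ?_
            rw [sub_neg_eq_add]
          apply monotoneOn_of_deriv_nonneg (convex_Ici s)
          · intro t ht
            exact (hd t ht).continuousAt.continuousWithinAt
          · intro t ht
            rw [interior_Ici] at ht
            exact (hd t (le_of_lt ht)).differentiableAt.differentiableWithinAt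
          · intro t ht
            rw [interior_Ici] at ht
            have ht' : s ≤ t := le_of_lt ht
            rw [(hd t ht').deriv]
            have ht0 : s0 < t := by linarith
            have htpos : 0 < t := by linarith
            have hat := hapos t (le_trans hs ht')
            have hb := x_deriv_bound htpos hlam hat (he t ht0) (hfe t ht0) (hy0 t ht0)
              (hyC t ht0) (hgy t ht0) (hg' t ht0)
            have hcomp : 4 * C ^ 2 / (lam * t ^ 2 * a t) ≤ 4 * C ^ 2 / (lam * a s) / t ^ 2 := by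
              rw [div_div]
              apply div_le_div_of_nonneg_left (by positivity) (by positivity)
              have := hamono' s t hs ht'
              have h5 : lam * a s * t ^ 2 ≤ lam * a t * t ^ 2 := by gcongr
              linarith
            linarith
        -- let t → ∞
        have hlim : Tendsto (fun t => lam * M + C / t - (g s / a s + lam * f s
            - 4 * C ^ 2 / (lam * a s) / s)) atTop (𝓝 (lam * M + 0 - (g s / a s + lam * f s
            - 4 * C ^ 2 / (lam * a s) / s))) := by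
          apply Tendsto.sub_const
          apply Tendsto.const_add
          exact tendsto_const_nhds.div_atTop tendsto_id
        have hge : 0 ≤ lam * M + 0 - (g s / a s + lam * f s
            - 4 * C ^ 2 / (lam * a s) / s) := by
          apply ge_of_tendsto hlim
          filter_upwards [eventually_ge_atTop s] with t ht
          have ht0 : s0 < t := by linarith
          have htpos : 0 < t := by linarith
          have hat := hapos t (le_trans hs ht)
          have h1 := hh (mem_Ici.2 le_rfl) (mem_Ici.2 ht) ht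
          simp only at h1
          have h2 : g t / a t ≤ C / t := by
            rw [div_le_iff₀ hat]
            calc g t ≤ |g t| := le_abs_self _
              _ ≤ y t * a t := hgy t ht0
              _ ≤ C / t * a t := mul_le_mul_of_nonneg_right (hyC t ht0) hat.le
          have h3 : lam * f t ≤ lam * M := mul_le_mul_of_nonneg_left (hM t ht0) hlam.le
          have h4 : 0 ≤ 4 * C ^ 2 / (lam * a s) / t := by positivity
          linarith
        linarith
      -- bound for g
      set K1 := (M - f s2) + 4 * C ^ 2 with hK1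
      have hK1nn : 0 ≤ K1 := by
        have := hM s2 hs02
        positivity
      have hgb : ∀ s, s2 ≤ s → g s ≤ K1 * √(a s / s) := by
        intro s hs
        have has := hapos s hs
        have hspos : 0 < s := by linarith
        have hs0' : s0 < s := by linarith
        have hq : 0 < √(a s / s) := Real.sqrt_pos.2 (by positivity)
        have hq2 : √(a s / s) ^ 2 = a s / s := Real.sq_sqrt (by positivity)
        have hlam : 0 < √(a s / s) / a s := by positivity
        have h1 := hx s hs _ hlam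
        rw [div_le_iff₀ has] at h1
        have h2 : f s2 ≤ f s := hfmono (mem_Ioi.2 hs02) (mem_Ioi.2 hs0') hs
        have h3 : (√(a s / s) / a s * (M - f s) + 4 * C ^ 2 / (√(a s / s) / a s * a s) / s) * a s
            = (M - f s) * √(a s / s) + 4 * C ^ 2 * √(a s / s) := by
          have h5 : 4 * C ^ 2 / (√(a s / s) / a s * a s) / s * a s = 4 * C ^ 2 * √(a s / s) := by
            rw [div_mul_cancel₀ _ has.ne']
            rw [div_div, div_mul_eq_mul_div, div_eq_iff (by positivity)]
            have : √(a s / s) * (√(a s / s) * s) = a s := by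
              rw [← mul_assoc, ← sq, hq2]; field_simp
            linear_combination (-(4 * C ^ 2)) * this
          rw [add_mul, h5]
          congr 1
          field_simp
        rw [h3] at h1
        have h6 : (M - f s) * √(a s / s) ≤ (M - f s2) * √(a s / s) :=
          mul_le_mul_of_nonneg_right (by linarith) hq.le
        rw [hK1]
        linarith
      -- barrier
      obtain ⟨K, hKpos, hKbig, hKs⟩ : ∃ K : ℝ, 0 < K ∧ 2 * M + 2 * K1 * √K < K ∧
          a s2 ≤ K * s2 := by
        have hs2pos : 0 < s2 := by linarith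
        have ht1 : Tendsto (fun R : ℝ => R * (R - 2 * K1)) atTop atTop := by
          apply tendsto_id.atTop_mul_atTop₀
          exact tendsto_atTop_add_const_right _ _ tendsto_id
        have ht2 : ∀ᶠ R : ℝ in atTop, 2 * M < R * (R - 2 * K1) := ht1.eventually_gt_atTop _
        have ht3 : ∀ᶠ R : ℝ in atTop, a s2 / s2 < R := eventually_gt_atTop _
        have ht4 : ∀ᶠ R : ℝ in atTop, 1 < R := eventually_gt_atTop _
        obtain ⟨R, h2, h3, h4⟩ := (ht2.and (ht3.and ht4)).exists
        refine ⟨R ^ 2, by positivity, ?_, ?_⟩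
        · rw [Real.sqrt_sq (by linarith)]
          nlinarith
        · have h5 : a s2 / s2 ≤ R ^ 2 := by nlinarith
          rwa [div_le_iff₀ hs2pos] at h5
      refine ⟨K, s2, hKpos, hs02, ?_⟩
      intro s hs
      have hbar := image_le_of_deriv_right_lt_deriv_boundary (f := a)
        (f' := fun t => 2 * f t + 2 * g t) (a := s2) (b := s) (B := fun t => K * t)
        (B' := fun _ => K)
        (fun t ht => (ha t (lt_of_lt_of_le hs02 ht.1)).continuousAt.continuousWithinAt)
        (fun t ht => (ha t (lt_of_lt_of_le hs02 ht.1)).hasDerivWithinAt)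
        hKs (fun t => by simpa using (hasDerivAt_id t).const_mul K)
        (by
          intro t ht hat
          have ht0 : s0 < t := lt_of_lt_of_le hs02 ht.1
          have htpos : 0 < t := by linarith
          have h1 := hgb t ht.1
          have h2 : a t / t = K := by
            rw [hat]; field_simp
          rw [h2] at h1
          have h3 := hM t ht0
          linarith)
      exact hbar (right_mem_Icc.2 hs)
  -- conclusion: `f` converges to `0`
  obtain ⟨K, s3, hK, hs3, hgrow⟩ := hgrow
  have hs3pos : 0 < s3 := by linarith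
  -- it suffices: for every ε > 0, eventually |f| < ε
  have hpos_case : ∀ ε, 0 < ε → ∀ S, s3 ≤ S → ∃ s, S ≤ s ∧ |f s| < ε := by
    intro ε hε S hS
    by_contra hcon
    push Not at hcon
    have hSpos : 0 < S := by linarith
    -- f' ≥ ε²/(K s)
    have hmon : MonotoneOn (fun s => f s - ε ^ 2 / K * Real.log s) (Ici S) := by
      have hd : ∀ s, S ≤ s → HasDerivAt (fun s => f s - ε ^ 2 / K * Real.log s)
          (e s - ε ^ 2 / K * s⁻¹) s := by
        intro s hs
        have : s ≠ 0 := by linarith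
        exact (hf s (by linarith)).sub ((Real.hasDerivAt_log this).const_mul _)
      apply monotoneOn_of_deriv_nonneg (convex_Ici S)
      · intro t ht
        exact (hd t ht).continuousAt.continuousWithinAt
      · intro t ht
        rw [interior_Ici] at ht
        exact (hd t (le_of_lt ht)).differentiableAt.differentiableWithinAt
      · intro t ht
        rw [interior_Ici] at ht
        have ht' : S ≤ t := le_of_lt ht
        rw [(hd t ht').deriv]
        have ht0 : s0 < t := by linarith
        have htpos : 0 < t := by linarith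
        have h1 := hcon t ht'
        have h2 := hfe t ht0
        have h3 := hgrow t (by linarith)
        have h4 : ε ^ 2 ≤ f t ^ 2 := by
          rw [← sq_abs (f t)]
          exact pow_le_pow_left₀ hε.le h1 2
        have h5 : ε ^ 2 ≤ e t * (K * t) := by
          calc ε ^ 2 ≤ f t ^ 2 := h4
            _ ≤ e t * a t := h2
            _ ≤ e t * (K * t) := mul_le_mul_of_nonneg_left h3 (he t ht0)
        have h6 : ε ^ 2 / K * t⁻¹ ≤ e t := by
          rw [← div_eq_mul_inv, div_div, div_le_iff₀ (by positivity)]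
          exact h5
        linarith
    have hlog : Tendsto (fun s => f S - ε ^ 2 / K * Real.log S + ε ^ 2 / K * Real.log s)
        atTop atTop := by
      apply tendsto_atTop_add_const_left
      exact Real.tendsto_log_atTop.const_mul_atTop (by positivity)
    obtain ⟨s, hs1, hs2⟩ := ((hlog.eventually_gt_atTop M).and (eventually_ge_atTop S)).exists
    have h1 := hmon (mem_Ici.2 le_rfl) (mem_Ici.2 hs2) hs2
    simp only at h1
    have h2 := hM s (by linarith)
    linarith
  -- combine with monotonicity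
  rw [Metric.tendsto_atTop]
  intro ε hε
  obtain ⟨s4, hs4, hf4⟩ := hpos_case ε hε s3 le_rfl
  refine ⟨s4, ?_⟩
  intro s hs
  obtain ⟨s5, hs5, hf5⟩ := hpos_case ε hε s (by linarith)
  rw [Real.dist_eq, sub_zero]
  have h1 : f s4 ≤ f s := hfmono (mem_Ioi.2 (by linarith)) (mem_Ioi.2 (by linarith)) hs
  have h2 : f s ≤ f s5 := hfmono (mem_Ioi.2 (by linarith)) (mem_Ioi.2 (by linarith)) hs5
  rw [abs_lt] at hf4 hf5 ⊢
  constructor <;> linarith

/-! ### circle integrals -/

/-- differentiation under the circle integral. -/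
lemma hasDerivAt_circ {s0 b : ℝ} {F F' : ℝ → ℝ → ℝ}
    (hF : ∀ s θ, s0 < s → HasDerivAt (fun s => F s θ) (F' s θ) s)
    (hcF : ContinuousOn (Function.uncurry F) (Ioi s0 ×ˢ univ))
    (hcF' : ContinuousOn (Function.uncurry F') (Ioi s0 ×ˢ univ)) {s : ℝ} (hs : s0 < s) :
    HasDerivAt (fun s => ∫ θ in (0 : ℝ)..b, F s θ) (∫ θ in (0 : ℝ)..b, F' s θ) s := by
  have hcont : ∀ {H : ℝ → ℝ → ℝ}, ContinuousOn (Function.uncurry H) (Ioi s0 ×ˢ univ) →
      ∀ t, s0 < t → Continuous (H t) := by
    intro H hH t ht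
    have h1 : Continuous (fun θ : ℝ => (t, θ)) := by fun_prop
    rw [← continuousOn_univ]
    exact hH.comp h1.continuousOn (fun θ _ => ⟨ht, mem_univ _⟩)
  set δ := (s - s0) / 2 with hδ
  have hδpos : 0 < δ := by rw [hδ]; linarith
  have hK : IsCompact (Icc (s - δ) (s + δ) ×ˢ uIcc (0 : ℝ) b) :=
    isCompact_Icc.prod isCompact_uIcc
  have hsub : Icc (s - δ) (s + δ) ×ˢ uIcc (0 : ℝ) b ⊆ Ioi s0 ×ˢ (univ : Set ℝ) := by
    rintro ⟨t, θ⟩ ⟨ht, _⟩
    refine ⟨?_, mem_univ _⟩
    simp only [mem_Ioi, mem_Icc] at ht ⊢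
    linarith [ht.1]
  obtain ⟨B, hB⟩ := hK.exists_bound_of_continuousOn (hcF'.mono hsub)
  have hnhds : Icc (s - δ) (s + δ) ∈ 𝓝 s := Icc_mem_nhds (by linarith) (by linarith)
  refine (intervalIntegral.hasDerivAt_integral_of_dominated_loc_of_deriv_le (bound := fun _ => B)
    hnhds ?_ ?_ ?_ ?_ ?_ ?_).2
  · filter_upwards [Ioi_mem_nhds hs] with t ht
    exact (hcont hcF t ht).aestronglyMeasurable
  · exact (hcont hcF s hs).intervalIntegrable _ _
  · exact (hcont hcF' s hs).aestronglyMeasurable
  · refine Eventually.of_forall (fun θ hθ t ht => ?_)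
    exact hB (t, θ) ⟨ht, uIoc_subset_uIcc hθ⟩
  · exact intervalIntegrable_const
  · refine Eventually.of_forall (fun θ _ t ht => hF t θ ?_)
    simp only [mem_Icc] at ht
    linarith [ht.1]

/-- Cauchy-Schwarz for a pointwise inequality `w² ≤ u v`. -/
lemma circ_cs {b : ℝ} (hb : 0 ≤ b) {u v w : ℝ → ℝ} (hu : Continuous u) (hv : Continuous v)
    (hw : Continuous w) (hu0 : ∀ θ, 0 ≤ u θ) (hv0 : ∀ θ, 0 ≤ v θ)
    (huv : ∀ θ, w θ ^ 2 ≤ u θ * v θ) :
    (∫ θ in (0 : ℝ)..b, w θ) ^ 2 ≤ (∫ θ in (0 : ℝ)..b, u θ) * (∫ θ in (0 : ℝ)..b, v θ) := by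
  have key : ∀ t : ℝ, 0 ≤ (∫ θ in (0 : ℝ)..b, u θ) * (t * t)
      + (-2 * (∫ θ in (0 : ℝ)..b, w θ)) * t + (∫ θ in (0 : ℝ)..b, v θ) := by
    intro t
    have h1 : (∫ θ in (0 : ℝ)..b, u θ) * (t * t)
      + (-2 * (∫ θ in (0 : ℝ)..b, w θ)) * t + (∫ θ in (0 : ℝ)..b, v θ)
      = ∫ θ in (0 : ℝ)..b, (u θ * (t * t) + (-2 * w θ) * t + v θ) := by
      rw [intervalIntegral.integral_add, intervalIntegral.integral_add,
        intervalIntegral.integral_mul_const, intervalIntegral.integral_mul_const,
        intervalIntegral.integral_const_mul]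
      all_goals exact Continuous.intervalIntegrable (by fun_prop) _ _
    rw [h1]
    apply intervalIntegral.integral_nonneg hb
    intro θ _
    rcases eq_or_lt_of_le (hu0 θ) with h | h
    · have h2 : w θ = 0 := by
        have := huv θ
        rw [← h, zero_mul] at this
        nlinarith [sq_nonneg (w θ)]
      rw [← h, h2]
      simpa using hv0 θ
    · have h3 : u θ * (u θ * (t * t) + (-2 * w θ) * t + v θ)
          = (u θ * t - w θ) ^ 2 + (u θ * v θ - w θ ^ 2) := by ring
      have h4 : 0 ≤ u θ * (u θ * (t * t) + (-2 * w θ) * t + v θ) := by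
        rw [h3]
        have := huv θ
        have := sq_nonneg (u θ * t - w θ)
        linarith
      exact nonneg_of_mul_nonneg_right h4 h
  have h5 := discrim_le_zero key
  rw [discrim] at h5
  nlinarith

/-- The scalar data of a section `φ` of a harmonic bundle on a cylinder end:
`A = |φ|²`, `Fs, Ft = Re ⟨D φ, φ⟩`, `Gs, Gt = - ⟨Θ φ, φ⟩`, `E = |D φ|²`, `Y = |Θ φ|²`,
`X = Re ⟨D φ, Θ φ⟩`.  Arguments are `(s, θ)`. -/
structure EndData (s0 C : ℝ) (A Fs Ft Gs Gt E X Y Fs1 Gs1 : ℝ → ℝ → ℝ) : Prop where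
  cA : ContinuousOn (Function.uncurry A) (Ioi s0 ×ˢ univ)
  cFs : ContinuousOn (Function.uncurry Fs) (Ioi s0 ×ˢ univ)
  cGs : ContinuousOn (Function.uncurry Gs) (Ioi s0 ×ˢ univ)
  cFs1 : ContinuousOn (Function.uncurry Fs1) (Ioi s0 ×ˢ univ)
  cGs1 : ContinuousOn (Function.uncurry Gs1) (Ioi s0 ×ˢ univ)
  cE : ContinuousOn (Function.uncurry E) (Ioi s0 ×ˢ univ)
  cX : ContinuousOn (Function.uncurry X) (Ioi s0 ×ˢ univ)
  cY : ContinuousOn (Function.uncurry Y) (Ioi s0 ×ˢ univ)
  dA : ∀ s θ, s0 < s → HasDerivAt (fun s => A s θ) (2 * Fs s θ + 2 * Gs s θ) s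
  dFs : ∀ s θ, s0 < s → HasDerivAt (fun s => Fs s θ) (Fs1 s θ) s
  dFt : ∀ s θ, s0 < s → HasDerivAt (fun θ => Ft s θ) (E s θ - Fs1 s θ) θ
  dGs : ∀ s θ, s0 < s → HasDerivAt (fun s => Gs s θ) (Gs1 s θ) s
  dGt : ∀ s θ, s0 < s → HasDerivAt (fun θ => Gt s θ) (2 * Y s θ - 2 * X s θ - Gs1 s θ) θ
  pFt : ∀ s, s0 < s → Ft s (2 * Real.pi) = Ft s 0
  pGt : ∀ s, s0 < s → Gt s (2 * Real.pi) = Gt s 0
  A0 : ∀ s θ, s0 < s → 0 ≤ A s θ
  E0 : ∀ s θ, s0 < s → 0 ≤ E s θ
  Y0 : ∀ s θ, s0 < s → 0 ≤ Y s θ
  nab0 : ∀ s θ, s0 < s → 0 ≤ E s θ + Y s θ - 2 * X s θ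
  bF : ∀ s θ, s0 < s → Fs s θ ^ 2 ≤ E s θ * A s θ
  bG : ∀ s θ, s0 < s → Gs s θ ^ 2 ≤ Y s θ * A s θ
  bX : ∀ s θ, s0 < s → X s θ ^ 2 ≤ E s θ * Y s θ
  bY : ∀ s θ, s0 < s → Y s θ ≤ (C / s) ^ 2 * A s θ

/-- the flux through the circle -/
noncomputable def circ (F : ℝ → ℝ → ℝ) (s : ℝ) : ℝ := ∫ θ in (0 : ℝ)..(2 * Real.pi), F s θ

section
variable {s0 C : ℝ} {A Fs Ft Gs Gt E X Y Fs1 Gs1 : ℝ → ℝ → ℝ}

lemma cont_slice {H : ℝ → ℝ → ℝ} (hH : ContinuousOn (Function.uncurry H) (Ioi s0 ×ˢ univ))
    {t : ℝ} (ht : s0 < t) : Continuous (H t) := by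
  have h1 : Continuous (fun θ : ℝ => (t, θ)) := by fun_prop
  rw [← continuousOn_univ]
  exact hH.comp h1.continuousOn (fun θ _ => ⟨ht, mem_univ _⟩)

lemma EndData.dcircF (h : EndData s0 C A Fs Ft Gs Gt E X Y Fs1 Gs1) {s : ℝ} (hs : s0 < s) :
    HasDerivAt (circ Fs) (circ E s) s := by
  have h1 := hasDerivAt_circ (b := 2 * Real.pi) h.dFs h.cFs h.cFs1 hs
  refine h1.congr_deriv ?_
  have h2 : ∫ θ in (0 : ℝ)..(2 * Real.pi), (E s θ - Fs1 s θ) = 0 := by
    rw [intervalIntegral.integral_eq_sub_of_hasDerivAt (fun θ _ => h.dFt s θ hs)]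
    · rw [h.pFt s hs, sub_self]
    · exact ((cont_slice h.cE hs).sub (cont_slice h.cFs1 hs)).intervalIntegrable _ _
  rw [intervalIntegral.integral_sub ((cont_slice h.cE hs).intervalIntegrable _ _)
    ((cont_slice h.cFs1 hs).intervalIntegrable _ _)] at h2
  unfold circ
  linarith

lemma EndData.dcircG (h : EndData s0 C A Fs Ft Gs Gt E X Y Fs1 Gs1) {s : ℝ} (hs : s0 < s) :
    HasDerivAt (circ Gs) (2 * circ Y s - 2 * circ X s) s := by
  have h1 := hasDerivAt_circ (b := 2 * Real.pi) h.dGs h.cGs h.cGs1 hs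
  refine h1.congr_deriv ?_
  have cY := cont_slice h.cY hs
  have cX := cont_slice h.cX hs
  have cG := cont_slice h.cGs1 hs
  have h2 : ∫ θ in (0 : ℝ)..(2 * Real.pi), (2 * Y s θ - 2 * X s θ - Gs1 s θ) = 0 := by
    rw [intervalIntegral.integral_eq_sub_of_hasDerivAt (fun θ _ => h.dGt s θ hs)]
    · rw [h.pGt s hs, sub_self]
    · exact Continuous.intervalIntegrable (by fun_prop) _ _
  rw [intervalIntegral.integral_sub, intervalIntegral.integral_sub,
    intervalIntegral.integral_const_mul, intervalIntegral.integral_const_mul] at h2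
  · unfold circ
    linarith
  all_goals exact Continuous.intervalIntegrable (by fun_prop) _ _

lemma EndData.dcircA (h : EndData s0 C A Fs Ft Gs Gt E X Y Fs1 Gs1) {s : ℝ} (hs : s0 < s) :
    HasDerivAt (circ A) (2 * circ Fs s + 2 * circ Gs s) s := by
  have hc : ContinuousOn (Function.uncurry (fun s θ => 2 * Fs s θ + 2 * Gs s θ))
      (Ioi s0 ×ˢ univ) := by
    have h1 := h.cFs.const_smul (2 : ℝ)
    have h2 := h.cGs.const_smul (2 : ℝ)
    exact h1.add h2
  have h1 := hasDerivAt_circ (b := 2 * Real.pi) h.dA h.cA hc hs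
  refine h1.congr_deriv ?_
  have c1 := cont_slice h.cFs hs
  have c2 := cont_slice h.cGs hs
  rw [intervalIntegral.integral_add, intervalIntegral.integral_const_mul,
    intervalIntegral.integral_const_mul]
  · rfl
  all_goals exact Continuous.intervalIntegrable (by fun_prop) _ _

/-- **No flux at infinity.** -/
theorem EndData.flux_tendsto_zero (h : EndData s0 C A Fs Ft Gs Gt E X Y Fs1 Gs1)
    (hs0 : 0 < s0) (hC : 0 ≤ C) {M : ℝ} (hM : ∀ s, s0 < s → circ Fs s ≤ M) :
    Tendsto (circ Fs) atTop (𝓝 0) := by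
  have hpi : (0 : ℝ) ≤ 2 * Real.pi := by positivity
  have nn : ∀ {H : ℝ → ℝ → ℝ}, (∀ s θ, s0 < s → 0 ≤ H s θ) → ∀ s, s0 < s → 0 ≤ circ H s :=
    fun {H} hH s hs => intervalIntegral.integral_nonneg hpi (fun θ _ => hH s θ hs)
  have hAnn := nn h.A0
  have hEnn := nn h.E0
  have hYnn := nn h.Y0
  have hYA : ∀ s, s0 < s → circ Y s ≤ (C / s) ^ 2 * circ A s := by
    intro s hs
    have cY := cont_slice h.cY hs
    have cA := cont_slice h.cA hs
    unfold circ
    rw [← intervalIntegral.integral_const_mul]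
    apply intervalIntegral.integral_mono_on hpi
    · exact cY.intervalIntegrable _ _
    · exact Continuous.intervalIntegrable (by fun_prop) _ _
    · intro θ _
      exact h.bY s θ hs
  have hFE : ∀ s, s0 < s → circ Fs s ^ 2 ≤ circ E s * circ A s := fun s hs =>
    circ_cs hpi (cont_slice h.cE hs) (cont_slice h.cA hs) (cont_slice h.cFs hs)
      (fun θ => h.E0 s θ hs) (fun θ => h.A0 s θ hs) (fun θ => h.bF s θ hs)
  have hGY : ∀ s, s0 < s → circ Gs s ^ 2 ≤ circ Y s * circ A s := fun s hs =>
    circ_cs hpi (cont_slice h.cY hs) (cont_slice h.cA hs) (cont_slice h.cGs hs)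
      (fun θ => h.Y0 s θ hs) (fun θ => h.A0 s θ hs) (fun θ => h.bG s θ hs)
  have hXE : ∀ s, s0 < s → circ X s ^ 2 ≤ circ E s * circ Y s := fun s hs =>
    circ_cs hpi (cont_slice h.cE hs) (cont_slice h.cY hs) (cont_slice h.cX hs)
      (fun θ => h.E0 s θ hs) (fun θ => h.Y0 s θ hs) (fun θ => h.bX s θ hs)
  have hderivmono : MonotoneOn (fun s => 2 * circ Fs s + 2 * circ Gs s) (Ioi s0) := by
    have hd : ∀ s, s0 < s → HasDerivAt (fun s => 2 * circ Fs s + 2 * circ Gs s)
        (2 * circ E s + 2 * (2 * circ Y s - 2 * circ X s)) s := fun s hs =>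
      ((h.dcircF hs).const_mul 2).fun_add ((h.dcircG hs).const_mul 2)
    apply monotoneOn_of_deriv_nonneg (convex_Ioi s0)
    · intro s hs
      exact (hd s hs).continuousAt.continuousWithinAt
    · intro s hs
      rw [interior_Ioi] at hs
      exact (hd s hs).differentiableAt.differentiableWithinAt
    · intro s hs
      rw [interior_Ioi] at hs
      rw [(hd s hs).deriv]
      have cE := cont_slice h.cE hs
      have cY := cont_slice h.cY hs
      have cX := cont_slice h.cX hs
      have h1 : 0 ≤ ∫ θ in (0 : ℝ)..(2 * Real.pi), (E s θ + Y s θ - 2 * X s θ) :=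
        intervalIntegral.integral_nonneg hpi (fun θ _ => h.nab0 s θ hs)
      rw [intervalIntegral.integral_sub, intervalIntegral.integral_add,
        intervalIntegral.integral_const_mul] at h1
      · have h2 := hYnn s hs
        unfold circ at h2 ⊢
        linarith
      all_goals exact Continuous.intervalIntegrable (by fun_prop) _ _
  refine end0 (s0 := s0) (C := C) (M := M) hs0 (a := circ A) (e := circ E) (f := circ Fs)
    (g := circ Gs) (g' := fun s => 2 * circ Y s - 2 * circ X s)
    (y := fun s => √(circ Y s / circ A s)) (fun s hs => h.dcircF hs) (fun s hs => h.dcircA hs)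
    (fun s hs => h.dcircG hs) hEnn hM hAnn hderivmono hFE (fun s _ => Real.sqrt_nonneg _)
    ?_ ?_ ?_
  · intro s hs
    have hspos : 0 < s := by linarith
    apply Real.sqrt_le_iff.2 ⟨by positivity, ?_⟩
    rcases eq_or_lt_of_le (hAnn s hs) with h0 | h0
    · rw [← h0, div_zero]; positivity
    · rw [div_le_iff₀ h0]
      exact hYA s hs
  · intro s hs
    rcases eq_or_lt_of_le (hAnn s hs) with h0 | h0
    · rw [← h0, mul_zero]
      have := hGY s hs
      rw [← h0, mul_zero] at this
      have h1 : circ Gs s = 0 := by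
        have := le_antisymm this (sq_nonneg _)
        exact pow_eq_zero_iff (two_ne_zero) |>.1 this
      rw [h1, abs_zero]
    · have h1 : √(circ Y s / circ A s) * circ A s = √(circ Y s * circ A s) := by
        rw [← Real.sqrt_sq h0.le, ← Real.sqrt_mul (by have := hYnn s hs; positivity),
          Real.sqrt_sq h0.le]
        congr 1
        field_simp
      rw [h1, ← Real.sqrt_sq_eq_abs]
      exact Real.sqrt_le_sqrt (hGY s hs)
  · intro s hs
    have hEs := hEnn s hs
    have hYs := hYnn s hs
    rcases eq_or_lt_of_le (hAnn s hs) with h0 | h0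
    · have h1 : circ Y s = 0 := by
        have := hYA s hs
        rw [← h0, mul_zero] at this
        linarith
      have h2 : circ X s = 0 := by
        have := hXE s hs
        rw [h1, mul_zero] at this
        exact pow_eq_zero_iff (two_ne_zero) |>.1 (le_antisymm this (sq_nonneg _))
      simp only [h1, h2, ← h0, zero_div, Real.sqrt_zero]
      simp
    · have h1 : √(circ Y s / circ A s) ^ 2 * circ A s = circ Y s := by
        rw [Real.sq_sqrt (by positivity)]
        field_simp
      have h2 : √(circ Y s / circ A s) * √(circ E s * circ A s) = √(circ E s * circ Y s) := by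
        rw [← Real.sqrt_mul (by positivity)]
        congr 1
        field_simp
      have h3 : circ X s ≤ √(circ E s * circ Y s) :=
        Real.le_sqrt_of_sq_le (hXE s hs)
      have h4 : 2 * √(circ Y s / circ A s) ^ 2 * circ A s
          - 2 * √(circ Y s / circ A s) * √(circ E s * circ A s)
          = 2 * circ Y s - 2 * √(circ E s * circ Y s) := by
        linear_combination 2 * h1 - 2 * h2
      rw [h4]
      linarith

end

/-- **(2)** a subharmonic `L = log u` on the cylinder with gradient `≤ C / s` is bounded above. -/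
theorem log_bounded {s0 C : ℝ} (hs0 : 0 < s0) {L Ls Lt Lss Ltt : ℝ → ℝ → ℝ}
    (cL : ContinuousOn (Function.uncurry L) (Ioi s0 ×ˢ univ))
    (cLs : ContinuousOn (Function.uncurry Ls) (Ioi s0 ×ˢ univ))
    (cLss : ContinuousOn (Function.uncurry Lss) (Ioi s0 ×ˢ univ))
    (cLtt : ContinuousOn (Function.uncurry Ltt) (Ioi s0 ×ˢ univ))
    (dLs : ∀ s θ, s0 < s → HasDerivAt (fun s => L s θ) (Ls s θ) s)
    (dLt : ∀ s θ, s0 < s → HasDerivAt (fun θ => L s θ) (Lt s θ) θ)
    (dLss : ∀ s θ, s0 < s → HasDerivAt (fun s => Ls s θ) (Lss s θ) s)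
    (dLtt : ∀ s θ, s0 < s → HasDerivAt (fun θ => Lt s θ) (Ltt s θ) θ)
    (per : ∀ s, s0 < s → Lt s (2 * Real.pi) = Lt s 0)
    (perL : ∀ s θ, s0 < s → L s (θ + 2 * Real.pi) = L s θ)
    (sub : ∀ s θ, s0 < s → 0 ≤ Lss s θ + Ltt s θ)
    (bs : ∀ s θ, s0 < s → |Ls s θ| ≤ C / s) (bt : ∀ s θ, s0 < s → |Lt s θ| ≤ C / s)
    {s1 : ℝ} (hs1 : s0 < s1) :
    ∃ B, ∀ s θ, s1 ≤ s → L s θ ≤ B := by
  have hpi : (0 : ℝ) ≤ 2 * Real.pi := by positivity
  have hpi' : (0 : ℝ) < 2 * Real.pi := by positivity
  have hd1 : ∀ s, s0 < s → HasDerivAt (circ L) (circ Ls s) s := fun s hs =>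
    hasDerivAt_circ (b := 2 * Real.pi) dLs cL cLs hs
  have hd2 : ∀ s, s0 < s → HasDerivAt (circ Ls) (circ Lss s) s := fun s hs =>
    hasDerivAt_circ (b := 2 * Real.pi) dLss cLs cLss hs
  have hpos : ∀ s, s0 < s → 0 ≤ circ Lss s := by
    intro s hs
    have c1 := cont_slice cLss hs
    have c2 := cont_slice cLtt hs
    have h2 : ∫ θ in (0 : ℝ)..(2 * Real.pi), Ltt s θ = 0 := by
      rw [intervalIntegral.integral_eq_sub_of_hasDerivAt (fun θ _ => dLtt s θ hs)]
      · rw [per s hs, sub_self]
      · exact c2.intervalIntegrable _ _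
    have h3 : 0 ≤ ∫ θ in (0 : ℝ)..(2 * Real.pi), (Lss s θ + Ltt s θ) :=
      intervalIntegral.integral_nonneg hpi (fun θ _ => sub s θ hs)
    rw [intervalIntegral.integral_add (c1.intervalIntegrable _ _) (c2.intervalIntegrable _ _),
      h2, add_zero] at h3
    exact h3
  have hmono : MonotoneOn (circ Ls) (Ioi s0) := by
    apply monotoneOn_of_deriv_nonneg (convex_Ioi s0)
    · intro s hs
      exact (hd2 s hs).continuousAt.continuousWithinAt
    · intro s hs
      rw [interior_Ioi] at hs
      exact (hd2 s hs).differentiableAt.differentiableWithinAt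
    · intro s hs
      rw [interior_Ioi] at hs
      rw [(hd2 s hs).deriv]
      exact hpos s hs
  have hbs : ∀ s, s0 < s → circ Ls s ≤ (C * (2 * Real.pi)) / s := by
    intro s hs
    have h1 : circ Ls s ≤ ∫ _θ in (0 : ℝ)..(2 * Real.pi), C / s := by
      apply intervalIntegral.integral_mono_on hpi
      · exact (cont_slice cLs hs).intervalIntegrable _ _
      · exact intervalIntegrable_const
      · intro θ _
        exact (le_abs_self _).trans (bs s θ hs)
    refine h1.trans (le_of_eq ?_)
    rw [intervalIntegral.integral_const, smul_eq_mul]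
    ring
  have hneg : ∀ s, s0 < s → circ Ls s ≤ 0 := by
    intro s hs
    have hlim : Tendsto (fun t : ℝ => (C * (2 * Real.pi)) / t) atTop (𝓝 0) :=
      tendsto_const_nhds.div_atTop tendsto_id
    apply ge_of_tendsto hlim
    filter_upwards [eventually_ge_atTop s] with t ht
    exact (hmono (mem_Ioi.2 hs) (mem_Ioi.2 (by linarith)) ht).trans (hbs t (by linarith))
  have hanti : AntitoneOn (circ L) (Ioi s0) := by
    apply antitoneOn_of_deriv_nonpos (convex_Ioi s0)
    · intro s hs
      exact (hd1 s hs).continuousAt.continuousWithinAt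
    · intro s hs
      rw [interior_Ioi] at hs
      exact (hd1 s hs).differentiableAt.differentiableWithinAt
    · intro s hs
      rw [interior_Ioi] at hs
      rw [(hd1 s hs).deriv]
      exact hneg s hs
  have hC : 0 ≤ C := by
    have h1 := (abs_nonneg _).trans (bs s1 0 hs1)
    have h2 : 0 < s1 := by linarith
    by_contra hcon
    push Not at hcon
    exact absurd (div_neg_of_neg_of_pos hcon h2) (not_lt.2 h1)
  refine ⟨circ L s1 / (2 * Real.pi) + C / s1 * (2 * Real.pi), ?_⟩
  -- first for `θ ∈ [0, 2π]`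
  have hosc : ∀ s, s0 < s → ∀ θ ∈ Icc (0 : ℝ) (2 * Real.pi), ∀ θ' ∈ Icc (0 : ℝ) (2 * Real.pi),
      L s θ ≤ L s θ' + C / s * (2 * Real.pi) := by
    intro s hs θ hθ θ' hθ'
    have hspos : 0 < s := by linarith
    have h1 : ‖L s θ - L s θ'‖ ≤ C / s * ‖θ - θ'‖ := by
      apply Convex.norm_image_sub_le_of_norm_hasDerivWithin_le (s := univ)
        (f := fun θ => L s θ) (f' := fun θ => Lt s θ)
      · intro x _
        exact (dLt s x hs).hasDerivWithinAt
      · intro x _
        exact bt s x hs
      · exact convex_univ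
      · exact mem_univ _
      · exact mem_univ _
    have h2 : ‖θ - θ'‖ ≤ 2 * Real.pi := by
      rw [Real.norm_eq_abs, abs_le]
      constructor <;> linarith [hθ.1, hθ.2, hθ'.1, hθ'.2]
    have h3 : C / s * ‖θ - θ'‖ ≤ C / s * (2 * Real.pi) :=
      mul_le_mul_of_nonneg_left h2 (by positivity)
    have h4 := (le_abs_self _).trans (h1.trans h3)
    linarith
  have hmain : ∀ s, s1 ≤ s → ∀ θ ∈ Icc (0 : ℝ) (2 * Real.pi),
      L s θ ≤ circ L s1 / (2 * Real.pi) + C / s1 * (2 * Real.pi) := by
    intro s hs θ hθ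
    have hs' : s0 < s := by linarith
    have hspos : 0 < s := by linarith
    have h1 : L s θ * (2 * Real.pi) ≤ circ L s + C / s * (2 * Real.pi) * (2 * Real.pi) := by
      have h2 : ∫ _θ in (0 : ℝ)..(2 * Real.pi), L s θ
          ≤ ∫ θ' in (0 : ℝ)..(2 * Real.pi), (L s θ' + C / s * (2 * Real.pi)) := by
        apply intervalIntegral.integral_mono_on hpi intervalIntegrable_const
        · exact ((cont_slice cL hs').add continuous_const).intervalIntegrable _ _
        · intro θ' hθ'
          exact hosc s hs' θ hθ θ' hθ'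
      rw [intervalIntegral.integral_const, intervalIntegral.integral_add
        ((cont_slice cL hs').intervalIntegrable _ _) intervalIntegrable_const,
        intervalIntegral.integral_const, smul_eq_mul, smul_eq_mul] at h2
      unfold circ
      linarith
    have h2 : circ L s ≤ circ L s1 := hanti (mem_Ioi.2 hs1) (mem_Ioi.2 hs') hs
    have h3 : C / s ≤ C / s1 := div_le_div_of_nonneg_left hC (by linarith) hs
    have h4 : L s θ ≤ (circ L s + C / s * (2 * Real.pi) * (2 * Real.pi)) / (2 * Real.pi) := by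
      rwa [le_div_iff₀ hpi']
    calc L s θ ≤ (circ L s + C / s * (2 * Real.pi) * (2 * Real.pi)) / (2 * Real.pi) := h4
      _ = circ L s / (2 * Real.pi) + C / s * (2 * Real.pi) := by field_simp
      _ ≤ circ L s1 / (2 * Real.pi) + C / s1 * (2 * Real.pi) := by gcongr
  -- periodicity
  intro s θ hs
  have hs' : s0 < s := by linarith
  have hper : Function.Periodic (fun θ => L s θ) (2 * Real.pi) := fun θ => perL s θ hs'
  obtain ⟨θ', hθ', heq⟩ := hper.exists_mem_Ico₀ hpi' θ
  rw [heq]
  exact hmain s hs θ' ⟨hθ'.1, hθ'.2.le⟩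

/-- **(3)** `liminf s e(s) = 0` for integrable `e`. -/
theorem exists_small {s0 : ℝ} {e : ℝ → ℝ} (he : IntegrableOn e (Ioi s0))
    {ε S : ℝ} (hε : 0 < ε) : ∃ s, S ≤ s ∧ s0 < s ∧ s * e s < ε := by
  by_contra hcon
  push Not at hcon
  set T := max S (max s0 1) with hT
  have hTS : S ≤ T := le_max_left _ _
  have hT0 : s0 ≤ T := (le_max_left _ _).trans (le_max_right _ _)
  have hT1 : 1 ≤ T := (le_max_right _ _).trans (le_max_right _ _)
  have h1 : IntegrableOn (fun s : ℝ => s⁻¹) (Ioi T) := by
    have h2 : IntegrableOn (fun s => ε⁻¹ * e s) (Ioi T) :=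
      (he.mono_set (Ioi_subset_Ioi hT0)).const_mul _
    refine h2.mono' ?_ ?_
    · exact (measurable_inv.comp measurable_id).aestronglyMeasurable
    · rw [ae_restrict_iff' measurableSet_Ioi]
      refine Eventually.of_forall (fun s hs => ?_)
      have hs' : T < s := hs
      have hspos : 0 < s := by linarith
      have h3 := hcon s (by linarith) (by linarith)
      rw [Real.norm_eq_abs, abs_of_pos (inv_pos.2 hspos), inv_mul_eq_div, le_div_iff₀ hε,
        inv_mul_le_iff₀ hspos]
      exact h3
  exact not_integrableOn_Ioi_inv h1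

end Crest.Agent.R276.End_425
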