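import Crest.Agent.R276.EndTh_659
import Crest.Agent.R276.CylP_593
import Crest.Agent.R276.End_425

/-!
# R276 (helper659): helper442's `VHS` over an open subset of `ℂ` gives helper593's plane identities

* `dW_P`, `dB_P`, `dW_C`, `dB_C` : `∂_v P_p = [θ_v, P_p]`, `∂̄_v P_p = [θ̄_v, P_p]`, `∂_v C = 2 θ_v C`,
  `∂̄_v C = 2 θ̄_v C`.
* `dM_hm_one`, `dM_hm_I`, `harm` : the Hodge metric is harmonic, `PlaneData`.
* `Y_le` : `Y ≤ 4 g A`.
-/

set_option autoImplicit false
set_option linter.unusedSectionVars false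

open Set Filter Topology Matrix Finset
open scoped ContDiff ComplexConjugate ComplexOrder

namespace Crest.Agent.R276.EndC_659

open Crest.Agent.R276.VCalc_442 Crest.Agent.R276.EndTh_659

attribute [local instance] Matrix.linftyOpNormedRing Matrix.linftyOpNormedAlgebra

section gen

variable {X : Type*} [NormedAddCommGroup X] [NormedSpace ℂ X]
variable {ι : Type*} [Fintype ι] [DecidableEq ι]
variable {w : ℕ} {U : Set X} {S : Matrix ι ι ℂ} {P : ℕ → X → Matrix ι ι ℂ} {x : X}

/-- a matrix `Q` with `E Q = p Q` and `Q E = p Q` equals `P_p Q P_p` -/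
theorem eq_sandwich (h : VHS w U S P) (hx : x ∈ U) {Q : Matrix ι ι ℂ} {p : ℕ}
    (h1 : grOp w P x * Q = (p : ℂ) • Q) (h2 : Q * grOp w P x = (p : ℂ) • Q) :
    Q = P p x * Q * P p x := by
  have e1 : ∀ q, q ≠ p → P q x * Q = 0 := by
    intro q hq
    have h3 : P q x * grOp w P x * Q = (p : ℂ) • (P q x * Q) := by
      rw [mul_assoc, h1, mul_smul_comm]
    rw [h.P_mul_E hx, smul_mul_assoc, ← sub_eq_zero, ← sub_smul] at h3
    rcases smul_eq_zero.1 h3 with h4 | h4
    · exact absurd (by exact_mod_cast sub_eq_zero.1 h4) hq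
    · exact h4
  have e2 : ∀ q, q ≠ p → Q * P q x = 0 := by
    intro q hq
    have h3 : Q * (grOp w P x * P q x) = (p : ℂ) • (Q * P q x) := by
      rw [← mul_assoc, h2, smul_mul_assoc]
    rw [h.E_mul_P hx, mul_smul_comm, ← sub_eq_zero, ← sub_smul] at h3
    rcases smul_eq_zero.1 h3 with h4 | h4
    · exact absurd (by exact_mod_cast sub_eq_zero.1 h4) hq
    · exact h4
  have e3 : Q = P p x * Q := by
    by_cases hp : w < p
    · rw [h.top x hx p hp, zero_mul]
      conv_lhs => rw [h.expand_left hx Q]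
      exact Finset.sum_eq_zero fun q hq => e1 q (by have := Finset.mem_range.1 hq; omega)
    · conv_lhs => rw [h.expand_left hx Q]
      rw [Finset.sum_eq_single p]
      · intro q _ hq
        exact e1 q hq
      · intro hp'
        exact absurd (Finset.mem_range.2 (by omega)) hp'
  have e4 : Q = Q * P p x := by
    by_cases hp : w < p
    · rw [h.top x hx p hp, mul_zero]
      conv_lhs => rw [h.expand_right hx Q]
      exact Finset.sum_eq_zero fun q hq => e2 q (by have := Finset.mem_range.1 hq; omega)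
    · conv_lhs => rw [h.expand_right hx Q]
      rw [Finset.sum_eq_single p]
      · intro q _ hq
        exact e2 q hq
      · intro hp'
        exact absurd (Finset.mem_range.2 (by omega)) hp'
  rw [← e3, ← e4]

/-- the derivative `d` of the spectral projector `P_p`; `t` is the derivative of `E`,
`[E, t] = ε t` with `ε² = 1` -/
theorem proj_deriv (h : VHS w U S P) (hx : x ∈ U) {p : ℕ} {d t : Matrix ι ι ℂ} {ε : ℂ}
    (hε : ε * ε = 1) (ht : grOp w P x * t - t * grOp w P x = ε • t)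
    (hd1 : t * P p x + grOp w P x * d = (p : ℂ) • d)
    (hd2 : d * grOp w P x + P p x * t = (p : ℂ) • d) (hd3 : d * P p x + P p x * d = d) :
    d = (-ε) • (t * P p x - P p x * t) := by
  set E := grOp w P x with hE
  set Pp := P p x with hP
  have hEP : E * Pp = (p : ℂ) • Pp := h.E_mul_P hx p
  have hPE : Pp * E = (p : ℂ) • Pp := h.P_mul_E hx p
  have hPP : Pp * Pp = Pp := h.idem x hx p
  have hEt : E * t = t * E + ε • t := by rw [← ht]; abel
  set Q := d + ε • (t * Pp - Pp * t) with hQ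
  have e1 : E * Q = (p : ℂ) • Q := by
    have a1 : E * d = (p : ℂ) • d - t * Pp := by rw [← hd1]; abel
    have a2 : E * (t * Pp) = (p : ℂ) • (t * Pp) + ε • (t * Pp) := by
      rw [← mul_assoc, hEt, add_mul, mul_assoc, hEP, mul_smul_comm, smul_mul_assoc]
    have a3 : E * (Pp * t) = (p : ℂ) • (Pp * t) := by
      rw [← mul_assoc, hEP, smul_mul_assoc]
    rw [hQ, mul_add, a1, mul_smul_comm, mul_sub, a2, a3]
    match_scalars <;> first | ring1 | linear_combination hε
  have e2 : Q * E = (p : ℂ) • Q := by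
    have a1 : d * E = (p : ℂ) • d - Pp * t := by rw [← hd2]; abel
    have a2 : (t * Pp) * E = (p : ℂ) • (t * Pp) := by
      rw [mul_assoc, hPE, mul_smul_comm]
    have a3 : (Pp * t) * E = (p : ℂ) • (Pp * t) - ε • (Pp * t) := by
      have : t * E = E * t - ε • t := by rw [hEt]; abel
      rw [mul_assoc, this, mul_sub, ← mul_assoc, hPE, smul_mul_assoc, mul_smul_comm]
    rw [hQ, add_mul, a1, smul_mul_assoc, sub_mul, a2, a3]
    match_scalars <;> first | ring1 | linear_combination hε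
  have e3 : Pp * Q * Pp = 0 := by
    have a0 : Pp * d * Pp = 0 := by
      have a1 : Pp * (d * Pp + Pp * d) * Pp = Pp * d * Pp := by rw [hd3]
      have a2 : Pp * (d * Pp + Pp * d) * Pp = Pp * d * (Pp * Pp) + (Pp * Pp) * d * Pp := by
        noncomm_ring
      rw [a2, hPP] at a1
      exact left_eq_add.1 a1.symm
    have a3 : Pp * Q * Pp = Pp * d * Pp + ε • (Pp * t * (Pp * Pp) - (Pp * Pp) * t * Pp) := by
      rw [hQ]
      simp only [mul_add, add_mul, mul_sub, sub_mul, mul_smul_comm, smul_mul_assoc, mul_assoc]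
    rw [a3, a0, hPP, sub_self, smul_zero, add_zero]
  have e4 : Q = 0 := by rw [eq_sandwich h hx e1 e2, e3]
  rw [hQ] at e4
  rw [neg_smul]
  exact eq_neg_of_add_eq_zero_left e4

theorem dW_P (h : VHS w U S P) (hx : x ∈ U) (p : ℕ) (v : X) :
    dW (P p) v x = dW (grOp w P) v x * P p x - P p x * dW (grOp w P) v x := by
  have hdP := h.dP p hx
  have hdE := h.dE hx
  have k1 : dW (fun y => grOp w P y * P p y) v x = dW (fun y => (p : ℂ) • P p y) v x :=
    dW_congr (Filter.eventually_of_mem (h.op.mem_nhds hx) fun y hy => h.E_mul_P hy p) v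
  have k2 : dW (fun y => P p y * grOp w P y) v x = dW (fun y => (p : ℂ) • P p y) v x :=
    dW_congr (Filter.eventually_of_mem (h.op.mem_nhds hx) fun y hy => h.P_mul_E hy p) v
  have k3 : dW (fun y => P p y * P p y) v x = dW (P p) v x :=
    dW_congr (Filter.eventually_of_mem (h.op.mem_nhds hx) fun y hy => h.idem y hy p) v
  rw [dW_mul hdE hdP, dW_const_smul _ hdP] at k1
  rw [dW_mul hdP hdE, dW_const_smul _ hdP] at k2
  rw [dW_mul hdP hdP] at k3
  have k4 := proj_deriv h hx (p := p) (ε := -1) (by norm_num)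
    (by rw [neg_one_smul]; exact h.gr.hW x hx v) k1 k2 k3
  rw [k4]
  simp

theorem dB_P (h : VHS w U S P) (hx : x ∈ U) (p : ℕ) (v : X) :
    dB (P p) v x = tb (grOp w P) v x * P p x - P p x * tb (grOp w P) v x := by
  have hdP := h.dP p hx
  have hdE := h.dE hx
  have k1 : dB (fun y => grOp w P y * P p y) v x = dB (fun y => (p : ℂ) • P p y) v x :=
    dB_congr (Filter.eventually_of_mem (h.op.mem_nhds hx) fun y hy => h.E_mul_P hy p) v
  have k2 : dB (fun y => P p y * grOp w P y) v x = dB (fun y => (p : ℂ) • P p y) v x :=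
    dB_congr (Filter.eventually_of_mem (h.op.mem_nhds hx) fun y hy => h.P_mul_E hy p) v
  have k3 : dB (fun y => P p y * P p y) v x = dB (P p) v x :=
    dB_congr (Filter.eventually_of_mem (h.op.mem_nhds hx) fun y hy => h.idem y hy p) v
  rw [dB_mul hdE hdP, dB_const_smul _ hdP] at k1
  rw [dB_mul hdP hdE, dB_const_smul _ hdP] at k2
  rw [dB_mul hdP hdP] at k3
  have k4 := proj_deriv h hx (p := p) (ε := 1) (by norm_num)
    (by rw [one_smul]; exact h.gr.hB x hx v) k1 k2 k3
  rw [k4, tb]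
  simp only [neg_smul, one_smul, neg_mul, mul_neg]
  abel

theorem smC_eq (w : ℕ) (P : ℕ → X → Matrix ι ι ℂ) : sgOp w P =
    fun x => ∑ p ∈ Finset.range (w + 1), ((-1 : ℂ) ^ p) • P p x := rfl

theorem dW_sum_smul (h : VHS w U S P) (hx : x ∈ U) (c : ℕ → ℂ) (n : ℕ) (v : X) :
    dW (fun x => ∑ p ∈ Finset.range n, c p • P p x) v x =
      ∑ p ∈ Finset.range n, c p • dW (P p) v x := by
  induction n with
  | zero => simp
  | succ n ih =>
    have hd1 : DifferentiableAt ℝ (fun x => ∑ p ∈ Finset.range n, c p • P p x) x :=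
      DifferentiableAt.fun_sum fun p _ => (h.dP p hx).fun_const_smul (c p)
    have hd2 : DifferentiableAt ℝ (fun x => c n • P n x) x := (h.dP n hx).fun_const_smul (c n)
    have e : (fun x => ∑ p ∈ Finset.range (n + 1), c p • P p x) =
        fun x => (∑ p ∈ Finset.range n, c p • P p x) + c n • P n x := by
      funext y
      rw [Finset.sum_range_succ]
    rw [e, dW_add hd1 hd2, ih, dW_const_smul _ (h.dP n hx), Finset.sum_range_succ]

theorem dB_sum_smul (h : VHS w U S P) (hx : x ∈ U) (c : ℕ → ℂ) (n : ℕ) (v : X) :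
    dB (fun x => ∑ p ∈ Finset.range n, c p • P p x) v x =
      ∑ p ∈ Finset.range n, c p • dB (P p) v x := by
  induction n with
  | zero => simp
  | succ n ih =>
    have hd1 : DifferentiableAt ℝ (fun x => ∑ p ∈ Finset.range n, c p • P p x) x :=
      DifferentiableAt.fun_sum fun p _ => (h.dP p hx).fun_const_smul (c p)
    have hd2 : DifferentiableAt ℝ (fun x => c n • P n x) x := (h.dP n hx).fun_const_smul (c n)
    have e : (fun x => ∑ p ∈ Finset.range (n + 1), c p • P p x) =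
        fun x => (∑ p ∈ Finset.range n, c p • P p x) + c n • P n x := by
      funext y
      rw [Finset.sum_range_succ]
    rw [e, dB_add hd1 hd2, ih, dB_const_smul _ (h.dP n hx), Finset.sum_range_succ]

/-- `∂_v C = 2 θ_v C` -/
theorem dW_C (h : VHS w U S P) (hx : x ∈ U) (v : X) :
    dW (sgOp w P) v x = (2 : ℂ) • (dW (grOp w P) v x * sgOp w P x) := by
  have e1 : dW (sgOp w P) v x = dW (grOp w P) v x * sgOp w P x - sgOp w P x * dW (grOp w P) v x := by
    rw [smC_eq, dW_sum_smul h hx, Finset.mul_sum, Finset.sum_mul, ← Finset.sum_sub_distrib]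
    refine Finset.sum_congr rfl fun p _ => ?_
    rw [dW_P h hx, smul_sub, mul_smul_comm, smul_mul_assoc]
  rw [e1, h.low_C hx (h.low_th hx v), sub_neg_eq_add, two_smul]

/-- `∂̄_v C = 2 θ̄_v C` -/
theorem dB_C (h : VHS w U S P) (hx : x ∈ U) (v : X) :
    dB (sgOp w P) v x = (2 : ℂ) • (tb (grOp w P) v x * sgOp w P x) := by
  have e1 : dB (sgOp w P) v x = tb (grOp w P) v x * sgOp w P x - sgOp w P x * tb (grOp w P) v x := by
    rw [smC_eq, dB_sum_smul h hx, Finset.mul_sum, Finset.sum_mul, ← Finset.sum_sub_distrib]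
    refine Finset.sum_congr rfl fun p _ => ?_
    rw [dB_P h hx, smul_sub, mul_smul_comm, smul_mul_assoc]
  rw [e1, h.up_C hx (h.up_tb hx v), sub_neg_eq_add, two_smul]

end gen

/-! ### the plane -/

section plane

variable {ι : Type*} [Fintype ι] [DecidableEq ι]
variable {w : ℕ} {U : Set ℂ} {S : Matrix ι ι ℂ} {P : ℕ → ℂ → Matrix ι ι ℂ} {z : ℂ}

open CylP_593

theorem dM_one {F : ℂ → Matrix ι ι ℂ} (hF : DifferentiableAt ℝ F z) :
    dM F z 1 = dW F 1 z + dB F 1 z := by
  rw [← mW_eq_dW hF, ← mB_eq_dB hF]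
  ext i j
  exact fderiv_eq (fun y => F y i j) 1 z

theorem dM_I {F : ℂ → Matrix ι ι ℂ} (hF : DifferentiableAt ℝ F z) :
    dM F z Complex.I = Complex.I • (dW F 1 z - dB F 1 z) := by
  rw [← mW_eq_dW hF, ← mB_eq_dB hF]
  ext i j
  have h1 := fderiv_I_smul (fun y => F y i j) 1 z
  rw [smul_eq_mul, mul_one] at h1
  have h2 : dM F z Complex.I i j = fderiv ℝ (fun y => F y i j) z Complex.I := rfl
  rw [h2, h1, Matrix.smul_apply, Matrix.sub_apply, smul_sub]
  rfl

theorem sm_hm (h : VHS w U S P) : ContDiffOn ℝ ∞ (hm w S P) U := by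
  unfold hm
  exact contDiffOn_const.mul h.smC

theorem d_hm (h : VHS w U S P) (hz : z ∈ U) : DifferentiableAt ℝ (hm w S P) z :=
  diffAt h.op (sm_hm h) hz

theorem dW_hm (h : VHS w U S P) (hz : z ∈ U) (v : ℂ) :
    dW (hm w S P) v z = (2 : ℂ) • (S * (dW (grOp w P) v z * sgOp w P z)) := by
  have e : dW (hm w S P) v z = dW (fun y => S * sgOp w P y) v z := rfl
  rw [e, dW_mul (differentiableAt_const S) (h.dC hz), dW_const, zero_mul, zero_add, dW_C h hz,
    mul_smul_comm]

theorem dB_hm (h : VHS w U S P) (hz : z ∈ U) (v : ℂ) :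
    dB (hm w S P) v z = (2 : ℂ) • (S * (tb (grOp w P) v z * sgOp w P z)) := by
  have e : dB (hm w S P) v z = dB (fun y => S * sgOp w P y) v z := rfl
  rw [e, dB_mul (differentiableAt_const S) (h.dC hz), dB_const, zero_mul, zero_add, dB_C h hz,
    mul_smul_comm]

theorem hm_mul_low (h : VHS w U S P) (hz : z ∈ U) (v : ℂ) :
    hm w S P z * dW (grOp w P) v z = -(S * (dW (grOp w P) v z * sgOp w P z)) := by
  rw [hm, mul_assoc, h.low_C hz (h.low_th hz v), mul_neg]

theorem hm_mul_up (h : VHS w U S P) (hz : z ∈ U) (v : ℂ) :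
    hm w S P z * tb (grOp w P) v z = -(S * (tb (grOp w P) v z * sgOp w P z)) := by
  rw [hm, mul_assoc, h.up_C hz (h.up_tb hz v), mul_neg]

theorem dM_hm_one (h : VHS w U S P) (hz : z ∈ U) :
    dM (hm w S P) z 1 = (2 * Complex.I) • (hm w S P z * dM (grOp w P) z Complex.I) := by
  have e : dB (grOp w P) 1 z = - tb (grOp w P) 1 z := by rw [tb, neg_neg]
  rw [dM_one (d_hm h hz), dM_I (h.dE hz), dW_hm h hz, dB_hm h hz, e, sub_neg_eq_add,
    mul_smul_comm, mul_add, hm_mul_low h hz, hm_mul_up h hz, smul_smul]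
  have hI : 2 * Complex.I * Complex.I = -2 := by rw [mul_assoc, Complex.I_mul_I]; ring
  rw [hI]
  module

theorem dM_hm_I (h : VHS w U S P) (hz : z ∈ U) :
    dM (hm w S P) z Complex.I = (-(2 * Complex.I)) • (hm w S P z * dM (grOp w P) z 1) := by
  have e : dB (grOp w P) 1 z = - tb (grOp w P) 1 z := by rw [tb, neg_neg]
  rw [dM_I (d_hm h hz), dM_one (h.dE hz), dW_hm h hz, dB_hm h hz, e, ← sub_eq_add_neg,
    mul_sub, hm_mul_low h hz, hm_mul_up h hz]
  module

theorem mc_of {F : ℂ → Matrix ι ι ℂ} (hF : ContDiffOn ℝ ∞ F U) (n : ℕ) : MC n F U :=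
  fun i j => ((contDiffOn_matrix.1 hF i j)).of_le (by exact_mod_cast le_top)

/-- the Hodge metric is harmonic -/
theorem harm (h : VHS w U S P) (hz : z ∈ U) : d2M (hm w S P) z 1 + d2M (hm w S P) z Complex.I
      = dM (hm w S P) z 1 * (hm w S P z)⁻¹ * dM (hm w S P) z 1 +
        dM (hm w S P) z Complex.I * (hm w S P z)⁻¹ * dM (hm w S P) z Complex.I :=
  harm_of_grading h.op (mc_of (sm_hm h) 1) (mc_of h.smE 2)
    (fun _ hy => (Matrix.isUnit_iff_isUnit_det _).1 (h.hmPos hy).isUnit)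
    (fun _ hy => dM_hm_one h hy) (fun _ hy => dM_hm_I h hy) hz

/-- flat sections -/
theorem flat (h : VHS w U S P) (u : ι → ℂ) : PlaneData (hm w S P) (fun _ => u) U :=
  PlaneData.of_flat h.op (mc_of (sm_hm h) 2) (fun _ hy => h.hmPos hy) (fun _ hy => harm h hy) u

theorem nq_parallelogram (K : Matrix ι ι ℂ) (a b : ι → ℂ) :
    nq K (a + b) + nq K (a - b) = 2 * (nq K a + nq K b) := by
  simp only [nq, Matrix.mulVec_add, Matrix.mulVec_sub, star_add, star_sub, add_dotProduct,
    sub_dotProduct, dotProduct_add, dotProduct_sub, Complex.add_re, Complex.sub_re]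
  ring

theorem nq_smul (K : Matrix ι ι ℂ) (c : ℂ) (a : ι → ℂ) : nq K (c • a) = ‖c‖ ^ 2 * nq K a := by
  have h1 : c * star c = ((‖c‖ ^ 2 : ℝ) : ℂ) := by
    rw [Complex.star_def, Complex.mul_conj, Complex.normSq_eq_norm_sq]
  simp only [nq, Matrix.mulVec_smul, star_smul, smul_dotProduct, dotProduct_smul, smul_eq_mul]
  rw [← mul_assoc, h1, Complex.re_ofReal_mul]

/-- `|Θ_v φ|²` for a Hermitian derivative `M = - 2 K Θ` -/
theorem py_aux {K M Th : Matrix ι ι ℂ} (hK : K.PosDef) (hM : M.IsHermitian)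
    (hMT : M = (-2 : ℂ) • (K * Th)) (φ : ι → ℂ) :
    1 / 4 * (Cyl_593.S (M * K⁻¹ * M) φ φ).re = nq K (Th *ᵥ φ) := by
  have hd : IsUnit K.det := (Matrix.isUnit_iff_isUnit_det _).1 hK.isUnit
  have h1 : M = (-2 : ℂ) • (Thᴴ * K) := by
    have h2 := congrArg Matrix.conjTranspose hMT
    rw [hM.eq, Matrix.conjTranspose_smul, Matrix.conjTranspose_mul, hK.1.eq] at h2
    rw [h2]
    simp
  have h2 : M * K⁻¹ * M = (4 : ℂ) • (Thᴴ * K * Th) := by
    conv_lhs => lhs; lhs; rw [h1]
    rw [hMT, Matrix.smul_mul, Matrix.smul_mul, Matrix.mul_smul, smul_smul, mul_assoc Thᴴ,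
      Matrix.mul_nonsing_inv _ hd, mul_one, ← mul_assoc]
    norm_num
  have h3 : Cyl_593.S (M * K⁻¹ * M) φ φ = 4 * (star (Th *ᵥ φ) ⬝ᵥ (K *ᵥ (Th *ᵥ φ))) := by
    rw [h2, Cyl_593.S, Matrix.smul_mulVec, dotProduct_smul, smul_eq_mul, Matrix.star_mulVec,
      ← Matrix.dotProduct_mulVec, Matrix.mulVec_mulVec, Matrix.mulVec_mulVec, mul_assoc]
  rw [h3, nq]
  simp

/-- **`Y ≤ 4 g A`** -/
theorem Y_le (h : VHS w U S P) {φ : ℂ → ι → ℂ} (D : PlaneData (hm w S P) φ U) (hz : z ∈ U) :
    pY (hm w S P) φ z ≤ 4 * gg w P 1 z * pA (hm w S P) φ z := by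
  have hK := h.hmPos hz
  have e : dB (grOp w P) 1 z = - tb (grOp w P) 1 z := by rw [tb, neg_neg]
  have e1 : dM (hm w S P) z 1 = (-2 : ℂ) • (hm w S P z * (dW (grOp w P) 1 z + tb (grOp w P) 1 z)) := by
    rw [dM_hm_one h hz, dM_I (h.dE hz), e, sub_neg_eq_add, mul_smul_comm, smul_smul]
    congr 1
    rw [mul_assoc, Complex.I_mul_I]; ring
  have e2 : dM (hm w S P) z Complex.I =
      (-2 : ℂ) • (hm w S P z * (Complex.I • (dW (grOp w P) 1 z - tb (grOp w P) 1 z))) := by
    rw [dM_hm_I h hz, dM_one (h.dE hz), e, ← sub_eq_add_neg, mul_smul_comm, smul_smul]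
    congr 1
    ring
  have f1 := py_aux hK (D.herm hz 1) e1 (φ z)
  have f2 := py_aux hK (D.herm hz Complex.I) e2 (φ z)
  have g1 : PlaneData.py (hm w S P) φ 1 z =
      nq (hm w S P z) ((dW (grOp w P) 1 z + tb (grOp w P) 1 z) *ᵥ φ z) := f1
  have g2 : PlaneData.py (hm w S P) φ Complex.I z =
      nq (hm w S P z) ((Complex.I • (dW (grOp w P) 1 z - tb (grOp w P) 1 z)) *ᵥ φ z) := f2
  rw [D.Y_eq hz, g1, g2, Matrix.add_mulVec, Matrix.smul_mulVec, Matrix.sub_mulVec, nq_smul,
    Complex.norm_I, one_pow, one_mul, nq_parallelogram]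
  have k1 := nq_th_le h hz 1 (φ z)
  have k2 := nq_thb_le h hz 1 (φ z)
  rw [h.th_eq hz] at k1
  rw [h.thb_eq hz] at k2
  have k3 : pA (hm w S P) φ z = nq (hm w S P z) (φ z) := rfl
  rw [k3]
  linarith

end plane

/-! ### step (2) on a half plane -/

section bounded

open CylP_593 InnerProductSpace Laplacian

theorem hasDerivAt_re {f : ℂ → ℝ} {s t : ℝ} (hf : DifferentiableAt ℝ f (-(s : ℂ) + t * Complex.I)) :
    HasDerivAt (fun s : ℝ => f (-(s : ℂ) + t * Complex.I))
      (-(fderiv ℝ f (-(s : ℂ) + t * Complex.I) 1)) s := by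
  have h1 : HasDerivAt (fun s : ℝ => -(s : ℂ) + t * Complex.I) (-1 : ℂ) s := by
    have := (Complex.ofRealCLM.hasDerivAt (x := s)).neg.add_const (t * Complex.I)
    simpa using this
  have h2 := hf.hasFDerivAt.comp_hasDerivAt s h1
  rw [map_neg] at h2
  exact h2

theorem hasDerivAt_im {f : ℂ → ℝ} {s t : ℝ} (hf : DifferentiableAt ℝ f (-(s : ℂ) + t * Complex.I)) :
    HasDerivAt (fun t : ℝ => f (-(s : ℂ) + t * Complex.I))
      (fderiv ℝ f (-(s : ℂ) + t * Complex.I) Complex.I) t := by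
  have h1 : HasDerivAt (fun t : ℝ => -(s : ℂ) + t * Complex.I) (Complex.I) t := by
    have := ((Complex.ofRealCLM.hasDerivAt (x := t)).mul_const Complex.I).const_add (-(s : ℂ))
    simpa using this
  exact hf.hasFDerivAt.comp_hasDerivAt t h1

/-- a periodic subharmonic function on a half plane whose gradient is `O(1/s)` is bounded above -/
theorem bounded_of_subharmonic {s0 s1 C : ℝ} (h01 : s0 < s1) (h1 : 0 < s1) (hC : 0 ≤ C)
    {f : ℂ → ℝ} (hf : ContDiffOn ℝ 2 f {z : ℂ | z.re < -s0})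
    (per : ∀ z : ℂ, z.re < -s0 → f (z + 2 * Real.pi * Complex.I) = f z)
    (sub : ∀ z : ℂ, z.re < -s0 → 0 ≤ (Δ f) z)
    (grad : ∀ z : ℂ, z.re < -s0 → ∀ v, |fderiv ℝ f z v| ≤ C / (-s0 - z.re) * ‖v‖) :
    ∃ B, ∀ z : ℂ, z.re ≤ -s1 → f z ≤ B := by
  set s2 : ℝ := max ((s0 + s1) / 2) (s1 / 2) with hs2
  have hs2a : s0 < s2 := lt_max_of_lt_left (by linarith)
  have hs2b : 0 < s2 := lt_max_of_lt_right (by linarith)
  have hs2c : s2 < s1 := max_lt (by linarith) (by linarith)
  have hop : IsOpen {z : ℂ | z.re < -s0} := isOpen_lt Complex.continuous_re continuous_const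
  have hre : ∀ s t : ℝ, (-(s : ℂ) + t * Complex.I).re = -s := by intro s t; simp
  have hmem : ∀ s t : ℝ, s2 < s → (-(s : ℂ) + t * Complex.I) ∈ {z : ℂ | z.re < -s0} := by
    intro s t hs
    show (-(s : ℂ) + t * Complex.I).re < -s0
    rw [hre]; linarith
  have hd : ∀ z ∈ {z : ℂ | z.re < -s0}, DifferentiableAt ℝ f z := fun z hz =>
    (hf.contDiffAt (hop.mem_nhds hz)).differentiableAt (by norm_num)
  have hf1 : ContDiffOn ℝ 1 (fderiv ℝ f) {z : ℂ | z.re < -s0} :=
    hf.fderiv_of_isOpen hop (by norm_num)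
  have hfv : ∀ v : ℂ, ContDiffOn ℝ 1 (fun z => fderiv ℝ f z v) {z : ℂ | z.re < -s0} :=
    fun v => hf1.clm_apply contDiffOn_const
  have hd1 : ∀ v : ℂ, ∀ z ∈ {z : ℂ | z.re < -s0}, DifferentiableAt ℝ (fun z => fderiv ℝ f z v) z :=
    fun v z hz => ((hfv v).contDiffAt (hop.mem_nhds hz)).differentiableAt (by norm_num)
  have hf2 : ∀ v : ℂ, ContDiffOn ℝ 0 (fderiv ℝ (fun z => fderiv ℝ f z v)) {z : ℂ | z.re < -s0} :=
    fun v => (hfv v).fderiv_of_isOpen hop (by norm_num)
  have hsec : ∀ v u : ℂ, ∀ z ∈ {z : ℂ | z.re < -s0},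
      fderiv ℝ (fun z => fderiv ℝ f z v) z u = fderiv ℝ (fderiv ℝ f) z u v := by
    intro v u z hz
    have h5 : DifferentiableAt ℝ (fderiv ℝ f) z :=
      (hf1.contDiffAt (hop.mem_nhds hz)).differentiableAt (by norm_num)
    rw [fderiv_clm_apply h5 (differentiableAt_const v)]
    simp
  -- continuity along `(s, t) ↦ -s + t I`
  have hcont : Continuous (fun q : ℝ × ℝ => (-(q.1 : ℂ) + q.2 * Complex.I)) := by fun_prop
  have hmaps : MapsTo (fun q : ℝ × ℝ => (-(q.1 : ℂ) + q.2 * Complex.I)) (Ioi s2 ×ˢ univ)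
      {z : ℂ | z.re < -s0} := by
    rintro ⟨s, t⟩ ⟨hs, -⟩
    exact hmem s t hs
  have c0 : ∀ g : ℂ → ℝ, ContinuousOn g {z : ℂ | z.re < -s0} →
      ContinuousOn (Function.uncurry fun s t : ℝ => g (-(s : ℂ) + t * Complex.I))
        (Ioi s2 ×ˢ univ) := by
    intro g hg
    exact hg.comp hcont.continuousOn hmaps
  set K : ℝ := C * (1 + |s0| / (s2 - s0)) with hK
  have hgrad : ∀ s t : ℝ, s2 < s → ∀ v : ℂ, ‖v‖ = 1 →
      |fderiv ℝ f (-(s : ℂ) + t * Complex.I) v| ≤ K / s := by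
    intro s t hs v hv
    have h5 := grad _ (hmem s t hs) v
    rw [hre, hv, mul_one] at h5
    refine h5.trans ?_
    have h6 : 0 < s - s0 := by linarith
    have h7 : 0 < s := by linarith
    have h8 : 0 < s2 - s0 := by linarith
    rw [hK, div_le_div_iff₀ (by linarith) h7]
    have h9 : s ≤ (1 + |s0| / (s2 - s0)) * (-s0 - -s) := by
      have h10 : |s0| ≤ |s0| / (s2 - s0) * (s - s0) := by
        rw [div_mul_eq_mul_div, le_div_iff₀ h8]
        exact mul_le_mul_of_nonneg_left (by linarith) (abs_nonneg _)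
      have h11 := le_abs_self s0
      have h12 : (1 + |s0| / (s2 - s0)) * (-s0 - -s) = (s - s0) + |s0| / (s2 - s0) * (s - s0) := by
        ring
      rw [h12]
      linarith
    calc C * s ≤ C * ((1 + |s0| / (s2 - s0)) * (-s0 - -s)) := mul_le_mul_of_nonneg_left h9 hC
      _ = _ := by ring
  obtain ⟨B, hB⟩ := End_425.log_bounded (s0 := s2) (C := K) hs2b
    (L := fun s t => f (-(s : ℂ) + t * Complex.I))
    (Ls := fun s t => -(fderiv ℝ f (-(s : ℂ) + t * Complex.I) 1))
    (Lt := fun s t => fderiv ℝ f (-(s : ℂ) + t * Complex.I) Complex.I)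
    (Lss := fun s t => fderiv ℝ (fderiv ℝ f) (-(s : ℂ) + t * Complex.I) 1 1)
    (Ltt := fun s t => fderiv ℝ (fderiv ℝ f) (-(s : ℂ) + t * Complex.I) Complex.I Complex.I)
    (c0 _ hf.continuousOn) (c0 _ (hfv 1).continuousOn.neg)
    (c0 (fun z => fderiv ℝ (fderiv ℝ f) z 1 1) (((hf2 1).continuousOn.clm_apply
      continuousOn_const).congr fun z hz => (hsec 1 1 z hz).symm))
    (c0 (fun z => fderiv ℝ (fderiv ℝ f) z Complex.I Complex.I) (((hf2 Complex.I).continuousOn.clm_apply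
      continuousOn_const).congr fun z hz => (hsec Complex.I Complex.I z hz).symm))
    (fun s t hs => hasDerivAt_re (hd _ (hmem s t hs)))
    (fun s t hs => hasDerivAt_im (hd _ (hmem s t hs)))
    (fun s t hs => by
      have h5 := (hasDerivAt_re (hd1 1 _ (hmem s t hs))).neg
      rw [neg_neg, hsec 1 1 _ (hmem s t hs)] at h5
      exact h5)
    (fun s t hs => by
      have h5 := hasDerivAt_im (hd1 Complex.I _ (hmem s t hs))
      rw [hsec Complex.I Complex.I _ (hmem s t hs)] at h5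
      exact h5)
    (fun s hs => by
      have h5 : f =ᶠ[𝓝 (-(s : ℂ) + ((0 : ℝ) : ℂ) * Complex.I)]
          fun z => f (z + 2 * Real.pi * Complex.I) := by
        filter_upwards [hop.mem_nhds (hmem s 0 hs)] with z hz
        exact (per z hz).symm
      have h6 : (-(s : ℂ) + ((2 * Real.pi : ℝ) : ℂ) * Complex.I) =
          (-(s : ℂ) + ((0 : ℝ) : ℂ) * Complex.I) + 2 * Real.pi * Complex.I := by
        push_cast; ring
      rw [h5.fderiv_eq, fderiv_comp_add_right, h6])
    (fun s t hs => by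
      have h6 : (-(s : ℂ) + ((t + 2 * Real.pi : ℝ) : ℂ) * Complex.I) =
          (-(s : ℂ) + (t : ℂ) * Complex.I) + 2 * Real.pi * Complex.I := by
        push_cast; ring
      show f (-(s : ℂ) + ((t + 2 * Real.pi : ℝ) : ℂ) * Complex.I) = _
      rw [h6]
      exact per _ (hmem s t hs))
    (fun s t hs => by
      have h5 := sub _ (hmem s t hs)
      rwa [Ahl_25.lap_eq] at h5)
    (fun s t hs => by
      rw [abs_neg]
      exact hgrad s t hs 1 (by simp))
    (fun s t hs => hgrad s t hs Complex.I (by simp)) hs2c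
  refine ⟨B, fun z hz => ?_⟩
  have h5 := hB (-z.re) z.im (by linarith)
  have h6 : (-((-z.re : ℝ) : ℂ) + (z.im : ℂ) * Complex.I) = z := by
    apply Complex.ext <;> simp
  have h7 : f (-((-z.re : ℝ) : ℂ) + (z.im : ℂ) * Complex.I) ≤ B := h5
  rwa [h6] at h7

variable {ι : Type*} [Fintype ι] [DecidableEq ι]
variable {w : ℕ} {S : Matrix ι ι ℂ} {P : ℕ → ℂ → Matrix ι ι ℂ}

/-- **step (2)**: an invariant flat section is bounded -/
theorem bounded_flat {s0 s1 : ℝ} (h01 : s0 < s1) (h1 : 0 < s1)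
    (h : VHS w {z : ℂ | z.re < -s0} S P) (u : ι → ℂ)
    (per : ∀ z : ℂ, z.re < -s0 → nq (hm w S P (z + 2 * Real.pi * Complex.I)) u = nq (hm w S P z) u) :
    ∃ B, ∀ z : ℂ, z.re ≤ -s1 → nq (hm w S P z) u ≤ B := by
  by_cases hu : u = 0
  · refine ⟨0, fun z _ => ?_⟩
    rw [hu, nq]; simp
  have D := flat h u
  have hop := h.op
  have hpos : ∀ z ∈ {z : ℂ | z.re < -s0}, 0 < pA (hm w S P) (fun _ => u) z :=
    fun z hz => flat_A_pos hu D hz
  have hA2 : ContDiffOn ℝ 2 (pA (hm w S P) (fun _ => u)) {z : ℂ | z.re < -s0} := D.contDiffOn_A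
  have hcst := cst_pos ι
  obtain ⟨B, hB⟩ := bounded_of_subharmonic (C := 4 * Real.sqrt (cst ι)) h01 h1 (by positivity)
    (f := fun z => Real.log (pA (hm w S P) (fun _ => u) z))
    (hA2.log fun z hz => (hpos z hz).ne')
    (fun z hz => congrArg Real.log (per z hz))
    (fun z hz => flat_laplacian_log_nonneg hu D hz)
    (fun z hz v => by
      have hz' : 0 < -s0 - z.re := by linarith
      have h2 := flat_fderiv_log_le hu D hz (c := 2 * Real.sqrt (cst ι) / (-s0 - z.re))
        (by positivity) (by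
          refine (Y_le h D hz).trans ?_
          have h3 := gg_le_halfplane h (z := z) hz
          have h4 : (2 * Real.sqrt (cst ι) / (-s0 - z.re)) ^ 2 = 4 * (cst ι / (-s0 - z.re) ^ 2) := by
            rw [div_pow, mul_pow, Real.sq_sqrt hcst.le]
            ring
          rw [h4]
          have h5 := (hpos z hz).le
          have : 4 * gg w P 1 z ≤ 4 * (cst ι / (-s0 - z.re) ^ 2) := by linarith
          exact mul_le_mul_of_nonneg_right this h5) v
      refine h2.trans (le_of_eq ?_)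
      ring)
  refine ⟨Real.exp B, fun z hz => ?_⟩
  have h2 := hB z hz
  have hz' : z.re < -s0 := by linarith
  have h3 : nq (hm w S P z) u = pA (hm w S P) (fun _ => u) z := rfl
  rw [h3, ← Real.exp_log (hpos z hz')]
  exact Real.exp_le_exp.2 h2

end bounded

end Crest.Agent.R276.EndC_659
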