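/-
R276 (S0419), IPC (posts 755, 930 of helper735), steps (3) and (4) on one end (helper659).

Half plane `Re w < -s₀` (`w = log x`, `s = -Re w`), flat frame `ℂ^N`, monodromy `T`, flat form `S`.

* `mem_range` : `c` is in the image of `T - 1` if it is `S`-orthogonal to `ker (T - 1)`.
* `end3` : a `T`-quasi-periodic primitive `φ` (`φ (w + 2πi) = T φ w + c`) whose derivative is square
  integrable on the end has `c ∈ im (T - 1)` (closed `L²` forms are parabolic).
* `cutoff` : cut-off functions with small energy; `end4` : `D(χ u)` is an `L²` limit of `D` of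
  compactly supported sections.
-/
import Mathlib

set_option autoImplicit false
set_option linter.unusedSectionVars false

open Set Filter Topology MeasureTheory Matrix
open scoped ContDiff

namespace Crest.Agent.R276.EndL2_659

section linear

variable {N : Type*} [Fintype N] [DecidableEq N]

/-- the sesquilinear form of the matrix `M`, antilinear in the first variable -/
def Sf (M : Matrix N N ℂ) (u v : N → ℂ) : ℂ := star u ⬝ᵥ (M *ᵥ v)

theorem Sf_add_right (M : Matrix N N ℂ) (u v v' : N → ℂ) :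
    Sf M u (v + v') = Sf M u v + Sf M u v' := by
  simp [Sf, Matrix.mulVec_add, dotProduct_add]

theorem Sf_sub_right (M : Matrix N N ℂ) (u v v' : N → ℂ) :
    Sf M u (v - v') = Sf M u v - Sf M u v' := by
  simp [Sf, Matrix.mulVec_sub, dotProduct_sub]

theorem Sf_smul_right (M : Matrix N N ℂ) (u v : N → ℂ) (c : ℂ) :
    Sf M u (c • v) = c * Sf M u v := by
  simp [Sf, Matrix.mulVec_smul, dotProduct_smul]

/-- `T` preserves `Sf M` -/
theorem Sf_map {M T : Matrix N N ℂ} (hT : Tᴴ * M * T = M) (u v : N → ℂ) :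
    Sf M (T *ᵥ u) (T *ᵥ v) = Sf M u v := by
  rw [Sf, Matrix.star_mulVec, ← dotProduct_mulVec, Matrix.mulVec_mulVec, Matrix.mulVec_mulVec, hT]
  rfl

/-- the functional `Sf M u` as a linear map -/
def SfL (M : Matrix N N ℂ) (u : N → ℂ) : (N → ℂ) →ₗ[ℂ] ℂ where
  toFun v := Sf M u v
  map_add' := Sf_add_right M u
  map_smul' c v := by simp [Sf_smul_right]

theorem continuous_Sf (M : Matrix N N ℂ) (u : N → ℂ) : Continuous (fun v => Sf M u v) :=
  (SfL M u).continuous_of_finiteDimensional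

/-- every linear functional is `Sf M u` -/
theorem exists_rep {M : Matrix N N ℂ} (hM : IsUnit M.det) (f : (N → ℂ) →ₗ[ℂ] ℂ) :
    ∃ u, ∀ v, Sf M u v = f v := by
  set g : N → ℂ := fun i => f (Pi.single i 1) with hg
  refine ⟨star (g ᵥ* M⁻¹), fun v => ?_⟩
  rw [Sf, star_star, dotProduct_mulVec, Matrix.vecMul_vecMul, Matrix.nonsing_inv_mul _ hM,
    Matrix.vecMul_one]
  have hv : v = ∑ i, v i • (Pi.single i 1 : N → ℂ) := by
    ext j
    simp [Finset.sum_apply, Pi.single_apply]
  conv_rhs => rw [hv, map_sum]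
  simp only [map_smul, smul_eq_mul, dotProduct, hg]
  exact Finset.sum_congr rfl fun i _ => mul_comm _ _

/-- `(ker (T - 1))^⊥ ⊆ im (T - 1)` -/
theorem mem_range {M T : Matrix N N ℂ} (hM : IsUnit M.det) (hT : Tᴴ * M * T = M) {c : N → ℂ}
    (h : ∀ u, T *ᵥ u = u → Sf M u c = 0) : ∃ v, c = T *ᵥ v - v := by
  classical
  set L : (N → ℂ) →ₗ[ℂ] (N → ℂ) := T.mulVecLin - LinearMap.id with hL
  have hLv : ∀ v, L v = T *ᵥ v - v := fun v => by simp [hL]
  by_contra hcon
  push Not at hcon
  have hc : c ∉ LinearMap.range L := by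
    rintro ⟨v, hv⟩
    exact hcon v (by rw [← hv, hLv])
  obtain ⟨f, hf1, hf2⟩ := Submodule.exists_le_ker_of_notMem hc
  obtain ⟨u, hu⟩ := exists_rep hM f
  have hTd : IsUnit T.det := by
    have h1 := congrArg Matrix.det hT
    rw [Matrix.det_mul, Matrix.det_mul] at h1
    by_contra h2
    have h3 : T.det = 0 := by simpa using h2
    rw [h3, mul_zero] at h1
    rw [← h1] at hM
    exact not_isUnit_zero hM
  -- `S (u, (T-1) v) = 0`
  have h1 : ∀ v, Sf M u (T *ᵥ v) = Sf M u v := by
    intro v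
    have h2 : f (L v) = 0 := by
      have : L v ∈ LinearMap.range L := ⟨v, rfl⟩
      exact LinearMap.mem_ker.1 (hf2 this)
    rw [← hu, hLv, Sf_sub_right, sub_eq_zero] at h2
    exact h2
  -- `T u = u`
  have h3 : T *ᵥ u = u := by
    have h4 : ∀ v, Sf M (T *ᵥ u) v = Sf M u v := by
      intro v
      obtain ⟨v', rfl⟩ : ∃ v', T *ᵥ v' = v := ⟨T⁻¹ *ᵥ v, by
        rw [Matrix.mulVec_mulVec, Matrix.mul_nonsing_inv _ hTd, Matrix.one_mulVec]⟩
      rw [Sf_map hT, h1]
    have h5 : ∀ v, star (T *ᵥ u - u) ⬝ᵥ (M *ᵥ v) = 0 := by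
      intro v
      have := h4 v
      rw [Sf, Sf] at this
      rw [star_sub, sub_dotProduct, this, sub_self]
    have h6 : star (T *ᵥ u - u) = 0 := by
      ext i
      have h7 := h5 (M⁻¹ *ᵥ Pi.single i 1)
      rw [Matrix.mulVec_mulVec, Matrix.mul_nonsing_inv _ hM, Matrix.one_mulVec,
        dotProduct_single_one] at h7
      exact h7
    have h8 := congrArg star h6
    rw [star_star, star_zero, sub_eq_zero] at h8
    exact h8
  have h9 := h u h3
  rw [hu] at h9
  exact hf1 h9

end linear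

/-- small values of a function with finite integral on a half line -/
theorem exists_small {s1 : ℝ} {F : ℝ → ENNReal} (hF : ∫⁻ s in Ioi s1, F s < ⊤) {ε : ENNReal}
    (hε : 0 < ε) : ∃ s, s1 < s ∧ F s < ε := by
  by_contra hcon
  push Not at hcon
  have h1 : ∫⁻ s in Ioi s1, ε ≤ ∫⁻ s in Ioi s1, F s :=
    setLIntegral_mono' measurableSet_Ioi fun s hs => hcon s hs
  rw [setLIntegral_const, Real.volume_Ioi, ENNReal.mul_top hε.ne'] at h1
  exact absurd (lt_of_le_of_lt h1 hF) (lt_irrefl _)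

section ends

variable {N : Type*} [Fintype N] [DecidableEq N]

/-- **step (3) on an end**: closed `L²` forms have parabolic periods -/
theorem end3 {s0 s1 : ℝ} (hs : s0 ≤ s1) {M T : Matrix N N ℂ} (hM : IsUnit M.det)
    (hT : Tᴴ * M * T = M) {q : ℂ → (N → ℂ) → ℝ}
    (hq : ∀ w : ℂ, w.re < -s1 → ∀ u v, ‖Sf M u v‖ ^ 2 ≤ q w u * q w v)
    (hq0 : ∀ w : ℂ, w.re < -s1 → ∀ u, 0 ≤ q w u)
    (hb : ∀ u, T *ᵥ u = u → ∃ B, ∀ w : ℂ, w.re < -s1 → q w u ≤ B)
    {φ : ℂ → N → ℂ} (hφ : ContDiffOn ℝ 1 φ {w : ℂ | w.re < -s0}) {c : N → ℂ}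
    (hc : ∀ w : ℂ, w.re < -s0 → φ (w + 2 * Real.pi * Complex.I) = T *ᵥ φ w + c)
    (hL2 : ∫⁻ s in Ioi s1, ∫⁻ t in Ioc (0:ℝ) (2 * Real.pi),
      ENNReal.ofReal (q (-(s:ℂ) + t * Complex.I) (fderiv ℝ φ (-(s:ℂ) + t * Complex.I) Complex.I))
        < ⊤) :
    ∃ v, c = T *ᵥ v - v := by
  refine mem_range hM hT fun u hu => ?_
  obtain ⟨B, hB⟩ := hb u hu
  have hopen : IsOpen {w : ℂ | w.re < -s0} := isOpen_lt Complex.continuous_re continuous_const
  -- the estimate for each `δ`
  have key : ∀ δ : ℝ, 0 < δ → ‖Sf M u c‖ ≤ δ * (Real.pi * |B| + 1) := by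
    intro δ hδ
    obtain ⟨s, hs1, hsF⟩ := exists_small hL2 (ε := ENNReal.ofReal (δ ^ 2)) (by simpa using by positivity)
    have hre : ∀ t : ℝ, (-(s:ℂ) + t * Complex.I).re = -s := by intro t; simp
    have hlt : ∀ t : ℝ, (-(s:ℂ) + t * Complex.I).re < -s1 := by intro t; rw [hre]; linarith
    have hlt0 : ∀ t : ℝ, (-(s:ℂ) + t * Complex.I).re < -s0 := by intro t; rw [hre]; linarith
    set γ : ℝ → ℂ := fun t => -(s:ℂ) + t * Complex.I with hγ
    have hγd : ∀ t, HasDerivAt γ Complex.I t := by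
      intro t
      have h1 : HasDerivAt (fun t : ℝ => (t : ℂ) * Complex.I) Complex.I t := by
        simpa using (Complex.ofRealCLM.hasDerivAt (x := t)).mul_const Complex.I
      exact h1.const_add _
    set ψ : ℝ → N → ℂ := fun t => fderiv ℝ φ (γ t) Complex.I with hψ
    have hφd : ∀ t, HasDerivAt (fun t => φ (γ t)) (ψ t) t := by
      intro t
      have h1 : HasFDerivAt φ (fderiv ℝ φ (γ t)) (γ t) :=
        ((hφ.contDiffAt (hopen.mem_nhds (hlt0 t))).differentiableAt (by norm_num)).hasFDerivAt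
      exact h1.comp_hasDerivAt t (hγd t)
    have hψc : Continuous ψ := by
      have h1 : ContinuousOn (fun w => fderiv ℝ φ w Complex.I) {w : ℂ | w.re < -s0} := by
        have h2 := hφ.continuousOn_fderiv_of_isOpen hopen le_rfl
        exact h2.clm_apply continuousOn_const
      have h3 : Continuous γ := by
        rw [hγ]; fun_prop
      exact h1.comp_continuous h3 hlt0
    -- integrate
    have hint : ∫ t in (0:ℝ)..(2 * Real.pi), Sf M u (ψ t) = Sf M u c := by
      have h1 : ∀ t ∈ uIcc (0:ℝ) (2 * Real.pi), HasDerivAt (fun t => Sf M u (φ (γ t)))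
          (Sf M u (ψ t)) t := by
        intro t _
        have h2 : HasFDerivAt (fun v => Sf M u v)
            ((LinearMap.toContinuousLinearMap (SfL M u)).restrictScalars ℝ) (φ (γ t)) :=
          ((LinearMap.toContinuousLinearMap (SfL M u)).restrictScalars ℝ).hasFDerivAt
        exact h2.comp_hasDerivAt t (hφd t)
      have h3 : IntervalIntegrable (fun t => Sf M u (ψ t)) volume 0 (2 * Real.pi) :=
        ((continuous_Sf M u).comp hψc).intervalIntegrable _ _
      rw [intervalIntegral.integral_eq_sub_of_hasDerivAt h1 h3]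
      have h4 : γ (2 * Real.pi) = γ 0 + 2 * Real.pi * Complex.I := by
        simp [hγ]
      rw [h4, hc _ (hlt0 0), Sf_add_right]
      have h5 : Sf M u (T *ᵥ φ (γ 0)) = Sf M u (φ (γ 0)) := by
        conv_lhs => rw [← hu]
        exact Sf_map hT _ _
      rw [h5]; ring
    -- pointwise bound
    have hpt : ∀ t, ‖Sf M u (ψ t)‖ ≤ (δ * |B| + q (γ t) (ψ t) / δ) / 2 := by
      intro t
      have h1 := hq (γ t) (hlt t) u (ψ t)
      have h2 := hB (γ t) (hlt t)
      have h3 := hq0 (γ t) (hlt t) (ψ t)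
      have h4 : ‖Sf M u (ψ t)‖ ^ 2 ≤ |B| * q (γ t) (ψ t) :=
        h1.trans (mul_le_mul_of_nonneg_right (h2.trans (le_abs_self B)) h3)
      have h5 : |B| * q (γ t) (ψ t) ≤ ((δ * |B| + q (γ t) (ψ t) / δ) / 2) ^ 2 := by
        have h6 : ((δ * |B| + q (γ t) (ψ t) / δ) / 2) ^ 2 - |B| * q (γ t) (ψ t)
            = ((δ * |B| - q (γ t) (ψ t) / δ) / 2) ^ 2 := by
          field_simp; ring
        nlinarith [sq_nonneg ((δ * |B| - q (γ t) (ψ t) / δ) / 2)]
      have h7 : 0 ≤ (δ * |B| + q (γ t) (ψ t) / δ) / 2 := by positivity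
      exact abs_le_of_sq_le_sq' (by linarith) h7 |>.2
    have h8 : ENNReal.ofReal ‖Sf M u c‖ ≤ ∫⁻ t in Ioc (0:ℝ) (2 * Real.pi),
        ENNReal.ofReal ((δ * |B| + q (γ t) (ψ t) / δ) / 2) := by
      rw [← hint]
      calc ENNReal.ofReal ‖∫ t in (0:ℝ)..(2 * Real.pi), Sf M u (ψ t)‖
          = ‖∫ t in (0:ℝ)..(2 * Real.pi), Sf M u (ψ t)‖ₑ := by rw [ofReal_norm]
        _ ≤ ∫⁻ t in Ioc (0:ℝ) (2 * Real.pi), ‖Sf M u (ψ t)‖ₑ := by
            rw [intervalIntegral.integral_of_le (by positivity)]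
            exact enorm_integral_le_lintegral_enorm _
        _ ≤ _ := by
            refine lintegral_mono fun t => ?_
            rw [← ofReal_norm]
            exact ENNReal.ofReal_le_ofReal (hpt t)
    have h9 : ∫⁻ t in Ioc (0:ℝ) (2 * Real.pi),
        ENNReal.ofReal ((δ * |B| + q (γ t) (ψ t) / δ) / 2)
        ≤ ENNReal.ofReal (δ * (Real.pi * |B| + 1)) := by
      have h10 : ∀ t, ENNReal.ofReal ((δ * |B| + q (γ t) (ψ t) / δ) / 2)
          = ENNReal.ofReal (δ * |B| / 2) + ENNReal.ofReal (1 / (2 * δ)) *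
            ENNReal.ofReal (q (γ t) (ψ t)) := by
        intro t
        have h3 := hq0 (γ t) (hlt t) (ψ t)
        rw [← ENNReal.ofReal_mul (by positivity), ← ENNReal.ofReal_add (by positivity) (by positivity)]
        congr 1
        field_simp
      simp_rw [h10]
      rw [lintegral_add_left measurable_const, lintegral_const_mul' _ _ ENNReal.ofReal_ne_top,
        setLIntegral_const, Real.volume_Ioc, sub_zero]
      calc ENNReal.ofReal (δ * |B| / 2) * ENNReal.ofReal (2 * Real.pi)
            + ENNReal.ofReal (1 / (2 * δ)) * ∫⁻ t in Ioc (0:ℝ) (2 * Real.pi),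
              ENNReal.ofReal (q (γ t) (ψ t))
          ≤ ENNReal.ofReal (δ * |B| / 2) * ENNReal.ofReal (2 * Real.pi)
            + ENNReal.ofReal (1 / (2 * δ)) * ENNReal.ofReal (δ ^ 2) := by
            gcongr
        _ = ENNReal.ofReal (δ * |B| / 2 * (2 * Real.pi) + 1 / (2 * δ) * δ ^ 2) := by
            rw [← ENNReal.ofReal_mul (by positivity), ← ENNReal.ofReal_mul (by positivity),
              ← ENNReal.ofReal_add (by positivity) (by positivity)]
        _ ≤ ENNReal.ofReal (δ * (Real.pi * |B| + 1)) := by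
            refine ENNReal.ofReal_le_ofReal ?_
            have : 1 / (2 * δ) * δ ^ 2 = δ / 2 := by field_simp
            rw [this]
            nlinarith [Real.pi_pos, abs_nonneg B]
    exact (ENNReal.ofReal_le_ofReal_iff (by positivity)).1 (h8.trans h9)
  have h0 : ‖Sf M u c‖ ≤ 0 := by
    refine le_of_forall_pos_le_add fun ε hε => ?_
    have h1 := key (ε / (Real.pi * |B| + 1)) (by positivity)
    rw [div_mul_cancel₀ _ (by positivity)] at h1
    linarith
  exact norm_le_zero_iff.1 h0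

end ends

/-! ### cut-offs -/

/-- the derivative of `Real.smoothTransition` is bounded -/
theorem exists_bound_deriv : ∃ C : ℝ, 0 < C ∧ ∀ t, |deriv Real.smoothTransition t| ≤ C := by
  have hc : Continuous (deriv Real.smoothTransition) :=
    (Real.smoothTransition.contDiff (n := 1)).continuous_deriv le_rfl
  obtain ⟨C, hC⟩ := (isCompact_Icc (a := (0:ℝ)) (b := 1)).exists_bound_of_continuousOn
    hc.continuousOn
  refine ⟨max C 1, lt_max_of_lt_right one_pos, fun t => ?_⟩
  by_cases h0 : t < 0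
  · have h1 : deriv Real.smoothTransition t = 0 := by
      have : Real.smoothTransition =ᶠ[𝓝 t] fun _ => (0:ℝ) := by
        filter_upwards [gt_mem_nhds h0] with x hx
        exact Real.smoothTransition.zero_of_nonpos hx.le
      rw [this.deriv_eq]; simp
    rw [h1, abs_zero]
    exact le_max_of_le_right zero_le_one
  · by_cases h1 : 1 < t
    · have h2 : deriv Real.smoothTransition t = 0 := by
        have : Real.smoothTransition =ᶠ[𝓝 t] fun _ => (1:ℝ) := by
          filter_upwards [lt_mem_nhds h1] with x hx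
          exact Real.smoothTransition.one_of_one_le hx.le
        rw [this.deriv_eq]; simp
      rw [h2, abs_zero]
      exact le_max_of_le_right zero_le_one
    · push Not at h0 h1
      exact (hC t ⟨h0, h1⟩).trans (le_max_left _ _)

/-- cut-off functions: `1` up to `n`, `0` from `2 n` on, derivative `≤ C / n` -/
theorem exists_cutoff : ∃ C : ℝ, 0 < C ∧ ∀ n : ℝ, 0 < n → ∃ l : ℝ → ℝ, ContDiff ℝ ∞ l ∧
    (∀ s, 0 ≤ l s ∧ l s ≤ 1) ∧ (∀ s, s ≤ n → l s = 1) ∧ (∀ s, 2 * n ≤ s → l s = 0) ∧
    (∀ s, |deriv l s| ≤ C / n) ∧ (∀ s, s < n → deriv l s = 0) ∧ (∀ s, 2 * n < s → deriv l s = 0) := by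
  obtain ⟨C, hC, hCb⟩ := exists_bound_deriv
  refine ⟨C, hC, fun n hn => ⟨fun s => Real.smoothTransition (2 - s / n), ?_, ?_, ?_, ?_, ?_, ?_, ?_⟩⟩
  · exact Real.smoothTransition.contDiff.comp (contDiff_const.sub (contDiff_id.div_const n))
  · exact fun s => ⟨Real.smoothTransition.nonneg _, Real.smoothTransition.le_one _⟩
  · intro s hs
    refine Real.smoothTransition.one_of_one_le ?_
    have : s / n ≤ 1 := (div_le_one hn).2 hs
    linarith
  · intro s hs
    refine Real.smoothTransition.zero_of_nonpos ?_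
    have : 2 ≤ s / n := (le_div_iff₀ hn).2 hs
    linarith
  · intro s
    have h1 : HasDerivAt (fun s : ℝ => 2 - s / n) (-(1 / n)) s := by
      simpa using ((hasDerivAt_id s).div_const n).const_sub 2
    have h2 : HasDerivAt Real.smoothTransition (deriv Real.smoothTransition (2 - s / n))
        (2 - s / n) :=
      ((Real.smoothTransition.contDiff (n := 1)).differentiable (by norm_num) _).hasDerivAt
    have h3 : deriv (fun s : ℝ => Real.smoothTransition (2 - s / n)) s =
        deriv Real.smoothTransition (2 - s / n) * -(1 / n) := by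
      have h4 := h2.comp s h1
      exact HasDerivAt.deriv (f := fun s : ℝ => Real.smoothTransition (2 - s / n)) h4
    rw [h3, abs_mul, abs_neg, abs_of_pos (by positivity : 0 < 1 / n)]
    calc |deriv Real.smoothTransition (2 - s / n)| * (1 / n) ≤ C * (1 / n) := by
          have := hCb (2 - s / n)
          gcongr
      _ = C / n := by ring
  · intro s hs
    have : (fun s => Real.smoothTransition (2 - s / n)) =ᶠ[𝓝 s] fun _ => (1:ℝ) := by
      filter_upwards [gt_mem_nhds hs] with x hx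
      refine Real.smoothTransition.one_of_one_le ?_
      have : x / n ≤ 1 := (div_le_one hn).2 (le_of_lt hx)
      linarith
    rw [this.deriv_eq]; simp
  · intro s hs
    have : (fun s => Real.smoothTransition (2 - s / n)) =ᶠ[𝓝 s] fun _ => (0:ℝ) := by
      filter_upwards [lt_mem_nhds hs] with x hx
      refine Real.smoothTransition.zero_of_nonpos ?_
      have : 2 ≤ x / n := (le_div_iff₀ hn).2 (le_of_lt hx)
      linarith
    rw [this.deriv_eq]; simp

/-- **step (4) on an end**: cut-offs of small energy against a bounded weight `q` -/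
theorem cutoff {s1 B : ℝ} {q : ℂ → ℝ} (hB : ∀ w : ℂ, w.re < -s1 → q w ≤ B)
    {R : ℝ} {ε : ENNReal} (hε : 0 < ε) :
    ∃ (l : ℝ → ℝ) (R' : ℝ), ContDiff ℝ ∞ l ∧ (∀ s, 0 ≤ l s ∧ l s ≤ 1) ∧ (∀ s, s ≤ R → l s = 1) ∧
      (∀ s, R' ≤ s → l s = 0) ∧ (∀ s, s ≤ R → deriv l s = 0) ∧
      ∫⁻ s in Ioi s1, ∫⁻ t in Ioc (0:ℝ) (2 * Real.pi),
        ENNReal.ofReal ((deriv l s) ^ 2 * q (-(s:ℂ) + t * Complex.I)) < ε := by
  obtain ⟨C, hC, hcut⟩ := exists_cutoff
  -- choose `n`
  have hlim : Tendsto (fun n : ℝ => ENNReal.ofReal (C ^ 2 * (|B| * (2 * Real.pi)) / n)) atTop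
      (𝓝 (ENNReal.ofReal 0)) :=
    ENNReal.tendsto_ofReal (tendsto_const_nhds.div_atTop tendsto_id)
  rw [ENNReal.ofReal_zero] at hlim
  obtain ⟨n, hn1, hn2, hn3, hn4⟩ := ((hlim.eventually_lt_const hε).and
    ((eventually_gt_atTop 0).and ((eventually_gt_atTop R).and (eventually_gt_atTop s1)))).exists
  obtain ⟨l, hl1, hl2, hl3, hl4, hl5, hl6, hl7⟩ := hcut n hn2
  refine ⟨l, 2 * n, hl1, hl2, fun s hs => hl3 s (hs.trans hn3.le), hl4,
    fun s hs => hl6 s (hs.trans_lt hn3), lt_of_le_of_lt ?_ hn1⟩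
  have h1 : ∀ s ∈ Ioi s1, ∫⁻ t in Ioc (0:ℝ) (2 * Real.pi),
      ENNReal.ofReal ((deriv l s) ^ 2 * q (-(s:ℂ) + t * Complex.I)) ≤
      (Icc n (2 * n)).indicator (fun _ => ENNReal.ofReal ((C / n) ^ 2 * |B| * (2 * Real.pi))) s := by
    intro s hs
    by_cases hmem : s ∈ Icc n (2 * n)
    · rw [indicator_of_mem hmem]
      calc ∫⁻ t in Ioc (0:ℝ) (2 * Real.pi),
            ENNReal.ofReal ((deriv l s) ^ 2 * q (-(s:ℂ) + t * Complex.I))
          ≤ ∫⁻ t in Ioc (0:ℝ) (2 * Real.pi), ENNReal.ofReal ((C / n) ^ 2 * |B|) := by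
            refine lintegral_mono fun t => ENNReal.ofReal_le_ofReal ?_
            have h2 : (deriv l s) ^ 2 ≤ (C / n) ^ 2 := by
              rw [← sq_abs]
              have := hl5 s
              gcongr
            have h3 : q (-(s:ℂ) + t * Complex.I) ≤ |B| := by
              refine (hB _ ?_).trans (le_abs_self B)
              simp only [Complex.add_re, Complex.neg_re, Complex.ofReal_re, Complex.mul_re,
                Complex.I_re, mul_zero, Complex.ofReal_im, Complex.I_im, mul_one, sub_self, add_zero]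
              have : s1 < s := hs
              linarith
            calc (deriv l s) ^ 2 * q (-(s:ℂ) + t * Complex.I) ≤ (deriv l s) ^ 2 * |B| :=
                  mul_le_mul_of_nonneg_left h3 (sq_nonneg _)
              _ ≤ (C / n) ^ 2 * |B| := mul_le_mul_of_nonneg_right h2 (abs_nonneg _)
        _ = ENNReal.ofReal ((C / n) ^ 2 * |B| * (2 * Real.pi)) := by
            rw [setLIntegral_const, Real.volume_Ioc, sub_zero, ← ENNReal.ofReal_mul (by positivity)]
    · rw [indicator_of_notMem hmem]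
      have h2 : deriv l s = 0 := by
        rw [mem_Icc, not_and_or, not_le, not_le] at hmem
        rcases hmem with h | h
        · exact hl6 s h
        · exact hl7 s h
      simp [h2]
  calc ∫⁻ s in Ioi s1, ∫⁻ t in Ioc (0:ℝ) (2 * Real.pi),
        ENNReal.ofReal ((deriv l s) ^ 2 * q (-(s:ℂ) + t * Complex.I))
      ≤ ∫⁻ s in Ioi s1, (Icc n (2 * n)).indicator
          (fun _ => ENNReal.ofReal ((C / n) ^ 2 * |B| * (2 * Real.pi))) s :=
        setLIntegral_mono' measurableSet_Ioi h1
    _ ≤ ∫⁻ s, (Icc n (2 * n)).indicator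
          (fun _ => ENNReal.ofReal ((C / n) ^ 2 * |B| * (2 * Real.pi))) s := setLIntegral_le_lintegral _ _
    _ = ENNReal.ofReal (C ^ 2 * (|B| * (2 * Real.pi)) / n) := by
        rw [lintegral_indicator measurableSet_Icc, setLIntegral_const, Real.volume_Icc,
          ← ENNReal.ofReal_mul (by positivity)]
        congr 1
        field_simp
        ring

end Crest.Agent.R276.EndL2_659
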