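import Crest.Agent.R276.EndC_659
import Crest.Agent.R276.EndL2_659
import Crest.Agent.R276.IpcLoc_735

/-!
# R276, task IPC-234 (helper659): steps (2), (3), (4) and the Ahlfors bound on the normal form `EndNF`

`n : EndNF N w s0`, `n.H u = hodge w n.S (n.E u)` the Hodge metric at `u`, `Re u < -s0`.
* `gg_le` : `|θ|² ≤ cst / (-s0 - Re u)²`;
* `nq_per` : `|T v|_{u + 2 π i} = |v|_u`;
* `bounded_flat` (2), `par` (3), `cutoff` (4).
-/

set_option autoImplicit false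
set_option linter.unusedSectionVars false

open Set Filter Topology Matrix Finset MeasureTheory
open scoped ContDiff ComplexConjugate ComplexOrder

namespace Crest.Agent.R276.EndF_659

open Crest.Agent.R276.VCalc_442 Crest.Agent.R276.EndTh_659 Crest.Agent.R276.Ipc735

section cs

variable {ι : Type*} [Fintype ι] [DecidableEq ι]

/-- Cauchy-Schwarz for a positive definite matrix -/
theorem nq_cs {K : Matrix ι ι ℂ} (hK : K.PosDef) (u v : ι → ℂ) :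
    ‖star u ⬝ᵥ (K *ᵥ v)‖ ^ 2 ≤ nq K u * nq K v := by
  obtain ⟨B, -, hB⟩ := exists_sqrt hK
  have h1 : star u ⬝ᵥ (K *ᵥ v) = star (B *ᵥ u) ⬝ᵥ (B *ᵥ v) := by
    rw [hB, Matrix.star_mulVec, ← Matrix.mulVec_mulVec, Matrix.dotProduct_mulVec]
  rw [h1, nq_eq hB, nq_eq hB]
  have h2 : ‖star (B *ᵥ u) ⬝ᵥ (B *ᵥ v)‖ ≤ ∑ i, ‖(B *ᵥ u) i‖ * ‖(B *ᵥ v) i‖ := by
    rw [dotProduct]
    refine (norm_sum_le _ _).trans (Finset.sum_le_sum fun i _ => ?_)
    rw [norm_mul, Pi.star_apply, norm_star]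
  exact (pow_le_pow_left₀ (norm_nonneg _) h2 2).trans (Finset.sum_mul_sq_le_sq_mul_sq _ _ _)

variable {X : Type*} [NormedAddCommGroup X] [NormedSpace ℂ X]
variable {w : ℕ} {U : Set X} {S : Matrix ι ι ℂ} {P : ℕ → X → Matrix ι ι ℂ} {x : X}

/-- the flat form is bounded by the Hodge norms -/
theorem nq_cs_flat (h : VCalc_442.VHS w U S P) (hx : x ∈ U) (u v : ι → ℂ) :
    ‖star u ⬝ᵥ (S *ᵥ v)‖ ^ 2 ≤ nq (VCalc_442.hm w S P x) u * nq (VCalc_442.hm w S P x) v := by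
  have hC := h.C_mul_C hx
  have hK := h.hmPos hx
  have e1 : S = hm w S P x * sgOp w P x := by
    rw [hm, mul_assoc, hC, mul_one]
  have e2 : (sgOp w P x)ᴴ * (hm w S P x * sgOp w P x) = hm w S P x := by
    rw [← e1, h.adjC hx]
    rfl
  have e3 : nq (hm w S P x) (sgOp w P x *ᵥ v) = nq (hm w S P x) v := by
    conv_rhs => rw [nq, ← e2]
    rw [nq, Matrix.star_mulVec, ← Matrix.dotProduct_mulVec, Matrix.mulVec_mulVec,
      Matrix.mulVec_mulVec, mul_assoc]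
  have h1 := nq_cs hK u (sgOp w P x *ᵥ v)
  rw [Matrix.mulVec_mulVec, ← e1, e3] at h1
  exact h1

end cs

variable {N w : ℕ} {s0 : ℝ}

/-- the projectors of the normal form -/
noncomputable def Pn (n : EndNF N w s0) (p : ℕ) (u : ℂ) : Matrix (Fin N) (Fin N) ℂ := hq w (n.E u) p

/-- the Hodge metric -/
noncomputable def H (n : EndNF N w s0) (u : ℂ) : Matrix (Fin N) (Fin N) ℂ := hodge w n.S (n.E u)

theorem vhs (n : EndNF N w s0) : VCalc_442.VHS w {u : ℂ | u.re < -s0} n.S (Pn n) := n.toVCalc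

theorem hm_eq (n : EndNF N w s0) (u : ℂ) : VCalc_442.hm w n.S (Pn n) u = H n u := by
  unfold VCalc_442.hm H hodge Pn
  rw [sgOp_hq]

theorem grOp_eq (n : EndNF N w s0) {u : ℂ} (hu : u.re < -s0) : grOp w (Pn n) u = n.E u :=
  grOp_hq (n.hs u hu)

theorem H_posDef (n : EndNF N w s0) {u : ℂ} (hu : u.re < -s0) : (H n u).PosDef := by
  rw [← hm_eq]
  exact (vhs n).hmPos hu

theorem H_conj (n : EndNF N w s0) {u : ℂ} (hu : u.re < -s0) :
    (cm n.T)ᴴ * H n (u + 2 * Real.pi * Complex.I) * cm n.T = H n u := by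
  have hT' : cm n.T⁻¹ * cm n.T = 1 := cm_inv_mul_cm _
  have hT : cm n.T * cm n.T⁻¹ = 1 := cm_mul_cm_inv _
  unfold H hodge
  rw [n.per u hu]
  have h2 : weil w (cm n.T * n.E u * cm n.T⁻¹) = cm n.T * weil w (n.E u) * cm n.T⁻¹ :=
    weil_conj hT hT' w
  rw [h2]
  calc (cm n.T)ᴴ * (n.S * (cm n.T * weil w (n.E u) * cm n.T⁻¹)) * cm n.T
      = ((cm n.T)ᴴ * n.S * cm n.T) * weil w (n.E u) * (cm n.T⁻¹ * cm n.T) := by noncomm_ring
    _ = n.S * weil w (n.E u) := by rw [n.TS, hT', mul_one]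

/-- `|T v|_{u + 2 π i} = |v|_u` -/
theorem nq_per (n : EndNF N w s0) {u : ℂ} (hu : u.re < -s0) (v : Fin N → ℂ) :
    nq (H n (u + 2 * Real.pi * Complex.I)) (cm n.T *ᵥ v) = nq (H n u) v := by
  rw [← H_conj n hu, nq, nq, Matrix.star_mulVec, ← Matrix.dotProduct_mulVec, Matrix.mulVec_mulVec,
    Matrix.mulVec_mulVec, mul_assoc]

/-- the density of the Higgs field -/
noncomputable def g (n : EndNF N w s0) (u : ℂ) : ℝ := gg w (Pn n) 1 u

/-- **Ahlfors-Schwarz on the normal form** -/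
theorem gg_le (n : EndNF N w s0) {u : ℂ} (hu : u.re < -s0) :
    g n u ≤ cst (Fin N) / (-s0 - u.re) ^ 2 := gg_le_halfplane (vhs n) hu

/-- **step (2)**: an invariant flat section is bounded near the end -/
theorem bounded_flat (n : EndNF N w s0) {s1 : ℝ} (h01 : s0 < s1) (h1 : 0 < s1) {v : Fin N → ℂ}
    (hv : cm n.T *ᵥ v = v) : ∃ B, ∀ u : ℂ, u.re ≤ -s1 → nq (H n u) v ≤ B := by
  have h2 := EndC_659.bounded_flat h01 h1 (vhs n) v (fun z hz => by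
    rw [hm_eq, hm_eq]
    conv_lhs => rw [← hv]
    exact nq_per n hz v)
  obtain ⟨B, hB⟩ := h2
  exact ⟨B, fun u hu => by rw [← hm_eq]; exact hB u hu⟩

theorem cm_det (T : GL (Fin N) ℤ) : IsUnit (cm T).det :=
  (Matrix.isUnit_iff_isUnit_det _).1 (cm_isUnit T)

/-- **step (3)**: the period of a closed `L²` form is in the image of `T - 1` -/
theorem par (n : EndNF N w s0) {s1 : ℝ} (h01 : s0 < s1) (h1 : 0 < s1) {φ : ℂ → Fin N → ℂ}
    (hφ : ContDiffOn ℝ 1 φ {u : ℂ | u.re < -s0}) {c : Fin N → ℂ}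
    (hc : ∀ u : ℂ, u.re < -s0 → φ (u + 2 * Real.pi * Complex.I) = cm n.T *ᵥ φ u + c)
    (hL2 : ∫⁻ s in Ioi s1, ∫⁻ t in Ioc (0:ℝ) (2 * Real.pi), ENNReal.ofReal
      (nq (H n (-(s:ℂ) + t * Complex.I)) (fderiv ℝ φ (-(s:ℂ) + t * Complex.I) Complex.I)) < ⊤) :
    ∃ v, c = cm n.T *ᵥ v - v := by
  have hmem : ∀ u : ℂ, u.re < -s1 → u ∈ {u : ℂ | u.re < -s0} := by
    intro u hu
    show u.re < -s0
    linarith
  refine EndL2_659.end3 (s0 := s0) (s1 := s1) h01.le (M := n.S) (T := cm n.T)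
    (q := fun u v => nq (H n u) v) ?_ n.TS ?_ ?_ ?_ hφ hc hL2
  · have h2 := (vhs n).S_unit (x := ((-s1 - 1 : ℝ) : ℂ)) (hmem _ (by simp))
    exact (Matrix.isUnit_iff_isUnit_det _).1 h2
  · intro u hu a b
    have h2 := nq_cs_flat (vhs n) (hmem u hu) a b
    rw [hm_eq] at h2
    exact h2
  · intro u hu a
    exact nq_nonneg (H_posDef n (hmem u hu)) a
  · intro v hv
    obtain ⟨B, hB⟩ := bounded_flat n h01 h1 hv
    exact ⟨B, fun u hu => hB u hu.le⟩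

/-- **step (4)**: cut-off functions for an invariant flat section -/
theorem cutoff (n : EndNF N w s0) {s1 : ℝ} (h01 : s0 < s1) (h1 : 0 < s1) {v : Fin N → ℂ}
    (hv : cm n.T *ᵥ v = v) (R : ℝ) {ε : ENNReal} (hε : 0 < ε) :
    ∃ (l : ℝ → ℝ) (R' : ℝ), ContDiff ℝ ∞ l ∧ (∀ s, 0 ≤ l s ∧ l s ≤ 1) ∧ (∀ s, s ≤ R → l s = 1) ∧
      (∀ s, R' ≤ s → l s = 0) ∧ (∀ s, s ≤ R → deriv l s = 0) ∧
      ∫⁻ s in Ioi s1, ∫⁻ t in Ioc (0:ℝ) (2 * Real.pi),
        ENNReal.ofReal ((deriv l s) ^ 2 * nq (H n (-(s:ℂ) + t * Complex.I)) v) < ε := by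
  obtain ⟨B, hB⟩ := bounded_flat n h01 h1 hv
  exact EndL2_659.cutoff (s1 := s1) (B := B) (q := fun u => nq (H n u) v) (fun u hu => hB u hu.le) hε

end Crest.Agent.R276.EndF_659
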