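import Mathlib

/-!
# R276, leaf END (helper663): the real-variable core of step (5) of the one-step theorem (IPC)

On an end of the curve (cylinder coordinate `s ≥ s0 > 0`) put
`a = ∮ |φ|²`, `e = ∮ |Dφ|²`, `f = Re ∮ ⟨D_s φ, φ⟩`, `g = - ∮ ⟨Θ_s φ, φ⟩`, `t = ∮ |Θ φ|²`.
The hypotheses collected in `EndData` are the pointwise identities and Cauchy-Schwarz
inequalities; `EndData.tendsto_zero` says that the flux `f` tends to `0`.
No integrals are used: `∫ e < ∞` is replaced by "`f` is bounded above".
Also: convex functions of logarithmic growth are nonincreasing (`antitoneOn_of_convexOn_log`).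
-/

set_option autoImplicit false

open Filter Topology Set

namespace Crest.Agent.R276.EndL_663

/-- the data on one end -/
structure EndData (s0 C : ℝ) (a e f g g' t : ℝ → ℝ) : Prop where
  s0_pos : 0 < s0
  hf : ∀ s, s0 ≤ s → HasDerivAt f (e s) s
  ha : ∀ s, s0 ≤ s → HasDerivAt a (2 * f s + 2 * g s) s
  hg : ∀ s, s0 ≤ s → HasDerivAt g (g' s) s
  hg' : ∀ s, s0 ≤ s → 2 * t s - 2 * √(e s * t s) ≤ g' s
  a0 : ∀ s, s0 ≤ s → 0 ≤ a s
  e0 : ∀ s, s0 ≤ s → 0 ≤ e s
  t0 : ∀ s, s0 ≤ s → 0 ≤ t s
  fa : ∀ s, s0 ≤ s → f s ^ 2 ≤ a s * e s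
  ga : ∀ s, s0 ≤ s → g s ^ 2 ≤ a s * t s
  tC : ∀ s, s0 ≤ s → t s ≤ (C / s) ^ 2 * a s
  fb : ∃ B, ∀ s, s0 ≤ s → f s ≤ B

/-- a function with nonnegative derivative on `[s0, ∞)` is monotone there -/
theorem mono_of_deriv {s0 : ℝ} {f f' : ℝ → ℝ} (hf : ∀ s, s0 ≤ s → HasDerivAt f (f' s) s)
    (h : ∀ s, s0 ≤ s → 0 ≤ f' s) : MonotoneOn f (Ici s0) := by
  apply monotoneOn_of_deriv_nonneg (convex_Ici s0)
  · exact fun s hs => (hf s hs).continuousAt.continuousWithinAt
  · intro s hs
    rw [interior_Ici] at hs
    exact (hf s (le_of_lt hs)).differentiableAt.differentiableWithinAt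
  · intro s hs
    rw [interior_Ici] at hs
    rw [(hf s (le_of_lt hs)).deriv]
    exact h s (le_of_lt hs)

variable {s0 C : ℝ} {a e f g g' t : ℝ → ℝ}

theorem sqrt_et (x y : ℝ) (hx : 0 ≤ x) (hy : 0 ≤ y) : 4 * √(x * y) ≤ 2 * x + 2 * y + 0 := by
  rw [Real.sqrt_mul hx]
  nlinarith [sq_nonneg (√x - √y), Real.sq_sqrt hx, Real.sq_sqrt hy]

namespace EndData

theorem f_mono (h : EndData s0 C a e f g g' t) : MonotoneOn f (Ici s0) :=
  mono_of_deriv h.hf h.e0

/-- `a` is convex: its derivative is monotone -/
theorem p_mono (h : EndData s0 C a e f g g' t) :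
    MonotoneOn (fun s => 2 * f s + 2 * g s) (Ici s0) := by
  apply mono_of_deriv (f' := fun s => 2 * e s + 2 * g' s)
  · intro s hs
    exact ((h.hf s hs).const_mul 2).add ((h.hg s hs).const_mul 2)
  · intro s hs
    have h1 := h.hg' s hs
    have h2 := sqrt_et (e s) (t s) (h.e0 s hs) (h.t0 s hs)
    have h3 := h.t0 s hs
    nlinarith

/-- if `a` is `O(s)` then the flux tends to `0` -/
theorem tendsto_zero_of_le (h : EndData s0 C a e f g g' t) {M s1 : ℝ} (hs1 : s0 ≤ s1)
    (hM : ∀ s, s1 ≤ s → a s ≤ M * s) : Tendsto f atTop (𝓝 0) := by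
  obtain ⟨B, hB⟩ := h.fb
  have hs1p : 0 < s1 := lt_of_lt_of_le h.s0_pos hs1
  -- the limit
  have hF : Monotone (fun s => f (max s s0)) := by
    intro x y hxy
    exact h.f_mono (mem_Ici.2 (le_max_right _ _)) (mem_Ici.2 (le_max_right _ _))
      (max_le_max_right _ hxy)
  have hFb : BddAbove (range fun s => f (max s s0)) := by
    refine ⟨B, ?_⟩
    rintro _ ⟨s, rfl⟩
    exact hB _ (le_max_right _ _)
  have hlim := tendsto_atTop_ciSup hF hFb
  set l := ⨆ s, f (max s s0) with hl
  have hlim' : Tendsto f atTop (𝓝 l) := by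
    refine hlim.congr' ?_
    filter_upwards [eventually_ge_atTop s0] with s hs
    rw [max_eq_left hs]
  by_cases hl0 : l = 0
  · rwa [hl0] at hlim'
  exfalso
  -- `f ^ 2 ≥ c` eventually
  have hl2 : 0 < l ^ 2 / 2 := by positivity
  have hsq : Tendsto (fun s => f s ^ 2) atTop (𝓝 (l ^ 2)) := hlim'.pow 2
  have hev : ∀ᶠ s in atTop, l ^ 2 / 2 < f s ^ 2 :=
    hsq.eventually (lt_mem_nhds (by linarith))
  obtain ⟨s2, hs2⟩ := eventually_atTop.1 hev
  set s3 := max s1 s2 with hs3
  have hs31 : s1 ≤ s3 := le_max_left _ _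
  have hs32 : s2 ≤ s3 := le_max_right _ _
  have hs3p : 0 < s3 := lt_of_lt_of_le hs1p hs31
  have hs30 : s0 ≤ s3 := hs1.trans hs31
  set c := l ^ 2 / 2 with hc
  -- M is positive
  have hMpos : 0 < M := by
    by_contra hneg
    push Not at hneg
    have h1 : a s3 ≤ 0 := by
      have := hM s3 hs31
      nlinarith
    have h2 : a s3 = 0 := le_antisymm h1 (h.a0 s3 hs30)
    have h3 := h.fa s3 hs30
    have h4 := hs2 s3 hs32
    rw [h2, zero_mul] at h3
    linarith
  -- `e ≥ c / (M s)`
  have he : ∀ s, s3 ≤ s → c / M / s ≤ e s := by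
    intro s hs
    have hsp : 0 < s := lt_of_lt_of_le hs3p hs
    have h1 := h.fa s (hs30.trans hs)
    have h2 := hs2 s (hs32.trans hs)
    have h3 := hM s (hs31.trans hs)
    have h4 : a s * e s ≤ M * s * e s :=
      mul_le_mul_of_nonneg_right h3 (h.e0 s (hs30.trans hs))
    rw [div_div, div_le_iff₀ (by positivity)]
    nlinarith
  -- compare with the logarithm
  have hmono : MonotoneOn (fun s => f s - c / M * Real.log s) (Ici s3) := by
    apply mono_of_deriv (f' := fun s => e s - c / M * s⁻¹)
    · intro s hs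
      exact (h.hf s (hs30.trans hs)).sub
        ((Real.hasDerivAt_log (ne_of_gt (lt_of_lt_of_le hs3p hs))).const_mul _)
    · intro s hs
      have := he s hs
      rw [div_eq_mul_inv] at this
      simpa using this
  have hcM : 0 < c / M := div_pos hl2 hMpos
  have htend : Tendsto (fun s => f s3 - c / M * Real.log s3 + c / M * Real.log s) atTop atTop :=
    tendsto_atTop_add_const_left _ _ (Real.tendsto_log_atTop.const_mul_atTop hcM)
  obtain ⟨s4, hs4, hs4'⟩ :=
    ((htend.eventually_gt_atTop B).and (eventually_ge_atTop s3)).exists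
  have h1 := hmono (mem_Ici.2 le_rfl) (mem_Ici.2 hs4') hs4'
  have h2 := hB s4 (hs30.trans hs4')
  simp only at h1
  linarith

/-- the growth estimate: `a = O(s)` -/
theorem exists_bound (h : EndData s0 C a e f g g' t) :
    ∃ M s1, s0 ≤ s1 ∧ ∀ s, s1 ≤ s → a s ≤ M * s := by
  obtain ⟨B, hB⟩ := h.fb
  by_cases hp : ∀ s, s0 ≤ s → 2 * f s + 2 * g s ≤ 0
  · -- `a` is nonincreasing
    refine ⟨a s0 / s0, s0, le_rfl, fun s hs => ?_⟩
    have hanti : MonotoneOn (fun s => - a s) (Ici s0) := by
      apply mono_of_deriv (f' := fun s => -(2 * f s + 2 * g s))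
      · intro s hs
        exact (h.ha s hs).neg
      · intro s hs
        have := hp s hs
        linarith
    have h1 := hanti (mem_Ici.2 le_rfl) (mem_Ici.2 hs) hs
    simp only at h1
    have h2 : a s ≤ a s0 := by linarith
    have h3 : a s0 * s0 ≤ a s0 * s := mul_le_mul_of_nonneg_left hs (h.a0 s0 le_rfl)
    have h4 : a s0 ≤ a s0 / s0 * s := by
      rw [div_mul_eq_mul_div, le_div_iff₀ h.s0_pos]
      exact h3
    exact h2.trans h4
  · push Not at hp
    obtain ⟨s1, hs1, hps1⟩ := hp
    have hs1p : 0 < s1 := lt_of_lt_of_le h.s0_pos hs1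
    -- `a' ≥ p(s1) > 0` on `[s1, ∞)`
    have hpos : ∀ s, s1 ≤ s → 0 < 2 * f s + 2 * g s := by
      intro s hs
      have := h.p_mono (mem_Ici.2 hs1) (mem_Ici.2 (hs1.trans hs)) hs
      simp only at this
      linarith
    have hamono : MonotoneOn a (Ici s1) :=
      mono_of_deriv (fun s hs => h.ha s (hs1.trans hs)) (fun s hs => (hpos s hs).le)
    set s2 := s1 + 1 with hs2
    have hs12 : s1 ≤ s2 := by linarith
    have hs2p : 0 < s2 := by linarith
    have hs02 : s0 ≤ s2 := hs1.trans hs12
    have ha_pos : ∀ s, s2 ≤ s → 0 < a s := by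
      intro s hs
      -- strict increase
      have hmono' : MonotoneOn (fun s => a s - (2 * f s1 + 2 * g s1) * s) (Ici s1) := by
        apply mono_of_deriv (f' := fun s => (2 * f s + 2 * g s) - (2 * f s1 + 2 * g s1) * 1)
        · intro s hs
          exact (h.ha s (hs1.trans hs)).sub ((hasDerivAt_id s).const_mul _)
        · intro s hs
          have := h.p_mono (mem_Ici.2 hs1) (mem_Ici.2 (hs1.trans hs)) hs
          simp only at this ⊢
          linarith
      have h1 := hmono' (mem_Ici.2 le_rfl) (mem_Ici.2 (hs12.trans hs)) (hs12.trans hs)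
      simp only at h1
      have h2 := h.a0 s1 hs1
      have h3 : (1 : ℝ) ≤ s - s1 := by linarith
      nlinarith [hpos s1 le_rfl]
    -- the bound for `|g|`
    have hgC : ∀ s, s2 ≤ s → |g s| ≤ |C| / s * a s := by
      intro s hs
      have hsp : 0 < s := lt_of_lt_of_le hs2p hs
      have h1 := h.ga s (hs02.trans hs)
      have h2 := h.tC s (hs02.trans hs)
      have h3 := (ha_pos s hs)
      apply abs_le_of_sq_le_sq
      · calc g s ^ 2 ≤ a s * t s := h1
          _ ≤ a s * ((C / s) ^ 2 * a s) := mul_le_mul_of_nonneg_left h2 h3.le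
          _ = (|C| / s * a s) ^ 2 := by
            rw [mul_pow, div_pow, div_pow, sq_abs]; ring
      · positivity
    -- the key differential inequality, integrated
    have hkey : ∀ s, s2 ≤ s → ∀ lam : ℝ, 0 < lam →
        g s / a s ≤ lam * (B - f s) + 4 * C ^ 2 / (lam * a s) / s := by
      intro s hs lam hlam
      have hsp : 0 < s := lt_of_lt_of_le hs2p hs
      have has := ha_pos s hs
      set D := 4 * C ^ 2 / (lam * a s) with hD
      have hD0 : 0 ≤ D := by positivity
      have hmono' : MonotoneOn (fun u => g u / a u + lam * f u - D * u⁻¹) (Ici s) := by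
        apply mono_of_deriv (f' := fun u =>
          (g' u * a u - g u * (2 * f u + 2 * g u)) / a u ^ 2 + lam * e u - D * (-(u ^ 2)⁻¹))
        · intro u hu
          have hu2 : s2 ≤ u := hs.trans hu
          have hup : 0 < u := lt_of_lt_of_le hsp hu
          have h1 := (h.hg u (hs02.trans hu2)).div (h.ha u (hs02.trans hu2))
            (ne_of_gt (ha_pos u hu2))
          exact (h1.add ((h.hf u (hs02.trans hu2)).const_mul lam)).sub
            ((hasDerivAt_inv (ne_of_gt hup)).const_mul D)
        · intro u hu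
          have hu2 : s2 ≤ u := hs.trans hu
          have hup : 0 < u := lt_of_lt_of_le hsp hu
          have hu0 : s0 ≤ u := hs02.trans hu2
          have hau := ha_pos u hu2
          have hle : a s ≤ a u := hamono (mem_Ici.2 (hs12.trans hs)) (mem_Ici.2 (hs12.trans hu2)) hu
          have heu := h.e0 u hu0
          have htu := h.t0 u hu0
          have h1 := h.hg' u hu0
          have h2 := h.ga u hu0
          have h3 := h.fa u hu0
          have h4 := h.tC u hu0
          -- `|g f| ≤ a √(e t)`
          set w := √(e u * t u) with hw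
          have hw0 : 0 ≤ w := Real.sqrt_nonneg _
          have hw2 : w ^ 2 = e u * t u := Real.sq_sqrt (mul_nonneg heu htu)
          have h5 : |g u * f u| ≤ a u * w := by
            apply abs_le_of_sq_le_sq
            · calc (g u * f u) ^ 2 = g u ^ 2 * f u ^ 2 := by ring
                _ ≤ (a u * t u) * (a u * e u) :=
                  mul_le_mul h2 h3 (sq_nonneg _) (mul_nonneg hau.le htu)
                _ = (a u * w) ^ 2 := by rw [mul_pow, hw2]; ring
            · positivity
          have h6 : g u * f u ≤ a u * w := le_trans (le_abs_self _) h5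
          -- numerator
          have h7 : -4 * w * a u ≤ g' u * a u - g u * (2 * f u + 2 * g u) := by
            have h8 : (2 * t u - 2 * w) * a u ≤ g' u * a u :=
              mul_le_mul_of_nonneg_right h1 hau.le
            nlinarith
          have h9 : -4 * w / a u ≤ (g' u * a u - g u * (2 * f u + 2 * g u)) / a u ^ 2 := by
            rw [div_le_div_iff₀ hau (by positivity)]
            nlinarith [mul_le_mul_of_nonneg_right h7 hau.le]
          -- AM-GM
          have h10 : 4 * w / a u ≤ lam * e u + 4 * t u / (lam * a u ^ 2) := by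
            have h11 : (4 * w / a u) ^ 2 ≤ (lam * e u + 4 * t u / (lam * a u ^ 2)) ^ 2 := by
              have h12 : (4 * w / a u) ^ 2 = 4 * (lam * e u) * (4 * t u / (lam * a u ^ 2)) := by
                rw [div_pow, mul_pow, hw2]
                field_simp
              rw [h12]
              nlinarith [sq_nonneg (lam * e u - 4 * t u / (lam * a u ^ 2))]
            have h13 : 0 ≤ lam * e u + 4 * t u / (lam * a u ^ 2) := by positivity
            exact le_trans (le_abs_self _) (abs_le_of_sq_le_sq h11 h13)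
          have h14 : 4 * t u / (lam * a u ^ 2) ≤ D * (u ^ 2)⁻¹ := by
            rw [hD, div_mul_eq_mul_div, div_le_div_iff₀ (by positivity) (by positivity)]
            have h15 : t u ≤ C ^ 2 * (u ^ 2)⁻¹ * a u := by
              rw [div_pow, div_eq_mul_inv] at h4
              exact h4
            have h16 : 4 * t u * (lam * a s) ≤ 4 * t u * (lam * a u) :=
              mul_le_mul_of_nonneg_left (mul_le_mul_of_nonneg_left hle hlam.le) (by positivity)
            calc 4 * t u * (lam * a s) ≤ 4 * t u * (lam * a u) := h16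
              _ ≤ 4 * (C ^ 2 * (u ^ 2)⁻¹ * a u) * (lam * a u) :=
                mul_le_mul_of_nonneg_right (by linarith) (by positivity)
              _ = 4 * C ^ 2 * (u ^ 2)⁻¹ * (lam * a u ^ 2) := by ring
          have h17 : (-4 * w) / a u = - (4 * w / a u) := by ring
          rw [h17] at h9
          linarith
      -- compare `s` with a large `u`
      have hlimit : ∀ u, s ≤ u → g s / a s + lam * f s - D * s⁻¹ ≤ |C| / u + lam * B := by
        intro u hu
        have hu2 : s2 ≤ u := hs.trans hu
        have hup : 0 < u := lt_of_lt_of_le hsp hu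
        have h1 := hmono' (mem_Ici.2 le_rfl) (mem_Ici.2 hu) hu
        simp only at h1
        have h2 : g u / a u ≤ |C| / u := by
          rw [div_le_iff₀ (ha_pos u hu2)]
          exact le_trans (le_abs_self _) (hgC u hu2)
        have h3 : lam * f u ≤ lam * B := mul_le_mul_of_nonneg_left (hB u (hs02.trans hu2)) hlam.le
        have h4 : 0 ≤ D * u⁻¹ := by positivity
        linarith
      have hlim0 : Tendsto (fun u : ℝ => |C| / u + lam * B) atTop (𝓝 (0 + lam * B)) :=
        (tendsto_const_nhds.div_atTop tendsto_id).add_const _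
      have hfin : g s / a s + lam * f s - D * s⁻¹ ≤ 0 + lam * B :=
        ge_of_tendsto hlim0 (by
          filter_upwards [eventually_ge_atTop s] with u hu
          exact hlimit u hu)
      rw [div_eq_mul_inv D s]
      linarith
    -- the bound `g ≤ K √(a / s)`
    set K := B - f s0 + 4 * C ^ 2 with hK
    have hK0 : 0 ≤ K := by
      have := hB s0 le_rfl
      nlinarith [sq_nonneg C]
    have hgK : ∀ s, s2 ≤ s → g s ≤ K * √(a s / s) := by
      intro s hs
      have hsp : 0 < s := lt_of_lt_of_le hs2p hs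
      have has := ha_pos s hs
      have hr0 : 0 < √(a s * s) := Real.sqrt_pos.2 (by positivity)
      have hr2 : √(a s * s) ^ 2 = a s * s := Real.sq_sqrt (by positivity)
      have h1 := hkey s hs (1 / √(a s * s)) (by positivity)
      have h2 : f s0 ≤ f s :=
        h.f_mono (mem_Ici.2 le_rfl) (mem_Ici.2 (hs02.trans hs)) (hs02.trans hs)
      have h3 : 4 * C ^ 2 / (1 / √(a s * s) * a s) / s = 4 * C ^ 2 * (1 / √(a s * s)) := by
        rw [div_div, div_eq_iff (by positivity)]
        have : 4 * C ^ 2 * (1 / √(a s * s)) * (1 / √(a s * s) * a s * s)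
          = 4 * C ^ 2 * (a s * s) / √(a s * s) ^ 2 := by
          field_simp
        rw [this, hr2]
        field_simp
      rw [h3] at h1
      have h4 : g s / a s ≤ K * (1 / √(a s * s)) := by
        have h5 : 1 / √(a s * s) * (B - f s) ≤ 1 / √(a s * s) * (B - f s0) :=
          mul_le_mul_of_nonneg_left (by linarith) (by positivity)
        calc g s / a s ≤ 1 / √(a s * s) * (B - f s) + 4 * C ^ 2 * (1 / √(a s * s)) := h1
          _ ≤ 1 / √(a s * s) * (B - f s0) + 4 * C ^ 2 * (1 / √(a s * s)) := by linarith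
          _ = K * (1 / √(a s * s)) := by rw [hK]; ring
      rw [div_le_iff₀ has] at h4
      have h6 : K * (1 / √(a s * s)) * a s = K * √(a s / s) := by
        have h7 : √(a s / s) = a s / √(a s * s) := by
          rw [eq_div_iff (ne_of_gt hr0), ← Real.sqrt_mul (by positivity)]
          have : a s / s * (a s * s) = a s ^ 2 := by field_simp
          rw [this, Real.sqrt_sq has.le]
        rw [h7]; ring
      rw [h6] at h4
      exact h4
    -- the comparison
    set A := a s2 / s2 with hA
    have hA0 : 0 ≤ A := by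
      have := ha_pos s2 le_rfl
      positivity
    set R := 2 * K + 1 + 2 * |B| + A with hR
    have hR1 : 1 ≤ R := by
      have := abs_nonneg B
      linarith
    have hRM : 2 * B + 2 * (K * R) < R ^ 2 := by
      have h1 : B ≤ |B| := le_abs_self B
      have h2 : |B| ≤ |B| * R := le_mul_of_one_le_right (abs_nonneg B) hR1
      nlinarith
    refine ⟨R ^ 2, s2, hs02, fun s hs => ?_⟩
    have hcont : ContinuousOn a (Icc s2 s) := fun u hu =>
      (h.ha u (hs02.trans hu.1)).continuousAt.continuousWithinAt
    have hderiv : ∀ u ∈ Ico s2 s, HasDerivWithinAt a (2 * f u + 2 * g u) (Ici u) u :=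
      fun u hu => (h.ha u (hs02.trans hu.1)).hasDerivWithinAt
    have hinit : a s2 ≤ R ^ 2 * s2 := by
      have h1 : a s2 = A * s2 := by rw [hA]; field_simp
      rw [h1]
      apply mul_le_mul_of_nonneg_right _ hs2p.le
      have := abs_nonneg B
      nlinarith
    have hbdry : ∀ u : ℝ, HasDerivAt (fun u => R ^ 2 * u) (R ^ 2 * 1) u := fun u =>
      (hasDerivAt_id u).const_mul _
    refine image_le_of_deriv_right_lt_deriv_boundary hcont hderiv hinit hbdry ?_
      (right_mem_Icc.2 hs)
    intro u hu hEq
    have hup : 0 < u := lt_of_lt_of_le hs2p hu.1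
    have h1 := hgK u hu.1
    have h2 := hB u (hs02.trans hu.1)
    have h3 : √(a u / u) = R := by
      rw [hEq]
      have : R ^ 2 * u / u = R ^ 2 := by field_simp
      rw [this, Real.sqrt_sq (by linarith)]
    rw [h3] at h1
    linarith

/-- **END lemma**: the flux of an exact harmonic form through an end tends to `0`. -/
theorem tendsto_zero (h : EndData s0 C a e f g g' t) : Tendsto f atTop (𝓝 0) := by
  obtain ⟨M, s1, hs1, hM⟩ := h.exists_bound
  exact h.tendsto_zero_of_le hs1 hM

end EndData

/-- a convex function of at most logarithmic growth is nonincreasing -/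
theorem antitoneOn_of_convexOn_log {s0 C : ℝ} {m : ℝ → ℝ} (hm : ConvexOn ℝ (Ici s0) m)
    (hC : ∀ s, s0 ≤ s → m s ≤ C * Real.log s + C) : AntitoneOn m (Ici s0) := by
  intro x hx y hy hxy
  by_contra hlt
  push Not at hlt
  have hxy' : x < y := lt_of_le_of_ne hxy (by rintro rfl; exact lt_irrefl _ hlt)
  set k := (m y - m x) / (y - x) with hk
  have hkpos : 0 < k := div_pos (by linarith) (by linarith)
  have hgrow : ∀ s, y < s → m y + k * (s - y) ≤ m s := by
    intro s hs
    have h1 := hm.slope_mono_adjacent hx (mem_Ici.2 ((mem_Ici.1 hy).trans hs.le)) hxy' hs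
    rw [← hk, le_div_iff₀ (by linarith)] at h1
    linarith
  -- `k s` beats `C log s`
  have hlog : Tendsto (fun s : ℝ => C * Real.log s / s) atTop (𝓝 0) := by
    have h1 : Tendsto (fun s : ℝ => Real.log s / s) atTop (𝓝 0) := by
      have := Real.isLittleO_log_id_atTop.tendsto_div_nhds_zero
      simpa using this
    have h2 := h1.const_mul C
    rw [mul_zero] at h2
    refine h2.congr fun s => ?_
    ring
  have hconst : Tendsto (fun s : ℝ => (C - m y + k * y) / s) atTop (𝓝 0) :=
    tendsto_const_nhds.div_atTop tendsto_id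
  have hsum := hlog.add hconst
  rw [add_zero] at hsum
  have hev := hsum.eventually (gt_mem_nhds hkpos)
  obtain ⟨s, ⟨hs1, hs2⟩, hs3⟩ :=
    ((hev.and (eventually_gt_atTop y)).and (eventually_gt_atTop (max 0 s0))).exists
  have hsp : 0 < s := lt_of_le_of_lt (le_max_left _ _) hs3
  have hs0 : s0 ≤ s := ((le_max_right _ _).trans_lt hs3).le
  have h1 := hgrow s hs2
  have h2 := hC s hs0
  have h3 : C * Real.log s / s + (C - m y + k * y) / s < k := hs1
  rw [← add_div, div_lt_iff₀ hsp] at h3
  nlinarith

end Crest.Agent.R276.EndL_663
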