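import Mathlib
import Crest.Agent.R276.RelC_870
import Crest.Agent.R276.EndC2_723
import Crest.Agent.R276.EndRest_870
import Crest.Agent.R276.AB2_590
import Crest.Agent.R276.EndInd_870
import Crest.Agent.R276.SkelDefs_220
import Crest.Agent.R273.OTA_34

/-!
# Row 276 (helper870): slice half of the endgame (ENDS)

From the inputs `C1 … C4`, `Flat`, `CJ`, `CInd`, `CNz` of `SkelDefs_220` (on one generic fibre of
`M_K → M_T`): all fields of 723's `EndData` which do not concern the weight alone.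
-/

set_option autoImplicit false
set_option linter.unusedSectionVars false

open Topology Filter Set MeasureTheory
open scoped ENNReal

noncomputable section

namespace Crest.Agent.R276.EndS2_870

open Crest.Agent.R271 Crest.Agent.R271.Rd692 Crest.Agent.R271.Ho51
open Crest.Agent.R271.Defs710 hiding glue
open Crest.Agent.R276.Mod1_987 Crest.Agent.R276.SkelDefs_220 Crest.Agent.R276.CInd_870
open Crest.Agent.R276.RelB_870 Crest.Agent.R276.TowA_849 Crest.Agent.R276.RelC_870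
open Crest.Agent.R276.FKDefs_779 (IsDiv)

/-! ### real numbers -/

section real

/-- the pointwise inequality -/
lemma point_le {tau b1 Dz C s c0 W b2 w C2 mu a1 eN t K e0 x : ℝ}
    (htau : 0 ≤ tau) (hb1 : 0 ≤ b1) (hD : 0 < Dz) (hC : 0 ≤ C) (hs : 0 ≤ s) (hc0 : 0 < c0)
    (hW : 0 ≤ W) (hb2 : 0 ≤ b2) (hw : 0 ≤ w) (hC2 : 0 ≤ C2) (hmu : 0 < mu) (ha1 : 0 < a1)
    (hK : 0 < K) (he0 : 0 < e0) (ht : t = mu * eN) (hx : 1 + x = mu * a1 / e0) (hx0 : 0 ≤ x)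
    (h1 : tau ^ (2 * a1 / K) * Dz ^ eN ≤ b1 * C) (h2 : s * Dz ^ t = c0) (h3 : W ≤ C2 * b2)
    (h4 : w ^ 2 ≤ W) :
    tau ^ (2 / K) * w ^ (2 / e0) ≤
      (C ^ mu / c0 * C2) ^ (1 / (mu * a1)) * (b1 ^ mu * (b2 * s * W ^ x)) ^ (1 / (mu * a1)) := by
  set θ : ℝ := mu * a1 with hθ
  have hθ0 : 0 < θ := mul_pos hmu ha1
  have hDt : 0 < Dz ^ t := Real.rpow_pos_of_pos hD _
  -- first factor
  have hA : (tau ^ (2 / K)) ^ θ ≤ b1 ^ mu * (C ^ mu / c0) * s := by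
    have e1 : (tau ^ (2 / K)) ^ θ = (tau ^ (2 * a1 / K)) ^ mu := by
      rw [← Real.rpow_mul htau, ← Real.rpow_mul htau]
      congr 1
      rw [hθ]
      field_simp
    have e2 : (tau ^ (2 * a1 / K)) ^ mu * Dz ^ t ≤ b1 ^ mu * C ^ mu := by
      have h5 : (tau ^ (2 * a1 / K) * Dz ^ eN) ^ mu ≤ (b1 * C) ^ mu :=
        Real.rpow_le_rpow (mul_nonneg (Real.rpow_nonneg htau _) (Real.rpow_nonneg hD.le _)) h1
          hmu.le
      rw [Real.mul_rpow (Real.rpow_nonneg htau _) (Real.rpow_nonneg hD.le _),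
        Real.mul_rpow hb1 hC, ← Real.rpow_mul hD.le, mul_comm eN mu, ← ht] at h5
      exact h5
    have e3 : s = c0 / Dz ^ t := by
      rw [eq_div_iff hDt.ne']
      exact h2
    rw [e1, e3]
    have e4 : b1 ^ mu * (C ^ mu / c0) * (c0 / Dz ^ t) = b1 ^ mu * C ^ mu / Dz ^ t := by
      field_simp
    rw [e4, le_div_iff₀ hDt]
    exact e2
  -- second factor
  have hB : (w ^ (2 / e0)) ^ θ ≤ C2 * b2 * W ^ x := by
    have e1 : (w ^ (2 / e0)) ^ θ = (w ^ 2) ^ (1 + x) := by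
      rw [hx, ← Real.rpow_natCast w 2, ← Real.rpow_mul hw, ← Real.rpow_mul hw]
      congr 1
      push_cast
      field_simp
    have e2 : (w ^ 2) ^ (1 + x) ≤ W ^ (1 + x) :=
      Real.rpow_le_rpow (by positivity) h4 (by linarith)
    have e3 : W ^ (1 + x) = W * W ^ x := by
      rw [Real.rpow_add_of_nonneg hW zero_le_one hx0, Real.rpow_one]
    rw [e1]
    refine e2.trans ?_
    rw [e3]
    exact mul_le_mul_of_nonneg_right h3 (Real.rpow_nonneg hW _)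
  have h0 : 0 ≤ tau ^ (2 / K) * w ^ (2 / e0) :=
    mul_nonneg (Real.rpow_nonneg htau _) (Real.rpow_nonneg hw _)
  have hWx : 0 ≤ W ^ x := Real.rpow_nonneg hW _
  have hbm : 0 ≤ b1 ^ mu := Real.rpow_nonneg hb1 _
  have hCm : 0 ≤ C ^ mu := Real.rpow_nonneg hC _
  have hP : 0 ≤ b1 ^ mu * (b2 * s * W ^ x) := by positivity
  have hC3 : 0 ≤ C ^ mu / c0 * C2 := by positivity
  have hmain : (tau ^ (2 / K) * w ^ (2 / e0)) ^ θ ≤
      (C ^ mu / c0 * C2) * (b1 ^ mu * (b2 * s * W ^ x)) := by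
    rw [Real.mul_rpow (Real.rpow_nonneg htau _) (Real.rpow_nonneg hw _)]
    calc (tau ^ (2 / K)) ^ θ * (w ^ (2 / e0)) ^ θ
        ≤ (b1 ^ mu * (C ^ mu / c0) * s) * (C2 * b2 * W ^ x) :=
          mul_le_mul hA hB (Real.rpow_nonneg (Real.rpow_nonneg hw _) _) (by positivity)
      _ = _ := by ring
  calc tau ^ (2 / K) * w ^ (2 / e0)
      = ((tau ^ (2 / K) * w ^ (2 / e0)) ^ θ) ^ (1 / θ) := by
        rw [← Real.rpow_mul h0, mul_one_div_cancel hθ0.ne', Real.rpow_one]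
    _ ≤ ((C ^ mu / c0 * C2) * (b1 ^ mu * (b2 * s * W ^ x))) ^ (1 / θ) :=
        Real.rpow_le_rpow (Real.rpow_nonneg h0 _) hmain (by positivity)
    _ = _ := Real.mul_rpow hC3 hP

end real

/-! ### independence -/

section ind

open MvPolynomial

/-- from the homogeneous form to the inhomogeneous form of independence -/
theorem ind_of_hom {Y : Type*} {q : ℕ} (t : Y → Fin (q + 1) → ℂ)
    (h : ∀ (Δ : ℕ) (Q : MvPolynomial (Fin (q + 1)) ℂ), Q.IsHomogeneous Δ →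
      (∀ y, MvPolynomial.eval (t y) Q = 0) → Q = 0)
    {P : MvPolynomial (Fin q) ℂ} (hP : P ≠ 0) :
    ∃ y, t y 0 ≠ 0 ∧ MvPolynomial.eval (fun j : Fin q => t y j.succ / t y 0) P ≠ 0 := by
  classical
  set N : ℕ := P.totalDegree + 1 with hN
  set Q : MvPolynomial (Fin (q + 1)) ℂ :=
    EndInd_870.hz (MvPolynomial.C) N (MvPolynomial.X 0) (fun j : Fin q => MvPolynomial.X j.succ) P
    with hQ
  have hev : ∀ y : Fin (q + 1) → ℂ, MvPolynomial.eval y Q =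
      EndInd_870.hz (RingHom.id ℂ) N (y 0) (fun j : Fin q => y j.succ) P := by
    intro y
    rw [hQ, EndInd_870.map_hz]
    simp only [MvPolynomial.eval_X]
    congr 1
    ext c
    simp
  have hhom : Q.IsHomogeneous N := by
    rw [hQ]
    unfold EndInd_870.hz
    refine MvPolynomial.IsHomogeneous.sum _ _ _ fun ν hν => ?_
    have h1 : ∑ i ∈ ν.support, ν i ≤ N :=
      (EndInd_870.sum_le_totalDegree hν).trans (Nat.le_succ _)
    have h2 : (MvPolynomial.C (P.coeff ν) : MvPolynomial (Fin (q + 1)) ℂ).IsHomogeneous 0 :=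
      MvPolynomial.isHomogeneous_C _ _
    have h3 : (∏ i ∈ ν.support, (MvPolynomial.X i.succ : MvPolynomial (Fin (q + 1)) ℂ) ^ ν i).IsHomogeneous
        (∑ i ∈ ν.support, ν i) :=
      MvPolynomial.IsHomogeneous.prod _ _ _ fun i _ => by
        simpa using (MvPolynomial.isHomogeneous_X ℂ i.succ).pow (ν i)
    have h4 : ((MvPolynomial.X 0 : MvPolynomial (Fin (q + 1)) ℂ) ^
        (N - ∑ i ∈ ν.support, ν i)).IsHomogeneous (N - ∑ i ∈ ν.support, ν i) := by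
      simpa using (MvPolynomial.isHomogeneous_X ℂ (0 : Fin (q + 1))).pow _
    have h5 := h2.mul (h3.mul h4)
    have h6 : 0 + (∑ i ∈ ν.support, ν i + (N - ∑ i ∈ ν.support, ν i)) = N := by omega
    rw [h6] at h5
    exact h5
  have hQ0 : Q ≠ 0 := by
    intro h0
    obtain ⟨x, hx⟩ : ∃ x : Fin q → ℂ, MvPolynomial.eval x P ≠ 0 := by
      by_contra hcon
      push Not at hcon
      exact hP (MvPolynomial.funext fun x => by rw [hcon x, map_zero])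
    have h1 := hev (Fin.cons 1 x)
    rw [h0, map_zero, EndInd_870.hz_eq _ (by simp) _ (Nat.le_succ _)] at h1
    simp only [Fin.cons_zero, one_pow, one_mul, Fin.cons_succ, div_one] at h1
    exact hx h1.symm
  have h1 : ∃ y, MvPolynomial.eval (t y) Q ≠ 0 := by
    by_contra hcon
    push Not at hcon
    exact hQ0 (h N Q hhom hcon)
  obtain ⟨y, hy⟩ := h1
  rw [hev] at hy
  have hy0 : t y 0 ≠ 0 := by
    intro h0
    rw [h0] at hy
    exact hy (EndInd_870.hz_zero _ _ (Nat.lt_succ_self _))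
  refine ⟨y, hy0, fun h0 => hy ?_⟩
  rw [EndInd_870.hz_eq _ hy0 _ (Nat.le_succ _)]
  have h2 : MvPolynomial.eval₂ (RingHom.id ℂ) (fun j : Fin q => t y j.succ / t y 0) P = 0 := h0
  rw [h2, mul_zero]

/-- independence on the base and on every fibre gives independence of the union -/
theorem ind_two {X G : Type*} (f : X → G) {d q : ℕ} (τ : X → Fin (d + 1) → ℂ)
    (w : G → Fin (q + 1) → ℂ)
    (hτ : ∀ (z : G) (Δ : ℕ) (Q : MvPolynomial (Fin (d + 1)) ℂ), Q.IsHomogeneous Δ →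
      (∀ x, f x = z → MvPolynomial.eval (τ x) Q = 0) → Q = 0)
    (hw : ∀ (Δ : ℕ) (Q : MvPolynomial (Fin (q + 1)) ℂ), Q.IsHomogeneous Δ →
      (∀ z, MvPolynomial.eval (w z) Q = 0) → Q = 0)
    (P : MvPolynomial (Fin d ⊕ Fin q) ℂ) (hP : P ≠ 0) :
    ∃ x, τ x 0 ≠ 0 ∧ w (f x) 0 ≠ 0 ∧ MvPolynomial.eval
      (Sum.elim (fun i : Fin d => τ x i.succ / τ x 0)
        (fun j : Fin q => w (f x) j.succ / w (f x) 0)) P ≠ 0 := by
  classical
  have h0 : sumAlgEquiv ℂ (Fin d) (Fin q) P ≠ 0 := by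
    intro h
    exact hP ((sumAlgEquiv ℂ (Fin d) (Fin q)).injective (by rw [h, map_zero]))
  obtain ⟨μ, hμ⟩ : ∃ μ, (sumAlgEquiv ℂ (Fin d) (Fin q) P).coeff μ ≠ 0 := by
    by_contra hcon
    push Not at hcon
    exact h0 (MvPolynomial.ext _ _ fun μ => by rw [hcon μ]; simp)
  obtain ⟨z, hz0, hz⟩ := ind_of_hom w hw hμ
  set b : Fin q → ℂ := fun j => w z j.succ / w z 0 with hb
  set P' : MvPolynomial (Fin d) ℂ := MvPolynomial.map (MvPolynomial.eval b)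
    (sumAlgEquiv ℂ (Fin d) (Fin q) P) with hP'
  have hP'0 : P' ≠ 0 := by
    intro h
    have h1 : P'.coeff μ = 0 := by rw [h]; simp
    rw [hP', MvPolynomial.coeff_map] at h1
    exact hz h1
  obtain ⟨⟨x, hx⟩, hx0, hx'⟩ := ind_of_hom (Y := {x // f x = z}) (fun x => τ x.1)
    (fun Δ Q hQ h => hτ z Δ Q hQ fun x hx => h ⟨x, hx⟩) hP'0
  refine ⟨x, hx0, by rw [hx]; exact hz0, ?_⟩
  rw [← EndInd_870.eval_sum, hx]
  rw [hP', MvPolynomial.eval_map] at hx'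
  exact hx'

end ind


/-! ### density and semicontinuity -/

section dense

open Crest.Agent.R276.AB2_590

/-- inequalities `f ≤ g`, `f` continuous, `g` upper semicontinuous, pass to the closure -/
lemma le_of_dense {X : Type*} [TopologicalSpace X] {f g : X → ℝ} (hf : Continuous f)
    (hg : UpperSemicontinuous g) {S : Set X} (hS : Dense S) (h : ∀ x ∈ S, f x ≤ g x) (x : X) :
    f x ≤ g x := by
  by_contra hcon
  push Not at hcon
  obtain ⟨c, hc1, hc2⟩ := exists_between hcon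
  have h1 : ∀ᶠ y in 𝓝 x, g y < c := hg x c hc1
  have h2 : ∀ᶠ y in 𝓝 x, c < f y := hf.continuousAt.eventually_const_lt hc2
  obtain ⟨y, hyS, hy⟩ := hS.inter_nhds_nonempty (h1.and h2)
  have := h y hyS
  linarith [hy.1, hy.2]

/-- a nonzero element of `B_K` is nonzero on a dense subset of almost every fibre -/
theorem exists_dense {L K : Type} [Field L] [Field K] [Algebra ℂ L] [Algebra ℂ K] [Algebra L K]
    [IsScalarTower ℂ L K] {m r : ℕ} (R : RMdl L K m r) {h : R.MK.B} (hh : h ≠ 0) :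
    ∃ p : MvPolynomial (Fin m) ℂ, p ≠ 0 ∧ ∀ w : R.ML.Pts,
      MvPolynomial.eval (R.ML.pz w) p ≠ 0 → Dense {y : R.Fib w | (y.val : R.MK.Pts) h ≠ 0} := by
  obtain ⟨P, hP, b, hb⟩ := exists_poly_dvd (z := R.MK.z) R.MK.het hh
  obtain ⟨ξ, hξ⟩ := RMdl.exists_specR_ne hP
  refine ⟨specR ξ P, hξ, fun w hw => ?_⟩
  have hQ : specL (R.ML.pz w) P ≠ 0 := by
    intro h0
    rw [eval_specR] at hw
    rw [← eval_specL, h0, map_zero] at hw
    exact hw rfl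
  rw [dense_iff_inter_open]
  rintro U hU ⟨y, hy⟩
  have hT : (ch y).target ∈ 𝓝 (cp y) := (ch y).open_target.mem_nhds ((isCh_ch y).cp_mem (mem_ch y))
  have h1 : ContinuousAt (ch y).symm (cp y) :=
    (ch y).symm.continuousAt (by simpa using (isCh_ch y).cp_mem (mem_ch y))
  have h2 : ∀ᶠ ζ in 𝓝 (cp y), (ch y).symm ζ ∈ U := by
    apply h1.eventually_mem
    rw [(isCh_ch y).symm_cp (mem_ch y)]
    exact hU.mem_nhds hy
  obtain ⟨ζ, ⟨hζ1, hζ2⟩, hζ3⟩ := EndRest_870.exists_eval_ne (Filter.inter_mem hT h2) hQ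
  refine ⟨(ch y).symm ζ, hζ2, fun h0 => hζ3 ?_⟩
  have h3 : R.MK.pz ((ch y).symm ζ).val = Fin.append (R.ML.pz w) ζ := by
    have h4 := R.append_eq ((ch y).symm ζ).val
    rw [((ch y).symm ζ).q_eq] at h4
    rw [← h4]
    congr 1
    exact (isCh_ch y).cp_symm hζ1
  rw [eval_specL, ← h3, ← R.MK.apply_az']
  change (((ch y).symm ζ).val : R.MK.Pts) (MvPolynomial.aeval R.MK.z P) = 0
  rw [hb, map_mul, h0, zero_mul]

end dense

/-! ### fibre integrals -/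

section fi

variable {L K : Type} [Field L] [Field K] [Algebra ℂ L] [Algebra ℂ K] [Algebra L K]
  [IsScalarTower ℂ L K] {m r : ℕ} {ML : Mdl L m} {MK : Mdl K (m + r)} (H : Rel ML MK)

lemma fint_const_mul (z : ML.Pts) {c : ℝ≥0∞} (hc : c ≠ ∞) (g : MK.Pts → ℝ≥0∞) :
    H.fint z (fun y => c * g y) = c * H.fint z g := by
  unfold Rel.fint
  simp_rw [ENNReal.tsum_mul_left]
  exact lintegral_const_mul' _ _ hc

end fi

section hol

variable {n : ℕ} {A : Type*} [TopologicalSpace A] [RDom n A]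

lemma hol_sum {ι : Type*} (S : Finset ι) {F : ι → A → ℂ} (h : ∀ i ∈ S, Ho51.Hol (F i)) :
    Ho51.Hol (fun x => ∑ i ∈ S, F i x) := by
  intro e he
  exact DifferentiableOn.fun_sum fun i hi => h i hi e he

lemma hol_mul {f g : A → ℂ} (hf : Ho51.Hol f) (hg : Ho51.Hol g) : Ho51.Hol (fun x => f x * g x) :=
  fun e he => (hf e he).mul (hg e he)

lemma hol_const (c : ℂ) : Ho51.Hol (fun _ : A => c) := fun _ _ => differentiableOn_const c

lemma hol_pow {f : A → ℂ} (hf : Ho51.Hol f) (k : ℕ) : Ho51.Hol (fun x => f x ^ k) :=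
  fun e he => (hf e he).pow k

lemma hol_prod {ι : Type*} (S : Finset ι) {F : ι → A → ℂ} (h : ∀ i ∈ S, Ho51.Hol (F i)) :
    Ho51.Hol (fun x => ∏ i ∈ S, F i x) := by
  classical
  induction S using Finset.induction_on with
  | empty => simpa using hol_const (A := A) 1
  | insert a S ha ih =>
    have h1 := hol_mul (h a (Finset.mem_insert_self a S))
      (ih fun i hi => h i (Finset.mem_insert_of_mem hi))
    simpa only [Finset.prod_insert ha] using h1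

end hol

/-! ### the slice data -/

section main

variable {T L K : Type} [Field T] [Field L] [Field K] [Algebra ℂ T] [Algebra ℂ L] [Algebra ℂ K]
  [Algebra T L] [Algebra L K] [Algebra T K] [IsScalarTower ℂ T L] [IsScalarTower ℂ L K]
  [IsScalarTower T L K] [IsScalarTower ℂ T K] {ρ a r : ℕ}
  {MT : Mdl T ρ} {ML : Mdl L (ρ + a)} {MK : Mdl K (ρ + a + r)} (H₁ : Rel MT ML) (H₂ : Rel ML MK)

/-- the weight of the endgame -/
def BB (H₂ : Rel ML MK) (b₁ : MK.Pts → ℝ) (b₂ : ML.Pts → ℝ) (σ : ML.B) (k' : ℕ) {e : ℕ}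
    (w : Fin (e + 1) → ML.B) (mu a1 x : ℝ) (y : MK.Pts) : ℝ :=
  (b₁ y ^ mu * (b₂ (H₂.f y) * ‖H₂.f y σ‖ ^ (2 / (k' : ℝ)) * Wf w (H₂.f y) ^ x)) ^ (1 / (mu * a1))

/-- (C1) with the lower bound only over a nonempty Zariski open subset of `M_L` -/
structure C1' (H₁ : Rel MT ML) (H₂ : Rel ML MK) (N k : ℕ) {s : ℕ} (u : Fin s → MK.B)
    (D : ML.Pts → ℝ) (ε : ℝ) (b₁ : MK.Pts → ℝ) : Prop where
  psh : EngU_29.LPsh b₁
  gr : PGr MK b₁
  bd : ∀ R : ValuationSubring K, IsDiv ℂ (ρ + a + r) R → BdK H₁ H₂ R fun Y ζ =>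
    b₁ (Y.cK.s ζ) * ‖Y.jF ζ‖ ^ (2 * s * (1 + ε * N)) / D (H₂.f (Y.cK.s ζ)) ^ (ε * N)
  low : ∃ h : ML.B, h ≠ 0 ∧ ∀ z : ML.Pts, z h ≠ 0 →
    ∀ P : MvPolynomial (Fin s) ℂ, P.IsHomogeneous k →
    Ieps H₂ N k u ε z (evs u P) ≠ ∞ → ∀ y : MK.Pts, H₂.f y = z →
    ‖evs u P y‖ₑ ^ (2 * s * (1 + ε * N) / (k * N)) ≤
      ENNReal.ofReal (b₁ y) * Ieps H₂ N k u ε z (evs u P)

/-- the fields of 723's `EndData` over one fibre, for `R = (tow H₁ H₂).TK` -/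
structure SliceOut (B : MK.Pts → ℝ) (d q N₁ e₀ : ℕ) where
  y₀ : (tow H₁ H₂).TK.ML.Pts
  ν : Measure ((tow H₁ H₂).TK.Fib y₀)
  leb : IsLeb ν
  τ : Fin (d + 1) → (tow H₁ H₂).TK.Fib y₀ → ℂ
  w : Fin (q + 1) → (tow H₁ H₂).TK.Fib y₀ → ℂ
  hτ : ∀ i, Ho51.Hol (τ i)
  hw : ∀ j, Ho51.Hol (w j)
  C : ℝ
  le : ∀ i j x, ‖τ i x‖ ^ (2 / N₁ : ℝ) * ‖w j x‖ ^ (2 / e₀ : ℝ) ≤ C * B x.val
  int : ∀ i j, ∫⁻ x, ENNReal.ofReal (‖τ i x‖ ^ (2 / N₁ : ℝ) * ‖w j x‖ ^ (2 / e₀ : ℝ)) ∂ν < ∞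
  ind : ∀ P : MvPolynomial (Fin d ⊕ Fin q) ℂ, P ≠ 0 → ∃ x, τ 0 x ≠ 0 ∧ w 0 x ≠ 0 ∧
    MvPolynomial.eval (Sum.elim (fun i => τ i.succ x / τ 0 x) (fun j => w j.succ x / w 0 x)) P ≠ 0

variable {H₁ H₂}

/-- a homogeneous polynomial evaluated with its full list of monomials -/
lemma evs_eq {s k : ℕ} (u : Fin s → MK.B) {P : MvPolynomial (Fin s) ℂ} (hP : P.IsHomogeneous k)
    (y : MK.Pts) : evs u P y = ∑ μ ∈ Finset.finsuppAntidiag Finset.univ k,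
      P.coeff μ * ∏ i, y (u i) ^ μ i := by
  classical
  unfold SkelDefs_220.evs
  rw [MvPolynomial.eval_eq']
  refine Finset.sum_subset (fun μ hμ => ?_) fun μ _ hμ => ?_
  · rw [Finset.mem_finsuppAntidiag]
    refine ⟨?_, Finset.subset_univ _⟩
    have h1 := hP.degree_eq_sum_deg_support hμ
    rw [h1]
    exact (Finset.sum_subset (Finset.subset_univ _) fun i _ hi => by
      simpa using hi).symm
  · rw [MvPolynomial.notMem_support_iff.1 hμ, zero_mul]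

/-- measurable functions on the fibre extend to `M_K` -/
lemma exists_ext {y₀ : MT.Pts} {G : FibTK H₁ H₂ y₀ → ℝ≥0∞} (hG : Measurable G) :
    ∃ g : MK.Pts → ℝ≥0∞, Measurable g ∧ ∀ x, g (pt x) = G x := by
  have h1 : IsClosed {y : (tow H₁ H₂).TK.MK.Pts | (tow H₁ H₂).TK.q y = bT H₁ H₂ y₀} :=
    isClosed_eq (tow H₁ H₂).TK.continuous_q continuous_const
  have h2 : IsClosedEmbedding (fun x : FibTK H₁ H₂ y₀ => x.val) := h1.isClosedEmbedding_subtypeVal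
  obtain ⟨g, hg, hgG⟩ := h2.measurableEmbedding.exists_measurable_extend hG fun _ => ⟨0⟩
  exact ⟨g, hg, fun x => congrFun hgG x⟩

lemma Wf_nonneg {e : ℕ} (w : Fin (e + 1) → ML.B) (z : ML.Pts) : 0 ≤ Wf w z :=
  Finset.sum_nonneg fun _ _ => by positivity

lemma le_Wf {e : ℕ} (w : Fin (e + 1) → ML.B) (z : ML.Pts) (j : Fin (e + 1)) :
    ‖z (w j)‖ ^ 2 ≤ Wf w z :=
  Finset.single_le_sum (f := fun j => ‖z (w j)‖ ^ 2) (fun _ _ => by positivity) (Finset.mem_univ j)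

lemma continuous_Wf {e : ℕ} (w : Fin (e + 1) → ML.B) : Continuous (Wf w) := by
  unfold Wf
  exact continuous_finsetSum _ fun j _ => (continuous_ev _).norm.pow 2

/-- **ENDS at one fibre** -/
theorem slice_at {N s e e₀ d k k' : ℕ} (hN : 0 < N) (hs : 0 < s) (he₀ : 0 < e₀) (hk : 0 < k)
    {u : Fin s → MK.B} {w : Fin (e + 1) → ML.B} {D : ML.Pts → ℝ} {ε : ℝ} (hε : 0 < ε)
    (hD : ∀ z, 0 < D z) {b₁ : MK.Pts → ℝ} (hb₁ : ∀ y, 0 ≤ b₁ y) {b₂ : ML.Pts → ℝ}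
    (hb₂ : ∀ z, 0 ≤ b₂ z) {σ : ML.B} {t : ℝ} {mu a1 ξ : ℝ} (hmu : 0 < mu)
    (ha1 : a1 = s * (1 + ε * N)) (ht : t = mu * (ε * N)) (hx : 1 + ξ = mu * a1 / e₀)
    (hx0 : 0 ≤ ξ) {y₀ : MT.Pts}
    -- C1.low
    {hh : ML.B} (hdense : Dense {x : FibTK H₁ H₂ y₀ | (H₂.f (pt x)) hh ≠ 0})
    (husc : UpperSemicontinuous (BB H₂ b₁ b₂ σ k' w mu a1 ξ))
    (h1 : ∀ z : ML.Pts, H₁.f z = y₀ → z hh ≠ 0 → ∀ P : MvPolynomial (Fin s) ℂ, P.IsHomogeneous k →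
      Ieps H₂ N k u ε z (evs u P) ≠ ∞ → ∀ y : MK.Pts, H₂.f y = z →
      ‖evs u P y‖ₑ ^ (2 * s * (1 + ε * N) / (k * N)) ≤
        ENNReal.ofReal (b₁ y) * Ieps H₂ N k u ε z (evs u P))
    -- C2.low and CJ
    {C₂ : ℝ} (h2 : ∀ z : ML.Pts, H₁.f z = y₀ → Wf w z ≤ C₂ * b₂ z) (hC₂ : 0 ≤ C₂)
    (h2' : H₁.fint y₀ (fun z' => ENNReal.ofReal (Wf w z') ^ (1 / (e₀ : ℝ))) < ∞)
    -- C4
    {c₀ : ℝ} (hc₀ : 0 < c₀)
    (h4 : ∀ z : ML.Pts, H₁.f z = y₀ → ‖z σ‖ ^ (2 / (k' : ℝ)) * D z ^ t = c₀)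
    -- Flat
    {P : Fin (d + 1) → ML.Pts → MvPolynomial (Fin s) ℂ} {C : ℝ}
    (hP : ∀ i z, H₁.f z = y₀ → (P i z).IsHomogeneous k)
    (hPh : ∀ i μ, Ho51.Hol (fun z : FibR H₁ y₀ => (P i z.val).coeff μ))
    (hF1 : ∀ z : ML.Pts, H₁.f z = y₀ → ∀ i,
      H₂.fint z (fun y => ‖evs u (P i z) y‖ₑ ^ (2 / (k * N : ℝ))) ≤ ENNReal.ofReal C)
    (hF2 : ∀ z : ML.Pts, H₁.f z = y₀ → ∀ i,
      Ieps H₂ N k u ε z (evs u (P i z)) * ENNReal.ofReal (D z ^ (ε * N)) ≤ ENNReal.ofReal C)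
    (hF3 : ∀ z : ML.Pts, H₁.f z = y₀ → ∀ (Δ : ℕ) (Q : MvPolynomial (Fin (d + 1)) ℂ),
      Q.IsHomogeneous Δ →
      (∀ y : MK.Pts, H₂.f y = z → MvPolynomial.eval (fun i => evs u (P i z) y) Q = 0) → Q = 0)
    -- CInd
    {q : ℕ} {ι : Fin (q + 1) → Fin (e + 1)}
    (hI : ∀ (Δ : ℕ) (Q : MvPolynomial (Fin (q + 1)) ℂ), Q.IsHomogeneous Δ →
        (∀ z : ML.Pts, H₁.f z = y₀ → MvPolynomial.eval (fun i => z (w (ι i))) Q = 0) → Q = 0) :
    Nonempty (SliceOut H₁ H₂ (BB H₂ b₁ b₂ σ k' w mu a1 ξ) d q (k * N) e₀) := by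
  classical
  have hNr : (0 : ℝ) < N := by exact_mod_cast hN
  have hkr : (0 : ℝ) < k := by exact_mod_cast hk
  have hsr : (0 : ℝ) < s := by exact_mod_cast hs
  have he0r : (0 : ℝ) < e₀ := by exact_mod_cast he₀
  have ha1' : 0 < a1 := by rw [ha1]; positivity
  have hcast : ((k * N : ℕ) : ℝ) = (k : ℝ) * N := by push_cast; ring
  set τ : Fin (d + 1) → FibTK H₁ H₂ y₀ → ℂ := fun i x => evs u (P i (H₂.f (pt x))) (pt x) with hτdef
  set w' : Fin (q + 1) → FibTK H₁ H₂ y₀ → ℂ := fun j x => H₂.f (pt x) (w (ι j)) with hwdef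
  have hτ : ∀ i, Ho51.Hol (τ i) := by
    intro i
    have e1 : τ i = fun x => ∑ μ ∈ Finset.finsuppAntidiag Finset.univ k,
        (P i (H₂.f (pt x))).coeff μ * ∏ l, pt x (u l) ^ μ l := by
      funext x
      exact evs_eq u (hP i _ (f_pt x)) (pt x)
    rw [e1]
    refine hol_sum _ fun μ _ => hol_mul ?_ (hol_prod _ fun l _ => hol_pow (hol_pt_ev (u l)) _)
    exact hol_prL (hPh i μ)
  have hw : ∀ j, Ho51.Hol (w' j) := by
    intro j
    exact hol_pt_ev (H₂.incl (w (ι j)))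
  obtain ⟨ν, hν⟩ := Ho51.exists_leb (M := FibTK H₁ H₂ y₀)
  have hτc : ∀ i, Continuous (τ i) := fun i =>
    (Crest.Agent.R273.OTA_34.hol_of _ (hτ i)).sm.continuous
  have hwc : ∀ j, Continuous (w' j) := fun j =>
    (Crest.Agent.R273.OTA_34.hol_of _ (hw j)).sm.continuous
  have hp : 0 ≤ 2 / ((k * N : ℕ) : ℝ) := by positivity
  have hq : 0 ≤ 2 / (e₀ : ℝ) := by positivity
  have hcont : ∀ i j, Continuous fun x : FibTK H₁ H₂ y₀ =>
      ‖τ i x‖ ^ (2 / ((k * N : ℕ) : ℝ)) * ‖w' j x‖ ^ (2 / (e₀ : ℝ)) := fun i j =>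
    ((hτc i).norm.rpow_const fun _ => Or.inr hp).mul
      ((hwc j).norm.rpow_const fun _ => Or.inr hq)
  set C₁ : ℝ := ((max C 0) ^ mu / c₀ * C₂) ^ (1 / (mu * a1)) with hC₁
  have hBB : ∀ y : MK.Pts, 0 ≤ BB H₂ b₁ b₂ σ k' w mu a1 ξ y := by
    intro y
    unfold BB
    have e1 := hb₁ y
    have e2 := hb₂ (H₂.f y)
    have e3 := Wf_nonneg w (H₂.f y)
    positivity
  have hle0 : ∀ i j x, (H₂.f (pt x)) hh ≠ 0 →
      ‖τ i x‖ ^ (2 / ((k * N : ℕ) : ℝ)) * ‖w' j x‖ ^ (2 / (e₀ : ℝ)) ≤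
      C₁ * BB H₂ b₁ b₂ σ k' w mu a1 ξ (pt x) := by
    intro i j x hxh
    set y : MK.Pts := pt x with hy
    set z : ML.Pts := H₂.f y with hz
    have hzy : H₁.f z = y₀ := f_pt x
    have hDz := hD z
    have hDe : 0 < D z ^ (ε * N) := Real.rpow_pos_of_pos hDz _
    set I : ℝ≥0∞ := Ieps H₂ N k u ε z (evs u (P i z)) with hI'
    have hF2' : I * ENNReal.ofReal (D z ^ (ε * N)) ≤ ENNReal.ofReal C := hF2 z hzy i
    have hItop : I ≠ ∞ := by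
      intro h
      rw [h, ENNReal.top_mul (by simpa using hDe)] at hF2'
      exact absurd hF2' (by simp)
    have hlow := h1 z hzy hxh (P i z) (hP i z hzy) hItop y rfl
    have hreal : ‖τ i x‖ ^ (2 * a1 / (k * N)) * D z ^ (ε * N) ≤ b₁ y * max C 0 := by
      have e1 : ‖evs u (P i z) y‖ₑ ^ (2 * s * (1 + ε * N) / (k * N)) *
          ENNReal.ofReal (D z ^ (ε * N)) ≤ ENNReal.ofReal (b₁ y) * ENNReal.ofReal (max C 0) := by
        calc _ ≤ (ENNReal.ofReal (b₁ y) * I) * ENNReal.ofReal (D z ^ (ε * N)) := by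
              gcongr
          _ = ENNReal.ofReal (b₁ y) * (I * ENNReal.ofReal (D z ^ (ε * N))) := by ring
          _ ≤ _ := by
              gcongr
              exact hF2'.trans (ENNReal.ofReal_le_ofReal (le_max_left _ _))
      have e2 : (2 * (s : ℝ) * (1 + ε * N) / (k * N)) = 2 * a1 / (k * N) := by rw [ha1]; ring
      have hpos : 0 ≤ 2 * a1 / ((k : ℝ) * N) := by positivity
      rw [e2, ← ofReal_norm, ENNReal.ofReal_rpow_of_nonneg (norm_nonneg _) hpos,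
        ← ENNReal.ofReal_mul (Real.rpow_nonneg (norm_nonneg _) _),
        ← ENNReal.ofReal_mul (hb₁ y)] at e1
      exact (ENNReal.ofReal_le_ofReal_iff (mul_nonneg (hb₁ y) (le_max_right _ _))).1 e1
    rw [hcast]
    have key := point_le (tau := ‖τ i x‖) (b1 := b₁ y) (Dz := D z) (C := max C 0)
      (s := ‖z σ‖ ^ (2 / (k' : ℝ))) (c0 := c₀) (W := Wf w z) (b2 := b₂ z) (w := ‖w' j x‖)
      (C2 := C₂) (mu := mu) (a1 := a1) (eN := ε * N) (t := t) (K := (k : ℝ) * N) (e0 := e₀)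
      (x := ξ) (norm_nonneg _) (hb₁ y) hDz (le_max_right _ _)
      (Real.rpow_nonneg (norm_nonneg _) _) hc₀ (Wf_nonneg w z) (hb₂ z) (norm_nonneg _) hC₂ hmu
      ha1' (by positivity) he0r ht hx hx0 hreal (h4 z hzy) (h2 z hzy) (le_Wf w z (ι j))
    exact key
  have hle : ∀ i j x, ‖τ i x‖ ^ (2 / ((k * N : ℕ) : ℝ)) * ‖w' j x‖ ^ (2 / (e₀ : ℝ)) ≤
      max C₁ 1 * BB H₂ b₁ b₂ σ k' w mu a1 ξ (pt x) := by
    intro i j x
    have hC1 : 0 < max C₁ 1 := lt_max_of_lt_right one_pos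
    have e1 := le_of_dense (f := fun x : FibTK H₁ H₂ y₀ =>
      (‖τ i x‖ ^ (2 / ((k * N : ℕ) : ℝ)) * ‖w' j x‖ ^ (2 / (e₀ : ℝ))) / max C₁ 1)
      (g := fun x => BB H₂ b₁ b₂ σ k' w mu a1 ξ (pt x)) ((hcont i j).div_const _)
      (fun x c hc => (continuous_pt y₀).continuousAt.eventually (husc (pt x) c hc)) hdense
      (fun x hx => by
        rw [div_le_iff₀' hC1]
        exact (hle0 i j x hx).trans (mul_le_mul_of_nonneg_right (le_max_left _ _) (hBB _))) x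
    rw [div_le_iff₀' hC1] at e1
    exact e1
  have hint : ∀ i j, ∫⁻ x, ENNReal.ofReal (‖τ i x‖ ^ (2 / ((k * N : ℕ) : ℝ)) *
      ‖w' j x‖ ^ (2 / (e₀ : ℝ))) ∂ν < ∞ := by
    intro i j
    have hGm : Measurable fun x : FibTK H₁ H₂ y₀ => ENNReal.ofReal
        (‖τ i x‖ ^ (2 / ((k * N : ℕ) : ℝ)) * ‖w' j x‖ ^ (2 / (e₀ : ℝ))) := by
      exact (hcont i j).measurable.ennreal_ofReal
    obtain ⟨g, hg, hgG⟩ := exists_ext hGm
    have e1 : ∫⁻ x, ENNReal.ofReal (‖τ i x‖ ^ (2 / ((k * N : ℕ) : ℝ)) *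
        ‖w' j x‖ ^ (2 / (e₀ : ℝ))) ∂ν = H₁.fint y₀ (fun z => H₂.fint z g) := by
      exact (lintegral_congr fun x => (hgG x).symm).trans (leb_tow H₁ H₂ (bT H₁ H₂ y₀) hν hg)
    rw [e1]
    have e2 : ∀ z, H₁.f z = y₀ → H₂.fint z g ≤
        ENNReal.ofReal C * ENNReal.ofReal (Wf w z) ^ (1 / (e₀ : ℝ)) := by
      intro z hz
      have e3 : H₂.fint z g = H₂.fint z fun y => ENNReal.ofReal (‖z (w (ι j))‖ ^ (2 / (e₀ : ℝ))) *
          ‖evs u (P i z) y‖ₑ ^ (2 / (k * N : ℝ)) := by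
        refine fint_congr H₂ fun y hy => ?_
        have hy0 : H₁.f (H₂.f y) = y₀ := by rw [hy, hz]
        obtain ⟨x, hx⟩ : ∃ x : FibTK H₁ H₂ y₀, pt x = y :=
          ⟨⟨y, (tow_q H₁ H₂ y).trans hy0⟩, rfl⟩
        rw [← hx, hgG x]
        simp only [hτdef, hwdef]
        rw [hx, hy, mul_comm, ENNReal.ofReal_mul (Real.rpow_nonneg (norm_nonneg _) _), hcast,
          ← ENNReal.ofReal_rpow_of_nonneg (norm_nonneg (evs u (P i z) y)) (by positivity),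
          ofReal_norm]
      rw [e3, fint_const_mul H₂ z ENNReal.ofReal_ne_top, mul_comm]
      refine mul_le_mul' (hF1 z hz i) ?_
      rw [ENNReal.ofReal_rpow_of_nonneg (Wf_nonneg w z) (by positivity)]
      apply ENNReal.ofReal_le_ofReal
      have e4 : ‖z (w (ι j))‖ ^ (2 / (e₀ : ℝ)) = (‖z (w (ι j))‖ ^ 2) ^ (1 / (e₀ : ℝ)) := by
        rw [← Real.rpow_natCast (‖z (w (ι j))‖) 2, ← Real.rpow_mul (norm_nonneg _)]
        congr 1
        push_cast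
        ring
      rw [e4]
      exact Real.rpow_le_rpow (by positivity) (le_Wf w z (ι j)) (by positivity)
    calc H₁.fint y₀ (fun z => H₂.fint z g)
        ≤ H₁.fint y₀ (fun z => ENNReal.ofReal C * ENNReal.ofReal (Wf w z) ^ (1 / (e₀ : ℝ))) :=
          fint_mono H₁ e2
      _ = ENNReal.ofReal C * H₁.fint y₀ (fun z => ENNReal.ofReal (Wf w z) ^ (1 / (e₀ : ℝ))) :=
          fint_const_mul H₁ y₀ ENNReal.ofReal_ne_top _
      _ < ∞ := ENNReal.mul_lt_top ENNReal.ofReal_lt_top h2'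
  have hind : ∀ Q : MvPolynomial (Fin d ⊕ Fin q) ℂ, Q ≠ 0 → ∃ x, τ 0 x ≠ 0 ∧ w' 0 x ≠ 0 ∧
      MvPolynomial.eval (Sum.elim (fun i => τ i.succ x / τ 0 x)
        (fun j => w' j.succ x / w' 0 x)) Q ≠ 0 := by
    intro Q hQ
    have hA : ∀ (z : FibR H₁ y₀) (Δ : ℕ) (Q : MvPolynomial (Fin (d + 1)) ℂ), Q.IsHomogeneous Δ →
        (∀ x : FibTK H₁ H₂ y₀, prL x = z → MvPolynomial.eval (fun i => τ i x) Q = 0) → Q = 0 := by
      intro z Δ Q hQ h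
      have hz : H₁.f z.val = y₀ := (rm_q H₁ _).symm.trans z.q_eq
      refine hF3 z.val hz Δ Q hQ fun y hy => ?_
      obtain ⟨x, hx⟩ : ∃ x : FibTK H₁ H₂ y₀, pt x = y :=
        ⟨⟨y, (tow_q H₁ H₂ y).trans (by rw [hy, hz]; rfl)⟩, rfl⟩
      have h5 := h x (RMdl.Fib.ext (by
        change H₂.f (pt x) = z.val
        rw [hx, hy]))
      simp only [hτdef] at h5
      rw [hx, hy] at h5
      exact h5
    have hB : ∀ (Δ : ℕ) (Q : MvPolynomial (Fin (q + 1)) ℂ), Q.IsHomogeneous Δ →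
        (∀ z : FibR H₁ y₀, MvPolynomial.eval (fun j => (z.val : ML.Pts) (w (ι j))) Q = 0) → Q = 0 :=
      fun Δ Q hQ h => hI Δ Q hQ fun z hz => h ⟨z, (rm_q H₁ _).trans hz⟩
    exact ind_two (f := fun x : FibTK H₁ H₂ y₀ => prL x)
      (fun x i => τ i x) (fun (z : FibR H₁ y₀) j => (z.val : ML.Pts) (w (ι j))) hA hB Q hQ
  exact ⟨{ y₀ := bT H₁ H₂ y₀
           ν := ν
           leb := hν
           τ := τ
           w := w'
           hτ := hτ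
           hw := hw
           C := _
           le := hle
           int := hint
           ind := hind }⟩

/-- **ENDS**: the slice half of the endgame, for a given set of independent ratios -/
theorem slice_q {N s e e₀ d k' : ℕ} (hN : 0 < N) (hs : 0 < s) (he₀ : 0 < e₀)
    {u : Fin s → MK.B} {w : Fin (e + 1) → ML.B} {D : ML.Pts → ℝ} {ε : ℝ} (hε : 0 < ε)
    (hCY : IsCY H₂ N u D) {b₁ : ℕ → MK.Pts → ℝ}
    (hC1 : ∀ k, 0 < k → C1' H₁ H₂ N k u D ε (b₁ k)) {b₂ : ML.Pts → ℝ}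
    (hC2 : C2 H₁ H₂ w e₀ b₂) (hF : Flat H₁ H₂ N d u D ε) (hJ : CJ ML w e₀) {q : ℕ}
    {ι : Fin (q + 1) → Fin (e + 1)} (hI : ∀ᵐ c : Cn ρ, ∀ y : MT.Pts, MT.pz y = c →
      ∀ (Δ : ℕ) (Q : MvPolynomial (Fin (q + 1)) ℂ), Q.IsHomogeneous Δ →
        (∀ z : ML.Pts, H₁.f z = y → MvPolynomial.eval (fun i => z (w (ι i))) Q = 0) → Q = 0)
    (hZ : CNz H₁) {σ : ML.B} (hσ : σ ≠ 0) {t : ℝ}
    (h4 : ∀ᵐ c : Cn ρ, ∀ y : MT.Pts, MT.pz y = c → ∃ c₀ : ℝ, ∀ z : ML.Pts, H₁.f z = y →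
      ‖z σ‖ ^ (2 / (k' : ℝ)) * D z ^ t = c₀)
    {mu a1 ξ : ℝ} (hmu : 0 < mu) (ha1 : a1 = s * (1 + ε * N)) (ht : t = mu * (ε * N))
    (hx : 1 + ξ = mu * a1 / e₀) (hx0 : 0 ≤ ξ) :
    ∃ k : ℕ, 0 < k ∧
      Nonempty (SliceOut H₁ H₂ (BB H₂ (b₁ k) b₂ σ k' w mu a1 ξ) d q (k * N) e₀) := by
  choose! hh hh0 hlow using fun k (hk : 0 < k) => (hC1 k hk).low
  have hC1' : ∀ᵐ c : Cn ρ, ∀ k : ℕ, 0 < k → ∀ y₀ : MT.Pts, MT.pz y₀ = c →
      Dense {x : FibTK H₁ H₂ y₀ | (H₂.f (pt x)) (hh k) ≠ 0} := by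
    rw [ae_all_iff]
    intro k
    by_cases hk : 0 < k
    · have hne : (H₂.incl (hh k) : (tow H₁ H₂).TK.MK.B) ≠ 0 := by
        intro h0
        apply hh0 k hk
        apply Subtype.ext
        apply (algebraMap L K).injective
        have h1 := congrArg (fun x : MK.B => (x : K)) h0
        rw [ZeroMemClass.coe_zero, map_zero]
        exact h1
      obtain ⟨p, hp, hpd⟩ := exists_dense (tow H₁ H₂).TK hne
      filter_upwards [Null956.ae_eval_ne hp] with c hc _ y₀ hy₀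
      exact hpd (bT H₁ H₂ y₀) (by
        have h2 : (tow H₁ H₂).TK.ML.pz (bT H₁ H₂ y₀) = c := hy₀
        rw [h2]
        exact hc)
    · exact Eventually.of_forall fun c h => absurd h hk
  have hgen : ∃ c : Cn ρ, MvPolynomial.eval c MT.h ≠ 0 ∧
      (∀ k : ℕ, 0 < k → ∀ y₀ : MT.Pts, MT.pz y₀ = c →
        Dense {x : FibTK H₁ H₂ y₀ | (H₂.f (pt x)) (hh k) ≠ 0}) ∧
      (sint ML (eL ρ a) c (fun z' => ENNReal.ofReal (Wf w z') ^ (1 / (e₀ : ℝ))) ≠ ∞ →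
        ∀ z : ML.Pts, tc ML (eL ρ a) z = c →
        ENNReal.ofReal (Wf w z) ≤ (e + 1) *
          sint ML (eL ρ a) c (fun z' => ENNReal.ofReal (Wf w z') ^ (1 / (e₀ : ℝ))) *
          ENNReal.ofReal (b₂ z)) ∧
      (∀ y₀ : MT.Pts, MT.pz y₀ = c →
        ∃ (k : ℕ) (P : Fin (d + 1) → ML.Pts → MvPolynomial (Fin s) ℂ) (C : ℝ), 0 < k ∧
        (∀ i z, H₁.f z = y₀ → (P i z).IsHomogeneous k) ∧
        (∀ i μ, Ho51.Hol (fun z : FibR H₁ y₀ => (P i z.val).coeff μ)) ∧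
        ∀ z : ML.Pts, H₁.f z = y₀ →
          (∀ i, H₂.fint z (fun y => ‖evs u (P i z) y‖ₑ ^ (2 / (k * N : ℝ))) ≤ ENNReal.ofReal C) ∧
          (∀ i, Ieps H₂ N k u ε z (evs u (P i z)) * ENNReal.ofReal (D z ^ (ε * N)) ≤
            ENNReal.ofReal C) ∧
          ∀ (Δ : ℕ) (Q : MvPolynomial (Fin (d + 1)) ℂ), Q.IsHomogeneous Δ →
            (∀ y : MK.Pts, H₂.f y = z → MvPolynomial.eval (fun i => evs u (P i z) y) Q = 0) →
              Q = 0) ∧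
      sint ML (eL ρ a) c (fun z => ENNReal.ofReal (Wf w z) ^ (1 / (e₀ : ℝ))) < ∞ ∧
      (∀ y : MT.Pts, MT.pz y = c →
        ∀ (Δ : ℕ) (Q : MvPolynomial (Fin (q + 1)) ℂ), Q.IsHomogeneous Δ →
          (∀ z : ML.Pts, H₁.f z = y → MvPolynomial.eval (fun i => z (w (ι i))) Q = 0) → Q = 0) ∧
      (∀ y : MT.Pts, MT.pz y = c → ∃ z : ML.Pts, H₁.f z = y ∧ z σ ≠ 0) ∧
      (∀ y : MT.Pts, MT.pz y = c → ∃ c₀ : ℝ, ∀ z : ML.Pts, H₁.f z = y →
        ‖z σ‖ ^ (2 / (k' : ℝ)) * D z ^ t = c₀) := by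
    refine Filter.Eventually.exists (f := ae (volume : Measure (Cn ρ))) ?_
    filter_upwards [Null956.ae_eval_ne MT.h_ne, hC1', hC2.low, hF, hJ, hI, hZ σ hσ, h4] with
      c g0 g1 g2 g3 g4 g5 g6 g7
    refine ⟨g0, g1, g2, fun y₀ hy₀ => ?_, g4, g5, g6, g7⟩
    obtain ⟨k, P, C, hk, hP, hPh, hPz⟩ := g3 y₀ hy₀
    exact ⟨k, P, C, hk, hP, fun i μ => hol_of_holS_ite H₁ (hPh i μ), hPz⟩
  obtain ⟨c, g0, g1, g2, g3, g4, g5, g6, g7⟩ := hgen
  obtain ⟨y₀, hy₀⟩ := MT.surj g0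
  obtain ⟨k, P, C, hk, hP, hPh, hPz⟩ := g3 y₀ hy₀
  obtain ⟨z₀, hz₀, hz₀σ⟩ := g6 y₀ hy₀
  obtain ⟨c₀, hc₀⟩ := g7 y₀ hy₀
  have hc₀pos : 0 < c₀ := by
    rw [← hc₀ z₀ hz₀]
    exact mul_pos (Real.rpow_pos_of_pos (norm_pos_iff.2 hz₀σ) _)
      (Real.rpow_pos_of_pos (hCY z₀).1 _)
  have htc : ∀ z : ML.Pts, H₁.f z = y₀ → tc ML (eL ρ a) z = c := by
    intro z hz
    rw [tc_eL H₁, hz, hy₀]
  set J : ℝ≥0∞ := sint ML (eL ρ a) c (fun z => ENNReal.ofReal (Wf w z) ^ (1 / (e₀ : ℝ))) with hJdef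
  have hJm : Measurable fun z : ML.Pts => ENNReal.ofReal (Wf w z) ^ (1 / (e₀ : ℝ)) :=
    (continuous_Wf w).measurable.ennreal_ofReal.pow_const _
  have hfin : ((e : ℝ≥0∞) + 1) * J ≠ ∞ :=
    ENNReal.mul_ne_top (by simp) g4.ne
  have husc : UpperSemicontinuous (BB H₂ (b₁ k) b₂ σ k' w mu a1 ξ) :=
    ((EndC_723.lpsh_B0 (H := H₂) (σ := σ) (k := k') (w := w) (hC1 k hk).psh hC2.psh hmu.le
      hx0).rpow (c := 1 / (mu * a1)) (by rw [ha1]; positivity)).usc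
  refine ⟨k, hk, slice_at (C₂ := (((e : ℝ≥0∞) + 1) * J).toReal) (C := C) (P := P) (ι := ι)
    (c₀ := c₀) (y₀ := y₀) (D := D) (ε := ε) (t := t) (u := u) hN hs he₀ hk hε
    (fun z => (hCY z).1) (hC1 k hk).psh.nonneg hC2.psh.nonneg hmu ha1 ht hx hx0
    (hh := hh k) (g1 k hk y₀ hy₀) husc
    (fun z _ hzh => hlow k hk z hzh) (fun z hz => ?_) ENNReal.toReal_nonneg ?_ hc₀pos hc₀
    hP hPh (fun z hz => (hPz z hz).1) (fun z hz => (hPz z hz).2.1) (fun z hz => (hPz z hz).2.2)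
    (g5 y₀ hy₀)⟩
  · have e1 := g2 g4.ne z (htc z hz)
    rw [← ENNReal.ofReal_toReal hfin, ← ENNReal.ofReal_mul ENNReal.toReal_nonneg] at e1
    exact (ENNReal.ofReal_le_ofReal_iff (mul_nonneg ENNReal.toReal_nonneg (hC2.psh.nonneg z))).1 e1
  · refine lt_of_le_of_lt (fint_le_sint H₁ y₀ hJm) ?_
    rw [hy₀]
    exact g4

/-- **ENDS**: the slice half of the endgame -/
theorem slice {N s e e₀ d k' : ℕ} (hN : 0 < N) (hs : 0 < s) (he₀ : 0 < e₀)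
    {u : Fin s → MK.B} {w : Fin (e + 1) → ML.B} {D : ML.Pts → ℝ} {ε : ℝ} (hε : 0 < ε)
    (hCY : IsCY H₂ N u D) {b₁ : ℕ → MK.Pts → ℝ}
    (hC1 : ∀ k, 0 < k → C1' H₁ H₂ N k u D ε (b₁ k)) {b₂ : ML.Pts → ℝ}
    (hC2 : C2 H₁ H₂ w e₀ b₂) (hF : Flat H₁ H₂ N d u D ε) (hJ : CJ ML w e₀) (hI : CInd H₁ w)
    (hZ : CNz H₁) {σ : ML.B} (hσ : σ ≠ 0) {t : ℝ}
    (h4 : ∀ᵐ c : Cn ρ, ∀ y : MT.Pts, MT.pz y = c → ∃ c₀ : ℝ, ∀ z : ML.Pts, H₁.f z = y →
      ‖z σ‖ ^ (2 / (k' : ℝ)) * D z ^ t = c₀)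
    {mu a1 ξ : ℝ} (hmu : 0 < mu) (ha1 : a1 = s * (1 + ε * N)) (ht : t = mu * (ε * N))
    (hx : 1 + ξ = mu * a1 / e₀) (hx0 : 0 ≤ ξ) :
    ∃ q k : ℕ, e ≤ q + ρ ∧ 0 < k ∧
      Nonempty (SliceOut H₁ H₂ (BB H₂ (b₁ k) b₂ σ k' w mu a1 ξ) d q (k * N) e₀) := by
  obtain ⟨q, ι, hq, hI⟩ := hI
  obtain ⟨k, hk, h⟩ := slice_q hN hs he₀ hε hCY hC1 hC2 hF hJ hI hZ hσ h4 hmu ha1 ht hx hx0
  exact ⟨q, k, hq, hk, h⟩

end main

end Crest.Agent.R276.EndS2_870
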