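import Crest.Agent.R276.FK3G_595
import Crest.Agent.R276.UHon_845
import Crest.Agent.R276.Triv_63

/-!
# Row 276: S0419 from `CoreBetaPosU` (helper845)

`CoreBetaPosU` is helper63's `CoreBetaPos` with the additional hypothesis `UHon L K` (uniform honesty of `K/L`).
The proofs are those of helper849 (`mainBeta`), helper63 (`coreBeta_of_pos`, `goal`).
-/

set_option autoImplicit false
set_option linter.style.haveILetI false
set_option linter.unusedSectionVars false

open AlgebraicGeometry CategoryTheory Crest.AlgGeometry.Divisors TopologicalSpace Order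
open Crest Crest.AlgGeometry Crest.AlgGeometry.Divisors
open Crest.Agent.R276.FKDefs_779 Crest.Agent.R276.BetaDefs_231 Crest.Agent.R276.Triv_63
open Crest.Agent.R276.FK3G_595 Crest.Agent.R276.UHon_845 Crest.Agent.R276.FKFin_849
open Crest.Agent.R276.FKB4_594 Crest.Agent.R276.ConnC_617 Crest.Agent.R271.Bs960 Crest.Agent.R271.Kx735

noncomputable section

namespace Crest.Agent.R276.GoalU_845

/-- `CoreBeta` with the additional hypothesis `UHon L K` -/
def CoreBetaU : Prop :=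
  ∀ (K : Type) [Field K] [Algebra ℂ K] (L : IntermediateField ℂ K), FGF ℂ K →
    (∀ a : K, IsAlgebraic L a → a ∈ L) →
    Honest ℂ K → Honest ℂ L → UHon L K →
    ∀ d e : ℕ, KapGeS L K d → KapGeS ℂ L e → KapGeF ℂ K (d + e)

/-- `CoreBetaPos` with the additional hypothesis `UHon L K` -/
def CoreBetaPosU : Prop :=
  ∀ (K : Type) [Field K] [Algebra ℂ K] (L : IntermediateField ℂ K), FGF ℂ K →
    (∀ a : K, IsAlgebraic L a → a ∈ L) →
    Honest ℂ K → Honest ℂ L → UHon L K →
    ∀ (r m : ℕ), 0 < r → 0 < m → ∀ (_ : Module.Basis (Fin r) K (Ω[K⁄L]))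
      (_ : Module.Basis (Fin m) L (Ω[L⁄ℂ])),
    ∀ d e : ℕ, KapGeS L K d → KapGeS ℂ L e → KapGeF ℂ K (d + e)

/-- it is enough to treat the non degenerate case -/
theorem coreBetaU_of_pos (h : CoreBetaPosU) : CoreBetaU := by
  intro K _ _ L hK hL h1 h2 h3 d e hd he
  have hd' := hd
  have he' := he
  obtain ⟨r, b, m1, hm1, f, hf, hfi⟩ := hd'
  obtain ⟨m, b', m2, hm2, g, hg, hgi⟩ := he'
  rcases Nat.eq_zero_or_pos r with rfl | hr
  · -- `K = L`
    haveI := isAlgebraic_of_basis_zero b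
    obtain rfl := eq_zero_of_isAlgebraic hfi
    have htop : L = ⊤ := by
      rw [eq_top_iff]
      intro a _
      exact hL a (Algebra.IsAlgebraic.isAlgebraic a)
    subst htop
    rw [zero_add]
    exact kapGeF_of_kapGeS hK (kapGeS_equiv IntermediateField.topEquiv he)
  rcases Nat.eq_zero_or_pos m with rfl | hm
  · -- `L = ℂ`
    haveI := isAlgebraic_of_basis_zero b'
    obtain rfl := eq_zero_of_isAlgebraic hgi
    have hbot : L = ⊥ := by
      rw [eq_bot_iff]
      intro a ha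
      haveI : Algebra.IsIntegral ℂ L := Algebra.isAlgebraic_iff_isIntegral.1 inferInstance
      obtain ⟨c, hc⟩ := (IsAlgClosed.algebraMap_bijective_of_isIntegral (k := ℂ) (K := L)).2 ⟨a, ha⟩
      rw [IntermediateField.mem_bot]
      exact ⟨c, congrArg Subtype.val hc⟩
    subst hbot
    rw [add_zero]
    exact kapGeF_of_kapGeS hK (kapGeS_bot hd)
  exact h K L hK hL h1 h2 h3 r m hr hm b b' d e hd he

/-- **Final assembly from `CoreBetaU`** (849's `mainBeta`), for given `f`: `φ` is the homomorphism of function fields,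
`C` the exceptional sets of FK3. -/
theorem mainBetaU (hcore : CoreBetaU)
    (X Z : Scheme.{0}) [Algebra ℂ Γ(X, ⊤)] [Algebra ℂ Γ(Z, ⊤)]
    [IsIntegral X] [IsLocallyNoetherian X] [IsIntegral Z] [IsLocallyNoetherian Z] (n m : ℕ)
    (hX : IsSmoothProperVariety ℂ X n) (hZ : IsSmoothProperVariety ℂ Z m)
    (f : X ⟶ Z) (hf : f ≫ structureMorphism ℂ Z = structureMorphism ℂ X)
    (hsurj : Function.Surjective f.base)
    (hconn : ∀ z : Spec (CommRingCat.of ℂ) ⟶ Z, z ≫ structureMorphism ℂ Z = 𝟙 _ →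
      PreconnectedSpace ↥(Limits.pullback f z))
    (KX : WeilDiv X) (hKX : IsCanonicalDivisor ℂ X n KX)
    (KZ : WeilDiv Z) (hKZ : IsCanonicalDivisor ℂ Z m KZ)
    (φ : letI := fnFieldAlgebra ℂ X; letI := fnFieldAlgebra ℂ Z;
      Z.functionField →ₐ[ℂ] X.functionField)
    (hφ : ∀ (V : Z.Opens) [Nonempty V] [Nonempty (f ⁻¹ᵁ V : X.Opens)] (s : Γ(Z, V)),
      φ (Z.germToFunctionField V s) = X.germToFunctionField (f ⁻¹ᵁ V) (f.app V s))
    (hrel : letI := fnFieldAlgebra ℂ X; letI := fnFieldAlgebra ℂ Z;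
      UHon φ.fieldRange X.functionField)
    (hvgf : letI := fnFieldAlgebra ℂ X; letI := fnFieldAlgebra ℂ Z;
      ∃ C : ℕ → Set Z, (∀ i, IsClosed (C i) ∧ C i ≠ Set.univ) ∧
        ∀ z : Spec (CommRingCat.of ℂ) ⟶ Z, z ≫ structureMorphism ℂ Z = 𝟙 _ →
          (∀ i, z.base (IsLocalRing.closedPoint ℂ) ∉ C i) →
          ∀ d : ℕ, FibreKodairaDimGe ℂ f z (n - m) d → KapGeS φ.fieldRange X.functionField d) :
    ∃ C : ℕ → Set Z, (∀ i, IsClosed (C i) ∧ C i ≠ Set.univ) ∧
      ∀ z : Spec (CommRingCat.of ℂ) ⟶ Z, z ≫ structureMorphism ℂ Z = 𝟙 _ →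
        (∀ i, z.base (IsLocalRing.closedPoint ℂ) ∉ C i) →
        ∀ d e : ℕ, FibreKodairaDimGe ℂ f z (n - m) d → KodairaDimGe ℂ Z KZ e →
          KodairaDimGe ℂ X KX (d + e) := by
  letI : Algebra ℂ X.functionField := fnFieldAlgebra ℂ X
  letI : Algebra ℂ Z.functionField := fnFieldAlgebra ℂ Z
  obtain ⟨C, hC, h⟩ := hvgf
  refine ⟨C, hC, fun z hz hzC d e hd he => ?_⟩
  let eZ : Z.functionField ≃ₐ[ℂ] φ.fieldRange := AlgEquiv.ofInjectiveField φ
  have h2 : KapGeS ℂ φ.fieldRange e := kapGeS_equiv eZ ((kodairaDimGe_iffS hZ hKZ e).1 he)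
  refine kodairaDimGe_of_kapGeF hX hKX (hcore _ φ.fieldRange (fgf_functionField X hX) ?_
    (honest_functionField X hX hKX) (honest_equiv eZ (honest_functionField Z hZ hKZ)) hrel d e
    (h z hz hzC d hd) h2)
  rintro a ⟨p, hp, hpa⟩
  -- transport the polynomial to `Z.functionField`
  have h3 := algClosed_of_connected X Z f hX hZ hf hsurj hconn φ.toRingHom hφ a
    (p.map eZ.symm.toRingEquiv.toRingHom) (by
      rwa [Ne, Polynomial.map_eq_zero_iff eZ.symm.injective]) (by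
      rw [Polynomial.eval₂_map]
      have : φ.toRingHom.comp eZ.symm.toRingEquiv.toRingHom =
          algebraMap φ.fieldRange X.functionField := by
        ext x
        have := congrArg Subtype.val (eZ.apply_symm_apply x)
        exact this
      rw [this]
      exact hpa)
  obtain ⟨y, hy⟩ := h3
  exact ⟨y, hy⟩

/-- S0419 from the geometric core in the non degenerate case. -/
theorem goalU (hcore : CoreBetaPosU)
    (X Z : Scheme.{0}) [Algebra ℂ Γ(X, ⊤)] [Algebra ℂ Γ(Z, ⊤)]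
    [IsIntegral X] [IsLocallyNoetherian X] [IsIntegral Z] [IsLocallyNoetherian Z] (n m : ℕ)
    (hX : IsSmoothProperVariety ℂ X n) (hZ : IsSmoothProperVariety ℂ Z m)
    (_hXp : ∃ A : WeilDiv X, IsAmple A) (_hZp : ∃ A : WeilDiv Z, IsAmple A)
    (f : X ⟶ Z) (hf : f ≫ structureMorphism ℂ Z = structureMorphism ℂ X)
    (hsurj : Function.Surjective f.base)
    (hconn : ∀ z : Spec (CommRingCat.of ℂ) ⟶ Z, z ≫ structureMorphism ℂ Z = 𝟙 _ →
      PreconnectedSpace ↥(Limits.pullback f z))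
    (KX : WeilDiv X) (hKX : IsCanonicalDivisor ℂ X n KX)
    (KZ : WeilDiv Z) (hKZ : IsCanonicalDivisor ℂ Z m KZ) :
    ∃ C : ℕ → Set Z, (∀ i, IsClosed (C i) ∧ C i ≠ Set.univ) ∧
      ∀ z : Spec (CommRingCat.of ℂ) ⟶ Z, z ≫ structureMorphism ℂ Z = 𝟙 _ →
        (∀ i, z.base (IsLocalRing.closedPoint ℂ) ∉ C i) →
        ∀ d e : ℕ, FibreKodairaDimGe ℂ f z (n - m) d → KodairaDimGe ℂ Z KZ e →
          KodairaDimGe ℂ X KX (d + e) :=
  have h : f (genericPoint X) ⤳ genericPoint Z :=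
    Crest.Agent.R276.FK3D_595.specializes_of_surjective f hsurj
  mainBetaU (coreBetaU_of_pos hcore) X Z n m hX hZ f hf hsurj hconn
    KX hKX KZ hKZ (fnHom X Z f hf h) (fnHom_germ X Z f hf h)
    (Crest.Agent.R276.UHon_845.uhon_rel hX f (fnHom X Z f hf h) (fnHom_germ X Z f hf h))
    (vgfBeta X Z n m hX hZ f hf h)

end Crest.Agent.R276.GoalU_845
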