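import Crest.Agent.R276.TChA_858
import Crest.Agent.R276.BR8_590
import Crest.Agent.R276.BR9_590
import Crest.Agent.R276.FKB0_143
import Crest.Agent.R276.IntC_448

/-! # Row 276, helper858: TCh, part B: the builders. -/

set_option autoImplicit false

open scoped Topology BigOperators
open Set Metric Filter

noncomputable section

namespace Crest.Agent.R276.TCh_858

open Crest.Agent.R271.Defs710 Crest.Agent.R271.Bd741
open Crest.Agent.R276.FKDefs_779 Crest.Agent.R276.BC_986 Crest.Agent.R276.DivVal_858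
open Crest.Agent.R276.BR_590 Crest.Agent.R276.Mod1_987 Crest.Agent.R276.End0_508
open Crest.Agent.R276.SkelDefs_220 (AC PD tau Mono low pw Rel TChart)

section jF

variable {m r : ℕ} {BL BK : Type} [CommRing BL] [Algebra ℂ BL] [CommRing BK] [Algebra ℂ BK]
  {i₀ : Fin (m + r)} {j : BL →ₐ[ℂ] BK}

/-- 590's fibre Jacobian is the determinant of the derivative along the leaf -/
lemma jF_eq (X : RCh m r i₀ j) (xt : Fin r → BK) {ξ : Cn (m + r)} (hξ : ξ ∈ X.V) :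
    (fderiv ℂ (fun (x : Cn r) (k : Fin r) => X.s (Fin.append (fun i => ξ (Fin.castAdd r i)) x)
      (xt k)) (fun k => ξ (Fin.natAdd m k))).det = X.Jrel xt ξ := by
  change (fderiv ℂ (fun (x : Cn r) (k : Fin r) => X.s (cat (bs ξ) x) (xt k)) (fb ξ)).det = _
  have hx : cat (bs ξ) (fb ξ) ∈ X.V := by rwa [cat_bs_fb]
  have han : AnalyticAt ℂ (fun (x : Cn r) (k : Fin r) => X.s (cat (bs ξ) x) (xt k)) (fb ξ) := by
    rw [analyticAt_pi_iff]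
    intro k
    exact AnalyticAt.comp (g := fun ξ => X.s ξ (xt k)) (f := fun x => cat (bs ξ) x)
      (X.anal (xt k) _ hx) (analyticAt_cat (bs ξ) (fb ξ))
  rw [det_eq_matrix]
  unfold RCh.Jrel
  congr 1
  ext k l
  simp only [Matrix.of_apply]
  rw [fderiv_pi_apply han.differentiableAt]
  have h1 : fderiv ℂ (fun x => X.s (cat (bs ξ) x) (xt k)) (fb ξ) =
      (fderiv ℂ (fun ξ => X.s ξ (xt k)) (cat (bs ξ) (fb ξ))).comp (inr m r) := by
    have := ((X.anal (xt k) _ hx).differentiableAt.hasFDerivAt.comp (fb ξ)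
      (hasFDerivAt_cat (bs ξ) (fb ξ)))
    exact this.fderiv
  rw [h1, ContinuousLinearMap.comp_apply, inr_single, cat_bs_fb]

end jF

section rel

variable {L K : Type} [Field L] [Field K] [Algebra ℂ L] [Algebra ℂ K] [Algebra L K]
  [IsScalarTower ℂ L K] {m r : ℕ} {ML : Mdl L m} {MK : Mdl K (m + r)}

lemma incl_coe (H : Rel ML MK) (b : ML.B) : ((H.incl b : MK.B) : K) = algebraMap L K (b : L) := rfl

lemma incl_z (H : Rel ML MK) (i : Fin m) : MK.z (Fin.castAdd r i) = H.incl (ML.z i) :=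
  Subtype.ext (H.coord i)

lemma z_append (H : Rel ML MK) : MK.z =
    Fin.append (fun i => H.incl (ML.z i)) (fun k => MK.z (Fin.natAdd m k)) := by
  funext i
  refine Fin.addCases (fun i => ?_) (fun k => ?_) i
  · rw [Fin.append_left, incl_z H]
  · rw [Fin.append_right]

lemma incl_injective (H : Rel ML MK) : Function.Injective H.incl := by
  intro a b h
  apply Subtype.ext
  apply (algebraMap L K).injective
  exact congrArg (fun x : MK.B => (x : K)) h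

/-- the differentials of the coordinates of a model are a basis -/
lemma exists_basis {n : ℕ} (M : Mdl K n) : ∃ b : Module.Basis (Fin n) K (Ω[K⁄ℂ]),
    ∀ i, b i = KaehlerDifferential.D ℂ K (M.z i : K) :=
  FKB0_143.exists_kbasis (IntC_448.isTranscendenceBasis M)

lemma trdeg_mdl {n : ℕ} (M : Mdl K n) : Algebra.trdeg ℂ K = n := by
  have h := (IntC_448.isTranscendenceBasis M).cardinalMk_eq_trdeg
  rw [← h]
  simp

lemma adapted (H : Rel ML MK) {bL : Module.Basis (Fin m) L (Ω[L⁄ℂ])}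
    (hbL : ∀ i, bL i = KaehlerDifferential.D ℂ L (ML.z i : L))
    {b : Module.Basis (Fin (m + r)) K (Ω[K⁄ℂ])}
    (hb : ∀ i, b i = KaehlerDifferential.D ℂ K (MK.z i : K))
    {bK : Module.Basis (Fin r) K (Ω[K⁄L])} (hbK : SkelDefs_220.IsRelBasis MK bK) :
    Adapted bL bK b := by
  refine ⟨fun i => ?_, fun j => ?_⟩
  · rw [hb, hbL, KaehlerDifferential.map_D]
    congr 1
    exact H.coord i
  · rw [hb, KaehlerDifferential.map_D, hbK]
    rfl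

end rel

section tower

variable {T L K : Type} [Field T] [Field L] [Field K] [Algebra ℂ T] [Algebra ℂ L] [Algebra ℂ K]
  [Algebra T L] [Algebra L K] [IsScalarTower ℂ T L] [IsScalarTower ℂ L K] {ρ a r : ℕ}
  {MT : Mdl T ρ} {ML : Mdl L (ρ + a)} {MK : Mdl K (ρ + a + r)}

/-- conclusion of `TCh` for fixed `D`, `F`, `FL` -/
def Concl (H₁ : Rel MT ML) (H₂ : Rel ML MK) (R : ValuationSubring K)
    (D : DivModel (ρ + a + r) K) (F : Finset K) (FL : Finset L) : Prop :=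
  ∃ X : BChart D MK.B, (∀ f ∈ F, ∃ k G, BC_986.Good D X f k G) ∧
    ∃ Y : TChart H₁ H₂ R, Y.Dict ∧ Y.Good F ∧ Y.GoodL FL ∧
      ∃ C : ℝ, ∀ ζ ∈ X.V, ∃ η ∈ PD (Y.δ / 2) (some Y.i₀), X.s ζ = Y.cK.s η ∧
        ‖(fderiv ℂ (X.ψ MK.z) ζ).det‖ ≤ C * ‖Y.cK.J η‖

/-- the K-level part common to all cases -/
lemma concl_of {H₁ : Rel MT ML} {H₂ : Rel ML MK} {R : ValuationSubring K}
    {D : DivModel (ρ + a + r) K} (X : BChart D MK.B) {G₀ : Cn (ρ + a + r) → ℂ} {eK : ℕ}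
    (TK : Root D.i₀ X.r G₀ eK) {F : Finset K} {FL : Finset L}
    (hF : ∀ f ∈ F, ∃ k G, Good D X f k G) (Y : TChart H₁ H₂ R) (hi : Y.i₀ = D.i₀)
    (hδ : Y.δ ≤ TK.ρ) (hs : ∀ ζ, Y.cK.s ζ = X.s (TK.Ξ ζ)) (hY : Y.Dict) (hL : Y.GoodL FL) :
    Concl H₁ H₂ R D F FL := by
  obtain ⟨ρ', C, hρ', hle, h⟩ := exists_small X TK MK.z (half_pos Y.δ_pos)
    ((half_lt_self Y.δ_pos).trans_le hδ)
  refine ⟨X.shrink ρ' hρ' hle, fun f hf => ?_, Y, hY, fun f hf => ?_, hL, C, fun ζ hζ => ?_⟩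
  · obtain ⟨k, G, hG⟩ := hF f hf
    exact ⟨k, G, hG.shrink ρ' hρ' hle⟩
  · obtain ⟨k, G, hG⟩ := hF f hf
    obtain ⟨u, hu, h2⟩ := ord_V MK X TK hδ (j := some Y.i₀) (by rw [hi]) hG
    refine ⟨k, u, hu, fun ζ hζ b c hbc => ?_⟩
    rw [hs]
    exact h2 ζ hζ b c hbc
  · obtain ⟨η, h1, h2, h3, h4⟩ := h ζ hζ.1 hζ.2
    refine ⟨η, ?_, ?_, ?_⟩
    · rw [hi]; exact mem_PD_some.mpr ⟨h1, h2⟩
    · rw [hs, h3]; rfl
    · have h5 : Y.cK.J η = (fderiv ℂ ((ofRoot X TK).ψ MK.z) η).det := by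
        unfold SkelDefs_220.AC.J
        congr 2
        funext ζ
        rw [hs]
        rfl
      rw [h5]
      exact h4

section V

variable {H₁ : Rel MT ML} {H₂ : Rel ML MK} {R : ValuationSubring K}
  {V : VData (ρ + a) r L K} (X : BChart V.D MK.B) (XL : BChart V.DL ML.B)
  {G₀ : Cn (ρ + a + r) → ℂ} {eK : ℕ} (TK : Root V.D.i₀ X.r G₀ eK)
  {G₁ : Cn (ρ + a) → ℂ} {eL : ℕ} (TL : Root V.DL.i₀ XL.r G₁ eL)

omit [Algebra ℂ T] [Algebra T L] [IsScalarTower ℂ T L] [IsScalarTower ℂ L K] in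
lemma low_V (V : VData (ρ + a) r L K) : low (some V.D.i₀) = some V.DL.i₀ := by
  rw [V.i₀_eq]; exact low_castAdd _

/-- the tower chart, `R ∩ L` divisorial -/
def chV (hD : V.D.ModelOf R) {δ : ℝ} (hδ0 : 0 < δ) (hδ1 : δ < 1) (hδ : δ ≤ TK.ρ)
    (hδL : δ ≤ TL.ρ)
    (hcomp : ∀ ξ ∈ ball (0 : Cn (ρ + a + r)) δ, ξ V.D.i₀ ≠ 0 →
      (X.s (TK.Ξ ξ)).comp H₂.incl = XL.s (TL.Ξ (pe V.DL.i₀ V.e (bs ξ))))
    (cT : AC MT δ (low (low (some V.D.i₀)))) (e₂ : ℕ) (he₂ : 0 < e₂)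
    (hcompT : ∀ η ∈ ball (0 : Cn (ρ + a)) δ, η V.DL.i₀ ≠ 0 →
      (XL.s (TL.Ξ η)).comp H₁.incl = cT.s (pw e₂ (low (some V.D.i₀)) η)) :
    TChart H₁ H₂ R where
  δ := δ
  δ_pos := hδ0
  δ_lt := hδ1
  i₀ := V.D.i₀
  cK := acV MK X TK hδ rfl
  cL := acV ML XL TL hδL (low_V V)
  cT := cT
  e₁ := V.e
  e₂ := e₂
  e₁_pos := Nat.pos_of_ne_zero V.e_ne
  e₂_pos := he₂
  compL := by
    intro ζ hζ
    have h1 := mem_PD_some.mp hζ
    have h2 : pw V.e (some V.D.i₀) ζ = pe V.DL.i₀ V.e (bs ζ) := by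
      rw [V.i₀_eq]; exact pw_castAdd _ _ _
    rw [h2]
    exact hcomp ζ h1.1 h1.2
  compT := by
    intro η hη
    have h1 := mem_PD_some.mp ((low_V V) ▸ hη)
    exact hcompT η h1.1 h1.2
  ordR := fun f k h => ordR_V MK X TK hD (trdeg_mdl MK) hδ0 hδ rfl h

/-- **builder, `R ∩ L` divisorial** -/
theorem buildV (hD : V.D.ModelOf R) (hDL : V.DL.ModelOf (R.comap (algebraMap L K)))
    {δ : ℝ} (hδ0 : 0 < δ) (hδ1 : δ < 1) (hδ : δ ≤ TK.ρ)
    (hδL : δ ≤ TL.ρ)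
    (hcomp : ∀ ξ ∈ ball (0 : Cn (ρ + a + r)) δ, ξ V.D.i₀ ≠ 0 →
      (X.s (TK.Ξ ξ)).comp H₂.incl = XL.s (TL.Ξ (pe V.DL.i₀ V.e (bs ξ))))
    (cT : AC MT δ (low (low (some V.D.i₀)))) (e₂ : ℕ) (he₂ : 0 < e₂)
    (hcompT : ∀ η ∈ ball (0 : Cn (ρ + a)) δ, η V.DL.i₀ ≠ 0 →
      (XL.s (TL.Ξ η)).comp H₁.incl = cT.s (pw e₂ (low (some V.D.i₀)) η))
    {b : Module.Basis (Fin (ρ + a + r)) K (Ω[K⁄ℂ])}
    (hb : ∀ i, b i = KaehlerDifferential.D ℂ K (MK.z i : K))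
    {bL : Module.Basis (Fin (ρ + a)) L (Ω[L⁄ℂ])}
    (hbL : ∀ i, bL i = KaehlerDifferential.D ℂ L (ML.z i : L))
    {c : ℤ} {GJ : Cn (ρ + a + r) → ℂ} (hJ : Good V.D X (V.D.dw.toMatrix b).det c GJ)
    {cL : ℤ} {GL' : Cn (ρ + a) → ℂ} (hJL : Good V.DL XL (V.DL.dw.toMatrix bL).det cL GL')
    {F : Finset K} {FL : Finset L} (hF : ∀ f ∈ F, ∃ k G, Good V.D X f k G)
    (hFL : ∀ f ∈ FL, ∃ k G, Good V.DL XL f k G) : Concl H₁ H₂ R V.D F FL := by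
  set Y : TChart H₁ H₂ R := chV X XL TK TL hD hδ0 hδ1 hδ hδL hcomp cT e₂ he₂ hcompT with hY
  have hord : ∀ {g : K} {k : ℤ}, Y.cK.Ord g k → V.D.HasOrd g k := fun {g k} h =>
    hasOrd_of_acOrd MK X TK hD (trdeg_mdl MK) hδ0 hδ rfl h
  refine concl_of X TK hF Y rfl hδ (fun _ => rfl) ⟨?_, ?_, ?_⟩ ?_
  · -- `K_K`
    refine ⟨c, J_V MK X TK hδ rfl b hb hJ, fun b' hb' m g k hg => ?_⟩
    have hbb : b' = b := Module.Basis.eq_of_apply_eq fun i => by rw [hb', hb]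
    subst hbb
    exact hD.regAt_iff b' (hord hg) hJ.hasOrd m
  · -- `K_L`
    refine ⟨cL, J_V ML XL TL hδL (low_V V) bL hbL hJL, fun b' hb' m g k hg _ => ?_⟩
    have hbb : b' = bL := Module.Basis.eq_of_apply_eq fun i => by rw [hb', hbL]
    subst hbb
    exact regAt_V_abs ML XL TL hDL (trdeg_mdl ML) hδ0 hδL (low_V V) b' hJL.hasOrd hg m
  · -- relative forms
    set xt : Fin r → MK.B := fun k => MK.z (Fin.natAdd (ρ + a) k) with hxt
    let XR : RCh (ρ + a) r V.D.i₀ H₂.incl :=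
      { toACh := (ofRoot X TK).shrink δ hδ0 hδ
        sL := fun α => XL.s (TL.Ξ (pe V.DL.i₀ V.e α))
        fib := fun ξ hξ => hcomp ξ hξ.1 hξ.2 }
    have hz := z_append H₂
    have hJK := (Good.ofRoot_jac X TK MK.z b hb hJ).shrink δ hδ0 hδ
    rw [hz] at hJK
    obtain ⟨J, hJan, hJne, hJeq⟩ := Jrel_vert XR V.i₀_eq V.e_ne hδ1.le
      ((ofRoot XL TL).shrink δ hδ0 hδL) le_rfl (fun _ _ => rfl) ML.z xt
      ((Good.ofRoot_jac XL TL ML.z bL hbL hJL).shrink δ hδ0 hδL) hJK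
    refine ⟨c - V.e * cL - (V.e - 1), ⟨J, hJan, hJne, fun ζ hζ => ?_⟩,
      fun bK hbK m g k hg => ?_⟩
    · have h1 := mem_PD_some.mp hζ
      have hV : ζ ∈ XR.V := ⟨h1.1, h1.2⟩
      exact (jF_eq XR xt hV).trans (hJeq ζ hV)
    · have had := adapted H₂ hbL hb hbK
      refine regAt_V hD hDL V.i₀_eq (fun i hi => ?_) (Nat.pos_of_ne_zero V.e_ne)
        (hD.unit V.u V.u_nd) ?_ had hJL.hasOrd hJ.hasOrd (hord hg) m
      · rw [V.base i hi, V.ι_K]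
      · rw [← V.ι_K, V.ram, map_mul, map_pow]
  · intro f hf
    obtain ⟨k, G, hG⟩ := hFL f hf
    exact ⟨k, ord_V ML XL TL hδL (low_V V) hG⟩

end V

section H

variable {H₁ : Rel MT ML} {H₂ : Rel ML MK} {R : ValuationSubring K}
  {V : HData (ρ + a) r L K ML.B ML.z} (X : BChart V.D MK.B) {y : ML.Pts} (C : Chart ML.z y)

omit [Algebra ℂ T] [Algebra T L] [IsScalarTower ℂ T L] [IsScalarTower ℂ L K] in
lemma low_H (V : HData (ρ + a) r L K ML.B ML.z) : low (some V.D.i₀) = none := by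
  rw [V.i₀_eq]; exact low_natAdd _

/-- the tower chart, `L ⊆ R` -/
def chH (hD : V.D.ModelOf R) {δ : ℝ} (hδ0 : 0 < δ) (hδ1 : δ < 1) (hδ : δ ≤ X.r)
    (hδL : δ ≤ C.r)
    (hcomp : ∀ ξ ∈ ball (0 : Cn (ρ + a + r)) δ, ξ V.D.i₀ ≠ 0 →
      (X.s ξ).comp H₂.incl = C.s (bs ξ))
    (cT : AC MT δ (low (low (some V.D.i₀))))
    (hcompT : ∀ η ∈ ball (0 : Cn (ρ + a)) δ, (C.s η).comp H₁.incl = cT.s (bs η)) :
    TChart H₁ H₂ R where
  δ := δ
  δ_pos := hδ0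
  δ_lt := hδ1
  i₀ := V.D.i₀
  cK := acV MK X (Root.one V.D.i₀ X.r X.r_pos) hδ rfl
  cL := acH ML C hδL _
  cT := cT
  e₁ := 1
  e₂ := 1
  e₁_pos := one_pos
  e₂_pos := one_pos
  compL := by
    intro ζ hζ
    have h1 := mem_PD_some.mp hζ
    rw [pw_of_low_none _ (low_H V)]
    exact hcomp ζ h1.1 h1.2
  compT := by
    intro η hη
    have h1 : low (low (some V.D.i₀)) = (none : Option (Fin ρ)) := by rw [low_H V]; rfl
    rw [pw_of_low_none _ h1]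
    exact hcompT η (PD_sub hη)
  ordR := fun f k h => ordR_V MK X (Root.one V.D.i₀ X.r X.r_pos) hD (trdeg_mdl MK) hδ0 hδ rfl h

/-- **builder, `L ⊆ R`** -/
theorem buildH (hD : V.D.ModelOf R) (hL : ∀ z : L, algebraMap L K z ∈ R)
    {δ : ℝ} (hδ0 : 0 < δ) (hδ1 : δ < 1) (hδ : δ ≤ X.r) (hδL : δ ≤ C.r)
    (hcomp : ∀ ξ ∈ ball (0 : Cn (ρ + a + r)) δ, ξ V.D.i₀ ≠ 0 →
      (X.s ξ).comp H₂.incl = C.s (bs ξ))
    (cT : AC MT δ (low (low (some V.D.i₀))))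
    (hcompT : ∀ η ∈ ball (0 : Cn (ρ + a)) δ, (C.s η).comp H₁.incl = cT.s (bs η))
    {b : Module.Basis (Fin (ρ + a + r)) K (Ω[K⁄ℂ])}
    (hb : ∀ i, b i = KaehlerDifferential.D ℂ K (MK.z i : K))
    {c : ℤ} {GJ : Cn (ρ + a + r) → ℂ} (hJ : Good V.D X (V.D.dw.toMatrix b).det c GJ)
    {F : Finset K} {FL : Finset L} (hF : ∀ f ∈ F, ∃ k G, Good V.D X f k G)
    (hFL : ∀ f ∈ FL, ∃ b₀ c₀ : ML.B, algebraMap ML.B L b₀ = f * algebraMap ML.B L c₀ ∧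
      ∀ ζ ∈ ball (0 : Cn (ρ + a)) δ, C.s ζ b₀ ≠ 0 ∧ C.s ζ c₀ ≠ 0) :
    Concl H₁ H₂ R V.D F FL := by
  set TK := Root.one V.D.i₀ X.r X.r_pos with hTK
  set Y : TChart H₁ H₂ R := chH X C hD hδ0 hδ1 hδ hδL hcomp cT hcompT with hY
  have hord : ∀ {g : K} {k : ℤ}, Y.cK.Ord g k → V.D.HasOrd g k := fun {g k} h =>
    hasOrd_of_acOrd MK X TK hD (trdeg_mdl MK) hδ0 hδ rfl h
  have hlow : low (some Y.i₀) = (none : Option (Fin (ρ + a))) := low_H V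
  obtain ⟨bL, hbL⟩ := exists_basis ML
  refine concl_of X TK hF Y rfl hδ (fun _ => rfl) ⟨?_, ?_, ?_⟩ ?_
  · -- `K_K`
    refine ⟨c, J_V MK X TK hδ rfl b hb hJ, fun b' hb' m g k hg => ?_⟩
    have hbb : b' = b := Module.Basis.eq_of_apply_eq fun i => by rw [hb', hb]
    subst hbb
    exact hD.regAt_iff b' (hord hg) hJ.hasOrd m
  · -- `K_L`
    exact ⟨0, Jmono_H ML C hδL hlow 0, fun _ _ _ _ _ _ h => absurd hlow h⟩
  · -- relative forms
    set xt : Fin r → MK.B := fun k => MK.z (Fin.natAdd (ρ + a) k) with hxt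
    let XR : RCh (ρ + a) r V.D.i₀ H₂.incl :=
      { toACh := (ofRoot X TK).shrink δ hδ0 hδ
        sL := fun α => C.s α
        fib := fun ξ hξ => hcomp ξ hξ.1 hξ.2 }
    have hz := z_append H₂
    have hJK := (Good.ofRoot_jac X TK MK.z b hb hJ).shrink δ hδ0 hδ
    refine ⟨c, ⟨_, hJK.an, hJK.ne, fun ζ hζ => ?_⟩, fun bK hbK m g k hg => ?_⟩
    · have h1 := mem_PD_some.mp hζ
      have hV : ζ ∈ XR.V := ⟨h1.1, h1.2⟩
      refine (jF_eq XR xt hV).trans ((Jrel_hor XR ML.z C hδL (fun _ _ => rfl) xt hV).trans ?_)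
      rw [← hz]
      exact hJK.eq ζ hV
    · have had := adapted H₂ hbL hb hbK
      exact regAt_H hD hL (fun i => (ML.z i : L)) (fun i => by rw [V.base i, V.ι_K]; rfl) had
        hJ.hasOrd (hord hg) m
  · intro f hf
    obtain ⟨b₀, c₀, h1, h2⟩ := hFL f hf
    exact ⟨0, ord_H ML C hδL hlow h1 (fun ζ hζ => (h2 ζ hζ).1) (fun ζ hζ => (h2 ζ hζ).2) 0⟩

end H

end tower

end Crest.Agent.R276.TCh_858
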