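import Mathlib
import Crest.Agent.R276.EndC3_723
import Crest.Agent.R276.ExtC_723
import Crest.Agent.R276.EndS2_870
import Crest.Agent.R276.GoalU_845
import Crest.Agent.R276.TChB_858

/-!
# Row 276 (helper870): end of the chain

`kapGeF_of_tower` : the inputs of `SkelDefs_220` on one tower give `KapGeF ℂ K (d + e)`.
`GeoOutU` : 220's `GeoOut` with uniform honesty; `coreBetaPosU_of_geo`, `main_of_geo`.
-/

set_option autoImplicit false
set_option linter.unusedSectionVars false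

open Topology Filter Set MeasureTheory
open scoped ENNReal

noncomputable section

namespace Crest.Agent.R276.EndMain2_870

open Crest.Agent.R271 Crest.Agent.R271.Rd692 Crest.Agent.R271.Ho51
open Crest.Agent.R271.Defs710 hiding glue
open Crest.Agent.R276.FKDefs_779
open Crest.Agent.R276.Mod1_987 Crest.Agent.R276.SkelDefs_220 Crest.Agent.R276.CInd_870
open Crest.Agent.R276.RelB_870 Crest.Agent.R276.TowA_849 Crest.Agent.R276.RelC_870
open Crest.Agent.R276.EndS2_870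

/-! ### surplus sections -/

section mono

theorem kapGeF_mono {K : Type} [Field K] [Algebra ℂ K] {D D' : ℕ} (h : D' ≤ D)
    (hK : KapGeF ℂ K D) : KapGeF ℂ K D' := by
  obtain ⟨n, A, z, b, hA, hb, H⟩ := hK
  refine ⟨n, A, z, b, hA, hb, fun S hS hdiv => ?_⟩
  obtain ⟨m, hm, f, hf, hind⟩ := H S hS hdiv
  refine ⟨m, hm, fun i => f (Fin.castLE (by omega) i), fun i => hf _, ?_⟩
  exact hind.comp (fun i : Fin D' => Fin.castLE h i) (Fin.castLE_injective h)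

end mono

section tower

variable {T L K : Type} [Field T] [Field L] [Field K] [Algebra ℂ T] [Algebra ℂ L] [Algebra ℂ K]
  [Algebra T L] [Algebra L K] [Algebra T K] [IsScalarTower ℂ T L] [IsScalarTower ℂ L K]
  [IsScalarTower T L K] [IsScalarTower ℂ T K] {ρ a r : ℕ}
  {MT : Mdl T ρ} {ML : Mdl L (ρ + a)} {MK : Mdl K (ρ + a + r)} (H₁ : Rel MT ML) (H₂ : Rel ML MK)

/-- **the endgame on one tower** -/
theorem kapGeF_of_tower {N s e e₀ d : ℕ} (hN : 0 < N) (hs : 0 < s) (he₀ : 0 < e₀)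
    {u : Fin s → MK.B} {w : Fin (e + 1) → ML.B} {D : ML.Pts → ℝ} {ε : ℝ} (hε : 0 < ε)
    (hCY : IsCY H₂ N u D) (hTC : TCh H₁ H₂)
    (hC1 : ∀ k : ℕ, 0 < k → ∃ b₁, C1' H₁ H₂ N k u D ε b₁) (hC2 : ∃ b₂, C2 H₁ H₂ w e₀ b₂)
    (hC3 : C3 H₁ H₂ w e₀) (hC4 : C4 H₁ H₂ D) (hF : Flat H₁ H₂ N d u D ε) (hJ : CJ ML w e₀)
    (hI : CInd H₁ w) (hZ : CNz H₁) : KapGeF ℂ K (d + e) := by
  classical
  obtain ⟨q, ι, hq, hI⟩ := hI
  obtain ⟨b₂, hC2⟩ := hC2
  choose! b₁ hC1 using hC1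
  obtain ⟨b, hb⟩ := TCh_858.exists_basis ((tow H₁ H₂).TK.MK)
  refine kapGeF_mono (D := (d + q) + ρ) (by omega) (End_723.kapGeF_end (tow H₁ H₂).TK rfl hb
    fun S hS hdiv => ?_)
  have hdiv' : ∀ V ∈ S, IsDiv ℂ (ρ + a + r) V := fun V hV => by
    rw [Nat.add_assoc]
    exact hdiv V hV
  obtain ⟨t, ht, k', σ, κ, hk', hσ, hκ, h4b, h4c⟩ := hC4 S hS hdiv' e₀
  have hNr : (0 : ℝ) < N := by exact_mod_cast hN
  have hsr : (1 : ℝ) ≤ s := by exact_mod_cast hs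
  have he₀r : (0 : ℝ) < e₀ := by exact_mod_cast he₀
  have htr : (e₀ : ℝ) ≤ t := by exact_mod_cast ht
  have htr0 : (0 : ℝ) < t := by linarith
  have hεN : 0 < ε * N := by positivity
  set mu : ℝ := t / (ε * N) with hmudef
  have hmu : 0 < mu := by positivity
  set a1 : ℝ := s * (1 + ε * N) with ha1def
  have ha1 : 0 < a1 := by positivity
  set A : ℝ := mu * a1 with hA
  have hA0 : 0 < A := by positivity
  have htmu : mu * (ε * N) = t := by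
    rw [hmudef]
    field_simp
  have hAe : (e₀ : ℝ) ≤ A := by
    have h1 : (t : ℝ) ≤ A := by
      rw [← htmu, hA, ha1def]
      have h2 : ε * N ≤ s * (1 + ε * N) := by nlinarith
      exact mul_le_mul_of_nonneg_left h2 hmu.le
    linarith
  set x : ℝ := A / e₀ - 1 with hx
  have hx0 : 0 ≤ x := by
    have : 1 ≤ A / e₀ := by rwa [le_div_iff₀ he₀r, one_mul]
    rw [hx]
    linarith
  obtain ⟨k, hk, ⟨Z⟩⟩ := slice_q hN hs he₀ hε hCY hC1 hC2 hF hJ hI hZ hσ h4c hmu ha1def htmu.symm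
    (ξ := x) (by rw [hx]; ring) hx0
  have g1 := (hC1 k hk).psh
  have g2 := hC2.psh
  have hB0 : ∀ y, 0 ≤ EndC_723.B0 H₂ (b₁ k) b₂ σ k' w mu x y :=
    EndC_723.B0_nonneg g1.nonneg g2.nonneg
  have hB1 : EngU_29.LPsh fun y => EndC_723.B0 H₂ (b₁ k) b₂ σ k' w mu x y ^ (1 / A) :=
    (EndC_723.lpsh_B0 g1 g2 hmu.le hx0).rpow (by positivity)
  have hB2 : PGr MK fun y => EndC_723.B0 H₂ (b₁ k) b₂ σ k' w mu x y ^ (1 / A) :=
    EndC_723.pgr_rpow hB0 (EndC_723.pgr_B0 (hC1 k hk).gr hC2.gr g1.nonneg g2.nonneg hmu.le hx0)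
      (by positivity)
  refine ⟨{
    B := fun y => EndC_723.B0 H₂ (b₁ k) b₂ σ k' w mu x (EndC_723.toM (eA ρ a r) MK y) ^ (1 / A)
    psh := fun l => (EndC_723.lpsh_reindex (eA ρ a r) MK hB1).pow l
    growth := EndC_723.growth_reindex (eA ρ a r) MK (fun y => Real.rpow_nonneg (hB0 y) _) hB2
    bdd := ?_
    y₀ := Z.y₀
    ν := Z.ν
    leb := Z.leb
    τ := Z.τ
    w := Z.w
    hτ := Z.hτ
    hw := Z.hw
    N₁ := k * N
    e₀ := e₀
    N₁_pos := Nat.mul_pos hk hN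
    e₀_pos := he₀
    C := Z.C
    le := Z.le
    int := Z.int
    ind := Z.ind }⟩
  intro V hV
  refine ⟨κ / A, by positivity, ?_⟩
  obtain ⟨F1, FL1, hF1, hFL1, l1⟩ := (hC1 k hk).bd V (hdiv' V hV)
  obtain ⟨F2, FL2, hF2, hFL2, l2⟩ := hC2.bd V (hdiv' V hV)
  obtain ⟨F3, FL3, hF3, hFL3, l3⟩ := hC3 V (hdiv' V hV)
  obtain ⟨F4, FL4, hF4, hFL4, l4⟩ := h4b V hV
  have h5 := EndC_723.bdd_of_logB hTC (hdiv' V hV) hB1 (κ := κ / A) (by positivity)
    (F1 ∪ F2 ∪ F3 ∪ F4) (FL1 ∪ FL2 ∪ FL3 ∪ FL4) ?_ ?_ ?_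
  · have h6 := EndC_723.bdd_reindex (Nat.add_assoc ρ a r) MK _ _ _ V h5
    have h7 := EndC_723.sT_map (ρ := ρ) (a := a) (r := r)
    unfold eA at h7
    rw [h7] at h6
    exact h6
  · intro f hf
    simp only [Finset.mem_union] at hf
    rcases hf with ((h | h) | h) | h
    exacts [hF1 f h, hF2 f h, hF3 f h, hF4 f h]
  · intro f hf
    simp only [Finset.mem_union] at hf
    rcases hf with ((h | h) | h) | h
    exacts [hFL1 f h, hFL2 f h, hFL3 f h, hFL4 f h]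
  · intro Y hYD hYF hYL
    have m1 := l1 Y hYD (fun f hf => hYF f (by simp [hf])) (fun f hf => hYL f (by simp [hf]))
    have m2 := l2 Y hYD (fun f hf => hYF f (by simp [hf])) (fun f hf => hYL f (by simp [hf]))
    have m3 := l3 Y hYD (fun f hf => hYF f (by simp [hf])) (fun f hf => hYL f (by simp [hf]))
    have m4 := l4 Y hYD (fun f hf => hYF f (by simp [hf])) (fun f hf => hYL f (by simp [hf]))
    exact EndC_723.logB_prod Y (fun z => (hCY z).1) he₀ hmu.le htmu rfl hA0 hx hx0 g1.nonneg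
      g2.nonneg m1 m2 m3 m4

end tower

/-! ### the end of the chain -/

section final

open Crest.Agent.R276.BetaDefs_231 Crest.Agent.R276.UHon_845 Crest.Agent.R276.GoalU_845

/-- 220's `GeoOut` with uniform honesty of `K/L`: everything that the geometry delivers. -/
def GeoOutU : Prop :=
  ∀ (K : Type) [Field K] [Algebra ℂ K] (L : IntermediateField ℂ K), FGF ℂ K →
    (∀ a : K, IsAlgebraic L a → a ∈ L) → Honest ℂ K → Honest ℂ L → UHon L K →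
    ∀ r₀ m₀ : ℕ, 0 < r₀ → 0 < m₀ → ∀ (_ : Module.Basis (Fin r₀) K (Ω[K⁄L]))
      (_ : Module.Basis (Fin m₀) L (Ω[L⁄ℂ])),
    ∀ d e : ℕ, KapGeS L K d → KapGeS ℂ L e →
    ∃ (T : IntermediateField ℂ L) (ρ a r N s e₀ : ℕ) (MT : Mdl T ρ) (ML : Mdl L (ρ + a))
      (MK : Mdl K (ρ + a + r)) (H₁ : Rel MT ML) (H₂ : Rel ML MK) (u : Fin s → MK.B)
      (w : Fin (e + 1) → ML.B) (D : ML.Pts → ℝ) (ε : ℝ),
      0 < N ∧ 0 < s ∧ 0 < e₀ ∧ 0 < ε ∧ IsCY H₂ N u D ∧ TCh H₁ H₂ ∧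
      (∀ k : ℕ, 0 < k → ∃ b₁, C1' H₁ H₂ N k u D ε b₁) ∧
      (∃ b₂, C2 H₁ H₂ w e₀ b₂) ∧ C3 H₁ H₂ w e₀ ∧ C4 H₁ H₂ D ∧ Flat H₁ H₂ N d u D ε ∧
      CJ ML w e₀ ∧ CInd H₁ w ∧ CNz H₁

theorem coreBetaPosU_of_geo (h : GeoOutU) : CoreBetaPosU := by
  intro K _ _ L h1 h2 h3 h4 h5 r m hr hm b b' d e hd he
  obtain ⟨T, ρ, a, r', N, s, e₀, MT, ML, MK, H₁, H₂, u, w, D, ε, hN, hs, he₀, hε, hCY, hTC, hC1,
    hC2, hC3, hC4, hF, hJ, hI, hZ⟩ := h K L h1 h2 h3 h4 h5 r m hr hm b b' d e hd he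
  exact kapGeF_of_tower H₁ H₂ hN hs he₀ hε hCY hTC hC1 hC2 hC3 hC4 hF hJ hI hZ

open AlgebraicGeometry CategoryTheory Crest.AlgGeometry.Divisors TopologicalSpace Order in
open Crest Crest.AlgGeometry Crest.AlgGeometry.Divisors in
/-- **S0419 from the geometric output.** -/
theorem main_of_geo (h : GeoOutU)
    (X Z : Scheme.{0}) [Algebra ℂ Γ(X, ⊤)] [Algebra ℂ Γ(Z, ⊤)]
    [IsIntegral X] [IsLocallyNoetherian X] [IsIntegral Z] [IsLocallyNoetherian Z] (n m : ℕ)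
    (hX : IsSmoothProperVariety ℂ X n) (hZ : IsSmoothProperVariety ℂ Z m)
    (hXp : ∃ A : WeilDiv X, IsAmple A) (hZp : ∃ A : WeilDiv Z, IsAmple A)
    (f : X ⟶ Z) (hf : f ≫ structureMorphism ℂ Z = structureMorphism ℂ X)
    (hsurj : Function.Surjective f.base)
    (hconn : ∀ z : Spec (CommRingCat.of ℂ) ⟶ Z, z ≫ structureMorphism ℂ Z = 𝟙 _ →
      PreconnectedSpace ↥(Limits.pullback f z))
    (KX : WeilDiv X) (hKX : IsCanonicalDivisor ℂ X n KX)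
    (KZ : WeilDiv Z) (hKZ : IsCanonicalDivisor ℂ Z m KZ) :
    ∃ C : ℕ → Set Z, (∀ i, IsClosed (C i) ∧ C i ≠ Set.univ) ∧
      ∀ z : Spec (CommRingCat.of ℂ) ⟶ Z, z ≫ structureMorphism ℂ Z = 𝟙 _ →
        (∀ i, z.base (IsLocalRing.closedPoint ℂ) ∉ C i) →
        ∀ d e : ℕ, FibreKodairaDimGe ℂ f z (n - m) d → KodairaDimGe ℂ Z KZ e →
          KodairaDimGe ℂ X KX (d + e) :=
  goalU (coreBetaPosU_of_geo h) X Z n m hX hZ hXp hZp f hf hsurj hconn KX hKX KZ hKZ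

end final

end Crest.Agent.R276.EndMain2_870
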