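import Mathlib
import Crest.Agent.R276.IpcDefs_735

/-!
# R276 (helper659): tools for the ends of a punctured plane

* `primitive` : smooth closed one-forms `a dx + b dx̄` on a convex open set have smooth primitives;
* `lcv` : change of variables `x = e (-s + i t)` for lintegrals.
-/

set_option autoImplicit false

open Set Filter Topology MeasureTheory
open scoped ContDiff ComplexConjugate

namespace Crest.Agent.R276.EndP_659

open Crest.Agent.R276.Ipc735

section prim

variable {F : Type*} [NormedAddCommGroup F] [NormedSpace ℂ F]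

/-- the real linear map `v ↦ v a + v̄ b` -/
noncomputable def om (a b : F) : ℂ →L[ℝ] F :=
  ContinuousLinearMap.smulRightL ℝ ℂ F Complex.reCLM (a + b) +
    ContinuousLinearMap.smulRightL ℝ ℂ F Complex.imCLM (Complex.I • (a - b))

theorem om_apply (a b : F) (v : ℂ) :
    om a b v = v.re • (a + b) + v.im • (Complex.I • (a - b)) := rfl

theorem om_one (a b : F) : om a b 1 = a + b := by simp [om_apply]

theorem om_I (a b : F) : om a b Complex.I = Complex.I • (a - b) := by simp [om_apply]

theorem om_eq (a b : F) (v : ℂ) : om a b v = v • a + (conj v) • b := by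
  rw [om_apply]
  have h1 : v.re • (a + b) = (v.re : ℂ) • (a + b) := rfl
  have h2 : v.im • (Complex.I • (a - b)) = (v.im : ℂ) • (Complex.I • (a - b)) := rfl
  have h3 : conj v = (v.re : ℂ) - v.im * Complex.I := by apply Complex.ext <;> simp
  rw [h1, h2, h3]
  nth_rewrite 3 [← Complex.re_add_im v]
  module

theorem contDiffOn_om {a b : ℂ → F} {U : Set ℂ} {n : WithTop ℕ∞} (ha : ContDiffOn ℝ n a U)
    (hb : ContDiffOn ℝ n b U) : ContDiffOn ℝ n (fun z => om (a z) (b z)) U := by
  unfold om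
  exact ((ContinuousLinearMap.smulRightL ℝ ℂ F Complex.reCLM).contDiff.comp_contDiffOn
      (ha.add hb)).add
    ((ContinuousLinearMap.smulRightL ℝ ℂ F Complex.imCLM).contDiff.comp_contDiffOn
      ((ha.sub hb).const_smul Complex.I))

theorem fderiv_om {a b : ℂ → F} {z : ℂ} (ha : DifferentiableAt ℝ a z) (hb : DifferentiableAt ℝ b z)
    (u v : ℂ) : fderiv ℝ (fun z => om (a z) (b z)) z u v =
      v.re • (fderiv ℝ a z u + fderiv ℝ b z u) +
        v.im • (Complex.I • (fderiv ℝ a z u - fderiv ℝ b z u)) := by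
  have h1 := (ContinuousLinearMap.smulRightL ℝ ℂ F Complex.reCLM).hasFDerivAt.comp z
    (ha.hasFDerivAt.add hb.hasFDerivAt)
  have h2 := (ContinuousLinearMap.smulRightL ℝ ℂ F Complex.imCLM).hasFDerivAt.comp z
    ((ha.hasFDerivAt.sub hb.hasFDerivAt).const_smul Complex.I)
  have h3 := (h1.add h2).fderiv
  have h4 : fderiv ℝ (fun z => om (a z) (b z)) z = _ := h3
  rw [h4]
  rfl

theorem wz_of {f : ℂ → F} {a b : F} {z : ℂ} (h : HasFDerivAt f (om a b) z) : wz f z = a := by
  unfold wz
  rw [h.fderiv, om_one, om_I, smul_smul, Complex.I_mul_I]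
  module

theorem wb_of {f : ℂ → F} {a b : F} {z : ℂ} (h : HasFDerivAt f (om a b) z) : wb f z = b := by
  unfold wb
  rw [h.fderiv, om_one, om_I, smul_smul, Complex.I_mul_I]
  module

theorem om_wz_wb (f : ℂ → F) (z : ℂ) : om (wz f z) (wb f z) = fderiv ℝ f z := by
  have key : ∀ v : ℂ, om (wz f z) (wb f z) v = fderiv ℝ f z v := by
    intro v
    have hv : v = v.re • (1 : ℂ) + v.im • Complex.I := by simp
    have h1 : om (wz f z) (wb f z) 1 = fderiv ℝ f z 1 := by
      rw [om_one, wz, wb]; module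
    have h2 : om (wz f z) (wb f z) Complex.I = fderiv ℝ f z Complex.I := by
      rw [om_I, wz, wb]
      have h3 : Complex.I • ((1 / 2 : ℂ) • (fderiv ℝ f z 1 - Complex.I • fderiv ℝ f z Complex.I) -
          (1 / 2 : ℂ) • (fderiv ℝ f z 1 + Complex.I • fderiv ℝ f z Complex.I)) =
          (-(Complex.I * Complex.I)) • fderiv ℝ f z Complex.I := by module
      rw [h3, Complex.I_mul_I, neg_neg, one_smul]
    rw [hv, map_add, map_smul, map_smul, map_add, map_smul, map_smul, h1, h2]
  exact ContinuousLinearMap.ext key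

variable [CompleteSpace F]

/-- **Poincaré lemma** for pairs on a convex open set -/
theorem primitive {U : Set ℂ} (hU : IsOpen U) (hc : Convex ℝ U) {a b : ℂ → F}
    (ha : ContDiffOn ℝ ∞ a U) (hb : ContDiffOn ℝ ∞ b U) (hcl : ∀ z ∈ U, wb a z = wz b z) :
    ∃ f : ℂ → F, ContDiffOn ℝ ∞ f U ∧ ∀ z ∈ U, HasFDerivAt f (om (a z) (b z)) z := by
  have hda : ∀ z ∈ U, DifferentiableAt ℝ a z := fun z hz =>
    (ha.contDiffAt (hU.mem_nhds hz)).differentiableAt (by simp)
  have hdb : ∀ z ∈ U, DifferentiableAt ℝ b z := fun z hz =>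
    (hb.contDiffAt (hU.mem_nhds hz)).differentiableAt (by simp)
  have hω : ContDiffOn ℝ ∞ (fun z => om (a z) (b z)) U := contDiffOn_om ha hb
  obtain ⟨f, hf⟩ := hc.exists_forall_hasFDerivAt_of_fderiv_symmetric hU
    (hω.differentiableOn (by simp)) (fun z hz u v => by
      rw [fderiv_om (hda z hz) (hdb z hz), fderiv_om (hda z hz) (hdb z hz)]
      have hu : u = u.re • (1 : ℂ) + u.im • Complex.I := by simp
      have hv : v = v.re • (1 : ℂ) + v.im • Complex.I := by simp
      have e1 : fderiv ℝ a z u = u.re • fderiv ℝ a z 1 + u.im • fderiv ℝ a z Complex.I := by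
        conv_lhs => rw [hu]
        rw [map_add, map_smul, map_smul]
      have e2 : fderiv ℝ b z u = u.re • fderiv ℝ b z 1 + u.im • fderiv ℝ b z Complex.I := by
        conv_lhs => rw [hu]
        rw [map_add, map_smul, map_smul]
      have e3 : fderiv ℝ a z v = v.re • fderiv ℝ a z 1 + v.im • fderiv ℝ a z Complex.I := by
        conv_lhs => rw [hv]
        rw [map_add, map_smul, map_smul]
      have e4 : fderiv ℝ b z v = v.re • fderiv ℝ b z 1 + v.im • fderiv ℝ b z Complex.I := by
        conv_lhs => rw [hv]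
        rw [map_add, map_smul, map_smul]
      have h1 := hcl z hz
      unfold wb wz at h1
      have h2 : fderiv ℝ a z 1 + Complex.I • fderiv ℝ a z Complex.I =
          fderiv ℝ b z 1 - Complex.I • fderiv ℝ b z Complex.I :=
        smul_right_injective F (by norm_num : (1 / 2 : ℂ) ≠ 0) h1
      have h3 : Complex.I • (fderiv ℝ a z 1 - fderiv ℝ b z 1) =
          fderiv ℝ a z Complex.I + fderiv ℝ b z Complex.I := by
        have h4 : fderiv ℝ a z 1 - fderiv ℝ b z 1 = (-Complex.I) • (fderiv ℝ a z Complex.I +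
            fderiv ℝ b z Complex.I) := by
          have h5 : fderiv ℝ a z 1 = fderiv ℝ b z 1 - Complex.I • fderiv ℝ b z Complex.I -
              Complex.I • fderiv ℝ a z Complex.I := by rw [← h2]; abel
          rw [h5]; module
        rw [h4, smul_smul, mul_neg, Complex.I_mul_I, neg_neg, one_smul]
      rw [e1, e2, e3, e4]
      have r : ∀ (c : ℝ) (x : F), c • x = (c : ℂ) • x := fun _ _ => rfl
      simp only [r]
      have h6 : Complex.I • fderiv ℝ a z 1 = Complex.I • fderiv ℝ b z 1 +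
          fderiv ℝ a z Complex.I + fderiv ℝ b z Complex.I := by
        rw [add_assoc, ← h3]; module
      have lhs : (v.re : ℂ) • ((u.re : ℂ) • fderiv ℝ a z 1 + (u.im : ℂ) • fderiv ℝ a z Complex.I +
          ((u.re : ℂ) • fderiv ℝ b z 1 + (u.im : ℂ) • fderiv ℝ b z Complex.I)) +
          (v.im : ℂ) • (Complex.I • ((u.re : ℂ) • fderiv ℝ a z 1 + (u.im : ℂ) •
            fderiv ℝ a z Complex.I - ((u.re : ℂ) • fderiv ℝ b z 1 + (u.im : ℂ) •
            fderiv ℝ b z Complex.I))) -
          ((u.re : ℂ) • ((v.re : ℂ) • fderiv ℝ a z 1 + (v.im : ℂ) • fderiv ℝ a z Complex.I +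
          ((v.re : ℂ) • fderiv ℝ b z 1 + (v.im : ℂ) • fderiv ℝ b z Complex.I)) +
          (u.im : ℂ) • (Complex.I • ((v.re : ℂ) • fderiv ℝ a z 1 + (v.im : ℂ) •
            fderiv ℝ a z Complex.I - ((v.re : ℂ) • fderiv ℝ b z 1 + (v.im : ℂ) •
            fderiv ℝ b z Complex.I)))) =
          ((v.im : ℂ) * u.re - u.im * v.re) • (Complex.I • (fderiv ℝ a z 1 - fderiv ℝ b z 1) -
            (fderiv ℝ a z Complex.I + fderiv ℝ b z Complex.I)) := by
        module
      rw [← sub_eq_zero, lhs, h3, sub_self, smul_zero])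
  refine ⟨f, ?_, hf⟩
  rw [contDiffOn_infty_iff_fderiv_of_isOpen hU]
  refine ⟨fun z hz => (hf z hz).differentiableAt.differentiableWithinAt, ?_⟩
  exact hω.congr fun z hz => (hf z hz).fderiv

end prim

/-! ### change of variables -/

section cv

/-- one period of the half plane -/
def St (s1 : ℝ) : Set ℂ := {u | u.re < -s1 ∧ 0 < u.im ∧ u.im ≤ 2 * Real.pi}

/-- `(s, t) ↦ -s + i t` -/
noncomputable def eqv : ℝ × ℝ ≃ᵐ ℂ :=
  ((MeasurableEquiv.neg ℝ).prodCongr (MeasurableEquiv.refl ℝ)).trans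
    Complex.measurableEquivRealProd.symm

theorem eqv_apply (q : ℝ × ℝ) : eqv q = -(q.1 : ℂ) + q.2 * Complex.I := by
  have h : eqv q = Complex.measurableEquivRealProd.symm (-q.1, q.2) := rfl
  rw [h]
  apply Complex.ext
  · simp [Complex.measurableEquivRealProd_symm_apply]
  · simp [Complex.measurableEquivRealProd_symm_apply]

theorem eqv_mp : MeasurePreserving eqv (volume : Measure (ℝ × ℝ)) volume := by
  have h1 : MeasurePreserving (Prod.map (Neg.neg : ℝ → ℝ) (id : ℝ → ℝ))
      (volume : Measure (ℝ × ℝ)) volume := by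
    rw [Measure.volume_eq_prod]
    exact (Measure.measurePreserving_neg (volume : Measure ℝ)).prod (MeasurePreserving.id volume)
  exact (Complex.volume_preserving_equiv_real_prod.symm).comp h1

theorem St_eq (s1 : ℝ) : eqv ⁻¹' (St s1) = Ioi s1 ×ˢ Ioc (0:ℝ) (2 * Real.pi) := by
  ext q
  simp only [mem_preimage, eqv_apply, St, mem_ofPred_eq, mem_prod, mem_Ioi, mem_Ioc]
  simp

theorem measurableSet_St (s1 : ℝ) : MeasurableSet (St s1) := by
  have h1 := measurableSet_Ioi (a := s1)|>.prod (measurableSet_Ioc (a := (0:ℝ)) (b := 2 * Real.pi))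
  rw [← St_eq] at h1
  exact (MeasurableEquiv.measurableSet_preimage eqv).1 h1

theorem hasFDerivAt_mul {e : ℂ → ℂ} {u : ℂ} (he : DifferentiableAt ℂ e u) :
    HasFDerivAt e (ContinuousLinearMap.mul ℝ ℂ (deriv e u)) u := by
  have h := he.hasDerivAt.hasFDerivAt.restrictScalars ℝ
  refine h.congr_fderiv ?_
  refine ContinuousLinearMap.ext fun v => ?_
  simp [mul_comm]

theorem det_mul (c : ℂ) : (ContinuousLinearMap.mul ℝ ℂ c).det = ‖c‖ ^ 2 := by
  have h1 : (ContinuousLinearMap.mul ℝ ℂ c).det = LinearMap.det (Algebra.lmul ℝ ℂ c) := rfl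
  rw [h1, ← Algebra.norm_apply, Algebra.norm_complex_apply, Complex.normSq_eq_norm_sq]

/-- **change of variables** `x = e (-s + i t)` -/
theorem lcv {e : ℂ → ℂ} {s1 : ℝ} (he : ∀ u ∈ St s1, DifferentiableAt ℂ e u)
    (hinj : InjOn e (St s1)) (g : ℂ → ENNReal)
    (hg : AEMeasurable (fun u => ENNReal.ofReal (‖deriv e u‖ ^ 2) * g (e u))
      (volume.restrict (St s1))) :
    ∫⁻ x in e '' St s1, g x = ∫⁻ s in Ioi s1, ∫⁻ t in Ioc (0:ℝ) (2 * Real.pi),
      ENNReal.ofReal (‖deriv e (-(s:ℂ) + t * Complex.I)‖ ^ 2) *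
        g (e (-(s:ℂ) + t * Complex.I)) := by
  rw [lintegral_image_eq_lintegral_abs_det_fderiv_mul volume (measurableSet_St s1)
    (fun u hu => (hasFDerivAt_mul (he u hu)).hasFDerivWithinAt) hinj g]
  have e1 : ∀ u, ENNReal.ofReal |(ContinuousLinearMap.mul ℝ ℂ (deriv e u)).det| * g (e u) =
      ENNReal.ofReal (‖deriv e u‖ ^ 2) * g (e u) := by
    intro u
    rw [det_mul, abs_of_nonneg (by positivity)]
  simp_rw [e1]
  set G : ℂ → ENNReal := fun u => ENNReal.ofReal (‖deriv e u‖ ^ 2) * g (e u) with hG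
  have e2 : ∫⁻ u in St s1, G u = ∫⁻ q in eqv ⁻¹' (St s1), G (eqv q) :=
    (eqv_mp.setLIntegral_comp_preimage_emb eqv.measurableEmbedding G (St s1)).symm
  rw [e2, St_eq, Measure.volume_eq_prod, ← Measure.prod_restrict]
  have h2 : AEMeasurable (fun q => G (eqv q)) (((volume : Measure ℝ).restrict (Ioi s1)).prod
      ((volume : Measure ℝ).restrict (Ioc (0:ℝ) (2 * Real.pi)))) := by
    rw [Measure.prod_restrict, ← Measure.volume_eq_prod, ← St_eq]
    have h3 : MeasurePreserving eqv ((volume : Measure (ℝ × ℝ)).restrict (eqv ⁻¹' (St s1)))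
        ((volume : Measure ℂ).restrict (St s1)) :=
      eqv_mp.restrict_preimage_emb eqv.measurableEmbedding (St s1)
    exact AEMeasurable.comp_quasiMeasurePreserving hg h3.quasiMeasurePreserving
  rw [lintegral_prod _ h2]
  simp_rw [eqv_apply]
  rfl

end cv

end Crest.Agent.R276.EndP_659
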