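import Crest.Agent.R276.IpcDefs_735
import Crest.Agent.R276.IpcReg_309

/-!
# R276 (S0419), IPC, leaf REGSEC (helper309): regularity of harmonic one-forms in the frames of
`IpcDefs_735`

* `Good V z r` : the ball `B(z, r)` misses the punctures and `P` is a cocycle on it;
* `L2S V a` : the section `a` is locally square integrable;
* `WCl V a b` : the one-form `a dx + b dx̄` is weakly closed;
* `regsec` : if `a dx + b dx̄` and `C a dx - C b dx̄` are weakly closed (`C` = Weil operator) then the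
  form is a.e. equal to a smooth form `a' dx + b' dx̄`, which is closed together with
  `C a' dx - C b' dx̄`.
-/

set_option autoImplicit false
set_option linter.unusedSectionVars false

open MeasureTheory Set Filter Topology Matrix
open scoped ContDiff

noncomputable section

namespace Crest.Agent.R276.IpcRegS_309

open Crest.Agent.R276.Ipc735 Crest.Agent.R276.IpcReg_309

variable {A : Finset ℂ} {N w : ℕ}

/-! ### frames -/

theorem cm_mul (g h : GL (Fin N) ℤ) : cm (g * h) = cm g * cm h := by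
  unfold cm
  rw [Units.val_mul, Matrix.map_mul_intCast]

theorem cm_one : cm (1 : GL (Fin N) ℤ) = 1 := by
  unfold cm
  rw [Units.val_one]
  ext i j
  by_cases h : i = j
  · subst h; simp
  · simp [h]

/-- good balls: no punctures, `P` is a cocycle -/
structure Good (V : PVHS A N w) (z : ℂ) (r : ℝ) : Prop where
  pos : 0 < r
  sub : ∀ y ∈ Metric.ball z r, y ∉ A
  coc : ∀ x ∈ Metric.ball z r, ∀ y ∈ Metric.ball z r, ∀ t ∈ Metric.ball z r,
    V.P x y * V.P y t = V.P x t

theorem Good.mono {V : PVHS A N w} {z : ℂ} {r r' : ℝ} (h : Good V z r) (h0 : 0 < r')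
    (h1 : r' ≤ r) : Good V z r' :=
  ⟨h0, fun y hy => h.sub y (Metric.ball_subset_ball h1 hy), fun x hx y hy t ht =>
    h.coc x (Metric.ball_subset_ball h1 hx) y (Metric.ball_subset_ball h1 hy) t
      (Metric.ball_subset_ball h1 ht)⟩

theorem exists_good (V : PVHS A N w) {z : ℂ} (hz : z ∉ A) : ∃ r, Good V z r := by
  obtain ⟨U, hU, hc⟩ := V.ndc z (by simpa using hz)
  have h1 : ((A : Set ℂ)ᶜ) ∈ 𝓝 z := A.finite_toSet.isClosed.isOpen_compl.mem_nhds (by simpa using hz)
  obtain ⟨r, hr, hrU⟩ := Metric.mem_nhds_iff.1 (inter_mem hU h1)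
  exact ⟨r, hr, fun y hy => by simpa using (hrU hy).2, fun x hx y hy t ht =>
    hc x (hrU hx).1 y (hrU hy).1 t (hrU ht).1⟩

theorem Good.self {V : PVHS A N w} {z : ℂ} {r : ℝ} (h : Good V z r) {x : ℂ}
    (hx : x ∈ Metric.ball z r) : V.P x x = 1 := by
  have h1 := h.coc x hx x hx x hx
  exact mul_eq_left.1 h1

theorem Good.lV_tr {V : PVHS A N w} {z : ℂ} {r : ℝ} (h : Good V z r) (φ : ℂ → Fin N → ℂ) {x y t : ℂ}
    (hx : x ∈ Metric.ball z r) (hy : y ∈ Metric.ball z r) (ht : t ∈ Metric.ball z r) :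
    lV V.P φ x t = cm (V.P x y) *ᵥ lV V.P φ y t := by
  unfold Ipc735.lV
  rw [Matrix.mulVec_mulVec, ← cm_mul, h.coc x hx y hy t ht]

theorem Good.cm_inv {V : PVHS A N w} {z : ℂ} {r : ℝ} (h : Good V z r) {x y : ℂ}
    (hx : x ∈ Metric.ball z r) (hy : y ∈ Metric.ball z r) :
    cm (V.P y x) * cm (V.P x y) = 1 := by
  rw [← cm_mul, h.coc y hy x hx y hy, h.self hy, cm_one]

theorem cm_mul_inv (g : GL (Fin N) ℤ) : cm g * cm g⁻¹ = 1 := by
  rw [← cm_mul, mul_inv_cancel, cm_one]

theorem cm_inv_mul (g : GL (Fin N) ℤ) : cm g⁻¹ * cm g = 1 := by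
  rw [← cm_mul, inv_mul_cancel, cm_one]

/-! ### the Weil operator -/

theorem aeval_conj {g g' E : Matrix (Fin N) (Fin N) ℂ} (h : g * g' = 1) (h' : g' * g = 1)
    (p : Polynomial ℂ) : Polynomial.aeval (g * E * g') p = g * Polynomial.aeval E p * g' := by
  have hpow : ∀ k : ℕ, (g * E * g') ^ k = g * E ^ k * g' := by
    intro k
    induction k with
    | zero => simp [h]
    | succ k ih =>
      rw [pow_succ, ih, pow_succ]
      calc g * E ^ k * g' * (g * E * g') = g * E ^ k * (g' * g) * E * g' := by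
            simp only [mul_assoc]
        _ = g * (E ^ k * E) * g' := by rw [h', mul_one]; simp only [mul_assoc]
  rw [Polynomial.aeval_eq_sum_range, Polynomial.aeval_eq_sum_range, Finset.mul_sum,
    Finset.sum_mul]
  refine Finset.sum_congr rfl fun k _ => ?_
  rw [hpow, mul_smul_comm, smul_mul_assoc]

/-- the Weil polynomial -/
def wpol (w : ℕ) : Polynomial ℂ :=
  ∑ p ∈ Finset.range (w + 1), (-1 : ℂ) ^ p • Lagrange.basis (Finset.range (w + 1))
    (fun q : ℕ => (q : ℂ)) p

theorem weil_eq (w : ℕ) (E : Matrix (Fin N) (Fin N) ℂ) :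
    weil w E = Polynomial.aeval E (wpol w) := by
  unfold weil wpol hpr
  rw [map_sum]
  exact Finset.sum_congr rfl fun p _ => (map_smul _ _ _).symm

theorem weil_conj {g g' E : Matrix (Fin N) (Fin N) ℂ} (h : g * g' = 1) (h' : g' * g = 1) :
    weil w (g * E * g') = g * weil w E * g' := by
  rw [weil_eq, weil_eq, aeval_conj h h']

theorem eval_wpol (w : ℕ) {q : ℕ} (hq : q ∈ Finset.range (w + 1)) :
    (wpol w).eval (q : ℂ) = (-1 : ℂ) ^ q := by
  unfold wpol
  rw [Polynomial.eval_finsetSum, Finset.sum_eq_single q]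
  · rw [Polynomial.eval_smul]
    have := Lagrange.eval_basis_self (s := Finset.range (w + 1)) (v := fun q : ℕ => (q : ℂ))
      (i := q) (fun a _ b _ hab => Nat.cast_injective hab) hq
    rw [this, smul_eq_mul, mul_one]
  · intro p _ hp
    rw [Polynomial.eval_smul]
    have := Lagrange.eval_basis_of_ne (s := Finset.range (w + 1)) (v := fun q : ℕ => (q : ℂ))
      (i := p) (j := q) hp hq
    rw [this, smul_zero]
  · exact fun h => absurd hq h

theorem dvd_of_eval {w : ℕ} {p : Polynomial ℂ} (h : ∀ q ∈ Finset.range (w + 1), p.eval (q : ℂ) = 0) :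
    ∏ q ∈ Finset.range (w + 1), (Polynomial.X - Polynomial.C (q : ℂ)) ∣ p := by
  refine Finset.prod_dvd_of_coprime (fun a _ b _ hab => ?_) fun q hq => ?_
  · exact Polynomial.pairwise_coprime_X_sub_C (s := fun q : ℕ => (q : ℂ)) Nat.cast_injective hab
  · exact Polynomial.dvd_iff_isRoot.2 (h q hq)

theorem weil_sq {S E : Matrix (Fin N) (Fin N) ℂ} (h : IsHS w S E) : weil w E * weil w E = 1 := by
  have h1 : ∏ q ∈ Finset.range (w + 1), (Polynomial.X - Polynomial.C (q : ℂ)) ∣
      wpol w * wpol w - 1 := by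
    refine dvd_of_eval fun q hq => ?_
    rw [Polynomial.eval_sub, Polynomial.eval_mul, eval_wpol w hq, Polynomial.eval_one,
      ← mul_pow, neg_one_mul, neg_neg, one_pow, sub_self]
  obtain ⟨r, hr⟩ := h1
  have h2 : Polynomial.aeval E (wpol w * wpol w - 1) = 0 := by
    rw [hr, map_mul, h.eig, zero_mul]
  rw [map_sub, map_mul, map_one, sub_eq_zero] at h2
  rw [weil_eq, h2]

/-! ### smoothness of the grading operator -/

theorem aeval_smooth {U : Set ℂ} {M : ℂ → Matrix (Fin N) (Fin N) ℂ}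
    (hM : ∀ i k, ContDiffOn ℝ ∞ (fun y => M y i k) U) (p : Polynomial ℂ) (i k : Fin N) :
    ContDiffOn ℝ ∞ (fun y => Polynomial.aeval (M y) p i k) U := by
  have hpow : ∀ n : ℕ, ∀ i k, ContDiffOn ℝ ∞ (fun y => (M y ^ n) i k) U := by
    intro n
    induction n with
    | zero => intro i k; simp only [pow_zero]; exact contDiffOn_const
    | succ n ih =>
      intro i k
      simp only [pow_succ, Matrix.mul_apply]
      exact ContDiffOn.sum fun j _ => (ih i j).mul (hM j k)
  simp only [Polynomial.aeval_eq_sum_range, Matrix.sum_apply, Matrix.smul_apply]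
  refine ContDiffOn.sum fun n _ => ?_
  simp only [smul_eq_mul]
  exact contDiffOn_const.mul (hpow n i k)

theorem Good.lM_tr {V : PVHS A N w} {z : ℂ} {r : ℝ} (h : Good V z r)
    (B : ℂ → Matrix (Fin N) (Fin N) ℂ) {x y t : ℂ}
    (hx : x ∈ Metric.ball z r) (hy : y ∈ Metric.ball z r) (ht : t ∈ Metric.ball z r) :
    lM V.P B x t = cm (V.P x y) * lM V.P B y t * cm (V.P x y)⁻¹ := by
  unfold Ipc735.lM
  rw [← h.coc x hx y hy t ht, _root_.mul_inv_rev, cm_mul, cm_mul]
  simp only [mul_assoc]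

theorem Good.smE {V : PVHS A N w} {z : ℂ} {r : ℝ} (h : Good V z r) (i k : Fin N) :
    ContDiffOn ℝ ∞ (fun y => lM V.P V.E z y i k) (Metric.ball z r) := by
  intro y hy
  have hz : z ∈ Metric.ball z r := Metric.mem_ball_self h.pos
  have h1 : (fun t => lM V.P V.E z t i k) =ᶠ[𝓝 y]
      fun t => (cm (V.P z y) * lM V.P V.E y t * cm (V.P z y)⁻¹) i k := by
    filter_upwards [Metric.isOpen_ball.mem_nhds hy] with t ht
    rw [h.lM_tr V.E hz hy ht]
  have h2 : ContDiffAt ℝ ∞ (fun t => (cm (V.P z y) * lM V.P V.E y t * cm (V.P z y)⁻¹) i k) y := by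
    simp only [Matrix.mul_apply, Finset.sum_mul]
    exact ContDiffAt.sum fun a _ => ContDiffAt.sum fun b _ =>
      (contDiffAt_const.mul (V.smE y (h.sub y hy) b a)).mul contDiffAt_const
  exact (h2.congr_of_eventuallyEq h1).contDiffWithinAt

/-- the Weil operator in the frame at `z` -/
def wl (V : PVHS A N w) (z y : ℂ) : Matrix (Fin N) (Fin N) ℂ := weil w (lM V.P V.E z y)

theorem wl_eq (V : PVHS A N w) (z y : ℂ) :
    wl V z y = cm (V.P z y) * weil w (V.E y) * cm (V.P z y)⁻¹ :=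
  weil_conj (cm_mul_inv _) (cm_inv_mul _)

theorem wl_mul_cm (V : PVHS A N w) (z y : ℂ) :
    wl V z y * cm (V.P z y) = cm (V.P z y) * weil w (V.E y) := by
  rw [wl_eq, mul_assoc, cm_inv_mul, mul_one]

theorem wl_sq (V : PVHS A N w) {z y : ℂ} (hy : y ∉ A) : wl V z y * wl V z y = 1 := by
  rw [wl_eq]
  calc cm (V.P z y) * weil w (V.E y) * cm (V.P z y)⁻¹ *
        (cm (V.P z y) * weil w (V.E y) * cm (V.P z y)⁻¹)
      = cm (V.P z y) * weil w (V.E y) * (cm (V.P z y)⁻¹ * cm (V.P z y)) * weil w (V.E y) *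
        cm (V.P z y)⁻¹ := by simp only [mul_assoc]
    _ = cm (V.P z y) * (weil w (V.E y) * weil w (V.E y)) * cm (V.P z y)⁻¹ := by
        rw [cm_inv_mul, mul_one]; simp only [mul_assoc]
    _ = 1 := by rw [weil_sq (V.hs y hy), mul_one, cm_mul_inv]

theorem Good.smW {V : PVHS A N w} {z : ℂ} {r : ℝ} (h : Good V z r) (i k : Fin N) :
    ContDiffOn ℝ ∞ (fun y => wl V z y i k) (Metric.ball z r) := by
  unfold wl
  simp only [weil_eq]
  exact aeval_smooth h.smE _ i k

/-- the Weil operator applied to a section -/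
def wS (V : PVHS A N w) (a : ℂ → Fin N → ℂ) (y : ℂ) : Fin N → ℂ := weil w (V.E y) *ᵥ a y

theorem lV_wS (V : PVHS A N w) (a : ℂ → Fin N → ℂ) (z y : ℂ) :
    lV V.P (wS V a) z y = wl V z y *ᵥ lV V.P a z y := by
  unfold Ipc735.lV wS
  rw [Matrix.mulVec_mulVec, Matrix.mulVec_mulVec, wl_mul_cm]

/-- the section `a` is locally square integrable -/
def L2S (V : PVHS A N w) (a : ℂ → Fin N → ℂ) : Prop :=
  ∀ z ∉ A, ∃ r, Good V z r ∧ ∀ i, L2l (Metric.ball z r) (fun y => lV V.P a z y i)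

/-- the one-form `a dx + b dx̄` is weakly closed -/
def WCl (V : PVHS A N w) (a b : ℂ → Fin N → ℂ) : Prop :=
  ∀ z ∉ A, ∃ r, Good V z r ∧ ∀ i, ∀ φ : ℂ → ℂ, Cut (Metric.ball z r) φ →
    ∫ y, wb φ y * lV V.P a z y i = ∫ y, wz φ y * lV V.P b z y i

theorem dS_I (φ : ℂ → ℂ) (z : ℂ) : dS Complex.I φ z = wb φ z := rfl

theorem dS_neg_I (φ : ℂ → ℂ) (z : ℂ) : dS (-Complex.I) φ z = wz φ z := by
  simp only [dS, wz, smul_eq_mul]
  ring

theorem Cut.mono {U U' : Set ℂ} (h : U ⊆ U') {φ : ℂ → ℂ} (hφ : Cut U φ) : Cut U' φ :=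
  ⟨hφ.sm, hφ.cs, hφ.sub.trans h⟩

theorem L2l.mono {U U' : Set ℂ} (h : U ⊆ U') {u : ℂ → ℂ} (hu : L2l U' u) : L2l U u :=
  fun K hK hc => hu K (hK.trans h) hc

theorem wb_apply {n : ℕ} {f : ℂ → Fin n → ℂ} {z : ℂ} (h : DifferentiableAt ℝ f z) (i : Fin n) :
    wb f z i = wb (fun y => f y i) z := by
  have h1 : fderiv ℝ (fun y => f y i) z = (ContinuousLinearMap.proj i).comp (fderiv ℝ f z) :=
    ((hasFDerivAt_pi'.1 h.hasFDerivAt) i).fderiv
  simp only [wb, h1, Pi.smul_apply, Pi.add_apply]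
  rfl

theorem wz_apply {n : ℕ} {f : ℂ → Fin n → ℂ} {z : ℂ} (h : DifferentiableAt ℝ f z) (i : Fin n) :
    wz f z i = wz (fun y => f y i) z := by
  have h1 : fderiv ℝ (fun y => f y i) z = (ContinuousLinearMap.proj i).comp (fderiv ℝ f z) :=
    ((hasFDerivAt_pi'.1 h.hasFDerivAt) i).fderiv
  simp only [wz, h1, Pi.smul_apply, Pi.sub_apply]
  rfl

theorem wb_congr {F : Type*} [NormedAddCommGroup F] [NormedSpace ℂ F] {f g : ℂ → F} {z : ℂ}
    (h : f =ᶠ[𝓝 z] g) : wb f z = wb g z := by simp only [wb, h.fderiv_eq]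

theorem wz_congr {F : Type*} [NormedAddCommGroup F] [NormedSpace ℂ F] {f g : ℂ → F} {z : ℂ}
    (h : f =ᶠ[𝓝 z] g) : wz f z = wz g z := by simp only [wz, h.fderiv_eq]

theorem wz_neg {F : Type*} [NormedAddCommGroup F] [NormedSpace ℂ F] (f : ℂ → F) (z : ℂ) :
    wz (fun y => - f y) z = - wz f z := by
  simp only [wz, fderiv_fun_neg, _root_.neg_apply, smul_neg]
  module

/-- local smooth representatives -/
theorem loc_rep (V : PVHS A N w) {a b : ℂ → Fin N → ℂ} (ha : L2S V a) (hb : L2S V b)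
    (h1 : WCl V a b) (h2 : WCl V (wS V a) (fun y => - wS V b y)) {z : ℂ} (hz : z ∉ A) :
    ∃ r, Good V z r ∧ ∃ a' b' : Fin N → ℂ → ℂ,
      (∀ i, ContDiffOn ℝ ∞ (a' i) (Metric.ball z r)) ∧
      (∀ i, ContDiffOn ℝ ∞ (b' i) (Metric.ball z r)) ∧
      (∀ i, ∀ᵐ y, y ∈ Metric.ball z r → lV V.P a z y i = a' i y) ∧
      (∀ i, ∀ᵐ y, y ∈ Metric.ball z r → lV V.P b z y i = b' i y) ∧
      (∀ i, ∀ y ∈ Metric.ball z r, wb (a' i) y = wz (b' i) y) ∧
      (∀ i, ∀ y ∈ Metric.ball z r, wb (fun t => ∑ j, wl V z t i j * a' j t) y =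
        - wz (fun t => ∑ j, wl V z t i j * b' j t) y) := by
  obtain ⟨r1, g1, e1⟩ := ha z hz
  obtain ⟨r2, g2, e2⟩ := hb z hz
  obtain ⟨r3, g3, e3⟩ := h1 z hz
  obtain ⟨r4, g4, e4⟩ := h2 z hz
  obtain ⟨r, hr0, hr1, hr2, hr3, hr4⟩ : ∃ r, 0 < r ∧ r ≤ r1 ∧ r ≤ r2 ∧ r ≤ r3 ∧ r ≤ r4 :=
    ⟨min (min r1 r2) (min r3 r4), lt_min (lt_min g1.pos g2.pos) (lt_min g3.pos g4.pos),
      (min_le_left _ _).trans (min_le_left _ _), (min_le_left _ _).trans (min_le_right _ _),
      (min_le_right _ _).trans (min_le_left _ _), (min_le_right _ _).trans (min_le_right _ _)⟩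
  have g : Good V z r := g1.mono hr0 hr1
  have hK : ∀ i j, ContDiffOn ℝ ∞ (fun t => wl V z t i j) (Metric.ball z r) := g.smW
  obtain ⟨a', b', q1, q2, q3, q4, q5, q6⟩ := harm_smooth (ι := Fin N) (U := Metric.ball z r)
    Metric.isOpen_ball (a := fun i y => lV V.P a z y i) (b := fun i y => lV V.P b z y i)
    (fun i => L2l.mono (Metric.ball_subset_ball hr1) (e1 i))
    (fun i => L2l.mono (Metric.ball_subset_ball hr2) (e2 i))
    (K := fun i j t => wl V z t i j) (Ki := fun i j t => wl V z t i j) hK hK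
    (fun y hy i l => by
      have := congrFun (congrFun (wl_sq V (z := z) (g.sub y hy)) i) l
      rw [Matrix.mul_apply, Matrix.one_apply] at this
      exact this)
    (fun i φ hφ => by
      have := e3 i φ (Cut.mono (Metric.ball_subset_ball hr3) hφ)
      simp only [dS_I, dS_neg_I]
      exact this)
    (fun i φ hφ => by
      have := e4 i φ (Cut.mono (Metric.ball_subset_ball hr4) hφ)
      simp only [dS_I, dS_neg_I]
      have n1 : ∀ y, lV V.P (wS V a) z y i = ∑ j, wl V z y i j * lV V.P a z y j := by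
        intro y
        rw [lV_wS]
        rfl
      have n2 : ∀ y, lV V.P (fun y => - wS V b y) z y i =
          - ∑ j, wl V z y i j * lV V.P b z y j := by
        intro y
        have : lV V.P (fun y => - wS V b y) z y = - lV V.P (wS V b) z y := by
          simp only [Ipc735.lV, Matrix.mulVec_neg]
        rw [this, lV_wS]
        rfl
      simp only [n1, n2, mul_neg, integral_neg] at this
      exact this)
  refine ⟨r, g, a', b', q1, q2, q3, q4, ?_, ?_⟩
  · intro i y hy
    have := q5 i y hy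
    rwa [dS_I, dS_neg_I] at this
  · intro i y hy
    have := q6 i y hy
    rwa [dS_I, dS_neg_I] at this

/-- glueing local smooth representatives of a section -/
theorem glue (V : PVHS A N w) {a : ℂ → Fin N → ℂ} {r : ℂ → ℝ} {a' : ℂ → Fin N → ℂ → ℂ}
    (hg : ∀ z ∉ A, Good V z (r z))
    (hs : ∀ z ∉ A, ∀ i, ContDiffOn ℝ ∞ (a' z i) (Metric.ball z (r z)))
    (he : ∀ z ∉ A, ∀ i, ∀ᵐ y, y ∈ Metric.ball z (r z) → lV V.P a z y i = a' z i y) :
    (∀ z ∉ A, ∀ y ∈ Metric.ball z (r z), ∀ i, lV V.P (fun t j => a' t j t) z y i = a' z i y) ∧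
      ∀ᵐ y, y ∉ A → a y = fun j => a' y j y := by
  have key : ∀ z ∉ A, ∀ y ∈ Metric.ball z (r z), ∀ i,
      lV V.P (fun t j => a' t j t) z y i = a' z i y := by
    intro z hz y hy i
    have hyA : y ∉ A := (hg z hz).sub y hy
    set U : Set ℂ := Metric.ball z (r z) ∩ Metric.ball y (r y) with hU
    have hUo : IsOpen U := Metric.isOpen_ball.inter Metric.isOpen_ball
    have hyU : y ∈ U := ⟨hy, Metric.mem_ball_self (hg y hyA).pos⟩
    have h1 : ∀ᵐ t, t ∈ U → a' z i t = ∑ j, cm (V.P z y) i j * a' y j t := by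
      filter_upwards [he z hz i, ae_all_iff.2 (fun j => he y hyA j)] with t ht1 ht2 htU
      rw [← ht1 htU.1, (hg z hz).lV_tr a (Metric.mem_ball_self (hg z hz).pos) hy htU.1]
      show ∑ j, cm (V.P z y) i j * lV V.P a y t j = _
      exact Finset.sum_congr rfl fun j _ => by rw [← ht2 j htU.2]
    have h2 : ContinuousOn (fun t => a' z i t) U :=
      (hs z hz i).continuousOn.mono inter_subset_left
    have h3 : ContinuousOn (fun t => ∑ j, cm (V.P z y) i j * a' y j t) U :=
      continuousOn_finsetSum _ fun j _ => continuousOn_const.mul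
        ((hs y hyA j).continuousOn.mono inter_subset_right)
    have h4 := Measure.eqOn_open_of_ae_eq (μ := volume) ((ae_restrict_iff' hUo.measurableSet).2 h1)
      hUo h2 h3
    exact (h4 hyU).symm
  refine ⟨key, ?_⟩
  rw [ae_iff]
  refine measure_null_of_locally_null _ fun z hz => ?_
  have hzA : z ∉ A := fun h => hz fun h' => absurd h h'
  refine ⟨{y | ¬ (y ∈ Metric.ball z (r z) → a y = fun j => a' y j y)}, ?_, ?_⟩
  · filter_upwards [mem_nhdsWithin_of_mem_nhds
      (Metric.isOpen_ball.mem_nhds (Metric.mem_ball_self (hg z hzA).pos)),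
      self_mem_nhdsWithin] with y hy hy2
    intro h
    exact hy2 fun _ => h hy
  · rw [← ae_iff]
    filter_upwards [ae_all_iff.2 (fun j => he z hzA j)] with y hy hyb
    have h1 : lV V.P a z y = lV V.P (fun t j => a' t j t) z y := by
      funext i
      rw [key z hzA y hyb i, hy i hyb]
    have h2 : cm (V.P z y)⁻¹ *ᵥ lV V.P a z y = cm (V.P z y)⁻¹ *ᵥ lV V.P (fun t j => a' t j t) z y := by
      rw [h1]
    unfold Ipc735.lV at h2
    rwa [Matrix.mulVec_mulVec, Matrix.mulVec_mulVec, cm_inv_mul, Matrix.one_mulVec,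
      Matrix.one_mulVec] at h2

/-- **regularity of harmonic one-forms** -/
theorem regsec (V : PVHS A N w) {a b : ℂ → Fin N → ℂ} (ha : L2S V a) (hb : L2S V b)
    (h1 : WCl V a b) (h2 : WCl V (wS V a) (fun y => - wS V b y)) :
    ∃ a2 b2 : ℂ → Fin N → ℂ, V.Sm a2 ∧ V.Sm b2 ∧ (∀ᵐ y, y ∉ A → a y = a2 y) ∧
      (∀ᵐ y, y ∉ A → b y = b2 y) ∧ V.Closed a2 b2 ∧
      V.Closed (wS V a2) (fun y => - wS V b2 y) := by
  have h := fun z (hz : z ∉ A) => loc_rep V ha hb h1 h2 hz
  choose! r g a' b' q1 q2 q3 q4 q5 q6 using h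
  obtain ⟨ka, ea⟩ := glue V g q1 q3
  obtain ⟨kb, eb⟩ := glue V g q2 q4
  have va : ∀ z ∉ A, lV V.P (fun t j => a' t j t) z =ᶠ[𝓝 z] fun y i => a' z i y := by
    intro z hz
    filter_upwards [Metric.isOpen_ball.mem_nhds (Metric.mem_ball_self (g z hz).pos)] with y hy
    funext i
    exact ka z hz y hy i
  have vb : ∀ z ∉ A, lV V.P (fun t j => b' t j t) z =ᶠ[𝓝 z] fun y i => b' z i y := by
    intro z hz
    filter_upwards [Metric.isOpen_ball.mem_nhds (Metric.mem_ball_self (g z hz).pos)] with y hy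
    funext i
    exact kb z hz y hy i
  have sa : ∀ z ∉ A, ContDiffAt ℝ ∞ (fun (y : ℂ) (i : Fin N) => a' z i y) z := by
    intro z hz
    rw [contDiffAt_pi]
    exact fun i => (q1 z hz i).contDiffAt
      (Metric.isOpen_ball.mem_nhds (Metric.mem_ball_self (g z hz).pos))
  have sb : ∀ z ∉ A, ContDiffAt ℝ ∞ (fun (y : ℂ) (i : Fin N) => b' z i y) z := by
    intro z hz
    rw [contDiffAt_pi]
    exact fun i => (q2 z hz i).contDiffAt
      (Metric.isOpen_ball.mem_nhds (Metric.mem_ball_self (g z hz).pos))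
  have sw : ∀ z ∉ A, ∀ i j, ContDiffAt ℝ ∞ (fun y => wl V z y i j) z := by
    intro z hz i j
    exact ((g z hz).smW i j).contDiffAt
      (Metric.isOpen_ball.mem_nhds (Metric.mem_ball_self (g z hz).pos))
  refine ⟨fun t j => a' t j t, fun t j => b' t j t, ?_, ?_, ea, eb, ?_, ?_⟩
  · exact fun z hz => (sa z hz).congr_of_eventuallyEq (va z hz)
  · exact fun z hz => (sb z hz).congr_of_eventuallyEq (vb z hz)
  · intro z hz
    unfold PVHS.d1 PVHS.d2
    rw [wb_congr (va z hz), wz_congr (vb z hz)]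
    funext i
    rw [wb_apply ((sa z hz).differentiableAt (by simp)),
      wz_apply ((sb z hz).differentiableAt (by simp))]
    exact q5 z hz i z (Metric.mem_ball_self (g z hz).pos)
  · intro z hz
    have wa : lV V.P (wS V fun t j => a' t j t) z =ᶠ[𝓝 z]
        fun y i => ∑ j, wl V z y i j * a' z j y := by
      filter_upwards [va z hz] with y hy
      rw [lV_wS, hy]
      rfl
    have wb' : lV V.P (fun y => - wS V (fun t j => b' t j t) y) z =ᶠ[𝓝 z]
        fun y i => - ∑ j, wl V z y i j * b' z j y := by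
      filter_upwards [vb z hz] with y hy
      have : lV V.P (fun y => - wS V (fun t j => b' t j t) y) z y =
          - lV V.P (wS V (fun t j => b' t j t)) z y := by
        simp only [Ipc735.lV, Matrix.mulVec_neg]
      rw [this, lV_wS, hy]
      rfl
    have da : DifferentiableAt ℝ (fun (y : ℂ) (i : Fin N) => ∑ j, wl V z y i j * a' z j y) z := by
      rw [differentiableAt_pi]
      intro i
      refine DifferentiableAt.fun_sum fun j _ => ?_
      exact ((sw z hz i j).differentiableAt (by simp)).mul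
        ((contDiffAt_pi.1 (sa z hz) j).differentiableAt (by simp))
    have db : DifferentiableAt ℝ (fun (y : ℂ) (i : Fin N) => - ∑ j, wl V z y i j * b' z j y) z := by
      rw [differentiableAt_pi]
      intro i
      refine DifferentiableAt.fun_neg (DifferentiableAt.fun_sum fun j _ => ?_)
      exact ((sw z hz i j).differentiableAt (by simp)).mul
        ((contDiffAt_pi.1 (sb z hz) j).differentiableAt (by simp))
    unfold PVHS.d1 PVHS.d2
    rw [wb_congr wa, wz_congr wb']
    funext i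
    rw [wb_apply da, wz_apply db, wz_neg]
    exact q6 z hz i z (Metric.mem_ball_self (g z hz).pos)

end Crest.Agent.R276.IpcRegS_309
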