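import Crest.Agent.R276.Top2b_937
import Crest.Agent.R276.IpcRegS_309
import Crest.Agent.R276.IpcBasic_735

/-!
# R276 (S0419), IPC, leaf REGSEC (E) (helper309): limits of exact forms are exact

* `famA V` : finite cover of `ℂ ∖ A` by convex open sets with trivialisations of `V.P`;
* `nsq_lower` : the Hodge norm dominates the norm in a flat frame on compact sets;
* `exact_of_approx` : a smooth closed form which is an `L²_loc` limit of exact forms is exact.
-/

set_option autoImplicit false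
set_option linter.unusedSectionVars false

open MeasureTheory Set Filter Topology Matrix
open scoped ContDiff

noncomputable section

namespace Crest.Agent.R276.IpcEx_309

open Crest.Agent.R276.Ipc735 Crest.Agent.R276.IpcRegS_309
open Crest.Agent.R276.Top2_937 (Fam Tri exists_tri tl act act_inv_act act_act_inv act_tl frm frm_act
  fderiv_eq_frm wz_lV sm_iff lV_eventually tl_eventually SmOn ClOn ExOn Form CC)

variable {A : Finset ℂ} {N w : ℕ}

/-! ### the cover -/

/-- the four open half planes at `p` -/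
def hp4 (p : ℂ) (k : Fin 4) : Set ℂ :=
  if k = 0 then {z | p.re < z.re} else if k = 1 then {z | z.re < p.re}
  else if k = 2 then {z | p.im < z.im} else {z | z.im < p.im}

theorem hp4_open (p : ℂ) (k : Fin 4) : IsOpen (hp4 p k) := by
  unfold hp4
  split_ifs
  · exact isOpen_lt continuous_const Complex.continuous_re
  · exact isOpen_lt Complex.continuous_re continuous_const
  · exact isOpen_lt continuous_const Complex.continuous_im
  · exact isOpen_lt Complex.continuous_im continuous_const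

theorem hp4_convex (p : ℂ) (k : Fin 4) : Convex ℝ (hp4 p k) := by
  unfold hp4
  split_ifs
  · exact convex_halfSpace_re_gt _
  · exact convex_halfSpace_re_lt _
  · exact convex_halfSpace_im_gt _
  · exact convex_halfSpace_im_lt _

theorem hp4_notMem (p : ℂ) (k : Fin 4) : p ∉ hp4 p k := by
  unfold hp4
  split_ifs <;> simp

theorem exists_hp4 {p z : ℂ} (h : z ≠ p) : ∃ k, z ∈ hp4 p k := by
  by_contra hcon
  push Not at hcon
  have h0 : ¬ p.re < z.re := hcon 0
  have h1 : ¬ z.re < p.re := hcon 1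
  have h2 : ¬ p.im < z.im := hcon 2
  have h3 : ¬ z.im < p.im := hcon 3
  exact h (Complex.ext (le_antisymm (not_lt.1 h0) (not_lt.1 h1))
    (le_antisymm (not_lt.1 h2) (not_lt.1 h3)))

/-- the pieces of the cover -/
def pc (A : Finset ℂ) (f : A → Fin 4) : Set ℂ := ⋂ p : A, hp4 p (f p)

theorem pc_open (f : A → Fin 4) : IsOpen (pc A f) := isOpen_iInter_of_finite fun _ => hp4_open _ _

theorem pc_convex (f : A → Fin 4) : Convex ℝ (pc A f) := convex_iInter fun _ => hp4_convex _ _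

theorem pc_sub (f : A → Fin 4) : pc A f ⊆ (A : Set ℂ)ᶜ := fun z hz hzA =>
  hp4_notMem z (f ⟨z, hzA⟩) (mem_iInter.1 hz ⟨z, hzA⟩)

theorem iUnion_pc (A : Finset ℂ) : (⋃ f, pc A f) = (A : Set ℂ)ᶜ := by
  refine Subset.antisymm (iUnion_subset fun f => pc_sub f) fun z hz => ?_
  have h1 : ∀ p : A, ∃ k, z ∈ hp4 p k := fun p => exists_hp4 fun h => hz (by rw [h]; exact p.2)
  choose f hf using h1
  exact mem_iUnion.2 ⟨f, mem_iInter.2 hf⟩

/-- trivialisations on the pieces -/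
theorem exists_famA (V : PVHS A N w) : ∃ D : Fam V.P (A → Fin 4), D.W = pc A := by
  have h := fun f : A → Fin 4 => exists_tri V.ndc (pc_open f) (pc_convex f) (pc_sub f)
  choose T hT using h
  exact ⟨⟨pc A, T, pc_open, pc_convex, hT⟩, rfl⟩

/-! ### the Hodge norm in a flat frame -/

theorem hodge_frame (V : PVHS A N w) {z : ℂ} (hz : z ∉ A) : ∀ᶠ y in 𝓝 z,
    V.H y = (cm (V.P z y))ᴴ * (V.S z * wl V z y) * cm (V.P z y) := by
  filter_upwards [V.flatS z hz] with y hy
  unfold PVHS.H hodge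
  rw [hy, wl_eq]
  simp only [mul_assoc]
  rw [IpcRegS_309.cm_inv_mul, mul_one]

/-- `v ↦ vᴴ M v` -/
def qf (M : Matrix (Fin N) (Fin N) ℂ) (v : Fin N → ℂ) : ℝ := (star v ⬝ᵥ M *ᵥ v).re

theorem qf_conj (M g : Matrix (Fin N) (Fin N) ℂ) (v : Fin N → ℂ) :
    qf (gᴴ * M * g) v = qf M (g *ᵥ v) := by
  unfold qf
  rw [← Matrix.mulVec_mulVec, ← Matrix.mulVec_mulVec, Matrix.dotProduct_mulVec (star v),
    Matrix.star_mulVec]

theorem qf_eq_sum (M : Matrix (Fin N) (Fin N) ℂ) (v : Fin N → ℂ) :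
    qf M v = (∑ i, star (v i) * ∑ j, M i j * v j).re := rfl

theorem qf_smul (M : Matrix (Fin N) (Fin N) ℂ) (r : ℝ) (v : Fin N → ℂ) :
    qf M (r • v) = r ^ 2 * qf M v := by
  have h1 : (star (r • v) ⬝ᵥ M *ᵥ (r • v)) = ((r ^ 2 : ℝ) : ℂ) * (star v ⬝ᵥ M *ᵥ v) := by
    have h2 : r • v = (r : ℂ) • v := by
      funext i
      simp
    rw [h2, star_smul, Matrix.mulVec_smul, smul_dotProduct, dotProduct_smul]
    simp only [smul_eq_mul, Complex.star_def, Complex.conj_ofReal]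
    push_cast
    ring
  unfold qf
  rw [h1, Complex.re_ofReal_mul]

theorem qf_cont {X : Type*} [TopologicalSpace X] {M : X → Matrix (Fin N) (Fin N) ℂ}
    {v : X → Fin N → ℂ} {s : Set X} {x : X} (hM : ∀ i j, ContinuousWithinAt (fun y => M y i j) s x)
    (hv : ContinuousWithinAt v s x) : ContinuousWithinAt (fun y => qf (M y) (v y)) s x := by
  simp only [qf_eq_sum]
  refine Complex.continuous_re.continuousAt.comp_continuousWithinAt ?_
  have hvi : ∀ i, ContinuousWithinAt (fun y => v y i) s x := fun i =>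
    (continuous_apply i).continuousAt.comp_continuousWithinAt hv
  refine tendsto_finsetSum _ fun i _ => ?_
  refine ((hvi i).star).mul ?_
  exact tendsto_finsetSum _ fun j _ => (hM i j).mul (hvi j)

theorem nsq_eq (V : PVHS A N w) (φ : ℂ → Fin N → ℂ) (z : ℂ) : V.nsq φ z = qf (V.H z) (φ z) := rfl

theorem nsq_frame (V : PVHS A N w) {z : ℂ} (hz : z ∉ A) : ∀ᶠ y in 𝓝 z, ∀ φ : ℂ → Fin N → ℂ,
    V.nsq φ y = qf (V.S z * wl V z y) (lV V.P φ z y) := by
  filter_upwards [hodge_frame V hz] with y hy φ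
  rw [nsq_eq, hy, qf_conj]
  rfl

theorem wl_cont (V : PVHS A N w) {z : ℂ} (hz : z ∉ A) (i k : Fin N) :
    ContinuousAt (fun y => wl V z y i k) z := by
  obtain ⟨r, h⟩ := exists_good V hz
  exact ((h.smW i k).contDiffAt (Metric.isOpen_ball.mem_nhds
    (Metric.mem_ball_self h.pos))).continuousAt

theorem Swl_cont (V : PVHS A N w) {z : ℂ} (hz : z ∉ A) (i k : Fin N) :
    ContinuousAt (fun y => (V.S z * wl V z y) i k) z := by
  simp only [Matrix.mul_apply]
  exact tendsto_finsetSum _ fun j _ => (continuousAt_const (y := V.S z i j)).mul (wl_cont V hz j k)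

theorem nsq_cont (V : PVHS A N w) {φ : ℂ → Fin N → ℂ} (hφ : V.Sm φ) {z : ℂ} (hz : z ∉ A) :
    ContinuousAt (V.nsq φ) z := by
  have h1 : ContinuousAt (fun y => qf (V.S z * wl V z y) (lV V.P φ z y)) z := by
    rw [← continuousWithinAt_univ]
    refine qf_cont (fun i j => (Swl_cont V hz i j).continuousWithinAt) ?_
    exact (hφ z hz).continuousAt.continuousWithinAt
  refine h1.congr ?_
  filter_upwards [nsq_frame V hz] with y hy
  exact (hy φ).symm

theorem nsq_nonneg (V : PVHS A N w) (φ : ℂ → Fin N → ℂ) {z : ℂ} (hz : z ∉ A) :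
    0 ≤ V.nsq φ z := (V.hs z hz).hodge_nonneg _

/-- the metric in the flat frame `T` -/
def BT (V : PVHS A N w) (T : ℂ → GL (Fin N) ℤ) (x : ℂ) : Matrix (Fin N) (Fin N) ℂ :=
  (cm (T x))ᴴ * V.H x * cm (T x)

theorem nsq_BT (V : PVHS A N w) (T : ℂ → GL (Fin N) ℤ) (φ : ℂ → Fin N → ℂ) (x : ℂ) :
    V.nsq φ x = qf (BT V T x) (tl T φ x) := by
  unfold BT
  rw [qf_conj, nsq_eq]
  congr 1
  exact (act_tl T φ x).symm

theorem BT_cont (V : PVHS A N w) {T : ℂ → GL (Fin N) ℤ} {W : Set ℂ} (hT : Tri V.P W T)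
    (hWA : W ⊆ (A : Set ℂ)ᶜ) {z : ℂ} (hz : z ∈ W) (i k : Fin N) :
    ContinuousAt (fun x => BT V T x i k) z := by
  have hzA : z ∉ A := hWA hz
  obtain ⟨U, hU, h⟩ := hT z hz
  have h1 : (fun x => BT V T x i k) =ᶠ[𝓝 z]
      fun x => ((cm (T z))ᴴ * (V.S z * wl V z x) * cm (T z)) i k := by
    filter_upwards [hU, hodge_frame V hzA] with y hy hy2
    have h3 : cm (V.P z y) * cm (T y) = cm (T z) := by
      rw [h z (mem_of_mem_nhds hU) y hy, ← IpcRegS_309.cm_mul, inv_mul_cancel_right]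
    unfold BT
    rw [hy2]
    have h4 : (cm (T y))ᴴ * ((cm (V.P z y))ᴴ * (V.S z * wl V z y) * cm (V.P z y)) * cm (T y) =
        (cm (V.P z y) * cm (T y))ᴴ * (V.S z * wl V z y) * (cm (V.P z y) * cm (T y)) := by
      rw [Matrix.conjTranspose_mul]
      simp only [mul_assoc]
    rw [h4, h3]
  refine ContinuousAt.congr ?_ h1.symm
  simp only [Matrix.mul_apply (M := (cm (T z))ᴴ * _), Matrix.mul_apply (M := (cm (T z))ᴴ)]
  refine tendsto_finsetSum _ fun a _ => ?_
  refine Tendsto.mul ?_ tendsto_const_nhds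
  exact tendsto_finsetSum _ fun b _ => (continuousAt_const (y := ((cm (T z))ᴴ i b))).mul
    (Swl_cont V hzA b a)

theorem BT_pos (V : PVHS A N w) (T : ℂ → GL (Fin N) ℤ) {x : ℂ} (hx : x ∉ A) {v : Fin N → ℂ}
    (hv : v ≠ 0) : 0 < qf (BT V T x) v := by
  unfold BT
  rw [qf_conj]
  refine (V.hs x hx).hodge_pos fun h => hv ?_
  have := cm_mulVec_injective (T x) (a₁ := v) (a₂ := 0) (by rw [Matrix.mulVec_zero]; exact h)
  exact this

/-- on compact sets the Hodge norm dominates the norm in a flat frame -/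
theorem BT_lower (V : PVHS A N w) {T : ℂ → GL (Fin N) ℤ} {W : Set ℂ} (hT : Tri V.P W T)
    (hWA : W ⊆ (A : Set ℂ)ᶜ) {K : Set ℂ} (hK : IsCompact K) (hKW : K ⊆ W) :
    ∃ c > 0, ∀ x ∈ K, ∀ v : Fin N → ℂ, c * ‖v‖ ^ 2 ≤ qf (BT V T x) v := by
  by_cases hne : (K ×ˢ Metric.sphere (0 : Fin N → ℂ) 1).Nonempty
  · have hc : ContinuousOn (fun p : ℂ × (Fin N → ℂ) => qf (BT V T p.1) p.2)
        (K ×ˢ Metric.sphere (0 : Fin N → ℂ) 1) := by
      intro p hp
      refine qf_cont (fun i j => ?_) continuous_snd.continuousWithinAt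
      exact ((BT_cont V hT hWA (hKW hp.1) i j).comp (f := Prod.fst) (x := p)
        continuous_fst.continuousAt).continuousWithinAt
    obtain ⟨p, hp, hmin⟩ := (hK.prod (isCompact_sphere (0 : Fin N → ℂ) 1)).exists_isMinOn hne hc
    have hp2 : p.2 ≠ 0 := by
      intro h
      have := hp.2
      rw [mem_sphere_zero_iff_norm, h, norm_zero] at this
      exact zero_ne_one this
    refine ⟨qf (BT V T p.1) p.2, BT_pos V T (hWA (hKW hp.1)) hp2, fun x hx v => ?_⟩
    by_cases hv : v = 0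
    · subst hv
      simp [qf]
    · have hn : 0 < ‖v‖ := norm_pos_iff.2 hv
      have h1 : qf (BT V T p.1) p.2 ≤ qf (BT V T x) (‖v‖⁻¹ • v) := by
        refine hmin (a := (x, ‖v‖⁻¹ • v)) ⟨hx, ?_⟩
        rw [mem_sphere_zero_iff_norm, norm_smul, norm_inv, norm_norm, inv_mul_cancel₀ hn.ne']
      rw [qf_smul] at h1
      calc qf (BT V T p.1) p.2 * ‖v‖ ^ 2 ≤ (‖v‖⁻¹ ^ 2 * qf (BT V T x) v) * ‖v‖ ^ 2 := by gcongr
        _ = qf (BT V T x) v := by field_simp
  · refine ⟨1, one_pos, fun x hx v => ?_⟩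
    by_cases hv : v = 0
    · subst hv
      simp [qf]
    · exfalso
      have hn : 0 < ‖v‖ := norm_pos_iff.2 hv
      refine hne ⟨(x, ‖v‖⁻¹ • v), hx, ?_⟩
      rw [mem_sphere_zero_iff_norm, norm_smul, norm_inv, norm_norm, inv_mul_cancel₀ hn.ne']

/-! ### derivatives of sections -/

theorem tl_d (V : PVHS A N w) {T : ℂ → GL (Fin N) ℤ} {W : Set ℂ} (hT : Tri V.P W T) {x : ℂ}
    (hx : x ∈ W) {φ : ℂ → Fin N → ℂ} (hφ : ContDiffAt ℝ (⊤ : ℕ∞) (lV V.P φ x) x) :
    tl T (V.d1 φ) x = wz (tl T φ) x ∧ tl T (V.d2 φ) x = wb (tl T φ) x := by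
  have h4 := ((sm_iff hT hx φ).1 hφ).differentiableAt (by simp)
  have h5 := wz_lV hT hx h4
  constructor
  · show act (T x)⁻¹ (wz (lV V.P φ x) x) = _
    rw [h5.1, act_inv_act]
  · show act (T x)⁻¹ (wb (lV V.P φ x) x) = _
    rw [h5.2, act_inv_act]

theorem cd_wz {g : ℂ → Fin N → ℂ} {z : ℂ} (hg : ContDiffAt ℝ (⊤ : ℕ∞) g z) :
    ContDiffAt ℝ (⊤ : ℕ∞) (wz g) z ∧ ContDiffAt ℝ (⊤ : ℕ∞) (wb g) z := by
  have h1 : ContDiffAt ℝ (⊤ : ℕ∞) (fderiv ℝ g) z := hg.fderiv_right (by simp)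
  have h2 : ∀ v : ℂ, ContDiffAt ℝ (⊤ : ℕ∞) (fun y => fderiv ℝ g y v) z := fun v =>
    h1.clm_apply contDiffAt_const
  exact ⟨((h2 1).sub ((h2 Complex.I).const_smul Complex.I)).const_smul (1 / 2 : ℂ),
    ((h2 1).add ((h2 Complex.I).const_smul Complex.I)).const_smul (1 / 2 : ℂ)⟩

theorem Sm_d (V : PVHS A N w) {φ : ℂ → Fin N → ℂ} (hφ : V.Sm φ) : V.Sm (V.d1 φ) ∧ V.Sm (V.d2 φ) := by
  obtain ⟨D, hD⟩ := exists_famA V
  have key : ∀ z ∉ A, ContDiffAt ℝ (⊤ : ℕ∞) (lV V.P (V.d1 φ) z) z ∧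
      ContDiffAt ℝ (⊤ : ℕ∞) (lV V.P (V.d2 φ) z) z := by
    intro z hz
    have h1 : z ∈ ⋃ f, pc A f := by rw [iUnion_pc]; exact hz
    obtain ⟨i, hi⟩ := mem_iUnion.1 h1
    have hi' : z ∈ D.W i := by rw [hD]; exact hi
    have hW : D.W i ⊆ (A : Set ℂ)ᶜ := by rw [hD]; exact pc_sub i
    rw [sm_iff (D.tri i) hi', sm_iff (D.tri i) hi']
    have h2 := cd_wz ((sm_iff (D.tri i) hi' φ).1 (hφ z hz))
    constructor
    · refine h2.1.congr_of_eventuallyEq ?_
      filter_upwards [(D.isOpen i).mem_nhds hi'] with y hy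
      exact (tl_d V (D.tri i) hy (hφ y (hW hy))).1
    · refine h2.2.congr_of_eventuallyEq ?_
      filter_upwards [(D.isOpen i).mem_nhds hi'] with y hy
      exact (tl_d V (D.tri i) hy (hφ y (hW hy))).2
  exact ⟨fun z hz => (key z hz).1, fun z hz => (key z hz).2⟩

theorem Sm_sub (V : PVHS A N w) {φ ψ : ℂ → Fin N → ℂ} (hφ : V.Sm φ) (hψ : V.Sm ψ) :
    V.Sm (fun z => φ z - ψ z) := by
  intro z hz
  have h1 : lV V.P (fun z => φ z - ψ z) z = fun y => lV V.P φ z y - lV V.P ψ z y := by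
    funext y
    unfold Ipc735.lV
    rw [Matrix.mulVec_sub]
  rw [h1]
  exact (hφ z hz).sub (hψ z hz)

theorem Sm_add (V : PVHS A N w) {φ ψ : ℂ → Fin N → ℂ} (hφ : V.Sm φ) (hψ : V.Sm ψ) :
    V.Sm (fun z => φ z + ψ z) := by
  intro z hz
  have h1 : lV V.P (fun z => φ z + ψ z) z = fun y => lV V.P φ z y + lV V.P ψ z y := by
    funext y
    unfold Ipc735.lV
    rw [Matrix.mulVec_add]
  rw [h1]
  exact (hφ z hz).add (hψ z hz)

/-- a smooth closed form which is a limit in `L²_loc` of exact forms is exact -/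
theorem exact_of_approx (V : PVHS A N w) {a b : ℂ → Fin N → ℂ} (ha : V.Sm a) (hb : V.Sm b)
    (hab : V.Closed a b)
    (h : ∀ K ⊆ (A : Set ℂ)ᶜ, IsCompact K → ∀ ε : ℝ, 0 < ε → ∃ f, V.Sm f ∧
      ∫ z in K, (V.nsq (fun z => a z - V.d1 f z) z + V.nsq (fun z => b z - V.d2 f z) z) < ε) :
    ∃ φ, V.Sm φ ∧ (∀ z ∉ A, V.d1 φ z = a z) ∧ ∀ z ∉ A, V.d2 φ z = b z := by
  obtain ⟨D, hD⟩ := exists_famA V
  have hU : (⋃ i, D.W i) = (A : Set ℂ)ᶜ := by rw [hD]; exact iUnion_pc A
  have sa : SmOn V.P (⋃ i, D.W i) a := by rw [hU]; exact fun z hz => ha z hz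
  have sb : SmOn V.P (⋃ i, D.W i) b := by rw [hU]; exact fun z hz => hb z hz
  have cab : ClOn V.P (⋃ i, D.W i) a b := by rw [hU]; exact fun z hz => hab z hz
  have hE : (D.form sa sb cab).Exact := by
    have : Fintype D.cc.ι := inferInstanceAs (Fintype (A → Fin 4))
    refine Top2_937.exact_of_forall_approx (volume : Measure ℂ) D.cc _ fun K hK1 hK2 ε hε => ?_
    have hWA : ∀ i, D.W i ⊆ (A : Set ℂ)ᶜ := fun i => by rw [hD]; exact pc_sub i
    have hc := fun i => BT_lower V (D.tri i) (hWA i) (hK1 i) (hK2 i)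
    choose c hc0 hc using hc
    set C : ℝ := ∑ i : D.cc.ι, (c i)⁻¹ with hCdef
    have hC0 : 0 ≤ C := Finset.sum_nonneg fun i _ => (inv_pos.2 (hc0 i)).le
    have hC : ∀ i, ∀ x ∈ K i, ∀ v : Fin N → ℂ, ‖v‖ ^ 2 ≤ C * qf (BT V (D.T i) x) v := by
      intro i x hx v
      have h1 := hc i x hx v
      have h2 : 0 ≤ qf (BT V (D.T i) x) v := (mul_nonneg (hc0 i).le (sq_nonneg _)).trans h1
      have h3 : (c i)⁻¹ ≤ C := Finset.single_le_sum (f := fun i => (c i)⁻¹)
        (fun i _ => (inv_pos.2 (hc0 i)).le) (Finset.mem_univ i)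
      calc ‖v‖ ^ 2 = (c i)⁻¹ * (c i * ‖v‖ ^ 2) := by
            rw [← mul_assoc, inv_mul_cancel₀ (hc0 i).ne', one_mul]
        _ ≤ (c i)⁻¹ * qf (BT V (D.T i) x) v := by
            gcongr
            exact (inv_pos.2 (hc0 i)).le
        _ ≤ C * qf (BT V (D.T i) x) v := by gcongr
    set Kt : Set ℂ := ⋃ i, K i with hKt
    have hKtc : IsCompact Kt := isCompact_iUnion hK1
    have hKtA : Kt ⊆ (A : Set ℂ)ᶜ := iUnion_subset fun i => (hK2 i).trans (hWA i)
    obtain ⟨e, he0, heε⟩ : ∃ e : ℝ, 0 < e ∧ ENNReal.ofReal e ≤ ε := by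
      obtain ⟨e, he, he2⟩ := ENNReal.lt_iff_exists_nnreal_btwn.1 hε
      exact ⟨e, by exact_mod_cast he, by rw [ENNReal.ofReal_coe_nnreal]; exact he2.le⟩
    set n : ℝ := (Fintype.card D.cc.ι : ℝ) with hn
    have hn0 : 0 ≤ n := Nat.cast_nonneg _
    set k : ℝ := ‖(frm : ((Fin N → ℂ) × (Fin N → ℂ)) →L[ℝ] (ℂ →L[ℝ] (Fin N → ℂ)))‖ with hk
    have hk0 : 0 ≤ k := ContinuousLinearMap.opNorm_nonneg _
    set m : ℝ := (volume : Measure ℂ).real Kt with hm
    have hm0 : 0 ≤ m := measureReal_nonneg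
    -- the choice of `δ` and `ε'`
    obtain ⟨δ, hδ0, hδ⟩ : ∃ δ : ℝ, 0 < δ ∧ n * (k * (δ * m)) ≤ e / 2 := by
      refine ⟨e / 2 / (n * k * m + 1), by positivity, ?_⟩
      have h1 : n * (k * (e / 2 / (n * k * m + 1) * m)) = e / 2 * ((n * k * m) / (n * k * m + 1)) := by
        ring
      rw [h1]
      have h2 : (n * k * m) / (n * k * m + 1) ≤ 1 := by
        rw [div_le_one (by positivity)]
        linarith
      calc e / 2 * ((n * k * m) / (n * k * m + 1)) ≤ e / 2 * 1 := by gcongr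
        _ = e / 2 := mul_one _
    obtain ⟨e', he'0, he'⟩ : ∃ e' : ℝ, 0 < e' ∧ n * (k * (C / δ * e')) ≤ e / 2 := by
      refine ⟨e / 2 / (n * k * (C / δ) + 1), by positivity, ?_⟩
      have h1 : n * (k * (C / δ * (e / 2 / (n * k * (C / δ) + 1)))) =
          e / 2 * ((n * k * (C / δ)) / (n * k * (C / δ) + 1)) := by
        ring
      rw [h1]
      have h2 : (n * k * (C / δ)) / (n * k * (C / δ) + 1) ≤ 1 := by
        rw [div_le_one (by positivity)]
        linarith
      calc e / 2 * ((n * k * (C / δ)) / (n * k * (C / δ) + 1)) ≤ e / 2 * 1 := by gcongr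
        _ = e / 2 := mul_one _
    obtain ⟨f, hf, hfe⟩ := h Kt hKtA hKtc e' he'0
    set g : ℂ → ℝ := fun z => V.nsq (fun z => a z - V.d1 f z) z + V.nsq (fun z => b z - V.d2 f z) z
      with hg
    have hs : ∀ i, ContDiffOn ℝ ∞ (tl (D.T i) f) (D.W i) := fun i x hx =>
      ((sm_iff (D.tri i) hx f).1 (hf x (hWA i hx))).contDiffWithinAt
    have hr : ∀ i j, ∀ x ∈ D.cc.W i ∩ D.cc.W j, tl (D.T i) f x =
        D.cc.g i j (tl (D.T j) f x) + 0 := fun i j x hx => by
      rw [add_zero]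
      exact D.tl_change hx f
    refine ⟨Form.ofPrim D.cc (fun i => tl (D.T i) f) (fun _ _ => 0) hs hr,
      ⟨fun i => tl (D.T i) f, fun i x hx => (Top2_937.Prim.ofPrim D.cc _ _ hs hr).der i x hx,
        fun i j x hx => D.tl_change hx f⟩, ?_⟩
    -- pointwise bound
    have hpt : ∀ i, ∀ x ∈ K i, ‖(D.form sa sb cab).η i x -
        (Form.ofPrim D.cc (fun i => tl (D.T i) f) (fun _ _ => 0) hs hr).η i x‖ ≤
          k * (δ + C / δ * g x) := by
      intro i x hx
      have hxW : x ∈ D.W i := hK2 i hx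
      obtain ⟨t1, t2⟩ := tl_d V (D.tri i) hxW (hf x (hWA i hxW))
      have e1 : (D.form sa sb cab).η i x -
          (Form.ofPrim D.cc (fun i => tl (D.T i) f) (fun _ _ => 0) hs hr).η i x =
          frm (tl (D.T i) (fun z => a z - V.d1 f z) x, tl (D.T i) (fun z => b z - V.d2 f z) x) := by
        show frm (tl (D.T i) a x, tl (D.T i) b x) - fderiv ℝ (tl (D.T i) f) x = _
        rw [fderiv_eq_frm, ← map_sub, ← t1, ← t2]
        congr 1
        simp only [tl, map_sub]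
        rfl
      rw [e1]
      set u1 := tl (D.T i) (fun z => a z - V.d1 f z) x with hu1
      set u2 := tl (D.T i) (fun z => b z - V.d2 f z) x with hu2
      have e2 : ‖u1‖ ^ 2 + ‖u2‖ ^ 2 ≤ C * g x := by
        have h1 := hC i x hx u1
        have h2 := hC i x hx u2
        rw [hu1, ← nsq_BT] at h1
        rw [hu2, ← nsq_BT] at h2
        rw [hg]
        simp only
        linarith
      set t : ℝ := ‖(u1, u2)‖ with ht
      have ht0 : 0 ≤ t := norm_nonneg _
      have e3 : t ^ 2 ≤ C * g x := by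
        refine le_trans ?_ e2
        rw [ht, Prod.norm_mk]
        rcases max_choice ‖u1‖ ‖u2‖ with h | h
        · rw [h]; nlinarith [sq_nonneg ‖u2‖]
        · rw [h]; nlinarith [sq_nonneg ‖u1‖]
      have e4 : t ≤ δ + C / δ * g x := by
        have h1 : t * δ ≤ δ ^ 2 + t ^ 2 := by nlinarith [sq_nonneg (t - δ)]
        have h2 : t ≤ (δ ^ 2 + C * g x) / δ := by
          rw [le_div_iff₀ hδ0]
          linarith
        calc t ≤ (δ ^ 2 + C * g x) / δ := h2
          _ = δ + C / δ * g x := by field_simp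
      calc ‖frm (u1, u2)‖ ≤ k * t := ContinuousLinearMap.le_opNorm _ _
        _ ≤ k * (δ + C / δ * g x) := by gcongr
    -- integration
    have hgc : ContinuousOn g Kt := by
      intro z hz
      have hz' : z ∉ A := hKtA hz
      exact ((nsq_cont V (Sm_sub V ha (Sm_d V hf).1) hz').add
        (nsq_cont V (Sm_sub V hb (Sm_d V hf).2) hz')).continuousWithinAt
    have hgi : IntegrableOn g Kt := hgc.integrableOn_compact hKtc
    have hfin : IsFiniteMeasure ((volume : Measure ℂ).restrict Kt) :=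
      ⟨by rw [Measure.restrict_apply_univ]; exact hKtc.measure_lt_top⟩
    have hi2 : IntegrableOn (fun x => k * (δ + C / δ * g x)) Kt :=
      ((integrable_const δ).add (hgi.const_mul _)).const_mul _
    have hg0 : ∀ x ∈ Kt, 0 ≤ g x := fun x hx =>
      add_nonneg (nsq_nonneg V _ (hKtA hx)) (nsq_nonneg V _ (hKtA hx))
    have hI : ∫⁻ x in Kt, ENNReal.ofReal (k * (δ + C / δ * g x)) =
        ENNReal.ofReal (∫ x in Kt, k * (δ + C / δ * g x)) := by
      rw [ofReal_integral_eq_lintegral_ofReal hi2]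
      refine (ae_restrict_iff' hKtc.measurableSet).2 (Eventually.of_forall fun x hx => ?_)
      have := hg0 x hx
      show 0 ≤ k * (δ + C / δ * g x)
      positivity
    have hI2 : ∫ x in Kt, k * (δ + C / δ * g x) = k * (δ * m + C / δ * ∫ x in Kt, g x) := by
      rw [integral_const_mul, integral_add (integrable_const δ) (hgi.const_mul _),
        integral_const_mul, integral_const, smul_eq_mul, measureReal_restrict_apply_univ,
        mul_comm m δ]
    have hterm : ∀ i, ∫⁻ x in K i, ‖(D.form sa sb cab).η i x -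
        (Form.ofPrim D.cc (fun i => tl (D.T i) f) (fun _ _ => 0) hs hr).η i x‖ₑ ≤
          ENNReal.ofReal (k * (δ * m + C / δ * e')) := by
      intro i
      calc ∫⁻ x in K i, ‖(D.form sa sb cab).η i x -
            (Form.ofPrim D.cc (fun i => tl (D.T i) f) (fun _ _ => 0) hs hr).η i x‖ₑ
          ≤ ∫⁻ x in K i, ENNReal.ofReal (k * (δ + C / δ * g x)) := by
            refine setLIntegral_mono' (hK1 i).measurableSet fun x hx => ?_
            rw [← ofReal_norm]
            exact ENNReal.ofReal_le_ofReal (hpt i x hx)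
        _ ≤ ∫⁻ x in Kt, ENNReal.ofReal (k * (δ + C / δ * g x)) :=
            lintegral_mono_set (subset_iUnion K i)
        _ = ENNReal.ofReal (k * (δ * m + C / δ * ∫ x in Kt, g x)) := by rw [hI, hI2]
        _ ≤ ENNReal.ofReal (k * (δ * m + C / δ * e')) := by
            refine ENNReal.ofReal_le_ofReal ?_
            gcongr
    calc ∑ i, ∫⁻ x in K i, ‖(D.form sa sb cab).η i x -
          (Form.ofPrim D.cc (fun i => tl (D.T i) f) (fun _ _ => 0) hs hr).η i x‖ₑ
        ≤ ∑ _i : D.cc.ι, ENNReal.ofReal (k * (δ * m + C / δ * e')) :=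
          Finset.sum_le_sum fun i _ => hterm i
      _ = ENNReal.ofReal (n * (k * (δ * m + C / δ * e'))) := by
          rw [Finset.sum_const, Finset.card_univ, nsmul_eq_mul, ENNReal.ofReal_mul hn0, hn,
            ENNReal.ofReal_natCast]
      _ ≤ ENNReal.ofReal e := by
          refine ENNReal.ofReal_le_ofReal ?_
          nlinarith
      _ ≤ ε := heε
  obtain ⟨φ, hφ⟩ := (D.exOn_iff sa sb cab).2 hE
  rw [hU] at hφ
  exact ⟨φ, fun z hz => (hφ z hz).1, fun z hz => (hφ z hz).2.1, fun z hz => (hφ z hz).2.2⟩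

theorem exactOn_of_approx (V : PVHS A N w) {a b : ℂ → Fin N → ℂ} (ha : V.Sm a) (hb : V.Sm b)
    (hab : V.Closed a b)
    (h : ∀ K ⊆ (A : Set ℂ)ᶜ, IsCompact K → ∀ ε : ℝ, 0 < ε → ∃ f, V.Sm f ∧
      ∫ z in K, (V.nsq (fun z => a z - V.d1 f z) z + V.nsq (fun z => b z - V.d2 f z) z) < ε) :
    V.ExactOn univ a b := by
  obtain ⟨φ, h1, h2, h3⟩ := exact_of_approx V ha hb hab h
  exact ⟨φ, fun z _ hz => ⟨h1 z hz, h2 z hz, h3 z hz⟩⟩

end Crest.Agent.R276.IpcEx_309
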