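import Crest.Agent.R276.EndP1_659
import Crest.Agent.R276.EndF_659
import Crest.Agent.R276.IpcEx_309

/-!
# R276 (helper659): sections near an end, part 2

* `wz_comp`, `wb_comp` : chain rule for `wz`, `wb` along holomorphic maps;
* `wz_smul`, `wb_smul`, `d1_smul`, `d2_smul` : Leibniz;
* `cutp`, `cutI` : radial cut-off functions.
-/

set_option autoImplicit false

open Set Filter Topology MeasureTheory Matrix
open scoped ContDiff ComplexConjugate

namespace Crest.Agent.R276.EndP_659

open Crest.Agent.R276.Ipc735 Crest.Agent.R276.Top2_937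

section chain

variable {F : Type*} [NormedAddCommGroup F] [NormedSpace ℂ F]

theorem hasFDerivAt_om {f : ℂ → F} {z : ℂ} (hf : DifferentiableAt ℝ f z) :
    HasFDerivAt f (om (wz f z) (wb f z)) z := by
  rw [om_wz_wb]
  exact hf.hasFDerivAt

theorem hasFDerivAt_comp_hol {f : ℂ → F} {e : ℂ → ℂ} {u : ℂ} {a b : F}
    (hf : HasFDerivAt f (om a b) (e u)) (he : DifferentiableAt ℂ e u) :
    HasFDerivAt (fun u => f (e u)) (om (deriv e u • a) (conj (deriv e u) • b)) u := by
  have h1 := hf.comp u (hasFDerivAt_mul he)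
  refine h1.congr_fderiv ?_
  refine ContinuousLinearMap.ext fun v => ?_
  rw [ContinuousLinearMap.comp_apply, om_eq, om_eq, ContinuousLinearMap.mul_apply', smul_smul,
    smul_smul, map_mul, mul_comm, mul_comm (conj (deriv e u))]

theorem wz_comp {f : ℂ → F} {e : ℂ → ℂ} {u : ℂ} (hf : DifferentiableAt ℝ f (e u))
    (he : DifferentiableAt ℂ e u) :
    wz (fun u => f (e u)) u = deriv e u • wz f (e u) :=
  wz_of (hasFDerivAt_comp_hol (hasFDerivAt_om hf) he)

theorem wb_comp {f : ℂ → F} {e : ℂ → ℂ} {u : ℂ} (hf : DifferentiableAt ℝ f (e u))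
    (he : DifferentiableAt ℂ e u) :
    wb (fun u => f (e u)) u = (conj (deriv e u)) • wb f (e u) :=
  wb_of (hasFDerivAt_comp_hol (hasFDerivAt_om hf) he)

theorem wz_smul {m : ℂ → ℝ} {f : ℂ → F} {z : ℂ} (hm : DifferentiableAt ℝ m z)
    (hf : DifferentiableAt ℝ f z) :
    wz (fun x => m x • f x) z = (m z : ℂ) • wz f z + wz (fun x => (m x : ℂ)) z • f z := by
  have h1 := (hm.hasFDerivAt.smul hf.hasFDerivAt).fderiv
  have h2 : fderiv ℝ (fun x => m x • f x) z = _ := h1
  have h3 := (Complex.ofRealCLM.hasFDerivAt.comp z hm.hasFDerivAt).fderiv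
  have h4 : fderiv ℝ (fun x => (m x : ℂ)) z = _ := h3
  unfold wz
  rw [h2, h4]
  simp only [_root_.add_apply, _root_.smul_apply, ContinuousLinearMap.smulRight_apply,
    ContinuousLinearMap.comp_apply, Complex.ofRealCLM_apply]
  have r : ∀ (c : ℝ) (x : F), c • x = (c : ℂ) • x := fun _ _ => rfl
  simp only [r, smul_eq_mul]
  module

theorem wb_smul {m : ℂ → ℝ} {f : ℂ → F} {z : ℂ} (hm : DifferentiableAt ℝ m z)
    (hf : DifferentiableAt ℝ f z) :
    wb (fun x => m x • f x) z = (m z : ℂ) • wb f z + wb (fun x => (m x : ℂ)) z • f z := by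
  have h1 := (hm.hasFDerivAt.smul hf.hasFDerivAt).fderiv
  have h2 : fderiv ℝ (fun x => m x • f x) z = _ := h1
  have h3 := (Complex.ofRealCLM.hasFDerivAt.comp z hm.hasFDerivAt).fderiv
  have h4 : fderiv ℝ (fun x => (m x : ℂ)) z = _ := h3
  unfold wb
  rw [h2, h4]
  simp only [_root_.add_apply, _root_.smul_apply, ContinuousLinearMap.smulRight_apply,
    ContinuousLinearMap.comp_apply, Complex.ofRealCLM_apply]
  have r : ∀ (c : ℝ) (x : F), c • x = (c : ℂ) • x := fun _ _ => rfl
  simp only [r, smul_eq_mul]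
  module

end chain

end Crest.Agent.R276.EndP_659
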