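import Mathlib
import Crest.Agent.R276.IpcLoc_735

/-!
# Row 276, IPC-NF (helper735): the ends of a punctured plane and the normal form of a `PVHS` there

* `EndMap A s0` : holomorphic parametrisation `χ` of an end of `ℂ \ A` by `{Re u < -s0}`;
  `EndMap.punct` (`χ u = a + exp u`), `EndMap.infty` (`χ u = exp (-u)`);
* `NF V e` : normal form of `V` near the end `e`; `exists_nf`;
* `NF.pull` : pull back of a section; dictionary for smoothness, derivatives, Hodge norms;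
* `NF.exists_push` : descent;
* `EndMap.lintegral` : change of variables.
-/

set_option autoImplicit false
set_option linter.unusedSectionVars false

noncomputable section

open Set Filter Topology MeasureTheory Matrix
open scoped ContDiff ComplexConjugate

namespace Crest.Agent.R276.Ipc735

/-! ### Wirtinger derivatives and holomorphic maps -/

section chain

variable {F : Type*} [NormedAddCommGroup F] [NormedSpace ℂ F]

lemma fderiv_eq_wz_wb (f : ℂ → F) (z v : ℂ) :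
    fderiv ℝ f z v = v • wz f z + (conj v) • wb f z := by
  have h1 : v = (v.re : ℝ) • (1 : ℂ) + (v.im : ℝ) • Complex.I := by
    conv_lhs => rw [← Complex.re_add_im v]
    simp
  have h2 : fderiv ℝ f z v = (v.re : ℂ) • fderiv ℝ f z 1 + (v.im : ℂ) • fderiv ℝ f z Complex.I := by
    conv_lhs => rw [h1]
    rw [map_add, map_smul, map_smul]
    simp
  have h3 : (conj v : ℂ) = (v.re : ℂ) - (v.im : ℂ) * Complex.I := by
    apply Complex.ext <;> simp
  have h4 : v = (v.re : ℂ) + (v.im : ℂ) * Complex.I := (Complex.re_add_im v).symm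
  have hI : Complex.I * Complex.I = -1 := Complex.I_mul_I
  rw [h2, h3]
  conv_rhs => rw [h4]
  unfold wz wb
  simp only [Complex.add_re, Complex.ofReal_re, Complex.mul_re, Complex.I_re, mul_zero,
    Complex.ofReal_im, Complex.I_im, mul_one, sub_self, add_zero, Complex.add_im, Complex.mul_im,
    zero_add]
  match_scalars
  · ring
  · linear_combination (v.im : ℂ) * hI

lemma wz_congr {f g : ℂ → F} {z : ℂ} (h : f =ᶠ[𝓝 z] g) : wz f z = wz g z := by
  unfold wz; rw [h.fderiv_eq]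

lemma wb_congr {f g : ℂ → F} {z : ℂ} (h : f =ᶠ[𝓝 z] g) : wb f z = wb g z := by
  unfold wb; rw [h.fderiv_eq]

lemma fderiv_comp_hol {f : ℂ → F} {χ : ℂ → ℂ} {z : ℂ} (hχ : DifferentiableAt ℂ χ z)
    (hf : DifferentiableAt ℝ f (χ z)) (v : ℂ) :
    fderiv ℝ (fun u => f (χ u)) z v = fderiv ℝ f (χ z) (deriv χ z * v) := by
  have h1 : HasFDerivAt χ ((fderiv ℂ χ z).restrictScalars ℝ) z :=
    hχ.hasFDerivAt.restrictScalars ℝ
  have h2 := (hf.hasFDerivAt.comp z h1).fderiv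
  have h3 : (fun u => f (χ u)) = f ∘ χ := rfl
  rw [h3, h2]
  simp only [ContinuousLinearMap.comp_apply, ContinuousLinearMap.coe_restrictScalars']
  congr 1
  have h4 : fderiv ℂ χ z v = v • fderiv ℂ χ z 1 := by rw [← map_smul, smul_eq_mul, mul_one]
  rw [h4, smul_eq_mul, fderiv_apply_one_eq_deriv, mul_comm]

lemma wz_comp_hol {f : ℂ → F} {χ : ℂ → ℂ} {z : ℂ} (hχ : DifferentiableAt ℂ χ z)
    (hf : DifferentiableAt ℝ f (χ z)) :
    wz (fun u => f (χ u)) z = deriv χ z • wz f (χ z) := by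
  conv_lhs => unfold wz
  rw [fderiv_comp_hol hχ hf, fderiv_comp_hol hχ hf, fderiv_eq_wz_wb, fderiv_eq_wz_wb f]
  have hI : Complex.I * Complex.I = -1 := Complex.I_mul_I
  simp only [mul_one, map_mul, Complex.conj_I]
  match_scalars
  · linear_combination (-(1 / 2 : ℂ) * deriv χ z) * hI
  · linear_combination ((1 / 2 : ℂ) * (conj (deriv χ z))) * hI

lemma wb_comp_hol {f : ℂ → F} {χ : ℂ → ℂ} {z : ℂ} (hχ : DifferentiableAt ℂ χ z)
    (hf : DifferentiableAt ℝ f (χ z)) :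
    wb (fun u => f (χ u)) z = (conj (deriv χ z)) • wb f (χ z) := by
  conv_lhs => unfold wb
  rw [fderiv_comp_hol hχ hf, fderiv_comp_hol hχ hf, fderiv_eq_wz_wb, fderiv_eq_wz_wb f]
  have hI : Complex.I * Complex.I = -1 := Complex.I_mul_I
  simp only [mul_one, map_mul, Complex.conj_I]
  match_scalars
  · linear_combination ((1 / 2 : ℂ) * deriv χ z) * hI
  · linear_combination (-(1 / 2 : ℂ) * (conj (deriv χ z))) * hI

lemma fderiv_mulVec {N : ℕ} (M : Matrix (Fin N) (Fin N) ℂ) {f : ℂ → Fin N → ℂ} {z : ℂ}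
    (hf : DifferentiableAt ℝ f z) (v : ℂ) :
    fderiv ℝ (fun u => M *ᵥ f u) z v = M *ᵥ fderiv ℝ f z v := by
  let L : (Fin N → ℂ) →L[ℝ] (Fin N → ℂ) :=
    LinearMap.toContinuousLinearMap ((Matrix.mulVecLin M).restrictScalars ℝ)
  have h1 : (fun u => M *ᵥ f u) = fun u => L (f u) := rfl
  have h2 := (L.hasFDerivAt.comp z hf.hasFDerivAt).fderiv
  have h3 : (fun u => L (f u)) = L ∘ f := rfl
  rw [h1, h3, h2]
  rfl

lemma wz_mulVec {N : ℕ} (M : Matrix (Fin N) (Fin N) ℂ) {f : ℂ → Fin N → ℂ} {z : ℂ}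
    (hf : DifferentiableAt ℝ f z) : wz (fun u => M *ᵥ f u) z = M *ᵥ wz f z := by
  unfold wz
  rw [fderiv_mulVec M hf, fderiv_mulVec M hf, Matrix.mulVec_smul, Matrix.mulVec_sub,
    Matrix.mulVec_smul]

lemma wb_mulVec {N : ℕ} (M : Matrix (Fin N) (Fin N) ℂ) {f : ℂ → Fin N → ℂ} {z : ℂ}
    (hf : DifferentiableAt ℝ f z) : wb (fun u => M *ᵥ f u) z = M *ᵥ wb f z := by
  unfold wb
  rw [fderiv_mulVec M hf, fderiv_mulVec M hf, Matrix.mulVec_smul, Matrix.mulVec_add,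
    Matrix.mulVec_smul]

lemma contDiff_mulVec {N : ℕ} (M : Matrix (Fin N) (Fin N) ℂ) (n : WithTop ℕ∞) :
    ContDiff ℝ n (fun v : Fin N → ℂ => M *ᵥ v) := by
  let L : (Fin N → ℂ) →L[ℝ] (Fin N → ℂ) :=
    LinearMap.toContinuousLinearMap ((Matrix.mulVecLin M).restrictScalars ℝ)
  exact L.contDiff

end chain

/-! ### ends -/

/-- holomorphic parametrisation of an end of `ℂ \ A` by the half plane `{Re u < -s0}` -/
structure EndMap (A : Finset ℂ) (s0 : ℝ) where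
  χ : ℂ → ℂ
  diff : Differentiable ℂ χ
  ne : ∀ u, deriv χ u ≠ 0
  per : ∀ u, χ (u + 2 * Real.pi * Complex.I) = χ u
  avoid : ∀ u : ℂ, u.re < -s0 → χ u ∉ A
  inj : ∀ u v : ℂ, u.re < -s0 → v.re < -s0 → χ u = χ v →
    ∃ n : ℤ, v = u + n * (2 * Real.pi * Complex.I)

namespace EndMap

variable {A : Finset ℂ}

/-- the end at the puncture `a` -/
def punct (A : Finset ℂ) (a : ℂ) (s0 : ℝ) (h : ∀ b ∈ A, b ≠ a → Real.exp (-s0) ≤ ‖b - a‖) :
    EndMap A s0 where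
  χ := fun u => a + Complex.exp u
  diff := by fun_prop
  ne := by
    intro u
    have : deriv (fun u => a + Complex.exp u) u = Complex.exp u := by
      rw [deriv_const_add, Complex.deriv_exp]
    rw [this]
    exact Complex.exp_ne_zero u
  per := by
    intro u
    rw [Complex.exp_add, Complex.exp_two_pi_mul_I, mul_one]
  avoid := by
    intro u hu hmem
    have h1 : a + Complex.exp u ≠ a := by simp
    have h2 := h _ hmem h1
    rw [add_sub_cancel_left, Complex.norm_exp] at h2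
    exact absurd h2 (not_le.mpr (Real.exp_lt_exp.mpr hu))
  inj := by
    intro u v _ _ huv
    have h1 : Complex.exp v = Complex.exp u := (add_left_cancel huv).symm
    exact Complex.exp_eq_exp_iff_exists_int.mp h1

/-- the end at infinity -/
def infty (A : Finset ℂ) (s0 : ℝ) (h : ∀ b ∈ A, ‖b‖ ≤ Real.exp s0) :
    EndMap A s0 where
  χ := fun u => Complex.exp (-u)
  diff := by fun_prop
  ne := by
    intro u
    have h1 : HasDerivAt (fun u => Complex.exp (-u)) (Complex.exp (-u) * (-1)) u :=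
      (Complex.hasDerivAt_exp (-u)).comp u (hasDerivAt_neg u)
    rw [h1.deriv]
    simp [Complex.exp_ne_zero]
  per := by
    intro u
    rw [neg_add, Complex.exp_add, Complex.exp_neg (2 * Real.pi * Complex.I),
      Complex.exp_two_pi_mul_I, inv_one, mul_one]
  avoid := by
    intro u hu hmem
    have h2 := h _ hmem
    rw [Complex.norm_exp, Complex.neg_re] at h2
    exact absurd h2 (not_le.mpr (Real.exp_lt_exp.mpr (by linarith)))
  inj := by
    intro u v _ _ huv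
    obtain ⟨n, hn⟩ := Complex.exp_eq_exp_iff_exists_int.mp huv
    exact ⟨n, by linear_combination hn⟩

/-- restriction to a smaller half plane -/
def mono {s0 s1 : ℝ} (e : EndMap A s0) (h : s0 ≤ s1) : EndMap A s1 where
  χ := e.χ
  diff := e.diff
  ne := e.ne
  per := e.per
  avoid := fun u hu => e.avoid u (by linarith)
  inj := fun u v hu hv => e.inj u v (by linarith) (by linarith)

@[simp] lemma punct_χ (a : ℂ) (s0 : ℝ) (h : ∀ b ∈ A, b ≠ a → Real.exp (-s0) ≤ ‖b - a‖) (u : ℂ) :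
    (punct A a s0 h).χ u = a + Complex.exp u := rfl

@[simp] lemma infty_χ (s0 : ℝ) (h : ∀ b ∈ A, ‖b‖ ≤ Real.exp s0) (u : ℂ) :
    (infty A s0 h).χ u = Complex.exp (-u) := rfl

@[simp] lemma mono_χ {s0 s1 : ℝ} (e : EndMap A s0) (h : s0 ≤ s1) : (e.mono h).χ = e.χ := rfl

lemma exists_punct (A : Finset ℂ) (a : ℂ) :
    ∃ s0 : ℝ, ∀ b ∈ A, b ≠ a → Real.exp (-s0) ≤ ‖b - a‖ := by
  have h1 : ∀ᶠ s in atTop, ∀ b ∈ A, b ≠ a → Real.exp (-s) ≤ ‖b - a‖ := by
    have h2 : ∀ b ∈ A, ∀ᶠ s in atTop, b ≠ a → Real.exp (-s) ≤ ‖b - a‖ := by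
      intro b _
      by_cases hb : b = a
      · exact Eventually.of_forall fun s h => absurd hb h
      · have h3 : Tendsto (fun s : ℝ => Real.exp (-s)) atTop (𝓝 0) :=
          Real.tendsto_exp_neg_atTop_nhds_zero
        have h4 : 0 < ‖b - a‖ := norm_pos_iff.mpr (sub_ne_zero.mpr hb)
        filter_upwards [h3.eventually_lt_const h4] with s hs _
        exact hs.le
    exact (Filter.eventually_all_finset A).mpr h2
  exact h1.exists

lemma exists_infty (A : Finset ℂ) : ∃ s0 : ℝ, ∀ b ∈ A, ‖b‖ ≤ Real.exp s0 := by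
  have h1 : ∀ᶠ s in atTop, ∀ b ∈ A, ‖b‖ ≤ Real.exp s := by
    have h2 : ∀ b ∈ A, ∀ᶠ s in atTop, ‖b‖ ≤ Real.exp s := by
      intro b _
      filter_upwards [Real.tendsto_exp_atTop.eventually_ge_atTop ‖b‖] with s hs
      exact hs
    exact (Filter.eventually_all_finset A).mpr h2
  exact h1.exists

/-- the region covered by the end at a puncture -/
lemma punct_image (a : ℂ) (s0 s1 : ℝ) (h : ∀ b ∈ A, b ≠ a → Real.exp (-s0) ≤ ‖b - a‖) :
    (punct A a s0 h).χ '' {u | u.re < -s1} = {x | 0 < ‖x - a‖ ∧ ‖x - a‖ < Real.exp (-s1)} := by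
  ext x
  constructor
  · rintro ⟨u, hu, rfl⟩
    simp only [punct_χ, Set.mem_ofPred_eq, add_sub_cancel_left, Complex.norm_exp]
    exact ⟨Real.exp_pos _, Real.exp_lt_exp.mpr hu⟩
  · rintro ⟨h1, h2⟩
    have h3 : x - a ≠ 0 := norm_pos_iff.mp h1
    refine ⟨Complex.log (x - a), ?_, ?_⟩
    · simp only [Set.mem_ofPred_eq, Complex.log_re]
      rw [← Real.log_exp (-s1)]
      exact Real.log_lt_log h1 h2
    · simp only [punct_χ, Complex.exp_log h3]
      ring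

lemma infty_image (s0 s1 : ℝ) (h : ∀ b ∈ A, ‖b‖ ≤ Real.exp s0) :
    (infty A s0 h).χ '' {u | u.re < -s1} = {x | Real.exp s1 < ‖x‖} := by
  ext x
  constructor
  · rintro ⟨u, hu, rfl⟩
    have hu' : u.re < -s1 := hu
    simp only [infty_χ, Set.mem_ofPred_eq, Complex.norm_exp, Complex.neg_re]
    exact Real.exp_lt_exp.mpr (by linarith)
  · intro h1
    have h1' : Real.exp s1 < ‖x‖ := h1
    have h2 : 0 < ‖x‖ := (Real.exp_pos s1).trans h1'
    have h3 : x ≠ 0 := norm_pos_iff.mp h2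
    refine ⟨-Complex.log x, ?_, ?_⟩
    · simp only [Set.mem_ofPred_eq, Complex.neg_re, Complex.log_re, neg_lt_neg_iff]
      exact (Real.lt_log_iff_exp_lt h2).mpr h1'
    · simp only [infty_χ, neg_neg, Complex.exp_log h3]

variable {s0 : ℝ} (e : EndMap A s0)

lemma re_add (u : ℂ) : (u + 2 * Real.pi * Complex.I).re = u.re := by simp

lemma isOpen_half (s0 : ℝ) : IsOpen {u : ℂ | u.re < -s0} :=
  isOpen_lt Complex.continuous_re continuous_const

lemma convex_half (s0 : ℝ) : Convex ℝ {u : ℂ | u.re < -s0} := by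
  intro x hx y hy a b ha hb hab
  have hx' : x.re < -s0 := hx
  have hy' : y.re < -s0 := hy
  show (a • x + b • y).re < -s0
  simp only [Complex.add_re, Complex.real_smul, Complex.mul_re, Complex.ofReal_re,
    Complex.ofReal_im, zero_mul, sub_zero]
  rcases ha.eq_or_lt with h0 | h0
  · subst h0
    have : b = 1 := by linarith
    subst this
    simpa using hy'
  · calc a * x.re + b * y.re < a * (-s0) + b * y.re := by
          have := mul_lt_mul_of_pos_left hx' h0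
          linarith
      _ ≤ a * (-s0) + b * (-s0) := by
          have := mul_le_mul_of_nonneg_left hy'.le hb
          linarith
      _ = -s0 := by rw [← add_mul, hab, one_mul]

lemma contDiff (n : WithTop ℕ∞) : ContDiff ℝ n e.χ := by
  have h1 : ContDiff ℂ n e.χ := e.diff.contDiff
  exact h1.restrict_scalars ℝ

lemma tendsto (z : ℂ) : Tendsto e.χ (𝓝 z) (𝓝 (e.χ z)) := e.diff.continuous.tendsto z

/-- local inverse -/
lemma exists_inv (z : ℂ) : ∃ ψ : ℂ → ℂ, ψ (e.χ z) = z ∧ ContDiffAt ℝ ω ψ (e.χ z) ∧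
    (∀ᶠ x in 𝓝 (e.χ z), e.χ (ψ x) = x) ∧ (∀ᶠ u in 𝓝 z, ψ (e.χ u) = u) := by
  have h1 : ContDiffAt ℂ ω e.χ z := e.diff.contDiff.contDiffAt
  have h2 : HasStrictDerivAt e.χ (deriv e.χ z) z := h1.hasStrictDerivAt (by simp)
  have h3 : HasStrictFDerivAt e.χ
    ((ContinuousLinearEquiv.unitsEquivAut ℂ (Units.mk0 (deriv e.χ z) (e.ne z))) : ℂ →L[ℂ] ℂ) z := by
    refine h2.hasStrictFDerivAt.congr_fderiv ?_
    ext
    simp
  let φ := h1.toOpenPartialHomeomorph e.χ h3.hasFDerivAt (by simp)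
  have hz : z ∈ φ.source := h1.mem_toOpenPartialHomeomorph_source h3.hasFDerivAt (by simp)
  have hφ : ∀ u, φ u = e.χ u := fun u => rfl
  refine ⟨φ.symm, ?_, ?_, ?_, ?_⟩
  · rw [← hφ z]; exact φ.left_inv hz
  · have h4 : ContDiffAt ℂ ω φ.symm (e.χ z) := h1.to_localInverse h3.hasFDerivAt (by simp)
    exact h4.restrict_scalars ℝ
  · have h5 : e.χ z ∈ φ.target := by rw [← hφ z]; exact φ.map_source hz
    filter_upwards [φ.open_target.mem_nhds h5] with x hx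
    rw [← hφ]; exact φ.right_inv hx
  · filter_upwards [φ.open_source.mem_nhds hz] with u hu
    rw [← hφ]; exact φ.left_inv hu

end EndMap

/-! ### the normal form -/

/-- normal form of `V` near the end `e`: flat frame `g u` over the half plane -/
structure NF {A : Finset ℂ} {N w : ℕ} (V : PVHS A N w) {s0 : ℝ} (e : EndMap A s0) where
  g : ℂ → GL (Fin N) ℤ
  nf : EndNF N w s0
  loc : ∀ z : ℂ, z.re < -s0 → ∃ U ∈ 𝓝 z, ∀ u ∈ U, ∀ v ∈ U, V.P (e.χ u) (e.χ v) = g u * (g v)⁻¹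
  mono : ∀ u : ℂ, u.re < -s0 → g (u + 2 * Real.pi * Complex.I) = g u * nf.T⁻¹
  S_eq : ∀ u : ℂ, u.re < -s0 → nf.S = (cm (g u))ᴴ * V.S (e.χ u) * cm (g u)
  E_eq : ∀ u : ℂ, nf.E u = cm (g u)⁻¹ * V.E (e.χ u) * cm (g u)

section exists_nf

variable {A : Finset ℂ} {N w : ℕ} (V : PVHS A N w) {s0 : ℝ} (e : EndMap A s0)

/-- local form of the trivialised endomorphism -/
lemma conj_eq {P : ℂ → ℂ → GL (Fin N) ℤ} {g : ℂ → GL (Fin N) ℤ} {χ : ℂ → ℂ} {z u : ℂ}
    (h : P (χ z) (χ u) = g z * (g u)⁻¹) (B : ℂ → Matrix (Fin N) (Fin N) ℂ) :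
    cm (g u)⁻¹ * B (χ u) * cm (g u) = cm (g z)⁻¹ * lM P B (χ z) (χ u) * cm (g z) := by
  unfold lM
  rw [h, _root_.mul_inv_rev, inv_inv, cm_mul, cm_mul]
  calc cm (g u)⁻¹ * B (χ u) * cm (g u)
      = 1 * cm (g u)⁻¹ * B (χ u) * cm (g u) * 1 := by simp
    _ = (cm (g z)⁻¹ * cm (g z)) * cm (g u)⁻¹ * B (χ u) * cm (g u) * (cm (g z)⁻¹ * cm (g z)) := by
        rw [cm_inv_mul_cm]
    _ = _ := by noncomm_ring

theorem exists_nf : Nonempty (NF V e) := by
  have hS := EndMap.convex_half s0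
  have hSo := EndMap.isOpen_half s0
  -- trivialisation on the half plane
  obtain ⟨g, hg⟩ := Top1_358.trivial_on_convex hS (c := fun u v => V.P (e.χ u) (e.χ v)) (by
    intro z hz
    obtain ⟨U, hU, h⟩ := V.ndc (e.χ z) (by simpa using e.avoid z hz)
    exact ⟨e.χ ⁻¹' U, e.tendsto z hU, fun x hx y hy w hw _ _ _ => h _ hx _ hy _ hw⟩)
  have hloc : ∀ z : ℂ, z.re < -s0 → ∃ U ∈ 𝓝 z, ∀ u ∈ U, ∀ v ∈ U,
      V.P (e.χ u) (e.χ v) = g u * (g v)⁻¹ := by
    intro z hz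
    obtain ⟨U, hU, h⟩ := hg z hz
    exact ⟨U ∩ {u | u.re < -s0}, Filter.inter_mem hU (hSo.mem_nhds hz),
      fun u hu v hv => h u hu.1 v hv.1 hu.2 hv.2⟩
  -- monodromy
  have hz0 : (((-s0 - 1 : ℝ) : ℂ)).re < -s0 := by simp
  set z0 : ℂ := ((-s0 - 1 : ℝ) : ℂ) with hz0def
  set τ : ℂ := 2 * Real.pi * Complex.I with hτ
  have hτre : ∀ u : ℂ, (u + τ).re = u.re := fun u => EndMap.re_add u
  have hmono : ∀ u : ℂ, u.re < -s0 → (g u)⁻¹ * g (u + τ) = (g z0)⁻¹ * g (z0 + τ) := by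
    intro u hu
    refine Top1_358.prop_of_isPreconnected (X := ℂ) hS.isPreconnected
      (P := fun v => (g v)⁻¹ * g (v + τ) = (g z0)⁻¹ * g (z0 + τ)) ?_ hz0 rfl hu
    intro v hv
    obtain ⟨U, hU, h⟩ := hloc v hv
    obtain ⟨U', hU', h'⟩ := hloc (v + τ) (by rw [hτre]; exact hv)
    have ht : Tendsto (fun y : ℂ => y + τ) (𝓝 v) (𝓝 (v + τ)) :=
      (continuous_id.add continuous_const).tendsto v
    refine ⟨U ∩ {y | y + τ ∈ U'}, mem_nhdsWithin_of_mem_nhds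
      (Filter.inter_mem hU (ht.eventually_mem hU')), ?_⟩
    rintro y ⟨hy1, hy2⟩
    have h1 := h v (mem_of_mem_nhds hU) y hy1
    have h2 := h' (v + τ) (mem_of_mem_nhds hU') (y + τ) hy2
    rw [e.per, e.per, h1] at h2
    have h3 : (g v)⁻¹ * g (v + τ) = (g y)⁻¹ * g (y + τ) := by
      have h4 : g v = g (v + τ) * (g (y + τ))⁻¹ * g y := by rw [← h2]; group
      rw [h4]; group
    show (_ = _) ↔ (_ = _)
    rw [h3]
  set T : GL (Fin N) ℤ := ((g z0)⁻¹ * g (z0 + τ))⁻¹ with hT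
  have hmono' : ∀ u : ℂ, u.re < -s0 → g (u + τ) = g u * T⁻¹ := by
    intro u hu
    rw [hT, inv_inv, ← hmono u hu]; group
  -- the form
  have hSc : ∀ u : ℂ, u.re < -s0 → (cm (g z0))ᴴ * V.S (e.χ z0) * cm (g z0) =
      (cm (g u))ᴴ * V.S (e.χ u) * cm (g u) := by
    intro u hu
    refine Top1_358.prop_of_isPreconnected (X := ℂ) hS.isPreconnected
      (P := fun v => (cm (g z0))ᴴ * V.S (e.χ z0) * cm (g z0) =
        (cm (g v))ᴴ * V.S (e.χ v) * cm (g v)) ?_ hz0 rfl hu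
    intro v hv
    obtain ⟨U, hU, h⟩ := hloc v hv
    refine ⟨U ∩ {y | V.S (e.χ y) = (cm (V.P (e.χ v) (e.χ y)))ᴴ * V.S (e.χ v) *
      cm (V.P (e.χ v) (e.χ y))}, mem_nhdsWithin_of_mem_nhds
      (Filter.inter_mem hU ((e.tendsto v).eventually (V.flatS _ (e.avoid v hv)))), ?_⟩
    rintro y ⟨hy1, hy2⟩
    have hy2' : V.S (e.χ y) = (cm (V.P (e.χ v) (e.χ y)))ᴴ * V.S (e.χ v) *
      cm (V.P (e.χ v) (e.χ y)) := hy2
    have h1 := h v (mem_of_mem_nhds hU) y hy1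
    have h3 : (cm (g y))ᴴ * V.S (e.χ y) * cm (g y) = (cm (g v))ᴴ * V.S (e.χ v) * cm (g v) := by
      rw [hy2', h1, cm_mul, Matrix.conjTranspose_mul]
      have h4 : (cm (g y))ᴴ * (cm (g y)⁻¹)ᴴ = 1 := by
        rw [← Matrix.conjTranspose_mul, cm_inv_mul_cm, Matrix.conjTranspose_one]
      calc (cm (g y))ᴴ * ((cm (g y)⁻¹)ᴴ * (cm (g v))ᴴ * V.S (e.χ v) * (cm (g v) * cm (g y)⁻¹)) *
            cm (g y) = ((cm (g y))ᴴ * (cm (g y)⁻¹)ᴴ) * (cm (g v))ᴴ * V.S (e.χ v) * cm (g v) *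
            (cm (g y)⁻¹ * cm (g y)) := by noncomm_ring
        _ = _ := by rw [h4, cm_inv_mul_cm]; simp
    show (_ = _) ↔ (_ = _)
    rw [h3]
  have hEev : ∀ z : ℂ, z.re < -s0 →
      (fun u => cm (g u)⁻¹ * V.E (e.χ u) * cm (g u)) =ᶠ[𝓝 z]
        fun u => cm (g z)⁻¹ * lM V.P V.E (e.χ z) (e.χ u) * cm (g z) := by
    intro z hz
    obtain ⟨U, hU, h⟩ := hloc z hz
    filter_upwards [hU] with u hu
    exact conj_eq (h z (mem_of_mem_nhds hU) u hu) V.E
  have hlMsm : ∀ z : ℂ, z.re < -s0 → ∀ i k,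
      ContDiffAt ℝ (⊤ : ℕ∞) (fun u => lM V.P V.E (e.χ z) (e.χ u) i k) z := by
    intro z hz i k
    have h1 := V.smE (e.χ z) (e.avoid z hz) i k
    exact h1.comp z ((e.contDiff _).contDiffAt)
  refine ⟨⟨g, ⟨T, (cm (g z0))ᴴ * V.S (e.χ z0) * cm (g z0),
      fun u => cm (g u)⁻¹ * V.E (e.χ u) * cm (g u), ?_, ?_, ?_, ?_, ?_⟩, hloc, hmono', hSc,
      fun u => rfl⟩⟩
  · intro u hu
    rw [hSc u hu]
    have h1 := (V.hs (e.χ u) (e.avoid u hu)).conj (g := cm (g u)⁻¹) (g' := cm (g u))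
      (cm_inv_mul_cm _) (cm_mul_cm_inv _)
    exact h1
  · intro u hu i k
    have h1 : (fun y => (cm (g y)⁻¹ * V.E (e.χ y) * cm (g y)) i k) =ᶠ[𝓝 u]
        fun y => ∑ l, (∑ j, cm (g u)⁻¹ i j * lM V.P V.E (e.χ u) (e.χ y) j l) * cm (g u) l k := by
      filter_upwards [hEev u hu] with y hy
      rw [hy, mul_mul_entry]
    refine ContDiffAt.congr_of_eventuallyEq ?_ h1
    refine ContDiffAt.sum fun l _ => (ContDiffAt.sum fun j _ => ?_).mul contDiffAt_const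
    exact contDiffAt_const.mul (hlMsm u hu j l)
  · intro u hu
    have h1 : wE (fun y => cm (g y)⁻¹ * V.E (e.χ y) * cm (g y)) u =
        cm (g u)⁻¹ * (deriv e.χ u • wM V.P V.E (e.χ u)) * cm (g u) := by
      have h2 : wE (fun y => cm (g y)⁻¹ * V.E (e.χ y) * cm (g y)) u =
          wE (fun y => cm (g u)⁻¹ * lM V.P V.E (e.χ u) (e.χ y) * cm (g u)) u := by
        ext i j
        simp only [wE, Matrix.of_apply]
        refine wz_congr ?_
        filter_upwards [hEev u hu] with y hy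
        rw [hy]
      rw [h2, wz_mulVec_entry _ _ fun i j => (hlMsm u hu i j).differentiableAt (by simp)]
      congr 2
      ext i j
      simp only [wE, wM, Matrix.of_apply, Matrix.smul_apply]
      exact wz_comp_hol (e.diff u)
        ((V.smE (e.χ u) (e.avoid u hu) i j).differentiableAt (by simp))
    rw [h1]
    have h3 := V.tr (e.χ u) (e.avoid u hu)
    have h4 : cm (g u) * cm (g u)⁻¹ = 1 := cm_mul_cm_inv _
    calc cm (g u)⁻¹ * V.E (e.χ u) * cm (g u) *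
          (cm (g u)⁻¹ * (deriv e.χ u • wM V.P V.E (e.χ u)) * cm (g u)) -
          cm (g u)⁻¹ * (deriv e.χ u • wM V.P V.E (e.χ u)) * cm (g u) *
          (cm (g u)⁻¹ * V.E (e.χ u) * cm (g u))
        = cm (g u)⁻¹ * (V.E (e.χ u) * (cm (g u) * cm (g u)⁻¹) *
            (deriv e.χ u • wM V.P V.E (e.χ u)) - (deriv e.χ u • wM V.P V.E (e.χ u)) *
            (cm (g u) * cm (g u)⁻¹) * V.E (e.χ u)) * cm (g u) := by noncomm_ring
      _ = cm (g u)⁻¹ * (deriv e.χ u • (V.E (e.χ u) * wM V.P V.E (e.χ u) -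
            wM V.P V.E (e.χ u) * V.E (e.χ u))) * cm (g u) := by
          rw [h4]; simp only [mul_one, smul_sub, mul_smul_comm, smul_mul_assoc]
      _ = _ := by rw [h3]; simp only [smul_neg, mul_neg, neg_mul]
  · intro u hu
    rw [hmono' u hu, e.per, _root_.mul_inv_rev, inv_inv, cm_mul, cm_mul]
    noncomm_ring
  · have h1 := hSc (z0 + τ) (by rw [hτre]; exact hz0)
    rw [e.per, hmono' z0 hz0, cm_mul, Matrix.conjTranspose_mul] at h1
    have h2 : (cm T)ᴴ * (cm T⁻¹)ᴴ = 1 := by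
      rw [← Matrix.conjTranspose_mul, cm_inv_mul_cm, Matrix.conjTranspose_one]
    have h3 : (cm T)ᴴ * ((cm T⁻¹)ᴴ * (cm (g z0))ᴴ * V.S (e.χ z0) * (cm (g z0) * cm T⁻¹)) * cm T =
        (cm (g z0))ᴴ * V.S (e.χ z0) * cm (g z0) := by
      calc (cm T)ᴴ * ((cm T⁻¹)ᴴ * (cm (g z0))ᴴ * V.S (e.χ z0) * (cm (g z0) * cm T⁻¹)) * cm T
          = ((cm T)ᴴ * (cm T⁻¹)ᴴ) * (cm (g z0))ᴴ * V.S (e.χ z0) * cm (g z0) *
            (cm T⁻¹ * cm T) := by noncomm_ring
        _ = _ := by rw [h2, cm_inv_mul_cm]; simp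
    rw [h1]
    rw [h3, h1]

end exists_nf

/-! ### dictionary -/

namespace NF

variable {A : Finset ℂ} {N w : ℕ} {V : PVHS A N w} {s0 : ℝ} {e : EndMap A s0} (n : NF V e)

/-- pull back of a section to the half plane -/
def pull (φ : ℂ → Fin N → ℂ) (u : ℂ) : Fin N → ℂ := cm (n.g u)⁻¹ *ᵥ φ (e.χ u)

lemma pull_add (φ ψ : ℂ → Fin N → ℂ) (u : ℂ) :
    n.pull (φ + ψ) u = n.pull φ u + n.pull ψ u := by
  unfold pull
  rw [Pi.add_apply, Matrix.mulVec_add]

lemma pull_smul (c : ℂ) (φ : ℂ → Fin N → ℂ) (u : ℂ) :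
    n.pull (c • φ) u = c • n.pull φ u := by
  unfold pull
  rw [Pi.smul_apply, Matrix.mulVec_smul]

lemma cm_pull (φ : ℂ → Fin N → ℂ) (u : ℂ) : cm (n.g u) *ᵥ n.pull φ u = φ (e.χ u) := by
  unfold pull
  rw [cm_mulVec_inv]

lemma pull_per (φ : ℂ → Fin N → ℂ) {u : ℂ} (hu : u.re < -s0) :
    n.pull φ (u + 2 * Real.pi * Complex.I) = cm n.nf.T *ᵥ n.pull φ u := by
  unfold pull
  rw [n.mono u hu, e.per, _root_.mul_inv_rev, inv_inv, cm_mul, Matrix.mulVec_mulVec]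

lemma lV_eq (φ : ℂ → Fin N → ℂ) {z : ℂ} (hz : z.re < -s0) :
    ∀ᶠ u in 𝓝 z, lV V.P φ (e.χ z) (e.χ u) = cm (n.g z) *ᵥ n.pull φ u := by
  obtain ⟨U, hU, h⟩ := n.loc z hz
  filter_upwards [hU] with u hu
  unfold lV pull
  rw [h z (mem_of_mem_nhds hU) u hu, cm_mul, Matrix.mulVec_mulVec]

lemma pull_eq (φ : ℂ → Fin N → ℂ) {z : ℂ} (hz : z.re < -s0) :
    ∀ᶠ u in 𝓝 z, n.pull φ u = cm (n.g z)⁻¹ *ᵥ lV V.P φ (e.χ z) (e.χ u) := by
  filter_upwards [n.lV_eq φ hz] with u hu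
  rw [hu, cm_inv_mulVec]

/-- smoothness of a section and of its pull back -/
lemma contDiffAt_pull_iff (φ : ℂ → Fin N → ℂ) {z : ℂ} (hz : z.re < -s0) {k : WithTop ℕ∞} :
    ContDiffAt ℝ k (n.pull φ) z ↔ ContDiffAt ℝ k (lV V.P φ (e.χ z)) (e.χ z) := by
  constructor
  · intro h
    obtain ⟨ψ, hψz, hψ, h1, _⟩ := e.exists_inv z
    have h2 : ContDiffAt ℝ k (fun x => cm (n.g z) *ᵥ n.pull φ (ψ x)) (e.χ z) := by
      have h3 : ContDiffAt ℝ k (n.pull φ) (ψ (e.χ z)) := by rw [hψz]; exact h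
      exact (contDiff_mulVec _ k).contDiffAt.comp _ (h3.comp _ (hψ.of_le le_top))
    refine h2.congr_of_eventuallyEq ?_
    have h4 : Tendsto ψ (𝓝 (e.χ z)) (𝓝 z) := by
      have := hψ.continuousAt
      rwa [ContinuousAt, hψz] at this
    filter_upwards [h1, h4.eventually (n.lV_eq φ hz)] with x hx1 hx2
    rw [hx1] at hx2
    exact hx2
  · intro h
    have h2 : ContDiffAt ℝ k (fun u => cm (n.g z)⁻¹ *ᵥ lV V.P φ (e.χ z) (e.χ u)) z :=
      (contDiff_mulVec _ k).contDiffAt.comp _ (h.comp z (e.contDiff k).contDiffAt)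
    exact h2.congr_of_eventuallyEq (n.pull_eq φ hz)

lemma differentiableAt_pull {φ : ℂ → Fin N → ℂ} {z : ℂ} (hz : z.re < -s0)
    (h : DifferentiableAt ℝ (lV V.P φ (e.χ z)) (e.χ z)) : DifferentiableAt ℝ (n.pull φ) z := by
  have h2 : DifferentiableAt ℝ (fun u => cm (n.g z)⁻¹ *ᵥ lV V.P φ (e.χ z) (e.χ u)) z :=
    ((contDiff_mulVec _ 1).differentiable (by simp)).differentiableAt.comp z
      (h.comp z ((e.contDiff 1).differentiable (by simp)).differentiableAt)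
  exact h2.congr_of_eventuallyEq (n.pull_eq φ hz)

lemma wz_pull {φ : ℂ → Fin N → ℂ} {z : ℂ} (hz : z.re < -s0)
    (h : DifferentiableAt ℝ (lV V.P φ (e.χ z)) (e.χ z)) :
    wz (n.pull φ) z = deriv e.χ z • n.pull (V.d1 φ) z := by
  have h1 : DifferentiableAt ℝ (fun u => lV V.P φ (e.χ z) (e.χ u)) z :=
    h.comp z ((e.contDiff 1).differentiable (by simp)).differentiableAt
  rw [wz_congr (n.pull_eq φ hz), wz_mulVec _ h1, wz_comp_hol (e.diff z) h, Matrix.mulVec_smul]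
  rfl

lemma wb_pull {φ : ℂ → Fin N → ℂ} {z : ℂ} (hz : z.re < -s0)
    (h : DifferentiableAt ℝ (lV V.P φ (e.χ z)) (e.χ z)) :
    wb (n.pull φ) z = (conj (deriv e.χ z)) • n.pull (V.d2 φ) z := by
  have h1 : DifferentiableAt ℝ (fun u => lV V.P φ (e.χ z) (e.χ u)) z :=
    h.comp z ((e.contDiff 1).differentiable (by simp)).differentiableAt
  rw [wb_congr (n.pull_eq φ hz), wb_mulVec _ h1, wb_comp_hol (e.diff z) h, Matrix.mulVec_smul]
  rfl

/-- the Hodge form of a section and of its pull back -/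
lemma hodge_pull (φ ψ : ℂ → Fin N → ℂ) {u : ℂ} (hu : u.re < -s0) :
    star (n.pull φ u) ⬝ᵥ hodge w n.nf.S (n.nf.E u) *ᵥ n.pull ψ u =
      star (φ (e.χ u)) ⬝ᵥ V.H (e.χ u) *ᵥ ψ (e.χ u) := by
  rw [n.S_eq u hu, n.E_eq u, hodge_conj (cm_inv_mul_cm _) (cm_mul_cm_inv _)]
  unfold pull PVHS.H
  rw [← Matrix.mulVec_mulVec, ← Matrix.mulVec_mulVec, cm_mulVec_inv, Matrix.dotProduct_mulVec,
    ← Matrix.star_mulVec, cm_mulVec_inv]

lemma nsq_pull (φ : ℂ → Fin N → ℂ) {u : ℂ} (hu : u.re < -s0) :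
    V.nsq φ (e.χ u) = (star (n.pull φ u) ⬝ᵥ hodge w n.nf.S (n.nf.E u) *ᵥ n.pull φ u).re := by
  rw [n.hodge_pull φ φ hu]; rfl

/-- the flat form -/
lemma S_pull (φ ψ : ℂ → Fin N → ℂ) {u : ℂ} (hu : u.re < -s0) :
    star (n.pull φ u) ⬝ᵥ n.nf.S *ᵥ n.pull ψ u =
      star (φ (e.χ u)) ⬝ᵥ V.S (e.χ u) *ᵥ ψ (e.χ u) := by
  rw [n.S_eq u hu]
  unfold pull
  rw [← Matrix.mulVec_mulVec, ← Matrix.mulVec_mulVec, cm_mulVec_inv, Matrix.dotProduct_mulVec,
    ← Matrix.star_mulVec, cm_mulVec_inv]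

lemma E_pull (φ : ℂ → Fin N → ℂ) (u : ℂ) :
    n.nf.E u *ᵥ n.pull φ u = n.pull (fun x => V.E x *ᵥ φ x) u := by
  rw [n.E_eq u]
  unfold pull
  rw [← Matrix.mulVec_mulVec, ← Matrix.mulVec_mulVec, cm_mulVec_inv]

/-- integer translations -/
lemma g_int (k : ℤ) {u : ℂ} (hu : u.re < -s0) :
    n.g (u + k * (2 * Real.pi * Complex.I)) = n.g u * (n.nf.T⁻¹) ^ k := by
  have hre : ∀ k : ℤ, (u + k * (2 * Real.pi * Complex.I)).re = u.re := by intro k; simp
  induction k using Int.induction_on with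
  | zero => simp
  | succ i ih =>
    have h1 := n.mono (u + (i : ℤ) * (2 * Real.pi * Complex.I)) (by rw [hre]; exact hu)
    have h2 : u + ((i + 1 : ℤ) : ℂ) * (2 * Real.pi * Complex.I) =
      u + ((i : ℤ) : ℂ) * (2 * Real.pi * Complex.I) + 2 * Real.pi * Complex.I := by
      push_cast; ring
    rw [h2, h1, ih, mul_assoc, ← _root_.zpow_add_one]
  | pred i ih =>
    have h1 := n.mono (u + ((-(i : ℤ) - 1 : ℤ) : ℂ) * (2 * Real.pi * Complex.I))
      (by rw [hre]; exact hu)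
    have h2 : u + ((-(i : ℤ) - 1 : ℤ) : ℂ) * (2 * Real.pi * Complex.I) + 2 * Real.pi * Complex.I =
      u + ((-(i : ℤ) : ℤ) : ℂ) * (2 * Real.pi * Complex.I) := by
      push_cast; ring
    rw [h2, ih] at h1
    rw [← mul_inv_eq_iff_eq_mul.mpr h1, inv_inv, mul_assoc]
    congr 1
    rw [_root_.zpow_sub_one, inv_inv]

lemma iter_per {ψ : ℂ → Fin N → ℂ}
    (h : ∀ u : ℂ, u.re < -s0 → ψ (u + 2 * Real.pi * Complex.I) = cm n.nf.T *ᵥ ψ u) (k : ℤ) {u : ℂ}
    (hu : u.re < -s0) :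
    ψ (u + k * (2 * Real.pi * Complex.I)) = cm (n.nf.T ^ k) *ᵥ ψ u := by
  have hre : ∀ k : ℤ, (u + k * (2 * Real.pi * Complex.I)).re = u.re := by intro k; simp
  induction k using Int.induction_on with
  | zero => simp
  | succ i ih =>
    have h1 := h (u + (i : ℤ) * (2 * Real.pi * Complex.I)) (by rw [hre]; exact hu)
    have h2 : u + ((i + 1 : ℤ) : ℂ) * (2 * Real.pi * Complex.I) =
      u + ((i : ℤ) : ℂ) * (2 * Real.pi * Complex.I) + 2 * Real.pi * Complex.I := by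
      push_cast; ring
    rw [h2, h1, ih, Matrix.mulVec_mulVec, ← cm_mul, ← _root_.zpow_one_add, add_comm]
  | pred i ih =>
    have h1 := h (u + ((-(i : ℤ) - 1 : ℤ) : ℂ) * (2 * Real.pi * Complex.I))
      (by rw [hre]; exact hu)
    have h2 : u + ((-(i : ℤ) - 1 : ℤ) : ℂ) * (2 * Real.pi * Complex.I) + 2 * Real.pi * Complex.I =
      u + ((-(i : ℤ) : ℤ) : ℂ) * (2 * Real.pi * Complex.I) := by
      push_cast; ring
    rw [h2, ih] at h1
    apply cm_mulVec_injective n.nf.T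
    show cm n.nf.T *ᵥ _ = cm n.nf.T *ᵥ _
    rw [← h1, Matrix.mulVec_mulVec, ← cm_mul, ← _root_.zpow_one_add]
    congr 3
    ring

open Classical in
/-- the section with pull back `ψ` (value `0` outside the end) -/
def push (ψ : ℂ → Fin N → ℂ) (x : ℂ) : Fin N → ℂ :=
  if h : ∃ u : ℂ, u.re < -s0 ∧ e.χ u = x then cm (n.g h.choose) *ᵥ ψ h.choose else 0

lemma push_apply {ψ : ℂ → Fin N → ℂ}
    (h : ∀ u : ℂ, u.re < -s0 → ψ (u + 2 * Real.pi * Complex.I) = cm n.nf.T *ᵥ ψ u) {u : ℂ}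
    (hu : u.re < -s0) : n.push ψ (e.χ u) = cm (n.g u) *ᵥ ψ u := by
  unfold push
  have hex : ∃ v : ℂ, v.re < -s0 ∧ e.χ v = e.χ u := ⟨u, hu, rfl⟩
  rw [dif_pos hex]
  obtain ⟨hv, hv2⟩ := hex.choose_spec
  obtain ⟨k, hk⟩ := e.inj u hex.choose hu hv hv2.symm
  rw [hk, n.g_int k hu, n.iter_per h k hu, Matrix.mulVec_mulVec, ← cm_mul, mul_assoc,
    _root_.inv_zpow, inv_mul_cancel, mul_one]

/-- descent: `pull (push ψ) = ψ` -/
lemma pull_push {ψ : ℂ → Fin N → ℂ}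
    (h : ∀ u : ℂ, u.re < -s0 → ψ (u + 2 * Real.pi * Complex.I) = cm n.nf.T *ᵥ ψ u) {u : ℂ}
    (hu : u.re < -s0) : n.pull (n.push ψ) u = ψ u := by
  unfold pull
  rw [n.push_apply h hu, cm_inv_mulVec]

end NF

end Crest.Agent.R276.Ipc735
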