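import Mathlib
import Crest.Agent.R276.Nf_735

/-!
# Row 276, IPC-NF (helper735): change of variables on the ends, dictionary for one-forms
-/

set_option autoImplicit false
set_option linter.unusedSectionVars false

noncomputable section

open Set Filter Topology MeasureTheory Matrix
open scoped ContDiff ComplexConjugate ENNReal

namespace Crest.Agent.R276.Ipc735

lemma det_fderiv_hol {χ : ℂ → ℂ} (u : ℂ) :
    ((fderiv ℂ χ u).restrictScalars ℝ).det = ‖deriv χ u‖ ^ 2 := by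
  have h1 : fderiv ℂ χ u = (deriv χ u) • (ContinuousLinearMap.id ℂ ℂ) := by
    ext
    simp
  have h2 : ((fderiv ℂ χ u).restrictScalars ℝ).det =
      LinearMap.det (((deriv χ u) • (LinearMap.id : ℂ →ₗ[ℂ] ℂ)).restrictScalars ℝ) := by
    rw [h1]; rfl
  rw [h2, LinearMap.det_restrictScalars]
  simp [Algebra.norm_complex_eq, Complex.normSq_eq_norm_sq]

namespace EndMap

variable {A : Finset ℂ} {s0 : ℝ} (e : EndMap A s0)

/-- a fundamental strip -/
def strip (s1 : ℝ) : Set ℂ := {u : ℂ | u.re < -s1 ∧ 0 < u.im ∧ u.im ≤ 2 * Real.pi}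

lemma measurableSet_strip (s1 : ℝ) : MeasurableSet (strip s1) := by
  refine (measurableSet_lt Complex.measurable_re measurable_const).inter
    ((measurableSet_lt measurable_const Complex.measurable_im).inter
      (measurableSet_le Complex.measurable_im measurable_const))

lemma χ_int (k : ℤ) (u : ℂ) : e.χ (u + k * (2 * Real.pi * Complex.I)) = e.χ u := by
  induction k using Int.induction_on with
  | zero => simp
  | succ i ih =>
    have h2 : u + ((i + 1 : ℤ) : ℂ) * (2 * Real.pi * Complex.I) =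
      u + ((i : ℤ) : ℂ) * (2 * Real.pi * Complex.I) + 2 * Real.pi * Complex.I := by
      push_cast; ring
    rw [h2, e.per, ih]
  | pred i ih =>
    have h1 := e.per (u + ((-(i : ℤ) - 1 : ℤ) : ℂ) * (2 * Real.pi * Complex.I))
    have h2 : u + ((-(i : ℤ) - 1 : ℤ) : ℂ) * (2 * Real.pi * Complex.I) + 2 * Real.pi * Complex.I =
      u + ((-(i : ℤ) : ℤ) : ℂ) * (2 * Real.pi * Complex.I) := by
      push_cast; ring
    rw [h2, ih] at h1
    exact h1.symm

lemma image_strip (s1 : ℝ) : e.χ '' strip s1 = e.χ '' {u | u.re < -s1} := by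
  apply Subset.antisymm
  · exact image_mono fun u hu => hu.1
  · rintro _ ⟨u, hu, rfl⟩
    obtain ⟨k, hk, _⟩ := existsUnique_add_zsmul_mem_Ioc Real.two_pi_pos u.im 0
    refine ⟨u + k * (2 * Real.pi * Complex.I), ⟨?_, ?_, ?_⟩, e.χ_int k u⟩
    · have : (u + k * (2 * Real.pi * Complex.I)).re = u.re := by simp
      rw [this]; exact hu
    · have : (u + k * (2 * Real.pi * Complex.I)).im = u.im + k • (2 * Real.pi) := by simp
      rw [this]; exact hk.1
    · have : (u + k * (2 * Real.pi * Complex.I)).im = u.im + k • (2 * Real.pi) := by simp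
      rw [this]; simpa using hk.2

lemma injOn_strip {s1 : ℝ} (h : s0 ≤ s1) : InjOn e.χ (strip s1) := by
  rintro u ⟨hu1, hu2, hu3⟩ v ⟨hv1, hv2, hv3⟩ huv
  obtain ⟨k, hk⟩ := e.inj u v (by linarith) (by linarith) huv
  have h1 : v.im = u.im + k * (2 * Real.pi) := by rw [hk]; simp
  have h2 : k = 0 := by
    have hpi := Real.pi_pos
    have h3 : (k : ℝ) < 1 := by
      by_contra hcon
      have h4 : (1 : ℝ) * (2 * Real.pi) ≤ k * (2 * Real.pi) :=
        mul_le_mul_of_nonneg_right (not_lt.mp hcon) (by positivity)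
      linarith
    have h5 : (-1 : ℝ) < k := by
      by_contra hcon
      have h4 : (k : ℝ) * (2 * Real.pi) ≤ (-1) * (2 * Real.pi) :=
        mul_le_mul_of_nonneg_right (not_lt.mp hcon) (by positivity)
      linarith
    have h6 : k < 1 := by exact_mod_cast h3
    have h7 : -1 < k := by exact_mod_cast h5
    omega
  rw [hk, h2]; simp

/-- change of variables on an end -/
theorem lintegral_strip {s1 : ℝ} (h : s0 ≤ s1) (F : ℂ → ℝ≥0∞) :
    ∫⁻ x in e.χ '' {u | u.re < -s1}, F x =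
      ∫⁻ u in strip s1, ENNReal.ofReal (‖deriv e.χ u‖ ^ 2) * F (e.χ u) := by
  rw [← e.image_strip s1]
  have h1 := lintegral_image_eq_lintegral_abs_det_fderiv_mul volume (measurableSet_strip s1)
    (f := e.χ) (f' := fun u => (fderiv ℂ e.χ u).restrictScalars ℝ)
    (fun u _ => ((e.diff u).hasFDerivAt.restrictScalars ℝ).hasFDerivWithinAt)
    (e.injOn_strip h) F
  rw [h1]
  refine lintegral_congr fun u => ?_
  rw [det_fderiv_hol, abs_of_nonneg (by positivity)]

lemma isOpen_image (s1 : ℝ) : IsOpen (e.χ '' {u | u.re < -s1}) := by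
  rw [isOpen_iff_mem_nhds]
  rintro _ ⟨z, hz, rfl⟩
  obtain ⟨ψ, hψz, hψ, h1, _⟩ := e.exists_inv z
  have h4 : Tendsto ψ (𝓝 (e.χ z)) (𝓝 z) := by
    have := hψ.continuousAt
    rwa [ContinuousAt, hψz] at this
  filter_upwards [h1, h4.eventually ((isOpen_half s1).mem_nhds hz)] with x hx1 hx2
  exact ⟨ψ x, hx2, hx1⟩

/-- almost everywhere on the end, almost everywhere on the strip -/
theorem ae_strip {s1 : ℝ} (h : s0 ≤ s1) {p : ℂ → Prop}
    (hp : ∀ᵐ x ∂(volume.restrict (e.χ '' {u | u.re < -s1})), p x) :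
    ∀ᵐ u ∂(volume.restrict (strip s1)), p (e.χ u) := by
  set B := e.χ '' {u | u.re < -s1} with hB
  have h1 : (volume.restrict B) {x | ¬ p x} = 0 := hp
  set M := toMeasurable (volume.restrict B) {x | ¬ p x} with hM
  have hM0 : (volume.restrict B) M = 0 := by rw [hM, measure_toMeasurable, h1]
  have hMm : MeasurableSet M := measurableSet_toMeasurable _ _
  have h2 : ∫⁻ x in B, M.indicator 1 x = 0 := by
    rw [lintegral_indicator_one hMm]; exact hM0
  rw [hB, e.lintegral_strip h] at h2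
  have hmeas : Measurable fun u => ENNReal.ofReal (‖deriv e.χ u‖ ^ 2) * M.indicator 1 (e.χ u) := by
    have hd : Continuous (deriv e.χ) := by
      have h3 : ContDiff ℂ 1 e.χ := e.diff.contDiff
      exact h3.continuous_deriv le_rfl
    refine Measurable.mul ?_ ?_
    · exact (ENNReal.continuous_ofReal.comp ((continuous_norm.comp hd).pow 2)).measurable
    · exact (measurable_one.indicator hMm).comp e.diff.continuous.measurable
  have h3 := (lintegral_eq_zero_iff hmeas).mp h2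
  filter_upwards [h3] with u hu
  by_contra hcon
  have h4 : e.χ u ∈ M := subset_toMeasurable _ _ hcon
  have h5 : ENNReal.ofReal (‖deriv e.χ u‖ ^ 2) * M.indicator 1 (e.χ u) = 0 := hu
  rw [Set.indicator_of_mem h4, Pi.one_apply, mul_one, ENNReal.ofReal_eq_zero] at h5
  have h6 : 0 < ‖deriv e.χ u‖ := norm_pos_iff.mpr (e.ne u)
  have h7 : 0 < ‖deriv e.χ u‖ ^ 2 := by positivity
  linarith

/-- the strip integral as an iterated integral (measurable integrand) -/
theorem lintegral_strip_prod (s1 : ℝ) {G : ℂ → ℝ≥0∞}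
    (hG : AEMeasurable G (volume.restrict (strip s1))) :
    ∫⁻ u in strip s1, G u = ∫⁻ s in Ioi s1, ∫⁻ t in Ioc 0 (2 * Real.pi),
      G (-(s : ℂ) + t * Complex.I) := by
  -- the volume preserving map
  let T : ℝ × ℝ → ℂ := fun q => Complex.measurableEquivRealProd.symm (-q.1, q.2)
  have hT : MeasurePreserving T ((volume : Measure ℝ).prod volume) volume := by
    have h1 : MeasurePreserving (fun q : ℝ × ℝ => ((-q.1, q.2) : ℝ × ℝ))
        ((volume : Measure ℝ).prod volume) ((volume : Measure ℝ).prod volume) :=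
      (Measure.measurePreserving_neg volume).prod (MeasurePreserving.id volume)
    exact Complex.volume_preserving_equiv_real_prod.symm.comp h1
  have hTe : ∀ q : ℝ × ℝ, T q = -(q.1 : ℂ) + q.2 * Complex.I := by
    intro q
    apply Complex.ext <;> simp [T]
  have hpre : T ⁻¹' strip s1 = Ioi s1 ×ˢ Ioc 0 (2 * Real.pi) := by
    ext q
    have hre : (T q).re = -q.1 := by rw [hTe]; simp
    have him : (T q).im = q.2 := by rw [hTe]; simp
    simp only [Set.mem_preimage, strip, Set.mem_ofPred_eq, hre, him, Set.mem_prod, Set.mem_Ioi,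
      Set.mem_Ioc, neg_lt_neg_iff]
  have hres : MeasurePreserving T (((volume : Measure ℝ).prod volume).restrict
      (Ioi s1 ×ˢ Ioc 0 (2 * Real.pi))) (volume.restrict (strip s1)) := by
    rw [← hpre]
    exact hT.restrict_preimage (measurableSet_strip s1)
  have h1 : ∫⁻ u in strip s1, G u = ∫⁻ q, G (T q) ∂(((volume : Measure ℝ).prod volume).restrict
      (Ioi s1 ×ˢ Ioc 0 (2 * Real.pi))) := by
    rw [← hres.map_eq]
    exact lintegral_map' (by rw [hres.map_eq]; exact hG) hres.measurable.aemeasurable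
  rw [h1, ← Measure.prod_restrict]
  have hG2 : AEMeasurable (fun q => G (T q)) (((volume : Measure ℝ).restrict (Ioi s1)).prod
      ((volume : Measure ℝ).restrict (Ioc 0 (2 * Real.pi)))) := by
    rw [Measure.prod_restrict]
    exact hG.comp_quasiMeasurePreserving hres.quasiMeasurePreserving
  rw [lintegral_prod _ hG2]
  refine lintegral_congr fun s => lintegral_congr fun t => ?_
  rw [hTe]

end EndMap

/-! ### one-forms near an end -/

/-- Hodge norm squared in the normal form -/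
def EndNF.q {N w : ℕ} {s0 : ℝ} (n : EndNF N w s0) (u : ℂ) (v : Fin N → ℂ) : ℝ :=
  (star v ⬝ᵥ hodge w n.S (n.E u) *ᵥ v).re

lemma EndNF.q_nonneg {N w : ℕ} {s0 : ℝ} (n : EndNF N w s0) {u : ℂ} (hu : u.re < -s0)
    (v : Fin N → ℂ) : 0 ≤ n.q u v := (n.hs u hu).hodge_nonneg v

lemma EndNF.q_smul {N w : ℕ} {s0 : ℝ} (n : EndNF N w s0) (u : ℂ) (c : ℂ) (v : Fin N → ℂ) :
    n.q u (c • v) = ‖c‖ ^ 2 * n.q u v := by
  unfold EndNF.q
  rw [star_smul, Matrix.mulVec_smul, smul_dotProduct, dotProduct_smul, smul_eq_mul, smul_eq_mul,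
    ← mul_assoc]
  have h1 : star c * c = ((‖c‖ ^ 2 : ℝ) : ℂ) := by
    rw [Complex.star_def, Complex.conj_mul', Complex.ofReal_pow]
  rw [h1, Complex.re_ofReal_mul]

/-- invariance under the monodromy -/
lemma EndNF.q_per {N w : ℕ} {s0 : ℝ} (n : EndNF N w s0) {u : ℂ} (hu : u.re < -s0)
    (v : Fin N → ℂ) : n.q (u + 2 * Real.pi * Complex.I) (cm n.T *ᵥ v) = n.q u v := by
  unfold EndNF.q
  rw [n.per u hu]
  have h1 : n.S = (cm n.T⁻¹)ᴴ * n.S * cm n.T⁻¹ := by
    have h2 := n.TS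
    have h3 : (cm n.T⁻¹)ᴴ * (cm n.T)ᴴ = 1 := by
      rw [← Matrix.conjTranspose_mul, cm_mul_cm_inv, Matrix.conjTranspose_one]
    calc n.S = 1 * n.S * 1 := by simp
      _ = ((cm n.T⁻¹)ᴴ * (cm n.T)ᴴ) * n.S * (cm n.T * cm n.T⁻¹) := by rw [h3, cm_mul_cm_inv]
      _ = (cm n.T⁻¹)ᴴ * ((cm n.T)ᴴ * n.S * cm n.T) * cm n.T⁻¹ := by noncomm_ring
      _ = _ := by rw [h2]
  have h4 : hodge w n.S (cm n.T * n.E u * cm n.T⁻¹) =
      (cm n.T⁻¹)ᴴ * hodge w n.S (n.E u) * cm n.T⁻¹ := by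
    conv_lhs => rw [h1]
    exact hodge_conj (cm_mul_cm_inv _) (cm_inv_mul_cm _) w _ _
  rw [h4, ← Matrix.mulVec_mulVec, ← Matrix.mulVec_mulVec, cm_inv_mulVec, Matrix.dotProduct_mulVec,
    ← Matrix.star_mulVec, cm_inv_mulVec]

namespace NF

variable {A : Finset ℂ} {N w : ℕ} {V : PVHS A N w} {s0 : ℝ} {e : EndMap A s0} (n : NF V e)

/-- pull back of the `dx`-component of a one-form -/
def pa (a : ℂ → Fin N → ℂ) (u : ℂ) : Fin N → ℂ := deriv e.χ u • n.pull a u

/-- pull back of the `d\bar x`-component of a one-form -/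
def pb (b : ℂ → Fin N → ℂ) (u : ℂ) : Fin N → ℂ := (conj (deriv e.χ u) : ℂ) • n.pull b u

lemma q_pull (φ : ℂ → Fin N → ℂ) {u : ℂ} (hu : u.re < -s0) :
    n.nf.q u (n.pull φ u) = V.nsq φ (e.χ u) := (n.nsq_pull φ hu).symm

lemma q_pa (a : ℂ → Fin N → ℂ) {u : ℂ} (hu : u.re < -s0) :
    n.nf.q u (n.pa a u) = ‖deriv e.χ u‖ ^ 2 * V.nsq a (e.χ u) := by
  unfold pa
  rw [n.nf.q_smul, n.q_pull a hu]

lemma q_pb (b : ℂ → Fin N → ℂ) {u : ℂ} (hu : u.re < -s0) :
    n.nf.q u (n.pb b u) = ‖deriv e.χ u‖ ^ 2 * V.nsq b (e.χ u) := by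
  unfold pb
  rw [n.nf.q_smul, n.q_pull b hu, RCLike.norm_conj]

/-- conformal invariance of the `L²` norm of one-forms -/
theorem lintegral_pa {s1 : ℝ} (h : s0 ≤ s1) {a : ℂ → Fin N → ℂ}
    (ha : AEMeasurable (V.nsq a) (volume.restrict (e.χ '' {u | u.re < -s1}))) :
    ∫⁻ x in e.χ '' {u | u.re < -s1}, ENNReal.ofReal (V.nsq a x) =
      ∫⁻ s in Ioi s1, ∫⁻ t in Ioc 0 (2 * Real.pi),
        ENNReal.ofReal (n.nf.q (-(s : ℂ) + t * Complex.I) (n.pa a (-(s : ℂ) + t * Complex.I))) := by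
  rw [e.lintegral_strip h]
  have hd : Continuous (deriv e.χ) := by
    have h3 : ContDiff ℂ 1 e.χ := e.diff.contDiff
    exact h3.continuous_deriv le_rfl
  have h1 : ∀ u ∈ EndMap.strip s1, ENNReal.ofReal (‖deriv e.χ u‖ ^ 2) *
      ENNReal.ofReal (V.nsq a (e.χ u)) = ENNReal.ofReal (n.nf.q u (n.pa a u)) := by
    intro u hu
    rw [n.q_pa a (lt_of_lt_of_le hu.1 (by linarith)), ENNReal.ofReal_mul (by positivity)]
  rw [setLIntegral_congr_fun (EndMap.measurableSet_strip s1) h1]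
  apply EndMap.lintegral_strip_prod
  have h2 : AEMeasurable (fun u => ENNReal.ofReal (‖deriv e.χ u‖ ^ 2) *
      ENNReal.ofReal (V.nsq a (e.χ u))) (volume.restrict (EndMap.strip s1)) := by
    have h3 : AEMeasurable (fun u => ENNReal.ofReal (‖deriv e.χ u‖ ^ 2))
        (volume.restrict (EndMap.strip s1)) :=
      ((ENNReal.continuous_ofReal.comp ((continuous_norm.comp hd).pow 2)).measurable).aemeasurable
    have h4 : AEMeasurable (fun u => ENNReal.ofReal (V.nsq a (e.χ u)))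
        (volume.restrict (EndMap.strip s1)) := by
      obtain ⟨G, hG, hae⟩ := ha
      refine ENNReal.measurable_ofReal.comp_aemeasurable ⟨fun u => G (e.χ u),
        hG.comp e.diff.continuous.measurable, ?_⟩
      exact e.ae_strip h hae
    exact h3.mul h4
  refine h2.congr ?_
  filter_upwards [ae_restrict_mem (EndMap.measurableSet_strip s1)] with u hu
  exact h1 u hu

theorem lintegral_pb {s1 : ℝ} (h : s0 ≤ s1) {b : ℂ → Fin N → ℂ}
    (hb : AEMeasurable (V.nsq b) (volume.restrict (e.χ '' {u | u.re < -s1}))) :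
    ∫⁻ x in e.χ '' {u | u.re < -s1}, ENNReal.ofReal (V.nsq b x) =
      ∫⁻ s in Ioi s1, ∫⁻ t in Ioc 0 (2 * Real.pi),
        ENNReal.ofReal (n.nf.q (-(s : ℂ) + t * Complex.I) (n.pb b (-(s : ℂ) + t * Complex.I))) := by
  have h1 := n.lintegral_pa h hb
  rw [h1]
  refine setLIntegral_congr_fun measurableSet_Ioi fun s hs => ?_
  refine lintegral_congr fun t => ?_
  have hre : (-(s : ℂ) + t * Complex.I).re < -s0 := by
    have : s1 < s := hs
    simp only [Complex.add_re, Complex.neg_re, Complex.ofReal_re, Complex.mul_re, Complex.I_re,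
      mul_zero, Complex.ofReal_im, Complex.I_im, mul_one, sub_self, add_zero]
    linarith
  rw [n.q_pa b hre, n.q_pb b hre]

/-- exactness from a primitive on the half plane with the right monodromy -/
theorem exactOn {a b : ℂ → Fin N → ℂ} {ψ : ℂ → Fin N → ℂ} {s1 : ℝ} (h01 : s0 ≤ s1)
    (hψ : ∀ u : ℂ, u.re < -s1 → ContDiffAt ℝ (⊤ : ℕ∞) ψ u)
    (hper : ∀ u : ℂ, u.re < -s1 → ψ (u + 2 * Real.pi * Complex.I) = cm n.nf.T *ᵥ ψ u)
    (hz : ∀ u : ℂ, u.re < -s1 → wz ψ u = n.pa a u)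
    (hb : ∀ u : ℂ, u.re < -s1 → wb ψ u = n.pb b u) :
    V.ExactOn (e.χ '' {u | u.re < -s1}) a b := by
  classical
  -- extend `ψ` by `0` to the rest of the half plane
  set ψ' : ℂ → Fin N → ℂ := fun u => if u.re < -s1 then ψ u else 0 with hψ'
  have hper' : ∀ u : ℂ, u.re < -s0 →
      ψ' (u + 2 * Real.pi * Complex.I) = cm n.nf.T *ᵥ ψ' u := by
    intro u _
    simp only [hψ', EndMap.re_add]
    split_ifs with h1
    · exact hper u h1
    · rw [Matrix.mulVec_zero]
  have hev : ∀ u : ℂ, u.re < -s1 → n.pull (n.push ψ') =ᶠ[𝓝 u] ψ := by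
    intro u hu
    filter_upwards [(EndMap.isOpen_half s1).mem_nhds hu] with v hv
    have hv' : v.re < -s1 := hv
    rw [n.pull_push hper' (by linarith)]
    simp only [hψ', if_pos hv']
  refine ⟨n.push ψ', ?_⟩
  rintro _ ⟨u, hu, rfl⟩ _
  have hu' : u.re < -s1 := hu
  have hu0 : u.re < -s0 := by linarith
  have hc : ContDiffAt ℝ (⊤ : ℕ∞) (lV V.P (n.push ψ') (e.χ u)) (e.χ u) := by
    rw [← n.contDiffAt_pull_iff _ hu0]
    exact (hψ u hu').congr_of_eventuallyEq (hev u hu')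
  have hd := hc.differentiableAt (by simp)
  refine ⟨hc, ?_, ?_⟩
  · have h1 := n.wz_pull hu0 hd
    rw [wz_congr (hev u hu'), hz u hu'] at h1
    unfold pa at h1
    have h2 := smul_right_injective _ (e.ne u) h1
    unfold pull at h2
    exact (cm_mulVec_injective _ h2).symm
  · have h1 := n.wb_pull hu0 hd
    rw [wb_congr (hev u hu'), hb u hu'] at h1
    unfold pb at h1
    have h2 := smul_right_injective _ ((map_ne_zero _).mpr (e.ne u)) h1
    unfold pull at h2
    exact (cm_mulVec_injective _ h2).symm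

/-- the primitive of an exact form on the half plane -/
theorem of_exactOn {a b : ℂ → Fin N → ℂ} {s1 : ℝ} (h01 : s0 ≤ s1)
    (h : V.ExactOn (e.χ '' {u | u.re < -s1}) a b) :
    ∃ ψ : ℂ → Fin N → ℂ, (∀ u : ℂ, u.re < -s1 → ContDiffAt ℝ (⊤ : ℕ∞) ψ u) ∧
      (∀ u : ℂ, u.re < -s1 → ψ (u + 2 * Real.pi * Complex.I) = cm n.nf.T *ᵥ ψ u) ∧
      (∀ u : ℂ, u.re < -s1 → wz ψ u = n.pa a u) ∧ (∀ u : ℂ, u.re < -s1 → wb ψ u = n.pb b u) := by
  obtain ⟨φ, hφ⟩ := h
  have hφ' : ∀ u : ℂ, u.re < -s1 → ContDiffAt ℝ (⊤ : ℕ∞) (lV V.P φ (e.χ u)) (e.χ u) ∧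
      V.d1 φ (e.χ u) = a (e.χ u) ∧ V.d2 φ (e.χ u) = b (e.χ u) := fun u hu =>
    hφ _ ⟨u, hu, rfl⟩ (e.avoid u (by linarith))
  refine ⟨n.pull φ, fun u hu => ?_, fun u hu => n.pull_per φ (by linarith), fun u hu => ?_,
    fun u hu => ?_⟩
  · exact (n.contDiffAt_pull_iff φ (by linarith)).mpr (hφ' u hu).1
  · rw [n.wz_pull (by linarith) ((hφ' u hu).1.differentiableAt (by simp))]
    unfold pa pull
    rw [(hφ' u hu).2.1]
  · rw [n.wb_pull (by linarith) ((hφ' u hu).1.differentiableAt (by simp))]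
    unfold pb pull
    rw [(hφ' u hu).2.2]

end NF

end Crest.Agent.R276.Ipc735
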