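import Crest.Agent.R276.EndP2_659
import Crest.Agent.R276.NfInt_735

/-!
# R276 (helper659): (I3), a closed smooth `L²` one-form on a punctured plane is parabolic

* `exactOn_end` : at one end;
* `par_of_L2` : `PVHS.Par`.
-/

set_option autoImplicit false
set_option linter.unusedSectionVars false

open Set Filter Topology MeasureTheory Matrix
open scoped ContDiff ComplexConjugate ENNReal ComplexOrder

namespace Crest.Agent.R276.EndP_659

open Crest.Agent.R276.Ipc735 Crest.Agent.R276.EndTh_659 Crest.Agent.R276.EndF_659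

section cprod

variable {F : Type*} [NormedAddCommGroup F] [NormedSpace ℂ F]

theorem wz_csmul {c : ℂ → ℂ} {f : ℂ → F} {z : ℂ} (hc : DifferentiableAt ℝ c z)
    (hf : DifferentiableAt ℝ f z) :
    wz (fun x => c x • f x) z = c z • wz f z + wz c z • f z := by
  have h2 : fderiv ℝ (fun x => c x • f x) z = _ := (hc.hasFDerivAt.smul hf.hasFDerivAt).fderiv
  unfold wz
  rw [h2]
  simp only [_root_.add_apply, _root_.smul_apply, ContinuousLinearMap.smulRight_apply, smul_eq_mul]
  module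

theorem wb_csmul {c : ℂ → ℂ} {f : ℂ → F} {z : ℂ} (hc : DifferentiableAt ℝ c z)
    (hf : DifferentiableAt ℝ f z) :
    wb (fun x => c x • f x) z = c z • wb f z + wb c z • f z := by
  have h2 : fderiv ℝ (fun x => c x • f x) z = _ := (hc.hasFDerivAt.smul hf.hasFDerivAt).fderiv
  unfold wb
  rw [h2]
  simp only [_root_.add_apply, _root_.smul_apply, ContinuousLinearMap.smulRight_apply, smul_eq_mul]
  module

theorem wb_hol {c : ℂ → ℂ} {z : ℂ} (hc : DifferentiableAt ℂ c z) : wb c z = 0 := by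
  unfold wb
  rw [(hasFDerivAt_mul hc).fderiv]
  simp only [ContinuousLinearMap.mul_apply', mul_one, smul_eq_mul]
  linear_combination (1 / 2 * deriv c z) * Complex.I_mul_I

theorem wz_conj_hol {c : ℂ → ℂ} {z : ℂ} (hc : DifferentiableAt ℂ c z) :
    wz (fun x => conj (c x)) z = 0 := by
  have h1 := (Complex.conjCLE.toContinuousLinearMap.hasFDerivAt.comp z (hasFDerivAt_mul hc)).fderiv
  have h2 : fderiv ℝ (fun x => conj (c x)) z = _ := h1
  unfold wz
  rw [h2]
  simp only [ContinuousLinearMap.comp_apply, ContinuousLinearMap.mul_apply', mul_one, smul_eq_mul,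
    ContinuousLinearEquiv.coe_coe, Complex.conjCLE_apply, map_mul, Complex.conj_I]
  linear_combination (1 / 2 * (starRingEnd ℂ) (deriv c z)) * Complex.I_mul_I

end cprod

/-! ### (I3) -/

section ends

variable {A : Finset ℂ} {N w : ℕ} {V : PVHS A N w} {s0 : ℝ} {e : EndMap A s0} (n : NF V e)

theorem diff_deriv (e : EndMap A s0) : Differentiable ℂ (deriv e.χ) := by
  have h1 : DifferentiableOn ℂ (deriv e.χ) univ := e.diff.differentiableOn.deriv isOpen_univ
  exact differentiableOn_univ.1 h1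

theorem deriv_per (e : EndMap A s0) (u : ℂ) :
    deriv e.χ (u + 2 * Real.pi * Complex.I) = deriv e.χ u := by
  have h1 : (fun u => e.χ (u + 2 * Real.pi * Complex.I)) = e.χ := funext e.per
  have h2 := congrFun (congrArg deriv h1) u
  rw [deriv_comp_add_const] at h2
  exact h2

theorem image_sub {s1 : ℝ} (h : s0 ≤ s1) : e.χ '' {u | u.re < -s1} ⊆ (A : Set ℂ)ᶜ := by
  rintro _ ⟨u, hu, rfl⟩
  have hu' : u.re < -s1 := hu
  exact e.avoid u (by linarith)

/-- smooth on the end -/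
def SmE (V : PVHS A N w) (e : EndMap A s0) (φ : ℂ → Fin N → ℂ) : Prop :=
  ∀ u : ℂ, u.re < -s0 → ContDiffAt ℝ (⊤ : ℕ∞) (lV V.P φ (e.χ u)) (e.χ u)

theorem SmE.of {φ : ℂ → Fin N → ℂ} (h : V.Sm φ) : SmE V e φ := fun u hu => h _ (e.avoid u hu)

theorem contDiffOn_pull {a : ℂ → Fin N → ℂ} (ha : SmE V e a) :
    ContDiffOn ℝ ∞ (n.pull a) {u : ℂ | u.re < -s0} := fun u hu =>
  ((n.contDiffAt_pull_iff a hu).2 (ha u hu)).contDiffWithinAt

theorem contDiff_deriv (e : EndMap A s0) : ContDiff ℝ ∞ (deriv e.χ) :=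
  ((diff_deriv e).contDiff (n := ∞)).restrict_scalars ℝ

theorem contDiffOn_pa {a : ℂ → Fin N → ℂ} (ha : SmE V e a) :
    ContDiffOn ℝ ∞ (n.pa a) {u : ℂ | u.re < -s0} :=
  (contDiff_deriv e).contDiffOn.smul (contDiffOn_pull n ha)

theorem contDiffOn_pb {b : ℂ → Fin N → ℂ} (hb : SmE V e b) :
    ContDiffOn ℝ ∞ (n.pb b) {u : ℂ | u.re < -s0} :=
  (Complex.conjCLE.contDiff.comp (contDiff_deriv e)).contDiffOn.smul (contDiffOn_pull n hb)

theorem pa_per (a : ℂ → Fin N → ℂ) {u : ℂ} (hu : u.re < -s0) :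
    n.pa a (u + 2 * Real.pi * Complex.I) = cm n.nf.T *ᵥ n.pa a u := by
  unfold NF.pa
  rw [deriv_per, n.pull_per a hu, Matrix.mulVec_smul]

theorem pb_per (b : ℂ → Fin N → ℂ) {u : ℂ} (hu : u.re < -s0) :
    n.pb b (u + 2 * Real.pi * Complex.I) = cm n.nf.T *ᵥ n.pb b u := by
  unfold NF.pb
  rw [deriv_per, n.pull_per b hu, Matrix.mulVec_smul]

theorem pull_closed {a b : ℂ → Fin N → ℂ} (ha : SmE V e a) (hb : SmE V e b) {u : ℂ}
    (hu : u.re < -s0) (hcl : V.d2 a (e.χ u) = V.d1 b (e.χ u)) : wb (n.pa a) u = wz (n.pb b) u := by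
  have hda := (ha u hu).differentiableAt (by simp)
  have hdb := (hb u hu).differentiableAt (by simp)
  have h0 : DifferentiableAt ℂ (deriv e.χ) u := diff_deriv e u
  have h0r : DifferentiableAt ℝ (deriv e.χ) u := h0.restrictScalars ℝ
  have h0c : DifferentiableAt ℝ (fun x => conj (deriv e.χ x)) u :=
    (Complex.conjCLE.differentiable.differentiableAt).comp u h0r
  have h1 : wb (n.pa a) u = deriv e.χ u • wb (n.pull a) u + wb (deriv e.χ) u • n.pull a u :=
    wb_csmul h0r (n.differentiableAt_pull hu hda)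
  have h2 : wz (n.pb b) u = (conj (deriv e.χ u)) • wz (n.pull b) u +
      wz (fun x => conj (deriv e.χ x)) u • n.pull b u :=
    wz_csmul h0c (n.differentiableAt_pull hu hdb)
  rw [h1, h2, wb_hol h0, wz_conj_hol h0, zero_smul, zero_smul, add_zero, add_zero,
    n.wb_pull hu hda, n.wz_pull hu hdb, smul_comm]
  unfold NF.pull
  rw [hcl]

theorem H_entry_cont (m : EndNF N w s0) (i j : Fin N) :
    ContinuousOn (fun y => H m y i j) {u : ℂ | u.re < -s0} := by
  let _ : NormedRing (Matrix (Fin N) (Fin N) ℂ) := Matrix.linftyOpNormedRing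
  let _ : NormedAlgebra ℂ (Matrix (Fin N) (Fin N) ℂ) := Matrix.linftyOpNormedAlgebra
  have h4 := (VCalc_442.contDiffOn_matrix.1 (EndC_659.sm_hm (vhs m)) i j).continuousOn
  refine h4.congr fun y _ => ?_
  show H m y i j = VCalc_442.hm w m.S (Pn m) y i j
  rw [hm_eq]

theorem continuousOn_nq {ψ : ℂ → Fin N → ℂ} (m : EndNF N w s0)
    (hψ : ContinuousOn ψ {u : ℂ | u.re < -s0}) :
    ContinuousOn (fun u => nq (H m u) (ψ u)) {u : ℂ | u.re < -s0} := fun u hu =>
  IpcEx_309.qf_cont (fun i j => H_entry_cont m i j u hu) (hψ u hu)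

theorem nq_sub_le {K : Matrix (Fin N) (Fin N) ℂ} (hK : K.PosDef) (a b : Fin N → ℂ) :
    nq K (a - b) ≤ 2 * nq K a + 2 * nq K b := by
  have h1 := EndC_659.nq_parallelogram K a b
  have h2 := nq_nonneg hK (a + b)
  linarith

theorem aem_nq {ψ : ℂ → Fin N → ℂ} (m : EndNF N w s0) {s1 : ℝ} (h01 : s0 ≤ s1)
    (hψ : ContinuousOn ψ {u : ℂ | u.re < -s0}) :
    AEMeasurable (fun u => ENNReal.ofReal (nq (H m u) (ψ u)))
      (volume.restrict (EndMap.strip s1)) := by
  refine ENNReal.measurable_ofReal.comp_aemeasurable ?_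
  refine ContinuousOn.aemeasurable ?_ (EndMap.measurableSet_strip s1)
  refine (continuousOn_nq m hψ).mono fun u hu => ?_
  have h2 : u.re < -s1 := hu.1
  show u.re < -s0
  linarith

/-- the integral over the strip of the pulled back form -/
theorem lint_pa {s1 : ℝ} (h01 : s0 ≤ s1) (a : ℂ → Fin N → ℂ) :
    ∫⁻ u in EndMap.strip s1, ENNReal.ofReal (nq (H n.nf u) (n.pa a u)) =
      ∫⁻ x in e.χ '' {u | u.re < -s1}, ENNReal.ofReal (V.nsq a x) := by
  rw [e.lintegral_strip h01]
  refine setLIntegral_congr_fun (EndMap.measurableSet_strip s1) fun u hu => ?_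
  have h2 := n.q_pa a (u := u) (lt_of_lt_of_le hu.1 (by linarith))
  have h3 : nq (H n.nf u) (n.pa a u) = n.nf.q u (n.pa a u) := rfl
  rw [h3, h2, ENNReal.ofReal_mul (by positivity)]

theorem lint_pb {s1 : ℝ} (h01 : s0 ≤ s1) (b : ℂ → Fin N → ℂ) :
    ∫⁻ u in EndMap.strip s1, ENNReal.ofReal (nq (H n.nf u) (n.pb b u)) =
      ∫⁻ x in e.χ '' {u | u.re < -s1}, ENNReal.ofReal (V.nsq b x) := by
  rw [e.lintegral_strip h01]
  refine setLIntegral_congr_fun (EndMap.measurableSet_strip s1) fun u hu => ?_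
  have h2 := n.q_pb b (u := u) (lt_of_lt_of_le hu.1 (by linarith))
  have h3 : nq (H n.nf u) (n.pb b u) = n.nf.q u (n.pb b u) := rfl
  rw [h3, h2, ENNReal.ofReal_mul (by positivity)]

include n in
/-- **(I3) at one end** -/
theorem exactOn_end {s1 : ℝ} (h01 : s0 < s1) (h1 : 0 < s1) {a b : ℂ → Fin N → ℂ}
    (ha : SmE V e a) (hb : SmE V e b)
    (hcl : ∀ u : ℂ, u.re < -s0 → V.d2 a (e.χ u) = V.d1 b (e.χ u))
    (hia : ∫⁻ x in e.χ '' {u | u.re < -s1}, ENNReal.ofReal (V.nsq a x) < ⊤)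
    (hib : ∫⁻ x in e.χ '' {u | u.re < -s1}, ENNReal.ofReal (V.nsq b x) < ⊤) :
    V.ExactOn (e.χ '' {u | u.re < -s0}) a b := by
  set Hp : Set ℂ := {u : ℂ | u.re < -s0} with hHp
  have hopen : IsOpen Hp := EndMap.isOpen_half s0
  have hconv : Convex ℝ Hp := EndMap.convex_half s0
  obtain ⟨φ, hφs, hφd⟩ := primitive hopen hconv (contDiffOn_pa n ha) (contDiffOn_pb n hb)
    (fun u hu => pull_closed n ha hb hu (hcl u hu))
  -- the period is constant
  have hcomp : ∀ u ∈ Hp, HasFDerivAt (fun u => φ (u + 2 * Real.pi * Complex.I))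
      (om (n.pa a (u + 2 * Real.pi * Complex.I)) (n.pb b (u + 2 * Real.pi * Complex.I))) u := by
    intro u hu
    have h2 := hφd (u + 2 * Real.pi * Complex.I) (by
      show (u + 2 * Real.pi * Complex.I).re < -s0
      rw [EndMap.re_add]; exact hu)
    exact (hasFDerivAt_comp_add_right (2 * Real.pi * Complex.I)).2 h2
  let L : (Fin N → ℂ) →L[ℝ] (Fin N → ℂ) :=
    LinearMap.toContinuousLinearMap ((Matrix.mulVecLin (cm n.nf.T)).restrictScalars ℝ)
  have hL : ∀ v, L v = cm n.nf.T *ᵥ v := fun v => rfl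
  have hdiff : ∀ u ∈ Hp, HasFDerivAt (fun u => φ (u + 2 * Real.pi * Complex.I) - L (φ u))
      (0 : ℂ →L[ℝ] (Fin N → ℂ)) u := by
    intro u hu
    have h2 := (hcomp u hu).sub (L.hasFDerivAt.comp u (hφd u hu))
    refine h2.congr_fderiv ?_
    refine ContinuousLinearMap.ext fun v => ?_
    rw [_root_.sub_apply, ContinuousLinearMap.comp_apply, om_eq, om_eq, hL,
      pa_per n a hu, pb_per n b hu, Matrix.mulVec_add, Matrix.mulVec_smul, Matrix.mulVec_smul,
      sub_self]
    rfl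
  set u0 : ℂ := ((-s0 - 1 : ℝ) : ℂ) with hu0
  have hu0m : u0 ∈ Hp := by
    show u0.re < -s0
    rw [hu0, Complex.ofReal_re]; linarith
  set c : Fin N → ℂ := φ (u0 + 2 * Real.pi * Complex.I) - L (φ u0) with hc
  have hconst : ∀ u ∈ Hp, φ (u + 2 * Real.pi * Complex.I) - L (φ u) = c := by
    intro u hu
    exact hopen.is_const_of_fderiv_eq_zero hconv.isPreconnected
      (fun y hy => (hdiff y hy).differentiableAt.differentiableWithinAt)
      (fun y hy => (hdiff y hy).fderiv) hu hu0m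
  have hper : ∀ u : ℂ, u.re < -s0 → φ (u + 2 * Real.pi * Complex.I) = cm n.nf.T *ᵥ φ u + c := by
    intro u hu
    rw [← hconst u hu, hL]; abel
  -- the L2 bound
  have hfd : ∀ u ∈ Hp, fderiv ℝ φ u Complex.I = Complex.I • (n.pa a u - n.pb b u) := by
    intro u hu
    rw [(hφd u hu).fderiv, om_I]
  have hsub : ∀ u ∈ EndMap.strip s1, u ∈ Hp := by
    intro u hu
    have h2 : u.re < -s1 := hu.1
    show u.re < -s0
    linarith
  have hcont : ContinuousOn (fun u => Complex.I • (n.pa a u - n.pb b u)) Hp :=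
    ((contDiffOn_pa n ha).continuousOn.sub (contDiffOn_pb n hb).continuousOn).const_smul Complex.I
  have hcf : ContinuousOn (fun u => fderiv ℝ φ u Complex.I) Hp := hcont.congr hfd
  have hL2 : ∫⁻ u in EndMap.strip s1, ENNReal.ofReal (nq (H n.nf u) (fderiv ℝ φ u Complex.I)) <
      ⊤ := by
    have hle : ∀ u ∈ EndMap.strip s1,
        ENNReal.ofReal (nq (H n.nf u) (fderiv ℝ φ u Complex.I)) ≤
          2 * ENNReal.ofReal (nq (H n.nf u) (n.pa a u)) +
            2 * ENNReal.ofReal (nq (H n.nf u) (n.pb b u)) := by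
      intro u hu
      have hK := H_posDef n.nf (hsub u hu)
      rw [hfd u (hsub u hu), EndC_659.nq_smul, Complex.norm_I, one_pow, one_mul]
      have h2 : (2 : ℝ≥0∞) = ENNReal.ofReal 2 := by simp
      rw [h2, ← ENNReal.ofReal_mul (by norm_num), ← ENNReal.ofReal_mul (by norm_num),
        ← ENNReal.ofReal_add (by have := nq_nonneg hK (n.pa a u); positivity)
          (by have := nq_nonneg hK (n.pb b u); positivity)]
      exact ENNReal.ofReal_le_ofReal (nq_sub_le hK _ _)
    refine (setLIntegral_mono' (EndMap.measurableSet_strip s1) hle).trans_lt ?_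
    have hma := aem_nq n.nf h01.le (contDiffOn_pa n ha).continuousOn
    have hmb := aem_nq n.nf h01.le (contDiffOn_pb n hb).continuousOn
    rw [lintegral_add_left' (hma.const_mul 2), lintegral_const_mul'' _ hma,
      lintegral_const_mul'' _ hmb, lint_pa n h01.le, lint_pb n h01.le]
    exact ENNReal.add_lt_top.2 ⟨ENNReal.mul_lt_top (by simp) hia,
      ENNReal.mul_lt_top (by simp) hib⟩
  rw [EndMap.lintegral_strip_prod s1 (aem_nq n.nf h01.le hcf)] at hL2
  obtain ⟨v, hv⟩ := EndF_659.par n.nf h01 h1 (hφs.of_le (by exact_mod_cast le_top)) hper hL2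
  refine n.exactOn le_rfl (ψ := fun u => φ u + v) ?_ ?_ ?_ ?_
  · intro u hu
    exact (hφs.contDiffAt (hopen.mem_nhds hu)).add contDiffAt_const
  · intro u hu
    show φ (u + 2 * Real.pi * Complex.I) + v = cm n.nf.T *ᵥ (φ u + v)
    rw [hper u hu, hv, Matrix.mulVec_add]; abel
  · intro u hu
    exact wz_of ((hφd u hu).add_const v)
  · intro u hu
    exact wb_of ((hφd u hu).add_const v)

end ends

section main

variable {A : Finset ℂ} {N w : ℕ} (V : PVHS A N w)

/-- **(I3)**: a closed smooth `L²` one-form is parabolic -/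
theorem par_of_lintegral {a b : ℂ → Fin N → ℂ} (ha : V.Sm a) (hb : V.Sm b) (hcl : V.Closed a b)
    (hia : ∫⁻ x in (A : Set ℂ)ᶜ, ENNReal.ofReal (V.nsq a x) < ⊤)
    (hib : ∫⁻ x in (A : Set ℂ)ᶜ, ENNReal.ofReal (V.nsq b x) < ⊤) : V.Par a b := by
  have key : ∀ (s0 : ℝ) (e : EndMap A s0), V.ExactOn (e.χ '' {u | u.re < -s0}) a b := by
    intro s0 e
    obtain ⟨n⟩ := exists_nf V e
    have h01 : s0 < max s0 0 + 1 := by have := le_max_left s0 0; linarith
    have h1 : 0 < max s0 0 + 1 := by have := le_max_right s0 0; linarith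
    have hsub := image_sub (e := e) h01.le
    exact exactOn_end n h01 h1 (SmE.of ha) (SmE.of hb) (fun u hu => hcl _ (e.avoid u hu))
      ((lintegral_mono_set hsub).trans_lt hia) ((lintegral_mono_set hsub).trans_lt hib)
  constructor
  · intro p hp
    obtain ⟨s0, hs0⟩ := EndMap.exists_punct A p
    obtain ⟨φ, hφ⟩ := key s0 (EndMap.punct A p s0 hs0)
    refine ⟨Metric.ball p (Real.exp (-s0)), Metric.ball_mem_nhds p (Real.exp_pos _), φ, ?_⟩
    intro z hz hzA
    apply hφ z ?_ hzA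
    rw [EndMap.punct_image]
    refine ⟨?_, by rwa [← dist_eq_norm]⟩
    rw [norm_pos_iff, sub_ne_zero]
    rintro rfl
    exact hzA hp
  · obtain ⟨s0, hs0⟩ := EndMap.exists_infty A
    have h2 := key s0 (EndMap.infty A s0 hs0)
    rw [EndMap.infty_image] at h2
    exact ⟨Real.exp s0, h2⟩

theorem par_of_L2 {a b : ℂ → Fin N → ℂ} (ha : V.Sm a) (hb : V.Sm b) (hcl : V.Closed a b)
    (hia : IntegrableOn (V.nsq a) (A : Set ℂ)ᶜ) (hib : IntegrableOn (V.nsq b) (A : Set ℂ)ᶜ) :
    V.Par a b :=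
  par_of_lintegral V ha hb hcl (Integrable.lintegral_lt_top hia) (Integrable.lintegral_lt_top hib)

end main

end Crest.Agent.R276.EndP_659
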