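import Crest.Agent.R276.EndP3_659

/-!
# R276 (helper659): (I4), cut-off of sections which are flat near the ends
-/

set_option autoImplicit false
set_option linter.unusedSectionVars false

open Set Filter Topology MeasureTheory Matrix
open scoped ContDiff ComplexConjugate ENNReal ComplexOrder

namespace Crest.Agent.R276.EndP_659

open Crest.Agent.R276.Ipc735 Crest.Agent.R276.EndTh_659 Crest.Agent.R276.EndF_659

section gen

variable {A : Finset ℂ} {N w : ℕ} (V : PVHS A N w)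

theorem lV_smulr (η : ℂ → ℝ) (f : ℂ → Fin N → ℂ) (z : ℂ) :
    lV V.P (fun x => η x • f x) z = fun y => η y • lV V.P f z y := by
  funext y
  unfold lV
  rw [Matrix.mulVec_smul]

theorem Sm_smulr {η : ℂ → ℝ} {f : ℂ → Fin N → ℂ} (hη : ∀ z ∉ A, ContDiffAt ℝ (⊤ : ℕ∞) η z)
    (hf : V.Sm f) : V.Sm (fun x => η x • f x) := by
  intro z hz
  rw [lV_smulr]
  exact (hη z hz).smul (hf z hz)

theorem d1_smulr {η : ℂ → ℝ} {f : ℂ → Fin N → ℂ} {z : ℂ} (hz : z ∉ A)
    (hη : DifferentiableAt ℝ η z) (hf : V.Sm f) :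
    V.d1 (fun x => η x • f x) z = (η z : ℂ) • V.d1 f z + wz (fun x => (η x : ℂ)) z • f z := by
  have h1 := wz_smul hη ((hf z hz).differentiableAt (by simp))
  unfold PVHS.d1
  rw [lV_smulr, h1, lV_self V.ndc f hz]

theorem d2_smulr {η : ℂ → ℝ} {f : ℂ → Fin N → ℂ} {z : ℂ} (hz : z ∉ A)
    (hη : DifferentiableAt ℝ η z) (hf : V.Sm f) :
    V.d2 (fun x => η x • f x) z = (η z : ℂ) • V.d2 f z + wb (fun x => (η x : ℂ)) z • f z := by
  have h1 := wb_smul hη ((hf z hz).differentiableAt (by simp))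
  unfold PVHS.d2
  rw [lV_smulr, h1, lV_self V.ndc f hz]

theorem nsq_csmul (c : ℂ → ℂ) (f : ℂ → Fin N → ℂ) (z : ℂ) :
    V.nsq (fun x => c x • f x) z = ‖c z‖ ^ 2 * V.nsq f z := EndC_659.nq_smul _ _ _

end gen

section ends

variable {A : Finset ℂ} {N w : ℕ} {V : PVHS A N w} {s0 : ℝ} {e : EndMap A s0} (n : NF V e)

/-- a section which is flat on the end is a constant invariant vector -/
theorem const_pull {f : ℂ → Fin N → ℂ} (hf : SmE V e f)
    (h1 : ∀ u : ℂ, u.re < -s0 → V.d1 f (e.χ u) = 0) (h2 : ∀ u : ℂ, u.re < -s0 → V.d2 f (e.χ u) = 0) :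
    ∃ v : Fin N → ℂ, cm n.nf.T *ᵥ v = v ∧ ∀ u : ℂ, u.re < -s0 → n.pull f u = v := by
  set Hp : Set ℂ := {u : ℂ | u.re < -s0} with hHp
  have hopen : IsOpen Hp := EndMap.isOpen_half s0
  have hconv : Convex ℝ Hp := EndMap.convex_half s0
  have hd : ∀ u ∈ Hp, DifferentiableAt ℝ (n.pull f) u := fun u hu =>
    ((contDiffOn_pull n hf).contDiffAt (hopen.mem_nhds hu)).differentiableAt (by simp)
  have hz : ∀ u ∈ Hp, fderiv ℝ (n.pull f) u = 0 := by
    intro u hu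
    have hdf := (hf u hu).differentiableAt (by simp)
    rw [← om_wz_wb, n.wz_pull hu hdf, n.wb_pull hu hdf]
    have e1 : n.pull (V.d1 f) u = 0 := by
      unfold NF.pull; rw [h1 u hu, Matrix.mulVec_zero]
    have e2 : n.pull (V.d2 f) u = 0 := by
      unfold NF.pull; rw [h2 u hu, Matrix.mulVec_zero]
    rw [e1, e2, smul_zero, smul_zero]
    refine ContinuousLinearMap.ext fun v => ?_
    rw [om_eq, smul_zero, smul_zero, add_zero]
    rfl
  set u0 : ℂ := ((-s0 - 1 : ℝ) : ℂ) with hu0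
  have hu0m : u0 ∈ Hp := by
    show u0.re < -s0
    rw [hu0, Complex.ofReal_re]; linarith
  have hconst : ∀ u ∈ Hp, n.pull f u = n.pull f u0 := fun u hu =>
    hopen.is_const_of_fderiv_eq_zero hconv.isPreconnected
      (fun y hy => (hd y hy).differentiableWithinAt) (fun y hy => hz y hy) hu hu0m
  refine ⟨n.pull f u0, ?_, hconst⟩
  rw [← n.pull_per f hu0m]
  refine hconst _ ?_
  show (u0 + 2 * Real.pi * Complex.I).re < -s0
  rw [EndMap.re_add]; exact hu0m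

theorem wz_l {l : ℝ → ℝ} (hl : Differentiable ℝ l) (u : ℂ) :
    wz (fun x : ℂ => ((l (-x.re) : ℝ) : ℂ)) u = -(1 / 2 : ℂ) * (deriv l (-u.re) : ℝ) ∧
    wb (fun x : ℂ => ((l (-x.re) : ℝ) : ℂ)) u = -(1 / 2 : ℂ) * (deriv l (-u.re) : ℝ) := by
  have h1 : HasFDerivAt (fun x : ℂ => -x.re) (-Complex.reCLM) u := Complex.reCLM.hasFDerivAt.neg
  have h2 := ((hl (-u.re)).hasDerivAt.hasFDerivAt.comp u h1)
  have h3 := (Complex.ofRealCLM.hasFDerivAt.comp u h2).fderiv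
  have h4 : fderiv ℝ (fun x : ℂ => ((l (-x.re) : ℝ) : ℂ)) u = _ := h3
  have h5 : fderiv ℝ (fun x : ℂ => ((l (-x.re) : ℝ) : ℂ)) u 1 = -((deriv l (-u.re) : ℝ) : ℂ) := by
    rw [h4]; simp
  have h6 : fderiv ℝ (fun x : ℂ => ((l (-x.re) : ℝ) : ℂ)) u Complex.I = 0 := by
    rw [h4]; simp
  unfold wz wb
  rw [h5, h6]
  constructor
  · simp
  · simp

include n in
/-- the cut-off at one end -/
theorem cut_end {s1 : ℝ} (h01 : s0 < s1) (h1 : 0 < s1) {f : ℂ → Fin N → ℂ} (hf : SmE V e f)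
    (hd1 : ∀ u : ℂ, u.re < -s0 → V.d1 f (e.χ u) = 0)
    (hd2 : ∀ u : ℂ, u.re < -s0 → V.d2 f (e.χ u) = 0) (R : ℝ) {ε : ℝ≥0∞} (hε : 0 < ε) :
    ∃ (l : ℝ → ℝ) (R' : ℝ), ContDiff ℝ ∞ l ∧ (∀ s, 0 ≤ l s ∧ l s ≤ 1) ∧ (∀ s, s ≤ R → l s = 1) ∧
      (∀ s, R' ≤ s → l s = 0) ∧
      ∀ m : ℂ → ℝ, (∀ u : ℂ, u.re < -s0 → m (e.χ u) = l (-u.re)) →
        (∀ u : ℂ, u.re < -s0 → DifferentiableAt ℝ m (e.χ u)) →
        ∫⁻ x in e.χ '' {u | u.re < -s1},
          (ENNReal.ofReal (‖wz (fun x => (m x : ℂ)) x‖ ^ 2 * V.nsq f x) +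
            ENNReal.ofReal (‖wb (fun x => (m x : ℂ)) x‖ ^ 2 * V.nsq f x)) < ε := by
  obtain ⟨v, hv, hfv⟩ := const_pull n hf hd1 hd2
  obtain ⟨l, R', hl, hl01, hl1, hl0, hld, hint⟩ := EndF_659.cutoff n.nf h01 h1 hv R hε
  refine ⟨l, R', hl, hl01, hl1, hl0, fun m hm hmd => ?_⟩
  refine lt_of_le_of_lt ?_ hint
  rw [e.lintegral_strip h01.le]
  have hld2 : Continuous (deriv l) := (hl.of_le (m := 1) (by exact_mod_cast le_top)).continuous_deriv le_rfl
  have hcv : ContinuousOn (fun u : ℂ => nq (H n.nf u) v) {u : ℂ | u.re < -s0} :=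
    continuousOn_nq n.nf continuousOn_const
  have hmeas : AEMeasurable (fun u : ℂ => ENNReal.ofReal ((deriv l (-u.re)) ^ 2 * nq (H n.nf u) v))
      (volume.restrict (EndMap.strip s1)) := by
    refine ENNReal.measurable_ofReal.comp_aemeasurable ?_
    refine ContinuousOn.aemeasurable ?_ (EndMap.measurableSet_strip s1)
    refine ContinuousOn.mul ?_ (hcv.mono fun u hu => ?_)
    · exact ((hld2.comp (Complex.continuous_re.neg)).pow 2).continuousOn
    · have h2 : u.re < -s1 := hu.1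
      show u.re < -s0
      linarith
  have h3 := EndMap.lintegral_strip_prod s1 hmeas
  have h4 : ∫⁻ s in Ioi s1, ∫⁻ t in Ioc (0:ℝ) (2 * Real.pi),
        ENNReal.ofReal ((deriv l s) ^ 2 * nq (H n.nf (-(s:ℂ) + t * Complex.I)) v) =
      ∫⁻ u in EndMap.strip s1, ENNReal.ofReal ((deriv l (-u.re)) ^ 2 * nq (H n.nf u) v) := by
    rw [h3]
    refine lintegral_congr fun s => lintegral_congr fun t => ?_
    have h5 : -(-(s:ℂ) + t * Complex.I).re = s := by simp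
    rw [h5]
  rw [h4]
  refine setLIntegral_mono' (EndMap.measurableSet_strip s1) fun u hu => ?_
  have hu0 : u.re < -s0 := by have := hu.1; linarith
  have hK := H_posDef n.nf hu0
  -- the derivative of `m ∘ χ`
  have hmd' : DifferentiableAt ℝ (fun x => (m x : ℂ)) (e.χ u) :=
    Complex.ofRealCLM.differentiableAt.comp _ (hmd u hu0)
  have h6 := wz_comp hmd' (e.diff u)
  have h7 := wb_comp hmd' (e.diff u)
  have hev : (fun u : ℂ => ((m (e.χ u) : ℝ) : ℂ)) =ᶠ[𝓝 u] fun u : ℂ => ((l (-u.re) : ℝ) : ℂ) := by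
    filter_upwards [(EndMap.isOpen_half s0).mem_nhds hu0] with x hx
    rw [hm x hx]
  rw [wz_congr hev, (wz_l (hl.differentiable (by simp)) u).1] at h6
  rw [wb_congr hev, (wz_l (hl.differentiable (by simp)) u).2] at h7
  have h8 : ‖deriv e.χ u‖ ^ 2 * ‖wz (fun x => (m x : ℂ)) (e.χ u)‖ ^ 2 = (deriv l (-u.re)) ^ 2 / 4 := by
    rw [← mul_pow, ← norm_smul, ← h6, norm_mul, norm_neg, Complex.norm_real, mul_pow,
      Real.norm_eq_abs, sq_abs]
    norm_num
    ring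
  have h9 : ‖deriv e.χ u‖ ^ 2 * ‖wb (fun x => (m x : ℂ)) (e.χ u)‖ ^ 2 = (deriv l (-u.re)) ^ 2 / 4 := by
    have h10 : ‖deriv e.χ u‖ = ‖(conj (deriv e.χ u) : ℂ)‖ := (RCLike.norm_conj _).symm
    rw [h10, ← mul_pow, ← norm_smul, ← h7, norm_mul, norm_neg, Complex.norm_real, mul_pow,
      Real.norm_eq_abs, sq_abs]
    norm_num
    ring
  have h11 : V.nsq f (e.χ u) = nq (H n.nf u) v := by
    rw [n.nsq_pull f hu0, hfv u hu0]; rfl
  have h12 : 0 ≤ nq (H n.nf u) v := nq_nonneg hK v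
  rw [h11, mul_add, ← ENNReal.ofReal_mul (by positivity), ← ENNReal.ofReal_mul (by positivity),
    ← ENNReal.ofReal_add (by positivity) (by positivity)]
  refine ENNReal.ofReal_le_ofReal ?_
  rw [← mul_assoc, ← mul_assoc, h8, h9]
  nlinarith [mul_nonneg (sq_nonneg (deriv l (-u.re))) h12]

end ends

section main

variable {A : Finset ℂ} {N w : ℕ} (V : PVHS A N w)

open Classical in
/-- radial cut-off at a puncture -/
noncomputable def mP (l : ℝ → ℝ) (p z : ℂ) : ℝ := if z = p then 0 else l (-Real.log ‖z - p‖)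

/-- radial cut-off at infinity -/
noncomputable def mI (l : ℝ → ℝ) (z : ℂ) : ℝ := l (Real.log ‖z‖)

theorem mP_near {l : ℝ → ℝ} {R' : ℝ} (h0 : ∀ s, R' ≤ s → l s = 0) (p : ℂ) :
    ∀ᶠ z in 𝓝 p, mP l p z = 0 := by
  filter_upwards [Metric.ball_mem_nhds p (Real.exp_pos (-R'))] with z hz
  unfold mP
  split_ifs with h
  · rfl
  · apply h0
    have h1 : 0 < ‖z - p‖ := norm_pos_iff.mpr (sub_ne_zero.mpr h)
    have h2 : ‖z - p‖ < Real.exp (-R') := by rw [← dist_eq_norm]; exact hz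
    have h3 := Real.log_lt_log h1 h2
    rw [Real.log_exp] at h3
    linarith

theorem contDiff_mP {l : ℝ → ℝ} (hl : ContDiff ℝ ∞ l) {R' : ℝ} (h0 : ∀ s, R' ≤ s → l s = 0)
    (p : ℂ) : ContDiff ℝ ∞ (mP l p) := by
  rw [contDiff_iff_contDiffAt]
  intro z
  by_cases h : z = p
  · subst h
    exact contDiffAt_const.congr_of_eventuallyEq (mP_near h0 z)
  · have h1 : z - p ≠ 0 := sub_ne_zero.mpr h
    have h2 : ContDiffAt ℝ ∞ (fun x : ℂ => ‖x - p‖) z :=
      (contDiffAt_norm ℝ h1).comp z (contDiffAt_id.sub contDiffAt_const)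
    have h3 : ContDiffAt ℝ ∞ (fun x : ℂ => l (-Real.log ‖x - p‖)) z :=
      hl.contDiffAt.comp z ((h2.log (norm_ne_zero_iff.mpr h1)).neg)
    refine h3.congr_of_eventuallyEq ?_
    filter_upwards [isOpen_ne.mem_nhds h] with x hx
    unfold mP
    rw [if_neg hx]

theorem contDiff_mI {l : ℝ → ℝ} (hl : ContDiff ℝ ∞ l) {R : ℝ} (hR : 0 ≤ R)
    (h1 : ∀ s, s ≤ R → l s = 1) : ContDiff ℝ ∞ (mI l) := by
  rw [contDiff_iff_contDiffAt]
  intro z
  by_cases h : z = 0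
  · subst h
    have h2 : mI l =ᶠ[𝓝 (0:ℂ)] fun _ => 1 := by
      filter_upwards [Metric.ball_mem_nhds (0:ℂ) one_pos] with z hz
      unfold mI
      apply h1
      have h3 : ‖z‖ < 1 := by simpa using hz
      exact (Real.log_nonpos (norm_nonneg z) h3.le).trans hR
    exact contDiffAt_const.congr_of_eventuallyEq h2
  · have h2 : ContDiffAt ℝ ∞ (fun x : ℂ => ‖x‖) z := contDiffAt_norm ℝ h
    exact hl.contDiffAt.comp z (h2.log (norm_ne_zero_iff.mpr h))

/-- the filter of an end -/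
noncomputable def fil (A : Finset ℂ) : Option A → Filter ℂ
  | none => cocompact ℂ
  | some p => 𝓝 (p : ℂ)

/-- the parametrisation of an end -/
noncomputable def emap (A : Finset ℂ) {S : ℝ}
    (h1 : ∀ p ∈ A, ∀ b ∈ A, b ≠ p → Real.exp (-S) ≤ ‖b - p‖)
    (h2 : ∀ b ∈ A, ‖b‖ ≤ Real.exp S) : Option A → EndMap A S
  | none => EndMap.infty A S h2
  | some p => EndMap.punct A p S (h1 p p.2)

theorem one_end {S : ℝ} (hS : 0 ≤ S) (h1 : ∀ p ∈ A, ∀ b ∈ A, b ≠ p → Real.exp (-S) ≤ ‖b - p‖)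
    (h2 : ∀ b ∈ A, ‖b‖ ≤ Real.exp S) (i : Option A) {f : ℂ → Fin N → ℂ}
    (hf : SmE V (emap A h1 h2 i) f)
    (hd1 : ∀ u : ℂ, u.re < -S → V.d1 f ((emap A h1 h2 i).χ u) = 0)
    (hd2 : ∀ u : ℂ, u.re < -S → V.d2 f ((emap A h1 h2 i).χ u) = 0) {ε : ℝ≥0∞} (hε : 0 < ε) :
    ∃ m : ℂ → ℝ, ContDiff ℝ ∞ m ∧ (∀ z, 0 ≤ m z ∧ m z ≤ 1) ∧
      (∀ z, z ∉ (emap A h1 h2 i).χ '' {u | u.re < -(S + 1)} → z ∉ A → m z = 1) ∧
      (∀ᶠ z in fil A i, m z = 0) ∧
      ∫⁻ x in (emap A h1 h2 i).χ '' {u | u.re < -(S + 1)},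
          (ENNReal.ofReal (‖wz (fun x => (m x : ℂ)) x‖ ^ 2 * V.nsq f x) +
            ENNReal.ofReal (‖wb (fun x => (m x : ℂ)) x‖ ^ 2 * V.nsq f x)) < ε := by
  obtain ⟨n⟩ := exists_nf V (emap A h1 h2 i)
  obtain ⟨l, R', hl, hl01, hl1, hl0, hint⟩ :=
    cut_end n (s1 := S + 1) (by linarith) (by linarith) hf hd1 hd2 (S + 1) hε
  cases i with
  | none =>
    have hsm : ContDiff ℝ ∞ (mI l) := contDiff_mI hl (by linarith) hl1
    refine ⟨mI l, hsm, fun z => hl01 _, ?_, ?_, ?_⟩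
    · intro z hz _
      have h3 : z ∉ {x : ℂ | Real.exp (S + 1) < ‖x‖} := by
        rw [← EndMap.infty_image S (S + 1) h2]; exact hz
      have h4 : ‖z‖ ≤ Real.exp (S + 1) := not_lt.mp h3
      apply hl1
      by_cases h0 : z = 0
      · subst h0
        simp only [norm_zero, Real.log_zero]
        linarith
      · exact (Real.log_le_iff_le_exp (norm_pos_iff.mpr h0)).mpr h4
    · show ∀ᶠ z in cocompact ℂ, mI l z = 0
      have h3 : ∀ᶠ z in cocompact ℂ, Real.exp R' < ‖z‖ :=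
        (tendsto_norm_cocompact_atTop (E := ℂ)).eventually_gt_atTop _
      filter_upwards [h3] with z hz
      apply hl0
      exact ((Real.lt_log_iff_exp_lt ((Real.exp_pos _).trans hz)).mpr hz).le
    · refine hint (mI l) ?_ fun u _ => (hsm.differentiable (by simp)) _
      intro u _
      show l (Real.log ‖Complex.exp (-u)‖) = l (-u.re)
      rw [Complex.norm_exp, Real.log_exp, Complex.neg_re]
  | some p =>
    have hsm : ContDiff ℝ ∞ (mP l p) := contDiff_mP hl hl0 p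
    refine ⟨mP l p, hsm, fun z => ?_, ?_, mP_near hl0 p, ?_⟩
    · unfold mP
      split_ifs
      · simp
      · exact hl01 _
    · intro z hz hzA
      have hzp : z ≠ p := by rintro rfl; exact hzA p.2
      have h3 : z ∉ {x : ℂ | 0 < ‖x - p‖ ∧ ‖x - p‖ < Real.exp (-(S + 1))} := by
        rw [← EndMap.punct_image (p : ℂ) S (S + 1) (h1 p p.2)]; exact hz
      have h5 : 0 < ‖z - p‖ := norm_pos_iff.mpr (sub_ne_zero.mpr hzp)
      have h4 : Real.exp (-(S + 1)) ≤ ‖z - p‖ := by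
        by_contra hcon
        exact h3 ⟨h5, not_le.mp hcon⟩
      unfold mP
      rw [if_neg hzp]
      apply hl1
      have h6 := (Real.le_log_iff_exp_le h5).mpr h4
      linarith
    · refine hint (mP l p) ?_ fun u _ => (hsm.differentiable (by simp)) _
      intro u _
      show mP l p ((p : ℂ) + Complex.exp u) = l (-u.re)
      unfold mP
      rw [if_neg (by simp), add_sub_cancel_left, Complex.norm_exp, Real.log_exp]

/-- a good radius -/
theorem exists_radius (A : Finset ℂ) {L : Set ℂ} (hL : IsCompact L) (hLA : L ⊆ (A : Set ℂ)ᶜ) :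
    ∃ S : ℝ, 0 ≤ S ∧ (∀ p ∈ A, ∀ b ∈ A, b ≠ p → 2 * Real.exp (-S) ≤ ‖b - p‖) ∧
      (∀ b ∈ A, ‖b‖ + 1 ≤ Real.exp S) ∧ (∀ p ∈ A, ∀ z ∈ L, Real.exp (-S) ≤ ‖z - p‖) ∧
      ∀ z ∈ L, ‖z‖ ≤ Real.exp S := by
  have h0 : Tendsto (fun s : ℝ => Real.exp (-s)) atTop (𝓝 0) :=
    Real.tendsto_exp_neg_atTop_nhds_zero
  have e1 : ∀ᶠ S in atTop, ∀ p ∈ A, ∀ b ∈ A, b ≠ p → 2 * Real.exp (-S) ≤ ‖b - p‖ := by
    refine (Filter.eventually_all_finset A).mpr fun p _ => (Filter.eventually_all_finset A).mpr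
      fun b _ => ?_
    by_cases hb : b = p
    · exact Eventually.of_forall fun s h => absurd hb h
    · have h4 : 0 < ‖b - p‖ / 2 := by
        have := norm_pos_iff.mpr (sub_ne_zero.mpr hb); linarith
      filter_upwards [h0.eventually_lt_const h4] with s hs _
      linarith
  have e2 : ∀ᶠ S in atTop, ∀ b ∈ A, ‖b‖ + 1 ≤ Real.exp S :=
    (Filter.eventually_all_finset A).mpr fun b _ =>
      Real.tendsto_exp_atTop.eventually_ge_atTop (‖b‖ + 1)
  have e3 : ∀ᶠ S in atTop, ∀ p ∈ A, ∀ z ∈ L, Real.exp (-S) ≤ ‖z - p‖ := by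
    refine (Filter.eventually_all_finset A).mpr fun p hp => ?_
    have h1 : Lᶜ ∈ 𝓝 p := hL.isClosed.isOpen_compl.mem_nhds fun h => hLA h hp
    obtain ⟨δ, hδ, hb⟩ := Metric.mem_nhds_iff.mp h1
    filter_upwards [h0.eventually_lt_const hδ] with s hs z hz
    by_contra hcon
    have h2 : z ∈ Metric.ball p δ := by
      rw [Metric.mem_ball, dist_eq_norm]
      linarith [not_le.mp hcon]
    exact hb h2 hz
  have e4 : ∀ᶠ S in atTop, ∀ z ∈ L, ‖z‖ ≤ Real.exp S := by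
    obtain ⟨M, hM⟩ := hL.isBounded.exists_norm_le
    filter_upwards [Real.tendsto_exp_atTop.eventually_ge_atTop M] with s hs z hz
    exact (hM z hz).trans hs
  obtain ⟨S, hS⟩ := ((eventually_ge_atTop (0:ℝ)).and (e1.and (e2.and (e3.and e4)))).exists
  exact ⟨S, hS.1, hS.2.1, hS.2.2.1, hS.2.2.2.1, hS.2.2.2.2⟩

theorem exists_cut_aux {f : ℂ → Fin N → ℂ} (hf : V.Sm f) {L : Set ℂ} (hL : IsCompact L)
    (hLA : L ⊆ (A : Set ℂ)ᶜ) (hd1 : ∀ z ∉ A, z ∉ L → V.d1 f z = 0)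
    (hd2 : ∀ z ∉ A, z ∉ L → V.d2 f z = 0) {ε : ℝ≥0∞} (hε : 0 < ε) :
    ∃ η : ℂ → ℝ, ContDiff ℝ ∞ η ∧ (∀ z, 0 ≤ η z ∧ η z ≤ 1) ∧ (∀ z ∈ L, η z = 1) ∧
      HasCompactSupport η ∧ tsupport η ⊆ (A : Set ℂ)ᶜ ∧ V.Sm (fun z => η z • f z) ∧
      ∫⁻ x in (A : Set ℂ)ᶜ, (ENNReal.ofReal (V.nsq (V.d1 f - V.d1 (fun z => η z • f z)) x) +
        ENNReal.ofReal (V.nsq (V.d2 f - V.d2 (fun z => η z • f z)) x)) < ε := by
  classical
  obtain ⟨S, hS0, hS1, hS2, hS3, hS4⟩ := exists_radius A hL hLA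
  have h1 : ∀ p ∈ A, ∀ b ∈ A, b ≠ p → Real.exp (-S) ≤ ‖b - p‖ := fun p hp b hb hbp => by
    have := hS1 p hp b hb hbp
    have := Real.exp_pos (-S)
    linarith
  have h2 : ∀ b ∈ A, ‖b‖ ≤ Real.exp S := fun b hb => by
    have := hS2 b hb
    linarith
  set U : Option A → Set ℂ := fun i => (emap A h1 h2 i).χ '' {u | u.re < -(S + 1)} with hU
  have hUo : ∀ i, IsOpen (U i) := fun i => (emap A h1 h2 i).isOpen_image (S + 1)
  have hUA : ∀ i, U i ⊆ (A : Set ℂ)ᶜ := fun i => image_sub (by linarith)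
  have hUn : U none = {x | Real.exp (S + 1) < ‖x‖} := EndMap.infty_image S (S + 1) h2
  have hUs : ∀ p : A, U (some p) = {x : ℂ | 0 < ‖x - (p : ℂ)‖ ∧ ‖x - (p : ℂ)‖ < Real.exp (-(S + 1))} :=
    fun p => EndMap.punct_image (p : ℂ) S (S + 1) (h1 p p.2)
  have hexp : Real.exp (-(S + 1)) ≤ Real.exp (-S) := Real.exp_le_exp.mpr (by linarith)
  have hexp1 : Real.exp (-S) ≤ 1 := by
    rw [← Real.exp_zero]; exact Real.exp_le_exp.mpr (by linarith)
  have hexp2 : Real.exp S ≤ Real.exp (S + 1) := Real.exp_le_exp.mpr (by linarith)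
  -- the ends are disjoint
  have hdisj' : ∀ (p : A) (x : ℂ), x ∈ U (some p) → x ∉ U none := by
    intro p x hx hx2
    rw [hUs] at hx
    rw [hUn] at hx2
    have h3 : ‖x‖ ≤ ‖x - (p : ℂ)‖ + ‖(p : ℂ)‖ := by
      calc ‖x‖ = ‖(x - (p : ℂ)) + p‖ := by rw [sub_add_cancel]
        _ ≤ _ := norm_add_le _ _
    have h4 := hS2 p p.2
    have h5 : Real.exp (S + 1) < ‖x‖ := hx2
    linarith [hx.2]
  have hdisj : ∀ i j, i ≠ j → ∀ x, x ∈ U i → x ∉ U j := by
    intro i j hij x hx hx2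
    rcases i with _ | p <;> rcases j with _ | b
    · exact hij rfl
    · exact hdisj' b x hx2 hx
    · exact hdisj' p x hx hx2
    · have hpb : (b : ℂ) ≠ p := by
        intro h
        exact hij (by rw [Subtype.ext h])
      rw [hUs] at hx hx2
      have h3 := hS1 p p.2 b b.2 hpb
      have h4 : ‖(b : ℂ) - p‖ ≤ ‖x - (p : ℂ)‖ + ‖x - (b : ℂ)‖ := by
        calc ‖(b : ℂ) - p‖ = ‖(x - (p : ℂ)) - (x - (b : ℂ))‖ := by congr 1; ring
          _ ≤ _ := norm_sub_le _ _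
      linarith [hx.2, hx2.2]
  have hLi : ∀ i, ∀ u : ℂ, u.re < -S → (emap A h1 h2 i).χ u ∉ L := by
    intro i u hu hx
    rcases i with _ | p
    · have h3 := hS4 _ hx
      have h4 : ‖(emap A h1 h2 none).χ u‖ = Real.exp (-u.re) := by
        show ‖Complex.exp (-u)‖ = _
        rw [Complex.norm_exp, Complex.neg_re]
      rw [h4] at h3
      have h5 := Real.exp_le_exp.mp h3
      linarith
    · have h3 := hS3 p p.2 _ hx
      have h4 : ‖(emap A h1 h2 (some p)).χ u - p‖ = Real.exp u.re := by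
        show ‖((p : ℂ) + Complex.exp u) - p‖ = _
        rw [add_sub_cancel_left, Complex.norm_exp]
      rw [h4] at h3
      have h5 := Real.exp_le_exp.mp h3
      linarith
  have hLU : ∀ i, ∀ x ∈ U i, x ∉ L := by
    rintro i _ ⟨u, hu, rfl⟩
    have hu' : u.re < -(S + 1) := hu
    exact hLi i u (by linarith)
  -- the cut-off functions of the ends
  obtain ⟨ε', hε', hεs⟩ := ENNReal.exists_pos_sum_of_countable' hε.ne' (Option A)
  have key := fun i : Option A => one_end V hS0 h1 h2 i (f := f) (SmE.of hf)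
    (fun u hu => hd1 _ ((emap A h1 h2 i).avoid u hu) (hLi i u hu))
    (fun u hu => hd2 _ ((emap A h1 h2 i).avoid u hu) (hLi i u hu)) (hε' i)
  choose m hmsm hm01 hm1 hm0 hmint using key
  set η : ℂ → ℝ := fun z => ∏ i, m i z with hη
  have hηsm : ContDiff ℝ ∞ η := contDiff_prod fun i _ => hmsm i
  have hη01 : ∀ z, 0 ≤ η z ∧ η z ≤ 1 := fun z =>
    ⟨Finset.prod_nonneg fun i _ => (hm01 i z).1,
      Finset.prod_le_one (fun i _ => (hm01 i z).1) fun i _ => (hm01 i z).2⟩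
  have hη1 : ∀ z, z ∉ A → (∀ i, z ∉ U i) → η z = 1 := fun z hzA hz =>
    Finset.prod_eq_one fun i _ => hm1 i z (hz i) hzA
  have hηi : ∀ i, ∀ z ∈ U i, η z = m i z := by
    intro i z hz
    show ∏ j, m j z = m i z
    rw [Finset.prod_eq_single i]
    · intro j _ hji
      exact hm1 j z (hdisj i j hji.symm z hz) (hUA i hz)
    · intro h; exact absurd (Finset.mem_univ i) h
  have hηi' : ∀ i, ∀ z ∈ U i, η =ᶠ[𝓝 z] m i := fun i z hz => by
    filter_upwards [(hUo i).mem_nhds hz] with x hx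
    exact hηi i x hx
  have hηd : Differentiable ℝ η := hηsm.differentiable (by simp)
  refine ⟨η, hηsm, hη01, ?_, ?_, ?_, Sm_smulr V (fun z _ => hηsm.contDiffAt) hf, ?_⟩
  · intro z hz
    exact hη1 z (hLA hz) fun i hi => hLU i z hi hz
  · -- compact support
    have h3 : ∀ᶠ z in cocompact ℂ, η z = 0 := by
      filter_upwards [hm0 none] with z hz
      exact Finset.prod_eq_zero (Finset.mem_univ none) hz
    rw [hasCompactSupport_iff_eventuallyEq, Filter.coclosedCompact_eq_cocompact]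
    exact h3
  · intro z hz hzA
    have h3 : ∀ᶠ x in 𝓝 z, η x = 0 := by
      filter_upwards [hm0 (some ⟨z, hzA⟩)] with x hx
      exact Finset.prod_eq_zero (Finset.mem_univ _) hx
    exact (notMem_tsupport_iff_eventuallyEq.mpr h3) hz
  · set F : ℂ → ℝ≥0∞ := fun x =>
      ENNReal.ofReal (V.nsq (V.d1 f - V.d1 (fun z => η z • f z)) x) +
        ENNReal.ofReal (V.nsq (V.d2 f - V.d2 (fun z => η z • f z)) x) with hF
    have hFi : ∀ i, ∀ x ∈ U i, F x = ENNReal.ofReal (‖wz (fun x => (m i x : ℂ)) x‖ ^ 2 * V.nsq f x) +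
            ENNReal.ofReal (‖wb (fun x => (m i x : ℂ)) x‖ ^ 2 * V.nsq f x) := by
      intro i x hx
      have hxA : x ∉ A := hUA i hx
      have hd1x := hd1 x hxA (hLU i x hx)
      have hd2x := hd2 x hxA (hLU i x hx)
      have hev : (fun x => (η x : ℂ)) =ᶠ[𝓝 x] fun x => (m i x : ℂ) :=
        (hηi' i x hx).fun_comp (fun r : ℝ => (r : ℂ))
      have e1 : (V.d1 f - V.d1 (fun z => η z • f z)) x =
          (-wz (fun x => (m i x : ℂ)) x) • f x := by
        rw [Pi.sub_apply, d1_smulr V hxA (hηd x) hf, hd1x, smul_zero, zero_add, zero_sub,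
          wz_congr hev, neg_smul]
      have e2 : (V.d2 f - V.d2 (fun z => η z • f z)) x =
          (-wb (fun x => (m i x : ℂ)) x) • f x := by
        rw [Pi.sub_apply, d2_smulr V hxA (hηd x) hf, hd2x, smul_zero, zero_add, zero_sub,
          wb_congr hev, neg_smul]
      have e3 : V.nsq (V.d1 f - V.d1 (fun z => η z • f z)) x =
          ‖wz (fun x => (m i x : ℂ)) x‖ ^ 2 * V.nsq f x := by
        unfold PVHS.nsq
        rw [e1]
        have h3 := EndC_659.nq_smul (V.H x) (-wz (fun x => (m i x : ℂ)) x) (f x)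
        rw [norm_neg] at h3
        exact h3
      have e4 : V.nsq (V.d2 f - V.d2 (fun z => η z • f z)) x =
          ‖wb (fun x => (m i x : ℂ)) x‖ ^ 2 * V.nsq f x := by
        unfold PVHS.nsq
        rw [e2]
        have h3 := EndC_659.nq_smul (V.H x) (-wb (fun x => (m i x : ℂ)) x) (f x)
        rw [norm_neg] at h3
        exact h3
      rw [hF]
      show ENNReal.ofReal _ + ENNReal.ofReal _ = _
      rw [e3, e4]
    have hF0 : ∀ x ∈ (A : Set ℂ)ᶜ \ ⋃ i, U i, F x = 0 := by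
      rintro x ⟨hxA, hxU⟩
      have hxU' : ∀ i, x ∉ U i := fun i hi => hxU (mem_iUnion.mpr ⟨i, hi⟩)
      have hx1 := hη1 x hxA hxU'
      have hmax : IsLocalMax η x := Eventually.of_forall fun y => by
        rw [hx1]; exact (hη01 y).2
      have hfd := hmax.fderiv_eq_zero
      have h3 : HasFDerivAt (fun x => (η x : ℂ)) (Complex.ofRealCLM.comp (fderiv ℝ η x)) x :=
        Complex.ofRealCLM.hasFDerivAt.comp x (hηd x).hasFDerivAt
      have h4 : fderiv ℝ (fun x => (η x : ℂ)) x = 0 := by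
        rw [h3.fderiv, hfd]
        ext
        · simp
      have e1 : wz (fun x => (η x : ℂ)) x = 0 := by unfold wz; rw [h4]; simp
      have e2 : wb (fun x => (η x : ℂ)) x = 0 := by unfold wb; rw [h4]; simp
      have e3 : (V.d1 f - V.d1 (fun z => η z • f z)) x = 0 := by
        rw [Pi.sub_apply, d1_smulr V hxA (hηd x) hf, hx1, e1]
        simp
      have e4 : (V.d2 f - V.d2 (fun z => η z • f z)) x = 0 := by
        rw [Pi.sub_apply, d2_smulr V hxA (hηd x) hf, hx1, e2]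
        simp
      rw [hF]
      show ENNReal.ofReal _ + ENNReal.ofReal _ = 0
      unfold PVHS.nsq
      rw [e3, e4]
      simp
    have hUm : MeasurableSet (⋃ i, U i) := (isOpen_iUnion hUo).measurableSet
    have hle : ∫⁻ x in (A : Set ℂ)ᶜ, F x ≤ ∫⁻ x in ⋃ i, U i, F x := by
      rw [← lintegral_inter_add_sdiff F (A : Set ℂ)ᶜ hUm]
      have h3 : ∫⁻ x in (A : Set ℂ)ᶜ \ ⋃ i, U i, F x = 0 := by
        rw [setLIntegral_congr_fun (A.finite_toSet.isClosed.measurableSet.compl.diff hUm) hF0]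
        simp
      rw [h3, add_zero]
      exact lintegral_mono_set inter_subset_right
    refine lt_of_le_of_lt hle ?_
    refine lt_of_le_of_lt (lintegral_iUnion_le U F) ?_
    refine lt_of_le_of_lt (ENNReal.tsum_le_tsum fun i => ?_) hεs
    rw [setLIntegral_congr_fun (hUo i).measurableSet (hFi i)]
    exact (hmint i).le

/-- **(I4)**: cut-off -/
theorem exists_cut {f : ℂ → Fin N → ℂ} (hf : V.Sm f) {L : Set ℂ} (hL : IsCompact L)
    (hLA : L ⊆ (A : Set ℂ)ᶜ) (hd1 : ∀ z ∉ A, z ∉ L → V.d1 f z = 0)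
    (hd2 : ∀ z ∉ A, z ∉ L → V.d2 f z = 0) {ε : ℝ≥0∞} (hε : 0 < ε) :
    ∃ η : ℂ → ℝ, ContDiff ℝ ∞ η ∧ (∀ z, 0 ≤ η z ∧ η z ≤ 1) ∧ (∀ᶠ z in 𝓝ˢ L, η z = 1) ∧
      HasCompactSupport η ∧ tsupport η ⊆ (A : Set ℂ)ᶜ ∧ V.Sm (fun z => η z • f z) ∧
      ∫⁻ x in (A : Set ℂ)ᶜ, (ENNReal.ofReal (V.nsq (V.d1 f - V.d1 (fun z => η z • f z)) x) +
        ENNReal.ofReal (V.nsq (V.d2 f - V.d2 (fun z => η z • f z)) x)) < ε := by
  obtain ⟨L', hL', hLL', hL'A⟩ := exists_compact_between hL A.finite_toSet.isClosed.isOpen_compl hLA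
  obtain ⟨η, h1, h2, h3, h4, h5, h6, h7⟩ := exists_cut_aux V hf hL' hL'A
    (fun z hz hzL => hd1 z hz fun h => hzL (interior_subset (hLL' h)))
    (fun z hz hzL => hd2 z hz fun h => hzL (interior_subset (hLL' h))) hε
  refine ⟨η, h1, h2, ?_, h4, h5, h6, h7⟩
  filter_upwards [isOpen_interior.mem_nhdsSet.mpr hLL'] with z hz
  exact h3 z (interior_subset hz)

end main

end Crest.Agent.R276.EndP_659
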