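import Crest.Agent.R276.EndC3_723
import Crest.Agent.R276.RelB_870
import Crest.Agent.R276.EndInd_870

/-!
# Row 276, EndS (helper723): the functions on one fibre of `M_K → M_T`
-/

set_option autoImplicit false
set_option linter.unusedSectionVars false

noncomputable section

open Set Filter Topology MeasureTheory
open scoped ENNReal

namespace Crest.Agent.R276.EndC_723

open Crest.Agent.R271 Crest.Agent.R271.Ho51
open Crest.Agent.R271.Rd692 (continuous_iff_ev continuous_ev lintegral_eq_fibre measurable_fibre)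
open Crest.Agent.R271.Defs710 hiding glue
open Crest.Agent.R273.Dir73 (hol_of_local)
open Crest.Agent.R276.FKDefs_779 Crest.Agent.R276.BC_986
open Crest.Agent.R276.Mod1_987 Crest.Agent.R276.EngU_29 Crest.Agent.R276.SkelDefs_220
open Crest.Agent.R276.BR_590 (cat bs fb bs_cat fb_cat cat_bs_fb)
open Crest.Agent.R276.End_723 (etChart zA_etChart tn zn Growth sb)
open Crest.Agent.R276.TowA_849
open Crest.Agent.R276.PshB_29 (HolMap)

/-! ### holomorphic functions and maps -/

section hol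

variable {n n' : ℕ} {M : Type*} [TopologicalSpace M] [RDom n M]
  {M' : Type*} [TopologicalSpace M'] [RDom n' M']

theorem hol_comp {f : M' → M} (hf : HolMap f) {g : M → ℂ} (hg : Hol g) :
    Hol (fun x => g (f x)) := by
  refine hol_of_local fun x => ⟨ch x, isCh_ch x, mem_ch x, ?_⟩
  have hT : (ch x).target ∈ 𝓝 (cp x) := (ch x).open_target.mem_nhds ((isCh_ch x).cp_mem (mem_ch x))
  have hc : ContinuousAt (fun w => f ((ch x).symm w)) (cp x) := by
    have h1 : ContinuousAt (ch x).symm (cp x) :=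
      (ch x).symm.continuousAt (by simpa using (isCh_ch x).cp_mem (mem_ch x))
    exact hf.cont.continuousAt.comp h1
  have h2 : ∀ᶠ w in 𝓝 (cp x), f ((ch x).symm w) ∈ (ch (f x)).source := by
    apply hc.eventually_mem
    simp only [(isCh_ch x).symm_cp (mem_ch x)]
    exact (ch (f x)).open_source.mem_nhds (mem_ch (f x))
  have heq : ((fun x => g (f x)) ∘ (ch x).symm) =ᶠ[𝓝 (cp x)]
      fun w => (g ∘ (ch (f x)).symm) (fun j => cp (f ((ch x).symm w)) j) := by
    filter_upwards [h2] with w hw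
    simp only [Function.comp_apply]
    rw [(isCh_ch (f x)).symm_cp hw]
  refine DifferentiableAt.congr_of_eventuallyEq ?_ heq
  have hin : DifferentiableAt ℂ (fun w => (fun j => cp (f ((ch x).symm w)) j)) (cp x) := by
    rw [differentiableAt_pi]
    intro j
    exact (hf.hol j (ch x) (isCh_ch x)).differentiableAt hT
  have hx : (fun j => cp (f ((ch x).symm (cp x))) j) = cp (f x) := by
    rw [(isCh_ch x).symm_cp (mem_ch x)]
  have hout : DifferentiableAt ℂ (g ∘ (ch (f x)).symm)
      (fun j => cp (f ((ch x).symm (cp x))) j) := by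
    rw [hx]
    exact (hg _ (isCh_ch (f x))).differentiableAt
      ((ch (f x)).open_target.mem_nhds ((isCh_ch (f x)).cp_mem (mem_ch (f x))))
  exact DifferentiableAt.comp (g := g ∘ (ch (f x)).symm) (cp x) hout hin

lemma hol_const (c : ℂ) : Hol (fun _ : M => c) := fun _ _ => differentiableOn_const c

lemma hol_mul {f g : M → ℂ} (hf : Hol f) (hg : Hol g) : Hol (fun x => f x * g x) :=
  fun e he => (hf e he).mul (hg e he)

lemma hol_pow {f : M → ℂ} (hf : Hol f) (k : ℕ) : Hol (fun x => f x ^ k) :=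
  fun e he => (hf e he).pow k

lemma hol_sum {ι : Type*} (s : Finset ι) {f : ι → M → ℂ} (hf : ∀ i ∈ s, Hol (f i)) :
    Hol (fun x => ∑ i ∈ s, f i x) := fun e he => by
  have h : ((fun x => ∑ i ∈ s, f i x) ∘ e.symm) = fun w => ∑ i ∈ s, (f i ∘ e.symm) w := by
    funext w; rfl
  rw [h]
  exact DifferentiableOn.fun_sum fun i hi => hf i hi e he

lemma hol_prod {ι : Type*} (s : Finset ι) {f : ι → M → ℂ} (hf : ∀ i ∈ s, Hol (f i)) :
    Hol (fun x => ∏ i ∈ s, f i x) := by
  classical
  induction s using Finset.induction_on with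
  | empty => simpa using hol_const (M := M) 1
  | insert i s hi ih =>
    simp only [Finset.prod_insert hi]
    exact hol_mul (hf i (Finset.mem_insert_self i s))
      (ih fun j hj => hf j (Finset.mem_insert_of_mem hj))

end hol

/-! ### the fibre of `M_K → M_T` -/

section tower

variable {T L K : Type} [Field T] [Field L] [Field K] [Algebra ℂ T] [Algebra ℂ L] [Algebra ℂ K]
  [Algebra T L] [Algebra L K] [Algebra T K] [IsScalarTower ℂ T L] [IsScalarTower ℂ L K]
  [IsScalarTower T L K] [IsScalarTower ℂ T K] {ρ a r : ℕ}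
  {MT : Mdl T ρ} {ML : Mdl L (ρ + a)} {MK : Mdl K (ρ + a + r)} (H₁ : Rel MT ML) (H₂ : Rel ML MK)

/-- the tower as 849's `Tow` -/
def tow : Tow T L K ρ a r := ⟨MT, ML, MK, H₁.coord, H₂.coord, H₁.mem, H₂.mem⟩

/-- `M_K → M_T` as a relative model -/
def RTK : RMdl T K ρ (a + r) := (tow H₁ H₂).TK

variable {H₁ H₂} {y₀ : (RTK H₁ H₂).ML.Pts}

/-- the base point as a point of `M_T` -/
def ptT (y₀ : (RTK H₁ H₂).ML.Pts) : MT.Pts := y₀

/-- a point of the fibre as a point of `M_K` -/
def ptK (x : (RTK H₁ H₂).Fib y₀) : MK.Pts := toM (eA ρ a r) MK x.val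

lemma f_ptK (x : (RTK H₁ H₂).Fib y₀) : H₁.f (H₂.f (ptK x)) = ptT y₀ := by
  have h1 := x.q_eq
  have h2 := (tow H₁ H₂).q_TK (ptK x)
  exact h2.symm.trans h1

lemma pz_ptK (x : (RTK H₁ H₂).Fib y₀) (j : Fin (ρ + (a + r))) :
    MK.pz (ptK x) ((eA ρ a r).symm j) = (RTK H₁ H₂).MK.pz x.val j := rfl

lemma eA_symm_natAdd_castAdd (i : Fin a) :
    (eA ρ a r).symm (Fin.natAdd ρ (Fin.castAdd r i)) = Fin.castAdd r (Fin.natAdd ρ i) := by
  apply Fin.ext; simp [eA]

lemma eA_symm_natAdd_natAdd (i : Fin r) :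
    (eA ρ a r).symm (Fin.natAdd ρ (Fin.natAdd a i)) = Fin.natAdd (ρ + a) i := by
  apply Fin.ext; simp [eA]; omega

/-- the coordinates of a point of the fibre -/
lemma cp_fib_left (x : (RTK H₁ H₂).Fib y₀) (i : Fin a) :
    cp x (Fin.castAdd r i) = MK.pz (ptK x) (Fin.castAdd r (Fin.natAdd ρ i)) := by
  rw [← eA_symm_natAdd_castAdd]
  rfl

lemma cp_fib_right (x : (RTK H₁ H₂).Fib y₀) (i : Fin r) :
    cp x (Fin.natAdd a i) = MK.pz (ptK x) (Fin.natAdd (ρ + a) i) := by
  rw [← eA_symm_natAdd_natAdd]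
  rfl

lemma pz_base (x : (RTK H₁ H₂).Fib y₀) (i : Fin ρ) :
    MK.pz (ptK x) (Fin.castAdd r (Fin.castAdd a i)) = MT.pz (ptT y₀) i := by
  have h1 : MK.pz (ptK x) (Fin.castAdd r (Fin.castAdd a i)) =
      bs (MK.pz (ptK x)) (Fin.castAdd a i) := rfl
  rw [h1, rel_pz H₂]
  have h2 : ML.pz (H₂.f (ptK x)) (Fin.castAdd a i) = bs (ML.pz (H₂.f (ptK x))) i := rfl
  rw [h2, rel_pz H₁, f_ptK]

theorem holMap_ptK : HolMap (ptK : (RTK H₁ H₂).Fib y₀ → MK.Pts) := by
  refine ⟨?_, fun j => ?_⟩
  · exact RMdl.Fib.continuous_val (R := RTK H₁ H₂) y₀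
  · have hj : ∃ j', (eA ρ a r).symm j' = j := ⟨eA ρ a r j, by simp⟩
    obtain ⟨j', rfl⟩ := hj
    refine Fin.addCases (fun i => ?_) (fun i => ?_) j'
    · have h1 : (fun x : (RTK H₁ H₂).Fib y₀ => cp (ptK x) ((eA ρ a r).symm (Fin.castAdd (a + r) i))) =
          fun _ => MT.pz (ptT y₀) i := by
        funext x
        rw [eA_symm_castAdd]
        exact pz_base x i
      rw [h1]
      exact hol_const _
    · have h1 : (fun x : (RTK H₁ H₂).Fib y₀ => cp (ptK x) ((eA ρ a r).symm (Fin.natAdd ρ i))) =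
          fun x => cp x i := rfl
      rw [h1]
      intro e he
      have h1 : DifferentiableOn ℂ (fun z : Fin (a + r) → ℂ => z i) e.target :=
        (differentiable_apply i).differentiableOn
      exact h1.congr fun z hz => by simp only [Function.comp_apply]; rw [he.cp_symm hz]

lemma hol_ev_ptK (b : MK.B) : Hol (fun x : (RTK H₁ H₂).Fib y₀ => ptK x b) :=
  hol_comp holMap_ptK (MK.hol51_ev b)

/-- functions on `M_L` which are holomorphic along the slice -/
theorem hol_of_holS {g : ML.Pts → ℂ} (hg : HolS ML (eL ρ a) (MT.pz (ptT y₀)) g) :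
    Hol (fun x : (RTK H₁ H₂).Fib y₀ => g (H₂.f (ptK x))) := by
  refine hol_of_local fun x => ⟨ch x, isCh_ch x, mem_ch x, ?_⟩
  have hT : (ch x).target ∈ 𝓝 (cp x) := (ch x).open_target.mem_nhds ((isCh_ch x).cp_mem (mem_ch x))
  have htc : ∀ x : (RTK H₁ H₂).Fib y₀, tc ML (eL ρ a) (H₂.f (ptK x)) = MT.pz (ptT y₀) := by
    intro x
    funext i
    unfold tc eL
    rw [finSumFinEquiv_apply_left, ← rel_pz H₂]
    exact pz_base x i
  have hxc : ∀ x : (RTK H₁ H₂).Fib y₀, xc ML (eL ρ a) (H₂.f (ptK x)) = bs (cp x) := by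
    intro x
    funext i
    unfold xc eL
    rw [finSumFinEquiv_apply_right, ← rel_pz H₂]
    exact (cp_fib_left x i).symm
  set z₀ := H₂.f (ptK x) with hz₀
  have han := hg z₀ (htc x)
  have hcf : Continuous (fun y : MK.Pts => H₂.f y) := (holMap_comp ML MK H₂.incl).cont
  have hc : ContinuousAt (fun w => H₂.f (ptK ((ch x).symm w))) (cp x) := by
    have h1 : ContinuousAt (ch x).symm (cp x) :=
      (ch x).symm.continuousAt (by simpa using (isCh_ch x).cp_mem (mem_ch x))
    exact (hcf.comp holMap_ptK.cont).continuousAt.comp h1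
  have h2 : ∀ᶠ w in 𝓝 (cp x), H₂.f (ptK ((ch x).symm w)) ∈ (ch z₀).source := by
    apply hc.eventually_mem
    simp only [(isCh_ch x).symm_cp (mem_ch x)]
    exact (ch z₀).open_source.mem_nhds (mem_ch z₀)
  have heq : ((fun x : (RTK H₁ H₂).Fib y₀ => g (H₂.f (ptK x))) ∘ (ch x).symm) =ᶠ[𝓝 (cp x)]
      (fun v : Cn a => g ((ch z₀).symm (glue (eL ρ a) (MT.pz (ptT y₀)) v))) ∘ bsL a r := by
    filter_upwards [h2, hT] with w hw hwT
    simp only [Function.comp_apply]
    congr 1
    have h3 := (isCh_ch z₀).symm_cp hw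
    rw [← h3]
    congr 1
    have h4 : bs (cp ((ch x).symm w)) = bs w := by rw [(isCh_ch x).cp_symm hwT]
    have h5 := hxc ((ch x).symm w)
    have h6 := htc ((ch x).symm w)
    rw [h4] at h5
    funext j
    unfold glue
    obtain ⟨s, rfl⟩ := (eL ρ a).surjective j
    rw [Equiv.symm_apply_apply]
    rcases s with i | i
    · simp only [Sum.elim_inl]
      exact congrFun h6 i
    · simp only [Sum.elim_inr, bsL_apply]
      exact congrFun h5 i
  refine DifferentiableAt.congr_of_eventuallyEq ?_ heq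
  have h7 : (bsL a r) (cp x) = xc ML (eL ρ a) z₀ := (hxc x).symm
  refine DifferentiableAt.comp (cp x) ?_ (bsL a r).differentiableAt
  rw [h7]
  exact han.differentiableAt

end tower

end Crest.Agent.R276.EndC_723
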