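import Crest.Agent.R276.EndS_723

/-!
# Row 276, EndT (helper723): composition `C1 … C4, Flat, … ⟹ EndData`, auxiliary lemmas

* `inh_of_hom` : homogeneous independence implies inhomogeneous independence;
* `evs_eq_sum`, `hol_evs`;
* `alg_le` : the pointwise inequality on the fibre.
-/

set_option autoImplicit false
set_option linter.unusedSectionVars false

noncomputable section

open Set Filter Topology MeasureTheory
open scoped ENNReal

namespace Crest.Agent.R276.EndC_723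

open Crest.Agent.R271 Crest.Agent.R271.Ho51
open Crest.Agent.R271.Rd692 (continuous_iff_ev continuous_ev lintegral_eq_fibre measurable_fibre)
open Crest.Agent.R271.Defs710 hiding glue
open Crest.Agent.R273.Dir73 (hol_of_local)
open Crest.Agent.R276.FKDefs_779 Crest.Agent.R276.BC_986
open Crest.Agent.R276.Mod1_987 Crest.Agent.R276.EngU_29 Crest.Agent.R276.SkelDefs_220
open Crest.Agent.R276.BR_590 (cat bs fb bs_cat fb_cat cat_bs_fb)
open Crest.Agent.R276.End_723 (etChart zA_etChart tn zn Growth sb)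
open Crest.Agent.R276.TowA_849
open Crest.Agent.R276.PshB_29 (HolMap)

/-! ### independence -/

section ind

open MvPolynomial Crest.Agent.R276.EndInd_870

theorem inh_of_hom {Y : Type*} {q : ℕ} (t : Y → Fin (q + 1) → ℂ)
    (h : ∀ (Δ : ℕ) (Q : MvPolynomial (Fin (q + 1)) ℂ), Q.IsHomogeneous Δ →
      (∀ y, eval (t y) Q = 0) → Q = 0)
    (P : MvPolynomial (Fin q) ℂ) (hP : P ≠ 0) :
    ∃ y, t y 0 ≠ 0 ∧ eval (fun i => t y i.succ / t y 0) P ≠ 0 := by
  set N : ℕ := P.totalDegree + 1 with hN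
  set Q : MvPolynomial (Fin (q + 1)) ℂ := hz (C : ℂ →+* MvPolynomial (Fin (q + 1)) ℂ) N (X 0)
    (fun i => X i.succ) P with hQ
  have hhom : Q.IsHomogeneous N := by
    rw [hQ]
    unfold hz
    refine IsHomogeneous.sum _ _ _ fun ν hν => ?_
    have h1 : ∑ i ∈ ν.support, ν i ≤ N := (sum_le_totalDegree hν).trans (Nat.le_succ _)
    have h2 : (∏ i ∈ ν.support, (X i.succ : MvPolynomial (Fin (q + 1)) ℂ) ^ ν i).IsHomogeneous
        (∑ i ∈ ν.support, ν i) := by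
      refine IsHomogeneous.prod _ _ _ fun i _ => ?_
      exact isHomogeneous_X_pow _ _
    have h3 : ((X 0 : MvPolynomial (Fin (q + 1)) ℂ) ^ (N - ∑ i ∈ ν.support, ν i)).IsHomogeneous
        (N - ∑ i ∈ ν.support, ν i) := isHomogeneous_X_pow _ _
    have h4 := (isHomogeneous_C (Fin (q + 1)) (P.coeff ν)).mul (h2.mul h3)
    rwa [zero_add, Nat.add_sub_of_le h1] at h4
  have hQ0 : Q ≠ 0 := by
    intro h0
    obtain ⟨x, hx⟩ : ∃ x : Fin q → ℂ, eval x P ≠ 0 := by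
      by_contra hcon
      push Not at hcon
      exact hP (MvPolynomial.funext fun x => by rw [hcon x, map_zero])
    apply hx
    have h1 := congrArg (eval (Fin.cons 1 x : Fin (q + 1) → ℂ)) h0
    rw [map_zero, hQ, map_hz] at h1
    have h2 : ((eval (Fin.cons 1 x : Fin (q + 1) → ℂ)).comp
        (C : ℂ →+* MvPolynomial (Fin (q + 1)) ℂ)) = RingHom.id ℂ := by
      ext c; simp
    rw [h2, hz_eq (RingHom.id ℂ) (by simp) _ (Nat.le_succ _)] at h1
    simp only [eval_X, Fin.cons_zero, one_pow, one_mul, Fin.cons_succ, div_one] at h1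
    exact h1
  obtain ⟨y, hy⟩ : ∃ y, eval (t y) Q ≠ 0 := by
    by_contra hcon
    push Not at hcon
    exact hQ0 (h N Q hhom hcon)
  have h2 : ((eval (t y)).comp (C : ℂ →+* MvPolynomial (Fin (q + 1)) ℂ)) = RingHom.id ℂ := by
    ext c; simp
  have h3 : eval (t y) Q = hz (RingHom.id ℂ) N (t y 0) (fun i => t y i.succ) P := by
    rw [hQ, map_hz, h2]
    simp only [eval_X]
  rw [h3] at hy
  have h0 : t y 0 ≠ 0 := by
    intro h0
    rw [h0] at hy
    exact hy (hz_zero _ _ (Nat.lt_succ_self _))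
  refine ⟨y, h0, fun h4 => hy ?_⟩
  rw [hz_eq _ h0 _ (Nat.le_succ _)]
  have h5 : eval₂ (RingHom.id ℂ) (fun i => t y i.succ / t y 0) P =
    eval (fun i => t y i.succ / t y 0) P := rfl
  rw [h5, h4, mul_zero]

/-- independence of the union -/
theorem ind_tower {Y G : Type*} (q : Y → G) {d e : ℕ} (τ : Fin (d + 1) → Y → ℂ)
    (w : Fin (e + 1) → G → ℂ)
    (h1 : ∀ z : G, ∀ (Δ : ℕ) (Q : MvPolynomial (Fin (d + 1)) ℂ), Q.IsHomogeneous Δ →
      (∀ y, q y = z → eval (fun i => τ i y) Q = 0) → Q = 0)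
    (h2 : ∀ (Δ : ℕ) (Q : MvPolynomial (Fin (e + 1)) ℂ), Q.IsHomogeneous Δ →
      (∀ z, eval (fun j => w j z) Q = 0) → Q = 0)
    (P : MvPolynomial (Fin d ⊕ Fin e) ℂ) (hP : P ≠ 0) :
    ∃ x, τ 0 x ≠ 0 ∧ w 0 (q x) ≠ 0 ∧
      eval (Sum.elim (fun i => τ i.succ x / τ 0 x) (fun j => w j.succ (q x) / w 0 (q x))) P ≠ 0 := by
  refine ind_union q (⊤ : Subalgebra ℂ (G → ℂ)) (τ 0) (fun i : Fin d => τ i.succ) (w 0)
    (fun j : Fin e => w j.succ) trivial (fun _ => trivial) (fun PA hPA => ?_)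
    (fun Q hQ => inh_of_hom (fun z j => w j z) h2 Q hQ) P hP
  obtain ⟨ν, hν⟩ := ne_zero_iff.1 hPA
  obtain ⟨z, hz⟩ : ∃ z : G, evA (⊤ : Subalgebra ℂ (G → ℂ)) z (PA.coeff ν) ≠ 0 := by
    by_contra hcon
    push Not at hcon
    exact hν (Subtype.ext (funext fun z => hcon z))
  have hz' : map (evA (⊤ : Subalgebra ℂ (G → ℂ)) z) PA ≠ 0 := by
    intro h0
    apply hz
    rw [← coeff_map, h0, coeff_zero]
  obtain ⟨y, hy0, hy1⟩ := inh_of_hom (Y := {y : Y // q y = z}) (fun y i => τ i y.1)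
    (fun Δ Q hQ h => h1 z Δ Q hQ fun y hy => h ⟨y, hy⟩) _ hz'
  refine ⟨y.1, hy0, ?_⟩
  rw [y.2]
  rw [eval_map] at hy1
  exact hy1

end ind

/-! ### the flat sections are holomorphic on the fibre -/

section evs

variable {K : Type} [Field K] [Algebra ℂ K] {m r : ℕ} {MK : Mdl K (m + r)}

lemma evs_eq_sum {s k : ℕ} {P : MvPolynomial (Fin s) ℂ} (hP : P.IsHomogeneous k)
    (u : Fin s → MK.B) (y : MK.Pts) : evs u P y =
      ∑ ν ∈ (Finset.univ : Finset (Fin s)).finsuppAntidiag k,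
        P.coeff ν * ∏ j, y (u j) ^ ν j := by
  unfold evs
  rw [MvPolynomial.eval_eq']
  refine Finset.sum_subset (fun ν hν => ?_) fun ν _ hν => ?_
  · rw [Finset.mem_finsuppAntidiag]
    refine ⟨?_, Finset.subset_univ _⟩
    have h1 : ν.degree = k := by
      by_contra hcon
      exact (MvPolynomial.mem_support_iff.1 hν) (hP.coeff_eq_zero hcon)
    rw [← h1, Finsupp.degree_eq_sum]
  · rw [MvPolynomial.notMem_support_iff.1 hν, zero_mul]

end evs

section tower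

variable {T L K : Type} [Field T] [Field L] [Field K] [Algebra ℂ T] [Algebra ℂ L] [Algebra ℂ K]
  [Algebra T L] [Algebra L K] [Algebra T K] [IsScalarTower ℂ T L] [IsScalarTower ℂ L K]
  [IsScalarTower T L K] [IsScalarTower ℂ T K] {ρ a r : ℕ}
  {MT : Mdl T ρ} {ML : Mdl L (ρ + a)} {MK : Mdl K (ρ + a + r)} {H₁ : Rel MT ML} {H₂ : Rel ML MK}
  {y₀ : (RTK H₁ H₂).ML.Pts}

open scoped Classical in
theorem hol_evs {s k : ℕ} (u : Fin s → MK.B) {P : ML.Pts → MvPolynomial (Fin s) ℂ}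
    (hP : ∀ z, H₁.f z = ptT y₀ → (P z).IsHomogeneous k)
    (hh : ∀ μ, HolS ML (eL ρ a) (MT.pz (ptT y₀)) fun z =>
      if H₁.f z = ptT y₀ then (P z).coeff μ else 0) :
    Hol (fun x : (RTK H₁ H₂).Fib y₀ => evs u (P (H₂.f (ptK x))) (ptK x)) := by
  have h1 : (fun x : (RTK H₁ H₂).Fib y₀ => evs u (P (H₂.f (ptK x))) (ptK x)) =
      fun x => ∑ ν ∈ (Finset.univ : Finset (Fin s)).finsuppAntidiag k,
        (if H₁.f (H₂.f (ptK x)) = ptT y₀ then (P (H₂.f (ptK x))).coeff ν else 0) *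
          ∏ j, ptK x (u j) ^ ν j := by
    funext x
    rw [evs_eq_sum (hP _ (f_ptK x))]
    refine Finset.sum_congr rfl fun ν _ => ?_
    rw [if_pos (f_ptK x)]
  rw [h1]
  refine hol_sum _ fun ν _ => hol_mul (hol_of_holS (hh ν)) ?_
  exact hol_prod _ fun j _ => hol_pow (hol_ev_ptK (u j)) _

lemma hol_w (b : ML.B) : Hol (fun x : (RTK H₁ H₂).Fib y₀ => H₂.f (ptK x) b) :=
  hol_ev_ptK (H₂.incl b)

end tower

/-! ### the pointwise inequality -/

/-- real form -/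
lemma alg_le {Tv wv b1 b2 C Dv sg c0 Wv J A a1 μ εN x p : ℝ} {t e₀ : ℕ} (hT : 0 ≤ Tv)
    (hw : 0 ≤ wv) (hb1 : 0 ≤ b1) (hb2 : 0 ≤ b2) (hC : 0 ≤ C) (hD : 0 < Dv) (hc0 : 0 < c0)
    (hsg : 0 ≤ sg) (hJ : 0 ≤ J) (he₀ : 0 < e₀) (hμ0 : 0 ≤ μ)
    (hμ : μ * εN = t) (hA : A = μ * a1) (hA0 : 0 < A) (hx : x = A / e₀ - 1) (hx0 : 0 ≤ x)
    (h1 : Tv ^ (2 * a1 / p) ≤ b1 * (C / Dv ^ εN)) (h2 : sg * Dv ^ (t : ℝ) = c0)
    (h3 : Wv ≤ J * b2) (h4 : wv ^ 2 ≤ Wv) :
    Tv ^ (2 / p) * wv ^ (2 / (e₀ : ℝ)) ≤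
      (C ^ μ * J / c0) ^ (1 / A) * (b1 ^ μ * (b2 * sg * Wv ^ x)) ^ (1 / A) := by
  have he : (0 : ℝ) < e₀ := by exact_mod_cast he₀
  have hW : 0 ≤ Wv := (sq_nonneg wv).trans h4
  have hDt : 0 < Dv ^ (t : ℝ) := Real.rpow_pos_of_pos hD _
  have e1 : Tv ^ (2 * A / p) ≤ b1 ^ μ * (C ^ μ * sg / c0) := by
    have h5 : Tv ^ (2 * A / p) = (Tv ^ (2 * a1 / p)) ^ μ := by
      rw [← Real.rpow_mul hT]
      congr 1
      rw [hA]; ring
    have h6 : (b1 * (C / Dv ^ εN)) ^ μ = b1 ^ μ * (C ^ μ / Dv ^ (t : ℝ)) := by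
      have h7 : εN * μ = t := by rw [mul_comm]; exact hμ
      rw [Real.mul_rpow hb1 (by positivity), Real.div_rpow hC (by positivity),
        ← Real.rpow_mul hD.le, h7]
    have h8 : C ^ μ / Dv ^ (t : ℝ) = C ^ μ * sg / c0 := by
      rcases eq_or_lt_of_le hsg with h9 | h9
      · rw [← h9, zero_mul] at h2
        exact absurd h2 hc0.ne
      · rw [← h2]
        field_simp
    rw [h5, ← h8, ← h6]
    exact Real.rpow_le_rpow (by positivity) h1 hμ0
  have e2 : wv ^ (2 * A / e₀) ≤ J * b2 * Wv ^ x := by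
    have h5 : wv ^ (2 * A / e₀) = (wv ^ 2) ^ (A / e₀) := by
      rw [← Real.rpow_natCast wv 2, ← Real.rpow_mul hw]
      congr 1
      push_cast; ring
    have h6 : Wv ^ (A / e₀) = Wv * Wv ^ x := by
      have h7 : A / e₀ = 1 + x := by rw [hx]; ring
      rw [h7, Real.rpow_add_of_nonneg hW zero_le_one hx0, Real.rpow_one]
    rw [h5]
    calc (wv ^ 2) ^ (A / e₀) ≤ Wv ^ (A / e₀) :=
          Real.rpow_le_rpow (by positivity) h4 (by positivity)
      _ = Wv * Wv ^ x := h6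
      _ ≤ J * b2 * Wv ^ x := by gcongr
  have e3 : (Tv ^ (2 / p) * wv ^ (2 / (e₀ : ℝ))) ^ A ≤
      (C ^ μ * J / c0) * (b1 ^ μ * (b2 * sg * Wv ^ x)) := by
    rw [Real.mul_rpow (by positivity) (by positivity), ← Real.rpow_mul hT, ← Real.rpow_mul hw]
    have h5 : (2 / p * A : ℝ) = 2 * A / p := by ring
    have h6 : (2 / (e₀ : ℝ) * A : ℝ) = 2 * A / e₀ := by ring
    rw [h5, h6]
    calc Tv ^ (2 * A / p) * wv ^ (2 * A / e₀)
        ≤ (b1 ^ μ * (C ^ μ * sg / c0)) * (J * b2 * Wv ^ x) :=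
          mul_le_mul e1 e2 (by positivity) (by positivity)
      _ = _ := by ring
  have e4 : Tv ^ (2 / p) * wv ^ (2 / (e₀ : ℝ)) =
      ((Tv ^ (2 / p) * wv ^ (2 / (e₀ : ℝ))) ^ A) ^ (1 / A) := by
    rw [← Real.rpow_mul (by positivity), mul_one_div_cancel hA0.ne', Real.rpow_one]
  rw [e4, ← Real.mul_rpow (by positivity) (by positivity)]
  exact Real.rpow_le_rpow (by positivity) e3 (by positivity)

end Crest.Agent.R276.EndC_723
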