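import Crest.Agent.R276.EndT_723

/-!
# Row 276, EndU (helper723): the integral over a fibre of `M_K → M_T`
-/

set_option autoImplicit false
set_option linter.unusedSectionVars false

noncomputable section

open Set Filter Topology MeasureTheory
open scoped ENNReal

namespace Crest.Agent.R276.EndC_723

open Crest.Agent.R271 Crest.Agent.R271.Ho51
open Crest.Agent.R271.Rd692 (continuous_iff_ev continuous_ev lintegral_eq_fibre measurable_fibre)
open Crest.Agent.R271.Defs710 hiding glue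
open Crest.Agent.R276.FKDefs_779 Crest.Agent.R276.BC_986
open Crest.Agent.R276.Mod1_987 Crest.Agent.R276.EngU_29 Crest.Agent.R276.SkelDefs_220
open Crest.Agent.R276.BR_590 (cat bs fb bs_cat fb_cat cat_bs_fb)
open Crest.Agent.R276.End_723 (etChart zA_etChart tn zn Growth sb)
open Crest.Agent.R276.TowA_849
open Crest.Agent.R276.CInd_870 (rm rm_q)
open Crest.Agent.R276.RelB_870 (fint_tower countable_base tc_eL)

section rel

variable {L K : Type} [Field L] [Field K] [Algebra ℂ L] [Algebra ℂ K] [Algebra L K]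
  [IsScalarTower ℂ L K] {m r : ℕ} {ML : Mdl L m} {MK : Mdl K (m + r)}

/-- the fibre coordinates -/
def xK (p : MK.Pts) : Cn r := fun j => MK.pz p (Fin.natAdd m j)

lemma measurable_sum_fib (H : Rel ML MK) (z : ML.Pts) {g g' : MK.Pts → ℝ≥0∞} (hg' : Measurable g')
    (h : ∀ y, H.f y = z → g y = g' y) :
    Measurable fun ξ : Cn r => ∑' p : {p : MK.Pts // H.f p = z ∧ xK p = ξ}, g p.1 := by
  have h1 := (rm H).measurable_fsumR hg' z
  have h2 : (fun ξ : Cn r => ∑' p : {p : MK.Pts // H.f p = z ∧ xK p = ξ}, g p.1) =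
      (rm H).fsumR g' z := by
    funext ξ
    unfold RMdl.fsumR
    let e : {p : MK.Pts // H.f p = z ∧ xK p = ξ} ≃
        {y : (rm H).MK.Pts // (rm H).q y = z ∧ (rm H).x y = ξ} :=
      Equiv.subtypeEquivRight fun y => by
        rw [rm_q]
        exact Iff.rfl
    refine Eq.trans ?_ (e.tsum_eq (fun y : {y : (rm H).MK.Pts // (rm H).q y = z ∧
      (rm H).x y = ξ} => g' y.1))
    exact tsum_congr fun y => h y.1 y.2.1
  rw [h2]
  exact h1

lemma fint_const_mul (H : Rel ML MK) (z : ML.Pts) {c : ℝ≥0∞} (hc : c ≠ ∞) (g : MK.Pts → ℝ≥0∞) :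
    H.fint z (fun y => c * g y) = c * H.fint z g := by
  unfold Rel.fint
  rw [← lintegral_const_mul' _ _ hc]
  exact lintegral_congr fun ξ => ENNReal.tsum_mul_left

end rel

section tower

variable {T L K : Type} [Field T] [Field L] [Field K] [Algebra ℂ T] [Algebra ℂ L] [Algebra ℂ K]
  [Algebra T L] [Algebra L K] [Algebra T K] [IsScalarTower ℂ T L] [IsScalarTower ℂ L K]
  [IsScalarTower T L K] [IsScalarTower ℂ T K] {ρ a r : ℕ}
  {MT : Mdl T ρ} {ML : Mdl L (ρ + a)} {MK : Mdl K (ρ + a + r)} {H₁ : Rel MT ML} {H₂ : Rel ML MK}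
  {y₀ : (RTK H₁ H₂).ML.Pts}

lemma cp_eq_append (x : (RTK H₁ H₂).Fib y₀) :
    Fin.append (xc ML (eL ρ a) (H₂.f (ptK x))) (xK (ptK x)) = cp x := by
  funext j
  refine Fin.addCases (fun i => ?_) (fun i => ?_) j
  · rw [Fin.append_left, cp_fib_left]
    unfold xc eL
    rw [finSumFinEquiv_apply_right, ← rel_pz H₂]
    rfl
  · rw [Fin.append_right, cp_fib_right]
    rfl

/-- the points of the fibre with coordinates `ζ` -/
def eqFib (y₀ : (RTK H₁ H₂).ML.Pts) (ζ : Cn (a + r)) :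
    {x : (RTK H₁ H₂).Fib y₀ // cp x = ζ} ≃ {p : MK.Pts // H₁.f (H₂.f p) = ptT y₀ ∧
      Fin.append (xc ML (eL ρ a) (H₂.f p)) (xK p) = ζ} where
  toFun x := ⟨ptK x.1, f_ptK x.1, (cp_eq_append x.1).trans x.2⟩
  invFun p :=
    let x : (RTK H₁ H₂).Fib y₀ := ⟨p.1, ((tow H₁ H₂).q_TK p.1).trans p.2.1⟩
    ⟨x, (cp_eq_append x).symm.trans p.2.2⟩
  left_inv _ := rfl
  right_inv _ := rfl

theorem lintegral_fib {ν : Measure ((RTK H₁ H₂).Fib y₀)} (hν : IsLeb ν) {g : MK.Pts → ℝ≥0∞}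
    (hg : Measurable fun x : (RTK H₁ H₂).Fib y₀ => g (ptK x)) (gz : ML.Pts → MK.Pts → ℝ≥0∞)
    (hgz : ∀ z, Measurable (gz z)) (hgg : ∀ y, g y = gz (H₂.f y) y) :
    ∫⁻ x, g (ptK x) ∂ν = ∫⁻ ξ : Cn a,
      ∑' z : {z : ML.Pts // H₁.f z = ptT y₀ ∧ xc ML (eL ρ a) z = ξ}, H₂.fint z.1 g := by
  have hsum : ∀ ζ : Cn (a + r), ∑' x : {x : (RTK H₁ H₂).Fib y₀ // cp x = ζ}, g (ptK x.1) =
      ∑' p : {p : MK.Pts // H₁.f (H₂.f p) = ptT y₀ ∧
        Fin.append (xc ML (eL ρ a) (H₂.f p)) (xK p) = ζ}, g p.1 := by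
    intro ζ
    exact (eqFib y₀ ζ).tsum_eq (fun p : {p : MK.Pts // H₁.f (H₂.f p) = ptT y₀ ∧
        Fin.append (xc ML (eL ρ a) (H₂.f p)) (xK p) = ζ} => g p.1)
  rw [lintegral_eq_fibre hν hg, lintegral_congr hsum]
  have hm := measurable_fibre (M := (RTK H₁ H₂).Fib y₀) hg
  rw [show (fun ζ : Fin (a + r) → ℂ => ∑' y : {y : (RTK H₁ H₂).Fib y₀ // cp y = ζ},
    g (ptK y.1)) = fun ζ => _ from funext hsum] at hm
  refine fint_tower (fun y : MK.Pts => H₂.f y) (fun z : ML.Pts => H₁.f z)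
    (xc ML (eL ρ a)) xK g (ptT y₀) (fun ξ => ?_) (fun z => ?_) hm
  · have hcb := countable_base ML (Fin.append (MT.pz (ptT y₀)) ξ)
    refine Function.Injective.countable (f := fun z : {z : ML.Pts // H₁.f z = ptT y₀ ∧
      xc ML (eL ρ a) z = ξ} => (⟨z.1, ?_⟩ : {w : ML.Pts // ∀ i, w (ML.z i) =
        (Fin.append (MT.pz (ptT y₀)) ξ : Cn (ρ + a)) i})) ?_
    · intro i
      refine Fin.addCases (fun i => ?_) (fun i => ?_) i
      · rw [Fin.append_left]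
        have h1 := congrFun (rel_pz H₁ z.1) i
        rw [z.2.1] at h1
        exact h1
      · rw [Fin.append_right]
        have h1 := congrFun z.2.2 i
        unfold xc eL at h1
        rw [finSumFinEquiv_apply_right] at h1
        exact h1
    · intro z z' h
      exact Subtype.ext (Subtype.mk.inj h)
  · exact measurable_sum_fib H₂ z (hgz z) fun y hy => by rw [hgg, hy]

theorem lintegral_fib_lt {ν : Measure ((RTK H₁ H₂).Fib y₀)} (hν : IsLeb ν) {g : MK.Pts → ℝ≥0∞}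
    (hg : Measurable fun x : (RTK H₁ H₂).Fib y₀ => g (ptK x)) (gz : ML.Pts → MK.Pts → ℝ≥0∞)
    (hgz : ∀ z, Measurable (gz z)) (hgg : ∀ y, g y = gz (H₂.f y) y) {C : ℝ≥0∞} (hC : C ≠ ∞)
    {Wr : ML.Pts → ℝ≥0∞} (hle : ∀ z : ML.Pts, H₁.f z = ptT y₀ → H₂.fint z g ≤ C * Wr z)
    (hW : sint ML (eL ρ a) (MT.pz (ptT y₀)) Wr < ∞) : ∫⁻ x, g (ptK x) ∂ν < ∞ := by
  rw [lintegral_fib hν hg gz hgz hgg]
  refine lt_of_le_of_lt ?_ (ENNReal.mul_lt_top hC.lt_top hW)
  unfold sint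
  rw [← lintegral_const_mul' _ _ hC]
  refine lintegral_mono fun ξ => ?_
  beta_reduce
  rw [← ENNReal.tsum_mul_left]
  let ι : {z : ML.Pts // H₁.f z = ptT y₀ ∧ xc ML (eL ρ a) z = ξ} →
      {z : ML.Pts // tc ML (eL ρ a) z = MT.pz (ptT y₀) ∧ xc ML (eL ρ a) z = ξ} :=
    fun z => ⟨z.1, by rw [tc_eL H₁, z.2.1], z.2.2⟩
  have hι : Function.Injective ι := fun z z' h => Subtype.ext (Subtype.mk.inj h)
  calc ∑' z : {z : ML.Pts // H₁.f z = ptT y₀ ∧ xc ML (eL ρ a) z = ξ}, H₂.fint z.1 g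
      ≤ ∑' z : {z : ML.Pts // H₁.f z = ptT y₀ ∧ xc ML (eL ρ a) z = ξ}, C * Wr (ι z).1 :=
        ENNReal.tsum_le_tsum fun z => hle z.1 z.2.1
    _ ≤ _ := ENNReal.tsum_comp_le_tsum_of_injective hι
        (fun z : {z : ML.Pts // tc ML (eL ρ a) z = MT.pz (ptT y₀) ∧ xc ML (eL ρ a) z = ξ} =>
          C * Wr z.1)

end tower

end Crest.Agent.R276.EndC_723
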