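import Crest.Agent.R276.EndU_723
import Crest.Agent.R276.FK1_779

/-!
# Row 276, EndV (helper723): the composition
`C1, C2, C3, C4, Flat, CJ, CInd, CNz, TCh ⟹ KapGeF ℂ K (d + e)`.
-/

set_option autoImplicit false
set_option linter.unusedSectionVars false

noncomputable section

open Set Filter Topology MeasureTheory
open scoped ENNReal

namespace Crest.Agent.R276.EndC_723

open Crest.Agent.R271 Crest.Agent.R271.Ho51
open Crest.Agent.R271.Rd692 (continuous_iff_ev continuous_ev lintegral_eq_fibre measurable_fibre)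
open Crest.Agent.R271.Defs710 hiding glue
open Crest.Agent.R276.FKDefs_779 Crest.Agent.R276.BC_986
open Crest.Agent.R276.Mod1_987 Crest.Agent.R276.EngU_29 Crest.Agent.R276.SkelDefs_220
open Crest.Agent.R276.BR_590 (cat bs fb bs_cat fb_cat cat_bs_fb)
open Crest.Agent.R276.End_723 (etChart zA_etChart tn zn Growth sb)
open Crest.Agent.R276.TowA_849
open Crest.Agent.R276.RelB_870 (tc_eL)

/-! ### algebra -/

section alg

variable {K : Type} [Field K] [Algebra ℂ K]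

/-- `dz` is a basis -/
theorem exists_basis_mdl {n : ℕ} (M : Mdl K n) : ∃ b : Module.Basis (Fin n) K (Ω[K⁄ℂ]),
    ∀ i, b i = KaehlerDifferential.D ℂ K (M.zK i) := by
  have h1 := M.het
  apply FK1_779.exists_basis_of_formallyEtale
  let _ : Algebra (MvPolynomial (Fin n) ℂ) M.B :=
    ((MvPolynomial.aeval M.z : MvPolynomial (Fin n) ℂ →ₐ[ℂ] M.B) :
      MvPolynomial (Fin n) ℂ →+* M.B).toAlgebra
  have h2 : Algebra.Etale (MvPolynomial (Fin n) ℂ) M.B := h1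
  have h3 : Algebra.FormallyEtale (MvPolynomial (Fin n) ℂ) M.B := inferInstance
  let _ : Algebra (MvPolynomial (Fin n) ℂ) K :=
    ((MvPolynomial.aeval M.zK : MvPolynomial (Fin n) ℂ →ₐ[ℂ] K) :
      MvPolynomial (Fin n) ℂ →+* K).toAlgebra
  have h4 : IsScalarTower (MvPolynomial (Fin n) ℂ) M.B K := by
    refine IsScalarTower.of_algebraMap_eq fun p => ?_
    change MvPolynomial.aeval M.zK p = ((MvPolynomial.aeval M.z p : M.B) : K)
    have h5 : (fun i => algebraMap M.B K (M.z i)) = M.zK := rfl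
    rw [← h5]
    exact MvPolynomial.aeval_algebraMap_apply K M.z p
  have h5 : Algebra.FormallyEtale M.B K :=
    Algebra.FormallyEtale.of_isLocalization (nonZeroDivisors M.B)
  have h6 : Algebra.FormallyEtale (MvPolynomial (Fin n) ℂ) K :=
    Algebra.FormallyEtale.comp (MvPolynomial (Fin n) ℂ) M.B K
  exact h6

theorem kapGeF_mono {d D : ℕ} (h : d ≤ D) (hK : KapGeF ℂ K D) : KapGeF ℂ K d := by
  obtain ⟨n, A, z, b, hA, hb, H⟩ := hK
  refine ⟨n, A, z, b, hA, hb, fun S hS hdiv => ?_⟩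
  obtain ⟨m, hm, f, hf, hind⟩ := H S hS hdiv
  refine ⟨m, hm, fun i => f (Fin.castLE (Nat.succ_le_succ h) i), fun i => hf _, ?_⟩
  have h1 := hind.comp (fun i : Fin d => Fin.castLE h i) (Fin.castLE_injective h)
  exact h1

end alg

/-! ### the composition -/

lemma enorm_rpow {x : ℂ} {p : ℝ} (hp : 0 ≤ p) : ‖x‖ₑ ^ p = ENNReal.ofReal (‖x‖ ^ p) := by
  rw [← ofReal_norm, ENNReal.ofReal_rpow_of_nonneg (norm_nonneg _) hp]

section tower

variable {T L K : Type} [Field T] [Field L] [Field K] [Algebra ℂ T] [Algebra ℂ L] [Algebra ℂ K]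
  [Algebra T L] [Algebra L K] [Algebra T K] [IsScalarTower ℂ T L] [IsScalarTower ℂ L K]
  [IsScalarTower T L K] [IsScalarTower ℂ T K] {ρ a r : ℕ}
  {MT : Mdl T ρ} {ML : Mdl L (ρ + a)} {MK : Mdl K (ρ + a + r)} {H₁ : Rel MT ML} {H₂ : Rel ML MK}

/-- **frame bound of the product weight** -/
theorem bdd_prod {N s e₀ e t k' : ℕ} {w : Fin (e + 1) → ML.B} {D : ML.Pts → ℝ}
    {ε μ x κ A : ℝ} {σ : ML.B} {b₁ : MK.Pts → ℝ} {b₂ : ML.Pts → ℝ}
    (he₀ : 0 < e₀) (hD : ∀ z, 0 < D z) (hTC : TCh H₁ H₂)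
    (hμ0 : 0 ≤ μ) (hμ : μ * (ε * N) = t) (hA : A = μ * (s * (1 + ε * N))) (hA0 : 0 < A)
    (hx : x = A / e₀ - 1) (hx0 : 0 ≤ x) (hκ : 0 < κ) (hb₁ : LPsh b₁) (hb₂ : LPsh b₂)
    {V : ValuationSubring K} (hdiv : IsDiv ℂ (ρ + a + r) V)
    (h1 : BdK H₁ H₂ V fun Y ζ => b₁ (Y.cK.s ζ) * ‖Y.jF ζ‖ ^ (2 * s * (1 + ε * N)) /
      D (H₂.f (Y.cK.s ζ)) ^ (ε * N))
    (h2 : BdL H₁ H₂ V fun Y η =>
      b₂ (Y.cL.s η) * ‖Y.jG η‖ ^ 2 * ‖Y.cL.J η‖ ^ (2 * (e₀ - 1)))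
    (h3 : BdL H₁ H₂ V fun Y η => Wf w (Y.cL.s η) * ‖Y.cL.J η‖ ^ (2 * e₀))
    (h4 : BdL H₁ H₂ V fun Y η =>
      ‖Y.cL.s η σ‖ ^ (2 / (k' : ℝ)) * ‖Y.jN η‖ ^ 2 * D (Y.cL.s η) ^ (t : ℝ) *
        (1 + ∑ i, ‖tc ML (eL ρ a) (Y.cL.s η) i‖ ^ 2) ^ κ) :
    End_723.Bdd (etChart (RTK H₁ H₂).MK)
      (fun y => B0 H₂ b₁ b₂ σ k' w μ x (toM (eA ρ a r) MK y) ^ (1 / A)) (sb ρ (a + r)) (κ / A) V := by
  classical
  obtain ⟨F1, G1, hF1, hG1, B1⟩ := h1
  obtain ⟨F2, G2, hF2, hG2, B2⟩ := h2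
  obtain ⟨F3, G3, hF3, hG3, B3⟩ := h3
  obtain ⟨F4, G4, hF4, hG4, B4⟩ := h4
  have hb := (lpsh_B0 (H := H₂) (σ := σ) (k := k') (w := w) hb₁ hb₂ hμ0 hx0).rpow
    (c := 1 / A) (by positivity)
  have key := bdd_of_logB (R := V) hTC hdiv hb (κ := κ / A) (by positivity)
    (F1 ∪ F2 ∪ F3 ∪ F4) (G1 ∪ G2 ∪ G3 ∪ G4)
    (fun f hf => by
      simp only [Finset.mem_union] at hf
      rcases hf with ((hf | hf) | hf) | hf
      · exact hF1 f hf
      · exact hF2 f hf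
      · exact hF3 f hf
      · exact hF4 f hf)
    (fun f hf => by
      simp only [Finset.mem_union] at hf
      rcases hf with ((hf | hf) | hf) | hf
      · exact hG1 f hf
      · exact hG2 f hf
      · exact hG3 f hf
      · exact hG4 f hf)
    (fun Y hY hF hG => logB_prod Y hD he₀ hμ0 hμ hA hA0 hx hx0 (fun y => hb₁.nonneg y)
      (fun z => hb₂.nonneg z)
      (B1 Y hY (fun f hf => hF f (by simp only [Finset.mem_union]; tauto))
        (fun f hf => hG f (by simp only [Finset.mem_union]; tauto)))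
      (B2 Y hY (fun f hf => hF f (by simp only [Finset.mem_union]; tauto))
        (fun f hf => hG f (by simp only [Finset.mem_union]; tauto)))
      (B3 Y hY (fun f hf => hF f (by simp only [Finset.mem_union]; tauto))
        (fun f hf => hG f (by simp only [Finset.mem_union]; tauto)))
      (B4 Y hY (fun f hf => hF f (by simp only [Finset.mem_union]; tauto))
        (fun f hf => hG f (by simp only [Finset.mem_union]; tauto))))
  have h5 := bdd_reindex (Nat.add_assoc ρ a r) MK _ _ _ _ key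
  have h6 : (sT ρ a r).map (finCongr (Nat.add_assoc ρ a r)).toEmbedding = sb ρ (a + r) := sT_map
  rw [h6] at h5
  exact h5

open scoped Classical in
/-- **the data of the endgame** -/
theorem exists_endData {N s e₀ d e : ℕ} {u : Fin s → MK.B} {w : Fin (e + 1) → ML.B}
    {D : ML.Pts → ℝ} {ε : ℝ} (hN : 0 < N) (hs : 0 < s) (he₀ : 0 < e₀) (hε : 0 < ε)
    (hD : ∀ z, 0 < D z) (hTC : TCh H₁ H₂)
    (h1 : ∀ k : ℕ, 0 < k → ∃ b₁, C1 H₁ H₂ N k u D ε b₁) (h2 : ∃ b₂, C2 H₁ H₂ w e₀ b₂)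
    (h3 : C3 H₁ H₂ w e₀) (h4 : C4 H₁ H₂ D) (hF : Flat H₁ H₂ N d u D ε) (hJ : CJ ML w e₀)
    (hNz : CNz H₁) {e' : ℕ} (ι : Fin (e' + 1) → Fin (e + 1))
    (hι : ∀ᵐ c : Cn ρ, ∀ y : MT.Pts, MT.pz y = c →
      ∀ (Δ : ℕ) (Q : MvPolynomial (Fin (e' + 1)) ℂ), Q.IsHomogeneous Δ →
        (∀ z : ML.Pts, H₁.f z = y → MvPolynomial.eval (fun i => z (w (ι i))) Q = 0) → Q = 0)
    (S : Set (ValuationSubring K)) (hS : S.Finite) (hdiv : ∀ V ∈ S, IsDiv ℂ (ρ + (a + r)) V) :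
    Nonempty (End_723.EndData (RTK H₁ H₂) S d e') := by
  obtain ⟨b₂, hb₂⟩ := h2
  choose b₁ hb₁ using h1
  have hdiv' : ∀ V ∈ S, IsDiv ℂ (ρ + a + r) V := fun V hV => by
    rw [Nat.add_assoc]; exact hdiv V hV
  obtain ⟨t, hte, k', σ, κ, hk', hσ, hκ, hσb, hσc⟩ := h4 S hS hdiv' e₀
  have ht0 : 0 < t := lt_of_lt_of_le he₀ hte
  have hN0 : (0 : ℝ) < N := by exact_mod_cast hN
  have hs0 : (1 : ℝ) ≤ s := by exact_mod_cast hs
  have he₀' : (0 : ℝ) < e₀ := by exact_mod_cast he₀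
  have ht1 : (e₀ : ℝ) ≤ t := by exact_mod_cast hte
  have htpos : (0 : ℝ) < t := by exact_mod_cast ht0
  have hεN : 0 < ε * N := by positivity
  set μ : ℝ := t / (ε * N) with hμd
  have hμ0 : 0 < μ := by positivity
  have hμ : μ * (ε * N) = t := by rw [hμd]; field_simp
  set a1 : ℝ := s * (1 + ε * N) with ha1
  set A : ℝ := μ * a1 with hA
  have hA1 : (t : ℝ) ≤ A := by
    have h5 : A = s * (μ + t) := by rw [hA, ha1, ← hμ]; ring
    rw [h5]
    nlinarith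
  have hA0 : 0 < A := htpos.trans_le hA1
  set x : ℝ := A / e₀ - 1 with hx
  have hx0 : 0 ≤ x := by
    have h5 : 1 ≤ A / e₀ := by rw [one_le_div he₀']; linarith
    rw [hx]; linarith
  -- the generic point
  have hgen : ∀ᵐ c : Cn ρ, (MvPolynomial.eval c MT.h ≠ 0) ∧
      (∀ k (hk : 0 < k), ∀ z : ML.Pts, tc ML (eL ρ a) z = c →
        ∀ P : MvPolynomial (Fin s) ℂ, P.IsHomogeneous k →
        Ieps H₂ N k u ε z (evs u P) ≠ ∞ → ∀ y : MK.Pts, H₂.f y = z →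
        ‖evs u P y‖ₑ ^ (2 * s * (1 + ε * N) / (k * N)) ≤
          ENNReal.ofReal (b₁ k hk y) * Ieps H₂ N k u ε z (evs u P)) := by
    refine (Null956.ae_eval_ne MT.h_ne).and ?_
    rw [ae_all_iff]
    intro k
    by_cases hk : 0 < k
    · filter_upwards [(hb₁ k hk).low] with c hc _
      exact hc
    · exact Eventually.of_forall fun c hk' => absurd hk' hk
  obtain ⟨c, ⟨hch, hc1⟩, hc2, hc4, hcF, hcJ, hcι, hcNz⟩ :=
    (hgen.and (hb₂.low.and (hσc.and (hF.and (hJ.and (hι.and (hNz σ hσ))))))).exists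
  obtain ⟨yT, hyT⟩ := MT.surj hch
  let y₀ : (RTK H₁ H₂).ML.Pts := yT
  have hy₀ : MT.pz (ptT y₀) = c := hyT
  obtain ⟨k, P, C₀, hk, hPhom, hPhol, hPz⟩ := hcF (ptT y₀) hy₀
  obtain ⟨c₀, hc₀⟩ := hc4 (ptT y₀) hy₀
  obtain ⟨z₁, hz₁, hz₁σ⟩ := hcNz (ptT y₀) hy₀
  have hc₀pos : 0 < c₀ := by
    rw [← hc₀ z₁ hz₁]
    have := hD z₁
    have := norm_pos_iff.2 hz₁σ
    positivity
  set C : ℝ := max C₀ 0 with hC
  have hC0 : 0 ≤ C := le_max_right _ _
  set J : ℝ≥0∞ := (e + 1) * sint ML (eL ρ a) c (fun z' => ENNReal.ofReal (Wf w z') ^ (1 / (e₀ : ℝ)))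
    with hJd
  have hJt : J ≠ ∞ := by
    rw [hJd]
    exact ENNReal.mul_ne_top (by finiteness) hcJ.ne
  have hk0 : (0 : ℝ) < k := by exact_mod_cast hk
  have hkN : (0 : ℝ) < k * N := by positivity
  obtain ⟨ν, hν⟩ := Ho51.exists_leb (M := (RTK H₁ H₂).Fib y₀)
  have tcz : ∀ x : (RTK H₁ H₂).Fib y₀, tc ML (eL ρ a) (H₂.f (ptK x)) = c := fun x => by
    rw [tc_eL H₁, f_ptK, hy₀]
  have hHol : ∀ i, Hol (fun x : (RTK H₁ H₂).Fib y₀ => evs u (P i (H₂.f (ptK x))) (ptK x)) :=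
    fun i => hol_evs u (hPhom i) (hPhol i)
  refine ⟨{
    B := fun y => B0 H₂ (b₁ k hk) b₂ σ k' w μ x (toM (eA ρ a r) MK y) ^ (1 / A)
    psh := fun l => ?_
    growth := ?_
    bdd := fun V hV => ⟨κ / A, by positivity, ?_⟩
    y₀ := y₀
    ν := ν
    leb := hν
    τ := fun i x => evs u (P i (H₂.f (ptK x))) (ptK x)
    w := fun j x => H₂.f (ptK x) (w (ι j))
    hτ := hHol
    hw := fun j => hol_w (w (ι j))
    N₁ := k * N
    e₀ := e₀
    N₁_pos := by positivity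
    e₀_pos := he₀
    C := (C ^ μ * J.toReal / c₀) ^ (1 / A)
    le := fun i j x => ?_
    int := fun i j => ?_
    ind := fun Q hQ => ?_ }⟩
  · -- psh
    exact lpsh_reindex (eA ρ a r) MK (((lpsh_B0 (H := H₂) (σ := σ) (k := k') (w := w)
      (hb₁ k hk).psh hb₂.psh hμ0.le hx0).rpow (c := 1 / A) (by positivity)).pow l)
  · -- growth
    refine growth_reindex (eA ρ a r) MK (b := fun y => B0 H₂ (b₁ k hk) b₂ σ k' w μ x y ^ (1 / A))
      (fun y => ?_) ?_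
    · exact Real.rpow_nonneg (B0_nonneg (fun y => (hb₁ k hk).psh.nonneg y)
        (fun z => hb₂.psh.nonneg z) y) _
    · exact pgr_rpow (fun y => B0_nonneg (fun y => (hb₁ k hk).psh.nonneg y)
        (fun z => hb₂.psh.nonneg z) y) (pgr_B0 (hb₁ k hk).gr hb₂.gr
          (fun y => (hb₁ k hk).psh.nonneg y) (fun z => hb₂.psh.nonneg z) hμ0.le hx0) (by positivity)
  · -- bdd
    exact bdd_prod he₀ hD hTC hμ0.le hμ hA hA0 hx hx0 hκ (hb₁ k hk).psh hb₂.psh (hdiv' V hV)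
      ((hb₁ k hk).bd V (hdiv' V hV)) (hb₂.bd V (hdiv' V hV)) (h3 V (hdiv' V hV)) (hσb V hV)
  · -- le
    set y : MK.Pts := ptK x with hy
    set z : ML.Pts := H₂.f y with hz
    have hzT : H₁.f z = ptT y₀ := f_ptK x
    have hDz := hD z
    have hDr : 0 < D z ^ (ε * N) := Real.rpow_pos_of_pos hDz _
    have hb1 := (hb₁ k hk).psh.nonneg y
    have hb2 := hb₂.psh.nonneg z
    have hI : Ieps H₂ N k u ε z (evs u (P i z)) ≤ ENNReal.ofReal (C / D z ^ (ε * N)) := by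
      rw [ENNReal.ofReal_div_of_pos hDr, ENNReal.le_div_iff_mul_le
        (Or.inl (by simpa using hDr)) (Or.inl ENNReal.ofReal_ne_top)]
      exact ((hPz z hzT).2.1 i).trans (ENNReal.ofReal_le_ofReal (le_max_left _ _))
    have g1 : ‖evs u (P i z) y‖ ^ (2 * a1 / (k * N)) ≤ b₁ k hk y * (C / D z ^ (ε * N)) := by
      have e1 := hc1 k hk z (tcz x) (P i z) (hPhom i z hzT)
        (ne_top_of_le_ne_top ENNReal.ofReal_ne_top hI) y rfl
      have e2 : (2 * s * (1 + ε * N) / (k * N) : ℝ) = 2 * a1 / (k * N) := by rw [ha1]; ring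
      have e3 : 0 ≤ 2 * a1 / (k * N : ℝ) := by positivity
      rw [e2, enorm_rpow e3] at e1
      have e4 := e1.trans (mul_le_mul_right hI _)
      rw [← ENNReal.ofReal_mul hb1] at e4
      exact (ENNReal.ofReal_le_ofReal_iff (by positivity)).1 e4
    have g3 : Wf w z ≤ J.toReal * b₂ z := by
      have e1 := hc2 hcJ.ne z (tcz x)
      have e2 := ENNReal.toReal_mono (ENNReal.mul_ne_top hJt ENNReal.ofReal_ne_top) e1
      rwa [ENNReal.toReal_ofReal (Wf_nonneg w z), ENNReal.toReal_mul,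
        ENNReal.toReal_ofReal hb2] at e2
    have g4 : ‖z (w (ι j))‖ ^ 2 ≤ Wf w z :=
      Finset.single_le_sum (f := fun j => ‖z (w j)‖ ^ 2) (fun j _ => by positivity)
        (Finset.mem_univ (ι j))
    have g5 := alg_le (e₀ := e₀) (p := k * N) (norm_nonneg (evs u (P i z) y))
      (norm_nonneg (z (w (ι j)))) hb1 hb2 hC0 hDz hc₀pos (by positivity) ENNReal.toReal_nonneg he₀
      hμ0.le hμ hA hA0 hx hx0 g1 (hc₀ z hzT) g3 g4
    have g6 : ((k * N : ℕ) : ℝ) = k * N := by push_cast; ring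
    rw [g6]
    exact g5
  · -- int
    have g6 : ((k * N : ℕ) : ℝ) = k * N := by push_cast; ring
    have hp : 0 ≤ (2 : ℝ) / (k * N : ℕ) := by positivity
    have hcev : ∀ Q : MvPolynomial (Fin s) ℂ, Continuous fun y : MK.Pts => evs u Q y := by
      intro Q
      have h5 : (fun y : MK.Pts => evs u Q y) = fun y => y (MvPolynomial.aeval u Q) := by
        funext y
        unfold evs
        rw [← MvPolynomial.aeval_eq_eval]
        exact (MvPolynomial.comp_aeval_apply u y Q).symm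
      rw [h5]
      exact continuous_ev _
    refine lintegral_fib_lt hν (g := fun y => ENNReal.ofReal
      (‖evs u (P i (H₂.f y)) y‖ ^ (2 / ((k * N : ℕ) : ℝ)) *
        ‖H₂.f y (w (ι j))‖ ^ (2 / (e₀ : ℝ)))) ?_
      (fun z y => ENNReal.ofReal (‖evs u (P i z) y‖ ^ (2 / ((k * N : ℕ) : ℝ)) *
        ‖z (w (ι j))‖ ^ (2 / (e₀ : ℝ)))) (fun z => ?_) (fun y => rfl) (C := ENNReal.ofReal C)
      ENNReal.ofReal_ne_top (Wr := fun z => ENNReal.ofReal (Wf w z) ^ (1 / (e₀ : ℝ)))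
      (fun z hz => ?_) (by rw [hy₀]; exact hcJ)
    · refine Measurable.ennreal_ofReal ?_
      have c1 : Continuous (fun x : (RTK H₁ H₂).Fib y₀ => evs u (P i (H₂.f (ptK x))) (ptK x)) :=
        (Crest.Agent.R273.OTA_34.hol_of _ (hHol i)).sm.continuous
      have c2 : Continuous (fun x : (RTK H₁ H₂).Fib y₀ => H₂.f (ptK x) (w (ι j))) :=
        (Crest.Agent.R273.OTA_34.hol_of _ (hol_w (w (ι j)))).sm.continuous
      exact (c1.norm.measurable.pow_const _).mul (c2.norm.measurable.pow_const _)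
    · exact (((hcev (P i z)).norm.measurable.pow_const _).mul_const _).ennreal_ofReal
    · have e1 : H₂.fint z (fun y => ENNReal.ofReal
          (‖evs u (P i (H₂.f y)) y‖ ^ (2 / ((k * N : ℕ) : ℝ)) *
            ‖H₂.f y (w (ι j))‖ ^ (2 / (e₀ : ℝ)))) =
          H₂.fint z (fun y => ENNReal.ofReal (‖z (w (ι j))‖ ^ (2 / (e₀ : ℝ))) *
            ‖evs u (P i z) y‖ₑ ^ (2 / (k * N : ℝ))) := by
        refine RelB_870.fint_congr H₂ fun y hy => ?_
        rw [hy, mul_comm, ENNReal.ofReal_mul (by positivity), ← g6, enorm_rpow hp]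
      rw [e1, fint_const_mul H₂ z ENNReal.ofReal_ne_top]
      have e2 : ENNReal.ofReal (‖z (w (ι j))‖ ^ (2 / (e₀ : ℝ))) ≤
          ENNReal.ofReal (Wf w z) ^ (1 / (e₀ : ℝ)) := by
        rw [ENNReal.ofReal_rpow_of_nonneg (Wf_nonneg w z) (by positivity)]
        apply ENNReal.ofReal_le_ofReal
        have g4 : ‖z (w (ι j))‖ ^ 2 ≤ Wf w z :=
          Finset.single_le_sum (f := fun j => ‖z (w j)‖ ^ 2) (fun j _ => by positivity)
            (Finset.mem_univ (ι j))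
        have g7 : ‖z (w (ι j))‖ ^ (2 / (e₀ : ℝ)) = (‖z (w (ι j))‖ ^ 2) ^ (1 / (e₀ : ℝ)) := by
          rw [← Real.rpow_natCast, ← Real.rpow_mul (norm_nonneg _)]
          congr 1
          push_cast; ring
        rw [g7]
        exact Real.rpow_le_rpow (by positivity) g4 (by positivity)
      have e3 := ((hPz z hz).1 i).trans (ENNReal.ofReal_le_ofReal (le_max_left C₀ 0))
      rw [mul_comm (ENNReal.ofReal C)]
      exact mul_le_mul' e2 e3
  · -- ind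
    exact ind_tower (G := {z : ML.Pts // H₁.f z = ptT y₀})
      (fun x : (RTK H₁ H₂).Fib y₀ => ⟨H₂.f (ptK x), f_ptK x⟩)
      (fun i x => evs u (P i (H₂.f (ptK x))) (ptK x)) (fun j z => z.1 (w (ι j)))
      (fun z Δ R hR hR0 => (hPz z.1 z.2).2.2 Δ R hR fun y hy => by
        let x : (RTK H₁ H₂).Fib y₀ := ⟨y, ((tow H₁ H₂).q_TK y).trans (by
          change H₁.f (H₂.f y) = _
          rw [hy]
          exact z.2)⟩
        have h5 : MvPolynomial.eval (fun i => evs u (P i (H₂.f y)) y) R = 0 :=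
          hR0 x (Subtype.ext hy)
        rw [hy] at h5
        exact h5)
      (fun Δ R hR hR0 => hcι (ptT y₀) hy₀ Δ R hR fun z hz => hR0 ⟨z, hz⟩) Q hQ

/-- **the composition** -/
theorem kapGeF_comp' {N s e₀ d e : ℕ} {u : Fin s → MK.B} {w : Fin (e + 1) → ML.B}
    {D : ML.Pts → ℝ} {ε : ℝ} (H₁ : Rel MT ML) (H₂ : Rel ML MK)
    (hN : 0 < N) (hs : 0 < s) (he₀ : 0 < e₀) (hε : 0 < ε)
    (hD : ∀ z, 0 < D z) (hTC : TCh H₁ H₂)
    (h1 : ∀ k : ℕ, 0 < k → ∃ b₁, C1 H₁ H₂ N k u D ε b₁) (h2 : ∃ b₂, C2 H₁ H₂ w e₀ b₂)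
    (h3 : C3 H₁ H₂ w e₀) (h4 : C4 H₁ H₂ D) (hF : Flat H₁ H₂ N d u D ε) (hJ : CJ ML w e₀)
    (hI : CInd H₁ w) : KapGeF ℂ K (d + e) := by
  obtain ⟨e', ι, he', hι⟩ := hI
  obtain ⟨b, hb⟩ := exists_basis_mdl (RTK H₁ H₂).MK
  refine kapGeF_mono (D := (d + e') + ρ) (by omega) ?_
  exact End_723.kapGeF_end (RTK H₁ H₂) rfl hb fun S hS hdiv =>
    exists_endData hN hs he₀ hε hD hTC h1 h2 h3 h4 hF hJ (CInd_870.cNz H₁) ι hι S hS hdiv

end tower

/-- **THE COMPOSITION** (no compatibility instances needed) -/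
theorem kapGeF_comp {T L K : Type} [Field T] [Field L] [Field K] [Algebra ℂ T] [Algebra ℂ L]
    [Algebra ℂ K] [Algebra T L] [Algebra L K] [IsScalarTower ℂ T L] [IsScalarTower ℂ L K]
    {ρ a r : ℕ} {MT : Mdl T ρ} {ML : Mdl L (ρ + a)} {MK : Mdl K (ρ + a + r)}
    {N s e₀ d e : ℕ} {u : Fin s → MK.B} {w : Fin (e + 1) → ML.B}
    {D : ML.Pts → ℝ} {ε : ℝ} (H₁ : Rel MT ML) (H₂ : Rel ML MK)
    (hN : 0 < N) (hs : 0 < s) (he₀ : 0 < e₀) (hε : 0 < ε)
    (hD : ∀ z, 0 < D z) (hTC : TCh H₁ H₂)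
    (h1 : ∀ k : ℕ, 0 < k → ∃ b₁, C1 H₁ H₂ N k u D ε b₁) (h2 : ∃ b₂, C2 H₁ H₂ w e₀ b₂)
    (h3 : C3 H₁ H₂ w e₀) (h4 : C4 H₁ H₂ D) (hF : Flat H₁ H₂ N d u D ε) (hJ : CJ ML w e₀)
    (hI : CInd H₁ w) : KapGeF ℂ K (d + e) := by
  let _ : Algebra T K := ((algebraMap L K).comp (algebraMap T L)).toAlgebra
  have _ : IsScalarTower T L K := IsScalarTower.of_algebraMap_eq fun _ => rfl
  have _ : IsScalarTower ℂ T K := IsScalarTower.of_algebraMap_eq fun c => by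
    change algebraMap ℂ K c = algebraMap L K (algebraMap T L (algebraMap ℂ T c))
    rw [← IsScalarTower.algebraMap_apply ℂ T L, ← IsScalarTower.algebraMap_apply ℂ L K]
  exact kapGeF_comp' H₁ H₂ hN hs he₀ hε hD hTC h1 h2 h3 h4 hF hJ hI

/-- the geometric output `GeoOut` implies the geometric core (non degenerate case) -/
theorem core_of_geoOut (hG : GeoOut) (K : Type) [Field K] [Algebra ℂ K] (L : IntermediateField ℂ K)
    (h1 : FGF ℂ K) (h2 : ∀ a : K, IsAlgebraic L a → a ∈ L)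
    (h3 : BetaDefs_231.Honest ℂ K) (h4 : BetaDefs_231.Honest ℂ L) (h5 : BetaDefs_231.Honest L K)
    (r₀ m₀ : ℕ) (hr : 0 < r₀) (hm : 0 < m₀) (b₁ : Module.Basis (Fin r₀) K (Ω[K⁄L]))
    (b₂ : Module.Basis (Fin m₀) L (Ω[L⁄ℂ])) (d e : ℕ) (hd : KapGeS L K d)
    (he : KapGeS ℂ L e) : KapGeF ℂ K (d + e) := by
  obtain ⟨T, ρ, a, r, N, s, e₀, MT, ML, MK, H₁, H₂, u, w, D, ε, hN, hs, he₀, hε, hCY, -, -, hTC,
    g1, g2, g3, g4, gF, gJ, gI, -⟩ := hG K L h1 h2 h3 h4 h5 r₀ m₀ hr hm b₁ b₂ d e hd he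
  exact kapGeF_comp H₁ H₂ hN hs he₀ hε (fun z => (hCY z).1) hTC g1 g2 g3 g4 gF gJ gI

end Crest.Agent.R276.EndC_723
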