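import Mathlib

/-!
# R276 leaf EXPLC (helper932)

A positive log-concave function on the real line whose translates span a finite-dimensional space
(an "exponential polynomial") is `C * exp (a c)`.

* `Explc_932.affine_of_slopes`: a concave function all of whose consecutive slopes agree is affine.
* `Explc_932.growth_le`: a nonzero function with finite-dimensional space of translates which is
  `O(exp (a c))` at `+oo` and `O(exp (b c))` at `-oo` has `b <= a`.
* `Explc_932.explc`: the general statement.
* `Explc_932.explc_exp`: `f c = l (exp (c X) w)`.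
* `Explc_932.explc_form`: `f c = Q (exp (c X) w) w` for a sesquilinear form.
* `Explc_932.not_integrable`: `exp (b c) * f c` is never integrable on the line.
-/

set_option autoImplicit false

namespace Crest.Agent.R276.Explc_932

open Filter Topology Asymptotics

/-! ### concave functions -/

theorem affine_of_slopes {g : ℝ → ℝ}
    (h : ∀ x y z : ℝ, x < y → y < z → (g z - g y) / (z - y) = (g y - g x) / (y - x)) :
    ∀ c, g c = g 0 + (g 1 - g 0) * c := by
  intro c
  rcases lt_trichotomy c 0 with hc | rfl | hc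
  · have h1 := h c 0 1 hc one_pos
    have : (0 : ℝ) - c ≠ 0 := by linarith
    field_simp at h1
    linarith
  · ring
  · rcases lt_trichotomy c 1 with h1 | rfl | h1
    · have h2 := h 0 c 1 hc h1
      have e1 : (1 : ℝ) - c ≠ 0 := by linarith
      have e2 : c - 0 ≠ 0 := by linarith
      rw [div_eq_div_iff e1 e2] at h2
      linarith
    · ring
    · have h2 := h 0 1 c one_pos h1
      have e1 : c - 1 ≠ 0 := by linarith
      have e2 : (1 : ℝ) - 0 ≠ 0 := by norm_num
      rw [div_eq_div_iff e1 e2] at h2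
      linarith

/-! ### growth of functions with finite-dimensional space of translates -/

/-- translation by `s` as a linear map on functions -/
def trans (s : ℝ) : (ℝ → ℂ) →ₗ[ℂ] (ℝ → ℂ) where
  toFun h := fun c => h (c + s)
  map_add' _ _ := rfl
  map_smul' _ _ := rfl

@[simp] theorem trans_apply (s : ℝ) (h : ℝ → ℂ) (c : ℝ) : trans s h c = h (c + s) := rfl

/-- the space spanned by the translates -/
def tspan (f : ℝ → ℂ) : Submodule ℂ (ℝ → ℂ) := Submodule.span ℂ (Set.range fun s : ℝ => trans s f)

theorem self_mem_tspan (f : ℝ → ℂ) : f ∈ tspan f :=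
  Submodule.subset_span ⟨0, by funext c; simp⟩

theorem trans_mem_tspan {f h : ℝ → ℂ} (hh : h ∈ tspan f) (s : ℝ) : trans s h ∈ tspan f := by
  unfold tspan at *
  induction hh using Submodule.span_induction with
  | mem x hx =>
    obtain ⟨t, rfl⟩ := hx
    refine Submodule.subset_span ⟨s + t, ?_⟩
    funext c
    simp [add_assoc]
  | zero => rw [map_zero]; exact Submodule.zero_mem _
  | add x y _ _ hx hy => rw [map_add]; exact Submodule.add_mem _ hx hy
  | smul a x _ hx => rw [map_smul]; exact Submodule.smul_mem _ _ hx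

theorem isBigO_of_mem_tspan {f h : ℝ → ℂ} (hh : h ∈ tspan f) {a : ℝ} {F : Filter ℝ}
    (hF : ∀ s : ℝ, Tendsto (fun c => c + s) F F)
    (hf : f =O[F] fun c => Real.exp (a * c)) : h =O[F] fun c => Real.exp (a * c) := by
  unfold tspan at hh
  induction hh using Submodule.span_induction with
  | mem x hx =>
    obtain ⟨t, rfl⟩ := hx
    have h1 : (fun c => f (c + t)) =O[F] fun c => Real.exp (a * (c + t)) := hf.comp_tendsto (hF t)
    refine h1.trans ?_
    have : (fun c : ℝ => Real.exp (a * (c + t))) = fun c => Real.exp (a * t) * Real.exp (a * c) := by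
      funext c; rw [← Real.exp_add]; ring_nf
    rw [this]
    exact isBigO_const_mul_self _ _ _
  | zero => exact isBigO_zero _ _
  | add x y _ _ hx hy => exact hx.add hy
  | smul b x _ hx => exact hx.const_smul_left b

/-- growth comparison -/
theorem growth_le {f : ℝ → ℂ} (hfin : FiniteDimensional ℂ (tspan f)) (hf : f ≠ 0) {a b : ℝ}
    (ha : f =O[atTop] fun c => Real.exp (a * c)) (hb : f =O[atBot] fun c => Real.exp (b * c)) :
    b ≤ a := by
  -- the translation by one on the space of translates
  let T : Module.End ℂ (tspan f) := (trans 1).restrict (fun h hh => trans_mem_tspan hh 1)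
  have : Nontrivial (tspan f) := ⟨⟨⟨f, self_mem_tspan f⟩, 0, fun h => hf (congrArg Subtype.val h)⟩⟩
  obtain ⟨χ, hχ⟩ := Module.End.exists_eigenvalue T
  obtain ⟨⟨h, hh⟩, hv⟩ := hχ.exists_hasEigenvector
  have hne : h ≠ 0 := fun e => hv.2 (Subtype.ext e)
  have heig : ∀ c, h (c + 1) = χ * h c := by
    intro c
    have := congrArg Subtype.val hv.apply_eq_smul
    exact congrFun this c
  obtain ⟨c₀, hc₀⟩ : ∃ c₀, h c₀ ≠ 0 := by
    by_contra hcon
    push Not at hcon
    exact hne (funext hcon)
  have hpow : ∀ (n : ℕ) (c : ℝ), h (c + n) = χ ^ n * h c := by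
    intro n
    induction n with
    | zero => intro c; simp
    | succ n ih =>
      intro c
      have e : c + ((n + 1 : ℕ) : ℝ) = (c + n) + 1 := by push_cast; ring
      rw [e, heig, ih, pow_succ]; ring
  have htop := isBigO_of_mem_tspan hh (F := atTop) (a := a)
    (fun s => tendsto_atTop_add_const_right _ s tendsto_id) ha
  have hbot := isBigO_of_mem_tspan hh (F := atBot) (a := b)
    (fun s => tendsto_atBot_add_const_right _ s tendsto_id) hb
  -- upper bound for `|χ|`
  have bounded_pow : ∀ (q K : ℝ), 0 ≤ q → (∀ᶠ n : ℕ in atTop, q ^ n ≤ K) → q ≤ 1 := by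
    intro q K hq hK
    by_contra hcon
    push Not at hcon
    have h1 := tendsto_pow_atTop_atTop_of_one_lt hcon
    obtain ⟨n, hn1, hn2⟩ := (hK.and (h1.eventually_gt_atTop K)).exists
    exact absurd hn1 (not_le.2 hn2)
  have hnpos : 0 < ‖h c₀‖ := norm_pos_iff.2 hc₀
  have up : ‖χ‖ ≤ Real.exp a := by
    obtain ⟨K, hK⟩ := htop.bound
    have h1 : Tendsto (fun n : ℕ => c₀ + (n : ℝ)) atTop atTop :=
      tendsto_atTop_add_const_left _ _ tendsto_natCast_atTop_atTop
    have h2 := h1.eventually hK
    have h3 : ∀ᶠ n : ℕ in atTop, (‖χ‖ / Real.exp a) ^ n ≤ K * Real.exp (a * c₀) / ‖h c₀‖ := by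
      filter_upwards [h2] with n hn
      rw [hpow, norm_mul, norm_pow, Real.norm_of_nonneg (Real.exp_pos _).le, mul_add, Real.exp_add,
        mul_comm a (n : ℝ), Real.exp_nat_mul] at hn
      rw [div_pow, div_le_div_iff₀ (by positivity) hnpos]
      linarith
    have h4 := bounded_pow _ _ (by positivity) h3
    rwa [div_le_one (Real.exp_pos _)] at h4
  have lo : Real.exp b ≤ ‖χ‖ := by
    obtain ⟨K, hK⟩ := hbot.bound
    have h1 : Tendsto (fun n : ℕ => c₀ - (n : ℝ)) atTop atBot := by
      have := tendsto_neg_atTop_atBot.comp (tendsto_natCast_atTop_atTop (R := ℝ))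
      exact (tendsto_atBot_add_const_left _ c₀ this).congr (fun n => by simp [sub_eq_add_neg])
    have h2 := h1.eventually hK
    have hχ0 : χ ≠ 0 := by
      intro h0
      have := hpow 1 (c₀ - 1)
      rw [h0] at this
      simp at this
      exact hc₀ this
    have hχp : 0 < ‖χ‖ := norm_pos_iff.2 hχ0
    have h3 : ∀ᶠ n : ℕ in atTop, (Real.exp b / ‖χ‖) ^ n ≤ K * Real.exp (b * c₀) / ‖h c₀‖ := by
      filter_upwards [h2] with n hn
      have e1 : ‖h c₀‖ = ‖χ‖ ^ n * ‖h (c₀ - n)‖ := by
        have := hpow n (c₀ - n)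
        rw [sub_add_cancel] at this
        rw [this, norm_mul, norm_pow]
      rw [Real.norm_of_nonneg (Real.exp_pos _).le, mul_sub, Real.exp_sub,
        mul_comm b (n : ℝ), Real.exp_nat_mul] at hn
      rw [div_pow, div_le_div_iff₀ (by positivity) hnpos, e1]
      have hE : 0 < Real.exp b ^ n := by positivity
      calc Real.exp b ^ n * (‖χ‖ ^ n * ‖h (c₀ - n)‖)
          ≤ Real.exp b ^ n * (‖χ‖ ^ n * (K * (Real.exp (b * c₀) / Real.exp b ^ n))) := by gcongr
        _ = K * Real.exp (b * c₀) * ‖χ‖ ^ n := by field_simp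
    have h4 := bounded_pow _ _ (by positivity) h3
    rwa [div_le_one hχp] at h4
  exact Real.exp_le_exp.1 (lo.trans up)

/-! ### the main statement -/

/-- EXPLC: positive, log-concave, finite-dimensional space of translates -/
theorem explc {f : ℝ → ℝ} (hpos : ∀ c, 0 < f c)
    (hconc : ConcaveOn ℝ Set.univ (fun c => Real.log (f c)))
    (hfin : FiniteDimensional ℂ (tspan fun c => (f c : ℂ))) :
    ∃ C a : ℝ, 0 < C ∧ ∀ c, f c = C * Real.exp (a * c) := by
  set g : ℝ → ℝ := fun c => Real.log (f c) with hg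
  have hfg : ∀ c, f c = Real.exp (g c) := fun c => (Real.exp_log (hpos c)).symm
  have hne : (fun c => (f c : ℂ)) ≠ 0 := by
    intro h
    have := congrFun h 0
    simp only [Pi.zero_apply, Complex.ofReal_eq_zero] at this
    exact (hpos 0).ne' this
  have key : ∀ x y z : ℝ, x < y → y < z → (g z - g y) / (z - y) = (g y - g x) / (y - x) := by
    intro x y z hxy hyz
    refine le_antisymm (hconc.slope_anti_adjacent (Set.mem_univ _) (Set.mem_univ _) hxy hyz) ?_
    set a := (g z - g y) / (z - y) with ha
    set b := (g y - g x) / (y - x) with hb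
    refine growth_le hfin hne ?_ ?_
    · refine IsBigO.of_bound (Real.exp (g z - a * z)) ?_
      filter_upwards [eventually_gt_atTop z] with c hc
      have h1 := hconc.slope_anti_adjacent (Set.mem_univ y) (Set.mem_univ c) hyz hc
      rw [← ha, div_le_iff₀ (by linarith)] at h1
      rw [Complex.norm_real, Real.norm_of_nonneg (hpos c).le,
        Real.norm_of_nonneg (Real.exp_pos _).le, ← Real.exp_add, hfg]
      apply Real.exp_le_exp.2
      have : g c - g z ≤ a * (c - z) := h1
      linarith
    · refine IsBigO.of_bound (Real.exp (g x - b * x)) ?_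
      filter_upwards [eventually_lt_atBot x] with c hc
      have h1 := hconc.slope_anti_adjacent (Set.mem_univ c) (Set.mem_univ y) hc hxy
      rw [← hb, le_div_iff₀ (by linarith)] at h1
      rw [Complex.norm_real, Real.norm_of_nonneg (hpos c).le,
        Real.norm_of_nonneg (Real.exp_pos _).le, ← Real.exp_add, hfg]
      apply Real.exp_le_exp.2
      have : b * (x - c) ≤ g x - g c := h1
      linarith
  refine ⟨Real.exp (g 0), g 1 - g 0, Real.exp_pos _, fun c => ?_⟩
  rw [hfg, affine_of_slopes key c, Real.exp_add]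

section exp

variable {V : Type*} [NormedAddCommGroup V] [NormedSpace ℂ V] [FiniteDimensional ℂ V]

/-- functions `c ↦ l (exp (c X) v)` have finite-dimensional space of translates -/
theorem finiteDimensional_tspan (X : V →L[ℂ] V) (l : V →ₗ[ℂ] ℂ) (w : V) :
    FiniteDimensional ℂ (tspan fun c => l (NormedSpace.exp ((c : ℂ) • X) w)) := by
  have : CompleteSpace V := FiniteDimensional.complete ℂ V
  let Φ : V →ₗ[ℂ] (ℝ → ℂ) :=
    { toFun := fun v c => l (NormedSpace.exp ((c : ℂ) • X) v)
      map_add' := fun v v' => by funext c; simp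
      map_smul' := fun a v => by funext c; simp }
  have hle : tspan (fun c => l (NormedSpace.exp ((c : ℂ) • X) w)) ≤ LinearMap.range Φ := by
    unfold tspan
    rw [Submodule.span_le]
    rintro _ ⟨s, rfl⟩
    refine ⟨NormedSpace.exp ((s : ℂ) • X) w, ?_⟩
    funext c
    have hcomm : Commute ((c : ℂ) • X) ((s : ℂ) • X) :=
      ((Commute.refl X).smul_right _).smul_left _
    let _ : NormedAlgebra ℚ (V →L[ℂ] V) := NormedAlgebra.restrictScalars ℚ ℂ _
    have h1 := NormedSpace.exp_add_of_commute hcomm
    change l (NormedSpace.exp ((c : ℂ) • X) (NormedSpace.exp ((s : ℂ) • X) w)) =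
      l (NormedSpace.exp (((c + s : ℝ) : ℂ) • X) w)
    rw [Complex.ofReal_add, add_smul, h1]
    rfl
  have hfd : FiniteDimensional ℂ (LinearMap.range Φ) := inferInstance
  exact Submodule.finiteDimensional_of_le hle

/-- EXPLC for `f c = l (exp (c X) w)` -/
theorem explc_exp (X : V →L[ℂ] V) (l : V →ₗ[ℂ] ℂ) (w : V) {f : ℝ → ℝ}
    (hf : ∀ c : ℝ, (f c : ℂ) = l (NormedSpace.exp ((c : ℂ) • X) w)) (hpos : ∀ c, 0 < f c)
    (hconc : ConcaveOn ℝ Set.univ (fun c => Real.log (f c))) :
    ∃ C a : ℝ, 0 < C ∧ ∀ c, f c = C * Real.exp (a * c) := by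
  refine explc hpos hconc ?_
  have : (fun c => (f c : ℂ)) = fun c : ℝ => l (NormedSpace.exp ((c : ℂ) • X) w) := funext hf
  rw [this]
  exact finiteDimensional_tspan X l w

/-- EXPLC for `f c = Q (exp (k c X) w) w`, `Q` linear in the first variable -/
theorem explc_form (X : V →L[ℂ] V) (Q : V → V → ℂ) (hadd : ∀ u v w, Q (u + v) w = Q u w + Q v w)
    (hsmul : ∀ (a : ℂ) u w, Q (a • u) w = a * Q u w) (k : ℂ) (w : V) {f : ℝ → ℝ}
    (hf : ∀ c : ℝ, (f c : ℂ) = Q (NormedSpace.exp ((c : ℂ) • k • X) w) w) (hpos : ∀ c, 0 < f c)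
    (hconc : ConcaveOn ℝ Set.univ (fun c => Real.log (f c))) :
    ∃ C a : ℝ, 0 < C ∧ ∀ c, f c = C * Real.exp (a * c) :=
  explc_exp (k • X)
    { toFun := fun u => Q u w
      map_add' := fun u v => hadd u v w
      map_smul' := fun a u => hsmul a u w } w hf hpos hconc

end exp

/-! ### non-integrability -/

theorem not_integrable_exp (b : ℝ) : ¬ MeasureTheory.Integrable (fun c : ℝ => Real.exp (b * c)) := by
  intro h
  rcases le_total 0 b with hb | hb
  · have h1 : MeasureTheory.IntegrableOn (fun c : ℝ => Real.exp (b * c)) (Set.Ioi 0) :=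
      h.integrableOn
    have h2 : MeasureTheory.IntegrableOn (fun _ : ℝ => (1 : ℝ)) (Set.Ioi (0 : ℝ)) := by
      refine MeasureTheory.Integrable.mono h1 (by fun_prop) ?_
      filter_upwards [MeasureTheory.ae_restrict_mem measurableSet_Ioi] with c hc
      rw [Real.norm_of_nonneg zero_le_one, Real.norm_of_nonneg (Real.exp_pos _).le]
      exact Real.one_le_exp (mul_nonneg hb (le_of_lt hc))
    rw [MeasureTheory.integrableOn_const_iff (by simp)] at h2
    simp at h2
  · have h1 : MeasureTheory.IntegrableOn (fun c : ℝ => Real.exp (b * c)) (Set.Iio 0) :=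
      h.integrableOn
    have h2 : MeasureTheory.IntegrableOn (fun _ : ℝ => (1 : ℝ)) (Set.Iio (0 : ℝ)) := by
      refine MeasureTheory.Integrable.mono h1 (by fun_prop) ?_
      filter_upwards [MeasureTheory.ae_restrict_mem measurableSet_Iio] with c hc
      rw [Real.norm_of_nonneg zero_le_one, Real.norm_of_nonneg (Real.exp_pos _).le]
      exact Real.one_le_exp (mul_nonneg_of_nonpos_of_nonpos hb (le_of_lt hc))
    rw [MeasureTheory.integrableOn_const_iff (by simp)] at h2
    simp at h2

theorem lintegral_exp_eq_top (b : ℝ) : ∫⁻ c : ℝ, ENNReal.ofReal (Real.exp (b * c)) = ⊤ := by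
  by_contra hne
  refine not_integrable_exp b ⟨by fun_prop, ?_⟩
  rw [MeasureTheory.hasFiniteIntegral_iff_ofReal (Filter.Eventually.of_forall fun c => (Real.exp_pos _).le)]
  exact lt_top_iff_ne_top.2 hne

/-- weighted integrals of the functions of EXPLC are infinite -/
theorem lintegral_eq_top {f : ℝ → ℝ} (h : ∃ C a : ℝ, 0 < C ∧ ∀ c, f c = C * Real.exp (a * c))
    (b : ℝ) : ∫⁻ c : ℝ, ENNReal.ofReal (Real.exp (b * c) * f c) = ⊤ := by
  obtain ⟨C, a, hC, h⟩ := h
  have : ∀ c : ℝ, ENNReal.ofReal (Real.exp (b * c) * f c) =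
      ENNReal.ofReal C * ENNReal.ofReal (Real.exp ((a + b) * c)) := by
    intro c
    rw [h, ← ENNReal.ofReal_mul hC.le, add_mul, Real.exp_add]
    congr 1; ring
  simp_rw [this]
  rw [MeasureTheory.lintegral_const_mul _ (by fun_prop), lintegral_exp_eq_top]
  exact ENNReal.mul_top (by simpa using hC)

end Crest.Agent.R276.Explc_932
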