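import Crest.Agent.R276.EndA_723
import Crest.Agent.R276.ExtA_723
import Crest.Agent.R276.Mod7_987

/-!
# Row 276, D-END (helper723): extension from a fibre of a relative model
-/

set_option autoImplicit false
set_option linter.unusedSectionVars false

noncomputable section

open Set Filter Topology MeasureTheory
open scoped ENNReal

namespace Crest.Agent.R276.End_723

open Crest.Agent.R271 Crest.Agent.R271.Defs710 Crest.Agent.R271.Ho51 Crest.Agent.R271.Rd692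
open Crest.Agent.R276.FKDefs_779 Crest.Agent.R276.BC_986 Crest.Agent.R276.AB2_590
open Crest.Agent.R276.Mod1_987 Crest.Agent.R276.Ext_723 Crest.Agent.R276.EngU_29

lemma etChart {K : Type} [Field K] [Algebra ℂ K] {n : ℕ} (M : Mdl K n) : EtChart ℂ K M.B M.zK where
  fg := (Subalgebra.fg_iff_finiteType M.B).2 M.ft
  frac := by
    intro a
    obtain ⟨b, c, hc, h⟩ := M.frac a
    refine ⟨b, b.2, c, c.2, ?_, ?_⟩
    · intro h0
      exact hc (Subtype.ext h0)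
    · rw [h, div_eq_mul_inv]
  mem := fun i => (M.z i).2
  etale := M.het

lemma zA_etChart {K : Type} [Field K] [Algebra ℂ K] {n : ℕ} (M : Mdl K n) :
    zA (etChart M) = M.z := rfl

/-- the indices of the base coordinates -/
def sb (r n : ℕ) : Finset (Fin (r + n)) := Finset.univ.map (Fin.castAddEmb n)

lemma card_sb (r n : ℕ) : (sb r n).card = r := by
  unfold sb
  rw [Finset.card_map, Finset.card_univ, Fintype.card_fin]

variable {K₀ K : Type} [Field K₀] [Field K] [Algebra ℂ K₀] [Algebra ℂ K] [Algebra K₀ K]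
  [IsScalarTower ℂ K₀ K] {r n : ℕ} (R : RMdl K₀ K r n)

lemma isClosedEmbedding_val (y₀ : R.ML.Pts) :
    IsClosedEmbedding (fun x : R.Fib y₀ => x.val) := by
  have h1 : IsClosed {y : R.MK.Pts | R.q y = y₀} := isClosed_eq R.continuous_q continuous_const
  exact h1.isClosedEmbedding_subtypeVal

lemma exists_pf_le (c : Fin r → ℂ) : ∃ C : ℝ, 0 < C ∧ ∀ y : R.MK.Pts,
    (pf (rfl : r + n = r + n) c y) ^ 2 ≤ C * tn (etChart R.MK) (sb r n) y ^ (2 * r) := by
  set C₁ : ℝ := ∏ i : Fin r, (2 * (1 + ‖c i‖ ^ 2)) with hC₁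
  refine ⟨C₁ ^ 2, by
    have : 0 < C₁ := Finset.prod_pos fun i _ => by positivity
    positivity, fun y => ?_⟩
  have ht := one_le_tn (etChart R.MK) (sb r n) y
  have h1 : ∀ i : Fin r, ‖cp y (lo (rfl : r + n = r + n) i) - c i‖ ^ 2 + 1 ≤
      (2 * (1 + ‖c i‖ ^ 2)) * tn (etChart R.MK) (sb r n) y := by
    intro i
    have h2 : ‖cp y (lo (rfl : r + n = r + n) i)‖ ^ 2 + 1 ≤ tn (etChart R.MK) (sb r n) y := by
      unfold tn
      have h3 : ‖y (zA (etChart R.MK) (Fin.castAdd n i))‖ ^ 2 ≤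
          ∑ i ∈ sb r n, ‖y (zA (etChart R.MK) i)‖ ^ 2 :=
        Finset.single_le_sum (f := fun i => ‖y (zA (etChart R.MK) i)‖ ^ 2)
          (fun i _ => by positivity) (Finset.mem_map_of_mem _ (Finset.mem_univ i))
      have h4 : cp y (lo (rfl : r + n = r + n) i) = y (zA (etChart R.MK) (Fin.castAdd n i)) := rfl
      rw [h4]
      linarith
    have h5 : ‖cp y (lo (rfl : r + n = r + n) i) - c i‖ ^ 2 ≤
        2 * ‖cp y (lo (rfl : r + n = r + n) i)‖ ^ 2 + 2 * ‖c i‖ ^ 2 := by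
      have h6 := norm_sub_le (cp y (lo (rfl : r + n = r + n) i)) (c i)
      have h7 : ‖cp y (lo (rfl : r + n = r + n) i) - c i‖ ^ 2 ≤
          (‖cp y (lo (rfl : r + n = r + n) i)‖ + ‖c i‖) ^ 2 :=
        pow_le_pow_left₀ (norm_nonneg _) h6 2
      nlinarith [sq_nonneg (‖cp y (lo (rfl : r + n = r + n) i)‖ - ‖c i‖)]
    have h8 : 0 ≤ ‖c i‖ ^ 2 := by positivity
    nlinarith
  have h9 : pf (rfl : r + n = r + n) c y ≤ C₁ * tn (etChart R.MK) (sb r n) y ^ r := by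
    unfold pf
    calc ∏ i, (‖cp y (lo (rfl : r + n = r + n) i) - c i‖ ^ 2 + 1)
        ≤ ∏ i : Fin r, ((2 * (1 + ‖c i‖ ^ 2)) * tn (etChart R.MK) (sb r n) y) :=
          Finset.prod_le_prod (fun i _ => by positivity) fun i _ => h1 i
      _ = _ := by
        rw [Finset.prod_mul_distrib, Finset.prod_const, Finset.card_univ, Fintype.card_fin]
  have h10 := one_le_pf (rfl : r + n = r + n) c y
  calc (pf (rfl : r + n = r + n) c y) ^ 2 ≤ (C₁ * tn (etChart R.MK) (sb r n) y ^ r) ^ 2 :=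
        pow_le_pow_left₀ (by linarith) h9 2
    _ = _ := by rw [mul_pow, ← pow_mul, mul_comm r 2]

/-- extension from the fibre `R.Fib y₀`, with the weight `B ^ l` -/
theorem ext_fib (hOT : OTSlice) (hRs : RestrLPsh) {B : R.MK.Pts → ℝ} {l : ℕ}
    (hB : LPsh (fun y => B y ^ l)) {y₀ : R.ML.Pts} {ν : Measure (R.Fib y₀)} (hν : IsLeb ν)
    (g : R.Fib y₀ → ℂ) (hg : Ho51.Hol g)
    (hint : ∫⁻ x, ENNReal.ofReal (‖g x‖ ^ 2) / ENNReal.ofReal (B x.val ^ l) ∂ν < ∞) :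
    ∃ F : (R.MK.B →ₐ[ℂ] ℂ) → ℂ, HolB (zA (etChart R.MK)) F ∧ (∀ x : R.Fib y₀, F x.val = g x) ∧
      Fin2 (etChart R.MK) B (sb r n) l (2 * r) F := by
  obtain ⟨μ, hμ⟩ := R.MK.exists_leb
  obtain ⟨ρ, hρ, hcpt, hL⟩ := R.MK.exists_rho
  set c : Fin r → ℂ := fun i => R.ML.pz y₀ i with hc
  obtain ⟨G, hG, hGe, hGi⟩ := ext_multi hOT hRs r (rfl : r + n = r + n) (M := R.MK.Pts)
    (F := R.Fib y₀) μ ν ρ (fun _ => 0) (fun y => B y ^ l) c (fun x => x.val) g hμ hν hρ hcpt hL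
    (Sm.const 0) (fun x w => by
      rw [W792.Levi_eq_lev (Sm.const 0), W792.lev_const]) hB (isClosedEmbedding_val R y₀)
    (fun x i => by
      have h1 := R.pz_q x.val i
      rw [x.q_eq] at h1
      exact h1.symm)
    (fun x j => rfl) hg (by simpa using hint)
  refine ⟨G, holB_of_51 R.MK.hch hG, hGe, ?_⟩
  obtain ⟨C, hC, hCpf⟩ := exists_pf_le R c
  have hGc : Continuous G := (Crest.Agent.R273.OTA_34.hol_of _ hG).sm.continuous
  have hBm : Measurable fun y : R.MK.Pts => B y ^ l := measurable_of_lpsh hB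
  have htc : Continuous fun y : R.MK.Pts => tn (etChart R.MK) (sb r n) y ^ (2 * r) := by
    unfold tn
    refine Continuous.pow (continuous_const.add (continuous_finsetSum _ fun i _ => ?_)) _
    exact ((Crest.Agent.R271.Rd692.continuous_ev _).norm.pow 2)
  unfold Fin2
  rw [zA_etChart, R.MK.lintM_eq hμ]
  · have hle : ∀ y : R.MK.Pts, ENNReal.ofReal (‖G y‖ ^ 2) *
        (ENNReal.ofReal (B y ^ l * tn (etChart R.MK) (sb r n) y ^ (2 * r)))⁻¹ ≤
        ENNReal.ofReal C * (ENNReal.ofReal (‖G y‖ ^ 2 * (Real.exp (-0) *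
          ((pf (rfl : r + n = r + n) c y) ^ 2)⁻¹)) / ENNReal.ofReal (B y ^ l)) := by
      intro y
      have ht := one_le_tn (etChart R.MK) (sb r n) y
      set t := tn (etChart R.MK) (sb r n) y ^ (2 * r) with htdef
      have ht0 : 0 < t := by positivity
      have hp := one_le_pf (rfl : r + n = r + n) c y
      set p := (pf (rfl : r + n = r + n) c y) ^ 2 with hpdef
      have hp0 : 0 < p := by positivity
      have hpt : p ≤ C * t := hCpf y
      have h1 : ‖G y‖ ^ 2 * t⁻¹ ≤ C * (‖G y‖ ^ 2 * p⁻¹) := by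
        have h2 : t⁻¹ ≤ C * p⁻¹ := by
          rw [inv_le_iff_one_le_mul₀ ht0, ← div_eq_mul_inv, div_mul_eq_mul_div,
            le_div_iff₀ hp0, one_mul]
          exact hpt
        calc ‖G y‖ ^ 2 * t⁻¹ ≤ ‖G y‖ ^ 2 * (C * p⁻¹) := by gcongr
          _ = _ := by ring
      rw [ENNReal.ofReal_mul' ht0.le, ENNReal.mul_inv (Or.inr ENNReal.ofReal_ne_top)
        (Or.inr (by simpa using ht0)), neg_zero, Real.exp_zero, one_mul, div_eq_mul_inv,
        ← mul_assoc (ENNReal.ofReal C), ← ENNReal.ofReal_mul hC.le, ← ENNReal.ofReal_inv_of_pos ht0]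
      calc ENNReal.ofReal (‖G y‖ ^ 2) * ((ENNReal.ofReal (B y ^ l))⁻¹ * ENNReal.ofReal t⁻¹)
          = ENNReal.ofReal (‖G y‖ ^ 2 * t⁻¹) * (ENNReal.ofReal (B y ^ l))⁻¹ := by
            rw [ENNReal.ofReal_mul (by positivity)]; ring
        _ ≤ _ := by gcongr
    refine lt_of_le_of_lt (lintegral_mono hle) ?_
    rw [lintegral_const_mul' _ _ ENNReal.ofReal_ne_top]
    exact ENNReal.mul_lt_top ENNReal.ofReal_lt_top hGi
  · exact ((hGc.norm.pow 2).measurable.ennreal_ofReal).mul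
      ((hBm.mul htc.measurable).ennreal_ofReal.inv)

/-! ### the data of the endgame -/

/-- The data on one relative model `MK → MT` (`K₀` = field of the period fibration, `t` = the first
`r` coordinates): a psh weight `B` (of `K_X` minus something positive on the base), one fibre and
functions `τ_i`, `w_j` on the fibre with `|τ_i|^{2/N₁} |w_j|^{2/e₀} ≤ C B`. -/
structure EndData (S : Set (ValuationSubring K)) (d q : ℕ) where
  B : R.MK.Pts → ℝ
  psh : ∀ l : ℕ, LPsh (fun y => B y ^ l)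
  growth : Growth (etChart R.MK) B
  bdd : ∀ V ∈ S, ∃ κ : ℝ, 0 < κ ∧ Bdd (etChart R.MK) B (sb r n) κ V
  y₀ : R.ML.Pts
  ν : Measure (R.Fib y₀)
  leb : IsLeb ν
  τ : Fin (d + 1) → R.Fib y₀ → ℂ
  w : Fin (q + 1) → R.Fib y₀ → ℂ
  hτ : ∀ i, Ho51.Hol (τ i)
  hw : ∀ j, Ho51.Hol (w j)
  N₁ : ℕ
  e₀ : ℕ
  N₁_pos : 0 < N₁
  e₀_pos : 0 < e₀
  C : ℝ
  le : ∀ i j x, ‖τ i x‖ ^ (2 / N₁ : ℝ) * ‖w j x‖ ^ (2 / e₀ : ℝ) ≤ C * B x.val
  int : ∀ i j, ∫⁻ x, ENNReal.ofReal (‖τ i x‖ ^ (2 / N₁ : ℝ) * ‖w j x‖ ^ (2 / e₀ : ℝ)) ∂ν < ∞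
  ind : ∀ P : MvPolynomial (Fin d ⊕ Fin q) ℂ, P ≠ 0 → ∃ x, τ 0 x ≠ 0 ∧ w 0 x ≠ 0 ∧
    MvPolynomial.eval (Sum.elim (fun i => τ i.succ x / τ 0 x) (fun j => w j.succ x / w 0 x)) P ≠ 0

lemma hol_pow_mul {m : ℕ} {F : Type*} [TopologicalSpace F] [RDom m F] {f g : F → ℂ}
    (hf : Ho51.Hol f) (hg : Ho51.Hol g) (a b : ℕ) :
    Ho51.Hol (fun x => f x ^ a * g x ^ b) := fun e he =>
  ((hf e he).pow a).mul ((hg e he).pow b)

/-- the sections -/
theorem EndData.sections {R : RMdl K₀ K r n} (hOT : OTSlice) (hRs : RestrLPsh)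
    {S : Set (ValuationSubring K)}
    (hS : S.Finite) {d q : ℕ} (E : EndData R S d q) {b : Module.Basis (Fin (r + n)) K (Ω[K⁄ℂ])}
    (hb : ∀ i, b i = KaehlerDifferential.D ℂ K (R.MK.zK i)) {D : ℕ} (hD : D = (d + q) + r) :
    ∃ m : ℕ, 0 < m ∧ ∃ f : Fin (D + 1) → K,
      (∀ i, f i ≠ 0 ∧ f i ∈ R.MK.B ∧ ∀ V ∈ S, RegAt ℂ V b m (f i)) ∧
      AlgebraicIndependent ℂ (fun i : Fin D => f i.succ / f 0) := by
  have hN := E.N₁_pos
  have he := E.e₀_pos
  have hN' : (E.N₁ : ℝ) ≠ 0 := by exact_mod_cast hN.ne'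
  have he' : (E.e₀ : ℝ) ≠ 0 := by exact_mod_cast he.ne'
  refine exists_sections (etChart R.MK) E.growth hb (fun x : R.Fib E.y₀ => x.val)
    (fun i => (Fin.append (R.ML.pz E.y₀) (fun _ => 0) : Fin (r + n) → ℂ) i) ?_ E.τ E.w E.N₁_pos
    E.e₀_pos E.ind (2 * r) ?_ S hS E.bdd (by rw [card_sb]; exact hD)
  · intro x i hi
    obtain ⟨i, -, rfl⟩ := Finset.mem_map.1 hi
    have h1 := R.pz_q x.val i
    rw [x.q_eq] at h1
    have h2 : (Fin.append (R.ML.pz E.y₀) (fun _ => (0 : ℂ)) : Fin (r + n) → ℂ) (Fin.castAdd n i) =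
        R.ML.pz E.y₀ i := Fin.append_left _ _ _
    refine Eq.trans ?_ h2.symm
    exact h1.symm
  · intro a ha i j
    set l : ℕ := a * E.N₁ * E.e₀ - 1 with hl
    have hl1 : l + 1 = a * E.N₁ * E.e₀ := by
      have : 0 < a * E.N₁ * E.e₀ := by positivity
      omega
    refine ext_fib R hOT hRs (E.psh l) E.leb _ (hol_pow_mul (E.hτ i) (E.hw j) _ _) ?_
    set C' : ℝ := max E.C 0 with hC'
    have hC'0 : 0 ≤ C' := le_max_right _ _
    have key : ∀ x : R.Fib E.y₀, ENNReal.ofReal (‖E.τ i x ^ (a * E.e₀) * E.w j x ^ (a * E.N₁)‖ ^ 2) /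
        ENNReal.ofReal (E.B x.val ^ l) ≤ ENNReal.ofReal (C' ^ l) *
          ENNReal.ofReal (‖E.τ i x‖ ^ (2 / E.N₁ : ℝ) * ‖E.w j x‖ ^ (2 / E.e₀ : ℝ)) := by
      intro x
      have hB0 : 0 ≤ E.B x.val := E.growth.nonneg _
      set t := ‖E.τ i x‖ with ht
      set w := ‖E.w j x‖ with hw
      have ht0 : 0 ≤ t := norm_nonneg _
      have hw0 : 0 ≤ w := norm_nonneg _
      set Q : ℝ := t ^ (2 / E.N₁ : ℝ) * w ^ (2 / E.e₀ : ℝ) with hQ
      have hQ0 : 0 ≤ Q := mul_nonneg (Real.rpow_nonneg ht0 _) (Real.rpow_nonneg hw0 _)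
      have h1 : ‖E.τ i x ^ (a * E.e₀) * E.w j x ^ (a * E.N₁)‖ ^ 2 = Q * Q ^ l := by
        rw [← pow_succ', hl1, norm_mul, norm_pow, norm_pow, ← ht, ← hw, hQ, mul_pow, mul_pow,
          ← Real.rpow_natCast (t ^ (2 / E.N₁ : ℝ)), ← Real.rpow_natCast (w ^ (2 / E.e₀ : ℝ)),
          ← Real.rpow_mul ht0, ← Real.rpow_mul hw0, ← pow_mul, ← pow_mul,
          ← Real.rpow_natCast t, ← Real.rpow_natCast w]
        congr 2
        · push_cast
          field_simp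
        · push_cast
          field_simp
      have h2 : Q ≤ C' * E.B x.val := (E.le i j x).trans (by gcongr; exact le_max_left _ _)
      have h3 : Q ^ l ≤ C' ^ l * E.B x.val ^ l := by
        rw [← mul_pow]
        exact pow_le_pow_left₀ hQ0 h2 l
      apply ENNReal.div_le_of_le_mul
      rw [h1, ← ENNReal.ofReal_mul (by positivity), ← ENNReal.ofReal_mul (by positivity)]
      apply ENNReal.ofReal_le_ofReal
      calc Q * Q ^ l ≤ Q * (C' ^ l * E.B x.val ^ l) := by gcongr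
        _ = C' ^ l * Q * E.B x.val ^ l := by ring
    refine lt_of_le_of_lt (lintegral_mono key) ?_
    rw [lintegral_const_mul' _ _ ENNReal.ofReal_ne_top]
    exact ENNReal.mul_lt_top ENNReal.ofReal_lt_top (E.int i j)

/-- **D-END**: the finite-test statement `KapGeF`. -/
theorem kapGeF_of_endData (R : RMdl K₀ K r n) (hOT : OTSlice) (hRs : RestrLPsh) {d q D : ℕ}
    (hD : D = (d + q) + r) {b : Module.Basis (Fin (r + n)) K (Ω[K⁄ℂ])}
    (hb : ∀ i, b i = KaehlerDifferential.D ℂ K (R.MK.zK i))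
    (H : ∀ S : Set (ValuationSubring K), S.Finite → (∀ V ∈ S, IsDiv ℂ (r + n) V) →
      Nonempty (EndData R S d q)) : KapGeF ℂ K D := by
  refine ⟨r + n, R.MK.B, R.MK.zK, b, etChart R.MK, hb, fun S hS hdiv => ?_⟩
  obtain ⟨E⟩ := H S hS hdiv
  exact E.sections hOT hRs hS hb hD

end Crest.Agent.R276.End_723
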