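import Crest.Agent.R276.FK3A_595

set_option autoImplicit false
set_option linter.all false

namespace Crest.Agent.R276.FK3B_595

open TensorProduct Crest.Agent.R276.FK3A_595

/-- `K'/M` is the free base extension of `K0/L0` for suitable embeddings `L0 → M`, `K0 → K'`. -/
def FreeOver (L0 K0 M K' : Type*) [Field L0] [Field K0] [Field M] [Field K'] [Algebra L0 K0]
    [Algebra M K'] : Prop :=
  ∃ (_ : Algebra L0 M) (_ : Algebra K0 K') (_ : Algebra L0 K') (_ : IsScalarTower L0 K0 K')
    (_ : IsScalarTower L0 M K'), BaseUp L0 K0 M K'

section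

variable {A B : Type*} [CommRing A] [IsDomain A] [CommRing B] [IsDomain B] [Algebra A B]

/-- the ring map `A0 → B0` -/
abbrev subMap (A0 : Subring A) (B0 : Subring B)
    (h : ∀ a ∈ A0, algebraMap A B a ∈ B0) : A0 →+* B0 :=
  ((algebraMap A B).comp A0.subtype).codRestrict B0 (fun a => h a a.2)

theorem subMap_injective (A0 : Subring A) (B0 : Subring B)
    (h : ∀ a ∈ A0, algebraMap A B a ∈ B0) (hAB : Function.Injective (algebraMap A B)) :
    Function.Injective (subMap A0 B0 h) := by
  intro x y hxy
  have h1 := congrArg Subtype.val hxy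
  exact Subtype.ext (hAB h1)

theorem fracMap_inj (A0 : Subring A) (B0 : Subring B)
    (h : ∀ a ∈ A0, algebraMap A B a ∈ B0) (hAB : Function.Injective (algebraMap A B)) :
    Function.Injective ((algebraMap B0 (FractionRing B0)).comp (subMap A0 B0 h)) :=
  (IsFractionRing.injective B0 (FractionRing B0)).comp (subMap_injective A0 B0 h hAB)

/-- the field map `Frac A0 → Frac B0` -/
noncomputable def fracMap (A0 : Subring A) (B0 : Subring B)
    (h : ∀ a ∈ A0, algebraMap A B a ∈ B0) (hAB : Function.Injective (algebraMap A B)) :
    FractionRing A0 →+* FractionRing B0 :=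
  IsFractionRing.lift (A := A0) (K := FractionRing A0) (L := FractionRing B0)
    (fracMap_inj A0 B0 h hAB)

theorem freeOver {M K' : Type*} [Field M] [Field K'] [Algebra M K'] [Algebra A M] [Algebra B K']
    [Algebra A K'] [IsScalarTower A B K'] [IsScalarTower A M K']
    (A0 : Subring A) (B0 : Subring B) (hm : IsModel A0 B0)
    (hAB : Function.Injective (algebraMap A B))
    (hM : ∀ a ∈ A0, algebraMap A M a = 0 → a = 0)
    (hinj : Function.Injective (pm A B M K'))
    (hgen : ∀ x : K', ∃ s t : M ⊗[A] B, pm A B M K' t ≠ 0 ∧ x * pm A B M K' t = pm A B M K' s) :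
    letI := (fracMap A0 B0 hm.map_mem hAB).toAlgebra
    FreeOver (FractionRing A0) (FractionRing B0) M K' := by
  letI iAB := subAlg A0 B0 hm.map_mem
  haveI tAB := subAlg_tower A0 B0 hm.map_mem
  letI iL := (fracMap A0 B0 hm.map_mem hAB).toAlgebra
  haveI t1 : IsScalarTower A0 B0 (FractionRing B0) := inferInstance
  haveI t2 : IsScalarTower A0 (FractionRing A0) (FractionRing B0) := by
    refine IsScalarTower.of_algebraMap_eq' ?_
    refine RingHom.ext fun x => ?_
    have h := IsFractionRing.lift_algebraMap (K := FractionRing A0)
      (fracMap_inj A0 B0 hm.map_mem hAB) x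
    exact h.symm
  haveI t3 : IsScalarTower A0 A M := inferInstance
  haveI t4 : IsScalarTower A0 A B := inferInstance
  haveI t5 : IsScalarTower B0 B K' := inferInstance
  haveI t6 : IsScalarTower A0 B0 K' := by
    refine IsScalarTower.of_algebraMap_eq' ?_
    refine RingHom.ext fun x => ?_
    have h := IsScalarTower.algebraMap_apply A B K' x
    exact h
  haveI t7 : IsScalarTower A0 M K' := by
    refine IsScalarTower.of_algebraMap_eq' ?_
    refine RingHom.ext fun x => ?_
    have h := IsScalarTower.algebraMap_apply A M K' x
    exact h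
  have hbij := hm.bij
  have hinj0 : Function.Injective (pm A0 B0 M K') := pm_injective_of hbij hinj
  have hgen0 := pm_gen_of (M := M) (K' := K') hbij hgen
  have hAM : Function.Injective (algebraMap A0 M) := by
    rw [injective_iff_map_eq_zero]
    intro a ha
    exact Subtype.ext (hM a a.2 ha)
  have hBK : Function.Injective (algebraMap B0 K') := by
    rw [injective_iff_map_eq_zero]
    intro b hb
    by_contra hne
    have hli : LinearIndependent A0 (fun _ : Fin 1 => b) := by
      rw [Fintype.linearIndependent_iff]
      intro g hg i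
      have h1 : g 0 • b = 0 := by rw [Fin.sum_univ_one] at hg; exact hg
      rw [Algebra.smul_def, mul_eq_zero] at h1
      rcases h1 with h1 | h1
      · have h2 : g 0 = 0 := by
          apply subMap_injective A0 B0 hm.map_mem hAB
          rw [map_zero]; exact h1
        rw [Subsingleton.elim i 0]; exact h2
      · exact absurd h1 hne
    have h2 := (linInd_of_flat (K' := K') hAM hinj0 (fun _ : Fin 1 => b) hli).ne_zero 0
    exact h2 hb
  letI a1 : Algebra (FractionRing A0) M := (IsFractionRing.lift (K := FractionRing A0) hAM).toAlgebra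
  letI a2 : Algebra (FractionRing B0) K' := (IsFractionRing.lift (K := FractionRing B0) hBK).toAlgebra
  letI a3 : Algebra (FractionRing A0) K' :=
    ((algebraMap (FractionRing B0) K').comp (algebraMap (FractionRing A0) (FractionRing B0))).toAlgebra
  haveI t8 : IsScalarTower (FractionRing A0) (FractionRing B0) K' :=
    IsScalarTower.of_algebraMap_eq' rfl
  haveI t9 : IsScalarTower A0 (FractionRing A0) M := by
    refine IsScalarTower.of_algebraMap_eq' ?_
    refine RingHom.ext fun x => ?_
    exact (IsFractionRing.lift_algebraMap (K := FractionRing A0) hAM x).symm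
  haveI t10 : IsScalarTower B0 (FractionRing B0) K' := by
    refine IsScalarTower.of_algebraMap_eq' ?_
    refine RingHom.ext fun x => ?_
    exact (IsFractionRing.lift_algebraMap (K := FractionRing B0) hBK x).symm
  haveI t11 : IsScalarTower (FractionRing A0) M K' := by
    refine IsScalarTower.of_algebraMap_eq' ?_
    refine IsFractionRing.ringHom_ext (A := A0) (K := FractionRing A0) ?_
    intro x
    rw [RingHom.comp_apply, ← IsScalarTower.algebraMap_apply A0 (FractionRing A0) M,
      ← IsScalarTower.algebraMap_apply A0 M K']
    change (algebraMap (FractionRing B0) K') (algebraMap (FractionRing A0) (FractionRing B0)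
      (algebraMap A0 (FractionRing A0) x)) = _
    rw [← IsScalarTower.algebraMap_apply A0 (FractionRing A0) (FractionRing B0),
      IsScalarTower.algebraMap_apply A0 B0 (FractionRing B0),
      ← IsScalarTower.algebraMap_apply B0 (FractionRing B0) K',
      ← IsScalarTower.algebraMap_apply A0 B0 K']
  exact ⟨a1, a2, a3, t8, t11, baseUp (A := A0) (B := B0) hinj0 hgen0⟩

end

end Crest.Agent.R276.FK3B_595
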