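import Crest.Prelude.Def_KodairaDim
import Crest.Agent.R276.FK3B_595

set_option autoImplicit false
set_option linter.all false

universe u

open AlgebraicGeometry CategoryTheory TensorProduct

namespace Crest.Agent.R276.FK3C_595

section sec

variable {R : CommRingCat.{u}} {F : Scheme.{u}} [IrreducibleSpace F] (ι : Spec R ⟶ F)
  [IsOpenImmersion ι] [Nonempty (Spec R)]

instance : Nonempty (ι ''ᵁ (⊤ : (Spec R).Opens)) := by
  obtain ⟨x⟩ := ‹Nonempty (Spec R)›
  exact ⟨⟨ι x, ⟨x, trivial, rfl⟩⟩⟩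

/-- the map from `R` to the function field of a scheme with open immersion from `Spec R` -/
noncomputable def sec : R ⟶ F.functionField :=
  (Scheme.ΓSpecIso R).inv ≫ (ι.appIso ⊤).inv ≫ F.germToFunctionField (ι ''ᵁ ⊤)

theorem sec_injective [IsIntegral F] : Function.Injective (sec ι) := by
  unfold sec
  have h1 : Function.Injective ((Scheme.ΓSpecIso R).inv) :=
    (ConcreteCategory.bijective_of_isIso _).1
  have h2 : Function.Injective ((ι.appIso ⊤).inv) :=
    (ConcreteCategory.bijective_of_isIso _).1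
  have h3 := F.germToFunctionField_injective (ι ''ᵁ ⊤)
  intro x y hxy
  simp only [CommRingCat.comp_apply] at hxy
  exact h1 (h2 (h3 hxy))

theorem sec_gen [IsIntegral F] (x : F.functionField) :
    ∃ s t : R, sec ι t ≠ 0 ∧ x * sec ι t = sec ι s := by
  have hW : IsAffineOpen (ι ''ᵁ (⊤ : (Spec R).Opens)) :=
    (isAffineOpen_top _).image_of_isOpenImmersion ι
  haveI := functionField_isFractionRing_of_isAffineOpen F _ hW
  have h1 : Function.Surjective ((Scheme.ΓSpecIso R).inv) :=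
    (ConcreteCategory.bijective_of_isIso _).2
  have h2 : Function.Surjective ((ι.appIso ⊤).inv) :=
    (ConcreteCategory.bijective_of_isIso _).2
  obtain ⟨a, b, hb, rfl⟩ := IsFractionRing.div_surjective (A := Γ(F, ι ''ᵁ ⊤)) x
  have hb0 : algebraMap Γ(F, ι ''ᵁ ⊤) F.functionField b ≠ 0 := by
    simpa using nonZeroDivisors.ne_zero hb
  obtain ⟨a', rfl⟩ := h2 a
  obtain ⟨a'', rfl⟩ := h1 a'
  obtain ⟨b', rfl⟩ := h2 b
  obtain ⟨b'', rfl⟩ := h1 b'
  exact ⟨a'', b'', hb0, div_mul_cancel₀ _ hb0⟩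

theorem appTop_appIso_inv :
    ι.appTop ≫ (ι.appIso ⊤).inv = F.presheaf.map (homOfLE le_top).op := by
  have h1 : ι.appTop = ι.appLE ⊤ ⊤ (by simp) := Scheme.Hom.app_eq_appLE ι
  rw [h1]
  exact Scheme.Hom.appLE_appIso_inv ι (U := ⊤) (V := ⊤) (by simp)

theorem sec_comp {C : CommRingCat.{u}} (p : F ⟶ Spec C) (ψ : C ⟶ R) (h : ι ≫ p = Spec.map ψ) :
    ψ ≫ sec ι = (Scheme.ΓSpecIso C).inv ≫ p.appTop ≫
      F.presheaf.germ ⊤ (genericPoint F) trivial := by
  unfold sec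
  rw [Scheme.ΓSpecIso_inv_naturality_assoc, ← h, Scheme.Hom.comp_appTop, Category.assoc]
  congr 2
  rw [← Category.assoc, appTop_appIso_inv]
  exact F.presheaf.germ_res _ _ _

end sec

section fibre

variable {X Z : Scheme.{u}} (f : X ⟶ Z) {V : Z.Opens} (hV : IsAffineOpen V) {U : X.Opens}
  (hU : IsAffineOpen U) (e : U ≤ f ⁻¹ᵁ V)

include hU in
theorem exists_immersion {C P : CommRingCat.{u}} (ψ : Γ(Z, V) ⟶ C) (inl : Γ(X, U) ⟶ P)
    (inr : C ⟶ P) (h : IsPushout (f.appLE V U e) ψ inl inr) (z : Spec C ⟶ Z)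
    (hz : Spec.map ψ ≫ hV.fromSpec = z) :
    ∃ ι : Spec P ⟶ Limits.pullback f z, IsOpenImmersion ι ∧
      ι ≫ Limits.pullback.snd f z = Spec.map inr := by
  have hp := isPullback_SpecMap_of_isPushout _ _ _ _ h
  let i : Limits.pullback (Spec.map (f.appLE V U e)) (Spec.map ψ) ⟶ Limits.pullback f z :=
    Limits.pullback.map (Spec.map (f.appLE V U e)) (Spec.map ψ) f z
      hU.fromSpec (𝟙 _) hV.fromSpec (hV.SpecMap_appLE_fromSpec f hU e) (by rw [hz, Category.id_comp])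
  have hi : i ≫ Limits.pullback.snd f z = Limits.pullback.snd _ _ ≫ 𝟙 _ :=
    Limits.pullback.lift_snd _ _ _
  refine ⟨hp.isoPullback.hom ≫ i, inferInstance, ?_⟩
  rw [Category.assoc, hi, Category.comp_id, IsPullback.isoPullback_hom_snd]

/-- a point `Spec C ⟶ Z` (`C` a field) with image in the affine open `V` comes from a ring map -/
theorem exists_ringMap {C : Type u} [Field C] (z : Spec (CommRingCat.of C) ⟶ Z)
    (hz : z (IsLocalRing.closedPoint C) ∈ V) :
    ∃ ψ : Γ(Z, V) ⟶ CommRingCat.of C, Spec.map ψ ≫ hV.fromSpec = z := by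
  have hr : Set.range z ⊆ Set.range hV.fromSpec := by
    rw [hV.range_fromSpec]
    rintro _ ⟨p, rfl⟩
    have : p = IsLocalRing.closedPoint C := Subsingleton.elim _ _
    rw [this]; exact hz
  obtain ⟨ψ, hψ⟩ := Spec.map_surjective (IsOpenImmersion.lift hV.fromSpec z hr)
  exact ⟨ψ, by rw [hψ, IsOpenImmersion.lift_fac]⟩

theorem mem_basicOpen_iff {C : Type u} [Field C] (z : Spec (CommRingCat.of C) ⟶ Z)
    (ψ : Γ(Z, V) ⟶ CommRingCat.of C) (hz : Spec.map ψ ≫ hV.fromSpec = z) (a : Γ(Z, V)) :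
    z (IsLocalRing.closedPoint C) ∈ Z.basicOpen a ↔ ψ a ≠ 0 := by
  subst hz
  have h1 : (Spec.map ψ ≫ hV.fromSpec) (IsLocalRing.closedPoint C) ∈ Z.basicOpen a ↔
      Spec.map ψ (IsLocalRing.closedPoint C) ∈ hV.fromSpec ⁻¹ᵁ Z.basicOpen a := Iff.rfl
  rw [h1, hV.fromSpec_preimage_basicOpen]
  change a ∉ (Ideal.comap ψ.hom (IsLocalRing.maximalIdeal C)) ↔ _
  rw [Ideal.mem_comap, IsLocalRing.maximalIdeal_eq_bot, Ideal.mem_bot]

end fibre

end Crest.Agent.R276.FK3C_595
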