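import Crest.Prelude.Def_KodairaDim
import Crest.Agent.R276.FK3B_595

set_option autoImplicit false
set_option linter.all false

universe u

open AlgebraicGeometry CategoryTheory TensorProduct Crest.AlgGeometry.Divisors

namespace Crest.Agent.R276.FK3D_595

/-- the ring map `k → Γ(X, U)` -/
noncomputable def resMap (k : Type u) [Field k] (X : Scheme.{u}) [Algebra k Γ(X, ⊤)] (U : X.Opens) :
    k →+* Γ(X, U) :=
  (X.presheaf.map (homOfLE (le_top : U ≤ ⊤)).op).hom.comp (algebraMap k Γ(X, ⊤))

theorem structureMorphism_appTop (k : Type u) [Field k] (X : Scheme.{u}) [Algebra k Γ(X, ⊤)] :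
    (Scheme.ΓSpecIso (CommRingCat.of k)).inv ≫ (structureMorphism k X).appTop =
      CommRingCat.ofHom (algebraMap k Γ(X, ⊤)) := by
  unfold structureMorphism
  rw [Scheme.Hom.comp_appTop, Scheme.toSpecΓ_appTop, ← Scheme.ΓSpecIso_inv_naturality_assoc]
  simp

theorem structureMorphism_appLE (k : Type u) [Field k] (X : Scheme.{u}) [Algebra k Γ(X, ⊤)]
    (U : X.Opens) (e : U ≤ (structureMorphism k X) ⁻¹ᵁ ⊤) :
    ((structureMorphism k X).appLE ⊤ U e).hom.comp
      (Scheme.ΓSpecIso (CommRingCat.of k)).inv.hom = resMap k X U := by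
  have h := structureMorphism_appTop k X
  have h2 : (structureMorphism k X).appLE ⊤ U e =
      (structureMorphism k X).appTop ≫ X.presheaf.map (homOfLE (le_top : U ≤ ⊤)).op := rfl
  rw [h2, ← CommRingCat.hom_comp, ← Category.assoc, h]
  rfl

theorem finitePresentation (k : Type u) [Field k] (X : Scheme.{u}) [Algebra k Γ(X, ⊤)]
    (hX : IsProper (structureMorphism k X)) (U : X.Opens) (hU : IsAffineOpen U) :
    (resMap k X U).FinitePresentation := by
  have e : U ≤ (structureMorphism k X) ⁻¹ᵁ ⊤ := le_top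
  rw [← structureMorphism_appLE k X U e]
  have h1 : ((structureMorphism k X).appLE ⊤ U e).hom.FiniteType :=
    (structureMorphism k X).finiteType_appLE (isAffineOpen_top _) hU e
  have h2 := h1.comp (RingHom.FiniteType.of_surjective _
    (Scheme.ΓSpecIso (CommRingCat.of k)).symm.commRingCatIsoToRingEquiv.surjective)
  exact RingHom.FinitePresentation.of_finiteType.mp h2

section map

variable (k : Type u) [Field k] {X Z : Scheme.{u}} [Algebra k Γ(X, ⊤)] [Algebra k Γ(Z, ⊤)]
  (f : X ⟶ Z)

theorem algebraMap_comp (hf : f ≫ structureMorphism k Z = structureMorphism k X) :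
    CommRingCat.ofHom (algebraMap k Γ(Z, ⊤)) ≫ f.appTop =
      CommRingCat.ofHom (algebraMap k Γ(X, ⊤)) := by
  rw [← structureMorphism_appTop, ← structureMorphism_appTop k X, ← hf, Scheme.Hom.comp_appTop,
    Category.assoc]

theorem resMap_comp (hf : f ≫ structureMorphism k Z = structureMorphism k X)
    {V : Z.Opens} {U : X.Opens} (e : U ≤ f ⁻¹ᵁ V) :
    (f.appLE V U e).hom.comp (resMap k Z V) = resMap k X U := by
  have h := algebraMap_comp k f hf
  have h1 : Z.presheaf.map (homOfLE (le_top : V ≤ ⊤)).op ≫ f.appLE V U e =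
      f.appTop ≫ X.presheaf.map (homOfLE (le_top : U ≤ ⊤)).op := by
    rw [Scheme.Hom.map_appLE]; rfl
  have h2 : CommRingCat.ofHom (resMap k X U) =
      CommRingCat.ofHom (algebraMap k Γ(X, ⊤)) ≫ X.presheaf.map (homOfLE (le_top : U ≤ ⊤)).op := rfl
  have h3 : CommRingCat.ofHom (resMap k Z V) =
      CommRingCat.ofHom (algebraMap k Γ(Z, ⊤)) ≫ Z.presheaf.map (homOfLE (le_top : V ≤ ⊤)).op := rfl
  have h4 : CommRingCat.ofHom (resMap k Z V) ≫ f.appLE V U e = CommRingCat.ofHom (resMap k X U) := by
    rw [h2, h3, ← h, Category.assoc, Category.assoc, h1]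
  exact congrArg CommRingCat.Hom.hom h4

end map

section fn

variable {X Z : Scheme.{u}} (f : X ⟶ Z)

/-- the map of function fields of a morphism that maps the generic point to the generic point -/
noncomputable def fnMap [IrreducibleSpace X] [IrreducibleSpace Z]
    (h : f (genericPoint X) ⤳ genericPoint Z) : Z.functionField ⟶ X.functionField :=
  Z.presheaf.stalkSpecializes h ≫ f.stalkMap (genericPoint X)

theorem specializes_of_surjective [IrreducibleSpace X] [IrreducibleSpace Z]
    (hs : Function.Surjective f) : f (genericPoint X) ⤳ genericPoint Z := by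
  obtain ⟨x, hx⟩ := hs (genericPoint Z)
  rw [← hx]
  exact (genericPoint_specializes x).map f.continuous

theorem germ_fnMap' [IrreducibleSpace X] [IrreducibleSpace Z]
    (h : f (genericPoint X) ⤳ genericPoint Z) (V : Z.Opens) (hV : genericPoint Z ∈ V)
    (hV' : genericPoint X ∈ f ⁻¹ᵁ V) :
    Z.presheaf.germ V (genericPoint Z) hV ≫ fnMap f h =
      f.app V ≫ X.presheaf.germ (f ⁻¹ᵁ V) (genericPoint X) hV' := by
  unfold fnMap
  rw [TopCat.Presheaf.germ_stalkSpecializes_assoc, Scheme.Hom.germ_stalkMap]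

theorem germ_fnMap [IrreducibleSpace X] [IrreducibleSpace Z]
    (h : f (genericPoint X) ⤳ genericPoint Z) {V : Z.Opens} {U : X.Opens} (e : U ≤ f ⁻¹ᵁ V)
    [Nonempty V] [Nonempty U] :
    Z.germToFunctionField V ≫ fnMap f h = f.appLE V U e ≫ X.germToFunctionField U := by
  have hU : genericPoint X ∈ U :=
    ((genericPoint_spec X).mem_open_set_iff U.isOpen).mpr (by simpa using ‹Nonempty U›)
  unfold Scheme.germToFunctionField
  rw [germ_fnMap' f h V _ (e hU), Scheme.Hom.appLE, Category.assoc]
  congr 1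
  exact (X.presheaf.germ_res _ _ _).symm

/-- compatibility of the structure maps from `k` -/
theorem const_fnMap (k : Type u) [Field k] [Algebra k Γ(X, ⊤)] [Algebra k Γ(Z, ⊤)]
    [IrreducibleSpace X] [IrreducibleSpace Z]
    (hf : f ≫ structureMorphism k Z = structureMorphism k X)
    (h : f (genericPoint X) ⤳ genericPoint Z) (c : k) :
    fnMap f h (Z.presheaf.germ ⊤ (genericPoint Z) trivial (algebraMap k Γ(Z, ⊤) c)) =
      X.presheaf.germ ⊤ (genericPoint X) trivial (algebraMap k Γ(X, ⊤) c) := by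
  have h1 := algebraMap_comp k f hf
  have h2 : Z.presheaf.germ ⊤ (genericPoint Z) trivial ≫ fnMap f h =
      f.appTop ≫ X.presheaf.germ ⊤ (genericPoint X) trivial := germ_fnMap' f h ⊤ trivial trivial
  have h3 : CommRingCat.ofHom (algebraMap k Γ(Z, ⊤)) ≫
      Z.presheaf.germ ⊤ (genericPoint Z) trivial ≫ fnMap f h =
      CommRingCat.ofHom (algebraMap k Γ(X, ⊤)) ≫ X.presheaf.germ ⊤ (genericPoint X) trivial := by
    rw [h2, ← h1, Category.assoc]
  exact congrArg (fun φ : CommRingCat.of k ⟶ X.functionField => φ.hom c) h3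

end fn

end Crest.Agent.R276.FK3D_595
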