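import Crest.Agent.R276.FK3B_595

set_option autoImplicit false
set_option linter.all false

namespace Crest.Agent.R276.FK3E_595

open TensorProduct Crest.Agent.R276.FK3A_595 Crest.Agent.R276.FK3B_595

section

variable {A B : Type*} [CommRing A] [IsDomain A] [CommRing B] [IsDomain B] [Algebra A B]

theorem freeOver' {M K' : Type*} [Field M] [Field K'] [Algebra M K'] [Algebra A M]
    (A0 : Subring A) (B0 : Subring B) (hm : IsModel A0 B0)
    (hAB : Function.Injective (algebraMap A B))
    (hM : ∀ a ∈ A0, algebraMap A M a = 0 → a = 0)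
    (σ : M ⊗[A] B →+* K') (hσ : ∀ m : M, σ (m ⊗ₜ 1) = algebraMap M K' m)
    (hinj : Function.Injective σ)
    (hgen : ∀ x : K', ∃ s t : M ⊗[A] B, σ t ≠ 0 ∧ x * σ t = σ s) :
    letI := (fracMap A0 B0 hm.map_mem hAB).toAlgebra
    FreeOver (FractionRing A0) (FractionRing B0) M K' := by
  letI a1 : Algebra B K' := (σ.comp Algebra.TensorProduct.includeRight.toRingHom).toAlgebra
  letI a2 : Algebra A K' := ((algebraMap B K').comp (algebraMap A B)).toAlgebra
  haveI t1 : IsScalarTower A B K' := IsScalarTower.of_algebraMap_eq' rfl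
  haveI t2 : IsScalarTower A M K' := by
    refine IsScalarTower.of_algebraMap_eq' ?_
    refine RingHom.ext fun x => ?_
    change σ (1 ⊗ₜ (algebraMap A B x)) = algebraMap M K' (algebraMap A M x)
    rw [← hσ, Algebra.algebraMap_eq_smul_one, ← TensorProduct.smul_tmul,
      ← Algebra.algebraMap_eq_smul_one]
  have h : ∀ t, pm A B M K' t = σ t := by
    intro t
    induction t using TensorProduct.induction_on with
    | zero => simp
    | tmul m b =>
      rw [pm_tmul, ← hσ]
      change σ (m ⊗ₜ 1) * σ (1 ⊗ₜ b) = _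
      rw [← map_mul, Algebra.TensorProduct.tmul_mul_tmul, mul_one, one_mul]
    | add x y hx hy => rw [map_add, map_add, hx, hy]
  refine freeOver A0 B0 hm hAB hM ?_ ?_
  · intro x y hxy
    rw [h, h] at hxy
    exact hinj hxy
  · intro x
    obtain ⟨s, t, ht, hx⟩ := hgen x
    exact ⟨s, t, by rw [h]; exact ht, by rw [h, h]; exact hx⟩

theorem nontrivial_tensor {M : Type*} [Field M] [Algebra A M]
    (A0 : Subring A) (B0 : Subring B) (hm : IsModel A0 B0)
    (hAB : Function.Injective (algebraMap A B))
    (hM : ∀ a ∈ A0, algebraMap A M a = 0 → a = 0) :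
    Nontrivial (M ⊗[A] B) := by
  letI iAB := subAlg A0 B0 hm.map_mem
  haveI tAB := subAlg_tower A0 B0 hm.map_mem
  have hAM : Function.Injective (algebraMap A0 M) := by
    rw [injective_iff_map_eq_zero]
    intro a ha
    exact Subtype.ext (hM a a.2 ha)
  haveI := flat_of_injective (A := A0) (M := M) hAM
  -- the isomorphism
  let f : A ⊗[A0] B0 →ₗ[A] B :=
    (Algebra.TensorProduct.lift (Algebra.ofId A B) (IsScalarTower.toAlgHom A0 B0 B)
      (fun _ _ => Commute.all _ _)).toLinearMap
  have hf : ∀ t, f t = Algebra.TensorProduct.productMap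
      (IsScalarTower.toAlgHom A0 A B) (IsScalarTower.toAlgHom A0 B0 B) t := by
    intro t
    induction t using TensorProduct.induction_on with
    | zero => simp
    | tmul x y => simp [f, Algebra.ofId_apply]
    | add x y hx hy => rw [map_add, map_add, hx, hy]
  have hfb : Function.Bijective f := by
    have : (f : A ⊗[A0] B0 → B) = Algebra.TensorProduct.productMap
      (IsScalarTower.toAlgHom A0 A B) (IsScalarTower.toAlgHom A0 B0 B) := funext hf
    rw [this]; exact hm.bij
  let fe : A ⊗[A0] B0 ≃ₗ[A] B := LinearEquiv.ofBijective f hfb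
  let e1 : M ⊗[A] (A ⊗[A0] B0) ≃ₗ[A] M ⊗[A0] B0 :=
    TensorProduct.AlgebraTensorModule.cancelBaseChange A0 A A M B0
  let e2 : M ⊗[A] (A ⊗[A0] B0) ≃ₗ[A] M ⊗[A] B := LinearEquiv.lTensor M fe
  have hinj : Function.Injective (Algebra.linearMap A0 B0) := subMap_injective A0 B0 hm.map_mem hAB
  have hinj' : Function.Injective ((Algebra.linearMap A0 B0).lTensor M) :=
    Module.Flat.lTensor_preserves_injective_linearMap _ hinj
  haveI : Nontrivial (M ⊗[A0] A0) := (TensorProduct.rid A0 M).toEquiv.nontrivial
  haveI : Nontrivial (M ⊗[A0] B0) := hinj'.nontrivial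
  exact (e1.symm.trans e2).symm.toEquiv.nontrivial

end

end Crest.Agent.R276.FK3E_595
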