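import Crest.Agent.R276.FK3C_595
import Crest.Agent.R276.FK3D_595
import Crest.Agent.R276.FK3E_595

set_option autoImplicit false
set_option linter.all false

universe u

open AlgebraicGeometry CategoryTheory TensorProduct Crest.AlgGeometry.Divisors
open Crest.Agent.R276.FK3A_595 Crest.Agent.R276.FK3B_595 Crest.Agent.R276.FK3C_595
open Crest.Agent.R276.FK3D_595 Crest.Agent.R276.FK3E_595

namespace Crest.Agent.R276.FK3F_595

theorem fk3 (k : Type u) [Field k] {X Z : Scheme.{u}} [Algebra k Γ(X, ⊤)] [Algebra k Γ(Z, ⊤)]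
    [IsIntegral X] [IsIntegral Z] (hX : IsProper (structureMorphism k X))
    (hZ : IsProper (structureMorphism k Z)) (f : X ⟶ Z)
    (hf : f ≫ structureMorphism k Z = structureMorphism k X)
    (h : f (genericPoint X) ⤳ genericPoint Z) :
    ∃ (L0 K0 : Type u) (_ : Field L0) (_ : Field K0) (_ : Algebra L0 K0),
      Countable L0 ∧ Countable K0 ∧
      (letI : Algebra Z.functionField X.functionField := (fnMap f h).hom.toAlgebra;
        FreeOver L0 K0 Z.functionField X.functionField) ∧
      ∃ Cc : ℕ → Set Z, (∀ i, IsClosed (Cc i) ∧ Cc i ≠ Set.univ) ∧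
        ∀ z : Spec (CommRingCat.of k) ⟶ Z, (∀ i, z (IsLocalRing.closedPoint k) ∉ Cc i) →
          ∀ (_ : IsIntegral (Limits.pullback f z)),
            letI : Algebra k Γ(Limits.pullback f z, ⊤) := fibreAlgebra k f z
            letI : Algebra k (Limits.pullback f z).functionField :=
              fnFieldAlgebra k (Limits.pullback f z)
            FreeOver L0 K0 k (Limits.pullback f z).functionField := by
  classical
  -- the affine opens
  obtain ⟨V, hV, hzV, -⟩ := exists_isAffineOpen_mem_and_subset (X := Z) (U := ⊤)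
    (x := genericPoint Z) trivial
  have hxV : genericPoint X ∈ f ⁻¹ᵁ V := h.mem_open V.isOpen hzV
  obtain ⟨U, hU, hxU, hUV⟩ := exists_isAffineOpen_mem_and_subset (X := X) (U := f ⁻¹ᵁ V) hxV
  have e : U ≤ f ⁻¹ᵁ V := hUV
  haveI : Nonempty V := ⟨⟨_, hzV⟩⟩
  haveI : Nonempty U := ⟨⟨_, hxU⟩⟩
  -- the algebras
  letI iA : Algebra k Γ(Z, V) := (resMap k Z V).toAlgebra
  letI iB : Algebra k Γ(X, U) := (resMap k X U).toAlgebra
  letI iAB : Algebra Γ(Z, V) Γ(X, U) := (f.appLE V U e).hom.toAlgebra
  haveI tAB : IsScalarTower k Γ(Z, V) Γ(X, U) :=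
    IsScalarTower.of_algebraMap_eq' (resMap_comp k f hf e).symm
  haveI fpA : Algebra.FinitePresentation k Γ(Z, V) := finitePresentation k Z hZ V hV
  haveI fpB : Algebra.FinitePresentation k Γ(X, U) := finitePresentation k X hX U hU
  letI iLK : Algebra Z.functionField X.functionField := (fnMap f h).hom.toAlgebra
  haveI fracA : IsFractionRing Γ(Z, V) Z.functionField :=
    functionField_isFractionRing_of_isAffineOpen Z V hV
  haveI fracB : IsFractionRing Γ(X, U) X.functionField :=
    functionField_isFractionRing_of_isAffineOpen X U hU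
  letI iAK : Algebra Γ(Z, V) X.functionField :=
    ((algebraMap Γ(X, U) X.functionField).comp (algebraMap Γ(Z, V) Γ(X, U))).toAlgebra
  haveI tABK : IsScalarTower Γ(Z, V) Γ(X, U) X.functionField := IsScalarTower.of_algebraMap_eq' rfl
  haveI tALK : IsScalarTower Γ(Z, V) Z.functionField X.functionField :=
    IsScalarTower.of_algebraMap_eq' (congrArg CommRingCat.Hom.hom (germ_fnMap f h e)).symm
  have hAL : Function.Injective (algebraMap Γ(Z, V) Z.functionField) :=
    IsFractionRing.injective _ _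
  have hAB : Function.Injective (algebraMap Γ(Z, V) Γ(X, U)) := by
    have h1 : Function.Injective (algebraMap Γ(Z, V) X.functionField) := by
      rw [IsScalarTower.algebraMap_eq Γ(Z, V) Z.functionField X.functionField]
      exact (algebraMap Z.functionField X.functionField).injective.comp hAL
    rw [IsScalarTower.algebraMap_eq Γ(Z, V) Γ(X, U) X.functionField] at h1
    exact Function.Injective.of_comp h1
  obtain ⟨A0, B0, hA0, hB0, hm⟩ := exists_model (k := k) (A := Γ(Z, V)) (B := Γ(X, U))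
  letI iL0K0 : Algebra (FractionRing A0) (FractionRing B0) := (fracMap A0 B0 hm.map_mem hAB).toAlgebra
  have hcA : Countable (FractionRing A0) := by
    exact (IsLocalization.mk'_surjective (M := nonZeroDivisors A0) (S := FractionRing A0)).countable
  have hcB : Countable (FractionRing B0) := by
    exact (IsLocalization.mk'_surjective (M := nonZeroDivisors B0) (S := FractionRing B0)).countable
  -- the closed subsets
  haveI : Nonempty {a : A0 // a ≠ 0} := ⟨⟨1, one_ne_zero⟩⟩
  obtain ⟨en, hen⟩ := exists_surjective_nat {a : A0 // a ≠ 0}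
  refine ⟨FractionRing A0, FractionRing B0, inferInstance, inferInstance, iL0K0, hcA, hcB, ?_, ?_⟩
  · exact freeOver A0 B0 hm hAB (fun a _ ha => hAL (by rw [ha, map_zero])) pm_generic_injective
      pm_generic_gen
  refine ⟨fun i => (Z.basicOpen ((en i).1 : Γ(Z, V)) : Set Z)ᶜ, fun i => ⟨?_, ?_⟩, ?_⟩
  · exact (Z.basicOpen ((en i).1 : Γ(Z, V))).isOpen.isClosed_compl
  · intro hu
    rw [Set.compl_univ_iff] at hu
    have h1 : Z.basicOpen ((en i).1 : Γ(Z, V)) = ⊥ := TopologicalSpace.Opens.ext hu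
    rw [basicOpen_eq_bot_iff] at h1
    exact (en i).2 (Subtype.ext h1)
  intro z hz hint
  have hz' : ∀ a : Γ(Z, V), a ∈ A0 → a ≠ 0 → z (IsLocalRing.closedPoint k) ∈ Z.basicOpen a := by
    intro a ha ha0
    obtain ⟨i, hi⟩ := hen ⟨⟨a, ha⟩, fun h0 => ha0 (congrArg Subtype.val h0)⟩
    have h1 : z (IsLocalRing.closedPoint k) ∈ (Z.basicOpen ((en i).1 : Γ(Z, V)) : Set Z) :=
      not_not.mp (hz i)
    rw [hi] at h1
    exact h1
  have hzV : z (IsLocalRing.closedPoint k) ∈ V :=
    Z.basicOpen_le _ (hz' 1 A0.one_mem one_ne_zero)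
  obtain ⟨ψ, hψ⟩ := exists_ringMap hV z hzV
  letI iAk : Algebra Γ(Z, V) k := ψ.hom.toAlgebra
  have hM : ∀ a ∈ A0, algebraMap Γ(Z, V) k a = 0 → a = 0 := by
    intro a ha h0
    by_contra hne
    exact (mem_basicOpen_iff hV z ψ hψ a).mp (hz' a ha hne) h0
  have hpo : IsPushout (f.appLE V U e) ψ
      (CommRingCat.ofHom (S := k ⊗[Γ(Z, V)] Γ(X, U)) Algebra.TensorProduct.includeRight.toRingHom)
      (CommRingCat.ofHom (S := k ⊗[Γ(Z, V)] Γ(X, U)) Algebra.TensorProduct.includeLeftRingHom) :=
    (CommRingCat.isPushout_tensorProduct Γ(Z, V) k Γ(X, U)).flip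
  obtain ⟨ι, hι, hs⟩ := exists_immersion f hV hU e ψ _ _ hpo z hψ
  haveI hnt := nontrivial_tensor (M := k) A0 B0 hm hAB hM
  haveI hne : Nonempty (Spec (CommRingCat.of (k ⊗[Γ(Z, V)] Γ(X, U)))) :=
    inferInstanceAs (Nonempty (PrimeSpectrum (k ⊗[Γ(Z, V)] Γ(X, U))))
  letI iF : Algebra k Γ(Limits.pullback f z, ⊤) := fibreAlgebra k f z
  letI iF' : Algebra k (Limits.pullback f z).functionField :=
    fnFieldAlgebra k (Limits.pullback f z)
  refine freeOver' A0 B0 hm hAB hM (sec ι).hom ?_ (sec_injective ι) (sec_gen ι)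
  intro m
  have h1 := sec_comp ι (Limits.pullback.snd f z) _ hs
  exact congrArg (fun φ : CommRingCat.of k ⟶ (Limits.pullback f z).functionField => φ.hom m) h1

end Crest.Agent.R276.FK3F_595
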