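import Crest.Agent.R276.FKD5_508
import Crest.Agent.R276.FK3A_595

/-!
# R276, leaf FK4 (helper508), Steinitz step

`L0` countable, `BaseUp L0 K0 C K1`, `BaseUp L0 K0 L K2`, `C` algebraically closed, `#L = #C`:
`KapGeS C K1 d → KapGeS L K2 d`, `KapGe C K1 d → KapGe L K2 d`.
-/

set_option autoImplicit false
set_option linter.unusedSectionVars false

open TensorProduct Cardinal

namespace Crest.Agent.R276.FKS_508

open Crest.Agent.R276.FK3A_595 (BaseUp)
open Crest.Agent.R276.FKDefs_779 (KapGe KapGeS)

noncomputable section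

section Steinitz

universe u v

/-- `L` embeds into the algebraically closed field `C` of the same (uncountable) cardinality over
a countable common subfield, such that `C` becomes algebraic over `L`. -/
theorem exists_embedding (L0 : Type v) (L C : Type u) [Field L0] [Field L] [Field C] [Algebra L0 L]
    [Algebra L0 C] [IsAlgClosed C] (h0 : Cardinal.mk L0 ≤ ℵ₀) (hcard : Cardinal.mk L = Cardinal.mk C)
    (hC : ℵ₀ < Cardinal.mk C) :
    ∃ ι : L →ₐ[L0] C, ∀ x : C, IsAlgebraic ι.range x := by
  have hinf : Infinite L := by rw [Cardinal.infinite_iff, hcard]; exact hC.le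
  have hΩ : Cardinal.mk (AlgebraicClosure L) = Cardinal.mk C := by
    rw [← hcard]
    apply le_antisymm
    · exact (Algebra.IsAlgebraic.cardinalMk_le_max L (AlgebraicClosure L)).trans
        (by rw [max_eq_left]; exact Cardinal.infinite_iff.1 hinf)
    · exact Cardinal.mk_le_of_injective (algebraMap L (AlgebraicClosure L)).injective
  have i1 : FaithfulSMul L0 (AlgebraicClosure L) :=
    (faithfulSMul_iff_algebraMap_injective _ _).2 (algebraMap L0 _).injective
  have i2 : FaithfulSMul L0 C :=
    (faithfulSMul_iff_algebraMap_injective _ _).2 (algebraMap L0 _).injective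
  obtain ⟨s, hs⟩ := exists_isTranscendenceBasis L0 (AlgebraicClosure L)
  obtain ⟨t, ht⟩ := exists_isTranscendenceBasis L0 C
  have e1 := IsAlgClosed.cardinal_eq_cardinal_transcendence_basis_of_aleph0_lt _ hs h0
    (by rw [hΩ]; exact hC)
  have e2 := IsAlgClosed.cardinal_eq_cardinal_transcendence_basis_of_aleph0_lt _ ht h0 hC
  have e3 : Cardinal.mk s = Cardinal.mk t := by
    simp only [Cardinal.lift_id] at e1 e2
    rw [← e1, ← e2, hΩ]
  obtain ⟨e⟩ := Cardinal.eq.1 e3
  have j1 := IsAlgClosed.isAlgClosure_of_transcendence_basis _ hs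
  have j2 := IsAlgClosed.isAlgClosure_of_transcendence_basis _ ht
  let e' : Algebra.adjoin L0 (Set.range ((↑) : s → AlgebraicClosure L)) ≃ₐ[L0]
      Algebra.adjoin L0 (Set.range ((↑) : t → C)) :=
    (hs.1.aevalEquiv.symm.trans (MvPolynomial.renameEquiv L0 e)).trans ht.1.aevalEquiv
  let E : AlgebraicClosure L ≃+* C := IsAlgClosure.equivOfEquiv (AlgebraicClosure L) C e'.toRingEquiv
  have hE : ∀ c : L0, E (algebraMap L0 (AlgebraicClosure L) c) = algebraMap L0 C c := by
    intro c
    have h1 : algebraMap L0 (AlgebraicClosure L) c =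
        algebraMap (Algebra.adjoin L0 (Set.range ((↑) : s → AlgebraicClosure L)))
          (AlgebraicClosure L) (algebraMap L0 _ c) := rfl
    rw [h1]
    simp only [E]
    rw [IsAlgClosure.equivOfEquiv_algebraMap]
    have h2 : e'.toRingEquiv (algebraMap L0 _ c) = algebraMap L0 _ c := e'.commutes c
    rw [h2]
    rfl
  let ι : L →ₐ[L0] C :=
    { toRingHom := (E : AlgebraicClosure L →+* C).comp (algebraMap L (AlgebraicClosure L))
      commutes' := fun c => by
        change E (algebraMap L (AlgebraicClosure L) (algebraMap L0 L c)) = _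
        rw [← IsScalarTower.algebraMap_apply, hE] }
  refine ⟨ι, fun x => ?_⟩
  obtain ⟨y, rfl⟩ := E.surjective x
  obtain ⟨p, hp0, hp⟩ := Algebra.IsAlgebraic.isAlgebraic (R := L) y
  let ι' : L →+* ι.range := ι.rangeRestrict
  refine ⟨p.map ι', ?_, ?_⟩
  · rwa [Ne, Polynomial.map_eq_zero_iff]
    exact ι'.injective
  · have h3 := Polynomial.map_aeval_eq_aeval_map (φ := ι') (ψ := (E : AlgebraicClosure L →+* C))
      (by ext c; rfl) p y
    rw [hp, map_zero] at h3
    exact h3.symm

end Steinitz

section Glue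

/-- linear disjointness for arbitrary families -/
theorem ld_family {k K C K1 : Type*} [Field k] [Field K] [Field C] [Field K1]
    [Algebra k K] [Algebra k C] [Algebra K K1] [Algebra C K1] [Algebra k K1]
    [IsScalarTower k K K1] [IsScalarTower k C K1] (h : BaseUp k K C K1) {ι : Type*} (v : ι → K)
    (hv : LinearIndependent k v) : LinearIndependent C (fun i => algebraMap K K1 (v i)) := by
  classical
  rw [linearIndependent_iff']
  intro s g hg i hi
  let e : Fin s.card ≃ s := s.equivFin.symm
  have h1 : LinearIndependent k (fun j : Fin s.card => v (e j)) :=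
    hv.comp (fun j : Fin s.card => ((e j : s) : ι)) (fun a b hab => e.injective (Subtype.ext hab))
  have h2 := h.ld _ _ h1
  rw [Fintype.linearIndependent_iff] at h2
  have h3 := h2 (fun j => g (e j)) (by
    rw [← hg, ← Finset.sum_coe_sort s, ← e.sum_comp]) (e.symm ⟨i, hi⟩)
  simpa using h3

/-- `C ⊗ K → K1` is injective -/
theorem prod_injective {k K C K1 : Type*} [Field k] [Field K] [Field C] [Field K1]
    [Algebra k K] [Algebra k C] [Algebra K K1] [Algebra C K1] [Algebra k K1]
    [IsScalarTower k K K1] [IsScalarTower k C K1] {ι : Type*} (β : Module.Basis ι k K)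
    (hβ : LinearIndependent C (fun i => algebraMap K K1 (β i))) :
    Function.Injective (Algebra.TensorProduct.productMap (IsScalarTower.toAlgHom k C K1)
      (IsScalarTower.toAlgHom k K K1)) := by
  let b := β.baseChange C
  rw [injective_iff_map_eq_zero]
  intro x hx
  have h1 : Algebra.TensorProduct.productMap (IsScalarTower.toAlgHom k C K1)
      (IsScalarTower.toAlgHom k K K1) x =
      Finsupp.linearCombination C (fun i => algebraMap K K1 (β i)) (b.repr x) := by
    conv_lhs => rw [← b.linearCombination_repr x, Finsupp.linearCombination_apply, Finsupp.sum,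
      map_sum]
    rw [Finsupp.linearCombination_apply, Finsupp.sum]
    refine Finset.sum_congr rfl fun i _ => ?_
    simp [b, Module.Basis.baseChange_apply, Algebra.smul_def]
  rw [h1] at hx
  have h2 := (linearIndependent_iff.1 hβ) _ hx
  simpa using h2

/-- the image of `C ⊗ K → K1` is the `C`-span of `K` -/
theorem mem_range_prod {k K C K1 : Type*} [Field k] [Field K] [Field C] [Field K1]
    [Algebra k K] [Algebra k C] [Algebra K K1] [Algebra C K1] [Algebra k K1]
    [IsScalarTower k K K1] [IsScalarTower k C K1] (x : K1) :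
    x ∈ Submodule.span C (Set.range (algebraMap K K1)) ↔
      ∃ t, Algebra.TensorProduct.productMap (IsScalarTower.toAlgHom k C K1)
        (IsScalarTower.toAlgHom k K K1) t = x := by
  constructor
  · intro hx
    induction hx using Submodule.span_induction with
    | mem x hx => obtain ⟨a, rfl⟩ := hx; exact ⟨1 ⊗ₜ a, by simp⟩
    | zero => exact ⟨0, map_zero _⟩
    | add x y _ _ h1 h2 =>
      obtain ⟨s, rfl⟩ := h1; obtain ⟨t, rfl⟩ := h2
      exact ⟨s + t, map_add _ _ _⟩
    | smul c x _ h1 =>
      obtain ⟨s, rfl⟩ := h1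
      exact ⟨(c ⊗ₜ 1) * s, by simp [Algebra.smul_def]⟩
  · rintro ⟨t, rfl⟩
    induction t using TensorProduct.induction_on with
    | zero => rw [map_zero]; exact Submodule.zero_mem _
    | tmul c a =>
      simp only [Algebra.TensorProduct.productMap_apply_tmul, IsScalarTower.coe_toAlgHom']
      rw [← Algebra.smul_def]
      exact Submodule.smul_mem _ _ (Submodule.subset_span ⟨a, rfl⟩)
    | add s t h1 h2 => rw [map_add]; exact Submodule.add_mem _ h1 h2

variable {k K L C K1 K2 : Type*} [Field k] [Field K] [Field L] [Field C] [Field K1] [Field K2]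
  [Algebra k K] [Algebra k L] [Algebra k C]
  [Algebra K K1] [Algebra C K1] [Algebra k K1] [IsScalarTower k K K1] [IsScalarTower k C K1]
  [Algebra K K2] [Algebra L K2] [Algebra k K2] [IsScalarTower k K K2] [IsScalarTower k L K2]

/-- `K2 = Frac (L ⊗ K)` maps to `K1 ⊇ C ⊗ K` -/
theorem exists_hom (h1 : BaseUp k K C K1) (h2 : BaseUp k K L K2) (ι : L →ₐ[k] C) :
    ∃ φ : K2 →+* K1, (∀ a : K, φ (algebraMap K K2 a) = algebraMap K K1 a) ∧
      ∀ l : L, φ (algebraMap L K2 l) = algebraMap C K1 (ι l) := by
  classical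
  let β := Module.Basis.ofVectorSpace k K
  let m2 : L ⊗[k] K →ₐ[k] K2 := Algebra.TensorProduct.productMap (IsScalarTower.toAlgHom k L K2)
      (IsScalarTower.toAlgHom k K K2)
  have hm2 : Function.Injective m2 := prod_injective β (ld_family h2 β β.linearIndependent)
  let m1 : C ⊗[k] K →ₐ[k] K1 := Algebra.TensorProduct.productMap (IsScalarTower.toAlgHom k C K1)
      (IsScalarTower.toAlgHom k K K1)
  have hm1 : Function.Injective m1 := prod_injective β (ld_family h1 β β.linearIndependent)
  let u : L ⊗[k] K →ₐ[k] C ⊗[k] K := Algebra.TensorProduct.map ι (AlgHom.id k K)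
  have hu : Function.Injective u := by
    have : Function.Injective (ι.toLinearMap.rTensor K) :=
      Module.Flat.rTensor_preserves_injective_linearMap _ ι.toRingHom.injective
    exact this
  have hdom : IsDomain (L ⊗[k] K) := hm2.isDomain m2.toRingHom
  let : Algebra (L ⊗[k] K) K2 := m2.toRingHom.toAlgebra
  have : FaithfulSMul (L ⊗[k] K) K2 := (faithfulSMul_iff_algebraMap_injective _ _).2 hm2
  have hfr : IsFractionRing (L ⊗[k] K) K2 := by
    refine IsFractionRing.of_field (L ⊗[k] K) K2 (fun z => ?_)
    obtain ⟨a, ha, b, hb, hb0, hab⟩ := h2.gen z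
    obtain ⟨s, hs⟩ := (mem_range_prod (k := k) a).1 ha
    obtain ⟨t, ht⟩ := (mem_range_prod (k := k) b).1 hb
    refine ⟨s, t, ?_⟩
    have e1 : algebraMap (L ⊗[k] K) K2 s = a := hs
    have e2 : algebraMap (L ⊗[k] K) K2 t = b := ht
    rw [e1, e2, ← hab, mul_div_cancel_right₀ _ hb0]
  let φ : K2 →+* K1 := IsFractionRing.lift (A := L ⊗[k] K) (g := (m1.comp u).toRingHom)
    (hm1.comp hu)
  have hφ : ∀ t : L ⊗[k] K, φ (m2 t) = m1 (u t) := fun t =>
    IsFractionRing.lift_algebraMap (A := L ⊗[k] K) (K := K2) _ t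
  refine ⟨φ, fun a => ?_, fun l => ?_⟩
  · have := hφ (1 ⊗ₜ a)
    simpa [m1, m2, u] using this
  · have := hφ (l ⊗ₜ 1)
    simpa [m1, m2, u] using this

theorem repr_map {J : Type*} (β : Module.Basis J k K) (ι : L →ₐ[k] C) (t : L ⊗[k] K) (i : J) :
    (β.baseChange C).repr (Algebra.TensorProduct.map ι (AlgHom.id k K) t) i =
      ι ((β.baseChange L).repr t i) := by
  induction t using TensorProduct.induction_on with
  | zero => simp
  | tmul l a => simp [Module.Basis.baseChange_repr_tmul]
  | add s t h1 h2 => simp only [map_add, Finsupp.add_apply, h1, h2]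

variable [Algebra L C] [IsScalarTower k L C] [Algebra K2 K1] [IsScalarTower K K2 K1]
  [Algebra L K1] [IsScalarTower L C K1] [IsScalarTower L K2 K1]

/-- a basis of `C/L` stays linearly independent over `K2` -/
theorem linInd_K2 (h1 : BaseUp k K C K1) (h2 : BaseUp k K L K2) {J : Type*} (γ : J → C)
    (hγ : LinearIndependent L γ) : LinearIndependent K2 (fun j => algebraMap C K1 (γ j)) := by
  classical
  let β := Module.Basis.ofVectorSpace k K
  let m2 : L ⊗[k] K →ₐ[k] K2 := Algebra.TensorProduct.productMap (IsScalarTower.toAlgHom k L K2)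
      (IsScalarTower.toAlgHom k K K2)
  have hm2 : Function.Injective m2 := prod_injective β (ld_family h2 β β.linearIndependent)
  let m1 : C ⊗[k] K →ₐ[k] K1 := Algebra.TensorProduct.productMap (IsScalarTower.toAlgHom k C K1)
      (IsScalarTower.toAlgHom k K K1)
  have hm1 : Function.Injective m1 := prod_injective β (ld_family h1 β β.linearIndependent)
  let u : L ⊗[k] K →ₐ[k] C ⊗[k] K :=
    Algebra.TensorProduct.map (IsScalarTower.toAlgHom k L C) (AlgHom.id k K)
  have hφ : ∀ t : L ⊗[k] K, algebraMap K2 K1 (m2 t) = m1 (u t) := by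
    intro t
    induction t using TensorProduct.induction_on with
    | zero => simp
    | tmul l a =>
      simp only [m1, m2, u, Algebra.TensorProduct.productMap_apply_tmul,
        IsScalarTower.coe_toAlgHom', Algebra.TensorProduct.map_tmul, AlgHom.id_apply, map_mul]
      rw [← IsScalarTower.algebraMap_apply L K2 K1, ← IsScalarTower.algebraMap_apply K K2 K1,
        ← IsScalarTower.algebraMap_apply L C K1]
    | add s t h1 h2 => simp only [map_add, h1, h2]
  rw [linearIndependent_iff']
  intro s g hg j hj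
  -- common denominator
  have hden : ∀ s : Finset J, ∃ b : K2, b ≠ 0 ∧ (∃ t, m2 t = b) ∧
      ∀ j ∈ s, ∃ t, m2 t = b * g j := by
    intro s
    induction s using Finset.induction_on with
    | empty => exact ⟨1, one_ne_zero, ⟨1, map_one _⟩, by simp⟩
    | insert a s _ ih =>
      obtain ⟨b, hb0, ⟨tb, htb⟩, hb⟩ := ih
      obtain ⟨x, hx, y, hy, hy0, hxy⟩ := h2.gen (g a)
      obtain ⟨tx, htx⟩ := (mem_range_prod (k := k) x).1 hx
      obtain ⟨ty, hty⟩ := (mem_range_prod (k := k) y).1 hy
      have htx' : m2 tx = x := htx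
      have hty' : m2 ty = y := hty
      refine ⟨b * y, mul_ne_zero hb0 hy0, ⟨tb * ty, by rw [map_mul, htb, hty']⟩, fun j hj => ?_⟩
      rcases Finset.mem_insert.1 hj with rfl | hj
      · exact ⟨tb * tx, by rw [map_mul, htb, htx', ← hxy]; ring⟩
      · obtain ⟨t, ht⟩ := hb j hj
        exact ⟨t * ty, by rw [map_mul, ht, hty']; ring⟩
  obtain ⟨b, hb0, -, hb⟩ := hden s
  choose! t ht using hb
  -- the relation upstairs
  have h3 : ∑ j ∈ s, γ j • u (t j) = 0 := by
    apply hm1
    rw [map_zero, map_sum]
    have h4 : ∑ j ∈ s, algebraMap K2 K1 b * (g j • algebraMap C K1 (γ j)) = 0 := by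
      rw [← Finset.mul_sum, hg, mul_zero]
    rw [← h4]
    refine Finset.sum_congr rfl fun j hj => ?_
    have h5 : m1 (γ j • u (t j)) = algebraMap C K1 (γ j) * m1 (u (t j)) := by
      have : γ j • u (t j) = (γ j ⊗ₜ[k] (1 : K)) * u (t j) := by
        rw [Algebra.smul_def]; rfl
      rw [this, map_mul]
      simp [m1]
    rw [h5, ← hφ, ht j hj, map_mul, Algebra.smul_def]
    ring
  -- coordinates
  have h6 : ∀ i, ∑ j ∈ s, (β.baseChange L).repr (t j) i • γ j = 0 := by
    intro i
    have h7 := congrArg (fun x => (β.baseChange C).repr x i) h3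
    simp only [map_sum, map_smul, Finsupp.coe_finsetSum, Finset.sum_apply, Finsupp.smul_apply,
      map_zero, Finsupp.coe_zero, Pi.zero_apply] at h7
    rw [← h7]
    refine Finset.sum_congr rfl fun j _ => ?_
    rw [repr_map, Algebra.smul_def, smul_eq_mul, mul_comm]
    rfl
  have h8 : ∀ i, (β.baseChange L).repr (t j) i = 0 := fun i =>
    (linearIndependent_iff'.1 hγ) s _ (h6 i) j hj
  have h9 : t j = 0 := by
    rw [← (β.baseChange L).repr.map_eq_zero_iff]
    ext i
    exact h8 i
  have h10 := ht j hj
  rw [h9, map_zero] at h10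
  exact (mul_eq_zero.1 h10.symm).resolve_left hb0

/-- `K1 = K2 ⊗_L C` -/
theorem isPushout (h1 : BaseUp k K C K1) (h2 : BaseUp k K L K2) [Algebra.IsAlgebraic L C] :
    Algebra.IsPushout L K2 C K1 := by
  let γ := Module.Basis.ofVectorSpace L C
  let p : K2 ⊗[L] C →ₐ[L] K1 := Algebra.TensorProduct.productMap (IsScalarTower.toAlgHom L K2 K1)
      (IsScalarTower.toAlgHom L C K1)
  have hp : Function.Injective p := prod_injective γ (linInd_K2 h1 h2 γ γ.linearIndependent)
  let q : K2 ⊗[L] C →ₐ[K2] K1 :=
    { toRingHom := p.toRingHom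
      commutes' := fun a => by
        change p (a ⊗ₜ 1) = _
        simp [p] }
  have hq : Function.Injective q := hp
  have hsurj : Function.Surjective q := by
    have hC : ∀ c : C, algebraMap C K1 c ∈ q.range := fun c => ⟨1 ⊗ₜ c, by
      change p (1 ⊗ₜ c) = _
      simp [p]⟩
    have hK : ∀ a : K, algebraMap K K1 a ∈ q.range := fun a => ⟨algebraMap K K2 a ⊗ₜ 1, by
      change p (algebraMap K K2 a ⊗ₜ 1) = _
      simp only [p, Algebra.TensorProduct.productMap_apply_tmul, map_one, mul_one,
        IsScalarTower.coe_toAlgHom']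
      rw [← IsScalarTower.algebraMap_apply K K2 K1]⟩
    have hspan : ∀ x ∈ Submodule.span C (Set.range (algebraMap K K1)), x ∈ q.range := by
      intro x hx
      induction hx using Submodule.span_induction with
      | mem x hx => obtain ⟨a, rfl⟩ := hx; exact hK a
      | zero => exact Subalgebra.zero_mem _
      | add x y _ _ h1 h2 => exact Subalgebra.add_mem _ h1 h2
      | smul c x _ h1 => rw [Algebra.smul_def]; exact Subalgebra.mul_mem _ (hC c) h1
    have halg : ∀ x : q.range, IsAlgebraic K2 (x : K1) := by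
      rintro ⟨_, t, rfl⟩
      change IsAlgebraic K2 (q t)
      induction t using TensorProduct.induction_on with
      | zero => rw [map_zero]; exact isAlgebraic_zero
      | tmul a c =>
        change IsAlgebraic K2 (p (a ⊗ₜ c))
        simp only [p, Algebra.TensorProduct.productMap_apply_tmul, IsScalarTower.coe_toAlgHom']
        refine IsAlgebraic.mul (isAlgebraic_algebraMap a) ?_
        exact ((Algebra.IsAlgebraic.isAlgebraic (R := L) c).algebraMap (A := K1)).tower_top K2
      | add s t h1 h2 => rw [map_add]; exact h1.add h2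
    intro x
    obtain ⟨a, ha, b, hb, hb0, hab⟩ := h1.gen x
    have e : x = a * b⁻¹ := by rw [← hab, mul_assoc, mul_inv_cancel₀ hb0, mul_one]
    have hb' : b⁻¹ ∈ q.range := q.range.inv_mem_of_algebraic (x := ⟨b, hspan b hb⟩) (halg _)
    rw [e]
    exact q.range.mul_mem (hspan a ha) hb'
  let E : K2 ⊗[L] C ≃ₐ[K2] K1 := AlgEquiv.ofBijective q ⟨hq, hsurj⟩
  refine ⟨IsBaseChange.of_equiv E.toLinearEquiv fun x => ?_⟩
  change p (1 ⊗ₜ x) = _
  simp [p]

end Glue

section Final

open Crest.Agent.R276.FKD1_508

theorem kap_of_baseUp {k K C K1 K2 : Type*} {L : Type*} [Field k] [Field K] [Field L] [Field C]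
    [Field K1] [Field K2]
    [Algebra k K] [Algebra k L] [Algebra k C]
    [Algebra K K1] [Algebra C K1] [Algebra k K1] [IsScalarTower k K K1] [IsScalarTower k C K1]
    [Algebra K K2] [Algebra L K2] [Algebra k K2] [IsScalarTower k K K2] [IsScalarTower k L K2]
    [CharZero k] [IsAlgClosed C]
    (h1 : BaseUp k K C K1) (h2 : BaseUp k K L K2) (ι : L →ₐ[k] C)
    (hι : ∀ x : C, IsAlgebraic ι.range x) (d : ℕ) :
    (KapGeS C K1 d ↔ KapGeS L K2 d) ∧ (KapGe C K1 d ↔ KapGe L K2 d) := by
  obtain ⟨φ, hφK, hφL⟩ := exists_hom h1 h2 ι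
  let a1 : Algebra L C := ι.toRingHom.toAlgebra
  have t1 : IsScalarTower k L C := IsScalarTower.of_algebraMap_eq fun c => (ι.commutes c).symm
  let a2 : Algebra K2 K1 := φ.toAlgebra
  have t2 : IsScalarTower K K2 K1 := IsScalarTower.of_algebraMap_eq fun c => (hφK c).symm
  let a3 : Algebra L K1 := ((algebraMap C K1).comp (algebraMap L C)).toAlgebra
  have t3 : IsScalarTower L C K1 := IsScalarTower.of_algebraMap_eq fun c => rfl
  have t4 : IsScalarTower L K2 K1 := IsScalarTower.of_algebraMap_eq fun c => (hφL c).symm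
  have c0 : CharZero L := charZero_of_injective_algebraMap (algebraMap k L).injective
  have halg : Algebra.IsAlgebraic L C := by
    refine ⟨fun x => ?_⟩
    obtain ⟨p, hp0, hp⟩ := hι x
    -- coefficients of `p` come from `L`
    have hsurj : Function.Surjective (ι.rangeRestrict : L →+* ι.range) :=
      ι.rangeRestrict_surjective
    obtain ⟨q, rfl⟩ := Polynomial.map_surjective _ hsurj p
    refine ⟨q, fun h => hp0 (by rw [h, Polynomial.map_zero]), ?_⟩
    rw [← Polynomial.aeval_eq_aeval_map] at hp
    · exact hp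
    · ext c; rfl
  have hpo : Algebra.IsPushout L K2 C K1 := isPushout h1 h2
  have hcl : IsAlgClosure L C := ⟨inferInstance, halg⟩
  have hn : Normal L C := IsAlgClosure.normal L C
  have hg : IsGalois L C := ⟨⟩
  exact ⟨⟨kapGeS_down, kapGeS_up⟩, ⟨kapGe_down, kapGe_up⟩⟩

/-- **Steinitz step**: very general fibre versus generic fibre -/
theorem kap_iff {k : Type*} {K K1 K2 : Type*} {L C : Type} [Field k] [Field K] [Field L] [Field C]
    [Field K1] [Field K2]
    [Algebra k K] [Algebra k L] [Algebra k C]
    [Algebra K K1] [Algebra C K1] [Algebra k K1] [IsScalarTower k K K1] [IsScalarTower k C K1]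
    [Algebra K K2] [Algebra L K2] [Algebra k K2] [IsScalarTower k K K2] [IsScalarTower k L K2]
    [CharZero k] [IsAlgClosed C] (h0 : Cardinal.mk k ≤ ℵ₀) (hcard : Cardinal.mk L = Cardinal.mk C)
    (hC : ℵ₀ < Cardinal.mk C)
    (h1 : BaseUp k K C K1) (h2 : BaseUp k K L K2) (d : ℕ) :
    (KapGeS C K1 d ↔ KapGeS L K2 d) ∧ (KapGe C K1 d ↔ KapGe L K2 d) := by
  obtain ⟨ι, hι⟩ := exists_embedding k L C h0 hcard hC
  exact kap_of_baseUp h1 h2 ι hι d

/-- a field with a countable transcendence basis over an uncountable subfield `C` has the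
cardinality of `C` -/
theorem card_eq {C L : Type} [Field C] [Field L] [Algebra C L] (hC : ℵ₀ < Cardinal.mk C)
    {s : Set L} (hs : IsTranscendenceBasis C ((↑) : s → L)) (hsc : s.Countable) :
    Cardinal.mk L = Cardinal.mk C := by
  apply le_antisymm
  · have h1 : Algebra.IsAlgebraic (Algebra.adjoin C (Set.range ((↑) : s → L))) L := hs.isAlgebraic
    have h2 := Algebra.IsAlgebraic.cardinalMk_le_max
      (Algebra.adjoin C (Set.range ((↑) : s → L))) L
    have h3 : Cardinal.mk (Algebra.adjoin C (Set.range ((↑) : s → L))) =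
        Cardinal.mk (MvPolynomial s C) :=
      (Cardinal.eq.2 ⟨hs.1.aevalEquiv.toEquiv⟩).symm
    rw [h3] at h2
    have h4 := MvPolynomial.cardinalMk_le_max (σ := s) (R := C)
    refine h2.trans (max_le (h4.trans ?_) hC.le)
    refine max_le (max_le le_rfl ?_) hC.le
    exact (Cardinal.mk_le_aleph0_iff.2 hsc.to_subtype).trans hC.le
  · exact Cardinal.mk_le_of_injective (algebraMap C L).injective

/-- the same for a finitely generated field extension -/
theorem card_eq_of_fg {C L : Type} [Field C] [Field L] [Algebra C L] (hC : ℵ₀ < Cardinal.mk C)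
    (h : (⊤ : IntermediateField C L).FG) : Cardinal.mk L = Cardinal.mk C := by
  obtain ⟨t, ht⟩ := h
  have halg : Algebra.IsAlgebraic (Algebra.adjoin C (t : Set L)) L := by
    refine ⟨fun x => ?_⟩
    have hx : x ∈ IntermediateField.adjoin C (t : Set L) := by rw [ht]; trivial
    rw [IntermediateField.mem_adjoin_iff_div] at hx
    obtain ⟨r, hr, s, hs, rfl⟩ := hx
    rw [div_eq_mul_inv]
    exact (isAlgebraic_algebraMap (⟨r, hr⟩ : Algebra.adjoin C (t : Set L))).mul
      (isAlgebraic_algebraMap (⟨s, hs⟩ : Algebra.adjoin C (t : Set L))).inv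
  have i2 : FaithfulSMul C L :=
    (faithfulSMul_iff_algebraMap_injective _ _).2 (algebraMap C L).injective
  obtain ⟨s, hst, hs⟩ := exists_isTranscendenceBasis_subset (R := C) (t : Set L)
  exact card_eq hC hs ((t.finite_toSet.subset hst).countable)

theorem card_complex : ℵ₀ < Cardinal.mk ℂ := by
  rw [Cardinal.mk_complex]; exact Cardinal.aleph0_lt_continuum

end Final

end

end Crest.Agent.R276.FKS_508
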