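import Crest.Agent.R276.FK3F_595
import Crest.Agent.R276.FKFin_849
import Crest.Agent.R276.FKS_508

/-!
# Row 276, FK3: very general fibre => generic fibre (helper595)

`vgf : VGF` (849's interface), and the same statement in the form consumed by `mainBeta`
(`vgfBeta`), with `φ = fnHom`, the `ℂ`-algebra map of function fields defined by `f`.
-/

set_option autoImplicit false
set_option linter.all false

open AlgebraicGeometry CategoryTheory Crest.AlgGeometry.Divisors
open Crest.Agent.R276.FK3A_595 Crest.Agent.R276.FK3B_595 Crest.Agent.R276.FK3D_595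
open Crest.Agent.R276.FKDefs_779 Crest.Agent.R276.FKFin_849 Crest.Agent.R276.FKB4_594

namespace Crest.Agent.R276.FK3G_595

/-- the countable family of closed sets and the comparison of `κ` of the very general fibre and of
the generic fibre -/
theorem compare (X Z : Scheme.{0}) [Algebra ℂ Γ(X, ⊤)] [Algebra ℂ Γ(Z, ⊤)]
    [IsIntegral X] [IsLocallyNoetherian X] [IsIntegral Z] [IsLocallyNoetherian Z] (n m : ℕ)
    (hX : IsSmoothProperVariety ℂ X n) (hZ : IsSmoothProperVariety ℂ Z m)
    (f : X ⟶ Z) (hf : f ≫ structureMorphism ℂ Z = structureMorphism ℂ X)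
    (h : f (genericPoint X) ⤳ genericPoint Z) :
    ∃ C : ℕ → Set Z, (∀ i, IsClosed (C i) ∧ C i ≠ Set.univ) ∧
      ∀ z : Spec (CommRingCat.of ℂ) ⟶ Z, (∀ i, z (IsLocalRing.closedPoint ℂ) ∉ C i) →
        ∀ (_ : IsIntegral (Limits.pullback f z)) (d : ℕ),
          letI : Algebra ℂ Γ(Limits.pullback f z, ⊤) := fibreAlgebra ℂ f z
          letI : Algebra ℂ (Limits.pullback f z).functionField :=
            fnFieldAlgebra ℂ (Limits.pullback f z)
          letI : Algebra Z.functionField X.functionField := (fnMap f h).hom.toAlgebra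
          (KapGeS ℂ (Limits.pullback f z).functionField d ↔
            KapGeS Z.functionField X.functionField d) ∧
          (KapGe ℂ (Limits.pullback f z).functionField d ↔
            KapGe Z.functionField X.functionField d) := by
  obtain ⟨L0, K0, iL0, iK0, iLK, hL0, hK0, hgen, Cc, hCc, hfib⟩ :=
    Crest.Agent.R276.FK3F_595.fk3 ℂ hX.2.1 hZ.2.1 f hf h
  refine ⟨Cc, hCc, fun z hz hint d => ?_⟩
  letI : Algebra ℂ Γ(Limits.pullback f z, ⊤) := fibreAlgebra ℂ f z
  letI : Algebra ℂ (Limits.pullback f z).functionField :=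
    fnFieldAlgebra ℂ (Limits.pullback f z)
  letI : Algebra Z.functionField X.functionField := (fnMap f h).hom.toAlgebra
  obtain ⟨a1, a2, a3, t1, t2, hb⟩ := hfib z hz hint
  obtain ⟨b1, b2, b3, s1, s2, hb'⟩ := hgen
  haveI : CharZero L0 := RingHom.charZero (algebraMap L0 ℂ)
  have hcard : Cardinal.mk Z.functionField = Cardinal.mk ℂ := by
    letI : Algebra ℂ Z.functionField := fnFieldAlgebra ℂ Z
    exact Crest.Agent.R276.FKS_508.card_eq_of_fg Crest.Agent.R276.FKS_508.card_complex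
      (fgf_functionField Z hZ)
  exact Crest.Agent.R276.FKS_508.kap_iff (Cardinal.mk_le_aleph0_iff.mpr hL0) hcard
    Crest.Agent.R276.FKS_508.card_complex hb hb' d

/-- the same, in terms of the Kodaira dimension of the fibre as defined in the statement -/
theorem kapGeS_of_fibre (X Z : Scheme.{0}) [Algebra ℂ Γ(X, ⊤)] [Algebra ℂ Γ(Z, ⊤)]
    [IsIntegral X] [IsLocallyNoetherian X] [IsIntegral Z] [IsLocallyNoetherian Z] (n m : ℕ)
    (hX : IsSmoothProperVariety ℂ X n) (hZ : IsSmoothProperVariety ℂ Z m)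
    (f : X ⟶ Z) (hf : f ≫ structureMorphism ℂ Z = structureMorphism ℂ X)
    (h : f (genericPoint X) ⤳ genericPoint Z) :
    ∃ C : ℕ → Set Z, (∀ i, IsClosed (C i) ∧ C i ≠ Set.univ) ∧
      ∀ z : Spec (CommRingCat.of ℂ) ⟶ Z, (∀ i, z (IsLocalRing.closedPoint ℂ) ∉ C i) →
        ∀ r d : ℕ, FibreKodairaDimGe ℂ f z r d →
          letI : Algebra Z.functionField X.functionField := (fnMap f h).hom.toAlgebra
          KapGeS Z.functionField X.functionField d := by
  obtain ⟨Cc, hCc, H⟩ := compare X Z n m hX hZ f hf h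
  refine ⟨Cc, hCc, fun z hz r d hd => ?_⟩
  letI : Algebra ℂ Γ(Limits.pullback f z, ⊤) := fibreAlgebra ℂ f z
  obtain ⟨hint, hnoe, hsm, K, hK, hkd⟩ := hd
  letI : Algebra ℂ (Limits.pullback f z).functionField :=
    fnFieldAlgebra ℂ (Limits.pullback f z)
  exact ((H z hz hint d).1).mp ((kodairaDimGe_iffS hsm hK d).1 hkd)

/-- very general fibre ⇒ generic fibre, in the form `VGF` -/
theorem vgf : VGF := by
  intro X Z iX iZ iiX inX iiZ inZ n m hX hZ f hf hsurj
  have h := specializes_of_surjective f hsurj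
  obtain ⟨Cc, hCc, H⟩ := kapGeS_of_fibre X Z n m hX hZ f hf h
  refine ⟨(fnMap f h).hom, ?_, ?_, Cc, hCc, fun z _ hz d hd => H z hz (n - m) d hd⟩
  · intro V _ _ s
    have h1 := germ_fnMap f h (V := V) (U := f ⁻¹ᵁ V) le_rfl
    have h2 : f.appLE V (f ⁻¹ᵁ V) le_rfl = f.app V := (Scheme.Hom.app_eq_appLE f).symm
    rw [h2] at h1
    exact congrArg (fun φ : Γ(Z, V) ⟶ X.functionField => φ.hom s) h1
  · intro c
    exact const_fnMap f ℂ hf h c

/-- the `ℂ`-algebra homomorphism of function fields -/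
noncomputable def fnHom (X Z : Scheme.{0}) [Algebra ℂ Γ(X, ⊤)] [Algebra ℂ Γ(Z, ⊤)]
    [IsIntegral X] [IsIntegral Z] (f : X ⟶ Z)
    (hf : f ≫ structureMorphism ℂ Z = structureMorphism ℂ X)
    (h : f (genericPoint X) ⤳ genericPoint Z) :
    letI := fnFieldAlgebra ℂ X; letI := fnFieldAlgebra ℂ Z;
    Z.functionField →ₐ[ℂ] X.functionField :=
  letI := fnFieldAlgebra ℂ X; letI := fnFieldAlgebra ℂ Z;
  { (fnMap f h).hom with
    commutes' := fun c => const_fnMap f ℂ hf h c }

theorem fnHom_germ (X Z : Scheme.{0}) [Algebra ℂ Γ(X, ⊤)] [Algebra ℂ Γ(Z, ⊤)]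
    [IsIntegral X] [IsIntegral Z] (f : X ⟶ Z)
    (hf : f ≫ structureMorphism ℂ Z = structureMorphism ℂ X)
    (h : f (genericPoint X) ⤳ genericPoint Z)
    (V : Z.Opens) [Nonempty V] [Nonempty (f ⁻¹ᵁ V : X.Opens)] (s : Γ(Z, V)) :
      fnHom X Z f hf h (Z.germToFunctionField V s) =
        X.germToFunctionField (f ⁻¹ᵁ V) (f.app V s) := by
  have h1 := germ_fnMap f h (V := V) (U := f ⁻¹ᵁ V) le_rfl
  have h2 : f.appLE V (f ⁻¹ᵁ V) le_rfl = f.app V := (Scheme.Hom.app_eq_appLE f).symm
  rw [h2] at h1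
  exact congrArg (fun φ : Γ(Z, V) ⟶ X.functionField => φ.hom s) h1

/-- transport along a bijection of base fields -/
theorem kapGeS_of_bijective {k k' K : Type*} [Field k] [Field k'] [Field K] [Algebra k k']
    [Algebra k K] [Algebra k' K] [IsScalarTower k k' K]
    (hb : Function.Bijective (algebraMap k k')) {d : ℕ} (h : KapGeS k K d) : KapGeS k' K d := by
  haveI : Algebra.IsAlgebraic k k' := by
    refine ⟨fun x => ?_⟩
    obtain ⟨y, rfl⟩ := hb.2 x
    exact isAlgebraic_algebraMap y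
  let e0 : k ≃ₗ[k] k' := LinearEquiv.ofBijective (Algebra.linearMap k k') hb
  let e : TensorProduct k K k' ≃ₗ[K] K :=
    (TensorProduct.AlgebraTensorModule.congr (LinearEquiv.refl K K) e0.symm).trans
      (TensorProduct.AlgebraTensorModule.rid k K K)
  haveI : Algebra.IsPushout k K k' K := by
    refine ⟨IsBaseChange.of_equiv e fun x => ?_⟩
    obtain ⟨y, rfl⟩ := hb.2 x
    have h1 : e0.symm (algebraMap k k' y) = y := by
      rw [LinearEquiv.symm_apply_eq]; rfl
    have h2 : e ((1 : K) ⊗ₜ[k] (algebraMap k k' y)) = y • (1 : K) := by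
      change (TensorProduct.AlgebraTensorModule.rid k K K) ((1 : K) ⊗ₜ (e0.symm (algebraMap k k' y))) = _
      rw [h1]; rfl
    rw [h2, ← Algebra.algebraMap_eq_smul_one, IsScalarTower.algebraMap_apply k k' K]
    rfl
  exact Crest.Agent.R276.FKD1_508.kapGeS_up (k := k) (k' := k') (K := K) (K' := K) h

/-- very general fibre ⇒ generic fibre, in the form consumed by `mainBeta` -/
theorem vgfBeta (X Z : Scheme.{0}) [Algebra ℂ Γ(X, ⊤)] [Algebra ℂ Γ(Z, ⊤)]
    [IsIntegral X] [IsLocallyNoetherian X] [IsIntegral Z] [IsLocallyNoetherian Z] (n m : ℕ)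
    (hX : IsSmoothProperVariety ℂ X n) (hZ : IsSmoothProperVariety ℂ Z m)
    (f : X ⟶ Z) (hf : f ≫ structureMorphism ℂ Z = structureMorphism ℂ X)
    (h : f (genericPoint X) ⤳ genericPoint Z) :
    letI := fnFieldAlgebra ℂ X; letI := fnFieldAlgebra ℂ Z;
      ∃ C : ℕ → Set Z, (∀ i, IsClosed (C i) ∧ C i ≠ Set.univ) ∧
        ∀ z : Spec (CommRingCat.of ℂ) ⟶ Z, z ≫ structureMorphism ℂ Z = 𝟙 _ →
          (∀ i, z.base (IsLocalRing.closedPoint ℂ) ∉ C i) →
          ∀ d : ℕ, FibreKodairaDimGe ℂ f z (n - m) d →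
            KapGeS (fnHom X Z f hf h).fieldRange X.functionField d := by
  obtain ⟨Cc, hCc, H⟩ := kapGeS_of_fibre X Z n m hX hZ f hf h
  refine ⟨Cc, hCc, fun z _ hz d hd => ?_⟩
  letI : Algebra ℂ X.functionField := fnFieldAlgebra ℂ X
  letI : Algebra ℂ Z.functionField := fnFieldAlgebra ℂ Z
  have h1 := H z hz (n - m) d hd
  letI i1 : Algebra Z.functionField X.functionField := (fnMap f h).hom.toAlgebra
  let eZ : Z.functionField ≃ₐ[ℂ] (fnHom X Z f hf h).fieldRange :=
    AlgEquiv.ofInjectiveField (fnHom X Z f hf h)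
  letI i2 : Algebra Z.functionField (fnHom X Z f hf h).fieldRange :=
    eZ.toRingEquiv.toRingHom.toAlgebra
  haveI : IsScalarTower Z.functionField (fnHom X Z f hf h).fieldRange X.functionField :=
    IsScalarTower.of_algebraMap_eq' rfl

  exact kapGeS_of_bijective (k := Z.functionField) (k' := (fnHom X Z f hf h).fieldRange)
    eZ.bijective h1

end Crest.Agent.R276.FK3G_595
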