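import Mathlib

/-!
# R276, leaf FK4 (helper508), part 1: Galois descent for subspaces; valuation rings in a constant
algebraic extension.

Setting: `K' = K ⊗_k k'` is a field, `k'/k` Galois (possibly infinite).
* `gal σ : K' ≃ₐ[K] K'` is the action of `σ : k' ≃ₐ[k] k'` on the second factor;
* `descent`: a `k'`-subspace of `K'` stable under all `gal σ` is spanned by its elements in `K`;
* `mem_span_of_forall`: an element in all valuation rings of `K'` over `R ⊆ K` is in `k' · R`;
* `exists_frac`: every element of a valuation ring `V` of `K'` over `R` is `p / q` with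
  `p, q ∈ k' · R` and `q` a unit of `V`.
-/

set_option autoImplicit false
set_option linter.unusedSectionVars false

open Algebra TensorProduct

namespace Crest.Agent.R276.FKD1_508

noncomputable section

section Descent

variable {k k' K K' : Type*} [Field k] [Field k'] [Field K] [Field K']
  [Algebra k k'] [Algebra k K] [Algebra k K'] [Algebra K K'] [Algebra k' K']
  [IsScalarTower k K K'] [IsScalarTower k k' K'] [Algebra.IsPushout k K k' K']

variable (K K') in
/-- the action of `σ` on the factor `k'` of `K' = K ⊗ k'` -/
def gal (σ : k' ≃ₐ[k] k') : K' ≃ₐ[K] K' :=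
  ((Algebra.IsPushout.equiv k K k' K').symm.trans
    (Algebra.TensorProduct.congr (AlgEquiv.refl : K ≃ₐ[K] K) σ)).trans
    (Algebra.IsPushout.equiv k K k' K')

theorem gal_algebraMap (σ : k' ≃ₐ[k] k') (c : k') :
    gal K K' σ (algebraMap k' K' c) = algebraMap k' K' (σ c) := by
  simp [gal, Algebra.IsPushout.equiv_symm_algebraMap_right, Algebra.IsPushout.equiv_tmul]

theorem gal_base (σ : k' ≃ₐ[k] k') (a : K) :
    gal K K' σ (algebraMap K K' a) = algebraMap K K' a := by
  simp

theorem gal_smul (σ : k' ≃ₐ[k] k') (c : k') (x : K') :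
    gal K K' σ (c • x) = σ c • gal K K' σ x := by
  rw [Algebra.smul_def, Algebra.smul_def, map_mul, gal_algebraMap]

variable (k k' K K') in
/-- a basis of `K'` over `k'` consisting of elements of `K` -/
def bas : Module.Basis (Module.Basis.ofVectorSpaceIndex k K) k' K' :=
  haveI h : Algebra.IsPushout k k' K K' := Algebra.IsPushout.symm inferInstance
  ((Module.Basis.ofVectorSpace k K).baseChange k').map h.out.equiv

theorem bas_apply (i : Module.Basis.ofVectorSpaceIndex k K) :
    bas k k' K K' i = algebraMap K K' (Module.Basis.ofVectorSpace k K i) := by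
  have h : Algebra.IsPushout k k' K K' := Algebra.IsPushout.symm inferInstance
  simp [bas, IsBaseChange.equiv_tmul]

theorem bas_gal (σ : k' ≃ₐ[k] k') (x : K') (i : Module.Basis.ofVectorSpaceIndex k K) :
    (bas k k' K K').repr (gal K K' σ x) i = σ ((bas k k' K K').repr x i) := by
  have hx := (bas k k' K K').linearCombination_repr x
  set r := (bas k k' K K').repr x with hr
  have h1 : gal K K' σ x = Finsupp.linearCombination k' (bas k k' K K')
      (r.mapRange σ (map_zero σ)) := by
    rw [← hx, Finsupp.linearCombination_apply, Finsupp.sum, map_sum,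
      Finsupp.linearCombination_apply, Finsupp.sum_mapRange_index (by simp), Finsupp.sum]
    refine Finset.sum_congr rfl fun j _ => ?_
    rw [gal_smul, bas_apply, gal_base]
  rw [h1, Module.Basis.repr_linearCombination, Finsupp.mapRange_apply]

/-- **Galois descent for subspaces.** -/
theorem descent [IsGalois k k'] (W : Submodule k' K')
    (hW : ∀ σ : k' ≃ₐ[k] k', ∀ w ∈ W, gal K K' σ w ∈ W) (w : K') (hw : w ∈ W) :
    w ∈ Submodule.span k' ((algebraMap K K') '' {a | algebraMap K K' a ∈ W}) := by
  classical
  set B := bas k k' K K' with hB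
  -- strong induction on the size of the support
  suffices H : ∀ N : ℕ, ∀ w ∈ W, (B.repr w).support.card ≤ N →
      w ∈ Submodule.span k' ((algebraMap K K') '' {a | algebraMap K K' a ∈ W}) from
    H _ w hw le_rfl
  intro N
  induction N with
  | zero =>
    intro w _ h
    have : (B.repr w).support = ∅ := by
      rw [← Finset.card_eq_zero]; omega
    have h0 : B.repr w = 0 := Finsupp.support_eq_empty.1 this
    have : w = 0 := by simpa using h0
    rw [this]; exact Submodule.zero_mem _
  | succ N ih =>
    intro w hw hN
    by_cases h0 : w = 0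
    · rw [h0]; exact Submodule.zero_mem _
    -- the nonzero elements of `W` with support inside the support of `w`
    let S : Set ℕ := {m | ∃ u ∈ W, u ≠ 0 ∧ (B.repr u).support ⊆ (B.repr w).support ∧
      (B.repr u).support.card = m}
    have hS : S.Nonempty := ⟨_, w, hw, h0, Finset.Subset.refl _, rfl⟩
    obtain ⟨u, huW, hu0, husub, hucard⟩ := Nat.sInf_mem hS
    have hmin : ∀ v ∈ W, (B.repr v).support ⊂ (B.repr u).support → v = 0 := by
      intro v hv hlt
      by_contra hv0
      have : (B.repr v).support.card ∈ S := ⟨v, hv, hv0, hlt.subset.trans husub, rfl⟩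
      have h1 := Nat.sInf_le this
      have h2 := Finset.card_lt_card hlt
      omega
    have hune : (B.repr u).support.Nonempty := by
      rw [Finset.nonempty_iff_ne_empty]
      intro h
      exact hu0 (by simpa using Finsupp.support_eq_empty.1 h)
    obtain ⟨i0, hi0⟩ := hune
    have hc : B.repr u i0 ≠ 0 := Finsupp.mem_support_iff.1 hi0
    set u1 : K' := (B.repr u i0)⁻¹ • u with hu1
    have hu1W : u1 ∈ W := W.smul_mem _ huW
    have hrep : ∀ i, B.repr u1 i = (B.repr u i0)⁻¹ * B.repr u i := by
      intro i; simp [hu1]
    have hrep0 : B.repr u1 i0 = 1 := by rw [hrep, inv_mul_cancel₀ hc]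
    have hsupp1 : (B.repr u1).support = (B.repr u).support := by
      ext i
      simp [Finsupp.mem_support_iff, hrep, hc]
    -- all coordinates are fixed
    have hfix : ∀ i, ∀ σ : k' ≃ₐ[k] k', σ (B.repr u1 i) = B.repr u1 i := by
      intro i σ
      have hv : gal K K' σ u1 - u1 ∈ W := W.sub_mem (hW σ _ hu1W) hu1W
      have hco : ∀ j, B.repr (gal K K' σ u1 - u1) j = σ (B.repr u1 j) - B.repr u1 j := by
        intro j
        rw [map_sub, Finsupp.sub_apply, bas_gal]
      have hz := hmin _ hv (by
        rw [Finset.ssubset_iff_of_subset]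
        · refine ⟨i0, hi0, ?_⟩
          rw [Finsupp.notMem_support_iff, hco, hrep0, map_one, sub_self]
        · intro j hj
          rw [Finsupp.mem_support_iff, hco] at hj
          rw [← hsupp1, Finsupp.mem_support_iff]
          intro h
          rw [h, map_zero, sub_self] at hj
          exact hj rfl)
      have := hco i
      rw [hz] at this
      simpa [sub_eq_zero] using this.symm
    -- hence `u1` comes from `K`
    have hK : ∃ a : K, algebraMap K K' a = u1 := by
      have h1 : ∀ i, ∃ c : k, algebraMap k k' c = B.repr u1 i := by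
        intro i
        exact (InfiniteGalois.mem_range_algebraMap_iff_fixed (K := k') _).2 (fun σ => hfix i σ)
      choose c hcc using h1
      refine ⟨∑ i ∈ (B.repr u1).support, c i • Module.Basis.ofVectorSpace k K i, ?_⟩
      rw [map_sum]
      conv_rhs => rw [← B.linearCombination_repr u1, Finsupp.linearCombination_apply, Finsupp.sum]
      refine Finset.sum_congr rfl fun i _ => ?_
      rw [hB, bas_apply, ← hB, ← hcc i, Algebra.smul_def, map_mul,
        ← IsScalarTower.algebraMap_apply k K K', Algebra.smul_def,
        ← IsScalarTower.algebraMap_apply k k' K']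
    obtain ⟨a, ha⟩ := hK
    have hmem : u1 ∈ Submodule.span k' ((algebraMap K K') '' {a | algebraMap K K' a ∈ W}) :=
      Submodule.subset_span ⟨a, by simpa [ha] using hu1W, ha⟩
    -- subtract
    have hw2 : w - B.repr w i0 • u1 ∈ W := W.sub_mem hw (W.smul_mem _ hu1W)
    have hlt : (B.repr (w - B.repr w i0 • u1)).support ⊂ (B.repr w).support := by
      rw [Finset.ssubset_iff_of_subset]
      · refine ⟨i0, husub hi0, ?_⟩
        rw [Finsupp.notMem_support_iff, map_sub, map_smul, Finsupp.sub_apply,
          Finsupp.smul_apply, hrep0, smul_eq_mul, mul_one, sub_self]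
      · intro j hj
        rw [Finsupp.mem_support_iff, map_sub, map_smul, Finsupp.sub_apply,
          Finsupp.smul_apply] at hj
        by_contra hjw
        have h3 : B.repr u1 j = 0 := by
          rw [← Finsupp.notMem_support_iff, hsupp1]
          exact fun h => hjw (husub h)
        rw [h3, Finsupp.notMem_support_iff.1 hjw] at hj
        simp at hj
    have hcard := Finset.card_lt_card hlt
    have h4 := ih _ hw2 (by omega)
    have h5 : w = (w - B.repr w i0 • u1) + B.repr w i0 • u1 := by ring
    rw [h5]
    exact Submodule.add_mem _ h4 (Submodule.smul_mem _ _ hmem)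

end Descent

section Val

variable {k k' K K' : Type*} [Field k] [Field k'] [Field K] [Field K']
  [Algebra k k'] [Algebra k K] [Algebra k K'] [Algebra K K'] [Algebra k' K']
  [IsScalarTower k K K'] [IsScalarTower k k' K']

/-- `V` lies over `R` -/
def Over (V : ValuationSubring K') (R : ValuationSubring K) : Prop :=
  ∀ a : K, algebraMap K K' a ∈ V ↔ a ∈ R

omit [Algebra K K'] [IsScalarTower k K K'] [Algebra k K] [Field K] in
theorem const_mem [Algebra.IsAlgebraic k k'] (V : ValuationSubring K')
    (hk : ∀ c : k, algebraMap k K' c ∈ V) (c : k') : algebraMap k' K' c ∈ V := by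
  have h1 : IsIntegral k (algebraMap k' K' c) :=
    (Algebra.IsIntegral.isIntegral (R := k) c).algebraMap
  obtain ⟨p, hp, hp2⟩ := h1
  let φ : k →+* V := (algebraMap k K').codRestrict V.toSubring hk
  have h3 : IsIntegral V (algebraMap k' K' c) := by
    refine ⟨p.map φ, hp.map φ, ?_⟩
    rw [Polynomial.eval₂_map]
    exact hp2
  obtain ⟨y, hy⟩ := IsIntegrallyClosed.isIntegral_iff.1 h3
  rw [← hy]
  exact y.2

omit [Algebra k k'] [Algebra k K'] [Algebra k' K'] [IsScalarTower k K K']
  [IsScalarTower k k' K'] [Field k'] [Algebra k K] [Field k] in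
theorem Over.val_le_one {V : ValuationSubring K'} {R : ValuationSubring K} (h : Over V R) (a : K) :
    V.valuation (algebraMap K K' a) ≤ 1 ↔ R.valuation a ≤ 1 := by
  rw [V.valuation_le_one_iff, R.valuation_le_one_iff, h]

omit [Algebra k k'] [Algebra k K'] [Algebra k' K'] [IsScalarTower k K K']
  [IsScalarTower k k' K'] [Field k'] [Algebra k K] [Field k] in
theorem Over.val_le {V : ValuationSubring K'} {R : ValuationSubring K} (h : Over V R) (a b : K) :
    V.valuation (algebraMap K K' a) ≤ V.valuation (algebraMap K K' b) ↔
      R.valuation a ≤ R.valuation b := by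
  by_cases hb : b = 0
  · subst hb
    simp
  · have h1 : R.valuation b ≠ 0 := by simpa using hb
    have h2 : V.valuation (algebraMap K K' b) ≠ 0 := by simpa using hb
    have e1 : R.valuation a ≤ R.valuation b ↔ R.valuation (a / b) ≤ 1 := by
      rw [map_div₀, div_le_one₀ (zero_lt_iff.2 h1)]
    have e2 : V.valuation (algebraMap K K' a) ≤ V.valuation (algebraMap K K' b) ↔
        V.valuation (algebraMap K K' (a / b)) ≤ 1 := by
      rw [map_div₀, map_div₀, div_le_one₀ (zero_lt_iff.2 h2)]
    rw [e1, e2, h.val_le_one]

variable [Algebra.IsPushout k K k' K']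

/-- image of a valuation ring under `gal σ` -/
def galV (σ : k' ≃ₐ[k] k') (V : ValuationSubring K') : ValuationSubring K' :=
  V.comap (gal K K' σ : K' →+* K')

theorem mem_galV (σ : k' ≃ₐ[k] k') (V : ValuationSubring K') (x : K') :
    x ∈ galV (K := K) σ V ↔ gal K K' σ x ∈ V := Iff.rfl

theorem over_galV (σ : k' ≃ₐ[k] k') (V : ValuationSubring K') (R : ValuationSubring K)
    (h : Over V R) : Over (galV (K := K) σ V) R := by
  intro a
  rw [mem_galV, gal_base]
  exact h a

/-- the intersection of all valuation rings of `K'` over `R`, as a `k'`-space -/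
def BW [Algebra.IsAlgebraic k k'] (R : ValuationSubring K)
    (hk : ∀ c : k, algebraMap k K c ∈ R) : Submodule k' K' where
  carrier := {z | ∀ V : ValuationSubring K', Over V R → z ∈ V}
  add_mem' := fun {a b} ha hb V hV => V.add_mem _ _ (ha V hV) (hb V hV)
  zero_mem' := fun V _ => V.zero_mem
  smul_mem' := fun c x hx V hV => by
    rw [Algebra.smul_def]
    refine V.mul_mem _ _ (const_mem (k := k) V (fun c => ?_) c) (hx V hV)
    rw [IsScalarTower.algebraMap_apply k K K', hV]
    exact hk c

theorem mem_BW [Algebra.IsAlgebraic k k'] (R : ValuationSubring K)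
    (hk : ∀ c : k, algebraMap k K c ∈ R) (z : K') :
    z ∈ BW (k' := k') (K' := K') R hk ↔ ∀ V : ValuationSubring K', Over V R → z ∈ V := Iff.rfl

theorem mem_span_of_forall [IsGalois k k'] (R : ValuationSubring K)
    (hk : ∀ c : k, algebraMap k K c ∈ R) (hex : ∃ V : ValuationSubring K', Over V R) (z : K')
    (hz : ∀ V : ValuationSubring K', Over V R → z ∈ V) :
    z ∈ Submodule.span k' ((algebraMap K K') '' (R : Set K)) := by
  have h1 := descent (k := k) (K := K) (BW (k' := k') (K' := K') R hk) (fun σ w hw V hV => by
    have := hw (galV (K := K) σ V) (over_galV σ V R hV)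
    rwa [mem_galV] at this) z hz
  refine Submodule.span_mono (Set.image_mono ?_) h1
  intro a ha
  obtain ⟨V, hV⟩ := hex
  exact (hV a).1 (ha V hV)

end Val

section Horner

variable {K K' : Type*} [Field K] [Field K'] [Algebra K K']

/-- Horner sums `b_j = a_N x^j + a_{N-1} x^{j-1} + ... + a_{N-j}` -/
def horner (a : ℕ → K) (N : ℕ) (x : K') : ℕ → K'
  | 0 => algebraMap K K' (a N)
  | j + 1 => horner a N x j * x + algebraMap K K' (a (N - (j + 1)))

theorem horner_mem (a : ℕ → K) (N : ℕ) (x : K') (V : ValuationSubring K')
    (ha : ∀ i, algebraMap K K' (a i) ∈ V) (h0 : horner a N x N = 0) :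
    ∀ j ≤ N, horner a N x j ∈ V := by
  by_cases hx : x ∈ V
  · intro j _
    induction j with
    | zero => exact ha _
    | succ j ih =>
      exact V.add_mem _ _ (V.mul_mem _ _ (ih (by omega)) hx) (ha _)
  · have hx' : x⁻¹ ∈ V := (V.mem_or_inv_mem x).resolve_left hx
    have hx0 : x ≠ 0 := fun h => hx (h ▸ V.zero_mem)
    -- downward induction
    have : ∀ d ≤ N, horner a N x (N - d) ∈ V := by
      intro d
      induction d with
      | zero => intro _; rw [Nat.sub_zero, h0]; exact V.zero_mem
      | succ d ih =>
        intro hd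
        have h1 := ih (by omega)
        have e : N - d = (N - (d + 1)) + 1 := by omega
        rw [e, horner] at h1
        have h2 : horner a N x (N - (d + 1)) * x ∈ V := by
          have := V.add_mem _ _ h1 (V.neg_mem _ (ha (N - (N - (d + 1) + 1))))
          simpa using this
        have h3 := V.mul_mem _ _ h2 hx'
        rwa [mul_assoc, mul_inv_cancel₀ hx0, mul_one] at h3
    intro j hj
    have := this (N - j) (by omega)
    rwa [show N - (N - j) = j by omega] at this

theorem horner_mul_mem (a : ℕ → K) (N : ℕ) (x : K') (V : ValuationSubring K')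
    (ha : ∀ i, algebraMap K K' (a i) ∈ V) (h0 : horner a N x N = 0) (j : ℕ) (hj : j < N) :
    horner a N x j * x ∈ V := by
  have h1 := horner_mem a N x V ha h0 (j + 1) hj
  rw [horner] at h1
  have := V.add_mem _ _ h1 (V.neg_mem _ (ha (N - (j + 1))))
  simpa using this

/-- if `x ∈ V`, not all Horner sums with `j < N` are non-units -/
theorem exists_horner_unit (a : ℕ → K) (N : ℕ) (x : K') (V : ValuationSubring K')
    (R : ValuationSubring K) (hVR : Over V R) (ha : ∀ i, a i ∈ R) (h0 : horner a N x N = 0)
    (hx : x ∈ V) (i : ℕ) (hi : i ≤ N) (hiu : R.valuation (a i) = 1) :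
    ∃ j < N, V.valuation (horner a N x j) = 1 := by
  have ha' : ∀ i, algebraMap K K' (a i) ∈ V := fun i => (hVR _).2 (ha i)
  by_contra hcon
  push Not at hcon
  have hlt : ∀ j ≤ N, V.valuation (horner a N x j) < 1 := by
    intro j hj
    rcases Nat.lt_or_eq_of_le hj with h | h
    · exact lt_of_le_of_ne ((V.valuation_le_one_iff _).2 (horner_mem a N x V ha' h0 j hj))
        (hcon j h)
    · rw [h, h0, map_zero]; exact zero_lt_one
  have hxv : V.valuation x ≤ 1 := (V.valuation_le_one_iff _).2 hx
  have hai : V.valuation (algebraMap K K' (a i)) < 1 := by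
    rcases Nat.lt_or_eq_of_le hi with h | h
    · have e : N - i = (N - i - 1) + 1 := by omega
      have h1 : horner a N x (N - i) = horner a N x (N - i - 1) * x + algebraMap K K' (a i) := by
        conv_lhs => rw [e, horner]
        rw [show N - (N - i - 1 + 1) = i by omega]
      have h2 : algebraMap K K' (a i) = horner a N x (N - i) - horner a N x (N - i - 1) * x := by
        rw [h1]; ring
      rw [h2]
      refine lt_of_le_of_lt (V.valuation.map_sub _ _) (max_lt (hlt _ (by omega)) ?_)
      rw [map_mul]
      exact mul_lt_one_of_lt_of_le (hlt _ (by omega)) hxv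
    · have := hlt 0 (by omega)
      rw [horner, ← h] at this
      exact this
  have h5 : ¬ (V.valuation (algebraMap K K' 1) ≤ V.valuation (algebraMap K K' (a i))) := by
    rw [map_one, map_one]; exact not_le.2 hai
  rw [hVR.val_le, hiu, map_one] at h5
  exact h5 le_rfl

theorem horner_eq_eval (P : Polynomial K) (x : K') :
    ∀ j ≤ P.natDegree, horner P.coeff P.natDegree x j =
      ∑ l ∈ Finset.range (j + 1), algebraMap K K' (P.coeff (P.natDegree - l)) * x ^ (j - l) := by
  intro j
  induction j with
  | zero => intro _; simp [horner]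
  | succ j ih =>
    intro hj
    rw [horner, ih (by omega), Finset.sum_range_succ _ (j + 1), Finset.sum_mul]
    congr 1
    · refine Finset.sum_congr rfl fun l hl => ?_
      rw [Finset.mem_range] at hl
      rw [show j + 1 - l = (j - l) + 1 by omega, pow_succ]
      ring
    · simp

theorem horner_natDegree (P : Polynomial K) (x : K') :
    horner P.coeff P.natDegree x P.natDegree = Polynomial.aeval x P := by
  rw [horner_eq_eval P x _ le_rfl, Polynomial.aeval_eq_sum_range]
  rw [← Finset.sum_range_reflect]
  refine Finset.sum_congr rfl fun l hl => ?_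
  rw [Finset.mem_range] at hl
  rw [show P.natDegree + 1 - 1 - l = P.natDegree - l by omega,
    show P.natDegree - (P.natDegree - l) = l by omega, Algebra.smul_def]

/-- a nonzero polynomial can be scaled to be primitive with respect to `R` -/
theorem exists_scale (P : Polynomial K) (hP : P ≠ 0) (R : ValuationSubring K) :
    ∃ c : K, c ≠ 0 ∧ (∀ i, c * P.coeff i ∈ R) ∧ ∃ i ≤ P.natDegree, R.valuation (c * P.coeff i) = 1 := by
  classical
  have hne : P.support.Nonempty := Polynomial.support_nonempty.2 hP
  obtain ⟨i, hi, hmax⟩ := P.support.exists_max_image (fun i => R.valuation (P.coeff i)) hne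
  have hci : P.coeff i ≠ 0 := Polynomial.mem_support_iff.1 hi
  have hvi : R.valuation (P.coeff i) ≠ 0 := by simpa using hci
  refine ⟨(P.coeff i)⁻¹, inv_ne_zero hci, fun j => ?_, i,
    Polynomial.le_natDegree_of_mem_supp i hi, ?_⟩
  · by_cases hj : P.coeff j = 0
    · rw [hj, mul_zero]; exact R.zero_mem
    · rw [← R.valuation_le_one_iff, map_mul, map_inv₀, mul_comm,
        mul_inv_le_iff₀ (zero_lt_iff.2 hvi), one_mul]
      exact hmax j (Polynomial.mem_support_iff.2 hj)
  · rw [inv_mul_cancel₀ hci, map_one]

end Horner

section Frac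

variable {k k' K K' : Type*} [Field k] [Field k'] [Field K] [Field K']
  [Algebra k k'] [Algebra k K] [Algebra k K'] [Algebra K K'] [Algebra k' K']
  [IsScalarTower k K K'] [IsScalarTower k k' K'] [Algebra.IsPushout k K k' K']

omit [Field k] [Field k'] [Algebra k k'] [Algebra k K] [Algebra k K'] [Algebra k' K']
  [IsScalarTower k K K'] [IsScalarTower k k' K'] [Algebra.IsPushout k K k' K'] in
/-- every element of `V` is a quotient of elements which lie in all valuation rings over `R` -/
theorem exists_frac' [Algebra.IsAlgebraic K K'] (R : ValuationSubring K)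
    (V : ValuationSubring K') (hVR : Over V R) (x : K') (hx : x ∈ V) :
    ∃ p q : K', (∀ U : ValuationSubring K', Over U R → p ∈ U) ∧
      (∀ U : ValuationSubring K', Over U R → q ∈ U) ∧ V.valuation q = 1 ∧ x = p / q := by
  obtain ⟨P, hP0, hPx⟩ := Algebra.IsAlgebraic.isAlgebraic (R := K) x
  obtain ⟨c, hc0, hcR, i, hi, hiu⟩ := exists_scale P hP0 R
  set Q : Polynomial K := Polynomial.C c * P with hQ
  have hQd : Q.natDegree = P.natDegree := Polynomial.natDegree_C_mul hc0
  have hQc : ∀ j, Q.coeff j = c * P.coeff j := fun j => Polynomial.coeff_C_mul P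
  have h0 : horner Q.coeff Q.natDegree x Q.natDegree = 0 := by
    rw [horner_natDegree, hQ, map_mul, hPx, mul_zero]
  have haR : ∀ j, Q.coeff j ∈ R := fun j => by rw [hQc]; exact hcR j
  obtain ⟨j, hj, hju⟩ := exists_horner_unit Q.coeff Q.natDegree x V R hVR haR h0 hx i
    (by rw [hQd]; exact hi) (by rw [hQc]; exact hiu)
  have hb0 : horner Q.coeff Q.natDegree x j ≠ 0 := by
    intro h; rw [h, map_zero] at hju; exact zero_ne_one hju
  refine ⟨horner Q.coeff Q.natDegree x j * x, horner Q.coeff Q.natDegree x j, fun U hU => ?_,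
    fun U hU => ?_, hju, ?_⟩
  · exact horner_mul_mem _ _ _ U (fun l => (hU _).2 (haR l)) h0 j hj
  · exact horner_mem _ _ _ U (fun l => (hU _).2 (haR l)) h0 j hj.le
  · rw [mul_div_cancel_left₀ _ hb0]

end Frac

end

end Crest.Agent.R276.FKD1_508
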