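import Crest.Agent.R276.FKD1_508

/-!
# R276, leaf FK4 (helper508), part 2

* `exists_algInd`: if `d` algebraically independent elements are algebraic over `F[T]`, then `T`
  contains `d` algebraically independent elements;
* `exists_det_le`: ultrametric expansion of a determinant;
* `bch`: base change of a basis of `Ω[K⁄k]` along a pushout `K' = K ⊗_k k'`, `jac`.
-/

set_option autoImplicit false
set_option linter.unusedSectionVars false

open Algebra TensorProduct KaehlerDifferential

namespace Crest.Agent.R276.FKD1_508

noncomputable section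

section AlgInd

open AlgebraicIndependent in
/-- `d` algebraically independent elements which are algebraic over `F[T]` force `T` to contain
`d` algebraically independent elements. -/
theorem exists_algInd {F E : Type*} [Field F] [Field E] [Algebra F E] (T : Set E) (d : ℕ)
    (x : Fin d → E) (hx : AlgebraicIndependent F x)
    (hT : ∀ i, IsAlgebraic (Algebra.adjoin F T) (x i)) :
    ∃ t : Fin d → E, (∀ i, t i ∈ T) ∧ AlgebraicIndependent F t := by
  classical
  obtain ⟨I, hI⟩ := (AlgebraicIndependent.matroid F E).exists_isBasis T
  have hxi : (AlgebraicIndependent.matroid F E).Indep (Set.range x) := by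
    rw [AlgebraicIndependent.matroid_indep_iff]
    exact (algebraicIndependent_subtype_range hx.injective).2 hx
  have hcl : Set.range x ⊆ (AlgebraicIndependent.matroid F E).closure T := by
    rintro _ ⟨i, rfl⟩
    rw [AlgebraicIndependent.matroid_closure_eq]
    exact hT i
  have h1 : (Set.range x).encard ≤ I.encard := by
    rw [hI.encard_eq_eRk, ← Matroid.eRk_closure_eq]
    exact hxi.encard_le_eRk_of_subset hcl
  have h2 : (Set.range x).encard = d := by
    rw [← Set.image_univ, hx.injective.encard_image, Set.encard_univ]
    simp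
  rw [h2] at h1
  obtain ⟨J, hJI, hJ⟩ := Set.exists_subset_encard_eq h1
  have hJf : J.Finite := Set.finite_of_encard_eq_coe hJ
  have hJc : J.ncard = d := by
    rw [Set.ncard_def, hJ]; rfl
  have hIi : AlgebraicIndependent F ((↑) : I → E) := by
    have := hI.indep
    rwa [AlgebraicIndependent.matroid_indep_iff] at this
  have := hJf.fintype
  have hcard : Fintype.card J = d := by
    rw [← Nat.card_eq_fintype_card]; exact hJc
  let e : Fin d ≃ J := (Fintype.equivFinOfCardEq hcard).symm
  refine ⟨fun i => (e i : E), fun i => hI.subset (hJI (e i).2), ?_⟩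
  have := hIi.comp (fun i : Fin d => (⟨(e i : E), hJI (e i).2⟩ : I)) (by
    intro i j hij
    exact e.injective (Subtype.ext (by simpa using congrArg Subtype.val hij)))
  exact this

end AlgInd

section Det

variable {K : Type*} [Field K] {M : Type*} [AddCommGroup M] [Module K M] {n : ℕ}

/-- a vector in the `V`-span of `S`: the determinant with this column is bounded by the
determinant with a column from `S` -/
theorem exists_col_le (V : ValuationSubring K) (b : Module.Basis (Fin n) K M)
    (S : Set M) (hS : S.Nonempty) (ω : Fin n → M) (i : Fin n)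
    (h : ∃ (t : Finset M) (c : M → K), (∀ s ∈ t, s ∈ S) ∧ (∀ s ∈ t, c s ∈ V) ∧
      ω i = ∑ s ∈ t, c s • s) :
    ∃ s ∈ S, V.valuation (b.det ω) ≤ V.valuation (b.det (Function.update ω i s)) := by
  classical
  obtain ⟨t, c, htS, hcV, hω⟩ := h
  have h1 : b.det ω = ∑ s ∈ t, c s * b.det (Function.update ω i s) := by
    conv_lhs => rw [← Function.update_eq_self i ω, hω]
    rw [AlternatingMap.map_update_sum]
    refine Finset.sum_congr rfl fun s _ => ?_
    rw [AlternatingMap.map_update_smul, smul_eq_mul]
  rcases t.eq_empty_or_nonempty with ht | ht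
  · obtain ⟨s, hs⟩ := hS
    refine ⟨s, hs, ?_⟩
    rw [h1, ht, Finset.sum_empty, map_zero]
    exact zero_le
  · obtain ⟨s, hs, hmax⟩ := t.exists_max_image
      (fun s => V.valuation (b.det (Function.update ω i s))) ht
    refine ⟨s, htS s hs, ?_⟩
    rw [h1]
    refine Valuation.map_sum_le _ fun u hu => ?_
    rw [map_mul]
    calc V.valuation (c u) * V.valuation (b.det (Function.update ω i u))
        ≤ 1 * V.valuation (b.det (Function.update ω i u)) :=
          mul_le_mul_left ((V.valuation_le_one_iff _).2 (hcV u hu)) _
      _ = V.valuation (b.det (Function.update ω i u)) := one_mul _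
      _ ≤ _ := hmax u hu

/-- replace all columns -/
theorem exists_det_le (V : ValuationSubring K) (b : Module.Basis (Fin n) K M)
    (S : Set M) (hS : S.Nonempty) (ω : Fin n → M)
    (h : ∀ i, ∃ (t : Finset M) (c : M → K), (∀ s ∈ t, s ∈ S) ∧ (∀ s ∈ t, c s ∈ V) ∧
      ω i = ∑ s ∈ t, c s • s) :
    ∃ η : Fin n → M, (∀ i, η i ∈ S) ∧ V.valuation (b.det ω) ≤ V.valuation (b.det η) := by
  classical
  suffices H : ∀ F : Finset (Fin n), ∃ η : Fin n → M, (∀ i ∈ F, η i ∈ S) ∧
      (∀ i ∉ F, η i = ω i) ∧ V.valuation (b.det ω) ≤ V.valuation (b.det η) by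
    obtain ⟨η, h1, -, h3⟩ := H Finset.univ
    exact ⟨η, fun i => h1 i (Finset.mem_univ i), h3⟩
  intro F
  induction F using Finset.induction_on with
  | empty => exact ⟨ω, by simp, fun i _ => rfl, le_rfl⟩
  | insert a F haF ih =>
    obtain ⟨η, h1, h2, h3⟩ := ih
    have ha := h a
    rw [← h2 a haF] at ha
    obtain ⟨s, hs, hle⟩ := exists_col_le V b S hS η a ha
    refine ⟨Function.update η a s, fun i hi => ?_, fun i hi => ?_, h3.trans hle⟩
    · by_cases hia : i = a
      · subst hia; simpa using hs
      · rw [Function.update_of_ne hia]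
        exact h1 i (Finset.mem_of_mem_insert_of_ne hi hia)
    · rw [Finset.mem_insert, not_or] at hi
      rw [Function.update_of_ne hi.1]
      exact h2 i hi.2

end Det

end

end Crest.Agent.R276.FKD1_508
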