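import Crest.Agent.R276.FKD2_508

/-!
# R276, leaf FK4 (helper508), part 3: Jacobians and constant extensions
-/

set_option autoImplicit false
set_option linter.unusedSectionVars false

open Algebra TensorProduct KaehlerDifferential

namespace Crest.Agent.R276.FKD1_508

noncomputable section

/-- the Jacobian of `y` with respect to the basis `b` of `Ω[K⁄k]` -/
def jac {k K : Type*} [Field k] [Field K] [Algebra k K] {n : ℕ}
    (b : Module.Basis (Fin n) K (Ω[K⁄k])) (y : Fin n → K) : K :=
  b.det (fun i => KaehlerDifferential.D k K (y i))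

section Bch

variable {k k' K K' : Type*} [Field k] [Field k'] [Field K] [Field K']
  [Algebra k k'] [Algebra k K] [Algebra k K'] [Algebra K K'] [Algebra k' K']
  [IsScalarTower k K K'] [IsScalarTower k k' K'] [Algebra.IsPushout k K k' K']

variable (k' K') in
/-- base change of a basis of `Ω` -/
def bch {ι : Type*} (b : Module.Basis ι K (Ω[K⁄k])) : Module.Basis ι K' (Ω[K'⁄k']) :=
  haveI : Algebra.IsPushout k k' K K' := Algebra.IsPushout.symm inferInstance
  (b.baseChange K').map (KaehlerDifferential.tensorKaehlerEquiv k k' K K')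

theorem tke_one_tmul [Algebra.IsPushout k k' K K'] (ω : Ω[K⁄k]) :
    KaehlerDifferential.tensorKaehlerEquiv k k' K K' (1 ⊗ₜ ω) =
      KaehlerDifferential.map k k' K K' ω := by
  let f : Ω[K⁄k] →ₗ[K] Ω[K'⁄k'] :=
    ((KaehlerDifferential.tensorKaehlerEquiv k k' K K').toLinearMap.restrictScalars K).comp
      (TensorProduct.mk K K' (Ω[K⁄k]) 1)
  have hf : f = KaehlerDifferential.map k k' K K' := by
    apply Derivation.liftKaehlerDifferential_unique
    ext a
    simp [f]
  exact LinearMap.congr_fun hf ω

theorem bch_apply {ι : Type*} (b : Module.Basis ι K (Ω[K⁄k])) (i : ι) :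
    bch k' K' b i = KaehlerDifferential.map k k' K K' (b i) := by
  have : Algebra.IsPushout k k' K K' := Algebra.IsPushout.symm inferInstance
  rw [bch, Module.Basis.map_apply, Module.Basis.baseChange_apply, tke_one_tmul]

theorem bch_repr {ι : Type*} (b : Module.Basis ι K (Ω[K⁄k])) (ω : Ω[K⁄k]) (i : ι) :
    (bch k' K' b).repr (KaehlerDifferential.map k k' K K' ω) i = algebraMap K K' (b.repr ω i) := by
  have h1 : KaehlerDifferential.map k k' K K' ω =
      Finsupp.linearCombination K' (bch k' K' b)
        ((b.repr ω).mapRange (algebraMap K K') (map_zero _)) := by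
    conv_lhs => rw [← b.linearCombination_repr ω, Finsupp.linearCombination_apply, Finsupp.sum,
      map_sum]
    rw [Finsupp.linearCombination_apply, Finsupp.sum_mapRange_index (by simp), Finsupp.sum]
    refine Finset.sum_congr rfl fun j _ => ?_
    rw [map_smul, bch_apply, algebraMap_smul]
  rw [h1, Module.Basis.repr_linearCombination, Finsupp.mapRange_apply]

theorem bch_repr_D {ι : Type*} (b : Module.Basis ι K (Ω[K⁄k])) (a : K) (i : ι) :
    (bch k' K' b).repr (D k' K' (algebraMap K K' a)) i = algebraMap K K' (b.repr (D k K a) i) := by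
  rw [← bch_repr (k' := k') (K' := K') b, KaehlerDifferential.map_D]

theorem jac_bch {n : ℕ} (b : Module.Basis (Fin n) K (Ω[K⁄k])) (y : Fin n → K) :
    jac (bch k' K' b) (fun i => algebraMap K K' (y i)) = algebraMap K K' (jac b y) := by
  rw [jac, jac, Module.Basis.det_apply, Module.Basis.det_apply, RingHom.map_det]
  congr 1
  ext i j
  simp [Module.Basis.toMatrix_apply, bch_repr_D]

/-- the `i`-th coordinate of `D` commutes with `gal σ` -/
theorem bch_gal {ι : Type*} (b : Module.Basis ι K (Ω[K⁄k])) (σ : k' ≃ₐ[k] k') (x : K') (i : ι) :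
    (bch k' K' b).repr (D k' K' (gal K K' σ x)) i =
      gal K K' σ ((bch k' K' b).repr (D k' K' x) i) := by
  have hp : Algebra.IsPushout k k' K K' := Algebra.IsPushout.symm inferInstance
  let L1 : K' →ₗ[k'] K' :=
    { toFun := fun x => (bch k' K' b).repr (D k' K' x) i
      map_add' := fun x y => by simp
      map_smul' := fun c x => by
        simp only [Derivation.map_smul, RingHom.id_apply]
        rw [← algebraMap_smul K' c (D k' K' x), map_smul, Finsupp.smul_apply, algebraMap_smul] }
  let L2 : K' →ₗ[k'] K' :=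
    { toFun := fun x => (gal K K' σ).symm ((bch k' K' b).repr (D k' K' (gal K K' σ x)) i)
      map_add' := fun x y => by simp
      map_smul' := fun c x => by
        rw [RingHom.id_apply, AlgEquiv.symm_apply_eq, gal_smul σ c, gal_smul σ c,
          AlgEquiv.apply_symm_apply, Derivation.map_smul]
        rw [← algebraMap_smul K' (σ c) (D k' K' _), map_smul, Finsupp.smul_apply, algebraMap_smul] }
  have hL : L1 = L2 := by
    refine hp.out.algHom_ext _ _ fun a => ?_
    change (bch k' K' b).repr (D k' K' (algebraMap K K' a)) i =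
      (gal K K' σ).symm ((bch k' K' b).repr (D k' K' (gal K K' σ (algebraMap K K' a))) i)
    rw [gal_base, bch_repr_D, AlgEquiv.eq_symm_apply, gal_base]
  have := LinearMap.congr_fun hL x
  change (bch k' K' b).repr (D k' K' x) i =
    (gal K K' σ).symm ((bch k' K' b).repr (D k' K' (gal K K' σ x)) i) at this
  rw [this, AlgEquiv.apply_symm_apply]

theorem jac_gal {n : ℕ} (b : Module.Basis (Fin n) K (Ω[K⁄k])) (σ : k' ≃ₐ[k] k') (y : Fin n → K') :
    jac (bch k' K' b) (fun i => gal K K' σ (y i)) = gal K K' σ (jac (bch k' K' b) y) := by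
  have e : ∀ x : K', gal K K' σ x = (gal K K' σ : K' →+* K') x := fun _ => rfl
  rw [jac, jac, Module.Basis.det_apply, Module.Basis.det_apply, e, RingHom.map_det]
  congr 1
  ext i j
  simp only [Module.Basis.toMatrix_apply, bch_gal, RingHom.mapMatrix_apply, Matrix.map_apply]
  rfl

/-- `dx` for `x ∈ V` is a `V`-combination of the `da`, `a ∈ R` -/
theorem D_mem [IsGalois k k'] [Algebra.IsAlgebraic K K'] (R : ValuationSubring K)
    (hk : ∀ c : k, algebraMap k K c ∈ R) (V : ValuationSubring K') (hVR : Over V R)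
    (x : K') (hx : x ∈ V) :
    ∃ (t : Finset (Ω[K'⁄k'])) (c : Ω[K'⁄k'] → K'),
      (∀ s ∈ t, s ∈ (fun a => D k' K' (algebraMap K K' a)) '' (R : Set K)) ∧
      (∀ s ∈ t, c s ∈ V) ∧ D k' K' x = ∑ s ∈ t, c s • s := by
  classical
  -- the set of good differentials is a `V`-module
  let Md : Submodule V (Ω[K'⁄k']) :=
    Submodule.span V ((fun a => D k' K' (algebraMap K K' a)) '' (R : Set K))
  have hkV : ∀ c : k', algebraMap k' K' c ∈ V := const_mem (k := k) V (fun c => by
    rw [IsScalarTower.algebraMap_apply k K K', hVR]; exact hk c)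
  have hB : ∀ z ∈ Submodule.span k' ((algebraMap K K') '' (R : Set K)), D k' K' z ∈ Md := by
    intro z hz
    induction hz using Submodule.span_induction with
    | mem z hz =>
      obtain ⟨a, ha, rfl⟩ := hz
      exact Submodule.subset_span ⟨a, ha, rfl⟩
    | zero => rw [map_zero]; exact Submodule.zero_mem _
    | add z w _ _ h1 h2 => rw [map_add]; exact Submodule.add_mem _ h1 h2
    | smul c z _ h1 =>
      rw [Derivation.map_smul, ← algebraMap_smul K' c (D k' K' z)]
      exact Submodule.smul_mem Md (⟨_, hkV c⟩ : V) h1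
  have hmain : D k' K' x ∈ Md := by
    obtain ⟨p, q, hp, hq, hq1, hxpq⟩ := exists_frac' R V hVR x hx
    have hq0 : q ≠ 0 := by rintro rfl; rw [map_zero] at hq1; exact zero_ne_one hq1
    have hp' := hB p (mem_span_of_forall R hk ⟨V, hVR⟩ p hp)
    have hq' := hB q (mem_span_of_forall R hk ⟨V, hVR⟩ q hq)
    have hqi : q⁻¹ ∈ V := by
      rw [← V.valuation_le_one_iff, map_inv₀, hq1, inv_one]
    have e : D k' K' x = q⁻¹ • (D k' K' p) - (x * q⁻¹) • (D k' K' q) := by
      have h1 : D k' K' p = q • D k' K' x + x • D k' K' q := by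
        rw [show p = q * x by rw [hxpq]; field_simp, Derivation.leibniz]
      rw [h1, smul_add, smul_smul, inv_mul_cancel₀ hq0, one_smul, smul_smul, mul_comm q⁻¹ x]
      abel
    rw [e]
    exact Submodule.sub_mem _ (Submodule.smul_mem Md (⟨_, hqi⟩ : V) hp')
      (Submodule.smul_mem Md (⟨_, V.mul_mem _ _ hx hqi⟩ : V) hq')
  rw [show Md = Submodule.span V ((fun a => D k' K' (algebraMap K K' a)) '' (R : Set K)) from rfl,
    Submodule.mem_span_iff_exists_finset_subset] at hmain
  obtain ⟨f, t, ht, hf, hsum⟩ := hmain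
  exact ⟨t, fun s => (f s : K'), fun s hs => ht hs, fun s _ => (f s).2, hsum.symm⟩

/-- **Jacobians do not get larger in a constant algebraic extension.** -/
theorem exists_jac_le [IsGalois k k'] [Algebra.IsAlgebraic K K'] {n : ℕ}
    (b : Module.Basis (Fin n) K (Ω[K⁄k])) (R : ValuationSubring K)
    (hk : ∀ c : k, algebraMap k K c ∈ R) (V : ValuationSubring K') (hVR : Over V R)
    (y : Fin n → K') (hy : ∀ i, y i ∈ V) :
    ∃ z : Fin n → K, (∀ i, z i ∈ R) ∧
      V.valuation (jac (bch k' K' b) y) ≤ V.valuation (algebraMap K K' (jac b z)) := by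
  obtain ⟨η, h1, h2⟩ := exists_det_le V (bch k' K' b)
    ((fun a => D k' K' (algebraMap K K' a)) '' (R : Set K)) ⟨_, 0, R.zero_mem, rfl⟩
    (fun i => D k' K' (y i)) (fun i => D_mem R hk V hVR (y i) (hy i))
  choose z hz using h1
  refine ⟨z, fun i => (hz i).1, ?_⟩
  rw [← jac_bch (k' := k')]
  have : (fun i => D k' K' (algebraMap K K' (z i))) = η := by
    funext i; exact (hz i).2
  rw [jac, jac, this]
  exact h2

end Bch

end

end Crest.Agent.R276.FKD1_508
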