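import Crest.Agent.R276.FKD3_508

/-!
# R276, leaf FK4 (helper508), part 4: pluricanonical forms w.r.t. a class of valuation rings,
descent along `K' = K ⊗_k k'`, `k'/k` Galois.

`PlC C b m g`: `g · b^{⊗m}` is regular at all valuation rings of the class `C`.
* `plC_up`: from `K/k` to `K'/k'`;
* `plC_down`: for `g ∈ K`, from `K'/k'` to `K/k`;
* `plC_span`: pluricanonical forms of `K'/k'` are `k'`-combinations of those in `K`;
* `kapC_down`: `KapC` descends.
-/

set_option autoImplicit false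
set_option linter.unusedSectionVars false

open Algebra TensorProduct KaehlerDifferential

namespace Crest.Agent.R276.FKD1_508

noncomputable section

/-- `g · b^{⊗m}` is regular at all valuation rings of the class `C` -/
def PlC {k K : Type*} [Field k] [Field K] [Algebra k K] {n : ℕ} (C : ValuationSubring K → Prop)
    (b : Module.Basis (Fin n) K (Ω[K⁄k])) (m : ℕ) (g : K) : Prop :=
  ∀ R : ValuationSubring K, C R → ∃ y : Fin n → K, (∀ i, y i ∈ R) ∧
    R.valuation g ≤ R.valuation (jac b y) ^ m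

/-- Kodaira dimension `≥ d` w.r.t. the class `C` -/
def KapC (k : Type*) {K : Type*} [Field k] [Field K] [Algebra k K]
    (C : ValuationSubring K → Prop) (d : ℕ) : Prop :=
  ∃ (n : ℕ) (b : Module.Basis (Fin n) K (Ω[K⁄k])) (m : ℕ), 0 < m ∧ ∃ f : Fin (d + 1) → K,
    (∀ i, f i ≠ 0) ∧ (∀ i, PlC C b m (f i)) ∧
    AlgebraicIndependent k (fun i : Fin d => f i.succ / f 0)

section Basic

variable {k K : Type*} [Field k] [Field K] [Algebra k K] {n : ℕ}
  {C : ValuationSubring K → Prop} (b : Module.Basis (Fin n) K (Ω[K⁄k])) {m : ℕ}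

theorem PlC.zero : PlC C b m 0 := fun R _ =>
  ⟨0, fun _ => R.zero_mem, by rw [map_zero]; exact zero_le⟩

variable {b}

theorem PlC.add {g h : K} (hg : PlC C b m g) (hh : PlC C b m h) : PlC C b m (g + h) := by
  intro R hR
  obtain ⟨y, hy, h1⟩ := hg R hR
  obtain ⟨z, hz, h2⟩ := hh R hR
  rcases le_total (R.valuation (jac b y)) (R.valuation (jac b z)) with h | h
  · exact ⟨z, hz, (R.valuation.map_add _ _).trans (max_le (h1.trans (pow_le_pow_left' h m)) h2)⟩
  · exact ⟨y, hy, (R.valuation.map_add _ _).trans (max_le h1 (h2.trans (pow_le_pow_left' h m)))⟩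

theorem PlC.smul (hC : ∀ R, C R → ∀ c : k, algebraMap k K c ∈ R) {g : K} (hg : PlC C b m g)
    (c : k) : PlC C b m (c • g) := by
  intro R hR
  obtain ⟨y, hy, h1⟩ := hg R hR
  refine ⟨y, hy, ?_⟩
  rw [Algebra.smul_def, map_mul]
  calc R.valuation (algebraMap k K c) * R.valuation g ≤ 1 * R.valuation g :=
        mul_le_mul_left ((R.valuation_le_one_iff _).2 (hC R hR c)) _
    _ = R.valuation g := one_mul _
    _ ≤ _ := h1

theorem PlC.mul {m' : ℕ} {g h : K} (hg : PlC C b m g) (hh : PlC C b m' h) :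
    PlC C b (m + m') (g * h) := by
  intro R hR
  obtain ⟨y, hy, h1⟩ := hg R hR
  obtain ⟨z, hz, h2⟩ := hh R hR
  rcases le_total (R.valuation (jac b y)) (R.valuation (jac b z)) with h | h
  · refine ⟨z, hz, ?_⟩
    rw [map_mul, pow_add]
    exact mul_le_mul' (h1.trans (pow_le_pow_left' h m)) h2
  · refine ⟨y, hy, ?_⟩
    rw [map_mul, pow_add]
    exact mul_le_mul' h1 (h2.trans (pow_le_pow_left' h m'))

theorem PlC.mono {C' : ValuationSubring K → Prop} (h : ∀ R, C' R → C R) {g : K}
    (hg : PlC C b m g) : PlC C' b m g := fun R hR => hg R (h R hR)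

variable (b)

/-- change of basis -/
theorem jac_change (b' : Module.Basis (Fin n) K (Ω[K⁄k])) (y : Fin n → K) :
    jac b y = b.det b' * jac b' y := by
  rw [jac, jac, Module.Basis.det_apply, Module.Basis.det_apply, Module.Basis.det_apply,
    ← Matrix.det_mul, Module.Basis.toMatrix_mul_toMatrix]

theorem det_ne_zero (b' : Module.Basis (Fin n) K (Ω[K⁄k])) : b.det b' ≠ 0 := by
  have h1 := b.det_self
  have h2 : b.det b = b.det b' * b'.det b := by
    rw [Module.Basis.det_apply, Module.Basis.det_apply, Module.Basis.det_apply,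
      ← Matrix.det_mul, Module.Basis.toMatrix_mul_toMatrix]
  intro h
  rw [h1, h, zero_mul] at h2
  exact one_ne_zero h2

theorem plC_change (b' : Module.Basis (Fin n) K (Ω[K⁄k])) (g : K) :
    PlC C b' m g ↔ PlC C b m (b.det b' ^ m * g) := by
  have h0 := det_ne_zero b b'
  refine forall₂_congr fun R _ => exists_congr fun y => and_congr_right fun _ => ?_
  rw [jac_change b b', map_mul, map_mul, mul_pow, map_pow,
    mul_le_mul_iff_right₀ (pow_pos (zero_lt_iff.2 ((Valuation.ne_zero_iff _).2 h0)) m)]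

end Basic

section Descent

variable {k k' K K' : Type*} [Field k] [Field k'] [Field K] [Field K']
  [Algebra k k'] [Algebra k K] [Algebra k K'] [Algebra K K'] [Algebra k' K']
  [IsScalarTower k K K'] [IsScalarTower k k' K'] [Algebra.IsPushout k K k' K']

/-- going up -/
theorem plC_up {n : ℕ} (b : Module.Basis (Fin n) K (Ω[K⁄k])) {m : ℕ}
    {C : ValuationSubring K → Prop} {C' : ValuationSubring K' → Prop}
    (hCC : ∀ V, C' V → ∃ R, C R ∧ Over V R) {g : K} (hg : PlC C b m g) :
    PlC C' (bch k' K' b) m (algebraMap K K' g) := by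
  intro V hV
  obtain ⟨R, hR, hVR⟩ := hCC V hV
  obtain ⟨y, hy, h1⟩ := hg R hR
  refine ⟨fun i => algebraMap K K' (y i), fun i => (hVR _).2 (hy i), ?_⟩
  rw [jac_bch, ← map_pow, ← map_pow]
  rw [← map_pow] at h1
  exact (hVR.val_le _ _).2 h1

variable [IsGalois k k'] [Algebra.IsAlgebraic K K']

/-- going down, for elements of `K` -/
theorem plC_down {n : ℕ} (b : Module.Basis (Fin n) K (Ω[K⁄k])) {m : ℕ}
    {C : ValuationSubring K → Prop} {C' : ValuationSubring K' → Prop}
    (hC : ∀ R, C R → ∀ c : k, algebraMap k K c ∈ R)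
    (hCC : ∀ R, C R → ∃ V, C' V ∧ Over V R) {g : K}
    (hg : PlC C' (bch k' K' b) m (algebraMap K K' g)) : PlC C b m g := by
  intro R hR
  obtain ⟨V, hV, hVR⟩ := hCC R hR
  obtain ⟨y, hy, h1⟩ := hg V hV
  obtain ⟨z, hz, h2⟩ := exists_jac_le (k' := k') b R (hC R hR) V hVR y hy
  refine ⟨z, hz, ?_⟩
  have h3 := h1.trans (pow_le_pow_left' h2 m)
  rw [← map_pow, ← map_pow] at h3
  rw [← map_pow]
  exact (hVR.val_le _ _).1 h3

theorem plC_gal {n : ℕ} (b : Module.Basis (Fin n) K (Ω[K⁄k])) {m : ℕ}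
    {C' : ValuationSubring K' → Prop}
    (hgal : ∀ (σ : k' ≃ₐ[k] k') V, C' V → C' (galV (K := K) σ V)) (σ : k' ≃ₐ[k] k') {g : K'}
    (hg : PlC C' (bch k' K' b) m g) : PlC C' (bch k' K' b) m (gal K K' σ g) := by
  intro V hV
  obtain ⟨y, hy, h1⟩ := hg _ (hgal σ V hV)
  refine ⟨fun i => gal K K' σ (y i), hy, ?_⟩
  rw [jac_gal]
  -- compare the valuations of `V` and of its pullback
  have key : ∀ a c : K', (galV (K := K) σ V).valuation a ≤ (galV (K := K) σ V).valuation c →
      V.valuation (gal K K' σ a) ≤ V.valuation (gal K K' σ c) := by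
    intro a c h
    rw [ValuationSubring.valuation_le_iff] at h ⊢
    obtain ⟨r, hr⟩ := h
    exact ⟨⟨gal K K' σ r, r.2⟩, by rw [← hr, map_mul]⟩
  rw [← map_pow] at h1
  rw [← map_pow, ← map_pow]
  exact key _ _ h1

/-- pluricanonical forms of `K'/k'` are `k'`-combinations of pluricanonical forms in `K` -/
theorem plC_span {n : ℕ} (b : Module.Basis (Fin n) K (Ω[K⁄k])) {m : ℕ}
    {C : ValuationSubring K → Prop} {C' : ValuationSubring K' → Prop}
    (hC : ∀ R, C R → ∀ c : k, algebraMap k K c ∈ R)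
    (hC' : ∀ V, C' V → ∀ c : k', algebraMap k' K' c ∈ V)
    (hgal : ∀ (σ : k' ≃ₐ[k] k') V, C' V → C' (galV (K := K) σ V))
    (hCC : ∀ R, C R → ∃ V, C' V ∧ Over V R) {g : K'}
    (hg : PlC C' (bch k' K' b) m g) :
    g ∈ Submodule.span k' ((algebraMap K K') '' {a | PlC C b m a}) := by
  let W : Submodule k' K' :=
    { carrier := {g | PlC C' (bch k' K' b) m g}
      add_mem' := fun h1 h2 => PlC.add h1 h2
      zero_mem' := PlC.zero _
      smul_mem' := fun c _ h => PlC.smul hC' h c }
  have h1 := descent (k := k) (K := K) W (fun σ w hw => plC_gal b hgal σ hw) g hg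
  refine Submodule.span_mono (Set.image_mono ?_) h1
  intro a ha
  exact plC_down b hC hCC ha

/-- **descent of forms with algebraically independent ratios** -/
theorem forms_down
    {C : ValuationSubring K → Prop} {C' : ValuationSubring K' → Prop}
    (hC : ∀ R, C R → ∀ c : k, algebraMap k K c ∈ R)
    (hC' : ∀ V, C' V → ∀ c : k', algebraMap k' K' c ∈ V)
    (hgal : ∀ (σ : k' ≃ₐ[k] k') V, C' V → C' (galV (K := K) σ V))
    (hCC : ∀ R, C R → ∃ V, C' V ∧ Over V R) {d n : ℕ}
    (b' : Module.Basis (Fin n) K' (Ω[K'⁄k'])) {m : ℕ} (f : Fin (d + 1) → K')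
    (hf0 : ∀ i, f i ≠ 0) (hf : ∀ i, PlC C' b' m (f i))
    (hind : AlgebraicIndependent k' (fun i : Fin d => f i.succ / f 0)) :
    ∃ (b : Module.Basis (Fin n) K (Ω[K⁄k])) (g : Fin (d + 1) → K), (∀ i, g i ≠ 0) ∧
      (∀ i, PlC C b m (g i)) ∧
      AlgebraicIndependent k (fun i : Fin d => g i.succ / g 0) := by
  classical
  -- a basis downstairs
  obtain ⟨b⟩ : Nonempty (Module.Basis (Fin n) K (Ω[K⁄k])) := by
    let β := Module.Basis.ofVectorSpace K (Ω[K⁄k])
    have e := (bch k' K' β).indexEquiv b'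
    exact ⟨β.reindex e⟩
  have hF : ∀ i, PlC C' (bch k' K' b) m ((bch k' K' b).det b' ^ m * f i) := fun i =>
    (plC_change (bch k' K' b) b' (f i)).1 (hf i)
  set u : K' := (bch k' K' b).det b' ^ m with hu
  have hu0 : u ≠ 0 := pow_ne_zero _ (det_ne_zero _ _)
  have hspan : ∀ i, u * f i ∈ Submodule.span k' ((algebraMap K K') '' {a | PlC C b m a}) :=
    fun i => plC_span b hC hC' hgal hCC (hF i)
  -- a nonzero section downstairs
  have hs0 : ∃ s0 : K, s0 ≠ 0 ∧ PlC C b m s0 := by
    by_contra hcon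
    push Not at hcon
    have : Submodule.span k' ((algebraMap K K') '' {a | PlC C b m a}) = ⊥ := by
      rw [Submodule.span_eq_bot]
      rintro _ ⟨a, ha, rfl⟩
      by_cases h0 : a = 0
      · rw [h0, map_zero]
      · exact absurd ha (hcon a h0)
    have h1 := hspan 0
    rw [this, Submodule.mem_bot, mul_eq_zero] at h1
    rcases h1 with h1 | h1
    · exact hu0 h1
    · exact hf0 0 h1
  obtain ⟨s0, hs0, hs0P⟩ := hs0
  have hs0' : algebraMap K K' s0 ≠ 0 := by simpa using hs0
  let T : Set K' := (fun a : K => algebraMap K K' (a / s0)) '' {a | PlC C b m a ∧ a ≠ 0}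
  have hT' : ∀ z ∈ Submodule.span k' ((algebraMap K K') '' {a | PlC C b m a}),
      z / algebraMap K K' s0 ∈ Algebra.adjoin k' T := by
    intro z hz
    induction hz using Submodule.span_induction with
    | mem z hz =>
      obtain ⟨a, ha, rfl⟩ := hz
      by_cases h0 : a = 0
      · rw [h0, map_zero, zero_div]; exact Subalgebra.zero_mem _
      · exact Algebra.subset_adjoin ⟨a, ⟨ha, h0⟩, map_div₀ _ _ _⟩
    | zero => rw [zero_div]; exact Subalgebra.zero_mem _
    | add z w _ _ h1 h2 => rw [add_div]; exact Subalgebra.add_mem _ h1 h2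
    | smul c z _ h1 => rw [smul_div_assoc]; exact Subalgebra.smul_mem _ h1 c
  have hT : ∀ i, u * f i / algebraMap K K' s0 ∈ Algebra.adjoin k' T := fun i => hT' _ (hspan i)
  have halg : ∀ i : Fin d, IsAlgebraic (Algebra.adjoin k' T) (f i.succ / f 0) := by
    intro i
    have e : f i.succ / f 0 =
        (u * f i.succ / algebraMap K K' s0) / (u * f 0 / algebraMap K K' s0) := by
      have := hf0 0
      field_simp
    rw [e, div_eq_mul_inv]
    exact (isAlgebraic_algebraMap (⟨_, hT i.succ⟩ : Algebra.adjoin k' T)).mul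
      (isAlgebraic_algebraMap (⟨_, hT 0⟩ : Algebra.adjoin k' T)).inv
  obtain ⟨t, htT, htind⟩ := exists_algInd T d _ hind halg
  choose s hs using htT
  refine ⟨b, Fin.cons s0 s, ?_, ?_, ?_⟩
  · intro i
    refine Fin.cases ?_ (fun j => ?_) i
    · exact hs0
    · exact (hs j).1.2
  · intro i
    refine Fin.cases ?_ (fun j => ?_) i
    · exact hs0P
    · exact (hs j).1.1
  · have h1 : (fun i : Fin d => (Fin.cons s0 s : Fin (d + 1) → K) i.succ /
        (Fin.cons s0 s : Fin (d + 1) → K) 0) = fun i => s i / s0 := by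
      funext i; simp
    rw [h1]
    have h2 : AlgebraicIndependent k t := htind.restrictScalars (algebraMap k k').injective
    have h3 : t = fun i => algebraMap K K' (s i / s0) := by
      funext i; exact ((hs i).2).symm
    rw [h3] at h2
    exact AlgebraicIndependent.of_comp (IsScalarTower.toAlgHom k K K') h2

/-- **descent of the Kodaira dimension** -/
theorem kapC_down
    {C : ValuationSubring K → Prop} {C' : ValuationSubring K' → Prop}
    (hC : ∀ R, C R → ∀ c : k, algebraMap k K c ∈ R)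
    (hC' : ∀ V, C' V → ∀ c : k', algebraMap k' K' c ∈ V)
    (hgal : ∀ (σ : k' ≃ₐ[k] k') V, C' V → C' (galV (K := K) σ V))
    (hCC : ∀ R, C R → ∃ V, C' V ∧ Over V R) {d : ℕ} (h : KapC k' C' d) : KapC k C d := by
  obtain ⟨n, b', m, hm, f, hf0, hf, hind⟩ := h
  obtain ⟨b, g, h1, h2, h3⟩ := forms_down hC hC' hgal hCC b' f hf0 hf hind
  exact ⟨n, b, m, hm, g, h1, h2, h3⟩

end Descent

end

end Crest.Agent.R276.FKD1_508
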