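import Mathlib

/-!
# Row 276, FKOne: valuation rings over a Dedekind domain; integrality of derivations (helper779)
-/

set_option autoImplicit false
set_option linter.style.haveILetI false
set_option linter.unusedSectionVars false

noncomputable section

namespace Crest.Agent.R276.FKOne_779

/-- `t` is a uniformizer of the valuation ring `R`. -/
structure IsUnif {K : Type*} [Field K] (R : ValuationSubring K) (t : K) : Prop where
  ne : t ≠ 0
  lt : R.valuation t < 1
  le : ∀ r : K, R.valuation r < 1 → R.valuation r ≤ R.valuation t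

section dedekind
variable {C K : Type*} [CommRing C] [IsDedekindDomain C] [Field K] [Algebra C K]
  [IsFractionRing C K] (R : ValuationSubring K) (hC : ∀ c : C, algebraMap C K c ∈ R)

/-- the centre of `R` on `C` -/
def centre (hC : ∀ c : C, algebraMap C K c ∈ R) : Ideal C where
  carrier := {c | R.valuation (algebraMap C K c) < 1}
  add_mem' := fun {a b} ha hb => by
    simp only [Set.mem_ofPred_eq, map_add] at *
    exact (R.valuation.map_add _ _).trans_lt (max_lt ha hb)
  zero_mem' := by simp
  smul_mem' := fun c x hx => by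
    simp only [Set.mem_ofPred_eq, smul_eq_mul, map_mul] at *
    calc R.valuation (algebraMap C K c) * R.valuation (algebraMap C K x)
        ≤ 1 * R.valuation (algebraMap C K x) := by
          gcongr; exact (R.valuation_le_one_iff _).mpr (hC c)
      _ < 1 := by rwa [one_mul]

theorem mem_centre {c : C} : c ∈ centre R hC ↔ R.valuation (algebraMap C K c) < 1 := Iff.rfl

theorem not_mem_centre {c : C} : c ∉ centre R hC ↔ R.valuation (algebraMap C K c) = 1 := by
  rw [mem_centre, not_lt]
  exact ⟨fun h => le_antisymm ((R.valuation_le_one_iff _).mpr (hC c)) h, fun h => h.ge⟩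

instance centre_isPrime : (centre R hC).IsPrime where
  ne_top' := by
    rw [Ne, Ideal.eq_top_iff_one, mem_centre]
    simp
  mem_or_mem' := by
    intro x y hxy
    by_contra h
    push Not at h
    rw [not_mem_centre, not_mem_centre] at h
    rw [mem_centre, map_mul, map_mul, h.1, h.2, mul_one] at hxy
    exact lt_irrefl _ hxy

theorem centre_ne_bot (hR : R ≠ ⊤) : centre R hC ≠ ⊥ := by
  intro h
  apply hR
  rw [eq_top_iff]
  intro z _
  obtain ⟨a, b, hb, rfl⟩ := IsFractionRing.div_surjective (A := C) z
  have hb0 : b ≠ 0 := nonZeroDivisors.ne_zero hb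
  have hb1 : b ∉ centre R hC := by
    rw [h]; simpa using hb0
  rw [not_mem_centre] at hb1
  have : R.valuation (algebraMap C K a / algebraMap C K b) ≤ 1 := by
    rw [map_div₀, hb1, div_one]
    exact (R.valuation_le_one_iff _).mpr (hC a)
  exact (R.valuation_le_one_iff _).mp this

/-- the local ring at the centre maps to `K` -/
def toK (R : ValuationSubring K) (hC : ∀ c : C, algebraMap C K c ∈ R) :
    Localization.AtPrime (centre R hC) →+* K :=
  IsLocalization.lift (M := (centre R hC).primeCompl) (g := algebraMap C K) (fun y => by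
    have h1 : (y : C) ∉ centre R hC := y.2
    rw [not_mem_centre] at h1
    refine IsUnit.mk0 _ ?_
    intro h
    rw [h, map_zero] at h1
    exact zero_ne_one h1)

theorem toK_algebraMap (c : C) :
    toK R hC (algebraMap C (Localization.AtPrime (centre R hC)) c) = algebraMap C K c := by
  unfold toK
  exact IsLocalization.lift_eq _ c

/-- every element of the local ring is `a / b` with `b` a unit of `R` -/
theorem toK_surj (u : Localization.AtPrime (centre R hC)) :
    ∃ a b : C, R.valuation (algebraMap C K b) = 1 ∧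
      toK R hC u = algebraMap C K a / algebraMap C K b := by
  obtain ⟨a, s, rfl⟩ := IsLocalization.exists_mk'_eq (centre R hC).primeCompl u
  have h1 : (s : C) ∉ centre R hC := s.2
  have h2 := (not_mem_centre R hC).mp h1
  refine ⟨a, s, h2, ?_⟩
  have h3 : algebraMap C K s ≠ 0 := by
    intro h
    rw [h, map_zero] at h2
    exact zero_ne_one h2
  rw [eq_div_iff h3, ← toK_algebraMap R hC s, ← map_mul, IsLocalization.mk'_spec,
    toK_algebraMap]

theorem toK_mem (u : Localization.AtPrime (centre R hC)) : toK R hC u ∈ R := by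
  obtain ⟨a, b, hb, h⟩ := toK_surj R hC u
  rw [h, ← R.valuation_le_one_iff, map_div₀, hb, div_one]
  exact (R.valuation_le_one_iff _).mpr (hC a)

theorem toK_isUnit {u : Localization.AtPrime (centre R hC)} (hu : IsUnit u) :
    R.valuation (toK R hC u) = 1 := by
  obtain ⟨v, hv⟩ := hu.exists_right_inv
  have h1 : R.valuation (toK R hC u) * R.valuation (toK R hC v) = 1 := by
    rw [← map_mul, ← map_mul, hv, map_one, map_one]
  have h2 := (R.valuation_le_one_iff _).mpr (toK_mem R hC u)
  have h3 := (R.valuation_le_one_iff _).mpr (toK_mem R hC v)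
  refine le_antisymm h2 ?_
  calc (1 : R.ValueGroup) = R.valuation (toK R hC u) * R.valuation (toK R hC v) := h1.symm
    _ ≤ R.valuation (toK R hC u) * 1 := by gcongr
    _ = _ := mul_one _

include hC in
/-- **elements of `R` are fractions** `a / b`, `a, b ∈ C`, `b` a unit of `R`. -/
theorem exists_frac {r : K} (hr : r ∈ R) :
    ∃ a b : C, R.valuation (algebraMap C K b) = 1 ∧ r = algebraMap C K a / algebraMap C K b := by
  classical
  by_cases hR : R = ⊤
  · -- trivial valuation
    obtain ⟨a, b, hb, rfl⟩ := IsFractionRing.div_surjective (A := C) r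
    refine ⟨a, b, ?_, rfl⟩
    have hb0 : algebraMap C K b ≠ 0 :=
      (map_ne_zero_iff _ (IsFractionRing.injective C K)).mpr (nonZeroDivisors.ne_zero hb)
    have h1 : (algebraMap C K b)⁻¹ ∈ R := by rw [hR]; trivial
    have h2 := (R.valuation_le_one_iff _).mpr (hC b)
    have h3 := (R.valuation_le_one_iff _).mpr h1
    rw [map_inv₀] at h3
    refine le_antisymm h2 ?_
    have hv : 0 < R.valuation (algebraMap C K b) :=
      zero_lt_iff.mpr ((Valuation.ne_zero_iff _).mpr hb0)
    exact (inv_le_one₀ hv).mp h3
  haveI : IsDiscreteValuationRing (Localization.AtPrime (centre R hC)) :=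
    IsLocalization.AtPrime.isDiscreteValuationRing_of_dedekind_domain C
      (centre_ne_bot R hC hR) _
  obtain ⟨s, t, ht, rfl⟩ := IsFractionRing.div_surjective (A := C) r
  have ht0 : algebraMap C K t ≠ 0 :=
    (map_ne_zero_iff _ (IsFractionRing.injective C K)).mpr (nonZeroDivisors.ne_zero ht)
  obtain ⟨c, hc | hc⟩ := ValuationRing.cond
    (algebraMap C (Localization.AtPrime (centre R hC)) s)
    (algebraMap C (Localization.AtPrime (centre R hC)) t)
  · -- s * c = t
    obtain ⟨a, b, hb, hab⟩ := toK_surj R hC c
    have h1 := congrArg (toK R hC) hc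
    rw [map_mul, toK_algebraMap, toK_algebraMap, hab] at h1
    have hb0 : algebraMap C K b ≠ 0 := by
      intro h; rw [h, map_zero] at hb; exact zero_ne_one hb
    have hs0 : algebraMap C K s ≠ 0 := by
      intro h; rw [h, zero_mul] at h1; exact ht0 h1.symm
    have ha0 : algebraMap C K a ≠ 0 := by
      intro h; rw [h, zero_div, mul_zero] at h1; exact ht0 h1.symm
    have h2 : algebraMap C K s / algebraMap C K t = algebraMap C K b / algebraMap C K a := by
      rw [← h1]
      field_simp
    refine ⟨b, a, ?_, h2⟩
    rw [h2] at hr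
    have h3 := (R.valuation_le_one_iff _).mpr hr
    rw [map_div₀, hb] at h3
    refine le_antisymm ((R.valuation_le_one_iff _).mpr (hC a)) ?_
    have hv : 0 < R.valuation (algebraMap C K a) :=
      zero_lt_iff.mpr ((Valuation.ne_zero_iff _).mpr ha0)
    rwa [div_le_one₀ hv] at h3
  · -- t * c = s
    obtain ⟨a, b, hb, hab⟩ := toK_surj R hC c
    refine ⟨a, b, hb, ?_⟩
    have h1 := congrArg (toK R hC) hc
    rw [map_mul, toK_algebraMap, toK_algebraMap, hab] at h1
    rw [← h1]
    field_simp

include hC in
/-- `R` has a uniformizer and is archimedean -/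
theorem exists_unif (hR : R ≠ ⊤) :
    ∃ t : K, IsUnif R t ∧ ∀ z : K, z ≠ 0 → ∃ j : ℤ, R.valuation z = R.valuation t ^ j := by
  haveI : IsDiscreteValuationRing (Localization.AtPrime (centre R hC)) :=
    IsLocalization.AtPrime.isDiscreteValuationRing_of_dedekind_domain C
      (centre_ne_bot R hC hR) _
  obtain ⟨ϖ, hϖ⟩ := IsDiscreteValuationRing.exists_irreducible
    (Localization.AtPrime (centre R hC))
  have hinj : Function.Injective (algebraMap C (Localization.AtPrime (centre R hC))) :=
    IsLocalization.injective _ (centre R hC).primeCompl_le_nonZeroDivisors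
  -- image of the maximal ideal
  have hmax : ∀ a : C, R.valuation (algebraMap C K a) < 1 →
      ∃ c : Localization.AtPrime (centre R hC),
        algebraMap C (Localization.AtPrime (centre R hC)) a = ϖ * c := by
    intro a ha
    have h1 : a ∈ centre R hC := ha
    have h2 : algebraMap C (Localization.AtPrime (centre R hC)) a ∈
        IsLocalRing.maximalIdeal (Localization.AtPrime (centre R hC)) :=
      (IsLocalization.AtPrime.to_map_mem_maximal_iff _ (centre R hC) a).mpr h1
    rw [(IsDiscreteValuationRing.irreducible_iff_uniformizer ϖ).mp hϖ,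
      Ideal.mem_span_singleton] at h2
    obtain ⟨c, hc⟩ := h2
    exact ⟨c, hc⟩
  have hϖlt : R.valuation (toK R hC ϖ) < 1 := by
    by_contra h
    have h1 : R.valuation (toK R hC ϖ) = 1 :=
      le_antisymm ((R.valuation_le_one_iff _).mpr (toK_mem R hC ϖ)) (not_lt.mp h)
    obtain ⟨x, hx, hx0⟩ := (Submodule.ne_bot_iff _).mp (centre_ne_bot R hC hR)
    -- `x = unit * ϖ ^ n`
    have hx0' : algebraMap C (Localization.AtPrime (centre R hC)) x ≠ 0 :=
      (map_ne_zero_iff _ hinj).mpr hx0
    obtain ⟨n, u, hu⟩ := IsDiscreteValuationRing.eq_unit_mul_pow_irreducible hx0' hϖ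
    have h2 := congrArg (fun z => R.valuation (toK R hC z)) hu
    simp only [map_mul, map_pow, toK_algebraMap] at h2
    rw [toK_isUnit R hC u.isUnit, h1, one_pow, mul_one] at h2
    exact (ne_of_lt hx) h2
  have hne : toK R hC ϖ ≠ 0 := by
    intro h
    obtain ⟨x, hx, hx0⟩ := (Submodule.ne_bot_iff _).mp (centre_ne_bot R hC hR)
    obtain ⟨c, hc⟩ := hmax x hx
    have h2 := congrArg (toK R hC) hc
    rw [map_mul, h, zero_mul, toK_algebraMap] at h2
    exact hx0 ((map_eq_zero_iff _ (IsFractionRing.injective C K)).mp h2)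
  refine ⟨toK R hC ϖ, ⟨hne, hϖlt, fun r hr => ?_⟩, fun z hz => ?_⟩
  · obtain ⟨a, b, hb, rfl⟩ := exists_frac R hC ((R.valuation_le_one_iff _).mp hr.le)
    rw [map_div₀, hb, div_one] at hr ⊢
    obtain ⟨c, hc⟩ := hmax a hr
    have h2 := congrArg (fun z => R.valuation (toK R hC z)) hc
    simp only [map_mul, toK_algebraMap] at h2
    rw [h2]
    calc R.valuation (toK R hC ϖ) * R.valuation (toK R hC c)
        ≤ R.valuation (toK R hC ϖ) * 1 := by
          gcongr; exact (R.valuation_le_one_iff _).mpr (toK_mem R hC c)
      _ = _ := mul_one _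
  · have key : ∀ a : C, a ≠ 0 → ∃ n : ℕ, R.valuation (algebraMap C K a) =
        R.valuation (toK R hC ϖ) ^ n := by
      intro a ha
      have ha' : algebraMap C (Localization.AtPrime (centre R hC)) a ≠ 0 :=
        (map_ne_zero_iff _ hinj).mpr ha
      obtain ⟨n, u, hu⟩ := IsDiscreteValuationRing.eq_unit_mul_pow_irreducible ha' hϖ
      have h2 := congrArg (fun z => R.valuation (toK R hC z)) hu
      simp only [map_mul, map_pow, toK_algebraMap] at h2
      rw [toK_isUnit R hC u.isUnit, one_mul] at h2
      exact ⟨n, h2⟩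
    obtain ⟨a, b, hb, rfl⟩ := IsFractionRing.div_surjective (A := C) z
    have hb0 : b ≠ 0 := nonZeroDivisors.ne_zero hb
    have ha0 : a ≠ 0 := by
      rintro rfl
      simp at hz
    obtain ⟨i, hi⟩ := key a ha0
    obtain ⟨j, hj⟩ := key b hb0
    refine ⟨(i : ℤ) - j, ?_⟩
    have hv : R.valuation (toK R hC ϖ) ≠ 0 := (Valuation.ne_zero_iff _).mpr hne
    rw [map_div₀, hi, hj, zpow_sub₀ hv, zpow_natCast, zpow_natCast]

end dedekind

end Crest.Agent.R276.FKOne_779
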