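import Mathlib
import Crest.Agent.R276.FKOne_779

/-!
# Row 276, FKOneB: function fields of one variable `K/E` (helper779)

`t ∈ K` with `K` finite over `E(t)`, `char K = 0`, `R` a valuation ring of `K` containing `E`, `t`.
-/

set_option autoImplicit false
set_option linter.style.haveILetI false
set_option linter.unusedSectionVars false

open scoped IntermediateField IntermediateField.algebraAdjoinAdjoin

noncomputable section

namespace Crest.Agent.R276.FKOneB_779

open Crest.Agent.R276.FKOne_779

variable {E K : Type*} [Field E] [Field K] [Algebra E K] [CharZero E] (t : K)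

instance isPrincipal_adjoin : IsPrincipalIdealRing (Algebra.adjoin E {t}) := by
  have hsurj : Function.Surjective
      ((Polynomial.aeval (⟨t, Algebra.self_mem_adjoin_singleton E t⟩ : Algebra.adjoin E {t}) :
        Polynomial E →ₐ[E] Algebra.adjoin E {t}) : Polynomial E → Algebra.adjoin E {t}) := by
    rintro ⟨x, hx⟩
    have hx' := hx
    rw [Algebra.adjoin_singleton_eq_range_aeval] at hx'
    obtain ⟨p, hp⟩ := hx'
    refine ⟨p, Subtype.ext ?_⟩
    have h1 := Polynomial.aeval_algHom_apply (Algebra.adjoin E {t}).val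
      (⟨t, Algebra.self_mem_adjoin_singleton E t⟩ : Algebra.adjoin E {t}) p
    exact h1.symm.trans hp
  exact IsPrincipalIdealRing.of_surjective _ hsurj

instance dedekind_adjoin : IsDedekindDomain (Algebra.adjoin E {t}) := inferInstance

variable [FiniteDimensional E⟮t⟯ K]

/-- the integral closure of `E[t]` in `K` -/
abbrev CC (E : Type*) {K : Type*} [Field E] [Field K] [Algebra E K] (t : K) : Type _ :=
  integralClosure (Algebra.adjoin E {t}) K

instance : Algebra.IsSeparable E⟮t⟯ K := by
  haveI : CharZero E⟮t⟯ := charZero_of_injective_algebraMap (algebraMap E E⟮t⟯).injective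
  infer_instance

instance dedekind_CC : IsDedekindDomain (CC E t) :=
  integralClosure.isDedekindDomain (Algebra.adjoin E {t}) E⟮t⟯ K

instance frac_CC : IsFractionRing (CC E t) K :=
  integralClosure.isFractionRing_of_finite_extension E⟮t⟯ K

instance finite_CC : Module.Finite (Algebra.adjoin E {t}) (CC E t) :=
  IsIntegralClosure.finite (Algebra.adjoin E {t}) E⟮t⟯ K (CC E t)

variable (R : ValuationSubring K) (hE : ∀ e : E, algebraMap E K e ∈ R) (ht : t ∈ R)

include hE ht in
omit [CharZero E] [FiniteDimensional E⟮t⟯ K] in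
theorem adjoin_mem {x : K} (hx : x ∈ Algebra.adjoin E {t}) : x ∈ R := by
  let S : Subalgebra E K := { R.toSubring with algebraMap_mem' := hE }
  have h1 : Algebra.adjoin E {t} ≤ S := by
    rw [Algebra.adjoin_le_iff, Set.singleton_subset_iff]
    exact ht
  exact h1 hx

include hE ht in
omit [CharZero E] [FiniteDimensional E⟮t⟯ K] in
theorem CC_mem (c : CC E t) : algebraMap (CC E t) K c ∈ R := by
  have hc : IsIntegral (Algebra.adjoin E {t}) (c : K) := c.2
  let φ : Algebra.adjoin E {t} →+* R := 
    (algebraMap (Algebra.adjoin E {t}) K).codRestrict R.toSubring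
      (fun x => adjoin_mem t R hE ht x.2)
  obtain ⟨p, hp, hp0⟩ := hc
  have h2 : IsIntegral R (c : K) := by
    refine ⟨p.map φ, hp.map φ, ?_⟩
    rw [Polynomial.eval₂_map]
    exact hp0
  obtain ⟨y, hy⟩ := IsIntegrallyClosed.isIntegral_iff.mp h2
  change (c : K) ∈ R
  rw [← hy]
  exact y.2

include hE ht in
/-- uniformizer, archimedean property -/
theorem exists_unif' (hR : R ≠ ⊤) :
    ∃ π : K, IsUnif R π ∧ ∀ z : K, z ≠ 0 → ∃ j : ℤ, R.valuation z = R.valuation π ^ j :=
  exists_unif (C := CC E t) R (CC_mem t R hE ht) hR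

include hE ht in
/-- a derivation which is integral on `E` and `t` is bounded on `R`. -/
theorem deriv_bounded (D : Derivation ℤ K K) (hDE : ∀ e : E, D (algebraMap E K e) ∈ R)
    (hDt : D t ∈ R) : ∃ M : R.ValueGroup, M ≠ 0 ∧ ∀ r ∈ R, R.valuation (D r) ≤ M := by
  classical
  -- `D` maps `E[t]` into `R`
  have hDA : ∀ x ∈ Algebra.adjoin E {t}, D x ∈ R := by
    intro x hx
    induction hx using Algebra.adjoin_induction with
    | mem x hx =>
      rw [Set.mem_singleton_iff] at hx
      rw [hx]; exact hDt
    | algebraMap e => exact hDE e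
    | add x y _ _ h1 h2 => rw [map_add]; exact R.add_mem _ _ h1 h2
    | mul x y hx hy h1 h2 =>
      rw [Derivation.leibniz, smul_eq_mul, smul_eq_mul]
      exact R.add_mem _ _ (R.mul_mem _ _ (adjoin_mem t R hE ht hx) h2)
        (R.mul_mem _ _ (adjoin_mem t R hE ht hy) h1)
  obtain ⟨s, hs⟩ := (finite_CC (E := E) t).fg_top
  -- the bound
  obtain ⟨M, hM1, hM⟩ : ∃ M : R.ValueGroup, 1 ≤ M ∧ ∀ c ∈ s, R.valuation (D (c : K)) ≤ M := by
    obtain ⟨M, hM⟩ := (s.image (fun c : CC E t => R.valuation (D (c : K)))).exists_le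
    exact ⟨M ⊔ 1, le_sup_right, fun c hc =>
      (hM _ (Finset.mem_image_of_mem _ hc)).trans le_sup_left⟩
  refine ⟨M, (zero_lt_one.trans_le hM1).ne', ?_⟩
  have hC : ∀ c : CC E t, R.valuation (D (c : K)) ≤ M := by
    intro c
    have hc : c ∈ Submodule.span (Algebra.adjoin E {t}) (s : Set (CC E t)) := by
      rw [hs]; trivial
    induction hc using Submodule.span_induction with
    | mem x hx => exact hM x hx
    | zero => simp
    | add x y _ _ h1 h2 =>
      have : ((x + y : CC E t) : K) = (x : K) + (y : K) := rfl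
      rw [this, map_add]
      exact (R.valuation.map_add _ _).trans (max_le h1 h2)
    | smul a x _ h1 =>
      have : ((a • x : CC E t) : K) = (a : K) * (x : K) := rfl
      rw [this, Derivation.leibniz, smul_eq_mul, smul_eq_mul]
      refine (R.valuation.map_add _ _).trans (max_le ?_ ?_)
      · rw [map_mul]
        calc _ ≤ 1 * M := by
              gcongr
              exact (R.valuation_le_one_iff _).mpr (adjoin_mem t R hE ht a.2)
          _ = M := one_mul _
      · rw [map_mul]
        calc _ ≤ (1 : R.ValueGroup) * 1 := by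
              gcongr
              · exact (R.valuation_le_one_iff _).mpr (CC_mem t R hE ht x)
              · exact (R.valuation_le_one_iff _).mpr (hDA _ a.2)
          _ ≤ M := by rw [one_mul]; exact hM1
  intro r hr
  obtain ⟨a, b, hb, rfl⟩ := exists_frac (C := CC E t) R (CC_mem t R hE ht) hr
  have hb0 : algebraMap (CC E t) K b ≠ 0 := by
    intro h; rw [h, map_zero] at hb; exact zero_ne_one hb
  have h1 : D (algebraMap (CC E t) K a / algebraMap (CC E t) K b) =
      (algebraMap (CC E t) K b * D (algebraMap (CC E t) K a) -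
        algebraMap (CC E t) K a * D (algebraMap (CC E t) K b)) / algebraMap (CC E t) K b ^ 2 := by
    rw [Derivation.leibniz_div, smul_eq_mul, smul_eq_mul, smul_eq_mul, inv_pow, inv_mul_eq_div]
  rw [h1, map_div₀, map_pow, hb, one_pow, div_one]
  refine (R.valuation.map_sub _ _).trans (max_le ?_ ?_)
  · rw [map_mul, hb, one_mul]
    exact hC a
  · rw [map_mul]
    calc _ ≤ 1 * M := by
          gcongr
          · exact (R.valuation_le_one_iff _).mpr (CC_mem t R hE ht a)
          · exact hC b
      _ = M := one_mul _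

include hE ht in
omit [CharZero E] in
/-- residues of elements of `R` are algebraic over `E` -/
theorem exists_residue_poly (ht1 : R.valuation t < 1) (ht0 : t ≠ 0) {r : K} (hr : r ∈ R) :
    ∃ P : Polynomial E, P ≠ 0 ∧ R.valuation (Polynomial.aeval r P) < 1 := by
  classical
  let ev : Polynomial (Polynomial E) →+* K :=
    Polynomial.eval₂RingHom ((Polynomial.aeval t : Polynomial E →ₐ[E] K) : Polynomial E →+* K) r
  -- `r` is algebraic over `E[t]`
  have h1 : ∃ F : Polynomial (Polynomial E), F ≠ 0 ∧ ev F = 0 := by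
    have h2 : IsAlgebraic (Algebra.adjoin E {t}) r := by
      have h3 : Algebra.IsAlgebraic E⟮t⟯ K := inferInstance
      have h4 : Algebra.IsAlgebraic (Algebra.adjoin E {t}) K :=
        (IsFractionRing.comap_isAlgebraic_iff (A := Algebra.adjoin E {t}) (K := E⟮t⟯)).mpr h3
      exact h4.isAlgebraic r
    obtain ⟨p, hp0, hp⟩ := h2
    have hsurj : Function.Surjective
        (((Polynomial.aeval (⟨t, Algebra.self_mem_adjoin_singleton E t⟩ : Algebra.adjoin E {t}) :
          Polynomial E →ₐ[E] Algebra.adjoin E {t}) : Polynomial E →+* Algebra.adjoin E {t})) := by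
      rintro ⟨x, hx⟩
      have hx' := hx
      rw [Algebra.adjoin_singleton_eq_range_aeval] at hx'
      obtain ⟨p, hp⟩ := hx'
      refine ⟨p, Subtype.ext ?_⟩
      have h1 := Polynomial.aeval_algHom_apply (Algebra.adjoin E {t}).val
        (⟨t, Algebra.self_mem_adjoin_singleton E t⟩ : Algebra.adjoin E {t}) p
      exact h1.symm.trans hp
    obtain ⟨F, hF⟩ := Polynomial.map_surjective _ hsurj p
    refine ⟨F, ?_, ?_⟩
    · rintro rfl
      rw [Polynomial.map_zero] at hF
      exact hp0 hF.symm
    · rw [← hF, Polynomial.aeval_def, Polynomial.eval₂_map] at hp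
      rw [← hp]
      change Polynomial.eval₂ _ r F = _
      congr 1
      ext1
      · ext e
        simp
      · simp
  -- choose one with leading coefficient of least degree
  obtain ⟨F, ⟨hF0, hF⟩, hmin⟩ := WellFounded.has_min (measure
    (fun F : Polynomial (Polynomial E) => F.leadingCoeff.natDegree)).wf
    {F | F ≠ 0 ∧ ev F = 0} h1
  have h5 : F.map (Polynomial.constantCoeff : Polynomial E →+* E) ≠ 0 := by
    intro h
    have h6 : ∀ i, Polynomial.X ∣ F.coeff i := by
      intro i
      rw [Polynomial.X_dvd_iff]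
      have := congrArg (fun p => Polynomial.coeff p i) h
      simpa [Polynomial.coeff_map] using this
    obtain ⟨G, hG⟩ := (Polynomial.C_dvd_iff_dvd_coeff _ F).mpr h6
    have hG0 : G ≠ 0 := by
      rintro rfl
      rw [mul_zero] at hG
      exact hF0 hG
    have hG1 : ev G = 0 := by
      rw [hG, map_mul] at hF
      rcases mul_eq_zero.mp hF with h7 | h7
      · exfalso
        apply ht0
        simpa [ev] using h7
      · exact h7
    refine hmin G ⟨hG0, hG1⟩ ?_
    change G.leadingCoeff.natDegree < F.leadingCoeff.natDegree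
    rw [hG, Polynomial.leadingCoeff_mul, Polynomial.leadingCoeff_C, Polynomial.natDegree_mul
      Polynomial.X_ne_zero (Polynomial.leadingCoeff_ne_zero.mpr hG0), Polynomial.natDegree_X]
    omega
  refine ⟨_, h5, ?_⟩
  -- reduce modulo the maximal ideal
  let φ : Polynomial E →+* R := 
    (((Polynomial.aeval t : Polynomial E →ₐ[E] K) : Polynomial E →+* K)).codRestrict R.toSubring
      (fun p => adjoin_mem t R hE ht (by
        rw [Algebra.adjoin_singleton_eq_range_aeval]; exact ⟨p, rfl⟩))
  let ι : E →+* R := (algebraMap E K).codRestrict R.toSubring hE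
  let ρ := IsLocalRing.residue R
  have h6 : ρ.comp φ = (ρ.comp ι).comp Polynomial.constantCoeff := by
    ext1
    · ext e
      simp only [RingHom.coe_comp, Function.comp_apply]
      congr 1
      apply Subtype.ext
      have h6a : (Polynomial.constantCoeff (Polynomial.C e) : E) = e := by simp
      rw [h6a]
      change Polynomial.aeval t (Polynomial.C e) = algebraMap E K e
      simp
    · simp only [RingHom.coe_comp, Function.comp_apply, Polynomial.constantCoeff_apply,
        Polynomial.coeff_X_zero, map_zero]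
      rw [IsLocalRing.residue_eq_zero_iff]
      have : (φ Polynomial.X : K) = t := by
        change Polynomial.aeval t Polynomial.X = t
        simp
      rw [R.valuation_lt_one_iff, this]
      exact ht1
  have h7 : Polynomial.eval₂ φ (⟨r, hr⟩ : R) F = 0 := by
    apply Subtype.ext
    have h8 := Polynomial.hom_eval₂ F φ R.subtype (⟨r, hr⟩ : R)
    refine (h8.trans ?_)
    exact hF
  have h8 := congrArg ρ h7
  rw [Polynomial.hom_eval₂, h6, ← Polynomial.eval₂_map, map_zero, ← Polynomial.hom_eval₂,
    IsLocalRing.residue_eq_zero_iff, R.valuation_lt_one_iff] at h8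
  convert h8 using 2
  have h9 := Polynomial.hom_eval₂ (F.map (Polynomial.constantCoeff : Polynomial E →+* E)) ι
    R.subtype (⟨r, hr⟩ : R)
  exact h9.symm

include hE in
omit [CharZero E] [FiniteDimensional E⟮t⟯ K] in
/-- Leibniz rule for a polynomial with coefficients in `E`. -/
theorem deriv_aeval (D : Derivation ℤ K K) (hDE : ∀ e : E, D (algebraMap E K e) ∈ R)
    {r : K} (hr : r ∈ R) (P : Polynomial E) :
    ∃ q ∈ R, D (Polynomial.aeval r P) = q + Polynomial.aeval r P.derivative * D r := by
  induction P using Polynomial.induction_on' with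
  | add P Q hP hQ =>
    obtain ⟨q1, h1, h1'⟩ := hP
    obtain ⟨q2, h2, h2'⟩ := hQ
    refine ⟨q1 + q2, R.add_mem _ _ h1 h2, ?_⟩
    rw [map_add, map_add, h1', h2', Polynomial.derivative_add, map_add]
    ring
  | monomial n c =>
    refine ⟨D (algebraMap E K c) * r ^ n, R.mul_mem _ _ (hDE c) (pow_mem hr n), ?_⟩
    rw [Polynomial.aeval_monomial, Derivation.leibniz, Derivation.leibniz_pow,
      Polynomial.derivative_monomial, Polynomial.aeval_monomial, map_mul, map_natCast]
    simp only [smul_eq_mul, nsmul_eq_mul]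
    ring

include hE in
/-- **integrality of derivations**: a derivation of `K`, integral on `E` and on the uniformizer
`t`, preserves `R`. -/
theorem deriv_int (htu : IsUnif R t) (D : Derivation ℤ K K)
    (hDE : ∀ e : E, D (algebraMap E K e) ∈ R) (hDt : D t ∈ R) {r : K} (hr : r ∈ R) :
    D r ∈ R := by
  classical
  have ht : t ∈ R := (R.valuation_le_one_iff _).mp htu.lt.le
  have hR : R ≠ ⊤ := by
    rintro rfl
    have h1 : t⁻¹ ∈ (⊤ : ValuationSubring K) := trivial
    have h2 := (ValuationSubring.valuation_le_one_iff _ _).mpr h1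
    rw [map_inv₀] at h2
    have hv : 0 < (⊤ : ValuationSubring K).valuation t :=
      zero_lt_iff.mpr ((Valuation.ne_zero_iff _).mpr htu.ne)
    have h3 := (inv_le_one₀ hv).mp h2
    exact not_le.mpr htu.lt h3
  have hvt : 0 < R.valuation t := zero_lt_iff.mpr ((Valuation.ne_zero_iff _).mpr htu.ne)
  obtain ⟨π, hπ, harch⟩ := exists_unif' t R hE ht hR
  have hπt : R.valuation π = R.valuation t :=
    le_antisymm (htu.le _ hπ.lt) (hπ.le _ htu.lt)
  rw [hπt] at harch
  obtain ⟨M, hM0, hM⟩ := deriv_bounded t R hE ht D hDE hDt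
  -- the improvement step
  have step : ∀ B : R.ValueGroup, (∀ r ∈ R, R.valuation (D r) ≤ B) →
      ∀ r ∈ R, R.valuation (D r) ≤ max 1 (R.valuation t * B) := by
    intro B hB r hr
    obtain ⟨P, ⟨hP0, hP1⟩, hmin⟩ := WellFounded.has_min (measure
      (fun P : Polynomial E => P.natDegree)).wf
      {P | P ≠ 0 ∧ R.valuation (Polynomial.aeval r P) < 1}
      (exists_residue_poly t R hE ht htu.lt htu.ne hr)
    have hmem : ∀ Q : Polynomial E, Polynomial.aeval r Q ∈ R := by
      intro Q
      have h1 : Polynomial.aeval r Q ∈ Algebra.adjoin E {r} := by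
        rw [Algebra.adjoin_singleton_eq_range_aeval]; exact ⟨Q, rfl⟩
      exact adjoin_mem r R hE hr h1
    have hdeg : 1 ≤ P.natDegree := by
      by_contra h
      have h1 : P.natDegree = 0 := by omega
      obtain ⟨c, hc⟩ := Polynomial.natDegree_eq_zero.mp h1
      rw [← hc, Polynomial.aeval_C] at hP1
      have hc0 : c ≠ 0 := by
        rintro rfl
        rw [Polynomial.C_0] at hc
        exact hP0 hc.symm
      have h2 := (R.valuation_le_one_iff _).mpr (hE c⁻¹)
      rw [map_inv₀, map_inv₀] at h2
      have hv : 0 < R.valuation (algebraMap E K c) :=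
        zero_lt_iff.mpr ((Valuation.ne_zero_iff _).mpr ((map_ne_zero _).mpr hc0))
      exact not_le.mpr hP1 ((inv_le_one₀ hv).mp h2)
    have hd0 : P.derivative ≠ 0 := by
      intro h
      have := Polynomial.derivative_eq_zero.mp h
      omega
    have hdlt : P.derivative.natDegree < P.natDegree :=
      Polynomial.natDegree_derivative_lt (by omega)
    have hd1 : R.valuation (Polynomial.aeval r P.derivative) = 1 := by
      refine le_antisymm ((R.valuation_le_one_iff _).mpr (hmem _)) ?_
      by_contra h
      exact hmin P.derivative ⟨hd0, not_le.mp h⟩ hdlt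
    obtain ⟨q, hq, hq2⟩ := deriv_aeval R hE D hDE hr P
    -- `P(r) = t s`
    have hs : Polynomial.aeval r P / t ∈ R := by
      rw [← R.valuation_le_one_iff, map_div₀, div_le_one₀ hvt]
      exact htu.le _ hP1
    have h3 : D (Polynomial.aeval r P) = t * D (Polynomial.aeval r P / t) +
        (Polynomial.aeval r P / t) * D t := by
      have h4 : Polynomial.aeval r P = t * (Polynomial.aeval r P / t) := by
        have := htu.ne
        field_simp
      conv_lhs => rw [h4]
      rw [Derivation.leibniz, smul_eq_mul, smul_eq_mul]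
    have h4 : Polynomial.aeval r P.derivative * D r =
        t * D (Polynomial.aeval r P / t) + ((Polynomial.aeval r P / t) * D t - q) := by
      rw [h3] at hq2
      linear_combination -hq2
    have h5 : R.valuation (D r) = R.valuation (Polynomial.aeval r P.derivative * D r) := by
      rw [map_mul, hd1, one_mul]
    rw [h5, h4]
    refine (R.valuation.map_add _ _).trans ?_
    rw [max_comm]
    refine max_le_max ?_ ?_
    · exact (R.valuation_le_one_iff _).mpr (R.toSubring.sub_mem (R.mul_mem _ _ hs hDt) hq)
    · rw [map_mul]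
      gcongr
      exact hB _ hs
  have iter : ∀ N : ℕ, ∀ r ∈ R, R.valuation (D r) ≤ max 1 (R.valuation t ^ N * M) := by
    intro N
    induction N with
    | zero => intro r hr; rw [pow_zero, one_mul]; exact (hM r hr).trans (le_max_right _ _)
    | succ N ih =>
      intro r hr
      refine (step _ ih r hr).trans (max_le (le_max_left _ _) ?_)
      rw [mul_max, mul_one]
      refine max_le (htu.lt.le.trans (le_max_left _ _)) ?_
      rw [← mul_assoc, ← pow_succ']
      exact le_max_right _ _
  obtain ⟨μ, hμ⟩ := R.valuation_surjective M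
  have hμ0 : μ ≠ 0 := by
    rintro rfl
    rw [map_zero] at hμ
    exact hM0 hμ.symm
  obtain ⟨j, hj⟩ := harch μ hμ0
  have h1 := iter (-j).toNat r hr
  rw [← R.valuation_le_one_iff]
  refine h1.trans (max_le le_rfl ?_)
  rw [← hμ, hj, ← zpow_natCast, ← zpow_add₀ hvt.ne']
  have h2 : 0 ≤ ((-j).toNat : ℤ) + j := by omega
  obtain ⟨n, hn⟩ := Int.eq_ofNat_of_zero_le h2
  rw [hn]
  exact_mod_cast pow_le_one₀ hvt.le htu.lt.le

omit hE ht in
/-- finitely many valuation rings of `K/E` have `t` in their maximal ideal -/
theorem finite_zeros (ht0 : t ≠ 0) :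
    {R : ValuationSubring K | (∀ e : E, algebraMap E K e ∈ R) ∧ R.valuation t < 1}.Finite := by
  classical
  let t' : CC E t := algebraMap (Algebra.adjoin E {t}) (CC E t)
    ⟨t, Algebra.self_mem_adjoin_singleton E t⟩
  have ht' : algebraMap (CC E t) K t' = t := rfl
  have ht'0 : t' ≠ 0 := by
    intro h
    rw [h, map_zero] at ht'
    exact ht0 ht'.symm
  have hI : Ideal.span {t'} ≠ (0 : Ideal (CC E t)) := by
    rw [Ne, Ideal.zero_eq_bot, Ideal.span_singleton_eq_bot]
    exact ht'0
  have hfin := Ideal.finite_factors (R := CC E t) hI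
  have hmem : ∀ R : ValuationSubring K, R.valuation t < 1 → t ∈ R := fun R h =>
    (R.valuation_le_one_iff _).mp h.le
  have hmemC : ∀ (R : ValuationSubring K) (_ : ∀ e : E, algebraMap E K e ∈ R)
    (_ : R.valuation t < 1) (c : CC E t), algebraMap (CC E t) K c ∈ R :=
    fun R h1 h2 c => CC_mem t R h1 (hmem R h2) c
  let Φ : {R : ValuationSubring K // (∀ e : E, algebraMap E K e ∈ R) ∧ R.valuation t < 1} →
      Ideal (CC E t) := fun R => centre R.1 (hmemC R.1 R.2.1 R.2.2)
  have hinj : Function.Injective Φ := by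
    have key : ∀ R R' : {R : ValuationSubring K // (∀ e : E, algebraMap E K e ∈ R) ∧
        R.valuation t < 1}, Φ R = Φ R' → R.1 ≤ R'.1 := by
      intro R R' h r hr
      obtain ⟨a, b, hb, rfl⟩ := exists_frac (C := CC E t) R.1 (hmemC R.1 R.2.1 R.2.2) hr
      have h1 : b ∉ Φ R := (not_mem_centre R.1 (hmemC R.1 R.2.1 R.2.2)).mpr hb
      rw [h] at h1
      have h2 := (not_mem_centre R'.1 (hmemC R'.1 R'.2.1 R'.2.2)).mp h1
      rw [← R'.1.valuation_le_one_iff, map_div₀, h2, div_one]
      exact (R'.1.valuation_le_one_iff _).mpr (hmemC R'.1 R'.2.1 R'.2.2 a)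
    intro R R' h
    exact Subtype.ext (le_antisymm (key R R' h) (key R' R h.symm))
  rw [← Set.finite_coe_iff]
  have hfin2 : Finite {I : Ideal (CC E t) // ∃ v : IsDedekindDomain.HeightOneSpectrum (CC E t),
      v.asIdeal ∣ Ideal.span {t'} ∧ v.asIdeal = I} := by
    have h3 := Set.Finite.image (fun v : IsDedekindDomain.HeightOneSpectrum (CC E t) => v.asIdeal)
      hfin
    exact Set.finite_coe_iff.mpr (h3.subset (by
      rintro I ⟨v, hv, rfl⟩
      exact ⟨v, hv, rfl⟩))
  refine Finite.of_injective (β := {I : Ideal (CC E t) //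
    ∃ v : IsDedekindDomain.HeightOneSpectrum (CC E t),
      v.asIdeal ∣ Ideal.span {t'} ∧ v.asIdeal = I}) (fun R => ⟨Φ R, ?_⟩) ?_
  · have h4 : t' ∈ Φ R := by
      change R.1.valuation (algebraMap (CC E t) K t') < 1
      rw [ht']
      exact R.2.2
    refine ⟨⟨Φ R, centre_isPrime _ _, ?_⟩, ?_, rfl⟩
    · intro h
      rw [h] at h4
      exact ht'0 (by simpa using h4)
    · rw [Ideal.dvd_iff_le, Ideal.span_singleton_le_iff_mem]
      exact h4
  · intro R R' h
    exact hinj (congrArg Subtype.val h)

end Crest.Agent.R276.FKOneB_779
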