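import Mathlib
import Crest.Agent.R276.FKDefs_779
import Crest.Agent.R276.FK1_779
import Crest.Agent.R276.FKOneB_779

/-!
# Row 276, FKFrame: divisorial valuation rings, uniformizers, frames (helper779)

`K/k` finitely generated, `char k = 0`, `R` a valuation ring of `K` containing `k`, `R ≠ K`,
`x : Fin a → R` with residues algebraically independent over `k` and `trdeg K/k = a + 1`.

* `exists_unif_of_res` : `R` has a uniformizer and is discrete;
* `isTranscendenceBasis_cons` : `(t, x)` is a transcendence basis for every `t ≠ 0` in the maximal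
  ideal;
* `deriv_mem` : every derivation of `K/k` with `D t, D x_i ∈ R`, `t` a uniformizer, preserves `R`;
* `repr_mem`, `jac_le` : `Dt, Dx_i` is a frame of the differentials at `R`.
-/

set_option autoImplicit false
set_option linter.style.haveILetI false
set_option linter.unusedSectionVars false

open Crest.Agent.R276.FKDefs_779 Crest.Agent.R276.FKOne_779
open scoped IntermediateField IntermediateField.algebraAdjoinAdjoin

noncomputable section

namespace Crest.Agent.R276.FKFrame_779

variable {k K : Type*} [Field k] [Field K] [Algebra k K]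

section res
variable (R : ValuationSubring K) {a : ℕ} (x : Fin a → K)
  (hx : ∀ P : MvPolynomial (Fin a) k, P ≠ 0 → R.valuation (MvPolynomial.aeval x P) = 1)

include hx in
/-- the field generated by the `x_i` lies in `R` -/
theorem adjoin_le {e : K} (he : e ∈ IntermediateField.adjoin k (Set.range x)) :
    e ∈ R := by
  rw [IntermediateField.mem_adjoin_range_iff] at he
  obtain ⟨P, Q, rfl⟩ := he
  by_cases hQ : Q = 0
  · rw [hQ, map_zero, div_zero]; exact R.zero_mem
  by_cases hP : P = 0
  · rw [hP, map_zero, zero_div]; exact R.zero_mem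
  rw [← R.valuation_le_one_iff, map_div₀, hx P hP, hx Q hQ, div_one]

include hx in
theorem algebraicIndependent : AlgebraicIndependent k x := by
  rw [algebraicIndependent_iff]
  intro P hP
  by_contra h
  have := hx P h
  rw [hP, map_zero] at this
  exact zero_ne_one this

include hx in
/-- `(t, x)` is algebraically independent for `t ≠ 0` in the maximal ideal -/
theorem algebraicIndependent_cons {t : K} (ht0 : t ≠ 0) (ht : R.valuation t < 1) :
    AlgebraicIndependent k (Fin.cons t x : Fin (a + 1) → K) := by
  have h1 := algebraicIndependent R x hx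
  have h2 : Transcendental (Algebra.adjoin k (Set.range x)) t := by
    -- otherwise a polynomial relation with a nonzero constant term
    intro halg
    obtain ⟨p, hp0, hp⟩ := halg
    -- choose one of least degree
    obtain ⟨F, ⟨hF0, hF⟩, hmin⟩ := WellFounded.has_min (measure
      (fun F : Polynomial (Algebra.adjoin k (Set.range x)) => F.natDegree)).wf
      {F | F ≠ 0 ∧ Polynomial.aeval t F = 0} ⟨p, hp0, hp⟩
    have hc : F.coeff 0 ≠ 0 := by
      intro h0
      obtain ⟨G, hG⟩ := Polynomial.X_dvd_iff.mpr h0
      have hG0 : G ≠ 0 := by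
        rintro rfl
        rw [mul_zero] at hG
        exact hF0 hG
      refine hmin G ⟨hG0, ?_⟩ ?_
      · rw [hG, map_mul, Polynomial.aeval_X] at hF
        exact (mul_eq_zero.mp hF).resolve_left ht0
      · change G.natDegree < F.natDegree
        rw [hG, Polynomial.natDegree_X_mul hG0]
        omega
    have hmem : ∀ e : Algebra.adjoin k (Set.range x), (e : K) ∈ R := fun e =>
      adjoin_le R x hx (IntermediateField.algebra_adjoin_le_adjoin k _ e.2)
    -- value of the constant term
    have h3 : R.valuation ((F.coeff 0 : Algebra.adjoin k (Set.range x)) : K) = 1 := by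
      have h4 : ((F.coeff 0 : Algebra.adjoin k (Set.range x)) : K) ≠ 0 := fun h =>
        hc (Subtype.ext h)
      obtain ⟨P, hP⟩ := (Algebra.adjoin_range_eq_range_aeval k x).le (F.coeff 0).2
      have hP' : MvPolynomial.aeval x P = ((F.coeff 0 : Algebra.adjoin k (Set.range x)) : K) := hP
      rw [← hP']
      apply hx
      rintro rfl
      rw [map_zero] at hP'
      exact h4 hP'.symm
    have h6 : Polynomial.aeval t F = ((F.coeff 0 : Algebra.adjoin k (Set.range x)) : K) +
        t * Polynomial.aeval t F.divX := by
      conv_lhs => rw [← Polynomial.X_mul_divX_add F]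
      rw [map_add, map_mul, Polynomial.aeval_X, Polynomial.aeval_C, add_comm]
      rfl
    have h7 : R.valuation (Polynomial.aeval t F.divX) ≤ 1 := by
      rw [R.valuation_le_one_iff, Polynomial.aeval_eq_sum_range]
      refine sum_mem fun i _ => ?_
      rw [Algebra.smul_def]
      exact R.mul_mem _ _ (hmem _) (pow_mem ((R.valuation_le_one_iff _).mp ht.le) i)
    rw [hF] at h6
    have h8 : ((F.coeff 0 : Algebra.adjoin k (Set.range x)) : K) =
        -(t * Polynomial.aeval t F.divX) := by
      linear_combination -h6
    rw [h8, Valuation.map_neg, map_mul] at h3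
    have h9 : R.valuation t * R.valuation (Polynomial.aeval t F.divX) < 1 := by
      calc _ ≤ R.valuation t * 1 := by gcongr
        _ < 1 := by rwa [mul_one]
    exact (ne_of_lt h9) h3
  rw [← algebraicIndependent_equiv' (e := (finSuccEquiv a).symm)
    (f := (Fin.cons t x : Fin (a + 1) → K)) (g := fun o => o.elim t x)]
  · rw [h1.option_iff_transcendental]
    exact h2
  · funext o
    cases o <;> simp

variable [CharZero k] [Algebra.EssFiniteType k K] (hn : Algebra.trdeg k K = (a + 1 : ℕ))

include hx hn in
theorem isTranscendenceBasis_cons {t : K} (ht0 : t ≠ 0) (ht : R.valuation t < 1) :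
    IsTranscendenceBasis k (Fin.cons t x : Fin (a + 1) → K) := by
  have h1 := algebraicIndependent_cons R x hx ht0 ht
  refine h1.isTranscendenceBasis_of_lift_trdeg_le_of_finite ?_
  rw [hn]
  simp

/-- the field generated by the `x_i` -/
abbrev EE (k : Type*) {K : Type*} [Field k] [Field K] [Algebra k K] {a : ℕ} (x : Fin a → K) :
    IntermediateField k K := IntermediateField.adjoin k (Set.range x)

include hx hn in
/-- `K` is finite over `k(x)(t)` -/
theorem finiteDimensional {t : K} (ht0 : t ≠ 0) (ht : R.valuation t < 1) :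
    FiniteDimensional (IntermediateField.adjoin (EE k x) {t}) K := by
  have h1 := isTranscendenceBasis_cons R x hx hn ht0 ht
  haveI h2 : Algebra.IsAlgebraic (IntermediateField.adjoin k
      (Set.range (Fin.cons t x : Fin (a + 1) → K))) K := h1.isAlgebraic_field
  -- same field
  have h3 : (IntermediateField.adjoin (EE k x) {t}).restrictScalars k =
      IntermediateField.adjoin k (Set.range (Fin.cons t x : Fin (a + 1) → K)) := by
    rw [IntermediateField.adjoin_adjoin_left, Fin.range_cons, Set.union_singleton]
  haveI h4 : Algebra.IsAlgebraic (IntermediateField.adjoin (EE k x) {t}) K := by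
    refine ⟨fun z => ?_⟩
    have h5 : IsAlgebraic ((IntermediateField.adjoin (EE k x) {t}).restrictScalars k) z := by
      rw [h3]
      exact h2.isAlgebraic z
    exact h5
  haveI : IsScalarTower k (IntermediateField.adjoin (EE k x) {t}) K :=
    IsScalarTower.of_algebraMap_eq' rfl
  haveI : Algebra.EssFiniteType (IntermediateField.adjoin (EE k x) {t}) K := by
    exact Algebra.EssFiniteType.of_comp k _ K
  exact Algebra.finite_of_essFiniteType_of_isAlgebraic 

include hx hn in
/-- `R` is discrete -/
theorem exists_unif_of_res (hR : R ≠ ⊤) :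
    ∃ π : K, IsUnif R π ∧ ∀ z : K, z ≠ 0 → ∃ j : ℤ, R.valuation z = R.valuation π ^ j := by
  obtain ⟨z, hz⟩ : ∃ z : K, z ∉ R := by
    by_contra h
    push Not at h
    exact hR (eq_top_iff.mpr fun z _ => h z)
  have hz0 : z ≠ 0 := by rintro rfl; exact hz R.zero_mem
  have hz1 : 1 < R.valuation z := by
    rw [← not_le, R.valuation_le_one_iff]; exact hz
  have ht0 : z⁻¹ ≠ 0 := inv_ne_zero hz0
  have ht : R.valuation z⁻¹ < 1 := by
    rw [map_inv₀]
    exact inv_lt_one_of_one_lt₀ hz1
  haveI := finiteDimensional R x hx hn ht0 ht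
  exact FKOneB_779.exists_unif' (E := EE k x) z⁻¹ R (fun e => adjoin_le R x hx e.2)
    ((R.valuation_le_one_iff _).mp ht.le) hR

include hx hn in
/-- **derivations preserve divisorial valuation rings** -/
theorem deriv_mem (hxm : ∀ i, x i ∈ R) {t : K} (ht : IsUnif R t) (D : Derivation k K K)
    (hDt : D t ∈ R) (hDx : ∀ i, D (x i) ∈ R) {r : K} (hr : r ∈ R) : D r ∈ R := by
  haveI := finiteDimensional R x hx hn ht.ne ht.lt
  refine FKOneB_779.deriv_int (E := EE k x) t R (fun e => adjoin_le R x hx e.2) ht
    (D.restrictScalars ℤ) ?_ hDt hr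
  intro e
  change D (e : K) ∈ R
  have hpol : ∀ P : MvPolynomial (Fin a) k, D (MvPolynomial.aeval x P) ∈ R := by
    intro P
    have hmem : ∀ P : MvPolynomial (Fin a) k, MvPolynomial.aeval x P ∈ R := by
      intro P
      by_cases hP : P = 0
      · rw [hP, map_zero]; exact R.zero_mem
      · exact (R.valuation_le_one_iff _).mp (hx P hP).le
    induction P using MvPolynomial.induction_on with
    | C c => rw [MvPolynomial.aeval_C, Derivation.map_algebraMap]; exact R.zero_mem
    | add P Q hP hQ => rw [map_add, map_add]; exact R.add_mem _ _ hP hQ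
    | mul_X P i hP =>
      rw [map_mul, MvPolynomial.aeval_X, Derivation.leibniz, smul_eq_mul, smul_eq_mul]
      exact R.add_mem _ _ (R.mul_mem _ _ (hmem P) (hDx i)) (R.mul_mem _ _ (hxm i) hP)
  have he := e.2
  rw [IntermediateField.mem_adjoin_range_iff] at he
  obtain ⟨P, Q, hPQ⟩ := he
  rw [hPQ]
  by_cases hQ : Q = 0
  · rw [hQ, map_zero, div_zero, map_zero]; exact R.zero_mem
  have hmem : MvPolynomial.aeval x P ∈ R := by
    by_cases hP : P = 0
    · rw [hP, map_zero]; exact R.zero_mem
    · exact (R.valuation_le_one_iff _).mp (hx P hP).le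
  have hvQ := hx Q hQ
  rw [Derivation.leibniz_div, smul_eq_mul, smul_eq_mul, smul_eq_mul]
  have h1 : (MvPolynomial.aeval x Q)⁻¹ ^ 2 ∈ R := by
    rw [← R.valuation_le_one_iff, map_pow, map_inv₀, hvQ, inv_one, one_pow]
  exact R.mul_mem _ _ h1 (R.toSubring.sub_mem
    (R.mul_mem _ _ ((R.valuation_le_one_iff _).mp hvQ.le) (hpol P))
    (R.mul_mem _ _ hmem (hpol Q)))

include hx hn in
/-- the coordinates of `D r`, `r ∈ R`, in the frame `Dt, Dx_i` are in `R` -/
theorem repr_mem (hxm : ∀ i, x i ∈ R) {t : K} (ht : IsUnif R t)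
    (b : Module.Basis (Fin (a + 1)) K (Ω[K⁄k]))
    (hb : ∀ i, b i = KaehlerDifferential.D k K ((Fin.cons t x : Fin (a + 1) → K) i))
    {r : K} (hr : r ∈ R) (i : Fin (a + 1)) : b.repr (KaehlerDifferential.D k K r) i ∈ R := by
  let D : Derivation k K K := (b.coord i).compDer (KaehlerDifferential.D k K)
  have hD : ∀ z, D z = b.repr (KaehlerDifferential.D k K z) i := fun z => rfl
  have hDj : ∀ j, D ((Fin.cons t x : Fin (a + 1) → K) j) ∈ R := by
    intro j
    rw [hD, ← hb, Module.Basis.repr_self, Finsupp.single_apply]
    split_ifs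
    · exact R.one_mem
    · exact R.zero_mem
  rw [← hD]
  refine deriv_mem R x hx hn hxm ht D ?_ ?_ hr
  · have := hDj 0; rwa [Fin.cons_zero] at this
  · intro j; have := hDj j.succ; rwa [Fin.cons_succ] at this

include hx hn in
/-- the Jacobian of `(t, x)` is a generator of the fractional ideal of all Jacobians of `R` -/
theorem jac_le (hxm : ∀ i, x i ∈ R) {t : K} (ht : IsUnif R t)
    (b' : Module.Basis (Fin (a + 1)) K (Ω[K⁄k])) {y : Fin (a + 1) → K} (hy : ∀ i, y i ∈ R) :
    R.valuation (jac k b' y) ≤ R.valuation (jac k b' (Fin.cons t x : Fin (a + 1) → K)) := by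
  obtain ⟨b, hb⟩ := FK1_779.exists_basis_of_transc (Fin.cons t x : Fin (a + 1) → K)
    (isTranscendenceBasis_cons R x hx hn ht.ne ht.lt)
  have h1 : jac k b (Fin.cons t x : Fin (a + 1) → K) = 1 := by
    unfold jac
    have : (fun i => KaehlerDifferential.D k K ((Fin.cons t x : Fin (a + 1) → K) i)) = ⇑b := by
      funext i; exact (hb i).symm
    rw [this, Module.Basis.det_self]
  have h2 : jac k b y ∈ R := by
    unfold jac
    rw [Module.Basis.det_apply, Matrix.det_apply]
    refine sum_mem fun σ _ => ?_
    rw [Units.smul_def, zsmul_eq_mul]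
    refine R.mul_mem _ _ (intCast_mem R _) (prod_mem fun i _ => ?_)
    rw [Module.Basis.toMatrix_apply]
    exact repr_mem R x hx hn hxm ht b hb (hy _) _
  rw [FK1_779.jac_change b' b y, FK1_779.jac_change b' b (Fin.cons t x : Fin (a + 1) → K), h1,
    mul_one, map_mul]
  calc _ ≤ R.valuation (b'.det b) * 1 := by
        gcongr
        exact (R.valuation_le_one_iff _).mpr h2
    _ = _ := mul_one _

end res

section div

variable [CharZero k] [Algebra.EssFiniteType k K] {n : ℕ} {R : ValuationSubring K}

/-- **STRUCTURE THEOREM** for divisorial valuation rings in the sense of `FKDefs_779.IsDiv`: there is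
a frame `w : Fin n → R` (a uniformizer and lifts of a transcendence basis of the residue field),
a transcendence basis of `K/k`, such that every Jacobian of elements of `R` is a multiple of the
Jacobian of `w`. -/
theorem IsDiv.exists_frame (hR : IsDiv k n R) (hn : Algebra.trdeg k K = n) :
    ∃ w : Fin n → K, (∀ i, w i ∈ R) ∧ IsTranscendenceBasis k w ∧
      (∀ b : Module.Basis (Fin n) K (Ω[K⁄k]), (∀ i, b i = KaehlerDifferential.D k K (w i)) →
        ∀ r ∈ R, ∀ i, b.repr (KaehlerDifferential.D k K r) i ∈ R) ∧
      ∀ (b : Module.Basis (Fin n) K (Ω[K⁄k])) (y : Fin n → K), (∀ i, y i ∈ R) →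
        R.valuation (jac k b y) ≤ R.valuation (jac k b w) := by
  cases n with
  | zero =>
    exfalso
    apply hR.ne_top
    rw [eq_top_iff]
    intro z _
    have h1 : Algebra.IsAlgebraic k K := by
      have : Algebra.trdeg k K = 0 := by simpa using hn
      exact trdeg_eq_zero_iff.mp this
    have h2 : IsIntegral k z := (h1.isAlgebraic z).isIntegral
    let φ : k →+* R := (algebraMap k K).codRestrict R.toSubring hR.alg
    obtain ⟨p, hp, hp0⟩ := h2
    have h3 : IsIntegral R z := ⟨p.map φ, hp.map φ, by rw [Polynomial.eval₂_map]; exact hp0⟩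
    obtain ⟨y, hy⟩ := IsIntegrallyClosed.isIntegral_iff.mp h3
    rw [← hy]
    exact y.2
  | succ a =>
    obtain ⟨x, hxm, hx⟩ := hR.res
    obtain ⟨t, ht, -⟩ := exists_unif_of_res R x hx hn hR.ne_top
    refine ⟨Fin.cons t x, ?_, isTranscendenceBasis_cons R x hx hn ht.ne ht.lt, ?_, ?_⟩
    · intro i
      refine Fin.cases ?_ (fun j => ?_) i
      · rw [Fin.cons_zero]; exact (R.valuation_le_one_iff _).mp ht.lt.le
      · rw [Fin.cons_succ]; exact hxm j
    · intro b hb r hr i
      exact repr_mem R x hx hn hxm ht b hb hr i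
    · intro b y hy
      exact jac_le R x hx hn hxm ht b hy

end div

end Crest.Agent.R276.FKFrame_779
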