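import Mathlib
import Crest.Agent.R276.FKDefs_779
import Crest.Agent.R276.FK3A_595
import Crest.Agent.R276.FKS_594

/-!
# Row 276, FK7-ST (helper594): transitivity and uniqueness of `BaseUp`, Steinitz
-/

set_option autoImplicit false
set_option linter.all false

noncomputable section

namespace Crest.Agent.R276.FKT_594

open Crest.Agent.R276.FKDefs_779 Crest.Agent.R276.FK3A_595 TensorProduct

section general

variable {k K k' K' : Type*} [Field k] [Field K] [Field k'] [Field K']
    [Algebra k K] [Algebra k k'] [Algebra K K'] [Algebra k' K'] [Algebra k K']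
    [IsScalarTower k K K'] [IsScalarTower k k' K']

theorem ld_gen (H : BaseUp k K k' K') {ι : Type*} (v : ι → K) (hv : LinearIndependent k v) :
    LinearIndependent k' (fun i => algebraMap K K' (v i)) := by
  classical
  rw [linearIndependent_iff_finset_linearIndependent]
  intro s
  have h1 : LinearIndependent k (v ∘ (Subtype.val : s → ι)) := hv.comp _ Subtype.val_injective
  let e : Fin (Fintype.card s) ≃ s := (Fintype.equivFin s).symm
  have h2 := H.ld _ ((v ∘ (Subtype.val : s → ι)) ∘ e) (h1.comp _ e.injective)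
  have h3 := h2.comp e.symm e.symm.injective
  convert h3 using 1
  ext i
  simp

theorem one_mem_span : (1 : K') ∈ Submodule.span k' (Set.range (algebraMap K K')) :=
  Submodule.subset_span ⟨1, map_one _⟩

theorem mul_mem_span {a b : K'} (ha : a ∈ Submodule.span k' (Set.range (algebraMap K K')))
    (hb : b ∈ Submodule.span k' (Set.range (algebraMap K K'))) :
    a * b ∈ Submodule.span k' (Set.range (algebraMap K K')) := by
  have h := Submodule.mul_mem_mul ha hb
  rw [Submodule.span_mul_span] at h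
  refine Submodule.span_mono ?_ h
  rintro _ ⟨_, ⟨x, rfl⟩, _, ⟨y, rfl⟩, rfl⟩
  exact ⟨x * y, map_mul _ _ _⟩

end general

section trans

variable {k K k₁ K₁ k₂ K₂ : Type*} [Field k] [Field K] [Field k₁] [Field K₁] [Field k₂] [Field K₂]
    [Algebra k K] [Algebra k k₁] [Algebra K K₁] [Algebra k₁ K₁] [Algebra k K₁]
    [IsScalarTower k K K₁] [IsScalarTower k k₁ K₁]
    [Algebra k₁ k₂] [Algebra K₁ K₂] [Algebra k₂ K₂] [Algebra k₁ K₂]
    [IsScalarTower k₁ K₁ K₂] [IsScalarTower k₁ k₂ K₂]
    [Algebra k k₂] [Algebra K K₂] [Algebra k K₂] [IsScalarTower k K K₂] [IsScalarTower k k₂ K₂]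
    [IsScalarTower k k₁ k₂] [IsScalarTower K K₁ K₂]

theorem span_image {a : K₁} (ha : a ∈ Submodule.span k₁ (Set.range (algebraMap K K₁))) :
    algebraMap K₁ K₂ a ∈ Submodule.span k₂ (Set.range (algebraMap K K₂)) := by
  induction ha using Submodule.span_induction with
  | mem x hx =>
    obtain ⟨y, rfl⟩ := hx
    rw [← IsScalarTower.algebraMap_apply]
    exact Submodule.subset_span ⟨y, rfl⟩
  | zero => simp
  | add x y _ _ hx hy => rw [map_add]; exact add_mem hx hy
  | smul c x _ hx =>
    rw [Algebra.smul_def, map_mul, ← IsScalarTower.algebraMap_apply k₁ K₁ K₂,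
      IsScalarTower.algebraMap_apply k₁ k₂ K₂, ← Algebra.smul_def]
    exact Submodule.smul_mem _ _ hx

/-- transitivity of free composita -/
theorem baseUp_trans (H₁ : BaseUp k K k₁ K₁) (H₂ : BaseUp k₁ K₁ k₂ K₂) : BaseUp k K k₂ K₂ := by
  refine ⟨fun r v hv => ?_, fun x => ?_⟩
  · have := H₂.ld r _ (H₁.ld r v hv)
    simpa only [← IsScalarTower.algebraMap_apply K K₁ K₂] using this
  · have key : ∀ a ∈ Submodule.span k₂ (Set.range (algebraMap K₁ K₂)),
        ∃ D ∈ Submodule.span k₁ (Set.range (algebraMap K K₁)), D ≠ 0 ∧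
          a * algebraMap K₁ K₂ D ∈ Submodule.span k₂ (Set.range (algebraMap K K₂)) := by
      intro a ha
      induction ha using Submodule.span_induction with
      | mem x hx =>
        obtain ⟨y, rfl⟩ := hx
        obtain ⟨a, ha, b, hb, hb0, hab⟩ := H₁.gen y
        refine ⟨b, hb, hb0, ?_⟩
        rw [← map_mul, hab]
        exact span_image ha
      | zero =>
        refine ⟨1, one_mem_span, one_ne_zero, ?_⟩
        rw [zero_mul]
        exact zero_mem _
      | add x y _ _ hx hy =>
        obtain ⟨D, hD, hD0, h1⟩ := hx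
        obtain ⟨E, hE, hE0, h2⟩ := hy
        refine ⟨D * E, mul_mem_span hD hE, mul_ne_zero hD0 hE0, ?_⟩
        have : (x + y) * algebraMap K₁ K₂ (D * E) =
            (x * algebraMap K₁ K₂ D) * algebraMap K₁ K₂ E +
            (y * algebraMap K₁ K₂ E) * algebraMap K₁ K₂ D := by
          rw [map_mul]; ring
        rw [this]
        exact add_mem (mul_mem_span h1 (span_image hE)) (mul_mem_span h2 (span_image hD))
      | smul c x _ hx =>
        obtain ⟨D, hD, hD0, h1⟩ := hx
        refine ⟨D, hD, hD0, ?_⟩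
        rw [smul_mul_assoc]
        exact Submodule.smul_mem _ _ h1
    obtain ⟨a, ha, b, hb, hb0, hab⟩ := H₂.gen x
    obtain ⟨D, hD, hD0, h1⟩ := key a ha
    obtain ⟨E, hE, hE0, h2⟩ := key b hb
    refine ⟨a * algebraMap K₁ K₂ D * algebraMap K₁ K₂ E, mul_mem_span h1 (span_image hE),
      b * algebraMap K₁ K₂ E * algebraMap K₁ K₂ D, mul_mem_span h2 (span_image hD), ?_, ?_⟩
    · refine mul_ne_zero (mul_ne_zero hb0 ?_) ?_
      · simpa using hE0
      · simpa using hD0
    · rw [← hab]; ring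

end trans

section unique

variable {k K k' K' : Type*} [Field k] [Field K] [Field k'] [Field K']
    [Algebra k K] [Algebra k k'] [Algebra K K'] [Algebra k' K'] [Algebra k K']
    [IsScalarTower k K K'] [IsScalarTower k k' K']

variable (k K k' K') in
/-- the product map `k' ⊗ K → K'` -/
def prodMap : k' ⊗[k] K →ₐ[k'] K' :=
  Algebra.TensorProduct.lift (Algebra.ofId k' K') (IsScalarTower.toAlgHom k K K')
    (fun _ _ => Commute.all _ _)

@[simp] theorem prodMap_tmul (c : k') (x : K) :
    prodMap k K k' K' (c ⊗ₜ x) = algebraMap k' K' c * algebraMap K K' x := by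
  simp [prodMap, Algebra.ofId_apply]

theorem prodMap_injective (H : BaseUp k K k' K') : Function.Injective (prodMap k K k' K') := by
  let b := Module.Basis.ofVectorSpace k K
  let b' := Algebra.TensorProduct.basis k' b
  have hli := ld_gen H b b.linearIndependent
  have h1 : ∀ i, prodMap k K k' K' (b' i) = algebraMap K K' (b i) := by
    intro i
    simp [b', Algebra.TensorProduct.basis_apply]
  rw [← AlgHom.coe_toLinearMap]
  rw [← LinearMap.ker_eq_bot, LinearMap.ker_eq_bot']
  intro x hx
  have h2 : Finsupp.linearCombination k' (fun i => algebraMap K K' (b i)) (b'.repr x) = 0 := by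
    rw [← hx]
    conv_rhs => rw [← b'.linearCombination_repr x]
    rw [Finsupp.linearCombination_apply, Finsupp.linearCombination_apply, Finsupp.sum,
      Finsupp.sum, map_sum]
    refine Finset.sum_congr rfl fun i _ => ?_
    rw [map_smul, AlgHom.toLinearMap_apply, h1]
  have h3 := (linearIndependent_iff.mp hli) _ h2
  exact b'.repr.map_eq_zero_iff.mp h3

theorem span_mem_range {a : K'} (ha : a ∈ Submodule.span k' (Set.range (algebraMap K K'))) :
    ∃ z, prodMap k K k' K' z = a := by
  induction ha using Submodule.span_induction with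
  | mem x hx =>
    obtain ⟨y, rfl⟩ := hx
    exact ⟨1 ⊗ₜ y, by simp⟩
  | zero => exact ⟨0, map_zero _⟩
  | add x y _ _ hx hy =>
    obtain ⟨z, rfl⟩ := hx
    obtain ⟨w, rfl⟩ := hy
    exact ⟨z + w, map_add _ _ _⟩
  | smul c x _ hx =>
    obtain ⟨z, rfl⟩ := hx
    exact ⟨c • z, map_smul _ _ _⟩

theorem isDomain (H : BaseUp k K k' K') : IsDomain (k' ⊗[k] K) :=
  (prodMap_injective H).isDomain (prodMap k K k' K').toRingHom

theorem isFractionRing (H : BaseUp k K k' K') :
    @IsFractionRing (k' ⊗[k] K) _ K' _ ((prodMap k K k' K').toRingHom.toAlgebra) := by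
  let _ : Algebra (k' ⊗[k] K) K' := (prodMap k K k' K').toRingHom.toAlgebra
  have hinj : Function.Injective (algebraMap (k' ⊗[k] K) K') := prodMap_injective H
  have _ := isDomain H
  have _ : FaithfulSMul (k' ⊗[k] K) K' := (faithfulSMul_iff_algebraMap_injective _ _).mpr hinj
  refine IsFractionRing.of_field _ _ fun x => ?_
  obtain ⟨a, ha, b, hb, hb0, hab⟩ := H.gen x
  obtain ⟨z, rfl⟩ := span_mem_range (k := k) ha
  obtain ⟨w, rfl⟩ := span_mem_range (k := k) hb
  refine ⟨z, w, ?_⟩
  change x = prodMap k K k' K' z / prodMap k K k' K' w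
  rw [← hab, mul_div_assoc, div_self hb0, mul_one]

end unique

section unique2

variable {k K k₁ K₁ k₂ K₂ : Type*} [Field k] [Field K] [Field k₁] [Field K₁] [Field k₂] [Field K₂]
    [Algebra k K] [Algebra k k₁] [Algebra K K₁] [Algebra k₁ K₁] [Algebra k K₁]
    [IsScalarTower k K K₁] [IsScalarTower k k₁ K₁]
    [Algebra k k₂] [Algebra K K₂] [Algebra k₂ K₂] [Algebra k K₂]
    [IsScalarTower k K K₂] [IsScalarTower k k₂ K₂]

/-- uniqueness of free composita -/
theorem baseUp_unique (H₁ : BaseUp k K k₁ K₁) (H₂ : BaseUp k K k₂ K₂) (s : k₁ ≃ₐ[k] k₂) :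
    ∃ t : K₁ ≃+* K₂, (∀ c, t (algebraMap k₁ K₁ c) = algebraMap k₂ K₂ (s c)) ∧
      ∀ x, t (algebraMap K K₁ x) = algebraMap K K₂ x := by
  let _ : Algebra (k₁ ⊗[k] K) K₁ := (prodMap k K k₁ K₁).toRingHom.toAlgebra
  let _ : Algebra (k₂ ⊗[k] K) K₂ := (prodMap k K k₂ K₂).toRingHom.toAlgebra
  have _ := isDomain H₁
  have _ := isDomain H₂
  have _ : IsFractionRing (k₁ ⊗[k] K) K₁ := isFractionRing H₁
  have _ : IsFractionRing (k₂ ⊗[k] K) K₂ := isFractionRing H₂
  let e : k₁ ⊗[k] K ≃ₐ[k] k₂ ⊗[k] K := Algebra.TensorProduct.congr s AlgEquiv.refl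
  let t : K₁ ≃+* K₂ := IsFractionRing.ringEquivOfRingEquiv (e : k₁ ⊗[k] K ≃+* k₂ ⊗[k] K)
  have ht : ∀ z, t (prodMap k K k₁ K₁ z) = prodMap k K k₂ K₂ (e z) := fun z =>
    IsFractionRing.ringEquivOfRingEquiv_algebraMap (e : k₁ ⊗[k] K ≃+* k₂ ⊗[k] K) z
  refine ⟨t, fun c => ?_, fun x => ?_⟩
  · have := ht (c ⊗ₜ 1)
    simpa [e] using this
  · have := ht (1 ⊗ₜ x)
    simpa [e] using this

end unique2

end Crest.Agent.R276.FKT_594
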