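import Crest.Agent.R276.Top3e_279
import Crest.Agent.R276.Psi_563

/-!
# Row 276, IPC-TOP3 (helper279), part 6: existence of trivialisations, the near-diagonal cocycle

* `locOf` : helper563's horizontal trivialisation as a `Loc`.
* `exists_locOf`, `exists_good` : good neighbourhoods exist.
* `tau_near` : the transports form a near-diagonal cocycle of isomorphisms.
-/

set_option autoImplicit false
set_option linter.unusedSectionVars false

noncomputable section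

open Set Filter Topology unitInterval

namespace Crest.Agent.R276.Top3_279

open Crest.Agent.R271.Ho51 Crest.Agent.R276.Ipc735 Crest.Agent.R276.Psi_563

variable {m : ℕ} {S : Type*} [TopologicalSpace S] [RDom m S] {k : ℕ} {Q : Punc S k}

lemma contOn_aux (Bm : Bumps k) {α : S → Fin k → ℂ} {B : Set S} (hα : ContinuousOn α B) :
    ContinuousOn (fun p : S × ℂ => ((α p.1 - Bm.a, p.2) : (Fin k → ℂ) × ℂ)) (B ×ˢ univ) := by
  have h1 : ContinuousOn (fun p : S × ℂ => α p.1 - Bm.a) (B ×ˢ univ) :=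
    (hα.comp (f := fun p : S × ℂ => p.1) continuousOn_fst (fun p hp => hp.1)).sub
      continuousOn_const
  exact h1.prodMk continuousOn_snd

lemma contOn_psi (Bm : Bumps k) {α : S → Fin k → ℂ} {B : Set S} (hα : ContinuousOn α B) :
    ContinuousOn (fun p : S × ℂ => Bm.psi (α p.1 - Bm.a) p.2) (B ×ˢ univ) := by
  have h2 : Continuous (fun z : (Fin k → ℂ) × ℂ => Bm.psi z.1 z.2) := Bm.contDiff_psi.continuous
  exact h2.comp_continuousOn (contOn_aux Bm hα)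

lemma contOn_inv (Bm : Bumps k) {α : S → Fin k → ℂ} {B : Set S} (hα : ContinuousOn α B)
    (hδ : ∀ s ∈ B, ‖α s - Bm.a‖ < Bm.δ) :
    ContinuousOn (fun p : S × ℂ => Bm.inv (α p.1 - Bm.a) p.2) (B ×ˢ univ) := by
  intro p hp
  have h1 : ContinuousAt (fun z : (Fin k → ℂ) × ℂ => Bm.inv z.1 z.2) (α p.1 - Bm.a, p.2) :=
    (Bm.contDiffAt_inv (z := (α p.1 - Bm.a, p.2)) (hδ _ hp.1)).continuousAt
  have h2 := contOn_aux Bm hα p hp
  exact ContinuousAt.comp_continuousWithinAt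
    (f := fun p : S × ℂ => ((α p.1 - Bm.a, p.2) : (Fin k → ℂ) × ℂ)) h1 h2

/-- the horizontal trivialisation `(s, x) ↦ (s, ψ_{α s - a} x)` -/
def locOf (Bm : Bumps k) (α : S → Fin k → ℂ) {s₀ : S} {B : Set S} (hα : ContinuousOn α B)
    (h0 : α s₀ = Bm.a) (hs₀ : s₀ ∈ B) (hδ : ∀ s ∈ B, ‖α s - Bm.a‖ < Bm.δ)
    (hA : ∀ s ∈ B, Q.A s = Finset.univ.image (α s)) : Loc Q s₀ B where
  Ψ := fun s x => Bm.psi (α s - Bm.a) x
  Φ := fun s x => Bm.inv (α s - Bm.a) x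
  hΨ := contOn_psi Bm hα
  hΦ := contOn_inv Bm hα hδ
  ΦΨ := fun s hs x => Bm.inv_psi (hδ s hs) x
  ΨΦ := fun s hs x => Bm.psi_inv (hδ s hs) x
  base := fun x => by
    rw [h0, sub_self, Bm.psi_zero]
  punc := fun s hs x => by
    have h := Bm.mem_fibre (U := B) (α := α) hδ hs (x := x)
    have h1 : Bm.psi (α s - Bm.a) x ∈ Q.A s ↔ ¬ ∀ i, Bm.psi (α s - Bm.a) x ≠ α s i := by
      rw [hA s hs]
      simp only [Finset.mem_image, Finset.mem_univ, true_and, not_forall, not_not]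
      exact exists_congr fun i => eq_comm
    have h2 : x ∈ Q.A s₀ ↔ ¬ ∀ i, x ≠ Bm.a i := by
      rw [hA s₀ hs₀, h0]
      simp only [Finset.mem_image, Finset.mem_univ, true_and, not_forall, not_not]
      exact exists_congr fun i => eq_comm
    rw [h1, h2, not_iff_not]
    exact h

@[simp] lemma locOf_Ψ (Bm : Bumps k) (α : S → Fin k → ℂ) {s₀ : S} {B : Set S}
    (hα : ContinuousOn α B) (h0 : α s₀ = Bm.a) (hs₀ : s₀ ∈ B) (hδ : ∀ s ∈ B, ‖α s - Bm.a‖ < Bm.δ)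
    (hA : ∀ s ∈ B, Q.A s = Finset.univ.image (α s)) (s : S) (x : ℂ) :
    (locOf (Q := Q) Bm α hα h0 hs₀ hδ hA).Ψ s x = Bm.psi (α s - Bm.a) x := rfl

@[simp] lemma locOf_Φ (Bm : Bumps k) (α : S → Fin k → ℂ) {s₀ : S} {B : Set S}
    (hα : ContinuousOn α B) (h0 : α s₀ = Bm.a) (hs₀ : s₀ ∈ B) (hδ : ∀ s ∈ B, ‖α s - Bm.a‖ < Bm.δ)
    (hA : ∀ s ∈ B, Q.A s = Finset.univ.image (α s)) (s : S) (x : ℂ) :
    (locOf (Q := Q) Bm α hα h0 hs₀ hδ hA).Φ s x = Bm.inv (α s - Bm.a) x := rfl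

lemma HolAt.eventually_continuousAt {G : Type*} [NormedAddCommGroup G] [NormedSpace ℂ G]
    [CompleteSpace G] {f : S → G} {z : S} (h : HolAt f z) : ∀ᶠ s in 𝓝 z, ContinuousAt f s := by
  have h1 : ∀ᶠ w in 𝓝 (cp z : Fin m → ℂ), AnalyticAt ℂ (f ∘ (ch z).symm) w :=
    AnalyticAt.eventually_analyticAt h
  have h2 : ∀ᶠ s in 𝓝 z, AnalyticAt ℂ (f ∘ (ch z).symm) (cp s) :=
    cp_cont.continuousAt.eventually h1
  filter_upwards [h2, (ch z).open_source.mem_nhds (mem_ch z)] with s hs hsrc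
  have h3 : ContinuousAt (fun y => (f ∘ (ch z).symm) (cp y)) s :=
    ContinuousAt.comp (g := f ∘ (ch z).symm) hs.continuousAt cp_cont.continuousAt
  exact h3.congr (eventually_eq_comp (isCh_ch z) hsrc f).symm

/-- local data of a family of punctures near a point -/
theorem exists_local (Q : Punc S k) (s₀ : S) : ∃ (Bm : Bumps k) (α : S → Fin k → ℂ) (N : Set S),
    N ∈ 𝓝 s₀ ∧ IsOpen N ∧ (∀ i, HolAt (fun s => α s i) s₀) ∧ ContinuousOn α N ∧ α s₀ = Bm.a ∧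
    (∀ s ∈ N, ‖α s - Bm.a‖ < Bm.δ) ∧ (∀ s ∈ N, Function.Injective (α s)) ∧
    ∀ s ∈ N, Q.A s = Finset.univ.image (α s) := by
  obtain ⟨a, ha, hloc⟩ := Q.loc s₀
  obtain ⟨Bm, hBm, -⟩ := exists_bumps (fun i => a i s₀) hloc.self_of_nhds.1 one_pos
  have h1 : ∀ᶠ s in 𝓝 s₀, ContinuousAt (fun s => (fun i => a i s : Fin k → ℂ)) s := by
    have : ∀ᶠ s in 𝓝 s₀, ∀ i, ContinuousAt (a i) s :=
      eventually_all.2 fun i => HolAt.eventually_continuousAt (ha i)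
    filter_upwards [this] with s hs
    exact continuousAt_pi.2 hs
  have h2 : ∀ᶠ s in 𝓝 s₀, ‖(fun i => a i s : Fin k → ℂ) - Bm.a‖ < Bm.δ := by
    have hc : ContinuousAt (fun s => ‖(fun i => a i s : Fin k → ℂ) - Bm.a‖) s₀ :=
      (h1.self_of_nhds.sub continuousAt_const).norm
    refine hc.eventually_lt continuousAt_const ?_
    rw [hBm, sub_self, norm_zero]
    exact Bm.δ_pos
  obtain ⟨N, hN1, hN2, hN3⟩ := mem_nhds_iff.1 (inter_mem h1 (inter_mem h2 hloc))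
  refine ⟨Bm, fun s i => a i s, N, hN2.mem_nhds hN3, hN2, ha,
    fun s hs => ContinuousAt.continuousWithinAt (f := fun s i => a i s) (hN1 hs).1, hBm.symm, fun s hs => (hN1 hs).2.1,
    fun s hs => (hN1 hs).2.2.1, fun s hs => (hN1 hs).2.2.2⟩

theorem exists_loc (Q : Punc S k) (s₀ : S) : ∃ N ∈ 𝓝 s₀, Nonempty (Loc Q s₀ N) := by
  obtain ⟨Bm, α, N, hN, -, -, h1, h2, h3, -, h4⟩ := exists_local Q s₀
  exact ⟨N, hN, ⟨locOf Bm α h1 h2 (mem_of_mem_nhds hN) h3 h4⟩⟩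

/-- good neighbourhoods exist, arbitrarily small -/
theorem exists_good (Q : Punc S k) (s₀ : S) {N : Set S} (hN : N ∈ 𝓝 s₀) :
    ∃ B, Good Q B ∧ s₀ ∈ B ∧ B ⊆ N := by
  obtain ⟨N', hN', ⟨L⟩⟩ := exists_loc Q s₀
  obtain ⟨B, hB, hs, hBN⟩ := exists_sheet s₀ (inter_mem hN hN')
  exact ⟨B, Good.of_loc hB (L.mono (hBN.trans inter_subset_right)), hs,
    hBN.trans inter_subset_left⟩

theorem exists_good_nhds (Q : Punc S k) (s₀ : S) : ∃ B ∈ 𝓝 s₀, Good Q B := by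
  obtain ⟨B, hB, hs, -⟩ := exists_good Q s₀ univ_mem
  exact ⟨B, hB.sheet.isOpen.mem_nhds hs, hB⟩

section tau

variable {G : Type*} [Group G] {R : Type*} [CommRing R] {M : Type*} [AddCommGroup M] [Module R M]
variable (ρ : G →* Module.End R M) {P : Tot Q → Tot Q → G} [T2Space S]

theorem tau_id (hP : NDC P) (s : S) (v : HF ρ P s) : tau ρ hP s s v = v := by
  obtain ⟨B, hB, hG⟩ := exists_good_nhds Q s
  exact tau_self ρ hP hG (mem_of_mem_nhds hB) v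

/-- **near-diagonal cocycle** -/
theorem tau_near (hP : NDC P) (z : S) : ∃ U ∈ 𝓝 z, ∀ s ∈ U, ∀ s' ∈ U, ∀ s'' ∈ U,
    ∀ v, tau ρ hP s s' (tau ρ hP s' s'' v) = tau ρ hP s s'' v := by
  obtain ⟨B, hB, hG⟩ := exists_good_nhds Q z
  exact ⟨B, hB, fun s hs s' hs' s'' hs'' v => tau_mul ρ hP hG hs hs' hs'' v⟩

end tau

end Crest.Agent.R276.Top3_279
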