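import Mathlib
import Crest.Agent.R276.K4_817

/-!
# R276 / IPC K4, the L² half, part 2: pointwise family of type decompositions ⇒ `Family` of `HsC_817`
-/

set_option autoImplicit false
set_option linter.unusedSectionVars false

open Set Filter Topology MeasureTheory UniformSpace
open scoped ContDiff ComplexConjugate

namespace Crest.Agent.R276.K4b_817

open Crest.Agent.R276.IpcG1_975 Crest.Agent.R276.HsA_817 Crest.Agent.R276.HsB_817
  Crest.Agent.R276.HsC_817 Crest.Agent.R276.K4_817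

variable {V : Type*} [NormedAddCommGroup V] [NormedSpace ℂ V] {X : Set ℂ} {M : MB V X}

/-- projection field on the types `≥ P` -/
noncomputable def qf (n : ℕ) (p : ℕ → ℂ → (V →L[ℂ] V)) (P : ℕ) (x : ℂ) : V →L[ℂ] V :=
  ∑ Q ∈ Finset.Ico P (n + 1), p Q x

/-- Weil operator field -/
noncomputable def jf (n : ℕ) (p : ℕ → ℂ → (V →L[ℂ] V)) (x : ℂ) : V →L[ℂ] V :=
  ∑ P ∈ Finset.range (n + 1), ((-1 : ℂ) ^ P) • p P x

/-- pointwise type decomposition: `p P` = projection on the total types `P ≤ n`, `b` = operator of the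
form `G x (b x u) v` -/
structure PtTypes (M : MB V X) (n : ℕ) (p : ℕ → ℂ → (V →L[ℂ] V)) (b : ℂ → (V →L[ℂ] V))
    (c : ℝ) : Prop where
  cpos : 0 < c
  okp : ∀ P ≤ n, M.Ok (p P)
  okb : M.Ok b
  sum : ∀ x ∈ X, ∀ v, ∑ P ∈ Finset.range (n + 1), p P x v = v
  idem : ∀ x ∈ X, ∀ P ≤ n, ∀ v, p P x (p P x v) = p P x v
  mul0 : ∀ x ∈ X, ∀ P ≤ n, ∀ Q ≤ n, P ≠ Q → ∀ v, p P x (p Q x v) = 0
  orth : ∀ x ∈ X, ∀ P ≤ n, ∀ Q ≤ n, P ≠ Q → ∀ u v, M.G x (b x (p P x u)) (p Q x v) = 0
  coer : ∀ x ∈ X, ∀ u, c * (M.G x u u).re ≤ (M.G x (b x (jf n p x u)) u).re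

section fixed

variable {n : ℕ} {p : ℕ → ℂ → (V →L[ℂ] V)} {b : ℂ → (V →L[ℂ] V)} {c : ℝ}

lemma ok_one (h : ∀ x ∈ X, ∀ v, ∑ P ∈ Finset.range (n + 1), p P x v = v)
    (hp : ∀ P ≤ n, M.Ok (p P)) : M.Ok (fun _ => (1 : V →L[ℂ] V)) := by
  have h1 : M.Ok (fun x => ∑ P ∈ Finset.range (n + 1), p P x) :=
    ok_sum _ fun P hP => hp P (by simpa [Nat.lt_succ_iff] using hP)
  have e : ∀ x ∈ X, (∑ P ∈ Finset.range (n + 1), p P x) = 1 := by
    intro x hx
    refine ContinuousLinearMap.ext fun v => ?_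
    rw [sum_apply]
    exact h x hx v
  obtain ⟨h2, C, h3⟩ := h1
  refine ⟨?_, 1, zero_le_one, fun x hx u => ?_⟩
  · intro z hz
    refine (h2 z hz).congr_of_eventuallyEq ?_
    filter_upwards [M.op.mem_nhds hz] with y hy
    unfold FB.trO
    simp only [e y hy]
  · simp

lemma PtTypes.ok_one (T : PtTypes M n p b c) : M.Ok (fun _ => (1 : V →L[ℂ] V)) :=
  K4b_817.ok_one T.sum T.okp

lemma op_one (h : M.Ok (fun _ => (1 : V →L[ℂ] V))) (u : M.L2) :
    M.opL (fun _ => (1 : V →L[ℂ] V)) u = u := by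
  refine M.dense_ext (M.opL _).continuous continuous_id (fun φ => ?_) u
  rw [M.op_coe h]
  rfl

lemma PtTypes.ok_q (T : PtTypes M n p b c) (P : ℕ) : M.Ok (qf n p P) := by
  unfold qf
  refine ok_sum (A := fun Q x => p Q x) _ fun Q hQ => ?_
  have := (Finset.mem_Ico.mp hQ).2
  exact T.okp Q (by omega)

lemma PtTypes.ok_J (T : PtTypes M n p b c) : M.Ok (jf n p) := by
  unfold jf
  refine ok_sum (A := fun P x => ((-1 : ℂ) ^ P) • p P x) _ fun P hP => ?_
  exact ok_smul (T.okp P (by simpa [Nat.lt_succ_iff] using hP)) _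

lemma PtTypes.qop_eq (T : PtTypes M n p b c) (P : ℕ) (u : M.L2) :
    qop n (fun Q => M.opL (p Q)) P u = M.opL (qf n p P) u := by
  rw [qop_apply]
  unfold qf
  rw [op_sum (A := fun Q x => p Q x) _ fun Q hQ => ?_]
  have := (Finset.mem_Ico.mp hQ).2
  exact T.okp Q (by omega)

lemma PtTypes.Jop_eq (T : PtTypes M n p b c) (u : M.L2) :
    Jop n (fun Q => M.opL (p Q)) u = M.opL (jf n p) u := by
  rw [Jop_apply]
  unfold jf
  have h1 : ∀ P ∈ Finset.range (n + 1), M.Ok (p P) := fun P hP =>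
    T.okp P (by simpa [Nat.lt_succ_iff] using hP)
  rw [op_sum (A := fun P x => ((-1 : ℂ) ^ P) • p P x) _ fun P hP => ok_smul (h1 P hP) _]
  refine Finset.sum_congr rfl fun P hP => ?_
  rw [M.op_smul (h1 P hP) _ (ok_smul (h1 P hP) _)]

/-- coercivity in the L² norm -/
lemma op_coer {A : ℂ → (V →L[ℂ] V)} (hA : M.Ok A) {c : ℝ}
    (h : ∀ x ∈ X, ∀ u, c * (M.G x u u).re ≤ (M.G x (A x u) u).re) (u : M.L2) :
    c * ‖u‖ ^ 2 ≤ (inner ℂ (M.opL A u) u).re := by
  refine Completion.induction_on u (isClosed_le (by fun_prop) ?_) fun φ => ?_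
  · exact Complex.continuous_re.comp (by fun_prop)
  rw [M.op_coe hA, Completion.norm_coe, Completion.inner_coe, M.norm_sq_H0, MB.inner_H0,
    ← integral_const_mul]
  have hi := (M.cs (FB.app_mem_A0 hA.1 φ.mem) φ.mem).integrable
  have h2 : (∫ x, M.G x (A x (φ.f x)) (φ.f x)).re = ∫ x, (M.G x (A x (φ.f x)) (φ.f x)).re :=
    (integral_re hi).symm
  show _ ≤ (∫ x, M.G x (A x (φ.f x)) (φ.f x)).re
  rw [h2]
  refine integral_mono ((M.cs φ.mem φ.mem).integrable.re.const_mul _) hi.re fun x => ?_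
  by_cases hx : x ∈ X
  · exact h x hx _
  · obtain ⟨K', hK', -, h0⟩ := φ.mem.2
    have : φ.f x = 0 := h0 x (fun h => hx (hK' h))
    simp [this]

lemma inner_op_op {A B : ℂ → (V →L[ℂ] V)} (hA : M.Ok A) (hB : M.Ok B)
    (h : ∀ x ∈ X, ∀ u v, M.G x (A x u) (B x v) = 0) (u v : M.L2) :
    inner ℂ (M.opL A u) (M.opL B v) = 0 := by
  have h1 := M.op_inner_eq hA hB (ok_zero (M := M)) (ok_zero (M := M))
    (fun x hx u v => by rw [h x hx u v]; simp) u v
  rw [h1, op_zero, inner_zero_left]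

variable {W : Type*} [NormedAddCommGroup W] [NormedSpace ℂ W]

/-- `Types` of `HsB_817` from the pointwise data. -/
theorem PtTypes.types (T : PtTypes M n p b c) (D : Fix M.L2 W) (hβ : D.β = M.opL b)
    (hstab : ∀ u ∈ D.Zc, Jop n (fun Q => M.opL (p Q)) u ∈ D.Zc → ∀ P ≤ n, M.opL (p P) u ∈ D.Zc) :
    Types D n (fun P => M.opL (p P)) c where
  cpos := T.cpos
  sum u := by
    rw [← op_sum (A := fun P x => p P x) _ fun P hP => T.okp P (by simpa [Nat.lt_succ_iff] using hP)]
    have h1 : M.Ok (fun x => ∑ P ∈ Finset.range (n + 1), p P x) :=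
      ok_sum _ fun P hP => T.okp P (by simpa [Nat.lt_succ_iff] using hP)
    have h2 : M.opL (fun x => ∑ P ∈ Finset.range (n + 1), p P x) =
        M.opL (fun _ => (1 : V →L[ℂ] V)) := by
      refine M.op_congr h1 T.ok_one fun x hx => ?_
      refine ContinuousLinearMap.ext fun v => ?_
      rw [sum_apply]
      exact T.sum x hx v
    rw [h2, op_one T.ok_one]
  idem P hP u := by
    rw [op_mul' (T.okp P hP) (T.okp P hP)]
    have h2 : M.opL (fun x => p P x * p P x) = M.opL (p P) :=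
      M.op_congr (ok_mul (T.okp P hP) (T.okp P hP)) (T.okp P hP) fun x hx =>
        ContinuousLinearMap.ext fun v => T.idem x hx P hP v
    rw [h2]
  mul0 P hP Q hQ hne u := by
    rw [op_mul' (T.okp P hP) (T.okp Q hQ)]
    have h2 : M.opL (fun x => p P x * p Q x) = M.opL (fun _ => (0 : V →L[ℂ] V)) :=
      M.op_congr (ok_mul (T.okp P hP) (T.okp Q hQ)) ok_zero fun x hx =>
        ContinuousLinearMap.ext fun v => T.mul0 x hx P hP Q hQ hne v
    rw [h2, op_zero]
  orth P hP Q hQ hne u v := by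
    rw [hβ, op_mul' T.okb (T.okp P hP)]
    exact inner_op_op (ok_mul T.okb (T.okp P hP)) (T.okp Q hQ)
      (fun x hx u v => T.orth x hx P hP Q hQ hne u v) u v
  coer u := by
    rw [hβ, T.Jop_eq, op_mul' T.okb T.ok_J]
    exact op_coer (ok_mul T.okb T.ok_J) T.coer u
  stab := hstab

end fixed

section family

variable {E : Type*} [NormedAddCommGroup E] [NormedSpace ℂ E] [FiniteDimensional ℂ E]

/-- finite sums of differentiable families -/
lemma dfam_sum {ι : Type*} (s : Finset ι) {T : ι → E → ℂ → (V →L[ℂ] V)} {z0 : E}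
    (h : ∀ i ∈ s, DFam M (T i) z0) : DFam M (fun z x => ∑ i ∈ s, T i z x) z0 := by
  classical
  have hdiff : ∀ x ∈ X, ∀ i ∈ s, DifferentiableAt ℝ (fun z => T i z x) z0 :=
    fun x hx i hi => (h i hi).diff x hx
  refine ⟨?_, ?_, ?_, ?_, ?_⟩
  · have h1 : ∀ᶠ z in 𝓝 z0, ∀ i ∈ s, M.SmO (T i z) :=
      (Finset.eventually_all s).mpr fun i hi => (h i hi).sm
    filter_upwards [h1] with z hz
    clear h1
    have : ∀ t : Finset ι, t ⊆ s → M.SmO (fun x => ∑ i ∈ t, T i z x) := by
      intro t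
      induction t using Finset.induction_on with
      | empty => intro _; simpa using SmO_zero (M := M)
      | insert a t ha ih =>
        intro hts
        simp only [Finset.sum_insert ha]
        exact SmO_add (hz a (hts (Finset.mem_insert_self _ _)))
          (ih fun i hi => hts (Finset.mem_insert_of_mem hi))
    exact this s (Finset.Subset.refl s)
  · have : ∀ t : Finset ι, t ⊆ s → ∃ C, M.Bd (fun x => ∑ i ∈ t, T i z0 x) C := by
      intro t
      induction t using Finset.induction_on with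
      | empty => intro _; exact ⟨0, le_rfl, fun x hx u => by simp⟩
      | insert a t ha ih =>
        intro hts
        obtain ⟨C, hC⟩ := ih fun i hi => hts (Finset.mem_insert_of_mem hi)
        obtain ⟨C', hC'⟩ := (h a (hts (Finset.mem_insert_self _ _))).bd
        simp only [Finset.sum_insert ha]
        exact ⟨_, bd_add hC' hC⟩
    exact this s (Finset.Subset.refl s)
  · have : ∀ t : Finset ι, t ⊆ s → ∃ C : ℝ, ∀ᶠ z in 𝓝 z0,
        M.Bd (fun x => ∑ i ∈ t, T i z x - ∑ i ∈ t, T i z0 x) (C * ‖z - z0‖) := by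
      intro t
      induction t using Finset.induction_on with
      | empty =>
        intro _
        refine ⟨0, Eventually.of_forall fun z => ⟨by simp, fun x hx u => by simp⟩⟩
      | insert a t ha ih =>
        intro hts
        obtain ⟨C, hC⟩ := ih fun i hi => hts (Finset.mem_insert_of_mem hi)
        obtain ⟨C', hC'⟩ := (h a (hts (Finset.mem_insert_self _ _))).lip
        refine ⟨2 * (C' + C), ?_⟩
        filter_upwards [hC, hC'] with z h1 h2
        have h3 := bd_add h2 h1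
        have h4 : (fun x => (T a z x - T a z0 x) + (∑ i ∈ t, T i z x - ∑ i ∈ t, T i z0 x)) =
            fun x => ∑ i ∈ insert a t, T i z x - ∑ i ∈ insert a t, T i z0 x := by
          funext x
          rw [Finset.sum_insert ha, Finset.sum_insert ha]
          abel
        rw [h4] at h3
        have h5 : 2 * (C' * ‖z - z0‖ + C * ‖z - z0‖) = 2 * (C' + C) * ‖z - z0‖ := by ring
        rw [h5] at h3
        exact h3
    exact this s (Finset.Subset.refl s)
  · intro x hx
    exact DifferentiableAt.fun_sum fun i hi => hdiff x hx i hi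
  · intro t
    have hz : ∀ x ∈ X, fderiv ℝ (fun z => ∑ i ∈ s, T i z x) z0 t =
        ∑ i ∈ s, fderiv ℝ (fun z => T i z x) z0 t := by
      intro x hx
      rw [fderiv_fun_sum fun i hi => hdiff x hx i hi, sum_apply]
    have h1 : ∀ u : Finset ι, u ⊆ s → M.SmO (fun x => ∑ i ∈ u, fderiv ℝ (fun z => T i z x) z0 t) := by
      intro u
      induction u using Finset.induction_on with
      | empty => intro _; simpa using SmO_zero (M := M)
      | insert a u ha ih =>
        intro hts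
        simp only [Finset.sum_insert ha]
        exact SmO_add ((h a (hts (Finset.mem_insert_self _ _))).smD t)
          (ih fun i hi => hts (Finset.mem_insert_of_mem hi))
    intro z hz'
    refine (h1 s (Finset.Subset.refl s) z hz').congr_of_eventuallyEq ?_
    filter_upwards [M.op.mem_nhds hz'] with y hy
    unfold FB.trO
    simp only [hz y hy]

/-- Pointwise data of a family of type decompositions over `U`. -/
structure PtFam (M : MB V X) (n : ℕ) (p : E → ℕ → ℂ → (V →L[ℂ] V)) (b : ℂ → (V →L[ℂ] V))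
    (U : Set E) : Prop where
  isOpen : IsOpen U
  dfam : ∀ z0 ∈ U, ∀ P ≤ n, DFam M (fun z => p z P) z0
  types : ∀ z0 ∈ U, ∃ c, ∀ᶠ z in 𝓝 z0, PtTypes M n (p z) b c
  hol : ∀ z0 ∈ U, ∀ x ∈ X, ∀ P, ∀ v, qf n (p z0) P x v = v → ∀ t : E,
    fderiv ℝ (fun z => qf n (p z) P x) z0 (Complex.I • t) v =
      Complex.I • fderiv ℝ (fun z => qf n (p z) P x) z0 t v
  trans : ∀ z0 ∈ U, ∀ x ∈ X, ∀ P, ∀ v, qf n (p z0) (P + 1) x v = v → ∀ t : E,
    qf n (p z0) P x (fderiv ℝ (fun z => qf n (p z) (P + 1) x) z0 t v) =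
      fderiv ℝ (fun z => qf n (p z) (P + 1) x) z0 t v

variable {n : ℕ} {p : E → ℕ → ℂ → (V →L[ℂ] V)} {b : ℂ → (V →L[ℂ] V)} {U : Set E}
variable {W : Type*} [NormedAddCommGroup W] [NormedSpace ℂ W]

lemma PtFam.dfam_q (Φ : PtFam M n p b U) {z0 : E} (hz : z0 ∈ U) (P : ℕ) :
    DFam M (fun z => qf n (p z) P) z0 := by
  unfold qf
  refine dfam_sum (T := fun Q z x => p z Q x) _ fun Q hQ => ?_
  have := (Finset.mem_Ico.mp hQ).2
  exact Φ.dfam z0 hz Q (by omega)

lemma qf_idem {n : ℕ} {p : ℕ → ℂ → (V →L[ℂ] V)} {b : ℂ → (V →L[ℂ] V)} {c : ℝ}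
    (T : PtTypes M n p b c) {x : ℂ} (hx : x ∈ X) (P : ℕ) (v : V) :
    qf n p P x (qf n p P x v) = qf n p P x v := by
  unfold qf
  simp only [sum_apply]
  refine Finset.sum_congr rfl fun Q hQ => ?_
  have hQn : Q ≤ n := by
    have := (Finset.mem_Ico.mp hQ).2
    omega
  rw [map_sum, Finset.sum_eq_single Q]
  · exact T.idem x hx Q hQn v
  · intro R hR hne
    refine T.mul0 x hx Q hQn R ?_ (Ne.symm hne) v
    have := (Finset.mem_Ico.mp hR).2
    omega
  · intro h
    exact absurd hQ h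

/-- **The L² half of K4.** -/
theorem PtFam.family (Φ : PtFam M n p b U) (D : Fix M.L2 W) (hβ : D.β = M.opL b)
    (hstab : ∀ z ∈ U, ∀ u ∈ D.Zc, Jop n (fun Q => M.opL (p z Q)) u ∈ D.Zc →
      ∀ P ≤ n, M.opL (p z P) u ∈ D.Zc) :
    Family D n (fun z P => M.opL (p z P)) U where
  isOpen := Φ.isOpen
  types := by
    intro z0 hz0
    obtain ⟨c, hc⟩ := Φ.types z0 hz0
    refine ⟨c, ?_⟩
    filter_upwards [hc, Φ.isOpen.mem_nhds hz0] with z T hz
    exact T.types D hβ (hstab z hz)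
  bdd := by
    intro z0 hz0 P hP
    obtain ⟨C, hC⟩ := dfam_bd (Φ.dfam z0 hz0 P hP)
    refine ⟨C, ?_⟩
    filter_upwards [hC, (Φ.dfam z0 hz0 P hP).sm] with z h1 h2
    exact opNorm_le h2 h1
  diff := by
    intro z0 hz0 P hP u
    exact (hasFDerivAt_opL (Φ.dfam z0 hz0 P hP) u).differentiableAt
  hol := by
    intro z0 hz0 P u hu t
    obtain ⟨c, hc⟩ := Φ.types z0 hz0
    have T := hc.self_of_nhds
    have hd := Φ.dfam_q hz0 P
    have h1 : (fun z => qop n (fun Q => M.opL (p z Q)) P u) =ᶠ[𝓝 z0]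
        fun z => M.opL (qf n (p z) P) u := by
      filter_upwards [hc] with z Tz
      exact Tz.qop_eq P u
    have h2 := (hasFDerivAt_opL hd u).congr_of_eventuallyEq h1
    rw [h2.fderiv, DL_apply, DL_apply]
    have hu' : M.opL (qf n (p z0) P) u = u := by
      rw [← T.qop_eq]
      exact hu
    conv_lhs => rw [← hu']
    conv_rhs => rw [← hu']
    have o1 := ok_dT hd (Complex.I • t)
    have o2 := ok_dT hd t
    have o3 := T.ok_q P
    rw [op_mul' o1 o3, op_mul' o2 o3, ← M.op_smul (ok_mul o2 o3) _ (ok_smul (ok_mul o2 o3) _)]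
    refine congrArg (fun A : M.L2 →L[ℂ] M.L2 => A u) ?_
    refine M.op_congr (ok_mul o1 o3) (ok_smul (ok_mul o2 o3) _) fun x hx => ?_
    refine ContinuousLinearMap.ext fun v => ?_
    exact Φ.hol z0 hz0 x hx P _ (qf_idem T hx P v) t
  trans := by
    intro z0 hz0 P u hu t
    obtain ⟨c, hc⟩ := Φ.types z0 hz0
    have T := hc.self_of_nhds
    have hd := Φ.dfam_q hz0 (P + 1)
    have h1 : (fun z => qop n (fun Q => M.opL (p z Q)) (P + 1) u) =ᶠ[𝓝 z0]
        fun z => M.opL (qf n (p z) (P + 1)) u := by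
      filter_upwards [hc] with z Tz
      exact Tz.qop_eq (P + 1) u
    have h2 := (hasFDerivAt_opL hd u).congr_of_eventuallyEq h1
    rw [h2.fderiv, DL_apply]
    have hu' : M.opL (qf n (p z0) (P + 1)) u = u := by
      rw [← T.qop_eq]
      exact hu
    rw [T.qop_eq]
    conv_lhs => rw [← hu']
    conv_rhs => rw [← hu']
    have o2 := ok_dT hd t
    have o3 := T.ok_q (P + 1)
    have o4 := T.ok_q P
    rw [op_mul' o2 o3, op_mul' o4 (ok_mul o2 o3)]
    refine congrArg (fun A : M.L2 →L[ℂ] M.L2 => A u) ?_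
    refine M.op_congr (ok_mul o4 (ok_mul o2 o3)) (ok_mul o2 o3) fun x hx => ?_
    refine ContinuousLinearMap.ext fun v => ?_
    exact Φ.trans z0 hz0 x hx P _ (qf_idem T hx (P + 1) v) t

lemma gn_herm {x : ℂ} (hx : x ∈ X) (u v : V) : (M.G x u v).re = (M.G x v u).re := by
  rw [← M.herm x hx u v, Complex.conj_re]

lemma gn_sub {x : ℂ} (hx : x ∈ X) (u v : V) :
    gn M x (u - v) = gn M x u - 2 * (M.G x u v).re + gn M x v := by
  unfold gn
  simp only [map_sub, sub_apply, Complex.sub_re]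
  rw [gn_herm hx v u]
  ring

/-- `DFam` from a bound of the derivative on a ball (mean value inequality in the fibre norm). -/
theorem dfam_of_deriv_bound {T : E → ℂ → (V →L[ℂ] V)} {z0 : E} {r : ℝ} (hr : 0 < r)
    (sm : ∀ z ∈ Metric.ball z0 r, M.SmO (T z)) (bd : ∃ C, M.Bd (T z0) C)
    (diff : ∀ x ∈ X, ∀ z ∈ Metric.ball z0 r, DifferentiableAt ℝ (fun z => T z x) z)
    (smD : ∀ t, M.SmO (fun x => fderiv ℝ (fun z => T z x) z0 t)) {C : ℝ} (hC0 : 0 ≤ C)
    (hC : ∀ x ∈ X, ∀ z ∈ Metric.ball z0 r, ∀ t : E, ∀ u,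
      gn M x (fderiv ℝ (fun z => T z x) z t u) ≤ (C * ‖t‖) ^ 2 * gn M x u) :
    DFam M T z0 where
  sm := by
    filter_upwards [Metric.ball_mem_nhds z0 hr] with z hz
    exact sm z hz
  bd := bd
  diff x hx := diff x hx z0 (Metric.mem_ball_self hr)
  smD := smD
  lip := by
    refine ⟨C, ?_⟩
    filter_upwards [Metric.ball_mem_nhds z0 hr] with z hz
    refine ⟨by positivity, fun x hx u => ?_⟩
    set γ : ℝ → V := fun τ => T (z0 + τ • (z - z0)) x u with hγ
    set w : V := γ 1 - γ 0 with hw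
    have hmem : ∀ τ ∈ Icc (0 : ℝ) 1, z0 + τ • (z - z0) ∈ Metric.ball z0 r := by
      intro τ hτ
      rw [Metric.mem_ball, dist_eq_norm] at hz ⊢
      rw [add_sub_cancel_left, norm_smul, Real.norm_of_nonneg hτ.1]
      calc τ * ‖z - z0‖ ≤ 1 * ‖z - z0‖ := mul_le_mul_of_nonneg_right hτ.2 (norm_nonneg _)
        _ < r := by rw [one_mul]; exact hz
    have hder : ∀ τ ∈ Icc (0 : ℝ) 1, HasDerivAt γ
        (fderiv ℝ (fun z => T z x) (z0 + τ • (z - z0)) (z - z0) u) τ := by
      intro τ hτ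
      have h1 := (diff x hx _ (hmem τ hτ)).hasFDerivAt
      have h2 : HasDerivAt (fun τ : ℝ => z0 + τ • (z - z0)) (z - z0) τ := by
        have := ((hasDerivAt_id τ).smul_const (z - z0)).const_add z0
        simpa using this
      have h3 := h1.comp_hasDerivAt τ h2
      have h4 := (((ContinuousLinearMap.apply ℂ V u).restrictScalars ℝ).hasFDerivAt
        (x := T (z0 + τ • (z - z0)) x)).comp_hasDerivAt τ h3
      exact h4
    let f : ℝ → ℝ := fun τ => (M.G x w (γ τ)).re
    have hf : ∀ τ ∈ Icc (0 : ℝ) 1, HasDerivAt f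
        (M.G x w (fderiv ℝ (fun z => T z x) (z0 + τ • (z - z0)) (z - z0) u)).re τ := by
      intro τ hτ
      have h1 := (((M.G x w).restrictScalars ℝ).hasFDerivAt (x := γ τ)).comp_hasDerivAt τ
        (hder τ hτ)
      have h2 := (Complex.reCLM.hasFDerivAt (x := M.G x w (γ τ))).comp_hasDerivAt τ h1
      exact h2
    obtain ⟨τ, hτ, heq⟩ := exists_hasDerivAt_eq_slope f
      (fun τ => (M.G x w (fderiv ℝ (fun z => T z x) (z0 + τ • (z - z0)) (z - z0) u)).re)
      one_pos (fun τ hτ => (hf τ hτ).continuousAt.continuousWithinAt)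
      (fun τ hτ => hf τ (Ioo_subset_Icc_self hτ))
    set d : V := fderiv ℝ (fun z => T z x) (z0 + τ • (z - z0)) (z - z0) u with hd
    have h1 : (M.G x w d).re = gn M x w := by
      have h2 : (M.G x w d).re = f 1 - f 0 := by
        have := heq
        simp only [sub_zero, div_one] at this
        exact this
      rw [h2]
      show (M.G x w (γ 1)).re - (M.G x w (γ 0)).re = (M.G x w w).re
      rw [← Complex.sub_re, ← map_sub]
    have h2 := gn_sub (M := M) hx w d
    have h3 := gn_nonneg (M := M) hx (w - d)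
    have h4 := hC x hx _ (hmem τ (Ioo_subset_Icc_self hτ)) (z - z0) u
    have h5 : (T z x - T z0 x) u = w := by
      rw [hw, hγ]
      simp
    show gn M x ((T z x - T z0 x) u) ≤ (C * ‖z - z0‖) ^ 2 * gn M x u
    rw [h5]
    rw [h1] at h2
    have h6 : gn M x w ≤ gn M x d := by linarith
    exact h6.trans h4

end family

end Crest.Agent.R276.K4b_817
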