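import Crest.Agent.R276.FamB_563
import Crest.Agent.R276.PvO_175

/-!
# R276, leaf IPC-FAM (helper563), part C: the bundle `pvOf (V.res s₀)` and the intertwining (N3)

* `isFm` : `(pvOf R).mb.dbl`, `(pvOf R).bt` are as in `FamB_563.IsFm`;
* `ptFam` : the pointwise input of the L² half for `(pvOf (V.res s₀)).mb.dbl`;
* `ty_pull` : (N3), `opT (D.T P z x)` corresponds to the type projector of the fibre over `D.σ z`.
-/

set_option autoImplicit false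
set_option linter.unusedSectionVars false

noncomputable section

open Set Filter Topology MeasureTheory Matrix Metric
open scoped ContDiff Kronecker ComplexConjugate

namespace Crest.Agent.R276.FamC_563

open Crest.Agent.R271.Ho51 Crest.Agent.R276.Ipc735 Crest.Agent.R276.Top3_279
open Crest.Agent.R276.Psi_563 Crest.Agent.R276.FamA_563 Crest.Agent.R276.BndB_563
open Crest.Agent.R276.FamB_563 Crest.Agent.R276.IpcG1_975 Crest.Agent.R276.IpcGr_975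
open Crest.Agent.R276.K4_817 Crest.Agent.R276.K4b_817 Crest.Agent.R276.Nat_591
open Crest.Agent.R276.PvO_175 Crest.Agent.R276.HsB_817 Crest.Agent.R276.HsC_817

section pv

variable {A : Finset ℂ} {N w : ℕ} (R : PVHS A N w)

theorem isFm : IsFm R (pvOf R).mb.dbl (pvOf R).bt where
  P := fun _ _ _ _ _ => rfl
  G := fun x hx u v => by
    show (pvOf R).Gf x u.1 v.1 + (pvOf R).Gf x u.2 v.2 = _
    rw [pvOf_G R hx, pvOf_G R hx]
  bE := fun x _ u => by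
    show (-(pvOf R).Jf x u.1, (pvOf R).Jf x u.2) = _
    rw [pvOf_Jf, pvOf_Jf]
  okb := (pvOf R).ok_bt

theorem Pf_hq (n : ℕ) (x : ℂ) (v : Fin N → ℂ) : (pvOf R).Pf n x v = hq w (R.E x) n *ᵥ v := by
  by_cases hn : n ≤ w
  · rw [pvOf_Pf R hn, hq_of_le hn]
  · have h1 : lag w n = 0 := if_neg hn
    show pr w n (mc (R.E x)) v = _
    unfold pr hq
    rw [h1, map_zero, if_neg hn, Matrix.zero_mulVec]
    rfl

theorem Pm_shq (n : ℕ) (x : ℂ) (v : Fin N → ℂ) : (pvOf R).Pm n x v = shq w n (R.E x) *ᵥ v := by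
  cases n with
  | zero => rw [(pvOf R).Pm_zero]; simp [shq]
  | succ n => rw [(pvOf R).Pm_succ, Pf_hq]; rfl

theorem ty_eq (n : ℕ) (x : ℂ) (u : VV N) :
    (pvOf R).ty n x u = (shq w n (R.E x) *ᵥ u.1, hq w (R.E x) n *ᵥ u.2) := by
  show ((pvOf R).Pm n x u.1, (pvOf R).Pf n x u.2) = _
  rw [Pm_shq, Pf_hq]

end pv

variable {m : ℕ} {S : Type*} [TopologicalSpace S] [RDom m S] {k N w : ℕ} {Q : Punc S k}
  {V : Ipc735.VHS (m + 1) (Tot Q) N w} {s₀ : S} (D : LD V s₀)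

/-- **the pointwise input** for `pvOf` -/
theorem ptFam' : PtFam (pvOf (V.res s₀)).mb.dbl (w + 1) (fun z P x => opT (D.T P z x))
    (pvOf (V.res s₀)).bt (U2 D) := ptFam D (isFm (V.res s₀))

lemma shiftP_eq (n : ℕ) (z : Fin m → ℂ) (x : ℂ) :
    shiftP (fun p z => hq w (D.E z x) p) n z = shq w n (D.E z x) := by
  unfold shiftP
  cases n with
  | zero => rfl
  | succ n => rfl

/-- the Hodge structure of the fibre at `Ψ_z x`, in the frame at `(s₀, x)` -/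
lemma E_res {z : Fin m → ℂ} (hz : z ∈ D.U) {x : ℂ} (hx : x ∉ Q.A s₀) :
    D.E z x = cm (D.G z x)⁻¹ * (V.res (D.σ z)).E (D.Ψ z x) * cm (D.G z x) := by
  rw [LD.E_of hz hx, (V.isRes (D.σ z)).E, rM_of V.E (LD.Ψ_notMem hz hx)]
  rfl

/-- `opT (D.T n z x)` on a pulled back form -/
theorem opT_pull {z : Fin m → ℂ} (hz : z ∈ D.U) (x : ℂ) (n : ℕ) (a b : Fin N → ℂ) :
    opT (D.T n z x) (pull (D.Bm.P (D.b z) x) (D.Bm.Q (D.b z) x) (a, b)) =
      pull (D.Bm.P (D.b z) x) (D.Bm.Q (D.b z) x)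
        (shq w n (D.E z x) *ᵥ a, hq w (D.E z x) n *ᵥ b) := by
  have h := tot_pull (D.pair x) hz (fun p z => hq w (D.E z x) p) n a b
  rw [opT_apply]
  have h2 : D.T n z x *ᵥ vp (pull (D.Bm.P (D.b z) x) (D.Bm.Q (D.b z) x) (a, b)).1
      (pull (D.Bm.P (D.b z) x) (D.Bm.Q (D.b z) x) (a, b)).2 = _ := h
  rw [h2, uvL_vp, shiftP_eq]

/-- **(N3)** : intertwining of the total types -/
theorem ty_pull {z : Fin m → ℂ} (hz : z ∈ D.U) {x : ℂ} (hx : x ∉ Q.A s₀) (n : ℕ) (u : VV N) :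
    opT (D.T n z x) (Kf (D.Bm.psi (D.b z)) (fun x => mc (cm (D.G z x)⁻¹)) x u) =
      Kf (D.Bm.psi (D.b z)) (fun x => mc (cm (D.G z x)⁻¹)) x
        ((pvOf (V.res (D.σ z))).ty n (D.Bm.psi (D.b z) x) u) := by
  rw [Kf_apply, Kf_apply, ty_eq]
  simp only [mc_apply]
  have h := opT_pull D hz x n (cm (D.G z x)⁻¹ *ᵥ u.1) (cm (D.G z x)⁻¹ *ᵥ u.2)
  have e : (V.res (D.σ z)).E (D.Bm.psi (D.b z) x) = cm (D.G z x) * D.E z x * cm (D.G z x)⁻¹ := by
    rw [E_res D hz hx]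
    have h1 : cm (D.G z x) * cm (D.G z x)⁻¹ = 1 := cm_mul_cm_inv _
    calc (V.res (D.σ z)).E (D.Bm.psi (D.b z) x)
        = 1 * (V.res (D.σ z)).E (D.Bm.psi (D.b z) x) * 1 := by rw [one_mul, mul_one]
      _ = (cm (D.G z x) * cm (D.G z x)⁻¹) * (V.res (D.σ z)).E (D.Ψ z x) *
          (cm (D.G z x) * cm (D.G z x)⁻¹) := by rw [h1]; rfl
      _ = _ := by noncomm_ring
  rw [e, shq_conj (cm_mul_cm_inv _) (cm_inv_mul_cm _), hq_conj (cm_mul_cm_inv _) (cm_inv_mul_cm _)]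
  have h1 : cm (D.G z x)⁻¹ * cm (D.G z x) = 1 := cm_inv_mul_cm _
  have key : ∀ (B : Matrix (Fin N) (Fin N) ℂ) (v : Fin N → ℂ),
      cm (D.G z x)⁻¹ *ᵥ ((cm (D.G z x) * B * cm (D.G z x)⁻¹) *ᵥ v) =
        B *ᵥ (cm (D.G z x)⁻¹ *ᵥ v) := by
    intro B v
    rw [Matrix.mulVec_mulVec, Matrix.mulVec_mulVec]
    congr 1
    calc cm (D.G z x)⁻¹ * (cm (D.G z x) * B * cm (D.G z x)⁻¹)
        = (cm (D.G z x)⁻¹ * cm (D.G z x)) * B * cm (D.G z x)⁻¹ := by noncomm_ring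
      _ = _ := by rw [h1, one_mul]
  rw [key, key]
  exact h

end Crest.Agent.R276.FamC_563
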