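import Crest.Agent.R276.FamA_563

/-!
# R276, leaf IPC-FAM (helper563), part D: local data with bumps in small discs

* `exists_local'` : 279's `exists_local` with the supports of the bumps in discs of radius `ρ`;
* `exists_LD'` : for `x₁ ∉ A s₀` and a neighbourhood `W` of `s₀` there is `D : LD V s₀` with
  `bB s₀ D.r ⊆ W` and `x₁ ∉ D.Bm.K`.
-/

set_option autoImplicit false
set_option linter.unusedSectionVars false

noncomputable section

open Set Filter Topology Matrix Metric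
open scoped ContDiff

namespace Crest.Agent.R276.FamD_563

open Crest.Agent.R271.Ho51 Crest.Agent.R276.Ipc735 Crest.Agent.R276.Top3_279
open Crest.Agent.R276.Psi_563 Crest.Agent.R276.FamA_563

variable {m : ℕ} {S : Type*} [TopologicalSpace S] [RDom m S] {k N w : ℕ} {Q : Punc S k}

/-- local data of a family of punctures near a point, bumps in discs of radius `ρ` -/
theorem exists_local' (Q : Punc S k) (s₀ : S) {ρ : ℝ} (hρ : 0 < ρ) :
    ∃ (Bm : Bumps k) (α : S → Fin k → ℂ) (N : Set S),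
    (∀ i, tsupport (Bm.χ i) ⊆ ball (Bm.a i) ρ) ∧
    N ∈ 𝓝 s₀ ∧ IsOpen N ∧ (∀ i, HolAt (fun s => α s i) s₀) ∧ ContinuousOn α N ∧ α s₀ = Bm.a ∧
    (∀ s ∈ N, ‖α s - Bm.a‖ < Bm.δ) ∧ (∀ s ∈ N, Function.Injective (α s)) ∧
    ∀ s ∈ N, Q.A s = Finset.univ.image (α s) := by
  obtain ⟨a, ha, hloc⟩ := Q.loc s₀
  obtain ⟨Bm, hBm, hsupp⟩ := exists_bumps (fun i => a i s₀) hloc.self_of_nhds.1 hρ
  have h1 : ∀ᶠ s in 𝓝 s₀, ContinuousAt (fun s => (fun i => a i s : Fin k → ℂ)) s := by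
    have : ∀ᶠ s in 𝓝 s₀, ∀ i, ContinuousAt (a i) s :=
      eventually_all.2 fun i => HolAt.eventually_continuousAt (ha i)
    filter_upwards [this] with s hs
    exact continuousAt_pi.2 hs
  have h2 : ∀ᶠ s in 𝓝 s₀, ‖(fun i => a i s : Fin k → ℂ) - Bm.a‖ < Bm.δ := by
    have hc : ContinuousAt (fun s => ‖(fun i => a i s : Fin k → ℂ) - Bm.a‖) s₀ :=
      (h1.self_of_nhds.sub continuousAt_const).norm
    refine hc.eventually_lt continuousAt_const ?_
    rw [hBm, sub_self, norm_zero]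
    exact Bm.δ_pos
  obtain ⟨N, hN1, hN2, hN3⟩ := mem_nhds_iff.1 (inter_mem h1 (inter_mem h2 hloc))
  refine ⟨Bm, fun s i => a i s, N, ?_, hN2.mem_nhds hN3, hN2, ha,
    fun s hs => ContinuousAt.continuousWithinAt (f := fun s i => a i s) (hN1 hs).1, hBm.symm,
    fun s hs => (hN1 hs).2.1, fun s hs => (hN1 hs).2.2.1, fun s hs => (hN1 hs).2.2.2⟩
  intro i
  rw [hBm]
  exact hsupp i

/-- local data with bumps in discs of radius `ρ` -/
theorem exists_LD_small [T2Space S] (V : Ipc735.VHS (m + 1) (Tot Q) N w) (s₀ : S) {W : Set S}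
    (hW : W ∈ 𝓝 s₀) {ρ : ℝ} (hρ : 0 < ρ) :
    ∃ D : LD V s₀, bB s₀ D.r ⊆ W ∧ ∀ i, tsupport (D.Bm.χ i) ⊆ ball (D.Bm.a i) ρ := by
  obtain ⟨Bm, α, N', hsupp, hN', hNo, hhol, hcont, h0, hδ, hinj, hA⟩ := exists_local' Q s₀ hρ
  have hcpt : cp s₀ ∈ (ch s₀).target := (isCh_ch s₀).cp_mem (mem_ch s₀)
  have ht : Tendsto (ch s₀).symm (𝓝 (cp s₀)) (𝓝 s₀) := by
    have := (ch s₀).symm.continuousAt (x := cp s₀) (by simpa using hcpt)
    rwa [ContinuousAt, symm_cp] at this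
  have hhol' : AnalyticAt ℂ (fun z => α ((ch s₀).symm z)) (cp s₀) := by
    rw [analyticAt_pi_iff]
    intro i
    exact hhol i
  obtain ⟨r, hr, hball⟩ := Metric.mem_nhds_iff.1 (inter_mem (inter_mem (ht.eventually_mem hN')
    (ht.eventually_mem hW)) (inter_mem ((ch s₀).open_target.mem_nhds hcpt)
      hhol'.eventually_analyticAt))
  have hsub : ball (cp s₀ : Fin m → ℂ) r ⊆ (ch s₀).target := fun z hz => (hball hz).2.1
  have hB : ∀ s ∈ bB s₀ r, s ∈ N' ∧ s ∈ W := by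
    intro s hs
    have h1 := (hball hs.2).1
    have h2 : (ch s₀).symm (cp s) = s := (isCh_ch s₀).symm_cp hs.1
    have h3 : (ch s₀).symm (cp s) ∈ N' ∧ (ch s₀).symm (cp s) ∈ W := h1
    rwa [h2] at h3
  have hcont' : ContinuousOn α (bB s₀ r) := hcont.mono fun s hs => (hB s hs).1
  have hδ' : ∀ s ∈ bB s₀ r, ‖α s - Bm.a‖ < Bm.δ := fun s hs => hδ s (hB s hs).1
  have hA' : ∀ s ∈ bB s₀ r, Q.A s = Finset.univ.image (α s) := fun s hs => hA s (hB s hs).1
  obtain ⟨gau⟩ := exists_gau (P := V.P) V.ndc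
    (locOf (Q := Q) Bm α hcont' h0 (mem_bB_self s₀ hr) hδ' hA') (sheet_bB hsub) (mem_bB_self s₀ hr)
  exact ⟨{ Bm := Bm, α := α, r := r, r_pos := hr, sub := hsub
           hol := fun z hz => (hball hz).2.2
           cont := hcont', h0 := h0, mem := mem_bB_self s₀ hr, hδ := hδ'
           inj := fun s hs => hinj s (hB s hs).1, hA := hA', gau := gau },
    fun s hs => (hB s hs).2, hsupp⟩

/-- **local data with bumps away from a given point of the fibre** -/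
theorem exists_LD' [T2Space S] (V : Ipc735.VHS (m + 1) (Tot Q) N w) (s₀ : S) {W : Set S}
    (hW : W ∈ 𝓝 s₀) {x₁ : ℂ} (hx : x₁ ∉ Q.A s₀) :
    ∃ D : LD V s₀, bB s₀ D.r ⊆ W ∧ x₁ ∉ D.Bm.K := by
  obtain ⟨ρ, hρ, hball⟩ := Metric.isOpen_iff.1 (Q.A s₀).finite_toSet.isClosed.isOpen_compl x₁ hx
  obtain ⟨D, hD, hsupp⟩ := exists_LD_small V s₀ hW hρ
  refine ⟨D, hD, ?_⟩
  unfold Bumps.K
  rw [Set.mem_iUnion]
  rintro ⟨i, hi⟩
  have h1 := hsupp i hi
  have h2 : D.Bm.a i ∈ ball x₁ ρ := by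
    rw [Metric.mem_ball, dist_comm]
    exact h1
  have h3 : D.Bm.a i ∈ Q.A s₀ := by
    rw [D.hA s₀ D.mem, D.h0]
    exact Finset.mem_image_of_mem _ (Finset.mem_univ i)
  exact hball h2 (Finset.mem_coe.2 h3)

end Crest.Agent.R276.FamD_563
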