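import Mathlib
import Crest.Agent.R276.HsC_817

/-!
# R276 / IPC (HS), part D: the harmonic representatives of a holomorphic section of the top piece are a
holomorphic map with values in the Hilbert space (input of `TopData.hol'`).
-/

set_option autoImplicit false
set_option linter.unusedSectionVars false

open Set Filter Topology
open Crest.Agent.R276.HsA_817 Crest.Agent.R276.HsB_817 Crest.Agent.R276.HsC_817
open scoped InnerProductSpace

namespace Crest.Agent.R276.HsD_817

variable {L W : Type*} [NormedAddCommGroup L] [InnerProductSpace ℂ L]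
  [NormedAddCommGroup W] [NormedSpace ℂ W]
variable {E : Type*} [NormedAddCommGroup E] [NormedSpace ℂ E] [FiniteDimensional ℂ E]
variable {D : Fix L W} {n : ℕ} {π : E → ℕ → L →L[ℂ] L} {U : Set E}

local notation "⟪" x ", " y "⟫" => inner ℂ x y

/-- a real differentiable map whose real derivative is complex linear is complex differentiable -/
lemma differentiableAt_complex {G : Type*} [NormedAddCommGroup G] [NormedSpace ℂ G] {f : E → G}
    {f' : E →L[ℝ] G} {s : E} (h : HasFDerivAt f f' s)
    (hI : ∀ t, f' (Complex.I • t) = Complex.I • f' t) : DifferentiableAt ℂ f s := by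
  let fC : E →L[ℂ] G :=
    { toFun := f'
      map_add' := f'.map_add
      map_smul' := by
        intro a x
        have h9 : a • x = a.re • x + a.im • (Complex.I • x) := by
          conv_lhs => rw [← Complex.re_add_im a]
          rw [add_smul, mul_smul]
          rfl
        have h10 : a • f' x = a.re • f' x + a.im • (Complex.I • f' x) := by
          conv_lhs => rw [← Complex.re_add_im a]
          rw [add_smul, mul_smul]
          rfl
        rw [h9, map_add, map_smul, map_smul, hI]
        exact h10.symm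
      cont := f'.cont }
  have h11 : fC.restrictScalars ℝ = f' := rfl
  exact (hasFDerivAt_of_restrictScalars ℝ h h11).differentiableAt

variable [CompleteSpace L] [FiniteDimensional ℂ W]

/-- Derivative of the harmonic representative of a differentiable family of classes `c s ∈ F^P_s`:
it is weakly closed, its class is the derivative of `c`, its `∂̄` part lies in the types `≥ P`, and
the derivative itself lies in the types `≥ P - 1`. -/
theorem hr_deriv (Φ : Family D n π U) {s0 : E} (hs : s0 ∈ U) (P : ℕ) {c : E → W}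
    {c' : E →L[ℝ] W} (hc : ∀ᶠ s in 𝓝 s0, c s ∈ F D n (π s) P) (hd : HasFDerivAt c c' s0) :
    ∃ u' : E →L[ℝ] L, HasFDerivAt (fun s => hr D n (π s) (c s)) u' s0 ∧
      (∀ t, u' t ∈ D.Zc) ∧ (∀ t, D.clL (u' t) = c' t) ∧
      (∀ t, qop n (π s0) P (u' (Complex.I • t) - Complex.I • u' t) =
        u' (Complex.I • t) - Complex.I • u' t) ∧
      (∀ P', P = P' + 1 → ∀ t, qop n (π s0) P' (u' t) = u' t) := by
  obtain ⟨κ, hT⟩ := Φ.types s0 hs
  have T := hT.self_of_nhds
  set u : E → L := fun s => hr D n (π s) (c s) with hu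
  have h1 := (Φ.sdiff_hr hs).hasFDerivAt_apply hd
  set u' := fderiv ℝ (fun s => hr D n (π s) (c s0)) s0 +
    ((hr D n (π s0)).restrictScalars ℝ).comp c' with hu'
  have hmem : ∀ s, u s ∈ D.Zc := fun s => hr_mem _
  have hu'mem : ∀ t, u' t ∈ D.Zc := by
    intro t
    rw [D.memZc]
    intro e he
    have h2 : HasFDerivAt (fun s => innerSL ℂ (D.β e) (u s))
        (((innerSL ℂ (D.β e)).restrictScalars ℝ).comp u') s0 :=
      ((innerSL ℂ (D.β e)).restrictScalars ℝ).hasFDerivAt.comp s0 h1
    have h3 : (fun s => innerSL ℂ (D.β e) (u s)) = fun _ => (0 : ℂ) := by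
      funext s
      exact D.inner_ex_zc (hmem s) he
    rw [h3] at h2
    have h4 := h2.unique (hasFDerivAt_const (0 : ℂ) s0)
    have h5 : ⟪D.β e, u' t⟫ = 0 := congrArg (fun T : E →L[ℝ] ℂ => T t) h4
    rw [D.symm, ← inner_conj_symm, h5, map_zero]
  have hcl : ∀ t, D.clL (u' t) = c' t := by
    intro t
    have h2 : HasFDerivAt (fun s => D.clL (u s))
        ((D.clL.restrictScalars ℝ).comp u') s0 :=
      (D.clL.restrictScalars ℝ).hasFDerivAt.comp s0 h1
    have h3 : (fun s => D.clL (u s)) = c := by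
      funext s
      exact clL_hr _
    rw [h3] at h2
    exact congrArg (fun T : E →L[ℝ] W => T t) (h2.unique hd)
  have hqu0 : qop n (π s0) P (u s0) = u s0 := (T.mem_F_iff).mp hc.self_of_nhds
  have hq := (Φ.sdiff_q hs P).hasFDerivAt_apply h1
  set q' := fderiv ℝ (fun s => qop n (π s) P (u s0)) s0 with hq'
  have hqu : (fun s => qop n (π s) P (u s)) =ᶠ[𝓝 s0] u := by
    filter_upwards [hc, hT] with s hcs Ts
    exact (Ts.mem_F_iff).mp hcs
  have h2 : q' + ((qop n (π s0) P).restrictScalars ℝ).comp u' = u' :=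
    (hq.congr_of_eventuallyEq hqu.symm).unique h1
  have h3 : ∀ t, q' t + qop n (π s0) P (u' t) = u' t := fun t =>
    congrArg (fun T : E →L[ℝ] L => T t) h2
  have hol : ∀ t, q' (Complex.I • t) = Complex.I • q' t := Φ.hol s0 hs P (u s0) hqu0
  refine ⟨u', h1, hu'mem, hcl, fun t => ?_, fun P' hP' t => ?_⟩
  · have e1 := h3 (Complex.I • t)
    have e2 := h3 t
    rw [hol t] at e1
    rw [map_sub, (qop n (π s0) P).map_smul Complex.I (u' t)]
    have e3 : qop n (π s0) P (u' (Complex.I • t)) = u' (Complex.I • t) - Complex.I • q' t :=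
      eq_sub_of_add_eq' e1
    have e4 : qop n (π s0) P (u' t) = u' t - q' t := eq_sub_of_add_eq' e2
    rw [e3, e4, smul_sub]
    abel
  · subst hP'
    have h4 : qop n (π s0) P' (q' t) = q' t := Φ.trans s0 hs P' (u s0) hqu0 t
    have h5 : qop n (π s0) P' (qop n (π s0) (P' + 1) (u' t)) = qop n (π s0) (P' + 1) (u' t) :=
      T.qop_mono (Nat.le_succ _) (T.qop_idem _ _)
    conv_lhs => rw [← h3 t, map_add, h4, h5]
    exact h3 t

/-- an exact vector of pure type is zero -/
lemma eq_zero_of_type {π : ℕ → L →L[ℂ] L} {κ : ℝ} (T : Types D n π κ) {P : ℕ} (hP : P ≤ n) {e : L}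
    (he : e ∈ D.Ex) (ht : π P e = e) : e = 0 := by
  apply T.eq_zero
  have h1 : Jop n π e = ((-1 : ℂ) ^ P) • e := by
    conv_lhs => rw [← ht]
    rw [T.Jop_pi hP, ht]
  rw [h1, map_smul, inner_smul_left, D.inner_zc_ex (D.exLe he) he, mul_zero]

/-- **The harmonic representatives of a holomorphic section of the top piece form a holomorphic
map with values in `L`.** (They are the forms `v_s` of top type, `qop n π n = π n`.) -/
theorem hr_top_differentiableAt (Φ : Family D n π U) {s0 : E} (hs : s0 ∈ U) {c : E → W}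
    (hc : ∀ᶠ s in 𝓝 s0, c s ∈ F D n (π s) n) (hd : DifferentiableAt ℂ c s0) :
    DifferentiableAt ℂ (fun s => hr D n (π s) (c s)) s0 := by
  obtain ⟨κ, hT⟩ := Φ.types s0 hs
  have T := hT.self_of_nhds
  obtain ⟨u', h1, h2, h3, h4, _⟩ := hr_deriv Φ hs n hc (hd.hasFDerivAt.restrictScalars ℝ)
  refine differentiableAt_complex h1 fun t => ?_
  have h5 := h4 t
  have hq : ∀ v, qop n (π s0) n v = π s0 n v := by
    intro v
    rw [qop_apply]
    simp
  rw [hq] at h5
  have h6 : u' (Complex.I • t) - Complex.I • u' t ∈ D.Zc :=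
    D.Zc.sub_mem (h2 _) (D.Zc.smul_mem _ (h2 _))
  have h7 : D.clL (u' (Complex.I • t) - Complex.I • u' t) = 0 := by
    rw [map_sub, D.clL.map_smul Complex.I (u' t), h3, h3]
    have : (ContinuousLinearMap.restrictScalars ℝ (fderiv ℂ c s0)) (Complex.I • t) =
        Complex.I • (ContinuousLinearMap.restrictScalars ℝ (fderiv ℂ c s0)) t :=
      (fderiv ℂ c s0).map_smul Complex.I t
    rw [this, sub_self]
  have h8 := (D.clL_eq_zero_iff h6).mp h7
  exact sub_eq_zero.mp (eq_zero_of_type T le_rfl h8 h5)

/-- the harmonic representative of a class of the top piece is the (unique) weakly closed vector of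
top type in the class -/
lemma hr_of_top {π : ℕ → L →L[ℂ] L} {κ : ℝ} (T : Types D n π κ) {v : L} (hv : v ∈ D.Zc)
    (ht : π n v = v) : hr D n π (D.clL v) = v := by
  have h1 : Jop n π v = ((-1 : ℂ) ^ n) • v := by
    conv_lhs => rw [← ht]
    rw [T.Jop_pi le_rfl, ht]
  refine T.hr_clL hv ?_
  rw [h1]
  exact D.Zc.smul_mem _ hv

/-- A family `v s` of weakly closed vectors of top type with holomorphic classes is holomorphic. -/
theorem top_differentiableAt (Φ : Family D n π U) {s0 : E} (hs : s0 ∈ U) {v : E → L}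
    (hv : ∀ᶠ s in 𝓝 s0, v s ∈ D.Zc ∧ π s n (v s) = v s)
    (hd : DifferentiableAt ℂ (fun s => D.clL (v s)) s0) : DifferentiableAt ℂ v s0 := by
  obtain ⟨κ, hT⟩ := Φ.types s0 hs
  have h1 : ∀ᶠ s in 𝓝 s0, D.clL (v s) ∈ F D n (π s) n := by
    filter_upwards [hv] with s h
    rw [mem_F_top]
    exact ⟨v s, h.1, h.2, rfl⟩
  refine (hr_top_differentiableAt Φ hs h1 hd).congr_of_eventuallyEq ?_
  filter_upwards [hv, hT] with s h T
  exact (hr_of_top T h.1 h.2).symm

end Crest.Agent.R276.HsD_817
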