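import Mathlib
import Crest.Agent.R276.HsD_817

/-!
# R276 / IPC (HS), part E: naturality.  `Nat' D D' T τ`: `T : L' ≃ L` intertwines the data `D'` (at the
parameter `s`) with the data `D` (fixed model), `τ : W' ≃ W` the transport of classes.
-/

set_option autoImplicit false
set_option linter.unusedSectionVars false

open Set Filter Topology
open Crest.Agent.R276.HsA_817 Crest.Agent.R276.HsB_817 Crest.Agent.R276.HsC_817
open scoped InnerProductSpace

namespace Crest.Agent.R276.HsE_817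

variable {L W L' W' : Type*} [NormedAddCommGroup L] [InnerProductSpace ℂ L]
  [NormedAddCommGroup W] [NormedSpace ℂ W]
  [NormedAddCommGroup L'] [InnerProductSpace ℂ L'] [NormedAddCommGroup W'] [NormedSpace ℂ W']

local notation "⟪" x ", " y "⟫" => inner ℂ x y

/-- `T` intertwines the data `D'` and `D`. -/
structure NatD (D : Fix L W) (D' : Fix L' W') (T : L' ≃L[ℂ] L) : Prop where
  form : ∀ u v, ⟪D.β (T u), T v⟫ = ⟪D'.β u, v⟫
  ex : ∀ u, T u ∈ D.Ex ↔ u ∈ D'.Ex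

variable {D : Fix L W} {D' : Fix L' W'} {T : L' ≃L[ℂ] L}

lemma NatD.zc (N : NatD D D' T) (u : L') : T u ∈ D.Zc ↔ u ∈ D'.Zc := by
  rw [D.memZc, D'.memZc]
  constructor
  · intro h e he
    rw [← N.form]
    exact h _ ((N.ex e).mpr he)
  · intro h e he
    have h1 : T (T.symm e) = e := T.apply_symm_apply e
    rw [← h1, N.form]
    refine h _ ((N.ex _).mp ?_)
    rwa [h1]

variable {n : ℕ} {π : ℕ → L →L[ℂ] L} {π' : ℕ → L' →L[ℂ] L'}

lemma Jop_T (hπ : ∀ P ≤ n, ∀ u, π P (T u) = T (π' P u)) (u : L') :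
    Jop n π (T u) = T (Jop n π' u) := by
  rw [Jop_apply, Jop_apply, map_sum]
  refine Finset.sum_congr rfl fun P hP => ?_
  rw [hπ P (by simpa [Nat.lt_succ_iff] using hP), map_smul]

lemma qop_T (hπ : ∀ P ≤ n, ∀ u, π P (T u) = T (π' P u)) (P : ℕ) (u : L') :
    qop n π P (T u) = T (qop n π' P u) := by
  rw [qop_apply, qop_apply, map_sum]
  refine Finset.sum_congr rfl fun Q hQ => ?_
  rw [hπ Q (by have := (Finset.mem_Ico.mp hQ).2; omega)]

/-- the condition `stab` is transported -/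
lemma NatD.stab (N : NatD D D' T) (hπ : ∀ P ≤ n, ∀ u, π P (T u) = T (π' P u))
    (h : ∀ u ∈ D'.Zc, Jop n π' u ∈ D'.Zc → ∀ P ≤ n, π' P u ∈ D'.Zc) :
    ∀ u ∈ D.Zc, Jop n π u ∈ D.Zc → ∀ P ≤ n, π P u ∈ D.Zc := by
  intro u hu hJ P hP
  have h1 : T (T.symm u) = u := T.apply_symm_apply u
  rw [← h1] at hu hJ ⊢
  rw [Jop_T hπ, N.zc] at hJ
  rw [N.zc] at hu
  rw [hπ P hP, N.zc]
  exact h _ hu hJ P hP

variable [CompleteSpace L] [FiniteDimensional ℂ W] [CompleteSpace L'] [FiniteDimensional ℂ W']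

/-- the classes correspond under `τ` -/
def NatCl (D : Fix L W) (D' : Fix L' W') (T : L' ≃L[ℂ] L) (τ : W' →ₗ[ℂ] W) : Prop :=
  ∀ u ∈ D'.Zc, D.clL (T u) = τ (D'.clL u)

/-- it suffices to check the correspondence of classes on a subset of `Zc` representing all classes
and on `Ex` -/
lemma NatD.cl_of (N : NatD D D' T) {τ : W' →ₗ[ℂ] W} {C : Set L'} (hC : C ⊆ D'.Zc)
    (hCs : ∀ w, ∃ v ∈ C, D'.clL v = w) (h : ∀ v ∈ C, D.clL (T v) = τ (D'.clL v)) :
    NatCl D D' T τ := by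
  intro u hu
  obtain ⟨v, hv, hvw⟩ := hCs (D'.clL u)
  have h1 : u - v ∈ D'.Ex := (D'.clL_eq_iff hu (hC hv)).mp hvw.symm
  have h2 : D.clL (T u) = D.clL (T v) := by
    rw [D.clL_eq_iff ((N.zc u).mpr hu) ((N.zc v).mpr (hC hv)), ← map_sub]
    exact (N.ex _).mpr h1
  rw [h2, h v hv, hvw]

variable {τ : W' →ₗ[ℂ] W}

/-- the class forms correspond -/
lemma NatD.SW (N : NatD D D' T) (hτ : NatCl D D' T τ) (a b : W') :
    D.SW (τ a) (τ b) = D'.SW a b := by
  have h1 : D'.clL (D'.xL a) = a := D'.clL_xL a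
  have h2 : D'.clL (D'.xL b) = b := D'.clL_xL b
  have e1 : τ a = D.clL (T (D'.xL a)) := by rw [hτ _ (D'.xL_mem a), h1]
  have e2 : τ b = D.clL (T (D'.xL b)) := by rw [hτ _ (D'.xL_mem b), h2]
  rw [e1, e2, D.SW_clL ((N.zc _).mpr (D'.xL_mem a)) ((N.zc _).mpr (D'.xL_mem b)), N.form]
  rfl

/-- the Hodge filtrations correspond -/
theorem NatD.F_eq (N : NatD D D' T) (hτ : NatCl D D' T τ)
    (hπ : ∀ P ≤ n, ∀ u, π P (T u) = T (π' P u)) (P : ℕ) :
    F D n π P = (F D' n π' P).map τ := by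
  ext w
  rw [mem_F, Submodule.mem_map]
  constructor
  · rintro ⟨v, hv, hq, rfl⟩
    have h1 : T (T.symm v) = v := T.apply_symm_apply v
    have hv' : T.symm v ∈ D'.Zc := by
      rw [← N.zc, h1]
      exact hv
    refine ⟨D'.clL (T.symm v), ?_, ?_⟩
    · rw [mem_F]
      refine ⟨T.symm v, hv', ?_, rfl⟩
      apply T.injective
      rw [← qop_T hπ, h1, hq]
    · rw [← hτ _ hv', h1]
  · rintro ⟨w', hw', rfl⟩
    obtain ⟨v, hv, hq, rfl⟩ := mem_F.mp hw'
    refine ⟨T v, (N.zc v).mpr hv, ?_, hτ v hv⟩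
    rw [qop_T hπ, hq]

/-- the harmonic representatives correspond -/
theorem NatD.hr_eq (N : NatD D D' T) (hτ : NatCl D D' T τ)
    (hπ : ∀ P ≤ n, ∀ u, π P (T u) = T (π' P u)) {c c' : ℝ} (H : Types D n π c)
    (H' : Types D' n π' c') (w : W') : hr D n π (τ w) = T (hr D' n π' w) := by
  have h1 : τ w = D.clL (T (hr D' n π' w)) := by
    rw [hτ _ (hr_mem w), clL_hr]
  rw [h1]
  refine H.hr_clL ((N.zc _).mpr (hr_mem w)) ?_
  rw [Jop_T hπ]
  exact (N.zc _).mpr (H'.J_hr_mem w)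

/-- `Types` on `L` from `Types` on `L'`, up to coercivity (the norms are only comparable). -/
theorem NatD.types (N : NatD D D' T) (hπ : ∀ P ≤ n, ∀ u, π P (T u) = T (π' P u)) {c' : ℝ}
    (H' : Types D' n π' c') {K : ℝ} (hK : 0 < K) (hT : ∀ u, ‖T u‖ ≤ K * ‖u‖) :
    Types D n π (c' / K ^ 2) := by
  have hsurj : ∀ u, T (T.symm u) = u := T.apply_symm_apply
  refine ⟨div_pos H'.cpos (by positivity), fun u => ?_, fun P hP u => ?_, fun P hP Q hQ hne u => ?_,
    fun P hP Q hQ hne u v => ?_, fun u => ?_, N.stab hπ H'.stab⟩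
  · rw [← hsurj u]
    have : ∀ P ∈ Finset.range (n + 1), π P (T (T.symm u)) = T (π' P (T.symm u)) := fun P hP =>
      hπ P (by simpa [Nat.lt_succ_iff] using hP) _
    rw [Finset.sum_congr rfl this, ← map_sum, H'.sum]
  · rw [← hsurj u, hπ P hP, hπ P hP, H'.idem P hP]
  · rw [← hsurj u, hπ Q hQ, hπ P hP, H'.mul0 P hP Q hQ hne, map_zero]
  · rw [← hsurj u, ← hsurj v, hπ P hP, hπ Q hQ, N.form]
    exact H'.orth P hP Q hQ hne _ _
  · rw [← hsurj u, Jop_T hπ, N.form]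
    refine le_trans ?_ (H'.coer _)
    have h1 := hT (T.symm u)
    have h2 : ‖T (T.symm u)‖ ^ 2 ≤ K ^ 2 * ‖T.symm u‖ ^ 2 := by
      rw [← mul_pow]
      exact pow_le_pow_left₀ (norm_nonneg _) h1 2
    rw [div_mul_eq_mul_div, div_le_iff₀ (by positivity)]
    have := mul_le_mul_of_nonneg_left h2 H'.cpos.le
    linarith

end Crest.Agent.R276.HsE_817
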