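import Crest.Agent.R276.IpcNm_975

/-!
# R276, IPC fixed-s assembly (helper975), part 14: `Zc = (smooth compactly supported closed) + Ex`
-/

set_option autoImplicit false

open Set Filter Topology MeasureTheory UniformSpace
open scoped ContDiff ComplexConjugate ENNReal

namespace Crest.Agent.R276.IpcG1_975

open VCalc_442 IpcGr_975

variable {X : Set ℂ} {ι : Type*} [Fintype ι] [DecidableEq ι] {w : ℕ} (M : PV (ι → ℂ) X w)

namespace PV

/-- smooth compactly supported closed forms -/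
noncomputable def ZS : Submodule ℂ M.mb.dbl.H0 where
  carrier := {ζ | M.toFB.Clo ζ.f}
  add_mem' := by
    rintro ζ ξ ⟨h1, h2⟩ ⟨h3, h4⟩
    refine ⟨h1.add h3, fun z hz => ?_⟩
    obtain ⟨a1, a2⟩ := FB.sm_dbl.1 h1
    obtain ⟨b1, b2⟩ := FB.sm_dbl.1 h3
    have e1 := FB.d2_add a1 b1 hz
    have e2 := FB.d1_add a2 b2 hz
    have e3 : M.d2 (fun x => ((ζ + ξ).f x).1) z = _ := e1
    have e4 : M.d1 (fun x => ((ζ + ξ).f x).2) z = _ := e2
    rw [e3, e4, h2 z hz, h4 z hz]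
  zero_mem' := by
    refine ⟨FB.sm_zero, fun z hz => ?_⟩
    have e1 : M.d2 (fun x => ((0 : M.mb.dbl.H0).f x).1) z = 0 := by
      have : (fun x => ((0 : M.mb.dbl.H0).f x).1) = fun _ : ℂ => (0 : ι → ℂ) := rfl
      rw [this]
      exact FB.d2_zero_of (K := ∅) isCompact_empty (fun _ _ => rfl) (by simp)
    have e2 : M.d1 (fun x => ((0 : M.mb.dbl.H0).f x).2) z = 0 := by
      have : (fun x => ((0 : M.mb.dbl.H0).f x).2) = fun _ : ℂ => (0 : ι → ℂ) := rfl
      rw [this]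
      exact FB.d1_zero_of (K := ∅) isCompact_empty (fun _ _ => rfl) (by simp)
    rw [e1, e2]
  smul_mem' := by
    rintro c ζ ⟨h1, h2⟩
    refine ⟨h1.const_smul c, fun z hz => ?_⟩
    obtain ⟨a1, a2⟩ := FB.sm_dbl.1 h1
    have e1 := FB.d2_smul a1 c hz
    have e2 := FB.d1_smul a2 c hz
    have e3 : M.d2 (fun x => ((c • ζ).f x).1) z = _ := e1
    have e4 : M.d1 (fun x => ((c • ζ).f x).2) z = _ := e2
    rw [e3, e4, h2 z hz]

theorem mem_ZS {ζ : M.mb.dbl.H0} : ζ ∈ M.ZS ↔ M.toFB.Clo ζ.f := Iff.rfl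

theorem ZS_mem_Zc {ζ : M.mb.dbl.H0} (h : ζ ∈ M.ZS) : (ζ : M.L) ∈ M.Zc :=
  (M.rep_coe ζ).mem_Zc h.2

/-- exact smooth forms -/
def Exact (α : ℂ → (ι → ℂ) × (ι → ℂ)) : Prop :=
  ∃ ψ : ℂ → ι → ℂ, M.Sm ψ ∧ ∀ x ∈ X, α x = M.toFB.Df ψ x

/-- the `L²` norm is finite -/
def Fin2 (α : ℂ → (ι → ℂ) × (ι → ℂ)) : Prop :=
  IntegrableOn (fun x => (M.mb.dbl.G x (α x) (α x)).re) X

/-- the inputs on the global and end behaviour -/
structure Inp : Prop where
  /-- closed `L²` forms are cohomologous to compactly supported ones -/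
  I3 : ∀ α, M.toFB.Clo α → M.Fin2 α → ∃ ζ ∈ M.ZS, M.Exact (fun x => α x - ζ.f x)
  /-- harmonic exact `L²` forms vanish -/
  I5 : ∀ ψ, M.Sm ψ → M.toFB.Clo (fun x => M.bt x (M.toFB.Df ψ x)) → M.Fin2 (M.toFB.Df ψ) →
    ∀ x ∈ X, M.toFB.Df ψ x = 0
  /-- limits of exact forms are exact -/
  IT : ∀ α, M.toFB.Clo α → (∀ ε : ℝ, 0 < ε → ∃ φ ∈ M.toFB.A0,
      IntegrableOn (fun x => (M.mb.dbl.G x (α x - M.toFB.Df φ x) (α x - M.toFB.Df φ x)).re) X ∧
      ∫ x in X, (M.mb.dbl.G x (α x - M.toFB.Df φ x) (α x - M.toFB.Df φ x)).re < ε) → M.Exact α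

variable {M}

theorem Exact.add {α β : ℂ → (ι → ℂ) × (ι → ℂ)} (h : M.Exact α) (h' : M.Exact β) :
    M.Exact (fun x => α x + β x) := by
  obtain ⟨ψ, h1, h2⟩ := h
  obtain ⟨ψ', h3, h4⟩ := h'
  refine ⟨ψ + ψ', h1.add h3, fun x hx => ?_⟩
  simp only
  rw [h2 x hx, h4 x hx]
  exact (Prod.ext (FB.d1_add h1 h3 hx) (FB.d2_add h1 h3 hx)).symm

theorem Exact.smul {α : ℂ → (ι → ℂ) × (ι → ℂ)} (h : M.Exact α) (c : ℂ) :
    M.Exact (fun x => c • α x) := by
  obtain ⟨ψ, h1, h2⟩ := h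
  refine ⟨c • ψ, h1.const_smul c, fun x hx => ?_⟩
  simp only
  rw [h2 x hx]
  exact (Prod.ext (FB.d1_smul h1 c hx) (FB.d2_smul h1 c hx)).symm

theorem Exact.sub {α β : ℂ → (ι → ℂ) × (ι → ℂ)} (h : M.Exact α) (h' : M.Exact β) :
    M.Exact (fun x => α x - β x) := by
  have := h.add (h'.smul (-1))
  simpa [sub_eq_add_neg] using this

theorem Exact.congr {α β : ℂ → (ι → ℂ) × (ι → ℂ)} (h : M.Exact α) (he : ∀ x ∈ X, β x = α x) :
    M.Exact β := by
  obtain ⟨ψ, h1, h2⟩ := h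
  exact ⟨ψ, h1, fun x hx => by rw [he x hx, h2 x hx]⟩

/-- elements of `Ex` with a smooth representative are exact -/
theorem Inp.exact_of_ex (H : M.Inp) {u : M.L} {α : ℂ → (ι → ℂ) × (ι → ℂ)} (h : M.Rep u α)
    (hu : u ∈ M.Ex) : M.Exact α :=
  H.IT α (h.clo (M.ex_le_zc hu)) fun _ hε => h.approx hu hε

/-- harmonic decomposition -/
theorem decomp {u : M.L} (hu : u ∈ M.Zc) :
    ∃ h e : M.L, u = h + e ∧ e ∈ M.Ex ∧ h ∈ M.Zc ∧ M.be h ∈ M.Zc := by
  haveI : CompleteSpace M.Ex := M.ex_closed.completeSpace_coe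
  obtain ⟨e, he, h, hh, rfl⟩ := M.Ex.exists_add_mem_mem_orthogonal u
  refine ⟨h, e, add_comm _ _, he, ?_, ?_⟩
  · have := M.Zc.sub_mem hu (M.ex_le_zc he)
    simpa using this
  · rw [M.mem_Zc]
    intro e' he'
    rw [M.be_be, ← inner_conj_symm, Submodule.inner_right_of_mem_orthogonal he' hh, map_zero]

theorem rep_zero : M.Rep (0 : M.L) (fun _ => 0) :=
  ⟨FB.sm_zero, fun ζ => by simp⟩

/-- harmonic elements with exact representative vanish -/
theorem Inp.harm_zero (H : M.Inp) {h : M.L} {α : ℂ → (ι → ℂ) × (ι → ℂ)} (hr : M.Rep h α)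
    (hbh : M.be h ∈ M.Zc) (he : M.Exact α) : h = 0 := by
  obtain ⟨ψ, h1, h2⟩ := he
  refine Rep.eq hr rep_zero fun x hx => ?_
  rw [h2 x hx]
  have hsm : M.toFB.dbl.Sm (M.toFB.Df ψ) := FB.sm_dbl.2 ⟨h1.d1, h1.d2⟩
  have hcl := (hr.be).clo hbh
  have hDr : M.Rep h (M.toFB.Df ψ) := by
    refine ⟨hsm, fun ζ => ?_⟩
    rw [hr.2]
    refine integral_congr_ae (Eventually.of_forall fun x => ?_)
    by_cases hx : x ∈ X
    · simp only; rw [h2 x hx]
    · simp [M.mb.dbl.f_eq_zero' ζ hx]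
  exact H.I5 ψ h1 (hDr.be.clo hbh) hDr.g.integrableOn x hx

/-- **smooth compactly supported closed forms in `Ex` are the exact ones** -/
theorem Inp.mem_ex_iff (H : M.Inp) {ζ : M.mb.dbl.H0} (hζ : ζ ∈ M.ZS) :
    (ζ : M.L) ∈ M.Ex ↔ M.Exact ζ.f := by
  constructor
  · exact fun h => H.exact_of_ex (M.rep_coe ζ) h
  · intro hex
    obtain ⟨h, e, hsum, he, hh, hbh⟩ := decomp (M.ZS_mem_Zc hζ)
    obtain ⟨α, hα⟩ := exists_rep hh hbh
    have he' : e = (ζ : M.L) - h := by rw [hsum]; abel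
    have hr : M.Rep e (fun x => ζ.f x - α x) := by
      rw [he']
      exact (M.rep_coe ζ).sub hα
    have hex2 := H.exact_of_ex hr he
    have hex3 : M.Exact α := (hex.sub hex2).congr fun x _ => by simp
    have h0 := H.harm_zero hα hbh hex3
    rw [hsum, h0, zero_add]
    exact he

/-- **every weakly closed element is smooth compactly supported closed modulo `Ex`** -/
theorem Inp.exists_smooth (H : M.Inp) {u : M.L} (hu : u ∈ M.Zc) :
    ∃ ζ ∈ M.ZS, u - (ζ : M.L) ∈ M.Ex := by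
  obtain ⟨h, e, rfl, he, hh, hbh⟩ := decomp hu
  obtain ⟨α, hα⟩ := exists_rep hh hbh
  obtain ⟨ζ, hζ, hex⟩ := H.I3 α (hα.clo hh) hα.g.integrableOn
  obtain ⟨h', e', hsum, he', hh', hbh'⟩ := decomp (M.ZS_mem_Zc hζ)
  obtain ⟨α', hα'⟩ := exists_rep hh' hbh'
  have hee : e' = (ζ : M.L) - h' := by rw [hsum]; abel
  have hr : M.Rep e' (fun x => ζ.f x - α' x) := by
    rw [hee]
    exact (M.rep_coe ζ).sub hα'
  have hex2 := H.exact_of_ex hr he'
  have hd : M.Rep (h - h') (fun x => α x - α' x) := hα.sub hα'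
  have hex3 : M.Exact (fun x => α x - α' x) := (hex.add hex2).congr fun x _ => by simp
  have hbd : M.be (h - h') ∈ M.Zc := by
    rw [map_sub]
    exact M.Zc.sub_mem hbh hbh'
  have h0 := H.harm_zero hd hbd hex3
  refine ⟨ζ, hζ, ?_⟩
  have : h + e - (ζ : M.L) = e - e' := by
    rw [hee]
    have : h = h' := sub_eq_zero.1 h0
    rw [this]; abel
  rw [this]
  exact M.Ex.sub_mem he he'

/-- the class map: any linear map on smooth compactly supported closed forms which is onto and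
whose kernel consists of the exact forms extends to `Zc` -/
theorem Inp.exists_cl (H : M.Inp) {W : Type*} [NormedAddCommGroup W] [NormedSpace ℂ W]
    [FiniteDimensional ℂ W] (c : M.ZS →ₗ[ℂ] W) (hc : Function.Surjective c)
    (hk : ∀ ζ : M.ZS, c ζ = 0 ↔ M.Exact (ζ : M.mb.dbl.H0).f) :
    ∃ cl : M.Zc →L[ℂ] W, Function.Surjective cl ∧ (∀ u : M.Zc, cl u = 0 ↔ (u : M.L) ∈ M.Ex) ∧
      ∀ ζ : M.ZS, cl ⟨((ζ : M.mb.dbl.H0) : M.L), M.ZS_mem_Zc ζ.2⟩ = c ζ := by
  classical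
  have hsm : ∀ u : M.Zc, ∃ ζ : M.ZS, (u : M.L) - ((ζ : M.mb.dbl.H0) : M.L) ∈ M.Ex := by
    intro u
    obtain ⟨ζ, hζ, h⟩ := H.exists_smooth u.2
    exact ⟨⟨ζ, hζ⟩, h⟩
  choose s hs using hsm
  have hwd : ∀ (u : M.Zc) (ζ : M.ZS), (u : M.L) - ((ζ : M.mb.dbl.H0) : M.L) ∈ M.Ex →
      c (s u) = c ζ := by
    intro u ζ h
    rw [← sub_eq_zero, ← map_sub, hk]
    have h1 := M.Ex.sub_mem h (hs u)
    have h2 : (u : M.L) - ((ζ : M.mb.dbl.H0) : M.L) - ((u : M.L) - ((s u : M.mb.dbl.H0) : M.L)) =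
        (((s u - ζ : M.ZS) : M.mb.dbl.H0) : M.L) := by
      rw [Submodule.coe_sub, Completion.coe_sub]
      abel
    rw [h2] at h1
    exact (H.mem_ex_iff (s u - ζ).2).1 h1
  let cl0 : M.Zc →ₗ[ℂ] W :=
    { toFun := fun u => c (s u)
      map_add' := fun u v => by
        rw [← map_add]
        refine hwd _ _ ?_
        have h2 : ((u + v : M.Zc) : M.L) - (((s u + s v : M.ZS) : M.mb.dbl.H0) : M.L) =
            ((u : M.L) - ((s u : M.mb.dbl.H0) : M.L)) + ((v : M.L) - ((s v : M.mb.dbl.H0) : M.L)) := by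
          rw [Submodule.coe_add, Submodule.coe_add, Completion.coe_add]
          abel
        rw [h2]
        exact M.Ex.add_mem (hs u) (hs v)
      map_smul' := fun a u => by
        rw [RingHom.id_apply, ← map_smul]
        refine hwd _ _ ?_
        have h2 : ((a • u : M.Zc) : M.L) - (((a • s u : M.ZS) : M.mb.dbl.H0) : M.L) =
            a • ((u : M.L) - ((s u : M.mb.dbl.H0) : M.L)) := by
          rw [Submodule.coe_smul, Submodule.coe_smul, Completion.coe_smul, smul_sub]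
        rw [h2]
        exact M.Ex.smul_mem a (hs u) }
  have hker : ∀ u : M.Zc, cl0 u = 0 ↔ (u : M.L) ∈ M.Ex := by
    intro u
    show c (s u) = 0 ↔ _
    rw [hk, ← H.mem_ex_iff (s u).2]
    constructor
    · intro h
      have := M.Ex.add_mem (hs u) h
      simpa using this
    · intro h
      have := M.Ex.sub_mem h (hs u)
      simpa using this
  have hcl0 : ∀ ζ : M.ZS, cl0 ⟨((ζ : M.mb.dbl.H0) : M.L), M.ZS_mem_Zc ζ.2⟩ = c ζ := by
    intro ζ
    refine hwd _ ζ ?_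
    rw [sub_self]
    exact M.Ex.zero_mem
  have hcont : Continuous cl0 := by
    -- factor through the quotient by the closed kernel
    have hkc : IsClosed ((LinearMap.ker cl0 : Submodule ℂ M.Zc) : Set M.Zc) := by
      have : ((LinearMap.ker cl0 : Submodule ℂ M.Zc) : Set M.Zc) =
          (fun u : M.Zc => (u : M.L)) ⁻¹' (M.Ex : Set M.L) := by
        ext u
        exact hker u
      rw [this]
      exact M.ex_closed.preimage continuous_subtype_val
    let K := LinearMap.ker cl0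
    haveI : IsClosed (K : Set M.Zc) := hkc
    haveI : FiniteDimensional ℂ (M.Zc ⧸ K) :=
      LinearEquiv.finiteDimensional cl0.quotKerEquivRange.symm
    have h1 : (cl0 : M.Zc → W) = fun u => (K.liftQ cl0 le_rfl) (K.mkQ u) := by
      funext u
      simp
    rw [h1]
    exact (LinearMap.continuous_of_finiteDimensional (K.liftQ cl0 le_rfl)).comp
      (continuous_quot_mk)
  refine ⟨⟨cl0, hcont⟩, ?_, hker, hcl0⟩
  intro y
  obtain ⟨ζ, rfl⟩ := hc y
  exact ⟨_, hcl0 ζ⟩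

end PV

end Crest.Agent.R276.IpcG1_975
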