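import Crest.Agent.R276.Top3j_279

/-!
# Row 276, IPC-TOP3 (helper279), part 11: `Wf V s` as a normed space

* `wfBasis V s` : a lattice basis of `Wf V s`;
* instances `NormedAddCommGroup (Wf V s)`, `NormedSpace ℂ (Wf V s)` (with the same additive group and
  module structure), `FiniteDimensional ℂ (Wf V s)`.
-/

set_option autoImplicit false
set_option linter.unusedSectionVars false

noncomputable section

open Set Filter Topology Matrix

namespace Crest.Agent.R276.Top3_279

open Crest.Agent.R271.Ho51 Crest.Agent.R276.Ipc735
open Crest.Agent.R276.Lat_348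

variable {m : ℕ} {S : Type*} [TopologicalSpace S] [RDom m S] {k : ℕ} {Q : Punc S k} {N w : ℕ}
variable (V : VHS (m + 1) (Tot Q) N w)

/-- the rank of the parabolic cohomology -/
def wfRank (s : S) : ℕ := (lat V s).choose

/-- a lattice basis of the parabolic cohomology -/
def wfBasis (s : S) : Module.Basis (Fin (wfRank V s)) ℂ (Wf V s) := (lat V s).choose_spec.choose

lemma LW_eq (s : S) : LW V s = (Submodule.span ℤ (range (wfBasis V s))).toAddSubgroup :=
  (lat V s).choose_spec.choose_spec

instance wfFD (s : S) : FiniteDimensional ℂ (Wf V s) := (wfBasis V s).finiteDimensional_of_finite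

instance wfNorm (s : S) : NormedAddCommGroup (Wf V s) :=
  NormedAddCommGroup.induced (Wf V s) (Fin (wfRank V s) → ℂ)
    (wfBasis V s).equivFun.toLinearMap (wfBasis V s).equivFun.injective

instance wfSpace (s : S) : NormedSpace ℂ (Wf V s) :=
  NormedSpace.induced ℂ (Wf V s) (Fin (wfRank V s) → ℂ) (wfBasis V s).equivFun.toLinearMap

example (s : S) : (wfNorm V s).toAddCommGroup = (parF (rC N) V.P s).addCommGroup := rfl

example (s : S) : (wfSpace V s).toModule = (parF (rC N) V.P s).module := rfl

end Crest.Agent.R276.Top3_279
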