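import Crest.Agent.R276.Top3g_279
import Crest.Agent.R276.DR_175

/-!
# Row 276, IPC-TOP3 (helper279), part 8: dictionary with helper175's cocycles on the plane

* `rst s u` : restriction of `u : ℂ → ℂ → M` to the fibre over `s`; `exz c` : extension by zero.
* `rst_mem_iff` : `rst s u ∈ Z1` iff `CocOn (A s)ᶜ`; `rst_cob_iff`, `zeroOn_iff` : coboundaries.
* `cl V s u hu` : the class; `cl_mem_par_iff`, `cl_mem_par_iff_compact` : parabolic classes.
* `mem_LW_cl_iff` : integral classes.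
-/

set_option autoImplicit false
set_option linter.unusedSectionVars false

noncomputable section

open Set Filter Topology Matrix

namespace Crest.Agent.R276.Top3_279

open Crest.Agent.R271.Ho51 Crest.Agent.R276.Ipc735 Crest.Agent.R276.DR_175

variable {m : ℕ} {S : Type*} [TopologicalSpace S] [RDom m S] {k : ℕ} {Q : Punc S k} {N w : ℕ}

section general

variable {M : Type*} [AddCommGroup M]

/-- restriction to the fibre over `s` -/
def rst (s : S) (u : ℂ → ℂ → M) (x y : Fib Q s) : M := u x.1 y.1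

open Classical in
/-- extension by zero -/
def exz {s : S} (c : Fib Q s → Fib Q s → M) (x y : ℂ) : M :=
  if h : x ∉ Q.A s ∧ y ∉ Q.A s then c ⟨x, h.1⟩ ⟨y, h.2⟩ else 0

lemma exz_apply {s : S} (c : Fib Q s → Fib Q s → M) {x y : ℂ} (hx : x ∉ Q.A s)
    (hy : y ∉ Q.A s) : exz c x y = c ⟨x, hx⟩ ⟨y, hy⟩ := by
  unfold exz
  rw [dif_pos ⟨hx, hy⟩]

lemma rst_exz {s : S} (c : Fib Q s → Fib Q s → M) : rst s (exz c) = c := by
  funext x y
  exact exz_apply c x.2 y.2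

lemma isOpen_compl (Q : Punc S k) (s : S) : IsOpen ((Q.A s : Set ℂ)ᶜ) :=
  (Q.A s).finite_toSet.isClosed.isOpen_compl

lemma nhds_fib {s : S} (x : Fib Q s) : 𝓝 x = comap (Subtype.val : Fib Q s → ℂ) (𝓝 x.1) :=
  nhds_subtype_eq_comap

lemma preimage_nhds {s : S} (x : Fib Q s) {U : Set ℂ} (hU : U ∈ 𝓝 x.1) :
    (Subtype.val ⁻¹' U : Set (Fib Q s)) ∈ 𝓝 x := continuous_subtype_val.continuousAt.preimage_mem_nhds hU

lemma exists_nhds {s : S} (x : Fib Q s) {U : Set (Fib Q s)} (hU : U ∈ 𝓝 x) :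
    ∃ W ∈ 𝓝 x.1, ∀ y ∈ W, ∃ hy : y ∉ Q.A s, (⟨y, hy⟩ : Fib Q s) ∈ U := by
  rw [nhds_fib, mem_comap] at hU
  obtain ⟨W, hW, h⟩ := hU
  have hO : ((Q.A s : Set ℂ)ᶜ) ∈ 𝓝 x.1 := (isOpen_compl Q s).mem_nhds x.2
  exact ⟨W ∩ (Q.A s : Set ℂ)ᶜ, inter_mem hW hO, fun y hy => ⟨hy.2, h hy.1⟩⟩

end general

section res

variable {M : Type*} [AddCommGroup M]
variable (V : VHS (m + 1) (Tot Q) N w)

lemma rP_eq (s : S) (x y : Fib Q s) : rP Q V.P s x.1 y.1 = fP V.P s x y := by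
  unfold rP
  rw [dif_pos ⟨x.2, y.2⟩]
  rfl

/-- dictionary for cocycles -/
theorem rst_mem_iff (s : S) (u : ℂ → ℂ → Fin N → ℂ) :
    rst s u ∈ Z1 (rC N) (fP V.P s) ↔ CocOn ((Q.A s : Set ℂ)ᶜ) (rP Q V.P s) u := by
  constructor
  · intro h z hz
    obtain ⟨U, hU, h1⟩ := h ⟨z, hz⟩
    obtain ⟨W, hW, h2⟩ := exists_nhds _ hU
    refine ⟨W, hW, fun x hx y hy t ht => ?_⟩
    obtain ⟨hx', hx2⟩ := h2 x hx
    obtain ⟨hy', hy2⟩ := h2 y hy
    obtain ⟨ht', ht2⟩ := h2 t ht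
    have h3 := h1 _ hx2 _ hy2 _ ht2
    have h4 := rP_eq V s ⟨x, hx'⟩ ⟨y, hy'⟩
    simp only [] at h4
    rw [h4]
    exact h3.symm
  · intro h z
    obtain ⟨U, hU, h1⟩ := h z.1 z.2
    refine ⟨_, preimage_nhds z hU, fun x hx y hy t ht => ?_⟩
    have h3 := h1 _ hx _ hy _ ht
    rw [rP_eq V s x y] at h3
    exact h3.symm

/-- dictionary for coboundaries on an open subset -/
theorem zeroOn_iff {s : S} {u : ℂ → ℂ → Fin N → ℂ} (hu : rst s u ∈ Z1 (rC N) (fP V.P s))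
    (U : Set ℂ) :
    ZeroOn (rC N) (cls (rC N) (rst s u) hu) {x : Fib Q s | x.1 ∈ U} ↔
      CobOn (U ∩ (Q.A s : Set ℂ)ᶜ) (rP Q V.P s) u := by
  classical
  rw [zeroOn_cls_iff (fP_ndc (vndc V) s)]
  constructor
  · rintro ⟨f, hf⟩
    refine ⟨fun x => if h : x ∉ Q.A s then f ⟨x, h⟩ else 0, fun z hz => ?_⟩
    obtain ⟨U', hU', h1⟩ := hf ⟨z, hz.2⟩ hz.1
    obtain ⟨W, hW, h2⟩ := exists_nhds _ hU'
    refine ⟨W, hW, fun x hx y hy => ?_⟩
    obtain ⟨hx', hx2⟩ := h2 x hx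
    obtain ⟨hy', hy2⟩ := h2 y hy
    have h3 := h1 _ hx2 _ hy2
    have h4 := rP_eq V s ⟨x, hx'⟩ ⟨y, hy'⟩
    simp only [] at h4
    beta_reduce
    rw [h4, dif_pos hx', dif_pos hy']
    exact h3
  · rintro ⟨f, hf⟩
    refine ⟨fun x => f x.1, fun z hz => ?_⟩
    obtain ⟨U', hU', h1⟩ := hf z.1 ⟨hz, z.2⟩
    refine ⟨_, preimage_nhds z hU', fun x hx y hy => ?_⟩
    have h3 := h1 _ hx _ hy
    rw [rP_eq V s x y] at h3
    exact h3

/-- the class of a cocycle on the plane -/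
def cl (s : S) (u : ℂ → ℂ → Fin N → ℂ) (hu : CocOn ((Q.A s : Set ℂ)ᶜ) (rP Q V.P s) u) :
    HF (rC N) V.P s := cls (rC N) (rst s u) ((rst_mem_iff V s u).2 hu)

lemma cl_surj (s : S) (a : HF (rC N) V.P s) :
    ∃ (u : ℂ → ℂ → Fin N → ℂ) (hu : CocOn ((Q.A s : Set ℂ)ᶜ) (rP Q V.P s) u), cl V s u hu = a := by
  obtain ⟨c, hc, rfl⟩ := cls_surj _ a
  have hc' : rst s (exz c) ∈ Z1 (rC N) (fP V.P s) := by rw [rst_exz]; exact hc
  refine ⟨exz c, (rst_mem_iff V s _).1 hc', ?_⟩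
  unfold cl
  congr 1
  exact rst_exz c

lemma zeroOn_cl_iff {s : S} {u : ℂ → ℂ → Fin N → ℂ}
    {hu : CocOn ((Q.A s : Set ℂ)ᶜ) (rP Q V.P s) u} (U : Set ℂ) :
    ZeroOn (rC N) (cl V s u hu) {x : Fib Q s | x.1 ∈ U} ↔
      CobOn (U ∩ (Q.A s : Set ℂ)ᶜ) (rP Q V.P s) u :=
  zeroOn_iff V ((rst_mem_iff V s u).2 hu) U

lemma cl_eq_zero_iff {s : S} {u : ℂ → ℂ → Fin N → ℂ}
    {hu : CocOn ((Q.A s : Set ℂ)ᶜ) (rP Q V.P s) u} :
    cl V s u hu = 0 ↔ CobOn ((Q.A s : Set ℂ)ᶜ) (rP Q V.P s) u := by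
  rw [← zeroOn_univ_iff]
  have h := zeroOn_cl_iff V (u := u) (hu := hu) univ
  rw [univ_inter] at h
  rw [← h]
  have : {x : Fib Q s | x.1 ∈ (univ : Set ℂ)} = univ := by ext; simp
  rw [this]

lemma cl_add {s : S} {u u' : ℂ → ℂ → Fin N → ℂ}
    (hu : CocOn ((Q.A s : Set ℂ)ᶜ) (rP Q V.P s) u) (hu' : CocOn ((Q.A s : Set ℂ)ᶜ) (rP Q V.P s) u')
    (h : CocOn ((Q.A s : Set ℂ)ᶜ) (rP Q V.P s) (fun x y => u x y + u' x y)) :
    cl V s _ h = cl V s u hu + cl V s u' hu' := rfl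

lemma cl_sub {s : S} {u u' : ℂ → ℂ → Fin N → ℂ}
    (hu : CocOn ((Q.A s : Set ℂ)ᶜ) (rP Q V.P s) u) (hu' : CocOn ((Q.A s : Set ℂ)ᶜ) (rP Q V.P s) u')
    (h : CocOn ((Q.A s : Set ℂ)ᶜ) (rP Q V.P s) (fun x y => u x y - u' x y)) :
    cl V s _ h = cl V s u hu - cl V s u' hu' := rfl

lemma cl_smul {s : S} {u : ℂ → ℂ → Fin N → ℂ} (c : ℂ)
    (hu : CocOn ((Q.A s : Set ℂ)ᶜ) (rP Q V.P s) u)
    (h : CocOn ((Q.A s : Set ℂ)ᶜ) (rP Q V.P s) (fun x y => c • u x y)) :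
    cl V s _ h = c • cl V s u hu := rfl

lemma cl_eq_iff {s : S} {u u' : ℂ → ℂ → Fin N → ℂ}
    {hu : CocOn ((Q.A s : Set ℂ)ᶜ) (rP Q V.P s) u}
    {hu' : CocOn ((Q.A s : Set ℂ)ᶜ) (rP Q V.P s) u'} :
    cl V s u hu = cl V s u' hu' ↔
      CobOn ((Q.A s : Set ℂ)ᶜ) (rP Q V.P s) (fun x y => u x y - u' x y) := by
  have h : CocOn ((Q.A s : Set ℂ)ᶜ) (rP Q V.P s) (fun x y => u x y - u' x y) := by
    rw [← rst_mem_iff V s] at hu hu' ⊢
    exact Submodule.sub_mem _ hu hu'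
  rw [← cl_eq_zero_iff V (hu := h), cl_sub V hu hu' h, sub_eq_zero]

/-- parabolic classes -/
theorem cl_mem_par_iff {s : S} {u : ℂ → ℂ → Fin N → ℂ}
    {hu : CocOn ((Q.A s : Set ℂ)ᶜ) (rP Q V.P s) u} :
    cl V s u hu ∈ parF (rC N) V.P s ↔
      (∀ p ∈ Q.A s, ∃ U ∈ 𝓝 p, CobOn (U ∩ (Q.A s : Set ℂ)ᶜ) (rP Q V.P s) u) ∧
      ∃ r : ℝ, CobOn ({z | r < ‖z‖} ∩ (Q.A s : Set ℂ)ᶜ) (rP Q V.P s) u := by
  rw [mem_parF]
  refine and_congr ?_ ?_
  · refine forall₂_congr fun p _ => exists_congr fun U => and_congr_right fun _ => ?_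
    exact zeroOn_cl_iff V U
  · refine exists_congr fun r => ?_
    exact zeroOn_cl_iff V {z | r < ‖z‖}

end res

/-- gluing of coboundaries on a finite family of disjoint open sets -/
lemma cobOn_iUnion {ι : Type*} {O : ι → Set ℂ} (hO : ∀ i, IsOpen (O i))
    (hd : Pairwise fun i j => Disjoint (O i) (O j)) {P : ℂ → ℂ → GL (Fin N) ℤ}
    {u : ℂ → ℂ → Fin N → ℂ} (h : ∀ i, CobOn (O i) P u) : CobOn (⋃ i, O i) P u := by
  classical
  choose f hf using h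
  refine ⟨fun x => if hx : ∃ i, x ∈ O i then f hx.choose x else 0, fun z hz => ?_⟩
  obtain ⟨i, hi⟩ := mem_iUnion.1 hz
  have key : ∀ x ∈ O i, (if hx : ∃ i, x ∈ O i then f hx.choose x else 0) = f i x := by
    intro x hx
    have h1 : ∃ i, x ∈ O i := ⟨i, hx⟩
    rw [dif_pos h1]
    have h2 : h1.choose = i := by
      by_contra hne
      exact disjoint_left.1 (hd hne) h1.choose_spec hx
    rw [h2]
  obtain ⟨U, hU, h1⟩ := hf i z hi
  refine ⟨U ∩ O i, inter_mem hU ((hO i).mem_nhds hi), fun x hx y hy => ?_⟩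
  simp only []
  rw [key x hx.2, key y hy.2]
  exact h1 x hx.1 y hy.1

/-- parabolic = coboundary off a compact set -/
theorem par_iff_compact {A : Finset ℂ} {P : ℂ → ℂ → GL (Fin N) ℤ} {u : ℂ → ℂ → Fin N → ℂ} :
    ((∀ p ∈ A, ∃ U ∈ 𝓝 p, CobOn (U ∩ (A : Set ℂ)ᶜ) P u) ∧
      ∃ r : ℝ, CobOn ({z | r < ‖z‖} ∩ (A : Set ℂ)ᶜ) P u) ↔
      ∃ K : Set ℂ, IsCompact K ∧ K ⊆ (A : Set ℂ)ᶜ ∧ CobOn ((A : Set ℂ)ᶜ \ K) P u := by
  classical
  constructor
  · rintro ⟨h1, r, h2⟩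
    -- separate the points of `A`
    obtain ⟨e, he, hsep⟩ : ∃ e : ℝ, 0 < e ∧ ∀ p ∈ A, ∀ q ∈ A, p ≠ q → 2 * e ≤ dist p q := by
      let T : Finset (ℂ × ℂ) := (A ×ˢ A).filter (fun p => p.1 ≠ p.2)
      by_cases hT : T.Nonempty
      · obtain ⟨p, hp, hmin⟩ := T.exists_min_image (fun p => dist p.1 p.2) hT
        have hp' : p.1 ≠ p.2 := (Finset.mem_filter.1 hp).2
        refine ⟨dist p.1 p.2 / 2, by have := dist_pos.2 hp'; positivity, fun a ha b hb hab => ?_⟩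
        have := hmin (a, b) (Finset.mem_filter.2 ⟨Finset.mem_product.2 ⟨ha, hb⟩, hab⟩)
        simp only [] at this
        linarith
      · refine ⟨1, one_pos, fun a ha b hb hab => ?_⟩
        exact absurd ⟨(a, b), Finset.mem_filter.2 ⟨Finset.mem_product.2 ⟨ha, hb⟩, hab⟩⟩ hT
    have h3 : ∀ p : A, ∃ d : ℝ, 0 < d ∧ d ≤ e ∧ CobOn (Metric.ball p.1 d ∩ (A : Set ℂ)ᶜ) P u := by
      intro p
      obtain ⟨U, hU, h⟩ := h1 p.1 p.2
      obtain ⟨d, hd, hdU⟩ := Metric.mem_nhds_iff.1 hU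
      refine ⟨min d e, lt_min hd he, min_le_right _ _, h.mono ?_⟩
      exact inter_subset_inter_left _ ((Metric.ball_subset_ball (min_le_left _ _)).trans hdU)
    choose d hd0 hde hd using h3
    obtain ⟨t, ht⟩ : ∃ t : ℝ, ∀ p ∈ A, ‖p‖ + e ≤ t := by
      obtain ⟨t, ht⟩ := (A.finite_toSet.image (fun p : ℂ => ‖p‖ + e)).bddAbove
      exact ⟨t, fun p hp => ht (mem_image_of_mem _ hp)⟩
    set r' := max r t with hr'
    let O : Option A → Set ℂ := fun o => match o with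
      | none => {z | r' < ‖z‖}
      | some p => Metric.ball p.1 (d p) ∩ (A : Set ℂ)ᶜ
    have hAo : IsOpen ((A : Set ℂ)ᶜ) := A.finite_toSet.isClosed.isOpen_compl
    have hOo : ∀ o, IsOpen (O o) := by
      intro o
      match o with
      | none => exact isOpen_lt continuous_const continuous_norm
      | some p => exact Metric.isOpen_ball.inter hAo
    have hfar : ∀ p : A, ∀ z ∈ Metric.ball p.1 (d p), ‖z‖ ≤ r' := by
      intro p z hz
      have h4 : ‖z‖ ≤ ‖p.1‖ + ‖z - p.1‖ := by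
        have := norm_add_le p.1 (z - p.1)
        rwa [add_sub_cancel] at this
      have h5 : ‖z - p.1‖ < d p := by rw [← dist_eq_norm]; exact hz
      have h6 := ht p.1 p.2
      have h7 := hde p
      calc ‖z‖ ≤ ‖p.1‖ + e := by linarith
        _ ≤ t := h6
        _ ≤ r' := le_max_right _ _
    have hdis : Pairwise fun i j => Disjoint (O i) (O j) := by
      intro i j hij
      rw [Set.disjoint_left]
      intro z hi hj
      match i, j, hij, hi, hj with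
      | none, none, hij, _, _ => exact hij rfl
      | none, some p, _, hi, hj => exact absurd (hfar p z hj.1) (not_le.2 hi)
      | some p, none, _, hi, hj => exact absurd (hfar p z hi.1) (not_le.2 hj)
      | some p, some q, hij, hi, hj =>
        have hpq : p.1 ≠ q.1 := fun h => hij (congrArg some (Subtype.ext h))
        have h4 := hsep p.1 p.2 q.1 q.2 hpq
        have h5 : dist z p.1 < d p := hi.1
        have h6 : dist z q.1 < d q := hj.1
        have h7 := dist_triangle_left p.1 q.1 z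
        have h8 := hde p
        have h9 := hde q
        linarith
    have hcob : CobOn (⋃ o, O o) P u := by
      refine cobOn_iUnion hOo hdis fun o => ?_
      match o with
      | none =>
        refine h2.mono fun z hz => ⟨lt_of_le_of_lt (le_max_left r t) hz, fun hzA => ?_⟩
        have h4 := ht z hzA
        have h5 : r' < ‖z‖ := hz
        have h6 : t ≤ r' := le_max_right _ _
        linarith
      | some p => exact hd p
    refine ⟨Metric.closedBall 0 r' \ ⋃ p : A, Metric.ball p.1 (d p), ?_, ?_, hcob.mono ?_⟩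
    · exact (isCompact_closedBall _ _).diff (isOpen_iUnion fun p => Metric.isOpen_ball)
    · intro z hz hzA
      exact hz.2 (mem_iUnion.2 ⟨⟨z, hzA⟩, Metric.mem_ball_self (hd0 _)⟩)
    · rintro z ⟨hz1, hz2⟩
      by_cases hz3 : ‖z‖ ≤ r'
      · have hz4 : z ∈ ⋃ p : A, Metric.ball p.1 (d p) := by
          by_contra hcon
          exact hz2 ⟨by rw [mem_closedBall_zero_iff]; exact hz3, hcon⟩
        obtain ⟨p, hp⟩ := mem_iUnion.1 hz4
        exact mem_iUnion.2 ⟨some p, hp, hz1⟩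
      · exact mem_iUnion.2 ⟨none, not_le.1 hz3⟩
  · rintro ⟨K, hK, hKA, h⟩
    refine ⟨fun p hp => ⟨Kᶜ, hK.isClosed.isOpen_compl.mem_nhds fun hpK => hKA hpK hp,
      h.mono fun z hz => ⟨hz.2, hz.1⟩⟩, ?_⟩
    obtain ⟨r, hr⟩ := hK.isBounded.subset_closedBall (0 : ℂ)
    refine ⟨r, h.mono fun z hz => ⟨hz.2, fun hzK => ?_⟩⟩
    have := hr hzK
    rw [mem_closedBall_zero_iff] at this
    exact absurd hz.1 (not_lt.2 this)

variable (V : VHS (m + 1) (Tot Q) N w)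

theorem cl_mem_par_iff_compact {s : S} {u : ℂ → ℂ → Fin N → ℂ}
    {hu : CocOn ((Q.A s : Set ℂ)ᶜ) (rP Q V.P s) u} :
    cl V s u hu ∈ parF (rC N) V.P s ↔
      ∃ K : Set ℂ, IsCompact K ∧ K ⊆ (Q.A s : Set ℂ)ᶜ ∧
        CobOn ((Q.A s : Set ℂ)ᶜ \ K) (rP Q V.P s) u := by
  rw [cl_mem_par_iff, par_iff_compact]

/-- integral classes -/
theorem mem_LW_cl_iff {s : S} {a : Wf V s} :
    a ∈ LW V s ↔ ∃ (u : ℂ → ℂ → Fin N → ℂ) (hu : CocOn ((Q.A s : Set ℂ)ᶜ) (rP Q V.P s) u),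
      (∀ x y, ∃ v : Fin N → ℤ, u x y = iZ N v) ∧ cl V s u hu = a.1 := by
  rw [mem_LW_iff]
  constructor
  · rintro ⟨c, hc, h⟩
    have hc' := coef_mem (iZ N) iZ_r hc
    have hc2 : rst s (exz fun x y => iZ N (c x y)) ∈ Z1 (rC N) (fP V.P s) := by
      rw [rst_exz]; exact hc'
    refine ⟨exz fun x y => iZ N (c x y), (rst_mem_iff V s _).1 hc2, fun x y => ?_, ?_⟩
    · unfold exz
      split_ifs with h
      · exact ⟨_, rfl⟩
      · exact ⟨0, by rw [map_zero]⟩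
    · rw [← h]
      unfold cl
      congr 1
      exact rst_exz _
  · rintro ⟨u, hu, h1, h2⟩
    choose c hc using h1
    have hz : rst s c ∈ Z1 (rZ N) (fP V.P s) := by
      intro z
      obtain ⟨U, hU, h3⟩ := (rst_mem_iff V s u).2 hu z
      refine ⟨U, hU, fun x hx y hy t ht => ?_⟩
      have h4 := h3 x hx y hy t ht
      have hinj : Function.Injective (iZ N) := by
        intro a b hab
        funext i
        have := congrFun hab i
        simpa using this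
      apply hinj
      rw [map_add, iZ_r]
      show iZ N (c x.1 t.1) = iZ N (c x.1 y.1) + rC N (fP V.P s x y) (iZ N (c y.1 t.1))
      rw [← hc, ← hc, ← hc]
      exact h4
    refine ⟨rst s c, hz, ?_⟩
    rw [← h2]
    unfold cl
    congr 1
    funext x y
    exact (hc x.1 y.1).symm

end Crest.Agent.R276.Top3_279
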