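import Mathlib
import Crest.Agent.R276.Top3h_279
import Crest.Agent.R276.DR4_175
import Crest.Agent.R276.DR5_175

/-!
# Row 276, IPC (helper175): the class of a smooth closed parabolic form

`V : VHS (m+1) (Tot Q) N w`, `s : S`, `Wf V s` = parabolic classes of the fibre (helper279).
* `SC R a b` : smooth closed form; `CF R a b` : moreover compactly supported in `ℂ \ A`.
* `wcl V s a b : Wf V s` : class of a smooth closed parabolic form.
* `wcl_add`, `wcl_smul`, `wcl_eq_zero`, `wcl_surj`, `wcl_sub_exact`.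
* `wcl_tau` : compatibility with the transports.
-/

set_option autoImplicit false
set_option linter.unusedSectionVars false

noncomputable section

open Set Filter Topology MeasureTheory Matrix
open Crest.Agent.R271.Ho51
open Crest.Agent.R276.Ipc735 Crest.Agent.R276.DR_175 Crest.Agent.R276.Top3_279

namespace Crest.Agent.R276.Wcl_175

variable {N w : ℕ}

/-- smooth closed form -/
structure SC {A : Finset ℂ} (R : PVHS A N w) (a b : ℂ → Fin N → ℂ) : Prop where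
  smA : R.Sm a
  smB : R.Sm b
  cl : R.Closed a b

/-- smooth closed form with compact support in `ℂ \ A` -/
structure CF {A : Finset ℂ} (R : PVHS A N w) (a b : ℂ → Fin N → ℂ) : Prop extends SC R a b where
  cpt : ∃ K : Set ℂ, IsCompact K ∧ K ⊆ (A : Set ℂ)ᶜ ∧ ∀ x ∉ K, a x = 0 ∧ b x = 0

/-! ### general lemmas on representations -/

section rep

variable {O : Set ℂ} {P : ℂ → ℂ → GL (Fin N) ℤ} {u u' : ℂ → ℂ → Fin N → ℂ}
  {f f' a b a' b' : ℂ → Fin N → ℂ}

lemma RepBy.add (h : RepBy O P u f a b) (h' : RepBy O P u' f' a' b') :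
    RepBy O P (fun x y => u x y + u' x y) (fun x => f x + f' x) (a + a') (b + b') := by
  intro z hz
  obtain ⟨h1, h2, h3⟩ := h z hz
  obtain ⟨h1', h2', h3'⟩ := h' z hz
  have e : DR_175.aff P (fun x y => u x y + u' x y) (fun x => f x + f' x) z =
      fun y => DR_175.aff P u f z y + DR_175.aff P u' f' z y := by
    funext y; unfold DR_175.aff; beta_reduce; rw [map_add]; abel
  rw [e]
  refine ⟨h1.add h1', ?_, ?_⟩
  · rw [wz_add (near_diff h1) (near_diff h1'), h2, h2']; rfl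
  · rw [wb_add (near_diff h1) (near_diff h1'), h3, h3']; rfl

lemma RepBy.smul (c : ℂ) (h : RepBy O P u f a b) :
    RepBy O P (fun x y => c • u x y) (fun x => c • f x) (c • a) (c • b) := by
  intro z hz
  obtain ⟨h1, h2, h3⟩ := h z hz
  let T : (Fin N → ℂ) →L[ℂ] (Fin N → ℂ) := c • ContinuousLinearMap.id ℂ _
  have e : DR_175.aff P (fun x y => c • u x y) (fun x => c • f x) z = fun y => T (DR_175.aff P u f z y) := by
    funext y
    show act (P z y) (c • f y) + c • u z y = c • DR_175.aff P u f z y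
    unfold DR_175.aff; rw [map_smul, smul_add]
  rw [e]
  refine ⟨(T.restrictScalars ℝ).contDiff.contDiffAt.comp z h1, ?_, ?_⟩
  · rw [wz_clm T (near_diff h1), h2]; rfl
  · rw [wb_clm T (near_diff h1), h3]; rfl

lemma RepBy.congr (h : RepBy O P u f a b) (ha : ∀ z ∈ O, a' z = a z) (hb : ∀ z ∈ O, b' z = b z) :
    RepBy O P u f a' b' := by
  intro z hz
  obtain ⟨h1, h2, h3⟩ := h z hz
  exact ⟨h1, h2.trans (ha z hz).symm, h3.trans (hb z hz).symm⟩

lemma Rep.congr (h : Rep O P u a b) (ha : ∀ z ∈ O, a' z = a z) (hb : ∀ z ∈ O, b' z = b z) :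
    Rep O P u a' b' := by
  obtain ⟨f, hf⟩ := h
  exact ⟨f, RepBy.congr hf ha hb⟩

lemma CocOn.add' (hu : CocOn O P u) (hu' : CocOn O P u') : CocOn O P (fun x y => u x y + u' x y) := by
  intro z hz
  obtain ⟨U, hU, h⟩ := hu z hz
  obtain ⟨U', hU', h'⟩ := hu' z hz
  refine ⟨U ∩ U', Filter.inter_mem hU hU', fun x hx y hy t ht => ?_⟩
  beta_reduce
  rw [← h x hx.1 y hy.1 t ht.1, ← h' x hx.2 y hy.2 t ht.2, map_add]; abel

lemma CocOn.smul' (c : ℂ) (hu : CocOn O P u) : CocOn O P (fun x y => c • u x y) := by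
  intro z hz
  obtain ⟨U, hU, h⟩ := hu z hz
  refine ⟨U, hU, fun x hx y hy t ht => ?_⟩
  beta_reduce
  rw [← h x hx y hy t ht, map_smul, smul_add]

lemma CocOn.sub' (hu : CocOn O P u) (hu' : CocOn O P u') : CocOn O P (fun x y => u x y - u' x y) := by
  have h := CocOn.add' hu (CocOn.smul' (-1) hu')
  have e : (fun x y => u x y - u' x y) = fun x y => u x y + (-1 : ℂ) • u' x y := by
    funext x y; rw [neg_one_smul, sub_eq_add_neg]
  rw [e]; exact h

end rep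

variable {m : ℕ} {S : Type*} [TopologicalSpace S] [RDom m S] {k : ℕ} {Q : Punc S k}
  (V : VHS (m + 1) (Tot Q) N w)

lemma ndcOn (s : S) : NDCOn ((Q.A s : Set ℂ)ᶜ) (rP Q V.P s) := by
  have h := (V.res s).ndc
  rwa [(V.isRes s).P] at h

lemma sm_iff (s : S) (φ : ℂ → Fin N → ℂ) :
    (V.res s).Sm φ ↔ SmOn ((Q.A s : Set ℂ)ᶜ) (rP Q V.P s) φ := by
  unfold PVHS.Sm SmOn
  rw [(V.isRes s).P]
  rfl

lemma closed_iff (s : S) (a b : ℂ → Fin N → ℂ) :
    (V.res s).Closed a b ↔ ClOn ((Q.A s : Set ℂ)ᶜ) (rP Q V.P s) a b := by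
  unfold PVHS.Closed PVHS.d1 PVHS.d2 ClOn
  rw [(V.isRes s).P]
  rfl

lemma d1_eq (s : S) (φ : ℂ → Fin N → ℂ) : (V.res s).d1 φ = e1 (rP Q V.P s) φ := by
  unfold PVHS.d1 e1
  rw [(V.isRes s).P]

lemma d2_eq (s : S) (φ : ℂ → Fin N → ℂ) : (V.res s).d2 φ = e2 (rP Q V.P s) φ := by
  unfold PVHS.d2 e2
  rw [(V.isRes s).P]

lemma exactOn_iff (s : S) (U : Set ℂ) (a b : ℂ → Fin N → ℂ) :
    (V.res s).ExactOn U a b ↔ Rep (U ∩ (Q.A s : Set ℂ)ᶜ) (rP Q V.P s) (fun _ _ => 0) a b := by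
  rw [← exactNear_iff_rep, exactNear_iff, (V.isRes s).P]

variable {V} {s : S} {a b a' b' : ℂ → Fin N → ℂ} {u : ℂ → ℂ → Fin N → ℂ}

/-- smooth closed forms represent cocycles -/
lemma SC.exists_rep (h : SC (V.res s) a b) : ∃ u, CocOn ((Q.A s : Set ℂ)ᶜ) (rP Q V.P s) u ∧
    Rep ((Q.A s : Set ℂ)ᶜ) (rP Q V.P s) u a b := by
  obtain ⟨u, hu, hr⟩ := DR_175.exists_rep (isOpen_compl Q s) (ndcOn V s) ((sm_iff V s a).1 h.smA)
    ((sm_iff V s b).1 h.smB) ((closed_iff V s a b).1 h.cl)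
  exact ⟨u, hu, _, hr⟩

lemma sc_of_rep (hu : CocOn ((Q.A s : Set ℂ)ᶜ) (rP Q V.P s) u)
    (h : Rep ((Q.A s : Set ℂ)ᶜ) (rP Q V.P s) u a b) : SC (V.res s) a b := by
  obtain ⟨f, hf⟩ := h
  obtain ⟨h1, h2, h3⟩ := hf.smooth (isOpen_compl Q s) (ndcOn V s) hu
  exact ⟨(sm_iff V s a).2 h1, (sm_iff V s b).2 h2, (closed_iff V s a b).2 h3⟩

open Classical in
variable (V s) in
/-- the class in `H1` of the fibre of a smooth closed form -/
def clH (a b : ℂ → Fin N → ℂ) : HF (rC N) V.P s :=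
  if h : SC (V.res s) a b then Top3_279.cl V s h.exists_rep.choose h.exists_rep.choose_spec.1 else 0

lemma clH_eq (hu : CocOn ((Q.A s : Set ℂ)ᶜ) (rP Q V.P s) u)
    (h : Rep ((Q.A s : Set ℂ)ᶜ) (rP Q V.P s) u a b) : clH V s a b = Top3_279.cl V s u hu := by
  have hsc := sc_of_rep hu h
  rw [clH, dif_pos hsc, cl_eq_iff]
  exact Rep.cob (isOpen_compl Q s) (ndcOn V s) hsc.exists_rep.choose_spec.1 hu
    hsc.exists_rep.choose_spec.2 h

lemma clH_of_not (h : ¬ SC (V.res s) a b) : clH V s a b = 0 := by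
  rw [clH, dif_neg h]

lemma SC.add (h : SC (V.res s) a b) (h' : SC (V.res s) a' b') :
    SC (V.res s) (a + a') (b + b') := by
  obtain ⟨u, hu, f, hf⟩ := h.exists_rep
  obtain ⟨u', hu', f', hf'⟩ := h'.exists_rep
  exact sc_of_rep (CocOn.add' hu hu') ⟨_, RepBy.add hf hf'⟩

lemma SC.smul (c : ℂ) (h : SC (V.res s) a b) : SC (V.res s) (c • a) (c • b) := by
  obtain ⟨u, hu, f, hf⟩ := h.exists_rep
  exact sc_of_rep (CocOn.smul' c hu) ⟨_, RepBy.smul c hf⟩

lemma clH_add (h : SC (V.res s) a b) (h' : SC (V.res s) a' b') :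
    clH V s (a + a') (b + b') = clH V s a b + clH V s a' b' := by
  obtain ⟨u, hu, f, hf⟩ := h.exists_rep
  obtain ⟨u', hu', f', hf'⟩ := h'.exists_rep
  rw [clH_eq hu ⟨f, hf⟩, clH_eq hu' ⟨f', hf'⟩, clH_eq (CocOn.add' hu hu') ⟨_, RepBy.add hf hf'⟩,
    cl_add V hu hu']

lemma clH_smul (c : ℂ) (h : SC (V.res s) a b) :
    clH V s (c • a) (c • b) = c • clH V s a b := by
  obtain ⟨u, hu, f, hf⟩ := h.exists_rep
  rw [clH_eq hu ⟨f, hf⟩, clH_eq (CocOn.smul' c hu) ⟨_, RepBy.smul c hf⟩, cl_smul V c hu]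

/-- the class vanishes iff the form is exact -/
lemma clH_eq_zero_iff (h : SC (V.res s) a b) : clH V s a b = 0 ↔
    ∃ φ, (V.res s).Sm φ ∧ ∀ z ∉ Q.A s, (V.res s).d1 φ z = a z ∧ (V.res s).d2 φ z = b z := by
  obtain ⟨u, hu, hr⟩ := h.exists_rep
  rw [clH_eq hu hr, cl_eq_zero_iff, ← Rep.exact_iff (isOpen_compl Q s) (ndcOn V s) hu hr,
    rep_zero_iff]
  constructor
  · rintro ⟨φ, hφ⟩
    refine ⟨φ, (sm_iff V s φ).2 fun z hz => (hφ z hz).1, fun z hz => ?_⟩
    rw [d1_eq, d2_eq]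
    exact (hφ z hz).2
  · rintro ⟨φ, h1, h2⟩
    refine ⟨φ, fun z hz => ⟨(sm_iff V s φ).1 h1 z hz, ?_⟩⟩
    have := h2 z hz
    rwa [d1_eq, d2_eq] at this

/-- parabolic forms are those with parabolic class -/
lemma clH_mem_par_iff (h : SC (V.res s) a b) :
    clH V s a b ∈ parF (rC N) V.P s ↔ (V.res s).Par a b := by
  obtain ⟨u, hu, hr⟩ := h.exists_rep
  rw [clH_eq hu hr, cl_mem_par_iff]
  unfold PVHS.Par
  have key : ∀ U : Set ℂ, IsOpen U → (CobOn (U ∩ (Q.A s : Set ℂ)ᶜ) (rP Q V.P s) u ↔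
      (V.res s).ExactOn U a b) := by
    intro U hU
    rw [exactOn_iff]
    have hO : IsOpen (U ∩ (Q.A s : Set ℂ)ᶜ) := hU.inter (isOpen_compl Q s)
    have hsub : U ∩ (Q.A s : Set ℂ)ᶜ ⊆ (Q.A s : Set ℂ)ᶜ := inter_subset_right
    obtain ⟨f, hf⟩ := hr
    exact (Rep.exact_iff hO (NDCOn.mono (ndcOn V s) hsub) (CocOn.mono hu hsub)
      ⟨f, RepBy.mono hf hsub⟩).symm
  constructor
  · rintro ⟨h1, r, h2⟩
    refine ⟨fun p hp => ?_, r, (key _ (isOpen_lt continuous_const continuous_norm)).1 h2⟩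
    obtain ⟨U, hU, h3⟩ := h1 p hp
    obtain ⟨W, hWU, hW, hpW⟩ := mem_nhds_iff.1 hU
    exact ⟨W, hW.mem_nhds hpW, (key W hW).1 (CobOn.mono h3 (inter_subset_inter_left _ hWU))⟩
  · rintro ⟨h1, r, h2⟩
    refine ⟨fun p hp => ?_, r, (key _ (isOpen_lt continuous_const continuous_norm)).2 h2⟩
    obtain ⟨U, hU, φ, h3⟩ := h1 p hp
    obtain ⟨W, hWU, hW, hpW⟩ := mem_nhds_iff.1 hU
    exact ⟨W, hW.mem_nhds hpW, (key W hW).2 ⟨φ, fun z hz hzA => h3 z (hWU hz) hzA⟩⟩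

open Classical in
variable (V s) in
/-- the class of a smooth closed parabolic form -/
def wcl (a b : ℂ → Fin N → ℂ) : Wf V s :=
  if h : clH V s a b ∈ parF (rC N) V.P s then ⟨clH V s a b, h⟩ else 0

lemma wcl_val (h : SC (V.res s) a b) (hp : (V.res s).Par a b) :
    (wcl V s a b).1 = clH V s a b := by
  have h1 := (clH_mem_par_iff h).2 hp
  rw [wcl, dif_pos h1]

lemma CF.par (h : CF (V.res s) a b) : (V.res s).Par a b := by
  obtain ⟨K, hK, hKA, h0⟩ := h.cpt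
  have key : ∀ U : Set ℂ, Disjoint U K → (V.res s).ExactOn U a b := by
    intro U hU
    rw [exactOn_iff, rep_zero_iff]
    refine ⟨fun _ => 0, fun z hz => ⟨sm_zero, ?_⟩⟩
    have hzK : z ∉ K := fun hk => Set.disjoint_left.1 hU hz.1 hk
    have e0 : lV (rP Q V.P s) (fun _ => (0 : Fin N → ℂ)) z = fun _ => 0 := by
      funext y; rw [lV_eq, map_zero]
    constructor
    · rw [(h0 z hzK).1, e1, e0, wz_const]
    · rw [(h0 z hzK).2, e2, e0, wb_const]
  refine ⟨fun p hp => ⟨Kᶜ, hK.isClosed.isOpen_compl.mem_nhds fun hpK => hKA hpK hp,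
    key _ disjoint_compl_left⟩, ?_⟩
  obtain ⟨r, hr⟩ := hK.isBounded.subset_closedBall (0 : ℂ)
  refine ⟨r, key _ ?_⟩
  rw [Set.disjoint_left]
  intro z hz hzK
  have := hr hzK
  rw [mem_closedBall_zero_iff] at this
  exact absurd hz (not_lt.2 this)

lemma par_add (h : SC (V.res s) a b) (h' : SC (V.res s) a' b') (hp : (V.res s).Par a b)
    (hp' : (V.res s).Par a' b') : (V.res s).Par (a + a') (b + b') := by
  rw [← clH_mem_par_iff (h.add h'), clH_add h h']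
  exact Submodule.add_mem _ ((clH_mem_par_iff h).2 hp) ((clH_mem_par_iff h').2 hp')

lemma par_smul (c : ℂ) (h : SC (V.res s) a b) (hp : (V.res s).Par a b) :
    (V.res s).Par (c • a) (c • b) := by
  rw [← clH_mem_par_iff (h.smul c), clH_smul c h]
  exact Submodule.smul_mem _ c ((clH_mem_par_iff h).2 hp)

theorem wcl_add (h : SC (V.res s) a b) (h' : SC (V.res s) a' b') (hp : (V.res s).Par a b)
    (hp' : (V.res s).Par a' b') : wcl V s (a + a') (b + b') = wcl V s a b + wcl V s a' b' := by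
  apply Subtype.ext
  rw [wcl_val (h.add h') (par_add h h' hp hp'), clH_add h h']
  show _ = (wcl V s a b).1 + (wcl V s a' b').1
  rw [wcl_val h hp, wcl_val h' hp']

theorem wcl_smul (c : ℂ) (h : SC (V.res s) a b) (hp : (V.res s).Par a b) :
    wcl V s (c • a) (c • b) = c • wcl V s a b := by
  apply Subtype.ext
  rw [wcl_val (h.smul c) (par_smul c h hp), clH_smul c h]
  show _ = c • (wcl V s a b).1
  rw [wcl_val h hp]

/-- the class vanishes iff the form is exact -/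
theorem wcl_eq_zero (h : SC (V.res s) a b) (hp : (V.res s).Par a b) : wcl V s a b = 0 ↔
    ∃ φ, (V.res s).Sm φ ∧ ∀ z ∉ Q.A s, (V.res s).d1 φ z = a z ∧ (V.res s).d2 φ z = b z := by
  rw [← clH_eq_zero_iff h, ← wcl_val h hp]
  constructor
  · intro h0; rw [h0]; rfl
  · intro h0; exact Subtype.ext h0

/-- adding an exact form does not change the class -/
theorem clH_congr_exact (h : SC (V.res s) a b) {g : ℂ → Fin N → ℂ} (hg : (V.res s).Sm g)
    (ha : ∀ z ∉ Q.A s, a' z = a z - (V.res s).d1 g z)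
    (hb : ∀ z ∉ Q.A s, b' z = b z - (V.res s).d2 g z) :
    SC (V.res s) a' b' ∧ clH V s a' b' = clH V s a b := by
  obtain ⟨u, hu, f, hf⟩ := h.exists_rep
  have h1 : RepBy ((Q.A s : Set ℂ)ᶜ) (rP Q V.P s) (fun _ _ => 0) g (e1 (rP Q V.P s) g)
      (e2 (rP Q V.P s) g) := by
    intro z hz
    rw [aff_zero]
    exact ⟨(sm_iff V s g).1 hg z hz, rfl, rfl⟩
  have h2 := RepBy.add hf (RepBy.smul (-1) h1)
  have h3 : (fun x y => u x y + (-1 : ℂ) • ((fun _ _ => 0 : ℂ → ℂ → Fin N → ℂ) x y)) = u := by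
    funext x y; simp
  rw [h3] at h2
  have h4 : Rep ((Q.A s : Set ℂ)ᶜ) (rP Q V.P s) u a' b' := by
    refine ⟨_, RepBy.congr h2 (fun z hz => ?_) (fun z hz => ?_)⟩
    · rw [ha z hz, d1_eq, Pi.add_apply, Pi.smul_apply, neg_one_smul, sub_eq_add_neg]
    · rw [hb z hz, d2_eq, Pi.add_apply, Pi.smul_apply, neg_one_smul, sub_eq_add_neg]
  exact ⟨sc_of_rep hu h4, by rw [clH_eq hu h4, clH_eq hu ⟨f, hf⟩]⟩

/-- every parabolic form is cohomologous to a compactly supported one -/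
theorem exists_CF (h : SC (V.res s) a b) (hp : (V.res s).Par a b) :
    ∃ a' b' g, CF (V.res s) a' b' ∧ (V.res s).Sm g ∧
      (∀ z ∉ Q.A s, a' z = a z - (V.res s).d1 g z ∧ b' z = b z - (V.res s).d2 g z) ∧
      wcl V s a' b' = wcl V s a b := by
  classical
  obtain ⟨h1, R, h2⟩ := hp
  have h1' : ∀ p ∈ Q.A s, ∃ U ∈ 𝓝 p, ExactNear (Q.A s) (rP Q V.P s) U a b := by
    intro p hp
    obtain ⟨U, hU, hex⟩ := h1 p hp
    rw [exactNear_iff, (V.isRes s).P] at hex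
    exact ⟨U, hU, hex⟩
  have h2' : ∃ R : ℝ, ExactNear (Q.A s) (rP Q V.P s) {z | R < ‖z‖} a b := by
    rw [exactNear_iff, (V.isRes s).P] at h2
    exact ⟨R, h2⟩
  obtain ⟨g, hg, K, hK, hKA, hcut⟩ := exists_cut h1' h2'
  have hgS : (V.res s).Sm g := (sm_iff V s g).2 hg
  let a' : ℂ → Fin N → ℂ := fun z => if z ∈ Q.A s then 0 else a z - (V.res s).d1 g z
  let b' : ℂ → Fin N → ℂ := fun z => if z ∈ Q.A s then 0 else b z - (V.res s).d2 g z
  have ea : ∀ z ∉ Q.A s, a' z = a z - (V.res s).d1 g z := fun z hz => if_neg hz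
  have eb : ∀ z ∉ Q.A s, b' z = b z - (V.res s).d2 g z := fun z hz => if_neg hz
  obtain ⟨h3, h4⟩ := clH_congr_exact h hgS ea eb
  have hcf : CF (V.res s) a' b' := by
    refine ⟨h3, K, hK, hKA, fun z hz => ?_⟩
    by_cases hzA : z ∈ Q.A s
    · exact ⟨if_pos hzA, if_pos hzA⟩
    · obtain ⟨h5, h6⟩ := hcut z hz hzA
      rw [ea z hzA, eb z hzA, d1_eq, d2_eq, h5, h6]
      exact ⟨sub_self _, sub_self _⟩
  refine ⟨a', b', g, hcf, hgS, fun z hz => ⟨ea z hz, eb z hz⟩, ?_⟩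
  apply Subtype.ext
  rw [wcl_val h3 hcf.par, wcl_val h ⟨h1, R, h2⟩, h4]

/-- every class is the class of a compactly supported form -/
theorem wcl_surj (c : Wf V s) : ∃ a b, CF (V.res s) a b ∧ wcl V s a b = c := by
  obtain ⟨u, hu, hc⟩ := cl_surj V s c.1
  obtain ⟨a, b, hr⟩ := exists_form (ndcOn V s) hu
  have hsc := sc_of_rep hu hr
  have hcl : clH V s a b = c.1 := by rw [clH_eq hu hr, hc]
  have hp : (V.res s).Par a b := by
    rw [← clH_mem_par_iff hsc, hcl]; exact c.2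
  obtain ⟨a', b', g, hcf, -, -, h⟩ := exists_CF hsc hp
  refine ⟨a', b', hcf, ?_⟩
  rw [h]
  apply Subtype.ext
  rw [wcl_val hsc hp, hcl]

end Crest.Agent.R276.Wcl_175
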