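import Crest.Agent.R276.PvO_175
import Crest.Agent.R276.Wcl_175
import Crest.Agent.R276.IpcAs_975
import Crest.Agent.R276.Top3k_279

/-!
# R276, IPC-LOC (helper175): dictionary, part 2

* `top_iff` : `R.Top f ↔ TopS (pvOf R) f ∧ f = 0 on A`; `exists_top` : the surjectivity in terms of `R.Top`.
* `cf_iff`, `exact_iff` : compactly supported closed forms and exactness.
* `cW : (pvOf (V.res s)).ZS →ₗ[ℂ] Wf V s`, onto, with kernel the exact forms (input of 975's `exists_cl`).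
-/

set_option autoImplicit false

noncomputable section

open Set Filter Topology MeasureTheory Matrix
open scoped ContDiff ComplexConjugate

namespace Crest.Agent.R276.PvO_175

open Crest.Agent.R271.Ho51
open Crest.Agent.R276.Ipc735 Crest.Agent.R276.Nat_591 Crest.Agent.R276.IpcG1_975
open Crest.Agent.R276.IpcGr_975 Crest.Agent.R276.TopE_175 Crest.Agent.R276.DR_175
open Crest.Agent.R276.Wcl_175 Crest.Agent.R276.Top3_279

/-! ### Cauchy-Riemann -/

section cr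

variable {F : Type*} [NormedAddCommGroup F] [NormedSpace ℂ F]

/-- Cauchy-Riemann -/
theorem differentiableAt_of_wb {f : ℂ → F} {z : ℂ} (h : DifferentiableAt ℝ f z)
    (h0 : Ipc735.wb f z = 0) : DifferentiableAt ℂ f z := by
  have h1 : HasFDerivAt f (fderiv ℝ f z) z := h.hasFDerivAt
  let L : ℂ →L[ℂ] F := ContinuousLinearMap.toSpanSingleton ℂ (Ipc735.wz f z)
  have h2 : L.restrictScalars ℝ = fderiv ℝ f z := by
    refine ContinuousLinearMap.ext fun v => ?_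
    rw [fderiv_eq_wir', wir_apply, h0, smul_zero, add_zero]
    rfl
  exact (hasFDerivAt_of_restrictScalars ℝ h1 h2).differentiableAt

theorem wb_of_differentiableAt {f : ℂ → F} {z : ℂ} (h : DifferentiableAt ℂ f z) :
    Ipc735.wb f z = 0 := by
  have h1 : HasFDerivAt f ((fderiv ℂ f z).restrictScalars ℝ) z := h.hasFDerivAt.restrictScalars ℝ
  unfold Ipc735.wb
  rw [h1.fderiv]
  have e1 : ((fderiv ℂ f z).restrictScalars ℝ) Complex.I = Complex.I • (fderiv ℂ f z) 1 := by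
    show (fderiv ℂ f z) Complex.I = _
    rw [← map_smul]
    simp
  rw [e1, smul_smul, Complex.I_mul_I]
  show (1 / 2 : ℂ) • ((fderiv ℂ f z) 1 + (-1 : ℂ) • (fderiv ℂ f z) 1) = 0
  simp

end cr

variable {A : Finset ℂ} {N w : ℕ} (R : PVHS A N w)

theorem smOn_iff (φ : ℂ → Fin N → ℂ) : R.Sm φ ↔ SmOn ((A : Set ℂ)ᶜ) R.P φ :=
  ⟨fun h z hz => h z hz, fun h z hz => h z hz⟩

/-- holomorphic sections = smooth sections with `∂̄ = 0` -/
theorem ho_iff (f : ℂ → Fin N → ℂ) : R.Ho f ↔ R.Sm f ∧ ∀ z ∉ A, R.d2 f z = 0 := by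
  constructor
  · intro h
    refine ⟨fun z hz => ?_, fun z hz => wb_of_differentiableAt (h z hz).differentiableAt⟩
    have h1 : ContDiffAt ℂ (⊤ : ℕ∞) (lV R.P f z) z := (h z hz).contDiffAt
    exact h1.restrict_scalars ℝ
  · rintro ⟨h1, h2⟩ z hz
    have hO : IsOpen ((A : Set ℂ)ᶜ) := A.finite_toSet.isClosed.isOpen_compl
    have h3 := smOn_near hO R.ndc ((smOn_iff R f).1 h1) (z := z) hz
    rw [Complex.analyticAt_iff_eventually_differentiableAt]
    filter_upwards [h3, hO.mem_nhds hz] with y hy hyA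
    refine differentiableAt_of_wb (hy.1.differentiableAt (by simp)) ?_
    have h4 := hy.2.2
    rw [h4]
    have h5 : e2 R.P f y = 0 := h2 y hyA
    show cm (R.P z y) *ᵥ e2 R.P f y = 0
    rw [h5, mulVec_zero]

/-- the top piece -/
theorem top_iff (f : ℂ → Fin N → ℂ) : R.Top f ↔ TopS (pvOf R) f ∧ ∀ z ∈ A, f z = 0 := by
  have hint : IntegrableOn (fun z => ((pvOf R).Gf z (f z) (f z)).re) ((A : Set ℂ)ᶜ) ↔
      IntegrableOn (R.nsq f) ((A : Set ℂ)ᶜ) :=
    integrableOn_congr_fun (fun z hz => pvOf_nsq R hz f)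
      (A.finite_toSet.isClosed.isOpen_compl).measurableSet
  constructor
  · intro h
    have h1 := (ho_iff R f).1 h.hol
    refine ⟨⟨(sm_iff R f).2 h1.1, fun z hz => ?_, fun z hz => ?_, hint.2 h.int⟩, h.zero⟩
    · rw [pvOf_Pf R le_rfl]
      have h2 := (R.hs z hz).hpr_mulVec_of_eig le_rfl (h.eig z hz) (q := w) le_rfl
      rwa [if_pos rfl] at h2
    · rw [d2_eq]
      exact h1.2 z hz
  · rintro ⟨h, h0⟩
    refine ⟨h0, fun z hz => ?_, (ho_iff R f).2 ⟨(sm_iff R f).1 h.sm, fun z hz => ?_⟩, hint.1 h.int⟩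
    · have h1 := h.ty z hz
      rw [pvOf_Pf R le_rfl] at h1
      rw [← h1, (R.hs z hz).E_mulVec_hpr le_rfl]
    · rw [← d2_eq]
      exact h.hol z hz

variable {R}

theorem Top.topS {f : ℂ → Fin N → ℂ} (h : R.Top f) : TopS (pvOf R) f := ((top_iff R f).1 h).1

theorem emb_add' {f g : ℂ → Fin N → ℂ} (hf : R.Top f) (hg : R.Top g) :
    emb (pvOf R) (f + g) = emb (pvOf R) f + emb (pvOf R) g := emb_add (Top.topS hf) (Top.topS hg)

theorem emb_norm' {f : ℂ → Fin N → ℂ} (hf : R.Top f) :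
    (-1 : ℝ) ^ (w + 1) * (inner ℂ ((pvOf R).be (emb (pvOf R) f)) (emb (pvOf R) f)).re =
      ∫ z in ((A : Set ℂ)ᶜ), R.nsq f z := by
  rw [emb_norm (Top.topS hf)]
  exact setIntegral_congr_fun (A.finite_toSet.isClosed.isOpen_compl).measurableSet
    fun z hz => pvOf_nsq R hz f

/-- a section of `TopS` modified on the punctures -/
theorem exists_top {f : ℂ → Fin N → ℂ} (h : TopS (pvOf R) f) :
    ∃ f', R.Top f' ∧ ∀ z ∉ A, f' z = f z := by
  classical
  have hO : IsOpen ((A : Set ℂ)ᶜ) := A.finite_toSet.isClosed.isOpen_compl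
  obtain ⟨g, hg⟩ : ∃ g : ℂ → Fin N → ℂ, g = fun z => if z ∈ A then 0 else f z := ⟨_, rfl⟩
  have he : ∀ z ∉ A, g z = f z := fun z hz => by rw [hg]; exact if_neg hz
  have h0 : ∀ z ∈ A, g z = 0 := fun z hz => by rw [hg]; exact if_pos hz
  refine ⟨g, ?_, he⟩
  have htr : ∀ z ∈ ((A : Set ℂ)ᶜ), (pvOf R).tr z g =ᶠ[𝓝 z] (pvOf R).tr z f := by
    intro z hz
    filter_upwards [hO.mem_nhds hz] with y hy
    show (pvOf R).P z y (g y) = (pvOf R).P z y (f y)
    rw [he y hy]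
  rw [top_iff]
  refine ⟨⟨fun z hz => ?_, fun z hz => ?_, fun z hz => ?_, ?_⟩, h0⟩
  · exact (h.sm z hz).congr_of_eventuallyEq (htr z hz)
  · rw [he z hz]
    exact h.ty z hz
  · have h1 : (pvOf R).d2 g z = (pvOf R).d2 f z := VCalc_442.dB_congr (htr z hz) 1
    rw [h1, h.hol z hz]
  · refine h.int.congr_fun (fun z hz => ?_) hO.measurableSet
    simp only
    rw [he z hz]

/-- **surjectivity in terms of `R.Top`** -/
theorem emb_surj' {u : (pvOf R).L} (hz : u ∈ (pvOf R).Zc) (ht : (pvOf R).Ty (w + 1) u = u) :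
    ∃ f, R.Top f ∧ emb (pvOf R) f = u := by
  obtain ⟨f, hf, rfl⟩ := emb_surj hz ht
  obtain ⟨f', hf', he⟩ := exists_top hf
  refine ⟨f', hf', ?_⟩
  refine emb_eq (RepC_201.Rep.congr (M := (pvOf R).mb.dbl) hf.rep fun z hz => ?_)
  exact Prod.ext (he z hz).symm rfl

/-! ### compactly supported closed forms -/

theorem clo_iff (a b : ℂ → Fin N → ℂ) :
    (pvOf R).toFB.Clo (fun x => (a x, b x)) ↔ SC R a b := by
  constructor
  · rintro ⟨h1, h2⟩
    obtain ⟨h3, h4⟩ := FB.sm_dbl.1 h1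
    exact ⟨(sm_iff R a).1 h3, (sm_iff R b).1 h4, (closed_iff R a b).1 h2⟩
  · rintro ⟨h1, h2, h3⟩
    exact ⟨FB.sm_dbl.2 ⟨(sm_iff R a).2 h1, (sm_iff R b).2 h2⟩, (closed_iff R a b).2 h3⟩

theorem cf_of_ZS {ζ : (pvOf R).mb.dbl.H0} (h : ζ ∈ (pvOf R).ZS) :
    CF R (fun x => (ζ.f x).1) (fun x => (ζ.f x).2) := by
  refine ⟨(clo_iff _ _).1 h, ?_⟩
  obtain ⟨K, hK, hKc, h0⟩ := ζ.mem.2
  exact ⟨K, hKc, hK, fun x hx => by rw [h0 x hx]; exact ⟨rfl, rfl⟩⟩

/-- the element of `ZS` of a compactly supported closed form -/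
theorem CF.mem_A0 {a b : ℂ → Fin N → ℂ} (h : CF R a b) :
    (fun x => (a x, b x)) ∈ (pvOf R).toFB.dbl.A0 := by
  obtain ⟨K, hKc, hK, h0⟩ := h.cpt
  refine ⟨((clo_iff _ _).2 h.toSC).1, K, hK, hKc, fun x hx => ?_⟩
  exact Prod.ext (h0 x hx).1 (h0 x hx).2

/-- the element of `ZS` of a compactly supported closed form -/
def zs {a b : ℂ → Fin N → ℂ} (h : CF R a b) : (pvOf R).ZS :=
  ⟨(pvOf R).mb.dbl.s0 (fun x => (a x, b x)) (CF.mem_A0 h), (clo_iff _ _).2 h.toSC⟩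

@[simp] theorem zs_f {a b : ℂ → Fin N → ℂ} (h : CF R a b) :
    ((zs h : (pvOf R).ZS) : (pvOf R).mb.dbl.H0).f = fun x => (a x, b x) := rfl

theorem exact_iff (α : ℂ → (Fin N → ℂ) × (Fin N → ℂ)) : (pvOf R).Exact α ↔
    ∃ φ, R.Sm φ ∧ ∀ z ∉ A, R.d1 φ z = (α z).1 ∧ R.d2 φ z = (α z).2 := by
  constructor
  · rintro ⟨ψ, h1, h2⟩
    refine ⟨ψ, (sm_iff R ψ).1 h1, fun z hz => ?_⟩
    rw [h2 z hz, ← d1_eq, ← d2_eq]
    exact ⟨rfl, rfl⟩
  · rintro ⟨ψ, h1, h2⟩
    refine ⟨ψ, (sm_iff R ψ).2 h1, fun z hz => ?_⟩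
    refine Prod.ext ?_ ?_
    · rw [← (h2 z hz).1, ← d1_eq]
      rfl
    · rw [← (h2 z hz).2, ← d2_eq]
      rfl

/-! ### the class map on the fibres of a variation -/

section fam

variable {m : ℕ} {S : Type*} [TopologicalSpace S] [RDom m S] {k : ℕ} {Q : Punc S k}
  (V : Ipc735.VHS (m + 1) (Tot Q) N w) (s : S)

/-- the class of a compactly supported closed form as a linear map -/
def cW : (pvOf (V.res s)).ZS →ₗ[ℂ] Wf V s where
  toFun ζ := wcl V s (fun x => ((ζ : (pvOf (V.res s)).mb.dbl.H0).f x).1)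
    (fun x => ((ζ : (pvOf (V.res s)).mb.dbl.H0).f x).2)
  map_add' ζ ξ := by
    have h1 := cf_of_ZS ζ.2
    have h2 := cf_of_ZS ξ.2
    exact wcl_add h1.toSC h2.toSC h1.par h2.par
  map_smul' c ζ := by
    have h1 := cf_of_ZS ζ.2
    exact wcl_smul c h1.toSC h1.par

theorem cW_apply (ζ : (pvOf (V.res s)).ZS) :
    cW V s ζ = wcl V s (fun x => ((ζ : (pvOf (V.res s)).mb.dbl.H0).f x).1)
      (fun x => ((ζ : (pvOf (V.res s)).mb.dbl.H0).f x).2) := rfl

theorem cW_zs {a b : ℂ → Fin N → ℂ} (h : CF (V.res s) a b) : cW V s (zs h) = wcl V s a b := rfl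

theorem cW_surj : Function.Surjective (cW V s) := by
  intro c
  obtain ⟨a, b, h, rfl⟩ := wcl_surj c
  exact ⟨zs h, cW_zs V s h⟩

theorem cW_ker (ζ : (pvOf (V.res s)).ZS) : cW V s ζ = 0 ↔
    (pvOf (V.res s)).Exact (ζ : (pvOf (V.res s)).mb.dbl.H0).f := by
  have h1 := cf_of_ZS ζ.2
  rw [cW_apply, wcl_eq_zero h1.toSC h1.par, exact_iff]

end fam

end Crest.Agent.R276.PvO_175
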