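import Crest.Agent.R276.IpcIn_975
import Crest.Agent.R276.PvT_175

/-!
# R276, IPC fixed-s assembly (helper975), part 16: `inpOf` and the class map

* `dicOf R : Dic R (pvOf R)`, `inpOf R : (pvOf R).Inp` : the inputs I3, I5, IT hold for `pvOf R`.
* `clV V s : (pvOf (V.res s)).Zc →L[ℂ] Wf V s` : the class map, with `clV_surj`, `clV_ker`, `clV_ZS`.
* `fixV V s : Fix (pvOf (V.res s)).L (Wf V s)`, `typesV V s`.
-/

set_option autoImplicit false

open Set Filter Topology MeasureTheory UniformSpace Matrix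
open scoped ContDiff ComplexConjugate ENNReal

namespace Crest.Agent.R276.IpcG1_975

open VCalc_442 IpcGr_975 Ipc735 PvO_175 Top3_279 Crest.Agent.R271.Ho51

section one

variable {A : Finset ℂ} {N w : ℕ} (R : PVHS A N w)

/-- the dictionary -/
theorem dicOf : Dic R (pvOf R) where
  sm := sm_iff R
  d1 := d1_eq R
  d2 := d2_eq R
  nsq := fun φ _ hx => pvOf_nsq R hx φ
  J := fun x _ v => pvOf_Jf R x v

/-- **the inputs I3, I5, IT hold for every polarised variation over a punctured plane** -/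
theorem inpOf : (pvOf R).Inp := (dicOf R).inp

end one

section fam

variable {m N w : ℕ} {S : Type*} [TopologicalSpace S] [RDom m S] {k : ℕ} {Q : Punc S k}
  (V : Ipc735.VHS (m + 1) (Tot Q) N w) (s : S)

/-- **the class map** on weakly closed `L²` forms (continuous for the norm of `Wf V s` given by
`Top3_279.wfNorm`) -/
noncomputable def clV := ((inpOf (V.res s)).exists_cl (cW V s) (cW_surj V s) (cW_ker V s)).choose

theorem clV_surj : Function.Surjective (clV V s) :=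
  ((inpOf (V.res s)).exists_cl (cW V s) (cW_surj V s) (cW_ker V s)).choose_spec.1

theorem clV_ker (u : (pvOf (V.res s)).Zc) :
    clV V s u = 0 ↔ (u : (pvOf (V.res s)).L) ∈ (pvOf (V.res s)).Ex :=
  ((inpOf (V.res s)).exists_cl (cW V s) (cW_surj V s) (cW_ker V s)).choose_spec.2.1 u

theorem clV_ZS (ζ : (pvOf (V.res s)).ZS) :
    clV V s ⟨((ζ : (pvOf (V.res s)).mb.dbl.H0) : (pvOf (V.res s)).L),
      (pvOf (V.res s)).ZS_mem_Zc ζ.2⟩ = cW V s ζ :=
  ((inpOf (V.res s)).exists_cl (cW V s) (cW_surj V s) (cW_ker V s)).choose_spec.2.2 ζ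

/-- the data `Fix` of 817 -/
noncomputable def fixV : HsB_817.Fix (pvOf (V.res s)).L (Wf V s) :=
  (pvOf (V.res s)).fix (clV V s) (clV_surj V s) (clV_ker V s)

theorem typesV : HsB_817.Types (fixV V s) (w + 1) (pvOf (V.res s)).Ty 1 :=
  (pvOf (V.res s)).types (clV V s) (clV_surj V s) (clV_ker V s)

variable {V s}

/-- the forms underlying smooth `L²` closed elements are parabolic -/
theorem par_of_rep {u : (pvOf (V.res s)).L} {α : ℂ → (Fin N → ℂ) × (Fin N → ℂ)}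
    (hu : u ∈ (pvOf (V.res s)).Zc) (h : (pvOf (V.res s)).Rep u α) :
    Wcl_175.SC (V.res s) (fun x => (α x).1) (fun x => (α x).2) ∧
      (V.res s).Par (fun x => (α x).1) (fun x => (α x).2) := by
  have hc := h.clo hu
  obtain ⟨sa, sb, cab⟩ := ((dicOf (V.res s)).clo α).1 hc
  obtain ⟨i1, i2⟩ := (dicOf (V.res s)).int_split hc.1 h.g.integrableOn
  exact ⟨⟨sa, sb, cab⟩, EndP_659.par_of_L2 (V.res s) sa sb cab i1 i2⟩

/-- **the class of a smooth representative** -/
theorem clL_rep {u : (pvOf (V.res s)).L} {α : ℂ → (Fin N → ℂ) × (Fin N → ℂ)}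
    (hu : u ∈ (pvOf (V.res s)).Zc) (h : (pvOf (V.res s)).Rep u α) :
    (fixV V s).clL u = Wcl_175.wcl V s (fun x => (α x).1) (fun x => (α x).2) := by
  obtain ⟨hsc, hpar⟩ := par_of_rep hu h
  obtain ⟨ζ, hζ, hex⟩ := (inpOf (V.res s)).exists_smooth hu
  have hζz := (pvOf (V.res s)).ZS_mem_Zc hζ
  have e1 : (fixV V s).clL u = (fixV V s).clL (ζ : (pvOf (V.res s)).L) :=
    ((fixV V s).clL_eq_iff hu hζz).2 hex
  have e2 : (fixV V s).clL (ζ : (pvOf (V.res s)).L) = cW V s ⟨ζ, hζ⟩ := by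
    rw [(fixV V s).clL_eq hζz]
    exact clV_ZS V s ⟨ζ, hζ⟩
  rw [e1, e2, cW_apply]
  have hcf := cf_of_ZS hζ
  have h3 := (inpOf (V.res s)).exact_of_ex (h.sub ((pvOf (V.res s)).rep_coe ζ)) hex
  rw [exact_iff] at h3
  have h4 : Wcl_175.SC (V.res s) ((fun x => (α x).1) + (-1 : ℂ) • (fun x => (ζ.f x).1))
      ((fun x => (α x).2) + (-1 : ℂ) • (fun x => (ζ.f x).2)) := hsc.add (hcf.toSC.smul (-1))
  have h5 : (V.res s).Par ((fun x => (α x).1) + (-1 : ℂ) • (fun x => (ζ.f x).1))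
      ((fun x => (α x).2) + (-1 : ℂ) • (fun x => (ζ.f x).2)) :=
    Wcl_175.par_add hsc (hcf.toSC.smul (-1)) hpar (Wcl_175.par_smul (-1) hcf.toSC hcf.par)
  have h6 : Wcl_175.wcl V s ((fun x => (α x).1) + (-1 : ℂ) • (fun x => (ζ.f x).1))
      ((fun x => (α x).2) + (-1 : ℂ) • (fun x => (ζ.f x).2)) = 0 := by
    rw [Wcl_175.wcl_eq_zero h4 h5]
    obtain ⟨φ, h7, h8⟩ := h3
    refine ⟨φ, h7, fun z hz => ?_⟩
    obtain ⟨h9, h10⟩ := h8 z hz
    refine ⟨?_, ?_⟩
    · rw [h9]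
      simp [sub_eq_add_neg]
    · rw [h10]
      simp [sub_eq_add_neg]
  rw [Wcl_175.wcl_add hsc (hcf.toSC.smul (-1)) hpar (Wcl_175.par_smul (-1) hcf.toSC hcf.par),
    Wcl_175.wcl_smul (-1) hcf.toSC hcf.par, neg_one_smul, ← sub_eq_add_neg, sub_eq_zero] at h6
  exact h6.symm

end fam

end Crest.Agent.R276.IpcG1_975
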