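import Crest.Agent.R276.Nat9_591
import Crest.Agent.R276.PvT_175

/-!
# R276, leaf IPC-NAT (helper591), part 10: the trivialisation `TV` of the family of Hilbert spaces
`(pvOf (V.res s)).L` near `s₀`, and its compatibility with the class maps

* `psiV` : the transport data between the fibres over `D.σ z` and `s₀`;
* `TV D z : (pvOf (V.res (D.σ z))).L →L[ℂ] (pvOf (V.res s₀)).L`;
* `TV_bij`, `TV_form`, `TV_ex`, `TV_zc`, `TV_Ty`, `TV_coe`;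
* `ClsMap` : class maps which are `wcl` on smooth compactly supported closed forms; `TV_cl`.
-/

set_option autoImplicit false
set_option linter.unusedSectionVars false

noncomputable section

open Set Filter Topology MeasureTheory Matrix Metric UniformSpace
open scoped ContDiff ComplexConjugate

namespace Crest.Agent.R276.Nat_591

open Crest.Agent.R271.Ho51 Crest.Agent.R276.Ipc735 Crest.Agent.R276.Top3_279
open IpcG1_975 Psi_563 FamA_563 HsB_817 Wcl_175 DR_175 PvO_175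

section inst

variable {A : Finset ℂ} {N w : ℕ}

theorem isPVo (R : PVHS A N w) : IsPVo R (pvOf R) where
  P _ _ := rfl
  S _ := rfl
  G _ hx u v := pvOf_G R hx u v

variable {m : ℕ} {S : Type*} [TopologicalSpace S] [RDom m S] {k : ℕ} {Q : Punc S k}
  {V : Ipc735.VHS (m + 1) (Tot Q) N w} {s₀ : S} (D : LD V s₀)

/-- the half ball -/
def hU (D : LD V s₀) : Set (Fin m → ℂ) := Metric.ball (cp s₀ : Fin m → ℂ) (D.r / 2)

theorem isOpen_hU : IsOpen (hU D) := Metric.isOpen_ball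

theorem mem_hU : (cp s₀ : Fin m → ℂ) ∈ hU D := mem_ball_self (half_pos D.r_pos)

/-- the gauge as operators -/
def Kv (D : LD V s₀) (z : Fin m → ℂ) (x : ℂ) : (Fin N → ℂ) →L[ℂ] (Fin N → ℂ) :=
  mc (cm (D.G z x)⁻¹)

/-- the inverse gauge as operators -/
def Kv' (D : LD V s₀) (z : Fin m → ℂ) (x : ℂ) : (Fin N → ℂ) →L[ℂ] (Fin N → ℂ) :=
  mc (cm (D.G z x))

/-- **the transport data** -/
theorem psiV {z : Fin m → ℂ} (hz : z ∈ hU D) :
    PsiP D.Bm (D.b z) (pvOf (V.res (D.σ z))) (pvOf (V.res s₀)) (Kv D z) (Kv' D z) (cN N) :=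
  psiP D hz (V.isRes _) (V.isRes _) (isPVo _) (isPVo _)

open Classical in
/-- **the trivialisation** -/
def TV (D : LD V s₀) (z : Fin m → ℂ) :
    (pvOf (V.res (D.σ z))).L →L[ℂ] (pvOf (V.res s₀)).L :=
  if h : z ∈ hU D then ((psiV D h).TE : (pvOf (V.res (D.σ z))).L →L[ℂ] (pvOf (V.res s₀)).L) else 0

variable {D}

theorem TV_of {z : Fin m → ℂ} (hz : z ∈ hU D) (u : (pvOf (V.res (D.σ z))).L) :
    TV D z u = (psiV D hz).TE u := by
  unfold TV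
  rw [dif_pos hz]
  rfl

theorem TV_bij {z : Fin m → ℂ} (hz : z ∈ hU D) : Function.Bijective (TV D z) := by
  have e : (TV D z : (pvOf (V.res (D.σ z))).L → (pvOf (V.res s₀)).L) = (psiV D hz).TE :=
    funext fun u => TV_of hz u
  rw [e]
  exact (psiV D hz).TE.bijective

theorem norm_TV_le {z : Fin m → ℂ} (hz : z ∈ hU D) (u : (pvOf (V.res (D.σ z))).L) :
    ‖TV D z u‖ ≤ 2 * cN N * ‖u‖ := by
  rw [TV_of hz]
  exact (psiV D hz).norm_TE_le u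

theorem le_norm_TV {z : Fin m → ℂ} (hz : z ∈ hU D) (u : (pvOf (V.res (D.σ z))).L) :
    ‖u‖ ≤ 2 * cN N * ‖TV D z u‖ := by
  rw [TV_of hz]
  have := (psiV D hz).norm_TE_symm_le ((psiV D hz).TE u)
  rwa [(psiV D hz).TE.symm_apply_apply] at this

theorem TV_form {z : Fin m → ℂ} (hz : z ∈ hU D) (u v : (pvOf (V.res (D.σ z))).L) :
    inner ℂ ((pvOf (V.res s₀)).be (TV D z u)) (TV D z v) =
      inner ℂ ((pvOf (V.res (D.σ z))).be u) v := by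
  rw [TV_of hz, TV_of hz]
  exact (psiV D hz).form u v

theorem TV_ex {z : Fin m → ℂ} (hz : z ∈ hU D) (u : (pvOf (V.res (D.σ z))).L) :
    TV D z u ∈ (pvOf (V.res s₀)).Ex ↔ u ∈ (pvOf (V.res (D.σ z))).Ex := by
  rw [TV_of hz]
  exact (psiV D hz).ex u

theorem TV_zc {z : Fin m → ℂ} (hz : z ∈ hU D) (u : (pvOf (V.res (D.σ z))).L) :
    TV D z u ∈ (pvOf (V.res s₀)).Zc ↔ u ∈ (pvOf (V.res (D.σ z))).Zc := by
  rw [TV_of hz]
  exact (psiV D hz).zc u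

/-- types, with given fields -/
theorem TV_Ty {z : Fin m → ℂ} (hz : z ∈ hU D) {P : ℕ}
    {q : ℂ → ((Fin N → ℂ) × (Fin N → ℂ) →L[ℂ] (Fin N → ℂ) × (Fin N → ℂ))}
    (hq : (pvOf (V.res s₀)).mb.dbl.Ok q)
    (hqq : ∀ x ∉ Q.A s₀, ∀ v, q x (Kf (D.Ψ z) (Kv D z) x v) =
      Kf (D.Ψ z) (Kv D z) x ((pvOf (V.res (D.σ z))).ty P (D.Ψ z x) v))
    (u : (pvOf (V.res (D.σ z))).L) :
    TV D z ((pvOf (V.res (D.σ z))).Ty P u) = (pvOf (V.res s₀)).mb.dbl.opL q (TV D z u) := by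
  rw [TV_of hz, TV_of hz]
  exact (psiV D hz).TE_Ty' hq (fun x hx v => hqq x (by simpa using hx) v) u

/-- the transported form -/
theorem mem_pull {z : Fin m → ℂ} (hz : z ∈ hU D) (φ : (pvOf (V.res (D.σ z))).mb.dbl.H0) :
    pb (Kf (D.Ψ z) (Kv D z)) (D.Ψ z) φ.f ∈ (pvOf (V.res s₀)).mb.dbl.A0 :=
  (psiV D hz).psiM.mmor.toMor.mem_A0 φ.mem

theorem TV_coe {z : Fin m → ℂ} (hz : z ∈ hU D) (φ : (pvOf (V.res (D.σ z))).mb.dbl.H0) :
    TV D z (φ : (pvOf (V.res (D.σ z))).L) =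
      ((pvOf (V.res s₀)).mb.dbl.s0 (pb (Kf (D.Ψ z) (Kv D z)) (D.Ψ z) φ.f) (mem_pull hz φ) :
        (pvOf (V.res s₀)).mb.dbl.H0) := by
  rw [TV_of hz]
  exact (psiV D hz).TE_coe φ

/-! ### classes -/

/-- 817's package at `s` in helper975's model, with class map given by `wcl` on smooth compactly
supported closed forms -/
structure IsFixV (V : Ipc735.VHS (m + 1) (Tot Q) N w) (s : S)
    (F : Fix (pvOf (V.res s)).L (Wf V s)) : Prop where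
  be : F.β = (pvOf (V.res s)).be
  ex : F.Ex = (pvOf (V.res s)).Ex
  zc : F.Zc = (pvOf (V.res s)).Zc
  zs : ∀ (ζ : (pvOf (V.res s)).ZS)
    (h : ((ζ : (pvOf (V.res s)).mb.dbl.H0) : (pvOf (V.res s)).L) ∈ F.Zc),
    F.cl ⟨((ζ : (pvOf (V.res s)).mb.dbl.H0) : (pvOf (V.res s)).L), h⟩ = cW V s ζ

theorem exists_fixV (V : Ipc735.VHS (m + 1) (Tot Q) N w) (s : S) (H : (pvOf (V.res s)).Inp) :
    ∃ F : Fix (pvOf (V.res s)).L (Wf V s), IsFixV V s F := by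
  obtain ⟨cl, h1, h2, h3⟩ := H.exists_cl (cW V s) (cW_surj V s) (cW_ker V s)
  exact ⟨(pvOf (V.res s)).fix cl h1 h2, rfl, rfl, rfl, fun ζ _ => h3 ζ⟩

theorem IsFixV.types {s : S} {F : Fix (pvOf (V.res s)).L (Wf V s)} (h : IsFixV V s F) :
    Types F (w + 1) (pvOf (V.res s)).Ty 1 := by
  obtain ⟨be, symm, Ex, Zc, exClosed, memZc, exLe, cl, clSurj, clKer⟩ := F
  obtain ⟨h1, h2, h3, -⟩ := h
  simp only at h1 h2 h3
  subst h1 h2 h3
  exact (pvOf (V.res s)).types cl clSurj clKer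

theorem TV_form' {z : Fin m → ℂ} (hz : z ∈ hU D) {F : Fix (pvOf (V.res (D.σ z))).L (Wf V (D.σ z))}
    (h : IsFixV V (D.σ z) F) {F₀ : Fix (pvOf (V.res s₀)).L (Wf V s₀)} (h₀ : IsFixV V s₀ F₀)
    (u v : (pvOf (V.res (D.σ z))).L) :
    inner ℂ (F₀.β (TV D z u)) (TV D z v) = inner ℂ (F.β u) v := by
  rw [h.be, h₀.be]
  exact TV_form hz u v

theorem TV_zc' {z : Fin m → ℂ} (hz : z ∈ hU D) {F : Fix (pvOf (V.res (D.σ z))).L (Wf V (D.σ z))}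
    (h : IsFixV V (D.σ z) F) {F₀ : Fix (pvOf (V.res s₀)).L (Wf V s₀)} (h₀ : IsFixV V s₀ F₀)
    (u : (pvOf (V.res (D.σ z))).L) : TV D z u ∈ F₀.Zc ↔ u ∈ F.Zc := by
  rw [h.zc, h₀.zc]
  exact TV_zc hz u

variable [T2Space S]

/-- **the class of the transported element is the transport of the class** -/
theorem TV_cl {z : Fin m → ℂ} (hz : z ∈ hU D) (H : (pvOf (V.res (D.σ z))).Inp)
    {F : Fix (pvOf (V.res (D.σ z))).L (Wf V (D.σ z))} (h : IsFixV V (D.σ z) F)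
    {F₀ : Fix (pvOf (V.res s₀)).L (Wf V s₀)} (h₀ : IsFixV V s₀ F₀)
    {u : (pvOf (V.res (D.σ z))).L} (hu : u ∈ F.Zc) :
    F₀.clL (TV D z u) = tW V s₀ (D.σ z) (F.clL u) := by
  have hu' : u ∈ (pvOf (V.res (D.σ z))).Zc := by rwa [← h.zc]
  obtain ⟨ζ, hζ, hex⟩ := H.exists_smooth hu'
  have hζZ : (ζ : (pvOf (V.res (D.σ z))).L) ∈ F.Zc := by
    rw [h.zc]
    exact (pvOf (V.res (D.σ z))).ZS_mem_Zc hζ
  have h1 : F.clL u = F.clL (ζ : (pvOf (V.res (D.σ z))).L) := by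
    refine (F.clL_eq_iff hu hζZ).2 ?_
    rw [h.ex]
    exact hex
  have hTu : TV D z u ∈ F₀.Zc := (TV_zc' hz h h₀ u).2 hu
  have hTζ : TV D z (ζ : (pvOf (V.res (D.σ z))).L) ∈ F₀.Zc := (TV_zc' hz h h₀ _).2 hζZ
  have h2 : F₀.clL (TV D z u) = F₀.clL (TV D z (ζ : (pvOf (V.res (D.σ z))).L)) := by
    refine (F₀.clL_eq_iff hTu hTζ).2 ?_
    rw [← map_sub, h₀.ex]
    exact (TV_ex hz _).2 hex
  rw [h1, h2, F.clL_eq hζZ, F₀.clL_eq hTζ]
  have hCF := cf_of_ZS hζ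
  have hzU := half_sub D hz
  have h0 : ∀ x ∈ Q.A (D.σ z), ζ.f x = 0 := by
    intro x hx
    exact (pvOf (V.res (D.σ z))).mb.dbl.f_eq_zero ζ (fun h => h (by exact_mod_cast hx))
  obtain ⟨ξ, hξ⟩ : ∃ ξ : (pvOf (V.res s₀)).mb.dbl.H0,
      ξ = (pvOf (V.res s₀)).mb.dbl.s0 (pb (Kf (D.Ψ z) (Kv D z)) (D.Ψ z) ζ.f) (mem_pull hz ζ) :=
    ⟨_, rfl⟩
  have hξf : ξ.f = pb (Kf (D.Ψ z) (Kv D z)) (D.Ψ z) ζ.f := by rw [hξ]; rfl
  have h3 := cl_tau D hzU h0 hCF.toSC hCF.par (ξ := ξ.f) hξf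
  have hξZ : ξ ∈ (pvOf (V.res s₀)).ZS := ⟨ξ.mem.1, (closed_iff _ _ _).2 h3.1.cl⟩
  have e1 : (⟨TV D z (ζ : (pvOf (V.res (D.σ z))).L), hTζ⟩ : F₀.Zc) =
      ⟨(ξ : (pvOf (V.res s₀)).L), by rw [h₀.zc]; exact (pvOf (V.res s₀)).ZS_mem_Zc hξZ⟩ :=
    Subtype.ext ((TV_coe hz ζ).trans
      (congrArg (fun t : (pvOf (V.res s₀)).mb.dbl.H0 => (t : (pvOf (V.res s₀)).L)) hξ.symm))
  rw [e1]
  exact (h₀.zs ⟨ξ, hξZ⟩ _).trans (h3.2.2.trans (congrArg (tW V s₀ (D.σ z)) (h.zs ⟨ζ, hζ⟩ _).symm))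

end inst

end Crest.Agent.R276.Nat_591
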