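import Crest.Agent.R276.LocB_454
import Crest.Agent.R276.Nat10_591
import Crest.Agent.R276.IpcIp_975
import Crest.Agent.R276.FamB_563
import Crest.Agent.R276.HsE_817

/-!
# R276, IPC-STEP (helper454): LOC, part D: the concrete pieces

`locPieces V : Pieces m S (w + 1)` and, from 563's local data `D : LD V z`, `trivOf D : (locPieces V).Triv z`.
-/

set_option autoImplicit false
set_option linter.unusedSectionVars false

noncomputable section

open Set Filter Topology MeasureTheory Matrix Metric UniformSpace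
open scoped ContDiff ComplexConjugate

namespace Crest.Agent.R276.Step_454

open Crest.Agent.R271.Ho51 Crest.Agent.R276.Ipc735 Crest.Agent.R276.Top3_279
open IpcG1_975 Psi_563 FamA_563 FamB_563 HsB_817 HsC_817 HsE_817 K4b_817 Wcl_175 DR_175 PvO_175
open Nat_591

variable {m k N w : ℕ} {S : Type} [TopologicalSpace S] [RDom m S] {Q : Punc S k}

/-- the Hilbert space package over `s` -/
abbrev FV (V : Ipc735.VHS (m + 1) (Tot Q) N w) (s : S) : Fix (pvOf (V.res s)).L (Wf V s) :=
  fixV V s

lemma isFixV (V : Ipc735.VHS (m + 1) (Tot Q) N w) (s : S) : IsFixV V s (FV V s) where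
  be := rfl
  ex := rfl
  zc := rfl
  zs ζ _ := clV_ZS V s ζ

variable [T2Space S]

/-- the pieces -/
def locPieces (V : Ipc735.VHS (m + 1) (Tot Q) N w) : Pieces m S (w + 1) where
  W s := Wf V s
  Lh s := (pvOf (V.res s)).L
  D := FV V
  π s := (pvOf (V.res s)).Ty
  ty s := ⟨1, (isFixV V s).types⟩
  L := LW V
  lat := Top3_279.lat V
  τ := tW V
  idt := tW_id V
  coc := tW_coc V
  int := tW_int V

/-- what 563's part C has to give -/
structure N3 {V : Ipc735.VHS (m + 1) (Tot Q) N w} {z : S} (D : LD V z) : Prop where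
  fm : IsFm (V.res z) (pvOf (V.res z)).mb.dbl (pvOf (V.res z)).bt
  n3 : ∀ x ∈ hU D, ∀ P ≤ w + 1, ∀ y ∉ Q.A z, ∀ v,
    opT (D.T P x y) (Kf (D.Ψ x) (Kv D x) y v) =
      Kf (D.Ψ x) (Kv D x) y ((pvOf (V.res (D.σ x))).ty P (D.Ψ x y) v)

variable {V : Ipc735.VHS (m + 1) (Tot Q) N w} {z : S}

/-- **the trivialisation** -/
def trivOf (D : LD V z) (h : N3 D) : (locPieces V).Triv z where
  U := hU D
  op := isOpen_hU D
  mem := mem_hU D
  T := TV D
  bij x hx := TV_bij hx
  form x hx u v := TV_form' hx (isFixV V _) (isFixV V _) u v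
  zc x hx u := TV_zc' hx (isFixV V _) (isFixV V _) u
  cl x hx u hu := TV_cl hx (inpOf _) (isFixV V _) (isFixV V _) hu
  π' x P := (pvOf (V.res z)).mb.dbl.opL (fun y => opT (D.T P x y))
  inter x hx P hP u :=
    (TV_Ty hx ((ptTypes D h.fm hx).okp P hP) (h.n3 x hx P hP) u).symm
  fam := by
    refine (ptFam D h.fm).family (FV V z) (isFixV V z).be fun x hx => ?_
    have hN : NatD (FV V z) (FV V (D.σ x)) (psiV D hx).TE :=
      { form := fun u v => by
          rw [(isFixV V z).be, (isFixV V (D.σ x)).be]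
          exact (psiV D hx).form u v
        ex := fun u => by
          rw [(isFixV V z).ex, (isFixV V (D.σ x)).ex]
          exact (psiV D hx).ex u }
    refine hN.stab (π' := (pvOf (V.res (D.σ x))).Ty) (fun P hP u => ?_)
      (isFixV V (D.σ x)).types.stab
    have := TV_Ty hx ((ptTypes D h.fm hx).okp P hP) (h.n3 x hx P hP) u
    rw [TV_of hx, TV_of hx] at this
    exact this.symm

end Crest.Agent.R276.Step_454
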