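import Crest.Agent.R276.FamC_563
import Crest.Agent.R276.FamD_563
import Crest.Agent.R276.LocD_454

/-!
# R276, leaf IPC-FAM (helper563), part E: the trivialisation of helper454's `locPieces V`

* `n3 D : N3 D`;
* `triv D : (locPieces V).Triv z`, `triv_T`, `triv_U`, `triv_π'`;
* `exists_triv : ∀ z, Nonempty ((locPieces V).Triv z)`.
-/

set_option autoImplicit false
set_option linter.unusedSectionVars false

noncomputable section

open Set Filter Topology MeasureTheory Matrix Metric

namespace Crest.Agent.R276.FamE_563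

open Crest.Agent.R271.Ho51 Crest.Agent.R276.Ipc735 Crest.Agent.R276.Top3_279
open Crest.Agent.R276.Psi_563 Crest.Agent.R276.FamA_563 Crest.Agent.R276.FamB_563
open Crest.Agent.R276.FamC_563 Crest.Agent.R276.IpcG1_975 Crest.Agent.R276.Nat_591
open Crest.Agent.R276.PvO_175 Crest.Agent.R276.HsB_817 Crest.Agent.R276.HsC_817
open Crest.Agent.R276.Step_454 Crest.Agent.R276.FamD_563

variable {m k N w : ℕ} {S : Type} [TopologicalSpace S] [RDom m S] {Q : Punc S k}
  {V : Ipc735.VHS (m + 1) (Tot Q) N w} {z : S}

/-- **(N3)** in the form of helper454 -/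
theorem n3 [T2Space S] (D : LD V z) : N3 D where
  fm := isFm (V.res z)
  n3 := fun _ hx P _ _ hy v => ty_pull D (U2_sub D hx) hy P v

variable [T2Space S]

/-- the trivialisation -/
def triv (D : LD V z) : (locPieces V).Triv z := trivOf D (n3 D)

theorem triv_U (D : LD V z) : (triv D).U = hU D := rfl

theorem triv_T (D : LD V z) (x : Fin m → ℂ) : (triv D).T x = TV D x := rfl

theorem exists_triv (V : Ipc735.VHS (m + 1) (Tot Q) N w) (z : S) :
    Nonempty ((locPieces V).Triv z) := by
  obtain ⟨D, -⟩ := exists_LD V z univ_mem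
  exact ⟨triv D⟩

end Crest.Agent.R276.FamE_563
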