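import Mathlib
import Crest.Agent.R276.Avg_999

/-!
# Constancy of norms along leaves (helper999, row 276)

LEMMA N (posts 835, 1072), step (N3): in the situation of the averaging principle, let `W p` be the
matrices of the dual norms; if `log (b* W b)` is submean along lifted discs for every constant `b`
and everything is bounded, then the norm `a* W⁻¹ a` is constant along lifted discs.
-/

set_option linter.unusedSectionVars false

namespace Crest.Agent.R276.Nc_999

open MeasureTheory Metric Filter Topology Matrix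
open scoped ComplexOrder
open Real (circleAverage circleAverage_const)
open Crest.Agent.R276.Avg_999

section matrix

variable {s : ℕ}

/-- the real quadratic form of a matrix -/
noncomputable def qf (W : Matrix (Fin s) (Fin s) ℂ) (v : Fin s → ℂ) : ℝ :=
  (star v ⬝ᵥ (W *ᵥ v)).re

theorem qf_pos {W : Matrix (Fin s) (Fin s) ℂ} (hW : W.PosDef) {v : Fin s → ℂ} (hv : v ≠ 0) :
    0 < qf W v := hW.re_dotProduct_pos hv

theorem qf_nonneg {W : Matrix (Fin s) (Fin s) ℂ} (hW : W.PosDef) (v : Fin s → ℂ) :
    0 ≤ qf W v := hW.posSemidef.re_dotProduct_nonneg v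

theorem im_zero {W : Matrix (Fin s) (Fin s) ℂ} (hW : W.IsHermitian) (v : Fin s → ℂ) :
    (star v ⬝ᵥ (W *ᵥ v)).im = 0 := by
  have h : star (star v ⬝ᵥ (W *ᵥ v)) = star v ⬝ᵥ (W *ᵥ v) := by
    rw [← star_dotProduct_star, star_star, star_mulVec, hW.eq, dotProduct_comm,
      dotProduct_comm v, dotProduct_comm (star v ᵥ* W), dotProduct_comm v,
      ← dotProduct_mulVec]
  have := congrArg Complex.im h
  simp at this
  linarith

theorem cs {W : Matrix (Fin s) (Fin s) ℂ} (hW : W.PosDef) (a b : Fin s → ℂ) :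
    ‖star b ⬝ᵥ a‖ ^ 2 ≤ qf W b * qf W⁻¹ a := by
  by_cases hb : b = 0
  · simp [hb, qf]
  have hWb := qf_pos hW hb
  have hM : (W⁻¹).PosDef := hW.inv
  set c : ℂ := star b ⬝ᵥ a with hc
  set β : ℝ := qf W b with hβ
  -- v = a - (c/β) W b
  have key := qf_nonneg hM (a - (c / β) • (W *ᵥ b))
  have hinv : W⁻¹ *ᵥ (W *ᵥ b) = b := by
    rw [mulVec_mulVec, nonsing_inv_mul _ ((isUnit_iff_isUnit_det W).mp hW.isUnit), one_mulVec]
  have hWbc : star b ⬝ᵥ (W *ᵥ b) = (β : ℂ) := by
    apply Complex.ext
    · rw [hβ]; simp [qf]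
    · rw [im_zero hW.isHermitian]; simp
  have h1 : star (W *ᵥ b) ⬝ᵥ (W⁻¹ *ᵥ a) = c := by
    rw [star_mulVec, hW.isHermitian.eq, ← dotProduct_mulVec, mulVec_mulVec,
      mul_nonsing_inv _ ((isUnit_iff_isUnit_det W).mp hW.isUnit), one_mulVec]
  have h2 : star a ⬝ᵥ b = star c := by
    rw [hc, star_dotProduct]
  have h3 : star (W *ᵥ b) ⬝ᵥ b = (β : ℂ) := by
    rw [star_mulVec, hW.isHermitian.eq, ← dotProduct_mulVec, hWbc]
  have hexp : star (a - (c / β) • (W *ᵥ b)) ⬝ᵥ (W⁻¹ *ᵥ (a - (c / β) • (W *ᵥ b))) =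
      star a ⬝ᵥ (W⁻¹ *ᵥ a) - (c / β) * star c - star (c / (β : ℂ)) * c +
        star (c / (β : ℂ)) * (c / β) * β := by
    rw [mulVec_sub, mulVec_smul, hinv, star_sub, star_smul, sub_dotProduct, dotProduct_sub,
      dotProduct_sub, dotProduct_smul, smul_dotProduct, smul_dotProduct, dotProduct_smul,
      h1, h2, h3]
    simp only [smul_eq_mul]
    ring
  have hre : qf W⁻¹ (a - (c / β) • (W *ᵥ b)) = qf W⁻¹ a - ‖c‖ ^ 2 / β := by
    unfold qf
    rw [hexp]
    have hβ0 : (β : ℂ) ≠ 0 := by exact_mod_cast hWb.ne'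
    have hcc : c * star c = ((‖c‖ ^ 2 : ℝ) : ℂ) := by
      rw [Complex.star_def, Complex.mul_conj, Complex.normSq_eq_norm_sq]
    have e1 : (c / β) * star c = ((‖c‖ ^ 2 / β : ℝ) : ℂ) := by
      rw [div_mul_eq_mul_div, hcc]; push_cast; rfl
    have e2 : star (c / (β : ℂ)) * c = ((‖c‖ ^ 2 / β : ℝ) : ℂ) := by
      rw [star_div₀]
      have : star (β : ℂ) = β := Complex.conj_ofReal β
      rw [this, div_mul_eq_mul_div, mul_comm, hcc]; push_cast; rfl
    have e3 : star (c / (β : ℂ)) * (c / β) * β = ((‖c‖ ^ 2 / β : ℝ) : ℂ) := by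
      rw [mul_assoc, div_mul_cancel₀ _ hβ0, e2]
    rw [e1, e2, e3]
    simp only [Complex.add_re, Complex.sub_re, Complex.ofReal_re]
    ring
  rw [hre] at key
  have : ‖c‖ ^ 2 / β ≤ qf W⁻¹ a := by linarith
  rw [div_le_iff₀ hWb] at this
  linarith

theorem cs_eq {W : Matrix (Fin s) (Fin s) ℂ} (hW : W.PosDef) (a : Fin s → ℂ) :
    star (W⁻¹ *ᵥ a) ⬝ᵥ a = (qf W⁻¹ a : ℂ) ∧ qf W (W⁻¹ *ᵥ a) = qf W⁻¹ a := by
  have hM : (W⁻¹).PosDef := hW.inv
  have h1 : star (W⁻¹ *ᵥ a) ⬝ᵥ a = (qf W⁻¹ a : ℂ) := by
    rw [star_mulVec, hM.isHermitian.eq, ← dotProduct_mulVec]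
    apply Complex.ext
    · simp [qf]
    · rw [im_zero hM.isHermitian]; simp
  refine ⟨h1, ?_⟩
  unfold qf
  rw [mulVec_mulVec, mul_nonsing_inv _ ((isUnit_iff_isUnit_det W).mp hW.isUnit), one_mulVec, h1]
  simp [qf]

end matrix

variable {X E K : Type*} [TopologicalSpace X] [TopologicalSpace E]
variable [Group K] [TopologicalSpace K] [IsTopologicalGroup K] [CompactSpace K]
  [MeasurableSpace K] [BorelSpace K] [MulAction K E] [ContinuousSMul K E]
variable [T2Space K] [SecondCountableTopology K] [FirstCountableTopology X]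
  [LocallyCompactSpace X]
variable (μ : Measure K) [IsProbabilityMeasure μ] [μ.IsMulLeftInvariant] [μ.IsOpenPosMeasure]

theorem lift_smul {P : Set (X × E)} (hP : Tor K P) {d : ℂ → X} {T : ℂ → E} (h : IsLift P d T)
    (g : K) : IsLift P d (fun t => g • T t) :=
  ⟨h.contd, continuousOn_const.smul h.contT, fun t ht => hP.act _ _ _ (h.mem t ht)⟩

theorem cont_lift {P : Set (X × E)} {d : ℂ → X} {T : ℂ → E} (h : IsLift P d T)
    {F : Type*} [TopologicalSpace F] {f : X × E → F} (hf : ContinuousOn f P) :
    Continuous (fun θ : ℝ => f (d (circleMap 0 1 θ), T (circleMap 0 1 θ))) := by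
  rw [← continuousOn_univ]
  refine hf.comp (t := P) ?_ ?_
  · apply ContinuousOn.prodMk
    · exact h.contd.comp (continuous_circleMap 0 1).continuousOn (fun θ _ => circleMap_mem θ)
    · exact h.contT.comp (continuous_circleMap 0 1).continuousOn (fun θ _ => circleMap_mem θ)
  · intro θ _; exact h.mem _ (circleMap_mem θ)

theorem circleIntegrable_lift {P : Set (X × E)} {d : ℂ → X} {T : ℂ → E} (h : IsLift P d T)
    {f : X × E → ℝ} (hf : ContinuousOn f P) :
    CircleIntegrable (fun t => f (d t, T t)) 0 1 :=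
  (cont_lift h hf).intervalIntegrable 0 (2 * Real.pi)

/-- Jensen equality: if `F` is continuous on the circle, and `F 0 = avg F`, `exp (F 0) = avg exp F`
then `F = F 0` on the circle. -/
theorem eq_of_exp_avg {F : ℂ → ℝ} (hc : Continuous fun θ : ℝ => F (circleMap 0 1 θ))
    (h1 : F 0 = circleAverage F 0 1)
    (h2 : Real.exp (F 0) = circleAverage (fun t => Real.exp (F t)) 0 1) :
    ∀ θ : ℝ, F (circleMap 0 1 θ) = F 0 := by
  set m := F 0 with hm
  let G : ℂ → ℝ := fun t => Real.exp (F t) - Real.exp m * (1 + (F t - m))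
  have hG0 : ∀ t, 0 ≤ G t := by
    intro t
    simp only [G]
    have := Real.add_one_le_exp (F t - m)
    have h3 : Real.exp (F t) = Real.exp m * Real.exp (F t - m) := by
      rw [← Real.exp_add]; congr 1; ring
    rw [h3]
    have := Real.exp_pos m
    nlinarith
  have hGc : Continuous fun θ : ℝ => G (circleMap 0 1 θ) := by
    simp only [G]
    exact (Real.continuous_exp.comp hc).sub
      (continuous_const.mul (continuous_const.add (hc.sub continuous_const)))
  have hi1 : CircleIntegrable F 0 1 := hc.intervalIntegrable _ _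
  have hi2 : CircleIntegrable (fun t => Real.exp (F t)) 0 1 :=
    (Real.continuous_exp.comp hc).intervalIntegrable _ _
  have hGavg : circleAverage G 0 1 = 0 := by
    have : G = (fun t => Real.exp (F t)) - (fun t => Real.exp m * (1 - m) + Real.exp m * F t) := by
      ext t; simp only [G, Pi.sub_apply]; ring
    have hi3 : CircleIntegrable (fun t => Real.exp m * F t) 0 1 := by
      have : Continuous fun θ : ℝ => Real.exp m * F (circleMap 0 1 θ) := continuous_const.mul hc
      exact this.intervalIntegrable _ _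
    have hi4 : CircleIntegrable (fun _ : ℂ => Real.exp m * (1 - m)) 0 1 := by
      have : Continuous fun _ : ℝ => Real.exp m * (1 - m) := continuous_const
      exact this.intervalIntegrable _ _
    rw [this, Real.circleAverage_sub (f₂ := fun t => Real.exp m * (1 - m) + Real.exp m * F t)
      hi2 (hi4.add hi3)]
    have h5 : circleAverage (fun t => Real.exp m * (1 - m) + Real.exp m * F t) 0 1 =
        Real.exp m * (1 - m) + Real.exp m * circleAverage F 0 1 := by
      rw [Real.circleAverage_fun_add hi4 hi3, circleAverage_const]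
      congr 1
      have := Real.circleAverage_fun_smul (a := Real.exp m) (f := F) (c := 0) (R := 1)
      simpa using this
    rw [h5, ← h1, ← h2]; ring
  intro θ
  by_contra hne
  have hpos : 0 < G (circleMap 0 1 θ) := by
    simp only [G]
    have hx : F (circleMap 0 1 θ) - m ≠ 0 := sub_ne_zero.mpr hne
    have := Real.add_one_lt_exp hx
    have h3 : Real.exp (F (circleMap 0 1 θ)) = Real.exp m * Real.exp (F (circleMap 0 1 θ) - m) := by
      rw [← Real.exp_add]; congr 1; ring
    rw [h3]
    have := Real.exp_pos m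
    nlinarith
  -- move θ to [0, 2π)
  have hint : ∫ x in (0 : ℝ)..2 * Real.pi, G (circleMap 0 1 x) = 0 := by
    have := hGavg
    unfold circleAverage at this
    have hpi : (2 * Real.pi)⁻¹ ≠ 0 := by positivity
    simpa [hpi] using this
  have hper : Function.Periodic (fun x : ℝ => G (circleMap 0 1 x)) (2 * Real.pi) := by
    intro x; simp only [periodic_circleMap 0 1 x]
  have hint2 : ∫ x in θ..θ + 2 * Real.pi, G (circleMap 0 1 x) = 0 := by
    rw [hper.intervalIntegral_add_eq θ 0, zero_add]; exact hint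
  have hpos2 : 0 < ∫ x in θ..θ + 2 * Real.pi, G (circleMap 0 1 x) := by
    apply intervalIntegral.integral_pos (by linarith [Real.pi_pos])
    · exact hGc.continuousOn
    · intro x _; exact hG0 _
    · exact ⟨θ, ⟨le_refl _, by linarith [Real.pi_pos]⟩, hpos⟩
  linarith

include μ in
/-- **Constancy of norms.** -/
theorem norm_const {s : ℕ} {P : Set (X × E)} (hP : Tor K P)
    (W : X × E → Matrix (Fin s) (Fin s) ℂ) (hW : ∀ p ∈ P, (W p).PosDef)
    (hWc : ContinuousOn W P) (a : Fin s → ℂ) (ha : a ≠ 0)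
    (C1 : ℝ) (hC1 : ∀ p ∈ P, ∀ b, qf (W p) b ≤ C1 * ‖b‖ ^ 2)
    (C2 : ℝ) (hC2 : ∀ p ∈ P, qf (W p)⁻¹ a ≤ C2)
    (D : Set ((ℂ → X) × (ℂ → E))) (hD : ∀ p ∈ D, IsLift P p.1 p.2)
    (hsub : ∀ p ∈ D, ∀ g : K, ∀ b : Fin s → ℂ, b ≠ 0 →
      Real.log (qf (W (p.1 0, g • p.2 0)) b) ≤
        circleAverage (fun t => Real.log (qf (W (p.1 t, g • p.2 t)) b)) 0 1)
    (hL : ∀ A : X → ℝ, Continuous A → (∃ C, ∀ x, A x ≤ C) →
      (∀ p ∈ D, A (p.1 0) ≤ circleAverage (fun t => A (p.1 t)) 0 1) → ∀ x y, A x = A y)
    (hloc : ∀ x, ∃ U ∈ 𝓝 x, ∃ S : X → E, ContinuousOn S U ∧ ∀ z ∈ U, (z, S z) ∈ P) :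
    ∀ p ∈ D, ∀ g : K, ∀ θ : ℝ,
      qf (W (p.1 (circleMap 0 1 θ), g • p.2 (circleMap 0 1 θ)))⁻¹ a =
        qf (W (p.1 0, g • p.2 0))⁻¹ a := by
  -- continuity of the quadratic forms
  have hqc : ∀ b : Fin s → ℂ, ContinuousOn (fun p => qf (W p) b) P := by
    intro b
    have : Continuous fun A : Matrix (Fin s) (Fin s) ℂ => qf A b := by
      unfold qf
      apply Complex.continuous_re.comp
      apply Continuous.dotProduct continuous_const
      exact continuous_id.matrix_mulVec continuous_const
    exact this.comp_continuousOn hWc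
  have hqi : ContinuousOn (fun p => qf (W p)⁻¹ a) P := by
    have h1 : ContinuousOn (fun p => (W p)⁻¹) P := by
      have : ∀ p, (W p)⁻¹ = (W p).det⁻¹ • (W p).adjugate := by
        intro p; rw [Matrix.inv_def, Ring.inverse_eq_inv']
      simp only [this]
      have hdet : ContinuousOn (fun p => (W p).det⁻¹) P := by
        apply ContinuousOn.inv₀
        · exact (Continuous.matrix_det continuous_id).comp_continuousOn hWc
        · intro p hp
          exact ((isUnit_iff_isUnit_det _).mp (hW p hp).isUnit).ne_zero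
      have hadj : ContinuousOn (fun p => (W p).adjugate) P :=
        (Continuous.matrix_adjugate continuous_id).comp_continuousOn hWc
      exact hdet.smul hadj
    have : Continuous fun A : Matrix (Fin s) (Fin s) ℂ => qf A a := by
      unfold qf
      apply Complex.continuous_re.comp
      apply Continuous.dotProduct continuous_const
      exact continuous_id.matrix_mulVec continuous_const
    exact this.comp_continuousOn h1
  -- step 1: equality for the dual norms
  have hlogc : ∀ b : Fin s → ℂ, b ≠ 0 → ContinuousOn (fun p => Real.log (qf (W p) b)) P := by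
    intro b hb
    exact (hqc b).log (fun p hp => (qf_pos (hW p hp) hb).ne')
  have step1 : ∀ b : Fin s → ℂ, b ≠ 0 → ∀ p ∈ D, ∀ g : K,
      Real.log (qf (W (p.1 0, g • p.2 0)) b) =
        circleAverage (fun t => Real.log (qf (W (p.1 t, g • p.2 t)) b)) 0 1 := by
    intro b hb
    refine avg_eq μ hP (fun p => Real.log (qf (W p) b)) (hlogc b hb)
      (Real.log (C1 * ‖b‖ ^ 2)) ?_ D hD (fun p hp g => hsub p hp g b hb) hL hloc
    intro p hp
    exact Real.log_le_log (qf_pos (hW p hp) hb) (hC1 p hp b)
  -- step 2: submean for the norm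
  have hap : ∀ p ∈ P, 0 < qf (W p)⁻¹ a := fun p hp => qf_pos (hW p hp).inv ha
  have hlogi : ContinuousOn (fun p => Real.log (qf (W p)⁻¹ a)) P :=
    hqi.log (fun p hp => (hap p hp).ne')
  have step2 : ∀ p ∈ D, ∀ g : K,
      Real.log (qf (W (p.1 0, g • p.2 0))⁻¹ a) ≤
        circleAverage (fun t => Real.log (qf (W (p.1 t, g • p.2 t))⁻¹ a)) 0 1 := by
    intro p hp g
    have hlift := lift_smul hP (hD p hp) g
    have hp0 : (p.1 0, g • p.2 0) ∈ P := hlift.mem 0 (by simp)
    set W0 := W (p.1 0, g • p.2 0) with hW0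
    set b := W0⁻¹ *ᵥ a with hb
    obtain ⟨e1, e2⟩ := cs_eq (hW _ hp0) a
    rw [← hW0, ← hb] at e1 e2
    have hα : 0 < qf W0⁻¹ a := hap _ hp0
    have hb0 : b ≠ 0 := by
      intro h0
      rw [h0] at e2
      simp only [qf, star_zero, zero_dotProduct, Complex.zero_re] at e2
      rw [← show (qf W0⁻¹ a) = (star a ⬝ᵥ (W0⁻¹ *ᵥ a)).re from rfl] at e2
      exact hα.ne e2
    have h1 := step1 b hb0 p hp g
    have hint1 := circleIntegrable_lift hlift (hlogc b hb0)
    have hint2 := circleIntegrable_lift hlift hlogi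
    have h2 : circleAverage (fun t => 2 * Real.log (qf W0⁻¹ a) -
        Real.log (qf (W (p.1 t, g • p.2 t)) b)) 0 1 ≤
        circleAverage (fun t => Real.log (qf (W (p.1 t, g • p.2 t))⁻¹ a)) 0 1 := by
      apply Real.circleAverage_mono
      · have hc : CircleIntegrable (fun _ : ℂ => 2 * Real.log (qf W0⁻¹ a)) 0 1 := by
          have : Continuous fun _ : ℝ => 2 * Real.log (qf W0⁻¹ a) := continuous_const
          exact this.intervalIntegrable _ _
        exact hc.sub hint1
      · exact hint2
      · intro t ht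
        have ht' : t ∈ closedBall (0 : ℂ) 1 := by
          rw [mem_sphere_zero_iff_norm] at ht
          simp only [abs_one] at ht
          simp [ht]
        have hpt := hlift.mem t ht'
        have hcs := cs (hW _ hpt) a b
        have hn : ‖star b ⬝ᵥ a‖ = qf W0⁻¹ a := by
          rw [e1, Complex.norm_real, Real.norm_of_nonneg hα.le]
        rw [hn] at hcs
        have hq1 := qf_pos (hW _ hpt) hb0
        have hq2 := hap _ hpt
        have h3 := Real.log_le_log (by positivity) hcs
        rw [Real.log_pow, Real.log_mul hq1.ne' hq2.ne'] at h3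
        push_cast at h3
        linarith
    have h3 : circleAverage (fun t => 2 * Real.log (qf W0⁻¹ a) -
        Real.log (qf (W (p.1 t, g • p.2 t)) b)) 0 1 = Real.log (qf W0⁻¹ a) := by
      have hc : CircleIntegrable (fun _ : ℂ => 2 * Real.log (qf W0⁻¹ a)) 0 1 := by
        have : Continuous fun _ : ℝ => 2 * Real.log (qf W0⁻¹ a) := continuous_const
        exact this.intervalIntegrable _ _
      rw [Real.circleAverage_fun_sub hc hint1, circleAverage_const, ← h1, e2]
      ring
    rw [h3] at h2
    exact h2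
  -- step 3: equality for the norm and for its exponential
  have hbd : ∀ p ∈ P, Real.log (qf (W p)⁻¹ a) ≤ Real.log C2 := fun p hp =>
    Real.log_le_log (hap p hp) (hC2 p hp)
  have step3 := avg_eq μ hP (fun p => Real.log (qf (W p)⁻¹ a)) hlogi (Real.log C2) hbd D hD
    step2 hL hloc
  have hexp : ∀ p ∈ P, Real.exp (Real.log (qf (W p)⁻¹ a)) = qf (W p)⁻¹ a := fun p hp =>
    Real.exp_log (hap p hp)
  have step4 := avg_eq μ hP (fun p => Real.exp (Real.log (qf (W p)⁻¹ a)))
    (Real.continuous_exp.comp_continuousOn hlogi) C2 (fun p hp => by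
      rw [hexp p hp]; exact hC2 p hp) D hD ?_ hL hloc
  · intro p hp g θ
    have hlift := lift_smul hP (hD p hp) g
    have hp0 : (p.1 0, g • p.2 0) ∈ P := hlift.mem 0 (by simp)
    have hpt := hlift.mem _ (circleMap_mem θ)
    have := eq_of_exp_avg (F := fun t => Real.log (qf (W (p.1 t, g • p.2 t))⁻¹ a))
      (cont_lift hlift hlogi) (step3 p hp g) (step4 p hp g) θ
    have h2 := congrArg Real.exp this
    rw [hexp _ hp0, hexp _ hpt] at h2
    exact h2
  · -- Jensen
    intro p hp g
    have hlift := lift_smul hP (hD p hp) g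
    have h3 := step3 p hp g
    set F : ℂ → ℝ := fun t => Real.log (qf (W (p.1 t, g • p.2 t))⁻¹ a) with hF
    have hi1 : CircleIntegrable F 0 1 := circleIntegrable_lift hlift hlogi
    have hi2 : CircleIntegrable (fun t => Real.exp (F t)) 0 1 :=
      (Real.continuous_exp.comp (cont_lift hlift hlogi)).intervalIntegrable _ _
    change Real.exp (F 0) ≤ circleAverage (fun t => Real.exp (F t)) 0 1
    set m := F 0 with hm
    have hi4 : CircleIntegrable (fun _ : ℂ => Real.exp m * (1 - m)) 0 1 := by
      have : Continuous fun _ : ℝ => Real.exp m * (1 - m) := continuous_const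
      exact this.intervalIntegrable _ _
    have hi3 : CircleIntegrable (fun t => Real.exp m * F t) 0 1 := by
      have : Continuous fun θ : ℝ => Real.exp m * F (circleMap 0 1 θ) :=
        continuous_const.mul (cont_lift hlift hlogi)
      exact this.intervalIntegrable _ _
    have h5 : circleAverage (fun t => Real.exp m * (1 - m) + Real.exp m * F t) 0 1 =
        Real.exp m * (1 - m) + Real.exp m * circleAverage F 0 1 := by
      rw [Real.circleAverage_fun_add hi4 hi3, circleAverage_const]
      congr 1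
      have := Real.circleAverage_fun_smul (a := Real.exp m) (f := F) (c := 0) (R := 1)
      simpa using this
    have h6 : circleAverage (fun t => Real.exp m * (1 - m) + Real.exp m * F t) 0 1 ≤
        circleAverage (fun t => Real.exp (F t)) 0 1 := by
      apply Real.circleAverage_mono (hi4.add hi3) hi2
      intro t _
      have := Real.add_one_le_exp (F t - m)
      have h7 : Real.exp (F t) = Real.exp m * Real.exp (F t - m) := by
        rw [← Real.exp_add]; congr 1; ring
      rw [h7]
      have := Real.exp_pos m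
      simp only [Pi.add_apply]
      nlinarith
    rw [h5] at h6
    have h8 : m = circleAverage F 0 1 := h3
    rw [← h8] at h6
    linarith

end Crest.Agent.R276.Nc_999
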