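import Mathlib
import Crest.Agent.R276.Fda_999
import Crest.Agent.R276.Nil_840

/-!
# Flatness on a disc (helper999, row 276), part (b): the final theorem `flat_disc`

`H` continuous positive definite on the closed unit disc with
* (OT) every vector at `0` extends to polynomial sections with energy `≤ |v|² + ε` on the circle,
* (PV) `log (|ξ|²_{H*} + δ)` is submean for every polynomial covector `ξ`,
* `det H = ‖q‖²`, `q` holomorphic without zeros on the closed disc.
Then `H` is flat: there is a holomorphic frame `T` on the open disc with `T* H T = 1`.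
-/

set_option linter.unusedSectionVars false

namespace Crest.Agent.R276.Fdb_999

open MeasureTheory Metric Filter Topology Matrix Polynomial
open scoped ComplexOrder
open Real (circleAverage circleAverage_const posLog)
open Crest.Agent.R276.Nc_999 Crest.Agent.R276.Poi_999 Crest.Agent.R276.Fda_999

variable {s : ℕ}

/-- real inequality: `log⁺ x ≤ (x - 1 - log x)/l + l/2` -/
theorem posLog_le {x l : ℝ} (hx : 0 < x) (hl : 0 < l) :
    posLog x ≤ (x - 1 - Real.log x) / l + l / 2 := by
  have hk : 0 ≤ x - 1 - Real.log x := by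
    have := Real.log_le_sub_one_of_pos hx
    linarith
  rcases le_total x 1 with h | h
  · have : posLog x = 0 := by
      rw [Real.posLog_apply]
      exact max_eq_left (Real.log_nonpos hx.le h)
    rw [this]; positivity
  · have h1 : posLog x = Real.log x := by
      rw [Real.posLog_apply]
      exact max_eq_right (Real.log_nonneg h)
    rw [h1]
    set y := Real.log x with hy
    have hy0 : 0 ≤ y := Real.log_nonneg h
    have hexp : x = Real.exp y := (Real.exp_log hx).symm
    have h2 : y ^ 2 / 2 ≤ x - 1 - y := by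
      rw [hexp]
      have := Real.quadratic_le_exp_of_nonneg hy0
      linarith
    have h3 : y ≤ y ^ 2 / 2 / l + l / 2 := by
      have : y ^ 2 / 2 / l + l / 2 - y = (y - l) ^ 2 / (2 * l) := by
        field_simp; ring
      have h4 : 0 ≤ (y - l) ^ 2 / (2 * l) := by positivity
      linarith
    have h5 : y ^ 2 / 2 / l ≤ (x - 1 - y) / l := div_le_div_of_nonneg_right h2 hl.le
    linarith

/-- Jensen inequality for an analytic function without zero at the centre -/
theorem jensen_le {f : ℂ → ℂ} (hf : AnalyticOnNhd ℂ f (closedBall 0 1)) (h0 : f 0 ≠ 0) :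
    Real.log ‖f 0‖ ≤ circleAverage (fun z => Real.log ‖f z‖) 0 1 := by
  have hf' : AnalyticOnNhd ℂ f (closedBall 0 |(1 : ℝ)|) := by rwa [abs_one]
  have h := AnalyticOnNhd.circleAverage_log_norm (R := 1) one_ne_zero hf' h0
  rw [h]
  have : 0 ≤ ∑ᶠ u, ((MeromorphicOn.divisor f (closedBall 0 |(1 : ℝ)|) u : ℤ) : ℝ) *
      Real.log (1 * ‖0 - u‖⁻¹) := by
    apply finsum_nonneg
    intro u
    by_cases hu : u ∈ closedBall (0 : ℂ) |(1 : ℝ)|
    · apply mul_nonneg
      · have h1 := MeromorphicOn.AnalyticOnNhd.divisor_nonneg hf'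
        exact_mod_cast h1 u
      · rw [one_mul, zero_sub, norm_neg]
        by_cases hu0 : u = 0
        · simp [hu0]
        · apply Real.log_nonneg
          have : ‖u‖ ≤ 1 := by simpa using hu
          exact (one_le_inv₀ (norm_pos_iff.mpr hu0)).mpr this
    · have : MeromorphicOn.divisor f (closedBall 0 |(1 : ℝ)|) u = 0 :=
        Function.locallyFinsuppWithin.apply_eq_zero_of_notMem _ hu
      rw [this]; simp
  linarith

/-- the matrix of a family of polynomial sections (columns) -/
noncomputable def Tm (p : Fin s → Fin s → ℂ[X]) : Matrix (Fin s) (Fin s) ℂ[X] :=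
  Matrix.of fun i k => p k i

/-- its value -/
noncomputable def TmE (p : Fin s → Fin s → ℂ[X]) (z : ℂ) : Matrix (Fin s) (Fin s) ℂ :=
  Matrix.of fun i k => (p k i).eval z

theorem TmE_det (p : Fin s → Fin s → ℂ[X]) (z : ℂ) : (TmE p z).det = ((Tm p).det).eval z := by
  have : TmE p z = (Tm p).map (Polynomial.evalRingHom z) := by
    ext i k; simp [TmE, Tm]
  rw [this, ← RingHom.mapMatrix_apply, ← RingHom.map_det]
  simp

theorem TmE_adj (p : Fin s → Fin s → ℂ[X]) (z : ℂ) (i k : Fin s) :
    (TmE p z).adjugate i k = ((Tm p).adjugate i k).eval z := by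
  have : TmE p z = (Tm p).map (Polynomial.evalRingHom z) := by
    ext i k; simp [TmE, Tm]
  rw [this, ← RingHom.mapMatrix_apply, ← RingHom.map_adjugate]
  simp

/-- Gram matrix -/
noncomputable def Gr (H : ℂ → Matrix (Fin s) (Fin s) ℂ) (p : Fin s → Fin s → ℂ[X]) (z : ℂ) :
    Matrix (Fin s) (Fin s) ℂ := (TmE p z)ᴴ * H z * TmE p z

theorem Gr_diag (H : ℂ → Matrix (Fin s) (Fin s) ℂ) (p : Fin s → Fin s → ℂ[X]) (z : ℂ) (k : Fin s) :
    (Gr H p z k k).re = qf (H z) (ev (p k) z) := by
  unfold Gr qf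
  congr 1
  rw [Matrix.mul_assoc, Matrix.mul_apply]
  simp only [dotProduct]
  apply Finset.sum_congr rfl
  intro i _
  congr 1

theorem Gr_psd {H : ℂ → Matrix (Fin s) (Fin s) ℂ} (p : Fin s → Fin s → ℂ[X]) {z : ℂ}
    (hH : (H z).PosDef) : (Gr H p z).PosSemidef :=
  hH.posSemidef.conjTranspose_mul_mul_same _

theorem Gr_det {H : ℂ → Matrix (Fin s) (Fin s) ℂ} (p : Fin s → Fin s → ℂ[X]) {z : ℂ} {q : ℂ}
    (hq : (H z).det = ((‖q‖ ^ 2 : ℝ) : ℂ)) :
    (Gr H p z).det = ((‖((Tm p).det).eval z * q‖ ^ 2 : ℝ) : ℂ) := by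
  unfold Gr
  rw [det_mul, det_mul, det_conjTranspose, hq, TmE_det]
  set g := ((Tm p).det).eval z
  have : star g * g = ((‖g‖ ^ 2 : ℝ) : ℂ) := by
    rw [mul_comm, Complex.star_def, Complex.mul_conj, Complex.normSq_eq_norm_sq]
  calc star g * ((‖q‖ ^ 2 : ℝ) : ℂ) * g = (star g * g) * ((‖q‖ ^ 2 : ℝ) : ℂ) := by ring
    _ = _ := by rw [this, norm_mul, mul_pow]; push_cast; rfl

/-- the boundary function `B = ∑ log⁺ |τ_k|²` -/
noncomputable def Bf (H : ℂ → Matrix (Fin s) (Fin s) ℂ) (p : Fin s → Fin s → ℂ[X]) (z : ℂ) : ℝ :=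
  ∑ k, posLog (qf (H z) (ev (p k) z))

theorem Bf_nonneg (H : ℂ → Matrix (Fin s) (Fin s) ℂ) (p : Fin s → Fin s → ℂ[X]) (z : ℂ) :
    0 ≤ Bf H p z := Finset.sum_nonneg fun _ _ => Real.posLog_nonneg

theorem Bf_cont {H : ℂ → Matrix (Fin s) (Fin s) ℂ} (hHc : ContinuousOn H (closedBall 0 1))
    (p : Fin s → Fin s → ℂ[X]) : ContinuousOn (Bf H p) (closedBall 0 1) := by
  unfold Bf
  apply continuousOn_finsetSum
  intro k _
  exact Real.continuous_posLog.comp_continuousOn (qfev_cont hHc (p k))

/-- **Lemma D**: the mean of `B` is small. -/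
theorem avg_B_le {H : ℂ → Matrix (Fin s) (Fin s) ℂ} (hHc : ContinuousOn H (closedBall 0 1))
    (hH : ∀ z ∈ closedBall (0 : ℂ) 1, (H z).PosDef)
    {q : ℂ → ℂ} (hq : AnalyticOnNhd ℂ q (closedBall 0 1)) (hq0 : ∀ z ∈ closedBall (0 : ℂ) 1, q z ≠ 0)
    (hdet : ∀ z ∈ closedBall (0 : ℂ) 1, (H z).det = ((‖q z‖ ^ 2 : ℝ) : ℂ))
    (p : Fin s → Fin s → ℂ[X]) (hp1 : ‖((Tm p).det).eval 0 * q 0‖ = 1) {ε : ℝ}
    (hE : ∀ k, En H (p k) ≤ 1 + ε) {l : ℝ} (hl : 0 < l) :
    circleAverage (Bf H p) 0 1 ≤ s * ε / l + s * (l / 2) := by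
  classical
  set g : ℂ[X] := (Tm p).det with hg
  set F : ℂ → ℂ := fun z => g.eval z * q z with hF
  have hFa : AnalyticOnNhd ℂ F (closedBall 0 1) := by
    apply AnalyticOnNhd.mul _ hq
    intro z _
    exact (g.differentiable.analyticAt z)
  have hF0 : F 0 ≠ 0 := by
    intro h
    have : ‖F 0‖ = 1 := hp1
    rw [h] at this; simp at this
  have hg0 : g ≠ 0 := by
    intro h
    apply hF0
    simp [hF, h]
  -- the comparison function
  let R : ℂ → ℝ := fun z => (∑ k, qf (H z) (ev (p k) z) - s - 2 * Real.log ‖F z‖) / l + s * (l / 2)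
  let R' : ℂ → ℝ := fun z => if g.eval z = 0 then Bf H p z else R z
  have hRR' : R' =ᶠ[codiscreteWithin (sphere (0 : ℂ) |(1 : ℝ)|)] R := by
    have hfin : Set.Finite {z : ℂ | g.eval z = 0} := by
      have := g.roots.toFinset.finite_toSet
      refine this.subset ?_
      intro z hz
      simp only [Finset.mem_coe, Multiset.mem_toFinset]
      exact (Polynomial.mem_roots hg0).mpr hz
    have := compl_finite_mem_codiscreteWithin (s := sphere (0 : ℂ) |(1 : ℝ)|) hfin
    filter_upwards [this] with z hz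
    simp only [R', if_neg (show ¬ g.eval z = 0 from hz)]
  -- pointwise bound
  have hpt : ∀ z ∈ sphere (0 : ℂ) |(1 : ℝ)|, Bf H p z ≤ R' z := by
    intro z hz
    have hzb := sph_sub hz
    simp only [R']
    split_ifs with h0
    · exact le_refl _
    · have hFz : F z ≠ 0 := mul_ne_zero h0 (hq0 z hzb)
      have hdetG := Gr_det (H := H) p (hdet z hzb)
      have hprod : ‖F z‖ ^ 2 ≤ ∏ k, qf (H z) (ev (p k) z) := by
        have h1 := Nil_840.det_le_prod_diag (Gr_psd p (hH z hzb))
        rw [hdetG, Complex.ofReal_re] at h1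
        simp only [Gr_diag] at h1
        exact h1
      have hFpos : 0 < ‖F z‖ ^ 2 := by positivity
      have hxk0 : ∀ k, 0 ≤ qf (H z) (ev (p k) z) := fun k => qf_nonneg (hH z hzb) _
      have hxk : ∀ k, 0 < qf (H z) (ev (p k) z) := by
        intro k
        refine lt_of_le_of_ne (hxk0 k) (fun h => ?_)
        have : ∏ k, qf (H z) (ev (p k) z) = 0 :=
          Finset.prod_eq_zero (Finset.mem_univ k) h.symm
        linarith
      have hlog : 2 * Real.log ‖F z‖ ≤ ∑ k, Real.log (qf (H z) (ev (p k) z)) := by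
        have h2 := Real.log_le_log hFpos hprod
        rw [Real.log_pow, Real.log_prod (fun k _ => (hxk k).ne')] at h2
        push_cast at h2
        exact h2
      have hsum : Bf H p z ≤ ∑ k, ((qf (H z) (ev (p k) z) - 1 - Real.log (qf (H z) (ev (p k) z))) / l
          + l / 2) := Finset.sum_le_sum fun k _ => posLog_le (hxk k) hl
      refine hsum.trans ?_
      rw [Finset.sum_add_distrib, ← Finset.sum_div, Finset.sum_sub_distrib, Finset.sum_sub_distrib]
      simp only [Finset.sum_const, Finset.card_univ, Fintype.card_fin, nsmul_eq_mul, mul_one, R]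
      have h3 : (∑ k, qf (H z) (ev (p k) z) - s - ∑ k, Real.log (qf (H z) (ev (p k) z))) / l ≤
          (∑ k, qf (H z) (ev (p k) z) - s - 2 * Real.log ‖F z‖) / l := by
        apply div_le_div_of_nonneg_right _ hl.le
        linarith
      linarith
  -- integrability
  have hlogi : CircleIntegrable (fun z => Real.log ‖F z‖) 0 1 := by
    have : MeromorphicOn F (sphere (0 : ℂ) |(1 : ℝ)|) := (hFa.mono sph_sub).meromorphicOn
    exact this.circleIntegrable_log_norm
  have hsumi : CircleIntegrable (fun z => ∑ k, qf (H z) (ev (p k) z)) 0 1 := by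
    apply ContinuousOn.circleIntegrable'
    apply continuousOn_finsetSum
    intro k _
    exact (qfev_cont hHc (p k)).mono sph_sub
  have hconst : ∀ a : ℝ, CircleIntegrable (fun _ : ℂ => a) 0 1 := fun a =>
    ContinuousOn.circleIntegrable' continuousOn_const
  have hReq : R = fun z => (l⁻¹ • (∑ k, qf (H z) (ev (p k) z)) + (-(2 * l⁻¹)) • Real.log ‖F z‖) +
      (s * (l / 2) - s * l⁻¹) := by
    ext z
    simp only [R, smul_eq_mul]
    field_simp
    ring
  have hi1 : CircleIntegrable (fun z => l⁻¹ • (∑ k, qf (H z) (ev (p k) z))) 0 1 := by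
    have := hsumi.const_fun_smul (a := l⁻¹)
    exact this
  have hi2 : CircleIntegrable (fun z => (-(2 * l⁻¹)) • Real.log ‖F z‖) 0 1 := by
    have := hlogi.const_fun_smul (a := (-(2 * l⁻¹)))
    exact this
  have hRi : CircleIntegrable R 0 1 := by
    rw [hReq]
    exact (hi1.add hi2).add (hconst _)
  have hR'i : CircleIntegrable R' 0 1 := hRi.congr_codiscreteWithin hRR'.symm
  have hBi : CircleIntegrable (Bf H p) 0 1 :=
    ContinuousOn.circleIntegrable' ((Bf_cont hHc p).mono sph_sub)
  have h1 : circleAverage (Bf H p) 0 1 ≤ circleAverage R' 0 1 :=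
    Real.circleAverage_mono hBi hR'i hpt
  have h2 : circleAverage R' 0 1 = circleAverage R 0 1 :=
    Real.circleAverage_congr_codiscreteWithin hRR' one_ne_zero
  have h3 : circleAverage R 0 1 = l⁻¹ * circleAverage (fun z => ∑ k, qf (H z) (ev (p k) z)) 0 1 -
      2 * l⁻¹ * circleAverage (fun z => Real.log ‖F z‖) 0 1 + (s * (l / 2) - s * l⁻¹) := by
    have hi12 : CircleIntegrable (fun z => l⁻¹ • (∑ k, qf (H z) (ev (p k) z)) +
        (-(2 * l⁻¹)) • Real.log ‖F z‖) 0 1 := hi1.add hi2
    rw [hReq, Real.circleAverage_fun_add hi12 (hconst _), Real.circleAverage_fun_add hi1 hi2,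
      Real.circleAverage_fun_smul, Real.circleAverage_fun_smul, circleAverage_const]
    simp only [smul_eq_mul]
    ring
  have h4 : circleAverage (fun z => ∑ k, qf (H z) (ev (p k) z)) 0 1 ≤ s * (1 + ε) := by
    rw [Real.circleAverage_fun_sum (fun k _ => qfev_int hHc (p k))]
    calc ∑ k, circleAverage (fun z => qf (H z) (ev (p k) z)) 0 1 ≤ ∑ _k : Fin s, (1 + ε) :=
          Finset.sum_le_sum fun k _ => hE k
      _ = s * (1 + ε) := by
          rw [Finset.sum_const, Finset.card_univ, Fintype.card_fin, nsmul_eq_mul]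
  have h5 : 0 ≤ circleAverage (fun z => Real.log ‖F z‖) 0 1 := by
    have := jensen_le hFa hF0
    have h6 : ‖F 0‖ = 1 := hp1
    rw [h6, Real.log_one] at this
    exact this
  rw [h2, h3] at h1
  have hli : 0 < l⁻¹ := inv_pos.mpr hl
  have h7 := mul_le_mul_of_nonneg_left h4 hli.le
  have h8 : 0 ≤ 2 * l⁻¹ * circleAverage (fun z => Real.log ‖F z‖) 0 1 := by positivity
  have h9 : l⁻¹ * (s * (1 + ε)) = s * ε / l + s * l⁻¹ := by
    rw [div_eq_mul_inv]; ring
  linarith

end Crest.Agent.R276.Fdb_999
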