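import Mathlib
import Crest.Agent.R276.Fdb_999

/-!
# Flatness on a disc (helper999, row 276), part (c): `flat_disc`
-/

set_option linter.unusedSectionVars false

namespace Crest.Agent.R276.Fdc_999

open MeasureTheory Metric Filter Topology Matrix Polynomial
open scoped ComplexOrder
open Real (circleAverage circleAverage_const posLog)
open Crest.Agent.R276.Nc_999 Crest.Agent.R276.Poi_999 Crest.Agent.R276.Fda_999
open Crest.Agent.R276.Fdb_999

variable {s : ℕ}

/-- row `j` of the adjugate of the matrix of sections -/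
noncomputable def eta (p : Fin s → Fin s → ℂ[X]) (j : Fin s) : Fin s → ℂ[X] :=
  fun i => (Tm p).adjugate j i

theorem ev_eta (p : Fin s → Fin s → ℂ[X]) (j : Fin s) (z : ℂ) :
    ev (eta p j) z = (TmE p z).adjugate j := by
  ext i
  rw [TmE_adj]
  rfl

/-- the squared dual norm -/
noncomputable def dN (W : Matrix (Fin s) (Fin s) ℂ) (ξ : Fin s → ℂ) : ℝ := qf W⁻¹ (star ξ)

theorem adj_diag {W T : Matrix (Fin s) (Fin s) ℂ} (hW : W.PosDef) {q : ℂ}
    (hq : W.det = ((‖q‖ ^ 2 : ℝ) : ℂ)) (j : Fin s) :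
    ((Tᴴ * W * T).adjugate j j).re = ‖q‖ ^ 2 * dN W (T.adjugate j) := by
  have hdet : IsUnit W.det := (isUnit_iff_isUnit_det W).mp hW.isUnit
  have hadj : W.adjugate = W.det • W⁻¹ := by
    rw [Matrix.inv_def, smul_smul, Ring.mul_inverse_cancel _ hdet, one_smul]
  rw [adjugate_mul_distrib, adjugate_mul_distrib, hadj, ← adjugate_conjTranspose, Matrix.smul_mul,
    Matrix.mul_smul, Matrix.smul_apply, hq, smul_eq_mul, Complex.re_ofReal_mul]
  congr 1
  unfold dN qf
  rw [star_star]
  congr 1

theorem dN_nonneg {W : Matrix (Fin s) (Fin s) ℂ} (hW : W.PosDef) (ξ : Fin s → ℂ) : 0 ≤ dN W ξ :=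
  qf_nonneg hW.inv _

theorem inv_contOn {H : ℂ → Matrix (Fin s) (Fin s) ℂ} {K : Set ℂ} (hHc : ContinuousOn H K)
    (hH : ∀ z ∈ K, (H z).PosDef) : ContinuousOn (fun z => (H z)⁻¹) K := by
  have : ∀ z, (H z)⁻¹ = (H z).det⁻¹ • (H z).adjugate := by
    intro z; rw [Matrix.inv_def, Ring.inverse_eq_inv']
  simp only [this]
  have hdet : ContinuousOn (fun z => (H z).det⁻¹) K := by
    apply ContinuousOn.inv₀
    · exact (Continuous.matrix_det continuous_id).comp_continuousOn hHc
    · intro z hz
      exact ((isUnit_iff_isUnit_det _).mp (hH z hz).isUnit).ne_zero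
  have hadj : ContinuousOn (fun z => (H z).adjugate) K :=
    (Continuous.matrix_adjugate continuous_id).comp_continuousOn hHc
  exact hdet.smul hadj

theorem dN_contOn {H : ℂ → Matrix (Fin s) (Fin s) ℂ} {K : Set ℂ} (hHc : ContinuousOn H K)
    (hH : ∀ z ∈ K, (H z).PosDef) {ξ : ℂ → Fin s → ℂ} (hξ : ContinuousOn ξ K) :
    ContinuousOn (fun z => dN (H z) (ξ z)) K :=
  qf_contOn (inv_contOn hHc hH) hξ.star

/-- the (PV) hypothesis -/
def PV (H : ℂ → Matrix (Fin s) (Fin s) ℂ) : Prop :=
  ∀ ξ : Fin s → ℂ[X], ∀ δ > 0, SubM (fun z => Real.log (dN (H z) (ev ξ z) + δ))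

/-- pointwise bound of the principal minors -/
theorem adj_le_exp {n : ℕ} {H : ℂ → Matrix (Fin (n + 1)) (Fin (n + 1)) ℂ}
    (p : Fin (n + 1) → Fin (n + 1) → ℂ[X]) {z : ℂ} (hH : (H z).PosDef) (j : Fin (n + 1)) :
    ((Gr H p z).adjugate j j).re ≤ Real.exp (Bf H p z) := by
  rw [adjugate_fin_succ_eq_det_submatrix]
  have h1 : ((-1 : ℂ)) ^ ((j : ℕ) + (j : ℕ)) = 1 := by
    rw [← two_mul, pow_mul]; norm_num
  rw [h1, one_mul]
  have hsub := (Gr_psd p hH).submatrix j.succAbove
  refine (Nil_840.det_le_prod_diag hsub).trans ?_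
  simp only [submatrix_apply, Gr_diag]
  calc ∏ i : Fin n, qf (H z) (ev (p (j.succAbove i)) z)
      ≤ ∏ i : Fin n, Real.exp (posLog (qf (H z) (ev (p (j.succAbove i)) z))) := by
        apply Finset.prod_le_prod
        · intro i _; exact qf_nonneg hH _
        · intro i _
          set x := qf (H z) (ev (p (j.succAbove i)) z)
          rcases lt_or_ge 0 x with hx | hx
          · calc x = Real.exp (Real.log x) := (Real.exp_log hx).symm
              _ ≤ _ := by
                apply Real.exp_le_exp.mpr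
                rw [Real.posLog_apply]
                exact le_max_right _ _
          · exact hx.trans (Real.exp_pos _).le
    _ = Real.exp (∑ i : Fin n, posLog (qf (H z) (ev (p (j.succAbove i)) z))) :=
        (Real.exp_sum _ _).symm
    _ ≤ Real.exp (Bf H p z) := by
        apply Real.exp_le_exp.mpr
        unfold Bf
        rw [Fin.sum_univ_succAbove _ j]
        have := Real.posLog_nonneg (x := qf (H z) (ev (p j) z))
        linarith

/-- **Lemma E**: interior bound. -/
theorem interior_le {n : ℕ} {H : ℂ → Matrix (Fin (n + 1)) (Fin (n + 1)) ℂ}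
    (hHc : ContinuousOn H (closedBall 0 1)) (hH : ∀ z ∈ closedBall (0 : ℂ) 1, (H z).PosDef)
    {q : ℂ → ℂ} (hq : AnalyticOnNhd ℂ q (closedBall 0 1)) (hq0 : ∀ z ∈ closedBall (0 : ℂ) 1, q z ≠ 0)
    (hdet : ∀ z ∈ closedBall (0 : ℂ) 1, (H z).det = ((‖q z‖ ^ 2 : ℝ) : ℂ)) (hPV : PV H)
    {D0 : ℝ} (hD0 : ∀ z ∈ closedBall (0 : ℂ) 1, ‖q z‖ ^ 2 ≤ D0)
    (p : Fin (n + 1) → Fin (n + 1) → ℂ[X]) {δ : ℝ} (hδ : 0 < δ) (j : Fin (n + 1))
    {w : ℂ} (hw : ‖w‖ < 1) :
    Real.log (dN (H w) ((TmE p w).adjugate j) + δ) + 2 * Real.log ‖q w‖ ≤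
      (1 + ‖w‖) / (1 - ‖w‖) * circleAverage (Bf H p) 0 1 + δ * D0 := by
  set u1 : ℂ → ℝ := fun z => Real.log (dN (H z) (ev (eta p j) z) + δ) with hu1
  set u : ℂ → ℝ := fun z => u1 z + 2 * Real.log ‖q z‖ with hu
  have hqc : ContinuousOn q (closedBall 0 1) := hq.continuousOn
  have hlq : ContinuousOn (fun z => Real.log ‖q z‖) (closedBall 0 1) :=
    (hqc.norm).log (fun z hz => norm_ne_zero_iff.mpr (hq0 z hz))
  have hu1c : ContinuousOn u1 (closedBall 0 1) := by
    apply ContinuousOn.log
    · exact (dN_contOn hHc hH (ev_cont _).continuousOn).add continuousOn_const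
    · intro z hz
      have := dN_nonneg (hH z hz) (ev (eta p j) z)
      linarith
  have huc : ContinuousOn u (closedBall 0 1) := hu1c.add (continuousOn_const.mul hlq)
  have hus : SubM u := by
    intro c hc
    obtain ⟨r0, hr0, hsub⟩ := hPV (eta p j) δ hδ c hc
    have hcn : ‖c‖ < 1 := by simpa using hc
    refine ⟨min r0 (1 - ‖c‖), lt_min hr0 (by linarith), fun r hr hr' => ?_⟩
    have hr1 : r < r0 := lt_of_lt_of_le hr' (min_le_left _ _)
    have hr2 : r < 1 - ‖c‖ := lt_of_lt_of_le hr' (min_le_right _ _)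
    have hin : closedBall c |r| ⊆ closedBall (0 : ℂ) 1 := by
      intro z hz
      rw [mem_closedBall_zero_iff]
      have : ‖z - c‖ ≤ r := by
        rw [abs_of_pos hr] at hz
        simpa [dist_eq_norm] using hz
      calc ‖z‖ = ‖(z - c) + c‖ := by ring_nf
        _ ≤ ‖z - c‖ + ‖c‖ := norm_add_le _ _
        _ ≤ 1 := by linarith
    have hi1 : CircleIntegrable u1 c r :=
      ContinuousOn.circleIntegrable' (hu1c.mono (sphere_subset_closedBall.trans hin))
    have hi2 : CircleIntegrable (fun z => (2 : ℝ) • Real.log ‖q z‖) c r := by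
      apply ContinuousOn.circleIntegrable'
      exact (hlq.mono (sphere_subset_closedBall.trans hin)).const_smul (2 : ℝ)
    have h1 := hsub r hr hr1
    have h2 := AnalyticOnNhd.circleAverage_log_norm_of_ne_zero (R := r) (c := c) (g := q)
      (hq.mono hin) (fun z hz => hq0 z (hin hz))
    have h3 : circleAverage u c r = circleAverage u1 c r + 2 * Real.log ‖q c‖ := by
      have : u = fun z => u1 z + (2 : ℝ) • Real.log ‖q z‖ := by
        ext z; simp [hu]
      rw [this, Real.circleAverage_fun_add hi1 hi2, Real.circleAverage_fun_smul, h2, smul_eq_mul]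
    rw [h3]
    simp only [hu]
    linarith
  -- boundary bound
  have hbd : ∀ z ∈ sphere (0 : ℂ) |(1 : ℝ)|, u z ≤ Bf H p z + δ * D0 := by
    intro z hz
    have hzb := sph_sub hz
    have hqz : 0 < ‖q z‖ ^ 2 := by
      have := norm_pos_iff.mpr (hq0 z hzb)
      positivity
    have hdn := dN_nonneg (hH z hzb) (ev (eta p j) z)
    have h1 : u z = Real.log ((dN (H z) (ev (eta p j) z) + δ) * ‖q z‖ ^ 2) := by
      rw [Real.log_mul (by linarith) hqz.ne', Real.log_pow]
      simp [hu, hu1]
    rw [h1, Real.log_le_iff_le_exp (by positivity)]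
    have h2 := adj_le_exp p (hH z hzb) j
    unfold Gr at h2
    rw [adj_diag (hH z hzb) (hdet z hzb) j] at h2
    have hB := Bf_nonneg H p z
    have hD := hD0 z hzb
    have hD' : 0 ≤ D0 := hqz.le.trans hD
    rw [ev_eta]
    calc (dN (H z) ((TmE p z).adjugate j) + δ) * ‖q z‖ ^ 2
        = ‖q z‖ ^ 2 * dN (H z) ((TmE p z).adjugate j) + δ * ‖q z‖ ^ 2 := by ring
      _ ≤ Real.exp (Bf H p z) + δ * D0 := by
          have := mul_le_mul_of_nonneg_left hD hδ.le
          linarith
      _ ≤ Real.exp (Bf H p z) * Real.exp (δ * D0) := by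
          have e1 : 1 ≤ Real.exp (Bf H p z) := Real.one_le_exp hB
          have e2 := Real.add_one_le_exp (δ * D0)
          have e3 : 0 ≤ δ * D0 := by positivity
          nlinarith
      _ = Real.exp (Bf H p z + δ * D0) := (Real.exp_add _ _).symm
  have hP := poisson_le huc hus (w := w) (by simpa using hw)
  have hk := kernel_cont hw
  have hBc : ContinuousOn (Bf H p) (sphere (0 : ℂ) |(1 : ℝ)|) := (Bf_cont hHc p).mono sph_sub
  have hi1 : CircleIntegrable (fun z => (herglotzRieszKernel 0 w z).re * u z) 0 1 :=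
    ContinuousOn.circleIntegrable' (hk.mul (huc.mono sph_sub))
  have hi2 : CircleIntegrable (fun z => ((1 + ‖w‖) / (1 - ‖w‖)) • Bf H p z) 0 1 :=
    smul_int _ hBc
  have hi3 : CircleIntegrable (fun z => (δ * D0) • (herglotzRieszKernel 0 w z).re) 0 1 :=
    smul_int _ hk
  have h4 : circleAverage (fun z => (herglotzRieszKernel 0 w z).re * u z) 0 1 ≤
      circleAverage (fun z => ((1 + ‖w‖) / (1 - ‖w‖)) • Bf H p z +
        (δ * D0) • (herglotzRieszKernel 0 w z).re) 0 1 := by
    apply Real.circleAverage_mono hi1 (hi2.add hi3)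
    intro z hz
    have h5 := hbd z hz
    rw [abs_one] at hz
    have h6 := kernel_nonneg hw hz
    have h7 := kernel_le hw hz
    have h8 := Bf_nonneg H p z
    simp only [smul_eq_mul, Pi.add_apply]
    calc (herglotzRieszKernel 0 w z).re * u z ≤
          (herglotzRieszKernel 0 w z).re * (Bf H p z + δ * D0) := mul_le_mul_of_nonneg_left h5 h6
      _ = (herglotzRieszKernel 0 w z).re * Bf H p z + δ * D0 * (herglotzRieszKernel 0 w z).re := by
          ring
      _ ≤ _ := by
          have := mul_le_mul_of_nonneg_right h7 h8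
          linarith
  have hk1 : circleAverage (fun z => (herglotzRieszKernel 0 w z).re) 0 1 = 1 := by
    have := reP_poisson 1 (w := w) (by simpa using hw)
    simpa [reP] using this
  rw [Real.circleAverage_fun_add hi2 hi3, Real.circleAverage_fun_smul, Real.circleAverage_fun_smul,
    hk1] at h4
  simp only [smul_eq_mul, mul_one] at h4
  have h9 : u w = Real.log (dN (H w) ((TmE p w).adjugate j) + δ) + 2 * Real.log ‖q w‖ := by
    simp only [hu, hu1, ev_eta]
  rw [← h9]
  exact hP.trans h4

/-- a positive definite matrix with trace `≤ s` and determinant one is the identity -/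
theorem eq_one_of_trace {P : Matrix (Fin s) (Fin s) ℂ} (hP : P.PosDef) (htr : P.trace.re ≤ s)
    (hdet : P.det = 1) : P = 1 := by
  classical
  have hH := hP.isHermitian
  have hpos : ∀ i, 0 < hH.eigenvalues i := fun i => hP.eigenvalues_pos i
  have hsum : ∑ i, hH.eigenvalues i ≤ s := by
    have h1 := hH.trace_eq_sum_eigenvalues
    have h2 : P.trace.re = ∑ i, hH.eigenvalues i := by
      rw [h1, Complex.re_sum]
      apply Finset.sum_congr rfl
      intro i _
      simp
    rw [← h2]; exact htr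
  have hprod : ∏ i, hH.eigenvalues i = 1 := by
    have h1 := hH.det_eq_prod_eigenvalues
    rw [hdet] at h1
    have h2 : ((∏ i, hH.eigenvalues i : ℝ) : ℂ) = 1 := by
      rw [h1]; push_cast; rfl
    exact_mod_cast h2
  have hlog : ∑ i, Real.log (hH.eigenvalues i) = 0 := by
    rw [← Real.log_prod (fun i _ => (hpos i).ne'), hprod, Real.log_one]
  have hall : ∀ i, hH.eigenvalues i = 1 := by
    have hnn : ∀ i ∈ Finset.univ, 0 ≤ hH.eigenvalues i - 1 - Real.log (hH.eigenvalues i) := by
      intro i _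
      have := Real.log_le_sub_one_of_pos (hpos i)
      linarith
    have hs0 : ∑ i, (hH.eigenvalues i - 1 - Real.log (hH.eigenvalues i)) ≤ 0 := by
      rw [Finset.sum_sub_distrib, Finset.sum_sub_distrib, hlog]
      simp only [Finset.sum_const, Finset.card_univ, Fintype.card_fin, nsmul_eq_mul, mul_one]
      linarith
    have hs1 : ∑ i, (hH.eigenvalues i - 1 - Real.log (hH.eigenvalues i)) = 0 :=
      le_antisymm hs0 (Finset.sum_nonneg hnn)
    intro i
    have h0 := (Finset.sum_eq_zero_iff_of_nonneg hnn).mp hs1 i (Finset.mem_univ i)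
    by_contra hne
    have := Real.log_lt_sub_one_of_pos (hpos i) hne
    linarith
  rw [hH.spectral_theorem]
  have : (RCLike.ofReal ∘ hH.eigenvalues : Fin s → ℂ) = fun _ => 1 := by
    ext i; simp [hall i]
  rw [this]
  have h1 : (diagonal fun _ : Fin s => (1 : ℂ)) = 1 := diagonal_one
  rw [h1, map_one]

end Crest.Agent.R276.Fdc_999
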