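import Mathlib
import Crest.Agent.R276.Zrc_448

/-!
# GRO-UP, algebraic half (helper845, row 276)

ZRC with a quantitative threshold: the finite cover of the set of points by the pieces
`{|f i j| ≤ T for all j}` with `T` polynomial in the values of finitely many elements of the base ring.
-/

set_option autoImplicit false

open Filter

namespace Crest.Agent.R276.GroUpA_845

open Crest.Agent.R276.Zrc_448

section bound

variable {k K : Type*} [CommRing k] [Field K] [Algebra k K]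

/-- every polynomial expression without constant term in the elements of `s` is small when the elements of `s`
are small, with a constant polynomial in the values of finitely many coefficients -/
theorem adjoin_bound {s : Set K} {x : K} (hx : x ∈ NonUnitalAlgebra.adjoin k s) :
    ∃ (A : Finset k) (C : ℝ) (n : ℕ), 0 ≤ C ∧
      ∀ (B : Type) [CommRing B] (j : B →+* K) (φ : B →+* ℂ) (t R : ℝ), 0 ≤ t → t ≤ 1 → 0 ≤ R →
        (∀ σ ∈ s, ∃ b, j b = σ ∧ ‖φ b‖ ≤ t) →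
        (∀ a ∈ A, ∃ b, j b = algebraMap k K a ∧ ‖φ b‖ ≤ R) →
        ∃ b, j b = x ∧ ‖φ b‖ ≤ t * (C * (1 + R) ^ n) := by
  classical
  induction hx using NonUnitalAlgebra.adjoin_induction with
  | mem y hy =>
    refine ⟨∅, 1, 0, zero_le_one, ?_⟩
    intro B _ j φ t R ht0 ht1 hR hs hA
    obtain ⟨b, hb, hb'⟩ := hs y hy
    exact ⟨b, hb, by simpa using hb'⟩
  | add y z _ _ hy hz =>
    obtain ⟨A1, C1, n1, hC1, h1⟩ := hy
    obtain ⟨A2, C2, n2, hC2, h2⟩ := hz
    refine ⟨A1 ∪ A2, C1 + C2, max n1 n2, add_nonneg hC1 hC2, ?_⟩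
    intro B _ j φ t R ht0 ht1 hR hs hA
    obtain ⟨b1, hb1, hb1'⟩ := h1 B j φ t R ht0 ht1 hR hs
      (fun a ha => hA a (Finset.mem_union_left _ ha))
    obtain ⟨b2, hb2, hb2'⟩ := h2 B j φ t R ht0 ht1 hR hs
      (fun a ha => hA a (Finset.mem_union_right _ ha))
    refine ⟨b1 + b2, by rw [map_add, hb1, hb2], ?_⟩
    rw [map_add]
    have h1R : (1 : ℝ) ≤ 1 + R := by linarith
    have e1 : (1 + R) ^ n1 ≤ (1 + R) ^ max n1 n2 := pow_le_pow_right₀ h1R (le_max_left _ _)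
    have e2 : (1 + R) ^ n2 ≤ (1 + R) ^ max n1 n2 := pow_le_pow_right₀ h1R (le_max_right _ _)
    calc ‖φ b1 + φ b2‖ ≤ ‖φ b1‖ + ‖φ b2‖ := norm_add_le _ _
      _ ≤ t * (C1 * (1 + R) ^ n1) + t * (C2 * (1 + R) ^ n2) := add_le_add hb1' hb2'
      _ ≤ t * (C1 * (1 + R) ^ max n1 n2) + t * (C2 * (1 + R) ^ max n1 n2) := by gcongr
      _ = t * ((C1 + C2) * (1 + R) ^ max n1 n2) := by ring
  | zero =>
    refine ⟨∅, 0, 0, le_refl _, ?_⟩
    intro B _ j φ t R ht0 ht1 hR hs hA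
    exact ⟨0, by simp, by simp⟩
  | mul y z _ _ hy hz =>
    obtain ⟨A1, C1, n1, hC1, h1⟩ := hy
    obtain ⟨A2, C2, n2, hC2, h2⟩ := hz
    refine ⟨A1 ∪ A2, C1 * C2, n1 + n2, mul_nonneg hC1 hC2, ?_⟩
    intro B _ j φ t R ht0 ht1 hR hs hA
    obtain ⟨b1, hb1, hb1'⟩ := h1 B j φ t R ht0 ht1 hR hs
      (fun a ha => hA a (Finset.mem_union_left _ ha))
    obtain ⟨b2, hb2, hb2'⟩ := h2 B j φ t R ht0 ht1 hR hs
      (fun a ha => hA a (Finset.mem_union_right _ ha))
    refine ⟨b1 * b2, by rw [map_mul, hb1, hb2], ?_⟩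
    rw [map_mul, norm_mul]
    have h1R : (0 : ℝ) ≤ 1 + R := by linarith
    calc ‖φ b1‖ * ‖φ b2‖ ≤ (t * (C1 * (1 + R) ^ n1)) * (t * (C2 * (1 + R) ^ n2)) :=
          mul_le_mul hb1' hb2' (norm_nonneg _) (by positivity)
      _ = t * (t * ((C1 * C2) * (1 + R) ^ (n1 + n2))) := by ring
      _ ≤ t * (1 * ((C1 * C2) * (1 + R) ^ (n1 + n2))) := by gcongr
      _ = t * ((C1 * C2) * (1 + R) ^ (n1 + n2)) := by ring
  | smul r y _ hy =>
    obtain ⟨A1, C1, n1, hC1, h1⟩ := hy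
    refine ⟨insert r A1, C1, n1 + 1, hC1, ?_⟩
    intro B _ j φ t R ht0 ht1 hR hs hA
    obtain ⟨b1, hb1, hb1'⟩ := h1 B j φ t R ht0 ht1 hR hs
      (fun a ha => hA a (Finset.mem_insert_of_mem ha))
    obtain ⟨b0, hb0, hb0'⟩ := hA r (Finset.mem_insert_self _ _)
    refine ⟨b0 * b1, by rw [map_mul, hb0, hb1, Algebra.smul_def], ?_⟩
    rw [map_mul, norm_mul]
    have h1R : (0 : ℝ) ≤ 1 + R := by linarith
    calc ‖φ b0‖ * ‖φ b1‖ ≤ R * (t * (C1 * (1 + R) ^ n1)) :=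
          mul_le_mul hb0' hb1' (norm_nonneg _) hR
      _ ≤ (1 + R) * (t * (C1 * (1 + R) ^ n1)) := by
          apply mul_le_mul_of_nonneg_right (by linarith) (by positivity)
      _ = t * (C1 * (1 + R) ^ (n1 + 1)) := by ring

/-- **(COV)** quantitative ZRC -/
theorem cover {ι κ : Type*} [Finite κ] (f : ι → κ → K)
    (H : ∀ V : ValuationSubring K, (∀ a : k, algebraMap k K a ∈ V) → ∃ i, ∀ j, f i j ∈ V) :
    ∃ (S : Finset ι) (A : Finset k) (C : ℝ) (n : ℕ), 1 ≤ C ∧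
      ∀ (B : Type) [CommRing B] (j : B →+* K) (φ : B →+* ℂ) (R : ℝ), Function.Injective j → 0 ≤ R →
        (∀ i ∈ S, ∀ l, ∃ b, j b = f i l) →
        (∀ i ∈ S, ∀ l, ∃ b, j b = (f i l)⁻¹) →
        (∀ a ∈ A, ∃ b, j b = algebraMap k K a ∧ ‖φ b‖ ≤ R) →
        ∃ i ∈ S, ∀ l, ∀ b, j b = f i l → ‖φ b‖ ≤ C * (1 + R) ^ n := by
  classical
  obtain ⟨S, hS⟩ := zrc (k := k) f H
  have : Fintype κ := Fintype.ofFinite κ
  -- the case of an empty index type of entries
  rcases isEmpty_or_nonempty κ with hκ | hκ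
  · -- then any `i ∈ S` works; `S` is nonempty because otherwise `1 ∈ adjoin ∅`
    rcases S.eq_empty_or_nonempty with hSe | hSne
    · -- `S` empty: use `H` for `⊤` to get one index
      obtain ⟨i, -⟩ := H ⊤ (fun a => trivial)
      refine ⟨{i}, ∅, 1, 0, le_refl _, ?_⟩
      intro B _ j φ R hj hR h1 h2 h3
      exact ⟨i, Finset.mem_singleton_self _, fun l => (hκ.false l).elim⟩
    · obtain ⟨i, hi⟩ := hSne
      refine ⟨S, ∅, 1, 0, le_refl _, ?_⟩
      intro B _ j φ R hj hR h1 h2 h3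
      exact ⟨i, hi, fun l => (hκ.false l).elim⟩
  -- finitely many choices: functions `S → κ`
  let ext : (S → κ) → ι → κ := fun c i => if h : i ∈ S then c ⟨i, h⟩ else Classical.arbitrary κ
  let good : (S → κ) → Prop := fun c => ∀ i ∈ S, f i (ext c i) ≠ 0
  have key : ∀ c : S → κ, ∃ (A : Finset k) (C : ℝ) (n : ℕ), 0 ≤ C ∧ (good c →
      ∀ (B : Type) [CommRing B] (j : B →+* K) (φ : B →+* ℂ) (t R : ℝ), 0 ≤ t → t ≤ 1 → 0 ≤ R →
        (∀ σ ∈ ((fun i => (f i (ext c i))⁻¹) '' (S : Set ι)), ∃ b, j b = σ ∧ ‖φ b‖ ≤ t) →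
        (∀ a ∈ A, ∃ b, j b = algebraMap k K a ∧ ‖φ b‖ ≤ R) →
        ∃ b, j b = 1 ∧ ‖φ b‖ ≤ t * (C * (1 + R) ^ n)) := by
    intro c
    by_cases hc : good c
    · obtain ⟨A, C, n, hC, h⟩ := adjoin_bound (hS (ext c) hc)
      exact ⟨A, C, n, hC, fun _ => h⟩
    · exact ⟨∅, 0, 0, le_refl _, fun h => absurd h hc⟩
  choose A C n hC hA using key
  let CC : ℝ := 1 + ∑ c, C c
  let N : ℕ := ∑ c, n c
  have hCC : ∀ c, C c ≤ ∑ c, C c := fun c =>
    Finset.single_le_sum (f := fun c => C c) (fun c _ => hC c) (Finset.mem_univ c)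
  have hsum0 : 0 ≤ ∑ c, C c := Finset.sum_nonneg fun c _ => hC c
  refine ⟨S, Finset.univ.biUnion A, CC, N, by simp only [CC]; linarith, ?_⟩
  intro B _ j φ R hj hR h1 h2 h3
  by_contra hcon
  push Not at hcon
  -- choose large entries
  have hch : ∀ i : S, ∃ l : κ, ∃ b, j b = f i l ∧ CC * (1 + R) ^ N < ‖φ b‖ := fun i => hcon i.1 i.2
  choose c b hb hbig using hch
  set T : ℝ := CC * (1 + R) ^ N with hT
  have h1R : (1 : ℝ) ≤ 1 + R := by linarith
  have hT1 : 1 ≤ T := by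
    have e1 : (1 : ℝ) ≤ (1 + R) ^ N := one_le_pow₀ h1R
    have e2 : (1 : ℝ) ≤ CC := by simp only [CC]; linarith
    calc (1 : ℝ) = 1 * 1 := by ring
      _ ≤ CC * (1 + R) ^ N := mul_le_mul e2 e1 zero_le_one (by linarith)
  have hbi : ∀ i : S, ext c i = c i := by
    rintro ⟨i, hi⟩
    simp only [ext, dif_pos hi]
  have hgood : good c := by
    intro i hi h0
    have h4 := hbi ⟨i, hi⟩
    simp only at h4
    rw [h4] at h0
    have h5 : b ⟨i, hi⟩ = 0 := hj (by rw [hb, map_zero, h0])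
    have h6 := hbig ⟨i, hi⟩
    rw [h5, map_zero, norm_zero] at h6
    linarith
  have hT0 : 0 < T := by linarith
  obtain ⟨e, he, he'⟩ := hA c hgood B j φ T⁻¹ R (by positivity) (inv_le_one_of_one_le₀ hT1) hR
    (by
      rintro _ ⟨i, hi, rfl⟩
      obtain ⟨b', hb'⟩ := h2 i hi (ext c i)
      refine ⟨b', hb', ?_⟩
      have h4 := hbi ⟨i, hi⟩
      simp only at h4
      have hne : f i (ext c i) ≠ 0 := hgood i hi
      have h5 : b ⟨i, hi⟩ * b' = 1 := by
        apply hj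
        rw [map_mul, hb, hb', map_one, h4]
        rw [h4] at hne
        exact mul_inv_cancel₀ hne
      have h6 : φ (b ⟨i, hi⟩) * φ b' = 1 := by rw [← map_mul, h5, map_one]
      have h7 := hbig ⟨i, hi⟩
      have h8 : ‖φ (b ⟨i, hi⟩)‖ * ‖φ b'‖ = 1 := by rw [← norm_mul, h6, norm_one]
      have h9 : 0 < ‖φ b'‖ := by
        rcases (norm_nonneg (φ b')).lt_or_eq with h | h
        · exact h
        · rw [← h, mul_zero] at h8
          exact absurd h8 zero_ne_one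
      rw [le_inv_comm₀ h9 hT0]
      have h10 : ‖φ b'‖⁻¹ = ‖φ (b ⟨i, hi⟩)‖ := by
        field_simp
        linarith
      rw [h10]
      exact h7.le)
    (fun a ha => h3 a (Finset.mem_biUnion.2 ⟨c, Finset.mem_univ _, ha⟩))
  have he1 : e = 1 := hj (by rw [he, map_one])
  rw [he1, map_one, norm_one] at he'
  have h4 : C c * (1 + R) ^ n c < T := by
    have e1 : (1 + R) ^ n c ≤ (1 + R) ^ N := pow_le_pow_right₀ h1R
      (Finset.single_le_sum (f := fun c => n c) (fun _ _ => Nat.zero_le _) (Finset.mem_univ c))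
    have e3 : (1 : ℝ) ≤ (1 + R) ^ N := one_le_pow₀ h1R
    calc C c * (1 + R) ^ n c ≤ (∑ c, C c) * (1 + R) ^ N :=
          mul_le_mul (hCC c) e1 (by positivity) hsum0
      _ < CC * (1 + R) ^ N := by
          apply mul_lt_mul_of_pos_right _ (by linarith)
          simp only [CC]
          linarith
  have h5 : T⁻¹ * (C c * (1 + R) ^ n c) < 1 := by
    calc T⁻¹ * (C c * (1 + R) ^ n c) < T⁻¹ * T := by
          apply mul_lt_mul_of_pos_left h4 (by positivity)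
      _ = 1 := inv_mul_cancel₀ hT0.ne'
  linarith

end bound

end Crest.Agent.R276.GroUpA_845
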