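import Mathlib
import Crest.Agent.R276.Area_448
import Crest.Agent.R276.GroUpA_845

/-!
# GRO-UP, area formula with an almost everywhere multiplicity bound (helper845, row 276)
-/

set_option autoImplicit false

open scoped Topology ENNReal
open Filter Set MeasureTheory

noncomputable section

namespace Crest.Agent.R276.GroUpB_845

open Crest.Agent.R271.Ho51 Crest.Agent.R276.Area_448

section area

variable {n : ℕ} {M : Type*} [TopologicalSpace M] [RDom n M]
variable {q : M → (Fin n → ℂ)} {q' : M → ((Fin n → ℂ) →L[ℂ] (Fin n → ℂ))}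

lemma SD.continuous (hq : SD q q') : Continuous q := by
  rw [continuous_iff_continuousAt]
  intro x
  have h1 : ContinuousAt (q ∘ (ch x).symm) (cp x) := (hq x).continuousAt
  have h2 : ContinuousAt (fun y => (q ∘ (ch x).symm) (cp y)) x :=
    ContinuousAt.comp (g := q ∘ (ch x).symm) h1 cp_cont.continuousAt
  exact h2.congr (eventually_eq_comp (isCh_ch x) (mem_ch x) q).symm

variable [MeasurableSpace M] [BorelSpace M]

/-- **(AREA-a.e.)** -/
theorem area_ae_le [SecondCountableTopology M] {μ : Measure M} (hμ : IsLeb μ) (hq : SD q q')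
    (hJ : Continuous fun x => (q' x).det) {E : Set M} (hE : MeasurableSet E)
    {W : Set (Fin n → ℂ)} (hW : MeasurableSet W) (hEW : ∀ x ∈ E, (q' x).det ≠ 0 → q x ∈ W)
    {d : ℕ} (hd : ∀ᵐ η : Fin n → ℂ, {x : M | x ∈ E ∧ (q' x).det ≠ 0 ∧ q x = η}.encard ≤ d)
    {w : (Fin n → ℂ) → ℝ≥0∞} (hw : Measurable w) {F : M → ℝ≥0∞}
    (hF : ∀ x ∈ E, F x ≤ ENNReal.ofReal (‖(q' x).det‖ ^ 2) * w (q x)) :
    ∫⁻ x in E, F x ∂μ ≤ d * ∫⁻ η in W, w η := by
  classical
  have hqc : Continuous q := SD.continuous hq
  have h1 : ∫⁻ x in E, F x ∂μ ≤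
      ∫⁻ x, (E.indicator (fun x => w (q x)) x) * ENNReal.ofReal (‖(q' x).det‖ ^ 2) ∂μ := by
    rw [← lintegral_indicator hE]
    apply lintegral_mono
    intro x
    by_cases hx : x ∈ E
    · simp only [Set.indicator_of_mem hx]
      exact (hF x hx).trans (le_of_eq (mul_comm _ _))
    · simp [hx]
  refine h1.trans ?_
  have hfm : Measurable (E.indicator (fun x => w (q x))) :=
    (hw.comp hqc.measurable).indicator hE
  rw [area hμ hq hJ hfm]
  have h2 : ∀ᵐ η : Fin n → ℂ, ∑' x : {x : M // q x = η},
      {x | (q' x).det ≠ 0}.indicator (E.indicator (fun x => w (q x))) x.1 ≤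
      W.indicator (fun η => (d : ℝ≥0∞) * w η) η := by
    filter_upwards [hd] with η hdη
    set S : Set M := {x : M | x ∈ E ∧ (q' x).det ≠ 0 ∧ q x = η} with hS
    have h3 : ∑' x : {x : M // q x = η},
        {x | (q' x).det ≠ 0}.indicator (E.indicator (fun x => w (q x))) x.1 =
        ∑' x : S, w η := by
      have h5 := tsum_subtype {x : M | q x = η}
        (fun x => {x | (q' x).det ≠ 0}.indicator (E.indicator (fun x => w (q x))) x)
      refine h5.trans ?_
      rw [tsum_subtype S (fun _ => w η)]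
      apply tsum_congr
      intro x
      by_cases hx1 : q x = η
      · by_cases hx2 : (q' x).det = 0
        · have : x ∉ S := fun h => h.2.1 hx2
          simp [this, hx2, hx1]
        · by_cases hx3 : x ∈ E
          · have : x ∈ S := ⟨hx3, hx2, hx1⟩
            simp [this, hx1, hx2, hx3]
          · have : x ∉ S := fun h => hx3 h.1
            simp [this, hx1, hx3]
      · have : x ∉ S := fun h => hx1 h.2.2
        simp [this, hx1]
    rw [h3]
    by_cases hη : η ∈ W
    · rw [Set.indicator_of_mem hη, ENNReal.tsum_const]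
      have h4 := hdη
      apply mul_le_mul_left
      calc ((ENat.card S : ℕ∞) : ℝ≥0∞) ≤ ((d : ℕ∞) : ℝ≥0∞) := by
            exact_mod_cast h4
        _ = (d : ℝ≥0∞) := by simp
    · have : S = ∅ := by
        apply Set.eq_empty_of_forall_notMem
        rintro x ⟨hx1, hx2, hx3⟩
        exact hη (hx3 ▸ hEW x hx1 hx2)
      simp [this]
  calc ∫⁻ η, ∑' x : {x : M // q x = η},
      {x | (q' x).det ≠ 0}.indicator (E.indicator (fun x => w (q x))) x.1
      ≤ ∫⁻ η, W.indicator (fun η => (d : ℝ≥0∞) * w η) η := lintegral_mono_ae h2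
    _ = d * ∫⁻ η in W, w η := by
        rw [lintegral_indicator hW, lintegral_const_mul _ hw]

end area

end Crest.Agent.R276.GroUpB_845
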