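import Mathlib
import Crest.Agent.R271.Null_956

/-!
# GRO-UP, degree bound (helper845, row 276)

`K/L` finitely generated of characteristic zero, `y : Fin r → K` with `jac y ≠ 0`.  For `b ∈ K` there is
a nonzero `P ∈ L[Y][X]` with `P(y,b) = 0`; hence, uniformly in the point `z` of a model of `L` and for
almost every `η ∈ ℂ^r`, `b` takes at most `deg P` values at the points over `(z, η)`.
-/

set_option autoImplicit false

open scoped Topology ENNReal
open Filter Set MeasureTheory

noncomputable section

namespace Crest.Agent.R276.GroUpC_845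

section alg

variable {L K : Type} [Field L] [Field K] [Algebra L K] {r : ℕ}

/-- the coefficients of the coefficients -/
def cofs (P : Polynomial (MvPolynomial (Fin r) L)) : Finset L := by
  classical
  exact P.support.biUnion fun n => (P.coeff n).coeffs

lemma mem_cofs {P : Polynomial (MvPolynomial (Fin r) L)} {n : ℕ} {c : L}
    (hc : c ∈ (P.coeff n).coeffs) : c ∈ cofs P := by
  classical
  simp only [cofs, Finset.mem_biUnion]
  refine ⟨n, ?_, hc⟩
  rw [Polynomial.mem_support_iff]
  intro h
  rw [h] at hc
  simp at hc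

/-- lifting of the coefficients -/
lemma exists_lift {A : Type} [CommRing A] (jA : A →+* L) (P : Polynomial (MvPolynomial (Fin r) L))
    (hA : ∀ a ∈ cofs P, ∃ a', jA a' = a) :
    ∃ P0 : Polynomial (MvPolynomial (Fin r) A), P0.map (MvPolynomial.map jA) = P := by
  rw [← Polynomial.mem_lifts, Polynomial.lifts_iff_coeff_lifts]
  intro n
  rw [MvPolynomial.mem_range_map_iff_coeffs_subset]
  intro c hc
  exact hA c (mem_cofs hc)

/-- **(DEG)** -/
theorem deg_bound {P : Polynomial (MvPolynomial (Fin r) L)} (hP : P ≠ 0) {y : Fin r → K} {b : K}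
    (hPb : Polynomial.eval₂ (MvPolynomial.aeval y : MvPolynomial (Fin r) L →ₐ[L] K).toRingHom b P = 0)
    {A B : Type} [CommRing A] [CommRing B] (jA : A →+* L) (jB : B →+* K) (i : A →+* B)
    (hcomm : ∀ a, jB (i a) = algebraMap L K (jA a)) (hjB : Function.Injective jB)
    (hjA : Function.Injective jA)
    (hA : ∀ a ∈ cofs P, ∃ a', jA a' = a) (hA' : ∀ a ∈ cofs P, ∃ a', jA a' = a⁻¹)
    {yB : Fin r → B} (hy : ∀ l, jB (yB l) = y l) {bB : B} (hb : jB bB = b) (φ : A →+* ℂ) :
    ∀ᵐ η : Fin r → ℂ, ∃ s : Finset ℂ, s.card ≤ P.natDegree ∧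
      ∀ ψ : B →+* ℂ, (∀ a, ψ (i a) = φ a) → (∀ l, ψ (yB l) = η l) → ψ bB ∈ s := by
  classical
  obtain ⟨P0, hP0⟩ := exists_lift jA P hA
  -- the leading coefficient does not vanish after specialisation
  have hlead : P.leadingCoeff ≠ 0 := by rwa [Ne, Polynomial.leadingCoeff_eq_zero]
  have hmapinj : Function.Injective (MvPolynomial.map jA : MvPolynomial (Fin r) A →+* MvPolynomial (Fin r) L) :=
    MvPolynomial.map_injective _ hjA
  have hdeg : P0.natDegree = P.natDegree := by
    rw [← hP0, Polynomial.natDegree_map_eq_of_injective hmapinj]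
  obtain ⟨m, hm⟩ : ∃ m, MvPolynomial.coeff m P.leadingCoeff ≠ 0 := by
    by_contra h
    push Not at h
    apply hlead
    ext m
    simpa using h m
  have hcoeff : P.leadingCoeff = MvPolynomial.map jA (P0.coeff P.natDegree) := by
    conv_lhs => rw [Polynomial.leadingCoeff, ← hP0]
    rw [Polynomial.coeff_map, hP0]
  have hc0 : MvPolynomial.map φ (P0.coeff P.natDegree) ≠ 0 := by
    intro h0
    have h1 : φ (MvPolynomial.coeff m (P0.coeff P.natDegree)) = 0 := by
      rw [← MvPolynomial.coeff_map, h0, MvPolynomial.coeff_zero]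
    have h2 : jA (MvPolynomial.coeff m (P0.coeff P.natDegree)) = MvPolynomial.coeff m P.leadingCoeff := by
      rw [hcoeff, MvPolynomial.coeff_map]
    have h3 : MvPolynomial.coeff m P.leadingCoeff ∈ cofs P := by
      apply mem_cofs (n := P.natDegree)
      rw [Polynomial.coeff_natDegree]
      exact MvPolynomial.coeff_mem_coeffs m hm
    obtain ⟨a', ha'⟩ := hA' _ h3
    have h4 : MvPolynomial.coeff m (P0.coeff P.natDegree) * a' = 1 := by
      apply hjA
      rw [map_mul, h2, ha', map_one, mul_inv_cancel₀ hm]
    have h5 := congrArg φ h4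
    rw [map_mul, h1, zero_mul, map_one] at h5
    exact zero_ne_one h5
  filter_upwards [Crest.Agent.R271.Null956.ae_eval_ne hc0] with η hη
  -- specialised polynomial
  set ev : MvPolynomial (Fin r) A →+* ℂ := MvPolynomial.eval₂Hom φ η with hev
  set Q : Polynomial ℂ := P0.map ev with hQ
  have hQ0 : Q ≠ 0 := by
    intro h0
    have h1 : Q.coeff P.natDegree = 0 := by rw [h0, Polynomial.coeff_zero]
    rw [hQ, Polynomial.coeff_map] at h1
    apply hη
    rw [MvPolynomial.eval_map]
    exact h1
  refine ⟨Q.roots.toFinset, ?_, ?_⟩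
  · calc Q.roots.toFinset.card ≤ Multiset.card Q.roots := Multiset.toFinset_card_le _
      _ ≤ Q.natDegree := Polynomial.card_roots' Q
      _ ≤ P0.natDegree := Polynomial.natDegree_map_le
      _ = P.natDegree := hdeg
  · intro ψ hψ hψy
    rw [Multiset.mem_toFinset, Polynomial.mem_roots hQ0, Polynomial.IsRoot.def, hQ,
      Polynomial.eval_map]
    -- evaluate `P0` in `B`
    have h1 : Polynomial.eval₂ (MvPolynomial.eval₂Hom i yB) bB P0 = 0 := by
      apply hjB
      rw [map_zero, Polynomial.hom_eval₂, hb]
      have h2 : jB.comp (MvPolynomial.eval₂Hom i yB) =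
          ((MvPolynomial.aeval y : MvPolynomial (Fin r) L →ₐ[L] K).toRingHom).comp
            (MvPolynomial.map jA) := by
        apply MvPolynomial.ringHom_ext
        · intro a
          simp [hcomm]
        · intro l
          simp [hy]
      rw [h2, ← Polynomial.eval₂_map, hP0]
      exact hPb
    have h3 := congrArg ψ h1
    rw [map_zero, Polynomial.hom_eval₂] at h3
    have h4 : ψ.comp (MvPolynomial.eval₂Hom i yB) = ev := by
      apply MvPolynomial.ringHom_ext
      · intro a
        simp [hev, hψ]
      · intro l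
        simp [hev, hψy]
    rw [h4] at h3
    exact h3

open KaehlerDifferential in
/-- if `D y₁, …, D y_r` is a basis of `Ω[K⁄L]` then `K` is algebraic over `L(y)` -/
theorem algebraic_of_basis [CharZero L] [Algebra.EssFiniteType L K] {y : Fin r → K}
    (hy : Submodule.span K (Set.range fun l => D L K (y l)) = ⊤) :
    Algebra.IsAlgebraic (IntermediateField.adjoin L (Set.range y)) K := by
  set F := IntermediateField.adjoin L (Set.range y) with hF
  have : Algebra.EssFiniteType F K := Algebra.EssFiniteType.of_comp L F K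
  have hsub : Subsingleton (Ω[K⁄F]) := by
    rw [← Submodule.subsingleton_iff K, ← subsingleton_iff_bot_eq_top]
    have hsurj := KaehlerDifferential.map_surjective L F K
    have h1 : LinearMap.range (KaehlerDifferential.map L F K K) = ⊤ :=
      LinearMap.range_eq_top.2 hsurj
    rw [← h1, ← Submodule.map_top, ← hy, Submodule.map_span, eq_comm, Submodule.span_eq_bot]
    rintro _ ⟨_, ⟨l, rfl⟩, rfl⟩
    simp only [KaehlerDifferential.map_D]
    have h2 : algebraMap K K (y l) = algebraMap F K ⟨y l, IntermediateField.subset_adjoin L _ ⟨l, rfl⟩⟩ := rfl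
    rw [h2, Derivation.map_algebraMap]
  have hun : Algebra.FormallyUnramified F K := ⟨hsub⟩
  have hsep : Algebra.IsSeparable F K := (Algebra.FormallyUnramified.iff_isSeparable F K).1 hun
  infer_instance

/-- existence of the polynomial of `deg_bound` -/
theorem exists_poly {y : Fin r → K}
    (hy : Algebra.IsAlgebraic (IntermediateField.adjoin L (Set.range y)) K) (b : K) :
    ∃ P : Polynomial (MvPolynomial (Fin r) L), P ≠ 0 ∧
      Polynomial.eval₂ (MvPolynomial.aeval y : MvPolynomial (Fin r) L →ₐ[L] K).toRingHom b P = 0 := by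
  classical
  obtain ⟨p, hp0, hp⟩ := hy.isAlgebraic b
  -- clear denominators
  have hmem : ∀ n, ∃ a c : MvPolynomial (Fin r) L, MvPolynomial.aeval y c ≠ 0 ∧
      ((p.coeff n : IntermediateField.adjoin L (Set.range y)) : K) * MvPolynomial.aeval y c =
        MvPolynomial.aeval y a := by
    intro n
    have h1 := (p.coeff n).2
    rw [IntermediateField.mem_adjoin_range_iff] at h1
    obtain ⟨a, c, hac⟩ := h1
    by_cases hc : MvPolynomial.aeval y c = 0
    · refine ⟨0, 1, by simp, ?_⟩
      rw [hac, hc]
      simp
    · refine ⟨a, c, hc, ?_⟩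
      rw [hac]
      field_simp
  choose a c hc hac using hmem
  set s := p.support with hs
  -- common denominator
  set d : MvPolynomial (Fin r) L := ∏ n ∈ s, c n with hd
  have hdne : MvPolynomial.aeval y d ≠ 0 := by
    rw [hd, map_prod]
    exact Finset.prod_ne_zero_iff.2 fun n _ => hc n
  set e : ℕ → MvPolynomial (Fin r) L := fun n => a n * ∏ m ∈ s.erase n, c m with he
  have hen : ∀ n ∈ s, MvPolynomial.aeval y (e n) =
      ((p.coeff n : IntermediateField.adjoin L (Set.range y)) : K) * MvPolynomial.aeval y d := by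
    intro n hn
    rw [he, hd, ← Finset.mul_prod_erase s c hn]
    simp only [map_mul]
    rw [← hac n]
    ring
  set P : Polynomial (MvPolynomial (Fin r) L) := ∑ n ∈ s, Polynomial.monomial n (e n) with hP
  have hPc : ∀ n ∈ s, P.coeff n = e n := by
    intro n hn
    rw [hP, Polynomial.finsetSum_coeff, Finset.sum_eq_single n]
    · rw [Polynomial.coeff_monomial, if_pos rfl]
    · intro m _ hmn
      rw [Polynomial.coeff_monomial, if_neg hmn]
    · intro h
      exact absurd hn h
  refine ⟨P, ?_, ?_⟩
  · intro h0
    obtain ⟨n, hn⟩ : s.Nonempty := by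
      rw [hs]
      exact Polynomial.nonempty_support_iff.2 hp0
    have h1 := hen n hn
    rw [← hPc n hn, h0, Polynomial.coeff_zero, map_zero] at h1
    have h2 : p.coeff n ≠ 0 := by
      rw [hs, Polynomial.mem_support_iff] at hn
      exact hn
    have h3 : ((p.coeff n : IntermediateField.adjoin L (Set.range y)) : K) ≠ 0 := by
      intro h
      apply h2
      exact_mod_cast h
    exact (mul_ne_zero h3 hdne) h1.symm
  · rw [hP, Polynomial.eval₂_finsetSum]
    have h1 : ∀ n ∈ s, Polynomial.eval₂ (MvPolynomial.aeval y : MvPolynomial (Fin r) L →ₐ[L] K).toRingHom b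
        (Polynomial.monomial n (e n)) =
        (((p.coeff n : IntermediateField.adjoin L (Set.range y)) : K) * b ^ n) * MvPolynomial.aeval y d := by
      intro n hn
      rw [Polynomial.eval₂_monomial]
      have := hen n hn
      simp only [AlgHom.toRingHom_eq_coe, RingHom.coe_coe]
      rw [this]
      ring
    rw [Finset.sum_congr rfl h1, ← Finset.sum_mul]
    have h2 : ∑ n ∈ s, ((p.coeff n : IntermediateField.adjoin L (Set.range y)) : K) * b ^ n = 0 := by
      rw [Polynomial.aeval_def, Polynomial.eval₂_eq_sum, Polynomial.sum_def] at hp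
      exact hp
    rw [h2, zero_mul]

end alg

end Crest.Agent.R276.GroUpC_845
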