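import Mathlib
import Crest.Agent.R276.FKDefs_779
import Crest.Agent.R276.GroUpA_845
import Crest.Agent.R276.GroUpB_845
import Crest.Agent.R276.GroUpC_845

/-!
# GRO-UP: integrals over the fibres of a relative model (helper845, row 276)

`IsFib` : a Riemann domain `M` of dimension `r` (fibre `M_z`) with evaluations `ev x : B → ℂ` over a fixed
evaluation `φ : A → ℂ` (the point `z`).  `main` : if the tuples `(h i, y i)` cover the Zariski-Riemann
space of `K/L`, then `M` is covered by finitely many pieces `{|h i| ≤ T, |y i| ≤ T}`, `T` polynomial in the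
values at `z` of finitely many elements of `L`, and integrals over the pieces are bounded by integrals over
the polydisc of radius `T`.
-/

set_option autoImplicit false

open scoped Topology ENNReal
open Filter Set MeasureTheory

noncomputable section

namespace Crest.Agent.R276.GroUpD_845

open Crest.Agent.R271.Ho51 Crest.Agent.R276.Area_448 Crest.Agent.R276.FKDefs_779
open Crest.Agent.R276.GroUpA_845 Crest.Agent.R276.GroUpB_845 Crest.Agent.R276.GroUpC_845

variable {L K : Type} [Field L] [Field K] [Algebra L K] {r : ℕ}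

/-- the fibre over `φ` of a relative model -/
structure IsFib (bas : Module.Basis (Fin r) K (Ω[K⁄L])) {A B : Type} [CommRing A] [CommRing B]
    (jA : A →+* L) (jB : B →+* K) (i : A →+* B) (φ : A →+* ℂ)
    {M : Type} [TopologicalSpace M] [RDom r M] (ev : M → B →+* ℂ) : Prop where
  comm : ∀ a, jB (i a) = algebraMap L K (jA a)
  injA : Function.Injective jA
  injB : Function.Injective jB
  ev_i : ∀ x a, ev x (i a) = φ a
  cont : ∀ b, Continuous fun x => ev x b
  der : ∀ (b : B) (b' : Fin r → B),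
    (∀ l, jB (b' l) = bas.repr (KaehlerDifferential.D L K (jB b)) l) → ∀ x : M,
      HasStrictFDerivAt ((fun y => ev y b) ∘ (ch x).symm)
        (∑ l, ev x (b' l) • (ContinuousLinearMap.proj l : (Fin r → ℂ) →L[ℂ] ℂ)) (cp x)

section one

variable {bas : Module.Basis (Fin r) K (Ω[K⁄L])} {A B : Type} [CommRing A] [CommRing B]
  {jA : A →+* L} {jB : B →+* K} {i : A →+* B} {φ : A →+* ℂ}
  {M : Type} [TopologicalSpace M] [RDom r M] {ev : M → B →+* ℂ}

/-- the Jacobian matrix -/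
def jm (ev : M → B →+* ℂ) (b' : Fin r → Fin r → B) (x : M) : (Fin r → ℂ) →L[ℂ] (Fin r → ℂ) :=
  ContinuousLinearMap.pi fun l => ∑ m, ev x (b' l m) • (ContinuousLinearMap.proj m : (Fin r → ℂ) →L[ℂ] ℂ)

omit [TopologicalSpace M] [RDom r M] in
lemma jm_apply (b' : Fin r → Fin r → B) (x : M) (v : Fin r → ℂ) (l : Fin r) :
    jm ev b' x v l = ∑ m, ev x (b' l m) * v m := by
  simp [jm]

omit [TopologicalSpace M] [RDom r M] in
lemma det_jm (b' : Fin r → Fin r → B) (x : M) :
    (jm ev b' x).det = ev x (Matrix.of b').det := by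
  have h1 : (jm ev b' x : (Fin r → ℂ) →ₗ[ℂ] (Fin r → ℂ)) =
      Matrix.toLin' (Matrix.of fun l m => ev x (b' l m)) := by
    apply LinearMap.ext
    intro v
    funext l
    change jm ev b' x v l = _
    rw [jm_apply, Matrix.toLin'_apply]
    simp [Matrix.mulVec, dotProduct]
  rw [ContinuousLinearMap.det, h1, LinearMap.det_toLin', RingHom.map_det]
  rfl

lemma IsFib.sd (h : IsFib bas jA jB i φ ev) {yB : Fin r → B} {b' : Fin r → Fin r → B}
    (hb' : ∀ l m, jB (b' l m) = bas.repr (KaehlerDifferential.D L K (jB (yB l))) m) :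
    SD (fun (x : M) l => ev x (yB l)) (jm ev b') := by
  intro x
  rw [hasStrictFDerivAt_pi']
  intro l
  exact h.der (yB l) (b' l) (hb' l) x

lemma jB_det {yB : Fin r → B} {b' : Fin r → Fin r → B}
    (hb' : ∀ l m, jB (b' l m) = bas.repr (KaehlerDifferential.D L K (jB (yB l))) m) :
    jB (Matrix.of b').det = jac L bas (fun l => jB (yB l)) := by
  rw [jac, Module.Basis.det_apply, RingHom.map_det, ← Matrix.det_transpose]
  congr 1
  ext l m
  simp [Module.Basis.toMatrix_apply, hb']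

/-- the integral over one piece -/
theorem piece_le [MeasurableSpace M] [BorelSpace M] [SecondCountableTopology M] {μ : Measure M}
    (hμ : IsLeb μ) (h : IsFib bas jA jB i φ ev) {yB : Fin r → B} {b' : Fin r → Fin r → B}
    (hb' : ∀ l m, jB (b' l m) = bas.repr (KaehlerDifferential.D L K (jB (yB l))) m)
    {hB : B} {T : ℝ} {ν : Type} [Fintype ν] {gB : ν → B} {g : ν → K} (hg : ∀ k, jB (gB k) = g k)
    (hsep : ∀ x x' : M, (∀ k, ev x (gB k) = ev x' (gB k)) → x = x')
    {P : ν → Polynomial (MvPolynomial (Fin r) L)} (hP : ∀ k, P k ≠ 0)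
    (hPg : ∀ k, Polynomial.eval₂ (MvPolynomial.aeval (fun l => jB (yB l)) :
      MvPolynomial (Fin r) L →ₐ[L] K).toRingHom (g k) (P k) = 0)
    (hA : ∀ k, ∀ a ∈ cofs (P k), ∃ a', jA a' = a) (hA' : ∀ k, ∀ a ∈ cofs (P k), ∃ a', jA a' = a⁻¹)
    {w : (Fin r → ℂ) → ℝ≥0∞} (hw : Measurable w) {F : M → ℝ≥0∞}
    (hF : ∀ x, ‖ev x hB‖ ≤ T → (∀ l, ‖ev x (yB l)‖ ≤ T) →
      F x ≤ ENNReal.ofReal (‖ev x (Matrix.of b').det‖ ^ 2) * w (fun l => ev x (yB l))) :
    ∫⁻ x in {x | ‖ev x hB‖ ≤ T ∧ ∀ l, ‖ev x (yB l)‖ ≤ T}, F x ∂μ ≤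
      ((∏ k, (P k).natDegree : ℕ) : ℝ≥0∞) * ∫⁻ η in {η : Fin r → ℂ | ∀ l, ‖η l‖ ≤ T}, w η := by
  classical
  have hsd := h.sd hb'
  set E : Set M := {x | ‖ev x hB‖ ≤ T ∧ ∀ l, ‖ev x (yB l)‖ ≤ T} with hE
  have hEm : MeasurableSet E := by
    apply IsClosed.measurableSet
    apply IsClosed.inter
    · exact isClosed_le (h.cont hB).norm continuous_const
    · have : {x : M | ∀ l, ‖ev x (yB l)‖ ≤ T} = ⋂ l, {x | ‖ev x (yB l)‖ ≤ T} := by
        ext x; simp
      change IsClosed {x : M | ∀ l, ‖ev x (yB l)‖ ≤ T}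
      rw [this]
      exact isClosed_iInter fun l => isClosed_le (h.cont (yB l)).norm continuous_const
  have hWm : MeasurableSet {η : Fin r → ℂ | ∀ l, ‖η l‖ ≤ T} := by
    apply IsClosed.measurableSet
    have : {η : Fin r → ℂ | ∀ l, ‖η l‖ ≤ T} = ⋂ l, {η | ‖η l‖ ≤ T} := by
      ext x; simp
    rw [this]
    exact isClosed_iInter fun l => isClosed_le (continuous_apply l).norm continuous_const
  have hdet : ∀ x, (jm ev b' x).det = ev x (Matrix.of b').det := det_jm b'
  refine area_ae_le hμ hsd (by simp_rw [hdet]; exact h.cont _) hEm hWm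
    (fun x hx _ => hx.2) ?_ hw ?_
  · have hae : ∀ᵐ η : Fin r → ℂ, ∀ k, ∃ s : Finset ℂ, s.card ≤ (P k).natDegree ∧
        ∀ ψ : B →+* ℂ, (∀ a, ψ (i a) = φ a) → (∀ l, ψ (yB l) = η l) → ψ (gB k) ∈ s := by
      rw [ae_all_iff]
      intro k
      exact deg_bound (hP k) (hPg k) jA jB i h.comm h.injB h.injA (hA k) (hA' k) (fun l => rfl)
        (hg k) φ
    filter_upwards [hae] with η hη
    choose s hs1 hs2 using hη
    have h1 : {x : M | x ∈ E ∧ (jm ev b' x).det ≠ 0 ∧ (fun l => ev x (yB l)) = η}.encard ≤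
        ((Fintype.piFinset s : Finset (ν → ℂ)) : Set (ν → ℂ)).encard := by
      apply Set.encard_le_encard_of_injOn (f := fun x k => ev x (gB k))
      · rintro x ⟨_, _, hx⟩
        rw [Finset.mem_coe, Fintype.mem_piFinset]
        intro k
        exact hs2 k (ev x) (h.ev_i x) (fun l => congrFun hx l)
      · intro x _ x' _ hxx
        exact hsep x x' fun k => congrFun hxx k
    refine h1.trans ?_
    rw [Set.encard_coe_eq_coe_finsetCard, Fintype.card_piFinset]
    exact_mod_cast Finset.prod_le_prod' fun k _ => hs1 k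
  · rintro x ⟨hx1, hx2⟩
    rw [hdet]
    exact hF x hx1 hx2

end one

/-- **MAIN THEOREM.** -/
theorem main [CharZero L] [Algebra.EssFiniteType L K] (bas : Module.Basis (Fin r) K (Ω[K⁄L]))
    {ι : Type} (h : ι → K) (y : ι → Fin r → K) (hJ : ∀ i, jac L bas (y i) ≠ 0)
    (H : ∀ V : ValuationSubring K, (∀ a : L, algebraMap L K a ∈ V) → ∃ i, h i ∈ V ∧ ∀ l, y i l ∈ V)
    (GG : Finset K) :
    ∃ (S : Finset ι) (AA : Finset L) (BB : Finset K) (C : ℝ) (n : ℕ) (d : ι → ℕ), 1 ≤ C ∧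
      ∀ (A B : Type) [CommRing A] [CommRing B] (jA : A →+* L) (jB : B →+* K) (inc : A →+* B)
        (φ : A →+* ℂ) (M : Type) [TopologicalSpace M] [RDom r M] [MeasurableSpace M] [BorelSpace M]
        [SecondCountableTopology M] (ev : M → B →+* ℂ) (μ : Measure M), IsLeb μ →
        IsFib bas jA jB inc φ ev →
        (∀ a ∈ AA, ∃ a', jA a' = a) → (∀ a ∈ AA, ∃ a', jA a' = a⁻¹) →
        (∀ b ∈ BB, ∃ b', jB b' = b) → (∀ b ∈ BB, ∃ b', jB b' = b⁻¹) →
        (∀ x x' : M, (∀ b, jB b ∈ GG → ev x b = ev x' b) → x = x') →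
        ∀ R : ℝ, 0 ≤ R → (∀ a ∈ AA, ∀ a', jA a' = a → ‖φ a'‖ ≤ R) →
        (∀ x : M, ∃ i ∈ S, (∀ b, jB b = h i → ‖ev x b‖ ≤ C * (1 + R) ^ n) ∧
          ∀ l b, jB b = y i l → ‖ev x b‖ ≤ C * (1 + R) ^ n) ∧
        ∀ w : ι → (Fin r → ℂ) → ℝ≥0∞, (∀ i, Measurable (w i)) → ∀ F : M → ℝ≥0∞,
          (∀ i ∈ S, ∀ (hB JB : B) (yB : Fin r → B), jB hB = h i → jB JB = jac L bas (y i) →
            (∀ l, jB (yB l) = y i l) → ∀ x, ‖ev x hB‖ ≤ C * (1 + R) ^ n →
            (∀ l, ‖ev x (yB l)‖ ≤ C * (1 + R) ^ n) →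
            F x ≤ ENNReal.ofReal (‖ev x JB‖ ^ 2) * w i (fun l => ev x (yB l))) →
          ∫⁻ x, F x ∂μ ≤ ∑ i ∈ S, (d i : ℝ≥0∞) *
            ∫⁻ η in {η : Fin r → ℂ | ∀ l, ‖η l‖ ≤ C * (1 + R) ^ n}, w i η := by
  classical
  let f : ι → Option (Fin r) → K := fun i o => o.elim (h i) (y i)
  have Hf : ∀ V : ValuationSubring K, (∀ a : L, algebraMap L K a ∈ V) → ∃ i, ∀ o, f i o ∈ V := by
    intro V hV
    obtain ⟨i, h1, h2⟩ := H V hV
    refine ⟨i, fun o => ?_⟩
    cases o with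
    | none => exact h1
    | some l => exact h2 l
  obtain ⟨S, A0, C, n, hC, hcov⟩ := cover (k := L) f Hf
  -- the polynomials
  have halg : ∀ i, Algebra.IsAlgebraic (IntermediateField.adjoin L (Set.range (y i))) K := by
    intro i
    apply algebraic_of_basis
    have h1 := hJ i
    rw [jac] at h1
    exact ((Module.Basis.is_basis_iff_det bas).2 (IsUnit.mk0 _ h1)).2
  choose P hP0 hPe using fun (i : ι) (b : K) => exists_poly (halg i) b
  let AA : Finset L := A0 ∪ S.biUnion fun i => GG.biUnion fun b => cofs (P i b)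
  let BB : Finset K := GG ∪ S.biUnion fun i => insert (h i) (Finset.univ.biUnion fun l : Fin r =>
    insert (y i l) (Finset.univ.image fun m : Fin r =>
      bas.repr (KaehlerDifferential.D L K (y i l)) m))
  have hBBh : ∀ i ∈ S, h i ∈ BB := fun i hi => Finset.mem_union_right _
    (Finset.mem_biUnion.2 ⟨i, hi, Finset.mem_insert_self _ _⟩)
  have hBBy : ∀ i ∈ S, ∀ l, y i l ∈ BB := fun i hi l => Finset.mem_union_right _
    (Finset.mem_biUnion.2 ⟨i, hi, Finset.mem_insert_of_mem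
      (Finset.mem_biUnion.2 ⟨l, Finset.mem_univ _, Finset.mem_insert_self _ _⟩)⟩)
  have hBBd : ∀ i ∈ S, ∀ l m, bas.repr (KaehlerDifferential.D L K (y i l)) m ∈ BB :=
    fun i hi l m => Finset.mem_union_right _
      (Finset.mem_biUnion.2 ⟨i, hi, Finset.mem_insert_of_mem
        (Finset.mem_biUnion.2 ⟨l, Finset.mem_univ _, Finset.mem_insert_of_mem
          (Finset.mem_image.2 ⟨m, Finset.mem_univ _, rfl⟩)⟩)⟩)
  refine ⟨S, AA, BB, C, n, fun i => ∏ k : GG, (P i k.1).natDegree, hC, ?_⟩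
  intro A B _ _ jA jB inc φ M _ _ _ _ _ ev μ hμ hfib hA hA' hB hB' hsep R hR hRA
  have hcov' : ∀ x : M, ∃ i ∈ S, ∀ o, ∀ b, jB b = f i o → ‖ev x b‖ ≤ C * (1 + R) ^ n := by
    intro x
    apply hcov B jB (ev x) R hfib.injB hR
    · intro i hi o
      cases o with
      | none => exact hB _ (hBBh i hi)
      | some l => exact hB _ (hBBy i hi l)
    · intro i hi o
      cases o with
      | none => exact hB' _ (hBBh i hi)
      | some l => exact hB' _ (hBBy i hi l)
    · intro a ha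
      obtain ⟨a', ha'⟩ := hA a (Finset.mem_union_left _ ha)
      refine ⟨inc a', by rw [hfib.comm, ha'], ?_⟩
      rw [hfib.ev_i]
      exact hRA a (Finset.mem_union_left _ ha) a' ha'
  refine ⟨fun x => ?_, ?_⟩
  · obtain ⟨i, hi, h1⟩ := hcov' x
    exact ⟨i, hi, fun b hb => h1 none b hb, fun l b hb => h1 (some l) b hb⟩
  · intro w hw F hF
    set T : ℝ := C * (1 + R) ^ n with hT
    -- choose representatives
    have hrep : ∀ i : S, ∃ (hb : B) (yb : Fin r → B) (b' : Fin r → Fin r → B), jB hb = h i ∧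
        (∀ l, jB (yb l) = y i l) ∧
        (∀ l m, jB (b' l m) = bas.repr (KaehlerDifferential.D L K (jB (yb l))) m) := by
      intro i
      obtain ⟨hb, hhb⟩ := hB _ (hBBh i i.2)
      choose yb hyb using fun l => hB _ (hBBy i i.2 l)
      choose b' hb' using fun l m => hB _ (hBBd i i.2 l m)
      exact ⟨hb, yb, b', hhb, hyb, fun l m => by rw [hb', hyb]⟩
    choose hb yb b' hhb hyb hb' using hrep
    have hGG : ∀ k : GG, ∃ b, jB b = k.1 := fun k => hB _ (Finset.mem_union_left _ k.2)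
    choose gB hgB using hGG
    -- union of the pieces
    have hun : (Set.univ : Set M) ⊆ ⋃ i : S,
        {x | ‖ev x (hb i)‖ ≤ T ∧ ∀ l, ‖ev x (yb i l)‖ ≤ T} := by
      intro x _
      obtain ⟨i, hi, h1⟩ := hcov' x
      simp only [Set.mem_iUnion]
      refine ⟨⟨i, hi⟩, ?_, fun l => ?_⟩
      · exact h1 none _ (hhb ⟨i, hi⟩)
      · exact h1 (some l) _ (hyb ⟨i, hi⟩ l)
    calc ∫⁻ x, F x ∂μ = ∫⁻ x in Set.univ, F x ∂μ := by rw [Measure.restrict_univ]
      _ ≤ ∫⁻ x in ⋃ i : S,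
        {x | ‖ev x (hb i)‖ ≤ T ∧ ∀ l, ‖ev x (yb i l)‖ ≤ T}, F x ∂μ := lintegral_mono_set hun
      _ ≤ ∑' i : S, ∫⁻ x in {x | ‖ev x (hb i)‖ ≤ T ∧ ∀ l, ‖ev x (yb i l)‖ ≤ T}, F x ∂μ :=
          lintegral_iUnion_le _ _
      _ = ∑ i ∈ (Finset.univ : Finset S),
          ∫⁻ x in {x | ‖ev x (hb i)‖ ≤ T ∧ ∀ l, ‖ev x (yb i l)‖ ≤ T}, F x ∂μ := tsum_fintype _
      _ ≤ ∑ i ∈ (Finset.univ : Finset S), ((∏ k : GG, (P i.1 k.1).natDegree : ℕ) : ℝ≥0∞) *
            ∫⁻ η in {η : Fin r → ℂ | ∀ l, ‖η l‖ ≤ T}, w i.1 η := by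
          apply Finset.sum_le_sum
          intro i _
          refine piece_le hμ hfib (hb' i) (T := T) (hB := hb i) (ν := GG) (gB := gB)
            (g := fun k => k.1) hgB ?_ (P := fun k => P i.1 k.1) (fun k => hP0 _ _) ?_ ?_ ?_
            (hw i.1) ?_
          · intro x x' hxx
            apply hsep
            intro b hb
            have h1 := hxx ⟨jB b, hb⟩
            have h2 : gB ⟨jB b, hb⟩ = b := hfib.injB (hgB ⟨jB b, hb⟩)
            rwa [h2] at h1
          · intro k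
            have h1 : (fun l => jB (yb i l)) = y i.1 := funext (hyb i)
            rw [h1]
            exact hPe i.1 k.1
          · intro k a ha
            exact hA a (Finset.mem_union_right _ (Finset.mem_biUnion.2 ⟨i.1, i.2,
              Finset.mem_biUnion.2 ⟨k.1, k.2, ha⟩⟩))
          · intro k a ha
            exact hA' a (Finset.mem_union_right _ (Finset.mem_biUnion.2 ⟨i.1, i.2,
              Finset.mem_biUnion.2 ⟨k.1, k.2, ha⟩⟩))
          · intro x hx1 hx2
            refine hF i.1 i.2 (hb i) _ (yb i) (hhb i) ?_ (hyb i) x hx1 hx2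
            rw [jB_det (hb' i)]
            congr 1
            exact funext (hyb i)
      _ = ∑ i ∈ S, ((∏ k : GG, (P i k.1).natDegree : ℕ) : ℝ≥0∞) *
            ∫⁻ η in {η : Fin r → ℂ | ∀ l, ‖η l‖ ≤ T}, w i η := by
          rw [Finset.univ_eq_attach]
          exact Finset.sum_attach S (fun i => ((∏ k : GG, (P i k.1).natDegree : ℕ) : ℝ≥0∞) *
            ∫⁻ η in {η : Fin r → ℂ | ∀ l, ‖η l‖ ≤ T}, w i η)

end Crest.Agent.R276.GroUpD_845
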