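import Mathlib
import Crest.Agent.R276.GroUpD_845

/-!
# INT / GRO-UP (helper845, row 276)

`int_le` : `g · b^N` relative `N`-form of `K/L`, regular at all valuation rings of `K` containing `L`
(`PluriS`): then `∫_{M_z} |g|^{2/N} ≤ C (1 + R(z))^n` at EVERY point `z` of a (shrunk) model of `L`, `R(z)` a bound
for the values at `z` of finitely many elements of `L`.
-/

set_option autoImplicit false

open scoped Topology ENNReal
open Filter Set MeasureTheory

noncomputable section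

namespace Crest.Agent.R276.GroUpE_845

open Crest.Agent.R271.Ho51 Crest.Agent.R276.Area_448 Crest.Agent.R276.FKDefs_779
open Crest.Agent.R276.GroUpD_845

variable {L K : Type} [Field L] [Field K] [Algebra L K] {r : ℕ}

/-- the tuples attached to a strongly regular form -/
theorem exists_tuples (bas : Module.Basis (Fin r) K (Ω[K⁄L])) {N : ℕ} (hN : 0 < N) {g : K} (hg : g ≠ 0)
    (hS : PluriS L bas N g) :
    ∀ V : ValuationSubring K, (∀ a : L, algebraMap L K a ∈ V) →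
      ∃ t : {t : K × (Fin r → K) // jac L bas t.2 ≠ 0 ∧ g = t.1 * jac L bas t.2 ^ N},
        t.1.1 ∈ V ∧ ∀ l, t.1.2 l ∈ V := by
  intro V hV
  obtain ⟨y, hy, hv⟩ := hS V hV
  have hj : jac L bas y ≠ 0 := by
    intro h0
    rw [h0, map_zero, zero_pow hN.ne', le_zero_iff, map_eq_zero] at hv
    exact hg hv
  refine ⟨⟨(g / jac L bas y ^ N, y), hj, ?_⟩, ?_, hy⟩
  · simp only
    field_simp
  · simp only
    rw [← ValuationSubring.valuation_le_one_iff, map_div₀, map_pow]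
    apply div_le_one_of_le₀ hv
    exact zero_le

lemma volume_polydisc {T : ℝ} :
    volume {η : Fin r → ℂ | ∀ l, ‖η l‖ ≤ T} = (ENNReal.ofReal T ^ 2 * NNReal.pi) ^ r := by
  have h1 : {η : Fin r → ℂ | ∀ l, ‖η l‖ ≤ T} = Set.pi Set.univ (fun _ => Metric.closedBall (0 : ℂ) T) := by
    ext η
    simp
  rw [h1, MeasureTheory.volume_pi_pi]
  simp [Complex.volume_closedBall]

lemma volume_polydisc' {T : ℝ} (hT : 0 ≤ T) :
    volume {η : Fin r → ℂ | ∀ l, ‖η l‖ ≤ T} = ENNReal.ofReal ((T ^ 2 * Real.pi) ^ r) := by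
  rw [volume_polydisc, ENNReal.ofReal_pow (by positivity), ENNReal.ofReal_mul (by positivity),
    ENNReal.ofReal_pow hT]
  congr 2
  rw [← NNReal.coe_real_pi, ENNReal.ofReal_coe_nnreal]

/-- the integral of `|g|^{2/N}` over the fibres, at every point -/
theorem int_le [CharZero L] [Algebra.EssFiniteType L K] (bas : Module.Basis (Fin r) K (Ω[K⁄L]))
    {N : ℕ} (hN : 0 < N) {g : K} (hg : g ≠ 0) (hS : PluriS L bas N g) (GG : Finset K) :
    ∃ (AA : Finset L) (BB : Finset K) (C : ℝ) (n : ℕ), 0 ≤ C ∧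
      ∀ (A B : Type) [CommRing A] [CommRing B] (jA : A →+* L) (jB : B →+* K) (inc : A →+* B)
        (φ : A →+* ℂ) (M : Type) [TopologicalSpace M] [RDom r M] [MeasurableSpace M] [BorelSpace M]
        [SecondCountableTopology M] (ev : M → B →+* ℂ) (μ : Measure M), IsLeb μ →
        IsFib bas jA jB inc φ ev →
        (∀ a ∈ AA, ∃ a', jA a' = a) → (∀ a ∈ AA, ∃ a', jA a' = a⁻¹) →
        (∀ b ∈ BB, ∃ b', jB b' = b) → (∀ b ∈ BB, ∃ b', jB b' = b⁻¹) →
        (∀ x x' : M, (∀ b, jB b ∈ GG → ev x b = ev x' b) → x = x') →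
        ∀ R : ℝ, 0 ≤ R → (∀ a ∈ AA, ∀ a', jA a' = a → ‖φ a'‖ ≤ R) →
        ∀ gB, jB gB = g → ∫⁻ x, ENNReal.ofReal (‖ev x gB‖ ^ (2 / (N : ℝ))) ∂μ ≤
          ENNReal.ofReal (C * (1 + R) ^ n) := by
  classical
  obtain ⟨S, AA, BB, C, n, d, hC, hmain⟩ := main bas
    (ι := {t : K × (Fin r → K) // jac L bas t.2 ≠ 0 ∧ g = t.1 * jac L bas t.2 ^ N})
    (fun t => t.1.1) (fun t => t.1.2) (fun t => t.2.1) (exists_tuples bas hN hg hS) GG
  set D : ℕ := ∑ t ∈ S, d t with hD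
  refine ⟨AA, BB, D * (C ^ (2 + 2 * r) * Real.pi ^ r), n * (2 + 2 * r), by positivity, ?_⟩
  intro A B _ _ jA jB inc φ M _ _ _ _ _ ev μ hμ hfib hA hA' hB hB' hsep R hR hRA gB hgB
  obtain ⟨-, hint⟩ := hmain A B jA jB inc φ M ev μ hμ hfib hA hA' hB hB' hsep R hR hRA
  set T : ℝ := C * (1 + R) ^ n with hT
  have hT1 : 1 ≤ T := by
    have e1 : (1 : ℝ) ≤ (1 + R) ^ n := one_le_pow₀ (by linarith)
    calc (1 : ℝ) = 1 * 1 := by ring
      _ ≤ C * (1 + R) ^ n := mul_le_mul hC e1 zero_le_one (by linarith)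
  have hN0 : (0 : ℝ) < N := by exact_mod_cast hN
  have h1 := hint (fun _ _ => ENNReal.ofReal (T ^ (2 / (N : ℝ)))) (fun _ => measurable_const)
    (fun x => ENNReal.ofReal (‖ev x gB‖ ^ (2 / (N : ℝ)))) (by
      intro t ht hB JB yB h1 h2 h3 x hx1 hx2
      have h4 : gB = hB * JB ^ N := by
        apply hfib.injB
        rw [hgB, map_mul, map_pow, h1, h2]
        exact t.2.2
      rw [h4, map_mul, map_pow, norm_mul, norm_pow, Real.mul_rpow (norm_nonneg _) (by positivity),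
        ← ENNReal.ofReal_mul (by positivity)]
      apply ENNReal.ofReal_le_ofReal
      have h5 : (‖ev x JB‖ ^ N) ^ (2 / (N : ℝ)) = ‖ev x JB‖ ^ 2 := by
        rw [← Real.rpow_natCast, ← Real.rpow_mul (norm_nonneg _), mul_div_cancel₀ _ hN0.ne']
        exact_mod_cast Real.rpow_natCast _ 2
      rw [h5, mul_comm]
      apply mul_le_mul_of_nonneg_left _ (by positivity)
      exact Real.rpow_le_rpow (norm_nonneg _) hx1 (by positivity))
  refine h1.trans ?_
  have h2 : ∀ t ∈ S, (d t : ℝ≥0∞) * ∫⁻ η in {η : Fin r → ℂ | ∀ l, ‖η l‖ ≤ T},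
      ENNReal.ofReal (T ^ (2 / (N : ℝ))) ≤ (d t : ℝ≥0∞) * ENNReal.ofReal (T ^ (2 + 2 * r) * Real.pi ^ r) := by
    intro t _
    gcongr
    rw [setLIntegral_const, volume_polydisc' (by positivity), ← ENNReal.ofReal_mul (by positivity)]
    apply ENNReal.ofReal_le_ofReal
    have h4 : T ^ (2 / (N : ℝ)) ≤ T ^ (2 : ℕ) := by
      rw [← Real.rpow_natCast]
      apply Real.rpow_le_rpow_of_exponent_le hT1
      rw [div_le_iff₀ hN0]
      have : (1 : ℝ) ≤ N := by exact_mod_cast hN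
      push_cast
      linarith
    calc T ^ (2 / (N : ℝ)) * (T ^ 2 * Real.pi) ^ r ≤ T ^ 2 * (T ^ 2 * Real.pi) ^ r := by
          apply mul_le_mul_of_nonneg_right h4 (by positivity)
      _ = T ^ (2 + 2 * r) * Real.pi ^ r := by rw [mul_pow, ← pow_mul]; ring
  refine (Finset.sum_le_sum h2).trans (le_of_eq ?_)
  rw [← Finset.sum_mul]
  have h3 : (∑ t ∈ S, (d t : ℝ≥0∞)) = ENNReal.ofReal (D : ℝ) := by
    rw [hD, ENNReal.ofReal_natCast]
    push_cast
    rfl
  rw [h3, ← ENNReal.ofReal_mul (by positivity)]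
  congr 1
  rw [hT, mul_pow, ← pow_mul]
  ring

end Crest.Agent.R276.GroUpE_845
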