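import Mathlib
import Crest.Agent.R276.IntE_448
import Crest.Agent.R276.FK1_779

/-!
# HON, part 1 (algebra): relative and absolute Jacobians, growth of the elements of `L`
-/

set_option autoImplicit false

open Filter Set MeasureTheory Polynomial
open scoped ENNReal

noncomputable section

namespace Crest.Agent.R276.IntF_448

open Crest.Agent.R271.Defs710 Crest.Agent.R271.Alg255 Crest.Agent.R271.Rd692 Crest.Agent.R271
open Crest.Agent.R276.Mod1_987 Crest.Agent.R276.Mod1_987.Mdl
open Crest.Agent.R276.FKDefs_779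
open Crest.Agent.R276.IntA_448 Crest.Agent.R276.IntB_448 Crest.Agent.R276.IntC_448
open Crest.Agent.R276.IntD_448 Crest.Agent.R276.IntE_448

section jac

variable {k K : Type*} [Field k] [Field K] [Algebra k K] {n : ℕ}

/-- derivations in terms of the dual derivations of a basis of differentials -/
lemma deriv_eq (B : Module.Basis (Fin n) K (Ω[K⁄k])) {z : Fin n → K}
    (hB : ∀ i, B i = KaehlerDifferential.D k K (z i)) (δ : Derivation k K K) (x : K) :
    δ x = ∑ i, dv B i x * δ (z i) := by
  have h1 : δ x = δ.liftKaehlerDifferential (KaehlerDifferential.D k K x) :=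
    (Derivation.liftKaehlerDifferential_comp_D δ x).symm
  rw [h1]
  conv_lhs => rw [← B.sum_repr (KaehlerDifferential.D k K x)]
  rw [map_sum]
  refine Finset.sum_congr rfl fun i _ => ?_
  rw [map_smul, hB, Derivation.liftKaehlerDifferential_comp_D, smul_eq_mul, dv_apply]

end jac

variable {L K : Type} [Field L] [Field K] [Algebra ℂ L] [Algebra ℂ K] [Algebra L K]
  [IsScalarTower ℂ L K] {m r : ℕ}

/-- the absolute Jacobian of `(t, y)` is the relative Jacobian of `y` -/
theorem jac_append (t : Fin m → L) {z : Fin (m + r) → K}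
    (hz : ∀ i, z (Fin.castAdd r i) = algebraMap L K (t i))
    (B : Module.Basis (Fin (m + r)) K (Ω[K⁄ℂ]))
    (hB : ∀ i, B i = KaehlerDifferential.D ℂ K (z i))
    (b : Module.Basis (Fin r) K (Ω[K⁄L]))
    (hb : ∀ j, b j = KaehlerDifferential.D L K (z (Fin.natAdd m j))) (y : Fin r → K) :
    jac ℂ B (Fin.append (fun i => algebraMap L K (t i)) y) = jac L b y := by
  classical
  have h1 : ∀ i j, dv B j (z i) = if i = j then 1 else 0 := by
    intro i j
    rw [dv_apply, ← hB, Module.Basis.repr_self, Finsupp.single_apply]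
  have h2 : ∀ i j, dv b j (z (Fin.natAdd m i)) = if i = j then 1 else 0 := by
    intro i j
    rw [dv_apply, ← hb, Module.Basis.repr_self, Finsupp.single_apply]
  have h3 : ∀ (j : Fin r) (x : K), dv b j x = dv B (Fin.natAdd m j) x := by
    intro j x
    have h4 := deriv_eq B hB ((dv b j).restrictScalars ℂ) x
    have h5 : ((dv b j).restrictScalars ℂ) x = dv b j x := rfl
    rw [h5] at h4
    rw [h4, Finset.sum_eq_single (Fin.natAdd m j)]
    · have h6 : ((dv b j).restrictScalars ℂ) (z (Fin.natAdd m j)) = 1 := by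
        change dv b j (z (Fin.natAdd m j)) = 1
        rw [h2, if_pos rfl]
      rw [h6, mul_one]
    · intro i _ hi
      have h6 : ((dv b j).restrictScalars ℂ) (z i) = 0 := by
        change dv b j (z i) = 0
        induction i using Fin.addCases with
        | left i' =>
          rw [hz]
          exact Derivation.map_algebraMap _ _
        | right i' =>
          rw [h2, if_neg]
          rintro rfl
          exact hi rfl
      rw [h6, mul_zero]
    · intro h
      exact absurd (Finset.mem_univ _) h
  rw [jac_eq, jac_eq, ← Matrix.det_submatrix_equiv_self finSumFinEquiv]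
  have h7 : (Matrix.of fun i j => dv B j (Fin.append (fun i => algebraMap L K (t i)) y i)).submatrix
      finSumFinEquiv finSumFinEquiv = Matrix.fromBlocks (1 : Matrix (Fin m) (Fin m) K) 0
        (Matrix.of fun (i : Fin r) (j : Fin m) => dv B (Fin.castAdd r j) (y i))
        (Matrix.of fun i j => dv b j (y i)) := by
    ext i j
    rcases i with i | i <;> rcases j with j | j
    · simp only [Matrix.submatrix_apply, Matrix.of_apply, finSumFinEquiv_apply_left,
        Fin.append_left, Matrix.fromBlocks_apply₁₁, ← hz, h1, Matrix.one_apply,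
        Fin.castAdd_inj]
    · simp only [Matrix.submatrix_apply, Matrix.of_apply, finSumFinEquiv_apply_left,
        finSumFinEquiv_apply_right, Fin.append_left, Matrix.fromBlocks_apply₁₂, ← hz, h1,
        Matrix.zero_apply]
      rw [if_neg]
      intro h
      have := congrArg Fin.val h
      simp only [Fin.val_castAdd, Fin.val_natAdd] at this
      omega
    · simp only [Matrix.submatrix_apply, Matrix.of_apply, finSumFinEquiv_apply_left,
        finSumFinEquiv_apply_right, Fin.append_right, Matrix.fromBlocks_apply₂₁]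
    · simp only [Matrix.submatrix_apply, Matrix.of_apply,
        finSumFinEquiv_apply_right, Fin.append_right, Matrix.fromBlocks_apply₂₂, h3]
  rw [h7, Matrix.det_fromBlocks_zero₁₂, Matrix.det_one, one_mul]

/-- elements of `L` are algebraic over `ℂ[t]` -/
theorem exists_poly_L (t : Fin m → L) (ht : IsTranscendenceBasis ℂ t) (a : L) :
    ∃ p : Polynomial (MvPolynomial (Fin m) ℂ), p ≠ 0 ∧
      Polynomial.eval₂ ((MvPolynomial.aeval t : MvPolynomial (Fin m) ℂ →ₐ[ℂ] L) :
        MvPolynomial (Fin m) ℂ →+* L) a p = 0 := by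
  have h1 : Algebra.IsAlgebraic (Algebra.adjoin ℂ (Set.range t)) L := ht.isAlgebraic
  obtain ⟨p, hp0, hp⟩ := h1.isAlgebraic a
  let e := ht.1.aevalEquiv
  refine ⟨p.map (e.symm : _ →+* MvPolynomial (Fin m) ℂ), ?_, ?_⟩
  · rw [Ne, Polynomial.map_eq_zero_iff]
    · exact hp0
    · exact e.symm.injective
  · rw [Polynomial.eval₂_map]
    rw [Polynomial.aeval_def] at hp
    have h3 : ∀ q : MvPolynomial (Fin m) ℂ,
        ((MvPolynomial.aeval t : MvPolynomial (Fin m) ℂ →ₐ[ℂ] L) : MvPolynomial (Fin m) ℂ →+* L) q =
        ((e q : Algebra.adjoin ℂ (Set.range t)) : L) := by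
      intro q
      exact (ht.1.algebraMap_aevalEquiv q).symm
    have hco : ((MvPolynomial.aeval t : MvPolynomial (Fin m) ℂ →ₐ[ℂ] L) :
        MvPolynomial (Fin m) ℂ →+* L).comp (e.symm : _ →+* MvPolynomial (Fin m) ℂ) =
        algebraMap (Algebra.adjoin ℂ (Set.range t)) L := by
      refine RingHom.ext fun c => ?_
      rw [RingHom.comp_apply, h3]
      have h4 : e ((e.symm : _ →+* MvPolynomial (Fin m) ℂ) c) = c := e.apply_symm_apply c
      rw [h4]
      rfl
    rw [hco]
    exact hp

/-- growth of elements of `L` -/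
theorem exists_growth (t : Fin m → L) (ht : IsTranscendenceBasis ℂ t) (a : L) :
    ∃ c : MvPolynomial (Fin m) ℂ, c ≠ 0 ∧ ∀ (B' : Subalgebra ℂ K) (tB : Fin m → B')
      (_ : ∀ i, (tB i : K) = algebraMap L K (t i)) (a' : B') (_ : (a' : K) = algebraMap L K a),
      PG tB (az tB c * a') := by
  let _ : Algebra (MvPolynomial (Fin m) ℂ) L :=
    ((MvPolynomial.aeval t : MvPolynomial (Fin m) ℂ →ₐ[ℂ] L) :
      MvPolynomial (Fin m) ℂ →+* L).toAlgebra
  obtain ⟨p, hp0, hp⟩ := exists_poly_L t ht a
  have h1 : IsAlgebraic (MvPolynomial (Fin m) ℂ) a := ⟨p, hp0, hp⟩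
  obtain ⟨c, hc, μ, hμ, hμ0⟩ := h1.exists_integral_multiple
  refine ⟨c, hc, ?_⟩
  intro B' tB htB a' ha'
  apply growth_root hμ
  apply Subtype.val_injective
  have h2 := Polynomial.hom_eval₂ μ (az tB) (B'.val : B' →+* K) (az tB c * a')
  have h3 := Polynomial.hom_eval₂ μ (algebraMap (MvPolynomial (Fin m) ℂ) L) (algebraMap L K) (c • a)
  rw [hμ0, map_zero] at h3
  have h4 : (B'.val : B' →+* K).comp (az tB) =
      (algebraMap L K).comp (algebraMap (MvPolynomial (Fin m) ℂ) L) := by
    have h5 : (algebraMap L K).comp (algebraMap (MvPolynomial (Fin m) ℂ) L) =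
        ((MvPolynomial.aeval (fun i => algebraMap L K (t i)) : MvPolynomial (Fin m) ℂ →ₐ[ℂ] K) :
          MvPolynomial (Fin m) ℂ →+* K) := by
      refine MvPolynomial.ringHom_ext (fun x => ?_) (fun i => ?_)
      · change algebraMap L K (MvPolynomial.aeval t (MvPolynomial.C x)) =
          MvPolynomial.aeval _ (MvPolynomial.C x)
        rw [MvPolynomial.aeval_C, MvPolynomial.aeval_C, ← IsScalarTower.algebraMap_apply]
      · change algebraMap L K (MvPolynomial.aeval t (MvPolynomial.X i)) =
          MvPolynomial.aeval _ (MvPolynomial.X i)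
        rw [MvPolynomial.aeval_X, MvPolynomial.aeval_X]
    rw [h5]
    refine RingHom.ext fun q => ?_
    have h6 := az_val tB q
    have h7 : (fun i => (tB i : K)) = fun i => algebraMap L K (t i) := funext htB
    rw [h7] at h6
    exact h6
  have h8 : (B'.val : B' →+* K) (az tB c * a') = algebraMap L K (c • a) := by
    rw [map_mul, Algebra.smul_def, map_mul]
    congr 1
    exact congrArg (fun f : MvPolynomial (Fin m) ℂ →+* K => f c) h4
  rw [h4, h8] at h2
  exact h2.trans h3.symm

end Crest.Agent.R276.IntF_448
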