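import Mathlib
import Crest.Agent.R276.GroUpE_845
import Crest.Agent.R276.TowA_849
import Crest.Agent.R276.Mod7_987
import Crest.Agent.R276.IntF_448

/-!
# The fibres of a relative model are `IsFib` (INT and GRO-UP on `RMdl.Fib`)

* `isFib` : the fibre of a relative model over ANY point is a fibre in the sense of `GroUpD_845.IsFib`;
* `sep` : points of the fibres are separated by finitely many elements of `K`;
* `fint_le` : `g` with `PluriS L b N g`: after sufficient shrinking, for EVERY `w`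
  `∫_{M_w} |g|^{2/N} ≤ C (1 + ∑ |z_i|²)^k / |h_L(z)|^l`.
-/

set_option autoImplicit false

open Filter Set MeasureTheory Polynomial Topology
open scoped ENNReal

noncomputable section

namespace Crest.Agent.R276.FibI_448

open Crest.Agent.R271.Defs710 Crest.Agent.R271.Alg255 Crest.Agent.R271.Rd692 Crest.Agent.R271
open Crest.Agent.R271.Ho51
open Crest.Agent.R276.Mod1_987 Crest.Agent.R276.Mod1_987.Mdl
open Crest.Agent.R276.FKDefs_779 Crest.Agent.R276.TowA_849
open Crest.Agent.R276.IntA_448 Crest.Agent.R276.IntB_448 Crest.Agent.R276.IntC_448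
open Crest.Agent.R276.IntD_448 Crest.Agent.R276.IntE_448 Crest.Agent.R276.IntF_448
open Crest.Agent.R276.GroUpD_845

section alg

variable {L K : Type} [Field L] [Field K] [Algebra ℂ L] [Algebra ℂ K] [Algebra L K]
  [IsScalarTower ℂ L K] {m r : ℕ}

/-- the relative dual derivations are the last absolute ones -/
lemma dv_natAdd (t : Fin m → L) {z : Fin (m + r) → K}
    (hz : ∀ i, z (Fin.castAdd r i) = algebraMap L K (t i))
    (B : Module.Basis (Fin (m + r)) K (Ω[K⁄ℂ]))
    (hB : ∀ i, B i = KaehlerDifferential.D ℂ K (z i))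
    (b : Module.Basis (Fin r) K (Ω[K⁄L]))
    (hb : ∀ j, b j = KaehlerDifferential.D L K (z (Fin.natAdd m j))) (j : Fin r) (x : K) :
    dv b j x = dv B (Fin.natAdd m j) x := by
  classical
  have h2 : ∀ i j, dv b j (z (Fin.natAdd m i)) = if i = j then 1 else 0 := by
    intro i j
    rw [dv_apply, ← hb, Module.Basis.repr_self, Finsupp.single_apply]
  have h4 := deriv_eq B hB ((dv b j).restrictScalars ℂ) x
  have h5 : ((dv b j).restrictScalars ℂ) x = dv b j x := rfl
  rw [h5] at h4
  rw [h4, Finset.sum_eq_single (Fin.natAdd m j)]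
  · have h6 : ((dv b j).restrictScalars ℂ) (z (Fin.natAdd m j)) = 1 := by
      change dv b j (z (Fin.natAdd m j)) = 1
      rw [h2, if_pos rfl]
    rw [h6, mul_one]
  · intro i _ hi
    have h6 : ((dv b j).restrictScalars ℂ) (z i) = 0 := by
      change dv b j (z i) = 0
      induction i using Fin.addCases with
      | left i' =>
        rw [hz]
        exact Derivation.map_algebraMap _ _
      | right i' =>
        rw [h2, if_neg]
        rintro rfl
        exact hi rfl
    rw [h6, mul_zero]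
  · intro h
    exact absurd (Finset.mem_univ _) h

end alg

section mdl

variable {K : Type} [Field K] [Algebra ℂ K] {n : ℕ} (M : Mdl K n)

/-- `D j` on `M.B` is the dual derivation of `K` -/
lemma coe_D (D : Fin n → Derivation ℂ M.B M.B)
    (hD : ∀ i j, D j (M.z i) = if i = j then 1 else 0)
    (b : Module.Basis (Fin n) K (Ω[K⁄ℂ]))
    (hb : ∀ i, b i = KaehlerDifferential.D ℂ K (M.z i : K)) (j : Fin n) (y : M.B) :
    ((D j y : M.B) : K) = dv b j (y : K) := by
  rw [dv_apply]
  have h2 := Bd741.D_K (K := K) M.z M.het D hD y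
  have h3 : ∀ i, KaehlerDifferential.D ℂ K (algebraMap M.B K (M.z i)) = b i := fun i => (hb i).symm
  simp only [h3] at h2
  have h4 : KaehlerDifferential.D ℂ K ((y : K)) = ∑ j, (algebraMap M.B K (D j y)) • b j := h2
  rw [h4, map_sum, Finsupp.finsetSum_apply]
  simp only [map_smul, Module.Basis.repr_self, Finsupp.smul_apply, smul_eq_mul,
    Finsupp.single_apply, mul_ite, mul_one, mul_zero]
  rw [Finset.sum_ite_eq' Finset.univ j, if_pos (Finset.mem_univ j)]
  rfl

/-- the strict derivative of `x ↦ x(b)` -/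
lemma sd_one (D : Fin n → Derivation ℂ M.B M.B)
    (hD : ∀ i j, D j (M.z i) = if i = j then 1 else 0) (b : M.B) (x : M.B →ₐ[ℂ] ℂ) :
    HasStrictFDerivAt ((fun y : M.B →ₐ[ℂ] ℂ => y b) ∘ (ch x).symm)
      (∑ j, x (D j b) • (ContinuousLinearMap.proj j : (Fin n → ℂ) →L[ℂ] ℂ)) (cp x) := by
  obtain ⟨C⟩ := M.hch x
  have hgerm : (((ch x).symm : (Fin n → ℂ) → (M.B →ₐ[ℂ] ℂ))) =ᶠ[𝓝 (cp x)]
      fun w => C.s (w - pr M.z x) := by
    have he : IsCh (chartHomeo M.hch C) := rfl
    exact (isCh_ch x).germ he (mem_ch x) (self_mem_sheet C)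
  have han : AnalyticAt ℂ (fun ζ => C.s ζ b) 0 :=
    C.anal b 0 (Metric.mem_ball_self C.r_pos)
  have h2 : HasStrictFDerivAt (fun ζ => C.s ζ b)
      (∑ j, x (D j b) • (ContinuousLinearMap.proj j : (Fin n → ℂ) →L[ℂ] ℂ))
      ((fun w : Fin n → ℂ => w - pr M.z x) (cp x)) := by
    have h3 : (fun w : Fin n → ℂ => w - pr M.z x) (cp x) = 0 := sub_self _
    rw [h3]
    have h4 : fderiv ℂ (fun ζ => C.s ζ b) 0 =
        (∑ j, x (D j b) • (ContinuousLinearMap.proj j : (Fin n → ℂ) →L[ℂ] ℂ)) := by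
      apply ContinuousLinearMap.coe_injective
      apply LinearMap.pi_ext'
      intro j
      apply LinearMap.ext_ring
      have h5 := Bd741.chart_deriv M.z M.het D hD C 0 (Metric.mem_ball_self C.r_pos) j b
      rw [C.s_zero] at h5
      simp only [LinearMap.coe_comp, Function.comp_apply, LinearMap.coe_single,
        ContinuousLinearMap.coe_coe]
      rw [h5, _root_.sum_apply, Finset.sum_eq_single j]
      · simp
      · intro i _ hi
        simp [Pi.single_eq_of_ne hi]
      · intro h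
        exact absurd (Finset.mem_univ _) h
    rw [← h4]
    exact han.hasStrictFDerivAt
  have h6 : HasStrictFDerivAt (fun w : Fin n → ℂ => w - pr M.z x)
      (ContinuousLinearMap.id ℂ (Fin n → ℂ)) (cp x) :=
    (hasStrictFDerivAt_id (cp x)).sub_const _
  have h7 := HasStrictFDerivAt.comp (g := fun ζ => C.s ζ b) (f := fun w => w - pr M.z x)
    (cp x) h2 h6
  rw [ContinuousLinearMap.comp_id] at h7
  refine h7.congr_of_eventuallyEq ?_
  filter_upwards [hgerm] with w hw
  simp only [Function.comp_apply, hw]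

end mdl

section rel

variable {L K : Type} [Field L] [Field K] [Algebra ℂ L] [Algebra ℂ K] [Algebra L K]
  [IsScalarTower ℂ L K] {m r : ℕ} (R : RMdl L K m r)

/-- the section of the fibre is the restriction of the section of the total space -/
lemma symm_val {w : R.ML.Pts} (x : R.Fib w) :
    (fun ξ : Fin r → ℂ => ((ch x).symm ξ).val) =ᶠ[𝓝 (cp x)]
      fun ξ => (ch (M := R.MK.B →ₐ[ℂ] ℂ) x.val).symm (Fin.append (R.ML.pz w) ξ) := by
  have h1 : ∀ᶠ ξ in 𝓝 (cp x), ξ ∈ (ch x).target := by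
    apply (ch x).open_target.mem_nhds
    have h2 := (ch x).map_source (mem_ch x)
    rwa [isCh_ch x] at h2
  have h3 : Filter.Tendsto (fun ξ : Fin r → ℂ => ((ch x).symm ξ).val) (𝓝 (cp x)) (𝓝 x.val) := by
    have h4 : ContinuousAt (ch x).symm (cp x) := by
      apply (ch x).continuousAt_symm
      exact h1.self_of_nhds
    have h5 : (ch x).symm (cp x) = x := by
      have h6 := (ch x).left_inv (mem_ch x)
      rwa [isCh_ch x] at h6
    have h7 : ContinuousAt (fun ξ : Fin r → ℂ => ((ch x).symm ξ).val) (cp x) :=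
      ContinuousAt.comp (g := fun y : R.Fib w => y.val) (RMdl.Fib.continuous_val w).continuousAt h4
    have h8 := h7.tendsto
    rwa [h5] at h8
  have h9 : ∀ᶠ ξ in 𝓝 (cp x), ((ch x).symm ξ).val ∈ (ch (M := R.MK.B →ₐ[ℂ] ℂ) x.val).source :=
    h3 ((ch (M := R.MK.B →ₐ[ℂ] ℂ) x.val).open_source.mem_nhds (mem_ch _))
  filter_upwards [h1, h9] with ξ hξ1 hξ2
  have h10 : cp ((ch x).symm ξ) = ξ := by
    have h11 := (ch x).right_inv hξ1
    rwa [isCh_ch x] at h11
  have h12 : Fin.append (R.ML.pz w) ξ = R.MK.pz ((ch x).symm ξ).val := by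
    rw [← R.append_eq]
    have h13 := ((ch x).symm ξ).q_eq
    rw [h13]
    congr 1
    exact h10.symm
  rw [h12]
  have h14 := (ch (M := R.MK.B →ₐ[ℂ] ℂ) x.val).left_inv hξ2
  rw [isCh_ch] at h14
  exact h14.symm

/-- **the strict derivative on the fibres** -/
theorem sd_fib (D : Fin (m + r) → Derivation ℂ R.MK.B R.MK.B)
    (hD : ∀ i j, D j (R.MK.z i) = if i = j then 1 else 0) (b : R.MK.B) {w : R.ML.Pts}
    (x : R.Fib w) :
    HasStrictFDerivAt ((fun y : R.Fib w => (y.val) b) ∘ (ch x).symm)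
      (∑ l, (x.val) (D (Fin.natAdd m l) b) • (ContinuousLinearMap.proj l : (Fin r → ℂ) →L[ℂ] ℂ))
      (cp x) := by
  have h1 := sd_one R.MK D hD b x.val
  have h2 : cp (M := R.MK.B →ₐ[ℂ] ℂ) x.val = Fin.append (R.ML.pz w) (cp x) := by
    have h3 := R.append_eq x.val
    rw [x.q_eq] at h3
    exact h3.symm
  rw [h2] at h1
  have h4 : HasStrictFDerivAt (fun ξ : Fin r → ℂ => (Fin.append (R.ML.pz w) ξ : Fin (m + r) → ℂ))
      (ContinuousLinearMap.pi (Fin.addCases (motive := fun _ => (Fin r → ℂ) →L[ℂ] ℂ) (fun _ => 0)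
        (fun j => ContinuousLinearMap.proj j))) (cp x) := by
    rw [hasStrictFDerivAt_pi']
    intro i
    refine Fin.addCases (fun i => ?_) (fun j => ?_) i
    · have h5 : (fun ξ : Fin r → ℂ => (Fin.append (R.ML.pz w) ξ : Fin (m + r) → ℂ)
          (Fin.castAdd r i)) = fun _ => R.ML.pz w i := by
        funext ξ
        rw [Fin.append_left]
      rw [h5]
      have h6 : (ContinuousLinearMap.proj (Fin.castAdd r i)).comp
          (ContinuousLinearMap.pi (Fin.addCases (motive := fun _ => (Fin r → ℂ) →L[ℂ] ℂ) (fun _ => 0)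
            (fun j => ContinuousLinearMap.proj j))) = 0 := by
        ext v
        simp
      rw [h6]
      exact hasStrictFDerivAt_const _ _
    · have h5 : (fun ξ : Fin r → ℂ => (Fin.append (R.ML.pz w) ξ : Fin (m + r) → ℂ)
          (Fin.natAdd m j)) = fun ξ => ξ j := by
        funext ξ
        rw [Fin.append_right]
      rw [h5]
      have h6 : (ContinuousLinearMap.proj (Fin.natAdd m j)).comp
          (ContinuousLinearMap.pi (Fin.addCases (motive := fun _ => (Fin r → ℂ) →L[ℂ] ℂ) (fun _ => 0)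
            (fun j => ContinuousLinearMap.proj j))) =
          (ContinuousLinearMap.proj j : (Fin r → ℂ) →L[ℂ] ℂ) := by
        ext v
        simp
      rw [h6]
      exact (ContinuousLinearMap.proj j : (Fin r → ℂ) →L[ℂ] ℂ).hasStrictFDerivAt
  have h7 := HasStrictFDerivAt.comp (g := (fun y : R.MK.B →ₐ[ℂ] ℂ => y b) ∘ (ch x.val).symm)
    (f := fun ξ : Fin r → ℂ => (Fin.append (R.ML.pz w) ξ : Fin (m + r) → ℂ)) (cp x) h1 h4
  have h8 : (∑ j, (x.val) (D j b) • (ContinuousLinearMap.proj j : (Fin (m + r) → ℂ) →L[ℂ] ℂ)).comp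
      (ContinuousLinearMap.pi (Fin.addCases (motive := fun _ => (Fin r → ℂ) →L[ℂ] ℂ) (fun _ => 0)
        (fun j => ContinuousLinearMap.proj j))) =
      ∑ l, (x.val) (D (Fin.natAdd m l) b) • (ContinuousLinearMap.proj l : (Fin r → ℂ) →L[ℂ] ℂ) := by
    ext v
    simp [Fin.sum_univ_add]
  rw [h8] at h7
  refine h7.congr_of_eventuallyEq ?_
  filter_upwards [symm_val R x] with ξ hξ
  simp only [Function.comp_apply]
  rw [← hξ]

/-- **the fibre over any point is a fibre in the sense of `GroUpD_845`** -/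
theorem isFib (bas : Module.Basis (Fin r) K (Ω[K⁄L]))
    (hbas : ∀ j, bas j = KaehlerDifferential.D L K (R.MK.zK (Fin.natAdd m j))) (w : R.ML.Pts) :
    IsFib bas (R.ML.B.val : R.ML.B →+* L) (R.MK.B.val : R.MK.B →+* K)
      (R.incl : R.ML.B →+* R.MK.B) (w : R.ML.B →+* ℂ)
      (fun y : R.Fib w => ((y.val : R.MK.B →ₐ[ℂ] ℂ) : R.MK.B →+* ℂ)) where
  comm _ := rfl
  injA := Subtype.val_injective
  injB := Subtype.val_injective
  ev_i x a := by
    have h1 := x.q_eq
    exact congrArg (fun f : R.ML.B →ₐ[ℂ] ℂ => f a) h1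
  cont b := (continuous_ev b).comp (RMdl.Fib.continuous_val w)
  der b b' hb' x := by
    obtain ⟨B, hB⟩ := FK1_779.exists_basis_of_transc (k := ℂ) (fun i => (R.MK.z i : K))
      (IntC_448.isTranscendenceBasis R.MK)
    obtain ⟨D, hD⟩ := Bd741.exists_coord_deriv R.MK.z R.MK.het
    have h1 : ∀ l, D (Fin.natAdd m l) b = b' l := by
      intro l
      apply Subtype.ext
      rw [coe_D R.MK D hD B hB, ← dv_natAdd (fun i => R.ML.zK i) R.z_eq B hB bas hbas, dv_apply]
      exact (hb' l).symm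
    have h2 := sd_fib R D hD b x
    have h3 : (∑ l, (x.val) (D (Fin.natAdd m l) b) •
        (ContinuousLinearMap.proj l : (Fin r → ℂ) →L[ℂ] ℂ)) =
        ∑ l, (x.val) (b' l) • (ContinuousLinearMap.proj l : (Fin r → ℂ) →L[ℂ] ℂ) :=
      Finset.sum_congr rfl fun l _ => by rw [h1]
    rw [h3] at h2
    exact h2

end rel

end Crest.Agent.R276.FibI_448
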