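import Mathlib
import Crest.Agent.R276.FibM_793

/-!
# Row 276 (S0419), RESTR (helper793), part 2: connected open subsets of slices

`e : Fin ρ ⊕ Fin p ≃ Fin n`, `c : ℂ^ρ`, `G ⊆ {t = c} ⊆ M` nonempty, preconnected, open in the slice.

* `IsG.ident` : identity theorem on `G`; `IsG.domain` : no zero divisors;
* `IsG.poly` : polynomials in the coordinates `x` vanishing on `G` are zero;
* `SG M e c` : such a `G` which is Zariski closed in `M` (`M` a model), its function field `S.F`,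
  the model `S.mdl : Mdl S.F p`, the closed embedding `S.ι : S.mdl.Pts → M.Pts` with range `G`.
-/

set_option autoImplicit false

open Topology Filter MeasureTheory
open scoped ENNReal

noncomputable section

namespace Crest.Agent.R276.FibN_793

open Crest.Agent.R271.Defs710 Crest.Agent.R271.Alg255 Crest.Agent.R271.Rd692
open Crest.Agent.R271.AlgB956 Crest.Agent.R271.Ho51
open Crest.Agent.R276.Mod1_987 Crest.Agent.R276.FibM_793 Crest.Agent.R276.AB2_590

/-! ### local theory on a Riemann domain -/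

section rd

variable {n ρ p : ℕ} {M : Type} [TopologicalSpace M] [RDom n M] (e : Fin ρ ⊕ Fin p ≃ Fin n)
  (c : Cn ρ)

/-- nonempty connected open part of the slice `{t = c}` -/
structure IsG (G : Set M) : Prop where
  coord : ∀ y ∈ G, ∀ i, cp y (e (Sum.inl i)) = c i
  ne : G.Nonempty
  conn : IsPreconnected G
  op : ∀ y ∈ G, ∀ᶠ y' in 𝓝 y, (∀ i, cp y' (e (Sum.inl i)) = c i) → y' ∈ G

/-- the slice coordinates -/
def xc (y : M) : Cn p := fun j => cp y (e (Sum.inr j))

variable {e c}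

lemma glue_mem_ball {a : Cn n} (ha : ∀ i, a (e (Sum.inl i)) = c i) {x : Cn p} {ε : ℝ}
    (hε : 0 < ε) (hx : x ∈ Metric.ball (fun j => a (e (Sum.inr j))) ε) :
    glue e c x ∈ Metric.ball a ε := by
  rw [Metric.mem_ball, dist_pi_lt_iff hε] at hx ⊢
  intro j
  obtain ⟨s, rfl⟩ := e.surjective j
  rcases s with i | j
  · rw [glue_inl, ha i, dist_self]
    exact hε
  · rw [glue_inr]
    exact hx j

lemma analyticAt_glue (x : Cn p) : AnalyticAt ℂ (glue e c) x := by
  rw [analyticAt_pi_iff]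
  intro j
  obtain ⟨s, rfl⟩ := e.surjective j
  rcases s with i | j
  · simp only [glue_inl]
    exact analyticAt_const
  · simp only [glue_inr]
    exact (ContinuousLinearMap.proj (R := ℂ) (φ := fun _ : Fin p => ℂ) j).analyticAt x

variable {G : Set M}

/-- boxes -/
lemma IsG.box (hG : IsG e c G) {y : M} (hy : y ∈ G) {W : Set M} (hW : W ∈ 𝓝 y) :
    ∃ ε > 0, Metric.ball (cp y) ε ⊆ (ch y).target ∧
      ∀ x ∈ Metric.ball (xc e y) ε, glue e c x ∈ Metric.ball (cp y) ε ∧
        (ch y).symm (glue e c x) ∈ G ∧ (ch y).symm (glue e c x) ∈ W ∧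
        cp ((ch y).symm (glue e c x)) = glue e c x := by
  have h1 : cp y ∈ (ch y).target := (isCh_ch y).cp_mem (mem_ch y)
  have h2 : Tendsto (ch y).symm (𝓝 (cp y)) (𝓝 y) := by
    have := (ch y).symm.continuousAt (x := cp y) (by simpa using h1)
    rwa [ContinuousAt, symm_cp] at this
  have h3 : ∀ᶠ ζ in 𝓝 (cp y), ζ ∈ (ch y).target ∧ (ch y).symm ζ ∈ W ∧
      ((∀ i, cp ((ch y).symm ζ) (e (Sum.inl i)) = c i) → (ch y).symm ζ ∈ G) := by
    filter_upwards [(ch y).open_target.mem_nhds h1, h2.eventually_mem hW,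
      h2.eventually (hG.op y hy)] with ζ ha hb hc
    exact ⟨ha, hb, hc⟩
  obtain ⟨ε, hε, hb⟩ := Metric.mem_nhds_iff.mp h3
  refine ⟨ε, hε, fun ζ hζ => (hb hζ).1, fun x hx => ?_⟩
  have h4 := glue_mem_ball (hG.coord y hy) hε hx
  obtain ⟨h5, h6, h7⟩ := hb h4
  have h8 := (isCh_ch y).cp_symm h5
  refine ⟨h4, h7 fun i => ?_, h6, h8⟩
  rw [h8, glue_inl]

lemma comp_glue_analyticAt {F : M → ℂ} (hF : HolA F) {y : M} {x : Cn p}
    (hx : glue e c x ∈ (ch y).target) :
    AnalyticAt ℂ (fun x => F ((ch y).symm (glue e c x))) x :=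
  AnalyticAt.comp (g := F ∘ (ch y).symm) (f := glue e c)
    (comp_symm_analyticAt hF (isCh_ch y) hx) (analyticAt_glue x)

/-- local identity theorem -/
lemma IsG.ident_near (hG : IsG e c G) {y : M} (hy : y ∈ G) :
    ∃ V : Set M, IsOpen V ∧ y ∈ V ∧ ∀ F : M → ℂ, HolA F →
      (∃ y' ∈ G ∩ V, ∀ᶠ w in 𝓝 y', w ∈ G → F w = 0) → ∀ w ∈ G ∩ V, F w = 0 := by
  obtain ⟨ε, hε, ht, hb⟩ := hG.box hy univ_mem
  refine ⟨(ch y).source ∩ cp ⁻¹' Metric.ball (cp y) ε,
    (ch y).open_source.inter (Metric.isOpen_ball.preimage cp_cont),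
    ⟨mem_ch y, Metric.mem_ball_self hε⟩, ?_⟩
  rintro F hF ⟨y', ⟨hy'G, hy's, hy'b⟩, hev⟩
  -- points of `G ∩ V` in terms of `x`
  have key : ∀ w ∈ G ∩ ((ch y).source ∩ cp ⁻¹' Metric.ball (cp y) ε),
      xc e w ∈ Metric.ball (xc e y) ε ∧ (ch y).symm (glue e c (xc e w)) = w := by
    rintro w ⟨hwG, hws, hwb⟩
    have h1 : glue e c (xc e w) = cp w := glue_eq e c (hG.coord w hwG)
    constructor
    · rw [Metric.mem_ball, dist_pi_lt_iff hε]
      have hwb' : dist (cp w) (cp y) < ε := hwb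
      rw [dist_pi_lt_iff hε] at hwb'
      exact fun j => hwb' _
    · rw [h1]
      exact (isCh_ch y).symm_cp hws
  set f : Cn p → ℂ := fun x => F ((ch y).symm (glue e c x)) with hf
  have hfa : AnalyticOnNhd ℂ f (Metric.ball (xc e y) ε) := fun x hx =>
    comp_glue_analyticAt hF (ht (hb x hx).1)
  obtain ⟨hx', hyy'⟩ := key y' ⟨hy'G, hy's, hy'b⟩
  have hcont : Tendsto (fun x => (ch y).symm (glue e c x)) (𝓝 (xc e y')) (𝓝 y') := by
    have h1 : ContinuousAt (ch y).symm (glue e c (xc e y')) :=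
      (ch y).symm.continuousAt (by simpa using ht (hb _ hx').1)
    have h2 : ContinuousAt (fun x => (ch y).symm (glue e c x)) (xc e y') :=
      ContinuousAt.comp (g := (ch y).symm) h1 (analyticAt_glue (e := e) (c := c) _).continuousAt
    have h3 := h2.tendsto
    rwa [hyy'] at h3
  have hev' : f =ᶠ[𝓝 (xc e y')] 0 := by
    filter_upwards [hcont.eventually hev, Metric.isOpen_ball.mem_nhds hx'] with x hx hxb
    exact hx (hb x hxb).2.1
  have h0 := hfa.eqOn_zero_of_preconnected_of_eventuallyEq_zero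
    (convex_ball (xc e y) ε).isPreconnected hx' hev'
  intro w hw
  obtain ⟨h1, h2⟩ := key w hw
  have h3 := h0 h1
  simp only [hf] at h3
  rw [h2] at h3
  exact h3

/-- **identity theorem on `G`** -/
theorem IsG.ident (hG : IsG e c G) {F : M → ℂ} (hF : HolA F)
    (h : ∃ y ∈ G, ∀ᶠ w in 𝓝 y, w ∈ G → F w = 0) : ∀ w ∈ G, F w = 0 := by
  choose! V hVo hyV hV using fun (y : M) (hy : y ∈ G) => hG.ident_near hy
  let O1 : Set M := {y | ∀ᶠ w in 𝓝 y, w ∈ G → F w = 0}
  let O2 : Set M := ⋃ y ∈ G \ O1, V y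
  have hO1 : IsOpen O1 := isOpen_setOfPred_eventually_nhds
  have hO2 : IsOpen O2 := isOpen_biUnion fun y hy => hVo y hy.1
  have hcov : G ⊆ O1 ∪ O2 := by
    intro y hy
    by_cases h1 : y ∈ O1
    · exact Or.inl h1
    · exact Or.inr (Set.mem_biUnion (⟨hy, h1⟩ : y ∈ G \ O1) (hyV y hy))
  obtain ⟨y0, hy0, hev⟩ := h
  by_contra hne
  push Not at hne
  obtain ⟨w, hw, hFw⟩ := hne
  have hw1 : w ∉ O1 := fun h1 => hFw (Eventually.self_of_nhds h1 hw)
  have hw2 : w ∈ O2 := (hcov hw).resolve_left hw1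
  obtain ⟨v, hvG, hv1, hv2⟩ := hG.conn O1 O2 hO1 hO2 hcov ⟨y0, hy0, hev⟩ ⟨w, hw, hw2⟩
  obtain ⟨y, hy, hvy⟩ := Set.mem_iUnion₂.mp hv2
  have h0 := hV y hy.1 F hF ⟨v, ⟨hvG, hvy⟩, hv1⟩
  apply hy.2
  filter_upwards [(hVo y hy.1).mem_nhds (hyV y hy.1)] with u hu huG
  exact h0 u ⟨huG, hu⟩

/-- no zero divisors -/
theorem IsG.domain (hG : IsG e c G) {F1 F2 : M → ℂ} (h1 : Continuous F1) (hF2 : HolA F2)
    (h : ∀ w ∈ G, F1 w * F2 w = 0) :
    (∀ w ∈ G, F1 w = 0) ∨ ∀ w ∈ G, F2 w = 0 := by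
  by_contra hcon
  push Not at hcon
  obtain ⟨⟨y, hy, hy1⟩, hne⟩ := hcon
  obtain ⟨w, hw, hw2⟩ := hne
  apply hw2
  refine hG.ident hF2 ⟨y, hy, ?_⟩ w hw
  filter_upwards [h1.continuousAt.eventually_ne hy1] with u hu huG
  exact (mul_eq_zero.mp (h u huG)).resolve_left hu

/-- polynomials vanishing on `G` are zero -/
theorem IsG.poly (hG : IsG e c G) {P : MvPolynomial (Fin p) ℂ}
    (h : ∀ w ∈ G, MvPolynomial.eval (xc e w) P = 0) : P = 0 := by
  obtain ⟨y, hy⟩ := hG.ne
  obtain ⟨ε, hε, ht, hb⟩ := hG.box hy univ_mem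
  have h1 : ∀ x ∈ Metric.ball (xc e y) ε, MvPolynomial.eval x P = 0 := by
    intro x hx
    obtain ⟨_, h2, _, h3⟩ := hb x hx
    have h4 := h _ h2
    have h5 : xc e ((ch y).symm (glue e c x)) = x := by
      funext j
      unfold xc
      rw [h3, glue_inr]
    rwa [h5] at h4
  apply MvPolynomial.funext_set (fun j => Metric.ball (xc e y j) ε)
  · intro j
    exact infinite_of_mem_nhds (xc e y j) (Metric.ball_mem_nhds _ hε)
  · intro x hx
    rw [map_zero]
    apply h1
    rw [ball_pi _ hε]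
    exact hx

end rd

/-! ### the function field and the model of `G` -/

section mdl

variable {K : Type} [Field K] [Algebra ℂ K] {n ρ p : ℕ} (M : Mdl K n)
  (e : Fin ρ ⊕ Fin p ≃ Fin n) (c : Cn ρ)

/-- connected, Zariski closed, relatively open part of the slice `{t = c}` of a model -/
structure SG where
  /-- the set -/
  G : Set M.Pts
  isG : IsG e c G
  alg : ∀ y : M.Pts, (∀ b : M.B, (∀ w ∈ G, w b = 0) → y b = 0) → y ∈ G

variable {M e c}

namespace SG

variable (S : SG M e c)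

/-- the ideal of `G` -/
def I : Ideal M.B where
  carrier := {b | ∀ w ∈ S.G, w b = 0}
  add_mem' := by
    intro a b ha hb w hw
    rw [map_add, ha w hw, hb w hw, add_zero]
  zero_mem' := fun w _ => map_zero w
  smul_mem' := by
    intro a b hb w hw
    rw [smul_eq_mul, map_mul, hb w hw, mul_zero]

lemma mem_I {b : M.B} : b ∈ S.I ↔ ∀ w ∈ S.G, w b = 0 := Iff.rfl

instance : S.I.IsPrime where
  ne_top' := by
    intro h
    obtain ⟨y, hy⟩ := S.isG.ne
    have h1 : (1 : M.B) ∈ S.I := by rw [h]; trivial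
    have h2 := h1 y hy
    rw [map_one] at h2
    exact one_ne_zero h2
  mem_or_mem' := by
    intro a b hab
    exact S.isG.domain (F1 := fun y : M.Pts => y a) (F2 := fun y : M.Pts => y b)
      (continuous_ev a) (hol51_iff.mp (M.hol51_ev b)) fun w hw => by
        have := hab w hw
        rwa [map_mul] at this

instance : Nontrivial (M.B ⧸ S.I) := Ideal.Quotient.nontrivial_iff.mpr (Ideal.IsPrime.ne_top')

instance : IsDomain (M.B ⧸ S.I) := Ideal.Quotient.isDomain S.I

/-- the function field of `G` -/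
def F : Type := FractionRing (M.B ⧸ S.I)

instance : Field S.F := inferInstanceAs (Field (FractionRing (M.B ⧸ S.I)))

instance : Algebra ℂ S.F := inferInstanceAs (Algebra ℂ (FractionRing (M.B ⧸ S.I)))

/-- the restriction to `G` -/
def π : M.B →ₐ[ℂ] S.F :=
  (IsScalarTower.toAlgHom ℂ (M.B ⧸ S.I) (FractionRing (M.B ⧸ S.I))).comp
    (Ideal.Quotient.mkₐ ℂ S.I)

lemma π_apply (b : M.B) : S.π b =
    algebraMap (M.B ⧸ S.I) (FractionRing (M.B ⧸ S.I)) (Ideal.Quotient.mk S.I b) := rfl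

lemma π_eq_zero {b : M.B} : S.π b = 0 ↔ ∀ w ∈ S.G, w b = 0 := by
  rw [π_apply]
  have h1 : (algebraMap (M.B ⧸ S.I) (FractionRing (M.B ⧸ S.I)) (Ideal.Quotient.mk S.I b) = 0) ↔
      Ideal.Quotient.mk S.I b = 0 :=
    map_eq_zero_iff _ (IsFractionRing.injective (M.B ⧸ S.I) (FractionRing (M.B ⧸ S.I)))
  rw [← mem_I, ← Ideal.Quotient.eq_zero_iff_mem]
  exact h1

lemma π_t (i : Fin ρ) : S.π (M.z (e (Sum.inl i))) = algebraMap ℂ S.F (c i) := by
  rw [← sub_eq_zero, ← S.π.commutes (c i), ← map_sub, π_eq_zero]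
  intro w hw
  rw [map_sub, AlgHom.commutes]
  have := S.isG.coord w hw i
  exact sub_eq_zero.mpr this

lemma frac (a : S.F) : ∃ b d : M.B, S.π d ≠ 0 ∧ a = S.π b / S.π d := by
  obtain ⟨x, y, hy, hxy⟩ := IsFractionRing.div_surjective (A := M.B ⧸ S.I)
    (K := FractionRing (M.B ⧸ S.I)) a
  obtain ⟨b, rfl⟩ := Ideal.Quotient.mk_surjective x
  obtain ⟨d, rfl⟩ := Ideal.Quotient.mk_surjective y
  refine ⟨b, d, ?_, hxy.symm⟩
  have h1 := nonZeroDivisors.ne_zero hy
  intro h2
  apply h1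
  exact (map_eq_zero_iff _ (IsFractionRing.injective (M.B ⧸ S.I)
    (FractionRing (M.B ⧸ S.I)))).mp h2

lemma indep : AlgebraicIndependent ℂ (fun j => S.π (M.z (e (Sum.inr j)))) := by
  rw [algebraicIndependent_iff]
  intro P hP
  apply S.isG.poly
  intro w hw
  have h1 : MvPolynomial.aeval (fun j => S.π (M.z (e (Sum.inr j)))) P =
      S.π (MvPolynomial.aeval (fun j => M.z (e (Sum.inr j))) P) := by
    rw [MvPolynomial.comp_aeval_apply]
  rw [h1, π_eq_zero] at hP
  have h2 := hP w hw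
  rw [MvPolynomial.comp_aeval_apply, MvPolynomial.aeval_eq_eval] at h2
  exact h2

/-- **the model of `G`** -/
def mdl : Mdl S.F p := spec S.π_t S.indep S.frac

@[simp] lemma mdl_B : S.mdl.B = S.π.range := rfl

@[simp] lemma mdl_h : S.mdl.h = sp e c M.h := rfl

/-- the restriction as a map of coordinate rings -/
def res : M.B →ₐ[ℂ] S.mdl.B := S.π.rangeRestrict

lemma res_surjective : Function.Surjective S.res := S.π.rangeRestrict_surjective

@[simp] lemma res_coe (b : M.B) : (S.res b : S.F) = S.π b := rfl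

lemma res_eq_zero {b : M.B} : S.res b = 0 ↔ ∀ w ∈ S.G, w b = 0 := by
  rw [← π_eq_zero, ← res_coe]
  exact ⟨fun h => by rw [h]; rfl, fun h => Subtype.ext h⟩

lemma mdl_z (j : Fin p) : S.mdl.z j = S.res (M.z (e (Sum.inr j))) := rfl

lemma mdl_θ : S.mdl.θ = S.res M.θ := rfl

/-- the inclusion of the points of the model of `G` -/
def ι (y : S.mdl.Pts) : M.Pts := y.comp S.res

lemma ι_apply (y : S.mdl.Pts) (b : M.B) : S.ι y b = y (S.res b) := rfl

lemma continuous_ι : Continuous S.ι := by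
  rw [continuous_iff_ev]
  intro b
  exact continuous_ev (S.res b)

lemma ι_injective : Function.Injective S.ι := by
  intro y y' h
  apply AlgHom.ext
  intro b
  obtain ⟨b, rfl⟩ := S.res_surjective b
  exact congrArg (fun y : M.Pts => y b) h

lemma ι_mem (y : S.mdl.Pts) : S.ι y ∈ S.G := by
  apply S.alg
  intro b hb
  rw [ι_apply, S.res_eq_zero.mpr hb, map_zero]

/-- the points of `G` are the points of the model -/
lemma exists_pt {w : M.Pts} (hw : w ∈ S.G) : ∃ y : S.mdl.Pts, S.ι y = w := by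
  have h1 : RingHom.ker S.res.toRingHom ≤ RingHom.ker w.toRingHom :=
    fun a ha => S.res_eq_zero.mp ha w hw
  refine ⟨AlgHom.liftOfSurjective S.res S.res_surjective w h1, ?_⟩
  apply AlgHom.ext
  intro b
  exact AlgHom.liftOfSurjective_apply S.res S.res_surjective w h1 b

lemma range_ι : Set.range S.ι = S.G := by
  ext w
  constructor
  · rintro ⟨y, rfl⟩
    exact S.ι_mem y
  · exact S.exists_pt

lemma isEmbedding_ι : IsEmbedding S.ι := by
  have h1 : IsEmbedding (evs ∘ S.ι) :=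
    (S.res_surjective.isEmbedding_comp (X := ℂ)).comp evs_embedding
  exact IsEmbedding.of_comp S.continuous_ι evs_inducing.continuous h1

end SG

end mdl

end Crest.Agent.R276.FibN_793
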