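import Mathlib
import Crest.Agent.R276.FibN_793
import Crest.Agent.R276.VPull_327

/-!
# Row 276 (S0419), RESTR (helper793), part 3: the fibre is again a model, the restricted family is
again a relative model

* `S.cp_ι`, `S.hmap_ι`, `S.germ_ι`, `S.homeo : S.mdl.Pts ≃ₜ S.G` : analytic properties of the inclusion;
* `fibSG R w hc` : the fibre `q⁻¹(w)` of a relative model, if it is connected;
  `fibHomeo : (fibSG R w hc).mdl.Pts ≃ₜ R.Fib w`;
* `S.up R hs hc` : the preimage of `G ⊆ M_L` in `M_K`; `S.rmdl R hs hc : RMdl S.F (S.up R hs hc).F a r`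
  the restricted relative model; `q_ι`, `x_ι`, `rmdl_surj`, `fibH` (fibres are the same), `fint_rmdl`.
-/

set_option autoImplicit false

open Topology Filter MeasureTheory
open scoped ENNReal

noncomputable section

namespace Crest.Agent.R276.FibN_793

open Crest.Agent.R271.Defs710 Crest.Agent.R271.Alg255 Crest.Agent.R271.Rd692
open Crest.Agent.R271.AlgB956 Crest.Agent.R271.Ho51
open Crest.Agent.R276.Mod1_987 Crest.Agent.R276.FibM_793 Crest.Agent.R276.AB2_590
open Crest.Agent.R276.Ipc735 Crest.Agent.R276.VPull_327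

/-! ### analytic properties of the inclusion -/

section incl

variable {K : Type} [Field K] [Algebra ℂ K] {n ρ p : ℕ} {M : Mdl K n}
  {e : Fin ρ ⊕ Fin p ≃ Fin n} {c : Cn ρ}

namespace SG

variable (S : SG M e c)

lemma pz_inl (y : S.mdl.Pts) (i : Fin ρ) : M.pz (S.ι y) (e (Sum.inl i)) = c i :=
  S.isG.coord _ (S.ι_mem y) i

lemma pz_inr (y : S.mdl.Pts) (j : Fin p) : M.pz (S.ι y) (e (Sum.inr j)) = S.mdl.pz y j := rfl

lemma pz_ι (y : S.mdl.Pts) : M.pz (S.ι y) = glue e c (S.mdl.pz y) := by
  have h := glue_eq e c (S.pz_inl y)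
  exact h.symm

lemma cp_ι (y : S.mdl.Pts) : cp (S.ι y) = glue e c (cp y) := S.pz_ι y

lemma isClosed_G : IsClosed S.G := by
  have h : S.G = ⋂ b ∈ (S.I : Set M.B), {y : M.Pts | y b = 0} := by
    ext y
    simp only [Set.mem_iInter, Set.mem_ofPred_eq]
    constructor
    · intro hy b hb
      exact hb y hy
    · intro h
      exact S.alg y fun b hb => h b hb
  rw [h]
  exact isClosed_biInter fun b _ => isClosed_eq (continuous_ev b) continuous_const

/-- `S.mdl.Pts ≃ₜ G` -/
def homeo : S.mdl.Pts ≃ₜ S.G :=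
  S.isEmbedding_ι.toHomeomorph.trans (Homeomorph.setCongr S.range_ι)

@[simp] lemma homeo_apply (y : S.mdl.Pts) : (S.homeo y : M.Pts) = S.ι y := rfl

lemma ι_homeo_symm (w : S.G) : S.ι (S.homeo.symm w) = w := by
  have h := S.homeo.apply_symm_apply w
  exact congrArg Subtype.val h

lemma isClosedEmbedding_ι : IsClosedEmbedding S.ι :=
  ⟨S.isEmbedding_ι, by rw [S.range_ι]; exact S.isClosed_G⟩

/-- in charts the inclusion is `x ↦ (c, x)` -/
lemma germ_ι (y : S.mdl.Pts) :
    ∀ᶠ x in 𝓝 (cp y), (ch (S.ι y)).symm (glue e c x) = S.ι ((ch y).symm x) := by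
  have h2 : Tendsto (ch y).symm (𝓝 (cp y)) (𝓝 y) := tendsto_symm y
  have h3 : Tendsto (fun x => S.ι ((ch y).symm x)) (𝓝 (cp y)) (𝓝 (S.ι y)) :=
    (S.continuous_ι.tendsto y).comp h2
  filter_upwards [h3.eventually_mem ((ch (S.ι y)).open_source.mem_nhds (mem_ch _)),
    (ch y).open_target.mem_nhds ((isCh_ch y).cp_mem (mem_ch y))] with x hx hxt
  have h4 : cp (S.ι ((ch y).symm x)) = glue e c x := by
    rw [S.cp_ι, (isCh_ch y).cp_symm hxt]
  rw [← h4]
  exact (isCh_ch (S.ι y)).symm_cp hx

/-- the inclusion is holomorphic -/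
theorem hmap_ι : HMap S.ι := fun y => by
  refine ⟨S.continuous_ι.continuousAt, ?_⟩
  unfold HolAt
  have h1 : (fun y' => cp (S.ι y')) ∘ (ch y).symm =ᶠ[𝓝 (cp y)] glue e c := by
    filter_upwards [(ch y).open_target.mem_nhds ((isCh_ch y).cp_mem (mem_ch y))] with x hx
    change cp (S.ι ((ch y).symm x)) = glue e c x
    rw [S.cp_ι, (isCh_ch y).cp_symm hx]
  exact (analyticAt_glue (e := e) (c := c) (cp y)).congr h1.symm

/-- holomorphic functions on the model of `G` are holomorphic along the slice -/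
lemma analyticAt_slice {E : Type*} [NormedAddCommGroup E] [NormedSpace ℂ E] {F : M.Pts → E}
    {y : S.mdl.Pts} (hF : HolAt (fun y' => F (S.ι y')) y) :
    AnalyticAt ℂ (fun x => F ((ch (S.ι y)).symm (glue e c x))) (cp y) := by
  refine AnalyticAt.congr hF ?_
  filter_upwards [S.germ_ι y] with x hx
  rw [hx]
  rfl

lemma holAt_of_slice {E : Type*} [NormedAddCommGroup E] [NormedSpace ℂ E] {F : M.Pts → E}
    {y : S.mdl.Pts} (hF : AnalyticAt ℂ (fun x => F ((ch (S.ι y)).symm (glue e c x))) (cp y)) :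
    HolAt (fun y' => F (S.ι y')) y := by
  refine AnalyticAt.congr hF ?_
  filter_upwards [S.germ_ι y] with x hx
  rw [hx]
  rfl

end SG

end incl

/-! ### fibres of relative models -/

section fib

variable {L K : Type} [Field L] [Field K] [Algebra ℂ L] [Algebra ℂ K] [Algebra L K]
  [IsScalarTower ℂ L K] {m r : ℕ} (R : RMdl L K m r)

/-- the fibre over `w` as a closed subset of `M_K` -/
def fibSG (w : R.ML.Pts) (hc : IsConnected (R.q ⁻¹' {w})) :
    SG R.MK (finSumFinEquiv : Fin m ⊕ Fin r ≃ Fin (m + r)) (R.ML.pz w) where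
  G := R.q ⁻¹' {w}
  isG :=
    { coord := by
        intro y hy i
        have hy' : R.q y = w := hy
        rw [finSumFinEquiv_apply_left, ← hy']
        exact (R.pz_q y i).symm
      ne := hc.nonempty
      conn := hc.isPreconnected
      op := by
        intro y hy
        have hy' : R.q y = w := hy
        have h1 : Tendsto R.q (𝓝 y) (𝓝 w) := by
          have := R.continuous_q.tendsto y
          rwa [hy'] at this
        filter_upwards [h1.eventually_mem ((ch w).open_source.mem_nhds (mem_ch w))] with y' h2 h3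
        have h4 : cp (R.q y') = cp w := by
          funext i
          have h5 := h3 i
          rw [finSumFinEquiv_apply_left] at h5
          exact (R.pz_q y' i).trans h5
        exact (isCh_ch w).injOn h2 (mem_ch w) h4 }
  alg := by
    intro y hy
    change R.q y = w
    apply AlgHom.ext
    intro b
    rw [R.q_apply]
    have h1 := hy (R.incl b - algebraMap ℂ R.MK.B (w b)) fun y' hy' => by
      have h2 : R.q y' = w := hy'
      rw [map_sub, AlgHom.commutes, ← R.q_apply, h2]
      exact sub_self _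
    rw [map_sub, AlgHom.commutes] at h1
    exact sub_eq_zero.mp h1

/-- the points of the fibre model are the points of the fibre -/
def fibHomeo (w : R.ML.Pts) (hc : IsConnected (R.q ⁻¹' {w})) :
    (fibSG R w hc).mdl.Pts ≃ₜ R.Fib w := (fibSG R w hc).homeo

lemma fibHomeo_val (w : R.ML.Pts) (hc : IsConnected (R.q ⁻¹' {w}))
    (y : (fibSG R w hc).mdl.Pts) : (fibHomeo R w hc y).val = (fibSG R w hc).ι y := rfl

lemma fibHomeo_cp (w : R.ML.Pts) (hc : IsConnected (R.q ⁻¹' {w}))
    (y : (fibSG R w hc).mdl.Pts) : cp (fibHomeo R w hc y) = cp y := by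
  rw [RMdl.Fib.cp_eq, fibHomeo_val]
  funext j
  rw [R.x_apply]
  have h := (fibSG R w hc).pz_inr y j
  rw [finSumFinEquiv_apply_right] at h
  exact h

/-- connectedness of fibres in the two formulations -/
lemma isConnected_fib {w : R.ML.Pts} [h : ConnectedSpace (R.Fib w)] :
    IsConnected (R.q ⁻¹' {w}) := by
  have h1 : IsConnected (Set.univ : Set (R.Fib w)) := isConnected_univ
  have h2 := h1.image (RMdl.Fib.val (w := w)) (RMdl.Fib.continuous_val w).continuousOn
  convert! h2 using 1
  ext y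
  constructor
  · intro hy
    exact ⟨⟨y, hy⟩, trivial, rfl⟩
  · rintro ⟨y, _, rfl⟩
    exact y.q_eq

lemma connectedSpace_fib {w : R.ML.Pts} (h : IsConnected (R.q ⁻¹' {w})) :
    ConnectedSpace (R.Fib w) := Subtype.connectedSpace h

end fib

end Crest.Agent.R276.FibN_793
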