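import Mathlib
import Crest.Agent.R276.FibO_793

/-!
# Row 276 (S0419), RESTR (helper793), part 4: the restricted family is again a relative model

`R : RMdl L K m r`, `S : SG R.ML e c` (connected closed open part `G` of a slice of the base), `q`
surjective with connected fibres.

* `S.up R hs hc` : `q⁻¹ G` in `M_K`, coordinates `eK e`;
* `S.rmdl R hs hc : RMdl S.F (S.up R hs hc).F a r`;
* `q_ι`, `x_ι`, `surj_rmdl`, `fibH` (the fibres are the same), `fint_rmdl`, `conn_rmdl`.
-/

set_option autoImplicit false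

open Topology Filter MeasureTheory
open scoped ENNReal

noncomputable section

namespace Crest.Agent.R276.FibN_793

open Crest.Agent.R271.Defs710 Crest.Agent.R271.Alg255 Crest.Agent.R271.Rd692
open Crest.Agent.R271.AlgB956 Crest.Agent.R271.Ho51
open Crest.Agent.R276.Mod1_987 Crest.Agent.R276.FibM_793 Crest.Agent.R276.AB2_590
open Crest.Agent.R276.Ipc735 Crest.Agent.R276.VPull_327

/-! ### coordinates -/

section eK

variable {m ρ a : ℕ} (e : Fin ρ ⊕ Fin a ≃ Fin m) (r : ℕ)

/-- splitting of the coordinates of the total space -/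
def eK : Fin ρ ⊕ Fin (a + r) ≃ Fin (m + r) :=
  ((Equiv.refl (Fin ρ)).sumCongr finSumFinEquiv.symm).trans
    ((Equiv.sumAssoc (Fin ρ) (Fin a) (Fin r)).symm.trans
      ((e.sumCongr (Equiv.refl (Fin r))).trans finSumFinEquiv))

@[simp] lemma eK_inl (i : Fin ρ) : eK e r (Sum.inl i) = Fin.castAdd r (e (Sum.inl i)) := by
  simp [eK]

@[simp] lemma eK_inr_left (i : Fin a) :
    eK e r (Sum.inr (Fin.castAdd r i)) = Fin.castAdd r (e (Sum.inr i)) := by
  simp [eK]

@[simp] lemma eK_inr_right (j : Fin r) : eK e r (Sum.inr (Fin.natAdd a j)) = Fin.natAdd m j := by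
  simp [eK]

end eK

/-- preimages of preconnected sets under open surjective maps with preconnected fibres -/
theorem preconn_preimage {X Y : Type*} [TopologicalSpace X] [TopologicalSpace Y] {f : Y → X}
    (ho : IsOpenMap f) (hs : Function.Surjective f) (hf : ∀ x, IsPreconnected (f ⁻¹' {x}))
    {G : Set X} (hG : IsPreconnected G) : IsPreconnected (f ⁻¹' G) := by
  intro U V hU hV hcov hGU hGV
  obtain ⟨u, hu, huU⟩ := hGU
  obtain ⟨v, hv, hvV⟩ := hGV
  have h1 : G ⊆ f '' U ∪ f '' V := by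
    intro x hx
    obtain ⟨y, rfl⟩ := hs x
    rcases hcov hx with h | h
    · exact Or.inl ⟨y, h, rfl⟩
    · exact Or.inr ⟨y, h, rfl⟩
  obtain ⟨x, hxG, ⟨y1, hy1, hxy1⟩, ⟨y2, hy2, hxy2⟩⟩ := hG _ _ (ho U hU) (ho V hV) h1
    ⟨f u, hu, ⟨u, huU, rfl⟩⟩ ⟨f v, hv, ⟨v, hvV, rfl⟩⟩
  have h2 : f ⁻¹' {x} ⊆ U ∪ V := by
    intro y hy
    apply hcov
    have hy' : f y = x := hy
    change f y ∈ G
    rw [hy']
    exact hxG
  obtain ⟨y, hy, hyUV⟩ := hf x U V hU hV h2 ⟨y1, hxy1, hy1⟩ ⟨y2, hxy2, hy2⟩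
  have hy' : f y = x := hy
  refine ⟨y, ?_, hyUV⟩
  change f y ∈ G
  rw [hy']
  exact hxG

section up

variable {L K : Type} [Field L] [Field K] [Algebra ℂ L] [Algebra ℂ K] [Algebra L K]
  [IsScalarTower ℂ L K] {m r ρ a : ℕ} (R : RMdl L K m r) {e : Fin ρ ⊕ Fin a ≃ Fin m} {c : Cn ρ}

namespace SG

variable (S : SG R.ML e c) (hs : Function.Surjective R.q)
  (hc : ∀ w, IsPreconnected (R.q ⁻¹' {w}))

/-- the preimage of `G` in `M_K` -/
def up : SG R.MK (eK e r) c where
  G := R.q ⁻¹' S.G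
  isG :=
    { coord := by
        intro y hy i
        rw [eK_inl]
        have h1 := S.isG.coord (R.q y) hy i
        rw [← h1]
        exact (R.pz_q y (e (Sum.inl i))).symm
      ne := by
        obtain ⟨w, hw⟩ := S.isG.ne
        obtain ⟨y, rfl⟩ := hs w
        exact ⟨y, hw⟩
      conn := preconn_preimage R.isOpenMap_q hs hc S.isG.conn
      op := by
        intro y hy
        filter_upwards [(R.continuous_q.tendsto y).eventually (S.isG.op (R.q y) hy)] with y' h1 h2
        apply h1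
        intro i
        have h3 := h2 i
        rw [eK_inl] at h3
        exact (R.pz_q y' (e (Sum.inl i))).trans h3 }
  alg := by
    intro y hy
    apply S.alg
    intro b hb
    rw [R.q_apply]
    apply hy
    intro y' hy'
    rw [← R.q_apply]
    exact hb _ hy'

lemma up_G : (S.up R hs hc).G = R.q ⁻¹' S.G := rfl

lemma I_le : S.I ≤ (S.up R hs hc).I.comap R.incl := by
  intro b hb y hy
  rw [← R.q_apply]
  exact hb _ hy

lemma comap_I : (S.up R hs hc).I.comap R.incl = S.I := by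
  refine le_antisymm ?_ (S.I_le R hs hc)
  intro b hb w hw
  obtain ⟨y, rfl⟩ := hs w
  rw [R.q_apply]
  exact hb y hw

/-- the inclusion of the coordinate rings of `G` and `q⁻¹ G` -/
def quo : (R.ML.B ⧸ S.I) →+* (R.MK.B ⧸ (S.up R hs hc).I) :=
  Ideal.quotientMap _ (R.incl : R.ML.B →+* R.MK.B) (S.I_le R hs hc)

lemma quo_mk (b : R.ML.B) : S.quo R hs hc (Ideal.Quotient.mk S.I b) =
    Ideal.Quotient.mk (S.up R hs hc).I (R.incl b) := rfl

lemma quo_injective : Function.Injective (S.quo R hs hc) :=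
  Ideal.quotientMap_injective' (S.comap_I R hs hc).le

/-- the inclusion of the function fields of `G` and `q⁻¹ G` -/
def fld : S.F →+* (S.up R hs hc).F :=
  IsFractionRing.map (A := R.ML.B ⧸ S.I) (B := R.MK.B ⧸ (S.up R hs hc).I)
    (K := FractionRing (R.ML.B ⧸ S.I)) (L := FractionRing (R.MK.B ⧸ (S.up R hs hc).I))
    (S.quo_injective R hs hc)

lemma fld_π (b : R.ML.B) : S.fld R hs hc (S.π b) = (S.up R hs hc).π (R.incl b) := by
  have h := IsLocalization.map_eq (M := nonZeroDivisors (R.ML.B ⧸ S.I))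
    (S := FractionRing (R.ML.B ⧸ S.I)) (Q := FractionRing (R.MK.B ⧸ (S.up R hs hc).I))
    (g := S.quo R hs hc)
    (nonZeroDivisors_le_comap_nonZeroDivisors_of_injective _ (S.quo_injective R hs hc))
    (Ideal.Quotient.mk S.I b)
  exact h

instance : Algebra S.F (S.up R hs hc).F := (S.fld R hs hc).toAlgebra

lemma algebraMap_π (b : R.ML.B) :
    algebraMap S.F (S.up R hs hc).F (S.π b) = (S.up R hs hc).π (R.incl b) := S.fld_π R hs hc b

instance : IsScalarTower ℂ S.F (S.up R hs hc).F := by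
  refine IsScalarTower.of_algebraMap_eq fun z => ?_
  rw [← S.π.commutes z, algebraMap_π, AlgHom.commutes, AlgHom.commutes]

/-- **the restricted relative model** -/
abbrev rmdl : RMdl S.F (S.up R hs hc).F a r where
  ML := S.mdl
  MK := (S.up R hs hc).mdl
  z_eq := by
    intro i
    change (S.up R hs hc).π (R.MK.z (eK e r (Sum.inr (Fin.castAdd r i)))) =
      algebraMap S.F (S.up R hs hc).F (S.π (R.ML.z (e (Sum.inr i))))
    rw [algebraMap_π, eK_inr_left]
    congr 1
    exact Subtype.ext (R.z_eq _)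
  incl_mem := by
    intro b
    obtain ⟨b, rfl⟩ := S.res_surjective b
    rw [res_coe, algebraMap_π]
    exact ⟨R.incl b, rfl⟩

lemma rmdl_ML : (S.rmdl R hs hc).ML = S.mdl := rfl

lemma rmdl_MK : (S.rmdl R hs hc).MK = (S.up R hs hc).mdl := rfl

lemma rmdl_incl (b : R.ML.B) :
    (S.rmdl R hs hc).incl (S.res b) = (S.up R hs hc).res (R.incl b) := by
  apply Subtype.ext
  rw [RMdl.incl_coe, res_coe]
  exact S.algebraMap_π R hs hc b

/-- the square commutes -/
theorem q_ι (y : (S.rmdl R hs hc).MK.Pts) :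
    R.q ((S.up R hs hc).ι y) = S.ι ((S.rmdl R hs hc).q y) := by
  apply AlgHom.ext
  intro b
  rw [R.q_apply, ι_apply, ι_apply, RMdl.q_apply, rmdl_incl]

/-- the fibre coordinates are the same -/
theorem x_ι (y : (S.rmdl R hs hc).MK.Pts) :
    R.x ((S.up R hs hc).ι y) = (S.rmdl R hs hc).x y := by
  funext j
  rw [R.x_apply, RMdl.x_apply, ι_apply]
  change y ((S.up R hs hc).res (R.MK.z (Fin.natAdd m j))) =
    y ((S.up R hs hc).res (R.MK.z (eK e r (Sum.inr (Fin.natAdd a j)))))
  rw [eK_inr_right]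

theorem surj_rmdl : Function.Surjective (S.rmdl R hs hc).q := by
  intro w
  obtain ⟨y, hy⟩ := hs (S.ι w)
  have h1 : y ∈ (S.up R hs hc).G := by
    change R.q y ∈ S.G
    rw [hy]
    exact S.ι_mem w
  obtain ⟨y', rfl⟩ := (S.up R hs hc).exists_pt h1
  refine ⟨y', S.ι_injective ?_⟩
  rw [← hy]
  exact (S.q_ι R hs hc y').symm

/-- the fibres of the restricted family are fibres of the family -/
def fibH (w : (S.rmdl R hs hc).ML.Pts) : (S.rmdl R hs hc).Fib w ≃ₜ R.Fib (S.ι w) :=
  let f : (S.rmdl R hs hc).Fib w → R.Fib (S.ι w) := fun y =>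
    ⟨(S.up R hs hc).ι y.val, by
      have h := S.q_ι R hs hc y.val
      rw [y.q_eq] at h
      exact h⟩
  have hf : IsEmbedding f := by
    have h1 : IsEmbedding (Subtype.val ∘ f) :=
      (S.up R hs hc).isEmbedding_ι.comp IsEmbedding.subtypeVal
    have h2 : Continuous f :=
      ((S.up R hs hc).continuous_ι.comp continuous_subtype_val).subtype_mk _
    exact IsEmbedding.of_comp h2 continuous_subtype_val h1
  have hsur : Function.Surjective f := by
    rintro ⟨y, hy⟩
    have h1 : y ∈ (S.up R hs hc).G := by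
      change R.q y ∈ S.G
      rw [hy]
      exact S.ι_mem w
    obtain ⟨y', rfl⟩ := (S.up R hs hc).exists_pt h1
    refine ⟨⟨y', S.ι_injective ?_⟩, rfl⟩
    rw [← hy]
    exact (S.q_ι R hs hc y').symm
  hf.toHomeomorph.trans ((Homeomorph.setCongr hsur.range_eq).trans (Homeomorph.Set.univ _))

lemma fibH_val (w : (S.rmdl R hs hc).ML.Pts) (y : (S.rmdl R hs hc).Fib w) :
    (S.fibH R hs hc w y).val = (S.up R hs hc).ι y.val := rfl

lemma fibH_cp (w : (S.rmdl R hs hc).ML.Pts) (y : (S.rmdl R hs hc).Fib w) :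
    cp (S.fibH R hs hc w y) = cp y := by
  rw [RMdl.Fib.cp_eq, RMdl.Fib.cp_eq, fibH_val]
  exact S.x_ι R hs hc y.val

lemma ι_fibH_symm (w : (S.rmdl R hs hc).ML.Pts) (y : R.Fib (S.ι w)) :
    (S.up R hs hc).ι ((S.fibH R hs hc w).symm y).val = y.val := by
  rw [← fibH_val, Homeomorph.apply_symm_apply]

/-- values of elements of `B_K` on the fibres -/
lemma fibH_ev (w : (S.rmdl R hs hc).ML.Pts) (y : (S.rmdl R hs hc).Fib w) (b : R.MK.B) :
    ((S.fibH R hs hc w y).val : R.MK.Pts) b =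
      (y.val : (S.up R hs hc).mdl.Pts) ((S.up R hs hc).res b) := rfl

/-- the fibres of the restricted family are connected -/
theorem conn_rmdl (w : (S.rmdl R hs hc).ML.Pts) :
    IsPreconnected ((S.rmdl R hs hc).q ⁻¹' {w}) := by
  have h1 : (S.rmdl R hs hc).q ⁻¹' {w} = (S.up R hs hc).ι ⁻¹' (R.q ⁻¹' {S.ι w}) := by
    ext y
    constructor
    · intro hy
      have hy' : (S.rmdl R hs hc).q y = w := hy
      change R.q ((S.up R hs hc).ι y) = S.ι w
      rw [q_ι, hy']
    · intro hy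
      have hy' : R.q ((S.up R hs hc).ι y) = S.ι w := hy
      rw [q_ι] at hy'
      exact S.ι_injective hy'
  rw [h1]
  have h2 : R.q ⁻¹' {S.ι w} ⊆ Set.range (S.up R hs hc).ι := by
    intro y hy
    rw [range_ι]
    have hy' : R.q y = S.ι w := hy
    change R.q y ∈ S.G
    rw [hy']
    exact S.ι_mem w
  rw [← (S.up R hs hc).isEmbedding_ι.isInducing.isPreconnected_image,
    Set.image_preimage_eq_of_subset h2]
  exact hc _

/-- fibre sums and fibre integrals are the same -/
theorem fsumR_rmdl (g : R.MK.Pts → ℝ≥0∞) (w : (S.rmdl R hs hc).ML.Pts) (ξ : Cn r) :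
    (S.rmdl R hs hc).fsumR (fun y => g ((S.up R hs hc).ι y)) w ξ = R.fsumR g (S.ι w) ξ := by
  rw [RMdl.fsumR_eq, RMdl.fsumR_eq]
  let E : {y : (S.rmdl R hs hc).Fib w // cp y = ξ} ≃ {y : R.Fib (S.ι w) // cp y = ξ} :=
    (S.fibH R hs hc w).toEquiv.subtypeEquiv fun y => by
      change cp y = ξ ↔ cp (S.fibH R hs hc w y) = ξ
      rw [fibH_cp]
  exact E.tsum_eq (fun y : {y : R.Fib (S.ι w) // cp y = ξ} => g y.1.val)

theorem fint_rmdl (g : R.MK.Pts → ℝ≥0∞) (w : (S.rmdl R hs hc).ML.Pts) :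
    (S.rmdl R hs hc).fint w (fun y => g ((S.up R hs hc).ι y)) = R.fint (S.ι w) g :=
  lintegral_congr fun ξ => S.fsumR_rmdl R hs hc g w ξ

end SG

end up

end Crest.Agent.R276.FibN_793
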