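import Mathlib
import Crest.Agent.R276.FibP_793
import Crest.Agent.R276.FlatDefs_236
import Crest.Agent.R276.CInd_870

/-!
# Row 276 (S0419), RESTR (helper793), part 5: towers

* `Phi_eq_fint`, `Phi_rmdl` : `Φ` of the restricted family is `Φ ∘ ι`;
* for `H₁ : Rel MT ML`, `H₂ : Rel ML MK` (220) with connected fibres and `y₀ : MT.Pts`:
  `SY`, `RY` = the relative model over the fibre `G_{y₀}`; `eY : RY.ML.Pts ≃ₜ (rm H₁).Fib y₀`,
  `cp_eY`, `Phi_eY`; `holS_iff`: 220's `HolS` on the slice in terms of `RY.ML.Pts`.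
-/

set_option autoImplicit false

open Topology Filter MeasureTheory
open scoped ENNReal

noncomputable section

namespace Crest.Agent.R276.FibT_793

open Crest.Agent.R271.Alg255 Crest.Agent.R271.Rd692
open Crest.Agent.R271.Defs710 hiding glue
open Crest.Agent.R271.AlgB956 Crest.Agent.R271.Ho51
open Crest.Agent.R276.Mod1_987 Crest.Agent.R276.FibN_793
open Crest.Agent.R276.FlatDefs_236 Crest.Agent.R276.FlatM_464

section general

variable {L K : Type} [Field L] [Field K] [Algebra ℂ L] [Algebra ℂ K] [Algebra L K]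
  [IsScalarTower ℂ L K] {m r : ℕ} (R : RMdl L K m r)

/-- the integrand of `Φ` on the total space -/
def phiI (N : ℕ) {s : ℕ} (u : Fin s → R.MK.B) (a : Fin s → ℂ) (y : R.MK.Pts) : ℝ≥0∞ :=
  ENNReal.ofReal (‖∑ i, a i * y (u i)‖ ^ (2 / (N : ℝ)))

lemma measurable_phiI (N : ℕ) {s : ℕ} (u : Fin s → R.MK.B) (a : Fin s → ℂ) :
    Measurable (phiI R N u a) := by
  have h1 : Continuous fun y : R.MK.Pts => ∑ i, a i * y (u i) :=
    continuous_finsetSum _ fun i _ => continuous_const.mul (continuous_ev (u i))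
  have h2 : Continuous fun y : R.MK.Pts => ‖∑ i, a i * y (u i)‖ ^ (2 / (N : ℝ)) :=
    h1.norm.rpow_const fun _ => Or.inr (by positivity)
  exact (ENNReal.continuous_ofReal.comp h2).measurable

theorem Phi_eq_fint (N : ℕ) {s : ℕ} (u : Fin s → R.MK.B) (w : R.ML.Pts) (a : Fin s → ℂ) :
    Phi N u w a = R.fint w (phiI R N u a) := by
  rw [R.fint_eq (nu_leb R w) (measurable_phiI R N u a)]
  rfl

variable {ρ a : ℕ} {e : Fin ρ ⊕ Fin a ≃ Fin m} {c : Cn ρ} (S : SG R.ML e c)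
  (hs : Function.Surjective R.q) (hc : ∀ w, IsPreconnected (R.q ⁻¹' {w}))

/-- the restricted sections -/
def ru {s : ℕ} (u : Fin s → R.MK.B) (i : Fin s) : (S.rmdl R hs hc).MK.B :=
  (S.up R hs hc).res (u i)

/-- `Φ` of the restricted family -/
theorem Phi_rmdl (N : ℕ) {s : ℕ} (u : Fin s → R.MK.B) (w : (S.rmdl R hs hc).ML.Pts)
    (b : Fin s → ℂ) : Phi N (ru R S hs hc u) w b = Phi N u (S.ι w) b := by
  rw [Phi_eq_fint, Phi_eq_fint, ← S.fint_rmdl R hs hc (phiI R N u b) w]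
  rfl

end general

/-! ### towers -/

section tower

open Crest.Agent.R276.SkelDefs_220 Crest.Agent.R276.CInd_870

variable {T L K : Type} [Field T] [Field L] [Field K] [Algebra ℂ T] [Algebra ℂ L] [Algebra ℂ K]
  [Algebra T L] [Algebra L K] [IsScalarTower ℂ T L] [IsScalarTower ℂ L K] {ρ a r : ℕ}
  {MT : Mdl T ρ} {ML : Mdl L (ρ + a)} {MK : Mdl K (ρ + a + r)}

section conn

variable {m : ℕ} {MM : Mdl L m} {MN : Mdl K (m + r)}

lemma surj_rm (H : Rel MM MN) : Function.Surjective (rm H).q := by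
  intro w
  obtain ⟨y, hy⟩ := H.surj w
  refine ⟨y, AlgHom.ext fun b => ?_⟩
  exact hy b ((rm H).incl b) rfl

lemma conn_rm {H : Rel MM MN} (h : H.Conn) (w : MM.Pts) :
    IsConnected ((rm H).q ⁻¹' {w}) := by
  convert! h w using 1

lemma connectedSpace_rm {H : Rel MM MN} (h : H.Conn) (w : MM.Pts) :
    ConnectedSpace ((rm H).Fib w) := connectedSpace_fib (rm H) (conn_rm h w)

end conn

variable (H₁ : Rel MT ML) (H₂ : Rel ML MK) (h₁ : H₁.Conn) (h₂ : H₂.Conn) (y₀ : MT.Pts)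

/-- the fibre `G_{y₀}` of `M_L → M_T` -/
def SY : SG ML (finSumFinEquiv : Fin ρ ⊕ Fin a ≃ Fin (ρ + a)) (MT.pz y₀) :=
  fibSG (rm H₁) y₀ (conn_rm h₁ y₀)

lemma SY_G (z : ML.Pts) : z ∈ (SY H₁ h₁ y₀).G ↔ H₁.f z = y₀ := Iff.rfl

/-- the function field of `G_{y₀}` -/
def FY : Type := (SY H₁ h₁ y₀).F

instance : Field (FY H₁ h₁ y₀) := inferInstanceAs (Field (SY H₁ h₁ y₀).F)

instance : Algebra ℂ (FY H₁ h₁ y₀) := inferInstanceAs (Algebra ℂ (SY H₁ h₁ y₀).F)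

/-- the preimage of `G_{y₀}` in `M_K` -/
def UY : SG MK (eK (finSumFinEquiv : Fin ρ ⊕ Fin a ≃ Fin (ρ + a)) r) (MT.pz y₀) :=
  SG.up (rm H₂) (SY H₁ h₁ y₀) (surj_rm H₂) fun w => (conn_rm h₂ w).isPreconnected

/-- the function field of the preimage of `G_{y₀}` in `M_K` -/
def KY : Type := (UY H₁ H₂ h₁ h₂ y₀).F

instance : Field (KY H₁ H₂ h₁ h₂ y₀) := inferInstanceAs (Field (UY H₁ H₂ h₁ h₂ y₀).F)

instance : Algebra ℂ (KY H₁ H₂ h₁ h₂ y₀) := inferInstanceAs (Algebra ℂ (UY H₁ H₂ h₁ h₂ y₀).F)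

instance : Algebra (FY H₁ h₁ y₀) (KY H₁ H₂ h₁ h₂ y₀) :=
  (SG.fld (rm H₂) (SY H₁ h₁ y₀) (surj_rm H₂) fun w => (conn_rm h₂ w).isPreconnected).toAlgebra

instance : IsScalarTower ℂ (FY H₁ h₁ y₀) (KY H₁ H₂ h₁ h₂ y₀) :=
  SG.instIsScalarTowerComplexFUp (rm H₂) (SY H₁ h₁ y₀) (surj_rm H₂)
    fun w => (conn_rm h₂ w).isPreconnected

/-- **the relative model over `G_{y₀}`** -/
def RY : RMdl (FY H₁ h₁ y₀) (KY H₁ H₂ h₁ h₂ y₀) a r :=
  SG.rmdl (rm H₂) (SY H₁ h₁ y₀) (surj_rm H₂) fun w => (conn_rm h₂ w).isPreconnected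

/-- the points of the base of `RY` are the points of `G_{y₀}` -/
def eY : (RY H₁ H₂ h₁ h₂ y₀).ML.Pts ≃ₜ (rm H₁).Fib y₀ := fibHomeo (rm H₁) y₀ (conn_rm h₁ y₀)

lemma eY_val (z : (RY H₁ H₂ h₁ h₂ y₀).ML.Pts) :
    (eY H₁ H₂ h₁ h₂ y₀ z).val = (SY H₁ h₁ y₀).ι z := rfl

lemma cp_eY (z : (RY H₁ H₂ h₁ h₂ y₀).ML.Pts) : cp (eY H₁ H₂ h₁ h₂ y₀ z) = cp z :=
  fibHomeo_cp (rm H₁) y₀ (conn_rm h₁ y₀) z

/-- the restricted sections -/
def uY {s : ℕ} (u : Fin s → MK.B) : Fin s → (RY H₁ H₂ h₁ h₂ y₀).MK.B :=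
  ru (rm H₂) (SY H₁ h₁ y₀) (surj_rm H₂) (fun w => (conn_rm h₂ w).isPreconnected) u

theorem Phi_eY (N : ℕ) {s : ℕ} (u : Fin s → MK.B) (z : (RY H₁ H₂ h₁ h₂ y₀).ML.Pts)
    (b : Fin s → ℂ) :
    Phi N (uY H₁ H₂ h₁ h₂ y₀ u) z b = Phi (R := rm H₂) N u (eY H₁ H₂ h₁ h₂ y₀ z).val b :=
  Phi_rmdl (rm H₂) (SY H₁ h₁ y₀) (surj_rm H₂) _ N u z b

/-- the family over `G_{y₀}` has connected fibres and is surjective -/
lemma surj_RY : Function.Surjective (RY H₁ H₂ h₁ h₂ y₀).q :=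
  (SY H₁ h₁ y₀).surj_rmdl (rm H₂) (surj_rm H₂) _

lemma connected_RY (w : (RY H₁ H₂ h₁ h₂ y₀).ML.Pts) :
    ConnectedSpace ((RY H₁ H₂ h₁ h₂ y₀).Fib w) := by
  apply connectedSpace_fib
  refine ⟨?_, (SY H₁ h₁ y₀).conn_rmdl (rm H₂) (surj_rm H₂) _ w⟩
  obtain ⟨y, hy⟩ := surj_RY H₁ H₂ h₁ h₂ y₀ w
  exact ⟨y, hy⟩

/-- 220's `HolS` on the slice for functions extended by zero off `G_{y₀}` -/
theorem holS_of_hol {F : ML.Pts → ℂ} {F' : (RY H₁ H₂ h₁ h₂ y₀).ML.Pts → ℂ}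
    (hF' : ∀ z, Ipc735.HolAt F' z) (hF : ∀ z, F ((SY H₁ h₁ y₀).ι z) = F' z)
    (h0 : ∀ z : ML.Pts, H₁.f z ≠ y₀ → F z = 0) : HolS ML (eL ρ a) (MT.pz y₀) F := by
  intro z hz
  by_cases hzG : H₁.f z = y₀
  · obtain ⟨z', rfl⟩ := (SY H₁ h₁ y₀).exists_pt (w := z) hzG
    have h1 : Ipc735.HolAt (fun z' => F ((SY H₁ h₁ y₀).ι z')) z' := by
      have : (fun z' => F ((SY H₁ h₁ y₀).ι z')) = F' := funext hF
      rw [this]
      exact hF' z'
    exact (SY H₁ h₁ y₀).analyticAt_slice h1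
  · -- near `z` there are no points of `G` in the slice
    have hnot : z ∉ (SY H₁ h₁ y₀).G := hzG
    have h1 : ∀ᶠ z' in 𝓝 z, z' ∉ (SY H₁ h₁ y₀).G :=
      (SY H₁ h₁ y₀).isClosed_G.isOpen_compl.mem_nhds hnot
    have h2 : Tendsto (fun x : Cn a => (ch z).symm (FibM_793.glue (eL ρ a) (MT.pz y₀) x))
        (𝓝 (FibN_793.xc (eL ρ a) z)) (𝓝 z) := by
      have h3 : FibM_793.glue (eL ρ a) (MT.pz y₀) (FibN_793.xc (eL ρ a) z) = cp z :=
        FibM_793.glue_eq (eL ρ a) (MT.pz y₀) fun i => congrFun hz i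
      have h4 := (analyticAt_glue (e := eL ρ a) (c := MT.pz y₀)
        (FibN_793.xc (eL ρ a) z)).continuousAt.tendsto
      rw [h3] at h4
      exact (VPull_327.tendsto_symm z).comp h4
    refine (analyticAt_const (v := (0 : ℂ))).congr ?_
    filter_upwards [h2.eventually h1] with x hx
    exact (h0 _ hx).symm

end tower

end Crest.Agent.R276.FibT_793
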