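import Mathlib
import Crest.Agent.R276.FinC_39

/-!
# R276 leaf FIN, part D (helper39): the group preserving `Φ` is finite modulo scalars
-/

namespace Crest.Agent.R276.FinD_39

open Filter Topology Matrix Complex ComplexConjugate Metric
open Crest.Agent.R276.FinA_39 Crest.Agent.R276.FinB_39 Crest.Agent.R276.FinC_39

variable {V : Type*} [NormedAddCommGroup V] [NormedSpace ℂ V] [FiniteDimensional ℂ V]
variable {p : ℝ} {Φ : V → ℝ} {b : ℕ} {Q : V → ℂ}

/-- the maps preserving `Φ` -/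
def Pres (Φ : V → ℝ) : Set (V →L[ℂ] V) := {g | ∀ σ, Φ (g σ) = Φ σ}

theorem Pres.mul {g h : V →L[ℂ] V} (hg : g ∈ Pres Φ) (hh : h ∈ Pres Φ) : g * h ∈ Pres Φ := by
  intro σ
  show Φ (g (h σ)) = Φ σ
  rw [hg, hh]

theorem Pres.pow {g : V →L[ℂ] V} (hg : g ∈ Pres Φ) (n : ℕ) : g ^ n ∈ Pres Φ := by
  induction n with
  | zero => intro σ; simp
  | succ n ih => rw [pow_succ]; exact Pres.mul ih hg

theorem Pres.smul (hF : FinNorm p Φ) {g : V →L[ℂ] V} (hg : g ∈ Pres Φ) {c : ℂ} (hc : ‖c‖ = 1) :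
    c • g ∈ Pres Φ := by
  intro σ
  show Φ (c • g σ) = Φ σ
  rw [hF.hom, hc, hg]; simp

theorem Pres.injective (hF : FinNorm p Φ) {g : V →L[ℂ] V} (hg : g ∈ Pres Φ) :
    Function.Injective g := by
  intro x y hxy
  by_contra hne
  have h1 : Φ (g (x - y)) = Φ (x - y) := hg _
  have h2 : Φ (x - y) > 0 := hF.pos _ (sub_ne_zero.2 hne)
  have h3 : g (x - y) = 0 := by rw [map_sub, hxy, sub_self]
  have h4 : Φ (0 : V) = 0 := by
    have := hF.hom 0 0
    simpa [Real.zero_rpow hF.hp.ne'] using this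
  rw [h3, h4] at h1
  linarith

theorem Pres.exists_inv (hF : FinNorm p Φ) {g : V →L[ℂ] V} (hg : g ∈ Pres Φ) :
    ∃ g' ∈ Pres Φ, g' * g = 1 ∧ g * g' = 1 := by
  let e := LinearEquiv.ofInjectiveEndo (g : V →ₗ[ℂ] V) (Pres.injective hF hg)
  let g' : V →L[ℂ] V := LinearMap.toContinuousLinearMap (e.symm : V →ₗ[ℂ] V)
  have h1 : ∀ x, g' (g x) = x := fun x => by
    show e.symm (g x) = x
    exact e.symm_apply_apply x
  have h2 : ∀ x, g (g' x) = x := fun x => by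
    show g (e.symm x) = x
    exact e.apply_symm_apply x
  refine ⟨g', fun σ => ?_, ?_, ?_⟩
  · rw [← hg (g' σ), h2]
  · ext x; exact h1 x
  · ext x; exact h2 x

theorem isClosed_pres (hF : FinNorm p Φ) : IsClosed (Pres Φ) := by
  have : Pres Φ = ⋂ σ, {g : V →L[ℂ] V | Φ (g σ) = Φ σ} := by
    ext g; simp [Pres]
  rw [this]
  refine isClosed_iInter fun σ => isClosed_eq (hF.cont.comp ?_) continuous_const
  fun_prop

/-- comparison with the norm -/
theorem exists_bounds (hF : FinNorm p Φ) : ∃ c C : ℝ, 0 < c ∧ 0 < C ∧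
    ∀ σ : V, c * ‖σ‖ ^ p ≤ Φ σ ∧ Φ σ ≤ C * ‖σ‖ ^ p := by
  have hprop : ProperSpace V := FiniteDimensional.proper ℂ V
  have h0 : Φ (0 : V) = 0 := by
    have := hF.hom 0 0
    simpa [Real.zero_rpow hF.hp.ne'] using this
  rcases subsingleton_or_nontrivial V with hs | hn
  · refine ⟨1, 1, one_pos, one_pos, fun σ => ?_⟩
    rw [Subsingleton.elim σ 0, h0]
    simp [Real.zero_rpow hF.hp.ne']
  have hcomp : IsCompact (sphere (0 : V) 1) := isCompact_sphere 0 1
  have hne : (sphere (0 : V) 1).Nonempty := by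
    letI : NormedSpace ℝ V := NormedSpace.restrictScalars ℝ ℂ V
    exact NormedSpace.sphere_nonempty.2 zero_le_one
  obtain ⟨x1, hx1, hmin⟩ := hcomp.exists_isMinOn hne hF.cont.continuousOn
  obtain ⟨x2, hx2, hmax⟩ := hcomp.exists_isMaxOn hne hF.cont.continuousOn
  have hx1' : x1 ≠ 0 := by
    rintro rfl; simp at hx1
  have hx2' : x2 ≠ 0 := by
    rintro rfl; simp at hx2
  refine ⟨Φ x1, Φ x2, hF.pos _ hx1', hF.pos _ hx2', fun σ => ?_⟩
  rcases eq_or_ne σ 0 with rfl | hσ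
  · rw [h0]; simp [Real.zero_rpow hF.hp.ne']
  have hn0 : 0 < ‖σ‖ := norm_pos_iff.2 hσ
  have hdec : σ = (‖σ‖ : ℂ) • (((‖σ‖ : ℂ)⁻¹) • σ) := by
    rw [smul_smul, mul_inv_cancel₀, one_smul]
    exact_mod_cast hn0.ne'
  have hmem : ((‖σ‖ : ℂ)⁻¹) • σ ∈ sphere (0 : V) 1 := by
    rw [mem_sphere_zero_iff_norm, norm_smul, norm_inv, Complex.norm_real, norm_norm,
      inv_mul_cancel₀ hn0.ne']
  have hval : Φ σ = ‖σ‖ ^ p * Φ (((‖σ‖ : ℂ)⁻¹) • σ) := by
    conv_lhs => rw [hdec, hF.hom, Complex.norm_real, norm_norm]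
  have hpp : 0 ≤ ‖σ‖ ^ p := Real.rpow_nonneg hn0.le _
  constructor
  · rw [hval, mul_comm]; exact mul_le_mul_of_nonneg_left (hmin hmem) hpp
  · rw [hval, mul_comm (Φ x2)]; exact mul_le_mul_of_nonneg_left (hmax hmem) hpp

theorem isCompact_pres (hF : FinNorm p Φ) : IsCompact (Pres Φ) := by
  have hfd : FiniteDimensional ℂ (V →L[ℂ] V) := inferInstance
  have hprop : ProperSpace (V →L[ℂ] V) := FiniteDimensional.proper ℂ _
  refine Metric.isCompact_of_isClosed_isBounded (isClosed_pres hF) ?_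
  obtain ⟨c, C, hc, hC, hb⟩ := exists_bounds hF
  rw [Metric.isBounded_iff_subset_closedBall 0]
  refine ⟨(C / c) ^ (1 / p), fun g hg => ?_⟩
  rw [mem_closedBall_zero_iff]
  refine ContinuousLinearMap.opNorm_le_bound _ (by positivity) fun σ => ?_
  have h1 : c * ‖g σ‖ ^ p ≤ C * ‖σ‖ ^ p := (hb (g σ)).1.trans ((hg σ).le.trans (hb σ).2)
  have h2 : ‖g σ‖ ^ p ≤ (C / c) * ‖σ‖ ^ p := by
    rw [div_mul_eq_mul_div, le_div_iff₀ hc]; linarith
  have h3 : (‖g σ‖ ^ p) ^ (1 / p) ≤ ((C / c) * ‖σ‖ ^ p) ^ (1 / p) :=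
    Real.rpow_le_rpow (Real.rpow_nonneg (norm_nonneg _) _) h2 (by have := hF.hp; positivity)
  rw [Real.mul_rpow (by positivity) (Real.rpow_nonneg (norm_nonneg _) _),
    ← Real.rpow_mul (norm_nonneg _), ← Real.rpow_mul (norm_nonneg _),
    mul_one_div_cancel hF.hp.ne', Real.rpow_one, Real.rpow_one] at h3
  exact h3

theorem ne_zero_of_mem [Nontrivial V] (hF : FinNorm p Φ) {g : V →L[ℂ] V} (hg : g ∈ Pres Φ)
    {c : ℂ} {h : V →L[ℂ] V} (hgc : g = c • h) : c ≠ 0 := by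
  rintro rfl
  obtain ⟨x, hx⟩ := exists_ne (0 : V)
  have h1 : g x = g 0 := by rw [hgc]; simp
  exact hx (Pres.injective hF hg h1)

/-- step (i): elements near `1` -/
theorem exists_near_one [Nontrivial V] (hF : FinNorm p Φ)
    (hinf : ¬ ∃ S : Finset (V →L[ℂ] V), ∀ g ∈ Pres Φ, ∃ s ∈ S, ∃ c : ℂ, g = c • s)
    {ε : ℝ} (hε : 0 < ε) : ∃ h ∈ Pres Φ, ‖h - 1‖ < ε ∧ ∀ c : ℂ, h ≠ c • 1 := by
  classical
  push Not at hinf
  obtain ⟨G, hG, hr⟩ := exists_seq_of_forall_finset_exists (fun g : V →L[ℂ] V => g ∈ Pres Φ)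
    (fun g h => ∀ c : ℂ, h ≠ c • g) (fun s _ => by
      obtain ⟨y, hy, hy'⟩ := hinf s
      exact ⟨y, hy, fun x hx c => hy' x hx c⟩)
  obtain ⟨g, hg, φ, hφ, hlim⟩ := (isCompact_pres hF).tendsto_subseq hG
  obtain ⟨g', hg', h1, h2⟩ := Pres.exists_inv hF hg
  have hlim' : Tendsto (fun n => g' * G (φ n)) atTop (𝓝 1) := by
    rw [← h1]
    exact hlim.const_mul g'
  have hev : ∀ᶠ n in atTop, ‖g' * G (φ n) - 1‖ < ε := by
    have := Metric.tendsto_nhds.1 hlim' ε hε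
    simpa [dist_eq_norm] using this
  obtain ⟨N, hN⟩ := eventually_atTop.1 hev
  by_contra hcon
  push Not at hcon
  obtain ⟨c, hc⟩ := hcon _ (Pres.mul hg' (hG (φ N))) (hN N le_rfl)
  obtain ⟨c', hc'⟩ := hcon _ (Pres.mul hg' (hG (φ (N + 1)))) (hN (N + 1) (Nat.le_succ N))
  have e1 : G (φ N) = c • g := by
    have : g * (g' * G (φ N)) = g * (c • (1 : V →L[ℂ] V)) := by rw [hc]
    rw [← mul_assoc, h2, one_mul, mul_smul_comm, mul_one] at this
    exact this
  have e2 : G (φ (N + 1)) = c' • g := by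
    have : g * (g' * G (φ (N + 1))) = g * (c' • (1 : V →L[ℂ] V)) := by rw [hc']
    rw [← mul_assoc, h2, one_mul, mul_smul_comm, mul_one] at this
    exact this
  have hc0 : c ≠ 0 := ne_zero_of_mem hF (hG (φ N)) e1
  refine hr (φ N) (φ (N + 1)) (hφ (Nat.lt_succ_self N)) (c' * c⁻¹) ?_
  rw [e2, e1, smul_smul, mul_assoc, inv_mul_cancel₀ hc0, mul_one]

/-- step (ii): logarithms -/
theorem exists_log [Nontrivial V] (hF : FinNorm p Φ)
    (hinf : ¬ ∃ S : Finset (V →L[ℂ] V), ∀ g ∈ Pres Φ, ∃ s ∈ S, ∃ c : ℂ, g = c • s)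
    {δ : ℝ} (hδ : 0 < δ) : ∃ X : V →L[ℂ] V, ‖X‖ < δ ∧ NormedSpace.exp X ∈ Pres Φ ∧
      ∀ c : ℂ, NormedSpace.exp X ≠ c • 1 := by
  have hcomp := FiniteDimensional.complete ℂ V
  have hst : HasStrictFDerivAt (NormedSpace.exp : (V →L[ℂ] V) → (V →L[ℂ] V))
      ((ContinuousLinearEquiv.refl ℂ (V →L[ℂ] V) : (V →L[ℂ] V) →L[ℂ] (V →L[ℂ] V))) 0 :=
    hasStrictFDerivAt_exp_zero (𝕂 := ℂ) (𝔸 := V →L[ℂ] V)
  have hmap := hst.map_nhds_eq_of_equiv
  rw [NormedSpace.exp_zero] at hmap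
  have hball : NormedSpace.exp '' (ball (0 : V →L[ℂ] V) δ) ∈ 𝓝 (1 : V →L[ℂ] V) := by
    rw [← hmap]
    exact image_mem_map (ball_mem_nhds _ hδ)
  obtain ⟨ε, hε, hsub⟩ := Metric.mem_nhds_iff.1 hball
  obtain ⟨h, hh, hh1, hh2⟩ := exists_near_one hF hinf hε
  obtain ⟨X, hX, hXh⟩ := hsub (show h ∈ ball 1 ε by rwa [mem_ball, dist_eq_norm])
  refine ⟨X, by simpa using hX, ?_, ?_⟩
  · rw [hXh]; exact hh
  · rw [hXh]; exact hh2

theorem eigen_re_zero (hF : FinNorm p Φ) {X : V →L[ℂ] V} (hX : NormedSpace.exp X ∈ Pres Φ)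
    {μ : ℂ} {v : V} (hv : v ≠ 0) (he : X v = μ • v) : μ.re = 0 := by
  have h1 := hX v
  rw [exp_apply_of_eigen he, hF.hom] at h1
  have h2 : ‖Complex.exp μ‖ ^ p = 1 := by
    have := hF.pos v hv
    have h3 : (‖Complex.exp μ‖ ^ p - 1) * Φ v = 0 := by linarith
    rcases mul_eq_zero.1 h3 with h | h
    · linarith
    · linarith
  rw [Complex.norm_exp, ← Real.exp_mul] at h2
  have h3 : μ.re * p = 0 := Real.exp_eq_one_iff _ |>.1 h2
  rcases mul_eq_zero.1 h3 with h | h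
  · exact h
  · exact absurd h hF.hp.ne'

theorem exp_add' {x y : V →L[ℂ] V} (h : Commute x y) :
    NormedSpace.exp (x + y) = NormedSpace.exp x * NormedSpace.exp y := by
  have := FiniteDimensional.complete ℂ V
  exact NormedSpace.exp_add_of_commute_of_mem_ball (𝕂 := ℂ) (𝔸 := V →L[ℂ] V) h
    ((NormedSpace.expSeries_radius_eq_top ℂ (V →L[ℂ] V)).symm ▸ edist_lt_top _ _)
    ((NormedSpace.expSeries_radius_eq_top ℂ (V →L[ℂ] V)).symm ▸ edist_lt_top _ _)

theorem exp_smul_one (μ : ℂ) :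
    NormedSpace.exp (μ • (1 : V →L[ℂ] V)) = Complex.exp μ • (1 : V →L[ℂ] V) := by
  ext v
  rw [exp_apply_of_eigen (μ := μ) (v := v) (by simp)]
  simp

theorem exp_nsmul' (n : ℕ) (x : V →L[ℂ] V) :
    NormedSpace.exp ((n : ℂ) • x) = NormedSpace.exp x ^ n := by
  induction n with
  | zero => simp
  | succ n ih =>
    have hc : Commute ((n : ℂ) • x) x := (Commute.refl x).smul_left _
    rw [Nat.cast_succ, add_smul, one_smul, exp_add' hc, ih, pow_succ]

/-- step (iii): subtract an eigenvalue -/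
theorem exists_log_ker [Nontrivial V] (hF : FinNorm p Φ)
    (hinf : ¬ ∃ S : Finset (V →L[ℂ] V), ∀ g ∈ Pres Φ, ∃ s ∈ S, ∃ c : ℂ, g = c • s)
    {δ : ℝ} (hδ : 0 < δ) : ∃ X : V →L[ℂ] V, X ≠ 0 ∧ ‖X‖ < δ ∧ NormedSpace.exp X ∈ Pres Φ ∧
      ∃ v : V, ‖v‖ = 1 ∧ X v = 0 := by
  obtain ⟨X, hXn, hXe, hXs⟩ := exists_log hF hinf (half_pos hδ)
  obtain ⟨μ, hμ⟩ := Module.End.exists_eigenvalue (X : V →ₗ[ℂ] V)
  obtain ⟨v, hv⟩ := hμ.exists_hasEigenvector
  have hv0 : v ≠ 0 := hv.2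
  have hve : X v = μ • v := hv.apply_eq_smul
  have hre : μ.re = 0 := eigen_re_zero hF hXe hv0 hve
  have hμn : ‖μ‖ ≤ ‖X‖ := by
    have := X.le_opNorm v
    rw [hve, norm_smul] at this
    exact le_of_mul_le_mul_right this (norm_pos_iff.2 hv0)
  have h1n : ‖(1 : V →L[ℂ] V)‖ ≤ 1 := ContinuousLinearMap.norm_id_le
  have hexp : NormedSpace.exp (X - μ • 1) = Complex.exp (-μ) • NormedSpace.exp X := by
    have hc : Commute X ((-μ) • (1 : V →L[ℂ] V)) := (Commute.one_right X).smul_right _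
    rw [sub_eq_add_neg, ← neg_smul, exp_add' hc, exp_smul_one, mul_smul_comm, mul_one]
  refine ⟨X - μ • 1, ?_, ?_, ?_, (‖v‖⁻¹ : ℂ) • v, ?_, ?_⟩
  · intro h
    have hX1 : X = μ • 1 := sub_eq_zero.1 h
    exact hXs (Complex.exp μ) (by rw [hX1, exp_smul_one])
  · calc ‖X - μ • 1‖ ≤ ‖X‖ + ‖μ • (1 : V →L[ℂ] V)‖ := norm_sub_le _ _
      _ ≤ ‖X‖ + ‖μ‖ * 1 := by
          rw [norm_smul]; gcongr
      _ ≤ ‖X‖ + ‖X‖ := by rw [mul_one]; gcongr
      _ < δ := by linarith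
  · rw [hexp]
    refine Pres.smul hF hXe ?_
    rw [Complex.norm_exp]; simp [hre]
  · rw [norm_smul, norm_inv, Complex.norm_real, norm_norm, inv_mul_cancel₀ (norm_ne_zero_iff.2 hv0)]
  · rw [map_smul]
    have : (X - μ • 1) v = 0 := by
      rw [_root_.sub_apply, hve]; simp
    rw [this, smul_zero]

/-- step (iv): a one-parameter group -/
theorem exists_oneParam [Nontrivial V] (hF : FinNorm p Φ)
    (hinf : ¬ ∃ S : Finset (V →L[ℂ] V), ∀ g ∈ Pres Φ, ∃ s ∈ S, ∃ c : ℂ, g = c • s) :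
    ∃ C : V →L[ℂ] V, C ≠ 0 ∧ (∃ v : V, v ≠ 0 ∧ C v = 0) ∧
      ∀ t : ℝ, NormedSpace.exp ((t : ℂ) • C) ∈ Pres Φ := by
  have hprop : ProperSpace V := FiniteDimensional.proper ℂ V
  have hprop' : ProperSpace (V →L[ℂ] V) := FiniteDimensional.proper ℂ _
  have hcomp := FiniteDimensional.complete ℂ V
  have hexpc : Continuous (NormedSpace.exp : (V →L[ℂ] V) → (V →L[ℂ] V)) := by
    have := NormedSpace.exp_analytic (𝕂 := ℂ) (𝔸 := V →L[ℂ] V)
    exact continuous_iff_continuousAt.2 fun x => (this x).continuousAt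
  have hn : ∀ n : ℕ, ∃ X : V →L[ℂ] V, X ≠ 0 ∧ ‖X‖ < 1 / ((n : ℝ) + 1) ∧
      NormedSpace.exp X ∈ Pres Φ ∧ ∃ v : V, ‖v‖ = 1 ∧ X v = 0 := fun n =>
    exists_log_ker hF hinf (by positivity)
  choose X hX0 hXn hXe v hv1 hXv using hn
  have hXpos : ∀ n, 0 < ‖X n‖ := fun n => norm_pos_iff.2 (hX0 n)
  have hcpt : IsCompact ((sphere (0 : V →L[ℂ] V) 1) ×ˢ (sphere (0 : V) 1)) :=
    (isCompact_sphere _ _).prod (isCompact_sphere _ _)
  obtain ⟨⟨C, w⟩, hCw, φ, hφ, hlim⟩ := hcpt.tendsto_subseq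
    (x := fun n => ((‖X n‖⁻¹ : ℂ) • X n, v n)) (fun n => by
      constructor
      · show ((‖X n‖⁻¹ : ℂ) • X n) ∈ sphere (0 : V →L[ℂ] V) 1
        rw [mem_sphere_zero_iff_norm, norm_smul, norm_inv, Complex.norm_real, norm_norm,
          inv_mul_cancel₀ (hXpos n).ne']
      · show v n ∈ sphere (0 : V) 1
        rw [mem_sphere_zero_iff_norm]; exact hv1 n)
  have hCn : ‖C‖ = 1 := by simpa using hCw.1
  have hwn : ‖w‖ = 1 := by simpa using hCw.2
  have hlimC : Tendsto (fun n => (‖X (φ n)‖⁻¹ : ℂ) • X (φ n)) atTop (𝓝 C) :=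
    (continuous_fst.tendsto _).comp hlim
  have hlimw : Tendsto (fun n => v (φ n)) atTop (𝓝 w) :=
    (continuous_snd.tendsto _).comp hlim
  have hX0lim : Tendsto (fun n => ‖X (φ n)‖) atTop (𝓝 0) := by
    refine squeeze_zero (fun n => norm_nonneg _) (fun n => (hXn (φ n)).le) ?_
    exact tendsto_one_div_add_atTop_nhds_zero_nat.comp hφ.tendsto_atTop
  have hpos : ∀ t : ℝ, 0 ≤ t → NormedSpace.exp ((t : ℂ) • C) ∈ Pres Φ := by
    intro t ht
    set k : ℕ → ℕ := fun n => ⌊t / ‖X (φ n)‖⌋₊ with hk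
    have hkl : Tendsto (fun n => (k n : ℝ) * ‖X (φ n)‖) atTop (𝓝 t) := by
      have h1 : ∀ n, (k n : ℝ) * ‖X (φ n)‖ ≤ t := by
        intro n
        have := Nat.floor_le (div_nonneg ht (norm_nonneg (X (φ n))))
        rwa [le_div_iff₀ (hXpos _)] at this
      have h2 : ∀ n, t - ‖X (φ n)‖ ≤ (k n : ℝ) * ‖X (φ n)‖ := by
        intro n
        have := Nat.lt_floor_add_one (t / ‖X (φ n)‖)
        rw [div_lt_iff₀ (hXpos _)] at this
        have : t < (k n : ℝ) * ‖X (φ n)‖ + ‖X (φ n)‖ := by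
          rw [hk]; linarith
        linarith
      refine tendsto_of_tendsto_of_tendsto_of_le_of_le (g := fun n => t - ‖X (φ n)‖) ?_
        tendsto_const_nhds h2 h1
      simpa using hX0lim.const_sub t
    have hlimk : Tendsto (fun n => ((k n : ℂ)) • X (φ n)) atTop (𝓝 ((t : ℂ) • C)) := by
      have h3 : Tendsto (fun n => (((k n : ℝ) * ‖X (φ n)‖ : ℝ) : ℂ) •
          ((‖X (φ n)‖⁻¹ : ℂ) • X (φ n))) atTop (𝓝 ((t : ℂ) • C)) :=
        ((Complex.continuous_ofReal.tendsto _).comp hkl).smul hlimC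
      refine h3.congr fun n => ?_
      rw [smul_smul]
      congr 1
      have : (‖X (φ n)‖ : ℂ) ≠ 0 := by exact_mod_cast (hXpos _).ne'
      push_cast
      field_simp
    have hmem : ∀ n, NormedSpace.exp ((k n : ℂ) • X (φ n)) ∈ Pres Φ := by
      intro n
      rw [exp_nsmul']
      exact Pres.pow (hXe _) _
    exact (isClosed_pres hF).mem_of_tendsto ((hexpc.tendsto _).comp hlimk)
      (Eventually.of_forall hmem)
  refine ⟨C, fun h => by simp [h] at hCn, ⟨w, fun h => by simp [h] at hwn, ?_⟩, fun t => ?_⟩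
  · have h1 : Tendsto (fun n => ((‖X (φ n)‖⁻¹ : ℂ) • X (φ n)) (v (φ n))) atTop (𝓝 (C w)) :=
      (isBoundedBilinearMap_apply.continuous.tendsto (C, w)).comp (hlimC.prodMk_nhds hlimw)
    have h2 : (fun n => ((‖X (φ n)‖⁻¹ : ℂ) • X (φ n)) (v (φ n))) = fun _ => (0 : V) := by
      funext n
      show (‖X (φ n)‖⁻¹ : ℂ) • (X (φ n) (v (φ n))) = 0
      rw [hXv, smul_zero]
    rw [h2] at h1
    exact tendsto_nhds_unique h1 tendsto_const_nhds
  · rcases le_total 0 t with ht | ht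
    · exact hpos t ht
    · intro σ
      have h1 := hpos (-t) (by linarith) (NormedSpace.exp ((t : ℂ) • C) σ)
      have h2 : NormedSpace.exp (((-t : ℝ) : ℂ) • C) * NormedSpace.exp ((t : ℂ) • C) = 1 := by
        have hc : Commute (((-t : ℝ) : ℂ) • C) ((t : ℂ) • C) :=
          ((Commute.refl C).smul_left _).smul_right _
        rw [← exp_add' hc, ← add_smul]
        simp
      have h3 : NormedSpace.exp (((-t : ℝ) : ℂ) • C) (NormedSpace.exp ((t : ℂ) • C) σ) = σ := by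
        have := congrArg (fun f : V →L[ℂ] V => f σ) h2
        simpa using this
      rw [h3] at h1
      exact h1.symm

theorem exp_apply_of_sq_zero {c : V →L[ℂ] V} {v : V} (h : c (c v) = 0) :
    NormedSpace.exp c v = v + c v := by
  have hpow : ∀ n : ℕ, (c ^ (n + 2)) v = 0 := by
    intro n
    induction n with
    | zero => simpa [pow_two] using h
    | succ n ih =>
      rw [show n + 1 + 2 = (n + 2) + 1 by ring, pow_succ']
      show c ((c ^ (n + 2)) v) = 0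
      rw [ih, map_zero]
  have h1 := (NormedSpace.exp_series_hasSum_exp' (𝕂 := ℂ) c).mapL
    (ContinuousLinearMap.apply ℂ V v)
  have h2 : HasSum (fun n : ℕ => (ContinuousLinearMap.apply ℂ V v) ((n.factorial⁻¹ : ℂ) • c ^ n))
      (∑ n ∈ Finset.range 2,
        (ContinuousLinearMap.apply ℂ V v) ((n.factorial⁻¹ : ℂ) • c ^ n)) := by
    refine hasSum_sum_of_ne_finset_zero fun n hn => ?_
    have hn2 : 2 ≤ n := by
      simp only [Finset.mem_range, not_lt] at hn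
      exact hn
    obtain ⟨k, rfl⟩ : ∃ k, n = k + 2 := ⟨n - 2, by omega⟩
    simp [hpow]
  have := h1.unique h2
  simpa [Finset.sum_range_succ] using this

/-- step (v) -/
theorem false_of_oneParam (hF : FinNorm p Φ) (hQ : Differentiable ℂ Q) (hne : ∃ σ, Q σ ≠ 0)
    (hL : LocRank b Φ Q) {C : V →L[ℂ] V} (hC0 : C ≠ 0) {a : V} (ha : a ≠ 0) (hCa : C a = 0)
    (hC : ∀ t : ℝ, NormedSpace.exp ((t : ℂ) • C) ∈ Pres Φ) : False := by
  have himag : ∀ (μ : ℂ) (v : V), v ≠ 0 → C v = μ • v → μ.re = 0 := by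
    intro μ v hv he
    have := hC 1
    simp only [ofReal_one, one_smul] at this
    exact eigen_re_zero hF this hv he
  by_cases hex : ∃ (μ : ℂ) (v : V), μ ≠ 0 ∧ v ≠ 0 ∧ C v = μ • v
  · obtain ⟨μ, v, hμ, hv, he⟩ := hex
    have hre := himag μ v hv he
    have hμI : μ = I * (μ.im : ℝ) := by
      apply Complex.ext <;> simp [hre]
    have him : μ.im ≠ 0 := fun h => hμ (by rw [hμI, h]; simp)
    have hB : ∀ (θ : ℝ) σ, Φ (NormedSpace.exp ((θ : ℂ) • C) σ) = Φ σ := fun θ σ => hC θ σ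
    have hCa' : C a = (I * ((0 : ℝ) : ℂ)) • a := by simp [hCa]
    have he' : C v = (I * (μ.im : ℝ)) • v := by rw [← hμI]; exact he
    rcases lt_or_gt_of_ne him with hlt | hgt
    · exact no_two_eigenvalues hF hQ hne hL C hB hlt hv ha he' hCa'
    · exact no_two_eigenvalues hF hQ hne hL C hB hgt ha hv hCa' he'
  · push Not at hex
    -- all generalised eigenvalues vanish
    set f : Module.End ℂ V := (C : V →ₗ[ℂ] V) with hf
    have htop := Module.End.iSup_maxGenEigenspace_eq_top f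
    have hbot : ∀ μ : ℂ, μ ≠ 0 → f.maxGenEigenspace μ = ⊥ := by
      intro μ hμ
      rw [Submodule.eq_bot_iff]
      intro x hx
      by_contra hx0
      rw [Module.End.mem_maxGenEigenspace] at hx
      classical
      obtain ⟨k, hk, hkmin⟩ : ∃ k, ((f - μ • (1 : Module.End ℂ V)) ^ k) x = 0 ∧
          ∀ j < k, ((f - μ • (1 : Module.End ℂ V)) ^ j) x ≠ 0 :=
        ⟨Nat.find hx, Nat.find_spec hx, fun j hj => Nat.find_min hx hj⟩
      have hk0 : k ≠ 0 := by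
        rintro rfl
        exact hx0 (by simpa using hk)
      obtain ⟨j, rfl⟩ : ∃ j, k = j + 1 := ⟨k - 1, by omega⟩
      set y := ((f - μ • (1 : Module.End ℂ V)) ^ j) x with hy
      have hy0 : y ≠ 0 := hkmin j (Nat.lt_succ_self j)
      have hy1 : (f - μ • (1 : Module.End ℂ V)) y = 0 := by
        rw [pow_succ'] at hk
        exact hk
      have hy2 : C y = μ • y := by
        have : f y - μ • y = 0 := by simpa using hy1
        exact sub_eq_zero.1 this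
      exact hex μ y hμ hy0 hy2
    have hall : f.maxGenEigenspace 0 = ⊤ := by
      rw [← htop]
      refine le_antisymm (le_iSup (fun μ => f.maxGenEigenspace μ) 0) (iSup_le fun μ => ?_)
      rcases eq_or_ne μ 0 with rfl | h
      · exact le_rfl
      · rw [hbot μ h]; exact bot_le
    obtain ⟨w, hw⟩ : ∃ w, C w ≠ 0 := by
      by_contra h
      push Not at h
      exact hC0 (by ext x; simpa using h x)
    have hwn : ∃ k : ℕ, (f ^ k) w = 0 := by
      have : w ∈ f.maxGenEigenspace 0 := by rw [hall]; trivial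
      rw [Module.End.mem_maxGenEigenspace] at this
      simpa using this
    classical
    obtain ⟨k, hk, hkmin⟩ : ∃ k, (f ^ k) w = 0 ∧ ∀ j < k, (f ^ j) w ≠ 0 :=
      ⟨Nat.find hwn, Nat.find_spec hwn, fun j hj => Nat.find_min hwn hj⟩
    have hk2 : 2 ≤ k := by
      by_contra hlt
      push Not at hlt
      interval_cases k
      · apply hw; rw [show w = 0 by simpa using hk]; simp
      · have h1 : f w = 0 := by simpa using hk
        exact hw h1
    obtain ⟨j, rfl⟩ : ∃ j, k = j + 2 := ⟨k - 2, by omega⟩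
    set v := (f ^ j) w with hv
    have hv1 : C v ≠ 0 := by
      have := hkmin (j + 1) (by omega)
      rw [pow_succ'] at this
      exact this
    have hv2 : C (C v) = 0 := by
      have h1 := hk
      rw [pow_succ', pow_succ'] at h1
      exact h1
    obtain ⟨c, K, hc, hK, hb⟩ := exists_bounds hF
    have hconst : ∀ t : ℝ, c * ‖v + (t : ℂ) • C v‖ ^ p ≤ Φ v := by
      intro t
      have h1 := hC t v
      rw [exp_apply_of_sq_zero (c := (t : ℂ) • C) (v := v) (by simp [hv2])] at h1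
      rw [← h1]
      exact (hb _).1
    have hCv : 0 < ‖C v‖ := norm_pos_iff.2 hv1
    -- choose `t` large
    have hlim : Tendsto (fun t : ℝ => c * (t * ‖C v‖ - ‖v‖) ^ p) atTop atTop := by
      refine Tendsto.const_mul_atTop hc ?_
      refine (tendsto_rpow_atTop hF.hp).comp ?_
      exact tendsto_atTop_add_const_right _ _ (tendsto_id.atTop_mul_const hCv)
    have hev := (hlim.eventually (eventually_gt_atTop (Φ v))).and
      (eventually_gt_atTop (‖v‖ / ‖C v‖))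
    obtain ⟨t, ht1, ht2⟩ := hev.exists
    have ht0 : 0 < t := lt_of_le_of_lt (by positivity) ht2
    have h1 : t * ‖C v‖ - ‖v‖ ≤ ‖v + (t : ℂ) • C v‖ := by
      have := norm_sub_norm_le ((t : ℂ) • C v) (-v)
      rw [norm_neg, norm_smul, Complex.norm_real, Real.norm_eq_abs, abs_of_pos ht0,
        sub_neg_eq_add, add_comm] at this
      exact this
    have h0 : 0 ≤ t * ‖C v‖ - ‖v‖ := by
      rw [div_lt_iff₀ hCv] at ht2; linarith
    have h2 : (t * ‖C v‖ - ‖v‖) ^ p ≤ ‖v + (t : ℂ) • C v‖ ^ p :=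
      Real.rpow_le_rpow h0 h1 hF.hp.le
    have h3 := hconst t
    have h4 : c * (t * ‖C v‖ - ‖v‖) ^ p ≤ c * ‖v + (t : ℂ) • C v‖ ^ p :=
      mul_le_mul_of_nonneg_left h2 hc.le
    linarith

/-- **FIN**: the maps preserving `Φ` are finite in number modulo scalars. -/
theorem finite_mod_scalars (hF : FinNorm p Φ) (hQ : Differentiable ℂ Q) (hne : ∃ σ, Q σ ≠ 0)
    (hL : LocRank b Φ Q) :
    ∃ S : Finset (V →L[ℂ] V), ∀ g ∈ Pres Φ, ∃ s ∈ S, ∃ c : ℂ, g = c • s := by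
  rcases subsingleton_or_nontrivial V with hs | hn
  · refine ⟨{0}, fun g _ => ⟨0, Finset.mem_singleton_self _, 0, ?_⟩⟩
    ext x; exact Subsingleton.elim _ _
  by_contra hinf
  obtain ⟨C, hC0, ⟨a, ha, hCa⟩, hC⟩ := exists_oneParam hF hinf
  exact false_of_oneParam hF hQ hne hL hC0 ha hCa hC

end Crest.Agent.R276.FinD_39
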