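import Mathlib
import Crest.Agent.R276.FinD_39

/-!
# R276 leaf FIN, part E (helper39): the integral `p`-norm, and finite groups

* `finNorm_of_sub_hom_strict`: continuity and positivity are automatic;
* `finNorm_integral`: `Φ σ = ∫ ‖ev σ x‖ ^ p ∂μ`, `0 < p ≤ 1`, is a `FinNorm`;
* `finite_of_det`: a set of `Φ`-preserving maps whose determinants are `k`-th roots of unity
  is finite.
-/

namespace Crest.Agent.R276.FinE_39

open Filter Topology Matrix Complex ComplexConjugate Metric MeasureTheory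
open Crest.Agent.R276.FinA_39 Crest.Agent.R276.FinB_39 Crest.Agent.R276.FinC_39
open Crest.Agent.R276.FinD_39

theorem rpow_add_lt {s u v : ℝ} (hs : s < 1) (hu : 0 < u) (hv : 0 < v) :
    (u + v) ^ s < u ^ s + v ^ s := by
  have huv : 0 < u + v := by positivity
  have h1 : (u + v) ^ s = u * (u + v) ^ (s - 1) + v * (u + v) ^ (s - 1) := by
    rw [← add_mul, Real.rpow_sub_one huv.ne']
    field_simp
  have h2 : (u + v) ^ (s - 1) < u ^ (s - 1) :=
    (Real.rpow_lt_rpow_iff_of_neg huv hu (by linarith)).2 (by linarith)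
  have h3 : (u + v) ^ (s - 1) < v ^ (s - 1) :=
    (Real.rpow_lt_rpow_iff_of_neg huv hv (by linarith)).2 (by linarith)
  have h4 : u * u ^ (s - 1) = u ^ s := by
    rw [Real.rpow_sub_one hu.ne']; field_simp
  have h5 : v * v ^ (s - 1) = v ^ s := by
    rw [Real.rpow_sub_one hv.ne']; field_simp
  have h6 := mul_lt_mul_of_pos_left h2 hu
  have h7 := mul_lt_mul_of_pos_left h3 hv
  rw [h1]; linarith

theorem rpow_add_le {s u v : ℝ} (hs0 : 0 < s) (hs : s ≤ 1) (hu : 0 ≤ u) (hv : 0 ≤ v) :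
    (u + v) ^ s ≤ u ^ s + v ^ s := by
  rcases hu.eq_or_lt with rfl | hu'
  · simp [Real.zero_rpow hs0.ne']
  rcases hv.eq_or_lt with rfl | hv'
  · simp [Real.zero_rpow hs0.ne']
  rcases hs.eq_or_lt with rfl | hs'
  · simp
  · exact (rpow_add_lt hs' hu' hv').le

/-- pointwise strict inequality, `0 < p < 2` -/
theorem pointwise_strict {p : ℝ} (hp : 0 < p) (hp2 : p < 2) {x y : ℂ} (hx : x ≠ 0) (hy : y ≠ 0) :
    ‖x + y‖ ^ p + ‖x - y‖ ^ p < 2 * (‖x‖ ^ p + ‖y‖ ^ p) := by
  set s := p / 2 with hs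
  have hs0 : 0 < s := by rw [hs]; linarith
  have hs1 : s < 1 := by rw [hs]; linarith
  have hpow : ∀ z : ℂ, ‖z‖ ^ p = (‖z‖ ^ 2) ^ s := by
    intro z
    rw [← Real.rpow_natCast, ← Real.rpow_mul (norm_nonneg _)]
    congr 1
    rw [hs]; push_cast; ring
  have hpar : ‖x + y‖ ^ 2 + ‖x - y‖ ^ 2 = 2 * (‖x‖ ^ 2 + ‖y‖ ^ 2) := by
    have := parallelogram_law_with_norm ℝ x y
    nlinarith [this]
  have hconc := Real.concaveOn_rpow hs0.le hs1.le
  have h1 := hconc.2 (show ‖x + y‖ ^ 2 ∈ Set.Ici (0 : ℝ) from sq_nonneg ‖x + y‖)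
    (show ‖x - y‖ ^ 2 ∈ Set.Ici (0 : ℝ) from sq_nonneg ‖x - y‖)
    (show (0 : ℝ) ≤ 1 / 2 by norm_num) (show (0 : ℝ) ≤ 1 / 2 by norm_num) (by norm_num)
  simp only [smul_eq_mul] at h1
  have h2 : (1 : ℝ) / 2 * ‖x + y‖ ^ 2 + 1 / 2 * ‖x - y‖ ^ 2 = ‖x‖ ^ 2 + ‖y‖ ^ 2 := by linarith
  rw [h2] at h1
  have h3 := rpow_add_lt hs1 (u := ‖x‖ ^ 2) (v := ‖y‖ ^ 2) (by positivity) (by positivity)
  rw [hpow, hpow (x - y), hpow x, hpow y]
  linarith

section abstract

variable {V : Type*} [NormedAddCommGroup V] [NormedSpace ℂ V] [FiniteDimensional ℂ V]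

theorem finNorm_of_sub_hom_strict {p : ℝ} {Φ : V → ℝ} (hp : 0 < p) (hp2 : p < 2)
    (hnn : ∀ a, 0 ≤ Φ a)
    (hom : ∀ (c : ℂ) σ, Φ (c • σ) = ‖c‖ ^ p * Φ σ) (sub : ∀ a b, Φ (a + b) ≤ Φ a + Φ b)
    (strict : ∀ a b, a ≠ 0 → b ≠ 0 → Φ (a + b) + Φ (a - b) < 2 * (Φ a + Φ b)) :
    FinNorm p Φ := by
  have h0 : Φ (0 : V) = 0 := by
    have := hom 0 0
    simpa [Real.zero_rpow hp.ne'] using this
  have hneg : ∀ a : V, Φ (-a) = Φ a := by
    intro a
    have := hom (-1) a
    simpa using this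
  refine ⟨hp, ?_, hom, sub, strict, ?_⟩
  · -- continuity
    have hsum : ∀ (ι : Type) (s : Finset ι) (f : ι → V), Φ (∑ i ∈ s, f i) ≤ ∑ i ∈ s, Φ (f i) := by
      intro ι s f
      classical
      induction s using Finset.induction_on with
      | empty => simp [h0]
      | insert a s ha ih =>
        rw [Finset.sum_insert ha, Finset.sum_insert ha]
        exact (sub _ _).trans (by linarith)
    set B := Module.finBasis ℂ V with hB
    have hbd : ∀ σ, Φ σ ≤ ∑ i, ‖B.repr σ i‖ ^ p * Φ (B i) := by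
      intro σ
      have h1 := hsum _ Finset.univ (fun i => B.repr σ i • B i)
      rw [B.sum_repr] at h1
      refine h1.trans (le_of_eq ?_)
      exact Finset.sum_congr rfl fun i _ => hom _ _
    have hlim : Tendsto Φ (𝓝 0) (𝓝 0) := by
      refine squeeze_zero hnn hbd ?_
      have hz : (0 : ℝ) = ∑ i, ‖B.repr 0 i‖ ^ p * Φ (B i) := by
        simp [Real.zero_rpow hp.ne']
      rw [hz]
      refine tendsto_finsetSum _ fun i _ => Tendsto.mul_const _ ?_
      have hc : Continuous fun σ : V => B.repr σ i := by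
        have : Continuous (B.coord i) := LinearMap.continuous_of_finiteDimensional _
        exact this
      have hc' : Continuous fun σ : V => ‖B.repr σ i‖ ^ p :=
        hc.norm.rpow_const fun _ => Or.inr hp.le
      exact hc'.tendsto 0
    rw [continuous_iff_continuousAt]
    intro a
    rw [ContinuousAt, tendsto_iff_dist_tendsto_zero]
    have hle : ∀ x, dist (Φ x) (Φ a) ≤ Φ (x - a) := by
      intro x
      rw [Real.dist_eq, abs_le]
      constructor
      · have := sub (-(x - a)) x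
        rw [hneg, show -(x - a) + x = a by abel] at this
        linarith
      · have := sub (x - a) a
        rw [sub_add_cancel] at this
        linarith
    refine squeeze_zero (fun _ => dist_nonneg) hle ?_
    have : Tendsto (fun x => x - a) (𝓝 a) (𝓝 0) := by
      have h := (continuous_sub_right a).tendsto a
      rwa [sub_self] at h
    exact hlim.comp this
  · intro a ha
    have h1 := strict a a ha ha
    rw [sub_self, h0, ← two_smul ℂ a, hom] at h1
    by_contra hneg'
    have h2 : Φ a = 0 := le_antisymm (not_lt.1 hneg') (hnn a)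
    rw [h2] at h1
    simp at h1

variable {X : Type*} [MeasurableSpace X] {μ : Measure X}

/-- The integral `p`-norm. -/
theorem finNorm_integral {p : ℝ} (hp : 0 < p) (hp1 : p ≤ 1) (ev : V →ₗ[ℂ] (X → ℂ))
    (hi : ∀ σ, Integrable (fun x => ‖ev σ x‖ ^ p) μ)
    (hne : ∀ σ, σ ≠ 0 → ∀ᵐ x ∂μ, ev σ x ≠ 0) (hμ : μ ≠ 0) :
    FinNorm p (fun σ => ∫ x, ‖ev σ x‖ ^ p ∂μ) := by
  refine finNorm_of_sub_hom_strict hp (by linarith) (fun a => ?_) (fun c σ => ?_)
    (fun a b => ?_) (fun a b ha hb => ?_)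
  · exact integral_nonneg fun x => Real.rpow_nonneg (norm_nonneg _) _
  · rw [← integral_const_mul]
    refine integral_congr_ae (Eventually.of_forall fun x => ?_)
    simp [norm_mul, Real.mul_rpow]
  · rw [← integral_add (hi a) (hi b)]
    refine integral_mono (hi _) ((hi a).add (hi b)) fun x => ?_
    simp only [map_add, Pi.add_apply]
    exact (Real.rpow_le_rpow (norm_nonneg _) (norm_add_le _ _) hp.le).trans
      (rpow_add_le hp hp1 (norm_nonneg _) (norm_nonneg _))
  · set F1 : X → ℝ := fun x => 2 * (‖ev a x‖ ^ p + ‖ev b x‖ ^ p) with hF1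
    set F2 : X → ℝ := fun x => ‖ev (a + b) x‖ ^ p + ‖ev (a - b) x‖ ^ p with hF2
    have hi1 : Integrable F1 μ := ((hi a).add (hi b)).const_mul 2
    have hi2 : Integrable F2 μ := (hi _).add (hi _)
    have e1 : ∫ x, F1 x ∂μ = 2 * ((∫ x, ‖ev a x‖ ^ p ∂μ) + ∫ x, ‖ev b x‖ ^ p ∂μ) := by
      rw [hF1, integral_const_mul, integral_add (hi a) (hi b)]
    have e2 : ∫ x, F2 x ∂μ = (∫ x, ‖ev (a + b) x‖ ^ p ∂μ) + ∫ x, ‖ev (a - b) x‖ ^ p ∂μ :=
      integral_add (hi _) (hi _)
    have h1 : 0 < ∫ x, (F1 x - F2 x) ∂μ := by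
      have hint : Integrable (fun x => F1 x - F2 x) μ := hi1.sub hi2
      have hpos : ∀ᵐ x ∂μ, 0 < F1 x - F2 x := by
        filter_upwards [hne a ha, hne b hb] with x hxa hxb
        have := pointwise_strict hp (by linarith) hxa hxb
        simp only [hF1, hF2, map_add, map_sub, Pi.add_apply, Pi.sub_apply]
        linarith
      rw [integral_pos_iff_support_of_nonneg_ae (hpos.mono fun x hx => hx.le) hint]
      rw [pos_iff_ne_zero]
      intro h0
      apply hμ
      have : ∀ᵐ x ∂μ, False := by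
        have h2 : ∀ᵐ x ∂μ, x ∉ Function.support (fun x => F1 x - F2 x) := by
          rw [ae_iff]
          have h3 : {x | ¬ x ∉ Function.support (fun x => F1 x - F2 x)} =
              Function.support (fun x => F1 x - F2 x) := by
            ext x; simp
          rw [h3]; exact h0
        filter_upwards [h2, hpos] with x hx hx'
        exact hx (Function.mem_support.2 hx'.ne')
      rw [eventually_false_iff_eq_bot, ae_eq_bot] at this
      exact this
    rw [integral_sub hi1 hi2, e1, e2] at h1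
    linarith

variable {p : ℝ} {Φ : V → ℝ} {b : ℕ} {Q : V → ℂ}

/-- A set of `Φ`-preserving maps with determinants `k`-th roots of unity is finite. -/
theorem finite_of_det (hF : FinNorm p Φ) (hQ : Differentiable ℂ Q) (hne : ∃ σ, Q σ ≠ 0)
    (hL : LocRank b Φ Q) {k : ℕ} (hk : 0 < k) (T : Set (V →L[ℂ] V)) (hT : T ⊆ Pres Φ)
    (hdet : ∀ g ∈ T, LinearMap.det (g : V →ₗ[ℂ] V) ^ k = 1) : T.Finite := by
  classical
  obtain ⟨S, hS⟩ := finite_mod_scalars hF hQ hne hL
  set n := Module.finrank ℂ V with hn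
  rcases Nat.eq_zero_or_pos n with h0 | hpos
  · have : Subsingleton V := Module.finrank_zero_iff.1 h0
    have hsub : Subsingleton (V →L[ℂ] V) := ⟨fun f g => by
      ext x; exact Subsingleton.elim _ _⟩
    exact Set.toFinite T
  -- the possible scalars
  have hscal : ∀ s : V →L[ℂ] V, {c : ℂ | c ^ (n * k) * LinearMap.det (s : V →ₗ[ℂ] V) ^ k = 1}.Finite := by
    intro s
    set d := LinearMap.det (s : V →ₗ[ℂ] V) ^ k with hd
    set P : Polynomial ℂ := Polynomial.C d * Polynomial.X ^ (n * k) - Polynomial.C 1 with hP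
    have hPne : P ≠ 0 := by
      intro h
      have h1 : P.eval 0 = 0 := by rw [h]; simp
      rw [hP] at h1
      have h2 : (0 : ℂ) ^ (n * k) = 0 := zero_pow (Nat.mul_pos hpos hk).ne'
      simp [h2] at h1
    refine (P.roots.toFinset.finite_toSet).subset fun c hc => ?_
    rw [Finset.mem_coe, Multiset.mem_toFinset, Polynomial.mem_roots hPne, Polynomial.IsRoot.def]
    have : c ^ (n * k) * d = 1 := hc
    rw [hP]; simp; linear_combination this
  have hfin : (⋃ s ∈ S, (fun c : ℂ => c • s) ''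
      {c : ℂ | c ^ (n * k) * LinearMap.det (s : V →ₗ[ℂ] V) ^ k = 1}).Finite :=
    S.finite_toSet.biUnion fun s _ => (hscal s).image _
  refine hfin.subset fun g hg => ?_
  obtain ⟨s, hs, c, hc⟩ := hS g (hT hg)
  simp only [Set.mem_iUnion]
  refine ⟨s, hs, c, ?_, hc.symm⟩
  have h1 := hdet g hg
  have h2 : LinearMap.det (g : V →ₗ[ℂ] V) = c ^ n * LinearMap.det (s : V →ₗ[ℂ] V) := by
    rw [hc, hn, ← LinearMap.det_smul]
    rfl
  rw [h2, mul_pow, ← pow_mul] at h1
  exact h1

end abstract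

end Crest.Agent.R276.FinE_39
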