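import Crest.Agent.R276.Geo1_519
import Crest.Agent.R276.Mod7_987
import Crest.Agent.R271.Null_821
import Crest.Agent.R271.Null_956

/-!
# Row 276 (S0419), GEO (helper519), part 2: the norm polynomial from linear independence on the fibres

* `null_zero_image`: on a connected Riemann domain the image in `ℂⁿ` of the zero set of a holomorphic function
  which is not identically zero is a null set.
* `analytic_fib`: elements of `MK.B` are holomorphic on the fibres of `MK → ML`.
* `exists_normPoly_rel`: the polynomial `H(z, x_1, …, x_s)` of `Geo1_519` for `σ_i ∈ MK.B` which are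
  linearly independent on the (connected) fibres of `MK → ML`.
-/

set_option autoImplicit false

open Topology Filter MeasureTheory Set
open scoped ENNReal

noncomputable section

namespace Crest.Agent.R276.Geo2_519

open Crest.Agent.R276.Mod1_987 Crest.Agent.R276.Mod1_987.RMdl Crest.Agent.R276.Geo1_519
open Crest.Agent.R271 Crest.Agent.R271.Ho51
open Crest.Agent.R271.Defs710 Crest.Agent.R271.Alg255 Crest.Agent.R271.Rd692

section null

variable {n : ℕ} {M : Type*} [TopologicalSpace M] [RDom n M]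

/-- identity theorem -/
theorem frequently_ne [PreconnectedSpace M] {f : M → ℂ}
    (hf : ∀ y, AnalyticAt ℂ (f ∘ (ch y).symm) (cp y)) (hne : ∃ y, f y ≠ 0) (y : M) :
    ∃ᶠ z in 𝓝 (cp y), (f ∘ (ch y).symm) z ≠ 0 := by
  -- the set where `f` vanishes locally
  set Z : Set M := {y | ∀ᶠ y' in 𝓝 y, f y' = 0} with hZ
  have hZo : IsOpen Z := isOpen_setOfPred_eventually_nhds
  have hpush : ∀ y : M, y ∈ Z → ∀ᶠ z in 𝓝 (cp y), (f ∘ (ch y).symm) z = 0 := by
    intro y hy
    have h1 : Tendsto (ch y).symm (𝓝 (cp y)) (𝓝 y) := by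
      have h2 := (ch y).symm.continuousAt (x := cp y) (by simpa using (isCh_ch y).cp_mem (mem_ch y))
      have h3 := h2.tendsto
      rwa [(isCh_ch y).symm_cp (mem_ch y)] at h3
    exact h1.eventually hy
  have hpull : ∀ y : M, (∀ᶠ z in 𝓝 (cp y), (f ∘ (ch y).symm) z = 0) → y ∈ Z := by
    intro y hy
    have h1 := ((cp_cont (M := M)).tendsto y).eventually hy
    filter_upwards [h1, (ch y).open_source.mem_nhds (mem_ch y)] with y' hy' hs
    rw [Function.comp_apply, (isCh_ch y).symm_cp hs] at hy'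
    exact hy'
  have hZc : IsClosed Z := by
    rw [← isOpen_compl_iff, isOpen_iff_mem_nhds]
    intro y hy
    obtain ⟨ρ, hρ, hfρ⟩ := (hf y).exists_ball_analyticOnNhd
    have htgt : (ch y).target ∈ 𝓝 (cp y) :=
      (ch y).open_target.mem_nhds ((isCh_ch y).cp_mem (mem_ch y))
    obtain ⟨ρ', hρ', hsub⟩ := Metric.mem_nhds_iff.mp htgt
    set δ := min ρ ρ'
    have hδ : 0 < δ := lt_min hρ hρ'
    have hfδ : AnalyticOnNhd ℂ (f ∘ (ch y).symm) (Metric.ball (cp y) δ) :=
      hfρ.mono (Metric.ball_subset_ball (min_le_left _ _))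
    have hnb : (ch y).source ∩ cp ⁻¹' Metric.ball (cp y) δ ∈ 𝓝 y :=
      inter_mem ((ch y).open_source.mem_nhds (mem_ch y))
        (cp_cont.continuousAt.preimage_mem_nhds (Metric.ball_mem_nhds _ hδ))
    filter_upwards [hnb] with y' hy'
    intro hz
    apply hy
    apply hpull
    -- near `cp y'` the function vanishes
    have h1 : ∀ᶠ z in 𝓝 (cp y'), (f ∘ (ch y).symm) z = 0 := by
      filter_upwards [hpush y' hz, (isCh_ch y).germ (isCh_ch y') hy'.1 (mem_ch y')] with z h2 h3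
      rw [Function.comp_apply, h3]
      exact h2
    have h2 := hfδ.eqOn_zero_of_preconnected_of_eventuallyEq_zero
      (convex_ball (cp y) δ).isPreconnected hy'.2 h1
    filter_upwards [Metric.ball_mem_nhds (cp y) hδ] with z hz'
    exact h2 hz'
  rcases isClopen_iff.mp ⟨hZc, hZo⟩ with h | h
  · intro h0
    have h1 : y ∈ Z := hpull y (by
      filter_upwards [h0] with z hz
      exact not_not.mp hz)
    rw [h] at h1
    exact h1
  · obtain ⟨y0, hy0⟩ := hne
    have h1 : y0 ∈ Z := by rw [h]; trivial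
    exact absurd (h1.self_of_nhds) hy0

/-- the image in `ℂⁿ` of the zero set of a holomorphic function is a null set -/
theorem null_zero_image [SecondCountableTopology M] [PreconnectedSpace M] {f : M → ℂ}
    (hf : ∀ y, AnalyticAt ℂ (f ∘ (ch y).symm) (cp y)) (hne : ∃ y, f y ≠ 0) :
    volume {ζ : Fin n → ℂ | ∃ y : M, cp y = ζ ∧ f y = 0} = 0 := by
  choose ρ hρ hae using fun y : M => Local821.eventually_null_zero volume (hf y)
    (frequently_ne hf hne y)
  obtain ⟨S, hS, hcov⟩ := TopologicalSpace.countable_cover_nhds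
    (f := fun y : M => (ch y).source ∩ cp ⁻¹' Metric.ball (cp y) (ρ y)) fun y =>
      inter_mem ((ch y).open_source.mem_nhds (mem_ch y))
        (cp_cont.continuousAt.preimage_mem_nhds (Metric.ball_mem_nhds _ (hρ y)))
  have h1 : {ζ : Fin n → ℂ | ∃ y : M, cp y = ζ ∧ f y = 0} ⊆
      ⋃ y ∈ S, {ζ ∈ Metric.ball (cp y) (ρ y) | (f ∘ (ch y).symm) ζ = 0} := by
    rintro ζ ⟨y, rfl, hy⟩
    have h2 : y ∈ ⋃ x ∈ S, (ch x).source ∩ cp ⁻¹' Metric.ball (cp x) (ρ x) := by
      rw [hcov]; trivial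
    simp only [mem_iUnion, exists_prop] at h2 ⊢
    obtain ⟨x, hx, h3, h4⟩ := h2
    refine ⟨x, hx, h4, ?_⟩
    rw [Function.comp_apply, (isCh_ch x).symm_cp h3]
    exact hy
  refine measure_mono_null h1 ?_
  rw [measure_biUnion_null_iff hS]
  intro y _
  have h2 := hae y
  rw [ae_restrict_iff' Metric.isOpen_ball.measurableSet, ae_iff] at h2
  refine measure_mono_null ?_ h2
  rintro ζ ⟨hz1, hz2⟩
  simp only [mem_ofPred_eq, Classical.not_imp, not_not]
  exact ⟨hz1, hz2⟩

end null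

section loc

variable {K : Type} [Field K] [Algebra ℂ K] {r : ℕ} (M : Mdl K r)

/-- elements of the coordinate ring are locally analytic functions of the coordinates -/
theorem analytic_local (b : M.B) (p₀ : M.Pts) : ∃ G : (Fin r → ℂ) → ℂ, AnalyticAt ℂ G (M.pz p₀) ∧
    ∀ᶠ p : M.Pts in 𝓝 p₀, p b = G (M.pz p) := by
  obtain ⟨C⟩ := M.hch p₀
  obtain ⟨S, ε, hε, hS⟩ := C.surj
  refine ⟨fun w => C.s (w - M.pz p₀) b, ?_, ?_⟩
  · have h1 : AnalyticAt ℂ (fun ζ => C.s ζ b) ((fun w : Fin r → ℂ => w - M.pz p₀) (M.pz p₀)) := by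
      simp only [sub_self]
      exact C.anal b 0 (Metric.mem_ball_self C.r_pos)
    exact AnalyticAt.comp (g := fun ζ => C.s ζ b) (f := fun w : Fin r → ℂ => w - M.pz p₀) h1
      (analyticAt_id.sub analyticAt_const)
  · have h2 : ∀ᶠ p : M.Pts in 𝓝 p₀, ∀ b ∈ S, ‖p b - p₀ b‖ < ε := by
      rw [Filter.eventually_all_finset]
      intro b _
      have h3 : Tendsto (fun p : M.Pts => p b) (𝓝 p₀) (𝓝 (p₀ b)) :=
        (continuous_ev b).tendsto p₀
      have h4 : Tendsto (fun p : M.Pts => ‖p b - p₀ b‖) (𝓝 p₀) (𝓝 0) :=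
        tendsto_iff_norm_sub_tendsto_zero.1 h3
      exact h4.eventually (gt_mem_nhds hε)
    filter_upwards [h2] with p hp
    have h5 := hS p hp
    show p b = C.s (M.pz p - M.pz p₀) b
    have h6 : (fun i => p (M.z i) - p₀ (M.z i)) = M.pz p - M.pz p₀ := rfl
    rw [← h6, ← h5]

end loc

section rel

variable {L K : Type} [Field L] [Field K] [Algebra ℂ L] [Algebra ℂ K] [Algebra L K]
  [IsScalarTower ℂ L K] {m r : ℕ} (R : RMdl L K m r)

/-- elements of the coordinate ring are holomorphic on the fibres -/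
theorem analytic_fib (b : R.MK.B) {w : R.ML.Pts} (y : R.Fib w) :
    AnalyticAt ℂ ((fun y : R.Fib w => (y.val) b) ∘ (ch y).symm) (cp y) := by
  obtain ⟨G, h1, h2⟩ := analytic_local R.MK b y.val
  have h3 : Tendsto (fun ξ => ((ch y).symm ξ).val) (𝓝 (cp y)) (𝓝 y.val) := by
    have h4 := (ch y).symm.continuousAt (x := cp y) (by simpa using (isCh_ch y).cp_mem (mem_ch y))
    have h5 := h4.tendsto
    rw [(isCh_ch y).symm_cp (mem_ch y)] at h5
    exact ((Fib.continuous_val w).tendsto y).comp h5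
  have happ : ∀ y : R.Fib w, (R.MK.pz y.val : Cn (m + r)) = Fin.append (R.ML.pz w) (cp y) := by
    intro y
    have h6 := R.append_eq y.val
    rw [y.q_eq] at h6
    exact h6.symm
  have h7 : ((fun y : R.Fib w => (y.val) b) ∘ (ch y).symm) =ᶠ[𝓝 (cp y)]
      fun ξ => G (Fin.append (R.ML.pz w) ξ) := by
    filter_upwards [h3.eventually h2, (ch y).open_target.mem_nhds ((isCh_ch y).cp_mem (mem_ch y))]
      with ξ hξ ht
    rw [Function.comp_apply]
    rw [hξ, happ, (isCh_ch y).cp_symm ht]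
  refine AnalyticAt.congr ?_ h7.symm
  rw [happ] at h1
  refine AnalyticAt.comp (g := G)
    (f := fun ξ : Cn r => (Fin.append (R.ML.pz w) ξ : Cn (m + r))) h1 ?_
  rw [analyticAt_pi_iff]
  intro i
  refine Fin.addCases (fun i => ?_) (fun j => ?_) i
  · simp only [Fin.append_left]
    exact analyticAt_const
  · simp only [Fin.append_right]
    exact (ContinuousLinearMap.proj (R := ℂ) (φ := fun _ : Fin r => ℂ) j).analyticAt _

/-- **the norm polynomial, relative form** -/
theorem exists_normPoly_rel {s : ℕ} (σ : Fin s → R.MK.B) (w₀ : R.ML.Pts)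
    (hconn : ∀ w, R.ML.pz w = R.ML.pz w₀ → ConnectedSpace (R.Fib w))
    (hind : ∀ w, R.ML.pz w = R.ML.pz w₀ → ∀ v : Fin s → ℂ, v ≠ 0 →
      ∃ y : R.Fib w, ∑ i, v i * (y.val) (σ i) ≠ 0) :
    ∃ H : MvPolynomial (Fin (m + s * r)) ℂ, H ≠ 0 ∧ ∀ (z : Cn m) (x : Cn (s * r)),
      MvPolynomial.eval (Fin.append z x) H ≠ 0 →
      (∀ j, MvPolynomial.eval (Fin.append z fun k => x (finProdFinEquiv (j, k))) R.MK.h ≠ 0) ∧
      ∀ y : Fin s → R.MK.Pts,
        (∀ j, R.MK.pz (y j) = Fin.append z fun k => x (finProdFinEquiv (j, k))) →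
        (Matrix.of fun i j => y j (σ i)).det ≠ 0 := by
  -- the bad sets are null sets
  have hfin : {w : R.ML.Pts | R.ML.pz w = R.ML.pz w₀}.Finite :=
    (R.ML.card_fib (R.ML.eval_h_ne w₀)).2
  have hnull : ∀ v : Fin s → ℂ, v ≠ 0 → ∀ w, R.ML.pz w = R.ML.pz w₀ →
      ∀ᵐ ξ : Cn r, ∀ y : R.MK.Pts, R.q y = w → R.x y = ξ → ∑ i, v i * y (σ i) ≠ 0 := by
    intro v hv w hw
    have := hconn w hw
    have h1 := null_zero_image (M := R.Fib w) (f := fun y => ∑ i, v i * (y.val) (σ i))
      (fun y => by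
        have h2 : ((fun y : R.Fib w => ∑ i, v i * (y.val) (σ i)) ∘ (ch y).symm) =
            fun ξ => ∑ i, v i * ((fun y : R.Fib w => (y.val) (σ i)) ∘ (ch y).symm) ξ := rfl
        rw [h2]
        exact Finset.analyticAt_fun_sum _ fun i _ => analyticAt_const.mul (analytic_fib R (σ i) y))
      (hind w hw v hv)
    rw [ae_iff]
    refine measure_mono_null ?_ h1
    intro ξ hξ
    simp only [mem_ofPred_eq, not_forall, not_not] at hξ
    obtain ⟨y, hy1, hy2, hy3⟩ := hξ
    exact ⟨⟨y, hy1⟩, hy2, hy3⟩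
  have hh : ∀ᵐ ξ : Cn r, MvPolynomial.eval (Fin.append (R.ML.pz w₀) ξ) R.MK.h ≠ 0 := by
    have := hconn w₀ rfl
    obtain ⟨y⟩ : Nonempty (R.Fib w₀) := inferInstance
    have h1 : specL (R.ML.pz w₀) R.MK.h ≠ 0 := by
      intro h0
      have h2 := eval_specL (R.ML.pz w₀) (R.x y.val) R.MK.h
      have h3 := R.append_eq y.val
      rw [y.q_eq] at h3
      rw [h0, map_zero, h3] at h2
      exact R.MK.eval_h_ne y.val h2.symm
    filter_upwards [Null956.ae_eval_ne h1] with ξ hξ
    rwa [eval_specL] at hξ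
  refine exists_normPoly R.MK σ ⟨R.ML.pz w₀, hh.exists, fun v hv => ?_⟩
  have h1 : ∀ᵐ ξ : Cn r, ∀ w ∈ {w : R.ML.Pts | R.ML.pz w = R.ML.pz w₀}, ∀ y : R.MK.Pts,
      R.q y = w → R.x y = ξ → ∑ i, v i * y (σ i) ≠ 0 :=
    (ae_ball_iff hfin.countable).mpr fun w hw => hnull v hv w hw
  obtain ⟨ξ, h2, h3⟩ := (hh.and h1).exists
  refine ⟨ξ, h2, fun y hy => ?_⟩
  have hy' := R.append_eq y
  rw [hy] at hy'
  have hx : R.x y = ξ := by
    funext j
    have := congrFun hy' (Fin.natAdd m j)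
    rwa [Fin.append_right, Fin.append_right] at this
  have hq : R.ML.pz (R.q y) = R.ML.pz w₀ := by
    funext j
    have := congrFun hy' (Fin.castAdd r j)
    rwa [Fin.append_left, Fin.append_left] at this
  exact h3 (R.q y) hq y rfl hx

end rel

end Crest.Agent.R276.Geo2_519
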