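import Crest.Agent.R276.Fri4_348
import Crest.Agent.R276.Geo2_519
import Crest.Agent.R276.FinE_39
import Crest.Agent.R276.FlatT_464

/-!
# R276, leaf FIN-FIB (helper348): finiteness of the isometries of `Φ_w` on the fibres

`fin_fib` : `{A ∈ Is Φ w w | (det A)^m = 1}` is finite for
`Φ w c = ∫_{fibre over w} |∑ c k * g k| ^ (2 / N)`, `N ≥ 2`, `w` generic.
-/

set_option autoImplicit false

noncomputable section

open Set Filter Topology MeasureTheory
open Crest.Agent.R271.Ho51 Crest.Agent.R271.Defs710 Crest.Agent.R271.Rd692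
open Crest.Agent.R276.Ipc735 Crest.Agent.R276.Iter_840 Crest.Agent.R276.Mod1_987
open scoped ENNReal

namespace Crest.Agent.R276.FinFib_348

variable {s : ℕ} {L K : Type} [Field L] [Field K] [Algebra ℂ L] [Algebra ℂ K] [Algebra L K]
  [IsScalarTower ℂ L K] {m r : ℕ} (R : RMdl L K m r) (g : Fin s → R.MK.B)

/-- the section `∑ c k * g k` -/
def sec (c : Fin s → ℂ) (y : R.MK.Pts) : ℂ := ∑ k, c k * y (g k)

/-- the `N`-norm on the fibre -/
def Phi (N : ℕ) (w : R.ML.Pts) (c : Fin s → ℂ) : ℝ≥0∞ :=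
  R.fint w (fun y => ‖sec R g c y‖ₑ ^ (2 / (N : ℝ)))

theorem continuous_sec (c : Fin s → ℂ) : Continuous (sec R g c) :=
  continuous_finsetSum _ fun k _ => continuous_const.mul (continuous_ev (g k))

theorem measurable_sec (c : Fin s → ℂ) (p : ℝ) : Measurable fun y => ‖sec R g c y‖ₑ ^ p :=
  ((continuous_sec R g c).measurable.enorm).pow_const _

theorem sec_eq (c : Fin s → ℂ) (y : R.MK.Pts) : sec R g c y = y (∑ k, c k • g k) := by
  simp [sec]

/-- evaluation on the fibre -/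
def evw (w : R.ML.Pts) : (Fin s → ℂ) →ₗ[ℂ] (R.Fib w → ℂ) where
  toFun c := fun y => sec R g c (RMdl.Fib.val R y)
  map_add' a b := by
    funext y
    simp [sec, add_mul, Finset.sum_add_distrib]
  map_smul' a b := by
    funext y
    simp [sec, mul_assoc, Finset.mul_sum]

variable {R g} in
theorem ae_ne {w : R.ML.Pts} [PreconnectedSpace (R.Fib w)] {μ : Measure (R.Fib w)} (hμ : IsLeb μ)
    {c : Fin s → ℂ} (hc : ∃ y : R.Fib w, evw R g w c y ≠ 0) : ∀ᵐ y ∂μ, evw R g w c y ≠ 0 := by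
  have h1 := Geo2_519.null_zero_image (M := R.Fib w) (n := r) (f := evw R g w c)
    (fun y => by
      have := Geo2_519.analytic_fib R (∑ k, c k • g k) y
      have h2 : (fun y : R.Fib w => (RMdl.Fib.val R y) (∑ k, c k • g k)) = evw R g w c := by
        funext y
        exact (sec_eq R g c _).symm
      rwa [h2] at this) hc
  have hmeas : MeasurableSet {y : R.Fib w | evw R g w c y = 0} := by
    have h3 : Continuous (evw R g w c) :=
      (continuous_sec R g c).comp (RMdl.Fib.continuous_val w)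
    exact (isClosed_singleton.preimage h3).measurableSet
  have h4 : ∫⁻ y : R.Fib w, Set.indicator {y : R.Fib w | evw R g w c y = 0} 1 y ∂μ = 0 := by
    rw [lintegral_eq_fibre hμ ((measurable_one).indicator hmeas)]
    rw [lintegral_eq_zero_iff' ?_]
    · have h5 : ∀ᵐ ζ : Fin r → ℂ, ¬ ∃ y : R.Fib w, cp y = ζ ∧ evw R g w c y = 0 := by
        rw [ae_iff]
        simpa using h1
      filter_upwards [h5] with ζ hζ
      rw [Pi.zero_apply, ENNReal.tsum_eq_zero]
      intro y
      rw [Set.indicator_of_notMem]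
      intro hy
      exact hζ ⟨y.1, y.2, hy⟩
    · exact (measurable_fibre ((measurable_one).indicator hmeas)).aemeasurable
  rw [lintegral_indicator_one hmeas] at h4
  rw [ae_iff]
  simpa using h4

theorem leb_ne_zero {n : ℕ} {M : Type*} [TopologicalSpace M] [MeasurableSpace M] [BorelSpace M]
    [RDom n M] [Nonempty M] {μ : Measure M} (hμ : IsLeb μ) : μ ≠ 0 := by
  intro h0
  obtain ⟨x⟩ := (inferInstance : Nonempty M)
  have h1 := lintegral_chart hμ (isCh_ch x) (f := fun _ => 1) aemeasurable_const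
  rw [h0] at h1
  simp only [Measure.restrict_zero, lintegral_zero_measure] at h1
  rw [lintegral_one, Measure.restrict_apply_univ] at h1
  have h2 : 0 < volume (ch x).target :=
    (ch x).open_target.measure_pos volume ⟨_, (ch x).map_source (mem_ch x)⟩
  exact h2.ne h1

theorem Phi_eq {w : R.ML.Pts} {μ : Measure (R.Fib w)} (hμ : IsLeb μ) (N : ℕ) (c : Fin s → ℂ) :
    Phi R g N w c = ∫⁻ y, ‖evw R g w c y‖ₑ ^ (2 / (N : ℝ)) ∂μ :=
  R.fint_eq hμ (measurable_sec R g c _)

variable {R g} in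
theorem integrable_ev {w : R.ML.Pts} {μ : Measure (R.Fib w)} (hμ : IsLeb μ) {N : ℕ}
    {c : Fin s → ℂ} (hfin : Phi R g N w c < ∞) :
    Integrable (fun y => ‖evw R g w c y‖ ^ (2 / (N : ℝ))) μ := by
  have h3 : Continuous (evw R g w c) :=
    (continuous_sec R g c).comp (RMdl.Fib.continuous_val w)
  have hp : (0 : ℝ) ≤ 2 / (N : ℝ) := by positivity
  refine ⟨((h3.norm.measurable).pow_const _).aestronglyMeasurable, ?_⟩
  rw [hasFiniteIntegral_iff_enorm]
  rw [Phi_eq R g hμ] at hfin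
  refine lt_of_le_of_lt (lintegral_mono fun y => ?_) hfin
  rw [Real.enorm_rpow_of_nonneg (norm_nonneg _) hp, enorm_norm]

variable {R g} in
theorem Phi_toReal {w : R.ML.Pts} {μ : Measure (R.Fib w)} (hμ : IsLeb μ) {N : ℕ}
    (c : Fin s → ℂ) :
    (Phi R g N w c).toReal = ∫ y, ‖evw R g w c y‖ ^ (2 / (N : ℝ)) ∂μ := by
  have h3 : Continuous (evw R g w c) :=
    (continuous_sec R g c).comp (RMdl.Fib.continuous_val w)
  have hp : (0 : ℝ) ≤ 2 / (N : ℝ) := by positivity
  rw [integral_eq_lintegral_of_nonneg_ae (Eventually.of_forall fun y =>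
    Real.rpow_nonneg (norm_nonneg _) _) ((h3.norm.measurable).pow_const _).aestronglyMeasurable,
    Phi_eq R g hμ]
  congr 1
  refine lintegral_congr fun y => ?_
  rw [← Real.enorm_eq_ofReal (Real.rpow_nonneg (norm_nonneg _) _),
    Real.enorm_rpow_of_nonneg (norm_nonneg _) hp, enorm_norm]

variable {R g} in
/-- `Φ_w` is positive on nonzero vectors. -/
theorem Phi_pos {w : R.ML.Pts} [PreconnectedSpace (R.Fib w)]
    (hind : ∀ c : Fin s → ℂ, (∀ y : R.Fib w, sec R g c (RMdl.Fib.val R y) = 0) → c = 0)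
    {N : ℕ} (hN : N ≠ 0) {c : Fin s → ℂ} (h0 : Phi R g N w c = 0) : c = 0 := by
  obtain ⟨μ, hμ⟩ := exists_leb (n := r) (M := R.Fib w)
  by_contra hc
  have hne : ∃ y : R.Fib w, evw R g w c y ≠ 0 := by
    by_contra hcon
    push Not at hcon
    exact hc (hind c hcon)
  have h1 := ae_ne hμ hne
  have : Nonempty (R.Fib w) := ⟨hne.choose⟩
  have h2 := leb_ne_zero hμ
  rw [Phi_eq R g hμ] at h0
  have h3 : Continuous (evw R g w c) :=
    (continuous_sec R g c).comp (RMdl.Fib.continuous_val w)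
  rw [lintegral_eq_zero_iff (h3.measurable.enorm.pow_const _)] at h0
  have h4 : ∀ᵐ y ∂μ, False := by
    filter_upwards [h1, h0] with y hy1 hy2
    rw [Pi.zero_apply, ENNReal.rpow_eq_zero_iff] at hy2
    rcases hy2 with ⟨h5, _⟩ | ⟨_, h6⟩
    · exact hy1 (by simpa using h5)
    · have : (0 : ℝ) < 2 / (N : ℝ) := by positivity
      linarith
  exact h2 (ae_eq_bot.1 (Filter.eventually_false_iff_eq_bot.1 h4))

variable {R g} in
/-- the abstract properties of `Φ_w` (helper39) -/
theorem finNorm {w : R.ML.Pts} [PreconnectedSpace (R.Fib w)] [Nonempty (R.Fib w)]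
    (hind : ∀ c : Fin s → ℂ, (∀ y : R.Fib w, sec R g c (RMdl.Fib.val R y) = 0) → c = 0)
    {N : ℕ} (hN : 2 ≤ N) (hfin : ∀ c, Phi R g N w c < ∞) :
    FinC_39.FinNorm (2 / (N : ℝ)) (fun c => (Phi R g N w c).toReal) := by
  obtain ⟨μ, hμ⟩ := exists_leb (n := r) (M := R.Fib w)
  have h1 : (2 : ℝ) ≤ N := by exact_mod_cast hN
  have h2 := FinE_39.finNorm_integral (μ := μ) (p := 2 / (N : ℝ)) (by positivity)
    (by rw [div_le_one (by linarith)]; exact h1) (evw R g w)
    (fun c => integrable_ev hμ (hfin c))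
    (fun c hc => ae_ne hμ (by
      by_contra hcon
      push Not at hcon
      exact hc (hind c hcon))) (leb_ne_zero hμ)
  have h3 : (fun c => (Phi R g N w c).toReal) =
      fun c => ∫ y, ‖evw R g w c y‖ ^ (2 / (N : ℝ)) ∂μ := by
    funext c; exact Phi_toReal hμ c
  rw [h3]; exact h2

/-- matrices as continuous linear maps -/
def toC (A : Matrix (Fin s) (Fin s) ℂ) : (Fin s → ℂ) →L[ℂ] (Fin s → ℂ) :=
  LinearMap.toContinuousLinearMap (Matrix.toLin' A)

theorem toC_apply (A : Matrix (Fin s) (Fin s) ℂ) (v : Fin s → ℂ) : toC A v = A.mulVec v := rfl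

theorem toC_inj : Function.Injective (toC (s := s)) := by
  intro A B h
  apply Matrix.toLin'.injective
  exact LinearMap.toContinuousLinearMap.injective h

theorem det_toC (A : Matrix (Fin s) (Fin s) ℂ) :
    LinearMap.det (toC A : (Fin s → ℂ) →ₗ[ℂ] (Fin s → ℂ)) = A.det := by
  have : ((toC A : (Fin s → ℂ) →L[ℂ] (Fin s → ℂ)) : (Fin s → ℂ) →ₗ[ℂ] (Fin s → ℂ)) =
      Matrix.toLin' A := rfl
  rw [this, LinearMap.det_toLin']

variable {R g} in
/-- finiteness of the isometries from `LocRank` -/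
theorem finite_of_locRank {w : R.ML.Pts} [PreconnectedSpace (R.Fib w)]
    (hind : ∀ c : Fin s → ℂ, (∀ y : R.Fib w, sec R g c (RMdl.Fib.val R y) = 0) → c = 0)
    {N : ℕ} (hN : 2 ≤ N) (hfin : ∀ c, Phi R g N w c < ∞)
    (hL : ∃ (b : ℕ) (Q : MvPolynomial (Fin s) ℂ), Q ≠ 0 ∧ FinC_39.LocRank b
        (fun c => (Phi R g N w c).toReal) (fun c => MvPolynomial.eval c Q)) {k : ℕ} (hk : 0 < k) :
    {A : Matrix (Fin s) (Fin s) ℂ | A ∈ FlatT_464.Is (Phi R g N) w w ∧ A.det ^ k = 1}.Finite := by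
  rcases isEmpty_or_nonempty (R.Fib w) with he | hne
  · -- `s = 0`
    have h1 : ∀ c : Fin s → ℂ, c = 0 := fun c => hind c fun y => (he.false y).elim
    have h2 : IsEmpty (Fin s) := by
      by_contra hcon
      rw [not_isEmpty_iff] at hcon
      obtain ⟨i⟩ := hcon
      have := congrFun (h1 (fun _ => 1)) i
      simp at this
    exact Set.toFinite _
  · obtain ⟨b, Q, hQ0, hL⟩ := hL
    have hdiff : Differentiable ℂ (fun c : Fin s → ℂ => MvPolynomial.eval c Q) := by
      have : AnalyticOnNhd ℂ (fun c : Fin s → ℂ => MvPolynomial.eval c Q) Set.univ :=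
        AnalyticOnNhd.eval_mvPolynomial Q
      intro c
      exact (this c trivial).differentiableAt
    have hne' : ∃ c : Fin s → ℂ, MvPolynomial.eval c Q ≠ 0 := by
      by_contra hcon
      push Not at hcon
      exact hQ0 (MvPolynomial.funext fun x => by rw [hcon, map_zero])
    have h1 := FinE_39.finite_of_det (finNorm hind hN hfin) hdiff hne' hL hk
      (toC '' {A : Matrix (Fin s) (Fin s) ℂ | A ∈ FlatT_464.Is (Phi R g N) w w ∧ A.det ^ k = 1})
      (by
        rintro _ ⟨A, ⟨hA, _⟩, rfl⟩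
        intro c
        show (Phi R g N w (toC A c)).toReal = _
        rw [toC_apply, hA c])
      (by
        rintro _ ⟨A, ⟨_, hA⟩, rfl⟩
        rw [det_toC, hA])
    exact h1.of_finite_image toC_inj.injOn

/-- **FIN on the fibres of a relative model.** -/
theorem fin_fib (hO : OneStep) (hR : StepRz) (hRA : StepRzAct) (hg : ∃ k, g k ≠ 0) :
    ∃ P : MvPolynomial (Fin m) ℂ, P ≠ 0 ∧ ∀ w : R.ML.Pts, MvPolynomial.eval (R.ML.pz w) P ≠ 0 →
      ∀ [PreconnectedSpace (R.Fib w)],
      (∀ c : Fin s → ℂ, (∀ y : R.Fib w, sec R g c (RMdl.Fib.val R y) = 0) → c = 0) →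
      ∀ (N : ℕ), 2 ≤ N → (∀ c, Phi R g N w c < ∞) → ∀ k : ℕ, 0 < k →
      {A : Matrix (Fin s) (Fin s) ℂ | A ∈ FlatT_464.Is (Phi R g N) w w ∧ A.det ^ k = 1}.Finite := by
  obtain ⟨P, hP0, hP⟩ := Fri4_348.fri_fib R g hO hR hRA hg
  refine ⟨P, hP0, fun w hw _ hind N hN hfin k hk => ?_⟩
  exact finite_of_locRank hind hN hfin (hP w hw N (by omega) hfin) hk

end Crest.Agent.R276.FinFib_348
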