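import Crest.Agent.R276.FinFib_348
import Crest.Agent.R276.FlatDefs_236
import Crest.Agent.R276.GlobN_739

/-!
# R276, leaf FIN-FIB (helper348), in the notation of `FlatDefs_236` (`SatFam`) and `GlobN_739` (`J`)

* `fin_sat` : for a saturated family `SatFam R N u` the set `{A ∈ Is Φ w w | (det A)^k = 1}` is finite
  for all `w` off a hypersurface `{P = 0}` of the base coordinates.
* `fin_J` : the same for 739's `J Φ f k l z0 z0`.
* `J_finite_of` : finiteness is transported by an isometry.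
-/

set_option autoImplicit false

noncomputable section

open Set Filter Topology MeasureTheory
open Crest.Agent.R271.Ho51 Crest.Agent.R271.Defs710 Crest.Agent.R271.Rd692
open Crest.Agent.R276.Ipc735 Crest.Agent.R276.Iter_840 Crest.Agent.R276.Mod1_987
open Crest.Agent.R276.FlatDefs_236
open scoped ENNReal

namespace Crest.Agent.R276.FinSat_348

variable {s : ℕ} {L K : Type} [Field L] [Field K] [Algebra ℂ L] [Algebra ℂ K] [Algebra L K]
  [IsScalarTower ℂ L K] {m r : ℕ} {R : RMdl L K m r} {u : Fin s → R.MK.B}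

theorem Phi_eq (N : ℕ) (w : R.ML.Pts) (a : Fin s → ℂ) :
    FlatDefs_236.Phi N u w a = FinFib_348.Phi R u N w a := by
  rw [FinFib_348.Phi_eq R u (nu_leb R w)]
  unfold FlatDefs_236.Phi FlatM_464.PHI
  refine lintegral_congr fun y => ?_
  have hp : (0 : ℝ) ≤ 2 / (N : ℝ) := by positivity
  rw [← Real.enorm_eq_ofReal (Real.rpow_nonneg (norm_nonneg _) _),
    Real.enorm_rpow_of_nonneg (norm_nonneg _) hp, enorm_norm]
  rfl

theorem Phi_eq' (N : ℕ) : FlatDefs_236.Phi N u = FinFib_348.Phi R u N := by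
  funext w a; exact Phi_eq N w a

/-- **FIN** for a saturated family, at generic points. -/
theorem fin_sat (hO : OneStep) (hR : StepRz) (hRA : StepRzAct) {N : ℕ} (hS : SatFam R N u) :
    ∃ P : MvPolynomial (Fin m) ℂ, P ≠ 0 ∧ ∀ w : R.ML.Pts, MvPolynomial.eval (R.ML.pz w) P ≠ 0 →
      ∀ k : ℕ, 0 < k →
      {A : Matrix (Fin s) (Fin s) ℂ |
        A ∈ FlatT_464.Is (FlatDefs_236.Phi N u) w w ∧ A.det ^ k = 1}.Finite := by
  by_cases hg : ∃ k, u k ≠ 0
  · obtain ⟨P, hP0, hP⟩ := FinFib_348.fin_fib R u hO hR hRA hg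
    refine ⟨P, hP0, fun w hw k hk => ?_⟩
    have : PreconnectedSpace (R.Fib w) := (hS.conn w).toPreconnectedSpace
    have h1 := hP w hw (fun c hc => hS.indep w c fun y => hc y) N (by have := hS.N_ge; omega)
      (fun c => by rw [← Phi_eq]; exact (hS.fin w c).lt_top) k hk
    rw [Phi_eq']
    exact h1
  · push Not at hg
    refine ⟨1, one_ne_zero, fun w _ k hk => ?_⟩
    exfalso
    have i : Fin s := ⟨0, hS.s_pos⟩
    have h1 := hS.indep w (fun _ => 1) (fun y => by
      refine Finset.sum_eq_zero fun i _ => ?_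
      simp [sg, hg i])
    have := congrFun h1 i
    simp at this

theorem mem_Is_iff {N : ℕ} (hS : SatFam R N u) {w w' : R.ML.Pts} {A : Matrix (Fin s) (Fin s) ℂ} :
    A ∈ FlatT_464.Is (FlatDefs_236.Phi N u) w w' ↔
      ∀ a, (FlatDefs_236.Phi N u w' (FinFib_348.toC A a)).toReal =
        (FlatDefs_236.Phi N u w a).toReal := by
  constructor
  · intro h a
    rw [FinFib_348.toC_apply, h a]
  · intro h a
    exact (ENNReal.toReal_eq_toReal_iff' (hS.fin w' _) (hS.fin w a)).1 (h a)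

/-- every continuous linear map is a matrix -/
theorem toC_surj : Function.Surjective (FinFib_348.toC (s := s)) := by
  intro T
  refine ⟨LinearMap.toMatrix' (T : (Fin s → ℂ) →ₗ[ℂ] (Fin s → ℂ)), ?_⟩
  ext1 v
  rw [FinFib_348.toC_apply, ← Matrix.toLin'_apply, Matrix.toLin'_toMatrix']
  rfl

/-- **FIN** in the notation of helper739. -/
theorem fin_J (hO : OneStep) (hR : StepRz) (hRA : StepRzAct) {N : ℕ} (hS : SatFam R N u) :
    ∃ P : MvPolynomial (Fin m) ℂ, P ≠ 0 ∧ ∀ w : R.ML.Pts, MvPolynomial.eval (R.ML.pz w) P ≠ 0 →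
      ∀ (E : Type) [NormedAddCommGroup E] (σ : E → R.ML.Pts) (f : E → ℂ) (k l : ℕ) (z0 : E),
        σ z0 = w → 0 < k → f z0 ≠ 0 →
        (GlobN_739.J (fun z a => (FlatDefs_236.Phi N u (σ z) a).toReal) f k l z0 z0).Finite := by
  obtain ⟨P, hP0, hP⟩ := fin_sat hO hR hRA hS
  refine ⟨P, hP0, fun w hw E _ σ f k l z0 hσ hk hf => ?_⟩
  have h1 := (hP w hw k hk).image FinFib_348.toC
  refine h1.subset ?_
  rintro T ⟨hT1, hT2⟩
  obtain ⟨A, rfl⟩ := toC_surj T
  refine ⟨A, ⟨?_, ?_⟩, rfl⟩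
  · rw [mem_Is_iff hS]
    intro a
    have := hT1 a
    simp only [hσ] at this
    exact this
  · have h2 : f z0 ^ l ≠ 0 := pow_ne_zero _ hf
    have h3 := mul_right_cancel₀ h2 (hT2.trans (one_mul _).symm)
    rw [FinFib_348.det_toC] at h3
    exact h3

/-- Finiteness is transported by an isometry. -/
theorem J_finite_of {E : Type*} [NormedAddCommGroup E] [NormedSpace ℂ E] [FiniteDimensional ℂ E]
    {V : Type*} [NormedAddCommGroup V] [NormedSpace ℂ V] [FiniteDimensional ℂ V]
    {Φ : E → V → ℝ} {f : E → ℂ} {p : ℝ} {B : Set E} {k l : ℕ} (D : GlobN_739.Data Φ f p B)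
    {z1 z2 : E} (h1 : z1 ∈ B) (h2 : z2 ∈ B) (hne : (GlobN_739.J Φ f k l z1 z2).Nonempty)
    (hfin : (GlobN_739.J Φ f k l z2 z2).Finite) : (GlobN_739.J Φ f k l z1 z1).Finite := by
  obtain ⟨A, hA⟩ := hne
  have hA' := D.inv_mem h1 h2 hA
  have hu := D.isUnit h1 h2 hA
  refine (hfin.image fun g => Ring.inverse A * g * A).subset fun T hT => ?_
  refine ⟨A * T * Ring.inverse A, ?_, ?_⟩
  · exact GlobN_739.Data.mul_mem (GlobN_739.Data.mul_mem hA hT) hA'
  · show Ring.inverse A * (A * T * Ring.inverse A) * A = T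
    have h3 : Ring.inverse A * A = 1 := Ring.inverse_mul_cancel A hu
    calc Ring.inverse A * (A * T * Ring.inverse A) * A
        = (Ring.inverse A * A) * T * (Ring.inverse A * A) := by simp only [mul_assoc]
      _ = T := by rw [h3, one_mul, mul_one]

/-- A nonzero polynomial in the coordinates does not vanish identically near a point. -/
theorem frequently_ne {n : ℕ} {P : MvPolynomial (Fin n) ℂ} (hP : P ≠ 0) (a : Fin n → ℂ) :
    ∃ᶠ z in 𝓝 a, MvPolynomial.eval z P ≠ 0 := by
  have h1 := Crest.Agent.R271.Null956.ae_eval_ne hP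
  rw [Filter.Frequently]
  intro hcon
  simp only [ne_eq, not_not] at hcon
  obtain ⟨U, hU, hUo, haU⟩ := mem_nhds_iff.1 hcon
  have h2 : 0 < volume U := hUo.measure_pos volume ⟨a, haU⟩
  have h3 : volume U = 0 := by
    rw [ae_iff] at h1
    refine measure_mono_null ?_ h1
    intro z hz
    simpa using hU hz
  exact h2.ne' h3

end Crest.Agent.R276.FinSat_348
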