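import Mathlib
import Crest.Agent.R276.FKFin_849
import Crest.Agent.R276.FK3G_595
import Crest.Agent.R276.Honest2_231

/-!
# Row 276 (S0419): the whole algebraic half

`of_coreBeta : CoreBeta → (exact statement of S0419)`.
-/

set_option autoImplicit false

open AlgebraicGeometry Order CategoryTheory Crest.AlgGeometry.Divisors TopologicalSpace
open Crest.Agent.R276.FKDefs_779 Crest.Agent.R276.BetaDefs_231

namespace Crest.Agent.R276.Final_231

/-- **S0419 from the geometric core `CoreBeta`.** -/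
theorem of_coreBeta (hcore : CoreBeta)
    (X Z : Scheme.{0}) [Algebra ℂ Γ(X, ⊤)] [Algebra ℂ Γ(Z, ⊤)]
    [IsIntegral X] [IsLocallyNoetherian X] [IsIntegral Z] [IsLocallyNoetherian Z] (n m : ℕ)
    (hX : IsSmoothProperVariety ℂ X n) (hZ : IsSmoothProperVariety ℂ Z m)
    (_hXp : ∃ A : WeilDiv X, IsAmple A) (_hZp : ∃ A : WeilDiv Z, IsAmple A)
    (f : X ⟶ Z) (hf : f ≫ structureMorphism ℂ Z = structureMorphism ℂ X)
    (hsurj : Function.Surjective f.base)
    (hconn : ∀ z : Spec (CommRingCat.of ℂ) ⟶ Z, z ≫ structureMorphism ℂ Z = 𝟙 _ →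
      PreconnectedSpace ↥(Limits.pullback f z))
    (KX : WeilDiv X) (hKX : IsCanonicalDivisor ℂ X n KX)
    (KZ : WeilDiv Z) (hKZ : IsCanonicalDivisor ℂ Z m KZ) :
    ∃ C : ℕ → Set Z, (∀ i, IsClosed (C i) ∧ C i ≠ Set.univ) ∧
      ∀ z : Spec (CommRingCat.of ℂ) ⟶ Z, z ≫ structureMorphism ℂ Z = 𝟙 _ →
        (∀ i, z.base (IsLocalRing.closedPoint ℂ) ∉ C i) →
        ∀ d e : ℕ, FibreKodairaDimGe ℂ f z (n - m) d → KodairaDimGe ℂ Z KZ e →
          KodairaDimGe ℂ X KX (d + e) := by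
  have h := FK3D_595.specializes_of_surjective f hsurj
  exact FKFin_849.mainBeta hcore X Z n m hX hZ f hf hsurj hconn KX hKX KZ hKZ
    (FK3G_595.fnHom X Z f hf h) (FK3G_595.fnHom_germ X Z f hf h)
    (Honest2_231.honest_rel hX f _ (FK3G_595.fnHom_germ X Z f hf h))
    (FK3G_595.vgfBeta X Z n m hX hZ f hf h)

end Crest.Agent.R276.Final_231
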