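import Crest.Agent.R276.VCalcC_442
import Crest.Agent.R276.IpcDefs_735

/-!
# R276, IPC-STEP (helper454): polarised filtrations and grading operators, linear algebra

`IsFl n S F` : decreasing filtration `F 0 = ⊤, …, F (n+1) = 0` of `ℂ^N`, `(-1)^p S > 0` on
`F p ∩ (F (p+1))^⊥`.  `IsGr n S F E` : `E` is the grading operator of the filtration.
-/

set_option autoImplicit false

noncomputable section

open Set Filter Topology Matrix
open Crest.Agent.R276.Ipc735

namespace Crest.Agent.R276.Flag_454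

variable {N : ℕ}

/-- the sesquilinear form `uᴴ S v` -/
def sf (S : Matrix (Fin N) (Fin N) ℂ) (u v : Fin N → ℂ) : ℂ := star u ⬝ᵥ (S *ᵥ v)

lemma sf_sub (S : Matrix (Fin N) (Fin N) ℂ) (u v w : Fin N → ℂ) :
    sf S u (v - w) = sf S u v - sf S u w := by
  simp [sf, mulVec_sub, dotProduct_sub]

lemma sf_add (S : Matrix (Fin N) (Fin N) ℂ) (u v w : Fin N → ℂ) :
    sf S u (v + w) = sf S u v + sf S u w := by
  simp [sf, mulVec_add, dotProduct_add]

/-- moving a matrix with `S M = M'ᴴ S` to the other side -/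
lemma sf_adj {S M M' : Matrix (Fin N) (Fin N) ℂ} (h : S * M = M'ᴴ * S) (u v : Fin N → ℂ) :
    sf S u (M *ᵥ v) = sf S (M' *ᵥ u) v := by
  unfold sf
  rw [mulVec_mulVec, h, ← mulVec_mulVec, star_mulVec, ← dotProduct_mulVec]

/-- `F` is a polarised filtration -/
structure IsFl (n : ℕ) (S : Matrix (Fin N) (Fin N) ℂ) (F : ℕ → Submodule ℂ (Fin N → ℂ)) :
    Prop where
  herm : S.IsHermitian
  top : F 0 = ⊤
  bot : F (n + 1) = ⊥
  anti : ∀ p, F (p + 1) ≤ F p
  pos : ∀ p v, v ∈ F p → (∀ u ∈ F (p + 1), sf S u v = 0) → v ≠ 0 →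
    0 < (-1 : ℝ) ^ p * (sf S v v).re

/-- `J` is the `S`-orthogonal projector onto `F` -/
structure IsPrj (S : Matrix (Fin N) (Fin N) ℂ) (F : Submodule ℂ (Fin N → ℂ))
    (J : Matrix (Fin N) (Fin N) ℂ) : Prop where
  mem : ∀ v, J *ᵥ v ∈ F
  fix : ∀ v ∈ F, J *ᵥ v = v
  adj : S * J = Jᴴ * S

/-- `E` is the grading operator of the filtration `F` -/
def IsGr (n : ℕ) (S : Matrix (Fin N) (Fin N) ℂ) (F : ℕ → Submodule ℂ (Fin N → ℂ))
    (E : Matrix (Fin N) (Fin N) ℂ) : Prop :=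
  ∃ J : ℕ → Matrix (Fin N) (Fin N) ℂ, (∀ p, IsPrj S (F p) (J p)) ∧
    E = ∑ p ∈ Finset.range n, J (p + 1)

variable {n : ℕ} {S : Matrix (Fin N) (Fin N) ℂ} {F : ℕ → Submodule ℂ (Fin N → ℂ)}

namespace IsFl

lemma antitone (h : IsFl n S F) : Antitone F := antitone_nat_of_succ_le h.anti

/-- nondegeneracy on every step -/
lemma nd (h : IsFl n S F) {p : ℕ} {v : Fin N → ℂ} (hv : v ∈ F p)
    (h0 : ∀ u ∈ F p, sf S u v = 0) : v = 0 := by
  by_contra hne
  have h1 := h.pos p v hv (fun u hu => h0 u (h.anti p hu)) hne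
  rw [h0 v hv] at h1
  simp at h1

lemma bot' (h : IsFl n S F) {p : ℕ} (hp : n < p) : F p = ⊥ :=
  le_bot_iff.1 (h.bot ▸ h.antitone hp)

lemma isUnit_det (h : IsFl n S F) : IsUnit S.det := by
  rw [isUnit_iff_ne_zero]
  intro hd
  obtain ⟨v, hv, hv0⟩ := exists_mulVec_eq_zero_iff.2 hd
  refine hv (h.nd (p := 0) (by rw [h.top]; trivial) fun u _ => ?_)
  simp [sf, hv0]

lemma S_cancel (h : IsFl n S F) {M M' : Matrix (Fin N) (Fin N) ℂ} (hM : S * M = S * M') :
    M = M' := by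
  have := congrArg (fun A => S⁻¹ * A) hM
  simp only [← Matrix.mul_assoc, Matrix.nonsing_inv_mul S h.isUnit_det, Matrix.one_mul] at this
  exact this

end IsFl

/-- **Gram formula**: the projector onto the range of the frame `A` -/
lemma isPrj_gram {r : ℕ} {A : Matrix (Fin N) (Fin r) ℂ} (hS : S.IsHermitian)
    {F : Submodule ℂ (Fin N → ℂ)} (hA : ∀ v, v ∈ F ↔ ∃ c, v = A *ᵥ c)
    (hG : IsUnit (Aᴴ * S * A).det) : IsPrj S F (A * (Aᴴ * S * A)⁻¹ * Aᴴ * S) where
  mem v := by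
    rw [hA]
    exact ⟨((Aᴴ * S * A)⁻¹ * Aᴴ * S) *ᵥ v, by
      rw [mulVec_mulVec]; simp only [Matrix.mul_assoc]⟩
  fix v hv := by
    obtain ⟨c, rfl⟩ := (hA v).1 hv
    rw [mulVec_mulVec]
    have h1 : A * (Aᴴ * S * A)⁻¹ * Aᴴ * S * A = A := by
      have : A * (Aᴴ * S * A)⁻¹ * Aᴴ * S * A = A * ((Aᴴ * S * A)⁻¹ * (Aᴴ * S * A)) := by
        simp only [Matrix.mul_assoc]
      rw [this, Matrix.nonsing_inv_mul _ hG, Matrix.mul_one]
    rw [h1]
  adj := by
    have h2 : (Aᴴ * S * A)ᴴ = Aᴴ * S * A := by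
      rw [conjTranspose_mul, conjTranspose_mul, conjTranspose_conjTranspose, hS.eq,
        Matrix.mul_assoc]
    rw [conjTranspose_mul, conjTranspose_mul, conjTranspose_mul, conjTranspose_conjTranspose,
      conjTranspose_nonsing_inv, h2, hS.eq]
    simp only [Matrix.mul_assoc]

/-- the Gram matrix of an injective frame of a nondegenerate subspace is invertible -/
lemma isUnit_gram {r : ℕ} {A : Matrix (Fin N) (Fin r) ℂ}
    {F : Submodule ℂ (Fin N → ℂ)} (hA : ∀ v, v ∈ F ↔ ∃ c, v = A *ᵥ c)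
    (hinj : ∀ c, A *ᵥ c = 0 → c = 0)
    (hnd : ∀ v ∈ F, (∀ u ∈ F, sf S u v = 0) → v = 0) : IsUnit (Aᴴ * S * A).det := by
  rw [isUnit_iff_ne_zero]
  intro hd
  obtain ⟨c, hc, hc0⟩ := exists_mulVec_eq_zero_iff.2 hd
  refine hc (hinj c (hnd _ ((hA _).2 ⟨c, rfl⟩) fun u hu => ?_))
  obtain ⟨d, rfl⟩ := (hA u).1 hu
  unfold sf
  rw [star_mulVec, ← dotProduct_mulVec, mulVec_mulVec, mulVec_mulVec, hc0,
    dotProduct_zero]

/-- every subspace has a frame -/
lemma exists_frame (F : Submodule ℂ (Fin N → ℂ)) : ∃ (r : ℕ) (A : Matrix (Fin N) (Fin r) ℂ),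
    (∀ v, v ∈ F ↔ ∃ c, v = A *ᵥ c) ∧ ∀ c, A *ᵥ c = 0 → c = 0 := by
  let b := Module.finBasis ℂ F
  refine ⟨Module.finrank ℂ F, Matrix.of fun i j => (b j : Fin N → ℂ) i, ?_, ?_⟩
  · have key : ∀ c : Fin (Module.finrank ℂ F) → ℂ,
        (Matrix.of fun i j => (b j : Fin N → ℂ) i) *ᵥ c = ((∑ j, c j • b j : F) : Fin N → ℂ) := by
      intro c
      ext i
      simp [mulVec, dotProduct, mul_comm]
    intro v
    constructor
    · intro hv
      refine ⟨b.repr ⟨v, hv⟩, ?_⟩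
      rw [key, b.sum_repr]
    · rintro ⟨c, rfl⟩
      rw [key]
      exact Submodule.coe_mem _
  · intro c hc
    have h1 : ((∑ j, c j • b j : F) : Fin N → ℂ) = 0 := by
      rw [← hc]
      ext i
      simp [mulVec, dotProduct, mul_comm]
    have h2 : (∑ j, c j • b j : F) = 0 := Subtype.ext h1
    have h3 := Fintype.linearIndependent_iff.1 b.linearIndependent c h2
    ext j
    exact h3 j

namespace IsPrj

variable {G : Submodule ℂ (Fin N → ℂ)} {J J' : Matrix (Fin N) (Fin N) ℂ}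

lemma orth (h : IsPrj S G J) {u : Fin N → ℂ} (hu : u ∈ G) (v : Fin N → ℂ) :
    sf S u (J *ᵥ v) = sf S u v := by
  rw [sf_adj h.adj, h.fix u hu]

lemma orth' (h : IsPrj S G J) {u : Fin N → ℂ} (hu : u ∈ G) (v : Fin N → ℂ) :
    sf S u (v - J *ᵥ v) = 0 := by
  rw [sf_sub, h.orth hu, sub_self]

lemma mul_of_le {G' : Submodule ℂ (Fin N → ℂ)} (h : IsPrj S G J) (h' : IsPrj S G' J')
    (hle : G' ≤ G) : J * J' = J' := by
  apply Matrix.ext_of_mulVec_single
  intro j
  rw [← mulVec_mulVec]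
  exact h.fix _ (hle (h'.mem _))

end IsPrj

namespace IsFl

lemma exists_prj (h : IsFl n S F) (p : ℕ) : ∃ J, IsPrj S (F p) J := by
  obtain ⟨r, A, hA, hinj⟩ := exists_frame (F p)
  exact ⟨_, isPrj_gram h.herm hA (isUnit_gram hA hinj fun v hv h0 => h.nd hv h0)⟩

lemma prj_unique (h : IsFl n S F) {p : ℕ} {J J' : Matrix (Fin N) (Fin N) ℂ}
    (h1 : IsPrj S (F p) J) (h2 : IsPrj S (F p) J') : J = J' := by
  have e1 : J * J' = J' := h1.mul_of_le h2 le_rfl
  have e2 : J' * J = J := h2.mul_of_le h1 le_rfl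
  apply h.S_cancel
  calc S * J = S * (J' * J) := by rw [e2]
    _ = J'ᴴ * (S * J) := by rw [← Matrix.mul_assoc, h2.adj, Matrix.mul_assoc]
    _ = (J * J')ᴴ * S := by rw [h1.adj, ← Matrix.mul_assoc, conjTranspose_mul]
    _ = S * J' := by rw [e1, h2.adj]

lemma prj_mul_right (h : IsFl n S F) {p q : ℕ} {J J' : Matrix (Fin N) (Fin N) ℂ}
    (h1 : IsPrj S (F p) J) (h2 : IsPrj S (F q) J') (hpq : p ≤ q) : J' * J = J' := by
  have e1 : J * J' = J' := h1.mul_of_le h2 (h.antitone hpq)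
  apply h.S_cancel
  calc S * (J' * J) = J'ᴴ * (S * J) := by rw [← Matrix.mul_assoc, h2.adj, Matrix.mul_assoc]
    _ = (J * J')ᴴ * S := by rw [h1.adj, ← Matrix.mul_assoc, conjTranspose_mul]
    _ = S * J' := by rw [e1, h2.adj]

lemma prj_zero (h : IsFl n S F) {J : Matrix (Fin N) (Fin N) ℂ} (h1 : IsPrj S (F 0) J) :
    J = 1 := by
  apply Matrix.ext_of_mulVec_single
  intro j
  rw [Matrix.one_mulVec]
  exact h1.fix _ (by rw [h.top]; trivial)

lemma prj_last (h : IsFl n S F) {p : ℕ} (hp : n < p) {J : Matrix (Fin N) (Fin N) ℂ}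
    (h1 : IsPrj S (F p) J) : J = 0 := by
  apply Matrix.ext_of_mulVec_single
  intro j
  rw [Matrix.zero_mulVec]
  have := h1.mem (Pi.single j 1)
  rw [h.bot' hp] at this
  exact (Submodule.mem_bot ℂ).1 this

lemma exists_gr (h : IsFl n S F) : ∃ E, IsGr n S F E := by
  choose J hJ using h.exists_prj
  exact ⟨_, J, hJ, rfl⟩

lemma gr_unique (h : IsFl n S F) {E E' : Matrix (Fin N) (Fin N) ℂ} (h1 : IsGr n S F E)
    (h2 : IsGr n S F E') : E = E' := by
  obtain ⟨J, hJ, rfl⟩ := h1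
  obtain ⟨J', hJ', rfl⟩ := h2
  exact Finset.sum_congr rfl fun p _ => h.prj_unique (hJ _) (hJ' _)

section gr

variable {J : ℕ → Matrix (Fin N) (Fin N) ℂ}

lemma prj_mul (h : IsFl n S F) (hJ : ∀ p, IsPrj S (F p) (J p)) (p q : ℕ) :
    J p * J q = J (max p q) := by
  rcases le_total p q with hpq | hpq
  · rw [max_eq_right hpq]
    exact (hJ p).mul_of_le (hJ q) (h.antitone hpq)
  · rw [max_eq_left hpq]
    exact h.prj_mul_right (hJ q) (hJ p) hpq

/-- `Q p = J p - J (p+1)` : eigenprojector -/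
lemma gr_mul_Q (h : IsFl n S F) (hJ : ∀ p, IsPrj S (F p) (J p)) {p : ℕ} (hp : p ≤ n) :
    (∑ q ∈ Finset.range n, J (q + 1)) * (J p - J (p + 1)) = (p : ℂ) • (J p - J (p + 1)) := by
  rw [Finset.sum_mul]
  have h1 : ∀ q ∈ Finset.range n, J (q + 1) * (J p - J (p + 1)) =
      if q < p then (J p - J (p + 1)) else 0 := by
    intro q _
    rw [Matrix.mul_sub, h.prj_mul hJ, h.prj_mul hJ]
    split_ifs with hq
    · rw [max_eq_right (by omega : q + 1 ≤ p), max_eq_right (by omega : q + 1 ≤ p + 1)]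
    · rw [max_eq_left (by omega : p ≤ q + 1), max_eq_left (by omega : p + 1 ≤ q + 1), sub_self]
  rw [Finset.sum_congr rfl h1, ← Finset.sum_filter, Finset.sum_const]
  have h2 : (Finset.range n).filter (fun q => q < p) = Finset.range p := by
    ext q
    simp only [Finset.mem_filter, Finset.mem_range]
    omega
  rw [h2, Finset.card_range, Nat.cast_smul_eq_nsmul]

lemma Q_mul_gr (h : IsFl n S F) (hJ : ∀ p, IsPrj S (F p) (J p)) {p : ℕ} (hp : p ≤ n) :
    (J p - J (p + 1)) * (∑ q ∈ Finset.range n, J (q + 1)) = (p : ℂ) • (J p - J (p + 1)) := by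
  rw [Finset.mul_sum]
  have h1 : ∀ q ∈ Finset.range n, (J p - J (p + 1)) * J (q + 1) =
      if q < p then (J p - J (p + 1)) else 0 := by
    intro q _
    rw [Matrix.sub_mul, h.prj_mul hJ, h.prj_mul hJ]
    split_ifs with hq
    · rw [max_eq_left (by omega : q + 1 ≤ p), max_eq_left (by omega : q + 1 ≤ p + 1)]
    · rw [max_eq_right (by omega : p ≤ q + 1), max_eq_right (by omega : p + 1 ≤ q + 1), sub_self]
  rw [Finset.sum_congr rfl h1, ← Finset.sum_filter, Finset.sum_const]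
  have h2 : (Finset.range n).filter (fun q => q < p) = Finset.range p := by
    ext q
    simp only [Finset.mem_filter, Finset.mem_range]
    omega
  rw [h2, Finset.card_range, Nat.cast_smul_eq_nsmul]

lemma sum_Q (h : IsFl n S F) (hJ : ∀ p, IsPrj S (F p) (J p)) :
    ∑ p ∈ Finset.range (n + 1), (J p - J (p + 1)) = 1 := by
  rw [Finset.sum_range_sub', h.prj_zero (hJ 0), h.prj_last (Nat.lt_succ_self n) (hJ (n + 1)),
    sub_zero]

/-- functional calculus -/
lemma aeval_gr (h : IsFl n S F) (hJ : ∀ p, IsPrj S (F p) (J p)) (f : Polynomial ℂ) :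
    Polynomial.aeval (∑ q ∈ Finset.range n, J (q + 1)) f =
      ∑ p ∈ Finset.range (n + 1), f.eval (p : ℂ) • (J p - J (p + 1)) := by
  have key : ∀ p ≤ n, ∀ f : Polynomial ℂ,
      Polynomial.aeval (∑ q ∈ Finset.range n, J (q + 1)) f * (J p - J (p + 1)) =
        f.eval (p : ℂ) • (J p - J (p + 1)) := by
    intro p hp f
    induction f using Polynomial.induction_on' with
    | add f g hf hg => rw [map_add, Matrix.add_mul, hf, hg, Polynomial.eval_add, add_smul]
    | monomial k a =>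
      rw [Polynomial.aeval_monomial, Polynomial.eval_monomial]
      have h1 : ∀ k : ℕ, (∑ q ∈ Finset.range n, J (q + 1)) ^ k * (J p - J (p + 1)) =
          (p : ℂ) ^ k • (J p - J (p + 1)) := by
        intro k
        induction k with
        | zero => simp
        | succ k ih =>
          rw [pow_succ, Matrix.mul_assoc, h.gr_mul_Q hJ hp, Matrix.mul_smul, ih, smul_smul,
            pow_succ, mul_comm]
      rw [Matrix.mul_assoc, h1, Algebra.algebraMap_eq_smul_one, Matrix.smul_mul, Matrix.one_mul,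
        smul_smul]
  calc Polynomial.aeval (∑ q ∈ Finset.range n, J (q + 1)) f
      = Polynomial.aeval (∑ q ∈ Finset.range n, J (q + 1)) f *
          ∑ p ∈ Finset.range (n + 1), (J p - J (p + 1)) := by rw [h.sum_Q hJ, Matrix.mul_one]
    _ = _ := by
      rw [Finset.mul_sum]
      exact Finset.sum_congr rfl fun p hp => key p (by simpa [Nat.lt_succ_iff] using hp) f

end gr

/-- an eigenvector of the grading operator -/
lemma eig_iff (h : IsFl n S F) {E : Matrix (Fin N) (Fin N) ℂ} (hE : IsGr n S F E) {p : ℕ}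
    (hp : p ≤ n) (v : Fin N → ℂ) :
    E *ᵥ v = (p : ℂ) • v ↔ v ∈ F p ∧ ∀ u ∈ F (p + 1), sf S u v = 0 := by
  obtain ⟨J, hJ, rfl⟩ := hE
  constructor
  · intro hv
    have h0 : ∀ q ∈ Finset.range (n + 1), q ≠ p → (J q - J (q + 1)) *ᵥ v = 0 := by
      intro q hq hqp
      have h1 : (J q - J (q + 1)) *ᵥ ((∑ q ∈ Finset.range n, J (q + 1)) *ᵥ v) =
          (q : ℂ) • ((J q - J (q + 1)) *ᵥ v) := by
        rw [mulVec_mulVec, h.Q_mul_gr hJ (by simpa [Nat.lt_succ_iff] using hq), smul_mulVec]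
      rw [hv, mulVec_smul] at h1
      have h2 : ((p : ℂ) - q) • ((J q - J (q + 1)) *ᵥ v) = 0 := by
        rw [sub_smul, h1, sub_self]
      rcases smul_eq_zero.1 h2 with h3 | h3
      · exact absurd (by exact_mod_cast (sub_eq_zero.1 h3).symm) hqp
      · exact h3
    have h1 : v = (J p - J (p + 1)) *ᵥ v := by
      have h2 : v = (∑ q ∈ Finset.range (n + 1), (J q - J (q + 1))) *ᵥ v := by
        rw [h.sum_Q hJ, Matrix.one_mulVec]
      rw [Matrix.sum_mulVec] at h2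
      rw [Finset.sum_eq_single_of_mem p (by simpa [Nat.lt_succ_iff] using hp) h0] at h2
      exact h2
    refine ⟨?_, fun u hu => ?_⟩
    · rw [h1, Matrix.sub_mulVec]
      exact Submodule.sub_mem _ ((hJ p).mem v) (h.anti p ((hJ (p + 1)).mem v))
    · rw [h1, Matrix.sub_mulVec, sf_sub, (hJ p).orth (h.anti p hu), (hJ (p + 1)).orth hu, sub_self]
  · rintro ⟨hv, h0⟩
    have h1 : J (p + 1) *ᵥ v = 0 := by
      refine h.nd ((hJ (p + 1)).mem v) fun u hu => ?_
      rw [(hJ (p + 1)).orth hu]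
      exact h0 u hu
    have h2 : (J p - J (p + 1)) *ᵥ v = v := by
      rw [Matrix.sub_mulVec, (hJ p).fix v hv, h1, sub_zero]
    calc (∑ p ∈ Finset.range n, J (p + 1)) *ᵥ v
        = (∑ p ∈ Finset.range n, J (p + 1)) *ᵥ ((J p - J (p + 1)) *ᵥ v) := by rw [h2]
      _ = (p : ℂ) • v := by
        rw [mulVec_mulVec, h.gr_mul_Q hJ hp, smul_mulVec, h2]

lemma top_iff (h : IsFl n S F) {E : Matrix (Fin N) (Fin N) ℂ} (hE : IsGr n S F E)
    (v : Fin N → ℂ) : E *ᵥ v = (n : ℂ) • v ↔ v ∈ F n := by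
  rw [h.eig_iff hE le_rfl, h.bot]
  constructor
  · exact fun h => h.1
  · intro hv
    refine ⟨hv, fun u hu => ?_⟩
    rw [(Submodule.mem_bot ℂ).1 hu]
    simp [sf]

/-- **the grading operator defines a polarised Hodge structure** -/
theorem isHS (h : IsFl n S F) {E : Matrix (Fin N) (Fin N) ℂ} (hE : IsGr n S F E) :
    IsHS n S E where
  herm := h.herm
  adj := by
    obtain ⟨J, hJ, rfl⟩ := hE
    rw [Finset.mul_sum, conjTranspose_sum, Finset.sum_mul]
    exact Finset.sum_congr rfl fun p _ => (hJ _).adj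
  eig := by
    obtain ⟨J, hJ, rfl⟩ := hE
    rw [h.aeval_gr hJ]
    apply Finset.sum_eq_zero
    intro p hp
    rw [Polynomial.eval_prod, Finset.prod_eq_zero hp (by simp), zero_smul]
  pos p v hp hv hE' := by
    obtain ⟨h1, h2⟩ := (h.eig_iff hE hp v).1 hE'
    exact h.pos p v h1 h2 hv

end IsFl

end Crest.Agent.R276.Flag_454
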