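import Crest.Agent.R276.FlagA_454

/-!
# R276, IPC-STEP (helper454): a holomorphic transversal filtration gives a smooth grading operator
with `[E, ∂_v E] = - ∂_v E`
-/

set_option autoImplicit false
set_option linter.unusedSectionVars false

noncomputable section

open Set Filter Topology Matrix
open scoped ContDiff ComplexConjugate
open Crest.Agent.R276.Ipc735 Crest.Agent.R276.VCalc_442

namespace Crest.Agent.R276.Flag_454

variable {X : Type*} [NormedAddCommGroup X] [NormedSpace ℂ X]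
variable {N : ℕ} {ι κ μ : Type*} [Fintype ι] [Fintype κ] [Fintype μ]

/-! ### entrywise smoothness -/

/-- entrywise smooth at a point -/
def ESm (M : X → Matrix ι κ ℂ) (x : X) : Prop := ∀ i j, ContDiffAt ℝ ∞ (fun z => M z i j) x

lemma contDiffAt_star {f : X → ℂ} {x : X} (hf : ContDiffAt ℝ ∞ f x) :
    ContDiffAt ℝ ∞ (fun z => star (f z)) x :=
  (Complex.conjCLE.contDiff.contDiffAt).comp x hf

lemma ESm.mul {M : X → Matrix ι κ ℂ} {K : X → Matrix κ μ ℂ} {x : X} (hM : ESm M x)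
    (hK : ESm K x) : ESm (fun z => M z * K z) x := by
  intro i j
  simp only [Matrix.mul_apply]
  exact ContDiffAt.sum fun k _ => (hM i k).mul (hK k j)

lemma ESm.sub {M K : X → Matrix ι κ ℂ} {x : X} (hM : ESm M x)
    (hK : ESm K x) : ESm (fun z => M z - K z) x := by
  intro i j
  simp only [Matrix.sub_apply]
  exact (hM i j).sub (hK i j)

lemma ESm.ct {M : X → Matrix ι κ ℂ} {x : X} (hM : ESm M x) : ESm (fun z => (M z)ᴴ) x := by
  intro i j
  simp only [Matrix.conjTranspose_apply]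
  exact contDiffAt_star (hM j i)

lemma ESm.const (M : Matrix ι κ ℂ) (x : X) : ESm (fun _ => M) x := fun _ _ => contDiffAt_const

lemma ESm.det {r : ℕ} {M : X → Matrix (Fin r) (Fin r) ℂ} {x : X} (hM : ESm M x) :
    ContDiffAt ℝ ∞ (fun z => (M z).det) x := by
  simp only [Matrix.det_apply]
  refine ContDiffAt.sum fun σ _ => ?_
  refine ContDiffAt.const_smul _ ?_
  exact contDiffAt_prod fun i _ => hM (σ i) i

lemma ESm.adjugate {r : ℕ} {M : X → Matrix (Fin r) (Fin r) ℂ} {x : X} (hM : ESm M x) :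
    ESm (fun z => (M z).adjugate) x := by
  intro i j
  simp only [Matrix.adjugate_apply]
  apply ESm.det
  intro a b
  by_cases h : a = j
  · subst h
    simp only [Matrix.updateRow_self]
    exact contDiffAt_const
  · simp only [Matrix.updateRow_ne h]
    exact hM a b

lemma ESm.inv {r : ℕ} {M : X → Matrix (Fin r) (Fin r) ℂ} {x : X} (hM : ESm M x)
    (hd : IsUnit (M x).det) : ESm (fun z => (M z)⁻¹) x := by
  intro i j
  simp only [Matrix.inv_def, Matrix.smul_apply, smul_eq_mul, Ring.inverse_eq_inv']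
  exact (hM.det.inv hd.ne_zero).mul (hM.adjugate i j)

lemma ESm.continuousAt_det {r : ℕ} {M : X → Matrix (Fin r) (Fin r) ℂ} {x : X} (hM : ESm M x) :
    ContinuousAt (fun z => (M z).det) x := hM.det.continuousAt

lemma ESm.congr {M K : X → Matrix ι κ ℂ} {x : X} (hM : ESm M x) (h : K =ᶠ[𝓝 x] M) : ESm K x := by
  intro i j
  refine (hM i j).congr_of_eventuallyEq ?_
  filter_upwards [h] with z hz
  rw [hz]

lemma ESm.diff {M : X → Matrix ι κ ℂ} {x : X} (hM : ESm M x) (i : ι) (j : κ) :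
    DifferentiableAt ℝ (fun z => M z i j) x := (hM i j).differentiableAt (by simp)

lemma ESm.sum {s : Finset ℕ} {M : ℕ → X → Matrix ι κ ℂ} {x : X} (hM : ∀ p ∈ s, ESm (M p) x) :
    ESm (fun z => ∑ p ∈ s, M p z) x := by
  intro i j
  simp only [Matrix.sum_apply]
  exact ContDiffAt.sum fun p hp => hM p hp i j

/-! ### Wirtinger derivatives of products of rectangular matrices -/

lemma dW_fsum {α : Type*} {s : Finset α} {f : α → X → ℂ} {x : X} (hf : ∀ k ∈ s, DifferentiableAt ℝ (f k) x)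
    (v : X) : dW (fun z => ∑ k ∈ s, f k z) v x = ∑ k ∈ s, dW (f k) v x := by
  unfold dW
  rw [fderiv_fun_sum hf]
  simp only [_root_.sum_apply, Finset.smul_sum, ← Finset.sum_sub_distrib]

lemma dB_fsum {α : Type*} {s : Finset α} {f : α → X → ℂ} {x : X} (hf : ∀ k ∈ s, DifferentiableAt ℝ (f k) x)
    (v : X) : dB (fun z => ∑ k ∈ s, f k z) v x = ∑ k ∈ s, dB (f k) v x := by
  unfold dB
  rw [fderiv_fun_sum hf]
  simp only [_root_.sum_apply, Finset.smul_sum, ← Finset.sum_add_distrib]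

lemma mW_mul' {M : X → Matrix ι κ ℂ} {K : X → Matrix κ μ ℂ} {x : X} (hM : ESm M x)
    (hK : ESm K x) (v : X) :
    mW (fun z => M z * K z) v x = mW M v x * K x + M x * mW K v x := by
  ext i j
  simp only [mW, Matrix.of_apply, Matrix.mul_apply, Matrix.add_apply]
  rw [dW_fsum (fun k _ => (hM.diff i k).fun_mul (hK.diff k j)), ← Finset.sum_add_distrib]
  exact Finset.sum_congr rfl fun k _ => by rw [dW_mul (hM.diff i k) (hK.diff k j)]

lemma mB_mul' {M : X → Matrix ι κ ℂ} {K : X → Matrix κ μ ℂ} {x : X} (hM : ESm M x)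
    (hK : ESm K x) (v : X) :
    mB (fun z => M z * K z) v x = mB M v x * K x + M x * mB K v x := by
  ext i j
  simp only [mB, Matrix.of_apply, Matrix.mul_apply, Matrix.add_apply]
  rw [dB_fsum (fun k _ => (hM.diff i k).fun_mul (hK.diff k j)), ← Finset.sum_add_distrib]
  exact Finset.sum_congr rfl fun k _ => by rw [dB_mul (hM.diff i k) (hK.diff k j)]

lemma mW_congr' {M K : X → Matrix ι κ ℂ} {x : X} (h : M =ᶠ[𝓝 x] K) (v : X) :
    mW M v x = mW K v x := by
  ext i j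
  simp only [mW, Matrix.of_apply]
  exact dW_congr (h.mono fun z hz => by rw [hz]) v

lemma mB_congr' {M K : X → Matrix ι κ ℂ} {x : X} (h : M =ᶠ[𝓝 x] K) (v : X) :
    mB M v x = mB K v x := by
  ext i j
  simp only [mB, Matrix.of_apply]
  exact dB_congr (h.mono fun z hz => by rw [hz]) v

lemma mW_const' (M : Matrix ι κ ℂ) (v x : X) : mW (fun _ : X => M) v x = 0 := by
  ext i j
  simp [mW]

lemma mB_const' (M : Matrix ι κ ℂ) (v x : X) : mB (fun _ : X => M) v x = 0 := by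
  ext i j
  simp [mB]

lemma mW_ct' {M : X → Matrix ι κ ℂ} {x : X} (hM : ESm M x) (v : X) :
    mW (fun z => (M z)ᴴ) v x = (mB M v x)ᴴ := by
  ext i j
  simp only [mW, mB, Matrix.of_apply, Matrix.conjTranspose_apply]
  exact dW_star (hM.diff j i) v

/-- complex differentiable entries: `∂̄ = 0` -/
lemma mB_eq_zero {M : X → Matrix ι κ ℂ} {x : X} (h : ∀ i j, DifferentiableAt ℂ (fun z => M z i j) x)
    (v : X) : mB M v x = 0 := by
  ext i j
  simp only [mB, Matrix.of_apply, Matrix.zero_apply, dB]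
  have h1 : fderiv ℝ (fun z => M z i j) x = (fderiv ℂ (fun z => M z i j) x).restrictScalars ℝ :=
    ((h i j).hasFDerivAt.restrictScalars ℝ).fderiv
  rw [h1]
  simp only [ContinuousLinearMap.coe_restrictScalars', map_smul, smul_eq_mul]
  rw [← mul_assoc, Complex.I_mul_I]
  ring

/-- complex differentiable entries: `∂_v` is the derivative -/
lemma mW_eq_fderiv {M : X → Matrix ι κ ℂ} {x : X}
    (h : ∀ i j, DifferentiableAt ℂ (fun z => M z i j) x) (v : X) (i : ι) (j : κ) :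
    mW M v x i j = fderiv ℂ (fun z => M z i j) x v := by
  simp only [mW, Matrix.of_apply, dW]
  have h1 : fderiv ℝ (fun z => M z i j) x = (fderiv ℂ (fun z => M z i j) x).restrictScalars ℝ :=
    ((h i j).hasFDerivAt.restrictScalars ℝ).fderiv
  rw [h1]
  simp only [ContinuousLinearMap.coe_restrictScalars', map_smul, smul_eq_mul]
  rw [← mul_assoc, Complex.I_mul_I]
  ring

/-! ### the main theorem -/

/-- a holomorphic frame of the family of subspaces `F` near `z₀` -/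
def HasFrame (F : X → Submodule ℂ (Fin N → ℂ)) (z₀ : X) : Prop :=
  ∃ (r : ℕ) (f : X → Matrix (Fin N) (Fin r) ℂ), (∀ i j, AnalyticAt ℂ (fun z => f z i j) z₀) ∧
    ∀ᶠ z in 𝓝 z₀, (∀ c, f z *ᵥ c = 0 → c = 0) ∧ ∀ v, v ∈ F z ↔ ∃ c, v = f z *ᵥ c

/-- transversality at the point `z₀` -/
def Trans (F : X → ℕ → Submodule ℂ (Fin N → ℂ)) (z₀ : X) : Prop :=
  ∀ (p : ℕ) (c : X → Fin N → ℂ), AnalyticAt ℂ c z₀ → (∀ᶠ z in 𝓝 z₀, c z ∈ F z (p + 1)) →
    ∀ v, fderiv ℂ c z₀ v ∈ F z₀ p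

lemma ESm.of_analytic {M : X → Matrix ι κ ℂ} {x : X}
    (h : ∀ i j, AnalyticAt ℂ (fun z => M z i j) x) : ESm M x := fun i j =>
  ((h i j).contDiffAt (n := ∞)).restrict_scalars ℝ

variable {n : ℕ} {S : Matrix (Fin N) (Fin N) ℂ} {z₀ : X} {F : X → ℕ → Submodule ℂ (Fin N → ℂ)}

lemma ext_of_frame {r : ℕ} {G : Submodule ℂ (Fin N → ℂ)} {A : Matrix (Fin N) (Fin r) ℂ}
    {J K : Matrix (Fin N) (Fin N) ℂ} (hJ : IsPrj S G J) (hA : ∀ v, v ∈ G ↔ ∃ c, v = A *ᵥ c)
    (h : K * A = 0) : K * J = 0 := by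
  apply Matrix.ext_of_mulVec_single
  intro j
  obtain ⟨c, hc⟩ := (hA _).1 (hJ.mem (Pi.single j 1))
  rw [← mulVec_mulVec, hc, mulVec_mulVec, h, zero_mulVec, zero_mulVec]

theorem flag_prj (hF : ∀ᶠ z in 𝓝 z₀, IsFl n S (F z)) (hfr : ∀ p, HasFrame (fun z => F z p) z₀)
    (htr : Trans F z₀) : ∃ J : ℕ → X → Matrix (Fin N) (Fin N) ℂ,
      (∀ p, ∀ᶠ z in 𝓝 z₀, IsPrj S (F z p) (J p z)) ∧ (∀ p, ESm (J p) z₀) ∧
      (∀ p v, mB (J p) v z₀ * J p z₀ = 0) ∧ (∀ p v, J p z₀ * mW (J p) v z₀ = 0) ∧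
      (∀ p v, mW (J p) v z₀ * J p z₀ = mW (J p) v z₀) ∧
      (∀ p v, J p z₀ * mW (J (p + 1)) v z₀ = mW (J (p + 1)) v z₀) := by
  choose r f han hfr' using hfr
  have hsm : ∀ p, ESm (f p) z₀ := fun p => ESm.of_analytic (han p)
  have hdf : ∀ p i j, DifferentiableAt ℂ (fun z => f p z i j) z₀ :=
    fun p i j => (han p i j).differentiableAt
  have hF0 := hF.self_of_nhds
  have hG : ∀ p, ∀ᶠ z in 𝓝 z₀, IsUnit ((f p z)ᴴ * S * f p z).det := by
    intro p
    filter_upwards [hfr' p, hF] with z hz hFz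
    exact isUnit_gram hz.2 hz.1 fun v hv h0 => hFz.nd hv h0
  set J : ℕ → X → Matrix (Fin N) (Fin N) ℂ := fun p z =>
    f p z * ((f p z)ᴴ * S * f p z)⁻¹ * (f p z)ᴴ * S with hJdef
  have hJ : ∀ p, ∀ᶠ z in 𝓝 z₀, IsPrj S (F z p) (J p z) := by
    intro p
    filter_upwards [hfr' p, hF, hG p] with z hz hFz hGz
    exact isPrj_gram hFz.herm hz.2 hGz
  have hJs : ∀ p, ESm (J p) z₀ := by
    intro p
    have h1 : ESm (fun z => (f p z)ᴴ * S * f p z) z₀ :=
      ((hsm p).ct.mul (ESm.const S z₀)).mul (hsm p)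
    exact (((hsm p).mul (h1.inv (hG p).self_of_nhds)).mul (hsm p).ct).mul (ESm.const S z₀)
  have e1 : ∀ p v, mB (J p) v z₀ * f p z₀ = 0 := by
    intro p v
    have h1 : (fun z => J p z * f p z) =ᶠ[𝓝 z₀] f p := by
      filter_upwards [hfr' p, hJ p] with z hz hJz
      apply Matrix.ext_of_mulVec_single
      intro j
      rw [← mulVec_mulVec]
      exact hJz.fix _ ((hz.2 _).2 ⟨_, rfl⟩)
    have h2 := mB_congr' h1 v
    rw [mB_mul' (hJs p) (hsm p), mB_eq_zero (hdf p), Matrix.mul_zero, add_zero] at h2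
    exact h2
  have e2 : ∀ p v, mB (J p) v z₀ * J p z₀ = 0 := fun p v =>
    ext_of_frame (hJ p).self_of_nhds (hfr' p).self_of_nhds.2 (e1 p v)
  have e3 : ∀ p v, J p z₀ * mW (J p) v z₀ = 0 := by
    intro p v
    have h1 : (fun z => S * J p z) =ᶠ[𝓝 z₀] fun z => (J p z)ᴴ * S := by
      filter_upwards [hJ p] with z hJz using hJz.adj
    have h2 := mW_congr' h1 v
    rw [mW_mul' (ESm.const S z₀) (hJs p), mW_mul' (hJs p).ct (ESm.const S z₀), mW_const',
      Matrix.zero_mul, zero_add, Matrix.mul_zero, add_zero, mW_ct' (hJs p)] at h2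
    apply hF0.S_cancel
    rw [Matrix.mul_zero, ← Matrix.mul_assoc, (hJ p).self_of_nhds.adj, Matrix.mul_assoc, h2,
      ← Matrix.mul_assoc, ← conjTranspose_mul, e2, conjTranspose_zero, Matrix.zero_mul]
  have e4 : ∀ p v, mW (J p) v z₀ * J p z₀ = mW (J p) v z₀ := by
    intro p v
    have h1 : (fun z => J p z * J p z) =ᶠ[𝓝 z₀] J p := by
      filter_upwards [hJ p] with z hJz using hJz.mul_of_le hJz le_rfl
    have h2 := mW_congr' h1 v
    rw [mW_mul' (hJs p) (hJs p), e3, add_zero] at h2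
    exact h2
  refine ⟨J, hJ, hJs, e2, e3, e4, ?_⟩
  intro p v
  have t1 : J p z₀ * mW (f (p + 1)) v z₀ = mW (f (p + 1)) v z₀ := by
    apply Matrix.ext_of_mulVec_single
    intro j
    rw [← mulVec_mulVec]
    refine (hJ p).self_of_nhds.fix _ ?_
    have h1 : DifferentiableAt ℂ (fun z => f (p + 1) z *ᵥ Pi.single j 1) z₀ := by
      rw [differentiableAt_pi]
      intro i
      simp only [mulVec_single_one, Matrix.col_apply]
      exact hdf (p + 1) i j
    have h1a : AnalyticAt ℂ (fun z => f (p + 1) z *ᵥ Pi.single j 1) z₀ := by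
      rw [analyticAt_pi_iff]
      intro i
      simp only [mulVec_single_one, Matrix.col_apply]
      exact han (p + 1) i j
    have h2 := htr p (fun z => f (p + 1) z *ᵥ Pi.single j 1) h1a
      ((hfr' (p + 1)).mono fun z hz => (hz.2 _).2 ⟨_, rfl⟩) v
    convert h2 using 1
    ext i
    rw [mulVec_single_one, Matrix.col_apply, mW_eq_fderiv (hdf (p + 1))]
    have h3 := (hasFDerivAt_pi'.1 h1.hasFDerivAt i).fderiv
    simp only [mulVec_single_one, Matrix.col_apply] at h3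
    rw [h3]
    simp
  have t2 : mW (J (p + 1)) v z₀ * f (p + 1) z₀ + J (p + 1) z₀ * mW (f (p + 1)) v z₀ =
      mW (f (p + 1)) v z₀ := by
    have h1 : (fun z => J (p + 1) z * f (p + 1) z) =ᶠ[𝓝 z₀] f (p + 1) := by
      filter_upwards [hfr' (p + 1), hJ (p + 1)] with z hz hJz
      apply Matrix.ext_of_mulVec_single
      intro j
      rw [← mulVec_mulVec]
      exact hJz.fix _ ((hz.2 _).2 ⟨_, rfl⟩)
    have h2 := mW_congr' h1 v
    rw [mW_mul' (hJs (p + 1)) (hsm (p + 1))] at h2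
    exact h2
  have t3 : J p z₀ * J (p + 1) z₀ = J (p + 1) z₀ :=
    (hJ p).self_of_nhds.mul_of_le (hJ (p + 1)).self_of_nhds (hF0.anti p)
  have t4 : (J p z₀ * mW (J (p + 1)) v z₀ - mW (J (p + 1)) v z₀) * f (p + 1) z₀ = 0 := by
    have h1 : mW (J (p + 1)) v z₀ * f (p + 1) z₀ =
        mW (f (p + 1)) v z₀ - J (p + 1) z₀ * mW (f (p + 1)) v z₀ := eq_sub_of_add_eq t2
    rw [Matrix.sub_mul, Matrix.mul_assoc, h1, Matrix.mul_sub, t1, ← Matrix.mul_assoc, t3, sub_self]
  have t5 := ext_of_frame (hJ (p + 1)).self_of_nhds (hfr' (p + 1)).self_of_nhds.2 t4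
  rw [Matrix.sub_mul, Matrix.mul_assoc, e4, sub_eq_zero] at t5
  exact t5

lemma mW_fsum {s : Finset ℕ} {M : ℕ → X → Matrix ι κ ℂ} {x : X} (hM : ∀ p ∈ s, ESm (M p) x)
    (v : X) : mW (fun z => ∑ p ∈ s, M p z) v x = ∑ p ∈ s, mW (M p) v x := by
  ext i j
  simp only [mW, Matrix.of_apply, Matrix.sum_apply]
  rw [dW_fsum (fun k hk => (hM k hk).diff i j)]

/-- **FLAG**: a holomorphic filtration, polarised at every point, transversal at `z₀`, has a smooth
grading operator with `[E, ∂_v E] = -∂_v E` at `z₀`. -/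
theorem flag {E : X → Matrix (Fin N) (Fin N) ℂ} (hF : ∀ᶠ z in 𝓝 z₀, IsFl n S (F z))
    (hfr : ∀ p, HasFrame (fun z => F z p) z₀) (htr : Trans F z₀)
    (hE : ∀ᶠ z in 𝓝 z₀, IsGr n S (F z) (E z)) :
    ESm E z₀ ∧ ∀ v, E z₀ * mW E v z₀ - mW E v z₀ * E z₀ = - mW E v z₀ := by
  obtain ⟨J, hJ, hJs, -, e3, e4, e5⟩ := flag_prj hF hfr htr
  have hF0 := hF.self_of_nhds
  have hEJ : E =ᶠ[𝓝 z₀] fun z => ∑ p ∈ Finset.range n, J (p + 1) z := by
    have h1 : ∀ᶠ z in 𝓝 z₀, ∀ p ∈ Finset.range n, IsPrj S (F z (p + 1)) (J (p + 1) z) := by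
      rw [Filter.eventually_all_finset]
      exact fun p _ => hJ (p + 1)
    filter_upwards [h1, hE, hF] with z h1 h2 h3
    obtain ⟨K, hK, hEz⟩ := h2
    rw [hEz]
    exact Finset.sum_congr rfl fun p hp => h3.prj_unique (hK _) (h1 p hp)
  have hsum : ∀ p ∈ Finset.range n, ESm (fun z => J (p + 1) z) z₀ := fun p _ => hJs (p + 1)
  have hES : ESm E z₀ := (ESm.sum (M := fun p z => J (p + 1) z) hsum).congr hEJ
  refine ⟨hES, fun v => ?_⟩
  have hW : mW E v z₀ = ∑ p ∈ Finset.range n, mW (J (p + 1)) v z₀ := by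
    rw [mW_congr' hEJ]
    exact mW_fsum (M := fun p z => J (p + 1) z) hsum v
  have hJm : ∀ p q, J p z₀ * J q z₀ = J (max p q) z₀ := by
    intro p q
    exact hF0.prj_mul (J := fun p => J p z₀) (fun p => (hJ p).self_of_nhds) p q
  have e6 : ∀ p, mW (J p) v z₀ * J (p + 1) z₀ = 0 := by
    intro p
    have h1 : (fun z => J p z * J (p + 1) z) =ᶠ[𝓝 z₀] J (p + 1) := by
      filter_upwards [hJ p, hJ (p + 1), hF] with z h1 h2 h3 using h1.mul_of_le h2 (h3.anti p)
    have h2 := mW_congr' h1 v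
    rw [mW_mul' (hJs p) (hJs (p + 1)), e5] at h2
    simpa using h2
  have hE0 : E z₀ = ∑ q ∈ Finset.range n, J (q + 1) z₀ := hEJ.self_of_nhds
  -- action on each piece
  have a1 : ∀ p ∈ Finset.range n, E z₀ * mW (J (p + 1)) v z₀ = (p : ℂ) • mW (J (p + 1)) v z₀ := by
    intro p hp
    have hp' : p < n := Finset.mem_range.1 hp
    rw [hE0, Finset.sum_mul]
    have h1 : ∀ q ∈ Finset.range n, J (q + 1) z₀ * mW (J (p + 1)) v z₀ =
        if q < p then mW (J (p + 1)) v z₀ else 0 := by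
      intro q _
      split_ifs with hq
      · rw [← e5 p v, ← Matrix.mul_assoc, hJm, max_eq_right (by omega : q + 1 ≤ p)]
      · have h2 : J (q + 1) z₀ = J (q + 1) z₀ * J (p + 1) z₀ := by
          rw [hJm, max_eq_left (by omega : p + 1 ≤ q + 1)]
        rw [h2, Matrix.mul_assoc, e3, Matrix.mul_zero]
    rw [Finset.sum_congr rfl h1, ← Finset.sum_filter, Finset.sum_const]
    have h2 : (Finset.range n).filter (fun q => q < p) = Finset.range p := by
      ext q
      simp only [Finset.mem_filter, Finset.mem_range]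
      omega
    rw [h2, Finset.card_range, Nat.cast_smul_eq_nsmul]
  have a2 : ∀ p ∈ Finset.range n, mW (J (p + 1)) v z₀ * E z₀ =
      ((p : ℂ) + 1) • mW (J (p + 1)) v z₀ := by
    intro p hp
    have hp' : p < n := Finset.mem_range.1 hp
    rw [hE0, Finset.mul_sum]
    have h1 : ∀ q ∈ Finset.range n, mW (J (p + 1)) v z₀ * J (q + 1) z₀ =
        if q < p + 1 then mW (J (p + 1)) v z₀ else 0 := by
      intro q _
      split_ifs with hq
      · rw [← e4 (p + 1) v, Matrix.mul_assoc, hJm, max_eq_left (by omega : q + 1 ≤ p + 1)]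
      · have h2 : J (q + 1) z₀ = J (p + 1 + 1) z₀ * J (q + 1) z₀ := by
          rw [hJm, max_eq_right (by omega : p + 1 + 1 ≤ q + 1)]
        rw [h2, ← Matrix.mul_assoc, e6, Matrix.zero_mul]
    rw [Finset.sum_congr rfl h1, ← Finset.sum_filter, Finset.sum_const]
    have h2 : (Finset.range n).filter (fun q => q < p + 1) = Finset.range (p + 1) := by
      ext q
      simp only [Finset.mem_filter, Finset.mem_range]
      omega
    rw [h2, Finset.card_range, ← Nat.cast_smul_eq_nsmul ℂ]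
    push_cast
    rfl
  rw [hW, Finset.mul_sum, Finset.sum_mul, ← Finset.sum_sub_distrib, ← Finset.sum_neg_distrib]
  refine Finset.sum_congr rfl fun p hp => ?_
  rw [a1 p hp, a2 p hp, ← sub_smul]
  have : (p : ℂ) - ((p : ℂ) + 1) = -1 := by ring
  rw [this, neg_one_smul]

end Crest.Agent.R276.Flag_454
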