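import Mathlib
import Crest.Agent.R276.FlatN_464
import Crest.Agent.R276.FinE_39
import Crest.Agent.R276.CInd_870

/-!
# R276, leaf FLATALG (helper464), part A: assembly, abstract form

`G` connected Riemann domain, `X z` (`z ∈ G`) measure spaces, `σ z : X z → ℂˢ`, `p = 2/N`.
* `IE_mul`, `IE_DD` : `∫ ∏ ‖P(σ(x_j))‖ₑ^α ‖det‖ₑ^(-β)` (values in `[0,∞]`, `0⁻¹ = ∞`);
* `Hyp` : the hypotheses (LT) [LEMMA N], (FL), finiteness, `D z = ∫ ‖det‖^p`;
* `Pt` : hypotheses at one point `z0`: (FRI), identity theorem on the fibre, independence;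
* `Hyp.dat` : `Dat (PHI ν σ p) ((f z0/f z)^N) M z0`;
* `flat_abs` : the conclusion of `SkelDefs_220.Flat` in abstract form.
-/

set_option autoImplicit false
set_option linter.unusedSectionVars false

noncomputable section

open Set Filter Topology Matrix MeasureTheory
open scoped ENNReal
open Crest.Agent.R271.Ho51

namespace Crest.Agent.R276.FlatA_464

open Crest.Agent.R276.FlatT_464 Crest.Agent.R276.FlatM_464 Crest.Agent.R276.FlatN_464
open Crest.Agent.R276.Ipc735 (HolAt)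

theorem ofReal_rpow_norm (x : ℂ) {p : ℝ} (hp : 0 ≤ p) :
    ENNReal.ofReal (‖x‖ ^ p) = ‖x‖ₑ ^ p := by
  rw [← ENNReal.ofReal_rpow_of_nonneg (norm_nonneg _) hp, ofReal_norm]

section fam

variable {G : Type*} {s : ℕ} {X : G → Type*} [∀ z, MeasurableSpace (X z)]
variable {ν : ∀ z, Measure (X z)} {σ : ∀ z, X z → Fin s → ℂ} {p : ℝ}

/-- `∫ ∏_j ‖P(σ(x_j))‖ₑ^α ‖det σ(x)‖ₑ^{-β}` over the `s`-fold product of the fibre -/
def IE (ν : ∀ z, Measure (X z)) (σ : ∀ z, X z → Fin s → ℂ) (P : G → MvPolynomial (Fin s) ℂ)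
    (α β : ℝ) (z : G) : ℝ≥0∞ :=
  ∫⁻ x, (∏ j : Fin s, ‖MvPolynomial.eval (σ z (x j)) (P z)‖ₑ ^ α) *
    ‖(Matrix.of fun j : Fin s => σ z (x j)).det‖ₑ ^ (-β) ∂(Measure.pi fun _ : Fin s => ν z)

/-- for homogeneous `P z` with `P z = P z0 ∘ Aᵀ`, `k α - β = p`: `‖det A‖ₑ^{-β} I(z) = I(z0)` -/
theorem IE_mul [∀ z, SigmaFinite (ν z)] (hp : 0 < p) (hp2 : p < 2) (hσ : ∀ z, Measurable (σ z))
    {z0 z : G} (hfin : ∀ a, PHI ν σ p z0 a ≠ ∞) {A : Matrix (Fin s) (Fin s) ℂ}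
    (hA : A ∈ Is (PHI ν σ p) z0 z) (hd : A.det ≠ 0) {P : G → MvPolynomial (Fin s) ℂ} {k : ℕ}
    (hPk : (P z0).IsHomogeneous k)
    (hP : ∀ x : Fin s → ℂ, MvPolynomial.eval x (P z) = MvPolynomial.eval (Aᵀ *ᵥ x) (P z0))
    {α β : ℝ} (hα : 0 < α) (hk : 0 < k) (hαβ : k * α - β = p) :
    ‖A.det‖ₑ ^ (-β) * IE ν σ P α β z = IE ν σ P α β z0 := by
  set h : (Fin s → Fin s → ℂ) → ℝ≥0∞ := fun x =>
    (∏ j : Fin s, ‖MvPolynomial.eval (x j) (P z0)‖ₑ ^ α) * ‖(Matrix.of x).det‖ₑ ^ (-β) with hh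
  have hev : Measurable fun v : Fin s → ℂ => MvPolynomial.eval v (P z0) :=
    (MvPolynomial.continuous_eval (P z0)).measurable
  have hm : Measurable h := by
    refine Measurable.mul ?_ ((measurable_det.enorm).pow_const _)
    exact Finset.measurable_fun_prod _ fun j _ => ((hev.comp (measurable_pi_apply j)).enorm).pow_const α
  have hhom : HomEach p h := by
    intro j c x
    rw [hh]
    simp only
    rw [det_update]
    have h1 : ∏ i : Fin s, ‖MvPolynomial.eval (Function.update x j (fun i => c * x j i) i)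
        (P z0)‖ₑ ^ α = (‖c‖ₑ ^ k) ^ α * ∏ i : Fin s, ‖MvPolynomial.eval (x i) (P z0)‖ₑ ^ α := by
      rw [← Finset.mul_prod_erase Finset.univ _ (Finset.mem_univ j),
        ← Finset.mul_prod_erase Finset.univ (fun i => ‖MvPolynomial.eval (x i) (P z0)‖ₑ ^ α)
        (Finset.mem_univ j), ← mul_assoc]
      congr 1
      · rw [Function.update_self, eval_homog hPk, enorm_mul, enorm_pow,
          ENNReal.mul_rpow_of_nonneg _ _ hα.le]
      · refine Finset.prod_congr rfl fun i hi => ?_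
        rw [Function.update_of_ne (Finset.ne_of_mem_erase hi)]
    rw [h1, enorm_mul, ENNReal.mul_rpow_of_ne_top enorm_ne_top enorm_ne_top,
      ofReal_rpow_norm c hp.le]
    by_cases hc : c = 0
    · subst hc
      rw [enorm_zero, zero_pow hk.ne', ENNReal.zero_rpow_of_pos hα, ENNReal.zero_rpow_of_pos hp]
      simp
    · have hc0 : ‖c‖ₑ ≠ 0 := enorm_ne_zero.2 hc
      have h2 : (‖c‖ₑ ^ k) ^ α * ‖c‖ₑ ^ (-β) = ‖c‖ₑ ^ p := by
        rw [← ENNReal.rpow_natCast, ← ENNReal.rpow_mul, ← ENNReal.rpow_add _ _ hc0 enorm_ne_top,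
          ← hαβ]
        congr 1
      calc (‖c‖ₑ ^ k) ^ α * (∏ i : Fin s, ‖MvPolynomial.eval (x i) (P z0)‖ₑ ^ α) *
            (‖c‖ₑ ^ (-β) * ‖(Matrix.of x).det‖ₑ ^ (-β))
          = ((‖c‖ₑ ^ k) ^ α * ‖c‖ₑ ^ (-β)) * ((∏ i : Fin s, ‖MvPolynomial.eval (x i) (P z0)‖ₑ ^ α) *
            ‖(Matrix.of x).det‖ₑ ^ (-β)) := by ring
        _ = _ := by rw [h2]
  have h1 := equi_pi (ν := ν) hp hp2 hσ hfin hA hm hhom
  unfold IE
  simp only [hh] at h1
  have hdne : ‖A.det‖ₑ ^ (-β) ≠ ∞ := by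
    rw [Ne, ENNReal.rpow_eq_top_iff]
    rintro (⟨h2, -⟩ | ⟨h2, -⟩)
    · exact enorm_ne_zero.2 hd h2
    · exact enorm_ne_top h2
  rw [h1, ← lintegral_const_mul' _ _ hdne]
  refine lintegral_congr fun x => ?_
  rw [det_mulVec, enorm_mul, ENNReal.mul_rpow_of_ne_top enorm_ne_top enorm_ne_top]
  simp only [hP]
  ring

end fam

section main

variable {n : ℕ} {G : Type*} [TopologicalSpace G] [RDom n G] [PreconnectedSpace G] {s : ℕ}
variable {X : G → Type*} [∀ z, MeasurableSpace (X z)]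
variable {ν : ∀ z, Measure (X z)} {σ : ∀ z, X z → Fin s → ℂ} {p : ℝ}
variable {D : G → ℂ} {m : ℕ} {z0 : G}

/-- **`I(z) D(z)^{β/p}` is constant** -/
theorem IE_DD [∀ z, SigmaFinite (ν z)] (h : Dat (PHI ν σ p) D m z0) (hp : 0 < p) (hp2 : p < 2)
    (hσ : ∀ z, Measurable (σ z)) (hfin : ∀ a, PHI ν σ p z0 a ≠ ∞) (a : Fin s → ℂ) {α β : ℝ}
    (hα : 0 < α) (hβ : 0 ≤ β) (hαβ : (deg (PHI ν σ p) D m z0) * α - β = p) (z : G) :
    IE ν σ (fun z => nrm (PHI ν σ p) D m z0 z a) α β z * DD ν σ p z ^ (β / p) =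
      IE ν σ (fun z => nrm (PHI ν σ p) D m z0 z a) α β z0 * DD ν σ p z0 ^ (β / p) := by
  obtain ⟨A, hA⟩ := h.nonempty z
  have hd := Is.det_ne h.toNm hA.1
  have h1 := IE_mul hp hp2 hσ hfin hA.1 hd (P := fun z => nrm (PHI ν σ p) D m z0 z a)
    (nrm_homog h z0 a) (fun x => nrm_transport h hA a x) hα h.deg_pos hαβ
  have h2 := DD_mul hp hp2 hσ hfin hA.1
  rw [ofReal_rpow_norm _ hp.le] at h2
  have hde : ‖A.det‖ₑ ≠ 0 := enorm_ne_zero.2 hd
  rw [← h1, ← h2, ENNReal.mul_rpow_of_nonneg _ _ (by positivity), ← ENNReal.rpow_mul]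
  have h3 : p * (β / p) = β := by field_simp
  have h4 : ‖A.det‖ₑ ^ (-β) * ‖A.det‖ₑ ^ β = 1 := by
    rw [← ENNReal.rpow_add _ _ hde enorm_ne_top]
    simp
  rw [h3]
  calc IE ν σ (fun z => nrm (PHI ν σ p) D m z0 z a) α β z * DD ν σ p z ^ (β / p)
      = 1 * (IE ν σ (fun z => nrm (PHI ν σ p) D m z0 z a) α β z * DD ν σ p z ^ (β / p)) := by
        rw [one_mul]
    _ = _ := by rw [← h4]; ring

end main

/-! ### finiteness of the group (39's `finite_of_det`) -/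

section fin

open Crest.Agent.R276.FinC_39 Crest.Agent.R276.FinD_39 Crest.Agent.R276.FinE_39

variable {Y : Type*} [MeasurableSpace Y] {μ : Measure Y} {s : ℕ} {τ : Y → Fin s → ℂ} {p : ℝ}

/-- the linear map `a ↦ a·τ` -/
def evl (τ : Y → Fin s → ℂ) : (Fin s → ℂ) →ₗ[ℂ] (Y → ℂ) where
  toFun a x := ∑ i, a i * τ x i
  map_add' a b := by
    funext x
    simp [add_mul, Finset.sum_add_distrib]
  map_smul' c a := by
    funext x
    simp [Finset.mul_sum, mul_assoc]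

theorem finNorm (hp : 0 < p) (hp1 : p ≤ 1) (hτ : Measurable τ)
    (hfin : ∀ a : Fin s → ℂ, ∫⁻ x, ENNReal.ofReal (‖∑ i, a i * τ x i‖ ^ p) ∂μ ≠ ∞)
    (hne : ∀ a : Fin s → ℂ, a ≠ 0 → ∀ᵐ x ∂μ, ∑ i, a i * τ x i ≠ 0) (hμ : μ ≠ 0) :
    FinNorm p (fun a : Fin s → ℂ =>
      (∫⁻ x, ENNReal.ofReal (‖∑ i, a i * τ x i‖ ^ p) ∂μ).toReal) := by
  have hm : ∀ a : Fin s → ℂ, Measurable fun x => ∑ i, a i * τ x i := fun a =>
    Finset.measurable_fun_sum _ fun i _ => ((measurable_pi_apply i).comp hτ).const_mul _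
  have h1 := finNorm_integral (μ := μ) hp hp1 (evl τ) (fun a => by
      refine ⟨((hm a).norm.pow_const p).aestronglyMeasurable, ?_⟩
      rw [hasFiniteIntegral_iff_ofReal (Eventually.of_forall fun x => by positivity)]
      exact (hfin a).lt_top) hne hμ
  have h2 : (fun a : Fin s → ℂ => (∫⁻ x, ENNReal.ofReal (‖∑ i, a i * τ x i‖ ^ p) ∂μ).toReal) =
      fun a => ∫ x, ‖evl τ a x‖ ^ p ∂μ := by
    funext a
    exact (integral_eq_lintegral_of_nonneg_ae (f := fun x => ‖∑ i, a i * τ x i‖ ^ p)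
      (Eventually.of_forall fun x => by positivity)
      ((hm a).norm.pow_const p).aestronglyMeasurable).symm
  rw [h2]
  exact h1

/-- **(FIN)** in terms of matrices -/
theorem finite_iso (hp : 0 < p) (hp1 : p ≤ 1) (hτ : Measurable τ)
    (hfin : ∀ a : Fin s → ℂ, ∫⁻ x, ENNReal.ofReal (‖∑ i, a i * τ x i‖ ^ p) ∂μ ≠ ∞)
    (hne : ∀ a : Fin s → ℂ, a ≠ 0 → ∀ᵐ x ∂μ, ∑ i, a i * τ x i ≠ 0) (hμ : μ ≠ 0)
    {b : ℕ} {Q : MvPolynomial (Fin s) ℂ} (hQ : Q ≠ 0)
    (hL : LocRank b (fun a : Fin s → ℂ =>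
      (∫⁻ x, ENNReal.ofReal (‖∑ i, a i * τ x i‖ ^ p) ∂μ).toReal) (fun c => MvPolynomial.eval c Q))
    {k : ℕ} (hk : 0 < k) :
    {A : Matrix (Fin s) (Fin s) ℂ | (∀ a, ∫⁻ x, ENNReal.ofReal (‖∑ i, (A *ᵥ a) i * τ x i‖ ^ p) ∂μ =
      ∫⁻ x, ENNReal.ofReal (‖∑ i, a i * τ x i‖ ^ p) ∂μ) ∧ A.det ^ k = 1}.Finite := by
  have hF := finNorm hp hp1 hτ hfin hne hμ
  have hQd : Differentiable ℂ fun c : Fin s → ℂ => MvPolynomial.eval c Q := by
    intro c
    have := (AnalyticOnNhd.aeval_mvPolynomial (A := ℂ) (f := fun c : Fin s → ℂ => c)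
      (s := Set.univ) (fun i x _ => (ContinuousLinearMap.proj (R := ℂ) (φ := fun _ : Fin s => ℂ) i).analyticAt x) Q)
    have h2 := (this c (Set.mem_univ c)).differentiableAt
    simpa [MvPolynomial.aeval_eq_eval] using h2
  have hne' : ∃ c : Fin s → ℂ, MvPolynomial.eval c Q ≠ 0 := by
    by_contra h
    push Not at h
    exact hQ (MvPolynomial.funext fun c => by rw [h c, map_zero])
  set F : Matrix (Fin s) (Fin s) ℂ → ((Fin s → ℂ) →L[ℂ] (Fin s → ℂ)) := fun A =>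
    LinearMap.toContinuousLinearMap (Matrix.toLin' A) with hFdef
  have hFinj : Function.Injective F := fun A B h => by
    apply Matrix.toLin'.injective
    exact LinearMap.toContinuousLinearMap.injective h
  have h3 := finite_of_det hF hQd hne' hL hk (F '' {A : Matrix (Fin s) (Fin s) ℂ |
    (∀ a, ∫⁻ x, ENNReal.ofReal (‖∑ i, (A *ᵥ a) i * τ x i‖ ^ p) ∂μ =
      ∫⁻ x, ENNReal.ofReal (‖∑ i, a i * τ x i‖ ^ p) ∂μ) ∧ A.det ^ k = 1}) (by
        rintro _ ⟨A, hA, rfl⟩ a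
        have h4 : F A a = A *ᵥ a := by simp [hFdef]
        show (∫⁻ x, ENNReal.ofReal (‖∑ i, (F A a) i * τ x i‖ ^ p) ∂μ).toReal = _
        rw [h4, hA.1 a]) (by
        rintro _ ⟨A, hA, rfl⟩
        have h4 : ((F A : (Fin s → ℂ) →L[ℂ] (Fin s → ℂ)) : (Fin s → ℂ) →ₗ[ℂ] (Fin s → ℂ)) =
            Matrix.toLin' A := by
          simp [hFdef]
        rw [h4, LinearMap.det_toLin']
        exact hA.2)
  exact Set.Finite.of_finite_image h3 hFinj.injOn

end fin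

/-! ### the hypotheses -/

section hyp

open Crest.Agent.R276.FinC_39

variable {n : ℕ} {G : Type*} [TopologicalSpace G] [RDom n G] {s : ℕ}
variable {X : G → Type*} [∀ z, MeasurableSpace (X z)]

/-- hypotheses for all `z`: finiteness, `D`, (FL), (LT) -/
structure Hyp (ν : ∀ z, Measure (X z)) (σ : ∀ z, X z → Fin s → ℂ) (N : ℕ) (D : G → ℝ)
    (f : G → ℂ) (M : ℕ) : Prop where
  meas : ∀ z, Measurable (σ z)
  fin : ∀ z a, PHI ν σ (2 / (N : ℝ)) z a ≠ ∞
  D_pos : ∀ z, 0 < D z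
  D_eq : ∀ z, DD ν σ (2 / (N : ℝ)) z = ENNReal.ofReal (D z)
  M_pos : 0 < M
  f_hol : ∀ z, HolAt f z
  f_ne : ∀ z, f z ≠ 0
  fl : ∀ z, ‖f z‖ ^ 2 = D z ^ M
  lt : ∀ z1, ∃ T : G → Matrix (Fin s) (Fin s) ℂ, (∀ i j, HolAt (fun z => T z i j) z1) ∧
    ∀ᶠ z in 𝓝 z1, T z ∈ Is (PHI ν σ (2 / (N : ℝ))) z1 z

/-- hypotheses on one fibre: identity theorem, (FRI), independence -/
structure Pt {Y : Type*} [MeasurableSpace Y] (μ : Measure Y) (τ : Y → Fin s → ℂ) (N d : ℕ) :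
    Prop where
  ne : μ ≠ 0
  idt : ∀ P : MvPolynomial (Fin s) ℂ, (∃ x, MvPolynomial.eval (τ x) P ≠ 0) →
    ∀ᵐ x ∂μ, MvPolynomial.eval (τ x) P ≠ 0
  fri : ∃ (b : ℕ) (Q : MvPolynomial (Fin s) ℂ), Q ≠ 0 ∧ LocRank b (fun a : Fin s → ℂ =>
      (∫⁻ x, ENNReal.ofReal (‖∑ i, a i * τ x i‖ ^ (2 / (N : ℝ))) ∂μ).toReal)
      (fun c => MvPolynomial.eval c Q)
  ind : ∃ (i0 : Fin s) (ι : Fin d → Fin s), ∀ P : MvPolynomial (Fin d) ℂ, P ≠ 0 →
    ∃ x, τ x i0 ≠ 0 ∧ MvPolynomial.eval (fun j => τ x (ι j) / τ x i0) P ≠ 0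

variable {ν : ∀ z, Measure (X z)} {σ : ∀ z, X z → Fin s → ℂ} {N : ℕ} {D : G → ℝ} {f : G → ℂ}
  {M : ℕ}

theorem PHI_ne_zero [∀ z, SigmaFinite (ν z)] (hN : 0 < N) (h : Hyp ν σ N D f M) {z : G}
    {a : Fin s → ℂ} (ha : PHI ν σ (2 / (N : ℝ)) z a = 0) : a = 0 := by
  by_contra hne
  have hp : (0 : ℝ) < 2 / N := by positivity
  -- `a·σ = 0` almost everywhere
  have hm : Measurable fun x => ∑ i, a i * σ z x i :=
    Finset.measurable_fun_sum _ fun i _ => ((measurable_pi_apply i).comp (h.meas z)).const_mul _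
  have h1 : ∀ᵐ x ∂(ν z), ∑ i, a i * σ z x i = 0 := by
    have hm' : Measurable fun x => ENNReal.ofReal (‖∑ i, a i * σ z x i‖ ^ (2 / (N : ℝ))) :=
      ENNReal.measurable_ofReal.comp (hm.norm.pow_const _)
    have ha' : ∀ᵐ x ∂(ν z), ENNReal.ofReal (‖∑ i, a i * σ z x i‖ ^ (2 / (N : ℝ))) = 0 :=
      (lintegral_eq_zero_iff hm').1 ha
    filter_upwards [ha'] with x hx
    have h2 : ENNReal.ofReal (‖∑ i, a i * σ z x i‖ ^ (2 / (N : ℝ))) = 0 := hx
    rw [ofReal_rpow_norm _ hp.le, ENNReal.rpow_eq_zero_iff_of_pos hp] at h2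
    exact enorm_eq_zero.1 h2
  -- the determinant vanishes almost everywhere
  have h3 : DD ν σ (2 / (N : ℝ)) z = 0 := by
    unfold DD
    have hall : ∀ᵐ x ∂(Measure.pi fun _ : Fin s => ν z), ∀ j : Fin s,
        ∑ i, a i * σ z (x j) i = 0 := by
      rw [ae_all_iff]
      intro j
      exact (Measure.tendsto_eval_ae_ae (μ := fun _ : Fin s => ν z) (i := j)).eventually h1
    rw [lintegral_eq_zero_iff']
    · filter_upwards [hall] with x hx
      have h4 : (Matrix.of fun j : Fin s => σ z (x j)).det = 0 := by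
        apply Matrix.exists_mulVec_eq_zero_iff.1
        refine ⟨a, hne, ?_⟩
        ext j
        have := hx j
        simp only [Matrix.mulVec, dotProduct, Matrix.of_apply, Pi.zero_apply]
        rw [← this]
        exact Finset.sum_congr rfl fun i _ => mul_comm _ _
      simp [h4, Real.zero_rpow hp.ne']
    · refine (ENNReal.measurable_ofReal.comp ?_).aemeasurable
      refine Measurable.pow_const (Measurable.norm ?_) _
      exact measurable_det.comp (measurable_pi_lambda _ fun j =>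
        (h.meas z).comp (measurable_pi_apply j))
  rw [h.D_eq z, ENNReal.ofReal_eq_zero] at h3
  exact absurd (h.D_pos z) (not_lt.2 h3)

/-- **the data of `FlatT_464`** -/
theorem Hyp.dat [∀ z, SigmaFinite (ν z)] (hN : 2 ≤ N) (hs : 0 < s) (h : Hyp ν σ N D f M) {z0 : G}
    {d : ℕ} (h0 : Pt (ν z0) (σ z0) N d) :
    Dat (PHI ν σ (2 / (N : ℝ))) (fun z => (f z0 / f z) ^ N) M z0 := by
  have hN0 : (0 : ℝ) < N := by positivity
  have hp : (0 : ℝ) < 2 / N := by positivity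
  have hp1 : (2 / N : ℝ) ≤ 1 := by
    rw [div_le_one hN0]; exact_mod_cast hN
  have hp2 : (2 / N : ℝ) < 2 := by linarith
  refine { pos := ?_, circ := ?_, tr := h.lt, s_pos := hs, m_pos := h.M_pos, D_one := ?_,
           D_ne := ?_, D_hol := ?_, det := ?_, fin := ?_ }
  · intro z a ha
    rw [PHI_zero hp] at ha
    exact PHI_ne_zero (by omega) h ha
  · intro z c a hc
    exact PHI_circ z c a hc
  · simp [div_self (h.f_ne z0)]
  · intro z
    exact pow_ne_zero _ (div_ne_zero (h.f_ne z0) (h.f_ne z))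
  · intro z
    have h1 : HolAt (fun z => (f z0 * (f z)⁻¹) ^ N) z :=
      HolAt.pow (HolAt.mul (holAt_const _ z) (HolAt.inv (h.f_hol z) (h.f_ne z))) N
    simpa only [div_eq_mul_inv] using h1
  · intro z A hA
    have h1 := DD_mul hp hp2 h.meas (h.fin z0) hA
    rw [h.D_eq z, h.D_eq z0, ← ENNReal.ofReal_mul (by positivity),
      ENNReal.ofReal_eq_ofReal_iff (mul_nonneg (by positivity) (h.D_pos z).le)
        (h.D_pos z0).le] at h1
    have hA0 : 0 ≤ ‖A.det‖ := norm_nonneg _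
    have hfz : 0 < ‖f z‖ := norm_pos_iff.2 (h.f_ne z)
    have hfz0 : 0 < ‖f z0‖ := norm_pos_iff.2 (h.f_ne z0)
    -- take the power `M`
    have h2 : (‖A.det‖ ^ (2 / N : ℝ)) ^ M * ‖f z‖ ^ 2 = ‖f z0‖ ^ 2 := by
      rw [h.fl, h.fl, ← mul_pow, h1]
    have h3 : ((‖A.det‖ ^ (2 / N : ℝ)) ^ M) ^ N = (‖A.det‖ ^ M) ^ 2 := by
      rw [← Real.rpow_natCast, ← Real.rpow_natCast, ← Real.rpow_natCast, ← Real.rpow_natCast,
        ← Real.rpow_mul hA0, ← Real.rpow_mul hA0, ← Real.rpow_mul hA0]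
      congr 1
      push_cast
      field_simp
    have h4 : (‖A.det‖ ^ M) ^ 2 * (‖f z‖ ^ N) ^ 2 = (‖f z0‖ ^ N) ^ 2 := by
      have := congrArg (fun t => t ^ N) h2
      simp only [mul_pow] at this
      rw [h3] at this
      rw [pow_right_comm ‖f z‖ N 2, pow_right_comm ‖f z0‖ N 2]
      exact this
    have h5 : ‖A.det‖ ^ M * ‖f z‖ ^ N = ‖f z0‖ ^ N := by
      rw [← mul_pow] at h4
      exact (pow_left_inj₀ (by positivity) (by positivity) two_ne_zero).1 h4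
    rw [norm_pow, norm_div, div_pow, eq_div_iff (by positivity)]
    exact h5
  · refine (finite_iso hp hp1 (h.meas z0) (h.fin z0) ?_ h0.ne h0.fri.choose_spec.choose_spec.1
      h0.fri.choose_spec.choose_spec.2 h.M_pos).subset ?_
    · intro a ha
      have h1 := h0.idt (lin a) (by
        by_contra hcon
        push Not at hcon
        apply ha
        refine PHI_ne_zero (by omega) h (z := z0) ?_
        unfold PHI
        refine (lintegral_congr fun x => ?_).trans lintegral_zero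
        have := hcon x
        rw [lin_eval] at this
        rw [this]
        simp [Real.zero_rpow hp.ne'])
      filter_upwards [h1] with x hx
      rwa [lin_eval] at hx
    · rintro A ⟨hA, hA'⟩
      exact ⟨fun a => hA a, hA'⟩

/-! ### the ring of functions on one fibre -/

section ring

variable {Y : Type*} {s : ℕ} (τ : Y → Fin s → ℂ)

/-- `P ↦ P(τ)` -/
def evP : MvPolynomial (Fin s) ℂ →ₐ[ℂ] (Y → ℂ) := MvPolynomial.aeval (fun i x => τ x i)

theorem evP_apply (P : MvPolynomial (Fin s) ℂ) (x : Y) : evP τ P x = MvPolynomial.eval (τ x) P := by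
  have h1 := MvPolynomial.comp_aeval_apply (fun (i : Fin s) (x : Y) => τ x i)
    (Pi.evalAlgHom ℂ (fun _ : Y => ℂ) x) P
  rw [← MvPolynomial.aeval_eq_eval]
  exact h1

variable {τ} [MeasurableSpace Y] {μ : Measure Y}

theorem isDomain (hμ : μ ≠ 0) (hid : ∀ P : MvPolynomial (Fin s) ℂ,
    (∃ x, MvPolynomial.eval (τ x) P ≠ 0) → ∀ᵐ x ∂μ, MvPolynomial.eval (τ x) P ≠ 0) :
    IsDomain (evP τ).range := by
  have hY : Nonempty Y := by
    by_contra h
    rw [not_nonempty_iff] at h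
    exact hμ (Measure.eq_zero_of_isEmpty μ)
  have hbot : ae μ ≠ ⊥ := by rwa [Ne, ae_eq_bot]
  have hnz : NoZeroDivisors (evP τ).range := by
    refine ⟨?_⟩
    rintro ⟨_, P, rfl⟩ ⟨_, Q, rfl⟩ hPQ
    by_contra hcon
    push Not at hcon
    have hx : ∀ P : MvPolynomial (Fin s) ℂ, (⟨evP τ P, P, rfl⟩ : (evP τ).range) ≠ 0 →
        ∀ᵐ x ∂μ, MvPolynomial.eval (τ x) P ≠ 0 := by
      intro P hP
      apply hid
      by_contra hc
      push Not at hc
      apply hP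
      apply Subtype.ext
      funext x
      show evP τ P x = 0
      rw [evP_apply, hc x]
    have hf : ∀ᵐ x ∂μ, False := by
      filter_upwards [hx P hcon.1, hx Q hcon.2] with x h1 h2
      have h3 := congrArg (fun g : (evP τ).range => (g : Y → ℂ) x) hPQ
      have h4 : evP τ P x * evP τ Q x = 0 := h3
      rw [evP_apply, evP_apply] at h4
      exact mul_ne_zero h1 h2 h4
    rw [eventually_false_iff_eq_bot] at hf
    exact hbot hf
  have hnt : Nontrivial (evP τ).range := by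
    refine ⟨0, 1, fun h => ?_⟩
    obtain ⟨x⟩ := hY
    have h3 := congrArg (fun g : (evP τ).range => (g : Y → ℂ) x) h
    exact zero_ne_one h3
  exact NoZeroDivisors.to_isDomain _

/-- independence in the fraction field from the function form -/
theorem ind_frac [IsDomain (evP τ).range] {d : ℕ} {i0 : Fin s} {ι : Fin d → Fin s}
    (hind : ∀ P : MvPolynomial (Fin d) ℂ, P ≠ 0 →
      ∃ x, τ x i0 ≠ 0 ∧ MvPolynomial.eval (fun j => τ x (ι j) / τ x i0) P ≠ 0) :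
    AlgebraicIndependent ℂ (fun j =>
      algebraMap (evP τ).range (FractionRing (evP τ).range) ⟨_, MvPolynomial.X (ι j), rfl⟩ /
      algebraMap (evP τ).range (FractionRing (evP τ).range) ⟨_, MvPolynomial.X i0, rfl⟩) := by
  rw [algebraicIndependent_iff]
  intro P hP
  by_contra hne
  obtain ⟨x, hx0, hx⟩ := hind P hne
  set M := P.totalDegree with hM
  set A := (evP τ).range with hA
  set E := FractionRing A with hE
  set σB : Fin s → A := fun i => ⟨evP τ (MvPolynomial.X i), MvPolynomial.X i, rfl⟩ with hσB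
  have hσx : ∀ i, (σB i : Y → ℂ) x = τ x i := by
    intro i
    show evP τ (MvPolynomial.X i) x = _
    rw [evP_apply, MvPolynomial.eval_X]
  set b : A := EndInd_870.hz (algebraMap ℂ A) M (σB i0) (fun j => σB (ι j)) P with hb
  have h0 : algebraMap A E (σB i0) ≠ 0 := by
    rw [Ne, map_eq_zero_iff _ (IsFractionRing.injective A E)]
    intro h
    apply hx0
    rw [← hσx, h]
    rfl
  have hbE : algebraMap A E b = 0 := by
    have h1 := EndInd_870.map_hz (φ := algebraMap A E) (algebraMap ℂ A) M (σB i0)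
      (fun j => σB (ι j)) P
    rw [hb, h1, EndInd_870.hz_eq _ h0 _ (le_refl _)]
    have h3 : (algebraMap A E).comp (algebraMap ℂ A) = algebraMap ℂ E :=
      (IsScalarTower.algebraMap_eq ℂ A E).symm
    rw [h3]
    have h4 : MvPolynomial.eval₂ (algebraMap ℂ E)
        (fun i => algebraMap A E (σB (ι i)) / algebraMap A E (σB i0)) P = 0 := hP
    rw [h4, mul_zero]
  have hb0 : b = 0 := (map_eq_zero_iff _ (IsFractionRing.injective A E)).1 hbE
  set e : A →ₐ[ℂ] ℂ := (Pi.evalAlgHom ℂ (fun _ : Y => ℂ) x).comp A.val with he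
  have hex : ∀ i, e (σB i) = τ x i := hσx
  have h1 := EndInd_870.map_hz (φ := (e : A →+* ℂ)) (algebraMap ℂ A) M (σB i0)
    (fun j => σB (ι j)) P
  have h2 : e b = 0 := by rw [hb0, map_zero]
  have h2' : (e : A →+* ℂ) b = 0 := h2
  rw [hb, h1, EndInd_870.hz_eq _ (by
    show e (σB i0) ≠ 0
    rw [hex]; exact hx0) _ (le_refl _)] at h2'
  have h5 : ((e : A →+* ℂ).comp (algebraMap ℂ A)) = RingHom.id ℂ := by
    ext c; simp
  have h6 : (fun i => (e : A →+* ℂ) (σB (ι i)) / (e : A →+* ℂ) (σB i0)) =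
      fun j => τ x (ι j) / τ x i0 := by
    funext j
    show e (σB (ι j)) / e (σB i0) = _
    rw [hex, hex]
  rw [h5, h6] at h2'
  have h7 : (e : A →+* ℂ) (σB i0) ≠ 0 := by
    show e (σB i0) ≠ 0
    rw [hex]; exact hx0
  exact mul_ne_zero (pow_ne_zero _ h7) hx h2'

end ring

/-- the integral `I` on one fibre -/
def IE0 {Y : Type*} [MeasurableSpace Y] (μ : Measure Y) (τ : Y → Fin s → ℂ)
    (P : MvPolynomial (Fin s) ℂ) (α β : ℝ) : ℝ≥0∞ :=
  ∫⁻ x, (∏ j : Fin s, ‖MvPolynomial.eval (τ (x j)) P‖ₑ ^ α) *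
    ‖(Matrix.of fun j : Fin s => τ (x j)).det‖ₑ ^ (-β) ∂(Measure.pi fun _ : Fin s => μ)

/-- **flat sections: abstract form of `SkelDefs_220.Flat`**, from `Dat` -/
theorem flat_of_dat [PreconnectedSpace G] [∀ z, SigmaFinite (ν z)] (hN : 2 ≤ N)
    (hmeas : ∀ z, Measurable (σ z)) (hDp : ∀ z, 0 < D z)
    (hDe : ∀ z, DD ν σ (2 / (N : ℝ)) z = ENNReal.ofReal (D z)) {DC : G → ℂ} {z0 : G}
    (hD : Dat (PHI ν σ (2 / (N : ℝ))) DC M z0)
    (hfin : ∀ a, PHI ν σ (2 / (N : ℝ)) z0 a ≠ ∞) (hne : ν z0 ≠ 0)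
    (hidt : ∀ P : MvPolynomial (Fin s) ℂ, (∃ x, MvPolynomial.eval (σ z0 x) P ≠ 0) →
      ∀ᵐ x ∂(ν z0), MvPolynomial.eval (σ z0 x) P ≠ 0) {d : ℕ}
    (hind : ∃ (i0 : Fin s) (ι : Fin d → Fin s), ∀ P : MvPolynomial (Fin d) ℂ, P ≠ 0 →
      ∃ x, σ z0 x i0 ≠ 0 ∧ MvPolynomial.eval (fun j => σ z0 x (ι j) / σ z0 x i0) P ≠ 0)
    {ε : ℝ} (hε : 0 ≤ ε)
    (hI : ∀ (k : ℕ) (P : MvPolynomial (Fin s) ℂ), 0 < k → P.IsHomogeneous k →
      IE0 (ν z0) (σ z0) P (2 * (1 + ε * N) / (k * N)) (2 * ε) ≠ ∞) :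
    ∃ (k : ℕ) (P : Fin (d + 1) → G → MvPolynomial (Fin s) ℂ) (C : ℝ), 0 < k ∧
      (∀ i z, (P i z).IsHomogeneous k) ∧
      (∀ i μ z, HolAt (fun z => (P i z).coeff μ) z) ∧
      ∀ z, (∀ i, ∫⁻ x, ‖MvPolynomial.eval (σ z x) (P i z)‖ₑ ^ (2 / (k * N : ℝ)) ∂(ν z) ≤
          ENNReal.ofReal C) ∧
        (∀ i, IE0 (ν z) (σ z) (P i z) (2 * (1 + ε * N) / (k * N)) (2 * ε) *
          ENNReal.ofReal (D z ^ (ε * N)) ≤ ENNReal.ofReal C) ∧
        ∀ (Δ : ℕ) (Q : MvPolynomial (Fin (d + 1)) ℂ), Q.IsHomogeneous Δ →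
          (∀ x : X z, MvPolynomial.eval (fun i => MvPolynomial.eval (σ z x) (P i z)) Q = 0) →
          Q = 0 := by
  classical
  have hN0 : (0 : ℝ) < N := by positivity
  have hp : (0 : ℝ) < 2 / N := by positivity
  have hp1 : (2 / N : ℝ) ≤ 1 := by
    rw [div_le_one hN0]; exact_mod_cast hN
  have hp2 : (2 / N : ℝ) < 2 := by linarith
  set Φ := PHI ν σ (2 / (N : ℝ)) with hΦ
  set k := deg Φ DC M z0 with hk
  have hk0 : 0 < k := hD.deg_pos
  have hkR : (0 : ℝ) < k := by exact_mod_cast hk0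
  -- independence
  have hdom := isDomain hne hidt
  obtain ⟨i0, ι, hind⟩ := hind
  have hind' := ind_frac hind
  set A := (evP (σ z0)).range with hA
  obtain ⟨a, -, ha⟩ := FlatN_464.exists_indep (d := d) hD hp hp2 hmeas hfin
    (B0 := A) (E := FractionRing A) (Algebra.ofId A (FractionRing A) |>.restrictScalars ℂ)
    (IsFractionRing.injective A (FractionRing A))
    (fun x => (Pi.evalAlgHom ℂ (fun _ : X z0 => ℂ) x).comp A.val) (by
      rintro ⟨_, P, rfl⟩ hb hzero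
      have h1 : ∃ x, MvPolynomial.eval (σ z0 x) P ≠ 0 := by
        by_contra hc
        push Not at hc
        apply hb
        apply Subtype.ext
        funext x
        show evP (σ z0) P x = 0
        rw [evP_apply, hc x]
      have h2 := hidt P h1
      have h3 : ∀ᵐ x ∂(ν z0), False := by
        have h4 : ∀ᵐ x ∂(ν z0), ¬ MvPolynomial.eval (σ z0 x) P ≠ 0 := by
          rw [ae_iff]
          simp only [not_not]
          refine measure_mono_null (fun x hx => ?_) hzero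
          show evP (σ z0) P x ≠ 0
          rw [evP_apply]; exact hx
        filter_upwards [h2, h4] with x h5 h6
        exact h6 h5
      rw [eventually_false_iff_eq_bot, ae_eq_bot] at h3
      exact hne h3)
    (fun i => ⟨evP (σ z0) (MvPolynomial.X i), MvPolynomial.X i, rfl⟩) (by
      intro x i
      show evP (σ z0) (MvPolynomial.X i) x = _
      rw [evP_apply, MvPolynomial.eval_X]) i0 ι hind' (a0 := fun _ => 1) (by
      intro hc
      have := congrFun hc i0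
      simp at this)
  set aa : Fin (d + 1) → Fin s → ℂ := Fin.cons (fun _ => 1) a with haa
  -- the constant
  set C1 : ℝ≥0∞ := ∑ i, Φ z0 (aa i) with hC1
  set C2 : ℝ≥0∞ := ∑ i, IE0 (ν z0) (σ z0) (nrm Φ DC M z0 z0 (aa i))
    (2 * (1 + ε * N) / (k * N)) (2 * ε) * ENNReal.ofReal (D z0 ^ (ε * N)) with hC2
  have hC1f : C1 ≠ ∞ := by
    rw [hC1, ENNReal.sum_ne_top]
    exact fun i _ => hfin _
  have hC2f : C2 ≠ ∞ := by
    rw [hC2, ENNReal.sum_ne_top]
    intro i _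
    exact ENNReal.mul_ne_top (hI k _ hk0 (nrm_homog hD z0 _)) ENNReal.ofReal_ne_top
  have hCC : C1 + C2 ≠ ∞ := ENNReal.add_ne_top.2 ⟨hC1f, hC2f⟩
  refine ⟨k, fun i z => nrm Φ DC M z0 z (aa i), (C1 + C2).toReal, hk0,
    fun i z => nrm_homog hD z _, fun i μ z => hol_nrm hD _ z μ, fun z => ⟨fun i => ?_, fun i => ?_,
    fun Δ Q hQ hQ0 => ?_⟩⟩
  · rw [ENNReal.ofReal_toReal hCC]
    have h1 := lint_TT_le hD hmeas z (aa i)
    have h2 : (∫⁻ x, ‖MvPolynomial.eval (σ z x) (nrm Φ DC M z0 z (aa i))‖ₑ ^ (2 / (k * N : ℝ))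
        ∂(ν z)) = ∫⁻ x, ENNReal.ofReal
          (‖TT ν σ (2 / (N : ℝ)) DC M z0 z (aa i) x‖ ^ ((2 / (N : ℝ)) / k)) ∂(ν z) := by
      refine lintegral_congr fun x => ?_
      rw [ofReal_rpow_norm _ (by positivity)]
      have h3 : (2 / (N : ℝ)) / k = 2 / (k * N) := by
        field_simp
      rw [h3]
      rfl
    rw [h2]
    refine h1.trans ((Finset.single_le_sum (f := fun i => Φ z0 (aa i)) (fun _ _ => bot_le)
      (Finset.mem_univ i)).trans ?_)
    exact le_self_add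
  · rw [ENNReal.ofReal_toReal hCC]
    have hα : (0 : ℝ) < 2 * (1 + ε * N) / (k * N) := by positivity
    have hαβ : (k : ℝ) * (2 * (1 + ε * N) / (k * N)) - 2 * ε = 2 / N := by
      field_simp
      ring
    have h1 := IE_DD hD hp hp2 hmeas hfin (aa i) hα (by positivity : (0 : ℝ) ≤ 2 * ε) hαβ z
    have h3 : (2 * ε) / (2 / (N : ℝ)) = ε * N := by field_simp
    rw [h3, hDe z, hDe z0, ENNReal.ofReal_rpow_of_pos (hDp z),
      ENNReal.ofReal_rpow_of_pos (hDp z0)] at h1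
    have h4 : IE0 (ν z) (σ z) (nrm Φ DC M z0 z (aa i)) (2 * (1 + ε * N) / (k * N)) (2 * ε) *
        ENNReal.ofReal (D z ^ (ε * N)) =
        IE0 (ν z0) (σ z0) (nrm Φ DC M z0 z0 (aa i)) (2 * (1 + ε * N) / (k * N)) (2 * ε) *
        ENNReal.ofReal (D z0 ^ (ε * N)) := h1
    rw [h4]
    refine (Finset.single_le_sum (f := fun i => IE0 (ν z0) (σ z0) (nrm Φ DC M z0 z0 (aa i))
      (2 * (1 + ε * N) / (k * N)) (2 * ε) * ENNReal.ofReal (D z0 ^ (ε * N)))
      (fun _ _ => bot_le) (Finset.mem_univ i)).trans ?_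
    exact le_add_self
  · refine CInd_870.hom_of_ind (fun x i => MvPolynomial.eval (σ z x) (nrm Φ DC M z0 z (aa i)))
      (fun P hP => ?_) Δ Q hQ hQ0
    have h1 := ha z P hP
    obtain ⟨x, hx⟩ := nonempty_of_measure_ne_zero h1
    exact ⟨x, hx.1, hx.2⟩

/-- **flat sections: abstract form of `SkelDefs_220.Flat`** -/
theorem flat_abs [PreconnectedSpace G] [∀ z, SigmaFinite (ν z)] (hN : 2 ≤ N) (hs : 0 < s)
    (h : Hyp ν σ N D f M) {z0 : G} {d : ℕ} (h0 : Pt (ν z0) (σ z0) N d) {ε : ℝ} (hε : 0 ≤ ε)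
    (hI : ∀ (k : ℕ) (P : MvPolynomial (Fin s) ℂ), 0 < k → P.IsHomogeneous k →
      IE0 (ν z0) (σ z0) P (2 * (1 + ε * N) / (k * N)) (2 * ε) ≠ ∞) :
    ∃ (k : ℕ) (P : Fin (d + 1) → G → MvPolynomial (Fin s) ℂ) (C : ℝ), 0 < k ∧
      (∀ i z, (P i z).IsHomogeneous k) ∧
      (∀ i μ z, HolAt (fun z => (P i z).coeff μ) z) ∧
      ∀ z, (∀ i, ∫⁻ x, ‖MvPolynomial.eval (σ z x) (P i z)‖ₑ ^ (2 / (k * N : ℝ)) ∂(ν z) ≤
          ENNReal.ofReal C) ∧
        (∀ i, IE0 (ν z) (σ z) (P i z) (2 * (1 + ε * N) / (k * N)) (2 * ε) *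
          ENNReal.ofReal (D z ^ (ε * N)) ≤ ENNReal.ofReal C) ∧
        ∀ (Δ : ℕ) (Q : MvPolynomial (Fin (d + 1)) ℂ), Q.IsHomogeneous Δ →
          (∀ x : X z, MvPolynomial.eval (fun i => MvPolynomial.eval (σ z x) (P i z)) Q = 0) →
          Q = 0 :=
  flat_of_dat hN h.meas h.D_pos h.D_eq (h.dat hN hs h0) (h.fin z0) h0.ne h0.idt h0.ind hε hI

end hyp

end Crest.Agent.R276.FlatA_464
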