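import Mathlib
import Crest.Agent.R276.FlatA_464
import Crest.Agent.R276.FlatDefs_236
import Crest.Agent.R276.FinFib_348
import Crest.Agent.R276.RelB_870

/-!
# R276, leaf FLATALG (helper464), part B: models

* `holS_of` : holomorphic on the fibre `G_{y₀}` of `M_L → M_T` ⟹ `HolS` of the extension by `0`;
* `ae_ne_fib`, `idt` : identity theorem on a fibre of `M_K → M_L`;
* `ind_generic` : `u_{ι j}/u_{i0}` algebraically independent over `L` ⟹ on the general fibre;
* `exists_pt` : points over `y₀` off a hypersurface of `M_L`.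
-/

set_option autoImplicit false
set_option linter.unusedSectionVars false

noncomputable section

open Set Filter Topology Matrix MeasureTheory
open scoped ENNReal
open Crest.Agent.R271.Ho51

namespace Crest.Agent.R276.FlatB_464

open Crest.Agent.R271 Crest.Agent.R271.Rd692
open Crest.Agent.R271.Defs710 hiding glue
open Crest.Agent.R276.Mod1_987 Crest.Agent.R276.SkelDefs_220 Crest.Agent.R276.CInd_870
open Crest.Agent.R276.FlatT_464
open Crest.Agent.R276.Ipc735 (HolAt)

/-! ### germs -/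

section germ

variable {T L : Type} [Field T] [Field L] [Algebra ℂ T] [Algebra ℂ L] [Algebra T L]
  [IsScalarTower ℂ T L] {ρ a : ℕ} {MT : Mdl T ρ} {ML : Mdl L (ρ + a)} (H : Rel MT ML)

lemma glue_eL (c : Cn ρ) (x : Cn a) : SkelDefs_220.glue (eL ρ a) c x = Fin.append c x := by
  funext j
  refine Fin.addCases (fun j => ?_) (fun j => ?_) j
  · simp [SkelDefs_220.glue, eL]
  · simp [SkelDefs_220.glue, eL]

lemma continuous_glue (c : Cn ρ) :
    Continuous fun x : Cn a => SkelDefs_220.glue (eL ρ a) c x := by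
  simp only [glue_eL]
  refine continuous_pi fun j => ?_
  refine Fin.addCases (fun j => ?_) (fun j => ?_) j
  · simp only [Fin.append_left]; exact continuous_const
  · simp only [Fin.append_right]; exact continuous_apply j

/-- functions on the fibre over `y₀`, extended by `0` -/
theorem holS_of {y₀ : MT.Pts} (g : (rm H).Fib y₀ → ℂ) (hg : ∀ z, HolAt g z) (F : ML.Pts → ℂ)
    (hF : ∀ z : (rm H).Fib y₀, F z.val = g z) (hF0 : ∀ z, H.f z ≠ y₀ → F z = 0) :
    HolS ML (eL ρ a) (MT.pz y₀) F := by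
  intro y hy
  set c := MT.pz y₀ with hc
  have hcy : cp y = SkelDefs_220.glue (eL ρ a) c (SkelDefs_220.xc ML (eL ρ a) y) :=
    (RelB_870.tc_xc_iff ML (eL ρ a) y c _).1 ⟨hy, rfl⟩
  set ξ := SkelDefs_220.xc ML (eL ρ a) y with hξ
  set sx : Cn a → ML.Pts := fun x => (ch y).symm (SkelDefs_220.glue (eL ρ a) c x) with hsx
  have hs0 : sx ξ = y := by
    simp only [hsx]
    rw [← hcy]
    exact (isCh_ch y).symm_cp (mem_ch y)
  have hsc : Tendsto sx (𝓝 ξ) (𝓝 y) := by
    have h1 : Tendsto (fun x : Cn a => SkelDefs_220.glue (eL ρ a) c x) (𝓝 ξ) (𝓝 (cp y)) := by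
      rw [hcy]
      exact (continuous_glue c).tendsto ξ
    exact (tendsto_symm y).comp h1
  have hs_cp : ∀ᶠ x in 𝓝 ξ, cp (sx x) = SkelDefs_220.glue (eL ρ a) c x := by
    have h1 : Tendsto (fun x : Cn a => SkelDefs_220.glue (eL ρ a) c x) (𝓝 ξ) (𝓝 (cp y)) := by
      rw [hcy]
      exact (continuous_glue c).tendsto ξ
    have h2 : (ch y).target ∈ 𝓝 (cp y) :=
      (ch y).open_target.mem_nhds ((isCh_ch y).cp_mem (mem_ch y))
    filter_upwards [h1.eventually_mem h2] with x hx
    exact (isCh_ch y).cp_symm hx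
  have hcont : Continuous H.f := by
    have h1 : H.f = (rm H).q := funext fun y => (rm_q H y).symm
    rw [h1]
    exact (rm H).continuous_q
  have hq : ∀ᶠ x in 𝓝 ξ, H.f (sx x) = H.f y := by
    obtain ⟨e, he, he'⟩ := isLocalHomeomorph_pr MT.hch (H.f y)
    have h1 : Tendsto (fun x => H.f (sx x)) (𝓝 ξ) (𝓝 (H.f y)) := (hcont.tendsto y).comp hsc
    filter_upwards [h1.eventually_mem (e.open_source.mem_nhds he), hs_cp] with x hx hx2
    apply e.injOn hx he
    rw [← he']
    have h3 : MT.pz (H.f (sx x)) = c := by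
      rw [← RelB_870.tc_eL H (sx x)]
      exact ((RelB_870.tc_xc_iff ML (eL ρ a) (sx x) c x).2 hx2).1
    have h4 : MT.pz (H.f y) = c := by
      rw [← RelB_870.tc_eL H y]; exact hy
    exact h3.trans h4.symm
  by_cases hy0 : H.f y = y₀
  · -- the point of the fibre
    set z : (rm H).Fib y₀ := ⟨y, (rm_q H y).trans hy0⟩ with hz
    have hzv : z.val = y := rfl
    have hcz : cp z = ξ := by
      rw [RMdl.Fib.cp_eq]
      funext j
      simp [hξ, SkelDefs_220.xc, eL, RMdl.x, hzv]
    set tx : Cn a → ML.Pts := fun x => ((ch z).symm x).val with htx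
    have ht0 : Tendsto tx (𝓝 ξ) (𝓝 y) := by
      rw [← hcz]
      exact ((RMdl.Fib.continuous_val (R := rm H) y₀).tendsto z).comp (tendsto_symm z)
    have ht_cp : ∀ᶠ x in 𝓝 ξ, cp (tx x) = SkelDefs_220.glue (eL ρ a) c x := by
      have h2 : (ch z).target ∈ 𝓝 ξ := by
        rw [← hcz]
        exact (ch z).open_target.mem_nhds ((isCh_ch z).cp_mem (mem_ch z))
      filter_upwards [h2] with x hx
      have h3 : cp ((ch z).symm x) = x := (isCh_ch z).cp_symm hx
      have h4 := (rm H).append_eq (tx x)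
      have h5 : (rm H).q (tx x) = y₀ := RMdl.Fib.q_eq _
      have h6 : (rm H).x (tx x) = x := h3
      rw [h5, h6] at h4
      rw [glue_eL]
      exact h4.symm
    have hst : ∀ᶠ x in 𝓝 ξ, sx x = tx x := by
      have h1 : (ch y).source ∈ 𝓝 y := (ch y).open_source.mem_nhds (mem_ch y)
      filter_upwards [hsc.eventually_mem h1, ht0.eventually_mem h1, hs_cp, ht_cp] with x h2 h3 h4 h5
      have h6 : cp (sx x) = cp (tx x) := h4.trans h5.symm
      rw [← (isCh_ch y).symm_cp h2, ← (isCh_ch y).symm_cp h3, h6]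
    have h7 : AnalyticAt ℂ (g ∘ (ch z).symm) ξ := by
      rw [← hcz]; exact hg z
    refine h7.congr ?_
    filter_upwards [hst] with x hx
    show g ((ch z).symm x) = F (sx x)
    rw [hx, ← hF]
  · refine AnalyticAt.congr (f := fun _ => (0 : ℂ)) analyticAt_const ?_
    filter_upwards [hq] with x hx
    show 0 = F (sx x)
    rw [hF0]
    rw [hx]; exact hy0

end germ

/-! ### one relative model -/

section fib

variable {L K : Type} [Field L] [Field K] [Algebra ℂ L] [Algebra ℂ K] [Algebra L K]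
  [IsScalarTower ℂ L K] {m r s : ℕ} {R : RMdl L K m r}

/-- identity theorem on a fibre -/
theorem ae_ne_fib {w : R.ML.Pts} [PreconnectedSpace (R.Fib w)] {μ : Measure (R.Fib w)}
    (hμ : IsLeb μ) (b : R.MK.B) (h : ∃ y : R.Fib w, (y.val : R.MK.Pts) b ≠ 0) :
    ∀ᵐ y ∂μ, ((y : R.Fib w).val : R.MK.Pts) b ≠ 0 := by
  have h1 := FinFib_348.ae_ne (R := R) (g := fun _ : Fin 1 => b) (c := fun _ => 1) hμ (by
    obtain ⟨y, hy⟩ := h
    refine ⟨y, ?_⟩
    simpa [FinFib_348.evw, FinFib_348.sec] using hy)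
  filter_upwards [h1] with y hy
  simpa [FinFib_348.evw, FinFib_348.sec] using hy

theorem eval_sg (u : Fin s → R.MK.B) {w : R.ML.Pts} (y : R.Fib w) (P : MvPolynomial (Fin s) ℂ) :
    MvPolynomial.eval (FlatDefs_236.sg u w y) P = (y.val : R.MK.Pts) (MvPolynomial.aeval u P) := by
  rw [MvPolynomial.comp_aeval_apply, MvPolynomial.aeval_eq_eval]
  rfl

theorem idt {u : Fin s → R.MK.B} {w : R.ML.Pts} [PreconnectedSpace (R.Fib w)]
    {μ : Measure (R.Fib w)} (hμ : IsLeb μ) (P : MvPolynomial (Fin s) ℂ)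
    (h : ∃ y : R.Fib w, MvPolynomial.eval (FlatDefs_236.sg u w y) P ≠ 0) :
    ∀ᵐ y ∂μ, MvPolynomial.eval (FlatDefs_236.sg u w y) P ≠ 0 := by
  simp only [eval_sg] at h ⊢
  exact ae_ne_fib hμ _ h

/-- **independence on the general fibre** -/
theorem ind_generic {d : ℕ} (u : Fin s → R.MK.B) (i0 : Fin s) (ι : Fin d → Fin s) (h0 : u i0 ≠ 0)
    (hind : AlgebraicIndependent L (fun j => (u (ι j) : K) / (u i0 : K))) :
    ∃ p : MvPolynomial (Fin m) ℂ, p ≠ 0 ∧ ∀ w : R.ML.Pts, MvPolynomial.eval (R.ML.pz w) p ≠ 0 →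
      ∀ P : MvPolynomial (Fin d) ℂ, P ≠ 0 → ∃ y : R.Fib w,
        FlatDefs_236.sg u w y i0 ≠ 0 ∧ MvPolynomial.eval
          (fun j => FlatDefs_236.sg u w y (ι j) / FlatDefs_236.sg u w y i0) P ≠ 0 := by
  classical
  have h0K : (u i0 : K) ≠ 0 := by
    intro h
    exact h0 (Subtype.ext h)
  -- independence over `ℂ` together with the coordinates
  have hz : AlgebraicIndependent ℂ R.ML.zK := R.ML.aK_injective
  have hsum := hz.sumElim_comp (y := fun j => (u (ι j) : K) / (u i0 : K)) hind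
  obtain ⟨ν, b, hb, hcard, p, hp, hgen⟩ := EndFib_870.gen_fib R (E := Fin d ⊕ Fin m) (u i0)
    (Sum.elim (fun j => u (ι j)) (fun i => R.incl (R.ML.z i) * u i0)) h0 (by
      convert! hsum using 1
      funext j
      rcases j with j | i
      · simp
      · simp only [Sum.elim_inr, Function.comp_apply]
        rw [MulMemClass.coe_mul, RMdl.incl_coe]
        rw [mul_div_assoc, div_self h0K, mul_one])
  refine ⟨p, hp, fun w hw P hP => ?_⟩
  have hgen' := hgen w hw
  -- the `z`-coordinates do not occur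
  have hinl : ∀ k : Fin ν, ∃ j : Fin d, b k = Sum.inl j := by
    intro k
    rcases hk : b k with j | i
    · exact ⟨j, rfl⟩
    · exfalso
      have hQ : (MvPolynomial.X k - MvPolynomial.C (R.ML.pz w i) : MvPolynomial (Fin ν) ℂ) ≠ 0 := by
        intro h
        have h1 := congrArg (MvPolynomial.eval (fun _ => R.ML.pz w i + 1)) h
        simp at h1
      obtain ⟨x, hxw, hx0, hx⟩ := hgen' _ hQ
      apply hx
      rw [map_sub, MvPolynomial.eval_X, MvPolynomial.eval_C, hk, Sum.elim_inr, map_mul,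
        mul_div_assoc, div_self hx0, mul_one, ← hxw]
      rw [← R.q_apply]
      exact sub_self _
  choose b' hb' using hinl
  have hb'inj : Function.Injective b' := by
    intro k l h
    apply hb
    rw [hb', hb', h]
  have hνd : ν = d := by
    refine le_antisymm ?_ ?_
    · simpa using Fintype.card_le_of_injective b' hb'inj
    · have : d + m ≤ ν + m := by simpa using hcard
      omega
  subst hνd
  have hbij : Function.Bijective b' := Finite.injective_iff_bijective.1 hb'inj
  set e := Equiv.ofBijective b' hbij with he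
  have hQ : MvPolynomial.rename e.symm P ≠ 0 := by
    intro h
    apply hP
    exact (map_eq_zero_iff _ (MvPolynomial.rename_injective _ e.symm.injective)).1 h
  obtain ⟨x, hxw, hx0, hx⟩ := hgen' _ hQ
  refine ⟨⟨x, hxw⟩, hx0, ?_⟩
  rw [MvPolynomial.eval_rename] at hx
  have h1 : (fun j => x (Sum.elim (fun j => u (ι j)) (fun i => R.incl (R.ML.z i) * u i0) (b j)) /
      x (u i0)) ∘ e.symm = fun j => x (u (ι j)) / x (u i0) := by
    funext j
    simp only [Function.comp_apply, hb', Sum.elim_inl]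
    have : b' (e.symm j) = j := e.apply_symm_apply j
    rw [this]
  rw [h1] at hx
  exact hx

end fib

/-! ### points over `y₀` -/

section pt

variable {T L : Type} [Field T] [Field L] [Algebra ℂ T] [Algebra ℂ L] [Algebra T L]
  [IsScalarTower ℂ T L] {ρ a : ℕ} {MT : Mdl T ρ} {ML : Mdl L (ρ + a)} (H : Rel MT ML)

theorem exists_pt {p : MvPolynomial (Fin (ρ + a)) ℂ} (hp : p ≠ 0) :
    ∀ᵐ c : Cn ρ, ∀ y₀ : MT.Pts, MT.pz y₀ = c → ∃ z : (rm H).Fib y₀,
      MvPolynomial.eval (ML.pz z.val) p ≠ 0 := by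
  have h1 : MvPolynomial.aeval ML.z p ≠ 0 := by
    intro h
    apply hp
    apply ML.aK_injective
    rw [map_zero, ML.aK_eq]
    exact congrArg Subtype.val h
  filter_upwards [cNz H _ h1] with c hc y₀ hy₀
  obtain ⟨z, hz, hz'⟩ := hc y₀ hy₀
  refine ⟨⟨z, (rm_q H z).trans hz⟩, ?_⟩
  rw [MvPolynomial.comp_aeval_apply, MvPolynomial.aeval_eq_eval] at hz'
  exact hz'

end pt

end Crest.Agent.R276.FlatB_464
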