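import Crest.Agent.R276.RestrA_236
import Crest.Agent.R276.FlatDefs_236

/-!
# Row 276 (S0419), leaf RESTR (helper236), part B: transport of saturated families

`FMap R' R` : a continuous map `ι` of the bases with, for every `w'`, an embedding
`j w' : R'.Fib w' → R.Fib (ι w')` which keeps the fibre coordinates, with complement in the zero set
of a holomorphic function.  `SatFam.transport`: a saturated family on `R` gives one on `R'`.
-/

set_option autoImplicit false
set_option linter.unusedSectionVars false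

open Set Filter Topology MeasureTheory
open scoped ENNReal

noncomputable section

namespace Crest.Agent.R276.Restr_236

open Crest.Agent.R271 Crest.Agent.R271.Ho51 Crest.Agent.R276.AB2_590
open Crest.Agent.R276.Mod1_987 Crest.Agent.R276.FlatM_464 Crest.Agent.R276.FlatDefs_236
open Crest.Agent.R276.Sat_210 (IK IW KK)

variable {L K : Type} [Field L] [Field K] [Algebra ℂ L] [Algebra ℂ K] [Algebra L K]
  [IsScalarTower ℂ L K] {m r : ℕ}
variable {L' K' : Type} [Field L'] [Field K'] [Algebra ℂ L'] [Algebra ℂ K'] [Algebra L' K']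
  [IsScalarTower ℂ L' K'] {m' : ℕ}

instance (R : RMdl L K m r) (w : R.ML.Pts) : IsLocallyFiniteMeasure (nu R w) :=
  (nu_leb R w).locallyFinite

/-- `x ↦ (0, x)` -/
def LR (m r : ℕ) : (Fin r → ℂ) →L[ℂ] (Fin (m + r) → ℂ) :=
  ContinuousLinearMap.pi fun k => Fin.addCases (fun _ => 0)
    (fun j => ContinuousLinearMap.proj (R := ℂ) (φ := fun _ : Fin r => ℂ) j) k

section sgs

variable {R : RMdl L K m r} {s : ℕ} (u : Fin s → R.MK.B)

/-- elements of `B_K` are holomorphic on the fibres -/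
lemma holA_sg (w : R.ML.Pts) (b : R.MK.B) :
    HolA (fun y : R.Fib w => (y.val : R.MK.B →ₐ[ℂ] ℂ) b) := by
  have h1 : PV_159.Mor (Fin.append (R.ML.pz w) 0) (LR m r) (fun y : R.Fib w => y.val) := by
    refine ⟨RMdl.Fib.continuous_val w, fun y => ?_⟩
    have h2 := R.append_eq y.val
    rw [y.q_eq] at h2
    show R.MK.pz y.val = _
    rw [← h2]
    funext k
    refine Fin.addCases (fun i => ?_) (fun i => ?_) k
    · simp [LR]
    · simp only [Fin.append_right, Pi.add_apply, Pi.zero_apply, zero_add, LR,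
        ContinuousLinearMap.coe_pi', Fin.addCases_right, ContinuousLinearMap.proj_apply]
      rfl
  exact hol792_iff.1 (h1.hol (f := fun y : R.MK.B →ₐ[ℂ] ℂ => y b) (R.MK.hol792_ev b))

lemma cont_sg (w : R.ML.Pts) : Continuous (sg u w) :=
  continuous_pi fun i => HolA.cont (holA_sg w (u i))

lemma meas_sg (w : R.ML.Pts) : Measurable (sg u w) := (cont_sg u w).measurable

end sgs

/-- maps of families -/
structure FMap (R' : RMdl L' K' m' r) (R : RMdl L K m r) where
  /-- the map of the bases -/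
  ι : R'.ML.Pts → R.ML.Pts
  cont : Continuous ι
  /-- the maps of the fibres -/
  j : ∀ w', R'.Fib w' → R.Fib (ι w')
  emb : ∀ w', REmb (j w')

variable {R : RMdl L K m r} {R' : RMdl L' K' m' r} {s : ℕ}

/-- the sections correspond -/
def FMap.Cp (Θ : FMap R' R) (u' : Fin s → R'.MK.B) (u : Fin s → R.MK.B) : Prop :=
  ∀ (w' : R'.ML.Pts) (y : R'.Fib w') (i : Fin s), sg u (Θ.ι w') (Θ.j w' y) i = sg u' w' y i

variable {Θ : FMap R' R} {u' : Fin s → R'.MK.B} {u : Fin s → R.MK.B}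

lemma FMap.Cp.sg_eq (h : Θ.Cp u' u) (w' : R'.ML.Pts) (y : R'.Fib w') :
    sg u' w' y = sg u (Θ.ι w') (Θ.j w' y) := funext fun i => (h w' y i).symm

/-- the norms correspond -/
theorem FMap.Cp.phi (h : Θ.Cp u' u) (N : ℕ) (w' : R'.ML.Pts) (a : Fin s → ℂ) :
    Phi N u' w' a = Phi N u (Θ.ι w') a := by
  unfold Phi PHI
  rw [← (Θ.emb w').lint (nu_leb R (Θ.ι w')) (nu_leb R' w')]
  exact lintegral_congr fun y => by rw [h.sg_eq w' y]

/-- the CY norms correspond -/
theorem FMap.Cp.dn (h : Θ.Cp u' u) (N : ℕ) (w' : R'.ML.Pts) :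
    DN N u' w' = DN N u (Θ.ι w') := by
  have h1 : MeasurePreserving (fun (y : Fin s → R'.Fib w') (i : Fin s) => Θ.j w' (y i))
      (Measure.pi fun _ => nu R' w') (Measure.pi fun _ => nu R (Θ.ι w')) :=
    measurePreserving_pi _ _ fun _ => (Θ.emb w').mp (nu_leb R (Θ.ι w')) (nu_leb R' w')
  have hm : Measurable fun x : Fin s → R.Fib (Θ.ι w') =>
      ENNReal.ofReal (‖(Matrix.of fun j : Fin s => sg u (Θ.ι w') (x j)).det‖ ^ (2 / (N : ℝ))) := by
    refine ENNReal.measurable_ofReal.comp ?_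
    refine ((measurable_det.comp ?_).norm).pow_const _
    exact measurable_pi_lambda _ fun j => (meas_sg u _).comp (measurable_pi_apply j)
  unfold DN DD
  rw [← h1.lintegral_comp hm]
  refine lintegral_congr fun y => ?_
  congr 3
  congr 1
  funext j
  exact h.sg_eq w' (y j)

/-- the weighted `L²` norms correspond -/
theorem FMap.Cp.ik (h : Θ.Cp u' u) (α : ℝ) (w' : R'.ML.Pts) (f' : R'.Fib w' → ℂ)
    (f : R.Fib (Θ.ι w') → ℂ) (hf : ∀ y, f (Θ.j w' y) = f' y) :
    IK (nu R' w') α f' (fun i y => sg u' w' y i) =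
      IK (nu R (Θ.ι w')) α f (fun i y => sg u (Θ.ι w') y i) := by
  unfold IK
  rw [← (Θ.emb w').lint (nu_leb R (Θ.ι w')) (nu_leb R' w')]
  refine lintegral_congr fun y => ?_
  rw [hf]
  congr 2
  unfold KK
  exact Finset.sum_congr rfl fun i _ => by
    have h1 := h w' y i
    simp only [h1]

/-- `f` with finite weighted norm is locally square integrable -/
theorem FMap.Cp.loc (h : Θ.Cp u' u) {α : ℝ} (hα : 0 < α) (w' : R'.ML.Pts) {f' : R'.Fib w' → ℂ}
    (hf : IK (nu R' w') α f' (fun i y => sg u' w' y i) ≠ ∞) (x : R.Fib (Θ.ι w')) :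
    ∃ W ∈ 𝓝 x, ∫⁻ y in Θ.j w' ⁻¹' W, ‖f' y‖ₑ ^ 2 ∂(nu R' w') < ∞ := by
  -- `K` is bounded near `x`
  set k : R.Fib (Θ.ι w') → ℝ≥0∞ := KK fun i y => sg u (Θ.ι w') y i with hk
  have hkc : Continuous k := by
    rw [hk]
    unfold KK
    refine continuous_finsetSum _ fun i _ => ?_
    exact ENNReal.continuous_rpow_const.comp
      (continuous_enorm.comp ((continuous_apply i).comp (cont_sg u _)))
  have hkx : k x ≠ ∞ := Sat_210.KK_ne_top _ x
  obtain ⟨C, hC1, hC2⟩ := ENNReal.lt_iff_exists_nnreal_btwn.1 (lt_top_iff_ne_top.2 hkx)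
  refine ⟨{y | k y < C}, (isOpen_lt hkc continuous_const).mem_nhds hC1, ?_⟩
  have hm : MeasurableSet (Θ.j w' ⁻¹' {y | k y < C}) :=
    ((isOpen_lt hkc continuous_const).preimage (Θ.emb w').cont).measurableSet
  have hCne : (C : ℝ≥0∞) ≠ 0 := (lt_of_le_of_lt zero_le hC1).ne'
  have hCa : (C : ℝ≥0∞) ^ α ≠ ∞ := ENNReal.rpow_ne_top_of_nonneg hα.le ENNReal.coe_ne_top
  calc ∫⁻ y in Θ.j w' ⁻¹' {y | k y < C}, ‖f' y‖ₑ ^ 2 ∂(nu R' w')
      ≤ ∫⁻ y in Θ.j w' ⁻¹' {y | k y < C}, (C : ℝ≥0∞) ^ α *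
          (‖f' y‖ₑ ^ (2 : ℝ) * KK (fun i y => sg u' w' y i) y ^ (-α)) ∂(nu R' w') := by
        refine setLIntegral_mono' hm fun y hy => ?_
        have hy2 : k (Θ.j w' y) < C := hy
        have h3 : KK (fun i y => sg u' w' y i) y = k (Θ.j w' y) := by
          rw [hk]
          unfold KK
          exact Finset.sum_congr rfl fun i _ => by
            have h1 := h w' y i
            simp only [h1]
        rw [h3]
        have h4 : (1 : ℝ≥0∞) ≤ (C : ℝ≥0∞) ^ α * k (Θ.j w' y) ^ (-α) := by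
          rw [ENNReal.rpow_neg, ← div_eq_mul_inv]
          rw [ENNReal.le_div_iff_mul_le]
          · rw [one_mul]
            exact ENNReal.rpow_le_rpow hy2.le hα.le
          · right
            exact fun h5 => hCne ((ENNReal.rpow_eq_zero_iff_of_pos hα).1 h5)
          · left
            exact ENNReal.rpow_ne_top_of_nonneg hα.le hy2.ne_top
        calc ‖f' y‖ₑ ^ 2 = ‖f' y‖ₑ ^ (2 : ℝ) * 1 := by
              rw [mul_one]; norm_cast
          _ ≤ ‖f' y‖ₑ ^ (2 : ℝ) * ((C : ℝ≥0∞) ^ α * k (Θ.j w' y) ^ (-α)) := by gcongr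
          _ = _ := by ring
    _ ≤ ∫⁻ y, (C : ℝ≥0∞) ^ α *
          (‖f' y‖ₑ ^ (2 : ℝ) * KK (fun i y => sg u' w' y i) y ^ (-α)) ∂(nu R' w') :=
        setLIntegral_le_lintegral _ _
    _ = (C : ℝ≥0∞) ^ α * IK (nu R' w') α f' (fun i y => sg u' w' y i) :=
        lintegral_const_mul' _ _ hCa
    _ < ∞ := ENNReal.mul_lt_top (lt_top_iff_ne_top.2 hCa) (lt_top_iff_ne_top.2 hf)

theorem SatFam.transport {N : ℕ} (H : SatFam R N u) (h : Θ.Cp u' u)
    (hc : ∀ w' : R'.ML.Pts, ConnectedSpace (R'.Fib w')) : SatFam R' N u' where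
  N_even := H.N_even
  N_ge := H.N_ge
  s_pos := H.s_pos
  conn := hc
  indep w' a ha := by
    refine H.indep (Θ.ι w') a fun y => ?_
    -- the range is dense
    obtain ⟨D, hD, hne, hr⟩ := (Θ.emb w').dns
    have hc1 : IsClosed {y | ∑ i, a i * sg u (Θ.ι w') y i = 0} := by
      refine isClosed_eq ?_ continuous_const
      exact continuous_finsetSum _ fun i _ =>
        continuous_const.mul ((continuous_apply i).comp (cont_sg u _))
    have h5 : y ∈ closure {y | ∑ i, a i * sg u (Θ.ι w') y i = 0} := by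
      refine Filter.Frequently.mem_closure ((hne y).mono fun y' hy' => ?_)
      obtain ⟨y2, rfl⟩ := hr y' hy'
      have h6 := ha y2
      rw [h.sg_eq] at h6
      exact h6
    rw [hc1.closure_eq] at h5
    exact h5
  fin w' a := by
    rw [h.phi]
    exact H.fin _ _
  cont := by
    have h1 : (fun p : R'.ML.Pts × (Fin s → ℂ) => Phi N u' p.1 p.2) =
        (fun p : R.ML.Pts × (Fin s → ℂ) => Phi N u p.1 p.2) ∘ fun p => (Θ.ι p.1, p.2) :=
      funext fun p => h.phi N p.1 p.2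
    rw [h1]
    exact H.cont.comp ((Θ.cont.comp continuous_fst).prodMk continuous_snd)
  clos w' f' hf' hI := by
    have hN : (0 : ℝ) < ((N : ℝ) - 1) / N := by
      have h4 : (4 : ℝ) ≤ N := by exact_mod_cast H.N_ge
      exact div_pos (by linarith) (by linarith)
    obtain ⟨g, hg, hgf⟩ := (Θ.emb w').ext (nu_leb R (Θ.ι w')) (nu_leb R' w')
      (hol51_iff.1 hf') (h.loc hN w' hI)
    obtain ⟨b, hb⟩ := H.clos (Θ.ι w') g (hol51_iff.2 hg) (by rwa [← h.ik _ w' f' g hgf])
    exact ⟨b, fun y => by rw [← hgf, hb, h.sg_eq]⟩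
  D_pos w' := by
    rw [h.dn]
    exact H.D_pos _
  D_fin w' := by
    rw [h.dn]
    exact H.D_fin _
  D_cont := by
    have h1 : (fun w' : R'.ML.Pts => DN N u' w') = (fun w => DN N u w) ∘ Θ.ι :=
      funext fun w' => h.dn N w'
    rw [h1]
    exact H.D_cont.comp Θ.cont

end Crest.Agent.R276.Restr_236
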