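import Mathlib
import Crest.Agent.R276.FlatB_464
import Crest.Agent.R276.RestrB_236
import Crest.Agent.R276.RelC_870
import Crest.Agent.R276.FibP_793

/-!
# R276, leaf FLATALG (helper464), part C: the literal `SkelDefs_220.Flat`

* `flat_at` : the clauses of `Flat` at one `y₀` from `Dat` on the fibre `(rm H₁).Fib y₀`;
* `flat` : `SkelDefs_220.Flat`.
-/

set_option autoImplicit false
set_option linter.unusedSectionVars false

noncomputable section

open Set Filter Topology Matrix MeasureTheory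
open scoped ENNReal
open Crest.Agent.R271.Ho51

namespace Crest.Agent.R276.FlatC_464

open Crest.Agent.R271
open Crest.Agent.R271.Rd692 hiding evs
open Crest.Agent.R271.Defs710 hiding glue
open Crest.Agent.R276.Mod1_987 Crest.Agent.R276.SkelDefs_220 Crest.Agent.R276.CInd_870
open Crest.Agent.R276.FlatT_464 Crest.Agent.R276.FlatM_464 Crest.Agent.R276.FlatA_464
open Crest.Agent.R276.FlatDefs_236 Crest.Agent.R276.FlatB_464
open Crest.Agent.R276.Restr_236
open Crest.Agent.R276.Ipc735 (HolAt)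

/-! ### integrals over the fibres -/

section int

variable {L K : Type} [Field L] [Field K] [Algebra ℂ L] [Algebra ℂ K] [Algebra L K]
  [IsScalarTower ℂ L K] {m r s : ℕ} {ML : Mdl L m} {MK : Mdl K (m + r)} (H : Rel ML MK)
  (u : Fin s → MK.B)

lemma evs_eq (P : MvPolynomial (Fin s) ℂ) (y : MK.Pts) : evs u P y = y (MvPolynomial.aeval u P) := by
  unfold evs
  rw [MvPolynomial.comp_aeval_apply, MvPolynomial.aeval_eq_eval]

lemma continuous_evs (P : MvPolynomial (Fin s) ℂ) : Continuous (evs u P) := by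
  have h1 : evs u P = fun y : MK.Pts => y (MvPolynomial.aeval u P) := funext fun y => evs_eq u P y
  rw [h1]
  exact continuous_ev _

lemma continuous_dl : Continuous (dl u) := by
  unfold dl
  refine Continuous.matrix_det ?_
  refine continuous_matrix fun i j => ?_
  simp only [Matrix.of_apply]
  exact (continuous_ev (u i)).comp (continuous_apply j)

lemma dl_val {z : ML.Pts} (x : Fin s → (rm H).Fib z) :
    dl u (fun j => (x j).val) = (Matrix.of fun j : Fin s => sg (R := rm H) u z (x j)).det := by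
  rw [← Matrix.det_transpose]
  rfl

theorem fint_evs (z : ML.Pts) (P : MvPolynomial (Fin s) ℂ) (q : ℝ) :
    H.fint z (fun y => ‖evs u P y‖ₑ ^ q) =
      ∫⁻ x, ‖MvPolynomial.eval (sg (R := rm H) u z x) P‖ₑ ^ q ∂(nu (rm H) z) :=
  RelB_870.fint_leb H (nu_leb (rm H) z) ((continuous_evs u P).measurable.enorm.pow_const q)

theorem fintS_dl (z : ML.Pts) {q : ℝ} (hq : 0 ≤ q) :
    H.fintS s z (fun y => ‖dl u y‖ₑ ^ q) = DD (nu (rm H)) (sg (R := rm H) u) q z := by
  rw [RelC_870.fintS_pi H (nu_leb (rm H) z) ((continuous_dl u).measurable.enorm.pow_const q)]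
  unfold DD
  refine lintegral_congr fun x => ?_
  rw [ofReal_rpow_norm _ hq, dl_val]

theorem Ieps_eq (N k : ℕ) (ε : ℝ) (z : ML.Pts) (P : MvPolynomial (Fin s) ℂ) :
    Ieps H N k u ε z (evs u P) =
      IE0 (nu (rm H) z) (sg (R := rm H) u z) P (2 * (1 + ε * N) / (k * N)) (2 * ε) := by
  unfold Ieps
  rw [RelC_870.fintS_pi H (nu_leb (rm H) z)]
  · unfold IE0
    refine lintegral_congr fun x => ?_
    rw [dl_val]
    rfl
  · refine Measurable.mul ?_ ((continuous_dl u).measurable.enorm.pow_const _)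
    exact Finset.measurable_fun_prod _ fun j _ =>
      (((continuous_evs u P).measurable.comp (measurable_pi_apply j)).enorm).pow_const _

end int

/-! ### one `y₀` -/

section main

variable {T L K : Type} [Field T] [Field L] [Field K] [Algebra ℂ T] [Algebra ℂ L] [Algebra ℂ K]
  [Algebra T L] [Algebra L K] [IsScalarTower ℂ T L] [IsScalarTower ℂ L K] {ρ a r s : ℕ}
  {MT : Mdl T ρ} {ML : Mdl L (ρ + a)} {MK : Mdl K (ρ + a + r)} (H₁ : Rel MT ML) (H₂ : Rel ML MK)

open scoped Classical in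
/-- the clauses of `Flat` at one `y₀` -/
def FlatAt (N d : ℕ) (u : Fin s → MK.B) (D : ML.Pts → ℝ) (ε : ℝ) (y₀ : MT.Pts) : Prop :=
    ∃ (k : ℕ) (P : Fin (d + 1) → ML.Pts → MvPolynomial (Fin s) ℂ) (C : ℝ), 0 < k ∧
    (∀ i z, H₁.f z = y₀ → (P i z).IsHomogeneous k) ∧
    (∀ i μ, HolS ML (eL ρ a) (MT.pz y₀) fun z =>
      if H₁.f z = y₀ then (P i z).coeff μ else 0) ∧
    ∀ z : ML.Pts, H₁.f z = y₀ →
      (∀ i, H₂.fint z (fun y => ‖evs u (P i z) y‖ₑ ^ (2 / (k * N : ℝ))) ≤ ENNReal.ofReal C) ∧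
      (∀ i, Ieps H₂ N k u ε z (evs u (P i z)) * ENNReal.ofReal (D z ^ (ε * N)) ≤
        ENNReal.ofReal C) ∧
      ∀ (Δ : ℕ) (Q : MvPolynomial (Fin (d + 1)) ℂ), Q.IsHomogeneous Δ →
        (∀ y : MK.Pts, H₂.f y = z → MvPolynomial.eval (fun i => evs u (P i z) y) Q = 0) → Q = 0

theorem flat_iff (N d : ℕ) (u : Fin s → MK.B) (D : ML.Pts → ℝ) (ε : ℝ) :
    Flat H₁ H₂ N d u D ε ↔
      ∀ᵐ c : Cn ρ, ∀ y₀ : MT.Pts, MT.pz y₀ = c → FlatAt H₁ H₂ N d u D ε y₀ := Iff.rfl

variable {H₁ H₂}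

/-- a point of the fibre -/
def mkFib {y₀ : MT.Pts} (z : ML.Pts) (h : H₁.f z = y₀) : (rm H₁).Fib y₀ :=
  ⟨z, (rm_q H₁ z).trans h⟩

lemma mkFib_val {y₀ : MT.Pts} (z : ML.Pts) (h : H₁.f z = y₀) :
    (mkFib (H₁ := H₁) z h).val = z := rfl

lemma mkFib_self {y₀ : MT.Pts} (z : (rm H₁).Fib y₀) (h : H₁.f z.val = y₀) :
    mkFib (H₁ := H₁) z.val h = z := rfl

open scoped Classical in
/-- extension by `0` -/
def ext0 {y₀ : MT.Pts} (P : (rm H₁).Fib y₀ → MvPolynomial (Fin s) ℂ) (z : ML.Pts) :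
    MvPolynomial (Fin s) ℂ := if h : H₁.f z = y₀ then P (mkFib z h) else 0

lemma ext0_pos {y₀ : MT.Pts} (P : (rm H₁).Fib y₀ → MvPolynomial (Fin s) ℂ) {z : ML.Pts}
    (h : H₁.f z = y₀) : ext0 P z = P (mkFib z h) := dif_pos h

lemma ext0_val {y₀ : MT.Pts} (P : (rm H₁).Fib y₀ → MvPolynomial (Fin s) ℂ)
    (z : (rm H₁).Fib y₀) : ext0 P z.val = P z :=
  ext0_pos P ((rm_q H₁ _).symm.trans z.q_eq)

open scoped Classical in
theorem flat_at {N d : ℕ} {u : Fin s → MK.B} {D : ML.Pts → ℝ} {ε : ℝ} (hε : 0 ≤ ε)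
    (hS : SatFam (rm H₂) N u) (hCY : IsCY H₂ N u D) {y₀ : MT.Pts}
    [PreconnectedSpace ((rm H₁).Fib y₀)] {z0 : (rm H₁).Fib y₀} {DC : (rm H₁).Fib y₀ → ℂ} {M : ℕ}
    (hD : Dat (fun z : (rm H₁).Fib y₀ => Phi (R := rm H₂) N u z.val) DC M z0)
    (hind : ∃ (i0 : Fin s) (ι : Fin d → Fin s), ∀ P : MvPolynomial (Fin d) ℂ, P ≠ 0 →
      ∃ x : (rm H₂).Fib z0.val, sg (R := rm H₂) u z0.val x i0 ≠ 0 ∧
        MvPolynomial.eval (fun j => sg (R := rm H₂) u z0.val x (ι j) /
          sg (R := rm H₂) u z0.val x i0) P ≠ 0)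
    (hI : ∀ (k : ℕ) (P : MvPolynomial (Fin s) ℂ), 0 < k → P.IsHomogeneous k →
      Ieps H₂ N k u ε z0.val (evs u P) ≠ ∞) :
    FlatAt H₁ H₂ N d u D ε y₀ := by
  have hN2 : 2 ≤ N := by have := hS.N_ge; omega
  have hcs : ConnectedSpace ((rm H₂).Fib z0.val) := hS.conn _
  obtain ⟨k, P, C, hk, hP, hhol, hz⟩ := flat_of_dat (G := (rm H₁).Fib y₀)
    (X := fun z => (rm H₂).Fib z.val) (ν := fun z => nu (rm H₂) z.val)
    (σ := fun z => sg (R := rm H₂) u z.val) (D := fun z => D z.val) (N := N) hN2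
    (fun z => meas_sg (R := rm H₂) u z.val) (fun z => (hCY z.val).1) (fun z => by
      have h1 := (hCY z.val).2
      rw [fintS_dl H₂ u z.val (by positivity)] at h1
      exact h1) (DC := DC) (z0 := z0) (M := M) hD (fun a => hS.fin z0.val a)
    (FinFib_348.leb_ne_zero (nu_leb (rm H₂) z0.val))
    (fun P hP => idt (nu_leb (rm H₂) z0.val) P hP) hind hε
    (fun k P hk hP => by
      have h1 := hI k P hk hP
      rw [Ieps_eq] at h1
      exact h1)
  refine ⟨k, fun i => ext0 (P i), C, hk, fun i z h => ?_, fun i μ => ?_, fun z h => ?_⟩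
  · show (ext0 (P i) z).IsHomogeneous k
    rw [ext0_pos _ h]
    exact hP i _
  · refine holS_of H₁ (g := fun z => (P i z).coeff μ) (hhol i μ) _ (fun z => ?_) (fun z h => ?_)
    · have h : H₁.f z.val = y₀ := (rm_q H₁ _).symm.trans z.q_eq
      rw [if_pos h]
      show (ext0 (P i) z.val).coeff μ = (P i z).coeff μ
      rw [ext0_val]
    · rw [if_neg h]
  · simp only [ext0_pos _ h]
    obtain ⟨h1, h2, h3⟩ := hz (mkFib z h)
    refine ⟨fun i => ?_, fun i => ?_, fun Δ Q hQ hQ0 => ?_⟩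
    · rw [fint_evs]
      exact h1 i
    · rw [Ieps_eq]
      exact h2 i
    · exact h3 Δ Q hQ fun x => hQ0 x.val ((rm_q H₂ _).symm.trans x.q_eq)

/-- **(FLAT)**, from `Dat` on the fibres of `M_L → M_T` -/
theorem flat_of_dat {N d : ℕ} {u : Fin s → MK.B} {D : ML.Pts → ℝ} {ε : ℝ} (hε : 0 ≤ ε)
    (hC : H₁.Conn) (hS : SatFam (rm H₂) N u) (hCY : IsCY H₂ N u D)
    (hkap : ∃ (i0 : Fin s) (ι : Fin d → Fin s),
      AlgebraicIndependent L (fun j => (u (ι j) : K) / (u i0 : K)))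
    (hSKO : ∃ p : MvPolynomial (Fin (ρ + a)) ℂ, p ≠ 0 ∧ ∀ z : ML.Pts,
      MvPolynomial.eval (ML.pz z) p ≠ 0 → ∀ (k : ℕ) (P : MvPolynomial (Fin s) ℂ), 0 < k →
      P.IsHomogeneous k → Ieps H₂ N k u ε z (evs u P) ≠ ∞)
    (hDat : ∀ᵐ c : Cn ρ, ∀ y₀ : MT.Pts, MT.pz y₀ = c → ∀ z0 : (rm H₁).Fib y₀,
      ∃ (DC : (rm H₁).Fib y₀ → ℂ) (M : ℕ),
        Dat (fun z : (rm H₁).Fib y₀ => Phi (R := rm H₂) N u z.val) DC M z0) :
    Flat H₁ H₂ N d u D ε := by
  obtain ⟨i0, ι, hind⟩ := hkap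
  have hu0 : u i0 ≠ 0 := by
    intro h0
    obtain ⟨w⟩ : Nonempty ML.Pts := inferInstance
    have h1 := hS.indep w (Pi.single i0 1) (fun y => by
      rw [Finset.sum_eq_single i0]
      · simp [sg, h0]
      · intro j _ hj
        rw [Pi.single_eq_of_ne hj, zero_mul]
      · intro h; exact absurd (Finset.mem_univ _) h)
    have h2 := congrFun h1 i0
    simp at h2
  obtain ⟨p1, hp1, hgen⟩ := ind_generic (R := rm H₂) u i0 ι hu0 hind
  obtain ⟨p2, hp2, hsko⟩ := hSKO
  rw [flat_iff]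
  filter_upwards [exists_pt H₁ (mul_ne_zero hp1 hp2), hDat] with c hc1 hc2 y₀ hy₀
  obtain ⟨z0, hz0⟩ := hc1 y₀ hy₀
  rw [map_mul] at hz0
  obtain ⟨DC, M, hD⟩ := hc2 y₀ hy₀ z0
  have hpc : PreconnectedSpace ((rm H₁).Fib y₀) := by
    have h1 : {y : ML.Pts | (rm H₁).q y = y₀} = {y : ML.Pts | H₁.f y = y₀} := by
      ext y
      rw [Set.mem_ofPred_eq, Set.mem_ofPred_eq, rm_q]
    have h2 : IsPreconnected {y : ML.Pts | (rm H₁).q y = y₀} := by
      rw [h1]; exact (hC y₀).isPreconnected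
    exact isPreconnected_iff_preconnectedSpace.1 h2
  refine flat_at hε hS hCY hD ⟨i0, ι, fun P hP => ?_⟩ (hsko _ (right_ne_zero_of_mul hz0))
  exact hgen z0.val (left_ne_zero_of_mul hz0) P hP

end main

/-! ### transport of `Dat` -/

section transport

variable {n : ℕ} {G G' : Type*} [TopologicalSpace G] [RDom n G] [TopologicalSpace G'] [RDom n G']
variable {E : Type*} [NormedAddCommGroup E] [NormedSpace ℂ E]

theorem HolAt.comp_cp {φ : G → G'} (hφ : Continuous φ) (h : ∀ x, cp (φ x) = cp x) {f : G' → E}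
    {x : G} (hf : HolAt f (φ x)) : HolAt (fun x => f (φ x)) x := by
  have h1 := RelC_870.germ_comp hφ (ℓ := id) h x
  have h2 : AnalyticAt ℂ (f ∘ (ch (φ x)).symm) (cp x) := by
    rw [← h x]; exact hf
  refine AnalyticAt.congr h2 ?_
  filter_upwards [h1] with w hw
  show f ((ch (φ x)).symm w) = f (φ ((ch x).symm w))
  rw [hw]
  rfl

/-- transport along an isomorphism of Riemann domains -/
theorem Dat.transport {s : ℕ} {R : Type*} (e : G ≃ₜ G') (he : ∀ z, cp (e z) = cp z)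
    {Φ' : G → (Fin s → ℂ) → R} {Φ : G' → (Fin s → ℂ) → R} (hΦ : ∀ z, Φ' z = Φ (e z))
    {DC : G → ℂ} {m : ℕ} {z0 : G} (h : Dat Φ' DC m z0) :
    Dat Φ (fun z => DC (e.symm z)) m (e z0) := by
  have he' : ∀ z, cp (e.symm z) = cp z := fun z => by rw [← he, e.apply_symm_apply]
  have hΦ2 : ∀ z, Φ z = Φ' (e.symm z) := fun z => by rw [hΦ, e.apply_symm_apply]
  refine { pos := ?_, circ := ?_, tr := ?_, s_pos := h.s_pos, m_pos := h.m_pos, D_one := ?_,
           D_ne := fun z => h.D_ne _, D_hol := ?_, det := ?_, fin := ?_ }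
  · intro z a ha
    rw [hΦ2] at ha
    exact h.pos _ a ha
  · intro z c a hc
    rw [hΦ2]
    exact h.circ _ c a hc
  · intro z1
    obtain ⟨T, hT, hT'⟩ := h.tr (e.symm z1)
    refine ⟨fun z => T (e.symm z), fun i j => ?_, ?_⟩
    · exact HolAt.comp_cp e.symm.continuous he' (hT i j)
    · filter_upwards [(e.symm.continuous.tendsto z1).eventually hT'] with z hz
      intro a
      rw [hΦ2, hΦ2]
      exact hz a
  · show DC (e.symm (e z0)) = 1
    rw [e.symm_apply_apply, h.D_one]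
  · intro z
    exact HolAt.comp_cp e.symm.continuous he' (h.D_hol _)
  · intro z A hA
    refine h.det (e.symm z) A fun a => ?_
    have h1 := hA a
    rw [hΦ2 z, ← hΦ] at h1
    exact h1
  · have h1 : {A | A ∈ Is Φ (e z0) (e z0) ∧ A.det ^ m = 1} =
        {A | A ∈ Is Φ' z0 z0 ∧ A.det ^ m = 1} := by
      ext A
      simp only [Is, Set.mem_ofPred_eq, hΦ]
    rw [h1]
    exact h.fin

end transport

/-! ### the hypothesis `hkap` -/

section kap

variable {L K : Type} [Field L] [Field K] [Algebra L K]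

open scoped IntermediateField.algebraAdjoinAdjoin in
/-- if `v₀, …, v_d ∈ span_L u` have algebraically independent ratios, then so do some of the `uᵢ` -/
theorem exists_ratio {s d : ℕ} (u : Fin s → K) (v : Fin (d + 1) → K) (hv0 : v 0 ≠ 0)
    (hv : ∀ j, v j ∈ Submodule.span L (range u))
    (hind : AlgebraicIndependent L (fun j : Fin d => v j.succ / v 0)) :
    ∃ (i0 : Fin s) (ι : Fin d → Fin s), u i0 ≠ 0 ∧
      AlgebraicIndependent L (fun j => u (ι j) / u i0) := by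
  obtain ⟨i0, hi0⟩ : ∃ i0, u i0 ≠ 0 := by
    by_contra h
    push Not at h
    apply hv0
    have h1 : Submodule.span L (range u) = ⊥ := by
      rw [Submodule.span_eq_bot]
      rintro _ ⟨i, rfl⟩
      exact h i
    have := hv 0
    rw [h1, Submodule.mem_bot] at this
    exact this
  set t : Set K := range fun i => u i / u i0 with ht
  have hmem : ∀ x ∈ Submodule.span L (range u), x / u i0 ∈ IntermediateField.adjoin L t := by
    intro x hx
    induction hx using Submodule.span_induction with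
    | mem x hx =>
      obtain ⟨i, rfl⟩ := hx
      exact IntermediateField.subset_adjoin L t ⟨i, rfl⟩
    | zero => rw [zero_div]; exact zero_mem _
    | add x y _ _ hx hy => rw [add_div]; exact add_mem hx hy
    | smul c x _ hx =>
      rw [smul_div_assoc]
      exact (IntermediateField.adjoin L t).smul_mem hx
  obtain ⟨y, hy, hyi⟩ := FlatI_464.exists_indep (F := L) _ hind t (fun j => by
    have h1 : v j.succ / v 0 ∈ IntermediateField.adjoin L t := by
      have := div_mem (hmem _ (hv j.succ)) (hmem _ (hv 0))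
      rwa [div_div_div_cancel_right₀ hi0] at this
    have h2 : IsAlgebraic (IntermediateField.adjoin L t) (v j.succ / v 0) :=
      isAlgebraic_algebraMap (⟨_, h1⟩ : IntermediateField.adjoin L t)
    exact (IsFractionRing.isAlgebraic_iff (Algebra.adjoin L t)
      (IntermediateField.adjoin L t) K).2 h2)
  choose ι hι using hy
  refine ⟨i0, ι, hi0, ?_⟩
  have : (fun j => u (ι j) / u i0) = y := funext hι
  rw [this]
  exact hyi

end kap

end Crest.Agent.R276.FlatC_464
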