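import Mathlib
import Crest.Agent.R276.Mod7_987

/-!
# Row 276 (S0419): frozen structures `SatFam`, `FlatFam` (helper793; contents: 519 #2106)

Everything is stated for a relative model `R : RMdl L K m r` (987), `q : MK.Pts → ML.Pts`, and a
frame `σ : Fin s → R.MK.B`.

* `SatFam R N σ` = output of SAT (210): surjective `q`, connected fibres, fibrewise independence,
  `Φ(w, a) = ∫_{M_w} |∑ aᵢ σᵢ|^{2/N}` finite and continuous, closure (Cl), `D(w)` finite, positive,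
  continuous.
* `FlatFam R N σ k f` = `SatFam` + (FL): `|f|² = D^k`, `f` holomorphic without zeros (574).

RESTR: if `R` is a relative model and `G` a connected fibre of `M_L → M_T`, then `M_K|G → G` is again
a relative model `R'` (over the function field of `G`) and `SatFam R N σ → SatFam R' N σ'`; so the
cases `ρ = 0` and `ρ > 0` are the same.
-/

set_option autoImplicit false

open Topology Filter MeasureTheory
open scoped ENNReal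

noncomputable section

namespace Crest.Agent.R276.FlatFam_793

open Crest.Agent.R271.Defs710 Crest.Agent.R271.Ho51
open Crest.Agent.R276.Mod1_987

variable {L K : Type} [Field L] [Field K] [Algebra ℂ L] [Algebra ℂ K] [Algebra L K]
  [IsScalarTower ℂ L K] {m r : ℕ} (R : RMdl L K m r)

/-- `∑ aᵢ σᵢ(y)` -/
def lc {s : ℕ} (σ : Fin s → R.MK.B) (a : Fin s → ℂ) (y : R.MK.Pts) : ℂ := ∑ i, a i * y (σ i)

/-- `Φ(w, a) = ∫_{M_w} |∑ aᵢ σᵢ|^{2/N}` -/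
def Phi (N : ℕ) {s : ℕ} (σ : Fin s → R.MK.B) (w : R.ML.Pts) (a : Fin s → ℂ) : ℝ≥0∞ :=
  R.fint w fun y => ‖lc R σ a y‖ₑ ^ (2 / (N : ℝ))

/-- integral over the `s`-fold product of the fibre over `w` -/
def fintS (s : ℕ) (w : R.ML.Pts) (g : (Fin s → R.MK.Pts) → ℝ≥0∞) : ℝ≥0∞ :=
  ∫⁻ ξ : Fin s → Cn r,
    ∑' y : {y : Fin s → R.MK.Pts // (∀ i, R.q (y i) = w) ∧ ∀ i, R.x (y i) = ξ i}, g y.1

variable {R}

/-- `δ(y₁, …, y_s) = det σᵢ(yⱼ)` -/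
def dl {s : ℕ} (σ : Fin s → R.MK.B) (y : Fin s → R.MK.Pts) : ℂ :=
  (Matrix.of fun i j => y j (σ i)).det

variable (R)

/-- `D(w) = ∫_{M_w^s} |δ|^{2/N}` in `[0, ∞]` -/
def De (N : ℕ) {s : ℕ} (σ : Fin s → R.MK.B) (w : R.ML.Pts) : ℝ≥0∞ :=
  fintS R s w fun y => ‖dl σ y‖ₑ ^ (2 / (N : ℝ))

/-- `D(w) = ∫_{M_w^s} |δ|^{2/N}` -/
def D (N : ℕ) {s : ℕ} (σ : Fin s → R.MK.B) (w : R.ML.Pts) : ℝ := (De R N σ w).toReal

/-- the weight `(∑ |σᵢ|²)^{-(N-1)/N}` -/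
def wK (N : ℕ) {s : ℕ} (σ : Fin s → R.MK.B) (y : R.MK.Pts) : ℝ≥0∞ :=
  (∑ i, ‖y (σ i)‖ₑ ^ 2) ^ (-((N - 1 : ℝ) / N))

/-- output of SAT -/
structure SatFam (N : ℕ) {s : ℕ} (σ : Fin s → R.MK.B) : Prop where
  surj : Function.Surjective R.q
  conn : ∀ w : R.ML.Pts, PreconnectedSpace (R.Fib w)
  N_even : Even N
  N_ge : 4 ≤ N
  s_pos : 0 < s
  /-- the `σᵢ` are linearly independent on every fibre -/
  li : ∀ (w : R.ML.Pts) (a : Fin s → ℂ), (∀ y : R.Fib w, lc R σ a y.val = 0) → a = 0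
  /-- `Φ < ∞` -/
  fin : ∀ (w : R.ML.Pts) (a : Fin s → ℂ), Phi R N σ w a ≠ ∞
  /-- `Φ` is continuous -/
  cont : Continuous fun q : R.ML.Pts × (Fin s → ℂ) => (Phi R N σ q.1 q.2).toReal
  /-- (Cl) -/
  cl : ∀ (w : R.ML.Pts) (μ : Measure (R.Fib w)), IsLeb μ → ∀ f : R.Fib w → ℂ, Hol f →
    ∫⁻ y, ‖f y‖ₑ ^ 2 * wK R N σ y.val ∂μ ≠ ∞ → ∃ a : Fin s → ℂ, ∀ y, f y = lc R σ a y.val
  dfin : ∀ w, De R N σ w ≠ ∞
  dpos : ∀ w, 0 < D R N σ w
  dcont : Continuous (D R N σ)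

/-- `SatFam` together with (FL) -/
structure FlatFam (N : ℕ) {s : ℕ} (σ : Fin s → R.MK.B) (k : ℕ) (f : R.ML.Pts → ℂ) : Prop extends
    SatFam R N σ where
  k_pos : 0 < k
  hol : Hol f
  ne : ∀ w, f w ≠ 0
  eq : ∀ w, ‖f w‖ ^ 2 = D R N σ w ^ k

end Crest.Agent.R276.FlatFam_793
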