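import Mathlib
import Crest.Agent.R276.GlobN_739
import Crest.Agent.R276.FlatT_464

/-!
# R276, leaf GLOBF (helper739): from line transports and FIN to the data `Dat` of FLATALG (464)

`G` a Riemann domain, `Φ : G → ℂˢ → ℝ` continuous, positive, homogeneous, `f : G → ℂˣ` holomorphic with
`‖det A‖^k ‖f z'‖^l = ‖f z‖^l` for every isometry `A : Φ z → Φ z'` (`structure FD`);
`LineT Φ` : holomorphic families of isometries along all complex discs in charts (no normalisation, no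
determinant).

* `glob_at` : if `{A | A isometry of Φ z1, det A ^ k = 1}` is finite, then near `z1` there is a holomorphic
  `T` with `T z1 = 1`, `T z` an isometry `Φ z1 → Φ z` and `det (T z) ^ k * f z ^ l = f z1 ^ l`.
* `fin_all` : finiteness at one point implies finiteness at every point (`G` connected).
* `dat` : `Dat Φ (fun z => (f z0 / f z) ^ l) k z0` for every `z0`.
-/

set_option autoImplicit false
set_option linter.unusedSectionVars false

noncomputable section

open Set Filter Topology Metric Matrix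

namespace Crest.Agent.R276.GlobR_739

open Crest.Agent.R271.Ho51 Crest.Agent.R276.GlobN_739
open Crest.Agent.R276.FlatT_464 (Is Nm Loc Dat)
open Crest.Agent.R276.Ipc735 (HolAt)

variable {n : ℕ} {G : Type*} [TopologicalSpace G] [RDom n G] {s : ℕ}

/-- holomorphic families of isometries along complex discs -/
def LineT {R : Type*} (Φ : G → (Fin s → ℂ) → R) : Prop :=
  ∀ (e : OpenPartialHomeomorph G (Fin n → ℂ)), IsCh e → ∀ (z v : Fin n → ℂ),
    (∀ t ∈ closedBall (0 : ℂ) 1, z + t • v ∈ e.target) →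
    ∃ T : ℂ → Matrix (Fin s) (Fin s) ℂ,
      (∀ i j, DifferentiableOn ℂ (fun t => T t i j) (ball 0 1)) ∧ (T 0).det ≠ 0 ∧
      ∀ t ∈ ball (0 : ℂ) 1, ∀ a, Φ (e.symm (z + t • v)) (T t *ᵥ a) = Φ (e.symm z) (T 0 *ᵥ a)

/-- finitely many isometries with `det ^ k = 1` -/
def FinAt {R : Type*} (Φ : G → (Fin s → ℂ) → R) (k : ℕ) (z : G) : Prop :=
  {A | A ∈ Is Φ z z ∧ A.det ^ k = 1}.Finite

/-- the data -/
structure FD (Φ : G → (Fin s → ℂ) → ℝ) (f : G → ℂ) (p : ℝ) (k l : ℕ) : Prop where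
  cont : Continuous fun q : G × (Fin s → ℂ) => Φ q.1 q.2
  pos : ∀ z v, v ≠ 0 → 0 < Φ z v
  hom : ∀ z (c : ℂ) v, Φ z (c • v) = ‖c‖ ^ p * Φ z v
  p0 : 0 < p
  hol : Hol f
  f0 : ∀ z, f z ≠ 0
  k0 : 0 < k
  s0 : 0 < s
  det : ∀ z z' A, A ∈ Is Φ z z' → ‖A.det‖ ^ k * ‖f z'‖ ^ l = ‖f z‖ ^ l

variable {Φ : G → (Fin s → ℂ) → ℝ} {f : G → ℂ} {p : ℝ} {k l : ℕ}

/-- matrices as continuous linear maps -/
def cl (A : Matrix (Fin s) (Fin s) ℂ) : (Fin s → ℂ) →L[ℂ] (Fin s → ℂ) :=
  LinearMap.toContinuousLinearMap (Matrix.toLin' A)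

theorem cl_apply (A : Matrix (Fin s) (Fin s) ℂ) (a : Fin s → ℂ) : cl A a = A *ᵥ a := by
  simp [cl]

theorem det_cl (A : Matrix (Fin s) (Fin s) ℂ) :
    LinearMap.det ((cl A : (Fin s → ℂ) →L[ℂ] (Fin s → ℂ)) : (Fin s → ℂ) →ₗ[ℂ] (Fin s → ℂ)) = A.det := by
  unfold cl
  simp

/-- continuous linear maps as matrices -/
def mt (B : (Fin s → ℂ) →L[ℂ] (Fin s → ℂ)) : Matrix (Fin s) (Fin s) ℂ :=
  LinearMap.toMatrix' (B : (Fin s → ℂ) →ₗ[ℂ] (Fin s → ℂ))

theorem mt_mulVec (B : (Fin s → ℂ) →L[ℂ] (Fin s → ℂ)) (a : Fin s → ℂ) : mt B *ᵥ a = B a := by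
  unfold mt
  rw [← Matrix.toLin'_apply, Matrix.toLin'_toMatrix']
  rfl

theorem det_mt (B : (Fin s → ℂ) →L[ℂ] (Fin s → ℂ)) :
    (mt B).det = LinearMap.det (B : (Fin s → ℂ) →ₗ[ℂ] (Fin s → ℂ)) := by
  unfold mt
  rw [LinearMap.det_toMatrix']

theorem mt_apply (B : (Fin s → ℂ) →L[ℂ] (Fin s → ℂ)) (i j : Fin s) :
    mt B i j = B (Pi.single j 1) i := by
  unfold mt
  rw [LinearMap.toMatrix'_apply]
  rfl

theorem mt_cl (A : Matrix (Fin s) (Fin s) ℂ) : mt (cl A) = A := by
  unfold mt cl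
  simp

theorem cl_mt (B : (Fin s → ℂ) →L[ℂ] (Fin s → ℂ)) : cl (mt B) = B := by
  ext a : 1
  rw [cl_apply, mt_mulVec]

theorem cl_one : cl (1 : Matrix (Fin s) (Fin s) ℂ) = 1 := by
  ext a : 1
  rw [cl_apply, Matrix.one_mulVec]
  rfl

theorem cl_add (A A' : Matrix (Fin s) (Fin s) ℂ) : cl (A + A') = cl A + cl A' := by
  ext a : 1
  rw [_root_.add_apply, cl_apply, cl_apply, cl_apply, Matrix.add_mulVec]

theorem cl_smul (c : ℂ) (A : Matrix (Fin s) (Fin s) ℂ) : cl (c • A) = c • cl A := by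
  ext a : 1
  rw [_root_.smul_apply, cl_apply, cl_apply, Matrix.smul_mulVec]

/-- `cl` as a continuous linear map -/
def clL : (Fin s → Fin s → ℂ) →L[ℂ] ((Fin s → ℂ) →L[ℂ] (Fin s → ℂ)) :=
  LinearMap.toContinuousLinearMap
    { toFun := fun A => cl (Matrix.of A)
      map_add' := fun A A' => cl_add (Matrix.of A) (Matrix.of A')
      map_smul' := fun c A => cl_smul c (Matrix.of A) }

theorem FD.nm (D : FD Φ f p k l) : Nm Φ where
  pos := by
    intro z a h
    by_contra hne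
    have h1 := D.pos z a hne
    have h2 := D.hom z 0 0
    rw [zero_smul, norm_zero, Real.zero_rpow D.p0.ne', zero_mul] at h2
    rw [h, h2] at h1
    exact lt_irrefl _ h1
  circ := by
    intro z c a hc
    rw [D.hom, hc, Real.one_rpow, one_mul]

theorem hol_cont (hf : Hol f) {e : OpenPartialHomeomorph G (Fin n → ℂ)} (he : IsCh e) :
    ContinuousOn (fun ζ => f (e.symm ζ)) e.target := (hf e he).continuousOn

/-- the data in a chart -/
theorem FD.data (D : FD Φ f p k l) {e : OpenPartialHomeomorph G (Fin n → ℂ)} (he : IsCh e)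
    {B : Set (Fin n → ℂ)} (hB : IsOpen B) (hBe : B ⊆ e.target) :
    Data (fun ζ v => Φ (e.symm ζ) v) (fun ζ => f (e.symm ζ)) p B where
  op := hB
  cont := by
    have h1 : ContinuousOn (fun q : (Fin n → ℂ) × (Fin s → ℂ) => ((e.symm q.1 : G), q.2))
        (B ×ˢ univ) := by
      refine ContinuousOn.prodMk ?_ continuousOn_snd
      exact (e.continuousOn_symm.mono hBe).comp continuousOn_fst (fun q hq => hq.1)
    exact D.cont.comp_continuousOn h1
  pos := fun z _ v hv => D.pos _ v hv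
  hom := fun z _ c v => D.hom _ c v
  p0 := D.p0
  fc := (hol_cont D.hol he).mono hBe
  f0 := fun z _ => D.f0 _

theorem closure_disc {B : Set (Fin n → ℂ)} {z v : Fin n → ℂ}
    (h : ∀ t ∈ ball (0 : ℂ) 1, z + t • v ∈ B) : ∀ t ∈ closedBall (0 : ℂ) 1, z + t • v ∈ closure B := by
  intro t ht
  have h1 : closedBall (0 : ℂ) 1 = closure (ball (0 : ℂ) 1) := (closure_ball _ one_ne_zero).symm
  rw [h1] at ht
  have h2 : Continuous fun t : ℂ => z + t • v := by fun_prop
  exact closure_mono (image_subset_iff.2 h) (image_closure_subset_closure_image h2 ⟨t, ht, rfl⟩)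

/-- line transports in a chart, in the format of GLOB-N -/
theorem FD.line (D : FD Φ f p k l) (hL : LineT Φ) {e : OpenPartialHomeomorph G (Fin n → ℂ)}
    (he : IsCh e) {B : Set (Fin n → ℂ)} (hBe : closure B ⊆ e.target) :
    Data.Line (fun ζ v => Φ (e.symm ζ) v) (fun ζ => f (e.symm ζ)) k l B := by
  intro z1 hz1 v hv
  have hv' : ∀ t ∈ closedBall (0 : ℂ) 1, z1 + t • v ∈ e.target := fun t ht =>
    hBe (closure_disc hv t ht)
  obtain ⟨T, hT, hT0, hTΦ⟩ := hL e he z1 v hv'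
  have hu : IsUnit (T 0).det := hT0.isUnit
  set S : ℂ → Matrix (Fin s) (Fin s) ℂ := fun t => T t * (T 0)⁻¹ with hS
  have hSd : ∀ i j, DifferentiableOn ℂ (fun t => S t i j) (ball 0 1) := by
    intro i j
    simp only [hS, Matrix.mul_apply]
    exact DifferentiableOn.fun_sum fun m _ => (hT i m).mul_const _
  have hS0 : S 0 = 1 := Matrix.mul_nonsing_inv _ hu
  have hSI : ∀ t ∈ ball (0 : ℂ) 1, S t ∈ Is Φ (e.symm z1) (e.symm (z1 + t • v)) := by
    intro t ht a
    rw [hS]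
    simp only
    rw [← Matrix.mulVec_mulVec, hTΦ t ht, Matrix.mulVec_mulVec, Matrix.mul_nonsing_inv _ hu,
      Matrix.one_mulVec]
  have hSdet : DifferentiableOn ℂ (fun t => (S t).det) (ball 0 1) := by
    simp only [Matrix.det_apply']
    exact DifferentiableOn.fun_sum fun σ _ =>
      (differentiableOn_const _).mul (DifferentiableOn.fun_finsetProd fun i _ => hSd _ _)
  have hfd : DifferentiableOn ℂ (fun t : ℂ => f (e.symm (z1 + t • v))) (ball 0 1) := by
    have h1 : DifferentiableOn ℂ (f ∘ e.symm) e.target := D.hol e he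
    have h2 : DifferentiableOn ℂ (fun t : ℂ => z1 + t • v) (ball 0 1) := by fun_prop
    exact h1.comp h2 (fun t ht => hv' t (ball_subset_closedBall ht))
  set g : ℂ → ℂ := fun t => (S t).det ^ k * f (e.symm (z1 + t • v)) ^ l with hg
  have hgd : DifferentiableOn ℂ g (ball 0 1) := (hSdet.pow k).mul (hfd.pow l)
  have hgn : ∀ t ∈ ball (0 : ℂ) 1, ‖g t‖ = ‖f (e.symm z1)‖ ^ l := by
    intro t ht
    rw [hg]
    simp only [norm_mul, norm_pow]
    exact D.det _ _ _ (hSI t ht)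
  have h00 : (0 : ℂ) ∈ ball (0 : ℂ) 1 := mem_ball_self one_pos
  have hgc : EqOn g (Function.const ℂ (g 0)) (ball 0 1) := by
    refine Complex.eqOn_of_isPreconnected_of_isMaxOn_norm (convex_ball _ _).isPreconnected
      isOpen_ball hgd h00 ?_
    intro t ht
    show ‖g t‖ ≤ ‖g 0‖
    rw [hgn t ht, hgn 0 h00]
  have hg0 : g 0 = f (e.symm z1) ^ l := by
    rw [hg]
    simp only [hS0, Matrix.det_one, one_pow, one_mul, zero_smul, add_zero]
  refine ⟨fun t => cl (S t), fun t ht => ?_, ?_, fun t ht => ⟨fun a => ?_, ?_⟩⟩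
  · -- differentiability
    have h1 : ∀ i j, DifferentiableAt ℂ (fun t => S t i j) t := fun i j =>
      (hSd i j).differentiableAt (isOpen_ball.mem_nhds ht)
    have h2 : DifferentiableAt ℂ (fun t => (fun i j => S t i j : Fin s → Fin s → ℂ)) t := by
      rw [differentiableAt_pi]
      intro i
      rw [differentiableAt_pi]
      exact fun j => h1 i j
    have h3 : (fun t => cl (S t)) = (clL (s := s)) ∘ fun t => (fun i j => S t i j) := rfl
    rw [h3]
    exact DifferentiableAt.comp t (clL (s := s)).differentiableAt h2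
  · show cl (S 0) = 1
    rw [hS0, cl_one]
  · show Φ (e.symm (z1 + t • v)) (cl (S t) a) = _
    rw [cl_apply]
    exact hSI t ht a
  · show LinearMap.det ((cl (S t) : (Fin s → ℂ) →L[ℂ] (Fin s → ℂ)) :
      (Fin s → ℂ) →ₗ[ℂ] (Fin s → ℂ)) ^ k * f (e.symm (z1 + t • v)) ^ l = f (e.symm z1) ^ l
    rw [det_cl]
    have := hgc ht
    simp only [Function.const_apply, hg0] at this
    exact this

/-- a ball in the target of the chart -/
theorem exists_ball_closure {e : OpenPartialHomeomorph G (Fin n → ℂ)} {z : Fin n → ℂ}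
    (hz : z ∈ e.target) : ∃ ρ > 0, closure (ball z ρ) ⊆ e.target := by
  obtain ⟨ρ, hρ, h⟩ := Metric.nhds_basis_closedBall.mem_iff.1 (e.open_target.mem_nhds hz)
  exact ⟨ρ, hρ, (closure_ball_subset_closedBall).trans h⟩

/-- **globalisation at a point** -/
theorem glob_at (D : FD Φ f p k l) (hL : LineT Φ) {z1 : G} (hf : FinAt Φ k z1) :
    ∃ T : G → Matrix (Fin s) (Fin s) ℂ, (∀ i j, HolAt (fun z => T z i j) z1) ∧ T z1 = 1 ∧
      ∀ᶠ z in 𝓝 z1, T z ∈ Is Φ z1 z ∧ (T z).det ^ k * f z ^ l = f z1 ^ l := by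
  set e := ch z1 with he
  have hec : IsCh e := isCh_ch z1
  have hmem : z1 ∈ e.source := mem_ch z1
  have hcp : cp z1 ∈ e.target := hec.cp_mem hmem
  have hsy : e.symm (cp z1) = z1 := hec.symm_cp hmem
  obtain ⟨ρ, hρ, hρe⟩ := exists_ball_closure (e := e) hcp
  have hData := D.data hec isOpen_ball (subset_closure.trans hρe)
  have hLine := D.line hL hec hρe
  have hfin : (J (fun ζ v => Φ (e.symm ζ) v) (fun ζ => f (e.symm ζ)) k l (cp z1) (cp z1)).Finite := by
    refine (hf.image cl).subset ?_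
    intro B hB
    refine ⟨mt B, ⟨fun a => ?_, ?_⟩, cl_mt B⟩
    · rw [mt_mulVec]
      have := hB.1 a
      simp only [hsy] at this
      exact this
    · rw [det_mt]
      have := hB.2
      simp only [hsy] at this
      exact mul_right_cancel₀ (pow_ne_zero l (D.f0 z1)) (by rw [this, one_mul])
  obtain ⟨r, hr, -, T, hT, hT1, hTJ⟩ := hData.glob hLine (mem_ball_self hρ) hfin
  refine ⟨fun z => mt (T (cp z)), fun i j => ?_, ?_, ?_⟩
  · have h1 : AnalyticAt ℂ T (cp z1) := hT _ (mem_ball_self hr)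
    have h2 : AnalyticAt ℂ (fun ζ => T ζ (Pi.single j 1) i) (cp z1) := by
      let L : ((Fin s → ℂ) →L[ℂ] (Fin s → ℂ)) →L[ℂ] ℂ :=
        (ContinuousLinearMap.proj (R := ℂ) (φ := fun _ : Fin s => ℂ) i).comp
          (ContinuousLinearMap.apply ℂ (Fin s → ℂ) (Pi.single j 1 : Fin s → ℂ))
      exact (L.analyticAt _).comp h1
    show AnalyticAt ℂ ((fun z : G => mt (T (cp z)) i j) ∘ e.symm) (cp z1)
    refine h2.congr ?_
    filter_upwards [e.open_target.mem_nhds hcp] with ζ hζ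
    simp only [Function.comp_apply]
    rw [hec.cp_symm hζ, mt_apply]
  · show mt (T (cp z1)) = 1
    rw [hT1, ← cl_one, mt_cl]
  · have h1 : ∀ᶠ z in 𝓝 z1, cp z ∈ ball (cp z1) r :=
      (cp_cont (M := G)).continuousAt.eventually (ball_mem_nhds _ hr)
    filter_upwards [h1, e.open_source.mem_nhds hmem] with z hz hze
    have h2 := hTJ _ hz
    have h3 : e.symm (cp z) = z := hec.symm_cp hze
    refine ⟨fun a => ?_, ?_⟩
    · rw [mt_mulVec]
      have := h2.1 a
      simp only [h3, hsy] at this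
      exact this
    · rw [det_mt]
      have := h2.2
      simp only [h3, hsy] at this
      exact this

/-- nearby fibres are isometric -/
theorem line_near {R : Type*} {Ψ : G → (Fin s → ℂ) → R} (hL : LineT Ψ) (z1 : G) :
    ∀ᶠ z in 𝓝 z1, ∃ A, A ∈ Is Ψ z1 z := by
  set e := ch z1 with he
  have hec : IsCh e := isCh_ch z1
  have hmem : z1 ∈ e.source := mem_ch z1
  have hcp : cp z1 ∈ e.target := hec.cp_mem hmem
  have hsy : e.symm (cp z1) = z1 := hec.symm_cp hmem
  obtain ⟨ρ, hρ, h⟩ := Metric.nhds_basis_closedBall.mem_iff.1 (e.open_target.mem_nhds hcp)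
  have h1 : ∀ᶠ z in 𝓝 z1, cp z ∈ ball (cp z1) (ρ / 2) :=
    (cp_cont (M := G)).continuousAt.eventually (ball_mem_nhds _ (by positivity))
  filter_upwards [h1, e.open_source.mem_nhds hmem] with z hz hze
  have h3 : e.symm (cp z) = z := hec.symm_cp hze
  obtain ⟨T, -, hT0, hT⟩ := hL e hec (cp z1) ((2 : ℂ) • (cp z - cp z1)) (by
    intro t ht
    apply h
    rw [mem_closedBall_iff_norm, add_sub_cancel_left, norm_smul, norm_smul]
    rw [mem_closedBall_zero_iff] at ht
    rw [mem_ball_iff_norm] at hz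
    have h4 : ‖(2 : ℂ)‖ = 2 := by simp
    rw [h4]
    have h5 := norm_nonneg (cp z - cp z1)
    nlinarith)
  have h4 := hT (1 / 2) (by rw [mem_ball_zero_iff]; norm_num)
  have h5 : cp z1 + ((1 : ℂ) / 2) • ((2 : ℂ) • (cp z - cp z1)) = cp z := by
    rw [smul_smul]
    norm_num
  rw [h5, h3, hsy] at h4
  refine ⟨T (1 / 2) * (T 0)⁻¹, fun a => ?_⟩
  rw [← Matrix.mulVec_mulVec, h4, Matrix.mulVec_mulVec, Matrix.mul_nonsing_inv _ hT0.isUnit,
    Matrix.one_mulVec]

/-- finiteness is transported by isometries -/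
theorem FinAt.of_is {R : Type*} {Ψ : G → (Fin s → ℂ) → R} (hn : Nm Ψ) {z z' : G}
    {A : Matrix (Fin s) (Fin s) ℂ} (hA : A ∈ Is Ψ z z') (h : FinAt Ψ k z) : FinAt Ψ k z' := by
  have hu : IsUnit A.det := (Is.det_ne hn hA).isUnit
  refine (h.image fun X => A * X * A⁻¹).subset ?_
  rintro Y ⟨hY, hYd⟩
  refine ⟨A⁻¹ * Y * A, ⟨Is.mul (Is.mul (Is.inv hn hA) hY) hA, ?_⟩, ?_⟩
  · rw [Matrix.det_mul, Matrix.det_mul, mul_comm (A⁻¹).det, mul_assoc, ← Matrix.det_mul,
      Matrix.nonsing_inv_mul _ hu, Matrix.det_one, mul_one, hYd]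
  · show A * (A⁻¹ * Y * A) * A⁻¹ = Y
    rw [Matrix.mul_assoc A⁻¹, ← Matrix.mul_assoc A, Matrix.mul_nonsing_inv _ hu, Matrix.one_mul,
      Matrix.mul_assoc, Matrix.mul_nonsing_inv _ hu, Matrix.mul_one]

/-- **FIN moves to every point** -/
theorem fin_all [PreconnectedSpace G] {R : Type*} {Ψ : G → (Fin s → ℂ) → R} (hn : Nm Ψ)
    (hL : LineT Ψ) {z0 : G} (h : FinAt Ψ k z0) (z : G) : FinAt Ψ k z := by
  have hcl : IsClopen {z | FinAt Ψ k z} := by
    constructor
    · rw [← isOpen_compl_iff, isOpen_iff_mem_nhds]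
      intro z1 hz1
      filter_upwards [line_near hL z1] with z hz hF
      obtain ⟨A, hA⟩ := hz
      exact hz1 (FinAt.of_is hn (Is.inv hn hA) hF)
    · rw [isOpen_iff_mem_nhds]
      intro z1 hz1
      filter_upwards [line_near hL z1] with z hz
      obtain ⟨A, hA⟩ := hz
      exact FinAt.of_is hn hA hz1
  have := hcl.eq_univ ⟨z0, h⟩
  have hz : z ∈ {z | FinAt Ψ k z} := by rw [this]; trivial
  exact hz

theorem holAt_of_hol (hf : Hol f) (z : G) : HolAt f z := by
  have h1 := hf (ch z) (isCh_ch z)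
  have h2 : cp z ∈ (ch z).target := (isCh_ch z).cp_mem (mem_ch z)
  exact Crest.Agent.R266.SCV.analyticAt_of_eventually_differentiableAt
    (by filter_upwards [(ch z).open_target.mem_nhds h2] with w hw
        exact h1.differentiableAt ((ch z).open_target.mem_nhds hw))

/-- **the data of FLATALG** -/
theorem dat [PreconnectedSpace G] (D : FD Φ f p k l) (hL : LineT Φ) {w0 : G} (hf : FinAt Φ k w0)
    (z0 : G) : Dat Φ (fun z => (f z0 / f z) ^ l) k z0 where
  toNm := D.nm
  tr := by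
    intro z1
    obtain ⟨T, h1, -, h3⟩ := glob_at D hL (fin_all D.nm hL hf z1)
    exact ⟨T, h1, h3.mono fun z hz => hz.1⟩
  s_pos := D.s0
  m_pos := D.k0
  D_one := by rw [div_self (D.f0 z0), one_pow]
  D_ne := fun z => pow_ne_zero _ (div_ne_zero (D.f0 z0) (D.f0 z))
  D_hol := by
    intro z
    have h1 := holAt_of_hol D.hol z
    have h2 : HolAt (fun z => (f z)⁻¹) z := FlatT_464.HolAt.inv h1 (D.f0 z)
    have h3 : HolAt (fun x : G => f z0 * (f x)⁻¹) z :=
      FlatT_464.HolAt.mul (FlatT_464.holAt_const _ z) h2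
    have h4 := FlatT_464.HolAt.pow h3 l
    simpa only [div_eq_mul_inv] using h4
  det := by
    intro z A hA
    have h1 := D.det z0 z A hA
    rw [norm_pow, norm_div, div_pow, eq_div_iff (pow_ne_zero _ (norm_ne_zero_iff.2 (D.f0 z)))]
    exact h1
  fin := fin_all D.nm hL hf z0

end Crest.Agent.R276.GlobR_739
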