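import Mathlib
import Crest.Agent.R276.Liou_739

/-!
# R276, leaf LIOU, part 2 (helper739): instances of `MaxPr`, curves, line-by-line Liouville

* `maxPr_exp` : `u` usc with circle sub-mean value property (`SMean`) ⟹ `MaxPr (exp u)`.
* `maxPr_exp_of_lap`, `maxPr_exp_of_lev`, `maxPr_exp_of_levi` : `C²` functions / smooth psh functions.
* `maxPr_of_area` : `b ≥ 0` usc, `log (b + δ)` has the area sub-mean value property for all `δ > 0`
  ⟹ `MaxPr b` (`LPsh` of helper29, values `b = 0` allowed).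
* `const_on`, `const_of_max` : Liouville on a clopen preconnected set (connected component).
* `liouville`, `liouville_growth` : for `SMean u`; `pluriharmonic_of_add_le` : `u1 + u2 ≤ C` ⟹ mean value
  equalities for both.
* `Lin M z0 v i`, `linDom`, `prp_lin`, `ln_lin`, `smean_lin`, `maxPr_lin` : the preimage of a complex
  line is a Riemann domain of dimension one which again satisfies `Prp`.
* `exists_fibre_ge_line`, `const_of_lines`, `liouville_lines` : growth conditions line by line.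
-/

set_option autoImplicit false

open Set Filter Topology Metric MeasureTheory
open Real (circleAverage)

namespace Crest.Agent.R276.Liou2_739

open Crest.Agent.R271.Ho51 Crest.Agent.R276.Liou_739

/-! ### flat lemmas -/

theorem exists_ball_ana {F : ℂ → ℂ} (hF : AnalyticAt ℂ F 0) (hF0 : F 0 ≠ 0) :
    ∃ ρ > 0, ∀ t ∈ ball (0 : ℂ) ρ, AnalyticAt ℂ F t ∧ F t ≠ 0 := by
  have h1 := hF.eventually_analyticAt.and (hF.continuousAt.eventually_ne hF0)
  exact Metric.eventually_nhds_iff_ball.1 h1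

theorem mean_log {F : ℂ → ℂ} {ρ : ℝ} (hF : ∀ t ∈ ball (0 : ℂ) ρ, AnalyticAt ℂ F t ∧ F t ≠ 0)
    {r : ℝ} (hr : 0 ≤ r) (hrρ : r < ρ) :
    circleAverage (fun t => Real.log ‖F t‖) 0 r = Real.log ‖F 0‖ ∧
      CircleIntegrable (fun t => Real.log ‖F t‖) 0 r := by
  have h1 : InnerProductSpace.HarmonicOnNhd (fun t => Real.log ‖F t‖) (closedBall 0 |r|) := by
    intro t ht
    have ht' : t ∈ ball (0 : ℂ) ρ := by
      rw [mem_closedBall_zero_iff, abs_of_nonneg hr] at ht
      rw [mem_ball_zero_iff]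
      linarith
    exact (hF t ht').1.harmonicAt_log_norm (hF t ht').2
  refine ⟨h1.circleAverage_eq, ?_⟩
  exact (h1.continuousOn.mono sphere_subset_closedBall).circleIntegrable'

/-- a nonnegative lower semicontinuous function with mean `≤ 0` vanishes -/
theorem eq_zero_of_mean {g : ℂ → ℝ} {r : ℝ} (hr : 0 < r) (hg0 : ∀ t ∈ sphere (0 : ℂ) r, 0 ≤ g t)
    (hlsc : ∀ t ∈ sphere (0 : ℂ) r, ∀ c < g t, ∀ᶠ s in 𝓝 t, c < g s)
    (hint : CircleIntegrable g 0 r) (havg : circleAverage g 0 r ≤ 0) :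
    ∀ t ∈ sphere (0 : ℂ) r, g t = 0 := by
  intro t ht
  by_contra hne
  have hpos : 0 < g t := lt_of_le_of_ne (hg0 t ht) (Ne.symm hne)
  have hmem : ∀ θ : ℝ, circleMap 0 r θ ∈ sphere (0 : ℂ) r := fun θ =>
    circleMap_mem_sphere 0 hr.le θ
  obtain ⟨θ0, hθ0, hθt⟩ : ∃ θ0 ∈ Ioc (0:ℝ) (2 * Real.pi), circleMap 0 r θ0 = t := by
    have h1 : t ∈ circleMap 0 r '' Ioc 0 (2 * Real.pi) := by
      rw [image_circleMap_Ioc, abs_of_pos hr]; exact ht
    exact h1
  have hcirc : IntegrableOn (fun θ => g (circleMap 0 r θ)) (Ioc 0 (2 * Real.pi)) := by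
    have h0 : IntervalIntegrable (fun θ => g (circleMap 0 r θ)) volume 0 (2 * Real.pi) := hint
    rwa [intervalIntegrable_iff, uIoc_of_le (by positivity)] at h0
  have h2 : ∫ θ in Ioc 0 (2 * Real.pi), g (circleMap 0 r θ) = 0 := by
    apply le_antisymm
    · rw [Real.circleAverage_def, smul_eq_mul, intervalIntegral.integral_of_le (by positivity)]
        at havg
      by_contra hcon
      push Not at hcon
      have : 0 < (2 * Real.pi)⁻¹ * ∫ θ in Ioc 0 (2 * Real.pi), g (circleMap 0 r θ) := by positivity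
      linarith
    · exact setIntegral_nonneg measurableSet_Ioc fun θ _ => hg0 _ (hmem θ)
  have h3 := (setIntegral_eq_zero_iff_of_nonneg_ae
    (Eventually.of_forall fun θ => hg0 _ (hmem θ)) hcirc).1 h2
  -- an open set of bad parameters
  have h4 : ∀ᶠ θ in 𝓝 θ0, 0 < g (circleMap 0 r θ) := by
    have h5 := hlsc t ht 0 hpos
    rw [← hθt] at h5
    exact (continuous_circleMap 0 r).continuousAt.eventually h5
  obtain ⟨ε, hε, hball⟩ := Metric.eventually_nhds_iff_ball.1 h4
  have h6 : Ioo (max 0 (θ0 - ε)) θ0 ⊆ {θ | ¬ g (circleMap 0 r θ) = 0} := by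
    intro θ hθ
    have : θ ∈ ball θ0 ε := by
      rw [Real.ball_eq_Ioo]
      exact ⟨lt_of_le_of_lt (le_max_right _ _) hθ.1, by linarith [hθ.2]⟩
    exact (hball θ this).ne'
  have h7 : Ioo (max 0 (θ0 - ε)) θ0 ⊆ Ioc 0 (2 * Real.pi) := fun θ hθ =>
    ⟨lt_of_le_of_lt (le_max_left _ _) hθ.1, hθ.2.le.trans hθ0.2⟩
  have h8 : volume (Ioo (max 0 (θ0 - ε)) θ0) ≠ 0 := by
    rw [Real.volume_Ioo]
    have : 0 < θ0 - max 0 (θ0 - ε) := by
      rw [sub_pos]; exact max_lt hθ0.1 (by linarith)
    simpa using this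
  apply h8
  have h9 : (volume.restrict (Ioc 0 (2 * Real.pi))) {θ | ¬ g (circleMap 0 r θ) = 0} = 0 := by
    have := h3
    rw [Filter.EventuallyEq, ae_iff] at this
    simpa using this
  rw [Measure.restrict_apply' measurableSet_Ioc] at h9
  exact measure_mono_null (subset_inter h6 h7) h9

variable {n : ℕ} {M : Type*} [TopologicalSpace M] [RDom n M]

theorem exists_ball_ln (x : M) (v : Fin n → ℂ) :
    ∃ ρ > 0, ∀ t ∈ ball (0 : ℂ) ρ, cp x + t • v ∈ (ch x).target := by
  have h := tendsto_line x v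
  have h2 : ∀ᶠ z in 𝓝 (cp x), z ∈ (ch x).target :=
    (ch x).open_target.mem_nhds ((isCh_ch x).cp_mem (mem_ch x))
  exact Metric.eventually_nhds_iff_ball.1 (h.eventually h2)

theorem continuousAt_ln {x : M} {v : Fin n → ℂ} {t : ℂ} (ht : cp x + t • v ∈ (ch x).target) :
    ContinuousAt (ln x v) t := by
  have h1 : ContinuousAt (ch x).symm (cp x + t • v) := (ch x).symm.continuousAt (by simpa using ht)
  have h2 : ContinuousAt (fun t : ℂ => cp x + t • v) t := by fun_prop
  exact ContinuousAt.comp (g := (ch x).symm) (f := fun t : ℂ => cp x + t • v) h1 h2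

/-- circle sub-mean value property along complex discs -/
def SMean (u : M → ℝ) : Prop :=
  ∀ (x : M) (v : Fin n → ℂ), ∀ᶠ r in 𝓝[>] (0 : ℝ), CircleIntegrable (fun t => u (ln x v t)) 0 r ∧
    u x ≤ circleAverage (fun t => u (ln x v t)) 0 r

/-- **strong maximum principle** from the circle sub-mean value property -/
theorem maxPr_exp {u : M → ℝ} (husc : UpperSemicontinuous u) (hm : SMean u) :
    MaxPr (fun x => Real.exp (u x)) := by
  intro x v F k hk hF hF0 hloc
  obtain ⟨ρ1, hρ1, hana⟩ := exists_ball_ana hF hF0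
  obtain ⟨ρ2, hρ2, hln⟩ := exists_ball_ln x v
  obtain ⟨ρ3, hρ3, hmax⟩ := Metric.eventually_nhds_iff_ball.1 hloc
  have h1 := hm x v
  rw [eventually_nhdsWithin_iff, Metric.eventually_nhds_iff_ball] at h1
  obtain ⟨ρ4, hρ4, hmean⟩ := h1
  set ρ := min (min ρ1 ρ2) (min ρ3 ρ4) with hρ
  have hρp : 0 < ρ := lt_min (lt_min hρ1 hρ2) (lt_min hρ3 hρ4)
  have hl1 : ρ ≤ ρ1 := (min_le_left _ _).trans (min_le_left _ _)
  have hl2 : ρ ≤ ρ2 := (min_le_left _ _).trans (min_le_right _ _)
  have hl3 : ρ ≤ ρ3 := (min_le_right _ _).trans (min_le_left _ _)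
  have hl4 : ρ ≤ ρ4 := (min_le_right _ _).trans (min_le_right _ _)
  have hkR : (0:ℝ) < k := Nat.cast_pos.2 hk
  have hF0p : 0 < ‖F 0‖ := norm_pos_iff.2 hF0
  filter_upwards [ball_mem_nhds (0 : ℂ) hρp] with t ht
  rcases eq_or_ne t 0 with rfl | ht0
  · rw [ln_zero]
  set r := ‖t‖ with hr
  have hrp : 0 < r := norm_pos_iff.2 ht0
  have hrρ : r < ρ := by rwa [mem_ball_zero_iff] at ht
  obtain ⟨hci, hav⟩ := hmean r (by
    rw [Real.ball_eq_Ioo]; exact ⟨by linarith, by linarith⟩) hrp
  obtain ⟨hml, hmi⟩ := mean_log hana hrp.le (hrρ.trans_le hl1)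
  have hsph : ∀ s ∈ sphere (0:ℂ) r, ‖s‖ < ρ := by
    intro s hs
    rw [mem_sphere_zero_iff_norm] at hs
    rw [hs]; exact hrρ
  -- logarithmic form
  have hlog : ∀ s : ℂ, ‖s‖ < ρ →
      (k : ℝ) * u (ln x v s) + 2 * Real.log ‖F s‖ ≤ k * u x + 2 * Real.log ‖F 0‖ := by
    intro s hs
    have h2 := hmax s (by rw [mem_ball_zero_iff]; linarith)
    have h3 : 0 < ‖F s‖ := norm_pos_iff.2 (hana s (by rw [mem_ball_zero_iff]; linarith)).2
    have h4 := Real.log_le_log (by positivity) h2
    rw [Real.log_mul (by positivity) (by positivity), Real.log_mul (by positivity) (by positivity),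
      Real.log_pow, Real.log_pow, Real.log_exp, Real.log_pow, Real.log_pow, Real.log_exp] at h4
    exact_mod_cast h4
  set g : ℂ → ℝ := fun s => (k * u x + 2 * Real.log ‖F 0‖) -
    (k * u (ln x v s) + 2 * Real.log ‖F s‖) with hg
  have hgi : CircleIntegrable g 0 r := by
    refine CircleIntegrable.sub (circleIntegrable_const _ _ _) ?_
    refine CircleIntegrable.add ?_ ?_
    · exact hci.const_fun_smul (a := (k:ℝ))
    · exact hmi.const_fun_smul (a := (2:ℝ))
  have hga : circleAverage g 0 r ≤ 0 := by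
    have h5 : circleAverage g 0 r = (k * u x + 2 * Real.log ‖F 0‖) -
        (k * circleAverage (fun t => u (ln x v t)) 0 r + 2 * Real.log ‖F 0‖) := by
      have h6 : g = (fun _ => (k * u x + 2 * Real.log ‖F 0‖)) -
        ((fun s => (k:ℝ) • u (ln x v s)) + (fun s => (2:ℝ) • Real.log ‖F s‖)) := by
        funext s
        simp only [hg, Pi.sub_apply, Pi.add_apply, smul_eq_mul]
      have h7 : CircleIntegrable (fun s => (k:ℝ) • u (ln x v s)) 0 r := hci.const_fun_smul
      have h8 : CircleIntegrable (fun s => (2:ℝ) • Real.log ‖F s‖) 0 r := hmi.const_fun_smul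
      rw [h6, Real.circleAverage_sub (circleIntegrable_const _ _ _) (h7.add h8),
        Real.circleAverage_add h7 h8, Real.circleAverage_const]
      rw [Real.circleAverage_fun_smul, Real.circleAverage_fun_smul, hml]
      simp only [smul_eq_mul]
    rw [h5]
    have : (k:ℝ) * u x ≤ k * circleAverage (fun t => u (ln x v t)) 0 r :=
      mul_le_mul_of_nonneg_left hav hkR.le
    linarith
  have h9 := eq_zero_of_mean hrp (g := g) (fun s hs => sub_nonneg.2 (hlog s (hsph s hs))) (by
    intro s hs c hc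
    have hsρ := hsph s hs
    have hc1 : ContinuousAt (ln x v) s := continuousAt_ln (hln s (by
      rw [mem_ball_zero_iff]; linarith))
    have hc2 : ContinuousAt (fun s => Real.log ‖F s‖) s := by
      have h10 := hana s (by rw [mem_ball_zero_iff]; linarith)
      exact (h10.1.continuousAt.norm).log (norm_ne_zero_iff.2 h10.2)
    set η := (g s - c) / (2 * (k + 2)) with hη
    have hηp : 0 < η := div_pos (sub_pos.2 hc) (by positivity)
    have h11 : ∀ᶠ s' in 𝓝 s, u (ln x v s') < u (ln x v s) + η :=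
      hc1.eventually (husc (ln x v s) (u (ln x v s) + η) (by linarith))
    have h12 : ∀ᶠ s' in 𝓝 s, Real.log ‖F s'‖ < Real.log ‖F s‖ + η :=
      hc2.eventually (gt_mem_nhds (by linarith))
    filter_upwards [h11, h12] with s' h13 h14
    have h15 : (k:ℝ) * u (ln x v s') ≤ k * (u (ln x v s) + η) :=
      mul_le_mul_of_nonneg_left h13.le hkR.le
    have h16 : (k + 2) * η = (g s - c) / 2 := by
      rw [hη]; field_simp
    have h17 : g s - g s' ≤ (k + 2) * η := by
      simp only [hg]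
      nlinarith
    linarith) hgi hga t (by rw [mem_sphere_zero_iff_norm])
  have h10 : (k : ℝ) * u (ln x v t) + 2 * Real.log ‖F t‖ = k * u x + 2 * Real.log ‖F 0‖ := by
    have := h9
    simp only [hg] at this
    linarith
  have h3 : 0 < ‖F t‖ := norm_pos_iff.2 (hana t (by rw [mem_ball_zero_iff]; linarith)).2
  have h18 : ∀ (a c : ℝ), 0 < c → Real.exp a ^ k * c ^ 2 = Real.exp (k * a + 2 * Real.log c) := by
    intro a c hc
    rw [Real.exp_add, ← Real.exp_nat_mul, two_mul, Real.exp_add, Real.exp_log hc, sq]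
  rw [h18 _ _ h3, h18 _ _ hF0p, h10]


/-! ### area means -/

/-- area integral over the unit disc from circle averages -/
theorem area_eq {f : ℂ → ℝ} {c : ℝ} (hf : ContinuousOn f (closedBall 0 1))
    (hc : ∀ s ∈ Ioo (0:ℝ) 1, circleAverage f 0 s = c) :
    ∫ l in ball (0 : ℂ) 1, f l = Real.pi * c := by
  rw [← integral_indicator measurableSet_ball, ← Complex.integral_comp_polarCoord_symm]
  have hpol : ∀ p : ℝ × ℝ, Complex.polarCoord.symm p = circleMap 0 p.1 p.2 := by
    intro p
    rw [Complex.polarCoord_symm_apply, circleMap, zero_add, Complex.exp_mul_I]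
    push_cast
    ring
  have hT : Complex.polarCoord.target = Ioi (0:ℝ) ×ˢ Ioo (-Real.pi) Real.pi :=
    Complex.polarCoord_target
  have h1 : ∀ p ∈ Ioi (0:ℝ) ×ˢ Ioo (-Real.pi) Real.pi,
      p.1 • (ball (0:ℂ) 1).indicator f (Complex.polarCoord.symm p) =
      (Ioo (0:ℝ) 1 ×ˢ Ioo (-Real.pi) Real.pi).indicator
        (fun p : ℝ × ℝ => p.1 * f (circleMap 0 p.1 p.2)) p := by
    intro p hp
    have hp1 : 0 < p.1 := hp.1
    rw [hpol]
    by_cases h : p.1 < 1
    · rw [indicator_of_mem, indicator_of_mem, smul_eq_mul]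
      · exact ⟨⟨hp1, h⟩, hp.2⟩
      · rw [mem_ball_zero_iff, norm_circleMap_zero, abs_of_pos hp1]; exact h
    · rw [indicator_of_notMem, indicator_of_notMem, smul_zero]
      · exact fun h' => h h'.1.2
      · rw [mem_ball_zero_iff, norm_circleMap_zero, abs_of_pos hp1]; exact h
  have hT' : polarCoord.target = Ioi (0:ℝ) ×ˢ Ioo (-Real.pi) Real.pi := polarCoord_target
  rw [hT', setIntegral_congr_fun (measurableSet_Ioi.prod measurableSet_Ioo) h1,
    setIntegral_indicator (measurableSet_Ioo.prod measurableSet_Ioo)]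
  have h2 : Ioi (0:ℝ) ×ˢ Ioo (-Real.pi) Real.pi ∩ Ioo (0:ℝ) 1 ×ˢ Ioo (-Real.pi) Real.pi =
      Ioo (0:ℝ) 1 ×ˢ Ioo (-Real.pi) Real.pi := by
    apply inter_eq_right.2
    exact prod_mono (fun x hx => hx.1) subset_rfl
  rw [h2]
  have hcont : ContinuousOn (fun p : ℝ × ℝ => p.1 * f (circleMap 0 p.1 p.2))
      (Icc (0:ℝ) 1 ×ˢ Icc (-Real.pi) Real.pi) := by
    refine continuousOn_fst.mul (hf.comp ?_ ?_)
    · apply Continuous.continuousOn
      unfold circleMap
      fun_prop
    · intro p hp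
      rw [mem_closedBall_zero_iff, norm_circleMap_zero, abs_of_nonneg hp.1.1]
      exact hp.1.2
  have hint : IntegrableOn (fun p : ℝ × ℝ => p.1 * f (circleMap 0 p.1 p.2))
      (Ioo (0:ℝ) 1 ×ˢ Ioo (-Real.pi) Real.pi) (volume.prod volume) := by
    refine IntegrableOn.mono_set (t := Icc (0:ℝ) 1 ×ˢ Icc (-Real.pi) Real.pi) ?_
      (prod_mono Ioo_subset_Icc_self Ioo_subset_Icc_self)
    exact hcont.integrableOn_compact (isCompact_Icc.prod isCompact_Icc)
  have h3 := setIntegral_prod (μ := volume) (ν := volume)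
    (fun p : ℝ × ℝ => p.1 * f (circleMap 0 p.1 p.2)) hint
  rw [Measure.volume_eq_prod, h3]
  have h4 : ∀ s ∈ Ioo (0:ℝ) 1, ∫ θ in Ioo (-Real.pi) Real.pi, s * f (circleMap 0 s θ) =
      s * (2 * Real.pi * c) := by
    intro s hs
    rw [integral_const_mul]
    congr 1
    have h5 := hc s hs
    rw [Real.circleAverage_eq_integral_add (-Real.pi), smul_eq_mul] at h5
    have h6 : ∫ θ in Ioo (-Real.pi) Real.pi, f (circleMap 0 s θ) =
        ∫ θ in (0:ℝ)..(2 * Real.pi), f (circleMap 0 s (θ + -Real.pi)) := by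
      rw [intervalIntegral.integral_comp_add_right (fun θ => f (circleMap 0 s θ)),
        intervalIntegral.integral_of_le (by linarith [Real.pi_pos]), ← integral_Ioc_eq_integral_Ioo]
      congr 2
      · ring_nf
    rw [h6, ← h5]
    field_simp
  rw [setIntegral_congr_fun measurableSet_Ioo h4, integral_mul_const,
    ← integral_Ioc_eq_integral_Ioo, ← intervalIntegral.integral_of_le zero_le_one, integral_id]
  ring

/-- area mean of `log ‖F‖` -/
theorem area_log {F : ℂ → ℂ} {ρ : ℝ} (hF : ∀ t ∈ ball (0 : ℂ) ρ, AnalyticAt ℂ F t ∧ F t ≠ 0)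
    {r : ℝ} (hr : 0 < r) (hrρ : r < ρ) :
    ∫ l in ball (0 : ℂ) 1, Real.log ‖F (r * l)‖ = Real.pi * Real.log ‖F 0‖ := by
  have hmem : ∀ l ∈ closedBall (0:ℂ) 1, (r:ℂ) * l ∈ ball (0:ℂ) ρ := by
    intro l hl
    rw [mem_closedBall_zero_iff] at hl
    rw [mem_ball_zero_iff, norm_mul, Complex.norm_real, Real.norm_eq_abs, abs_of_pos hr]
    nlinarith
  apply area_eq
  · intro l hl
    have h1 := hF _ (hmem l hl)
    have h2 : ContinuousAt (fun l : ℂ => (r:ℂ) * l) l := by fun_prop
    have h3 : ContinuousAt (fun t => Real.log ‖F t‖) ((r:ℂ) * l) :=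
      h1.1.continuousAt.norm.log (norm_ne_zero_iff.2 h1.2)
    exact (ContinuousAt.comp (f := fun l : ℂ => (r:ℂ) * l) h3 h2).continuousWithinAt
  · intro s hs
    have h1 := mean_log hF (r := r * s) (by have := hs.1; positivity) (by
      have := hs.1; have := hs.2; nlinarith)
    rw [← h1.1]
    rw [Real.circleAverage_def, Real.circleAverage_def]
    congr 2
    funext θ
    congr 3
    unfold circleMap
    push_cast
    ring

/-- flat form of the area maximum principle -/
theorem flat_area {β : ℂ → ℝ} {F : ℂ → ℂ} {ρ : ℝ} (hβ0 : ∀ t, 0 ≤ β t)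
    (hF : ∀ t ∈ ball (0 : ℂ) ρ, AnalyticAt ℂ F t ∧ F t ≠ 0)
    (husc : ∀ t ∈ ball (0 : ℂ) ρ, ∀ c, β t < c → ∀ᶠ s in 𝓝 t, β s < c)
    {k : ℕ} (hk : 0 < k)
    (hmax : ∀ t ∈ ball (0 : ℂ) ρ, β t ^ k * ‖F t‖ ^ 2 ≤ β 0 ^ k * ‖F 0‖ ^ 2)
    {r : ℝ} (hr : 0 < r) (hrρ : r < ρ)
    (hmean : ∀ δ : ℝ, 0 < δ → Real.log (β 0 + δ) ≤
      Real.pi⁻¹ * ∫ l in ball (0 : ℂ) 1, Real.log (β (r * l) + δ))
    (t : ℂ) (ht : ‖t‖ < r) : β t ^ k * ‖F t‖ ^ 2 = β 0 ^ k * ‖F 0‖ ^ 2 := by
  have hρ : 0 < ρ := hr.trans hrρ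
  have h00 : (0:ℂ) ∈ ball (0:ℂ) ρ := mem_ball_self hρ
  have hF0p : 0 < ‖F 0‖ := norm_pos_iff.2 (hF 0 h00).2
  have htρ : t ∈ ball (0:ℂ) ρ := by rw [mem_ball_zero_iff]; linarith
  have hkR : (0:ℝ) < k := Nat.cast_pos.2 hk
  rcases (hβ0 0).eq_or_lt with hb | hb
  · have h1 := hmax t htρ
    have h2 : 0 ≤ β t ^ k * ‖F t‖ ^ 2 := by have := hβ0 t; positivity
    rw [← hb, zero_pow hk.ne', zero_mul] at h1 ⊢
    exact le_antisymm h1 h2
  by_contra hne
  have hlt := lt_of_le_of_ne (hmax t htρ) hne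
  -- the comparison function
  set G : ℂ → ℝ := fun s => β 0 * Real.exp ((2 / k) * (Real.log ‖F 0‖ - Real.log ‖F s‖)) with hG
  have hGp : ∀ s, 0 < G s := fun s => by positivity
  have hGk : ∀ s ∈ ball (0:ℂ) ρ, G s ^ k * ‖F s‖ ^ 2 = β 0 ^ k * ‖F 0‖ ^ 2 := by
    intro s hs
    have h1 : 0 < ‖F s‖ := norm_pos_iff.2 (hF s hs).2
    have h2 : Real.exp ((2 / k) * (Real.log ‖F 0‖ - Real.log ‖F s‖)) ^ k =
        ‖F 0‖ ^ 2 / ‖F s‖ ^ 2 := by
      rw [← Real.exp_nat_mul]
      have h3 : (k:ℝ) * (2 / k * (Real.log ‖F 0‖ - Real.log ‖F s‖)) =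
          2 * Real.log ‖F 0‖ - 2 * Real.log ‖F s‖ := by field_simp
      rw [h3, Real.exp_sub]
      congr 1
      · rw [two_mul, Real.exp_add, Real.exp_log hF0p, sq]
      · rw [two_mul, Real.exp_add, Real.exp_log h1, sq]
    rw [hG]
    simp only [mul_pow, h2]
    field_simp
  have hle : ∀ s ∈ ball (0:ℂ) ρ, β s ≤ G s := by
    intro s hs
    have h1 : 0 < ‖F s‖ ^ 2 := by have := norm_pos_iff.2 (hF s hs).2; positivity
    have h2 := hmax s hs
    rw [← hGk s hs] at h2
    exact (pow_le_pow_iff_left₀ (hβ0 s) (hGp s).le hk.ne').1 (le_of_mul_le_mul_right h2 h1)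
  have hltt : β t < G t := by
    have h1 : 0 < ‖F t‖ ^ 2 := by have := norm_pos_iff.2 (hF t htρ).2; positivity
    rw [← hGk t htρ] at hlt
    exact (pow_lt_pow_iff_left₀ (hβ0 t) (hGp t).le hk.ne').1 (lt_of_mul_lt_mul_right hlt h1.le)
  have hGc : ∀ s ∈ ball (0:ℂ) ρ, ContinuousAt G s := by
    intro s hs
    have h1 := hF s hs
    have h2 : ContinuousAt (fun t => Real.log ‖F t‖) s :=
      h1.1.continuousAt.norm.log (norm_ne_zero_iff.2 h1.2)
    rw [hG]
    fun_prop
  -- two levels
  obtain ⟨m1, hm1, hm1'⟩ := exists_between hltt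
  obtain ⟨m2, hm2, hm2'⟩ := exists_between hm1'
  have hm1p : 0 < m1 := (hβ0 t).trans_lt hm1
  have hm2p : 0 < m2 := hm1p.trans hm2
  have hev : ∀ᶠ s in 𝓝 t, β s < m1 ∧ m2 < G s ∧ s ∈ ball (0:ℂ) r := by
    have h1 := husc t htρ m1 hm1
    have h2 := (hGc t htρ).eventually (lt_mem_nhds hm2')
    have h3 : ∀ᶠ s in 𝓝 t, s ∈ ball (0:ℂ) r := isOpen_ball.mem_nhds (by rwa [mem_ball_zero_iff])
    filter_upwards [h1, h2, h3] with s a b c using ⟨a, b, c⟩
  obtain ⟨ε, hε, hball⟩ := Metric.eventually_nhds_iff_ball.1 hev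
  set N : Set ℂ := ball (t / r) (ε / r) with hN
  have hrC : (r:ℂ) ≠ 0 := by exact_mod_cast hr.ne'
  have hNmem : ∀ l ∈ N, (r:ℂ) * l ∈ ball t ε := by
    intro l hl
    rw [hN, mem_ball_iff_norm] at hl
    rw [mem_ball_iff_norm]
    have h1 : (r:ℂ) * l - t = r * (l - t / r) := by field_simp
    rw [h1, norm_mul, Complex.norm_real, Real.norm_eq_abs, abs_of_pos hr]
    rw [lt_div_iff₀ hr] at hl
    linarith
  have hNsub : N ⊆ ball (0:ℂ) 1 := by
    intro l hl
    have h1 := (hball _ (hNmem l hl)).2.2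
    rw [mem_ball_zero_iff, norm_mul, Complex.norm_real, Real.norm_eq_abs, abs_of_pos hr] at h1
    rw [mem_ball_zero_iff]
    by_contra h2
    push Not at h2
    nlinarith
  have hNvol : 0 < (volume.real N) := by
    rw [hN, measureReal_def, ENNReal.toReal_pos_iff]
    exact ⟨measure_ball_pos _ _ (by positivity), measure_ball_lt_top⟩
  have hmemB : ∀ l ∈ closedBall (0:ℂ) 1, (r:ℂ) * l ∈ ball (0:ℂ) ρ := by
    intro l hl
    rw [mem_closedBall_zero_iff] at hl
    rw [mem_ball_zero_iff, norm_mul, Complex.norm_real, Real.norm_eq_abs, abs_of_pos hr]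
    nlinarith
  -- bounds of `G`
  have hGcc : ContinuousOn (fun l : ℂ => G (r * l)) (closedBall (0:ℂ) 1) := by
    intro l hl
    have h2 : ContinuousAt (fun l : ℂ => (r:ℂ) * l) l := by fun_prop
    exact (ContinuousAt.comp (f := fun l : ℂ => (r:ℂ) * l) (hGc _ (hmemB l hl)) h2).continuousWithinAt
  obtain ⟨lm, hlm, hmin⟩ := (isCompact_closedBall (0:ℂ) 1).exists_isMinOn
    (nonempty_closedBall.2 zero_le_one) hGcc
  set gm := G (r * lm) with hgm
  have hgmp : 0 < gm := hGp _
  obtain ⟨lM, hlM, hMax⟩ := (isCompact_closedBall (0:ℂ) 1).exists_isMaxOn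
    (nonempty_closedBall.2 zero_le_one) hGcc
  set gM := G (r * lM) with hgM
  -- integral of `log G`
  have hlogG : ∫ l in ball (0:ℂ) 1, Real.log (G (r * l)) = Real.pi * Real.log (β 0) := by
    have h1 : ∀ l : ℂ, Real.log (G (r * l)) =
        (Real.log (β 0) + 2 / k * Real.log ‖F 0‖) - 2 / k * Real.log ‖F (r * l)‖ := by
      intro l
      rw [hG]
      simp only
      rw [Real.log_mul hb.ne' (Real.exp_pos _).ne', Real.log_exp]
      ring
    simp_rw [h1]
    have hci : IntegrableOn (fun l : ℂ => 2 / (k:ℝ) * Real.log ‖F (r * l)‖) (ball 0 1) := by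
      have : ContinuousOn (fun l : ℂ => 2 / (k:ℝ) * Real.log ‖F (r * l)‖) (closedBall 0 1) := by
        intro l hl
        have h1 := hF _ (hmemB l hl)
        have h2 : ContinuousAt (fun l : ℂ => (r:ℂ) * l) l := by fun_prop
        have h3 : ContinuousAt (fun t => 2 / (k:ℝ) * Real.log ‖F t‖) ((r:ℂ) * l) :=
          (h1.1.continuousAt.norm.log (norm_ne_zero_iff.2 h1.2)).const_mul _
        exact (ContinuousAt.comp (f := fun l : ℂ => (r:ℂ) * l) h3 h2).continuousWithinAt
      exact (this.integrableOn_compact (isCompact_closedBall _ _)).mono_set ball_subset_closedBall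
    have hcc : IntegrableOn (fun _ : ℂ => Real.log (β 0) + 2 / k * Real.log ‖F 0‖) (ball 0 1) :=
      integrableOn_const (hs := by exact measure_ball_lt_top.ne)
    rw [integral_sub hcc hci, integral_const_mul, area_log hF hr hrρ, setIntegral_const]
    have hvol : volume.real (ball (0:ℂ) 1) = Real.pi := by
      rw [measureReal_def, Complex.volume_ball]
      simp
    rw [hvol, smul_eq_mul]
    ring
  -- the key inequality
  set κ := volume.real N with hκ
  have key : ∀ δ : ℝ, 0 < δ → Real.log (β 0 + δ) ≤ Real.log (β 0) + δ / gm -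
      Real.pi⁻¹ * κ * (Real.log (m2 + δ) - Real.log (m1 + δ)) := by
    intro δ hδ
    refine (hmean δ hδ).trans ?_
    set cδ := Real.log (m2 + δ) - Real.log (m1 + δ) with hcδ
    have hcδ0 : 0 ≤ cδ := sub_nonneg.2 (Real.log_le_log (by positivity) (by linarith))
    have h1 : ∀ l ∈ ball (0:ℂ) 1, Real.log (β (r * l) + δ) ≤
        (Real.log (G (r * l)) + δ / gm) - N.indicator (fun _ => cδ) l := by
      intro l hl
      have hl' : l ∈ closedBall (0:ℂ) 1 := ball_subset_closedBall hl
      have hβG := hle _ (hmemB l hl')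
      have hgml : gm ≤ G (r * l) := hmin hl'
      have h2 : Real.log (G (r * l) + δ) ≤ Real.log (G (r * l)) + δ / gm := by
        have h3 : G (r * l) + δ = G (r * l) * (1 + δ / G (r * l)) := by
          have := hGp (r * l)
          field_simp
        rw [h3, Real.log_mul (hGp _).ne' (by have := hGp (r * l); positivity)]
        have h4 : Real.log (1 + δ / G (r * l)) ≤ δ / G (r * l) := by
          have := Real.log_le_sub_one_of_pos (x := 1 + δ / G (r * l))
            (by have := hGp (r * l); positivity)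
          linarith
        have h5 : δ / G (r * l) ≤ δ / gm := div_le_div_of_nonneg_left hδ.le hgmp hgml
        linarith
      by_cases hlN : l ∈ N
      · rw [indicator_of_mem hlN]
        have h6 := hball _ (hNmem l hlN)
        have h7 : Real.log (β (r * l) + δ) ≤ Real.log (m1 + δ) :=
          Real.log_le_log (by have := hβ0 (r * l); positivity) (by linarith [h6.1])
        have h8 : Real.log (m2 + δ) ≤ Real.log (G (r * l) + δ) :=
          Real.log_le_log (by positivity) (by linarith [h6.2.1])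
        rw [hcδ]
        linarith
      · rw [indicator_of_notMem hlN, sub_zero]
        exact (Real.log_le_log (by have := hβ0 (r * l); positivity) (by linarith)).trans h2
    -- integrability
    have hi1 : IntegrableOn (fun l : ℂ => Real.log (G (r * l)) + δ / gm) (ball 0 1) := by
      have : ContinuousOn (fun l : ℂ => Real.log (G (r * l)) + δ / gm) (closedBall 0 1) := by
        refine (hGcc.log fun l _ => (hGp _).ne').add continuousOn_const
      exact (this.integrableOn_compact (isCompact_closedBall _ _)).mono_set ball_subset_closedBall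
    have hi2 : IntegrableOn (N.indicator (fun _ => cδ)) (ball (0:ℂ) 1) := by
      have : IntegrableOn (fun _ : ℂ => cδ) (ball 0 1) :=
        integrableOn_const (hs := by exact measure_ball_lt_top.ne)
      exact this.indicator measurableSet_ball
    have hi3 : IntegrableOn (fun l : ℂ => Real.log (β (r * l) + δ)) (ball 0 1) := by
      -- measurability by upper semicontinuity
      have hmeas : AEStronglyMeasurable (fun l : ℂ => Real.log (β (r * l) + δ))
          (volume.restrict (ball 0 1)) := by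
        have hm0 : Measurable ((ball (0:ℂ) 1).domRestrict (fun l => β (r * l))) := by
          apply UpperSemicontinuous.measurable
          intro l c hc
          have h5 := husc _ (hmemB l.1 (ball_subset_closedBall l.2)) c hc
          have h6 : ContinuousAt (fun l : ball (0:ℂ) 1 => (r:ℂ) * l.1) l := by fun_prop
          exact h6.eventually h5
        have hm1 : AEMeasurable (fun l : ℂ => β (r * l)) (volume.restrict (ball 0 1)) :=
          (aemeasurable_restrict_iff_comap_subtype measurableSet_ball).2 (by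
            exact hm0.aemeasurable)
        exact ((hm1.add_const δ).log).aestronglyMeasurable
      have hconst : IntegrableOn (fun _ : ℂ => |Real.log δ| + |Real.log (gM + δ)|) (ball 0 1) :=
        integrableOn_const (hs := by exact measure_ball_lt_top.ne)
      refine Integrable.mono' hconst hmeas ?_
      filter_upwards [self_mem_ae_restrict measurableSet_ball] with l hl
      have hl' : l ∈ closedBall (0:ℂ) 1 := ball_subset_closedBall hl
      have hβG := hle _ (hmemB l hl')
      have hgMl : G (r * l) ≤ gM := hMax hl'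
      rw [Real.norm_eq_abs, abs_le]
      have h5 : Real.log δ ≤ Real.log (β (r * l) + δ) :=
        Real.log_le_log hδ (by linarith [hβ0 (r * l)])
      have h6 : Real.log (β (r * l) + δ) ≤ Real.log (gM + δ) :=
        Real.log_le_log (by have := hβ0 (r * l); positivity) (by linarith)
      constructor
      · have := neg_abs_le (Real.log δ); have := abs_nonneg (Real.log (gM + δ)); linarith
      · have := le_abs_self (Real.log (gM + δ)); have := abs_nonneg (Real.log δ); linarith
    have h9 : ∫ l in ball (0:ℂ) 1, Real.log (β (r * l) + δ) ≤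
        ∫ l in ball (0:ℂ) 1, ((Real.log (G (r * l)) + δ / gm) - N.indicator (fun _ => cδ) l) :=
      setIntegral_mono_on hi3 (hi1.sub hi2) measurableSet_ball h1
    have h10 : ∫ l in ball (0:ℂ) 1, ((Real.log (G (r * l)) + δ / gm) -
        N.indicator (fun _ => cδ) l) = Real.pi * Real.log (β 0) + Real.pi * (δ / gm) - κ * cδ := by
      have hi4 : IntegrableOn (fun l : ℂ => Real.log (G (r * l))) (ball 0 1) :=
        ((hGcc.log fun l _ => (hGp _).ne').integrableOn_compact
          (isCompact_closedBall _ _)).mono_set ball_subset_closedBall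
      have hi5 : IntegrableOn (fun _ : ℂ => δ / gm) (ball 0 1) :=
        integrableOn_const (hs := by exact measure_ball_lt_top.ne)
      have hvol : volume.real (ball (0:ℂ) 1) = Real.pi := by
        rw [measureReal_def, Complex.volume_ball]
        simp
      rw [integral_sub hi1 hi2, integral_add hi4 hi5, hlogG, setIntegral_const, hvol, smul_eq_mul,
        setIntegral_indicator measurableSet_ball, inter_eq_right.2 hNsub, setIntegral_const,
        smul_eq_mul]
    rw [h10] at h9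
    have h11 : Real.pi⁻¹ * ∫ l in ball (0:ℂ) 1, Real.log (β (r * l) + δ) ≤
        Real.pi⁻¹ * (Real.pi * Real.log (β 0) + Real.pi * (δ / gm) - κ * cδ) :=
      mul_le_mul_of_nonneg_left h9 (by positivity)
    refine h11.trans (le_of_eq ?_)
    field_simp
  -- let `δ → 0`
  have hlim1 : Tendsto (fun δ : ℝ => Real.log (β 0 + δ)) (𝓝[>] 0) (𝓝 (Real.log (β 0))) := by
    have : ContinuousAt (fun δ : ℝ => Real.log (β 0 + δ)) 0 := by
      apply ContinuousAt.log (by fun_prop)
      simpa using hb.ne'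
    have h := this.tendsto
    simp only [add_zero] at h
    exact h.mono_left nhdsWithin_le_nhds
  have hlim2 : Tendsto (fun δ : ℝ => Real.log (β 0) + δ / gm -
      Real.pi⁻¹ * κ * (Real.log (m2 + δ) - Real.log (m1 + δ))) (𝓝[>] 0)
      (𝓝 (Real.log (β 0) - Real.pi⁻¹ * κ * (Real.log m2 - Real.log m1))) := by
    have h2 : ContinuousAt (fun δ : ℝ => Real.log (m2 + δ)) 0 := by
      apply ContinuousAt.log (by fun_prop)
      simpa using hm2p.ne'
    have h1 : ContinuousAt (fun δ : ℝ => Real.log (m1 + δ)) 0 := by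
      apply ContinuousAt.log (by fun_prop)
      simpa using hm1p.ne'
    have : ContinuousAt (fun δ : ℝ => Real.log (β 0) + δ / gm -
      Real.pi⁻¹ * κ * (Real.log (m2 + δ) - Real.log (m1 + δ))) 0 := by fun_prop
    have h := this.tendsto
    simp only [add_zero, zero_div] at h
    exact h.mono_left nhdsWithin_le_nhds
  have h := le_of_tendsto_of_tendsto hlim1 hlim2 (by
    filter_upwards [self_mem_nhdsWithin] with δ hδ using key δ hδ)
  have h12 : 0 < Real.log m2 - Real.log m1 := sub_pos.2 (Real.log_lt_log hm1p hm2)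
  have h13 : 0 < Real.pi⁻¹ * κ * (Real.log m2 - Real.log m1) := by positivity
  linarith


/-- **strong maximum principle** from area means of `log (b + δ)` (values `b = 0` allowed) -/
theorem maxPr_of_area {b : M → ℝ} (hb0 : ∀ x, 0 ≤ b x) (husc : UpperSemicontinuous b)
    (hm : ∀ (x : M) (v : Fin n → ℂ), ∃ r0 > (0:ℝ), ∀ r ∈ Ioo 0 r0, ∀ δ : ℝ, 0 < δ →
      Real.log (b x + δ) ≤
        Real.pi⁻¹ * ∫ l in ball (0 : ℂ) 1, Real.log (b (ln x v (r * l)) + δ)) : MaxPr b := by
  intro x v F k hk hF hF0 hloc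
  obtain ⟨ρ1, hρ1, hana⟩ := exists_ball_ana hF hF0
  obtain ⟨ρ2, hρ2, hln⟩ := exists_ball_ln x v
  obtain ⟨ρ3, hρ3, hmax⟩ := Metric.eventually_nhds_iff_ball.1 hloc
  obtain ⟨ρ4, hρ4, hmean⟩ := hm x v
  set ρ := min (min ρ1 ρ2) (min ρ3 ρ4) with hρ
  have hρp : 0 < ρ := lt_min (lt_min hρ1 hρ2) (lt_min hρ3 hρ4)
  have hl1 : ρ ≤ ρ1 := (min_le_left _ _).trans (min_le_left _ _)
  have hl2 : ρ ≤ ρ2 := (min_le_left _ _).trans (min_le_right _ _)
  have hl3 : ρ ≤ ρ3 := (min_le_right _ _).trans (min_le_left _ _)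
  have hl4 : ρ ≤ ρ4 := (min_le_right _ _).trans (min_le_right _ _)
  have hsub : ∀ s ∈ ball (0:ℂ) ρ, s ∈ ball (0:ℂ) ρ1 ∧ s ∈ ball (0:ℂ) ρ2 ∧ s ∈ ball (0:ℂ) ρ3 := by
    intro s hs
    simp only [mem_ball_zero_iff] at hs ⊢
    exact ⟨by linarith, by linarith, by linarith⟩
  filter_upwards [ball_mem_nhds (0 : ℂ) (half_pos hρp)] with t ht
  rw [mem_ball_zero_iff] at ht
  have h := flat_area (β := fun t => b (ln x v t)) (F := F) (ρ := ρ) (fun t => hb0 _)
    (fun s hs => hana s (hsub s hs).1)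
    (fun s hs c hc => (continuousAt_ln (hln s (hsub s hs).2.1)).eventually (husc _ c hc)) hk
    (fun s hs => by
      simp only [ln_zero]
      exact hmax s (hsub s hs).2.2) (r := ρ / 2) (half_pos hρp) (by linarith)
    (fun δ hδ => by
      simp only [ln_zero]
      exact hmean (ρ / 2) ⟨half_pos hρp, by linarith⟩ δ hδ) t ht
  simp only [ln_zero] at h
  exact h

/-! ### corollaries -/

theorem circleIntegrable_ln {u : M → ℝ} (hu : Continuous u) (x : M) (v : Fin n → ℂ) :
    ∀ᶠ r in 𝓝[>] (0 : ℝ), CircleIntegrable (fun t => u (ln x v t)) 0 r := by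
  obtain ⟨ρ, hρ, hln⟩ := exists_ball_ln x v
  rw [eventually_nhdsWithin_iff, Metric.eventually_nhds_iff_ball]
  refine ⟨ρ, hρ, fun r hr hr0 => ?_⟩
  rw [Real.ball_eq_Ioo] at hr
  have hr0' : (0:ℝ) < r := hr0
  apply ContinuousOn.circleIntegrable hr0'.le
  intro t ht
  have ht' : t ∈ ball (0:ℂ) ρ := by
    rw [mem_sphere_zero_iff_norm] at ht
    rw [mem_ball_zero_iff, ht]
    linarith [hr.2]
  exact (hu.continuousAt.comp (continuousAt_ln (hln t ht'))).continuousWithinAt

theorem SMean.of_continuous {u : M → ℝ} (hu : Continuous u)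
    (hm : ∀ (x : M) (v : Fin n → ℂ), ∀ᶠ r in 𝓝[>] (0 : ℝ),
      u x ≤ circleAverage (fun t => u (ln x v t)) 0 r) : SMean u := by
  intro x v
  filter_upwards [circleIntegrable_ln hu x v, hm x v] with r h1 h2 using ⟨h1, h2⟩

/-- restriction of `b` to a clopen set, by `0` outside -/
theorem maxPr_indicator {b : M → ℝ} {Z : Set M} (hZ : IsClopen Z) (hm : MaxPr b) :
    MaxPr (Z.indicator b) := by
  intro x v F k hk hF hF0 hloc
  have ht := tendsto_ln x v
  by_cases hx : x ∈ Z
  · have h1 : ∀ᶠ t in 𝓝 (0:ℂ), ln x v t ∈ Z := ht.eventually (hZ.isOpen.mem_nhds hx)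
    have h2 := hm x v F k hk hF hF0 (by
      filter_upwards [hloc, h1] with t h3 h4
      rwa [indicator_of_mem h4, indicator_of_mem hx] at h3)
    filter_upwards [h2, h1] with t h3 h4
    rwa [indicator_of_mem h4, indicator_of_mem hx]
  · have h1 : ∀ᶠ t in 𝓝 (0:ℂ), ln x v t ∈ Zᶜ :=
      ht.eventually (hZ.compl.isOpen.mem_nhds hx)
    filter_upwards [h1] with t h4
    rw [indicator_of_notMem hx, indicator_of_notMem h4, zero_pow hk.ne', zero_mul, zero_mul]

theorem usc_indicator {b : M → ℝ} {Z : Set M} (hZ : IsClopen Z) (hb : UpperSemicontinuous b) :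
    UpperSemicontinuous (Z.indicator b) := by
  intro x c hc
  by_cases hx : x ∈ Z
  · rw [indicator_of_mem hx] at hc
    filter_upwards [hb x c hc, hZ.isOpen.mem_nhds hx] with y h1 h2
    rwa [indicator_of_mem h2]
  · rw [indicator_of_notMem hx] at hc
    filter_upwards [hZ.compl.isOpen.mem_nhds hx] with y h2
    rwa [indicator_of_notMem h2]

/-- `b` attains its maximum on a clopen set -/
theorem exists_max_on {h : MvPolynomial (Fin n) ℂ} (P : Prp h M) {b : M → ℝ}
    (hb0 : ∀ x, 0 ≤ b x) (husc : UpperSemicontinuous b) (hmp : MaxPr b) {A B : ℕ} {Z : Set M}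
    (hZ : IsClopen Z) (hne : Z.Nonempty)
    (hG : ∀ k : ℕ, 0 < k → ∃ C : ℝ, ∀ x ∈ Z,
      b x ^ k * ‖MvPolynomial.eval (cp x) h‖ ^ B ≤ C * (1 + ‖cp x‖) ^ A) :
    ∃ y ∈ Z, ∀ x ∈ Z, b x ≤ b y := by
  have : Nonempty M := ⟨hne.some⟩
  have hb0' : ∀ x, 0 ≤ Z.indicator b x := fun x => indicator_nonneg (fun y _ => hb0 y) x
  obtain ⟨y, hy⟩ := exists_max P (b := Z.indicator b) hb0' (usc_indicator hZ husc)
    (maxPr_indicator hZ hmp) (A := A) (B := B) (fun k hk => by
      obtain ⟨C, hC⟩ := hG k hk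
      refine ⟨max C 0, fun x => ?_⟩
      by_cases hx : x ∈ Z
      · rw [indicator_of_mem hx]
        exact (hC x hx).trans (mul_le_mul_of_nonneg_right (le_max_left _ _) (by positivity))
      · rw [indicator_of_notMem hx, zero_pow hk.ne', zero_mul]
        positivity)
  by_cases hyZ : y ∈ Z
  · refine ⟨y, hyZ, fun x hx => ?_⟩
    have := hy x
    rwa [indicator_of_mem hx, indicator_of_mem hyZ] at this
  · refine ⟨hne.some, hne.some_mem, fun x hx => ?_⟩
    have := hy x
    rw [indicator_of_mem hx, indicator_of_notMem hyZ] at this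
    exact this.trans (hb0 _)

/-- a function with `MaxPr` which attains its maximum on a clopen preconnected set is constant -/
theorem const_of_max {b : M → ℝ} (husc : UpperSemicontinuous b) (hmp : MaxPr b) {Z : Set M}
    (hZ : IsClopen Z) (hZc : IsPreconnected Z) {y : M} (hyZ : y ∈ Z) (hy : ∀ x ∈ Z, b x ≤ b y)
    {x x' : M} (hx : x ∈ Z) (hx' : x' ∈ Z) : b x = b x' := by
  set m := b y with hm
  set T : Set M := {x | x ∈ Z ∧ m ≤ b x} with hT
  have hTcl : IsClosed T := hZ.isClosed.inter (husc.isClosed_preimage m)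
  have hTo : IsOpen T := by
    rw [isOpen_iff_mem_nhds]
    intro p hp
    have hpZ : p ∈ Z := hp.1
    have hpm : b p = m := le_antisymm (hy p hpZ) hp.2
    have hnh : (ch p).target ∩ {w | (ch p).symm w ∈ Z} ∈ 𝓝 (cp p) := by
      have h1 : ContinuousAt (ch p).symm (cp p) :=
        (ch p).symm.continuousAt (by simpa using (isCh_ch p).cp_mem (mem_ch p))
      have h2 : (ch p).symm (cp p) = p := symm_cp p
      refine inter_mem ((ch p).open_target.mem_nhds ((isCh_ch p).cp_mem (mem_ch p))) ?_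
      exact h1 (by rw [h2]; exact hZ.isOpen.mem_nhds hpZ)
    obtain ⟨ρ, hρ, hball'⟩ := Metric.mem_nhds_iff.1 hnh
    have hball : ball (cp p) ρ ⊆ (ch p).target := fun w hw => (hball' hw).1
    -- all points over the ball belong to `T`
    have hall : ∀ w : Fin n → ℂ, ‖w‖ < ρ → m ≤ b ((ch p).symm (cp p + w)) := by
      intro w hw
      set c : ℝ → M := fun t => (ch p).symm (cp p + t • w) with hc
      have hmemb : ∀ t ∈ Icc (0:ℝ) 1, cp p + t • w ∈ ball (cp p) ρ := by
        intro t ht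
        rw [mem_ball_iff_norm, add_sub_cancel_left, norm_smul, Real.norm_eq_abs,
          abs_of_nonneg ht.1]
        have := norm_nonneg w
        nlinarith [ht.2]
      have hmem : ∀ t ∈ Icc (0:ℝ) 1, cp p + t • w ∈ (ch p).target := fun t ht =>
        hball (hmemb t ht)
      have hccont : ContinuousOn c (Icc 0 1) := by
        have h1 : ContinuousOn (ch p).symm (ch p).target := (ch p).continuousOn_symm
        exact h1.comp (by fun_prop) hmem
      have hcl : IsClosed ((c ⁻¹' T) ∩ Icc (0:ℝ) 1) := by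
        rw [inter_comm]
        exact hccont.preimage_isClosed_of_isClosed isClosed_Icc hTcl
      have h01 := hcl.Icc_subset_of_forall_mem_nhdsWithin (a := 0) (b := 1)
        (by
          rw [mem_preimage, hc]
          simp only [zero_smul, add_zero]
          rw [symm_cp]
          exact hp)
        (by
          intro t ht
          have htI : t ∈ Icc (0:ℝ) 1 := ⟨ht.2.1, ht.2.2.le⟩
          set p' := c t with hp'
          have hp's : p' ∈ (ch p).source := (ch p).map_target (hmem t htI)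
          have hcp' : cp p' = cp p + t • w := (isCh_ch p).cp_symm (hmem t htI)
          have hp'Z : p' ∈ Z := ht.1.1
          have hp'm : b p' = m := le_antisymm (hy _ hp'Z) ht.1.2
          have hZnh : ∀ᶠ s in 𝓝 (0:ℂ), ln p' w s ∈ Z :=
            (tendsto_ln p' w).eventually (hZ.isOpen.mem_nhds hp'Z)
          have h2 := hmp p' w (fun _ => 1) 1 one_pos analyticAt_const one_ne_zero (by
            filter_upwards [hZnh] with s hs
            simp only [pow_one, norm_one, one_pow, mul_one]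
            rw [hp'm]; exact hy _ hs)
          -- the two local inverses agree
          have h3 := (isCh_ch p').germ (isCh_ch p) (mem_ch p') hp's
          have h4 : Tendsto (fun s : ℝ => cp p' + ((s - t : ℝ) : ℂ) • w) (𝓝 t) (𝓝 (cp p')) := by
            have : Continuous (fun s : ℝ => cp p' + ((s - t : ℝ) : ℂ) • w) := by fun_prop
            have h5 := this.tendsto t
            simpa using h5
          have h6 : Tendsto (fun s : ℝ => ((s - t : ℝ) : ℂ)) (𝓝 t) (𝓝 0) := by
            have : Continuous (fun s : ℝ => ((s - t : ℝ) : ℂ)) := by fun_prop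
            have h5 := this.tendsto t
            simpa using h5
          have h7 : ∀ᶠ s in 𝓝 t, c s ∈ T := by
            filter_upwards [h4.eventually h3, h6.eventually (h2.and hZnh)] with s hs1 hs2
            simp only [pow_one, norm_one, one_pow, mul_one] at hs2
            have h8 : cp p' + ((s - t : ℝ) : ℂ) • w = cp p + s • w := by
              rw [hcp', Complex.coe_smul, sub_smul]; abel
            have h9 : ln p' w ((s - t : ℝ) : ℂ) = c s := by
              unfold ln
              rw [hs1, h8]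
            rw [h9, hp'm] at hs2
            exact ⟨hs2.2, hs2.1.ge⟩
          exact mem_nhdsWithin_of_mem_nhds h7)
      have := h01 (show (1:ℝ) ∈ Icc (0:ℝ) 1 from ⟨zero_le_one, le_rfl⟩)
      have h02 : c 1 ∈ T := this
      simpa [hc] using h02.2
    have h10 : ∀ᶠ z in 𝓝 p, z ∈ (ch p).source ∧ cp z ∈ ball (cp p) ρ := by
      have h11 : ∀ᶠ z in 𝓝 p, z ∈ (ch p).source := (ch p).open_source.mem_nhds (mem_ch p)
      have h12 : ∀ᶠ z in 𝓝 p, cp z ∈ ball (cp p) ρ :=
        (cp_cont (M := M)).continuousAt.eventually (ball_mem_nhds _ hρ)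
      exact h11.and h12
    filter_upwards [h10, hZ.isOpen.mem_nhds hpZ] with z hz hzZ
    have h11 := hall (cp z - cp p) (by rw [← mem_ball_iff_norm]; exact hz.2)
    rw [add_sub_cancel, (isCh_ch p).symm_cp hz.1] at h11
    exact ⟨hzZ, h11⟩
  have hsub := hZc.subset_isClopen ⟨hTcl, hTo⟩ ⟨y, hyZ, hyZ, le_rfl⟩
  have h1 : ∀ z ∈ Z, b z = m := fun z hz => le_antisymm (hy z hz) (hsub hz).2
  rw [h1 x hx, h1 x' hx']

/-- **Liouville on a clopen preconnected set** (e.g. a connected component) -/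
theorem const_on {h : MvPolynomial (Fin n) ℂ} (P : Prp h M) {b : M → ℝ}
    (hb0 : ∀ x, 0 ≤ b x) (husc : UpperSemicontinuous b) (hmp : MaxPr b) {A B : ℕ} {Z : Set M}
    (hZ : IsClopen Z) (hZc : IsPreconnected Z)
    (hG : ∀ k : ℕ, 0 < k → ∃ C : ℝ, ∀ x ∈ Z,
      b x ^ k * ‖MvPolynomial.eval (cp x) h‖ ^ B ≤ C * (1 + ‖cp x‖) ^ A)
    {x x' : M} (hx : x ∈ Z) (hx' : x' ∈ Z) : b x = b x' := by
  obtain ⟨y, hyZ, hy⟩ := exists_max_on P hb0 husc hmp hZ ⟨x, hx⟩ hG
  exact const_of_max husc hmp hZ hZc hyZ hy hx hx'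

/-- **Liouville**: sub-mean functions of growth `o(log (1 + ‖z‖) + log⁺ (1 / ‖h‖))` are constant -/
theorem liouville_growth {h : MvPolynomial (Fin n) ℂ} (P : Prp h M) {u : M → ℝ}
    (husc : UpperSemicontinuous u) (hm : SMean u) {Z : Set M}
    (hZ : IsClopen Z) (hZc : IsPreconnected Z)
    (hG : ∀ ε : ℝ, 0 < ε → ∃ C : ℝ, ∀ x ∈ Z,
      u x + ε * Real.log ‖MvPolynomial.eval (cp x) h‖ ≤ C + ε * Real.log (1 + ‖cp x‖))
    {x x' : M} (hx : x ∈ Z) (hx' : x' ∈ Z) : u x = u x' := by
  have husc' : UpperSemicontinuous (fun x => Real.exp (u x)) :=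
    Real.continuous_exp.comp_upperSemicontinuous husc Real.exp_monotone
  have h1 := const_on P (b := fun x => Real.exp (u x)) (fun x => (Real.exp_pos _).le) husc'
    (maxPr_exp husc hm) (A := 1) (B := 1) hZ hZc (fun k hk => by
      have hkR : (0:ℝ) < k := Nat.cast_pos.2 hk
      obtain ⟨C, hC⟩ := hG (1 / k) (by positivity)
      refine ⟨Real.exp (k * C), fun y hy => ?_⟩
      have h2 := hC y hy
      have h3 : 0 < ‖MvPolynomial.eval (cp y) h‖ := norm_pos_iff.2 (P.ne y)
      have h4 : (0:ℝ) < 1 + ‖cp y‖ := by positivity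
      rw [pow_one, pow_one, ← Real.exp_nat_mul]
      have h5 : Real.exp (k * u y) * ‖MvPolynomial.eval (cp y) h‖ =
          Real.exp (k * u y + Real.log ‖MvPolynomial.eval (cp y) h‖) := by
        rw [Real.exp_add, Real.exp_log h3]
      have h6 : Real.exp (k * C) * (1 + ‖cp y‖) = Real.exp (k * C + Real.log (1 + ‖cp y‖)) := by
        rw [Real.exp_add, Real.exp_log h4]
      rw [h5, h6]
      apply Real.exp_le_exp.2
      have h7 := mul_le_mul_of_nonneg_left h2 hkR.le
      have h8 : (k:ℝ) * (u y + 1 / k * Real.log ‖MvPolynomial.eval (cp y) h‖) =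
          k * u y + Real.log ‖MvPolynomial.eval (cp y) h‖ := by field_simp
      have h9 : (k:ℝ) * (C + 1 / k * Real.log (1 + ‖cp y‖)) = k * C + Real.log (1 + ‖cp y‖) := by
        field_simp
      rw [h8, h9] at h7
      exact h7) hx hx'
  exact Real.exp_injective h1

/-- **Liouville**, bounded version -/
theorem liouville {h : MvPolynomial (Fin n) ℂ} (P : Prp h M) {u : M → ℝ}
    (husc : UpperSemicontinuous u) (hm : SMean u) {Z : Set M}
    (hZ : IsClopen Z) (hZc : IsPreconnected Z) {C : ℝ} (hC : ∀ x ∈ Z, u x ≤ C)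
    {x x' : M} (hx : x ∈ Z) (hx' : x' ∈ Z) : u x = u x' := by
  have husc' : UpperSemicontinuous (fun x => Real.exp (u x)) :=
    Real.continuous_exp.comp_upperSemicontinuous husc Real.exp_monotone
  have h1 := const_on P (b := fun x => Real.exp (u x)) (fun x => (Real.exp_pos _).le) husc'
    (maxPr_exp husc hm) (A := 0) (B := 0) hZ hZc (fun k _ => by
      refine ⟨Real.exp C ^ k, fun y hy => ?_⟩
      simp only [pow_zero, mul_one]
      exact pow_le_pow_left₀ (Real.exp_pos _).le (Real.exp_le_exp.2 (hC y hy)) k) hx hx'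
  exact Real.exp_injective h1

/-- two sub-mean functions whose sum is bounded above satisfy the mean value EQUALITY -/
theorem pluriharmonic_of_add_le {h : MvPolynomial (Fin n) ℂ} (P : Prp h M) [PreconnectedSpace M]
    {u w : M → ℝ} (hu : Continuous u) (hw : Continuous w) (hum : SMean u) (hwm : SMean w)
    {C : ℝ} (hC : ∀ x, u x + w x ≤ C) :
    (∀ x y, u x + w x = u y + w y) ∧
    ∀ (x : M) (v : Fin n → ℂ), ∀ᶠ r in 𝓝[>] (0 : ℝ),
      u x = circleAverage (fun t => u (ln x v t)) 0 r ∧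
      w x = circleAverage (fun t => w (ln x v t)) 0 r := by
  have hs : SMean (fun x => u x + w x) := by
    intro x v
    filter_upwards [hum x v, hwm x v] with r h1 h2
    refine ⟨h1.1.add h2.1, ?_⟩
    rw [Real.circleAverage_fun_add h1.1 h2.1]
    linarith [h1.2, h2.2]
  have h0 : ∀ x y, u x + w x = u y + w y := fun x y =>
    liouville P (u := fun x => u x + w x) (hu.add hw).upperSemicontinuous hs isClopen_univ
      isPreconnected_univ (fun x _ => hC x) (mem_univ x) (mem_univ y)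
  refine ⟨h0, fun x v => ?_⟩
  filter_upwards [hum x v, hwm x v] with r h1 h2
  have h3 : circleAverage (fun t => u (ln x v t)) 0 r + circleAverage (fun t => w (ln x v t)) 0 r =
      u x + w x := by
    rw [← Real.circleAverage_fun_add h1.1 h2.1]
    have : (fun t => u (ln x v t) + w (ln x v t)) = fun _ => u x + w x := by
      funext t; exact h0 _ _
    rw [this, Real.circleAverage_const]
  constructor <;> linarith [h1.2, h2.2]


/-! ### complex lines -/

/-- the preimage of the complex line `z0 + ℂ v` (`v i ≠ 0`) -/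
abbrev Lin (M : Type*) [TopologicalSpace M] [RDom n M] (z0 v : Fin n → ℂ) (i : Fin n) : Type _ :=
  {x : M // cp x = z0 + tau z0 v i x • v}

theorem Lin.isClosedEmbedding (z0 v : Fin n → ℂ) (i : Fin n) :
    IsClosedEmbedding (Subtype.val : Lin M z0 v i → M) := by
  apply IsClosed.isClosedEmbedding_subtypeVal
  have h1 := cp_cont (M := M)
  have h2 := continuous_tau (M := M) z0 v i
  exact isClosed_eq h1 (by fun_prop)

open Classical in
/-- the chart of `Lin` given by a chart of `M` -/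
noncomputable def linCh {z0 v : Fin n → ℂ} {i : Fin n} (hi : v i ≠ 0)
    {e : OpenPartialHomeomorph M (Fin n → ℂ)} (he : IsCh e) (y : Lin M z0 v i) :
    OpenPartialHomeomorph (Lin M z0 v i) (Fin 1 → ℂ) where
  toFun x := fun _ => tau z0 v i x.1
  invFun t := if h : z0 + t 0 • v ∈ e.target then
    ⟨e.symm (z0 + t 0 • v), by
      have h1 : cp (e.symm (z0 + t 0 • v)) = z0 + t 0 • v := he.cp_symm h
      rw [tau_eq hi h1]; exact h1⟩ else y
  source := {x | x.1 ∈ e.source}
  target := {t | z0 + t 0 • v ∈ e.target}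
  map_source' x hx := by
    show z0 + tau z0 v i x.1 • v ∈ e.target
    rw [← x.2]
    exact he.cp_mem hx
  map_target' t ht := by
    have ht' : z0 + t 0 • v ∈ e.target := ht
    simp only [dif_pos ht']
    exact e.map_target ht'
  left_inv' x hx := by
    have h1 : z0 + tau z0 v i x.1 • v ∈ e.target := by
      rw [← x.2]
      exact he.cp_mem hx
    simp only [dif_pos h1]
    apply Subtype.ext
    show e.symm (z0 + tau z0 v i x.1 • v) = x.1
    rw [← x.2]
    exact he.symm_cp hx
  right_inv' t ht := by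
    have ht' : z0 + t 0 • v ∈ e.target := ht
    simp only [dif_pos ht']
    funext j
    have h1 : cp (e.symm (z0 + t 0 • v)) = z0 + t 0 • v := he.cp_symm ht'
    rw [tau_eq hi h1, Subsingleton.elim j 0]
  open_source := e.open_source.preimage (Lin.isClosedEmbedding z0 v i).continuous
  open_target := e.open_target.preimage (by fun_prop)
  continuousOn_toFun := by
    apply Continuous.continuousOn
    exact continuous_pi fun _ =>
      (continuous_tau z0 v i).comp (Lin.isClosedEmbedding z0 v i).continuous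
  continuousOn_invFun := by
    rw [(Lin.isClosedEmbedding (M := M) z0 v i).isInducing.continuousOn_iff]
    have h1 : ContinuousOn (fun t : Fin 1 → ℂ => e.symm (z0 + t 0 • v))
        {t | z0 + t 0 • v ∈ e.target} :=
      e.continuousOn_symm.comp (by fun_prop) (fun t ht => ht)
    refine h1.congr fun t ht => ?_
    have ht' : z0 + t 0 • v ∈ e.target := ht
    simp only [Function.comp_apply, dif_pos ht']

/-- **the preimage of a line is a Riemann domain over `ℂ`** -/
@[reducible] noncomputable def linDom (M : Type*) [TopologicalSpace M] [RDom n M]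
    {z0 v : Fin n → ℂ} {i : Fin n} (hi : v i ≠ 0) : RDom 1 (Lin M z0 v i) where
  p x := fun _ => tau z0 v i x.1
  hp := by
    intro x
    exact ⟨linCh hi (isCh_ch x.1) x, mem_ch x.1, rfl⟩

/-- the polynomial `h` on the line -/
noncomputable def linPoly (h : MvPolynomial (Fin n) ℂ) (z0 v : Fin n → ℂ) :
    MvPolynomial (Fin 1) ℂ :=
  MvPolynomial.aeval (fun i => MvPolynomial.C (z0 i) + MvPolynomial.X 0 * MvPolynomial.C (v i)) h

theorem linPoly_eval (h : MvPolynomial (Fin n) ℂ) (z0 v : Fin n → ℂ) (t : Fin 1 → ℂ) :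
    MvPolynomial.eval t (linPoly h z0 v) = MvPolynomial.eval (z0 + t 0 • v) h := by
  unfold linPoly
  rw [← MvPolynomial.aeval_eq_eval, ← MvPolynomial.aeval_eq_eval, ← AlgHom.comp_apply]
  congr 1
  apply MvPolynomial.algHom_ext
  intro i
  simp only [AlgHom.comp_apply, MvPolynomial.aeval_X, map_add, map_mul, MvPolynomial.aeval_C,
    Pi.add_apply, Pi.smul_apply, smul_eq_mul, Algebra.algebraMap_self, RingHom.id_apply]

theorem prp_lin {h : MvPolynomial (Fin n) ℂ} (P : Prp h M) {z0 v : Fin n → ℂ} {i : Fin n}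
    (hi : v i ≠ 0) : @Prp 1 (linPoly h z0 v) (Lin M z0 v i) _ (linDom M hi) := by
  let _ := linDom M (z0 := z0) hi
  refine ⟨fun x => ?_, fun R δ hδ => ?_⟩
  · rw [linPoly_eval]
    show MvPolynomial.eval (z0 + tau z0 v i x.1 • v) h ≠ 0
    rw [← x.2]
    exact P.ne x.1
  · have h1 := (Lin.isClosedEmbedding (M := M) z0 v i).isCompact_preimage
      (P.cpt (‖z0‖ + R * ‖v‖) δ hδ)
    refine h1.of_isClosed_subset ?_ ?_
    · have hc : Continuous (cp : Lin M z0 v i → (Fin 1 → ℂ)) := cp_cont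
      have : Continuous (fun t : Fin 1 → ℂ => MvPolynomial.eval t (linPoly h z0 v)) :=
        MvPolynomial.continuous_eval _
      have h2 : Continuous (fun x : Lin M z0 v i => ‖MvPolynomial.eval (cp x) (linPoly h z0 v)‖) :=
        (this.comp hc).norm
      exact (isClosed_le hc.norm continuous_const).inter (isClosed_le continuous_const h2)
    · rintro x ⟨hx1, hx2⟩
      have h3 : ‖(cp x : Fin 1 → ℂ)‖ = ‖tau z0 v i x.1‖ := by
        show ‖(fun _ => tau z0 v i x.1 : Fin 1 → ℂ)‖ = _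
        exact pi_norm_const _
      refine ⟨?_, ?_⟩
      · rw [x.2]
        refine (norm_add_le _ _).trans ?_
        rw [norm_smul]
        have := norm_nonneg v
        rw [h3] at hx1
        gcongr
      · rw [linPoly_eval] at hx2
        have h4 : z0 + (cp x : Fin 1 → ℂ) 0 • v = cp x.1 := x.2.symm
        rwa [h4] at hx2

/-- discs in `Lin` are discs in `M` -/
theorem ln_lin {z0 v : Fin n → ℂ} {i : Fin n} (hi : v i ≠ 0) (y : Lin M z0 v i) (w : Fin 1 → ℂ) :
    let _ := linDom M (z0 := z0) hi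
    ∀ᶠ t in 𝓝 (0 : ℂ), (ln y w t).1 = ln y.1 (w 0 • v) t := by
  let _ := linDom M (z0 := z0) hi
  have he : IsCh (linCh hi (isCh_ch y.1) y) := rfl
  have hym : y ∈ (linCh hi (isCh_ch y.1) y).source := mem_ch y.1
  have h1 := (isCh_ch y).germ he (mem_ch y) hym
  have h2 := tendsto_line y w
  have h3 := tendsto_line y.1 (w 0 • v)
  have h4 : ∀ᶠ z in 𝓝 (cp y.1), z ∈ (ch y.1).target :=
    (ch y.1).open_target.mem_nhds ((isCh_ch y.1).cp_mem (mem_ch y.1))
  filter_upwards [h2.eventually h1, h3.eventually h4] with t ht1 ht2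
  have h5 : z0 + (cp y + t • w : Fin 1 → ℂ) 0 • v = cp y.1 + t • (w 0 • v) := by
    have h6 : (cp y + t • w : Fin 1 → ℂ) 0 = tau z0 v i y.1 + t * w 0 := rfl
    rw [h6, y.2, add_smul, smul_smul, add_assoc]
  show ((ch y).symm (cp y + t • w)).1 = (ch y.1).symm (cp y.1 + t • (w 0 • v))
  rw [ht1]
  have h7 : z0 + (cp y + t • w : Fin 1 → ℂ) 0 • v ∈ (ch y.1).target := by
    rw [h5]; exact ht2
  have h8 : (linCh hi (isCh_ch y.1) y).symm (cp y + t • w) =
      ⟨(ch y.1).symm (z0 + (cp y + t • w : Fin 1 → ℂ) 0 • v), by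
        have h1 : cp ((ch y.1).symm (z0 + (cp y + t • w : Fin 1 → ℂ) 0 • v)) =
          z0 + (cp y + t • w : Fin 1 → ℂ) 0 • v := (isCh_ch y.1).cp_symm h7
        rw [tau_eq hi h1]; exact h1⟩ := dif_pos h7
  rw [h8]
  show (ch y.1).symm (z0 + (cp y + t • w : Fin 1 → ℂ) 0 • v) = _
  rw [h5]

theorem smean_lin {u : M → ℝ} (hu : SMean u) {z0 v : Fin n → ℂ} {i : Fin n} (hi : v i ≠ 0) :
    @SMean 1 (Lin M z0 v i) _ (linDom M hi) (fun y => u y.1) := by
  let _ := linDom M (z0 := z0) hi
  intro y w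
  have h1 := ln_lin hi y w
  obtain ⟨ρ, hρ, hball⟩ := Metric.eventually_nhds_iff_ball.1 h1
  have h2 : ∀ᶠ r in 𝓝[>] (0 : ℝ), 0 < r ∧ r < ρ := Ioo_mem_nhdsGT hρ
  filter_upwards [hu y.1 (w 0 • v), h2] with r h3 h4
  have h5 : EqOn (fun t => u (ln y.1 (w 0 • v) t)) (fun t => u (ln y w t).1) (sphere 0 |r|) := by
    intro t ht
    rw [mem_sphere_zero_iff_norm, abs_of_pos h4.1] at ht
    simp only
    rw [hball t (by rw [mem_ball_zero_iff, ht]; exact h4.2)]
  refine ⟨h3.1.congr fun θ _ => h5 (circleMap_mem_sphere' 0 r θ), ?_⟩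
  rw [← Real.circleAverage_congr_sphere h5]
  exact h3.2

theorem maxPr_lin {b : M → ℝ} (hb : MaxPr b) {z0 v : Fin n → ℂ} {i : Fin n} (hi : v i ≠ 0) :
    @MaxPr 1 (Lin M z0 v i) _ (linDom M hi) (fun y => b y.1) := by
  let _ := linDom M (z0 := z0) hi
  intro y w F k hk hF hF0 hloc
  have h1 := ln_lin hi y w
  have h2 := hb y.1 (w 0 • v) F k hk hF hF0 (by
    filter_upwards [hloc, h1] with t h3 h4
    rw [h4] at h3
    exact h3)
  filter_upwards [h2, h1] with t h3 h4
  rw [h4]
  exact h3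

/-- over every `z0` with `h z0 ≠ 0` there is a point where `b` is at least as large as at `x`; growth
hypothesis only on the line through `z0` and `cp x` -/
theorem exists_fibre_ge_line {h : MvPolynomial (Fin n) ℂ} (P : Prp h M) {b : M → ℝ}
    (hb0 : ∀ x, 0 ≤ b x) (husc : UpperSemicontinuous b) (hmp : MaxPr b) {A B : ℕ}
    {z0 : Fin n → ℂ} (hz0 : MvPolynomial.eval z0 h ≠ 0) (x : M)
    (hG : ∀ k : ℕ, 0 < k → ∃ C : ℝ, ∀ (y : M) (t : ℂ), cp y = z0 + t • (cp x - z0) →
      b y ^ k * ‖MvPolynomial.eval (cp y) h‖ ^ B ≤ C * (1 + ‖t‖) ^ A) :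
    ∃ y : M, cp y = z0 ∧ b x ≤ b y := by
  rcases eq_or_ne (cp x) z0 with he | hne
  · exact ⟨x, he, le_rfl⟩
  set v := cp x - z0 with hvdef
  have hv : v ≠ 0 := sub_ne_zero.2 hne
  obtain ⟨i, hi⟩ : ∃ i, v i ≠ 0 := by
    by_contra hcon
    push Not at hcon
    exact hv (funext hcon)
  have hxs : cp x = z0 + (1 : ℂ) • v := by rw [one_smul, hvdef]; abel
  have hτx : tau z0 v i x = 1 := tau_eq hi hxs
  let _ := linDom M (z0 := z0) hi
  let X : Lin M z0 v i := ⟨x, by rw [hτx]; exact hxs⟩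
  have husc' : UpperSemicontinuous (fun y : Lin M z0 v i => b y.1) :=
    husc.comp (Lin.isClosedEmbedding z0 v i).continuous
  obtain ⟨y, hy1, hy2⟩ := exists_fibre_ge (prp_lin P hi) (b := fun y : Lin M z0 v i => b y.1)
    (fun y => hb0 _) husc' (maxPr_lin hmp hi) (A := A) (B := B) (fun k hk => by
      obtain ⟨C, hC⟩ := hG k hk
      refine ⟨C, fun y => ?_⟩
      have h1 := hC y.1 (tau z0 v i y.1) y.2
      rw [linPoly_eval]
      have h2 : z0 + (cp y : Fin 1 → ℂ) 0 • v = cp y.1 := y.2.symm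
      have h3 : ‖(cp y : Fin 1 → ℂ)‖ = ‖tau z0 v i y.1‖ := by
        show ‖(fun _ => tau z0 v i y.1 : Fin 1 → ℂ)‖ = _
        exact pi_norm_const _
      rw [h2, h3]
      exact h1) (z0 := fun _ => 0) (by rw [linPoly_eval]; simpa using hz0) X
  refine ⟨y.1, ?_, hy2⟩
  have h4 : tau z0 v i y.1 = 0 := congrFun hy1 0
  have h5 := y.2
  rw [h4] at h5
  simpa using h5

/-- **Liouville, line by line**: growth `o(log (1 + |t|) + log⁺ (1 / |h|))` on every complex line not
contained in `{h = 0}`, with constants depending on the line, is enough -/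
theorem const_of_lines {h : MvPolynomial (Fin n) ℂ} (P : Prp h M) [PreconnectedSpace M]
    {b : M → ℝ} (hb0 : ∀ x, 0 ≤ b x) (husc : UpperSemicontinuous b) (hmp : MaxPr b) {A B : ℕ}
    (hG : ∀ z0 v : Fin n → ℂ, MvPolynomial.eval z0 h ≠ 0 → ∀ k : ℕ, 0 < k → ∃ C : ℝ,
      ∀ (y : M) (t : ℂ), cp y = z0 + t • v →
      b y ^ k * ‖MvPolynomial.eval (cp y) h‖ ^ B ≤ C * (1 + ‖t‖) ^ A) (x x' : M) : b x = b x' := by
  set z0 := cp x with hz0
  have hS : IsCompact {y : M | cp y = z0} := by
    refine (P.cpt ‖z0‖ ‖MvPolynomial.eval z0 h‖ (norm_pos_iff.2 (P.ne x))).of_isClosed_subset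
      (isClosed_eq cp_cont continuous_const) ?_
    intro y hy
    have hy' : cp y = z0 := hy
    exact ⟨by rw [hy'], by rw [hy']⟩
  obtain ⟨y, hy, hmax⟩ := (husc.upperSemicontinuousOn _).exists_isMaxOn
    (⟨x, hz0.symm⟩ : {x : M | cp x = z0}.Nonempty) hS
  refine const_of_max husc hmp isClopen_univ isPreconnected_univ (mem_univ y) (fun w _ => ?_)
    (mem_univ x) (mem_univ x')
  obtain ⟨y', hy', hb⟩ := exists_fibre_ge_line P hb0 husc hmp (A := A) (B := B) (P.ne x) w
    (fun k hk => hG _ _ (P.ne x) k hk)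
  exact hb.trans (hmax hy')

/-- the same in terms of `u = log b` -/
theorem liouville_lines {h : MvPolynomial (Fin n) ℂ} (P : Prp h M) [PreconnectedSpace M]
    {u : M → ℝ} (husc : UpperSemicontinuous u) (hm : SMean u)
    (hG : ∀ z0 v : Fin n → ℂ, MvPolynomial.eval z0 h ≠ 0 → ∀ ε : ℝ, 0 < ε → ∃ C : ℝ,
      ∀ (y : M) (t : ℂ), cp y = z0 + t • v →
      u y + ε * Real.log ‖MvPolynomial.eval (cp y) h‖ ≤ C + ε * Real.log (1 + ‖t‖)) (x x' : M) :
    u x = u x' := by
  have husc' : UpperSemicontinuous (fun x => Real.exp (u x)) :=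
    Real.continuous_exp.comp_upperSemicontinuous husc Real.exp_monotone
  have h1 := const_of_lines P (b := fun x => Real.exp (u x)) (fun x => (Real.exp_pos _).le) husc'
    (maxPr_exp husc hm) (A := 1) (B := 1) (fun z0 v hz0 k hk => by
      have hkR : (0:ℝ) < k := Nat.cast_pos.2 hk
      obtain ⟨C, hC⟩ := hG z0 v hz0 (1 / k) (by positivity)
      refine ⟨Real.exp (k * C), fun y t hy => ?_⟩
      have h2 := hC y t hy
      have h3 : 0 < ‖MvPolynomial.eval (cp y) h‖ := norm_pos_iff.2 (P.ne y)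
      have h4 : (0:ℝ) < 1 + ‖t‖ := by positivity
      rw [pow_one, pow_one, ← Real.exp_nat_mul]
      have h5 : Real.exp (k * u y) * ‖MvPolynomial.eval (cp y) h‖ =
          Real.exp (k * u y + Real.log ‖MvPolynomial.eval (cp y) h‖) := by
        rw [Real.exp_add, Real.exp_log h3]
      have h6 : Real.exp (k * C) * (1 + ‖t‖) = Real.exp (k * C + Real.log (1 + ‖t‖)) := by
        rw [Real.exp_add, Real.exp_log h4]
      rw [h5, h6]
      apply Real.exp_le_exp.2
      have h7 := mul_le_mul_of_nonneg_left h2 hkR.le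
      have h8 : (k:ℝ) * (u y + 1 / k * Real.log ‖MvPolynomial.eval (cp y) h‖) =
          k * u y + Real.log ‖MvPolynomial.eval (cp y) h‖ := by field_simp
      have h9 : (k:ℝ) * (C + 1 / k * Real.log (1 + ‖t‖)) = k * C + Real.log (1 + ‖t‖) := by
        field_simp
      rw [h8, h9] at h7
      exact h7) x x'
  exact Real.exp_injective h1

/-! ### smooth functions -/

open Laplacian

open Crest.Agent.R271 in
/-- Levi form of `W792` in a chart -/
theorem lev_chart {φ : M → ℝ} (hφ : Sm φ) {e : OpenPartialHomeomorph M (Fin n → ℂ)} (he : IsCh e)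
    {z : Fin n → ℂ} (hz : z ∈ e.target) (w : Fin n → ℂ) :
    MaxP_25.lev (φ ∘ e.symm) z w = 4 * W792.lev φ (e.symm z) w := by
  have hx : e.symm z ∈ e.source := e.map_target hz
  have hs : ContDiffAt ℝ 2 (φ ∘ e.symm) z := (hφ.contDiffAt' he hz).of_le (by norm_cast)
  have key : ∀ v : Fin n → ℂ, D (fun y => D φ y v) (e.symm z) v =
      fderiv ℝ (fderiv ℝ (φ ∘ e.symm)) z v v := by
    intro v
    rw [D_symm he hz]
    have h1 : ((fun y => D φ y v) ∘ e.symm) =ᶠ[𝓝 z] fun z => fderiv ℝ (φ ∘ e.symm) z v := by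
      filter_upwards [e.open_target.mem_nhds hz] with z hz
      simp only [Function.comp_apply]
      rw [D_symm he hz φ]
    rw [h1.fderiv_eq]
    have h3 : DifferentiableAt ℝ (fderiv ℝ (φ ∘ e.symm)) z :=
      (hs.fderiv_right (m := 1) (by norm_num)).differentiableAt (by simp)
    rw [fderiv_clm_apply h3 (differentiableAt_const v)]
    simp
  rw [MaxP_25.lev_eq]
  unfold W792.lev
  rw [key, key]
  ring

/-- `C²` functions which are subharmonic along complex discs -/
theorem maxPr_exp_of_lap {u : M → ℝ}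
    (hu : ∀ (x : M) (v : Fin n → ℂ), ∀ᶠ t in 𝓝 (0:ℂ),
      ContDiffAt ℝ 2 (fun s => u (ln x v s)) t ∧ 0 ≤ (Δ (fun s => u (ln x v s))) t) :
    MaxPr (fun x => Real.exp (u x)) := by
  intro x v F k hk hF hF0 hloc
  obtain ⟨ρ1, hρ1, hana⟩ := exists_ball_ana hF hF0
  obtain ⟨ρ2, hρ2, hlap⟩ := Metric.eventually_nhds_iff_ball.1 (hu x v)
  obtain ⟨ρ3, hρ3, hmax⟩ := Metric.eventually_nhds_iff_ball.1 hloc
  set ρ := min ρ1 (min ρ2 ρ3) with hρ
  have hρp : 0 < ρ := lt_min hρ1 (lt_min hρ2 hρ3)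
  have hsub : ∀ s ∈ ball (0:ℂ) ρ, s ∈ ball (0:ℂ) ρ1 ∧ s ∈ ball (0:ℂ) ρ2 ∧ s ∈ ball (0:ℂ) ρ3 := by
    intro s hs
    have h1 : ρ ≤ ρ1 := min_le_left _ _
    have h2 : ρ ≤ ρ2 := (min_le_right _ _).trans (min_le_left _ _)
    have h3 : ρ ≤ ρ3 := (min_le_right _ _).trans (min_le_right _ _)
    simp only [mem_ball_zero_iff] at hs ⊢
    exact ⟨by linarith, by linarith, by linarith⟩
  have hkR : (0:ℝ) < k := Nat.cast_pos.2 hk
  have h18 : ∀ (a c : ℝ), 0 < c → Real.exp a ^ k * c ^ 2 = Real.exp (k * a + 2 * Real.log c) := by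
    intro a c hc
    rw [Real.exp_add, ← Real.exp_nat_mul, two_mul (Real.log c), Real.exp_add, Real.exp_log hc, sq]
  have hFp : ∀ s ∈ ball (0:ℂ) ρ, 0 < ‖F s‖ := fun s hs => norm_pos_iff.2 (hana s (hsub s hs).1).2
  set g : ℂ → ℝ := fun s => k * u (ln x v s) + 2 * Real.log ‖F s‖ with hg
  have h1 := MaxP_25.strong (u := g) (R := ρ) (fun z hz => by
    have ha := hana z (hsub z hz).1
    have hb := hlap z (hsub z hz).2.1
    have hh : InnerProductSpace.HarmonicAt (fun s => Real.log ‖F s‖) z :=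
      ha.1.harmonicAt_log_norm ha.2
    have hc1 : ContDiffAt ℝ 2 (fun s => (k:ℝ) • u (ln x v s)) z := hb.1.const_smul (k:ℝ)
    have hc2 : ContDiffAt ℝ 2 (fun s => (2:ℝ) • Real.log ‖F s‖) z := hh.1.const_smul (2:ℝ)
    have hge : g = (fun s => (k:ℝ) • u (ln x v s)) + (fun s => (2:ℝ) • Real.log ‖F s‖) := by
      funext s; simp [hg]
    constructor
    · rw [hge]; exact hc1.add hc2
    · rw [hge, hc1.laplacian_add hc2]
      have e1 : (Δ (fun s => (k:ℝ) • u (ln x v s))) z = (k:ℝ) • (Δ (fun s => u (ln x v s))) z :=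
        InnerProductSpace.laplacian_smul (k:ℝ) hb.1
      have e2 : (Δ (fun s => (2:ℝ) • Real.log ‖F s‖)) z =
          (2:ℝ) • (Δ (fun s => Real.log ‖F s‖)) z :=
        InnerProductSpace.laplacian_smul (2:ℝ) hh.1
      have e3 : (Δ (fun s => Real.log ‖F s‖)) z = 0 := hh.2.self_of_nhds
      rw [e1, e2, e3, smul_zero, add_zero, smul_eq_mul]
      exact mul_nonneg hkR.le hb.2) (fun z hz => by
    have h2 := hmax z (hsub z hz).2.2
    have h3 := hFp z hz
    have h4 := hFp 0 (mem_ball_self hρp)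
    rw [h18 _ _ h3, h18 _ _ h4, Real.exp_le_exp] at h2
    simp only [hg, ln_zero]
    exact h2)
  filter_upwards [ball_mem_nhds (0 : ℂ) hρp] with t ht
  have h2 := h1 t ht
  simp only [hg, ln_zero] at h2
  rw [h18 _ _ (hFp t ht), h18 _ _ (hFp 0 (mem_ball_self hρp)), h2]

open Crest.Agent.R271 in
/-- **smooth psh functions** (`W792.lev`) -/
theorem maxPr_exp_of_lev {u : M → ℝ} (hu : Sm u) (hl : ∀ x w, 0 ≤ W792.lev u x w) :
    MaxPr (fun x => Real.exp (u x)) := by
  apply maxPr_exp_of_lap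
  intro x v
  obtain ⟨ρ, hρ, hln⟩ := exists_ball_ln x v
  filter_upwards [ball_mem_nhds (0:ℂ) hρ] with t ht
  have hz := hln t ht
  have hc : ContDiffAt ℝ 2 (u ∘ (ch x).symm) (cp x + t • v) :=
    (hu.contDiffAt' (isCh_ch x) hz).of_le (by norm_cast)
  constructor
  · exact ContDiffAt.comp (g := u ∘ (ch x).symm) t hc (MaxP_25.contDiff_cline (cp x) v).contDiffAt
  · have h1 := MaxP_25.lap_cline (u := u ∘ (ch x).symm) hc
    have h2 : (fun s : ℂ => (u ∘ (ch x).symm) (cp x + s • v)) = fun s => u (ln x v s) := rfl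
    rw [h2] at h1
    rw [h1, lev_chart hu (isCh_ch x) hz]
    have := hl ((ch x).symm (cp x + t • v)) v
    linarith

open Crest.Agent.R271 in
/-- **smooth psh functions** (`Levi` of `Ho51`) -/
theorem maxPr_exp_of_levi {u : M → ℝ} (hu : Sm u) (hl : ∀ x w, 0 ≤ Levi u x w) :
    MaxPr (fun x => Real.exp (u x)) :=
  maxPr_exp_of_lev hu fun x w => by rw [← W792.Levi_eq_lev hu]; exact hl x w

end Crest.Agent.R276.Liou2_739
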