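import Mathlib
import Crest.Agent.R276.Liou2_739
import Crest.Agent.R276.EngU_29
import Crest.Agent.R276.Avg_999

/-!
# R276, leaf LIOU, part 3 (helper739): `LPsh` (29) and `PSH` (844) functions, the hypothesis `hL` of
`Avg_999.avg_eq`

* `maxPr_of_circ` : circle means of `log (b + δ)`, `b = 0` allowed.
* `smean_of_psh : PSH u → SMean u`, `maxPr_of_lpsh : LPsh b → MaxPr b`.
* `psh_const`, `lpsh_const`, `lpsh_const_of_growth`, `lpsh_const_of_lines` : Liouville for `PSH`, `LPsh`.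
* `hL` : the Liouville hypothesis of `Avg_999.avg_eq`, `Nc_999.norm_const`.
-/

set_option autoImplicit false

open Set Filter Topology Metric MeasureTheory
open Real (circleAverage)

namespace Crest.Agent.R276.Liou3_739

open Crest.Agent.R271.Ho51 Crest.Agent.R276.Liou2_739
open Crest.Agent.R276.Liou_739 hiding circ
open Crest.Agent.R275.FL606 Crest.Agent.R273.Reg_844
open Crest.Agent.R276.EngU_29 (LPsh)

/-- the measure theoretic core of the strong maximum principle for `log (β + δ)` -/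
theorem core {Y : Type*} [MeasurableSpace Y] (ν : Measure Y) [IsProbabilityMeasure ν]
    {β G : Y → ℝ} {b0 gm gM : ℝ} (hb0 : 0 < b0) (hβ : AEMeasurable β ν) (hG : AEMeasurable G ν)
    (hβ0 : ∀ y, 0 ≤ β y) (hβG : ∀ y, β y ≤ G y) (hgm : 0 < gm) (hG1 : ∀ y, gm ≤ G y)
    (hG2 : ∀ y, G y ≤ gM) (hlog : ∫ y, Real.log (G y) ∂ν = Real.log b0) {N : Set Y}
    (hN : MeasurableSet N) (hNp : 0 < ν.real N) {m1 m2 : ℝ} (hm1 : 0 < m1) (hm : m1 < m2)
    (h1 : ∀ y ∈ N, β y ≤ m1) (h2 : ∀ y ∈ N, m2 ≤ G y)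
    (hmean : ∀ δ : ℝ, 0 < δ → Real.log (b0 + δ) ≤ ∫ y, Real.log (β y + δ) ∂ν) : False := by
  have hm2 : 0 < m2 := hm1.trans hm
  have hYne : Nonempty Y := by
    by_contra hcon
    rw [not_nonempty_iff] at hcon
    have : N = ∅ := Set.eq_empty_of_isEmpty N
    rw [this] at hNp
    simp at hNp
  have hgM : 0 < gM := by
    obtain ⟨y⟩ := hYne
    exact hgm.trans_le ((hG1 y).trans (hG2 y))
  have key : ∀ δ : ℝ, 0 < δ → Real.log (b0 + δ) ≤ Real.log b0 + δ / gm -
      ν.real N * (Real.log (m2 + δ) - Real.log (m1 + δ)) := by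
    intro δ hδ
    refine (hmean δ hδ).trans ?_
    set cδ := Real.log (m2 + δ) - Real.log (m1 + δ) with hcδ
    have hptw : ∀ y, Real.log (β y + δ) ≤
        (Real.log (G y) + δ / gm) - N.indicator (fun _ => cδ) y := by
      intro y
      have hGy : 0 < G y := hgm.trans_le (hG1 y)
      have h3 : Real.log (G y + δ) ≤ Real.log (G y) + δ / gm := by
        have h3 : G y + δ = G y * (1 + δ / G y) := by field_simp
        rw [h3, Real.log_mul hGy.ne' (by positivity)]
        have h4 : Real.log (1 + δ / G y) ≤ δ / G y := by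
          have := Real.log_le_sub_one_of_pos (x := 1 + δ / G y) (by positivity)
          linarith
        have h5 : δ / G y ≤ δ / gm := div_le_div_of_nonneg_left hδ.le hgm (hG1 y)
        linarith
      by_cases hy : y ∈ N
      · rw [indicator_of_mem hy]
        have h7 : Real.log (β y + δ) ≤ Real.log (m1 + δ) :=
          Real.log_le_log (by have := hβ0 y; positivity) (by linarith [h1 y hy])
        have h8 : Real.log (m2 + δ) ≤ Real.log (G y + δ) :=
          Real.log_le_log (by positivity) (by linarith [h2 y hy])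
        rw [hcδ]
        linarith
      · rw [indicator_of_notMem hy, sub_zero]
        exact (Real.log_le_log (by have := hβ0 y; positivity) (by linarith [hβG y])).trans h3
    have hbd : ∀ {u : Y → ℝ}, AEMeasurable u ν → ∀ {a c : ℝ}, (∀ y, a ≤ u y) → (∀ y, u y ≤ c) →
        Integrable u ν := by
      intro u hu a c ha hc
      refine Integrable.of_bound hu.aestronglyMeasurable (|a| + |c|) (Eventually.of_forall fun y => ?_)
      rw [Real.norm_eq_abs, abs_le]
      constructor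
      · have := neg_abs_le a; have := abs_nonneg c; linarith [ha y]
      · have := le_abs_self c; have := abs_nonneg a; linarith [hc y]
    have hi3 : Integrable (fun y => Real.log (β y + δ)) ν :=
      hbd ((hβ.add_const δ).log) (a := Real.log δ) (c := Real.log (gM + δ))
        (fun y => Real.log_le_log hδ (by linarith [hβ0 y]))
        (fun y => Real.log_le_log (by have := hβ0 y; positivity) (by linarith [hβG y, hG2 y]))
    have hi4 : Integrable (fun y => Real.log (G y)) ν :=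
      hbd hG.log (a := Real.log gm) (c := Real.log gM)
        (fun y => Real.log_le_log hgm (hG1 y))
        (fun y => Real.log_le_log (hgm.trans_le (hG1 y)) (hG2 y))
    have hi5 : Integrable (fun _ : Y => δ / gm) ν := integrable_const _
    have hi2 : Integrable (N.indicator (fun _ => cδ)) ν := (integrable_const cδ).indicator hN
    have h9 : ∫ y, Real.log (β y + δ) ∂ν ≤
        ∫ y, ((Real.log (G y) + δ / gm) - N.indicator (fun _ => cδ) y) ∂ν :=
      integral_mono hi3 ((hi4.add hi5).sub hi2) hptw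
    have h10 : ∫ y, ((Real.log (G y) + δ / gm) - N.indicator (fun _ => cδ) y) ∂ν =
        Real.log b0 + δ / gm - ν.real N * cδ := by
      have e1 : ∫ y, ((Real.log (G y) + δ / gm) - N.indicator (fun _ => cδ) y) ∂ν =
          ∫ y, (Real.log (G y) + δ / gm) ∂ν - ∫ y, N.indicator (fun _ => cδ) y ∂ν :=
        integral_sub (hi4.add hi5) hi2
      have e2 : ∫ y, (Real.log (G y) + δ / gm) ∂ν =
          ∫ y, Real.log (G y) ∂ν + ∫ _y, δ / gm ∂ν := integral_add hi4 hi5
      rw [e1, e2, hlog, integral_const, integral_indicator_const _ hN]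
      simp
    rw [h10] at h9
    exact h9
  have hlim1 : Tendsto (fun δ : ℝ => Real.log (b0 + δ)) (𝓝[>] 0) (𝓝 (Real.log b0)) := by
    have : ContinuousAt (fun δ : ℝ => Real.log (b0 + δ)) 0 := by
      apply ContinuousAt.log (by fun_prop)
      simpa using hb0.ne'
    have h := this.tendsto
    simp only [add_zero] at h
    exact h.mono_left nhdsWithin_le_nhds
  have hlim2 : Tendsto (fun δ : ℝ => Real.log b0 + δ / gm -
      ν.real N * (Real.log (m2 + δ) - Real.log (m1 + δ))) (𝓝[>] 0)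
      (𝓝 (Real.log b0 - ν.real N * (Real.log m2 - Real.log m1))) := by
    have h2 : ContinuousAt (fun δ : ℝ => Real.log (m2 + δ)) 0 := by
      apply ContinuousAt.log (by fun_prop)
      simpa using hm2.ne'
    have h1 : ContinuousAt (fun δ : ℝ => Real.log (m1 + δ)) 0 := by
      apply ContinuousAt.log (by fun_prop)
      simpa using hm1.ne'
    have : ContinuousAt (fun δ : ℝ => Real.log b0 + δ / gm -
      ν.real N * (Real.log (m2 + δ) - Real.log (m1 + δ))) 0 := by fun_prop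
    have h := this.tendsto
    simp only [add_zero, zero_div] at h
    exact h.mono_left nhdsWithin_le_nhds
  have h := le_of_tendsto_of_tendsto hlim1 hlim2 (by
    filter_upwards [self_mem_nhdsWithin] with δ hδ using key δ hδ)
  have h12 : 0 < Real.log m2 - Real.log m1 := sub_pos.2 (Real.log_lt_log hm1 hm)
  have h13 : 0 < ν.real N * (Real.log m2 - Real.log m1) := by positivity
  linarith

/-- flat form of the circle maximum principle -/
theorem flat_circ {β : ℂ → ℝ} {F : ℂ → ℂ} {ρ : ℝ} (hβ0 : ∀ t, 0 ≤ β t)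
    (hF : ∀ t ∈ ball (0 : ℂ) ρ, AnalyticAt ℂ F t ∧ F t ≠ 0)
    (husc : ∀ t ∈ ball (0 : ℂ) ρ, ∀ c, β t < c → ∀ᶠ s in 𝓝 t, β s < c)
    {k : ℕ} (hk : 0 < k)
    (hmax : ∀ t ∈ ball (0 : ℂ) ρ, β t ^ k * ‖F t‖ ^ 2 ≤ β 0 ^ k * ‖F 0‖ ^ 2)
    (t : ℂ) (ht0 : t ≠ 0) (ht : ‖t‖ < ρ)
    (hmean : ∀ δ : ℝ, 0 < δ → Real.log (β 0 + δ) ≤
      circleAverage (fun s => Real.log (β s + δ)) 0 ‖t‖) :
    β t ^ k * ‖F t‖ ^ 2 = β 0 ^ k * ‖F 0‖ ^ 2 := by
  set r := ‖t‖ with hrdef
  have hr : 0 < r := norm_pos_iff.2 ht0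
  have hρ : 0 < ρ := hr.trans ht
  have h00 : (0:ℂ) ∈ ball (0:ℂ) ρ := mem_ball_self hρ
  have hF0p : 0 < ‖F 0‖ := norm_pos_iff.2 (hF 0 h00).2
  have htρ : t ∈ ball (0:ℂ) ρ := by rw [mem_ball_zero_iff]; exact ht
  have hkR : (0:ℝ) < k := Nat.cast_pos.2 hk
  rcases (hβ0 0).eq_or_lt with hb | hb
  · have h1 := hmax t htρ
    have h2 : 0 ≤ β t ^ k * ‖F t‖ ^ 2 := by have := hβ0 t; positivity
    rw [← hb, zero_pow hk.ne', zero_mul] at h1 ⊢
    exact le_antisymm h1 h2
  by_contra hne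
  have hlt := lt_of_le_of_ne (hmax t htρ) hne
  set G : ℂ → ℝ := fun s => β 0 * Real.exp ((2 / k) * (Real.log ‖F 0‖ - Real.log ‖F s‖)) with hG
  have hGp : ∀ s, 0 < G s := fun s => by positivity
  have hGk : ∀ s ∈ ball (0:ℂ) ρ, G s ^ k * ‖F s‖ ^ 2 = β 0 ^ k * ‖F 0‖ ^ 2 := by
    intro s hs
    have h1 : 0 < ‖F s‖ := norm_pos_iff.2 (hF s hs).2
    have h2 : Real.exp ((2 / k) * (Real.log ‖F 0‖ - Real.log ‖F s‖)) ^ k =
        ‖F 0‖ ^ 2 / ‖F s‖ ^ 2 := by
      rw [← Real.exp_nat_mul]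
      have h3 : (k:ℝ) * (2 / k * (Real.log ‖F 0‖ - Real.log ‖F s‖)) =
          2 * Real.log ‖F 0‖ - 2 * Real.log ‖F s‖ := by field_simp
      rw [h3, Real.exp_sub]
      congr 1
      · rw [two_mul, Real.exp_add, Real.exp_log hF0p, sq]
      · rw [two_mul, Real.exp_add, Real.exp_log h1, sq]
    rw [hG]
    simp only [mul_pow, h2]
    field_simp
  have hle : ∀ s ∈ ball (0:ℂ) ρ, β s ≤ G s := by
    intro s hs
    have h1 : 0 < ‖F s‖ ^ 2 := by have := norm_pos_iff.2 (hF s hs).2; positivity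
    have h2 := hmax s hs
    rw [← hGk s hs] at h2
    exact (pow_le_pow_iff_left₀ (hβ0 s) (hGp s).le hk.ne').1 (le_of_mul_le_mul_right h2 h1)
  have hltt : β t < G t := by
    have h1 : 0 < ‖F t‖ ^ 2 := by have := norm_pos_iff.2 (hF t htρ).2; positivity
    rw [← hGk t htρ] at hlt
    exact (pow_lt_pow_iff_left₀ (hβ0 t) (hGp t).le hk.ne').1 (lt_of_mul_lt_mul_right hlt h1.le)
  have hGc : ∀ s ∈ ball (0:ℂ) ρ, ContinuousAt G s := by
    intro s hs
    have h1 := hF s hs
    have h2 : ContinuousAt (fun t => Real.log ‖F t‖) s :=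
      h1.1.continuousAt.norm.log (norm_ne_zero_iff.2 h1.2)
    rw [hG]
    fun_prop
  obtain ⟨m1, hm1, hm1'⟩ := exists_between hltt
  obtain ⟨m2, hm2, hm2'⟩ := exists_between hm1'
  have hm1p : 0 < m1 := (hβ0 t).trans_lt hm1
  -- parametrisation of the circle
  set c : ℝ → ℂ := fun θ => (r : ℂ) * ang θ with hc
  have hcc : Continuous c := continuous_const.mul continuous_ang
  have hcn : ∀ θ, ‖c θ‖ = r := fun θ => by
    rw [hc]
    simp only [norm_mul, norm_ang, mul_one, Complex.norm_real, Real.norm_eq_abs, abs_of_pos hr]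
  have hcb : ∀ θ, c θ ∈ ball (0:ℂ) ρ := fun θ => by rw [mem_ball_zero_iff, hcn]; exact ht
  have hav : ∀ u : ℂ → ℝ, circleAverage u 0 r = ∫ θ, u (c θ) ∂circ := by
    intro u
    have h1 := av_eq_circleAverage u (0:ℂ) (r:ℂ)
    have h2 : circleAverage (fun w : ℂ => u (0 + w • (r:ℂ))) 0 1 = circleAverage u 0 r := by
      rw [Real.circleAverage_eq_circleAverage_zero_one (f := u) (c := 0) (R := r)]
      congr 1
      funext w
      rw [smul_eq_mul, mul_comm w, zero_add, add_zero]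
    rw [← h2, ← h1]
    unfold av
    congr 1
    funext θ
    rw [zero_add, smul_eq_mul, mul_comm]
  have hbetac : UpperSemicontinuous (fun θ => β (c θ)) := by
    intro θ y hy
    exact hcc.continuousAt.eventually (husc _ (hcb θ) y hy)
  have hGcc : Continuous (fun θ => G (c θ)) := by
    rw [continuous_iff_continuousAt]
    intro θ
    exact ContinuousAt.comp (g := G) (f := c) (hGc _ (hcb θ)) hcc.continuousAt
  -- bounds of `G` on the circle
  have hsub : sphere (0:ℂ) r ⊆ ball (0:ℂ) ρ := fun s hs => by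
    rw [mem_sphere_zero_iff_norm] at hs
    rw [mem_ball_zero_iff, hs]; exact ht
  have hGon : ContinuousOn G (sphere (0:ℂ) r) := fun s hs => (hGc s (hsub hs)).continuousWithinAt
  have hsne : (sphere (0:ℂ) r).Nonempty := NormedSpace.sphere_nonempty.2 hr.le
  obtain ⟨lm, hlm, hmin⟩ := (isCompact_sphere (0:ℂ) r).exists_isMinOn hsne hGon
  obtain ⟨lM, hlM, hMax⟩ := (isCompact_sphere (0:ℂ) r).exists_isMaxOn hsne hGon
  have hcs : ∀ θ, c θ ∈ sphere (0:ℂ) r := fun θ => by rw [mem_sphere_zero_iff_norm, hcn]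
  -- the bad set
  have hev : ∀ᶠ s in 𝓝 t, β s < m1 ∧ m2 < G s := by
    have h1 := husc t htρ m1 hm1
    have h2 := (hGc t htρ).eventually (lt_mem_nhds hm2')
    exact h1.and h2
  obtain ⟨ε, hε, hball⟩ := Metric.eventually_nhds_iff_ball.1 hev
  set N : Set ℝ := {θ | c θ ∈ ball t ε} with hN
  have hNo : IsOpen N := isOpen_ball.preimage hcc
  have hNp : 0 < circ.real N := by
    -- a parameter of `t`
    obtain ⟨θ0, hθ0, hθt⟩ : ∃ θ0 ∈ Ioc (0:ℝ) (2 * Real.pi), c θ0 = t := by
      have h1 : t ∈ circleMap 0 r '' Ioc 0 (2 * Real.pi) := by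
        rw [image_circleMap_Ioc, abs_of_pos hr, mem_sphere_zero_iff_norm]
      obtain ⟨θ0, h2, h3⟩ := h1
      refine ⟨θ0, h2, ?_⟩
      rw [← h3, hc]
      simp only [ang, circleMap, zero_add]
    have h4 : N ∈ 𝓝 θ0 := hNo.mem_nhds (by
      show c θ0 ∈ ball t ε
      rw [hθt]; exact mem_ball_self hε)
    obtain ⟨η, hη, hηN⟩ := Metric.mem_nhds_iff.1 h4
    have h6 : Ioo (max 0 (θ0 - η)) θ0 ⊆ N ∩ Ioc 0 (2 * Real.pi) := by
      intro θ hθ
      refine ⟨hηN ?_, lt_of_le_of_lt (le_max_left _ _) hθ.1, hθ.2.le.trans hθ0.2⟩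
      rw [Real.ball_eq_Ioo]
      exact ⟨lt_of_le_of_lt (le_max_right _ _) hθ.1, by linarith [hθ.2]⟩
    have h7 : 0 < volume (Ioo (max 0 (θ0 - η)) θ0) := by
      rw [Real.volume_Ioo, ENNReal.ofReal_pos, sub_pos]
      exact max_lt hθ0.1 (by linarith)
    have h8 : 0 < circ N := by
      unfold circ
      rw [Measure.smul_apply, smul_eq_mul, Measure.restrict_apply hNo.measurableSet]
      have h9 : 0 < volume (N ∩ Ioc 0 (2 * Real.pi)) := h7.trans_le (measure_mono h6)
      exact ENNReal.mul_pos (ENNReal.inv_ne_zero.2 ENNReal.ofReal_ne_top) h9.ne'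
    rw [measureReal_def]
    exact ENNReal.toReal_pos h8.ne' (measure_ne_top _ _)
  refine core circ (β := fun θ => β (c θ)) (G := fun θ => G (c θ)) (b0 := β 0) (gm := G lm)
    (gM := G lM) hb hbetac.measurable.aemeasurable hGcc.measurable.aemeasurable (fun θ => hβ0 _)
    (fun θ => hle _ (hcb θ)) (hGp _) (fun θ => hmin (hcs θ)) (fun θ => hMax (hcs θ)) ?_
    hNo.measurableSet hNp hm1p hm2 (fun θ hθ => (hball _ hθ).1.le) (fun θ hθ => (hball _ hθ).2.le) ?_
  · -- mean of `log G`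
    obtain ⟨hml, hmi⟩ := mean_log hF hr.le ht
    have h1 : ∀ θ, Real.log (G (c θ)) =
        (Real.log (β 0) + 2 / k * Real.log ‖F 0‖) - 2 / k * Real.log ‖F (c θ)‖ := by
      intro θ
      rw [hG]
      simp only
      rw [Real.log_mul hb.ne' (Real.exp_pos _).ne', Real.log_exp]
      ring
    simp_rw [h1]
    have hci : Integrable (fun θ => 2 / (k:ℝ) * Real.log ‖F (c θ)‖) circ := by
      have hcont : Continuous (fun θ => 2 / (k:ℝ) * Real.log ‖F (c θ)‖) := by
        rw [continuous_iff_continuousAt]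
        intro θ
        have h3 := hF _ (hcb θ)
        have h4 : ContinuousAt (fun t => 2 / (k:ℝ) * Real.log ‖F t‖) (c θ) :=
          (h3.1.continuousAt.norm.log (norm_ne_zero_iff.2 h3.2)).const_mul _
        exact ContinuousAt.comp (g := fun t => 2 / (k:ℝ) * Real.log ‖F t‖) (f := c) h4
          hcc.continuousAt
      have hsc : ContinuousOn (fun s => 2 / (k:ℝ) * Real.log ‖F s‖) (sphere (0:ℂ) r) :=
        fun s hs => ((hF s (hsub hs)).1.continuousAt.norm.log
          (norm_ne_zero_iff.2 (hF s (hsub hs)).2)).const_mul _ |>.continuousWithinAt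
      obtain ⟨K, hK⟩ := (isCompact_sphere (0:ℂ) r).exists_bound_of_continuousOn hsc
      exact Integrable.of_bound hcont.measurable.aestronglyMeasurable K
        (Eventually.of_forall fun θ => hK _ (hcs θ))
    rw [integral_sub (integrable_const _) hci, integral_const_mul, ← hav (fun s => Real.log ‖F s‖),
      hml, integral_const]
    simp
  · intro δ hδ
    rw [← hav (fun s => Real.log (β s + δ))]
    exact hmean δ hδ

variable {n : ℕ} {M : Type*} [TopologicalSpace M] [RDom n M]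

/-- **strong maximum principle** from circle means of `log (b + δ)` (values `b = 0` allowed) -/
theorem maxPr_of_circ {b : M → ℝ} (hb0 : ∀ x, 0 ≤ b x) (husc : UpperSemicontinuous b)
    (hm : ∀ (x : M) (v : Fin n → ℂ), ∃ r0 > (0:ℝ), ∀ r ∈ Ioo 0 r0, ∀ δ : ℝ, 0 < δ →
      Real.log (b x + δ) ≤ circleAverage (fun t => Real.log (b (ln x v t) + δ)) 0 r) :
    MaxPr b := by
  intro x v F k hk hF hF0 hloc
  obtain ⟨ρ1, hρ1, hana⟩ := exists_ball_ana hF hF0
  obtain ⟨ρ2, hρ2, hln⟩ := exists_ball_ln x v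
  obtain ⟨ρ3, hρ3, hmax⟩ := Metric.eventually_nhds_iff_ball.1 hloc
  obtain ⟨ρ4, hρ4, hmean⟩ := hm x v
  set ρ := min (min ρ1 ρ2) (min ρ3 ρ4) with hρ
  have hρp : 0 < ρ := lt_min (lt_min hρ1 hρ2) (lt_min hρ3 hρ4)
  have hl1 : ρ ≤ ρ1 := (min_le_left _ _).trans (min_le_left _ _)
  have hl2 : ρ ≤ ρ2 := (min_le_left _ _).trans (min_le_right _ _)
  have hl3 : ρ ≤ ρ3 := (min_le_right _ _).trans (min_le_left _ _)
  have hl4 : ρ ≤ ρ4 := (min_le_right _ _).trans (min_le_right _ _)
  have hsub : ∀ s ∈ ball (0:ℂ) ρ, s ∈ ball (0:ℂ) ρ1 ∧ s ∈ ball (0:ℂ) ρ2 ∧ s ∈ ball (0:ℂ) ρ3 := by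
    intro s hs
    simp only [mem_ball_zero_iff] at hs ⊢
    exact ⟨by linarith, by linarith, by linarith⟩
  filter_upwards [ball_mem_nhds (0 : ℂ) hρp] with t ht
  rw [mem_ball_zero_iff] at ht
  rcases eq_or_ne t 0 with rfl | ht0
  · rw [ln_zero]
  have h := flat_circ (β := fun t => b (ln x v t)) (F := F) (ρ := ρ) (fun t => hb0 _)
    (fun s hs => hana s (hsub s hs).1)
    (fun s hs c hc => (continuousAt_ln (hln s (hsub s hs).2.1)).eventually (husc _ c hc)) hk
    (fun s hs => by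
      simp only [ln_zero]
      exact hmax s (hsub s hs).2.2) t ht0 ht
    (fun δ hδ => by
      simp only [ln_zero]
      exact hmean ‖t‖ ⟨norm_pos_iff.2 ht0, by linarith⟩ δ hδ)
  simp only [ln_zero] at h
  exact h

/-- circle means of `PSH` functions -/
theorem psh_mean (x : M) (v : Fin n → ℂ) : ∃ r0 > (0:ℝ), ∀ r ∈ Ioo 0 r0, ∀ u : M → ℝ, PSH u →
    CircleIntegrable (fun t => u (ln x v t)) 0 r ∧
      u x ≤ circleAverage (fun t => u (ln x v t)) 0 r := by
  obtain ⟨ρ, hρ, hln⟩ := exists_ball_ln x v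
  refine ⟨ρ, hρ, fun r hr u hu => ?_⟩
  have hd : ∀ w : ℂ, ‖w‖ ≤ 1 → cp x + w • ((r : ℂ) • v) ∈ (ch x).target := by
    intro w hw
    rw [smul_smul]
    apply hln
    rw [mem_ball_zero_iff, norm_mul, Complex.norm_real, Real.norm_eq_abs, abs_of_pos hr.1]
    nlinarith [hr.1, hr.2]
  have hfun : ∀ w : ℂ, u (ln x v (w * r)) = (u ∘ (ch x).symm) (cp x + w • ((r : ℂ) • v)) := by
    intro w
    unfold ln
    rw [smul_smul]
    rfl
  constructor
  · obtain ⟨K, hK⟩ := hu.exists_bound (isCompact_disc_chart hd)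
    have h1 := hu.integrable_circ hd
    have h2 : UpperSemicontinuous (fun θ : ℝ => u ((ch x).symm (cp x + ang θ • ((r : ℂ) • v)))) :=
      hu.usc.comp (continuous_circ_chart hd)
    have h3 : (fun θ : ℝ => u (ln x v (circleMap 0 r θ))) =
        fun θ : ℝ => u ((ch x).symm (cp x + ang θ • ((r : ℂ) • v))) := by
      funext θ
      have h4 : circleMap 0 r θ = ang θ * r := by
        rw [circleMap, ang, zero_add, mul_comm]
      rw [h4, hfun]
      rfl
    show IntervalIntegrable (fun θ : ℝ => u (ln x v (circleMap 0 r θ))) volume 0 (2 * Real.pi)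
    rw [h3, intervalIntegrable_iff]
    refine Measure.integrableOn_of_bounded (M := K) ?_ h2.measurable.aestronglyMeasurable
      (Eventually.of_forall fun θ => ?_)
    · rw [uIoc_of_le (by positivity)]
      exact measure_Ioc_lt_top.ne
    · rw [Real.norm_eq_abs]
      exact hK _ (mem_disc_chart θ)
  · have h1 := hu.sm (ch x) (isCh_ch x) (cp x) ((r:ℂ) • v) hd
    have h2 : (u ∘ (ch x).symm) (cp x) = u x := by
      simp only [Function.comp_apply, symm_cp]
    rw [h2, zero_mul, add_zero] at h1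
    refine h1.trans (le_of_eq ?_)
    rw [Real.circleAverage_eq_circleAverage_zero_one (f := fun t => u (ln x v t)) (c := 0) (R := r)]
    congr 1
    funext w
    rw [← hfun w, add_zero, mul_comm w]

theorem smean_of_psh {u : M → ℝ} (hu : PSH u) : SMean u := by
  intro x v
  obtain ⟨r0, hr0, h⟩ := psh_mean x v
  filter_upwards [Ioo_mem_nhdsGT hr0] with r hr using h r hr u hu

theorem lpsh_usc {b : M → ℝ} (hb : LPsh b) : UpperSemicontinuous b := by
  intro x c hc
  have h0 := hb.nonneg x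
  have hcp : 0 < c := h0.trans_lt hc
  set δ := (c - b x) / 2 with hδ
  have hδp : 0 < δ := by rw [hδ]; linarith
  have h1 := (hb.psh δ hδp).usc x (Real.log (c + δ))
    (Real.log_lt_log (by linarith) (by linarith))
  filter_upwards [h1] with y hy
  have h2 := hb.nonneg y
  have := (Real.log_lt_log_iff (by linarith) (by linarith)).1 hy
  linarith

theorem maxPr_of_lpsh {b : M → ℝ} (hb : LPsh b) : MaxPr b := by
  refine maxPr_of_circ hb.nonneg (lpsh_usc hb) fun x v => ?_
  obtain ⟨r0, hr0, h⟩ := psh_mean x v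
  exact ⟨r0, hr0, fun r hr δ hδ => (h r hr _ (hb.psh δ hδ)).2⟩

/-- **Liouville** for `PSH` -/
theorem psh_const {h : MvPolynomial (Fin n) ℂ} (P : Prp h M) {u : M → ℝ} (hu : PSH u)
    {Z : Set M} (hZ : IsClopen Z) (hZc : IsPreconnected Z) {C : ℝ} (hC : ∀ x ∈ Z, u x ≤ C)
    {x x' : M} (hx : x ∈ Z) (hx' : x' ∈ Z) : u x = u x' :=
  liouville P hu.usc (smean_of_psh hu) hZ hZc hC hx hx'

/-- **Liouville** for `LPsh` -/
theorem lpsh_const {h : MvPolynomial (Fin n) ℂ} (P : Prp h M) {b : M → ℝ} (hb : LPsh b)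
    {Z : Set M} (hZ : IsClopen Z) (hZc : IsPreconnected Z) {C : ℝ} (hC : ∀ x ∈ Z, b x ≤ C)
    {x x' : M} (hx : x ∈ Z) (hx' : x' ∈ Z) : b x = b x' :=
  const_on P hb.nonneg (lpsh_usc hb) (maxPr_of_lpsh hb) (A := 0) (B := 0) hZ hZc
    (fun k _ => ⟨C ^ k, fun y hy => by
      simp only [pow_zero, mul_one]
      exact pow_le_pow_left₀ (hb.nonneg y) (hC y hy) k⟩) hx hx'

/-- **Liouville** for `LPsh`, `log b = o(log)` -/
theorem lpsh_const_of_growth {h : MvPolynomial (Fin n) ℂ} (P : Prp h M) {b : M → ℝ} (hb : LPsh b)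
    {A B : ℕ} {Z : Set M} (hZ : IsClopen Z) (hZc : IsPreconnected Z)
    (hG : ∀ k : ℕ, 0 < k → ∃ C : ℝ, ∀ x ∈ Z,
      b x ^ k * ‖MvPolynomial.eval (cp x) h‖ ^ B ≤ C * (1 + ‖cp x‖) ^ A)
    {x x' : M} (hx : x ∈ Z) (hx' : x' ∈ Z) : b x = b x' :=
  const_on P hb.nonneg (lpsh_usc hb) (maxPr_of_lpsh hb) hZ hZc hG hx hx'

/-- **Liouville** for `LPsh`, line by line -/
theorem lpsh_const_of_lines {h : MvPolynomial (Fin n) ℂ} (P : Prp h M) [PreconnectedSpace M]
    {b : M → ℝ} (hb : LPsh b) {A B : ℕ}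
    (hG : ∀ z0 v : Fin n → ℂ, MvPolynomial.eval z0 h ≠ 0 → ∀ k : ℕ, 0 < k → ∃ C : ℝ,
      ∀ (y : M) (t : ℂ), cp y = z0 + t • v →
      b y ^ k * ‖MvPolynomial.eval (cp y) h‖ ^ B ≤ C * (1 + ‖t‖) ^ A) (x x' : M) : b x = b x' :=
  const_of_lines P hb.nonneg (lpsh_usc hb) (maxPr_of_lpsh hb) hG x x'

/-- two `PSH` functions whose sum is bounded above: the sum is constant and both satisfy mean value
equalities -/
theorem psh_add_const {h : MvPolynomial (Fin n) ℂ} (P : Prp h M) [PreconnectedSpace M]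
    {u w : M → ℝ} (hu : PSH u) (hw : PSH w) {C : ℝ} (hC : ∀ x, u x + w x ≤ C) :
    (∀ x y, u x + w x = u y + w y) ∧
    ∀ (x : M) (v : Fin n → ℂ), ∀ᶠ r in 𝓝[>] (0 : ℝ),
      u x = circleAverage (fun t => u (ln x v t)) 0 r ∧
      w x = circleAverage (fun t => w (ln x v t)) 0 r := by
  have h0 : ∀ x y, u x + w x = u y + w y := fun x y =>
    psh_const P (hu.add hw) isClopen_univ isPreconnected_univ (fun x _ => hC x) (mem_univ x)
      (mem_univ y)
  refine ⟨h0, fun x v => ?_⟩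
  filter_upwards [smean_of_psh hu x v, smean_of_psh hw x v] with r h1 h2
  have h3 : circleAverage (fun t => u (ln x v t)) 0 r + circleAverage (fun t => w (ln x v t)) 0 r =
      u x + w x := by
    rw [← Real.circleAverage_fun_add h1.1 h2.1]
    have : (fun t => u (ln x v t) + w (ln x v t)) = fun _ => u x + w x := by
      funext t; exact h0 _ _
    rw [this, Real.circleAverage_const]
  constructor <;> linarith [h1.2, h2.2]

/-- the Liouville hypothesis `hL` of `Avg_999.avg_eq` and `Nc_999.norm_const` -/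
theorem hL {h : MvPolynomial (Fin n) ℂ} (P : Prp h M) [PreconnectedSpace M] {E : Type*}
    {D : Set ((ℂ → M) × (ℂ → E))}
    (hD : ∀ (x : M) (v : Fin n → ℂ), ∀ᶠ r : ℝ in 𝓝[>] 0, ∃ T : ℂ → E,
      ((fun t : ℂ => ln x v ((r : ℂ) * t)), T) ∈ D) :
    ∀ A : M → ℝ, Continuous A → (∃ C, ∀ x, A x ≤ C) →
      (∀ p ∈ D, A (p.1 0) ≤ circleAverage (fun t => A (p.1 t)) 0 1) → ∀ x y, A x = A y := by
  rintro A hA ⟨C, hC⟩ hmean x y
  refine liouville P hA.upperSemicontinuous (SMean.of_continuous hA fun x v => ?_) isClopen_univ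
    isPreconnected_univ (fun x _ => hC x) (mem_univ x) (mem_univ y)
  filter_upwards [hD x v] with r hr
  obtain ⟨T, hT⟩ := hr
  have h1 := hmean _ hT
  simp only [mul_zero, ln_zero] at h1
  refine h1.trans (le_of_eq ?_)
  rw [Real.circleAverage_eq_circleAverage_zero_one (f := fun t => A (ln x v t)) (c := 0) (R := r)]
  congr 1
  funext w
  rw [add_zero]

end Crest.Agent.R276.Liou3_739
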