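import Mathlib
import Crest.Agent.R276.Liou3_739
import Crest.Agent.R276.Mod3_987

/-!
# R276, leaf GLOBF (helper739): the Liouville data `Prp` of a model

`prp M : Prp M.h M.Pts` for every `M : Mdl K n` (987), hence `Liou3_739.hL`, `psh_const`, `lpsh_const`, …
on every model.
-/

set_option autoImplicit false

noncomputable section

open Set Filter Topology Metric
open Real (circleAverage)

namespace Crest.Agent.R276.PrpM_739

open Crest.Agent.R271.Defs710 Crest.Agent.R271.Rd692
open Crest.Agent.R271.AlgB956 Crest.Agent.R271.Ho51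
open Crest.Agent.R276.Mod1_987 Crest.Agent.R276.Liou_739

variable {K : Type} [Field K] [Algebra ℂ K] {n : ℕ} (M : Mdl K n)

/-- a model satisfies the hypothesis of the Liouville theorems -/
theorem prp : Prp M.h M.Pts where
  ne := fun x => M.eval_h_ne x
  cpt := by
    intro R δ hδ
    have hcont : Continuous fun ζ : Cn n => MvPolynomial.eval ζ M.h := MvPolynomial.continuous_eval M.h
    have hS : IsCompact {ζ : Cn n | ‖ζ‖ ≤ R ∧ δ ≤ ‖MvPolynomial.eval ζ M.h‖} := by
      have h1 : {ζ : Cn n | ‖ζ‖ ≤ R ∧ δ ≤ ‖MvPolynomial.eval ζ M.h‖} =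
          closedBall (0 : Cn n) R ∩ {ζ | δ ≤ ‖MvPolynomial.eval ζ M.h‖} := by
        ext ζ
        simp
      rw [h1]
      exact (isCompact_closedBall _ _).inter_right (isClosed_le continuous_const hcont.norm)
    exact M.isCompact_preimage hS fun ζ hζ h0 => by
      have := hζ.2
      rw [h0, norm_zero] at this
      linarith

/-- the Liouville hypothesis of `Nc_999.norm_const` on a model -/
theorem hL {E : Type*} {D : Set ((ℂ → M.Pts) × (ℂ → E))}
    (hD : ∀ (x : M.Pts) (v : Cn n), ∀ᶠ r : ℝ in 𝓝[>] 0, ∃ T : ℂ → E,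
      ((fun t : ℂ => ln x v ((r : ℂ) * t)), T) ∈ D) :
    ∀ A : M.Pts → ℝ, Continuous A → (∃ C, ∀ x, A x ≤ C) →
      (∀ p ∈ D, A (p.1 0) ≤ circleAverage (fun t => A (p.1 t)) 0 1) → ∀ x y, A x = A y :=
  Liou3_739.hL (prp M) hD

end Crest.Agent.R276.PrpM_739
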