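import Mathlib
import Crest.Agent.R276.GlobR_739
import Crest.Agent.R276.FinSat_348
import Crest.Agent.R276.FlatA_464
import Crest.Agent.R276.PrpM_739

/-!
# R276, leaf GLOBF (helper739): flat families, from line transports to `FlatA_464.Hyp`

For `R : RMdl L K m r`, `F : FlatFam R N u f M` (236):

* `fd F : GlobR_739.FD (Φ in ℝ) f (2/N) M N`;
* `fin_at` : `FinAt` at every point, from `LineT` and (FRI) at a generic point (348, 39);
* `lt` : (LT) of FLATALG: near every `z1` a holomorphic `T` with `T z ∈ Is Φ z1 z`, moreover `T z1 = 1` and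
  `det (T z) ^ M * f z ^ N = f z1 ^ N`;
* `hyp` : `FlatA_464.Hyp (nu R) (sg u) N D f M`;
* `dat` : `FlatT_464.Dat (Φ) (fun z => (f z0 / f z) ^ N) M z0` for every `z0`.

So LEMMA N only has to produce `GlobR_739.LineT (Phi N u)`.
-/

set_option autoImplicit false
set_option linter.unusedSectionVars false

noncomputable section

open Set Filter Topology MeasureTheory Matrix
open scoped ENNReal

namespace Crest.Agent.R276.GlobF_739

open Crest.Agent.R271 Crest.Agent.R271.Ho51 Crest.Agent.R271.Rd692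
open Crest.Agent.R276.Mod1_987 Crest.Agent.R276.FlatM_464 Crest.Agent.R276.FlatDefs_236
open Crest.Agent.R276.GlobR_739
open Crest.Agent.R276.FlatT_464 (Is Nm Loc Dat)
open Crest.Agent.R276.Ipc735 (HolAt OneStep)
open Crest.Agent.R276.Iter_840

variable {L K : Type} [Field L] [Field K] [Algebra ℂ L] [Algebra ℂ K] [Algebra L K]
  [IsScalarTower ℂ L K] {m r : ℕ} {R : RMdl L K m r} {N s : ℕ} {u : Fin s → R.MK.B}
  {f : R.ML.Pts → ℂ} {M : ℕ}

instance sigmaFinite_nu (w : R.ML.Pts) : SigmaFinite (nu R w) := by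
  have := Crest.Agent.R271.Ho51.IsLeb.locallyFinite (nu_leb R w)
  infer_instance

theorem measurable_sg (u : Fin s → R.MK.B) (w : R.ML.Pts) : Measurable (sg u w) := by
  refine measurable_pi_lambda _ fun i => ?_
  have h1 : Continuous fun y : R.Fib w => (RMdl.Fib.val R y : R.MK.Pts) (u i) :=
    (continuous_ev (u i)).comp (RMdl.Fib.continuous_val w)
  exact h1.measurable

theorem rp_pos {N : ℕ} (hN : 4 ≤ N) : (0 : ℝ) < 2 / N := by
  have : (0 : ℝ) < N := by exact_mod_cast (by omega : 0 < N)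
  positivity

theorem rp_lt {N : ℕ} (hN : 4 ≤ N) : (2 / N : ℝ) < 2 := by
  have h1 : (4 : ℝ) ≤ N := by exact_mod_cast hN
  rw [div_lt_iff₀ (by linarith)]
  linarith

/-- `Φ` as a real number -/
def PhiR (N : ℕ) (u : Fin s → R.MK.B) (w : R.ML.Pts) (a : Fin s → ℂ) : ℝ := (Phi N u w a).toReal

/-- isometries do not see the difference -/
theorem is_iff (S : SatFam R N u) {w w' : R.ML.Pts} {A : Matrix (Fin s) (Fin s) ℂ} :
    A ∈ Is (PhiR N u) w w' ↔ A ∈ Is (Phi N u) w w' := by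
  constructor
  · intro h a
    exact (ENNReal.toReal_eq_toReal_iff' (S.fin w' _) (S.fin w a)).1 (h a)
  · intro h a
    unfold PhiR
    rw [h a]

theorem lineT_iff (S : SatFam R N u) : LineT (PhiR N u) ↔ LineT (Phi N u) := by
  constructor
  · intro h e he z v hv
    obtain ⟨T, h1, h2, h3⟩ := h e he z v hv
    exact ⟨T, h1, h2, fun t ht a =>
      (ENNReal.toReal_eq_toReal_iff' (S.fin _ _) (S.fin _ _)).1 (h3 t ht a)⟩
  · intro h e he z v hv
    obtain ⟨T, h1, h2, h3⟩ := h e he z v hv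
    refine ⟨T, h1, h2, fun t ht a => ?_⟩
    unfold PhiR
    rw [h3 t ht a]

theorem finAt_iff (S : SatFam R N u) {k : ℕ} {w : R.ML.Pts} :
    FinAt (PhiR N u) k w ↔ FinAt (Phi N u) k w := by
  unfold FinAt
  simp only [is_iff S]

/-- homogeneity -/
theorem Phi_smul (w : R.ML.Pts) (c : ℂ) (a : Fin s → ℂ) :
    Phi N u w (c • a) = ENNReal.ofReal (‖c‖ ^ (2 / (N : ℝ))) * Phi N u w a := by
  unfold Phi PHI
  rw [← lintegral_const_mul' _ _ ENNReal.ofReal_ne_top]
  refine lintegral_congr fun x => ?_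
  have : ∑ i, (c • a) i * sg u w x i = c * ∑ i, a i * sg u w x i := by
    rw [Finset.mul_sum]
    exact Finset.sum_congr rfl fun i _ => by rw [Pi.smul_apply, smul_eq_mul, mul_assoc]
  rw [this, norm_mul, Real.mul_rpow (norm_nonneg _) (norm_nonneg _),
    ENNReal.ofReal_mul (by positivity)]

/-- positivity -/
theorem Phi_ne_zero (S : SatFam R N u) (w : R.ML.Pts) {a : Fin s → ℂ} (h : Phi N u w a = 0) :
    a = 0 := by
  have := S.conn w
  rw [FinSat_348.Phi_eq] at h
  exact FinFib_348.Phi_pos (fun c hc => S.indep w c fun y => hc y)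
    (by have := S.N_ge; omega) h

/-- the determinant of an isometry -/
theorem det_is (F : FlatFam R N u f M) {z z' : R.ML.Pts} {A : Matrix (Fin s) (Fin s) ℂ}
    (hA : A ∈ Is (Phi N u) z z') : ‖A.det‖ ^ M * ‖f z'‖ ^ N = ‖f z‖ ^ N := by
  have hN := F.N_ge
  have hN0 : (0 : ℝ) < N := by exact_mod_cast (by omega : 0 < N)
  have h1 := DD_mul (rp_pos hN) (rp_lt hN) (measurable_sg u) (F.fin z) hA
  have h2 : (‖A.det‖ ^ (2 / N : ℝ)) * (DN N u z').toReal = (DN N u z).toReal := by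
    have := congrArg ENNReal.toReal h1
    rwa [ENNReal.toReal_mul, ENNReal.toReal_ofReal (by positivity)] at this
  have hA0 : 0 ≤ ‖A.det‖ := norm_nonneg _
  have h3 : (‖A.det‖ ^ (2 / N : ℝ)) ^ M * ‖f z'‖ ^ 2 = ‖f z‖ ^ 2 := by
    rw [F.eq, F.eq, ← mul_pow, h2]
  have h4 : ((‖A.det‖ ^ (2 / N : ℝ)) ^ M) ^ N = (‖A.det‖ ^ M) ^ 2 := by
    rw [← Real.rpow_natCast, ← Real.rpow_natCast, ← Real.rpow_natCast, ← Real.rpow_natCast,
      ← Real.rpow_mul hA0, ← Real.rpow_mul hA0, ← Real.rpow_mul hA0]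
    congr 1
    push_cast
    field_simp
  have h5 : (‖A.det‖ ^ M) ^ 2 * (‖f z'‖ ^ N) ^ 2 = (‖f z‖ ^ N) ^ 2 := by
    have := congrArg (fun t => t ^ N) h3
    simp only [mul_pow] at this
    rw [h4] at this
    rw [pow_right_comm ‖f z'‖ N 2, pow_right_comm ‖f z‖ N 2]
    exact this
  rw [← mul_pow] at h5
  exact (pow_left_inj₀ (by positivity) (by positivity) two_ne_zero).1 h5

/-- the data of GLOB-R -/
theorem fd (F : FlatFam R N u f M) : FD (PhiR N u) f (2 / (N : ℝ)) M N where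
  cont := by
    rw [continuous_iff_continuousAt]
    intro q
    exact (ENNReal.tendsto_toReal (F.fin q.1 q.2)).comp F.cont.continuousAt
  pos := by
    intro z v hv
    refine ENNReal.toReal_pos (fun h => hv (Phi_ne_zero F.toSatFam z h)) (F.fin z v)
  hom := by
    intro z c v
    unfold PhiR
    rw [Phi_smul, ENNReal.toReal_mul, ENNReal.toReal_ofReal (by positivity)]
  p0 := rp_pos F.N_ge
  hol := F.hol
  f0 := F.ne
  k0 := F.M_pos
  s0 := F.s_pos
  det := by
    intro z z' A hA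
    exact det_is F ((is_iff F.toSatFam).1 hA)

/-- a point of the model off a hypersurface -/
theorem exists_pt {P : MvPolynomial (Fin m) ℂ} (hP : P ≠ 0) :
    ∃ w : R.ML.Pts, MvPolynomial.eval (R.ML.pz w) P ≠ 0 := by
  have h1 : P * R.ML.h ≠ 0 := mul_ne_zero hP R.ML.h_ne
  obtain ⟨ζ, hζ⟩ : ∃ ζ : Fin m → ℂ, MvPolynomial.eval ζ (P * R.ML.h) ≠ 0 := by
    by_contra hcon
    push Not at hcon
    exact h1 (MvPolynomial.funext fun x => by rw [hcon, map_zero])
  rw [map_mul] at hζ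
  obtain ⟨w, hw⟩ := R.ML.surj (right_ne_zero_of_mul hζ)
  exact ⟨w, by rw [hw]; exact left_ne_zero_of_mul hζ⟩

/-- **FIN at every point** -/
theorem fin_at (hO : OneStep) (hR : StepRz) (hRA : StepRzAct) (S : SatFam R N u)
    (hL : LineT (Phi N u)) {k : ℕ} (hk : 0 < k) (z : R.ML.Pts) : FinAt (Phi N u) k z := by
  obtain ⟨P, hP0, hP⟩ := FinSat_348.fin_sat hO hR hRA S
  obtain ⟨w, hw⟩ := exists_pt (R := R) hP0
  have hn : Nm (Phi N u) :=
    { pos := fun z a h => Phi_ne_zero S z (h.trans (PHI_zero (rp_pos S.N_ge) z))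
      circ := fun z c a hc => PHI_circ z c a hc }
  exact fin_all (G := R.ML.Pts) hn hL (hP w hw k hk) z

/-- **(LT)** from line transports and FIN at one point -/
theorem lt_of_fin (F : FlatFam R N u f M) (hL : LineT (Phi N u)) {w0 : R.ML.Pts}
    (hf : FinAt (Phi N u) M w0) (z1 : R.ML.Pts) :
    ∃ T : R.ML.Pts → Matrix (Fin s) (Fin s) ℂ, (∀ i j, HolAt (fun z => T z i j) z1) ∧ T z1 = 1 ∧
      ∀ᶠ z in 𝓝 z1, T z ∈ Is (Phi N u) z1 z ∧ (T z).det ^ M * f z ^ N = f z1 ^ N := by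
  have hL' := (lineT_iff F.toSatFam).2 hL
  have hf' := (finAt_iff F.toSatFam).2 hf
  obtain ⟨T, h1, h2, h3⟩ := glob_at (fd F) hL' (fin_all (G := R.ML.Pts) (fd F).nm hL' hf' z1)
  exact ⟨T, h1, h2, h3.mono fun z hz => ⟨(is_iff F.toSatFam).1 hz.1, hz.2⟩⟩

/-- **(LT)** from line transports -/
theorem lt (hO : OneStep) (hR : StepRz) (hRA : StepRzAct) (F : FlatFam R N u f M)
    (hL : LineT (Phi N u)) (z1 : R.ML.Pts) :
    ∃ T : R.ML.Pts → Matrix (Fin s) (Fin s) ℂ, (∀ i j, HolAt (fun z => T z i j) z1) ∧ T z1 = 1 ∧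
      ∀ᶠ z in 𝓝 z1, T z ∈ Is (Phi N u) z1 z ∧ (T z).det ^ M * f z ^ N = f z1 ^ N :=
  lt_of_fin F hL (fin_at hO hR hRA F.toSatFam hL F.M_pos z1) z1

/-- **the hypotheses of FLATALG** -/
theorem hyp (hO : OneStep) (hR : StepRz) (hRA : StepRzAct) (F : FlatFam R N u f M)
    (hL : LineT (Phi N u)) :
    FlatA_464.Hyp (nu R) (sg u) N (fun w => (DN N u w).toReal) f M where
  meas := measurable_sg u
  fin := F.fin
  D_pos := fun z => ENNReal.toReal_pos (F.D_pos z).ne' (F.D_fin z)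
  D_eq := fun z => (ENNReal.ofReal_toReal (F.D_fin z)).symm
  M_pos := F.M_pos
  f_hol := holAt_of_hol F.hol
  f_ne := F.ne
  fl := F.eq
  lt := by
    intro z1
    obtain ⟨T, h1, -, h3⟩ := lt hO hR hRA F hL z1
    exact ⟨T, h1, h3.mono fun z hz => hz.1⟩

/-- **the data of FLATALG, torsor form** -/
theorem dat (hO : OneStep) (hR : StepRz) (hRA : StepRzAct) (F : FlatFam R N u f M)
    (hL : LineT (Phi N u)) (z0 : R.ML.Pts) :
    Dat (PhiR N u) (fun z => (f z0 / f z) ^ N) M z0 :=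
  GlobR_739.dat (fd F) ((lineT_iff F.toSatFam).2 hL)
    ((finAt_iff F.toSatFam).2 (fin_at hO hR hRA F.toSatFam hL F.M_pos z0)) z0

end Crest.Agent.R276.GlobF_739
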