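import Mathlib
import Crest.Agent.R276.FibT_793
import Crest.Agent.R276.RestrE_236
import Crest.Agent.R276.FlatC_464
import Crest.Agent.R276.GlobF_739

/-!
# Row 276 (S0419), FLATTOP (helper793): assembly of `SkelDefs_220.Flat`

Inputs (as statements): `LemN` = LEMMA N (999, 333, 159, 739), `MonoAll` = `Mono` (574, 617).

* `dat_of` : 464's `Dat` for every flat family;
* `ff_RY` : `FlatFam` (236, 617) over every period fibre;
* `dat_RY`, `dat_fib` : 464's `Dat` over every period fibre;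
* `flat_top` : `SkelDefs_220.Flat`.
-/

set_option autoImplicit false
set_option linter.unusedSectionVars false

open Topology Filter MeasureTheory Matrix
open scoped ENNReal

noncomputable section

namespace Crest.Agent.R276.FlatTop_793

open Crest.Agent.R271 Crest.Agent.R271.Ho51
open Crest.Agent.R271.Rd692 hiding evs
open Crest.Agent.R271.Defs710 hiding glue
open Crest.Agent.R276.Mod1_987 Crest.Agent.R276.FibN_793 Crest.Agent.R276.FibT_793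
open Crest.Agent.R276.FlatDefs_236 Crest.Agent.R276.FlatM_464 Crest.Agent.R276.Restr_236
open Crest.Agent.R276.Ipc735 Crest.Agent.R276.Iter_840 Crest.Agent.R276.VPull_327
open Crest.Agent.R276.SkelDefs_220 Crest.Agent.R276.CInd_870 Crest.Agent.R276.Tr_617

/-! ### inputs -/

/-- LEMMA N: line transports on the base of every flat family -/
def LemN : Prop :=
  ∀ {L K : Type} [Field L] [Field K] [Algebra ℂ L] [Algebra ℂ K] [Algebra L K]
    [IsScalarTower ℂ L K] {m r : ℕ} (R : RMdl L K m r) (N s : ℕ) (u : Fin s → R.MK.B)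
    (f : R.ML.Pts → ℂ) (M : ℕ), FlatFam R N u f M → GlobR_739.LineT (Phi N u)

/-- `Mono` for every variation on a model -/
def MonoAll : Prop :=
  ∀ {F : Type} [Field F] [Algebra ℂ F] {n : ℕ} (M : Mdl F n) {N w : ℕ} (V : VHS n M.Pts N w)
    (x : M.Pts), Hull_574.Mono w (V.S x) (V.E x) (mon V.P x)

/-! ### one relative model -/

section one

variable {L K : Type} [Field L] [Field K] [Algebra ℂ L] [Algebra ℂ K] [Algebra L K]
  [IsScalarTower ℂ L K] {m r : ℕ} {R : RMdl L K m r} {N s : ℕ} {u : Fin s → R.MK.B}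

/-- `Dat` in `ℝ` and in `[0,∞]` -/
theorem dat_phi (S : SatFam R N u) {DC : R.ML.Pts → ℂ} {M : ℕ} {z0 : R.ML.Pts}
    (h : FlatT_464.Dat (GlobF_739.PhiR N u) DC M z0) : FlatT_464.Dat (Phi N u) DC M z0 where
  pos z a ha := h.pos z a (by unfold GlobF_739.PhiR; rw [ha])
  circ z c a hc := PHI_circ z c a hc
  tr z1 := by
    obtain ⟨T, h1, h2⟩ := h.tr z1
    exact ⟨T, h1, h2.mono fun z hz => (GlobF_739.is_iff S).1 hz⟩
  s_pos := h.s_pos
  m_pos := h.m_pos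
  D_one := h.D_one
  D_ne := h.D_ne
  D_hol := h.D_hol
  det z A hA := h.det z A ((GlobF_739.is_iff S).2 hA)
  fin := by
    refine h.fin.subset ?_
    rintro A ⟨h1, h2⟩
    exact ⟨(GlobF_739.is_iff S).2 h1, h2⟩

/-- **the data of FLATALG for a flat family** -/
theorem dat_of (hN : LemN) (hO : OneStep) (hR : StepRz) (hRA : StepRzAct)
    {f : R.ML.Pts → ℂ} {M : ℕ} (F : FlatFam R N u f M) (z0 : R.ML.Pts) :
    FlatT_464.Dat (Phi N u) (fun z => (f z0 / f z) ^ N) M z0 :=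
  dat_phi F.toSatFam (GlobF_739.dat hO hR hRA F (hN R N s u f M F) z0)

end one

/-! ### towers -/

section tower

variable {T L K : Type} [Field T] [Field L] [Field K] [Algebra ℂ T] [Algebra ℂ L] [Algebra ℂ K]
  [Algebra T L] [Algebra L K] [IsScalarTower ℂ T L] [IsScalarTower ℂ L K] {ρ a r : ℕ}
  {MT : Mdl T ρ} {ML : Mdl L (ρ + a)} {MK : Mdl K (ρ + a + r)}
  {H₁ : Rel MT ML} {H₂ : Rel ML MK} (h₁ : H₁.Conn) (h₂ : H₂.Conn)
  {N s : ℕ} {u : Fin s → MK.B} {N₀ w₀ : ℕ}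
  {V : VHS (ρ + a) ML.Pts N₀ w₀} {om : ML.Pts → Fin N₀ → ℂ}

/-- **flat families over the period fibres** -/
theorem ff_RY (hMo : MonoAll) (HS : SatFam (rm H₂) N u) (HC : CYL (rm H₂) N u V om)
    (hθ : ∀ (z : ML.Pts) (k : Fin a), dM V.P V.E (Fin.natAdd ρ k) z *ᵥ om z = 0) (y₀ : MT.Pts) :
    ∃ (M : ℕ) (f : (RY H₁ H₂ h₁ h₂ y₀).ML.Pts → ℂ),
      FlatFam (RY H₁ H₂ h₁ h₂ y₀) N (uY H₁ H₂ h₁ h₂ y₀ u) f M := by
  have x₀ : (SY H₁ h₁ y₀).mdl.Pts := Classical.arbitrary _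
  have h3 : ∀ z ∈ (SY H₁ h₁ y₀).G, ∀ k : Fin a,
      dM V.P V.E (finSumFinEquiv (Sum.inr k)) z *ᵥ om z = 0 := fun z _ k => by
    rw [finSumFinEquiv_apply_right]
    exact hθ z k
  have h4 := hMo (SY H₁ h₁ y₀).mdl (pull V (SY H₁ h₁ y₀).hmap_ι) x₀
  have h5 := flatFam_up (R := rm H₂) (SY H₁ h₁ y₀) (surj_rm H₂)
    (fun w => (conn_rm h₂ w).isPreconnected) HC HS h3 x₀ h4
  exact h5

/-- **the data of FLATALG over the period fibres** -/
theorem dat_RY (hMo : MonoAll) (hN : LemN) (hO : OneStep) (hR : StepRz)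
    (hRA : StepRzAct) (HS : SatFam (rm H₂) N u) (HC : CYL (rm H₂) N u V om)
    (hθ : ∀ (z : ML.Pts) (k : Fin a), dM V.P V.E (Fin.natAdd ρ k) z *ᵥ om z = 0) (y₀ : MT.Pts) :
    ∃ (M : ℕ) (f : (RY H₁ H₂ h₁ h₂ y₀).ML.Pts → ℂ),
      FlatFam (RY H₁ H₂ h₁ h₂ y₀) N (uY H₁ H₂ h₁ h₂ y₀ u) f M ∧
      ∀ z0, FlatT_464.Dat (Phi N (uY H₁ H₂ h₁ h₂ y₀ u)) (fun z => (f z0 / f z) ^ N) M z0 := by
  obtain ⟨M, f, F⟩ := ff_RY h₁ h₂ hMo HS HC hθ y₀
  exact ⟨M, f, F, dat_of hN hO hR hRA F⟩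

include h₁ h₂ in
/-- **the data of FLATALG on `(rm H₁).Fib y₀`**, for every `y₀` and every base point -/
theorem dat_fib (hMo : MonoAll) (hN : LemN) (hO : OneStep) (hR : StepRz)
    (hRA : StepRzAct) (HS : SatFam (rm H₂) N u) (HC : CYL (rm H₂) N u V om)
    (hθ : ∀ (z : ML.Pts) (k : Fin a), dM V.P V.E (Fin.natAdd ρ k) z *ᵥ om z = 0) (y₀ : MT.Pts)
    (z0 : (rm H₁).Fib y₀) : ∃ (DC : (rm H₁).Fib y₀ → ℂ) (M : ℕ),
      FlatT_464.Dat (fun z : (rm H₁).Fib y₀ => Phi (R := rm H₂) N u z.val) DC M z0 := by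
  obtain ⟨M, f, -, hD⟩ := dat_RY h₁ h₂ hMo hN hO hR hRA HS HC hθ y₀
  have h3 := FlatC_464.Dat.transport (eY H₁ H₂ h₁ h₂ y₀) (cp_eY H₁ H₂ h₁ h₂ y₀)
    (Φ := fun z : (rm H₁).Fib y₀ => Phi (R := rm H₂) N u z.val)
    (fun z => funext fun b => Phi_eY H₁ H₂ h₁ h₂ y₀ N u z b)
    (hD ((eY H₁ H₂ h₁ h₂ y₀).symm z0))
  rw [(eY H₁ H₂ h₁ h₂ y₀).apply_symm_apply] at h3
  exact ⟨_, _, h3⟩

include h₁ h₂ in
/-- **FLATTOP**: `SkelDefs_220.Flat` -/
theorem flat_top (hMo : MonoAll) (hN : LemN) (hO : OneStep) (hR : StepRz)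
    (hRA : StepRzAct) (HS : SatFam (rm H₂) N u) (HC : CYL (rm H₂) N u V om)
    (hθ : ∀ (z : ML.Pts) (k : Fin a), dM V.P V.E (Fin.natAdd ρ k) z *ᵥ om z = 0)
    {d : ℕ} {D : ML.Pts → ℝ} {ε : ℝ} (hε : 0 ≤ ε) (hCY : IsCY H₂ N u D)
    (hkap : ∃ (i0 : Fin s) (ι : Fin d → Fin s),
      AlgebraicIndependent L (fun j => (u (ι j) : K) / (u i0 : K)))
    (hSKO : ∃ p : MvPolynomial (Fin (ρ + a)) ℂ, p ≠ 0 ∧ ∀ z : ML.Pts,
      MvPolynomial.eval (ML.pz z) p ≠ 0 → ∀ (k : ℕ) (P : MvPolynomial (Fin s) ℂ), 0 < k →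
      P.IsHomogeneous k → Ieps H₂ N k u ε z (evs u P) ≠ ∞) :
    Flat H₁ H₂ N d u D ε :=
  FlatC_464.flat_of_dat hε h₁ HS hCY hkap hSKO
    (Eventually.of_forall fun _ y₀ _ z0 => dat_fib h₁ h₂ hMo hN hO hR hRA HS HC hθ y₀ z0)

end tower

end Crest.Agent.R276.FlatTop_793
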