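import Mathlib
import Crest.Agent.R276.BR4_590
import Crest.Agent.R276.Lq_464

/-!
# Row 276, FOL (helper508), part A: mean value inequality on the leaves of a relative chart

`RCh.fol_gen` : `H` holomorphic on a leaf of a relative boundary chart, `‖H‖^κ ≤ g |Jrel|²` on a
ball of the leaf ⟹ `vol (ball) ‖H(x₀)‖^κ ≤ ∫_{fibre} g`.
`RCh.fol` : `κ = 2/q`, `H = G Jrel^q`.
`VChart.ord_nonneg` : bounded fibre integrals of `|τ|^{2/q}` near a vertical divisor imply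
`0 ≤ ord τ + q (c - e c_L - (e-1))`.
-/

set_option autoImplicit false

open scoped Topology BigOperators ENNReal
open Set Metric MeasureTheory

noncomputable section

namespace Crest.Agent.R276.BR_590

open Crest.Agent.R271.Defs710 Crest.Agent.R271.Bd741 Crest.Agent.R276.BC_986

namespace RCh

variable {m r : ℕ} {i₀ : Fin (m + r)} {BL BK : Type} [CommRing BL] [Algebra ℂ BL]
    [CommRing BK] [Algebra ℂ BK] {j : BL →ₐ[ℂ] BK} (X : RCh m r i₀ j)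

/-- **mean value inequality on a leaf**, general form. -/
theorem fol_gen (xt : Fin r → BK) (a : Cn m) {x₀ : Cn r} {δ κ : ℝ} (hκ : 0 < κ)
    (hball : closedBall x₀ δ ⊆ X.leaf a)
    (hJ : ∀ x ∈ X.leaf a, X.Jrel xt (cat a x) ≠ 0) {H : Cn r → ℂ}
    (hH : DifferentiableOn ℂ H (X.leaf a)) (g : (BK →ₐ[ℂ] ℂ) → ℝ≥0∞)
    (hg : ∀ x ∈ ball x₀ δ, ‖H x‖ₑ ^ κ ≤
      g (X.s (cat a x)) * ENNReal.ofReal (‖X.Jrel xt (cat a x)‖ ^ 2)) :
    volume (ball x₀ δ) * ‖H x₀‖ₑ ^ κ ≤ lintF j xt (X.sL a) g := by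
  calc volume (ball x₀ δ) * ‖H x₀‖ₑ ^ κ
      ≤ ∫⁻ x in ball x₀ δ, ‖H x‖ₑ ^ κ :=
        Lq_464.submean (X.isOpen_leaf a) hH hball hκ
    _ ≤ ∫⁻ x in ball x₀ δ,
          g (X.s (cat a x)) * ENNReal.ofReal (‖X.Jrel xt (cat a x)‖ ^ 2) :=
        setLIntegral_mono' measurableSet_ball hg
    _ ≤ ∫⁻ x in X.leaf a,
          g (X.s (cat a x)) * ENNReal.ofReal (‖X.Jrel xt (cat a x)‖ ^ 2) :=
        lintegral_mono_set (ball_subset_closedBall.trans hball)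
    _ ≤ _ := X.leaf_ge xt a hJ g

/-- the fibre Jacobian is analytic -/
theorem analyticAt_Jrel (xt : Fin r → BK) {ξ : Cn (m + r)} (hξ : ξ ∈ X.V) :
    AnalyticAt ℂ (X.Jrel xt) ξ := by
  unfold Jrel
  refine analyticAt_det fun k l => ?_
  have h2 : AnalyticAt ℂ (fderiv ℂ (fun ξ => X.s ξ (xt k))) ξ := (X.anal (xt k) ξ hξ).fderiv
  exact (ContinuousLinearMap.apply ℂ ℂ
    (Pi.single (Fin.natAdd m l) 1 : Cn (m + r))).analyticAt _ |>.comp h2

/-- **FOL**: `|G Jrel^q|^{2/q}` at a point of the leaf is bounded by the integral of `|G|^{2/q}`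
over the fibre. -/
theorem fol (xt : Fin r → BK) (a : Cn m) {x₀ : Cn r} {δ : ℝ} {q : ℕ} (hq : 0 < q)
    (hball : closedBall x₀ δ ⊆ X.leaf a)
    (hJ : ∀ x ∈ X.leaf a, X.Jrel xt (cat a x) ≠ 0) (G : (BK →ₐ[ℂ] ℂ) → ℂ)
    (hG : DifferentiableOn ℂ (fun x => G (X.s (cat a x))) (X.leaf a)) :
    volume (ball x₀ δ) *
        ‖G (X.s (cat a x₀)) * X.Jrel xt (cat a x₀) ^ q‖ₑ ^ (2 / (q : ℝ)) ≤
      lintF j xt (X.sL a) (fun y => ‖G y‖ₑ ^ (2 / (q : ℝ))) := by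
  have hq' : (q : ℝ) ≠ 0 := by exact_mod_cast hq.ne'
  refine X.fol_gen xt a (κ := 2 / (q : ℝ)) (by positivity) hball hJ
    (H := fun x => G (X.s (cat a x)) * X.Jrel xt (cat a x) ^ q) ?_ _ ?_
  · refine hG.mul (DifferentiableOn.pow ?_ q)
    intro x hx
    exact (AnalyticAt.comp (g := X.Jrel xt) (f := fun x => cat a x) (X.analyticAt_Jrel xt hx)
      (analyticAt_cat a x)).differentiableAt.differentiableWithinAt
  · intro x _
    rw [enorm_mul, ENNReal.mul_rpow_of_nonneg _ _ (by positivity)]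
    gcongr
    rw [enorm_pow, ← ENNReal.rpow_natCast, ← ENNReal.rpow_mul]
    have h2 : (q : ℝ) * (2 / (q : ℝ)) = ((2 : ℕ) : ℝ) := by
      field_simp
      norm_num
    rw [h2, ENNReal.rpow_natCast, ENNReal.ofReal_pow (norm_nonneg _), ofReal_norm]

/-- the leaf over `a`, when the divisor is pulled back from the base -/
theorem leaf_eq {iL : Fin m} (hi : i₀ = Fin.castAdd r iL) {a : Cn m} (ha : ‖a‖ < X.ρ)
    (ha0 : a iL ≠ 0) : X.leaf a = ball 0 X.ρ := by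
  ext x
  have h1 : x ∈ X.leaf a ↔ cat a x ∈ ball (0 : Cn (m + r)) X.ρ ∧ cat a x i₀ ≠ 0 := Iff.rfl
  have h2 : cat a x i₀ = a iL := by rw [congrArg (cat a x) hi, cat_castAdd]
  rw [h1, mem_ball_zero_iff, norm_cat_lt X.ρ_pos, h2, mem_ball_zero_iff]
  exact ⟨fun h => h.1.2, fun h => ⟨⟨ha, h⟩, ha0⟩⟩

end RCh

/-- a power `|t|^β` which stays bounded as `t → 0` has `β ≥ 0` -/
theorem exponent_nonneg {β C δ : ℝ} (hδ : 0 < δ) (hβ : ∀ t : ℝ, 0 < t → t < δ → t ^ β ≤ C) :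
    0 ≤ β := by
  by_contra h
  push Not at h
  have h1 : Filter.Tendsto (fun t : ℝ => t ^ β) (𝓝[>] 0) Filter.atTop :=
    tendsto_rpow_neg_nhdsGT_zero h
  have h2 : ∀ᶠ t : ℝ in 𝓝[>] 0, C + 1 ≤ t ^ β := h1.eventually_ge_atTop (C + 1)
  have h3 : ∀ᶠ t : ℝ in 𝓝[>] 0, t < δ := by
    filter_upwards [Ioo_mem_nhdsGT hδ] with t ht using ht.2
  have h4 : ∀ᶠ t : ℝ in 𝓝[>] 0, 0 < t := self_mem_nhdsWithin
  obtain ⟨t, ht2, ht3, ht4⟩ := (h2.and (h3.and h4)).exists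
  have := hβ t ht4 ht3
  linarith

/-- lower bound of a zero free continuous function on a smaller polydisc -/
lemma exists_lower_bound {n : ℕ} {G : Cn n → ℂ} {ρ : ℝ} (hρ : 0 < ρ)
    (hG : AnalyticOnNhd ℂ G (ball 0 ρ)) (hne : ∀ ξ ∈ ball (0 : Cn n) ρ, G ξ ≠ 0) :
    ∃ c : ℝ, 0 < c ∧ ∀ ξ ∈ closedBall (0 : Cn n) (ρ / 2), c ≤ ‖G ξ‖ := by
  have hsub : closedBall (0 : Cn n) (ρ / 2) ⊆ ball (0 : Cn n) ρ :=
    closedBall_subset_ball (by linarith)
  have hc : ContinuousOn (fun ζ => ‖G ζ‖) (closedBall (0 : Cn n) (ρ / 2)) := fun ζ hζ =>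
    (hG ζ (hsub hζ)).continuousAt.norm.continuousWithinAt
  obtain ⟨ζ₀, hζ₀, hmin⟩ := (isCompact_closedBall (0 : Cn n) (ρ / 2)).exists_isMinOn
    ⟨0, mem_closedBall_self (by linarith)⟩ hc
  exact ⟨‖G ζ₀‖, norm_pos_iff.2 (hne ζ₀ (hsub hζ₀)), fun ζ hζ => hmin hζ⟩

/-- **bounded fibre integrals near a vertical divisor bound the pole order.** -/
theorem RCh.ord_nonneg {m r : ℕ} {i₀ : Fin (m + r)} {BL BK : Type} [CommRing BL] [Algebra ℂ BL]
    [CommRing BK] [Algebra ℂ BK] {j : BL →ₐ[ℂ] BK} (X : RCh m r i₀ j) {iL : Fin m}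
    (hi : i₀ = Fin.castAdd r iL) (xt : Fin r → BK) {q : ℕ} (hq : 0 < q) (τ : BK)
    {a c' : ℤ} {G J : Cn (m + r) → ℂ}
    (hG : AnalyticOnNhd ℂ G (ball 0 X.ρ)) (hG0 : ∀ ξ ∈ ball (0 : Cn (m + r)) X.ρ, G ξ ≠ 0)
    (hGe : ∀ ξ ∈ X.V, X.s ξ τ = ξ i₀ ^ a * G ξ)
    (hJ : AnalyticOnNhd ℂ J (ball 0 X.ρ)) (hJ0 : ∀ ξ ∈ ball (0 : Cn (m + r)) X.ρ, J ξ ≠ 0)
    (hJe : ∀ ξ ∈ X.V, X.Jrel xt ξ = ξ i₀ ^ c' * J ξ)
    {C : ℝ≥0∞} (hC : C ≠ ∞) {ε : ℝ} (hε : 0 < ε)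
    (hp : ∀ b : Cn m, ‖b‖ < ε → b iL ≠ 0 →
      lintF j xt (X.sL b) (fun y => ‖y τ‖ₑ ^ (2 / (q : ℝ))) ≤ C) :
    0 ≤ a + q * c' := by
  have hρ := X.ρ_pos
  have hq' : (0 : ℝ) < (q : ℝ) := by exact_mod_cast hq
  obtain ⟨c₁, hc₁, hc₁'⟩ := exists_lower_bound hρ hG hG0
  obtain ⟨c₂, hc₂, hc₂'⟩ := exists_lower_bound hρ hJ hJ0
  have hvol0 : volume (ball (0 : Cn r) (X.ρ / 2)) ≠ 0 :=
    (measure_ball_pos volume (0 : Cn r) (by linarith)).ne'
  have hvolt : volume (ball (0 : Cn r) (X.ρ / 2)) ≠ ∞ := measure_ball_lt_top.ne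
  -- the exponent
  set β : ℝ := (a + q * c' : ℤ) * (2 / (q : ℝ)) with hβ
  set κ : ℝ := (c₁ * c₂ ^ q) ^ (2 / (q : ℝ)) with hκ
  have hκ0 : 0 < κ := by positivity
  have key : ∀ t : ℝ, 0 < t → t < min ε (X.ρ / 2) →
      t ^ β ≤ (C / (volume (ball (0 : Cn r) (X.ρ / 2)) * ENNReal.ofReal κ)).toReal := by
    intro t ht0 ht
    set b : Cn m := Pi.single iL (t : ℂ) with hb
    have hbn : ‖b‖ = t := by
      rw [hb, Pi.norm_single, Complex.norm_real, Real.norm_eq_abs, abs_of_pos ht0]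
    have hb0 : b iL ≠ 0 := by
      rw [hb, Pi.single_eq_same]; exact_mod_cast ht0.ne'
    have ht1 : t < X.ρ / 2 := ht.trans_le (min_le_right _ _)
    have hbρ : ‖b‖ < X.ρ := by rw [hbn]; linarith
    have hleaf := X.leaf_eq hi hbρ hb0
    set ξ : Cn (m + r) := cat b 0 with hξ
    have hξi : ξ i₀ = (t : ℂ) := by
      rw [hξ, congrArg (cat b 0) hi, cat_castAdd, hb, Pi.single_eq_same]
    have hξV : ξ ∈ X.V := by
      have : (0 : Cn r) ∈ X.leaf b := by rw [hleaf]; exact mem_ball_self hρ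
      exact this
    have hξc : ξ ∈ closedBall (0 : Cn (m + r)) (X.ρ / 2) := by
      rw [mem_closedBall_zero_iff]
      refine le_of_lt ((norm_cat_lt (by linarith)).2 ⟨by rw [hbn]; exact ht1, ?_⟩)
      rw [norm_zero]; linarith
    have hJne : ∀ x ∈ X.leaf b, X.Jrel xt (cat b x) ≠ 0 := by
      intro x hx
      have hx' : cat b x ∈ X.V := hx
      rw [hJe _ hx']
      exact mul_ne_zero (zpow_ne_zero _ hx'.2) (hJ0 _ hx'.1)
    have h1 := X.fol xt b (x₀ := 0) (δ := X.ρ / 2) hq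
      (by rw [hleaf]; exact closedBall_subset_ball (by linarith)) hJne (fun y => y τ)
      (fun x hx => (AnalyticAt.comp (g := fun ξ => X.s ξ τ) (f := fun x => cat b x)
        (X.anal τ _ hx) (analyticAt_cat b x)).differentiableAt.differentiableWithinAt)
    have h2 := h1.trans (hp b (by rw [hbn]; exact ht.trans_le (min_le_left _ _)) hb0)
    -- the left hand side
    have h3 : ENNReal.ofReal (t ^ β * κ) ≤
        ‖X.s ξ τ * X.Jrel xt ξ ^ q‖ₑ ^ (2 / (q : ℝ)) := by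
      rw [← ofReal_norm, ENNReal.ofReal_rpow_of_nonneg (norm_nonneg _) (by positivity)]
      apply ENNReal.ofReal_le_ofReal
      rw [hGe ξ hξV, hJe ξ hξV, hξi]
      have e1 : ‖(t : ℂ) ^ a * G ξ * ((t : ℂ) ^ c' * J ξ) ^ q‖ =
          t ^ (a + q * c') * (‖G ξ‖ * ‖J ξ‖ ^ q) := by
        have e0 : ‖(t : ℂ)‖ = t := by
          rw [Complex.norm_real, Real.norm_eq_abs, abs_of_pos ht0]
        rw [norm_mul, norm_mul, norm_pow, norm_mul, norm_zpow, norm_zpow, e0, mul_pow,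
          zpow_add₀ ht0.ne', mul_comm (q : ℤ) c', zpow_mul, zpow_natCast]
        ring
      have e2 : c₁ * c₂ ^ q ≤ ‖G ξ‖ * ‖J ξ‖ ^ q := by
        have := hc₁' ξ hξc
        have := hc₂' ξ hξc
        gcongr
      rw [e1, Real.mul_rpow (by positivity) (by positivity), hβ, hκ]
      have e3 : (t ^ (a + q * c')) ^ (2 / (q : ℝ)) = t ^ (((a + q * c' : ℤ) : ℝ) * (2 / (q : ℝ))) := by
        rw [Real.rpow_mul ht0.le, Real.rpow_intCast]
      rw [e3]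
      gcongr
    have h4 : volume (ball (0 : Cn r) (X.ρ / 2)) * ENNReal.ofReal (t ^ β * κ) ≤ C := by
      refine le_trans ?_ h2
      gcongr
    have h5 : ENNReal.ofReal (t ^ β) ≤
        C / (volume (ball (0 : Cn r) (X.ρ / 2)) * ENNReal.ofReal κ) := by
      rw [ENNReal.le_div_iff_mul_le]
      · rw [ENNReal.ofReal_mul (by positivity)] at h4
        calc ENNReal.ofReal (t ^ β) *
              (volume (ball (0 : Cn r) (X.ρ / 2)) * ENNReal.ofReal κ)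
            = volume (ball (0 : Cn r) (X.ρ / 2)) *
              (ENNReal.ofReal (t ^ β) * ENNReal.ofReal κ) := by ring
          _ ≤ C := h4
      · left
        exact mul_ne_zero hvol0 (by simpa using hκ0)
      · left
        exact ENNReal.mul_ne_top hvolt ENNReal.ofReal_ne_top
    have h6 : C / (volume (ball (0 : Cn r) (X.ρ / 2)) * ENNReal.ofReal κ) ≠ ∞ :=
      ENNReal.div_ne_top hC (mul_ne_zero hvol0 (by simpa using hκ0))
    have h7 := (ENNReal.ofReal_le_iff_le_toReal h6).1 h5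
    exact h7
  have h8 := exponent_nonneg (lt_min hε (by linarith)) key
  rw [hβ] at h8
  have h9 : (0 : ℝ) ≤ ((a + q * c' : ℤ) : ℝ) := by
    by_contra h
    push Not at h
    have : ((a + q * c' : ℤ) : ℝ) * (2 / (q : ℝ)) < 0 := mul_neg_of_neg_of_pos h (by positivity)
    linarith
  exact_mod_cast h9

end Crest.Agent.R276.BR_590
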