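import Mathlib
import Crest.Agent.R276.BR4_590
import Crest.Agent.R276.BC4_986
import Crest.Agent.R276.End0A_508

/-!
# Row 276, FOL (helper508), part B: orders of relative Jacobians at a vertical divisor

`V : VData m r L K` (590): `R ∩ L` divisorial, `w₁ = t^e u`.
* `VData.hasOrd_alg` : `ord_R (f) = e · ord_{R ∩ L} (f)` for `f ∈ L`;
* `VData.exists_bwx` : `(w₁, w', x)` are coordinates of `K`, their Jacobian with respect to
  `(t, w', x)` has order `e - 1`;
* `VData.regAt_iff` : `τ (dx̃)^q` is regular at `R` relative to `L` iff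
  `0 ≤ ord τ + q (c - e c_L - (e - 1))`, `c`, `c_L` the orders of the Jacobians of the models.
-/

set_option autoImplicit false

open scoped BigOperators

noncomputable section

namespace Crest.Agent.R276.BC_986.DivModel

open Crest.Agent.R276.BC_986

variable {n : ℕ} {K : Type} [Field K] [Algebra ℂ K] {D : DivModel n K}

lemma HasOrd.pow {f : K} {a : ℤ} (hf : D.HasOrd f a) (k : ℕ) : D.HasOrd (f ^ k) (k * a) := by
  induction k with
  | zero => simpa using hasOrd_one (D := D)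
  | succ k ih =>
    rw [pow_succ]
    have := ih.mul D hf
    convert this using 1
    push_cast
    ring

lemma HasOrd.zpow {f : K} {a : ℤ} (hf : D.HasOrd f a) (k : ℤ) : D.HasOrd (f ^ k) (k * a) := by
  obtain ⟨N, rfl | rfl⟩ := Int.eq_nat_or_neg k
  · rw [zpow_natCast]; exact hf.pow N
  · rw [zpow_neg, zpow_natCast]
    have := (hf.pow N).inv D
    convert this using 1
    ring

lemma hasOrd_of_not_dvd {u : D.A} (hu : ¬ D.t ∣ u) : D.HasOrd (algebraMap D.A K u) 0 :=
  ⟨u, 1, hu, fun h => D.prime.not_isUnit (isUnit_of_dvd_one h), by simp⟩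

end Crest.Agent.R276.BC_986.DivModel

namespace Crest.Agent.R276.BR_590

open Crest.Agent.R271.Defs710 Crest.Agent.R271.Bd741 Crest.Agent.R276.BC_986
open Crest.Agent.R276.FKDefs_779 Crest.Agent.R276.End0_508

variable {m r : ℕ} {L K : Type} [Field L] [Algebra ℂ L] [Field K] [Algebra ℂ K] [Algebra L K]

namespace VData

variable (V : VData m r L K)

lemma not_dvd_ι {a : V.DL.A} (h : ¬ V.DL.t ∣ a) : ¬ V.D.t ∣ V.ι a := fun h' => h (V.lies a h')

lemma hasOrd_t : V.D.HasOrd (algebraMap L K (algebraMap V.DL.A L V.DL.t)) V.e := by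
  rw [← V.ι_K, V.ram]
  refine ⟨V.u, 1, V.u_nd, fun h => V.D.prime.not_isUnit (isUnit_of_dvd_one h), ?_⟩
  rw [map_one, mul_one, map_mul, map_pow, zpow_natCast]

/-- orders are multiplied by the ramification index -/
theorem hasOrd_alg {f : L} {a : ℤ} (hf : V.DL.HasOrd f a) :
    V.D.HasOrd (algebraMap L K f) (V.e * a) := by
  obtain ⟨u, v, hu, hv, h⟩ := hf
  have h1 : V.D.HasOrd (algebraMap L K (algebraMap V.DL.A L V.DL.t) ^ a) (a * V.e) :=
    V.hasOrd_t.zpow a
  have h2 := DivModel.hasOrd_of_not_dvd (D := V.D) (V.not_dvd_ι hu)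
  have h3 := DivModel.hasOrd_of_not_dvd (D := V.D) (V.not_dvd_ι hv)
  have h4 := (h1.mul V.D h2).mul V.D (h3.inv V.D)
  have hv0 : algebraMap V.D.A K (V.ι v) ≠ 0 := h3.ne_zero V.D
  have h5 : algebraMap L K f = algebraMap L K (algebraMap V.DL.A L V.DL.t) ^ a *
      algebraMap V.D.A K (V.ι u) * (algebraMap V.D.A K (V.ι v))⁻¹ := by
    rw [← div_eq_mul_inv, eq_div_iff hv0, V.ι_K, V.ι_K, ← map_mul, h, map_mul, map_zpow₀]
  rw [h5]
  convert h4 using 1
  ring

/-- the coordinates `(w₁, w', x)` -/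
def wx (i : Fin (m + r)) : K :=
  Fin.append (fun i => algebraMap L K (algebraMap V.DL.A L (V.DL.w i)))
    (fun k => algebraMap V.D.A K (V.D.w (Fin.natAdd m k))) i

lemma wx_of_ne {i : Fin (m + r)} (h : i ≠ V.D.i₀) : V.wx i = algebraMap V.D.A K (V.D.w i) := by
  revert h
  refine Fin.addCases (fun i => ?_) (fun j => ?_) i
  · intro h
    have hi : i ≠ V.DL.i₀ := by
      rintro rfl
      exact h V.i₀_eq.symm
    rw [wx, Fin.append_left, V.base i hi, V.ι_K]
  · intro _
    rw [wx, Fin.append_right]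

lemma wx_i₀ : V.wx V.D.i₀ = algebraMap V.D.A K (V.D.t ^ V.e * V.u) := by
  rw [V.i₀_eq, wx, Fin.append_left, ← V.ram, V.ι_K]
  rfl

/-- **the coordinates `(w₁, w', x)`**: their Jacobian has order `e - 1` -/
theorem exists_bwx : ∃ b : Module.Basis (Fin (m + r)) K (Ω[K⁄ℂ]),
    (∀ i, b i = KaehlerDifferential.D ℂ K (V.wx i)) ∧
    V.D.HasOrd (V.D.dw.toMatrix b).det ((V.e : ℤ) - 1) := by
  classical
  obtain ⟨Δ, hΔ⟩ := exists_coord_deriv V.D.w V.D.etale
  have hrep : ∀ a : V.D.A, V.D.dw.repr (KaehlerDifferential.D ℂ K (algebraMap V.D.A K a)) V.D.i₀ =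
      algebraMap V.D.A K (Δ V.D.i₀ a) := by
    intro a
    rw [D_K (K := K) V.D.w V.D.etale Δ hΔ a]
    have : ∑ j, algebraMap V.D.A K (Δ j a) •
        KaehlerDifferential.D ℂ K (algebraMap V.D.A K (V.D.w j)) =
        ∑ j, algebraMap V.D.A K (Δ j a) • V.D.dw j := by
      refine Finset.sum_congr rfl fun i _ => ?_
      rw [V.D.dw_apply]
    rw [this, Module.Basis.repr_sum_self]
  have hv : (fun i => KaehlerDifferential.D ℂ K (V.wx i)) =
      Function.update V.D.dw V.D.i₀ (KaehlerDifferential.D ℂ K (V.wx V.D.i₀)) := by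
    funext i
    by_cases h : i = V.D.i₀
    · subst h; rw [Function.update_self]
    · rw [Function.update_of_ne h, V.wx_of_ne h, V.D.dw_apply]
  have hdet : (V.D.dw.toMatrix (fun i => KaehlerDifferential.D ℂ K (V.wx i))).det =
      algebraMap V.D.A K (Δ V.D.i₀ (V.D.t ^ V.e * V.u)) := by
    rw [hv, Module.Basis.toMatrix_update, Module.Basis.toMatrix_self, ← Matrix.cramer_apply,
      Matrix.cramer_one, V.wx_i₀]
    exact hrep _
  -- the derivative
  have hΔt : Δ V.D.i₀ V.D.t = 1 := by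
    have := hΔ V.D.i₀ V.D.i₀
    rwa [if_pos rfl] at this
  obtain ⟨e', he'⟩ : ∃ e', V.e = e' + 1 := ⟨V.e - 1, by have := V.e_ne; omega⟩
  have hder : Δ V.D.i₀ (V.D.t ^ V.e * V.u) =
      V.D.t ^ e' * (((e' + 1 : ℕ) : V.D.A) * V.u + V.D.t * Δ V.D.i₀ V.u) := by
    rw [he', Derivation.leibniz, Derivation.leibniz_pow, hΔt]
    simp only [smul_eq_mul, Nat.add_sub_cancel, nsmul_eq_mul]
    ring
  have hnd : ¬ V.D.t ∣ (((e' + 1 : ℕ) : V.D.A) * V.u + V.D.t * Δ V.D.i₀ V.u) := by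
    intro h
    have h1 : V.D.t ∣ ((e' + 1 : ℕ) : V.D.A) * V.u :=
      (dvd_add_left (Dvd.intro _ rfl)).1 h
    have h2 : IsUnit ((e' + 1 : ℕ) : V.D.A) := by
      have h3 : ((e' + 1 : ℕ) : V.D.A) = algebraMap ℂ V.D.A ((e' + 1 : ℕ) : ℂ) := by
        rw [map_natCast]
      rw [h3]
      exact (IsUnit.mk0 _ (by exact_mod_cast Nat.succ_ne_zero e')).map _
    rcases V.D.prime.dvd_or_dvd h1 with h3 | h3
    · exact V.D.prime.not_isUnit (isUnit_of_dvd_unit h3 h2)
    · exact V.u_nd h3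
  have hord : V.D.HasOrd (V.D.dw.toMatrix (fun i => KaehlerDifferential.D ℂ K (V.wx i))).det
      ((V.e : ℤ) - 1) := by
    rw [hdet, hder]
    refine ⟨_, 1, hnd, fun h => V.D.prime.not_isUnit (isUnit_of_dvd_one h), ?_⟩
    rw [map_one, mul_one, map_mul, map_pow, he']
    congr 1
    push_cast
    rw [add_sub_cancel_right, zpow_natCast]
  have hunit : IsUnit (V.D.dw.det (fun i => KaehlerDifferential.D ℂ K (V.wx i))) := by
    rw [Module.Basis.det_apply]
    exact isUnit_iff_ne_zero.2 (hord.ne_zero V.D)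
  obtain ⟨hli, hsp⟩ := (Module.Basis.is_basis_iff_det V.D.dw).2 hunit
  refine ⟨Module.Basis.mk hli hsp.ge, fun i => by rw [Module.Basis.mk_apply], ?_⟩
  rw [Module.Basis.coe_mk]
  exact hord

/-- `x`, the fibre coordinates of the model of the divisor -/
def xx (i : Fin r) : K := algebraMap V.D.A K (V.D.w (Fin.natAdd m i))

/-- **order of the relative Jacobian** of the fibre coordinates `x` of the divisorial model with
respect to a basis `bKx` of `Ω[K⁄L]`. -/
theorem hasOrd_jac [IsScalarTower ℂ L K] {bLz : Module.Basis (Fin m) L (Ω[L⁄ℂ])}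
    {bKx : Module.Basis (Fin r) K (Ω[K⁄L])} {b : Module.Basis (Fin (m + r)) K (Ω[K⁄ℂ])}
    (h : Adapted bLz bKx b) {cL c : ℤ} (hJL : V.DL.HasOrd (V.DL.dw.toMatrix bLz).det cL)
    (hJ : V.D.HasOrd (V.D.dw.toMatrix b).det c) :
    V.D.HasOrd (jac L bKx V.xx) (-(c - V.e * cL - (V.e - 1))) := by
  obtain ⟨bw, hbw, hord⟩ := V.exists_bwx
  -- `jac ℂ b (w, x)`
  have h1 : jac ℂ b V.wx = (b.toMatrix V.D.dw).det * (V.D.dw.toMatrix bw).det := by
    unfold jac
    have : (fun i => KaehlerDifferential.D ℂ K (V.wx i)) = bw := funext fun i => (hbw i).symm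
    rw [this, Module.Basis.det_apply, ← Matrix.det_mul, Module.Basis.toMatrix_mul_toMatrix]
  have h2 : V.D.HasOrd (b.toMatrix V.D.dw).det (-c) := by
    have e1 := DivModel.det_toMatrix_mul V.D.dw b
    rw [eq_inv_of_mul_eq_one_right e1]
    exact hJ.inv V.D
  have h3 : V.D.HasOrd (jac ℂ b V.wx) (-c + (V.e - 1)) := by
    rw [h1]; exact h2.mul V.D hord
  -- the tower formula
  have h4 : jac ℂ b V.wx = algebraMap L K (jac ℂ bLz (fun i => algebraMap V.DL.A L (V.DL.w i))) *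
      jac L bKx V.xx := h.jac_tower _ _
  have h5 : V.DL.HasOrd (jac ℂ bLz (fun i => algebraMap V.DL.A L (V.DL.w i))) (-cL) := by
    have e0 : jac ℂ bLz (fun i => algebraMap V.DL.A L (V.DL.w i)) =
        (bLz.toMatrix V.DL.dw).det := by
      unfold jac
      have : (fun i => KaehlerDifferential.D ℂ L (algebraMap V.DL.A L (V.DL.w i))) = V.DL.dw :=
        funext fun i => (V.DL.dw_apply i).symm
      rw [this, Module.Basis.det_apply]
    have e1 := DivModel.det_toMatrix_mul V.DL.dw bLz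
    rw [e0, eq_inv_of_mul_eq_one_right e1]
    exact hJL.inv V.DL
  have h6 := V.hasOrd_alg h5
  have h7 : jac L bKx V.xx = jac ℂ b V.wx *
      (algebraMap L K (jac ℂ bLz (fun i => algebraMap V.DL.A L (V.DL.w i))))⁻¹ := by
    rw [h4, mul_comm, inv_mul_cancel_left₀ (h6.ne_zero V.D)]
  rw [h7]
  convert h3.mul V.D (h6.inv V.D) using 1
  ring

/-- **regularity relative to `L` at a vertical divisor, from orders** -/
theorem regAt_of_ord [IsScalarTower ℂ L K] {R : ValuationSubring K} (hR : V.D.ModelOf R)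
    {bLz : Module.Basis (Fin m) L (Ω[L⁄ℂ])}
    {bKx : Module.Basis (Fin r) K (Ω[K⁄L])} {b : Module.Basis (Fin (m + r)) K (Ω[K⁄ℂ])}
    (h : Adapted bLz bKx b) {cL c : ℤ} (hJL : V.DL.HasOrd (V.DL.dw.toMatrix bLz).det cL)
    (hJ : V.D.HasOrd (V.D.dw.toMatrix b).det c) {τ : K} {a : ℤ} (hτ : V.D.HasOrd τ a) {q : ℕ}
    (hord : 0 ≤ a + q * (c - V.e * cL - (V.e - 1))) : RegAt L R bKx q τ := by
  refine ⟨V.xx, fun i => hR.mem _, ?_⟩
  have h1 := hR.val_eq (V.hasOrd_jac h hJL hJ)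
  have h2 := hR.val_eq hτ
  rw [h1, h2, ← zpow_natCast, ← zpow_mul]
  apply zpow_le_zpow_right_of_le_one₀ hR.pos hR.lt.le
  have : -(c - V.e * cL - (V.e - 1)) * (q : ℤ) = -(q * (c - V.e * cL - (V.e - 1))) := by ring
  rw [this]
  omega

end VData

end Crest.Agent.R276.BR_590
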