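import Mathlib
import Crest.Agent.R276.FolA_508
import Crest.Agent.R276.FolB_508
import Crest.Agent.R276.Mod7_987
import Crest.Agent.R276.IntC_448
import Crest.Agent.R276.End0B_508

/-!
# Row 276, FOL (helper508), part C: bounded fibre integrals imply regularity at vertical divisors

`VData.regAt_of_bounded` : `R` a divisorial valuation ring of `K` with `R ∩ L` divisorial (590's
`VData`), `τ ∈ K` with `∫_{M_z} |τ|^{2/q} ≤ C` for all `z` off a hypersurface: then `τ (dx)^q` is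
regular at `R` relative to `L` (`RegAt L R`).
-/

set_option autoImplicit false

open scoped Topology BigOperators ENNReal
open Set Metric MeasureTheory

noncomputable section

namespace Crest.Agent.R276.BR_590

open Crest.Agent.R271.Defs710 Crest.Agent.R271.Bd741 Crest.Agent.R276.BC_986
open Crest.Agent.R276.FKDefs_779 Crest.Agent.R276.End0_508

variable {m r : ℕ} {L K : Type} [Field L] [Algebra ℂ L] [Field K] [Algebra ℂ K] [Algebra L K]
  [IsScalarTower ℂ L K]

/-- **FOL, regularity at vertical divisors.** -/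
theorem VData.regAt_of_bounded (V : VData m r L K) {R : ValuationSubring K} (hR : V.D.ModelOf R)
    {BL BK : Type} [CommRing BL] [IsDomain BL] [Algebra ℂ BL] [Algebra BL L]
    [IsScalarTower ℂ BL L] [IsFractionRing BL L] (hftL : Algebra.FiniteType ℂ BL)
    [CommRing BK] [IsDomain BK] [Algebra ℂ BK] [Algebra BK K]
    [IsScalarTower ℂ BK K] [IsFractionRing BK K] (hftK : Algebra.FiniteType ℂ BK)
    (j : BL →ₐ[ℂ] BK)
    (hj : ∀ b : BL, algebraMap BK K (j b) = algebraMap L K (algebraMap BL L b))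
    (zL : Fin m → BL) (xt : Fin r → BK)
    {bLz : Module.Basis (Fin m) L (Ω[L⁄ℂ])}
    (hbL : ∀ i, bLz i = KaehlerDifferential.D ℂ L (algebraMap BL L (zL i)))
    {bKx : Module.Basis (Fin r) K (Ω[K⁄L])} {b : Module.Basis (Fin (m + r)) K (Ω[K⁄ℂ])}
    (hb : ∀ i, b i = KaehlerDifferential.D ℂ K (algebraMap BK K
      (Fin.append (fun i => j (zL i)) xt i)))
    (had : Adapted bLz bKx b) (τ : BK) (hτ0 : τ ≠ 0) {q : ℕ} (hq : 0 < q)
    (h : BL) (hh : h ≠ 0) {C : ℝ≥0∞} (hC : C ≠ ∞)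
    (hp : ∀ z : BL →ₐ[ℂ] ℂ, z h ≠ 0 →
      lintF j xt z (fun y => ‖y τ‖ₑ ^ (2 / (q : ℝ))) ≤ C) :
    RegAt L R bKx q (algebraMap BK K τ) := by
  classical
  have hinjK : Function.Injective (algebraMap BK K) := IsFractionRing.injective BK K
  have hinjL : Function.Injective (algebraMap BL L) := IsFractionRing.injective BL L
  have hτK : algebraMap BK K τ ≠ 0 := fun h0 => hτ0 (hinjK (by rw [h0, map_zero]))
  have hhL : algebraMap BL L h ≠ 0 := fun h0 => hh (hinjL (by rw [h0, map_zero]))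
  have hJ0 : (V.D.dw.toMatrix b).det ≠ 0 := DivModel.det_ne_zero _ _
  have hJL0 : (V.DL.dw.toMatrix bLz).det ≠ 0 := DivModel.det_ne_zero _ _
  obtain ⟨gK, hgK, hXK⟩ := exists_bchart_at V.D (B := BK) hftK
    {algebraMap BK K τ, (V.D.dw.toMatrix b).det} (by
      intro f hf
      rcases Finset.mem_insert.1 hf with rfl | hf
      · exact hτK
      · rw [Finset.mem_singleton] at hf; rw [hf]; exact hJ0)
  obtain ⟨gL, hgL, hXL⟩ := exists_bchart_at V.DL (B := BL) hftL
    {algebraMap BL L h, (V.DL.dw.toMatrix bLz).det} (by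
      intro f hf
      rcases Finset.mem_insert.1 hf with rfl | hf
      · exact hhL
      · rw [Finset.mem_singleton] at hf; rw [hf]; exact hJL0)
  obtain ⟨y, hyt, hyg⟩ := V.D.exists_point (gK * V.ι gL * V.u)
    (V.D.not_dvd_mul (V.D.not_dvd_mul hgK (V.not_dvd_ι hgL)) V.u_nd)
  rw [map_mul, map_mul] at hyg
  have hy1 : y gK ≠ 0 := left_ne_zero_of_mul (left_ne_zero_of_mul hyg)
  have hy2 : y (V.ι gL) ≠ 0 := right_ne_zero_of_mul (left_ne_zero_of_mul hyg)
  have hy3 : y V.u ≠ 0 := right_ne_zero_of_mul hyg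
  obtain ⟨X, hXy, -, hXu, hXg⟩ := hXK y hyt hy1 V.u hy3 1 one_pos
  have hytL : (y.comp V.ι) V.DL.t = 0 := by
    change y (V.ι V.DL.t) = 0
    rw [V.ram, map_mul, map_pow, hyt, zero_pow V.e_ne, zero_mul]
  obtain ⟨XL, hXLy, -, -, hXLg⟩ := hXL (y.comp V.ι) hytL hy2 1 (by simp) 1 one_pos
  obtain ⟨W, hWX, hWXL, -⟩ := exists_vchart_of V j hj X XL (by rw [hXLy, hXy]) hXu 1 one_pos
  subst hWX
  subst hWXL
  obtain ⟨a, G, ha, hG⟩ := hXg (algebraMap BK K τ) (by simp)
  obtain ⟨c, GJ, hc, hGJ⟩ := hXg (V.D.dw.toMatrix b).det (by simp)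
  obtain ⟨ah, Gh, -, hGh⟩ := hXLg (algebraMap BL L h) (by simp)
  obtain ⟨cL, GB, hcL, hGB⟩ := hXLg (V.DL.dw.toMatrix bLz).det (by simp)
  have hGA := W.good hG
  obtain ⟨J, hJan, hJne, hJe⟩ := W.exists_Jrel zL xt bLz hbL b hb hGB hGJ
  refine V.regAt_of_ord hR had hcL hc ha (q := q) ?_
  refine W.X.ord_nonneg V.i₀_eq xt hq τ hGA.an hGA.ne (fun ξ hξ => hGA.eq₁ hξ τ rfl) hJan hJne hJe
    hC W.X.ρ_pos ?_
  intro β hβ hβ0
  apply hp
  rw [W.X_sL]
  have hξ : cat β (0 : Cn r) ∈ W.X.V := by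
    have : (0 : Cn r) ∈ W.X.leaf β := by
      rw [W.X.leaf_eq V.i₀_eq hβ hβ0]; exact mem_ball_self W.X.ρ_pos
    exact this
  have hpe := W.pe_mem hξ
  rw [bs_cat] at hpe
  rw [hGh.eq₁ hpe h rfl]
  exact mul_ne_zero (zpow_ne_zero _ hpe.2) (hGh.ne _ hpe.1)

end Crest.Agent.R276.BR_590

namespace Crest.Agent.R276.Mod1_987

open Crest.Agent.R271.Defs710 Crest.Agent.R276.BR_590 Crest.Agent.R276.BC_986
open Crest.Agent.R276.FKDefs_779 Crest.Agent.R276.End0_508

variable {L K : Type} [Field L] [Field K] [Algebra ℂ L] [Algebra ℂ K] [Algebra L K]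
  [IsScalarTower ℂ L K] {m r : ℕ}

namespace RMdl

variable (Rm : RMdl L K m r)

/-- 987's fibre integral is 590's -/
theorem fint_eq_lintF (w : Rm.ML.Pts) (g : Rm.MK.Pts → ℝ≥0∞) :
    Rm.fint w g = lintF Rm.incl (fun k => Rm.MK.z (Fin.natAdd m k)) w g := by
  unfold RMdl.fint lintF
  refine lintegral_congr fun v => ?_
  unfold RMdl.fsumR
  let e : {y : Rm.MK.Pts // Rm.q y = w ∧ Rm.x y = v} ≃
      {y : Fb Rm.incl w // pF Rm.incl w (fun k => Rm.MK.z (Fin.natAdd m k)) y = v} :=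
    { toFun := fun y => ⟨⟨y.1, y.2.1⟩, y.2.2⟩
      invFun := fun y => ⟨y.1.1, y.1.2, y.2⟩
      left_inv := fun _ => rfl
      right_inv := fun _ => rfl }
  exact e.tsum_eq (fun y : {y : Fb Rm.incl w //
    pF Rm.incl w (fun k => Rm.MK.z (Fin.natAdd m k)) y = v} => g y.1.1)

/-- the bases of differentials of a relative model -/
theorem exists_bases (bK : Module.Basis (Fin r) K (Ω[K⁄L]))
    (hbK : ∀ i, bK i = KaehlerDifferential.D L K (Rm.MK.zK (Fin.natAdd m i))) :
    ∃ (bL : Module.Basis (Fin m) L (Ω[L⁄ℂ])) (b : Module.Basis (Fin (m + r)) K (Ω[K⁄ℂ])),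
      (∀ i, bL i = KaehlerDifferential.D ℂ L (Rm.ML.zK i)) ∧
      (∀ i, b i = KaehlerDifferential.D ℂ K (Rm.MK.zK i)) ∧ Adapted bL bK b := by
  obtain ⟨bL, hbL⟩ := FKB0_143.exists_kbasis (IntC_448.isTranscendenceBasis Rm.ML)
  obtain ⟨b, hb⟩ := FKB0_143.exists_kbasis (IntC_448.isTranscendenceBasis Rm.MK)
  refine ⟨bL, b, hbL, hb, ⟨fun i => ?_, fun j => ?_⟩⟩
  · rw [hb, hbL, KaehlerDifferential.map_D]
    congr 1
    exact Rm.z_eq i
  · rw [hb, KaehlerDifferential.map_D, hbK]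
    rfl

/-- **FOL for relative models**: bounded fibre integrals imply regularity relative to `L` at every
vertical divisorial valuation ring. -/
theorem regAt_of_bounded (V : VData m r L K) {R : ValuationSubring K} (hR : V.D.ModelOf R)
    (bK : Module.Basis (Fin r) K (Ω[K⁄L]))
    (hbK : ∀ i, bK i = KaehlerDifferential.D L K (Rm.MK.zK (Fin.natAdd m i)))
    (τ : Rm.MK.B) (hτ0 : τ ≠ 0) {q : ℕ} (hq : 0 < q) (h : Rm.ML.B) (hh : h ≠ 0)
    {C : ℝ≥0∞} (hC : C ≠ ∞)
    (hp : ∀ w : Rm.ML.Pts, w h ≠ 0 → Rm.fint w (fun y => ‖y τ‖ₑ ^ (2 / (q : ℝ))) ≤ C) :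
    RegAt L R bK q (τ : K) := by
  obtain ⟨bL, b, hbL, hb, had⟩ := Rm.exists_bases bK hbK
  refine V.regAt_of_bounded hR Rm.ML.ft Rm.MK.ft Rm.incl (fun b => Rm.incl_coe b) Rm.ML.z
    (fun k => Rm.MK.z (Fin.natAdd m k)) (bLz := bL) hbL (b := b) ?_ had τ hτ0 hq h hh hC ?_
  · intro i
    rw [hb]
    congr 1
    refine Fin.addCases (fun i => ?_) (fun j => ?_) i
    · rw [Fin.append_left]
      exact Rm.z_eq i
    · rw [Fin.append_right]
      rfl
  · intro w hw
    rw [← Rm.fint_eq_lintF]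
    exact hp w hw

end RMdl

end Crest.Agent.R276.Mod1_987

namespace Crest.Agent.R276.End0_508

open Crest.Agent.R271.Defs710 Crest.Agent.R276.BR_590 Crest.Agent.R276.BC_986
open Crest.Agent.R276.FKDefs_779 Crest.Agent.R276.Mod1_987

theorem isAlgebraic_of_le {k L K : Type} [Field k] [Field L] [Field K] [Algebra k L]
    [Algebra k K] [Algebra L K] [IsScalarTower k L K] (S : Subalgebra k K) (T : Subalgebra L K)
    (hle : ∀ a ∈ S, a ∈ T) (halg : Algebra.IsAlgebraic S K) : Algebra.IsAlgebraic T K := by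
  let ι : S →+* T := (algebraMap S K).codRestrict T.toSubring (fun a => hle a a.2)
  let _ := ι.toAlgebra
  have : IsScalarTower S T K := IsScalarTower.of_algebraMap_eq fun _ => rfl
  have hinj : Function.Injective (algebraMap S T) := by
    intro a b hab
    apply Subtype.ext
    exact congrArg (fun c : T => (c : K)) hab
  exact ⟨fun a => (halg.isAlgebraic a).extendScalars hinj⟩

/-- if `z` is a transcendence basis of `L/k` and `(z, x)` one of `K/k`, then `x` is one of `K/L` -/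
theorem isTranscendenceBasis_right {k L K : Type} [Field k] [Field L] [Field K] [Algebra k L]
    [Algebra k K] [Algebra L K] [IsScalarTower k L K] {m r : ℕ} {z : Fin m → L} {x : Fin r → K}
    (hz : IsTranscendenceBasis k z)
    (hzx : IsTranscendenceBasis k (Fin.append (fun i => algebraMap L K (z i)) x)) :
    IsTranscendenceBasis L x := by
  have hA : Algebra.IsAlgebraic (Algebra.adjoin L (Set.range x)) K := by
    refine isAlgebraic_of_le _ _ ?_ hzx.isAlgebraic
    intro a ha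
    have hle : Algebra.adjoin k (Set.range (Fin.append (fun i => algebraMap L K (z i)) x)) ≤
        (Algebra.adjoin L (Set.range x)).restrictScalars k := by
      rw [Algebra.adjoin_le_iff]
      rintro _ ⟨i, rfl⟩
      rw [SetLike.mem_coe, Subalgebra.mem_restrictScalars]
      refine Fin.addCases (fun i => ?_) (fun j => ?_) i
      · rw [Fin.append_left]
        exact Subalgebra.algebraMap_mem _ _
      · rw [Fin.append_right]
        exact Algebra.subset_adjoin (Set.mem_range_self j)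
    have h0 := hle ha
    rwa [Subalgebra.mem_restrictScalars] at h0
  have h1 := _root_.trdeg_add_eq k L (A := K)
  rw [← hz.cardinalMk_eq_trdeg, ← hzx.cardinalMk_eq_trdeg, Cardinal.mk_fin, Cardinal.mk_fin,
    Nat.cast_add] at h1
  have h2 : Algebra.trdeg L K = r :=
    Cardinal.eq_of_add_eq_add_left h1 (Cardinal.natCast_lt_aleph0)
  exact Algebra.IsAlgebraic.isTranscendenceBasis_of_le_trdeg_of_finite L x
    (by rw [h2, Cardinal.mk_fin])

/-- existence of the divisorial data at vertical divisors (590 BR5 / 858 R0) -/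
def VEx (L K : Type) [Field L] [Field K] [Algebra ℂ L] [Algebra ℂ K] [Algebra L K]
    (m r : ℕ) : Prop :=
  ∀ R : ValuationSubring K, IsDiv ℂ (m + r) R → R.comap (algebraMap L K) ≠ ⊤ →
    ∃ V : VData m r L K, V.D.ModelOf R

/-- **END0, final form**: `d + 1` relative forms `τ_i` on a relative model, regular at the
horizontal divisors, with bounded fibre integrals `∫ |τ_i|^{2/q}`, give `κ(K/ℂ) ≥ d + e`. -/
theorem end0 {K : Type} [Field K] [Algebra ℂ K] (L : IntermediateField ℂ K)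
    (hfg : FGF ℂ K) {m r : ℕ} (hV : VEx L K m r) (Rm : RMdl L K m r)
    (bK : Module.Basis (Fin r) K (Ω[K⁄L]))
    (hbK : ∀ i, bK i = KaehlerDifferential.D L K (Rm.MK.zK (Fin.natAdd m i)))
    {d e q : ℕ} (hq : 0 < q) (hL : KapGeS ℂ L e)
    (τ : Fin (d + 1) → Rm.MK.B) (hτ0 : ∀ j, τ j ≠ 0)
    (hτi : AlgebraicIndependent L (fun i : Fin d => (τ i.succ : K) / (τ 0 : K)))
    (hhor : ∀ R : ValuationSubring K, IsDiv ℂ (m + r) R → (∀ c : L, algebraMap L K c ∈ R) →
      ∀ i, RegAt L R bK q (τ i : K))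
    (h : Rm.ML.B) (hh : h ≠ 0) {C : ℝ≥0∞} (hC : C ≠ ∞)
    (hp : ∀ i, ∀ w : Rm.ML.Pts, w h ≠ 0 →
      Rm.fint w (fun y => ‖y (τ i)‖ₑ ^ (2 / (q : ℝ))) ≤ C) :
    KapGeF ℂ K (d + e) := by
  have hz : IsTranscendenceBasis ℂ Rm.ML.zK := IntC_448.isTranscendenceBasis Rm.ML
  have hx0 : IsTranscendenceBasis ℂ Rm.MK.zK := IntC_448.isTranscendenceBasis Rm.MK
  have happ : Fin.append (fun i => algebraMap L K (Rm.ML.zK i))
      (fun k => Rm.MK.zK (Fin.natAdd m k)) = Rm.MK.zK := by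
    funext i
    refine Fin.addCases (fun i => ?_) (fun j => ?_) i
    · rw [Fin.append_left, Rm.z_eq]
    · rw [Fin.append_right]
  have hx : IsTranscendenceBasis L (fun k => Rm.MK.zK (Fin.natAdd m k)) :=
    isTranscendenceBasis_right hz (by rw [happ]; exact hx0)
  refine kapGeF_of_flat L hfg hz hx bK hbK hq hL (fun i => (τ i : K)) ?_ hτi ?_
  · intro j h0
    exact hτ0 j (Subtype.ext h0)
  · intro R hR i
    by_cases hRL : R.comap (algebraMap L K) = ⊤
    · refine hhor R hR (fun c => ?_) i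
      have : c ∈ R.comap (algebraMap L K) := by rw [hRL]; trivial
      exact ValuationSubring.mem_comap.1 this
    · obtain ⟨V, hVR⟩ := hV R hR hRL
      exact Rm.regAt_of_bounded V hVR bK hbK (τ i) (hτ0 i) hq h hh hC (hp i)

end Crest.Agent.R276.End0_508
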