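import Mathlib
import Crest.Agent.R276.FolC_508
import Crest.Agent.R276.BR5_590
import Crest.Agent.R276.R0D_858
import Crest.Agent.R276.TChK_858
import Crest.Agent.R276.CmpA_595

/-!
# Row 276, FOL/END0 (helper508), part D: existence of 590's `VData`

`exists_vdata` : for `R` divisorial in `K` with `R ∩ L` divisorial there is a `VData` with
`V.D.ModelOf R` (from 858's `r0_V` and 590's `exists_contain`), `vEx`, and the final `end0'`.
-/

set_option autoImplicit false

open scoped Topology BigOperators ENNReal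
open Set Metric MeasureTheory

noncomputable section

namespace Crest.Agent.R276.BR_590

open Crest.Agent.R271.Defs710 Crest.Agent.R271.Bd741 Crest.Agent.R276.BC_986
open Crest.Agent.R276.FKDefs_779 Crest.Agent.R276.End0_508 Crest.Agent.R276.DivVal_858

variable {m r : ℕ} {L K : Type} [Field L] [Algebra ℂ L] [Field K] [Algebra ℂ K] [Algebra L K]
  [IsScalarTower ℂ L K]

/-- an element of the model has value one iff it is not divisible by `t` -/
lemma not_dvd_iff {n : ℕ} {D : DivModel n K} {R : ValuationSubring K} (hD : D.ModelOf R) (a : D.A) :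
    ¬ D.t ∣ a ↔ R.valuation (algebraMap D.A K a) = 1 := by
  refine ⟨hD.unit a, fun h h1 => ?_⟩
  obtain ⟨b, rfl⟩ := h1
  rw [map_mul, map_mul] at h
  have h2 : R.valuation (algebraMap D.A K D.t) * R.valuation (algebraMap D.A K b) < 1 :=
    mul_lt_one_of_lt_of_le hD.lt (hD.val_le_one b)
  exact absurd h h2.ne

/-- **existence of the divisorial data at a vertical divisor, prescribed model of `R ∩ L`** -/
theorem exists_vdata [Algebra.EssFiniteType ℂ K] (hm : Algebra.trdeg ℂ L = m)
    (hn : Algebra.trdeg ℂ K = (m + r : ℕ)) {R : ValuationSubring K} (hR : IsDiv ℂ (m + r) R)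
    (DL : DivModel m L) (hDL : DL.ModelOf (R.comap (algebraMap L K))) :
    ∃ V : VData m r L K, V.DL = DL ∧ V.D.ModelOf R := by
  classical
  obtain ⟨D, e, u, hD, hi₀, hw, hind, he, hu, heu⟩ := r0_V hm hn hR DL hDL
  let algAK : Algebra DL.A K := ((algebraMap L K).comp (algebraMap DL.A L)).toAlgebra
  have hAK : ∀ a : DL.A, algebraMap DL.A K a = algebraMap L K (algebraMap DL.A L a) := fun a => rfl
  have : IsScalarTower ℂ DL.A K := IsScalarTower.of_algebraMap_eq fun c => by
    rw [hAK, ← IsScalarTower.algebraMap_apply ℂ DL.A L, ← IsScalarTower.algebraMap_apply ℂ L K]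
  obtain ⟨g, D1, φ1, ι1, hg, h1, hι1⟩ := exists_contain hD DL.A DL.ft (fun a => by
    rw [hAK]
    exact ValuationSubring.mem_comap.1 (hDL.mem a))
  have hD1 := h1.modelOf hD
  -- adjoin `u`
  let U : Subalgebra ℂ K := Algebra.adjoin ℂ {u}
  have huR : u ∈ R := by rw [← R.valuation_le_one_iff, hu]
  have hUR : ∀ a : U, algebraMap U K a ∈ R := by
    intro a
    have hle : U ≤ ({ R.toSubring with
        algebraMap_mem' := fun c => modelOf_alg hD c } : Subalgebra ℂ K) :=
      Algebra.adjoin_le (by rintro _ rfl; exact huR)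
    exact hle a.2
  have hUft : Algebra.FiniteType ℂ U := by
    have : (Algebra.adjoin ℂ ({u} : Set K)).FG := ⟨{u}, by simp⟩
    exact (Subalgebra.fg_iff_finiteType _).1 this
  obtain ⟨g', D2, φ2, ι2, hg', h2, hι2⟩ := exists_contain hD1 U hUft hUR
  have hD2 := h2.modelOf hD1
  have hmap : ∀ a : D.A, algebraMap D2.A K (φ2 (φ1 a)) = algebraMap D.A K a := fun a => by
    rw [h2.map, h1.map]
  have hι : ∀ a : DL.A, algebraMap D2.A K (φ2 (ι1 a)) = algebraMap L K (algebraMap DL.A L a) :=
    fun a => by rw [h2.map, hι1, hAK]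
  have huA : algebraMap D2.A K (ι2 ⟨u, Algebra.subset_adjoin rfl⟩) = u := by rw [hι2]; rfl
  have ht : D2.t = φ2 (φ1 D.t) := by rw [h2.t_eq, h1.t_eq]
  refine ⟨{ DL := DL
            D := D2
            ι := φ2.comp ι1
            ι_K := fun a => hι a
            i₀_eq := by rw [h2.i₀, h1.i₀, hi₀]
            base := fun i hi => ?_
            e := e
            e_ne := he.ne'
            u := ι2 ⟨u, Algebra.subset_adjoin rfl⟩
            u_nd := ?_
            ram := ?_
            lies := ?_ }, rfl, hD2⟩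
  · apply D2.inj
    rw [h2.w, h1.w, hmap, hw i hi]
    exact (hι _).symm
  · rw [not_dvd_iff hD2, huA, hu]
  · apply D2.inj
    rw [map_mul, map_pow, huA, ht, hmap]
    exact (hι _).trans heu
  · intro a ha
    by_contra hna
    have h3 := (not_dvd_iff hDL a).1 hna
    have h4 := Crest.Agent.R276.TCh_858.valuation_comap_eq_one h3
    have h5 : ¬ D2.t ∣ (φ2.comp ι1) a := by
      rw [not_dvd_iff hD2]
      exact (congrArg R.valuation (hι a)).trans h4
    exact h5 ha

/-- all vertical divisors have divisorial data -/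
theorem vEx [Algebra.EssFiniteType ℂ L] [Algebra.EssFiniteType ℂ K] (hm : Algebra.trdeg ℂ L = m)
    (hn : Algebra.trdeg ℂ K = (m + r : ℕ)) : VEx L K m r := by
  intro R hR hne
  obtain ⟨DL, hDL⟩ := exists_divModel hm (isDiv_comap hm hn hR hne)
  obtain ⟨V, -, hV⟩ := exists_vdata hm hn hR DL hDL
  exact ⟨V, hV⟩

end Crest.Agent.R276.BR_590

namespace Crest.Agent.R276.End0_508

open Crest.Agent.R271.Defs710 Crest.Agent.R276.BC_986 Crest.Agent.R276.BR_590
open Crest.Agent.R276.FKDefs_779 Crest.Agent.R276.Mod1_987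

/-- the data of a relative model give `VEx` -/
theorem vEx_of_rmdl {L K : Type} [Field L] [Algebra ℂ L] [Field K] [Algebra ℂ K] [Algebra L K]
    [IsScalarTower ℂ L K] {m r : ℕ} (Rm : RMdl L K m r) : VEx L K m r := by
  have := Crest.Agent.R276.Cmp_595.essFiniteType Rm.ML
  have := Crest.Agent.R276.Cmp_595.essFiniteType Rm.MK
  have h1 : IsTranscendenceBasis ℂ Rm.ML.zK := IntC_448.isTranscendenceBasis Rm.ML
  have h2 : IsTranscendenceBasis ℂ Rm.MK.zK := IntC_448.isTranscendenceBasis Rm.MK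
  exact vEx (by rw [← h1.cardinalMk_eq_trdeg, Cardinal.mk_fin])
    (by rw [← h2.cardinalMk_eq_trdeg, Cardinal.mk_fin])

/-- **END0**, unconditional -/
theorem end0' {K : Type} [Field K] [Algebra ℂ K] (L : IntermediateField ℂ K)
    (hfg : FGF ℂ K) {m r : ℕ} (Rm : RMdl L K m r)
    (bK : Module.Basis (Fin r) K (Ω[K⁄L]))
    (hbK : ∀ i, bK i = KaehlerDifferential.D L K (Rm.MK.zK (Fin.natAdd m i)))
    {d e q : ℕ} (hq : 0 < q) (hL : KapGeS ℂ L e)
    (τ : Fin (d + 1) → Rm.MK.B) (hτ0 : ∀ j, τ j ≠ 0)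
    (hτi : AlgebraicIndependent L (fun i : Fin d => (τ i.succ : K) / (τ 0 : K)))
    (hhor : ∀ R : ValuationSubring K, IsDiv ℂ (m + r) R → (∀ c : L, algebraMap L K c ∈ R) →
      ∀ i, RegAt L R bK q (τ i : K))
    (h : Rm.ML.B) (hh : h ≠ 0) {C : ℝ≥0∞} (hC : C ≠ ∞)
    (hp : ∀ i, ∀ w : Rm.ML.Pts, w h ≠ 0 →
      Rm.fint w (fun y => ‖y (τ i)‖ₑ ^ (2 / (q : ℝ))) ≤ C) :
    KapGeF ℂ K (d + e) :=
  end0 L hfg (vEx_of_rmdl Rm) Rm bK hbK hq hL τ hτ0 hτi hhor h hh hC hp

end Crest.Agent.R276.End0_508
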