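import Crest.Agent.R276.Perm_840
import Crest.Agent.R276.Top8b_815

/-!
# Row 276, leaf IPC-PERM (helper840), part 2: the weight `0` variation of a finite covering

`permVHS`, `permAct`, `permF`, `permI` and the theorems `rz_perm`, `rzAct_perm`: the base case of the
iteration (`d = 0`) in the interface of `IpcDefs_735` and `Top8b_815`.
-/

set_option autoImplicit false

noncomputable section

open Set Filter Topology MeasureTheory Matrix
open Crest.Agent.R271.Ho51 Crest.Agent.R276.Ipc735 Crest.Agent.R276.Top8_815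
open scoped ENNReal

namespace Crest.Agent.R276.Perm_840

/-- permutation matrices in `GL_N(ℤ)` -/
def pg {N : ℕ} : Equiv.Perm (Fin N) →* GL (Fin N) ℤ := pmU

lemma cm_pg {N : ℕ} (σ : Equiv.Perm (Fin N)) : cm (pg σ) = pm ℂ σ := by
  have := pm_map (R := ℤ) (Int.castRingHom ℂ) σ
  rw [← this]
  rfl

lemma weil_zero {N : ℕ} : weil 0 (0 : Matrix (Fin N) (Fin N) ℂ) = 1 := by
  simp [weil, hpr]

lemma hodge_zero {N : ℕ} : hodge 0 (1 : Matrix (Fin N) (Fin N) ℂ) 0 = 1 := by
  rw [hodge, weil_zero, one_mul]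

lemma isHS_zero {N : ℕ} : IsHS 0 (1 : Matrix (Fin N) (Fin N) ℂ) 0 where
  herm := Matrix.isHermitian_one
  adj := by simp
  eig := by simp
  pos := by
    intro p v hp hv _
    obtain rfl : p = 0 := Nat.le_zero.1 hp
    rw [pow_zero, one_mul, Matrix.one_mulVec]
    have h1 : (star v ⬝ᵥ v).re = ∑ i, ‖v i‖ ^ 2 := by
      rw [dotProduct, Complex.re_sum]
      refine Finset.sum_congr rfl fun i _ => ?_
      rw [Pi.star_apply, Complex.star_def, mul_comm, Complex.mul_conj, Complex.ofReal_re,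
        Complex.normSq_eq_norm_sq]
    rw [h1]
    obtain ⟨i, hi⟩ := Function.ne_iff.1 hv
    have h2 : 0 < ‖v i‖ ^ 2 := by
      have : 0 < ‖v i‖ := norm_pos_iff.2 hi
      positivity
    exact Finset.sum_pos' (fun j _ => by positivity) ⟨i, Finset.mem_univ _, h2⟩

section

variable {m : ℕ} {X : Type*} [TopologicalSpace X] [RDom m X] [T2Space X]
  {Y : Type*} [TopologicalSpace Y] {f : Y → X} {N : ℕ}

/-- the weight `0` variation attached to a finite covering -/
def permVHS (hf : IsCoveringMap f) (e : ∀ s : X, Fin N ≃ f ⁻¹' {s}) : VHS m X N 0 where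
  P x y := pg (pp hf e x y)
  S _ := 1
  E _ := 0
  ndc z := by
    obtain ⟨U, hU, h⟩ := pp_cocycle hf e z
    refine ⟨U, hU, fun x hx y hy w hw => ?_⟩
    rw [← map_mul, h x hx y hy w hw]
  hs _ := isHS_zero
  flatS z := Eventually.of_forall fun y => by
    rw [cm_pg, mul_one, pm_conjTranspose_mul]
  smE z i k := by
    have : (fun y : X => lM (fun x y => pg (pp hf e x y))
        (fun _ => (0 : Matrix (Fin N) (Fin N) ℂ)) z y i k) = fun _ => 0 := by
      funext y
      simp [lM]
    rw [this]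
    exact contDiffAt_const
  tr z j := by
    have : dM (fun x y => pg (pp hf e x y)) (fun _ => (0 : Matrix (Fin N) (Fin N) ℂ)) j z = 0 := by
      ext i k
      have h0 : (fun y : X => lM (fun x y => pg (pp hf e x y))
          (fun _ => (0 : Matrix (Fin N) (Fin N) ℂ)) z y i k) = fun _ => (0 : ℂ) := by
        funext y
        simp [lM]
      simp only [dM, Matrix.of_apply, Matrix.zero_apply]
      rw [h0, dz_const]
    rw [this]
    simp

@[simp] lemma permVHS_E (hf : IsCoveringMap f) (e : ∀ s : X, Fin N ≃ f ⁻¹' {s}) (x : X) :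
    (permVHS hf e).E x = 0 := rfl

@[simp] lemma permVHS_S (hf : IsCoveringMap f) (e : ∀ s : X, Fin N ≃ f ⁻¹' {s}) (x : X) :
    (permVHS hf e).S x = 1 := rfl

lemma permVHS_P (hf : IsCoveringMap f) (e : ∀ s : X, Fin N ≃ f ⁻¹' {s}) (x y : X) :
    (permVHS hf e).P x y = pg (pp hf e x y) := rfl

/-- every vector is in the top piece -/
lemma isTop_perm (hf : IsCoveringMap f) (e : ∀ s : X, Fin N ≃ f ⁻¹' {s}) (x : X)
    (v : Fin N → ℂ) : Top8_815.IsTop 0 ((permVHS hf e).E x) v := by
  show (0 : Matrix (Fin N) (Fin N) ℂ) *ᵥ v = ((0 : ℕ) : ℂ) • v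
  simp

/-- the action of a group of automorphisms of the covering -/
def permAct (hf : IsCoveringMap f) (e : ∀ s : X, Fin N ≃ f ⁻¹' {s}) {Γ : Type} [Group Γ]
    (α : Γ →* Equiv.Perm Y) (hα : ∀ g, Continuous (α g)) (hfα : ∀ g y, f (α g y) = f y) :
    Act (permVHS hf e) Γ where
  ρ g x := pg (ag e (α g) (hfα g) x)
  mul g h x := by
    rw [← map_mul, ← ag_mul]
    congr 2
    ext i
    simp
  flat g z := by
    obtain ⟨U, hU, h⟩ := adj_nhds hf z
    filter_upwards [hU] with y hy
    rw [permVHS_P, ← map_mul, ← map_mul]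
    congr 1
    exact (ag_pp hf e (α g) (hα g) (hfα g) (h z (mem_of_mem_nhds hU) y hy)).symm
  commE g x := by simp
  presS g x := by
    rw [cm_pg, permVHS_S, mul_one, pm_conjTranspose_mul]

/-- `Y` as a space fibred over `X` with fibre dimension `0` -/
def permF (hf : IsCoveringMap f) : FSp m 0 X Y where
  q := f
  t := fun _ => Fin.elim0
  lh := by
    have h2 := (Homeomorph.prodUnique X (Fin 0 → ℂ)).symm.isLocalHomeomorph.comp
      hf.isLocalHomeomorph
    have h3 : (fun y => (f y, (Fin.elim0 : Fin 0 → ℂ)))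
        = ⇑(Homeomorph.prodUnique X (Fin 0 → ℂ)).symm ∘ f := by
      funext y
      exact Prod.ext rfl (Subsingleton.elim _ _)
    rw [h3]
    exact h2

omit [T2Space X] in
@[simp] lemma permF_q (hf : IsCoveringMap f) : (permF (m := m) hf).q = f := rfl

open Classical in
/-- the realisation map -/
def permI (f : Y → X) (e : ∀ s : X, Fin N ≃ f ⁻¹' {s}) (u : X) (v : Fin N → ℂ) (y : Y) : ℂ :=
  if h : f y = u then v ((e u).symm ⟨y, h⟩) else 0

omit [TopologicalSpace X] [RDom m X] [T2Space X] [TopologicalSpace Y] in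
lemma permI_of {e : ∀ s : X, Fin N ≃ f ⁻¹' {s}} {u : X} {v : Fin N → ℂ} {y : Y} (h : f y = u) :
    permI f e u v y = v ((e u).symm ⟨y, h⟩) := dif_pos h

omit [TopologicalSpace X] [RDom m X] [T2Space X] [TopologicalSpace Y] in
lemma permI_self {e : ∀ s : X, Fin N ≃ f ⁻¹' {s}} {u : X} {v : Fin N → ℂ} (i : Fin N) :
    permI f e u v (e u i) = v i := by
  rw [permI_of (e u i).2]
  simp

/-- the transported section, component by component -/
lemma lV_perm (hf : IsCoveringMap f) (e : ∀ s : X, Fin N ≃ f ⁻¹' {s}) (v : X → Fin N → ℂ)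
    {z x : X} (h : Adj f z x) (i : Fin N) :
    lV (permVHS hf e).P v z x i = permI f e x (v x) (tp f x (e z i)) := by
  have h2 : (tp f x (e z i) : Y) = e x ((pp hf e z x)⁻¹ i) := (e_pp_inv hf e h i).symm
  rw [h2, permI_self, lV, permVHS_P, cm_pg, pm_mulVec]

/-- near `y` the points are obtained by transport from `y` -/
lemma tp_near (hf : IsCoveringMap f) (y : Y) : ∀ᶠ y' in 𝓝 y, tp f (f y') y = y' := by
  obtain ⟨U, hU, hy, _⟩ := exists_good hf (f y) univ_mem
  have hs := isSec_tp hf hU hy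
  obtain ⟨e, hye, he⟩ := hf.isLocalHomeomorph y
  have h1 : ContinuousAt (fun u => tp f u y) (f y) :=
    hs.1.continuousAt (hU.sc.isOpen.mem_nhds hy)
  have h2 : ∀ᶠ u in 𝓝 (f y), tp f u y ∈ e.source := by
    apply h1.eventually_mem
    rw [tp_self hf]
    exact e.open_source.mem_nhds hye
  have h3 : ∀ᶠ u in 𝓝 (f y), u ∈ U := hU.sc.isOpen.mem_nhds hy
  have h4 := hf.continuous.continuousAt.eventually (h2.and h3)
  filter_upwards [h4, e.open_source.mem_nhds hye] with y' hy' hy's
  apply e.injOn hy'.1 hy's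
  rw [← he]
  exact hs.2 _ hy'.2

omit [T2Space X] in
/-- the sum over the fibre -/
lemma fint_perm (hf : IsCoveringMap f) (e : ∀ s : X, Fin N ≃ f ⁻¹' {s}) (u : X) (g : Y → ℝ≥0∞) :
    (permF (m := m) hf).fint u g = ∑ i, g (e u i) := by
  rw [FSp.fint]
  have h1 : (volume : Measure (Fin 0 → ℂ)) = Measure.dirac default := by
    rw [volume_pi, Measure.pi_of_empty _ default]
  rw [h1, lintegral_dirac]
  let E : Fin N ≃ {y : Y // (permF (m := m) hf).q y = u ∧ (permF (m := m) hf).t y = default} :=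
    (e u).trans ((Equiv.refl Y).subtypeEquiv (fun y => by
      constructor
      · intro h
        exact ⟨h, Subsingleton.elim _ _⟩
      · intro h
        exact h.1))
  rw [← E.tsum_eq, tsum_fintype]
  rfl

lemma hnsq_perm (hf : IsCoveringMap f) (e : ∀ s : X, Fin N ≃ f ⁻¹' {s}) (u : X)
    (v : Fin N → ℂ) : hnsq (permVHS hf e) u v = ∑ i, ‖v i‖ ^ 2 := by
  rw [hnsq, permVHS_S, permVHS_E, hodge_zero, Matrix.one_mulVec, dotProduct, Complex.re_sum]
  refine Finset.sum_congr rfl fun i _ => ?_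
  rw [Pi.star_apply, Complex.star_def, mul_comm, Complex.mul_conj, Complex.ofReal_re,
    Complex.normSq_eq_norm_sq]

/-- **Base case**: realisation of the permutation local system. -/
theorem rz_perm (hf : IsCoveringMap f) (e : ∀ s : X, Fin N ≃ f ⁻¹' {s}) :
    Rz (permVHS hf e) (permF (m := m) hf) (permI f e) where
  add u v v' _ _ y hy := by
    have hy' : f y = u := hy
    rw [permI_of hy', permI_of hy', permI_of hy']
    rfl
  smul u c v _ y hy := by
    have hy' : f y = u := hy
    rw [permI_of hy', permI_of hy']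
    rfl
  hol u v _ y hy := by
    have hy' : f y = u := hy
    refine ⟨fun _ => permI f e u v y, analyticAt_const, ?_⟩
    filter_upwards [tp_near (m := m) hf y] with y' h1 h2
    have h3 : f y' = u := h2
    have h4 : y' = y := by
      rw [← h1, h3, ← hy', tp_self hf]
    rw [h4]
  norm u v _ := by
    rw [FSp.fnorm, fint_perm hf e, hnsq_perm, ENNReal.ofReal_sum_of_nonneg (fun _ _ => by positivity)]
    refine Finset.sum_congr rfl fun i _ => ?_
    rw [permI_self, ENNReal.ofReal_pow (norm_nonneg _), ofReal_norm]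
  surj u g _ _ := by
    refine ⟨fun i => g (e u i), isTop_perm hf e u _, fun y hy => ?_⟩
    have hy' : f y = u := hy
    rw [permI_of hy']
    simp
  hol1 u₀ v hv _ y hy := by
    have hy' : f y = u₀ := hy
    subst hy'
    set i := (e (f y)).symm ⟨y, rfl⟩ with hi
    have hei : (e (f y) i : Y) = y := by simp [hi]
    refine ⟨fun p => (lV (permVHS hf e).P v (f y) ∘ (ch (f y)).symm) p.1 i, ?_, ?_⟩
    · have h1 : AnalyticAt ℂ (lV (permVHS hf e).P v (f y) ∘ (ch (f y)).symm) (cp (f y)) := hv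
      have h2 := (analyticAt_pi_iff.1 h1) i
      exact h2.comp_of_eq analyticAt_fst rfl
    · obtain ⟨U, hU, hadj⟩ := adj_nhds (m := m) hf (f y)
      have h3 := hf.continuous.continuousAt.eventually (show ∀ᶠ x in 𝓝 (f y), x ∈ U from hU)
      have h4 : ∀ᶠ y' in 𝓝 y, f y' ∈ (ch (f y)).source :=
        hf.continuous.continuousAt.eventually ((ch (f y)).open_source.mem_nhds (mem_ch (f y)))
      filter_upwards [tp_near (m := m) hf y, h3, h4] with y' h5 h6 h7
      show permI f e (f y') (v (f y')) y' = (lV (permVHS hf e).P v (f y)) ((ch (f y)).symm (cp (f y'))) i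
      rw [(isCh_ch (f y)).symm_cp h7, lV_perm hf e v (hadj _ (mem_of_mem_nhds hU) _ h6), hei, h5]
  hol2 u₀ v _ hv := by
    have hv0 := hv.self_of_nhds
    show AnalyticAt ℂ (lV (permVHS hf e).P v u₀ ∘ (ch u₀).symm) (cp u₀)
    rw [analyticAt_pi_iff]
    intro i
    have hy : f (e u₀ i) = u₀ := (e u₀ i).2
    obtain ⟨g, hg, h1⟩ := hv0 (e u₀ i) hy
    have hpc : (permF (m := m) hf).pc (e u₀ i : Y) = (cp u₀, default) := by
      show (cp (f (e u₀ i)), _) = (cp u₀, default)
      rw [hy]
      congr 1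
      exact Subsingleton.elim _ _
    rw [hpc] at hg
    have h2 : AnalyticAt ℂ (fun z : Fin m → ℂ => g (z, default)) (cp u₀) :=
      hg.comp_of_eq (analyticAt_id.prod analyticAt_const) rfl
    refine h2.congr ?_
    -- transport of the point
    obtain ⟨U, hU, hu0, _⟩ := exists_good hf u₀ univ_mem
    have hb : f (e u₀ i : Y) ∈ U := by rw [hy]; exact hu0
    have hs := isSec_tp hf hU hb
    have h3 : ContinuousAt (fun u => tp f u (e u₀ i : Y)) u₀ :=
      hs.1.continuousAt (hU.sc.isOpen.mem_nhds hu0)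
    have h4 : ∀ᶠ x in 𝓝 u₀, permI f e (f (tp f x (e u₀ i : Y))) (v (f (tp f x (e u₀ i : Y))))
        (tp f x (e u₀ i : Y)) = g ((permF (m := m) hf).pc (tp f x (e u₀ i : Y))) := by
      have : tp f u₀ (e u₀ i : Y) = e u₀ i := tp_self' hf hy
      have h5 : Tendsto (fun u => tp f u (e u₀ i : Y)) (𝓝 u₀) (𝓝 (e u₀ i : Y)) := by
        have h6 := h3.tendsto
        rwa [this] at h6
      exact h5.eventually h1
    have h7 : ∀ᶠ x in 𝓝 u₀, x ∈ U := hU.sc.isOpen.mem_nhds hu0
    have h8 : Tendsto (ch u₀).symm (𝓝 (cp u₀)) (𝓝 u₀) := by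
      have := (ch u₀).symm.continuousAt (x := cp u₀) (by simpa using (isCh_ch u₀).cp_mem (mem_ch u₀))
      rwa [ContinuousAt, (isCh_ch u₀).symm_cp (mem_ch u₀)] at this
    have h9 : ∀ᶠ z in 𝓝 (cp u₀), z ∈ (ch u₀).target :=
      (ch u₀).open_target.mem_nhds ((isCh_ch u₀).cp_mem (mem_ch u₀))
    filter_upwards [h8.eventually (h4.and h7), h9] with z hz hzt
    obtain ⟨hz1, hz2⟩ := hz
    set x := (ch u₀).symm z with hx
    have h10 : f (tp f x (e u₀ i : Y)) = x := hs.2 x hz2
    have h11 : cp x = z := (isCh_ch u₀).cp_symm hzt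
    have h12 : (permF (m := m) hf).pc (tp f x (e u₀ i : Y)) = (z, default) := by
      show (cp (f (tp f x (e u₀ i : Y))), _) = _
      rw [h10, h11]
      congr 1
      exact Subsingleton.elim _ _
    rw [h10, h12] at hz1
    show g (z, default) = lV (permVHS hf e).P v u₀ x i
    rw [lV_perm hf e v ⟨U, hU, hu0, hz2⟩, hz1]

/-- compatibility with the group action -/
theorem rzAct_perm (hf : IsCoveringMap f) (e : ∀ s : X, Fin N ≃ f ⁻¹' {s}) {Γ : Type} [Group Γ]
    (α : Γ →* Equiv.Perm Y) (hα : ∀ g, Continuous (α g)) (hfα : ∀ g y, f (α g y) = f y) :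
    RzAct (permAct (m := m) hf e α hα hfα) (permF (m := m) hf) (permI f e) (fun g => α g) where
  q g y := hfα g y
  t g y := rfl
  eqv g u v _ y hy := by
    have hy' : f y = u := hy
    rw [permI_of hy', permI_of (by rw [hfα]; exact hy')]
    show (cm (pg (ag e (α g) (hfα g) u)) *ᵥ v) _ = _
    rw [cm_pg, pm_mulVec]
    congr 1
    rw [Equiv.Perm.inv_eq_iff_eq]
    apply (e u).injective
    apply Subtype.ext
    rw [e_ag]
    simp

end

end Crest.Agent.R276.Perm_840
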