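import Crest.Agent.R276.Tow2_244
import Crest.Agent.R276.Res_735
import Crest.Agent.R276.PermV_840

/-!
# Row 276, leaf IPC-ITER (helper840): induction over the tower of discriminants

Inputs (as `Prop`-valued definitions):
* `OneStep` (`IpcDefs_735`);
* `StepRz`, `StepRzAct` : helper815's step of the realisation (`Top8d_815`).

Outputs:
* `iter` : from a realised variation over the level `r` of a tower (`Tow2_244.PTow.lvl`) to a realised
  variation over the base;
* `geoVHS` : the geometric variation of a finite covering `f : Y → X_r`: a polarised `ℤ`-variation `W` of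
  weight `r` over the base, with group action, whose top piece is identified (isometrically,
  holomorphically, equivariantly) with the `L²` holomorphic functions on the fibres of `Y → S`.
-/

set_option autoImplicit false

noncomputable section

open Set Filter Topology MeasureTheory Matrix
open Crest.Agent.R271.Ho51 Crest.Agent.R276.Ipc735 Crest.Agent.R276.Top8_815
open Crest.Agent.R276.Tow2_244 Crest.Agent.R276.Perm_840

namespace Crest.Agent.R276.Iter_840

/-- helper815's step theorem: the realisation goes down. -/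
def StepRz : Prop :=
  ∀ (m k N N' w d : ℕ) (S : Type) [TopologicalSpace S] [T2Space S] [SecondCountableTopology S]
    [PreconnectedSpace S] [RDom m S] (Y : Type) [TopologicalSpace Y] [T2Space Y]
    (Q : Punc S k) (V : VHS (m + 1) (Tot Q) N w) (W : VHS m S N' (w + 1))
    (R : ∀ s : S, PVHS (Q.A s) N w) (cl : ∀ _ : S, (ℂ → Fin N → ℂ) → (Fin N' → ℂ))
    (F : FSp (m + 1) d (Tot Q) Y) (ι : Tot Q → (Fin N → ℂ) → Y → ℂ),
    Rz V F ι → StepTop Q V W R cl → Rz W F.down (down R cl F ι)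

/-- the clause of `OneStep` about the group action -/
def StepEqv {m k N N' w : ℕ} {S : Type*} [TopologicalSpace S] [RDom m S] (Q : Punc S k)
    {V : VHS (m + 1) (Tot Q) N w} {W : VHS m S N' (w + 1)} {Γ : Type} [Group Γ] (ρ : Act V Γ)
    (ρ' : Act W Γ) (R : ∀ s : S, PVHS (Q.A s) N w)
    (cl : ∀ _ : S, (ℂ → Fin N → ℂ) → (Fin N' → ℂ)) : Prop :=
  ∀ s g f, (R s).Top f →
    cl s (fun x => rM Q (fun q => cm (ρ.ρ g q)) s x *ᵥ f x) = cm (ρ'.ρ g s) *ᵥ cl s f

/-- helper815's step theorem: the compatibility with the group action goes down. -/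
def StepRzAct : Prop :=
  ∀ (m k N N' w d : ℕ) (S : Type) [TopologicalSpace S] [T2Space S] [SecondCountableTopology S]
    [PreconnectedSpace S] [RDom m S] (Y : Type) [TopologicalSpace Y] [T2Space Y]
    (Q : Punc S k) (V : VHS (m + 1) (Tot Q) N w) (W : VHS m S N' (w + 1))
    (R : ∀ s : S, PVHS (Q.A s) N w) (cl : ∀ _ : S, (ℂ → Fin N → ℂ) → (Fin N' → ℂ))
    (F : FSp (m + 1) d (Tot Q) Y) (ι : Tot Q → (Fin N → ℂ) → Y → ℂ)
    (Γ : Type) [Group Γ] (ρ : Act V Γ) (ρ' : Act W Γ) (α : Γ → Y → Y),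
    Rz V F ι → RzAct ρ F ι α → StepTop Q V W R cl → StepEqv Q ρ ρ' R cl →
      RzAct ρ' F.down (down R cl F ι) α

theorem t2Space_of_isSeparatedMap {X Y : Type*} [TopologicalSpace X] [TopologicalSpace Y]
    [T2Space X] {f : Y → X} (hf : IsSeparatedMap f) (hc : Continuous f) : T2Space Y := by
  refine ⟨fun x y hxy => ?_⟩
  by_cases h : f x = f y
  · exact hf x y h hxy
  · obtain ⟨u, v, hu, hv, h1, h2, h3⟩ := t2_separation h
    exact ⟨f ⁻¹' u, f ⁻¹' v, hu.preimage hc, hv.preimage hc, h1, h2, h3.preimage f⟩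

section

variable {m : ℕ} (T : PTow m) (L₀ : Lvl m (T.c 0)) {Y : Type} [TopologicalSpace Y]
  {Γ : Type} [Group Γ]

/-- **Induction over the tower.** -/
theorem iter [T2Space Y] (hO : OneStep) (hR : StepRz) (hA : StepRzAct) (α : Γ → Y → Y) :
    ∀ (r d N w : ℕ) (V : VHS (m + r) (T.lvl L₀ r).X N w) (ρ : Act V Γ)
      (F : FSp (m + r) d (T.lvl L₀ r).X Y) (ι : (T.lvl L₀ r).X → (Fin N → ℂ) → Y → ℂ),
      Rz V F ι → RzAct ρ F ι α → ∀ w' d' : ℕ, w' = w + r → d' = d + r →
      ∃ (N' : ℕ) (W : VHS m L₀.X N' w') (ρ' : Act W Γ) (F' : FSp m d' L₀.X Y)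
        (ι' : L₀.X → (Fin N' → ℂ) → Y → ℂ), Rz W F' ι' ∧ RzAct ρ' F' ι' α ∧
        (∀ y, F'.q y = T.toBase L₀ r (F.q y)) ∧
        (∀ y (i : ℕ) (hi : i < d'), i < r → F'.t y ⟨i, hi⟩ = T.fx L₀ r i (F.q y)) ∧
        (∀ y (i : ℕ) (hi : i < d) (hi' : r + i < d'), F'.t y ⟨r + i, hi'⟩ = F.t y ⟨i, hi⟩) := by
  intro r
  induction r with
  | zero =>
    intro d N w V ρ F ι h1 h2 w' d' hw hd
    obtain rfl : w' = w := by omega
    obtain rfl : d' = d := by omega
    refine ⟨N, V, ρ, F, ι, h1, h2, fun y => rfl, fun y i hi h => absurd h (by omega), ?_⟩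
    intro y i hi hi'
    congr 2
    omega
  | succ r ih =>
    intro d N w V ρ F ι h1 h2 w' d' hw hd
    -- the one-step theorem at level `r`
    let Q := T.punc r (T.lvl L₀ r)
    let V1 : VHS (m + r + 1) (Tot Q) N w := V
    obtain ⟨N1, W, ρ1, cl, c1, c2, c3, c4, c5, c6, c7, c8⟩ :=
      hO (m + r) (T.P r).natDegree N w (T.lvl L₀ r).X Q V1 Γ ρ (fun s => VHS.res V1 s)
        (fun s => VHS.isRes V1 s)
    have hst : StepTop Q V1 W (fun s => VHS.res V1 s) cl :=
      ⟨fun s => VHS.isRes V1 s, c1, c2, c3, c4, c5, c7, c8⟩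
    have hrz := hR (m + r) (T.P r).natDegree N N1 w d (T.lvl L₀ r).X Y Q V1 W
      (fun s => VHS.res V1 s) cl F ι h1 hst
    have hact := hA (m + r) (T.P r).natDegree N N1 w d (T.lvl L₀ r).X Y Q V1 W
      (fun s => VHS.res V1 s) cl F ι Γ ρ ρ1 α h1 h2 hst c6
    obtain ⟨N', W', ρ', F', ι', r1, r2, r3, r4, r5⟩ := ih (d + 1) N1 (w + 1) W ρ1 F.down
      (down (fun s => VHS.res V1 s) cl F ι) hrz hact w' d' (by omega) (by omega)
    refine ⟨N', W', ρ', F', ι', r1, r2, ?_, ?_, ?_⟩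
    · intro y
      rw [r3]
      rfl
    · intro y i hi hir
      by_cases hir' : i < r
      · rw [r4 y i hi hir']
        show _ = (if i = r then (F.q y).1.2 else T.fx L₀ r i (F.q y).1.1)
        rw [if_neg (by omega)]
        rfl
      · obtain rfl : i = r := by omega
        have h5 := r5 y 0 (by omega) (by omega)
        show _ = (if i = i then (F.q y).1.2 else T.fx L₀ i i (F.q y).1.1)
        rw [if_pos rfl]
        exact h5
    · intro y i hi hi'
      have h5 := r5 y (i + 1) (by omega) (by omega)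
      have h6 : F'.t y ⟨r + 1 + i, hi'⟩ = F'.t y ⟨r + (i + 1), by omega⟩ := by
        congr 2
        omega
      rw [h6, h5]
      rfl

/-- **The geometric variation of a finite covering of the top level of the tower.** -/
theorem geoVHS (hO : OneStep) (hR : StepRz) (hA : StepRzAct) (r N : ℕ)
    {f : Y → (T.lvl L₀ r).X} (hf : IsCoveringMap f)
    (e : ∀ s : (T.lvl L₀ r).X, Fin N ≃ f ⁻¹' {s})
    (α : Γ →* Equiv.Perm Y) (hα : ∀ g, Continuous (α g)) (hfα : ∀ g y, f (α g y) = f y) :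
    ∃ (N' : ℕ) (W : VHS m L₀.X N' r) (ρ : Act W Γ) (F : FSp m r L₀.X Y)
      (ι : L₀.X → (Fin N' → ℂ) → Y → ℂ), Rz W F ι ∧ RzAct ρ F ι (fun g => α g) ∧
      (∀ y, F.q y = T.toBase L₀ r (f y)) ∧ (∀ y (i : Fin r), F.t y i = T.fx L₀ r i (f y)) := by
  have hY : T2Space Y := t2Space_of_isSeparatedMap hf.isSeparatedMap hf.continuous
  obtain ⟨N', W, ρ, F, ι, r1, r2, r3, r4, _⟩ := iter T L₀ hO hR hA (fun g => α g) r 0 N 0
    (permVHS hf e) (permAct hf e α hα hfα) (permF hf) (permI f e) (rz_perm hf e)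
    (rzAct_perm hf e α hα hfα) r r (by omega) (by omega)
  exact ⟨N', W, ρ, F, ι, r1, r2, r3, fun y i => r4 y i i.2 i.2⟩

end

end Crest.Agent.R276.Iter_840
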