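import Crest.Agent.R276.Fri_348
import Crest.Agent.R276.Rc_348
import Crest.Agent.R276.FriD_348
import Crest.Agent.R276.IpcIter_840
import Crest.Agent.R276.Tow4_244
import Crest.Agent.R271.Null_956

/-!
# R276, leaf FRI (helper348): finite rank of `c ↦ ∫_M |∑ c k * g k| ^ (2 / N)`

`fri` : for a model `M : Mdl K r`, `g : Fin s → M.B` not all zero, `N ≠ 0`, the function
`Φ c = ∫_M |∑ c k * g k| ^ (2 / N)` (assumed finite) satisfies helper39's `LocRank` off a hypersurface.
Inputs: `OneStep`, `StepRz`, `StepRzAct`.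
-/

set_option autoImplicit false

noncomputable section

open Set Filter Topology MeasureTheory
open Crest.Agent.R271.Ho51 Crest.Agent.R271.Defs710 Crest.Agent.R271.Rd692
open Crest.Agent.R276.Ipc735 Crest.Agent.R276.Top8_815
open Crest.Agent.R276.Tow2_244 Crest.Agent.R276.Iter_840 Crest.Agent.R276.Mod1_987
open Crest.Agent.R276.Rc_348 Crest.Agent.R276.FriD_348
open scoped ENNReal

namespace Crest.Agent.R276.Fri2_348

variable {s : ℕ}

/-! ### the base -/

/-- The base of the tower in `ℂˢ`. -/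
abbrev baseX (T : PTow s) : Type := {c : Fin s → ℂ // MvPolynomial.eval c (T.c 0) ≠ 0}

theorem isOpen_base (T : PTow s) : IsOpen {c : Fin s → ℂ | MvPolynomial.eval c (T.c 0) ≠ 0} :=
  isOpen_ne_fun (MvPolynomial.continuous_eval _) continuous_const

instance (T : PTow s) : RDom s (baseX T) where
  p := Subtype.val
  hp := (isOpen_base T).isOpenEmbedding_subtypeVal.isLocalHomeomorph

theorem cp_base (T : PTow s) (c : baseX T) : cp c = c.1 := rfl

instance (T : PTow s) : PreconnectedSpace (baseX T) :=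
  Subtype.preconnectedSpace (isPreconnected_ne (T.c 0))

/-- The base as a level. -/
def base (T : PTow s) : Lvl s (T.c 0) where
  X := baseX T
  hc := fun x => x.2

theorem crd_eq (T : PTow s) {L₀ : Lvl s (T.c 0)} {Y : Type*} (f : Y → L₀.X) (x : ℕ → Y → ℂ) (y : Y)
    (j : ℕ) : T.crd L₀ f x y j = crd0 (fun i => x i y) (cp (f y)) j := by
  induction j with
  | zero => rfl
  | succ j ih =>
    show (Fin.cons (x j y) (T.crd L₀ f x y j) : Fin (s + j + 1) → ℂ) = _
    rw [ih]; rfl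

theorem surjective_toBase (T : PTow s) (L₀ : Lvl s (T.c 0)) (j : ℕ) :
    Function.Surjective (T.toBase L₀ j) := by
  induction j with
  | zero => exact Function.surjective_id
  | succ j ih =>
    intro s₀
    obtain ⟨q, hq⟩ := ih s₀
    obtain ⟨q', hq'⟩ := surjective_fst' (T.punc j (T.lvl L₀ j)) q
    refine ⟨q', ?_⟩
    show T.toBase L₀ j (Tot.fst _ q') = s₀
    rw [hq', hq]

/-- Over a point of the base almost all fibre coordinates satisfy all conditions. -/
theorem ae_good (T : PTow s) (L₀ : Lvl s (T.c 0)) (r : ℕ) (u : L₀.X) :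
    ∀ᵐ τ : Fin r → ℂ, ∀ i ≤ r, MvPolynomial.eval (crd0 (ex0 τ) (cp u) i) (T.c i) ≠ 0 := by
  obtain ⟨q, hq⟩ := surjective_toBase T L₀ r u
  let τ₀ : Fin r → ℂ := fun i => T.fx L₀ r i q
  have h1 : ∀ i ≤ r, MvPolynomial.eval (crd0 (ex0 τ₀) (cp u) i) (T.c i) ≠ 0 := by
    intro i hi
    have h2 := T.ne_zero_of_lvl L₀ r q i hi
    rw [crd_eq, hq] at h2
    rw [crd0_congr (x' := fun i => T.fx L₀ r i q)]
    · exact h2
    · intro k hk
      simp [ex0, τ₀, show k < r by omega]
  rw [ae_all_iff]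
  intro i
  by_cases hi : i ≤ r
  · let A : MvPolynomial (Fin r) ℂ := MvPolynomial.aeval
      (crd0 (fun k => if h : k < r then (MvPolynomial.X ⟨k, h⟩ : MvPolynomial (Fin r) ℂ) else 0)
        (fun k => MvPolynomial.C (cp u k)) i) (T.c i)
    have hA : ∀ τ : Fin r → ℂ, MvPolynomial.eval τ A =
        MvPolynomial.eval (crd0 (ex0 τ) (cp u) i) (T.c i) := by
      intro τ
      have h3 : (MvPolynomial.eval τ).comp (MvPolynomial.aeval
        (crd0 (fun k => if h : k < r then (MvPolynomial.X ⟨k, h⟩ : MvPolynomial (Fin r) ℂ) else 0)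
        (fun k => MvPolynomial.C (cp u k)) i) :
          MvPolynomial (Fin (s + i)) ℂ →ₐ[ℂ] MvPolynomial (Fin r) ℂ).toRingHom =
          MvPolynomial.eval (crd0 (ex0 τ) (cp u) i) := by
        apply MvPolynomial.ringHom_ext
        · intro c; simp
        · intro k
          have h4 := congrFun (crd0_comp (MvPolynomial.eval τ)
            (fun k => if h : k < r then (MvPolynomial.X ⟨k, h⟩ : MvPolynomial (Fin r) ℂ) else 0)
            (fun k => MvPolynomial.C (cp u k)) i) k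
          simp only [AlgHom.toRingHom_eq_coe, RingHom.coe_comp, RingHom.coe_coe,
            Function.comp_apply, MvPolynomial.aeval_X, MvPolynomial.eval_X]
          rw [h4]
          congr 1
          · funext k
            by_cases hk : k < r
            · simp [hk, ex0]
            · simp [hk, ex0]
          · funext k; simp
      exact congrArg (fun φ : MvPolynomial (Fin (s + i)) ℂ →+* ℂ => φ (T.c i)) h3
    have hA0 : A ≠ 0 := by
      intro h
      apply h1 i hi
      rw [← hA, h, map_zero]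
    filter_upwards [Crest.Agent.R271.Null956.ae_eval_ne hA0] with τ hτ _
    rw [← hA]; exact hτ
  · exact Eventually.of_forall fun τ h => absurd h hi

/-! ### the covering -/

variable {K : Type} [Field K] [Algebra ℂ K] {r : ℕ} (M : Mdl K r)

theorem analytic_local (b : M.B) (p₀ : M.Pts) : ∃ G : (Fin r → ℂ) → ℂ, AnalyticAt ℂ G (M.pz p₀) ∧
    ∀ᶠ p : M.Pts in 𝓝 p₀, p b = G (M.pz p) := by
  obtain ⟨C⟩ := M.hch p₀
  obtain ⟨S, ε, hε, hS⟩ := C.surj
  refine ⟨fun w => C.s (w - M.pz p₀) b, ?_, ?_⟩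
  · have h1 : AnalyticAt ℂ (fun ζ => C.s ζ b) ((fun w : Fin r → ℂ => w - M.pz p₀) (M.pz p₀)) := by
      simp only [sub_self]
      exact C.anal b 0 (Metric.mem_ball_self C.r_pos)
    exact AnalyticAt.comp (g := fun ζ => C.s ζ b) (f := fun w : Fin r → ℂ => w - M.pz p₀) h1
      (analyticAt_id.sub analyticAt_const)
  · have h2 : ∀ᶠ p : M.Pts in 𝓝 p₀, ∀ b ∈ S, ‖p b - p₀ b‖ < ε := by
      rw [Filter.eventually_all_finset]
      intro b _
      have h3 : Tendsto (fun p : M.Pts => p b) (𝓝 p₀) (𝓝 (p₀ b)) :=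
        (continuous_ev b).tendsto p₀
      have h4 : Tendsto (fun p : M.Pts => ‖p b - p₀ b‖) (𝓝 p₀) (𝓝 0) :=
        tendsto_iff_norm_sub_tendsto_zero.1 h3
      exact h4.eventually (gt_mem_nhds hε)
    filter_upwards [h2] with p hp
    have h5 := hS p hp
    show p b = C.s (M.pz p - M.pz p₀) b
    have h6 : (fun i => p (M.z i) - p₀ (M.z i)) = M.pz p - M.pz p₀ := rfl
    rw [← h6, ← h5]

variable (T : PTow s)

/-- `{(p, c)}` over the top level of the tower. -/
abbrev Zt : Type := {q : M.Pts × (Fin s → ℂ) //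
  ∀ i ≤ r, MvPolynomial.eval (crd0 (ex0 (M.pz q.1)) q.2 i) (T.c i) ≠ 0}

theorem isOpen_Zt : IsOpen {q : M.Pts × (Fin s → ℂ) |
    ∀ i ≤ r, MvPolynomial.eval (crd0 (ex0 (M.pz q.1)) q.2 i) (T.c i) ≠ 0} := by
  have h1 : {q : M.Pts × (Fin s → ℂ) |
      ∀ i ≤ r, MvPolynomial.eval (crd0 (ex0 (M.pz q.1)) q.2 i) (T.c i) ≠ 0} =
      ⋂ i ∈ Set.Iic r, {q | MvPolynomial.eval (crd0 (ex0 (M.pz q.1)) q.2 i) (T.c i) ≠ 0} := by
    ext q; simp
  rw [h1]
  refine (Set.finite_Iic r).isOpen_biInter fun i _ => ?_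
  refine isOpen_ne_fun ?_ continuous_const
  refine (MvPolynomial.continuous_eval (T.c i)).comp ?_
  refine continuous_crd0 (x := fun k (q : M.Pts × (Fin s → ℂ)) => ex0 (M.pz q.1) k)
    (c := fun q => q.2) (fun k => ?_) continuous_snd i
  exact (continuous_ex0 k).comp ((continuous_pr M.z).comp continuous_fst)

/-- to the base -/
def f0 (q : Zt M T) : (base T).X := (⟨q.1.2, q.2 0 (Nat.zero_le _)⟩ : baseX T)

theorem cp_f0 (q : Zt M T) : cp (f0 M T q) = q.1.2 := rfl

theorem continuous_f0 : Continuous (f0 M T) :=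
  Continuous.subtype_mk (continuous_snd.comp continuous_subtype_val) _

/-- fibre coordinates -/
def xc (i : ℕ) (q : Zt M T) : ℂ := ex0 (M.pz q.1.1) i

theorem continuous_xc (i : ℕ) : Continuous (xc M T i) :=
  (continuous_ex0 i).comp ((continuous_pr M.z).comp (continuous_fst.comp continuous_subtype_val))

theorem crd_Zt (q : Zt M T) (j : ℕ) :
    T.crd (base T) (f0 M T) (xc M T) q j = crd0 (ex0 (M.pz q.1.1)) q.1.2 j := by
  rw [crd_eq, cp_f0]; rfl

theorem good_Zt (q : Zt M T) : ∀ i ≤ r,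
    MvPolynomial.eval (T.crd (base T) (f0 M T) (xc M T) q i) (T.c i) ≠ 0 := by
  intro i hi
  rw [crd_Zt]; exact q.2 i hi

/-- the map to the top level -/
def fZ : Zt M T → (T.lvl (base T) r).X := T.lift (base T) (f0 M T) (xc M T) r (good_Zt M T)

theorem lh_pz : IsLocalHomeomorph (fun q : M.Pts × (Fin s → ℂ) => (M.pz q.1, q.2)) := by
  refine IsLocalHomeomorph.mk _ fun q => ?_
  refine ⟨(ch q.1).prod (OpenPartialHomeomorph.refl _), ?_, ?_⟩
  · simp [mem_ch]
  · intro y hy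
    simp only [OpenPartialHomeomorph.prod_apply, OpenPartialHomeomorph.refl_apply]
    have h1 : (ch q.1) y.1 = cp y.1 := (isCh_ch q.1).apply y.1
    rw [h1]; rfl

theorem lh_fZ : IsLocalHomeomorph (fZ M T) := by
  refine T.isLocalHomeomorph_lift (continuous_f0 M T) (continuous_xc M T) ?_
  obtain ⟨E, hE⟩ := exists_homeo (s := s) r
  have h1 : (fun q => T.crd (base T) (f0 M T) (xc M T) q r) =
      E ∘ (fun q : M.Pts × (Fin s → ℂ) => (M.pz q.1, q.2)) ∘ (Subtype.val : Zt M T → _) := by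
    funext q
    rw [crd_Zt]; exact (hE _ _).symm
  rw [h1]
  exact E.isLocalHomeomorph.comp ((lh_pz M).comp
    (isOpen_Zt M T).isOpenEmbedding_subtypeVal.isLocalHomeomorph)

theorem cp_fZ (q : Zt M T) : (cp (fZ M T q) : Fin (s + r) → ℂ) =
    crd0 (ex0 (M.pz q.1.1)) q.1.2 r := by
  unfold fZ
  rw [T.cp_lift, crd_Zt]

theorem toBase_fZ (q : Zt M T) : T.toBase (base T) r (fZ M T q) = f0 M T q := T.toBase_lift q

/-- the fibre coordinates of the image -/
theorem fx_fZ (q : Zt M T) (i : Fin r) : T.fx (base T) r i (fZ M T q) = M.pz q.1.1 i := by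
  obtain ⟨e, he⟩ := exists_posEquiv (s := s) r
  have h1 := T.crd_fx (base T) r (fZ M T q)
  rw [cp_fZ, crd_eq] at h1
  have h2 := congrFun h1 (e (Sum.inl i))
  rw [(he _ _).1, (he _ _).1, ex0_val] at h2
  exact h2

theorem compact_fZ (hT : ∀ x : (T.lvl (base T) r).X, ∀ (y : Fin r → ℂ) (c : Fin s → ℂ),
    (cp x : Fin (s + r) → ℂ) = crd0 (ex0 y) c r → MvPolynomial.eval y M.h ≠ 0)
    {S : Set (T.lvl (base T) r).X} (hS : IsCompact S) : IsCompact (fZ M T ⁻¹' S) := by
  obtain ⟨E, hE⟩ := exists_homeo (s := s) r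
  let A : Set ((Fin r → ℂ) × (Fin s → ℂ)) :=
    E.symm '' ((fun x : (T.lvl (base T) r).X => (cp x : Fin (s + r) → ℂ)) '' S)
  have hA : IsCompact A := (hS.image cp_cont).image E.symm.continuous
  have hA1 : ∀ q ∈ A, ∃ x ∈ S, (cp x : Fin (s + r) → ℂ) = crd0 (ex0 q.1) q.2 r := by
    rintro _ ⟨_, ⟨x, hx, rfl⟩, rfl⟩
    refine ⟨x, hx, ?_⟩
    have h1 := hE (E.symm (cp x)).1 (E.symm (cp x)).2
    rw [Prod.mk.eta, E.apply_symm_apply] at h1
    exact h1
  -- points of `A` satisfy all the conditions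
  have hA2 : ∀ q ∈ A, ∀ i ≤ r, MvPolynomial.eval (crd0 (ex0 q.1) q.2 i) (T.c i) ≠ 0 := by
    intro q hq i hi
    obtain ⟨x, hx, hxq⟩ := hA1 q hq
    obtain ⟨e, he⟩ := exists_posEquiv (s := s) r
    have h1 := T.ne_zero_of_lvl (base T) r x i hi
    rw [crd_eq] at h1
    have h2 := T.crd_fx (base T) r x
    rw [crd_eq, hxq] at h2
    have h3 : (cp (T.toBase (base T) r x) : Fin s → ℂ) = q.2 := by
      funext k
      have := congrFun h2 (e (Sum.inr k))
      rw [(he _ _).2, (he _ _).2] at this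
      exact this
    have h4 : ∀ k < r, (fun i => T.fx (base T) r i x) k = ex0 q.1 k := by
      intro k hk
      have := congrFun h2 (e (Sum.inl ⟨k, hk⟩))
      rw [(he _ _).1, (he _ _).1] at this
      exact this
    rw [h3, crd0_congr _ (fun k hk => h4 k (by omega))] at h1
    exact h1
  have hA3 : ∀ q ∈ A, MvPolynomial.eval q.1 M.h ≠ 0 := by
    intro q hq
    obtain ⟨x, hx, hxq⟩ := hA1 q hq
    exact hT x q.1 q.2 hxq
  -- the preimage in `M.Pts × ℂˢ`
  have hB : IsCompact ((fun q : M.Pts × (Fin s → ℂ) => (M.pz q.1, q.2)) ⁻¹' A) := by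
    have h1 : IsCompact (M.pz ⁻¹' (Prod.fst '' A)) := by
      refine M.isCompact_preimage (hA.image continuous_fst) ?_
      rintro _ ⟨q, hq, rfl⟩
      exact hA3 q hq
    have h2 : IsCompact ((M.pz ⁻¹' (Prod.fst '' A)) ×ˢ (Prod.snd '' A)) :=
      h1.prod (hA.image continuous_snd)
    refine h2.of_isClosed_subset ?_ ?_
    · refine hA.isClosed.preimage ?_
      exact ((continuous_pr M.z).comp continuous_fst).prodMk continuous_snd
    · intro q hq
      exact ⟨⟨_, hq, rfl⟩, ⟨_, hq, rfl⟩⟩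
  have hsub : (fun q : M.Pts × (Fin s → ℂ) => (M.pz q.1, q.2)) ⁻¹' A ⊆
      Set.range (Subtype.val : Zt M T → M.Pts × (Fin s → ℂ)) := by
    intro q hq
    have h5 := hA2 (M.pz q.1, q.2) hq
    exact Set.mem_range.2 ⟨(⟨q, h5⟩ : Zt M T), rfl⟩
  have hC : IsCompact ((Subtype.val : Zt M T → M.Pts × (Fin s → ℂ)) ⁻¹'
      ((fun q : M.Pts × (Fin s → ℂ) => (M.pz q.1, q.2)) ⁻¹' A)) :=
    Topology.IsInducing.subtypeVal.isCompact_preimage' hB hsub
  refine hC.of_isClosed_subset (hS.isClosed.preimage (lh_fZ M T).continuous) ?_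
  intro q hq
  have h1 : E.symm (cp (fZ M T q)) = (M.pz q.1.1, q.1.2) := by
    rw [E.symm_apply_eq, cp_fZ, hE]
  have h2 : E.symm (cp (fZ M T q)) ∈ A := ⟨cp (fZ M T q), ⟨fZ M T q, hq, rfl⟩, rfl⟩
  rw [h1] at h2
  exact h2

end Crest.Agent.R276.Fri2_348
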