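import Crest.Agent.R276.Fri2_348

/-!
# R276, leaf FRI (helper348), final theorem `fri`

For a model `M : Mdl K r`, `g : Fin s → M.B` not all zero, `N ≠ 0`, the function
`Φ c = ∫_M |∑ c k * g k| ^ (2 / N)` (assumed finite) is locally of finite rank (`LocRank` of helper39)
off a hypersurface of `ℂˢ`.
-/

set_option autoImplicit false

noncomputable section

open Set Filter Topology MeasureTheory
open Crest.Agent.R271.Ho51 Crest.Agent.R271.Defs710 Crest.Agent.R271.Rd692
open Crest.Agent.R276.Ipc735 Crest.Agent.R276.Top8_815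
open Crest.Agent.R276.Tow2_244 Crest.Agent.R276.Iter_840 Crest.Agent.R276.Mod1_987
open Crest.Agent.R276.Rc_348 Crest.Agent.R276.FriD_348 Crest.Agent.R276.Fri2_348
open scoped ENNReal

namespace Crest.Agent.R276.Fri3_348

variable {s : ℕ} {K : Type} [Field K] [Algebra ℂ K] {r : ℕ} (M : Mdl K r) (T : PTow s)
  (g : Fin s → M.B)

/-- the section `∑ c k * g k` -/
def sc (q : Zt M T) : ℂ := ∑ k, q.1.2 k * q.1.1 (g k)

theorem continuous_sc : Continuous (sc M T g) := by
  refine continuous_finsetSum _ fun k _ => ?_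
  refine Continuous.mul ?_ ?_
  · exact (continuous_apply k).comp (continuous_snd.comp continuous_subtype_val)
  · exact (continuous_ev (g k)).comp (continuous_fst.comp continuous_subtype_val)

variable (N : ℕ)

/-- the root cover -/
abbrev YY : Type := RC (sc M T g) N

/-- the covering -/
def ff (y : YY M T g N) : (T.lvl (base T) r).X := fZ M T y.pr

/-- The hypothesis on the tower. -/
def Adm : Prop := ∀ (x : ℕ → ℂ) (c : Fin s → ℂ), MvPolynomial.eval (crd0 x c r) (T.c r) ≠ 0 →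
      MvPolynomial.eval (fun i : Fin r => x i) M.h ≠ 0 ∧
      ∀ p : M.Pts, (M.pz p = fun i : Fin r => x i) → ∑ k, c k * p (g k) ≠ 0

variable {M T g N}

theorem Adm.h_ne (hA : Adm M T g) (y : Fin r → ℂ) (c : Fin s → ℂ)
    (h : MvPolynomial.eval (crd0 (ex0 y) c r) (T.c r) ≠ 0) : MvPolynomial.eval y M.h ≠ 0 := by
  have h1 := (hA (ex0 y) c h).1
  simpa using h1

theorem Adm.sum_ne (hA : Adm M T g) (p : M.Pts) (c : Fin s → ℂ)
    (h : MvPolynomial.eval (crd0 (ex0 (M.pz p)) c r) (T.c r) ≠ 0) :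
    ∑ k, c k * p (g k) ≠ 0 := by
  refine (hA (ex0 (M.pz p)) c h).2 p ?_
  funext i; simp

theorem Adm.sc_ne (hA : Adm M T g) (q : Zt M T) : sc M T g q ≠ 0 :=
  hA.sum_ne q.1.1 q.1.2 (q.2 r le_rfl)

theorem lh_ff (hA : Adm M T g) (hN : N ≠ 0) : IsLocalHomeomorph (ff M T g N) :=
  (lh_fZ M T).comp (rc_lh hN (continuous_sc M T g) hA.sc_ne)

theorem compact_ff (hA : Adm M T g) (hN : N ≠ 0) {S : Set (T.lvl (base T) r).X}
    (hS : IsCompact S) : IsCompact (ff M T g N ⁻¹' S) := by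
  have h1 : IsCompact (fZ M T ⁻¹' S) := by
    refine compact_fZ M T (fun x y c hx => ?_) hS
    refine hA.h_ne y c ?_
    rw [← hx]
    exact (T.lvl (base T) r).hc x
  exact rc_compact hN (continuous_sc M T g) h1
    (hS.isClosed.preimage (lh_fZ M T).continuous)

/-- Riemann domains are locally compact. -/
theorem wlc_rdom {n : ℕ} (X : Type*) [TopologicalSpace X] [RDom n X] :
    WeaklyLocallyCompactSpace X := by
  refine ⟨fun x => ?_⟩
  have h1 : (ch x).target ∈ 𝓝 ((ch x) x) :=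
    (ch x).open_target.mem_nhds ((ch x).map_source (mem_ch x))
  obtain ⟨ε, hε, hb⟩ := Metric.nhds_basis_closedBall.mem_iff.1 h1
  refine ⟨(ch x).symm '' Metric.closedBall ((ch x) x) ε,
    (isCompact_closedBall _ _).image_of_continuousOn ((ch x).continuousOn_symm.mono hb), ?_⟩
  have h2 : (ch x).source ∩ (ch x) ⁻¹' (Metric.ball ((ch x) x) ε) ∈ 𝓝 x :=
    ((ch x).isOpen_inter_preimage Metric.isOpen_ball).mem_nhds
      ⟨mem_ch x, Metric.mem_ball_self hε⟩
  filter_upwards [h2] with y hy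
  exact ⟨(ch x) y, Metric.ball_subset_closedBall hy.2, (ch x).left_inv hy.1⟩

theorem cov_ff (hA : Adm M T g) (hN : N ≠ 0) : IsCoveringMap (ff M T g N) ∧
    ∃ n : ℕ, ∀ x, Nonempty (Fin n ≃ ff M T g N ⁻¹' {x}) := by
  have hlc : WeaklyLocallyCompactSpace (T.lvl (base T) r).X := wlc_rdom _
  obtain ⟨h1, h2⟩ := Tow4_244.closed_finite_of_compact (lh_ff hA hN)
    (fun S hS => compact_ff hA hN hS)
  obtain ⟨n, hn, _⟩ := Tow4_244.sheets (lh_ff hA hN) h1 h2
  refine ⟨?_, n, fun x => ?_⟩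
  · rw [isCoveringMap_iff_isCoveringMapOn_univ]
    apply IsClosedMap.isCoveringMapOn_of_isLocalHomeomorphOn h1
    · intro x _; exact h2 x
    · exact (lh_ff hA hN).isLocalHomeomorphOn
  · have : Finite (ff M T g N ⁻¹' {x}) := h2 x
    exact ⟨(Finite.equivFinOfCardEq (hn x)).symm⟩

section norm

variable {F : FSp s r (base T).X (YY M T g N)}
  (hq : ∀ y, F.q y = T.toBase (base T) r (ff M T g N y))
  (ht : ∀ y (i : Fin r), F.t y i = T.fx (base T) r i (ff M T g N y))

include hq in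
theorem q_eq (y : YY M T g N) : F.q y = f0 M T y.pr := by
  rw [hq]; exact toBase_fZ M T y.pr

include ht in
theorem t_eq (y : YY M T g N) : F.t y = M.pz y.pr.1.1 := by
  funext i
  rw [ht]; exact fx_fZ M T y.pr i

include hq ht in
theorem pb (hA : Adm M T g) (hN : N ≠ 0) (y : YY M T g N) : PB F.pc (RC.rt) y := by
  choose G hG1 hG2 using fun k => analytic_local M (g k) y.pr.1.1
  -- the section as an analytic function of the coordinates
  let A : (Fin s → ℂ) × (Fin r → ℂ) → ℂ := fun w => ∑ k, w.1 k * G k w.2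
  have hpc : ∀ y' : YY M T g N, F.pc y' = (y'.pr.1.2, M.pz y'.pr.1.1) := by
    intro y'
    show (cp (F.q y'), F.t y') = _
    rw [q_eq hq, t_eq ht]; rfl
  have hA1 : AnalyticAt ℂ A (F.pc y) := by
    rw [hpc]
    refine Finset.analyticAt_fun_sum _ fun k _ => ?_
    refine AnalyticAt.mul ?_ ?_
    · exact ((ContinuousLinearMap.proj (R := ℂ) (φ := fun _ : Fin s => ℂ) k).comp
        (ContinuousLinearMap.fst ℂ (Fin s → ℂ) (Fin r → ℂ))).analyticAt _
    · exact AnalyticAt.comp (g := G k) (f := fun w : (Fin s → ℂ) × (Fin r → ℂ) => w.2) (hG1 k)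
        analyticAt_snd
  have hA2 : ∀ᶠ y' : YY M T g N in 𝓝 y, sc M T g y'.pr = A (F.pc y') := by
    have h1 : Tendsto (fun y' : YY M T g N => y'.pr.1.1) (𝓝 y) (𝓝 y.pr.1.1) :=
      (continuous_fst.comp (continuous_subtype_val.comp RC.continuous_pr)).tendsto y
    have h2 : ∀ᶠ y' : YY M T g N in 𝓝 y, ∀ k, y'.pr.1.1 (g k) = G k (M.pz y'.pr.1.1) := by
      rw [Filter.eventually_all]
      exact fun k => h1.eventually (hG2 k)
    filter_upwards [h2] with y' hy'
    rw [hpc]
    exact Finset.sum_congr rfl fun k _ => by rw [hy' k]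
  have hne := hA.sc_ne y.pr
  have hA3 : A (F.pc y) = sc M T g y.pr := (hA2.self_of_nhds).symm
  refine ⟨fun w => lroot N y.rt (sc M T g y.pr) (A w), ?_, ?_⟩
  · have h1 : AnalyticAt ℂ (lroot N y.rt (sc M T g y.pr)) (A (F.pc y)) := by
      refine lroot_analyticAt hne ?_
      rw [hA3, div_self hne]; exact Complex.one_mem_slitPlane
    exact AnalyticAt.comp (g := lroot N y.rt (sc M T g y.pr)) (f := A) h1 hA1
  · filter_upwards [hA2, RC.eventually_eq hN (continuous_sc M T g) y hne] with y' h1 h2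
    rw [h2, h1]

include hq ht in
theorem fh (hA : Adm M T g) (hN : N ≠ 0) (u : (base T).X) : F.FH u (RC.rt) := by
  intro y hy
  obtain ⟨G, hG1, hG2⟩ := pb hq ht hA hN y
  refine ⟨fun τ => G (cp u, τ), ?_, ?_⟩
  · have h1 : F.pc y = (cp u, F.t y) := by rw [← hy]; rfl
    rw [h1] at hG1
    exact AnalyticAt.comp (g := G) (f := fun τ : Fin r → ℂ => ((cp u, τ) : _ × _)) hG1
      (analyticAt_const.prod analyticAt_id)
  · filter_upwards [hG2] with y' h1 h2
    rw [h1, ← h2]; rfl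

include hq ht in
/-- the fibre norm of the root -/
theorem fnorm_rt (hA : Adm M T g) (hN : N ≠ 0) (u : (base T).X) :
    F.fnorm u RC.rt = N * lintM M.z (fun p => ‖∑ k, cp u k * p (g k)‖ₑ ^ (2 / (N : ℝ))) := by
  have hint : F.fnorm u RC.rt = ∫⁻ τ : Fin r → ℂ,
      N * ∑' p : {p : M.Pts // ∀ i, p (M.z i) = τ i},
        ‖∑ k, cp u k * p.1 (g k)‖ₑ ^ (2 / (N : ℝ)) := by
    unfold FSp.fnorm FSp.fint
    refine lintegral_congr_ae ?_
    filter_upwards [ae_good T (base T) r u] with τ hτ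
    -- the fibre
    have hgood : ∀ p : {p : M.Pts // ∀ i, p (M.z i) = τ i}, ∀ i ≤ r,
        MvPolynomial.eval (crd0 (ex0 (M.pz p.1)) (cp u) i) (T.c i) ≠ 0 := by
      intro p i hi
      have h1 : M.pz p.1 = τ := funext p.2
      rw [h1]; exact hτ i hi
    let e : {y : YY M T g N // F.q y = u ∧ F.t y = τ} ≃
        Σ p : {p : M.Pts // ∀ i, p (M.z i) = τ i},
          {η : ℂ // η ^ N = ∑ k, cp u k * p.1 (g k)} :=
      { toFun := fun y => ⟨⟨y.1.pr.1.1, fun i => by
          have h1 := y.2.2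
          rw [t_eq ht] at h1
          exact congrFun h1 i⟩, ⟨y.1.rt, by
            rw [y.1.rt_pow]
            have h1 := y.2.1
            rw [q_eq hq] at h1
            show ∑ k, y.1.pr.1.2 k * y.1.pr.1.1 (g k) = _
            have h2 : y.1.pr.1.2 = cp u :=
              congrArg (fun v : (base T).X => (cp v : Fin s → ℂ)) h1
            rw [h2]⟩⟩
        invFun := fun z => ⟨RC.mk (⟨(z.1.1, cp u), hgood z.1⟩ : Zt M T) z.2.1 z.2.2, by
            rw [q_eq hq]; rfl, by
            rw [t_eq ht]; exact funext z.1.2⟩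
        left_inv := by
          intro y
          apply Subtype.ext
          have h1 := y.2.1
          rw [q_eq hq] at h1
          have h2 : y.1.pr.1.2 = cp u :=
            congrArg (fun v : (base T).X => (cp v : Fin s → ℂ)) h1
          apply RC.ext
          · apply Subtype.ext
            exact Prod.ext rfl h2.symm
          · rfl
        right_inv := by
          intro z
          rfl }
    rw [← e.symm.tsum_eq]
    have h1 : ∀ z : Σ p : {p : M.Pts // ∀ i, p (M.z i) = τ i},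
        {η : ℂ // η ^ N = ∑ k, cp u k * p.1 (g k)},
        ‖((e.symm z).1 : YY M T g N).rt‖ₑ ^ 2 = ‖z.2.1‖ₑ ^ 2 := fun z => rfl
    simp only [h1]
    rw [ENNReal.tsum_sigma', ← ENNReal.tsum_mul_left]
    refine tsum_congr fun p => ?_
    exact rc_tsum hN (hA.sum_ne p.1 (cp u) (hgood p r le_rfl))
  rw [hint, lintegral_const_mul' _ _ (ENNReal.natCast_ne_top N)]
  rfl

end norm

/-- **FRI.** -/
theorem fri (hO : OneStep) (hR : StepRz) (hRA : StepRzAct) (M : Mdl K r) (g : Fin s → M.B)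
    (hg : ∃ k, g k ≠ 0) (N : ℕ) (hN : N ≠ 0)
    (hfin : ∀ c : Fin s → ℂ, lintM M.z (fun p => ‖∑ k, c k * p (g k)‖ₑ ^ (2 / (N : ℝ))) < ∞) :
    ∃ (b : ℕ) (Q : MvPolynomial (Fin s) ℂ), Q ≠ 0 ∧
      FinC_39.LocRank b
        (fun c => (lintM M.z (fun p => ‖∑ k, c k * p (g k)‖ₑ ^ (2 / (N : ℝ)))).toReal)
        (fun c => MvPolynomial.eval c Q) := by
  obtain ⟨D, hD0, hD⟩ := exists_D M g hg
  obtain ⟨T, hT1, hT2⟩ := exists_ptow s r D hD0
  have hA : Adm M T g := by
    intro x c hxc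
    rw [hT1] at hxc
    exact hD x c hxc
  obtain ⟨hcov, n, hn⟩ := cov_ff (N := N) hA hN
  obtain ⟨N', W, ρ, F, ι, hRz, _, hq, ht⟩ := geoVHS (Γ := Unit) T (base T) hO hR hRA r n hcov
    (fun x => (hn x).some) 1 (fun _ => continuous_id) (fun _ _ => rfl)
  have hfn : ∀ u : (base T).X, F.fnorm u RC.rt < ∞ := by
    intro u
    rw [fnorm_rt hq ht hA hN]
    exact ENNReal.mul_lt_top (ENNReal.natCast_lt_top _) (hfin _)
  refine ⟨N', T.c 0, hT2 0 (Nat.zero_le _), ?_⟩
  refine Fri_348.locRank_of_rz W F ι hRz RC.rt (fun u => fh hq ht hA hN u) hfn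
    (fun y => pb hq ht hA hN y) _ _ (fun σ hσ => ⟨(⟨σ, hσ⟩ : baseX T), rfl⟩) (N : ℝ)
    (by exact_mod_cast hN) (fun u => ?_)
  rw [fnorm_rt hq ht hA hN, ENNReal.toReal_mul, ENNReal.toReal_natCast]

end Crest.Agent.R276.Fri3_348
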