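import Crest.Agent.R276.Top8b_815
import Crest.Agent.R276.FinC_39

/-!
# R276, leaf FRI (helper348): finite rank of the norm of a holomorphic section of the top piece

`V : VHS n X N w`, `Rz V F ι` (815).  A holomorphic function `f` on `Y` with finite fibre norms is a
holomorphic section of the top piece, so locally on `X` its squared norm is
`∑ H i j * p i * conj (p j)` with `p` holomorphic and `H` a constant matrix of size `N` (`rz_fnorm_local`).
`locRank_of_rz` : the hypothesis `LocRank` of helper39's FIN.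
-/

set_option autoImplicit false

noncomputable section

open Set Filter Topology MeasureTheory Matrix ComplexConjugate
open Crest.Agent.R271.Ho51 Crest.Agent.R276.Ipc735 Crest.Agent.R276.Top8_815
open scoped ENNReal

namespace Crest.Agent.R276.Fri_348

theorem aeval_mulVec {N : ℕ} {E : Matrix (Fin N) (Fin N) ℂ} {v : Fin N → ℂ} {c : ℂ}
    (h : E *ᵥ v = c • v) (p : Polynomial ℂ) : (Polynomial.aeval E p) *ᵥ v = p.eval c • v := by
  induction p using Polynomial.induction_on with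
  | C a =>
    rw [Polynomial.aeval_C, Polynomial.eval_C, Algebra.algebraMap_eq_smul_one, smul_mulVec,
      one_mulVec]
  | add p q hp hq => rw [map_add, add_mulVec, hp, hq, Polynomial.eval_add, add_smul]
  | monomial n a ih =>
    have h1 : Polynomial.aeval E (Polynomial.C a * Polynomial.X ^ (n + 1)) =
        E * Polynomial.aeval E (Polynomial.C a * Polynomial.X ^ n) := by
      simp only [map_mul, map_pow, Polynomial.aeval_X, Polynomial.aeval_C, pow_succ']
      rw [← mul_assoc, Algebra.commutes, mul_assoc]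
    rw [h1, ← mulVec_mulVec, ih, mulVec_smul, h, smul_smul]
    congr 1
    simp [pow_succ]; ring

theorem weil_top {N w : ℕ} {E : Matrix (Fin N) (Fin N) ℂ} {v : Fin N → ℂ} (h : IsTop w E v) :
    weil w E *ᵥ v = (-1 : ℂ) ^ w • v := by
  unfold weil hpr
  rw [sum_mulVec]
  rw [Finset.sum_eq_single w]
  · rw [smul_mulVec, aeval_mulVec h, Lagrange.eval_basis_self, one_smul]
    · intro a _ b _ hab; exact_mod_cast hab
    · simp
  · intro p hp hpw
    rw [smul_mulVec, aeval_mulVec h, Lagrange.eval_basis_of_ne hpw, zero_smul, smul_zero]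
    simp
  · intro h; exact absurd (Finset.self_mem_range_succ w) h

theorem herm_im {N : ℕ} {S : Matrix (Fin N) (Fin N) ℂ} (hS : S.IsHermitian) (v : Fin N → ℂ) :
    conj (star v ⬝ᵥ S *ᵥ v) = star v ⬝ᵥ S *ᵥ v := by
  have h1 : star (star v ⬝ᵥ S *ᵥ v) = star v ⬝ᵥ S *ᵥ v := by
    rw [← star_dotProduct, star_mulVec, hS.eq, ← dotProduct_mulVec]
  exact h1

variable {n d N w : ℕ} {X Y : Type*} [TopologicalSpace X] [RDom n X] [TopologicalSpace Y]

/-- The Hodge norm on the top piece is the flat form up to sign. -/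
theorem hnsq_top (V : VHS n X N w) {u : X} {v : Fin N → ℂ} (h : IsTop w (V.E u) v) :
    (hnsq V u v : ℂ) = (-1 : ℂ) ^ w * (star v ⬝ᵥ V.S u *ᵥ v) := by
  have h1 : star v ⬝ᵥ hodge w (V.S u) (V.E u) *ᵥ v = (-1 : ℂ) ^ w * (star v ⬝ᵥ V.S u *ᵥ v) := by
    unfold hodge
    rw [← mulVec_mulVec, weil_top h, mulVec_smul, dotProduct_smul, smul_eq_mul]
  unfold hnsq
  rw [h1]
  rw [← Complex.conj_eq_iff_re, map_mul, herm_im (V.hs u).herm]
  simp

/-- In a flat frame at `u₀`. -/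
theorem hnsq_top_local (V : VHS n X N w) (u₀ : X) (v : X → Fin N → ℂ)
    (h : ∀ᶠ u in 𝓝 u₀, IsTop w (V.E u) (v u)) :
    ∀ᶠ u in 𝓝 u₀, (hnsq V u (v u) : ℂ) = ∑ i, ∑ j, ((-1 : ℂ) ^ w * V.S u₀ j i) *
      lV V.P v u₀ u i * conj (lV V.P v u₀ u j) := by
  filter_upwards [h, V.flatS u₀] with u hu hS
  rw [hnsq_top V hu, hS]
  have h1 : star (v u) ⬝ᵥ ((cm (V.P u₀ u))ᴴ * V.S u₀ * cm (V.P u₀ u)) *ᵥ v u
      = star (lV V.P v u₀ u) ⬝ᵥ V.S u₀ *ᵥ lV V.P v u₀ u := by
    unfold lV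
    rw [star_mulVec, ← dotProduct_mulVec, mulVec_mulVec, mulVec_mulVec, Matrix.mul_assoc]
  rw [h1]
  simp only [dotProduct, mulVec, Pi.star_apply, RCLike.star_def, Finset.mul_sum]
  rw [Finset.sum_comm]
  refine Finset.sum_congr rfl fun i _ => Finset.sum_congr rfl fun j _ => ?_
  ring

theorem rz_fnorm_local (V : VHS n X N w) (F : FSp n d X Y) (ι : X → (Fin N → ℂ) → Y → ℂ)
    (hR : Rz V F ι) (f : Y → ℂ) (hf : ∀ u, F.FH u f) (hfin : ∀ u, F.fnorm u f < ∞)
    (hPB : ∀ y, PB F.pc f y) (u₀ : X) :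
    ∃ (p : X → Fin N → ℂ) (H : Matrix (Fin N) (Fin N) ℂ), HolAt p u₀ ∧
      ∀ᶠ u in 𝓝 u₀, ((F.fnorm u f).toReal : ℂ) = ∑ i, ∑ j, H i j * p u i * conj (p u j) := by
  choose v hv hιv using fun u => hR.surj u f (hf u) (hfin u)
  have hfun : (fun y' => ι (F.q y') (v (F.q y')) y') = f := by
    funext y'; exact hιv (F.q y') y' rfl
  have hol : HolAt (lV V.P v u₀) u₀ := by
    refine hR.hol2 u₀ v (Eventually.of_forall hv) (Eventually.of_forall fun u y _ => ?_)
    rw [hfun]; exact hPB y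
  refine ⟨lV V.P v u₀, fun i j => (-1 : ℂ) ^ w * V.S u₀ j i, hol, ?_⟩
  filter_upwards [hnsq_top_local V u₀ v (Eventually.of_forall hv)] with u hu
  rw [← hu]
  have h1 : F.fnorm u f = ENNReal.ofReal (hnsq V u (v u)) := by
    rw [← hR.norm u (v u) (hv u)]
    unfold FSp.fnorm FSp.fint
    refine lintegral_congr fun τ => tsum_congr fun y => ?_
    show ‖f y.1‖ₑ ^ 2 = ‖ι u (v u) y.1‖ₑ ^ 2
    rw [hιv u y.1 y.2.1]
  rw [h1]
  rw [ENNReal.toReal_ofReal]
  -- positivity of the Hodge norm on the top piece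
  by_cases h0 : v u = 0
  · rw [h0]; simp [hnsq]
  · have h2 := (V.hs u).pos w (v u) le_rfl h0 (hv u)
    have h3 := hnsq_top V (hv u)
    have h4 : hnsq V u (v u) = (-1 : ℝ) ^ w * (star (v u) ⬝ᵥ V.S u *ᵥ v u).re := by
      have h5 := congrArg Complex.re h3
      rw [Complex.ofReal_re] at h5
      rw [h5]
      have h6 : ((-1 : ℂ) ^ w) = (((-1 : ℝ) ^ w : ℝ) : ℂ) := by push_cast; rfl
      rw [h6, Complex.re_ofReal_mul]
    rw [h4]; exact h2.le

/-- The hypothesis `LocRank` of FIN. -/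
theorem locRank_of_rz (V : VHS n X N w) (F : FSp n d X Y) (ι : X → (Fin N → ℂ) → Y → ℂ)
    (hR : Rz V F ι) (f : Y → ℂ) (hf : ∀ u, F.FH u f) (hfin : ∀ u, F.fnorm u f < ∞)
    (hPB : ∀ y, PB F.pc f y) (Φ : (Fin n → ℂ) → ℝ) (Q : (Fin n → ℂ) → ℂ)
    (hX : ∀ σ, Q σ ≠ 0 → ∃ x : X, cp x = σ) (c : ℝ) (hc : c ≠ 0)
    (hΦ : ∀ x : X, (F.fnorm x f).toReal = c * Φ (cp x)) :
    FinC_39.LocRank N Φ Q := by
  intro σ hσ
  obtain ⟨x, rfl⟩ := hX σ hσ
  obtain ⟨p, H, hp, hloc⟩ := rz_fnorm_local V F ι hR f hf hfin hPB x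
  -- move to the chart
  have hsymm : Tendsto (ch x).symm (𝓝 (cp x)) (𝓝 x) := by
    have h1 := (ch x).symm.continuousAt (x := (ch x) x) (by
      rw [OpenPartialHomeomorph.symm_source]
      exact (ch x).map_source (mem_ch x))
    have h2 : (ch x).symm ((ch x) x) = x := (ch x).left_inv (mem_ch x)
    have h3 : (ch x) x = cp x := (isCh_ch x).apply x
    rw [h3] at h1 h2
    have h4 := h1.tendsto
    rw [h2] at h4
    exact h4
  have hev1 : ∀ᶠ τ in 𝓝 (cp x), ((F.fnorm ((ch x).symm τ) f).toReal : ℂ) =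
      ∑ i, ∑ j, H i j * p ((ch x).symm τ) i * conj (p ((ch x).symm τ) j) := hsymm.eventually hloc
  have hev2 : ∀ᶠ τ in 𝓝 (cp x), cp ((ch x).symm τ) = τ := by
    have h3 : (ch x) x = cp x := (isCh_ch x).apply x
    have h4 : cp x ∈ (ch x).target := by rw [← h3]; exact (ch x).map_source (mem_ch x)
    filter_upwards [(ch x).open_target.mem_nhds h4] with τ hτ
    rw [← (isCh_ch x).apply, (ch x).right_inv hτ]
  have hev3 : ∀ᶠ τ in 𝓝 (cp x), AnalyticAt ℂ (p ∘ (ch x).symm) τ := hp.eventually_analyticAt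
  obtain ⟨δ, hδ, hball⟩ := Metric.eventually_nhds_iff_ball.1 (hev1.and (hev2.and hev3))
  refine ⟨δ, fun i τ => p ((ch x).symm τ) i, fun i j => (c : ℂ)⁻¹ * H i j, hδ, fun i => ?_, ?_⟩
  · intro τ hτ
    have h1 := (hball τ hτ).2.2
    have h2 : DifferentiableAt ℂ (p ∘ (ch x).symm) τ := h1.differentiableAt
    exact (differentiableAt_pi.1 h2 i).differentiableWithinAt
  · intro τ hτ
    obtain ⟨h1, h2, _⟩ := hball τ hτ
    have h3 := hΦ ((ch x).symm τ)
    rw [h2] at h3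
    rw [h3] at h1
    have hc' : (c : ℂ) ≠ 0 := by exact_mod_cast hc
    have h4 : (Φ τ : ℂ) = (c : ℂ)⁻¹ * ((c * Φ τ : ℝ) : ℂ) := by
      push_cast; field_simp
    rw [h4, h1, Finset.mul_sum]
    refine Finset.sum_congr rfl fun i _ => ?_
    rw [Finset.mul_sum]
    refine Finset.sum_congr rfl fun j _ => ?_
    ring

end Crest.Agent.R276.Fri_348
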