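import Crest.Agent.R273.LamN_127
import Crest.Agent.R275.EDR_890

/-!
# R276 (S0419), Part C, form model (helper218)

* `LamF A : VBun A` : all `(p,0)`-forms (`Finset (Fin n)`, `g i j = Gam (J i j)ᵀ`, holomorphic);
* `AF A : FBun A := tw (lamN A) (LamF A)` : ALL complex differential forms; the fibre index set is
  `Finset (Fin n) × Finset (Fin n)`, FIRST component = antiholomorphic, SECOND = holomorphic;
  `nab (AF A) = ∂̄`;
* `ADR A : DRS (AF A)` : the de Rham structure (`R.dLin W` = exterior differential).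
-/

set_option autoImplicit false
set_option linter.unusedSectionVars false

open Set Filter Topology Complex
open scoped ContDiff Matrix ComplexConjugate Kronecker

namespace Crest.Agent.R276.Frm218

open Crest.Agent.R275 Crest.Agent.R275.Geo Crest.Agent.R275.Lam2130 Crest.Agent.R275.EDR890
open Crest.Agent.R273.Fock_243 Crest.Agent.R273.Calc_243 Crest.Agent.R273.LamN127

noncomputable section

variable {n : ℕ}

/-! ### the number operator and the parity sign -/

/-- parity `(-1)^{|S|}` -/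
def par (n : ℕ) : Matrix (FI n) (FI n) ℂ := Matrix.diagonal fun S => (-1 : ℂ) ^ S.card

theorem par_par : par n * par n = 1 := by
  unfold par
  rw [Matrix.diagonal_mul_diagonal]
  have : (fun i : FI n => (-1 : ℂ) ^ i.card * (-1) ^ i.card) = fun _ => 1 := by
    funext S
    rw [← mul_pow]
    simp
  rw [this]
  rfl

theorem par_mul (B : Matrix (FI n) (FI n) ℂ) (S T : FI n) :
    (par n * B) S T = (-1) ^ S.card * B S T := by
  unfold par
  rw [Matrix.diagonal_mul]

theorem mul_par (B : Matrix (FI n) (FI n) ℂ) (S T : FI n) :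
    (B * par n) S T = (-1) ^ T.card * B S T := by
  unfold par
  rw [Matrix.mul_diagonal, mul_comm]

theorem par_eW (v : Fin n → ℂ) : par n * eW v = - (eW v * par n) := by
  ext S T
  rw [par_mul, Matrix.neg_apply, mul_par]
  by_cases h : (eW v : Matrix (FI n) (FI n) ℂ) S T = 0
  · simp [h]
  · rw [eW_deg h, pow_succ]
    ring

theorem par_iW (v : Fin n → ℂ) : par n * iW v = - (iW v * par n) := by
  ext S T
  rw [par_mul, Matrix.neg_apply, mul_par]
  by_cases h : (iW v : Matrix (FI n) (FI n) ℂ) S T = 0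
  · simp [h]
  · rw [iW_deg h, pow_succ]
    ring

theorem par_Gam (m : Matrix (Fin n) (Fin n) ℂ) : par n * Gam m = Gam m * par n := by
  ext S T
  rw [par_mul, mul_par]
  by_cases h : Gam m S T = 0
  · simp [h]
  · rw [Gam_deg h]

/-- the number operator -/
theorem sum_eW_iW : ∑ a : Fin n, eW (ep a) * iW (ep a) =
    Matrix.diagonal (fun S : FI n => (S.card : ℂ)) := by
  classical
  set D : Matrix (FI n) (FI n) ℂ := Matrix.diagonal (fun S : FI n => (S.card : ℂ)) with hD
  set N : Matrix (FI n) (FI n) ℂ := ∑ a : Fin n, eW (ep a) * iW (ep a) with hN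
  have hcar : ∀ a j : Fin n, (iW (ep a) * eW (ep j) : Matrix (FI n) (FI n) ℂ) =
      (if a = j then (1 : ℂ) else 0) • 1 - eW (ep j) * iW (ep a) := by
    intro a j
    rw [eq_sub_iff_add_eq, iW_eW]
    congr 1
    by_cases h : a = j
    · subst h
      simp [Pi.single_apply]
    · simp [Pi.single_apply, h]
  have h1 : ∀ j, N * eW (ep j) = eW (ep j) * N + eW (ep j) := by
    intro j
    rw [hN, Finset.sum_mul, Finset.mul_sum]
    have h2 : ∀ a, (eW (ep a) * iW (ep a) * eW (ep j) : Matrix (FI n) (FI n) ℂ) =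
        eW (ep j) * (eW (ep a) * iW (ep a)) + (if a = j then (1 : ℂ) else 0) • eW (ep a) := by
      intro a
      rw [mul_assoc, hcar, mul_sub, Matrix.mul_smul, mul_one, ← mul_assoc, ← mul_assoc,
        eq_neg_of_add_eq_zero_left (eW_anti (ep a : Fin n → ℂ) (ep j))]
      rw [neg_mul, sub_neg_eq_add, add_comm]
    rw [Finset.sum_congr rfl fun a _ => h2 a, Finset.sum_add_distrib]
    congr 1
    simp
  have h2 : ∀ j, D * eW (ep j) = eW (ep j) * D + eW (ep j) := by
    intro j
    ext S T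
    rw [hD, Matrix.add_apply, Matrix.diagonal_mul, Matrix.mul_diagonal]
    by_cases h : (eW (ep j) : Matrix (FI n) (FI n) ℂ) S T = 0
    · simp [h]
    · rw [eW_deg h]
      push_cast
      ring
  have key : N - D = (0 : ℂ) • 1 := by
    refine Crest.Agent.R273.Berezin_505.eq_smul_one_of_comm (fun j => ?_) ?_
    · have h3 : (N - D) * eW (ep j) = eW (ep j) * (N - D) := by
        rw [sub_mul, h1, h2, mul_sub]
        abel
      exact h3
    · rw [zero_smul, Matrix.sub_mulVec, hN, Matrix.sum_mulVec, hD]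
      have h4 : ∀ a : Fin n, (iW (ep a) : Matrix (FI n) (FI n) ℂ) *ᵥ Pi.single ∅ 1 = 0 := by
        intro a
        rw [Matrix.mulVec_single_one]
        funext S
        show (iW (ep a) : Matrix (FI n) (FI n) ℂ) S ∅ = 0
        by_contra h
        have := iW_deg h
        simp at this
      rw [Finset.sum_congr rfl fun a _ => by rw [← Matrix.mulVec_mulVec, h4, Matrix.mulVec_zero]]
      rw [Finset.sum_const_zero, zero_sub, neg_eq_zero, Matrix.mulVec_single_one]
      funext S
      show (Matrix.diagonal (fun S : FI n => (S.card : ℂ))) S ∅ = 0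
      by_cases h : S = ∅
      · subst h; simp
      · rw [Matrix.diagonal_apply_ne _ h]
  rw [zero_smul] at key
  exact sub_eq_zero.1 key

/-! ### holomorphic forms of all degrees -/

variable {M : Type} [TopologicalSpace M] {A : Atl n M}

/-- all `(p,0)`-forms; components with respect to `dz_S` -/
def LamF (A : Atl n M) : VBun A :=
  ofHolo (Finset (Fin n)) (fun i j x => Gam (Lam2130.Jm A i j x)ᵀ)
    (fun i j k l => diffOn_Gam (fun a b => J_holo i j b a) k l)
    (fun i x hx => by rw [Jm_self hx, Matrix.transpose_one, Gam_one])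
    (fun i j k x hx => by
      rw [← Gam_mul, ← Matrix.transpose_mul, ← Jm_mul hx])

@[simp] theorem LamF_g (i j : A.ι) (x : M) : (LamF A).g i j x = Gam (Lam2130.Jm A i j x)ᵀ := rfl
@[simp] theorem LamF_a (i : A.ι) (b : Fin n) (x : M) : (LamF A).a i b x = 0 := rfl

/-- all complex differential forms; index set `FI n × FI n`, antiholomorphic × holomorphic -/
def AF (A : Atl n M) : FBun A := Geo.tw (lamN A) (LamF A)

@[simp] theorem AF_κ : (AF A).κ = (Finset (Fin n) × Finset (Fin n)) := rfl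
@[simp] theorem AF_e (a : Fin n) : (AF A).e a = (eW (ep a) : Matrix (FI n) (FI n) ℂ) ⊗ₖ (1 : Matrix (FI n) (FI n) ℂ) := rfl
@[simp] theorem AF_io (a : Fin n) : (AF A).io a = (iW (ep a) : Matrix (FI n) (FI n) ℂ) ⊗ₖ (1 : Matrix (FI n) (FI n) ℂ) := rfl
@[simp] theorem AF_τ (i j : A.ι) (x : M) :
    (AF A).τ i j x = Gam (Jb A i j x) ⊗ₖ Gam (Lam2130.Jm A i j x)ᵀ := rfl
@[simp] theorem AF_deg (k : (AF A).κ) : (AF A).deg k = Finset.card (α := Fin n) k.1 := rfl

theorem AF_α (i : A.ι) (x : M) : (AF A).α i x = 0 := by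
  show (0 : Matrix (FI n) (FI n) ℂ) ⊗ₖ (1 : Matrix (FI n) (FI n) ℂ) +
    ∑ a, (eW (ep a) : Matrix (FI n) (FI n) ℂ) ⊗ₖ (0 : Matrix (FI n) (FI n) ℂ) = 0
  simp

/-- exterior multiplication by `dz_a` on all forms -/
def fF (n : ℕ) (a : Fin n) : Matrix (FI n × FI n) (FI n × FI n) ℂ := par n ⊗ₖ eW (ep a)

/-- contraction with `∂/∂z_a` on all forms -/
def jF (n : ℕ) (a : Fin n) : Matrix (FI n × FI n) (FI n × FI n) ℂ := par n ⊗ₖ iW (ep a)

/-- `∑ dz_c ∂_c Gam (Jᵀ) = 0` -/
theorem sum_e_dh_Gam {i j : A.ι} {x : M} (hx : x ∈ (A.e i).source ∩ (A.e j).source) :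
    ∑ c, eW (ep c) * Matrix.of (fun k l => wd (false, c)
      (fun z => Gam (Lam2130.Jm A i j ((A.e i).symm z))ᵀ k l) (A.e i x)) = 0 := by
  have hsm : SmM (A.e i x) (fun w => (Lam2130.Jm A i j ((A.e i).symm w))ᵀ) := fun a b =>
    (J_smooth i j b a).contDiffAt ((isOpen_ov i j).mem_nhds (mem_ov hx))
  have hd : ∀ (a b c : Fin n), dM (-I) c (fun w => (Lam2130.Jm A i j ((A.e i).symm w))ᵀ)
      (A.e i x) a b = H2 A i j x b a c := by
    intro a b c
    have h1 := J_diffAt hx b a
    show (1 / 2 : ℂ) * (fderiv ℝ (fun z => A.J i j ((A.e i).symm z) b a) (A.e i x)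
        (EuclideanSpace.single c 1) + (-I) * fderiv ℝ (fun z => A.J i j ((A.e i).symm z) b a)
        (A.e i x) (EuclideanSpace.single c I)) = _
    rw [h1.fderiv_restrictScalars ℝ]
    have h2 : (EuclideanSpace.single c I : Cn n) = I • EuclideanSpace.single c (1 : ℂ) := by
      ext d
      simp
    unfold H2
    rw [h2]
    show (1 / 2 : ℂ) * ((fderiv ℂ (fun z => A.J i j ((A.e i).symm z) b a) (A.e i x))
      (EuclideanSpace.single c 1) + (-I) * (fderiv ℂ (fun z => A.J i j ((A.e i).symm z) b a)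
      (A.e i x)) (I • EuclideanSpace.single c 1)) = _
    rw [map_smul, smul_eq_mul]
    linear_combination (1 / 2 : ℂ) * (-(fderiv ℂ (fun z => A.J i j ((A.e i).symm z) b a) (A.e i x))
      (EuclideanSpace.single c 1)) * I_mul_I
  have key := kahler_e (A := (Lam2130.Jm A i j x)ᵀ)
    (fun c => dM (-I) c (fun w => (Lam2130.Jm A i j ((A.e i).symm w))ᵀ) (A.e i x))
    (fun c => dM (-I) c (fun w => Gam (Lam2130.Jm A i j ((A.e i).symm w))ᵀ) (A.e i x))
    (fun c b => by
      have h := dM_Gam_eW (s := -I) (a := c) hsm b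
      rw [(A.e i).left_inv hx.1] at h
      exact h) (fun c S => dM_Gam_vac S)
    (fun c a b => by
      rw [hd, hd, H2_symm hx])
  exact key

/-- the antiholomorphic factor is killed by `∂` -/
theorem dh_Gam_Jb {i j : A.ι} {x : M} (hx : x ∈ (A.e i).source ∩ (A.e j).source) (c : Fin n)
    (S T : FI n) :
    wd (false, c) (fun z => Gam (Jb A i j ((A.e i).symm z)) S T) (A.e i x) = 0 := by
  have h1 : DifferentiableAt ℂ (fun z => Gam ((Lam2130.Jm A i j ((A.e i).symm z))ᵀ) S T)
      (A.e i x) :=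
    (diffOn_Gam (U := A.ov i j) (m := fun z => (Lam2130.Jm A i j ((A.e i).symm z))ᵀ)
      (fun a b => J_holo i j b a) S T).differentiableAt ((isOpen_ov i j).mem_nhds (mem_ov hx))
  have h2 : (fun z => Gam (Jb A i j ((A.e i).symm z)) S T) =
      fun z => conj (Gam ((Lam2130.Jm A i j ((A.e i).symm z))ᵀ) S T) := by
    funext z
    have h3 : Jb A i j ((A.e i).symm z) =
        ((Lam2130.Jm A i j ((A.e i).symm z))ᵀ).map (starRingEnd ℂ) := rfl
    rw [h3, ← Gam_map]
    rfl
  rw [h2]
  set f : Cn n → ℂ := fun z => Gam ((Lam2130.Jm A i j ((A.e i).symm z))ᵀ) S T with hf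
  have h3 : HasFDerivAt (𝕜 := ℝ) f ((fderiv ℂ f (A.e i x)).restrictScalars ℝ) (A.e i x) :=
    h1.hasFDerivAt.restrictScalars ℝ
  have h4 : HasFDerivAt (𝕜 := ℝ) (fun z => conj (f z))
      ((conjCLE : ℂ →L[ℝ] ℂ).comp ((fderiv ℂ f (A.e i x)).restrictScalars ℝ)) (A.e i x) :=
    (conjCLE : ℂ →L[ℝ] ℂ).hasFDerivAt.comp (A.e i x) h3
  have h5 : (EuclideanSpace.single c I : Cn n) = I • EuclideanSpace.single c (1 : ℂ) := by
    ext d
    simp
  show (1 / 2 : ℂ) * (fderiv ℝ (fun z => conj (f z)) (A.e i x) (EuclideanSpace.single c 1) +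
    (-I) * fderiv ℝ (fun z => conj (f z)) (A.e i x) (EuclideanSpace.single c I)) = 0
  rw [h4.fderiv, h5]
  simp only [ContinuousLinearMap.comp_apply, ContinuousLinearMap.coe_restrictScalars',
    ContinuousLinearEquiv.coe_coe, conjCLE_apply, map_smul, smul_eq_mul, map_mul, conj_I]
  linear_combination (1 / 2 : ℂ) * (conj ((fderiv ℂ f (A.e i x)) (EuclideanSpace.single c 1)))
    * I_mul_I

/-- wedge with `dz̄_a` on all forms -/
def eF (n : ℕ) (a : Fin n) : Matrix (FI n × FI n) (FI n × FI n) ℂ := eW (ep a) ⊗ₖ 1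

/-- contraction with `∂/∂z̄_a` on all forms -/
def iF (n : ℕ) (a : Fin n) : Matrix (FI n × FI n) (FI n × FI n) ℂ := iW (ep a) ⊗ₖ 1

theorem hs_ep (a b : Fin n) : (∑ j, (ep a : Fin n → ℂ) j * (ep b : Fin n → ℂ) j) =
    if a = b then 1 else 0 := by
  by_cases h : a = b
  · subst h
    simp [Pi.single_apply]
  · rw [if_neg h]
    refine Finset.sum_eq_zero fun j _ => ?_
    by_cases h1 : j = a
    · subst h1
      simp [h]
    · simp [Pi.single_apply, h1]

theorem ff_zero (a b : Fin n) : fF n a * fF n b + fF n b * fF n a = 0 := by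
  unfold fF
  rw [← Matrix.mul_kronecker_mul, ← Matrix.mul_kronecker_mul, ← Matrix.kronecker_add, eW_anti,
    Matrix.kronecker_zero]

theorem jj_zero (a b : Fin n) : jF n a * jF n b + jF n b * jF n a = 0 := by
  unfold jF
  rw [← Matrix.mul_kronecker_mul, ← Matrix.mul_kronecker_mul, ← Matrix.kronecker_add, iW_anti,
    Matrix.kronecker_zero]

theorem ee_zero (a b : Fin n) : eF n a * eF n b + eF n b * eF n a = 0 := by
  unfold eF
  rw [← Matrix.mul_kronecker_mul, ← Matrix.mul_kronecker_mul, ← Matrix.add_kronecker, eW_anti,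
    Matrix.zero_kronecker]

theorem ii_zero (a b : Fin n) : iF n a * iF n b + iF n b * iF n a = 0 := by
  unfold iF
  rw [← Matrix.mul_kronecker_mul, ← Matrix.mul_kronecker_mul, ← Matrix.add_kronecker, iW_anti,
    Matrix.zero_kronecker]

theorem fe_zero (a b : Fin n) : fF n a * eF n b + eF n b * fF n a = 0 := by
  unfold fF eF
  rw [← Matrix.mul_kronecker_mul, ← Matrix.mul_kronecker_mul, par_eW, mul_one, one_mul,
    ← Matrix.add_kronecker, neg_add_cancel, Matrix.zero_kronecker]

theorem fi_zero (a b : Fin n) : fF n a * iF n b + iF n b * fF n a = 0 := by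
  unfold fF iF
  rw [← Matrix.mul_kronecker_mul, ← Matrix.mul_kronecker_mul, par_iW, mul_one, one_mul,
    ← Matrix.add_kronecker, neg_add_cancel, Matrix.zero_kronecker]

theorem ej_zero (a b : Fin n) : eF n a * jF n b + jF n b * eF n a = 0 := by
  unfold jF eF
  rw [← Matrix.mul_kronecker_mul, ← Matrix.mul_kronecker_mul, par_eW, mul_one, one_mul,
    ← Matrix.add_kronecker, add_neg_cancel, Matrix.zero_kronecker]

theorem ij_zero (a b : Fin n) : iF n a * jF n b + jF n b * iF n a = 0 := by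
  unfold jF iF
  rw [← Matrix.mul_kronecker_mul, ← Matrix.mul_kronecker_mul, par_iW, mul_one, one_mul,
    ← Matrix.add_kronecker, add_neg_cancel, Matrix.zero_kronecker]

theorem fj_delta (a b : Fin n) : fF n a * jF n b + jF n b * fF n a = if a = b then 1 else 0 := by
  unfold fF jF
  rw [← Matrix.mul_kronecker_mul, ← Matrix.mul_kronecker_mul, ← Matrix.kronecker_add, add_comm,
    iW_eW, par_par]
  rw [hs_ep a b]
  by_cases h : a = b
  · rw [if_pos h, if_pos h, one_smul, Matrix.one_kronecker_one]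
  · rw [if_neg h, if_neg h, zero_smul]
    simp

theorem ei_delta (a b : Fin n) : eF n a * iF n b + iF n b * eF n a = if a = b then 1 else 0 := by
  unfold eF iF
  rw [← Matrix.mul_kronecker_mul, ← Matrix.mul_kronecker_mul, ← Matrix.add_kronecker, add_comm,
    iW_eW, one_mul]
  rw [hs_ep a b]
  by_cases h : a = b
  · rw [if_pos h, if_pos h, one_smul, Matrix.one_kronecker_one]
  · rw [if_neg h, if_neg h, zero_smul]
    simp

theorem num_F : ∑ a : Fin n, eF n a * iF n a + ∑ a : Fin n, fF n a * jF n a =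
    Matrix.diagonal (fun k : FI n × FI n => ((k.1.card + k.2.card : ℕ) : ℂ)) := by
  unfold eF iF fF jF
  simp only [← Matrix.mul_kronecker_mul, mul_one, par_par]
  rw [← kron_sum_left, ← kron_sum_right, sum_eW_iW]
  ext ⟨S, T⟩ ⟨S', T'⟩
  simp only [Matrix.add_apply, Matrix.kroneckerMap_apply, Matrix.diagonal_apply,
    Matrix.one_apply, Prod.mk.injEq]
  by_cases h1 : S = S'
  · by_cases h2 : T = T'
    · simp [h1, h2]
    · simp [h2]
  · by_cases h2 : T = T'
    · simp [h1]
    · simp [h1]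

theorem fF_symb (B : Matrix (FI n) (FI n) ℂ) (hB : par n * B = B * par n)
    (m : Matrix (Fin n) (Fin n) ℂ) (b : Fin n) :
    ∑ a, m b a • (fF n a * B ⊗ₖ Gam mᵀ) = B ⊗ₖ Gam mᵀ * fF n b := by
  unfold fF
  rw [← Matrix.mul_kronecker_mul, Gam_eW_ep, eW_eq_sum (fun k => mᵀ k b),
    Finset.sum_mul, kron_sum_right]
  refine Finset.sum_congr rfl fun a _ => ?_
  rw [← Matrix.mul_kronecker_mul, hB, Matrix.smul_mul, Matrix.kronecker_smul]
  rfl

theorem fF_closed (B : Matrix (FI n) (FI n) ℂ) (G : Fin n → Matrix (FI n) (FI n) ℂ)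
    (h : ∑ a, eW (ep a) * G a = 0) : ∑ a, fF n a * B ⊗ₖ G a = 0 := by
  unfold fF
  simp only [← Matrix.mul_kronecker_mul]
  rw [← kron_sum_right, h, Matrix.kronecker_zero]

theorem dh_τ {i j : A.ι} {x : M} (hx : x ∈ (A.e i).source ∩ (A.e j).source) (a : Fin n) :
    Matrix.of (fun k l : FI n × FI n => wd (false, a)
        (fun z => Gam (Jb A i j ((A.e i).symm z)) k.1 l.1 *
        Gam (Lam2130.Jm A i j ((A.e i).symm z))ᵀ k.2 l.2) (A.e i x)) =
        Gam (Jb A i j x) ⊗ₖ Matrix.of (fun k l => wd (false, a)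
          (fun z => Gam (Lam2130.Jm A i j ((A.e i).symm z))ᵀ k l) (A.e i x)) := by
  have hd1 : ∀ k l, DifferentiableAt ℝ
      (fun z => Gam (Jb A i j ((A.e i).symm z)) k l) (A.e i x) := fun k l =>
    ((contDiffOn_Gam (U := A.ov i j) (m := fun z => Jb A i j ((A.e i).symm z))
      (fun a b => Jb_smooth i j a b) k l).contDiffAt
      ((isOpen_ov i j).mem_nhds (mem_ov hx))).differentiableAt (by simp)
  have hd2 : ∀ k l, DifferentiableAt ℝ
      (fun z => Gam (Lam2130.Jm A i j ((A.e i).symm z))ᵀ k l) (A.e i x) := fun k l =>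
    ((contDiffOn_Gam (U := A.ov i j) (m := fun z => (Lam2130.Jm A i j ((A.e i).symm z))ᵀ)
      (fun a b => J_smooth i j b a) k l).contDiffAt
      ((isOpen_ov i j).mem_nhds (mem_ov hx))).differentiableAt (by simp)
  ext ⟨k, r⟩ ⟨l, s⟩
  rw [Matrix.of_apply, wd_mul (hd1 k l) (hd2 r s), dh_Gam_Jb hx, zero_mul, zero_add,
    (A.e i).left_inv hx.1]
  rfl

theorem vac_F (k : FI n × FI n) : k.1.card + k.2.card = 0 ↔ k = (∅, ∅) := by
  obtain ⟨S, T⟩ := k
  rw [Nat.add_eq_zero_iff, Finset.card_eq_zero, Finset.card_eq_zero, Prod.mk.injEq]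

/-- **the de Rham structure on the bundle of all forms** -/
def ADR (A : Atl n M) : DRS (AF A) where
  α0 := AF_α
  pdeg k := Finset.card (α := Fin n) k.2
  f := fF n
  jo := jF n
  e_pdeg := by
    rintro a ⟨k, r⟩ ⟨l, s⟩ h
    have h1 := right_ne_zero_of_mul h
    have h2 : r = s := by
      by_contra h3
      exact h1 (Matrix.one_apply_ne h3)
    rw [h2]
  f_deg := by
    rintro a ⟨k, r⟩ ⟨l, s⟩ h
    have h1 := left_ne_zero_of_mul h
    have h2 : k = l := by
      by_contra h3
      exact h1 (Matrix.diagonal_apply_ne _ h3)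
    exact congrArg (Finset.card (α := Fin n)) h2
  f_pdeg := by
    rintro a ⟨k, r⟩ ⟨l, s⟩ h
    exact eW_deg (right_ne_zero_of_mul h)
  ff := ff_zero
  fe := fe_zero
  fj := fj_delta
  fi := fi_zero
  ej := ej_zero
  num := num_F
  τ_pdeg := by
    rintro i j x ⟨k, r⟩ ⟨l, s⟩ h
    exact Gam_deg (right_ne_zero_of_mul h)
  f_symb i j x hx b := fF_symb (Gam (Jb A i j x)) (par_Gam _) (Lam2130.Jm A i j x) b
  f_closed i j x hx := by
    have h := fF_closed (Gam (Jb A i j x)) _ (sum_e_dh_Gam hx)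
    simp only [← dh_τ hx] at h
    exact h
  k0 := ((∅, ∅) : FI n × FI n)
  vac k := vac_F k

end

end Crest.Agent.R276.Frm218
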