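import Crest.Agent.R276.IpcRel_244
import Crest.Agent.R276.Mod6_987

/-!
# Row 276 (S0419), leaf IPC-MODEL (helper244), part 3: the geometric variation of 987's relative models

`R₀ : RMdl L K m r` is given, `s ≠ 0` any polynomial in `m + r` variables.  After shrinking the base by a
multiple `p` of `c₀` and the total space by `p` and `g` (`s ∣ g`), the middle cohomology of the fibres of
`R.MK.Pts → R.ML.Pts` (after enough punctures: see `geoVHS`) is a polarised variation realised on `R.MK.Pts`,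
with the action of the automorphisms of `K` over `L(x)`.
-/

set_option autoImplicit false

noncomputable section

open Set Filter Topology MeasureTheory
open Crest.Agent.R271.Ho51 Crest.Agent.R276.Ipc735 Crest.Agent.R276.Top8_815
open Crest.Agent.R276.Tow2_244 Crest.Agent.R276.Tow4_244 Crest.Agent.R276.Iter_840
open Crest.Agent.R276.IpcModel_244 Crest.Agent.R276.IpcRel_244 Crest.Agent.R276.Mod1_987
open Crest.Agent.R271.Rd692

namespace Crest.Agent.R276.IpcRMdl_244

variable {L K : Type} [Field L] [Field K] [Algebra ℂ L] [Algebra ℂ K] [Algebra L K]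
  [IsScalarTower ℂ L K] {m r : ℕ}

/-- the fibration of a relative model -/
def fF (R : RMdl L K m r) : FSp m r R.ML.Pts R.MK.Pts :=
  relF R.ML R.MK (f := R.q) R.continuous_q R.pz_q

@[simp] lemma fF_q (R : RMdl L K m r) (y : R.MK.Pts) : (fF R).q y = R.q y := rfl

@[simp] lemma fF_t (R : RMdl L K m r) (y : R.MK.Pts) : (fF R).t y = R.x y := rfl

/-! ### automorphisms of `K` over `L(x)` act on the points -/

section act

variable (R : RMdl L K m r)

/-- automorphisms of `K` over `L` fixing the fibre coordinates -/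
def AutX : Subgroup (K ≃ₐ[L] K) where
  carrier := {σ | ∀ j : Fin r, σ (R.MK.zK (Fin.natAdd m j)) = R.MK.zK (Fin.natAdd m j)}
  one_mem' := fun j => rfl
  mul_mem' := by
    intro a b ha hb j
    rw [AlgEquiv.mul_apply, hb j, ha j]
  inv_mem' := by
    intro a ha j
    rw [← ha j]
    change a.symm (a (R.MK.zK (Fin.natAdd m j))) = a (R.MK.zK (Fin.natAdd m j))
    rw [AlgEquiv.symm_apply_apply, ha j]

variable {R}

lemma aut_zK (σ : AutX R) (i : Fin (m + r)) : (σ : K ≃ₐ[L] K) (R.MK.zK i) = R.MK.zK i := by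
  refine Fin.addCases (fun i => ?_) (fun j => ?_) i
  · rw [R.z_eq, AlgEquiv.commutes]
  · exact σ.2 j

lemma aut_aK (σ : AutX R) (p : MvPolynomial (Fin (m + r)) ℂ) :
    (σ : K ≃ₐ[L] K) (R.MK.aK p) = R.MK.aK p := by
  change (((σ : K ≃ₐ[L] K) : K →ₐ[L] K).restrictScalars ℂ) (MvPolynomial.aeval R.MK.zK p) =
    MvPolynomial.aeval R.MK.zK p
  rw [MvPolynomial.comp_aeval_apply]
  congr 2
  funext i
  exact aut_zK σ i

lemma aut_mem (σ : AutX R) {b : K} (hb : b ∈ R.MK.B) : (σ : K ≃ₐ[L] K) b ∈ R.MK.B := by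
  obtain ⟨k, p, hp, h0⟩ := (R.MK.mem_B_iff b).mp hb
  refine (R.MK.mem_B_iff _).mpr ⟨k, p, hp, ?_⟩
  have h1 : R.MK.aK R.MK.h ^ k * (σ : K ≃ₐ[L] K) b =
      ((σ : K ≃ₐ[L] K) : K →+* K) (R.MK.aK R.MK.h ^ k * b) := by
    change _ = (σ : K ≃ₐ[L] K) (R.MK.aK R.MK.h ^ k * b)
    rw [map_mul, map_pow, aut_aK]
  have h2 : R.MK.aK = (((σ : K ≃ₐ[L] K) : K →+* K)).comp R.MK.aK :=
    RingHom.ext fun q => (aut_aK σ q).symm
  rw [h1]
  have h3 := Polynomial.hom_eval₂ p R.MK.aK ((σ : K ≃ₐ[L] K) : K →+* K) (R.MK.aK R.MK.h ^ k * b)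
  rw [← h2] at h3
  rw [← h3, h0, map_zero]

/-- the action on the coordinate ring -/
def autB (σ : AutX R) : R.MK.B →ₐ[ℂ] R.MK.B :=
  ((((σ : K ≃ₐ[L] K) : K →ₐ[L] K).restrictScalars ℂ).comp R.MK.B.val).codRestrict R.MK.B
    (fun b => aut_mem σ b.2)

@[simp] lemma autB_coe (σ : AutX R) (b : R.MK.B) : (autB σ b : K) = (σ : K ≃ₐ[L] K) b := rfl

variable (R) in
/-- the action on the points -/
def autP : AutX R →* Equiv.Perm R.MK.Pts where
  toFun σ :=
    { toFun := fun y => y.comp (autB σ⁻¹)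
      invFun := fun y => y.comp (autB σ)
      left_inv := fun y => by
        ext b
        change y (autB σ⁻¹ (autB σ b)) = y b
        congr 1
        exact Subtype.ext (AlgEquiv.symm_apply_apply (σ : K ≃ₐ[L] K) (b : K))
      right_inv := fun y => by
        ext b
        change y (autB σ (autB σ⁻¹ b)) = y b
        congr 1
        exact Subtype.ext (AlgEquiv.apply_symm_apply (σ : K ≃ₐ[L] K) (b : K)) }
  map_one' := by
    ext y b
    change y (autB 1⁻¹ b) = y b
    congr 1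
  map_mul' σ τ := by
    ext y b
    change y (autB (σ * τ)⁻¹ b) = y (autB τ⁻¹ (autB σ⁻¹ b))
    congr 1

lemma continuous_autP (σ : AutX R) : Continuous (autP R σ) := by
  rw [continuous_iff_ev]
  intro b
  exact continuous_ev _

lemma q_autP (σ : AutX R) (y : R.MK.Pts) : R.q (autP R σ y) = R.q y := by
  ext b
  change y (autB σ⁻¹ (R.incl b)) = y (R.incl b)
  congr 1
  exact Subtype.ext (AlgEquiv.commutes ((σ⁻¹ : AutX R) : K ≃ₐ[L] K) (b : L))

lemma x_autP (σ : AutX R) (y : R.MK.Pts) : R.x (autP R σ y) = R.x y := by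
  funext j
  change y (autB σ⁻¹ (R.MK.z (Fin.natAdd m j))) = y (R.MK.z (Fin.natAdd m j))
  congr 1
  exact Subtype.ext ((σ⁻¹).2 j)

end act

/-! ### the geometric variation -/

lemma shrink_ML_h (R : RMdl L K m r) (p : MvPolynomial (Fin m) ℂ) (hp : p ≠ 0)
    (s : MvPolynomial (Fin (m + r)) ℂ) (hs : s ≠ 0) : (R.shrink p hp s hs).ML.h = R.ML.h * p := rfl

lemma shrink_MK_h (R : RMdl L K m r) (p : MvPolynomial (Fin m) ℂ) (hp : p ≠ 0)
    (s : MvPolynomial (Fin (m + r)) ℂ) (hs : s ≠ 0) :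
    (R.shrink p hp s hs).MK.h = R.MK.h * (MvPolynomial.rename (Fin.castAdd r) p * s) := rfl

/-- **The geometric variation of a relative model.** -/
theorem geo_rmdl (hO : OneStep) (hR : StepRz) (hA : StepRzAct) (R₀ : RMdl L K m r)
    (s : MvPolynomial (Fin (m + r)) ℂ) (hs : s ≠ 0) :
    ∃ (c₀ : MvPolynomial (Fin m) ℂ) (g : MvPolynomial (Fin (m + r)) ℂ) (hg : g ≠ 0), c₀ ≠ 0 ∧
      s ∣ g ∧ ∀ (p : MvPolynomial (Fin m) ℂ) (hp : p ≠ 0), c₀ ∣ p →
        ∃ (N' : ℕ) (W : VHS m (R₀.shrink p hp g hg).ML.Pts N' r)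
          (ρ : Act W (AutX (R₀.shrink p hp g hg)))
          (ι : (R₀.shrink p hp g hg).ML.Pts → (Fin N' → ℂ) → (R₀.shrink p hp g hg).MK.Pts → ℂ),
          Rz W (fF (R₀.shrink p hp g hg)) ι ∧
          RzAct ρ (fF (R₀.shrink p hp g hg)) ι (fun σ => autP (R₀.shrink p hp g hg) σ) := by
  have hh : R₀.MK.h * s ≠ 0 := mul_ne_zero R₀.MK.h_ne hs
  obtain ⟨c₀, g, hc, hg, hhg, -, H⟩ := geo_rel hO hR hA m r (R₀.MK.h * s) hh
  refine ⟨c₀, g, hg, hc, (dvd_mul_left s _).trans hhg, fun p hp hcp => ?_⟩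
  refine H L K (R₀.shrink p hp g hg).ML (R₀.shrink p hp g hg).MK (R₀.shrink p hp g hg).q
    (R₀.shrink p hp g hg).continuous_q (R₀.shrink p hp g hg).pz_q ?_ ?_ 2 ?_ _
    (autP (R₀.shrink p hp g hg)) continuous_autP q_autP
    (fun σ y i => congrFun (x_autP σ y) i)
  · rw [shrink_ML_h]
    exact hcp.mul_left _
  · rw [shrink_MK_h]
    exact (dvd_mul_left g _).mul_left _
  · rw [shrink_MK_h, shrink_ML_h]
    have h1 : R₀.MK.h ∣ g := (dvd_mul_right _ _).trans hhg
    obtain ⟨e, he⟩ := h1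
    refine ⟨e * MvPolynomial.rename (Fin.castAdd r) R₀.ML.h ^ 2 *
      MvPolynomial.rename (Fin.castAdd r) p, ?_⟩
    rw [map_mul]
    calc (g * (MvPolynomial.rename (Fin.castAdd r) R₀.ML.h *
          MvPolynomial.rename (Fin.castAdd r) p)) ^ 2
        = (g * g) * (MvPolynomial.rename (Fin.castAdd r) R₀.ML.h *
          MvPolynomial.rename (Fin.castAdd r) p) ^ 2 := by ring
      _ = ((R₀.MK.h * e) * g) * (MvPolynomial.rename (Fin.castAdd r) R₀.ML.h *
          MvPolynomial.rename (Fin.castAdd r) p) ^ 2 := by rw [← he]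
      _ = _ := by ring

end Crest.Agent.R276.IpcRMdl_244
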