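import Crest.Agent.R276.GeoY2_519
import Crest.Agent.R276.Geo2_519
import Crest.Agent.R276.IpcRMdl_244

/-!
# Row 276 (S0419), GEO (helper519), part 3: the geometric variation of the root cover

`R : RMdl L K m r`, `σ_i ∈ MK.B` linearly independent on the connected fibres over one point, `N ≥ 1`.

* `dlt R σ y = det (y_j (σ_i))`;
* `YT R σ N ρ` : the space of `(u, y_1, …, y_s, η)`, `q (y_j) = ρ u`, `η^N = det (y_j (σ_i)) ≠ 0`, for
  `ρ : S → ML.Pts`; `FT` : the same as a fibred space `FSp m (s r) S _`;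
* `exists_rz` : after shrinking the base: a variation of Hodge structures on `S` realised on the open part
  `{g ≠ 0}` of `YT`.
-/

set_option autoImplicit false

noncomputable section

open Set Filter Topology MeasureTheory
open Crest.Agent.R271.Ho51 Crest.Agent.R276.Ipc735 Crest.Agent.R276.Top8_815
open Crest.Agent.R276.Tow2_244 Crest.Agent.R276.Tow4_244 Crest.Agent.R276.Iter_840
open Crest.Agent.R276.IpcModel_244 Crest.Agent.R276.IpcRel_244 Crest.Agent.R276.Mod1_987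
open Crest.Agent.R271.Rd692 Crest.Agent.R276.IpcRMdl_244 Crest.Agent.R276.Rc_348
open Crest.Agent.R276.GeoY_519 Crest.Agent.R276.GeoY2_519 Crest.Agent.R276.Geo2_519
open scoped ENNReal

namespace Crest.Agent.R276.Geo3_519

variable {L K : Type} [Field L] [Field K] [Algebra ℂ L] [Algebra ℂ K] [Algebra L K]
  [IsScalarTower ℂ L K] {m r : ℕ}

section defs

variable (R : RMdl L K m r) {s : ℕ} (σ : Fin s → R.MK.B)

/-- `det (y_j (σ_i))` -/
def dlt (y : Fin s → R.MK.Pts) : ℂ := (Matrix.of fun i j => y j (σ i)).det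

lemma continuous_dlt : Continuous (dlt R σ) := by
  unfold dlt
  refine Continuous.matrix_det ?_
  refine continuous_pi fun i => continuous_pi fun j => ?_
  exact (continuous_ev (σ i)).comp (continuous_apply j)

variable {S : Type} [TopologicalSpace S] [RDom m S] (ρ : S → R.ML.Pts) (N : ℕ)

/-- the function `δ` on the fibre power -/
def dz (z : ZD (fF R) ρ (dlt R σ)) : ℂ := dlt R σ z.y

/-- the root cover of the fibre power -/
abbrev YT : Type := RC (dz R σ ρ) N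

lemma continuous_dz : Continuous (dz R σ ρ) := (continuous_dlt R σ).comp ZD.continuous_y

lemma dz_ne (z : ZD (fF R) ρ (dlt R σ)) : dz R σ ρ z ≠ 0 := z.d_ne

variable {ρ N}

/-- the root cover of the fibre power as a fibred space -/
def FT (hρ : Continuous ρ) (hN : N ≠ 0) : FSp m (s * r) S (YT R σ ρ N) :=
  RF (ZDF (fF R) ρ (dlt R σ) hρ (continuous_dlt R σ)) hN (continuous_dz R σ ρ) (dz_ne R σ ρ)

end defs

lemma exists_ne_of_ne {m d : ℕ} {g : MvPolynomial (Fin (m + d)) ℂ} (hg : g ≠ 0) :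
    ∃ a : MvPolynomial (Fin m) ℂ, a ≠ 0 ∧ ∀ z, MvPolynomial.eval z a ≠ 0 →
      ∃ τ : Fin d → ℂ, MvPolynomial.eval (Fin.append z τ) g ≠ 0 := by
  obtain ⟨ζ, hζ⟩ : ∃ ζ : Fin (m + d) → ℂ, MvPolynomial.eval ζ g ≠ 0 := by
    by_contra h
    push Not at h
    exact hg (MvPolynomial.funext fun ζ => by rw [h ζ, map_zero])
  refine ⟨specR (fun j => ζ (Fin.natAdd m j)) g, fun h0 => hζ ?_, fun z hz =>
    ⟨fun j => ζ (Fin.natAdd m j), ?_⟩⟩
  · have h1 := eval_specR (fun i => ζ (Fin.castAdd d i)) (fun j => ζ (Fin.natAdd m j)) g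
    rw [h0, map_zero] at h1
    rw [h1]
    congr 2
    funext i
    refine Fin.addCases (fun i => ?_) (fun j => ?_) i <;> simp
  · rwa [eval_specR] at hz

/-- **the variation of the root cover** -/
theorem exists_rz (hO : OneStep) (hR : StepRz) (hA : StepRzAct) (R : RMdl L K m r) {s : ℕ}
    (σ : Fin s → R.MK.B) {N : ℕ} (hN : N ≠ 0) (w₀ : R.ML.Pts)
    (hconn : ∀ w, R.ML.pz w = R.ML.pz w₀ → ConnectedSpace (R.Fib w))
    (hind : ∀ w, R.ML.pz w = R.ML.pz w₀ → ∀ v : Fin s → ℂ, v ≠ 0 →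
      ∃ y : R.Fib w, ∑ i, v i * (y.val) (σ i) ≠ 0) :
    ∃ (p : MvPolynomial (Fin m) ℂ) (g : MvPolynomial (Fin (m + s * r)) ℂ), p ≠ 0 ∧
      (∀ z, MvPolynomial.eval z p ≠ 0 →
        ∃ τ : Fin (s * r) → ℂ, MvPolynomial.eval (Fin.append z τ) g ≠ 0) ∧
      ∀ (S : Type) [TopologicalSpace S] [T2Space S] [SecondCountableTopology S]
        [PreconnectedSpace S] [RDom m S] (ρ : S → R.ML.Pts) (hρ : Continuous ρ)
        (_ : ∀ u, R.ML.pz (ρ u) = cp u) (_ : ∀ u : S, MvPolynomial.eval (cp u) p ≠ 0),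
        ∃ (N' : ℕ) (W : VHS m S N' (s * r)) (ι : S → (Fin N' → ℂ) →
          OY (FT R σ hρ hN) g → ℂ), Rz W (OF (FT R σ hρ hN) g) ι := by
  obtain ⟨H, hH, hHp⟩ := exists_normPoly_rel R σ w₀ hconn hind
  obtain ⟨c₀, g, hc₀, hg, hHg, -, hgeo⟩ := geo_cov hO hR hA m (s * r) H hH
  obtain ⟨a, ha, hap⟩ := exists_ne_of_ne hg
  refine ⟨c₀ * a, g, mul_ne_zero hc₀ ha, fun z hz => hap z ?_, ?_⟩
  · rw [map_mul] at hz
    exact right_ne_zero_of_mul hz
  intro S _ _ _ _ _ ρ hρ hcp hp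
  have hgH : ∀ ζ, MvPolynomial.eval ζ g ≠ 0 → MvPolynomial.eval ζ H ≠ 0 := by
    intro ζ h1 h2
    obtain ⟨b, rfl⟩ := hHg
    rw [map_mul, h2, zero_mul] at h1
    exact h1 rfl
  have hgh : ∀ (z : Fin m → ℂ) (τ : Fin (s * r) → ℂ), MvPolynomial.eval (Fin.append z τ) g ≠ 0 →
      ∀ j, MvPolynomial.eval (Fin.append z (blk τ j)) R.MK.h ≠ 0 :=
    fun z τ h1 j => (hHp z τ (hgH _ h1)).1 j
  have hgd : ∀ (u : S) (y : Fin s → R.MK.Pts), (∀ j, (fF R).q (y j) = ρ u) →
      MvPolynomial.eval (Fin.append (cp u) (tt (fF R) y)) g ≠ 0 → dlt R σ y ≠ 0 := by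
    intro u y hy h1
    refine (hHp _ _ (hgH _ h1)).2 y fun j => ?_
    have h2 := R.append_eq (y j)
    have h3 : R.q (y j) = ρ u := hy j
    rw [h3, hcp] at h2
    rw [← h2]
    congr 1
    exact (blk_tt (fF R) y j).symm
  have hprop : ∀ C : Set (R.ML.Pts × (Fin r → ℂ)), IsCompact C →
      (∀ p ∈ C, MvPolynomial.eval (Fin.append (cp p.1) p.2) R.MK.h ≠ 0) →
      IsCompact {y | ((fF R).q y, (fF R).t y) ∈ C} := by
    intro C hC h1
    exact R.isCompact_preimage hC fun p hp => h1 p hp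
  obtain ⟨N', W, -, ι, hι, -⟩ := hgeo S (fun u => by
      have := hp u
      rw [map_mul] at this
      exact left_ne_zero_of_mul this) (OY (FT R σ hρ hN) g) (OF (FT R σ hρ hN) g)
    (fun y => y.2) (fun C hC hCg => by
      refine of_compact (FT R σ hρ hN) g hCg ?_
      refine rf_compact (ZDF (fF R) ρ (dlt R σ) hρ (continuous_dlt R σ)) hN (continuous_dz R σ ρ) hC ?_
      exact zd_compact (fF R) ρ (dlt R σ) hρ hcp R.MK.h g hprop hgh hgd hC hCg)
    PUnit (1 : PUnit →* Equiv.Perm (OY (FT R σ hρ hN) g)) (fun _ => continuous_id)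
    (fun _ _ => rfl) (fun _ _ => rfl)
  exact ⟨N', W, ι, hι⟩

end Crest.Agent.R276.Geo3_519
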