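import Crest.Agent.R276.Cov1_425
import Crest.Agent.R276.Geo2_519
import Crest.Agent.R276.Geo3_519
import Crest.Agent.R276.IpcRMdl_244

/-!
# Row 276 (S0419), GEO (helper519), part 4: the geometric variation of the root cover, on 425's spaces

* `pbF F ρ` : pull back of a fibred space `F : FSp m r X P` along `ρ : S → X`;
* `Pr F h` : properness over `{h ≠ 0}`; stable under `pbF`, `pow`, `root`, `sub`;
* `exists_rz` : after shrinking the base: a variation of Hodge structures on `S`, realised on the open part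
  `{g ≠ 0}` of the root cover `η^N = det (y_j (σ_i))` of the `s`-fold fibre power.
-/

set_option autoImplicit false
set_option linter.unusedSectionVars false

noncomputable section

open Set Filter Topology MeasureTheory
open Crest.Agent.R271.Ho51 Crest.Agent.R276.Ipc735 Crest.Agent.R276.Top8_815
open Crest.Agent.R276.Tow2_244 Crest.Agent.R276.Tow4_244 Crest.Agent.R276.Iter_840
open Crest.Agent.R276.IpcModel_244 Crest.Agent.R276.IpcRel_244 Crest.Agent.R276.Mod1_987
open Crest.Agent.R271.Rd692 Crest.Agent.R276.IpcRMdl_244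
open Crest.Agent.R276.Geo2_519 Crest.Agent.R276.Cov_425
open scoped ENNReal

namespace Crest.Agent.R276.Geo4_519

section pb

variable {m r : ℕ} {S X P : Type*} [TopologicalSpace S] [RDom m S] [TopologicalSpace X] [RDom m X]
  [TopologicalSpace P]

/-- the pull back of `P → X` along `ρ : S → X` -/
abbrev PB (F : FSp m r X P) (ρ : S → X) : Type _ := {p : S × P // F.q p.2 = ρ p.1}

/-- the pull back of `P → X` along `ρ : S → X`, as a fibred space -/
def pbF (F : FSp m r X P) {ρ : S → X} (hρ : Continuous ρ) : FSp m r S (PB F ρ) where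
  q := fun p => p.1.1
  t := fun p => F.t p.1.2
  lh := by
    have hc : Continuous fun p : PB F ρ => (p.1.1, F.t p.1.2) :=
      (continuous_fst.comp continuous_subtype_val).prodMk
        ((continuous_t F).comp (continuous_snd.comp continuous_subtype_val))
    refine lh_mk hc fun p₀ => ?_
    obtain ⟨e, he, hef⟩ := F.lh p₀.1.2
    have hap : ∀ y, e y = (F.q y, F.t y) := fun y => (congrFun hef y).symm
    have hmap : Continuous fun z : S × (Fin r → ℂ) => (ρ z.1, z.2) :=
      (hρ.comp continuous_fst).prodMk continuous_snd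
    classical
    refine ⟨{p | p.1.2 ∈ e.source}, {z | (ρ z.1, z.2) ∈ e.target},
      fun z => if h : (ρ z.1, z.2) ∈ e.target then ⟨(z.1, e.symm (ρ z.1, z.2)), by
          have h1 := e.right_inv h
          rw [hap] at h1
          exact (Prod.ext_iff.1 h1).1⟩ else p₀, ?_, ?_, he, ?_, ?_, ?_, ?_, ?_⟩
    · exact e.open_source.preimage (continuous_snd.comp continuous_subtype_val)
    · exact e.open_target.preimage hmap
    · intro p hp
      have h1 := e.map_source hp
      rw [hap, p.2] at h1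
      exact h1
    · intro z hz
      simp only [mem_ofPred_eq] at hz
      simp only [mem_ofPred_eq]
      rw [dif_pos hz]
      exact e.map_target hz
    · refine contOn_sub ?_
      refine ContinuousOn.congr (f := fun z : S × (Fin r → ℂ) => (z.1, e.symm (ρ z.1, z.2))) ?_ ?_
      · refine continuousOn_fst.prodMk (e.continuousOn_symm.comp hmap.continuousOn ?_)
        exact fun z hz => hz
      · intro z hz
        simp only [mem_ofPred_eq] at hz
        simp only [dif_pos hz]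
    · intro p hp
      have hz : (ρ p.1.1, F.t p.1.2) ∈ e.target := by
        have h1 := e.map_source hp
        rw [hap, p.2] at h1
        exact h1
      simp only
      rw [dif_pos hz]
      apply Subtype.ext
      refine Prod.ext rfl ?_
      have h2 := e.left_inv hp
      rw [hap, p.2] at h2
      exact h2
    · intro z hz
      simp only [mem_ofPred_eq] at hz
      simp only
      rw [dif_pos hz]
      refine Prod.ext rfl ?_
      have h1 := e.right_inv hz
      rw [hap] at h1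
      exact (Prod.ext_iff.1 h1).2

@[simp] lemma pbF_q (F : FSp m r X P) {ρ : S → X} (hρ : Continuous ρ) (p : PB F ρ) :
    (pbF F hρ).q p = p.1.1 := rfl

@[simp] lemma pbF_t (F : FSp m r X P) {ρ : S → X} (hρ : Continuous ρ) (p : PB F ρ) :
    (pbF F hρ).t p = F.t p.1.2 := rfl

end pb

section proper

variable {m d r : ℕ} {S X Y P : Type*} [TopologicalSpace S] [RDom m S] [TopologicalSpace X]
  [RDom m X] [TopologicalSpace Y] [TopologicalSpace P]

/-- the set `{h ≠ 0}` in the product -/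
def NZ (S : Type*) [TopologicalSpace S] [RDom m S] (h : MvPolynomial (Fin (m + d)) ℂ) :
    Set (S × (Fin d → ℂ)) := {p | MvPolynomial.eval (Fin.append (cp p.1) p.2) h ≠ 0}

/-- the polynomial on the fibred space -/
def gv (F : FSp m d S Y) (g : MvPolynomial (Fin (m + d)) ℂ) (y : Y) : ℂ :=
  MvPolynomial.eval (Fin.append (cp (F.q y)) (F.t y)) g

lemma continuous_gv (F : FSp m d S Y) (g : MvPolynomial (Fin (m + d)) ℂ) : Continuous (gv F g) := by
  refine (MvPolynomial.continuous_eval g).comp ?_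
  refine continuous_pi fun i => ?_
  refine Fin.addCases (fun i => ?_) (fun j => ?_) i
  · simp only [Fin.append_left]
    exact (continuous_apply i).comp (cp_cont.comp (continuous_q F))
  · simp only [Fin.append_right]
    exact (continuous_apply j).comp (continuous_t F)

/-- properness over `{h ≠ 0}` -/
def Pr (F : FSp m d S Y) (h : MvPolynomial (Fin (m + d)) ℂ) : Prop :=
  ∀ K : Set (S × (Fin d → ℂ)), IsCompact K → K ⊆ NZ S h → IsCompact {y | (F.q y, F.t y) ∈ K}

theorem Pr.pb {F : FSp m r X P} {h : MvPolynomial (Fin (m + r)) ℂ} (hF : Pr F h) [T2Space S]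
    [T2Space X] {ρ : S → X} (hρ : Continuous ρ) (hcp : ∀ u, cp (ρ u) = cp u) :
    Pr (pbF F hρ) h := by
  intro K hK hKh
  have hind : Topology.IsInducing (fun y : PB F ρ => y.1) := ⟨rfl⟩
  rw [hind.isCompact_iff]
  have hmap : Continuous fun z : S × (Fin r → ℂ) => (ρ z.1, z.2) :=
    (hρ.comp continuous_fst).prodMk continuous_snd
  have h1 : IsCompact {y | (F.q y, F.t y) ∈ (fun z : S × (Fin r → ℂ) => (ρ z.1, z.2)) '' K} := by
    refine hF _ (hK.image hmap) ?_
    rintro _ ⟨p, hp, rfl⟩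
    change MvPolynomial.eval (Fin.append (cp (ρ p.1)) p.2) h ≠ 0
    rw [hcp]
    exact hKh hp
  have hcl : IsClosed {p : S × P | F.q p.2 = ρ p.1 ∧ (p.1, F.t p.2) ∈ K} := by
    have h2 : Continuous fun p : S × P => ((p.1, F.t p.2) : S × (Fin r → ℂ)) :=
      continuous_fst.prodMk ((continuous_t F).comp continuous_snd)
    have h3 : IsClosed {p : S × P | F.q p.2 = ρ p.1} :=
      isClosed_eq ((continuous_q F).comp continuous_snd) (hρ.comp continuous_fst)
    exact h3.inter (hK.isClosed.preimage h2)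
  have himg : (fun y : PB F ρ => y.1) '' {y | ((pbF F hρ).q y, (pbF F hρ).t y) ∈ K} =
      {p : S × P | F.q p.2 = ρ p.1 ∧ (p.1, F.t p.2) ∈ K} := by
    ext p
    constructor
    · rintro ⟨a, ha, rfl⟩
      exact ⟨a.2, ha⟩
    · rintro ⟨h4, h5⟩
      exact ⟨⟨p, h4⟩, h5, rfl⟩
  rw [himg]
  refine (((hK.image continuous_fst).prod h1).inter_right hcl).of_isClosed_subset hcl ?_
  rintro p ⟨h4, h5⟩
  refine ⟨⟨⟨(p.1, F.t p.2), h5, rfl⟩, ⟨(p.1, F.t p.2), h5, ?_⟩⟩, h4, h5⟩
  change (ρ p.1, F.t p.2) = _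
  rw [← h4]

theorem Pr.pow {F : FSp m r S Y} {h : MvPolynomial (Fin (m + r)) ℂ} (hF : Pr F h) [T2Space S]
    {s : ℕ} {g : MvPolynomial (Fin (m + s * r)) ℂ}
    (hgh : ∀ (z : Fin m → ℂ) (τ : Fin (s * r) → ℂ), MvPolynomial.eval (Fin.append z τ) g ≠ 0 →
      ∀ j, MvPolynomial.eval (Fin.append z (blk τ j)) h ≠ 0) : Pr (pow F s) g := by
  intro K hK hKg
  have hind : Topology.IsInducing (fun y : FPow F s => y.1) := ⟨rfl⟩
  rw [hind.isCompact_iff]
  have hcont : ∀ j : Fin s, Continuous fun p : S × (Fin (s * r) → ℂ) => (p.1, blk p.2 j) :=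
    fun j => continuous_fst.prodMk ((continuous_blk j).comp continuous_snd)
  have hKj : ∀ j : Fin s, IsCompact {y : Y | (F.q y, F.t y) ∈
      (fun p : S × (Fin (s * r) → ℂ) => (p.1, blk p.2 j)) '' K} := by
    intro j
    apply hF _ (hK.image (hcont j))
    rintro _ ⟨p, hp, rfl⟩
    exact hgh _ _ (hKg hp) j
  have hbig : IsCompact ((Prod.fst '' K) ×ˢ (Set.univ.pi fun j : Fin s => {y : Y | (F.q y, F.t y) ∈
      (fun p : S × (Fin (s * r) → ℂ) => (p.1, blk p.2 j)) '' K})) :=
    (hK.image continuous_fst).prod (isCompact_univ_pi hKj)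
  have hcl : IsClosed {p : S × (Fin s → Y) | (∀ j, F.q (p.2 j) = p.1) ∧
      (p.1, unblk fun j => F.t (p.2 j)) ∈ K} := by
    have h1 : {p : S × (Fin s → Y) | (∀ j, F.q (p.2 j) = p.1) ∧
        (p.1, unblk fun j => F.t (p.2 j)) ∈ K} =
        (⋂ j, {p : S × (Fin s → Y) | F.q (p.2 j) = p.1}) ∩
          (fun p : S × (Fin s → Y) => (p.1, unblk fun j => F.t (p.2 j))) ⁻¹' K := by
      ext p
      simp
    rw [h1]
    have h2 : Continuous fun p : S × (Fin s → Y) =>
        ((p.1, unblk fun j => F.t (p.2 j)) : S × (Fin (s * r) → ℂ)) :=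
      continuous_fst.prodMk (continuous_unblk.comp (continuous_pi fun j =>
        (continuous_t F).comp ((continuous_apply j).comp continuous_snd)))
    have h3 : ∀ j : Fin s, IsClosed {p : S × (Fin s → Y) | F.q (p.2 j) = p.1} := by
      intro j
      have h4 : Continuous fun p : S × (Fin s → Y) => F.q (p.2 j) :=
        (continuous_q F).comp ((continuous_apply j).comp continuous_snd)
      exact isClosed_eq h4 continuous_fst
    exact (isClosed_iInter h3).inter (hK.isClosed.preimage h2)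
  have himg : (fun y : FPow F s => y.1) '' {y | ((Cov_425.pow F s).q y, (Cov_425.pow F s).t y) ∈ K} =
      {p : S × (Fin s → Y) | (∀ j, F.q (p.2 j) = p.1) ∧
        (p.1, unblk fun j => F.t (p.2 j)) ∈ K} := by
    ext p
    constructor
    · rintro ⟨a, ha, rfl⟩
      exact ⟨a.2, ha⟩
    · rintro ⟨h4, h5⟩
      exact ⟨⟨p, h4⟩, h5, rfl⟩
  rw [himg]
  refine (hbig.inter_right hcl).of_isClosed_subset hcl ?_
  rintro p ⟨h4, h5⟩
  have h6 : ∀ j, (F.q (p.2 j), F.t (p.2 j)) ∈
      (fun p : S × (Fin (s * r) → ℂ) => (p.1, blk p.2 j)) '' K := by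
    intro j
    refine ⟨(p.1, unblk fun j => F.t (p.2 j)), h5, ?_⟩
    change (p.1, blk (unblk fun j => F.t (p.2 j)) j) = _
    rw [blk_unblk, h4 j]
  exact ⟨⟨⟨(p.1, unblk fun j => F.t (p.2 j)), h5, rfl⟩, fun j _ => h6 j⟩, h4, h5⟩

theorem Pr.root {F : FSp m d S Y} {g : MvPolynomial (Fin (m + d)) ℂ} (hF : Pr F g) [T2Space S]
    [T2Space Y] {δ : Y → ℂ} (hδ : Continuous δ) {N : ℕ} (hN : N ≠ 0)
    (hg : ∀ y, gv F g y ≠ 0 → δ y ≠ 0) : Pr (root F hδ hN) g := by
  intro K hK hKg
  have hind : Topology.IsInducing (fun y : Root δ N => y.1) := ⟨rfl⟩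
  rw [hind.isCompact_iff]
  have h1 : IsCompact {y | (F.q y, F.t y) ∈ K} := hF K hK hKg
  obtain ⟨C, hC⟩ := h1.exists_bound_of_continuousOn hδ.continuousOn
  have h2 : IsCompact ({y | (F.q y, F.t y) ∈ K} ×ˢ Metric.closedBall (0 : ℂ) (max 1 C)) :=
    h1.prod (isCompact_closedBall _ _)
  have hcl : IsClosed {p : Y × ℂ | p.2 ^ N = δ p.1 ∧ (F.q p.1, F.t p.1) ∈ K} :=
    (isClosed_eq (continuous_snd.pow N) (hδ.comp continuous_fst)).inter
      (hK.isClosed.preimage (F.lh.continuous.comp continuous_fst))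
  have himg : (fun y : Root δ N => y.1) '' {y | ((Cov_425.root F hδ hN).q y,
      (Cov_425.root F hδ hN).t y) ∈ K} =
      {p : Y × ℂ | p.2 ^ N = δ p.1 ∧ (F.q p.1, F.t p.1) ∈ K} := by
    ext p
    constructor
    · rintro ⟨a, ha, rfl⟩
      exact ⟨a.2.1, ha⟩
    · rintro ⟨h4, h5⟩
      have h6 : (F.q p.1, F.t p.1) ∈ NZ S g := hKg h5
      have h7 : gv F g p.1 ≠ 0 := h6
      exact ⟨⟨p, h4, hg p.1 h7⟩, h5, rfl⟩
  rw [himg]
  refine (h2.inter_right hcl).of_isClosed_subset hcl ?_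
  rintro p ⟨h4, h5⟩
  refine ⟨⟨h5, ?_⟩, h4, h5⟩
  rw [mem_closedBall_zero_iff]
  by_contra hlt
  push Not at hlt
  have h6 : 1 < ‖p.2‖ := lt_of_le_of_lt (le_max_left _ _) hlt
  have h7 : ‖p.2‖ ≤ ‖p.2‖ ^ N := le_self_pow₀ h6.le hN
  rw [← norm_pow, h4] at h7
  exact absurd (h7.trans (hC p.1 h5)) (not_le.mpr (lt_of_le_of_lt (le_max_right _ _) hlt))

theorem isOpen_gv (F : FSp m d S Y) (g : MvPolynomial (Fin (m + d)) ℂ) :
    IsOpen {y | gv F g y ≠ 0} := isOpen_ne_fun (continuous_gv F g) continuous_const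

theorem Pr.sub {F : FSp m d S Y} {g : MvPolynomial (Fin (m + d)) ℂ} (hF : Pr F g) :
    Pr (sub F (isOpen_gv F g)) g := by
  intro K hK hKg
  have hind : Topology.IsInducing (fun y : {y | gv F g y ≠ 0} => y.1) := ⟨rfl⟩
  rw [hind.isCompact_iff]
  have himg : (fun y : {y | gv F g y ≠ 0} => y.1) '' {y | ((Cov_425.sub F (isOpen_gv F g)).q y,
      (Cov_425.sub F (isOpen_gv F g)).t y) ∈ K} = {y | (F.q y, F.t y) ∈ K} := by
    ext p
    constructor
    · rintro ⟨a, ha, rfl⟩
      exact ha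
    · intro h5
      have h6 : (F.q p, F.t p) ∈ NZ S g := hKg h5
      have h7 : gv F g p ≠ 0 := h6
      exact ⟨⟨p, h7⟩, h5, rfl⟩
  rw [himg]
  exact hF K hK hKg

end proper

variable {L K : Type} [Field L] [Field K] [Algebra ℂ L] [Algebra ℂ K] [Algebra L K]
  [IsScalarTower ℂ L K] {m r : ℕ}

lemma pr_fF (R : RMdl L K m r) : Pr (fF R) R.MK.h := fun _ hC h1 =>
  R.isCompact_preimage hC fun _ hp => h1 hp

section main

variable (R : RMdl L K m r) {s : ℕ} (σ : Fin s → R.MK.B) {S : Type} [TopologicalSpace S] [RDom m S]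
  {ρ : S → R.ML.Pts}

/-- the sections on the pull back -/
def sg (i : Fin s) (y : PB (fF R) ρ) : ℂ := y.1.2 (σ i)

lemma continuous_sg (i : Fin s) : Continuous (sg R σ (ρ := ρ) i) :=
  (continuous_ev (σ i)).comp (continuous_snd.comp continuous_subtype_val)

/-- the determinant on the fibre power of `F` -/
def dt {F : FSp m r S (PB (fF R) ρ)} (p : FPow F s) : ℂ :=
  (Matrix.of fun i j => sg R σ i (p.1.2 j)).det

lemma continuous_dt {F : FSp m r S (PB (fF R) ρ)} : Continuous (dt R σ (F := F)) := by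
  unfold dt
  refine Continuous.matrix_det ?_
  refine continuous_pi fun i => continuous_pi fun j => ?_
  exact (continuous_sg R σ i).comp
    ((continuous_apply j).comp (continuous_snd.comp continuous_subtype_val))

/-- the root cover of the fibre power, as a fibred space -/
def FR (hρ : Continuous ρ) {N : ℕ} (hN : N ≠ 0) :
    FSp m (s * r) S (Root (dt R σ (F := pbF (fF R) hρ)) N) :=
  root (pow (pbF (fF R) hρ) s) (continuous_dt R σ) hN

end main

/-- **the variation of the root cover** -/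
theorem exists_rz (hO : OneStep) (hR : StepRz) (hA : StepRzAct) (R : RMdl L K m r) {s : ℕ}
    (σ : Fin s → R.MK.B) {N : ℕ} (hN : N ≠ 0) (w₀ : R.ML.Pts)
    (hconn : ∀ w, R.ML.pz w = R.ML.pz w₀ → ConnectedSpace (R.Fib w))
    (hind : ∀ w, R.ML.pz w = R.ML.pz w₀ → ∀ v : Fin s → ℂ, v ≠ 0 →
      ∃ y : R.Fib w, ∑ i, v i * (y.val) (σ i) ≠ 0) :
    ∃ (p : MvPolynomial (Fin m) ℂ) (g : MvPolynomial (Fin (m + s * r)) ℂ), p ≠ 0 ∧
      (∀ z, MvPolynomial.eval z p ≠ 0 →
        ∃ τ : Fin (s * r) → ℂ, MvPolynomial.eval (Fin.append z τ) g ≠ 0) ∧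
      ∀ (S : Type) [TopologicalSpace S] [T2Space S] [SecondCountableTopology S]
        [PreconnectedSpace S] [RDom m S] (ρ : S → R.ML.Pts) (hρ : Continuous ρ)
        (_ : ∀ u, R.ML.pz (ρ u) = cp u) (_ : ∀ u : S, MvPolynomial.eval (cp u) p ≠ 0),
        ∃ (N' : ℕ) (W : VHS m S N' (s * r)) (ι : S → (Fin N' → ℂ) →
          {y | gv (FR R σ hρ hN) g y ≠ 0} → ℂ),
          Rz W (sub (FR R σ hρ hN) (isOpen_gv (FR R σ hρ hN) g)) ι := by
  obtain ⟨H, hH, hHp⟩ := exists_normPoly_rel R σ w₀ hconn hind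
  obtain ⟨c₀, g, hc₀, hg, hHg, -, hgeo⟩ := geo_cov hO hR hA m (s * r) H hH
  obtain ⟨a, ha, hap⟩ := Geo3_519.exists_ne_of_ne hg
  refine ⟨c₀ * a, g, mul_ne_zero hc₀ ha, fun z hz => hap z ?_, ?_⟩
  · rw [map_mul] at hz
    exact right_ne_zero_of_mul hz
  intro S _ _ _ _ _ ρ hρ hcp hp
  have hgH : ∀ ζ, MvPolynomial.eval ζ g ≠ 0 → MvPolynomial.eval ζ H ≠ 0 := by
    intro ζ h1 h2
    obtain ⟨b, rfl⟩ := hHg
    rw [map_mul, h2, zero_mul] at h1
    exact h1 rfl
  have hgh : ∀ (z : Fin m → ℂ) (τ : Fin (s * r) → ℂ), MvPolynomial.eval (Fin.append z τ) g ≠ 0 →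
      ∀ j, MvPolynomial.eval (Fin.append z (blk τ j)) R.MK.h ≠ 0 :=
    fun z τ h1 j => (hHp z τ (hgH _ h1)).1 j
  have hgd : ∀ y : FPow (pbF (fF R) hρ) s, gv (pow (pbF (fF R) hρ) s) g y ≠ 0 →
      dt R σ y ≠ 0 := by
    intro y h1
    refine (hHp _ _ (hgH _ h1)).2 (fun j => (y.1.2 j).1.2) fun j => ?_
    have h2 := R.append_eq (y.1.2 j).1.2
    have h3 : R.q (y.1.2 j).1.2 = ρ (y.1.2 j).1.1 := (y.1.2 j).2
    have h4 : (y.1.2 j).1.1 = y.1.1 := y.2 j
    rw [h3, hcp, h4] at h2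
    rw [← h2]
    congr 1
    funext k
    exact (congrFun (blk_unblk (fun i => (pbF (fF R) hρ).t (y.1.2 i)) j) k).symm
  have hpr : Pr (sub (FR R σ hρ hN) (isOpen_gv (FR R σ hρ hN) g)) g :=
    ((((pr_fF R).pb hρ hcp).pow hgh).root (continuous_dt R σ) hN hgd).sub
  obtain ⟨N', W, -, ι, hι, -⟩ := hgeo S (fun u => by
      have := hp u
      rw [map_mul] at this
      exact left_ne_zero_of_mul this) {y | gv (FR R σ hρ hN) g y ≠ 0}
    (sub (FR R σ hρ hN) (isOpen_gv (FR R σ hρ hN) g))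
    (fun y => y.2) (fun C hC hCg => hpr C hC hCg)
    PUnit (1 : PUnit →* Equiv.Perm {y | gv (FR R σ hρ hN) g y ≠ 0}) (fun _ => continuous_id)
    (fun _ _ => rfl) (fun _ _ => rfl)
  exact ⟨N', W, ι, hι⟩

end Crest.Agent.R276.Geo4_519
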