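import Crest.Agent.R276.Par_425
import Crest.Agent.R276.Geo4_519
import Crest.Agent.R276.Rc_348

/-!
# Row 276 (S0419), GEO: the group acting on the root cover of the fibre power (helper358)

* `GG s N = {(π, ζ) : Perm (Fin s) × ℂˣ | ζ ^ N = sign π}`, finite for `N ≠ 0`;
* `al hs g : Root δ N → Root δ N`, `((u, y), η) ↦ ((u, y ∘ π⁻¹), ζ η)`, for `δ (y ∘ π⁻¹) = sign π * δ y`;
* `gact` : `Par_425.GAct (root (pow F s) hδ hN) (GG s N) (al hs) LL`;
* `chi`, `norm_chi`, `chi_mul`, `rt_al`;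
* `dt_perm` : the sign rule for 519's determinant;
* `pb_root`, `fh_root` : the root is holomorphic if `δ` is.
-/

set_option autoImplicit false
set_option linter.unusedSectionVars false

noncomputable section

open Set Filter Topology MeasureTheory
open Crest.Agent.R271.Ho51 Crest.Agent.R276.Ipc735 Crest.Agent.R276.Top8_815
open Crest.Agent.R276.Cov_425 Crest.Agent.R276.Par_425

namespace Crest.Agent.R276.GActR_358

/-! ### the group -/

/-- the sign as a unit of `ℂ` -/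
def sgnU (s : ℕ) : Equiv.Perm (Fin s) →* ℂˣ :=
  (Units.map (Int.castRingHom ℂ).toMonoidHom).comp Equiv.Perm.sign

theorem sgnU_val {s : ℕ} (π : Equiv.Perm (Fin s)) :
    ((sgnU s π : ℂˣ) : ℂ) = ((Equiv.Perm.sign π : ℤ) : ℂ) := rfl

/-- pairs `(π, ζ)` with `ζ ^ N = sign π` -/
def GG (s N : ℕ) : Subgroup (Equiv.Perm (Fin s) × ℂˣ) :=
  MonoidHom.eqLocus ((powMonoidHom N).comp (MonoidHom.snd (Equiv.Perm (Fin s)) ℂˣ))
    ((sgnU s).comp (MonoidHom.fst (Equiv.Perm (Fin s)) ℂˣ))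

variable {s N : ℕ}

theorem mem_GG {x : Equiv.Perm (Fin s) × ℂˣ} :
    x ∈ GG s N ↔ ((x.2 : ℂˣ) : ℂ) ^ N = ((Equiv.Perm.sign x.1 : ℤ) : ℂ) := by
  have h1 : x ∈ GG s N ↔ x.2 ^ N = sgnU s x.1 := Iff.rfl
  rw [h1, Units.ext_iff, Units.val_pow_eq_pow_val, sgnU_val]

theorem GG_pow (g : GG s N) : ((g.1.2 : ℂˣ) : ℂ) ^ N = ((Equiv.Perm.sign g.1.1 : ℤ) : ℂ) :=
  mem_GG.1 g.2

theorem sign_sq (π : Equiv.Perm (Fin s)) : (((Equiv.Perm.sign π : ℤ) : ℂ)) ^ 2 = 1 := by
  rcases Int.units_eq_one_or (Equiv.Perm.sign π) with h | h <;> rw [h] <;> simp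

theorem finite_GG (hN : N ≠ 0) : Finite (GG s N) := by
  have : NeZero (N * 2) := ⟨Nat.mul_ne_zero hN two_ne_zero⟩
  have h1 : ∀ g : GG s N, g.1.2 ∈ rootsOfUnity (N * 2) ℂ := by
    intro g
    rw [mem_rootsOfUnity, Units.ext_iff, Units.val_pow_eq_pow_val, pow_mul, GG_pow, sign_sq]
    rfl
  refine Finite.of_injective (β := Equiv.Perm (Fin s) × rootsOfUnity (N * 2) ℂ)
    (fun g => (g.1.1, ⟨g.1.2, h1 g⟩)) ?_
  intro g g' h
  have h2 := congrArg Prod.fst h
  have h3 := congrArg Subtype.val (congrArg Prod.snd h)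
  exact Subtype.ext (Prod.ext h2 h3)

/-- the group is finite -/
@[reducible]
def fintype_GG (hN : N ≠ 0) : Fintype (GG s N) :=
  haveI := finite_GG (s := s) hN
  Fintype.ofFinite _

/-- the character `(π, ζ) ↦ ζ` -/
def chi (g : GG s N) : ℂ := ((g.1.2 : ℂˣ) : ℂ)

theorem chi_mul (g h : GG s N) : chi (g * h) = chi g * chi h := rfl

theorem norm_chi (hN : N ≠ 0) (g : GG s N) : ‖chi g‖ = 1 := by
  have h1 : (chi g ^ N) ^ 2 = 1 := by
    unfold chi
    rw [GG_pow, sign_sq]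
  have h2 : ‖chi g‖ ^ (N * 2) = 1 := by
    rw [pow_mul, ← norm_pow, ← norm_pow, h1, norm_one]
  exact (pow_eq_one_iff_of_nonneg (norm_nonneg _) (Nat.mul_ne_zero hN two_ne_zero)).1 h2

/-! ### the action -/

section act

variable {m r : ℕ} {S Y : Type*} [TopologicalSpace S] [RDom m S] [TopologicalSpace Y]
  {F : FSp m r S Y}

/-- permutation of the factors -/
def pa (π : Equiv.Perm (Fin s)) (p : FPow F s) : FPow F s :=
  ⟨(p.1.1, fun i => p.1.2 (π⁻¹ i)), fun i => p.2 (π⁻¹ i)⟩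

theorem pa_one (p : FPow F s) : pa 1 p = p := rfl

theorem pa_mul (π π' : Equiv.Perm (Fin s)) (p : FPow F s) : pa (π * π') p = pa π (pa π' p) := by
  refine Subtype.ext (Prod.ext rfl (funext fun i => ?_))
  show p.1.2 ((π * π')⁻¹ i) = p.1.2 (π'⁻¹ (π⁻¹ i))
  rw [mul_inv_rev]
  rfl

theorem continuous_pa (π : Equiv.Perm (Fin s)) : Continuous (pa π : FPow F s → FPow F s) := by
  refine Continuous.subtype_mk ?_ _
  refine (continuous_fst.comp continuous_subtype_val).prodMk (continuous_pi fun i => ?_)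
  exact (continuous_apply (π⁻¹ i)).comp (continuous_snd.comp continuous_subtype_val)

/-- the permutation of the blocks of coordinates -/
def eP (r : ℕ) (π : Equiv.Perm (Fin s)) : Equiv.Perm (Fin (s * r)) :=
  finProdFinEquiv.symm.trans ((Equiv.prodCongr π (Equiv.refl (Fin r))).trans finProdFinEquiv)

theorem eP_symm (r : ℕ) (π : Equiv.Perm (Fin s)) (k : Fin (s * r)) :
    (eP r π).symm k = finProdFinEquiv (π⁻¹ (finProdFinEquiv.symm k).1,
      (finProdFinEquiv.symm k).2) := rfl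

/-- the linear action on the coordinates -/
def LP (r : ℕ) (π : Equiv.Perm (Fin s)) : (Fin (s * r) → ℂ) ≃L[ℂ] (Fin (s * r) → ℂ) :=
  ContinuousLinearEquiv.piCongrLeft ℂ (fun _ : Fin (s * r) => ℂ) (eP r π)

theorem LP_apply (π : Equiv.Perm (Fin s)) (τ : Fin (s * r) → ℂ) (k : Fin (s * r)) :
    LP r π τ k = τ ((eP r π).symm k) := by
  have h := Equiv.piCongrLeft_apply_apply (fun _ : Fin (s * r) => ℂ) (eP r π) τ
    ((eP r π).symm k)
  rw [Equiv.apply_symm_apply] at h
  exact h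

theorem LP_unblk (π : Equiv.Perm (Fin s)) (x : Fin s → Fin r → ℂ) :
    LP r π (unblk x) = unblk fun i => x (π⁻¹ i) := by
  funext k
  rw [LP_apply, eP_symm]
  unfold unblk
  rw [Equiv.symm_apply_apply]

theorem LP_mp (π : Equiv.Perm (Fin s)) :
    MeasurePreserving (LP r π) (volume : Measure (Fin (s * r) → ℂ)) volume := by
  have h := volume_measurePreserving_piCongrLeft (fun _ : Fin (s * r) => ℂ) (eP r π)
  have h2 : ⇑(LP r π) = ⇑(MeasurableEquiv.piCongrLeft (fun _ : Fin (s * r) => ℂ) (eP r π)) := rfl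
  rw [h2]
  exact h

variable {δ : FPow F s → ℂ}

/-- the action on the root cover -/
def al (hs : ∀ (π : Equiv.Perm (Fin s)) p, δ (pa π p) = ((Equiv.Perm.sign π : ℤ) : ℂ) * δ p)
    (g : GG s N) (p : Root δ N) : Root δ N :=
  ⟨(pa g.1.1 p.1.1, chi g * p.1.2), by
    constructor
    · show (chi g * p.1.2) ^ N = δ (pa g.1.1 p.1.1)
      rw [mul_pow, p.2.1, hs]
      unfold chi
      rw [GG_pow]
    · show δ (pa g.1.1 p.1.1) ≠ 0
      rw [hs]
      refine mul_ne_zero (fun h0 => ?_) p.2.2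
      have := sign_sq g.1.1
      rw [h0] at this
      norm_num at this⟩

variable (hs : ∀ (π : Equiv.Perm (Fin s)) p,
  δ (pa π p) = ((Equiv.Perm.sign π : ℤ) : ℂ) * δ p)

theorem al_base (g : GG s N) (p : Root δ N) : (al hs g p).1.1 = pa g.1.1 p.1.1 := rfl

/-- the root is equivariant -/
theorem rt_al (g : GG s N) (p : Root δ N) : (al hs g p).1.2 = chi g * p.1.2 := rfl

/-- **the group action on the root cover** -/
theorem gact (hδ : Continuous δ) (hN : N ≠ 0) :
    GAct (root (pow F s) hδ hN) (GG s N) (al hs) (fun g => LP r g.1.1) where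
  one := by
    intro y
    refine Subtype.ext (Prod.ext rfl ?_)
    show chi (1 : GG s N) * y.1.2 = y.1.2
    have : chi (1 : GG s N) = 1 := rfl
    rw [this, one_mul]
  mul := by
    intro g h y
    refine Subtype.ext (Prod.ext ?_ ?_)
    · show pa (g * h).1.1 y.1.1 = pa g.1.1 (pa h.1.1 y.1.1)
      rw [← pa_mul]
      rfl
    · show chi (g * h) * y.1.2 = chi g * (chi h * y.1.2)
      rw [chi_mul, mul_assoc]
  cont := by
    intro g
    refine Continuous.subtype_mk ?_ _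
    exact ((continuous_pa _).comp (continuous_fst.comp continuous_subtype_val)).prodMk
      (continuous_const.mul (continuous_snd.comp continuous_subtype_val))
  q := fun _ _ => rfl
  t := by
    intro g y
    show unblk (fun i => F.t (y.1.1.1.2 (g.1.1⁻¹ i))) = LP r g.1.1 (unblk fun i => F.t (y.1.1.1.2 i))
    rw [LP_unblk]
  vol := fun g => LP_mp _

end act

/-! ### the determinant -/

section det

open Crest.Agent.R276.Mod1_987 Crest.Agent.R276.Geo4_519 Crest.Agent.R276.Geo2_519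
  Crest.Agent.R276.IpcRMdl_244 Crest.Agent.R276.IpcRel_244

variable {L K : Type} [Field L] [Field K] [Algebra ℂ L] [Algebra ℂ K] [Algebra L K]
  [IsScalarTower ℂ L K] {m r : ℕ} (R : RMdl L K m r) (σ : Fin s → R.MK.B) {S : Type}
  [TopologicalSpace S] [RDom m S] {ρ : S → R.ML.Pts}

/-- the sign rule for the determinant -/
theorem dt_perm {F : FSp m r S (Geo4_519.PB (fF R) ρ)} (π : Equiv.Perm (Fin s))
    (p : FPow F s) : dt R σ (pa π p) = ((Equiv.Perm.sign π : ℤ) : ℂ) * dt R σ p := by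
  unfold dt
  have h1 : (Matrix.of fun i j => sg R σ i ((pa π p).1.2 j)) =
      (Matrix.of fun i j => sg R σ i (p.1.2 j)).submatrix id (π⁻¹ : Equiv.Perm (Fin s)) := by
    ext i j
    rfl
  rw [h1, Matrix.det_permute', Equiv.Perm.sign_inv]

end det

/-! ### the root is holomorphic -/

section pb

open Crest.Agent.R276.Rc_348

variable {m d : ℕ} {S Y : Type*} [TopologicalSpace S] [RDom m S] [TopologicalSpace Y]
  {δ : Y → ℂ}

/-- near a point of the root cover the root is the local root -/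
theorem root_eventually (hN : N ≠ 0) (hδ : Continuous δ) (q₀ : Root δ N) :
    ∀ᶠ q : Root δ N in 𝓝 q₀, q.1.2 = lroot N q₀.1.2 (δ q₀.1.1) (δ q.1.1) := by
  have h0 : δ q₀.1.1 ≠ 0 := q₀.2.2
  have hr0 : q₀.1.2 ≠ 0 := by
    intro h
    apply h0
    rw [← q₀.2.1, h, zero_pow hN]
  have cpr : Continuous fun q : Root δ N => q.1.1 := continuous_fst.comp continuous_subtype_val
  have crt : Continuous fun q : Root δ N => q.1.2 := continuous_snd.comp continuous_subtype_val
  obtain ⟨ε, hε, hb⟩ := exists_eps hN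
  have hcont : ContinuousAt (fun q : Root δ N => q.1.2 / lroot N q₀.1.2 (δ q₀.1.1) (δ q.1.1))
      q₀ := by
    have h1 : ContinuousAt (fun q : Root δ N => lroot N q₀.1.2 (δ q₀.1.1) (δ q.1.1)) q₀ := by
      have h2 : ContinuousAt (lroot N q₀.1.2 (δ q₀.1.1)) (δ q₀.1.1) :=
        (lroot_analyticAt h0 (by rw [div_self h0]; exact Complex.one_mem_slitPlane)).continuousAt
      exact ContinuousAt.comp (g := lroot N q₀.1.2 (δ q₀.1.1)) h2
        (hδ.comp cpr).continuousAt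
    refine crt.continuousAt.div h1 ?_
    rw [lroot_self h0]
    exact hr0
  have h3 : q₀.1.2 / lroot N q₀.1.2 (δ q₀.1.1) (δ q₀.1.1) = 1 := by
    rw [lroot_self h0, div_self hr0]
  have h4 : ∀ᶠ q : Root δ N in 𝓝 q₀,
      ‖q.1.2 / lroot N q₀.1.2 (δ q₀.1.1) (δ q.1.1) - 1‖ < ε := by
    have h5 : Tendsto (fun q : Root δ N => ‖q.1.2 / lroot N q₀.1.2 (δ q₀.1.1) (δ q.1.1) - 1‖)
        (𝓝 q₀) (𝓝 0) := by
      have h6 := (hcont.tendsto.sub_const 1).norm
      rw [h3, sub_self, norm_zero] at h6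
      exact h6
    exact h5.eventually (gt_mem_nhds hε)
  filter_upwards [h4] with q hq
  have hq' : δ q.1.1 ≠ 0 := q.2.2
  have h6 : lroot N q₀.1.2 (δ q₀.1.1) (δ q.1.1) ^ N = δ q.1.1 := lroot_pow hN q₀.2.1 h0 hq'
  have h7 : lroot N q₀.1.2 (δ q₀.1.1) (δ q.1.1) ≠ 0 := by
    intro h; rw [h, zero_pow hN] at h6; exact hq' h6.symm
  have h8 : q.1.2 / lroot N q₀.1.2 (δ q₀.1.1) (δ q.1.1) = 1 := by
    apply hb _ _ hq
    rw [div_pow, h6, q.2.1, div_self hq']
  exact (div_eq_one_iff_eq h7).1 h8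

/-- the root is jointly holomorphic -/
theorem pb_root {F : FSp m d S Y} (hδ : Continuous δ) (hN : N ≠ 0) (q₀ : Root δ N)
    (h : Top8_815.PB F.pc δ q₀.1.1) :
    Top8_815.PB (root F hδ hN).pc (fun q : Root δ N => q.1.2) q₀ := by
  obtain ⟨D, hD, h1⟩ := h
  have cpr : Continuous fun q : Root δ N => q.1.1 := continuous_fst.comp continuous_subtype_val
  have h2 : ∀ q : Root δ N, (root F hδ hN).pc q = F.pc q.1.1 := fun q => rfl
  have h3 : D (F.pc q₀.1.1) = δ q₀.1.1 := h1.self_of_nhds.symm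
  have h0 : δ q₀.1.1 ≠ 0 := q₀.2.2
  refine ⟨fun w => lroot N q₀.1.2 (δ q₀.1.1) (D w), ?_, ?_⟩
  · have h4 : AnalyticAt ℂ (lroot N q₀.1.2 (δ q₀.1.1)) (D (F.pc q₀.1.1)) := by
      refine lroot_analyticAt h0 ?_
      rw [h3, div_self h0]; exact Complex.one_mem_slitPlane
    rw [h2]
    exact AnalyticAt.comp (g := lroot N q₀.1.2 (δ q₀.1.1)) h4 hD
  · filter_upwards [root_eventually hN hδ q₀, cpr.continuousAt.eventually h1] with q h4 h5
    rw [h4, h5]
    rfl

/-- the root is holomorphic on the fibres -/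
theorem fh_root {F : FSp m d S Y} (hδ : Continuous δ) (hN : N ≠ 0) (h : ∀ y, Top8_815.PB F.pc δ y)
    (u : S) : (root F hδ hN).FH u (fun q : Root δ N => q.1.2) :=
  Par_425.FH_of_PB (fun y => pb_root hδ hN y (h _)) u

end pb

end Crest.Agent.R276.GActR_358
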