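import Mathlib
import Crest.Agent.R276.Mod3_987
import Crest.Agent.R276.PdC_571
import Crest.Agent.R276.VCalcE_442
import Crest.Agent.R276.Ahl_25

/-!
# R276, leaf GG (helper564): polynomial growth of the period metric on a model

* `poly_inc` : growth of a polynomial and of its increments;
* `gP_line_ev` : along a lifted complex line the coefficient `gP V · j j` is locally the density
  `gden` of the local variation;
* `gP_disc` : `gP V y j j ≤ 8 / (c r²)` if the disc of radius `r` in the direction `e_j` lifts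
  through `y`;
* `exists_lift` : discs lift to a model;
* `gP_growth` : the leaf.
-/

set_option autoImplicit false

noncomputable section

open Set Filter Topology Metric
open scoped ComplexOrder
open Crest.Agent.R271.Defs710 Crest.Agent.R271.Ho51
open Crest.Agent.R276.Ipc735

namespace Crest.Agent.R276.GG_564

variable {m : ℕ}

/-! ### polynomials -/

/-- growth of a polynomial and of its increments -/
theorem poly_inc (p : MvPolynomial (Fin m) ℂ) : ∃ (C : ℝ) (k : ℕ), 0 ≤ C ∧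
    ∀ z v : Fin m → ℂ, ‖v‖ ≤ 1 → ‖MvPolynomial.eval z p‖ ≤ C * (1 + ‖z‖) ^ k ∧
      ‖MvPolynomial.eval (z + v) p - MvPolynomial.eval z p‖ ≤ C * (1 + ‖z‖) ^ k * ‖v‖ := by
  induction p using MvPolynomial.induction_on with
  | C a =>
    refine ⟨‖a‖, 0, norm_nonneg _, fun z v _ => ⟨?_, ?_⟩⟩
    · simp
    · simp only [MvPolynomial.eval_C, sub_self, norm_zero]
      positivity
  | add p q hp hq =>
    obtain ⟨C, k, hC, h1⟩ := hp
    obtain ⟨D, l, hD, h2⟩ := hq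
    refine ⟨C + D, k + l, by positivity, fun z v hv => ?_⟩
    obtain ⟨a1, a2⟩ := h1 z v hv
    obtain ⟨b1, b2⟩ := h2 z v hv
    have hz : 1 ≤ 1 + ‖z‖ := by linarith [norm_nonneg z]
    have e1 : C * (1 + ‖z‖) ^ k ≤ C * (1 + ‖z‖) ^ (k + l) :=
      mul_le_mul_of_nonneg_left (pow_le_pow_right₀ hz (Nat.le_add_right _ _)) hC
    have e2 : D * (1 + ‖z‖) ^ l ≤ D * (1 + ‖z‖) ^ (k + l) :=
      mul_le_mul_of_nonneg_left (pow_le_pow_right₀ hz (Nat.le_add_left _ _)) hD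
    have hv0 := norm_nonneg v
    constructor
    · rw [map_add, add_mul]
      exact (norm_add_le _ _).trans (add_le_add (a1.trans e1) (b1.trans e2))
    · rw [map_add, map_add, add_sub_add_comm, add_mul, add_mul]
      refine (norm_add_le _ _).trans (add_le_add (a2.trans ?_) (b2.trans ?_))
      · exact mul_le_mul_of_nonneg_right e1 hv0
      · exact mul_le_mul_of_nonneg_right e2 hv0
  | mul_X p i hp =>
    obtain ⟨C, k, hC, h1⟩ := hp
    refine ⟨2 * C, k + 1, by positivity, fun z v hv => ?_⟩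
    obtain ⟨a1, a2⟩ := h1 z v hv
    have hz := norm_nonneg z
    have hv0 := norm_nonneg v
    have hzi : ‖z i‖ ≤ ‖z‖ := norm_le_pi_norm z i
    have hvi : ‖v i‖ ≤ ‖v‖ := norm_le_pi_norm v i
    have hP : 0 ≤ C * (1 + ‖z‖) ^ k := by positivity
    rw [map_mul, map_mul, MvPolynomial.eval_X, MvPolynomial.eval_X, Pi.add_apply]
    constructor
    · rw [norm_mul, pow_succ]
      have : ‖MvPolynomial.eval z p‖ * ‖z i‖ ≤ (C * (1 + ‖z‖) ^ k) * ‖z‖ :=
        mul_le_mul a1 hzi (norm_nonneg _) hP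
      nlinarith
    · have e : MvPolynomial.eval (z + v) p * (z i + v i) - MvPolynomial.eval z p * z i =
          (MvPolynomial.eval (z + v) p - MvPolynomial.eval z p) * (z i + v i) +
            MvPolynomial.eval z p * v i := by ring
      rw [e, pow_succ]
      have h3 : ‖z i + v i‖ ≤ ‖z‖ + 1 := (norm_add_le _ _).trans (add_le_add hzi (hvi.trans hv))
      have h4 : ‖(MvPolynomial.eval (z + v) p - MvPolynomial.eval z p) * (z i + v i)‖ ≤
          (C * (1 + ‖z‖) ^ k * ‖v‖) * (‖z‖ + 1) := by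
        rw [norm_mul]
        exact mul_le_mul a2 h3 (norm_nonneg _) (by positivity)
      have h5 : ‖MvPolynomial.eval z p * v i‖ ≤ (C * (1 + ‖z‖) ^ k) * ‖v‖ := by
        rw [norm_mul]
        exact mul_le_mul a1 hvi (norm_nonneg _) hP
      have h6 := norm_add_le ((MvPolynomial.eval (z + v) p - MvPolynomial.eval z p) * (z i + v i))
        (MvPolynomial.eval z p * v i)
      have h7 : 0 ≤ C * (1 + ‖z‖) ^ k * ‖v‖ * ‖z‖ := by positivity
      nlinarith

/-! ### along a lifted line -/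

section line

variable {X : Type*} [TopologicalSpace X] [RDom m X] {N w : ℕ} (V : Ipc735.VHS m X N w)

/-- along a lifted line the diagonal coefficient of the Gram matrix is locally the density -/
theorem gP_line_ev {r : ℝ} {j : Fin m} {z : Fin m → ℂ} {σ : ℂ → X}
    (hσ : ContinuousOn σ (ball 0 r))
    (hp : ∀ ζ ∈ ball (0 : ℂ) r, cp (σ ζ) = z + ζ • (Pi.single j 1 : Fin m → ℂ))
    {ζ₀ : ℂ} (h0 : ζ₀ ∈ ball (0 : ℂ) r) {U : Set (Fin m → ℂ)} (hU : cp (σ ζ₀) ∈ U)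
    (hN : Pd571.Nb V (σ ζ₀) U) :
    (fun ζ => (Pd571.gP V (σ ζ) j j).re) =ᶠ[𝓝 ζ₀] fun ζ =>
      VCalc_442.gden w (Pd571.PL V (σ ζ₀)) (Pi.single j 1)
        (z + ζ • (Pi.single j 1 : Fin m → ℂ)) := by
  have hb : ball (0 : ℂ) r ∈ 𝓝 ζ₀ := isOpen_ball.mem_nhds h0
  have hc : ContinuousAt σ ζ₀ := hσ.continuousAt hb
  have h1 : ∀ᶠ ζ in 𝓝 ζ₀, σ ζ ∈ (ch (σ ζ₀)).source :=
    hc.eventually_mem ((ch (σ ζ₀)).open_source.mem_nhds (mem_ch _))
  have h2 : ∀ᶠ ζ in 𝓝 ζ₀, z + ζ • (Pi.single j 1 : Fin m → ℂ) ∈ U := by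
    have hcont : ContinuousAt (fun ζ : ℂ => z + ζ • (Pi.single j 1 : Fin m → ℂ)) ζ₀ := by
      fun_prop
    apply hcont.eventually_mem
    rw [← hp ζ₀ h0]
    exact hN.op.mem_nhds hU
  filter_upwards [h1, h2, hb] with ζ hζ1 hζ2 hζ3
  unfold VCalc_442.gden
  rw [hN.gg_eq hζ2 j j, ← hp ζ hζ3, (isCh_ch (σ ζ₀)).symm_cp hζ1]

/-- **Ahlfors bound**: if the disc of radius `r` in the direction `e_j` lifts through `y`, then
`gP V y j j ≤ 8 / (c r²)` -/
theorem gP_disc (N w : ℕ) : ∃ c : ℝ, 0 < c ∧ ∀ {m : ℕ} {X : Type} [TopologicalSpace X]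
    [RDom m X] (V : Ipc735.VHS m X N w) (r : ℝ), 0 < r → ∀ (j : Fin m) (z : Fin m → ℂ) (σ : ℂ → X),
    ContinuousOn σ (ball 0 r) →
    (∀ ζ ∈ ball (0 : ℂ) r, cp (σ ζ) = z + ζ • (Pi.single j 1 : Fin m → ℂ)) →
    (Pd571.gP V (σ 0) j j).re ≤ 8 / (c * r ^ 2) := by
  obtain ⟨c, hc, hneg⟩ := VCalc_442.exists_neg (Fin N)
  refine ⟨c, hc, ?_⟩
  intro m X _ _ V r hr j z σ hσ hp
  have hline : ContDiff ℝ 2 (fun ζ : ℂ => z + ζ • (Pi.single j 1 : Fin m → ℂ)) := by
    fun_prop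
  refine Ahl_25.ahlfors_center (g := fun ζ => (Pd571.gP V (σ ζ) j j).re) (a := 0) hc hr ?_ ?_ ?_
  · intro ζ₀ h0
    obtain ⟨U, hU, hN⟩ := Pd571.exists_Nb V (σ ζ₀)
    refine ContDiffAt.congr_of_eventuallyEq ?_ (gP_line_ev V hσ hp h0 hU hN)
    have h1 : z + ζ₀ • (Pi.single j 1 : Fin m → ℂ) ∈ U := by rw [← hp ζ₀ h0]; exact hU
    have h2 : ContDiffAt ℝ 2 (VCalc_442.gden w (Pd571.PL V (σ ζ₀)) (Pi.single j 1))
        (z + ζ₀ • (Pi.single j 1 : Fin m → ℂ)) :=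
      ((hN.loc.sm_gden _).contDiffAt (hN.op.mem_nhds h1)).of_le ENat.LEInfty.out
    exact ContDiffAt.comp (g := VCalc_442.gden w (Pd571.PL V (σ ζ₀)) (Pi.single j 1))
      (f := fun ζ : ℂ => z + ζ • (Pi.single j 1 : Fin m → ℂ)) ζ₀ h2 hline.contDiffAt
  · intro ζ₀ _
    have h1 := (Pd571.gP_posSemidef V (σ ζ₀)).diag_nonneg (i := j)
    exact (Complex.le_def.1 h1).1
  · intro ζ₀ h0 hne
    obtain ⟨U, hU, hN⟩ := Pd571.exists_Nb V (σ ζ₀)
    have hev := gP_line_ev V hσ hp h0 hU hN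
    have h1 : z + ζ₀ • (Pi.single j 1 : Fin m → ℂ) ∈ U := by rw [← hp ζ₀ h0]; exact hU
    have h2 := hneg (Fin m → ℂ) w U (V.S (σ ζ₀)) (Pd571.PL V (σ ζ₀)) hN.loc z (Pi.single j 1)
      ζ₀ h1
    have h3 := hev.self_of_nhds
    simp only at h3 hne h2 ⊢
    rw [h3] at hne
    have h4 := h2 hne
    have h5 : (fun ζ => Real.log ((Pd571.gP V (σ ζ) j j).re)) =ᶠ[𝓝 ζ₀] fun ζ =>
        Real.log (VCalc_442.gden w (Pd571.PL V (σ ζ₀)) (Pi.single j 1)
          (z + ζ • (Pi.single j 1 : Fin m → ℂ))) := by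
      filter_upwards [hev] with ζ hζ
      rw [hζ]
    rw [(InnerProductSpace.laplacian_congr_nhds h5).self_of_nhds, h3]
    exact h4

end line

/-! ### discs lift to a model -/

section model

variable {K : Type} [Field K] [Algebra ℂ K]

/-- a disc on which `h ≠ 0` lifts through every point over its centre -/
theorem exists_lift (M : Mod1_987.Mdl K m) (y : M.Pts) (v : Fin m → ℂ) {r : ℝ} (hr : 0 < r)
    (hne : ∀ ζ ∈ ball (0 : ℂ) r, MvPolynomial.eval (M.pz y + ζ • v) M.h ≠ 0) :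
    ∃ σ : ℂ → M.Pts, ContinuousOn σ (ball 0 r) ∧ σ 0 = y ∧
      ∀ ζ ∈ ball (0 : ℂ) r, M.pz (σ ζ) = M.pz y + ζ • v := by
  set D : Set ℂ := ball 0 r with hD
  have h0D : (0 : ℂ) ∈ D := mem_ball_self hr
  have : ContractibleSpace D := (convex_ball _ _).contractibleSpace ⟨_, h0D⟩
  have : SimplyConnectedSpace D := inferInstance
  have : LocallyPathConnectedSpace D := isOpen_ball.locallyPathConnectedSpace
  have hcont : Continuous fun ζ : D =>
      (⟨M.pz y + (ζ : ℂ) • v, hne ζ ζ.2⟩ : M.U) := by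
    refine Continuous.subtype_mk ?_ _
    fun_prop
  obtain ⟨F, ⟨hF0, hF⟩, -⟩ := M.isCoveringMap.existsUnique_continuousMap_lifts (A := D)
    ⟨_, hcont⟩ ⟨0, h0D⟩ y (by
      apply Subtype.ext
      simp)
  have hF' : ∀ ζ : D, M.pz (F ζ) = M.pz y + (ζ : ℂ) • v := fun ζ =>
    congrArg Subtype.val (congrFun hF ζ)
  classical
  refine ⟨fun ζ => if h : ζ ∈ D then F ⟨ζ, h⟩ else y, ?_, ?_, ?_⟩
  · rw [continuousOn_iff_continuous_domRestrict]
    refine F.continuous.congr fun ζ => ?_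
    simp only [domRestrict_apply, ζ.2, dif_pos]
  · simp only [h0D, dif_pos]
    exact hF0
  · intro ζ hζ
    simp only [hζ, dif_pos]
    exact hF' ⟨ζ, hζ⟩

/-- **(GG)** the period metric has polynomial growth in `z` and `1/h` -/
theorem gP_growth {m N w : ℕ} (M : Mod1_987.Mdl K m) (V : Ipc735.VHS m M.Pts N w) :
    ∃ (C : ℝ) (a l : ℕ), 0 ≤ C ∧ ∀ (y : M.Pts) (j : Fin m),
      (Pd571.gP V y j j).re * ‖MvPolynomial.eval (M.pz y) M.h‖ ^ l ≤ C * (1 + ‖M.pz y‖) ^ a := by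
  obtain ⟨c, hc, hdisc⟩ := gP_disc N w
  obtain ⟨C, k, hC, hinc⟩ := poly_inc M.h
  refine ⟨8 * (2 * (C + 1)) ^ 2 / c, k + k, 2, by positivity, fun y j => ?_⟩
  set z := M.pz y with hz
  set H := ‖MvPolynomial.eval z M.h‖ with hH
  have hH0 : 0 < H := norm_pos_iff.2 (M.eval_h_ne y)
  set A := (1 + ‖z‖) ^ k with hA
  have hA0 : 0 < A := by positivity
  set r := H / (2 * (C + 1) * A) with hrdef
  have hden : 0 < 2 * (C + 1) * A := by positivity
  have hr : 0 < r := by positivity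
  have hHle : H ≤ C * A := (hinc z 0 (by simp)).1
  have hr1 : r ≤ 1 := by
    rw [hrdef, div_le_one hden]
    nlinarith
  have hCr : C * A * r < H := by
    rw [hrdef, mul_div_assoc', div_lt_iff₀ hden]
    nlinarith [mul_pos hA0 hH0, mul_nonneg hC (mul_pos hA0 hH0).le]
  have hne : ∀ ζ ∈ ball (0 : ℂ) r,
      MvPolynomial.eval (M.pz y + ζ • (Pi.single j 1 : Fin m → ℂ)) M.h ≠ 0 := by
    intro ζ hζ h0
    rw [mem_ball_zero_iff] at hζ
    have hv : ‖ζ • (Pi.single j 1 : Fin m → ℂ)‖ = ‖ζ‖ := by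
      rw [norm_smul, Pi.norm_single, norm_one, mul_one]
    have h1 := (hinc z (ζ • (Pi.single j 1 : Fin m → ℂ)) (by rw [hv]; linarith)).2
    rw [h0, zero_sub, norm_neg, hv] at h1
    have h2 : C * A * ‖ζ‖ ≤ C * A * r :=
      mul_le_mul_of_nonneg_left hζ.le (by positivity)
    have h3 : H ≤ C * A * ‖ζ‖ := h1
    linarith
  obtain ⟨σ, hσ, hσ0, hpσ⟩ := exists_lift M y (Pi.single j 1) hr hne
  have h1 := hdisc V r hr j z σ hσ hpσ
  rw [hσ0] at h1
  calc (Pd571.gP V y j j).re * H ^ 2 ≤ 8 / (c * r ^ 2) * H ^ 2 :=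
        mul_le_mul_of_nonneg_right h1 (by positivity)
    _ = 8 * (2 * (C + 1)) ^ 2 / c * (1 + ‖z‖) ^ (k + k) := by
        rw [hrdef, pow_add, ← hA]
        field_simp

end model

end Crest.Agent.R276.GG_564
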