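import Crest.Agent.R276.Mod2_987

/-!
# Row 276 (S0419), GEO (helper519), part 1: norm polynomials

`exists_norm`: for monic polynomials `μ_j` over a ring `R` and `a ∈ R[θ_1, …, θ_s]` there is `N ∈ R` such that
for every `φ : R → ℂ`: `φ N ≠ 0` iff `a` does not vanish at any tuple of roots of the `φ μ_j`.

`Mdl.exists_detNorm`: `σ_i ∈ B` on a model `M` of dimension `n`, `κ_j : Fin n → ι` : a polynomial `R` in the
variables `ι` with: if `h(ζ ∘ κ_j) ≠ 0` for all `j`, then `R(ζ) ≠ 0` iff
`det (y_j (σ_i)) ≠ 0` for all points `y_j` of `M` over `ζ ∘ κ_j`.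

`Mdl.exists_indep`: existence of `ζ` with `R(ζ) ≠ 0`.
-/

set_option autoImplicit false

open Polynomial

noncomputable section

namespace Crest.Agent.R276.Geo1_519

open Crest.Agent.R276.Mod1_987
open Crest.Agent.R271.Defs710 Crest.Agent.R271.Alg255

/-! ### norms -/

lemma resultant_ne_iff {R : Type*} [CommRing R] (μ b : R[X]) (hμ : μ.Monic) (φ : R →+* ℂ) :
    φ (resultant μ b μ.natDegree b.natDegree) ≠ 0 ↔
      ∀ t, (μ.map φ).eval t = 0 → (b.map φ).eval t ≠ 0 := by
  have hm : (μ.map φ).Monic := hμ.map φ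
  have hd : (μ.map φ).natDegree = μ.natDegree := hμ.natDegree_map φ
  have h1 := resultant_eq_prod_eval (μ.map φ) (b.map φ) b.natDegree natDegree_map_le
    (IsAlgClosed.splits (μ.map φ))
  rw [hd, resultant_map_map, hm.leadingCoeff, one_pow, one_mul] at h1
  rw [h1]
  constructor
  · intro h t ht h0
    apply h
    apply Multiset.prod_eq_zero
    rw [Multiset.mem_map]
    exact ⟨t, (mem_roots hm.ne_zero).mpr ht, h0⟩
  · intro h h0
    rw [Multiset.prod_eq_zero_iff, Multiset.mem_map] at h0
    obtain ⟨t, ht, h2⟩ := h0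
    exact h t ((mem_roots hm.ne_zero).mp ht) h2

lemma eval_finSuccEquiv {R : Type*} [CommRing R] {s : ℕ} (φ : R →+* ℂ) (θ : Fin s → ℂ) (t : ℂ)
    (a : MvPolynomial (Fin (s + 1)) R) :
    ((MvPolynomial.finSuccEquiv R s a).map (MvPolynomial.eval₂Hom φ θ)).eval t =
      MvPolynomial.eval₂ φ (Fin.cons t θ) a := by
  induction a using MvPolynomial.induction_on with
  | C r =>
    rw [← MvPolynomial.algebraMap_eq, AlgEquiv.commutes, MvPolynomial.algebraMap_eq,
      MvPolynomial.eval₂_C]
    have : (algebraMap R (MvPolynomial (Fin s) R)[X]) r = Polynomial.C (MvPolynomial.C r) := rfl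
    rw [this, Polynomial.map_C, Polynomial.eval_C]
    exact MvPolynomial.eval₂_C φ θ r
  | add p q hp hq =>
    rw [map_add, Polynomial.map_add, Polynomial.eval_add, MvPolynomial.eval₂_add, hp, hq]
  | mul_X p i hp =>
    rw [map_mul, Polynomial.map_mul, Polynomial.eval_mul, MvPolynomial.eval₂_mul, hp,
      MvPolynomial.eval₂_X]
    congr 1
    refine Fin.cases ?_ (fun i => ?_) i
    · rw [MvPolynomial.finSuccEquiv_X_zero, Polynomial.map_X, Polynomial.eval_X, Fin.cons_zero]
    · rw [MvPolynomial.finSuccEquiv_X_succ, Polynomial.map_C, Polynomial.eval_C, Fin.cons_succ]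
      exact MvPolynomial.eval₂_X φ θ i

theorem exists_norm : ∀ (s : ℕ) (R : Type) [CommRing R] (μ : Fin s → R[X])
    (_ : ∀ j, (μ j).Monic) (a : MvPolynomial (Fin s) R),
    ∃ N : R, ∀ φ : R →+* ℂ, φ N ≠ 0 ↔
      ∀ θ : Fin s → ℂ, (∀ j, ((μ j).map φ).eval (θ j) = 0) →
        MvPolynomial.eval₂ φ θ a ≠ 0 := by
  intro s
  induction s with
  | zero =>
    intro R _ μ _ a
    refine ⟨a.coeff 0, fun φ => ?_⟩
    have h1 : ∀ θ : Fin 0 → ℂ, MvPolynomial.eval₂ φ θ a = φ (a.coeff 0) := by
      intro θ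
      conv_lhs => rw [MvPolynomial.eq_C_of_isEmpty a]
      rw [MvPolynomial.eval₂_C]
    constructor
    · intro h θ _
      rw [h1]
      exact h
    · intro h
      rw [← h1 finZeroElim]
      exact h finZeroElim (fun j => j.elim0)
  | succ s ih =>
    intro R _ μ hμ a
    let a' := MvPolynomial.finSuccEquiv R s a
    let μ0 : (MvPolynomial (Fin s) R)[X] := (μ 0).map MvPolynomial.C
    have hμ0 : μ0.Monic := (hμ 0).map _
    obtain ⟨N, hN⟩ := ih R (fun j => μ j.succ) (fun j => hμ j.succ)
      (resultant μ0 a' μ0.natDegree a'.natDegree)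
    refine ⟨N, fun φ => ?_⟩
    rw [hN φ]
    have key : ∀ θ : Fin s → ℂ,
        (MvPolynomial.eval₂ φ θ (resultant μ0 a' μ0.natDegree a'.natDegree) ≠ 0 ↔
          ∀ t, ((μ 0).map φ).eval t = 0 → MvPolynomial.eval₂ φ (Fin.cons t θ) a ≠ 0) := by
      intro θ
      have h1 := resultant_ne_iff μ0 a' hμ0 (MvPolynomial.eval₂Hom φ θ)
      rw [MvPolynomial.coe_eval₂Hom] at h1
      rw [h1]
      have h2 : μ0.map (MvPolynomial.eval₂Hom φ θ) = (μ 0).map φ := by
        rw [Polynomial.map_map]
        congr 1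
        exact RingHom.ext fun r => MvPolynomial.eval₂_C φ θ r
      have h3 : ∀ t, (a'.map (MvPolynomial.eval₂Hom φ θ)).eval t =
          MvPolynomial.eval₂ φ (Fin.cons t θ) a := fun t => eval_finSuccEquiv φ θ t a
      rw [h2]
      exact forall_congr' fun t => by rw [h3]
    constructor
    · intro h θ hθ
      have h1 := (key (Fin.tail θ)).mp (h (Fin.tail θ) fun j => hθ j.succ) (θ 0) (hθ 0)
      rwa [Fin.cons_self_tail] at h1
    · intro h θ hθ
      rw [key]
      intro t ht
      refine h (Fin.cons t θ) fun j => ?_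
      refine Fin.cases ?_ (fun j => ?_) j
      · rw [Fin.cons_zero]; exact ht
      · rw [Fin.cons_succ]; exact hθ j

/-! ### the norm of a determinant on a model -/

variable {K : Type} [Field K] [Algebra ℂ K] {n : ℕ} (M : Mdl K n)

/-- finitely many elements of `B` in terms of the primitive element, with a common denominator -/
lemma exists_common {s : ℕ} (σ : Fin s → M.B) : ∃ (k : ℕ) (q : Fin s → Polynomial (MvPolynomial (Fin n) ℂ)),
    ∀ i, az M.z (M.h ^ k) * σ i = Polynomial.eval₂ (az M.z) M.θ (q i) := by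
  choose k q hq using fun i => M.gen (σ i)
  refine ⟨∑ i, k i, fun i => Polynomial.C (M.h ^ (∑ j, k j - k i)) * q i, fun i => ?_⟩
  have h1 : k i ≤ ∑ j, k j := Finset.single_le_sum (f := k) (fun j _ => Nat.zero_le _)
    (Finset.mem_univ i)
  rw [Polynomial.eval₂_mul, Polynomial.eval₂_C, ← hq, ← mul_assoc, ← map_mul, ← pow_add]
  congr 3
  omega

lemma eval_map_eq (y : M.Pts) {σ : M.B} {k : ℕ} {q : Polynomial (MvPolynomial (Fin n) ℂ)}
    (h : az M.z (M.h ^ k) * σ = Polynomial.eval₂ (az M.z) M.θ q) :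
    (q.map (MvPolynomial.eval (M.pz y))).eval (y M.θ) =
      (MvPolynomial.eval (M.pz y) M.h) ^ k * y σ := by
  have h1 := Polynomial.hom_eval₂ q (az M.z) (y : M.B →+* ℂ) M.θ
  have h2 : (y : M.B →+* ℂ).comp (az M.z) = MvPolynomial.eval (M.pz y) :=
    RingHom.ext fun p => M.apply_az' y p
  rw [h2, ← h] at h1
  rw [Polynomial.eval_map]
  refine h1.symm.trans ?_
  change y (az M.z (M.h ^ k) * σ) = _
  rw [map_mul, M.apply_az', map_pow]

theorem exists_detNorm {s : ℕ} (σ : Fin s → M.B) {ι : Type} (κ : Fin s → Fin n → ι) :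
    ∃ R : MvPolynomial ι ℂ, ∀ ζ : ι → ℂ, (∀ j, MvPolynomial.eval (ζ ∘ κ j) M.h ≠ 0) →
      (MvPolynomial.eval ζ R ≠ 0 ↔ ∀ y : Fin s → M.Pts, (∀ j, M.pz (y j) = ζ ∘ κ j) →
        (Matrix.of fun i j => y j (σ i)).det ≠ 0) := by
  obtain ⟨k, q, hq⟩ := exists_common M σ
  let A : Matrix (Fin s) (Fin s) (MvPolynomial (Fin s) (MvPolynomial ι ℂ)) :=
    Matrix.of fun i j => Polynomial.eval₂ MvPolynomial.C (MvPolynomial.X j)
      ((q i).map ((MvPolynomial.rename (κ j) : MvPolynomial (Fin n) ℂ →ₐ[ℂ] MvPolynomial ι ℂ) :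
        MvPolynomial (Fin n) ℂ →+* MvPolynomial ι ℂ))
  obtain ⟨R, hR⟩ := exists_norm s (MvPolynomial ι ℂ)
    (fun j => M.μ.map ((MvPolynomial.rename (κ j) : MvPolynomial (Fin n) ℂ →ₐ[ℂ] MvPolynomial ι ℂ) :
        MvPolynomial (Fin n) ℂ →+* MvPolynomial ι ℂ)) (fun j => M.monic.map _) A.det
  refine ⟨R, fun ζ hζ => ?_⟩
  have e1 : ∀ j, (MvPolynomial.eval ζ : MvPolynomial ι ℂ →+* ℂ).comp
      ((MvPolynomial.rename (κ j) : MvPolynomial (Fin n) ℂ →ₐ[ℂ] MvPolynomial ι ℂ) :
        MvPolynomial (Fin n) ℂ →+* MvPolynomial ι ℂ) = MvPolynomial.eval (ζ ∘ κ j) := by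
    intro j
    refine RingHom.ext fun p => ?_
    exact MvPolynomial.eval_rename _ _ _
  have e2 : ∀ θ : Fin s → ℂ, MvPolynomial.eval₂ (MvPolynomial.eval ζ) θ A.det =
      (Matrix.of fun i j => ((q i).map (MvPolynomial.eval (ζ ∘ κ j))).eval (θ j)).det := by
    intro θ
    rw [← MvPolynomial.coe_eval₂Hom, RingHom.map_det]
    congr 1
    ext i j
    rw [RingHom.mapMatrix_apply, Matrix.map_apply, Matrix.of_apply]
    change MvPolynomial.eval₂Hom (MvPolynomial.eval ζ) θ (Polynomial.eval₂ MvPolynomial.C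
      (MvPolynomial.X j) _) = _
    have e3 : (MvPolynomial.eval₂Hom (MvPolynomial.eval ζ) θ).comp MvPolynomial.C =
        (MvPolynomial.eval ζ : MvPolynomial ι ℂ →+* ℂ) :=
      RingHom.ext fun p => MvPolynomial.eval₂_C _ _ _
    have e4 : MvPolynomial.eval₂Hom (MvPolynomial.eval ζ) θ (MvPolynomial.X j) = θ j :=
      MvPolynomial.eval₂_X _ _ _
    rw [Polynomial.hom_eval₂, e3, e4, Polynomial.eval₂_map, Polynomial.eval_map, e1 j]
  rw [hR]
  have key : ∀ y : Fin s → M.Pts, (∀ j, M.pz (y j) = ζ ∘ κ j) →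
      (Matrix.of fun i j => ((q i).map (MvPolynomial.eval (ζ ∘ κ j))).eval (y j M.θ)).det =
        (∏ j, (MvPolynomial.eval (ζ ∘ κ j) M.h) ^ k) * (Matrix.of fun i j => y j (σ i)).det := by
    intro y hy
    rw [← Matrix.det_mul_row]
    congr 1
    ext i j
    rw [Matrix.of_apply, Matrix.of_apply, Matrix.of_apply, ← hy j]
    exact eval_map_eq M (y j) (hq i)
  have hne : (∏ j, (MvPolynomial.eval (ζ ∘ κ j) M.h) ^ k) ≠ 0 :=
    Finset.prod_ne_zero_iff.mpr fun j _ => pow_ne_zero _ (hζ j)
  constructor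
  · intro h y hy
    have h1 := h (fun j => y j M.θ) (by
      intro j
      rw [Polynomial.map_map, e1, ← hy j]
      exact M.eval_μ_eq_zero (y j))
    rw [e2, key y hy] at h1
    exact right_ne_zero_of_mul h1
  · intro h θ hθ
    have h1 : ∀ j, ∃ y : M.Pts, (∀ i, y (M.z i) = (ζ ∘ κ j) i) ∧ y M.θ = θ j := by
      intro j
      refine M.exists_pt (hζ j) ?_
      have := hθ j
      rwa [Polynomial.map_map, e1] at this
    choose y hy hyθ using h1
    have h2 : ∀ j, M.pz (y j) = ζ ∘ κ j := fun j => funext (hy j)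
    rw [e2]
    have h3 : θ = fun j => y j M.θ := funext fun j => (hyθ j).symm
    rw [h3, key y h2]
    exact mul_ne_zero hne (h y h2)

/-- norm of one element -/
theorem exists_norm_one (σ : M.B) :
    ∃ N : MvPolynomial (Fin n) ℂ, ∀ ζ : Cn n, MvPolynomial.eval ζ M.h ≠ 0 →
      (MvPolynomial.eval ζ N ≠ 0 ↔ ∀ y : M.Pts, M.pz y = ζ → y σ ≠ 0) := by
  obtain ⟨N, hN⟩ := exists_detNorm M (s := 1) (fun _ => σ) (fun _ => id)
  refine ⟨N, fun ζ hζ => ?_⟩
  rw [hN ζ fun _ => hζ]
  constructor
  · intro h y hy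
    have h1 := h (fun _ => y) fun _ => hy
    rwa [Matrix.det_fin_one, Matrix.of_apply] at h1
  · intro h y hy
    rw [Matrix.det_fin_one, Matrix.of_apply]
    exact h (y 0) (hy 0)

/-! ### independent points -/

/-- **Independent points**: if no nontrivial combination of the `σ_i` vanishes somewhere over every point
of the slice `{z0} × ℂ^r`, then there are `ξ_1, …, ξ_s` such that the vectors `(y_j σ_i)_i` are linearly
independent for all choices of points `y_j` over `(z0, ξ_j)`. -/
theorem exists_indep {m r : ℕ} (M : Mdl K (m + r)) {s : ℕ} (σ : Fin s → M.B) (z0 : Cn m)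
    (hne : ∃ ξ : Cn r, MvPolynomial.eval (Fin.append z0 ξ) M.h ≠ 0)
    (hNV : ∀ v : Fin s → ℂ, v ≠ 0 → ∃ ξ : Cn r, MvPolynomial.eval (Fin.append z0 ξ) M.h ≠ 0 ∧
      ∀ y : M.Pts, M.pz y = Fin.append z0 ξ → ∑ i, v i * y (σ i) ≠ 0) :
    ∃ ξ : Fin s → Cn r, (∀ j, MvPolynomial.eval (Fin.append z0 (ξ j)) M.h ≠ 0) ∧
      ∀ y : Fin s → M.Pts, (∀ j, M.pz (y j) = Fin.append z0 (ξ j)) →
        (Matrix.of fun i j => y j (σ i)).det ≠ 0 := by
  classical
  have main : ∀ k : ℕ, k ≤ s → ∃ ξ : Fin k → Cn r,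
      (∀ j, MvPolynomial.eval (Fin.append z0 (ξ j)) M.h ≠ 0) ∧
      ∀ y : Fin k → M.Pts, (∀ j, M.pz (y j) = Fin.append z0 (ξ j)) →
        LinearIndependent ℂ (fun j => (fun i => y j (σ i) : Fin s → ℂ)) := by
    intro k
    induction k with
    | zero =>
      intro _
      exact ⟨finZeroElim, fun j => j.elim0, fun y _ => linearIndependent_empty_type⟩
    | succ k ih =>
      intro hk
      obtain ⟨ξ, hξ, hind⟩ := ih (by omega)
      -- the finitely many tuples
      let T := {y : Fin k → M.Pts // ∀ j, M.pz (y j) = Fin.append z0 (ξ j)}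
      have hT : Finite T := by
        have h1 : ∀ j, Finite {y : M.Pts // M.pz y = Fin.append z0 (ξ j)} :=
          fun j => (M.card_fib (hξ j)).2
        let f : T → (∀ j, {y : M.Pts // M.pz y = Fin.append z0 (ξ j)}) :=
          fun y j => ⟨y.1 j, y.2 j⟩
        refine Finite.of_injective f fun a b hab => ?_
        refine Subtype.ext (funext fun j => ?_)
        exact congrArg Subtype.val (congrFun hab j)
      have := Fintype.ofFinite T
      -- annihilators
      have hv : ∀ y : T, ∃ v : Fin s → ℂ, v ≠ 0 ∧ ∀ j, ∑ i, v i * y.1 j (σ i) = 0 := by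
        intro y
        let A : Matrix (Fin k) (Fin s) ℂ := Matrix.of fun j i => y.1 j (σ i)
        have h1 : ∃ v : Fin s → ℂ, v ≠ 0 ∧ A.mulVec v = 0 := by
          have h2 : ¬ Function.Injective A.mulVecLin := by
            intro hinj
            have h3 := LinearMap.finrank_le_finrank_of_injective hinj
            rw [Module.finrank_fin_fun, Module.finrank_fin_fun] at h3
            omega
          rw [← LinearMap.ker_eq_bot, LinearMap.ker_eq_bot'] at h2
          push Not at h2
          obtain ⟨v, hv1, hv2⟩ := h2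
          exact ⟨v, hv2, hv1⟩
        obtain ⟨v, hv0, hv1⟩ := h1
        refine ⟨v, hv0, fun j => ?_⟩
        have h2 := congrFun hv1 j
        change ∑ i, A j i * v i = 0 at h2
        rw [← h2]
        exact Finset.sum_congr rfl fun i _ => mul_comm _ _
      choose v hv0 hv1 using hv
      -- the norms
      choose N hN using fun y : T => exists_norm_one M (∑ i, algebraMap ℂ M.B (v y i) * σ i)
      have hev : ∀ (t : T) (y : M.Pts), y (∑ i, algebraMap ℂ M.B (v t i) * σ i) =
          ∑ i, v t i * y (σ i) := by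
        intro t y
        rw [map_sum]
        refine Finset.sum_congr rfl fun i _ => ?_
        rw [map_mul, AlgHom.commutes]
        rfl
      let sp : MvPolynomial (Fin (m + r)) ℂ → MvPolynomial (Fin r) ℂ := fun p =>
        MvPolynomial.aeval (Fin.append (fun i => MvPolynomial.C (z0 i)) MvPolynomial.X) p
      have hsp : ∀ (x : Cn r) (p : MvPolynomial (Fin (m + r)) ℂ),
          MvPolynomial.eval x (sp p) = MvPolynomial.eval (Fin.append z0 x) p := by
        intro x p
        have h1 := MvPolynomial.comp_aeval_apply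
          (Fin.append (fun i => MvPolynomial.C (z0 i)) MvPolynomial.X :
            Fin (m + r) → MvPolynomial (Fin r) ℂ) (MvPolynomial.aeval x) p
        have h2 : (fun i => (MvPolynomial.aeval x) ((Fin.append (fun i => MvPolynomial.C (z0 i))
            MvPolynomial.X : Fin (m + r) → MvPolynomial (Fin r) ℂ) i)) = Fin.append z0 x := by
          funext i
          refine Fin.addCases (fun i => ?_) (fun j => ?_) i <;> simp
        rw [h2] at h1
        exact h1
      have hnz : sp M.h * ∏ t : T, sp (N t) ≠ 0 := by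
        refine mul_ne_zero ?_ (Finset.prod_ne_zero_iff.mpr fun t _ => ?_)
        · obtain ⟨x, hx⟩ := hne
          intro h0
          rw [← hsp, h0, map_zero] at hx
          exact hx rfl
        · obtain ⟨x, hx, hx2⟩ := hNV (v t) (hv0 t)
          intro h0
          have h1 := (hN t _ hx).mpr fun y hy => by rw [hev]; exact hx2 y hy
          rw [← hsp, h0, map_zero] at h1
          exact h1 rfl
      obtain ⟨x, hx⟩ : ∃ x, MvPolynomial.eval x (sp M.h * ∏ t : T, sp (N t)) ≠ 0 := by
        by_contra hcon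
        push Not at hcon
        exact hnz (MvPolynomial.funext fun x => by rw [hcon x, map_zero])
      rw [map_mul, map_prod] at hx
      have hx1 : MvPolynomial.eval (Fin.append z0 x) M.h ≠ 0 := by
        rw [← hsp]; exact left_ne_zero_of_mul hx
      have hx2 : ∀ t : T, MvPolynomial.eval (Fin.append z0 x) (N t) ≠ 0 := by
        intro t
        rw [← hsp]
        exact Finset.prod_ne_zero_iff.mp (right_ne_zero_of_mul hx) t (Finset.mem_univ t)
      refine ⟨Fin.snoc ξ x, fun j => ?_, fun y hy => ?_⟩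
      · refine Fin.lastCases ?_ (fun j => ?_) j
        · rw [Fin.snoc_last]; exact hx1
        · rw [Fin.snoc_castSucc]; exact hξ j
      · have hy' : ∀ j : Fin k, M.pz (y j.castSucc) = Fin.append z0 (ξ j) := by
          intro j
          have := hy j.castSucc
          rwa [Fin.snoc_castSucc] at this
        have hyl : M.pz (y (Fin.last k)) = Fin.append z0 x := by
          have := hy (Fin.last k)
          rwa [Fin.snoc_last] at this
        let t : T := ⟨fun j => y j.castSucc, hy'⟩
        have h1 := hind (fun j => y j.castSucc) hy'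
        rw [linearIndependent_finSucc']
        refine ⟨h1, fun hmem => ?_⟩
        have h2 : ∀ w ∈ Submodule.span ℂ (Set.range fun j : Fin k =>
            (fun i => y j.castSucc (σ i) : Fin s → ℂ)), ∑ i, v t i * w i = 0 := by
          intro w hw
          induction hw using Submodule.span_induction with
          | mem w hw =>
            obtain ⟨j, rfl⟩ := hw
            exact hv1 t j
          | zero => simp
          | add a b _ _ ha hb =>
            simp only [Pi.add_apply, mul_add, Finset.sum_add_distrib, ha, hb, add_zero]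
          | smul c a _ ha =>
            have : ∑ i, v t i * (c • a) i = c * ∑ i, v t i * a i := by
              rw [Finset.mul_sum]
              refine Finset.sum_congr rfl fun i _ => ?_
              rw [Pi.smul_apply, smul_eq_mul]
              ring
            rw [this, ha, mul_zero]
        have h3 := h2 _ hmem
        have h4 := (hN t _ hx1).mp (hx2 t) (y (Fin.last k)) hyl
        rw [hev] at h4
        exact h4 h3
  obtain ⟨ξ, hξ, hind⟩ := main s le_rfl
  refine ⟨ξ, hξ, fun y hy => ?_⟩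
  have h1 := hind y hy
  have h2 : (Matrix.of fun i j => y j (σ i)) = (Matrix.of fun j i => y j (σ i)).transpose := rfl
  rw [h2, Matrix.det_transpose]
  rw [← isUnit_iff_ne_zero, ← Matrix.isUnit_iff_isUnit_det]
  exact Matrix.linearIndependent_rows_iff_isUnit.mp h1

/-- the block of variables number `j` -/
def kap {m r : ℕ} (s : ℕ) (j : Fin s) : Fin (m + r) → Fin (m + s * r) :=
  Fin.append (fun i => Fin.castAdd (s * r) i) fun k => Fin.natAdd m (finProdFinEquiv (j, k))

lemma append_comp_kap {m r s : ℕ} (z : Cn m) (x : Cn (s * r)) (j : Fin s) :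
    (Fin.append z x ∘ kap s j : Cn (m + r)) = Fin.append z fun k => x (finProdFinEquiv (j, k)) := by
  funext i
  refine Fin.addCases (fun i => ?_) (fun k => ?_) i
  · rw [Function.comp_apply, kap, Fin.append_left, Fin.append_left, Fin.append_left]
  · rw [Function.comp_apply, kap, Fin.append_right, Fin.append_right, Fin.append_right]

/-- **The norm polynomial of `det (σ_i (x_j))`**. -/
theorem exists_normPoly {m r : ℕ} (M : Mdl K (m + r)) {s : ℕ} (σ : Fin s → M.B)
    (hz : ∃ z0 : Cn m, (∃ ξ : Cn r, MvPolynomial.eval (Fin.append z0 ξ) M.h ≠ 0) ∧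
      ∀ v : Fin s → ℂ, v ≠ 0 → ∃ ξ : Cn r, MvPolynomial.eval (Fin.append z0 ξ) M.h ≠ 0 ∧
        ∀ y : M.Pts, M.pz y = Fin.append z0 ξ → ∑ i, v i * y (σ i) ≠ 0) :
    ∃ H : MvPolynomial (Fin (m + s * r)) ℂ, H ≠ 0 ∧ ∀ (z : Cn m) (x : Cn (s * r)),
      MvPolynomial.eval (Fin.append z x) H ≠ 0 →
      (∀ j, MvPolynomial.eval (Fin.append z fun k => x (finProdFinEquiv (j, k))) M.h ≠ 0) ∧
      ∀ y : Fin s → M.Pts, (∀ j, M.pz (y j) = Fin.append z fun k => x (finProdFinEquiv (j, k))) →
        (Matrix.of fun i j => y j (σ i)).det ≠ 0 := by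
  obtain ⟨N, hN⟩ := exists_detNorm M σ (kap (m := m) (r := r) s)
  refine ⟨(∏ j, MvPolynomial.rename (kap s j) M.h) * N, ?_, ?_⟩
  · obtain ⟨z0, hne, hNV⟩ := hz
    obtain ⟨ξ, hξ, hdet⟩ := exists_indep M σ z0 hne hNV
    intro h0
    let x : Cn (s * r) := fun p => ξ (finProdFinEquiv.symm p).1 (finProdFinEquiv.symm p).2
    have hx : ∀ j, (fun k => x (finProdFinEquiv (j, k))) = ξ j := by
      intro j
      funext k
      change ξ (finProdFinEquiv.symm (finProdFinEquiv (j, k))).1
        (finProdFinEquiv.symm (finProdFinEquiv (j, k))).2 = _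
      rw [Equiv.symm_apply_apply]
    have h1 := congrArg (MvPolynomial.eval (Fin.append z0 x)) h0
    rw [map_mul, map_zero, map_prod] at h1
    have h2 : ∀ j, MvPolynomial.eval (Fin.append z0 x ∘ kap s j) M.h ≠ 0 := by
      intro j
      rw [append_comp_kap, hx]
      exact hξ j
    rcases mul_eq_zero.mp h1 with h3 | h3
    · rw [Finset.prod_eq_zero_iff] at h3
      obtain ⟨j, _, hj⟩ := h3
      rw [MvPolynomial.eval_rename] at hj
      exact h2 j hj
    · revert h3
      rw [imp_false, ← ne_eq, hN _ h2]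
      intro y hy
      refine hdet y fun j => ?_
      rw [hy j, append_comp_kap, hx]
  · intro z x h
    rw [map_mul, map_prod] at h
    have h2 : ∀ j, MvPolynomial.eval (Fin.append z x ∘ kap s j) M.h ≠ 0 := by
      intro j
      have := Finset.prod_ne_zero_iff.mp (left_ne_zero_of_mul h) j (Finset.mem_univ j)
      rwa [MvPolynomial.eval_rename] at this
    refine ⟨fun j => ?_, fun y hy => ?_⟩
    · rw [← append_comp_kap]
      exact h2 j
    · refine (hN _ h2).mp (right_ne_zero_of_mul h) y fun j => ?_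
      rw [hy j, append_comp_kap]

end Crest.Agent.R276.Geo1_519
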