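import Crest.Agent.R276.Geo4_519
import Crest.Agent.R276.FriD_348

/-!
# Row 276 (S0419), GEO (helper519): the geometric variation of the root cover `η^N = δ`, `δ ∈ MK.B`

For SAT (210).  `dl1 R δ y = y (δ)` on the pull back of `MK → ML` along `ρ : S → ML`.
-/

set_option autoImplicit false
set_option linter.unusedSectionVars false

noncomputable section

open Set Filter Topology MeasureTheory
open Crest.Agent.R271.Ho51 Crest.Agent.R276.Ipc735 Crest.Agent.R276.Top8_815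
open Crest.Agent.R276.Tow2_244 Crest.Agent.R276.Tow4_244 Crest.Agent.R276.Iter_840
open Crest.Agent.R276.IpcModel_244 Crest.Agent.R276.IpcRel_244 Crest.Agent.R276.Mod1_987
open Crest.Agent.R271.Rd692 Crest.Agent.R276.IpcRMdl_244
open Crest.Agent.R276.Geo2_519 Crest.Agent.R276.Cov_425 Crest.Agent.R276.Geo4_519
open scoped ENNReal

namespace Crest.Agent.R276.GeoOne_519

variable {L K : Type} [Field L] [Field K] [Algebra ℂ L] [Algebra ℂ K] [Algebra L K]
  [IsScalarTower ℂ L K] {m r : ℕ}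

section defs

variable (R : RMdl L K m r) (δ : R.MK.B) {S : Type} [TopologicalSpace S] [RDom m S]
  {ρ : S → R.ML.Pts}

/-- `δ` on the pull back -/
def dl1 (y : PB (fF R) ρ) : ℂ := y.1.2 δ

lemma continuous_dl1 : Continuous (dl1 R δ (ρ := ρ)) :=
  (continuous_ev δ).comp (continuous_snd.comp continuous_subtype_val)

/-- the root cover `η^N = δ` of the pull back, as a fibred space -/
def FR1 (hρ : Continuous ρ) {N : ℕ} (hN : N ≠ 0) : FSp m r S (Root (dl1 R δ (ρ := ρ)) N) :=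
  root (pbF (fF R) hρ) (continuous_dl1 R δ) hN

end defs

/-- **the variation of the root cover `η^N = δ`** -/
theorem exists_rz_one (hO : OneStep) (hR : StepRz) (hA : StepRzAct) (R : RMdl L K m r)
    (δ : R.MK.B) (hδ : δ ≠ 0) {N : ℕ} (hN : N ≠ 0) :
    ∃ (p : MvPolynomial (Fin m) ℂ) (g : MvPolynomial (Fin (m + r)) ℂ), p ≠ 0 ∧
      (∀ z, MvPolynomial.eval z p ≠ 0 →
        ∃ τ : Fin r → ℂ, MvPolynomial.eval (Fin.append z τ) g ≠ 0) ∧
      ∀ (S : Type) [TopologicalSpace S] [T2Space S] [SecondCountableTopology S]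
        [PreconnectedSpace S] [RDom m S] (ρ : S → R.ML.Pts) (hρ : Continuous ρ)
        (_ : ∀ u, R.ML.pz (ρ u) = cp u) (_ : ∀ u : S, MvPolynomial.eval (cp u) p ≠ 0),
        ∃ (N' : ℕ) (W : VHS m S N' r) (ι : S → (Fin N' → ℂ) →
          {y | gv (FR1 R δ hρ hN) g y ≠ 0} → ℂ),
          Rz W (sub (FR1 R δ hρ hN) (isOpen_gv (FR1 R δ hρ hN) g)) ι := by
  obtain ⟨P, hP, hPδ⟩ := FriD_348.exists_ne_of_ne R.MK δ hδ
  obtain ⟨c₀, g, hc₀, hg, hHg, -, hgeo⟩ := geo_cov hO hR hA m r (R.MK.h * P)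
    (mul_ne_zero R.MK.h_ne hP)
  obtain ⟨a, ha, hap⟩ := Geo3_519.exists_ne_of_ne hg
  refine ⟨c₀ * a, g, mul_ne_zero hc₀ ha, fun z hz => hap z ?_, ?_⟩
  · rw [map_mul] at hz
    exact right_ne_zero_of_mul hz
  intro S _ _ _ _ _ ρ hρ hcp hp
  have hgH : ∀ ζ, MvPolynomial.eval ζ g ≠ 0 → MvPolynomial.eval ζ R.MK.h ≠ 0 ∧
      MvPolynomial.eval ζ P ≠ 0 := by
    intro ζ h1
    obtain ⟨b, rfl⟩ := hHg
    rw [map_mul, map_mul] at h1
    exact ⟨left_ne_zero_of_mul (left_ne_zero_of_mul h1), right_ne_zero_of_mul (left_ne_zero_of_mul h1)⟩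
  have hpr0 : Pr (fF R) g := fun C hC h1 => pr_fF R C hC fun p hp => (hgH _ (h1 hp)).1
  have hgd : ∀ y : PB (fF R) ρ, gv (pbF (fF R) hρ) g y ≠ 0 → dl1 R δ y ≠ 0 := by
    intro y h1
    refine hPδ _ ?_
    have h2 := R.append_eq y.1.2
    have h3 : R.q y.1.2 = ρ y.1.1 := y.2
    rw [h3, hcp] at h2
    rw [← h2]
    exact (hgH _ h1).2
  have hpr : Pr (sub (FR1 R δ hρ hN) (isOpen_gv (FR1 R δ hρ hN) g)) g :=
    ((hpr0.pb hρ hcp).root (continuous_dl1 R δ) hN hgd).sub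
  obtain ⟨N', W, -, ι, hι, -⟩ := hgeo S (fun u => by
      have := hp u
      rw [map_mul] at this
      exact left_ne_zero_of_mul this) {y | gv (FR1 R δ hρ hN) g y ≠ 0}
    (sub (FR1 R δ hρ hN) (isOpen_gv (FR1 R δ hρ hN) g))
    (fun y => y.2) (fun C hC hCg => hpr C hC hCg)
    PUnit (1 : PUnit →* Equiv.Perm {y | gv (FR1 R δ hρ hN) g y ≠ 0}) (fun _ => continuous_id)
    (fun _ _ => rfl) (fun _ _ => rfl)
  exact ⟨N', W, ι, hι⟩

end Crest.Agent.R276.GeoOne_519
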