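import Crest.Agent.R276.IpcIter_840
import Crest.Agent.R276.Top8g_815

/-!
# Row 276, IPC : the realisation step holds (helper840)

`stepRz_holds : StepRz` and `stepRzAct_holds : StepRzAct` : the two hypotheses about the realisation in
`IpcIter_840` (`iter`, `geoVHS`), from helper815's `Top8g_815`.
-/

set_option autoImplicit false

open Crest.Agent.R271.Ho51 Crest.Agent.R276.Ipc735 Crest.Agent.R276.Top8_815

namespace Crest.Agent.R276.Iter_840

theorem stepRz_holds : StepRz := by
  intro m k N N' w d S _ _ _ _ _ Y _ _ Q V W R cl F ι hR hst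
  exact stepRz hR hst

theorem stepRzAct_holds : StepRzAct := by
  intro m k N N' w d S _ _ _ _ _ Y _ _ Q V W R cl F ι Γ _ ρ ρ' α hR hA hst heq
  exact stepRzAct hR hA hst heq

end Crest.Agent.R276.Iter_840
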