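import Crest.Agent.R276.Top8f_815
import Crest.Agent.R276.PVc_159
import Crest.Agent.R271.RExt2_747
import Crest.Agent.R271.Null_956
import Crest.Agent.R266.Osgood

/-!
# Row 276 (S0419), IPC: transfer of a realisation through a removable hypersurface (helper358)

`Y ⊆ Yt` the open subset `{g ≠ 0}` of a fibred space, `g` a polynomial in the base and fibre
coordinates which does not vanish identically on any fibre.  A realisation `Rz V F ι` on `Y`
extends to `Yt` (`rz_ext`): `L²` Riemann extension theorem (R271/RExt2_747) on the fibres and in all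
variables.
-/

set_option autoImplicit false
set_option linter.unusedSectionVars false

noncomputable section

open Set Filter Topology MeasureTheory Matrix
open Crest.Agent.R271.Ho51 Crest.Agent.R276.Ipc735 Crest.Agent.R276.Top8_815
open Crest.Agent.R271.RExt747 Crest.Agent.R271
open scoped ENNReal

namespace Crest.Agent.R276.RzExt_358

variable {m d N w : ℕ}

/-! ### polynomials -/

/-- partial evaluation -/
def gp (g : MvPolynomial (Fin (m + d)) ℂ) (c : Fin m → ℂ) : MvPolynomial (Fin d) ℂ :=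
  MvPolynomial.aeval (Fin.append (fun i => MvPolynomial.C (c i)) (fun j => MvPolynomial.X j)) g

theorem eval_gp (g : MvPolynomial (Fin (m + d)) ℂ) (c : Fin m → ℂ) (x : Fin d → ℂ) :
    MvPolynomial.eval x (gp g c) = MvPolynomial.eval (Fin.append c x) g := by
  have h1 : ((MvPolynomial.aeval x : MvPolynomial (Fin d) ℂ →ₐ[ℂ] ℂ).comp
      (MvPolynomial.aeval (Fin.append (fun i => MvPolynomial.C (c i))
      (fun j => MvPolynomial.X j) : Fin (m + d) → MvPolynomial (Fin d) ℂ))) =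
      MvPolynomial.aeval (Fin.append c x) := by
    apply MvPolynomial.algHom_ext
    intro i
    refine Fin.addCases (fun i => ?_) (fun j => ?_) i <;> simp
  have h2 := congrArg (fun f : MvPolynomial (Fin (m + d)) ℂ →ₐ[ℂ] ℂ => f g) h1
  simpa [gp, MvPolynomial.coe_aeval_eq_eval] using h2

variable {S Yt Y : Type*} [TopologicalSpace S] [RDom m S] [TopologicalSpace Yt]
  [TopologicalSpace Y]

/-- `Y` is the open subset `{g ≠ 0}` of `Yt` -/
structure Sub (Ft : FSp m d S Yt) (F : FSp m d S Y) (g : MvPolynomial (Fin (m + d)) ℂ)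
    (j : Y → Yt) : Prop where
  hg : ∀ u : S, ∃ τ, MvPolynomial.eval (Fin.append (cp u) τ) g ≠ 0
  hj : IsOpenEmbedding j
  hq : ∀ y, Ft.q (j y) = F.q y
  ht : ∀ y, Ft.t (j y) = F.t y
  hr : Set.range j = {y | MvPolynomial.eval (Fin.append (cp (Ft.q y)) (Ft.t y)) g ≠ 0}

/-- transport of a function to `Yt` (by zero) -/
def tf (j : Y → Yt) (f : Y → ℂ) : Yt → ℂ := Function.extend j f (fun _ => 0)

/-- the extension of a function on the fibre over `u` -/
def ext (Ft : FSp m d S Yt) (j : Y → Yt) (u : S) (f : Y → ℂ) (y : Yt) : ℂ :=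
  limUnder (𝓝[{y' | Ft.q y' = u} ∩ range j] y) (tf j f)

namespace Sub

variable {Ft : FSp m d S Yt} {F : FSp m d S Y} {g : MvPolynomial (Fin (m + d)) ℂ} {j : Y → Yt}
  (h : Sub Ft F g j)

include h

theorem mem_range {y : Yt} :
    y ∈ range j ↔ MvPolynomial.eval (Fin.append (cp (Ft.q y)) (Ft.t y)) g ≠ 0 := by
  rw [h.hr]; rfl

theorem gp_ne (u : S) : gp g (cp u) ≠ 0 := by
  obtain ⟨τ, hτ⟩ := h.hg u
  intro h0
  apply hτ
  rw [← eval_gp, h0, map_zero]

theorem tf_j (f : Y → ℂ) (y : Y) : tf j f (j y) = f y :=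
  h.hj.injective.extend_apply f _ y

theorem neBot {u : S} {y0 : Yt} (hy : Ft.q y0 = u) :
    (𝓝[{y' | Ft.q y' = u} ∩ range j] y0).NeBot := by
  rw [← mem_closure_iff_nhdsWithin_neBot, mem_closure_iff_frequently]
  obtain ⟨σ, h1, h2, h3⟩ := Ft.exists_fsec y0
  have h4 : ∃ᶠ τ in 𝓝 (Ft.t y0), MvPolynomial.eval τ (gp g (cp u)) ≠ 0 :=
    Filter.not_eventually.1 (by simpa using poly_not_eventually_zero (h.gp_ne u) (Ft.t y0))
  have h5 : ∃ᶠ τ in 𝓝 (Ft.t y0), σ τ ∈ {y' | Ft.q y' = u} ∩ range j := by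
    refine (h4.and_eventually h3).mono ?_
    rintro τ ⟨ha, hb, hc⟩
    refine ⟨hb.trans hy, h.mem_range.2 ?_⟩
    rw [hb, hc, hy, ← eval_gp]
    exact ha
  have h6 : Tendsto σ (𝓝 (Ft.t y0)) (𝓝 y0) := by
    have := h2
    rwa [ContinuousAt, h1] at this
  exact h6.frequently h5

/-- transport of a local statement from `Y` to `Yt` -/
theorem eventually_j {P : Yt → Prop} {y : Y} (hP : ∀ᶠ y' in 𝓝 y, P (j y')) :
    ∀ᶠ x in 𝓝 (j y), P x := by
  rw [← h.hj.map_nhds_eq y]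
  exact hP

theorem eventually_range (y : Y) : ∀ᶠ x in 𝓝 (j y), x ∈ range j :=
  h.hj.isOpen_range.mem_nhds ⟨y, rfl⟩

/-- holomorphic functions on the fibre are, transported, holomorphic near the points of the range -/
theorem tf_loc {u : S} {f : Y → ℂ} (hf : F.FH u f) {y : Y} (hy : F.q y = u) :
    ∃ G : (Fin d → ℂ) → ℂ, AnalyticAt ℂ G (F.t y) ∧
      ∀ᶠ x in 𝓝 (j y), Ft.q x = u → tf j f x = G (Ft.t x) := by
  obtain ⟨G, hG, h1⟩ := hf y hy
  refine ⟨G, hG, h.eventually_j ?_⟩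
  filter_upwards [h1] with y' hy' hq
  rw [h.tf_j, h.ht]
  exact hy' (by rw [← h.hq]; exact hq)

/-- **fibrewise extension**, local form -/
theorem loc_ext {u : S} {f : Y → ℂ} (hf : F.FH u f) (hfin : F.fnorm u f < ∞) {y0 : Yt}
    (hy0 : Ft.q y0 = u) :
    ∃ G : (Fin d → ℂ) → ℂ, AnalyticAt ℂ G (Ft.t y0) ∧
      ∀ᶠ y in 𝓝 y0, Ft.q y = u → y ∈ range j → tf j f y = G (Ft.t y) := by
  obtain ⟨e, he, hfe⟩ := Ft.lh y0
  have e1 : ∀ y ∈ e.source, e.symm (Ft.q y, Ft.t y) = y := by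
    intro y hy
    have h1 : e y = (Ft.q y, Ft.t y) := by rw [← hfe]
    rw [← h1]
    exact e.left_inv hy
  have e2 : ∀ p ∈ e.target, Ft.q (e.symm p) = p.1 ∧ Ft.t (e.symm p) = p.2 := by
    intro p hp
    have h1 : (Ft.q (e.symm p), Ft.t (e.symm p)) = p := by
      have := e.right_inv hp
      rw [← hfe] at this
      exact this
    exact ⟨congrArg Prod.fst h1, congrArg Prod.snd h1⟩
  set U : Set (Fin d → ℂ) := {τ | (u, τ) ∈ e.target} with hUdef
  have hU : IsOpen U := e.open_target.preimage (Continuous.prodMk_right u)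
  have hy0U : Ft.t y0 ∈ U := by
    have h1 : e y0 = (Ft.q y0, Ft.t y0) := by rw [← hfe]
    show (u, Ft.t y0) ∈ e.target
    rw [← hy0, ← h1]
    exact e.map_source he
  set H : (Fin d → ℂ) → ℂ := fun τ => tf j f (e.symm (u, τ)) with hH
  set D : (Fin d → ℂ) → ℂ := fun τ => MvPolynomial.eval τ (gp g (cp u)) with hD
  -- points of the range
  have hpt : ∀ τ ∈ U, D τ ≠ 0 → ∃ y : Y, j y = e.symm (u, τ) ∧ F.q y = u ∧ F.t y = τ := by
    intro τ hτ hDτ
    obtain ⟨hq, ht⟩ := e2 _ hτ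
    have h1 : e.symm (u, τ) ∈ range j := by
      rw [h.mem_range, hq, ht, ← eval_gp]
      exact hDτ
    obtain ⟨y, hy⟩ := h1
    exact ⟨y, hy, by rw [← h.hq, hy]; exact hq, by rw [← h.ht, hy]; exact ht⟩
  have hDan : AnalyticOnNhd ℂ D U := fun τ _ => analyticAt_eval _ τ
  have hdiff : DifferentiableOn ℂ H (U ∩ {τ | D τ ≠ 0}) := by
    rintro τ ⟨hτ, hDτ⟩
    obtain ⟨y, hy, hyq, hyt⟩ := hpt τ hτ hDτ
    obtain ⟨G, hG, h1⟩ := h.tf_loc hf hyq
    rw [hyt] at hG
    have h2 : Tendsto (fun τ' : Fin d → ℂ => e.symm (u, τ')) (𝓝 τ) (𝓝 (j y)) := by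
      rw [hy]
      exact (e.continuousAt_symm hτ).tendsto.comp ((Continuous.prodMk_right u).tendsto τ)
    have h3 : ∀ᶠ τ' in 𝓝 τ, H τ' = G τ' := by
      filter_upwards [h2.eventually h1, hU.mem_nhds hτ] with τ' h4 h5
      obtain ⟨h6, h7⟩ := e2 _ h5
      have := h4 h6
      rw [h7] at this
      exact this
    exact ((hG.congr (h3.mono fun _ hx => hx.symm)).differentiableAt).differentiableWithinAt
  have hmeas : MeasurableSet (U ∩ {τ | D τ ≠ 0}) := by
    refine hU.measurableSet.inter ?_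
    exact (isOpen_ne_fun (MvPolynomial.continuous_eval _) continuous_const).measurableSet
  have hL : ∫⁻ τ in U ∩ {τ | D τ ≠ 0}, ‖H τ‖ₑ ^ 2 < ⊤ := by
    refine lt_of_le_of_lt ?_ hfin
    rw [FSp.fnorm, FSp.fint_eq]
    refine le_trans (setLIntegral_mono' hmeas (g := F.fsum u fun y => ‖f y‖ₑ ^ 2) ?_)
      (setLIntegral_le_lintegral _ _)
    rintro τ ⟨hτ, hDτ⟩
    obtain ⟨y, hy, hyq, hyt⟩ := hpt τ hτ hDτ
    have h1 : H τ = f y := by
      rw [hH]
      show tf j f (e.symm (u, τ)) = f y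
      rw [← hy, h.tf_j]
    rw [h1]
    exact ENNReal.le_tsum (f := fun y : {y : Y // F.q y = u ∧ F.t y = τ} => ‖f y.1‖ₑ ^ 2)
      ⟨y, hyq, hyt⟩
  obtain ⟨G, hG, hGH⟩ := riemann_ext hU hDan
    (fun a _ => poly_not_eventually_zero (h.gp_ne u) a) hdiff
    (fun a ha => ⟨U, hU.mem_nhds ha, hL⟩)
  refine ⟨G, Crest.Agent.R266.SCV.analyticOnNhd_of_differentiableOn hU hG _ hy0U, ?_⟩
  have h5 : ∀ᶠ y in 𝓝 y0, y ∈ e.source := e.open_source.mem_nhds he
  filter_upwards [h5] with y hy hq hr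
  have h6 : (u, Ft.t y) ∈ e.target := by
    have h7 : e y = (Ft.q y, Ft.t y) := by rw [← hfe]
    rw [← hq, ← h7]
    exact e.map_source hy
  have h8 : e.symm (u, Ft.t y) = y := by
    rw [← hq]
    exact e1 y hy
  have h9 : D (Ft.t y) ≠ 0 := by
    have := h.mem_range.1 hr
    rw [hq, ← eval_gp] at this
    exact this
  rw [hGH _ h6 h9, hH]
  show _ = tf j f (e.symm (u, Ft.t y))
  rw [h8]

/-- value of the extension -/
theorem ext_eq {u : S} {f : Y → ℂ} {y0 : Yt} (hy : Ft.q y0 = u) {G : (Fin d → ℂ) → ℂ}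
    (hG : ContinuousAt G (Ft.t y0))
    (h1 : ∀ᶠ y in 𝓝 y0, Ft.q y = u → y ∈ range j → tf j f y = G (Ft.t y)) :
    ext Ft j u f y0 = G (Ft.t y0) := by
  have := h.neBot hy
  have h2 : Tendsto (fun y => G (Ft.t y)) (𝓝[{y' | Ft.q y' = u} ∩ range j] y0)
      (𝓝 (G (Ft.t y0))) :=
    (ContinuousAt.comp (g := G) hG Ft.continuous_t.continuousAt).tendsto.mono_left
      nhdsWithin_le_nhds
  have h3 : (fun y => G (Ft.t y)) =ᶠ[𝓝[{y' | Ft.q y' = u} ∩ range j] y0] tf j f := by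
    filter_upwards [nhdsWithin_le_nhds h1, self_mem_nhdsWithin] with y ha hb
    exact (ha hb.1 hb.2).symm
  exact (h2.congr' h3).limUnder_eq

/-- **fibrewise extension** -/
theorem ext_FH {u : S} {f : Y → ℂ} (hf : F.FH u f) (hfin : F.fnorm u f < ∞) :
    Ft.FH u (ext Ft j u f) := by
  intro y0 hy0
  obtain ⟨G, hG, h1⟩ := h.loc_ext hf hfin hy0
  refine ⟨G, hG, ?_⟩
  filter_upwards [h1.eventually_nhds,
    Ft.continuous_t.continuousAt.eventually hG.eventually_analyticAt] with y h2 h3 h4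
  exact h.ext_eq h4 h3.continuousAt h2

theorem ext_j {u : S} {f : Y → ℂ} (hf : F.FH u f) {y : Y} (hy : F.q y = u) :
    ext Ft j u f (j y) = f y := by
  obtain ⟨G, hG, h1⟩ := h.tf_loc hf hy
  rw [h.ext_eq (by rw [h.hq]; exact hy) (G := G) (by rw [h.ht]; exact hG.continuousAt)
    (h1.mono fun x hx hq _ => hx hq)]
  have := h1.self_of_nhds (by rw [h.hq]; exact hy)
  rw [h.tf_j] at this
  exact this.symm

theorem FH_j {u : S} {f : Yt → ℂ} (hf : Ft.FH u f) : F.FH u (f ∘ j) := by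
  intro y hy
  obtain ⟨G, hG, h1⟩ := hf (j y) (by rw [h.hq]; exact hy)
  rw [h.ht] at hG
  refine ⟨G, hG, ?_⟩
  filter_upwards [h.hj.continuous.continuousAt.eventually h1] with y' h2 h3
  have := h2 (by rw [h.hq]; exact h3)
  rw [h.ht] at this
  exact this

/-- functions on the fibre are determined by their values on the range -/
theorem FH_unique {u : S} {f1 f2 : Yt → ℂ} (hf1 : Ft.FH u f1) (hf2 : Ft.FH u f2)
    (h12 : ∀ y, F.q y = u → f1 (j y) = f2 (j y)) {y : Yt} (hy : Ft.q y = u) : f1 y = f2 y := by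
  have := h.neBot hy
  have h1 : Tendsto f1 (𝓝[{y' | Ft.q y' = u} ∩ range j] y) (𝓝 (f1 y)) :=
    (hf1.continuousWithinAt hy).tendsto.mono_left (nhdsWithin_mono _ inter_subset_left)
  have h2 : Tendsto f2 (𝓝[{y' | Ft.q y' = u} ∩ range j] y) (𝓝 (f2 y)) :=
    (hf2.continuousWithinAt hy).tendsto.mono_left (nhdsWithin_mono _ inter_subset_left)
  refine tendsto_nhds_unique (h1.congr' ?_) h2
  filter_upwards [self_mem_nhdsWithin] with x hx
  obtain ⟨y', rfl⟩ := hx.2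
  exact h12 y' (by rw [← h.hq]; exact hx.1)

theorem fsum_j {u : S} {τ : Fin d → ℂ} (hτ : MvPolynomial.eval (Fin.append (cp u) τ) g ≠ 0)
    (k : Yt → ℝ≥0∞) : Ft.fsum u k τ = F.fsum u (fun y => k (j y)) τ := by
  unfold FSp.fsum
  let e : {y : Y // F.q y = u ∧ F.t y = τ} ≃ {y : Yt // Ft.q y = u ∧ Ft.t y = τ} :=
    Equiv.ofBijective (fun y => ⟨j y.1, by rw [h.hq]; exact y.2.1, by rw [h.ht]; exact y.2.2⟩) (by
      constructor
      · intro y y' hyy
        exact Subtype.ext (h.hj.injective (congrArg Subtype.val hyy))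
      · rintro ⟨y, hy1, hy2⟩
        have h1 : y ∈ range j := h.mem_range.2 (by rw [hy1, hy2]; exact hτ)
        obtain ⟨y', rfl⟩ := h1
        exact ⟨⟨y', by rw [← h.hq]; exact hy1, by rw [← h.ht]; exact hy2⟩, rfl⟩)
  rw [← e.tsum_eq (fun y : {y : Yt // Ft.q y = u ∧ Ft.t y = τ} => k y.1)]
  rfl

theorem fint_j (u : S) (k : Yt → ℝ≥0∞) : Ft.fint u k = F.fint u (fun y => k (j y)) := by
  rw [FSp.fint_eq, FSp.fint_eq]
  refine lintegral_congr_ae ?_
  filter_upwards [Null956.ae_eval_ne (h.gp_ne u)] with τ hτ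
  rw [eval_gp] at hτ
  exact h.fsum_j hτ k

theorem fnorm_j (u : S) (f : Yt → ℂ) : Ft.fnorm u f = F.fnorm u (f ∘ j) :=
  h.fint_j u _

theorem fnorm_ext {u : S} {f : Y → ℂ} (hf : F.FH u f) :
    Ft.fnorm u (ext Ft j u f) = F.fnorm u f := by
  rw [h.fnorm_j]
  exact F.fnorm_congr fun y hy => h.ext_j hf hy

end Sub

/-! ### coordinates -/

/-- splitting of the coordinates -/
def spL (m d : ℕ) : (Fin (m + d) → ℂ) →L[ℂ] (Fin m → ℂ) × (Fin d → ℂ) :=
  (ContinuousLinearMap.pi fun i => ContinuousLinearMap.proj (R := ℂ) (φ := fun _ => ℂ)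
    (Fin.castAdd d i)).prod
  (ContinuousLinearMap.pi fun k => ContinuousLinearMap.proj (R := ℂ) (φ := fun _ => ℂ)
    (Fin.natAdd m k))

/-- union of the coordinates -/
def apL (m d : ℕ) : (Fin m → ℂ) × (Fin d → ℂ) →L[ℂ] (Fin (m + d) → ℂ) :=
  ContinuousLinearMap.pi (Fin.append
    (fun i => (ContinuousLinearMap.proj (R := ℂ) (φ := fun _ => ℂ) i).comp
      (ContinuousLinearMap.fst ℂ (Fin m → ℂ) (Fin d → ℂ)))
    (fun k => (ContinuousLinearMap.proj (R := ℂ) (φ := fun _ => ℂ) k).comp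
      (ContinuousLinearMap.snd ℂ (Fin m → ℂ) (Fin d → ℂ))))

theorem apL_apply (p : (Fin m → ℂ) × (Fin d → ℂ)) : apL m d p = Fin.append p.1 p.2 := by
  funext i
  refine Fin.addCases (fun i => ?_) (fun j => ?_) i <;> simp [apL]

theorem spL_append (x : Fin m → ℂ) (y : Fin d → ℂ) : spL m d (Fin.append x y) = (x, y) := by
  refine Prod.ext ?_ ?_ <;> funext i <;> simp [spL]

theorem append_spL (x : Fin (m + d) → ℂ) :
    Fin.append (spL m d x).1 (spL m d x).2 = x := by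
  funext i
  refine Fin.addCases (fun i => ?_) (fun j => ?_) i <;> simp [spL]

/-- the Hodge norm of a section of the top piece is locally bounded -/
theorem hnsq_bdd (V : VHS m S N w) {u₀ : S} {v : S → Fin N → ℂ}
    (hv : ContinuousAt (lV V.P v u₀) u₀) (ht : ∀ᶠ u in 𝓝 u₀, IsTop w (V.E u) (v u)) :
    ∃ C : ℝ, ∀ᶠ u in 𝓝 u₀, hnsq V u (v u) ≤ C := by
  have h1 : ∀ᶠ u in 𝓝 u₀, hnsq V u (v u) =
      (-1 : ℝ) ^ w * (star (lV V.P v u₀ u) ⬝ᵥ V.S u₀ *ᵥ lV V.P v u₀ u).re := by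
    filter_upwards [ht, V.flatS u₀] with u hu hS
    rw [hnsq, re_hodge_top hu, hS, star_quad]
    rfl
  have h2 : ContinuousAt (fun u => (-1 : ℝ) ^ w *
      (star (lV V.P v u₀ u) ⬝ᵥ V.S u₀ *ᵥ lV V.P v u₀ u).re) u₀ :=
    continuousAt_const.mul
      (ContinuousAt.comp (g := fun v : Fin N → ℂ => (star v ⬝ᵥ V.S u₀ *ᵥ v).re)
        (continuous_quad (V.S u₀)).continuousAt hv)
  have h3 := h2.eventually (gt_mem_nhds (lt_add_one _))
  refine ⟨(-1 : ℝ) ^ w * (star (lV V.P v u₀ u₀) ⬝ᵥ V.S u₀ *ᵥ lV V.P v u₀ u₀).re + 1, ?_⟩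
  filter_upwards [h1, h3] with u hu hu'
  rw [hu]
  exact hu'.le

namespace Sub

variable {Ft : FSp m d S Yt} {F : FSp m d S Y} {g : MvPolynomial (Fin (m + d)) ℂ} {j : Y → Yt}
  (h : Sub Ft F g j)

include h

theorem pc_j (y : Y) : Ft.pc (j y) = F.pc y := by
  unfold FSp.pc
  rw [h.hq, h.ht]

theorem g_ne (u : S) : g ≠ 0 := by
  obtain ⟨τ, hτ⟩ := h.hg u
  rintro rfl
  simp at hτ

/-- **joint extension** -/
theorem joint_ext {V : VHS m S N w} {ι : S → (Fin N → ℂ) → Y → ℂ} (hR : Rz V F ι) {u₀ : S}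
    {v : S → Fin N → ℂ} (hv : HolAt (lV V.P v u₀) u₀)
    (ht : ∀ᶠ u in 𝓝 u₀, IsTop w (V.E u) (v u)) {y0 : Yt} (hy0 : Ft.q y0 = u₀) :
    ∃ G : (Fin m → ℂ) × (Fin d → ℂ) → ℂ, AnalyticAt ℂ G (Ft.pc y0) ∧
      ∀ᶠ y in 𝓝 y0, y ∈ range j →
        tf j (fun y' => ι (F.q y') (v (F.q y')) y') y = G (Ft.pc y) := by
  set f : Y → ℂ := fun y' => ι (F.q y') (v (F.q y')) y' with hf
  obtain ⟨C, hC⟩ := hnsq_bdd V hv.continuousAt ht
  -- the neighbourhood of `u₀`
  obtain ⟨O, hOsub, hOo, hO0⟩ : ∃ O : Set S, (∀ u ∈ O, IsTop w (V.E u) (v u) ∧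
      (∀ᶠ u' in 𝓝 u, IsTop w (V.E u') (v u')) ∧ HolAt (lV V.P v u) u ∧ hnsq V u (v u) ≤ C) ∧
      IsOpen O ∧ u₀ ∈ O :=
    _root_.eventually_nhds_iff.1
      (ht.and (ht.eventually_nhds.and ((holAt_lV_eventually V.ndc hv).and hC)))
  obtain ⟨e, he, hfe⟩ := Ft.lh y0
  have e1 : ∀ y ∈ e.source, e.symm (Ft.q y, Ft.t y) = y := by
    intro y hy
    have h1 : e y = (Ft.q y, Ft.t y) := by rw [← hfe]
    rw [← h1]
    exact e.left_inv hy
  have e2 : ∀ p ∈ e.target, Ft.q (e.symm p) = p.1 ∧ Ft.t (e.symm p) = p.2 := by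
    intro p hp
    have h1 : (Ft.q (e.symm p), Ft.t (e.symm p)) = p := by
      have := e.right_inv hp
      rw [← hfe] at this
      exact this
    exact ⟨congrArg Prod.fst h1, congrArg Prod.snd h1⟩
  have e3 : ∀ y ∈ e.source, (Ft.q y, Ft.t y) ∈ e.target := by
    intro y hy
    have h1 : e y = (Ft.q y, Ft.t y) := by rw [← hfe]
    rw [← h1]
    exact e.map_source hy
  set c := ch u₀ with hc
  have hcc : IsCh c := isCh_ch u₀
  -- the domain
  set W1 : Set (Fin m → ℂ) := (c.target ∩ c.symm ⁻¹' O) ∩ Metric.ball (cp u₀) 1 with hW1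
  have hW1o : IsOpen W1 := (c.symm.isOpen_inter_preimage hOo).inter Metric.isOpen_ball
  have hcsymm : ContinuousOn c.symm W1 := c.symm.continuousOn.mono fun x hx => hx.1.1
  set κ : (Fin m → ℂ) × (Fin d → ℂ) → S × (Fin d → ℂ) := fun p => (c.symm p.1, p.2) with hκ
  have hκc : ContinuousOn κ (W1 ×ˢ univ) :=
    (hcsymm.comp continuousOn_fst fun p hp => hp.1).prodMk continuousOn_snd
  set W2 : Set ((Fin m → ℂ) × (Fin d → ℂ)) := (W1 ×ˢ univ) ∩ κ ⁻¹' e.target with hW2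
  have hW2o : IsOpen W2 := hκc.isOpen_inter_preimage (hW1o.prod isOpen_univ) e.open_target
  set U : Set (Fin (m + d) → ℂ) := spL m d ⁻¹' W2 with hUdef
  have hU : IsOpen U := hW2o.preimage (spL m d).continuous
  have hmemU : ∀ x : Fin (m + d) → ℂ, x ∈ U → (spL m d x).1 ∈ c.target ∧
      c.symm (spL m d x).1 ∈ O ∧ (spL m d x).1 ∈ Metric.ball (cp u₀) 1 ∧
      (c.symm (spL m d x).1, (spL m d x).2) ∈ e.target := fun x hx =>
    ⟨hx.1.1.1.1, hx.1.1.1.2, hx.1.1.2, hx.2⟩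
  set H : (Fin (m + d) → ℂ) → ℂ := fun x => tf j f (e.symm (κ (spL m d x))) with hH
  set D : (Fin (m + d) → ℂ) → ℂ := fun x => MvPolynomial.eval x g with hD
  have hpt : ∀ x ∈ U, D x ≠ 0 → ∃ y : Y, j y = e.symm (κ (spL m d x)) ∧
      F.q y = c.symm (spL m d x).1 ∧ F.t y = (spL m d x).2 := by
    intro x hx hDx
    obtain ⟨h1, h2, h3, h4⟩ := hmemU x hx
    obtain ⟨hq, ht⟩ := e2 _ h4
    have h5 : e.symm (κ (spL m d x)) ∈ range j := by
      rw [h.mem_range]
      show MvPolynomial.eval (Fin.append (cp (Ft.q (e.symm (c.symm (spL m d x).1,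
        (spL m d x).2)))) (Ft.t (e.symm (c.symm (spL m d x).1, (spL m d x).2)))) g ≠ 0
      rw [hq, ht, hcc.cp_symm h1, append_spL]
      exact hDx
    obtain ⟨y, hy⟩ := h5
    exact ⟨y, hy, by rw [← h.hq, hy]; exact hq, by rw [← h.ht, hy]; exact ht⟩
  have hDan : AnalyticOnNhd ℂ D U := fun x _ => analyticAt_eval _ x
  -- transported function near the points of the range
  have htr : ∀ x ∈ U, D x ≠ 0 → ∃ G : (Fin m → ℂ) × (Fin d → ℂ) → ℂ,
      AnalyticAt ℂ G (spL m d x) ∧ ∀ᶠ x' in 𝓝 x, H x' = G (spL m d x') := by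
    intro x hx hDx
    obtain ⟨y, hy, hyq, hyt⟩ := hpt x hx hDx
    obtain ⟨k1, k2, k3, k4⟩ := hmemU x hx
    obtain ⟨o1, o2, o3, o4⟩ := hOsub _ k2
    obtain ⟨G, hG, h1⟩ := hR.hol1 (c.symm (spL m d x).1) v o3 o2 y hyq
    have hpc : F.pc y = spL m d x := by
      unfold FSp.pc
      rw [hyq, hyt, hcc.cp_symm k1]
    rw [hpc] at hG
    refine ⟨G, hG, ?_⟩
    have h2 : ∀ᶠ z in 𝓝 (j y), tf j f z = G (Ft.pc z) := by
      refine h.eventually_j ?_
      filter_upwards [h1] with y' hy'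
      rw [h.tf_j, h.pc_j]
      exact hy'
    have h3 : Tendsto (fun x' => e.symm (κ (spL m d x'))) (𝓝 x) (𝓝 (j y)) := by
      rw [hy]
      have a1 : ContinuousAt κ (spL m d x) :=
        hκc.continuousAt ((hW1o.prod isOpen_univ).mem_nhds hx.1)
      exact (e.continuousAt_symm k4).tendsto.comp
        (a1.tendsto.comp (spL m d).continuous.continuousAt.tendsto)
    filter_upwards [h3.eventually h2, hU.mem_nhds hx] with x' h4 h5
    obtain ⟨k1', _, _, k4'⟩ := hmemU x' h5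
    obtain ⟨h6, h7⟩ := e2 _ k4'
    have h8 : Ft.pc (e.symm (κ (spL m d x'))) = spL m d x' := by
      show (cp (Ft.q (e.symm (c.symm (spL m d x').1, (spL m d x').2))),
        Ft.t (e.symm (c.symm (spL m d x').1, (spL m d x').2))) = spL m d x'
      rw [h6, h7, hcc.cp_symm k1']
    rw [h8] at h4
    exact h4
  have hdiff : DifferentiableOn ℂ H (U ∩ {x | D x ≠ 0}) := by
    rintro x ⟨hx, hDx⟩
    obtain ⟨G, hG, h1⟩ := htr x hx hDx
    have h2 : AnalyticAt ℂ (fun x' => G (spL m d x')) x :=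
      AnalyticAt.comp (g := G) hG ((spL m d).analyticAt x)
    exact ((h2.congr (h1.mono fun _ hx => hx.symm)).differentiableAt).differentiableWithinAt
  have hDo : IsOpen (U ∩ {x | D x ≠ 0}) :=
    hU.inter (isOpen_ne_fun (MvPolynomial.continuous_eval _) continuous_const)
  -- square integrability
  have hL : ∫⁻ x in U ∩ {x | D x ≠ 0}, ‖H x‖ₑ ^ 2 < ⊤ := by
    set A : Set (Fin (m + d) → ℂ) := U ∩ {x | D x ≠ 0} with hA
    have hAm : MeasurableSet A := hDo.measurableSet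
    have hmeas : Measurable (A.indicator fun x => ‖H x‖ₑ ^ 2) := by
      classical
      have h1 : ContinuousOn (fun x => ‖H x‖ₑ ^ 2) A :=
        (ENNReal.continuous_pow 2).comp_continuousOn
          (continuous_enorm.comp_continuousOn hdiff.continuousOn)
      have h2 := h1.measurable_piecewise (g := fun _ => (0 : ℝ≥0∞)) continuousOn_const hAm
      have h3 : A.piecewise (fun x => ‖H x‖ₑ ^ 2) (fun _ => (0 : ℝ≥0∞)) =
          A.indicator fun x => ‖H x‖ₑ ^ 2 := by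
        funext x
        by_cases hx : x ∈ A
        · rw [Set.piecewise_eq_of_mem _ _ _ hx, Set.indicator_of_mem hx]
        · rw [Set.piecewise_eq_of_notMem _ _ _ hx, Set.indicator_of_notMem hx]
      rw [← h3]
      exact h2
    rw [← lintegral_indicator hAm, PV_159.lintegral_append hmeas]
    refine lt_of_le_of_lt (lintegral_mono (g := (Metric.ball (cp u₀) 1).indicator
      fun _ : Fin m → ℂ => ENNReal.ofReal C) ?_) ?_
    · intro x1
      by_cases hx1 : x1 ∈ W1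
      · show ∫⁻ x2, _ ≤ _
        rw [Set.indicator_of_mem hx1.2]
        obtain ⟨o1, o2, o3, o4⟩ := hOsub _ hx1.1.2
        refine le_trans ?_ (ENNReal.ofReal_le_ofReal o4)
        rw [← hR.norm _ _ o1, FSp.fnorm, FSp.fint_eq]
        refine lintegral_mono fun x2 => ?_
        by_cases hx : Fin.append x1 x2 ∈ A
        · rw [Set.indicator_of_mem hx]
          obtain ⟨y, hy, hyq, hyt⟩ := hpt _ hx.1 hx.2
          rw [spL_append] at hy hyq hyt
          have h1 : H (Fin.append x1 x2) = ι (c.symm x1) (v (c.symm x1)) y := by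
            show tf j f (e.symm (κ (spL m d (Fin.append x1 x2)))) = _
            rw [spL_append, ← hy, h.tf_j, hf]
            show ι (F.q y) (v (F.q y)) y = _
            rw [hyq]
          rw [h1]
          exact ENNReal.le_tsum (f := fun y : {y : Y // F.q y = c.symm x1 ∧ F.t y = x2} =>
            ‖ι (c.symm x1) (v (c.symm x1)) y.1‖ₑ ^ 2) ⟨y, hyq, hyt⟩
        · rw [Set.indicator_of_notMem hx]
          exact bot_le
      · refine le_trans (le_of_eq ?_) bot_le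
        show ∫⁻ x2, _ = 0
        have h1 : ∀ x2, A.indicator (fun x => ‖H x‖ₑ ^ 2) (Fin.append x1 x2) = 0 := by
          intro x2
          refine Set.indicator_of_notMem (fun hx => hx1 ?_) _
          have h2 := hx.1.1.1
          rw [spL_append] at h2
          exact h2
        simp only [h1, lintegral_zero]
    · rw [lintegral_indicator Metric.isOpen_ball.measurableSet, setLIntegral_const]
      exact ENNReal.mul_lt_top ENNReal.ofReal_lt_top Metric.isBounded_ball.measure_lt_top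
  obtain ⟨G, hG, hGH⟩ := riemann_ext hU hDan
    (fun a _ => poly_not_eventually_zero (h.g_ne u₀) a) hdiff
    (fun a ha => ⟨U, hU.mem_nhds ha, hL⟩)
  -- the points near `y0`
  have hnear : ∀ᶠ y in 𝓝 y0, y ∈ e.source ∧ Ft.q y ∈ c.source ∧ Ft.q y ∈ O ∧
      cp (Ft.q y) ∈ Metric.ball (cp u₀) 1 := by
    have a1 : ∀ᶠ y in 𝓝 y0, y ∈ e.source := e.open_source.mem_nhds he
    have a2 : ∀ᶠ u in 𝓝 (Ft.q y0), u ∈ c.source ∧ u ∈ O ∧ cp u ∈ Metric.ball (cp u₀) 1 := by
      rw [hy0]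
      have b1 : ∀ᶠ u in 𝓝 u₀, u ∈ c.source := c.open_source.mem_nhds (mem_ch u₀)
      have b2 : ∀ᶠ u in 𝓝 u₀, u ∈ O := hOo.mem_nhds hO0
      have b3 : ∀ᶠ u in 𝓝 u₀, cp u ∈ Metric.ball (cp u₀) 1 :=
        cp_cont.continuousAt (Metric.ball_mem_nhds _ one_pos)
      exact b1.and (b2.and b3)
    exact a1.and (Ft.continuous_q.continuousAt.eventually a2)
  have hUy : ∀ y, (y ∈ e.source ∧ Ft.q y ∈ c.source ∧ Ft.q y ∈ O ∧
      cp (Ft.q y) ∈ Metric.ball (cp u₀) 1) → apL m d (Ft.pc y) ∈ U ∧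
      e.symm (κ (spL m d (apL m d (Ft.pc y)))) = y := by
    rintro y ⟨b1, b2, b3, b4⟩
    have b5 : spL m d (apL m d (Ft.pc y)) = (cp (Ft.q y), Ft.t y) := by
      rw [apL_apply, spL_append]
      rfl
    have b6 : c.symm (cp (Ft.q y)) = Ft.q y := hcc.symm_cp b2
    have b7 : κ (cp (Ft.q y), Ft.t y) = (Ft.q y, Ft.t y) := by
      show (c.symm (cp (Ft.q y)), Ft.t y) = _
      rw [b6]
    constructor
    · show spL m d (apL m d (Ft.pc y)) ∈ W2
      rw [b5]
      refine ⟨⟨⟨⟨hcc.cp_mem b2, ?_⟩, b4⟩, mem_univ _⟩, ?_⟩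
      · show c.symm (cp (Ft.q y)) ∈ O
        rw [b6]; exact b3
      · show κ (cp (Ft.q y), Ft.t y) ∈ e.target
        rw [b7]; exact e3 y b1
    · rw [b5, b7]
      exact e1 y b1
  refine ⟨fun p => G (apL m d p), ?_, ?_⟩
  · exact AnalyticAt.comp (g := G)
      (Crest.Agent.R266.SCV.analyticOnNhd_of_differentiableOn hU hG _
        (hUy y0 hnear.self_of_nhds).1) ((apL m d).analyticAt _)
  · filter_upwards [hnear] with y hy hr
    obtain ⟨d1, d2⟩ := hUy y hy
    have d3 : D (apL m d (Ft.pc y)) ≠ 0 := by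
      show MvPolynomial.eval (apL m d (Ft.pc y)) g ≠ 0
      rw [apL_apply]
      exact h.mem_range.1 hr
    rw [hGH _ d1 d3]
    show _ = tf j f (e.symm (κ (spL m d (apL m d (Ft.pc y)))))
    rw [d2]

/-- the extended realisation -/
theorem rz {V : VHS m S N w} {ι : S → (Fin N → ℂ) → Y → ℂ} (hR : Rz V F ι) :
    Rz V Ft (fun u v => ext Ft j u (ι u v)) where
  add := by
    intro u v v' hv hv' y hy
    have h1 := fun v (hv : IsTop w (V.E u) v) => h.ext_FH (hR.hol u v hv)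
      (by rw [hR.norm u v hv]; exact ENNReal.ofReal_lt_top)
    refine h.FH_unique (h1 _ (isTop_add hv hv')) (f2 := fun y => ext Ft j u (ι u v) y +
      ext Ft j u (ι u v') y) ?_ ?_ hy
    · intro y hy
      obtain ⟨G, hG, e1⟩ := h1 v hv y hy
      obtain ⟨G', hG', e2⟩ := h1 v' hv' y hy
      exact ⟨fun τ => G τ + G' τ, hG.add hG', by
        filter_upwards [e1, e2] with y' h2 h3 h4
        rw [h2 h4, h3 h4]⟩
    · intro y hy
      rw [h.ext_j (hR.hol u _ (isTop_add hv hv')) hy, h.ext_j (hR.hol u _ hv) hy,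
        h.ext_j (hR.hol u _ hv') hy, hR.add u v v' hv hv' y hy]
  smul := by
    intro u c v hv y hy
    have h1 := fun v (hv : IsTop w (V.E u) v) => h.ext_FH (hR.hol u v hv)
      (by rw [hR.norm u v hv]; exact ENNReal.ofReal_lt_top)
    refine h.FH_unique (h1 _ (isTop_smul c hv)) (f2 := fun y => c * ext Ft j u (ι u v) y)
      ?_ ?_ hy
    · intro y hy
      obtain ⟨G, hG, e1⟩ := h1 v hv y hy
      exact ⟨fun τ => c * G τ, analyticAt_const.mul hG, by
        filter_upwards [e1] with y' h2 h4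
        rw [h2 h4]⟩
    · intro y hy
      rw [h.ext_j (hR.hol u _ (isTop_smul c hv)) hy, h.ext_j (hR.hol u _ hv) hy,
        hR.smul u c v hv y hy]
  hol := by
    intro u v hv
    exact h.ext_FH (hR.hol u v hv) (by rw [hR.norm u v hv]; exact ENNReal.ofReal_lt_top)
  norm := by
    intro u v hv
    rw [h.fnorm_ext (hR.hol u v hv), hR.norm u v hv]
  surj := by
    intro u f hf hfin
    have h1 := h.FH_j hf
    obtain ⟨v, hv, h2⟩ := hR.surj u (f ∘ j) h1 (by rw [← h.fnorm_j]; exact hfin)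
    refine ⟨v, hv, fun y hy => h.FH_unique (h.ext_FH (hR.hol u v hv)
      (by rw [hR.norm u v hv]; exact ENNReal.ofReal_lt_top)) hf (fun y' hy' => ?_) hy⟩
    rw [h.ext_j (hR.hol u v hv) hy', h2 y' hy']
    rfl
  hol1 := by
    intro u₀ v hv ht y0 hy0
    obtain ⟨G, hG, h1⟩ := h.joint_ext hR hv ht hy0
    refine ⟨G, hG, ?_⟩
    filter_upwards [h1.eventually_nhds,
      Ft.continuous_pc.continuousAt.eventually hG.eventually_analyticAt] with y h2 h3
    have := h.neBot (u := Ft.q y) (y0 := y) rfl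
    have h4 : Tendsto (fun y' => G (Ft.pc y')) (𝓝[{y' | Ft.q y' = Ft.q y} ∩ range j] y)
        (𝓝 (G (Ft.pc y))) :=
      (ContinuousAt.comp (g := G) h3.continuousAt
        Ft.continuous_pc.continuousAt).tendsto.mono_left nhdsWithin_le_nhds
    have h5 : (fun y' => G (Ft.pc y')) =ᶠ[𝓝[{y' | Ft.q y' = Ft.q y} ∩ range j] y]
        tf j (ι (Ft.q y) (v (Ft.q y))) := by
      filter_upwards [nhdsWithin_le_nhds h2, self_mem_nhdsWithin] with y' ha hb
      rw [← ha hb.2]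
      obtain ⟨y'', rfl⟩ := hb.2
      have hb1 : Ft.q (j y'') = Ft.q y := hb.1
      rw [h.tf_j, h.tf_j, ← hb1, h.hq]
    exact (h4.congr' h5).limUnder_eq
  hol2 := by
    intro u₀ v ht hpb
    refine hR.hol2 u₀ v ht ?_
    filter_upwards [hpb, ht.eventually_nhds] with u h1 h2 y hy
    obtain ⟨G, hG, h3⟩ := h1 (j y) (by rw [h.hq]; exact hy)
    rw [h.pc_j] at hG
    refine ⟨G, hG, ?_⟩
    have h4 : ∀ᶠ y' in 𝓝 y, IsTop w (V.E (F.q y')) (v (F.q y')) :=
      F.continuous_q.continuousAt.eventually (by rw [hy]; exact h2)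
    filter_upwards [h.hj.continuous.continuousAt.eventually h3, h4] with y' h5 h6
    rw [h.pc_j, h.hq, h.ext_j (hR.hol _ _ h6) rfl] at h5
    exact h5

end Sub

/-- **RZ-EXT** -/
theorem rz_ext {m d N w : ℕ} {S Yt Y : Type*} [TopologicalSpace S] [T2Space S] [RDom m S]
    [TopologicalSpace Yt] [T2Space Yt] [SecondCountableTopology Yt] [TopologicalSpace Y]
    (Ft : FSp m d S Yt) (F : FSp m d S Y) (g : MvPolynomial (Fin (m + d)) ℂ)
    (hg : ∀ u : S, ∃ τ, MvPolynomial.eval (Fin.append (cp u) τ) g ≠ 0) (j : Y → Yt)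
    (hj : IsOpenEmbedding j) (hq : ∀ y, Ft.q (j y) = F.q y) (ht : ∀ y, Ft.t (j y) = F.t y)
    (hr : Set.range j = {y | MvPolynomial.eval (Fin.append (cp (Ft.q y)) (Ft.t y)) g ≠ 0})
    {V : VHS m S N w} {ι : S → (Fin N → ℂ) → Y → ℂ} (hR : Rz V F ι) :
    ∃ iot : S → (Fin N → ℂ) → Yt → ℂ, Rz V Ft iot ∧
      ∀ u v, IsTop w (V.E u) v → ∀ y, F.q y = u → iot u v (j y) = ι u v y := by
  have h : Sub Ft F g j := ⟨hg, hj, hq, ht, hr⟩
  exact ⟨_, h.rz hR, fun u v hv y hy => h.ext_j (hR.hol u v hv) hy⟩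

/-- group actions: if `α` acts on `Y` and on `Yt` compatibly, the extended realisation is
equivariant -/
theorem Sub.rzAct {Ft : FSp m d S Yt} {F : FSp m d S Y} {g : MvPolynomial (Fin (m + d)) ℂ}
    {j : Y → Yt} (h : Sub Ft F g j) {V : VHS m S N w} {ι : S → (Fin N → ℂ) → Y → ℂ}
    (hR : Rz V F ι) {Γ : Type} [Group Γ] {ρ : Act V Γ} {α : Γ → Y → Y}
    (hA : RzAct ρ F ι α) {β : Γ → Yt → Yt} (hβc : ∀ g, Continuous (β g))
    (hβj : ∀ g y, β g (j y) = j (α g y)) (hβq : ∀ g y, Ft.q (β g y) = Ft.q y)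
    (hβt : ∀ g y, Ft.t (β g y) = Ft.t y) :
    RzAct ρ Ft (fun u v => ext Ft j u (ι u v)) β where
  q := hβq
  t := hβt
  eqv := by
    intro γ u v hv y hy
    have hv' : IsTop w (V.E u) (cm (ρ.ρ γ u) *ᵥ v) := by
      unfold Top8_815.IsTop at hv ⊢
      rw [mulVec_mulVec, ← ρ.commE, ← mulVec_mulVec, hv, mulVec_smul]
    have h1 := fun v (hv : IsTop w (V.E u) v) => h.ext_FH (hR.hol u v hv)
      (by rw [hR.norm u v hv]; exact ENNReal.ofReal_lt_top)
    refine h.FH_unique (h1 _ hv') (f2 := fun y => ext Ft j u (ι u v) (β γ⁻¹ y)) ?_ ?_ hy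
    · intro y hy
      obtain ⟨G, hG, e1⟩ := h1 v hv (β γ⁻¹ y) (by rw [hβq]; exact hy)
      rw [hβt] at hG
      refine ⟨G, hG, ?_⟩
      filter_upwards [(hβc γ⁻¹).continuousAt.eventually e1] with y' h2 h3
      rw [h2 (by rw [hβq]; exact h3), hβt]
    · intro y hy
      rw [h.ext_j (hR.hol u _ hv') hy, hβj, h.ext_j (hR.hol u _ hv) (by rw [hA.q]; exact hy),
        hA.eqv γ u v hv y hy]

end Crest.Agent.R276.RzExt_358
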