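import Crest.Agent.R276.Geo4_519
import Crest.Agent.R276.GeoOne_519
import Crest.Agent.R276.RzExt_358
import Crest.Agent.R276.IpcRz_840

/-!
# Row 276 (S0419), GEO (helper519), part 5: realisation on the whole root cover

* `exists_rz_full` : `exists_rz` (Geo4) and `rz_ext` (358): a variation of Hodge structures on `S`, realised on
  the whole root cover `η^N = det (y_j (σ_i))` of the `s`-fold fibre power;
* `exists_rz_one_full` : the same for the root cover `η^N = δ`, `δ ∈ MK.B` (for SAT, 210).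
-/

set_option autoImplicit false
set_option linter.unusedSectionVars false

noncomputable section

open Set Filter Topology MeasureTheory
open Crest.Agent.R271.Ho51 Crest.Agent.R276.Ipc735 Crest.Agent.R276.Top8_815
open Crest.Agent.R276.Tow2_244 Crest.Agent.R276.Tow4_244 Crest.Agent.R276.Iter_840
open Crest.Agent.R276.IpcModel_244 Crest.Agent.R276.IpcRel_244 Crest.Agent.R276.Mod1_987
open Crest.Agent.R271.Rd692 Crest.Agent.R276.IpcRMdl_244
open Crest.Agent.R276.Geo2_519 Crest.Agent.R276.Cov_425 Crest.Agent.R276.Geo4_519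
open Crest.Agent.R276.GeoOne_519
open scoped ENNReal

namespace Crest.Agent.R276.Geo5_519

lemma sc_subtype {α : Type*} [TopologicalSpace α] [SecondCountableTopology α] (p : α → Prop) :
    SecondCountableTopology {x // p x} :=
  (Topology.IsInducing.mk rfl : Topology.IsInducing
    (Subtype.val : {x // p x} → α)).secondCountableTopology

section ext

variable {m d N w : ℕ} {S Yt : Type*} [TopologicalSpace S] [T2Space S] [RDom m S]
  [TopologicalSpace Yt] [T2Space Yt] [SecondCountableTopology Yt]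

/-- `rz_ext` for `sub F {g ≠ 0}` -/
theorem rz_ext_sub (F : FSp m d S Yt) (g : MvPolynomial (Fin (m + d)) ℂ)
    (hg : ∀ u : S, ∃ τ, MvPolynomial.eval (Fin.append (cp u) τ) g ≠ 0)
    {V : VHS m S N w} {ι : S → (Fin N → ℂ) → {y | gv F g y ≠ 0} → ℂ}
    (hR : Rz V (sub F (isOpen_gv F g)) ι) :
    ∃ iot : S → (Fin N → ℂ) → Yt → ℂ, Rz V F iot ∧
      ∀ u v, IsTop w (V.E u) v → ∀ y : {y | gv F g y ≠ 0}, F.q y.1 = u →
        iot u v y.1 = ι u v y := by
  refine RzExt_358.rz_ext F (sub F (isOpen_gv F g)) g hg (fun y => y.1)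
    (isOpen_gv F g).isOpenEmbedding_subtypeVal (fun _ => rfl) (fun _ => rfl) ?_ hR
  exact Subtype.range_coe

end ext

variable {L K : Type} [Field L] [Field K] [Algebra ℂ L] [Algebra ℂ K] [Algebra L K]
  [IsScalarTower ℂ L K] {m r : ℕ}

/-- **the variation of the root cover of the fibre power** -/
theorem exists_rz_full (hO : OneStep) (R : RMdl L K m r) {s : ℕ}
    (σ : Fin s → R.MK.B) {N : ℕ} (hN : N ≠ 0) (w₀ : R.ML.Pts)
    (hconn : ∀ w, R.ML.pz w = R.ML.pz w₀ → ConnectedSpace (R.Fib w))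
    (hind : ∀ w, R.ML.pz w = R.ML.pz w₀ → ∀ v : Fin s → ℂ, v ≠ 0 →
      ∃ y : R.Fib w, ∑ i, v i * (y.val) (σ i) ≠ 0) :
    ∃ p : MvPolynomial (Fin m) ℂ, p ≠ 0 ∧
      ∀ (S : Type) [TopologicalSpace S] [T2Space S] [SecondCountableTopology S]
        [PreconnectedSpace S] [RDom m S] (ρ : S → R.ML.Pts) (hρ : Continuous ρ)
        (_ : ∀ u, R.ML.pz (ρ u) = cp u) (_ : ∀ u : S, MvPolynomial.eval (cp u) p ≠ 0),
        ∃ (N' : ℕ) (W : VHS m S N' (s * r)) (ι : S → (Fin N' → ℂ) →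
          Root (dt R σ (F := pbF (fF R) hρ)) N → ℂ), Rz W (FR R σ hρ hN) ι := by
  obtain ⟨p, g, hp, hg, h⟩ := exists_rz hO stepRz_holds stepRzAct_holds R σ hN w₀ hconn hind
  refine ⟨p, hp, ?_⟩
  intro S _ _ _ _ _ ρ hρ hcp hpS
  obtain ⟨N', W, ι, hι⟩ := h S ρ hρ hcp hpS
  have : SecondCountableTopology (PB (fF R) ρ) := sc_subtype _
  have : SecondCountableTopology (FPow (pbF (fF R) hρ) s) := sc_subtype _
  have : SecondCountableTopology (Root (dt R σ (F := pbF (fF R) hρ)) N) := sc_subtype _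
  obtain ⟨iot, h1, -⟩ := rz_ext_sub (FR R σ hρ hN) g (fun u => hg _ (hpS u)) hι
  exact ⟨N', W, iot, h1⟩

/-- **the variation of the root cover `η^N = δ`** -/
theorem exists_rz_one_full (hO : OneStep) (R : RMdl L K m r) (δ : R.MK.B) (hδ : δ ≠ 0) {N : ℕ}
    (hN : N ≠ 0) :
    ∃ p : MvPolynomial (Fin m) ℂ, p ≠ 0 ∧
      ∀ (S : Type) [TopologicalSpace S] [T2Space S] [SecondCountableTopology S]
        [PreconnectedSpace S] [RDom m S] (ρ : S → R.ML.Pts) (hρ : Continuous ρ)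
        (_ : ∀ u, R.ML.pz (ρ u) = cp u) (_ : ∀ u : S, MvPolynomial.eval (cp u) p ≠ 0),
        ∃ (N' : ℕ) (W : VHS m S N' r) (ι : S → (Fin N' → ℂ) → Root (dl1 R δ (ρ := ρ)) N → ℂ),
          Rz W (FR1 R δ hρ hN) ι := by
  obtain ⟨p, g, hp, hg, h⟩ := exists_rz_one hO stepRz_holds stepRzAct_holds R δ hδ hN
  refine ⟨p, hp, ?_⟩
  intro S _ _ _ _ _ ρ hρ hcp hpS
  obtain ⟨N', W, ι, hι⟩ := h S ρ hρ hcp hpS
  have : SecondCountableTopology (PB (fF R) ρ) := sc_subtype _
  have : SecondCountableTopology (Root (dl1 R δ (ρ := ρ)) N) := sc_subtype _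
  obtain ⟨iot, h1, -⟩ := rz_ext_sub (FR1 R δ hρ hN) g (fun u => hg _ (hpS u)) hι
  exact ⟨N', W, iot, h1⟩

end Crest.Agent.R276.Geo5_519
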