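import Crest.Agent.R276.GeoN2_348
import Crest.Agent.R276.Geo4_519

/-!
# R276, leaf GEO-NRM (helper348), part 3: the norm of the root on 425's spaces (`Cov1_425`)

* `fnorm_root` : `(root F hδ hN).fnorm u η = N * F.fint u |δ|^(2/N)`;
* `fint_pow` : the fibre integral of `pow (pbF F hρ) s`;
* `fint_sub` : integrals over the open part `{g ≠ 0}`;
* `fnorm_FR` : the norm of the root on 519's `FR R σ hρ hN` is `N * De R N σ (ρ u) = N * DN N σ (ρ u)`.
-/

set_option autoImplicit false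

noncomputable section

open Set Filter Topology MeasureTheory
open Crest.Agent.R271.Ho51 Crest.Agent.R271.Rd692
open Crest.Agent.R276.Top8_815 Crest.Agent.R276.Rc_348 Crest.Agent.R276.Mod1_987
open Crest.Agent.R276.IpcRMdl_244 (fF)
open Crest.Agent.R276.Cov_425 Crest.Agent.R276.Geo4_519
open scoped ENNReal

namespace Crest.Agent.R276.GeoN3_348

section gen

variable {m d r : ℕ} {S X Z P : Type*} [TopologicalSpace S] [RDom m S] [TopologicalSpace X]
  [RDom m X] [TopologicalSpace Z] [TopologicalSpace P]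

/-- **The norm of the root** of a root cover. -/
theorem fnorm_root (F : FSp m d S Z) {δ : Z → ℂ} (hδ : Continuous δ) {N : ℕ} (hN : N ≠ 0) (u : S) :
    (root F hδ hN).fnorm u (fun p => p.1.2) = N * F.fint u (fun z => ‖δ z‖ₑ ^ (2 / (N : ℝ))) := by
  classical
  unfold FSp.fnorm FSp.fint
  rw [← lintegral_const_mul' _ _ (ENNReal.natCast_ne_top N)]
  refine lintegral_congr fun τ => ?_
  let e : {p : Root δ N // (root F hδ hN).q p = u ∧ (root F hδ hN).t p = τ} ≃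
      Σ z : {z : {z : Z // F.q z = u ∧ F.t z = τ} // δ z.1 ≠ 0}, {η : ℂ // η ^ N = δ z.1.1} :=
    { toFun := fun p => ⟨⟨⟨p.1.1.1, p.2⟩, p.1.2.2⟩, ⟨p.1.1.2, p.1.2.1⟩⟩
      invFun := fun z => ⟨⟨(z.1.1.1, z.2.1), z.2.2, z.1.2⟩, z.1.1.2⟩
      left_inv := fun p => rfl
      right_inv := fun z => rfl }
  rw [← e.symm.tsum_eq]
  have h1 : ∀ z : Σ z : {z : {z : Z // F.q z = u ∧ F.t z = τ} // δ z.1 ≠ 0},
      {η : ℂ // η ^ N = δ z.1.1}, ‖((e.symm z).1 : Root δ N).1.2‖ₑ ^ 2 = ‖z.2.1‖ₑ ^ 2 :=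
    fun z => rfl
  simp only [h1]
  rw [ENNReal.tsum_sigma']
  have h2 : ∀ z : {z : {z : Z // F.q z = u ∧ F.t z = τ} // δ z.1 ≠ 0},
      ∑' b : {η : ℂ // η ^ N = δ z.1.1}, ‖b.1‖ₑ ^ 2 = N * ‖δ z.1.1‖ₑ ^ (2 / (N : ℝ)) :=
    fun z => rc_tsum hN z.2
  simp only [h2]
  rw [ENNReal.tsum_mul_left]
  congr 1
  have hsupp : Function.support (fun z : {z : Z // F.q z = u ∧ F.t z = τ} =>
      ‖δ z.1‖ₑ ^ (2 / (N : ℝ))) ⊆ {z | δ z.1 ≠ 0} := by
    intro z hz h0
    apply hz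
    have : (0 : ℝ) < 2 / (N : ℝ) := by positivity
    simp only [h0, enorm_zero]
    exact ENNReal.zero_rpow_of_pos this
  exact tsum_subtype_eq_of_support_subset hsupp

/-- The fibre integral of the fibre power of a pull back. -/
theorem fint_pow (F : FSp m r X P) {ρ : S → X} (hρ : Continuous ρ) (s : ℕ)
    (g : (Fin s → P) → ℝ≥0∞) (u : S) :
    (pow (pbF F hρ) s).fint u (fun p => g fun j => (p.1.2 j).1.2) =
      GeoN2_348.fintS F s (ρ u) g := by
  unfold FSp.fint GeoN2_348.fintS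
  refine lintegral_congr fun τ => ?_
  let e : {p : FPow (pbF F hρ) s // (pow (pbF F hρ) s).q p = u ∧ (pow (pbF F hρ) s).t p = τ} ≃
      {y : Fin s → P // (∀ j, F.q (y j) = ρ u) ∧ GeoY_519.tt F y = τ} :=
    { toFun := fun p => ⟨fun j => (p.1.1.2 j).1.2, fun j => by
          have h1 : F.q (p.1.1.2 j).1.2 = ρ (p.1.1.2 j).1.1 := (p.1.1.2 j).2
          have h2 : (p.1.1.2 j).1.1 = p.1.1.1 := p.1.2 j
          have h3 : p.1.1.1 = u := p.2.1
          rw [h1, h2, h3], p.2.2⟩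
      invFun := fun y => ⟨⟨(u, fun j => ⟨(u, y.1 j), y.2.1 j⟩), fun j => rfl⟩, rfl, y.2.2⟩
      left_inv := by
        rintro ⟨⟨⟨a, z⟩, h⟩, h1, h2⟩
        apply Subtype.ext
        apply Subtype.ext
        have h1' : a = u := h1
        refine Prod.ext h1'.symm (funext fun j => ?_)
        apply Subtype.ext
        refine Prod.ext ?_ rfl
        have h3 : (z j).1.1 = a := h j
        exact (h3.trans h1').symm
      right_inv := fun z => rfl }
  rw [← e.symm.tsum_eq]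
  rfl

/-- The fibre integral over the open part. -/
theorem fint_sub (F : FSp m d S Z) {U : Set Z} (hU : IsOpen U) (u : S) (g : Z → ℝ≥0∞)
    (hnull : ∀ᵐ τ : Fin d → ℂ, ∀ z, F.q z = u → F.t z = τ → g z ≠ 0 → z ∈ U) :
    (sub F hU).fint u (fun z => g z.1) = F.fint u g := by
  classical
  unfold FSp.fint
  refine lintegral_congr_ae ?_
  filter_upwards [hnull] with τ hτ
  let e : {z : U // (sub F hU).q z = u ∧ (sub F hU).t z = τ} ≃
      {z : {z : Z // F.q z = u ∧ F.t z = τ} // z.1 ∈ U} :=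
    { toFun := fun z => ⟨⟨z.1.1, z.2⟩, z.1.2⟩
      invFun := fun z => ⟨⟨z.1.1, z.2⟩, z.1.2⟩
      left_inv := fun z => rfl
      right_inv := fun z => rfl }
  rw [← e.symm.tsum_eq]
  have hsupp : Function.support (fun z : {z : Z // F.q z = u ∧ F.t z = τ} => g z.1) ⊆
      {z | z.1 ∈ U} := fun z hz => hτ z.1 z.2.1 z.2.2 hz
  exact tsum_subtype_eq_of_support_subset hsupp

/-- the open part `{g ≠ 0}` carries all of the integral -/
theorem fint_gv (F : FSp m d S Z) {g : MvPolynomial (Fin (m + d)) ℂ} (u : S)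
    (hg : ∃ τ : Fin d → ℂ, MvPolynomial.eval (Fin.append (cp u) τ) g ≠ 0) (f : Z → ℝ≥0∞) :
    (sub F (isOpen_gv F g)).fint u (fun z => f z.1) = F.fint u f := by
  refine fint_sub F (isOpen_gv F g) u f ?_
  filter_upwards [GeoN2_348.ae_slice hg] with τ hτ z hz hzt _
  change MvPolynomial.eval (Fin.append (cp (F.q z)) (F.t z)) g ≠ 0
  rw [hz, hzt]
  exact hτ

theorem fnorm_gv (F : FSp m d S Z) {g : MvPolynomial (Fin (m + d)) ℂ} (u : S)
    (hg : ∃ τ : Fin d → ℂ, MvPolynomial.eval (Fin.append (cp u) τ) g ≠ 0) (f : Z → ℂ) :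
    (sub F (isOpen_gv F g)).fnorm u (fun z => f z.1) = F.fnorm u f :=
  fint_gv F u hg fun z => ‖f z‖ₑ ^ 2

end gen

section rel

variable {L K : Type} [Field L] [Field K] [Algebra ℂ L] [Algebra ℂ K] [Algebra L K]
  [IsScalarTower ℂ L K] {m r : ℕ} (R : RMdl L K m r) {s : ℕ} (σ : Fin s → R.MK.B) {S : Type}
  [TopologicalSpace S] [RDom m S] {ρ : S → R.ML.Pts}

theorem dt_eq {F : FSp m r S (PB (fF R) ρ)} (p : FPow F s) :
    dt R σ p = FlatFam_793.dl σ fun j => (p.1.2 j).1.2 := rfl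

/-- the fibre integrals of 519's root cover, on the fibre power -/
theorem fint_pow_rel (hρ : Continuous ρ) (g : (Fin s → R.MK.Pts) → ℝ≥0∞) (u : S) :
    (pow (pbF (fF R) hρ) s).fint u (fun p => g fun j => (p.1.2 j).1.2) =
      FlatFam_793.fintS R s (ρ u) g := by
  rw [fint_pow, GeoN2_348.fintS_793]

/-- **The norm of the root of `det σ_i(y_j)` is `N * De`.** -/
theorem fnorm_FR (hρ : Continuous ρ) {N : ℕ} (hN : N ≠ 0) (u : S) :
    (FR R σ hρ hN).fnorm u (fun p => p.1.2) = N * FlatFam_793.De R N σ (ρ u) := by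
  unfold FR
  rw [fnorm_root]
  congr 1
  exact fint_pow_rel R hρ (fun y => ‖FlatFam_793.dl σ y‖ₑ ^ (2 / (N : ℝ))) u

/-- the same with 236's `DN` -/
theorem fnorm_FR' (hρ : Continuous ρ) {N : ℕ} (hN : N ≠ 0) (u : S) :
    (FR R σ hρ hN).fnorm u (fun p => p.1.2) = N * FlatDefs_236.DN N σ (ρ u) := by
  rw [fnorm_FR, GeoN2_348.De_eq_DN]

/-- the same on the open part `{g ≠ 0}` -/
theorem fnorm_FR_sub (hρ : Continuous ρ) {N : ℕ} (hN : N ≠ 0)
    {g : MvPolynomial (Fin (m + s * r)) ℂ} (u : S)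
    (hg : ∃ τ : Fin (s * r) → ℂ, MvPolynomial.eval (Fin.append (cp u) τ) g ≠ 0) :
    (sub (FR R σ hρ hN) (isOpen_gv (FR R σ hρ hN) g)).fnorm u (fun p => p.1.1.2) =
      N * FlatFam_793.De R N σ (ρ u) := by
  rw [← fnorm_FR R σ hρ hN u]
  exact fnorm_gv (FR R σ hρ hN) u hg fun p => p.1.2

end rel

end Crest.Agent.R276.GeoN3_348
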