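import Crest.Agent.R276.GeoN3_348
import Crest.Agent.R276.AB2_590
import Crest.Agent.R276.Mod4_987

/-!
# R276, leaf GEO-NRM (helper348), part 4: the fibres of `pbF (fF R) hρ` are the fibres of `R`

* `hol_iff_loc` : local description of `Ho51.Hol`; `hol_homeo` : transport along a homeomorphism
  which keeps the coordinates;
* `FH_iff_fib` : `F.FH u f ↔ Ho51.Hol (f on Cov_425.Fib F u)` for every `FSp`;
* `fint_pb`, `fint_pbR` : fibre integrals of `pbF`;
* `eF : Cov_425.Fib (pbF (fF R) hρ) u ≃ₜ R.Fib (ρ u)`, `FH_iff`, `fint_nu`, `fnorm_nu`;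
* `pb_ev`, `pb_sg` : elements of `R.MK.B` are holomorphic (`Top8_815.PB`) on the pull back.
-/

set_option autoImplicit false

noncomputable section

open Set Filter Topology MeasureTheory
open Crest.Agent.R271.Ho51 Crest.Agent.R271.Rd692
open Crest.Agent.R276.Top8_815 Crest.Agent.R276.Rc_348 Crest.Agent.R276.Mod1_987
open Crest.Agent.R276.IpcRMdl_244 (fF)
open Crest.Agent.R276.Cov_425 Crest.Agent.R276.Geo4_519
open scoped ENNReal

namespace Crest.Agent.R276.GeoN4_348

section loc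

variable {n : ℕ} {M M' : Type*} [TopologicalSpace M] [RDom n M] [TopologicalSpace M'] [RDom n M']

/-- Local description of holomorphic functions. -/
theorem hol_iff_loc {f : M → ℂ} : Hol f ↔ ∀ x, ∃ g : (Fin n → ℂ) → ℂ,
    AnalyticAt ℂ g (cp x) ∧ ∀ᶠ y in 𝓝 x, f y = g (cp y) := by
  rw [AB2_590.hol51_iff]
  constructor
  · intro h x
    exact ⟨f ∘ (ch x).symm, h x, eventually_eq_comp (isCh_ch x) (mem_ch x) f⟩
  · intro h x
    obtain ⟨g, hg, hfg⟩ := h x
    have h1 : ContinuousAt (ch x).symm (cp x) :=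
      (ch x).symm.continuousAt (by simpa using (isCh_ch x).cp_mem (mem_ch x))
    have h2 : (ch x).symm (cp x) = x := (isCh_ch x).symm_cp (mem_ch x)
    rw [ContinuousAt, h2] at h1
    refine hg.congr ?_
    filter_upwards [h1.eventually hfg,
      (ch x).open_target.mem_nhds ((isCh_ch x).cp_mem (mem_ch x))] with z hz hzt
    rw [(isCh_ch x).cp_symm hzt] at hz
    exact hz.symm

/-- transport along a homeomorphism which keeps the coordinates -/
theorem hol_homeo (e : M ≃ₜ M') (he : ∀ x, (cp (e x) : Fin n → ℂ) = cp x) {f : M → ℂ} :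
    Hol f ↔ Hol fun y => f (e.symm y) := by
  rw [hol_iff_loc, hol_iff_loc]
  constructor
  · intro h y
    obtain ⟨g, hg, hfg⟩ := h (e.symm y)
    have h1 : (cp (e.symm y) : Fin n → ℂ) = cp y := by rw [← he, e.apply_symm_apply]
    rw [h1] at hg
    refine ⟨g, hg, ?_⟩
    filter_upwards [e.symm.continuous.continuousAt.eventually hfg] with z hz
    rw [hz, ← he, e.apply_symm_apply]
  · intro h x
    obtain ⟨g, hg, hfg⟩ := h (e x)
    rw [he] at hg
    refine ⟨g, hg, ?_⟩
    filter_upwards [e.continuous.continuousAt.eventually hfg] with z hz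
    rw [e.symm_apply_apply, he] at hz
    exact hz

end loc

section gen

variable {m d r : ℕ} {S X Z P : Type*} [TopologicalSpace S] [RDom m S] [TopologicalSpace X]
  [RDom m X] [TopologicalSpace Z] [TopologicalSpace P]

/-- Holomorphy on the fibre, for every fibred space. -/
theorem FH_iff_fib (F : FSp m d S Z) (u : S) {f : Z → ℂ} :
    F.FH u f ↔ Hol fun y : Fib F u => f y.1 := by
  rw [hol_iff_loc]
  have hind : Topology.IsInducing (fun y : Fib F u => y.1) := ⟨rfl⟩
  have key : ∀ (y : Fib F u) (p : Z → Prop),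
      (∀ᶠ y' in 𝓝 y.1, F.q y' = u → p y') ↔ ∀ᶠ y' in 𝓝 y, p y'.1 := by
    intro y p
    rw [hind.nhds_eq_comap, eventually_comap]
    constructor
    · intro h
      filter_upwards [h] with y' hy' b hb
      rw [hb]
      exact hy' (by rw [← hb]; exact b.2)
    · intro h
      filter_upwards [h] with y' hy' hq
      exact hy' ⟨y', hq⟩ rfl
  constructor
  · intro h y
    obtain ⟨g, hg, hfg⟩ := h y.1 y.2
    exact ⟨g, hg, (key y fun y' => f y' = g (F.t y')).1 hfg⟩
  · intro h y hy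
    obtain ⟨g, hg, hfg⟩ := h ⟨y, hy⟩
    exact ⟨g, hg, (key ⟨y, hy⟩ fun y' => f y' = g (F.t y')).2 hfg⟩

/-- Fibre integrals of a pull back. -/
theorem fint_pb (F : FSp m r X P) {ρ : S → X} (hρ : Continuous ρ) (g : P → ℝ≥0∞) (u : S) :
    (pbF F hρ).fint u (fun y => g y.1.2) = F.fint (ρ u) g := by
  unfold FSp.fint
  refine lintegral_congr fun τ => ?_
  let e : {p : PB F ρ // (pbF F hρ).q p = u ∧ (pbF F hρ).t p = τ} ≃
      {y : P // F.q y = ρ u ∧ F.t y = τ} :=
    { toFun := fun p => ⟨p.1.1.2, by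
          have h1 : F.q p.1.1.2 = ρ p.1.1.1 := p.1.2
          have h2 : p.1.1.1 = u := p.2.1
          rw [h1, h2], p.2.2⟩
      invFun := fun y => ⟨⟨(u, y.1), y.2.1⟩, rfl, y.2.2⟩
      left_inv := by
        rintro ⟨⟨⟨a, z⟩, h⟩, h1, h2⟩
        apply Subtype.ext
        apply Subtype.ext
        exact Prod.ext (Eq.symm h1) rfl
      right_inv := fun z => rfl }
  rw [← e.symm.tsum_eq]
  rfl

end gen

section rel

variable {L K : Type} [Field L] [Field K] [Algebra ℂ L] [Algebra ℂ K] [Algebra L K]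
  [IsScalarTower ℂ L K] {m r : ℕ} (R : RMdl L K m r) {s : ℕ} (σ : Fin s → R.MK.B)
  {S : Type} [TopologicalSpace S] [RDom m S] {ρ : S → R.ML.Pts}

/-- Fibre integrals on `pbF (fF R) hρ` -/
theorem fint_pbR (hρ : Continuous ρ) (g : R.MK.Pts → ℝ≥0∞) (u : S) :
    (pbF (fF R) hρ).fint u (fun y => g y.1.2) = R.fint (ρ u) g := by
  rw [fint_pb]
  rfl

/-- the map of fibres -/
def toF (hρ : Continuous ρ) (u : S) (y : Fib (pbF (fF R) hρ) u) : R.Fib (ρ u) :=
  ⟨y.1.1.2, by
    have h1 : R.q y.1.1.2 = ρ y.1.1.1 := y.1.2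
    have h2 : y.1.1.1 = u := y.2
    rw [h1, h2]⟩

/-- the inverse map of fibres -/
def ofF (hρ : Continuous ρ) (u : S) (z : R.Fib (ρ u)) : Fib (pbF (fF R) hρ) u :=
  ⟨⟨(u, RMdl.Fib.val R z), RMdl.Fib.q_eq z⟩, rfl⟩

lemma continuous_toF (hρ : Continuous ρ) (u : S) : Continuous (toF R hρ u) := by
  have h1 : Continuous fun y : Fib (pbF (fF R) hρ) u => y.1.1.2 :=
    continuous_snd.comp (continuous_subtype_val.comp continuous_subtype_val)
  exact h1.subtype_mk _

lemma continuous_ofF (hρ : Continuous ρ) (u : S) : Continuous (ofF R hρ u) := by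
  have h1 : Continuous fun z : R.Fib (ρ u) => ((u, RMdl.Fib.val R z) : S × R.MK.Pts) :=
    continuous_const.prodMk (RMdl.Fib.continuous_val (ρ u))
  exact (h1.subtype_mk _).subtype_mk _

/-- The fibre of the pull back is the fibre of `R`. -/
def eF (hρ : Continuous ρ) (u : S) : Fib (pbF (fF R) hρ) u ≃ₜ R.Fib (ρ u) where
  toFun := toF R hρ u
  invFun := ofF R hρ u
  left_inv := by
    rintro ⟨⟨⟨a, z⟩, h⟩, h1⟩
    apply Subtype.ext
    apply Subtype.ext
    exact Prod.ext (Eq.symm h1) rfl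
  right_inv := fun z => rfl
  continuous_toFun := continuous_toF R hρ u
  continuous_invFun := continuous_ofF R hρ u

@[simp] lemma eF_val (hρ : Continuous ρ) (u : S) (y : Fib (pbF (fF R) hρ) u) :
    RMdl.Fib.val R (eF R hρ u y) = y.1.1.2 := rfl

lemma eF_symm_val (hρ : Continuous ρ) (u : S) (z : R.Fib (ρ u)) :
    ((eF R hρ u).symm z).1.1 = (u, RMdl.Fib.val R z) := rfl

lemma cp_eF (hρ : Continuous ρ) (u : S) (y : Fib (pbF (fF R) hρ) u) :
    (cp (eF R hρ u y) : Fin r → ℂ) = cp y := rfl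

/-- Holomorphy on the fibres of the pull back. -/
theorem FH_iff (hρ : Continuous ρ) (u : S) {f : PB (fF R) ρ → ℂ} :
    (pbF (fF R) hρ).FH u f ↔ Hol fun z : R.Fib (ρ u) => f ((eF R hρ u).symm z).1 := by
  rw [FH_iff_fib]
  exact hol_homeo (eF R hρ u) (cp_eF R hρ u)

/-- A holomorphic function on the fibre, as a function on the pull back. -/
theorem FH_of_hol (hρ : Continuous ρ) (u : S) {f : R.MK.Pts → ℂ}
    (hf : Hol fun z : R.Fib (ρ u) => f (RMdl.Fib.val R z)) :
    (pbF (fF R) hρ).FH u fun y => f y.1.2 :=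
  (FH_iff R hρ u).2 hf

/-- Fibre integrals of the pull back as integrals over `R.Fib (ρ u)`. -/
theorem fint_nu (hρ : Continuous ρ) (u : S) {μ : Measure (R.Fib (ρ u))} (hμ : IsLeb μ)
    {g : PB (fF R) ρ → ℝ≥0∞} (hg : Measurable fun z : R.Fib (ρ u) => g ((eF R hρ u).symm z).1) :
    (pbF (fF R) hρ).fint u g = ∫⁻ z, g ((eF R hρ u).symm z).1 ∂μ := by
  rw [lintegral_eq_fibre hμ hg]
  unfold FSp.fint
  refine lintegral_congr fun τ => ?_
  let e : {p : PB (fF R) ρ // (pbF (fF R) hρ).q p = u ∧ (pbF (fF R) hρ).t p = τ} ≃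
      {z : R.Fib (ρ u) // (cp z : Fin r → ℂ) = τ} :=
    { toFun := fun p => ⟨eF R hρ u ⟨p.1, p.2.1⟩, p.2.2⟩
      invFun := fun z => ⟨((eF R hρ u).symm z.1).1, ((eF R hρ u).symm z.1).2, z.2⟩
      left_inv := by
        intro p
        apply Subtype.ext
        have h1 := (eF R hρ u).symm_apply_apply ⟨p.1, p.2.1⟩
        exact congrArg (fun y : Fib (pbF (fF R) hρ) u => y.1) h1
      right_inv := fun z => rfl }
  rw [← e.symm.tsum_eq]
  rfl

/-- the norm of a function holomorphic on the fibre -/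
theorem fnorm_nu (hρ : Continuous ρ) (u : S) {μ : Measure (R.Fib (ρ u))} (hμ : IsLeb μ)
    {f : PB (fF R) ρ → ℂ} (hf : (pbF (fF R) hρ).FH u f) :
    (pbF (fF R) hρ).fnorm u f = ∫⁻ z, ‖f ((eF R hρ u).symm z).1‖ₑ ^ 2 ∂μ := by
  refine fint_nu R hρ u hμ ?_
  have h1 : Continuous fun z : R.Fib (ρ u) => f ((eF R hρ u).symm z).1 := by
    rw [continuous_iff_continuousAt]
    intro x
    obtain ⟨g, hg, hfg⟩ := hol_iff_loc.1 ((FH_iff R hρ u).1 hf) x
    have h2 : ContinuousAt (fun y : R.Fib (ρ u) => g (cp y)) x :=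
      ContinuousAt.comp (f := fun y : R.Fib (ρ u) => (cp y : Fin r → ℂ)) (g := g)
        hg.continuousAt cp_cont.continuousAt
    exact h2.congr (hfg.mono fun y hy => hy.symm)
  exact h1.measurable.enorm.pow_const _

/-- the determinant on the fibre power: `N`-th root norm = `DN` -/
theorem fint_dt (hρ : Continuous ρ) (N : ℕ) (u : S) :
    (pow (pbF (fF R) hρ) s).fint u (fun p => ‖dt R σ p‖ₑ ^ (2 / (N : ℝ))) =
      FlatFam_793.De R N σ (ρ u) := by
  exact (GeoN3_348.fint_pow (fF R) hρ s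
    (fun y => ‖FlatFam_793.dl σ y‖ₑ ^ (2 / (N : ℝ))) u).trans (GeoN2_348.fintS_793 R s (ρ u) _)

theorem fint_dt' (hρ : Continuous ρ) (N : ℕ) (u : S) :
    (pow (pbF (fF R) hρ) s).fint u (fun p => ‖dt R σ p‖ₑ ^ (2 / (N : ℝ))) =
      FlatDefs_236.DN N σ (ρ u) := by
  rw [fint_dt, GeoN2_348.De_eq_DN]

/-! ### elements of `R.MK.B` are holomorphic on the pull back -/

lemma analyticAt_append {a b : ℕ} (p : (Fin a → ℂ) × (Fin b → ℂ)) :
    AnalyticAt ℂ (fun q : (Fin a → ℂ) × (Fin b → ℂ) => Fin.append q.1 q.2) p := by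
  rw [analyticAt_pi_iff]
  intro i
  refine Fin.addCases (fun i => ?_) (fun i => ?_) i
  · simp only [Fin.append_left]
    exact ((ContinuousLinearMap.proj (R := ℂ) (φ := fun _ : Fin a => ℂ) i).comp
        (ContinuousLinearMap.fst ℂ (Fin a → ℂ) (Fin b → ℂ))).analyticAt _
  · simp only [Fin.append_right]
    exact ((ContinuousLinearMap.proj (R := ℂ) (φ := fun _ : Fin b => ℂ) i).comp
        (ContinuousLinearMap.snd ℂ (Fin a → ℂ) (Fin b → ℂ))).analyticAt _

/-- elements of `R.MK.B` on the pull back -/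
theorem pb_ev (hρ : Continuous ρ) (hcp : ∀ u, R.ML.pz (ρ u) = cp u) (b : R.MK.B)
    (y : PB (fF R) ρ) :
    Top8_815.PB (pbF (fF R) hρ).pc (fun y => y.1.2 b) y := by
  obtain ⟨g, hg, hfg⟩ := hol_iff_loc.1 (R.MK.hol51_ev b) y.1.2
  have hpc : ∀ y : PB (fF R) ρ, (cp y.1.2 : Fin (m + r) → ℂ) =
      Fin.append ((pbF (fF R) hρ).pc y).1 ((pbF (fF R) hρ).pc y).2 := by
    intro y
    have h1 := R.append_eq y.1.2
    have h2 : R.q y.1.2 = ρ y.1.1 := y.2
    rw [h2, hcp] at h1
    exact h1.symm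
  rw [hpc] at hg
  refine ⟨fun q => g (Fin.append q.1 q.2),
    AnalyticAt.comp (g := g) (f := fun q : (Fin m → ℂ) × (Fin r → ℂ) => Fin.append q.1 q.2) hg
      (analyticAt_append _), ?_⟩
  have h3 : Continuous fun y : PB (fF R) ρ => y.1.2 := continuous_snd.comp continuous_subtype_val
  filter_upwards [h3.continuousAt.eventually hfg] with y' hy'
  rw [hy', hpc]

theorem pb_sg (hρ : Continuous ρ) (hcp : ∀ u, R.ML.pz (ρ u) = cp u) (i : Fin s)
    (y : PB (fF R) ρ) : Top8_815.PB (pbF (fF R) hρ).pc (sg R σ i) y :=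
  pb_ev R hρ hcp (σ i) y

/-- elements of `R.MK.B` are holomorphic on the fibres of the pull back -/
theorem FH_ev (hρ : Continuous ρ) (b : R.MK.B) (u : S) :
    (pbF (fF R) hρ).FH u fun y => y.1.2 b := by
  refine FH_of_hol R hρ u (f := fun y => y b) ?_
  rw [hol_iff_loc]
  intro z
  obtain ⟨g, hg, hfg⟩ := hol_iff_loc.1 (R.MK.hol51_ev b) (RMdl.Fib.val R z)
  have hpc : ∀ z : R.Fib (ρ u), (cp (RMdl.Fib.val R z) : Fin (m + r) → ℂ) =
      Fin.append (R.ML.pz (ρ u)) (cp z) := by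
    intro z
    have h1 := R.append_eq (RMdl.Fib.val R z)
    rw [z.q_eq] at h1
    exact h1.symm
  rw [hpc] at hg
  refine ⟨fun q => g (Fin.append (R.ML.pz (ρ u)) q), ?_, ?_⟩
  · refine AnalyticAt.comp (g := g) (f := fun q : Fin r → ℂ => Fin.append (R.ML.pz (ρ u)) q) hg ?_
    exact AnalyticAt.comp (g := fun q : (Fin m → ℂ) × (Fin r → ℂ) => Fin.append q.1 q.2)
      (f := fun q : Fin r → ℂ => (R.ML.pz (ρ u), q)) (analyticAt_append _)
      (analyticAt_const.prod analyticAt_id)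
  · filter_upwards [(RMdl.Fib.continuous_val (ρ u)).continuousAt.eventually hfg] with z' hz'
    rw [hz', hpc]

end rel

end Crest.Agent.R276.GeoN4_348
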