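import Crest.Agent.R276.RestrB_236
import Crest.Agent.R276.CmpR3_652
import Crest.Agent.R276.FibP_793

/-!
# Row 276 (S0419), leaf RESTR (helper236), part C: instances of the transport theorem

* `SatFam.cmp` : shrinking and change of the base coordinates (652's `Cmp R₀ R`);
* `SatFam.up` : restriction to a connected Zariski closed open part of a slice of the base
  (793's `S.rmdl`), in particular to the fibres `G_{y₀}` of `M_L → M_T`.
-/

set_option autoImplicit false
set_option linter.unusedSectionVars false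

open Set Filter Topology MeasureTheory
open scoped ENNReal

noncomputable section

namespace Crest.Agent.R276.Restr_236

open Crest.Agent.R271 Crest.Agent.R271.Ho51 Crest.Agent.R276.AB2_590 Crest.Agent.R271.Defs710
open Crest.Agent.R276.Mod1_987 Crest.Agent.R276.FlatM_464 Crest.Agent.R276.FlatDefs_236
open Crest.Agent.R276.CmpR_652 Crest.Agent.R276.FibN_793

variable {L K : Type} [Field L] [Field K] [Algebra ℂ L] [Algebra ℂ K] [Algebra L K]
  [IsScalarTower ℂ L K] {m r : ℕ}

/-! ### comparison of relative models -/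

section cmp

variable {R₀ R : RMdl L K m r} (h : Cmp R₀ R) (hs : ∀ w, Nonempty (R.Fib w))

/-- the comparison map as a map of families -/
def cmpMap : FMap R R₀ where
  ι := h.rL
  cont := h.continuous_rL
  j := h.fK
  emb w := by
    obtain ⟨g, hg, hg1, hg2, hg3⟩ := h.exists_g (hs w)
    exact ⟨h.continuous_fK w, h.fK_injective w, h.cp_fK w, g, hol51_iff.1 hg,
      fun x => mem_closure_iff_frequently.1 (hg2 x), fun x hx => by rw [hg3]; exact hx⟩

/-- sections of `R₀` as sections of `R` -/
def resU {s : ℕ} (h : Cmp R₀ R) (u : Fin s → R₀.MK.B) : Fin s → R.MK.B :=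
  fun i => ⟨u i, h.leK (u i).2⟩

lemma cp_cmp {s : ℕ} (u : Fin s → R₀.MK.B) : (cmpMap h hs).Cp (resU h u) u := fun _ _ _ => rfl

/-- a connected fibre minus the zero set of a polynomial in the fibre coordinates is connected -/
theorem conn_ne (R₀ : RMdl L K m r) (w : R₀.ML.Pts) [ConnectedSpace (R₀.Fib w)]
    (P : MvPolynomial (Fin r) ℂ) :
    IsPreconnected {y : R₀.Fib w | MvPolynomial.eval (cp y) P ≠ 0} := by
  have hc : IsConnected (R₀.q ⁻¹' {w}) := isConnected_fib R₀
  have h1 := (fibSG R₀ w hc).mdl.isPreconnected_ne P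
  have h2 := h1.image (fibHomeo R₀ w hc) (fibHomeo R₀ w hc).continuous.continuousOn
  convert h2 using 1
  ext y
  constructor
  · intro hy
    refine ⟨(fibHomeo R₀ w hc).symm y, ?_, (fibHomeo R₀ w hc).apply_symm_apply y⟩
    have h3 := fibHomeo_cp R₀ w hc ((fibHomeo R₀ w hc).symm y)
    rw [(fibHomeo R₀ w hc).apply_symm_apply] at h3
    show MvPolynomial.eval (cp ((fibHomeo R₀ w hc).symm y)) P ≠ 0
    rw [← h3]
    exact hy
  · rintro ⟨y', hy', rfl⟩
    show MvPolynomial.eval (cp (fibHomeo R₀ w hc y')) P ≠ 0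
    rw [fibHomeo_cp]
    exact hy'

include h hs in
/-- the fibres of `R` are connected -/
theorem conn_cmp (hc : ∀ w, ConnectedSpace (R₀.Fib w)) (w : R.ML.Pts) :
    ConnectedSpace (R.Fib w) := by
  have := hc (h.rL w)
  have h1 := conn_ne R₀ (h.rL w) (hP R w)
  rw [← h.range_fK w] at h1
  have h2 : IsPreconnected (univ : Set (R.Fib w)) := by
    rw [← (h.isOpenEmbedding_fK w).isInducing.isPreconnected_image, image_univ]
    exact h1
  have := hs w
  exact { isPreconnected_univ := h2, toNonempty := hs w }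

/-- **saturated families under shrinking and change of the base coordinates** -/
theorem _root_.Crest.Agent.R276.FlatDefs_236.SatFam.cmp {N s : ℕ} {u : Fin s → R₀.MK.B}
    (H : SatFam R₀ N u) (h : Cmp R₀ R) (hs : ∀ w, Nonempty (R.Fib w)) : SatFam R N (resU h u) :=
  SatFam.transport H (cp_cmp h hs u) (conn_cmp h hs H.conn)

end cmp

/-! ### restriction to slices of the base -/

section up

variable (R : RMdl L K m r) {ρ a : ℕ} {e : Fin ρ ⊕ Fin a ≃ Fin m} {c : Cn ρ} (S : SG R.ML e c)
  (hs : Function.Surjective R.q) (hc : ∀ w, IsPreconnected (R.q ⁻¹' {w}))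

/-- the inclusion of the restricted family -/
def upMap : FMap (S.rmdl R hs hc) R where
  ι := S.ι
  cont := S.continuous_ι
  j w := S.fibH R hs hc w
  emb w := REmb.of_homeo _ (S.fibH_cp R hs hc w)

/-- restriction of the sections -/
def upU {s : ℕ} (u : Fin s → R.MK.B) : Fin s → (S.rmdl R hs hc).MK.B :=
  fun i => (S.up R hs hc).res (u i)

lemma cp_up {s : ℕ} (u : Fin s → R.MK.B) : (upMap R S hs hc).Cp (upU R S hs hc u) u :=
  fun w y i => S.fibH_ev R hs hc w y (u i)

/-- **restriction of saturated families to slices of the base** -/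
theorem _root_.Crest.Agent.R276.FlatDefs_236.SatFam.up {N s : ℕ} {u : Fin s → R.MK.B}
    (H : SatFam R N u) (S : SG R.ML e c) (hs : Function.Surjective R.q)
    (hc : ∀ w, IsPreconnected (R.q ⁻¹' {w})) : SatFam (S.rmdl R hs hc) N (upU R S hs hc u) := by
  refine SatFam.transport H (cp_up R S hs hc u) fun w => ?_
  have := H.conn (S.ι w)
  exact (S.fibH R hs hc w).symm.surjective.connectedSpace (S.fibH R hs hc w).symm.continuous

end up

/-- `SatFam` gives the hypotheses of `SG.rmdl` -/
lemma _root_.Crest.Agent.R276.FlatDefs_236.SatFam.surj {R : RMdl L K m r} {N s : ℕ} {u : Fin s → R.MK.B} (H : SatFam R N u) :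
    Function.Surjective R.q := fun w => by
  have := H.conn w
  obtain ⟨y⟩ : Nonempty (R.Fib w) := inferInstance
  exact ⟨y.val, y.q_eq⟩

lemma _root_.Crest.Agent.R276.FlatDefs_236.SatFam.prec {R : RMdl L K m r} {N s : ℕ} {u : Fin s → R.MK.B} (H : SatFam R N u)
    (w : R.ML.Pts) : IsPreconnected (R.q ⁻¹' {w}) := by
  have := H.conn w
  exact (isConnected_fib R).isPreconnected

end Crest.Agent.R276.Restr_236
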