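import Crest.Agent.R276.Geo5_519
import Crest.Agent.R276.GeoN3_348
import Crest.Agent.R276.GeoN4_348
import Crest.Agent.R276.Cy_425
import Crest.Agent.R276.RestrC_236
import Crest.Agent.R276.RestrE_236
import Crest.Agent.R276.TowA_849

/-!
# Row 276 (S0419), GEO (helper519), part 6: THE CALABI-YAU LINE

`geo_S`, `geo` : from `SatFam R N u` (236): after shrinking the base there is an integral polarised variation of
Hodge structures with a holomorphic section `ω` of the top piece with `‖ω‖² = N D` and `D_j ω ∈ θ_j ω + ℂ ω`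
(236's structure `CYL`).
-/

set_option autoImplicit false
set_option linter.unusedSectionVars false

noncomputable section

open Set Filter Topology MeasureTheory Matrix
open Crest.Agent.R271.Ho51 Crest.Agent.R276.Ipc735 Crest.Agent.R276.Top8_815
open Crest.Agent.R276.Iter_840 Crest.Agent.R276.Mod1_987
open Crest.Agent.R271.Rd692 Crest.Agent.R276.IpcRMdl_244 Crest.Agent.R276.Par_425
open Crest.Agent.R276.Geo2_519 Crest.Agent.R276.Cov_425 Crest.Agent.R276.Geo4_519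
open Crest.Agent.R276.Geo5_519 Crest.Agent.R276.FlatDefs_236 Crest.Agent.R276.Restr_236
open Crest.Agent.R276.CmpR_652
open scoped ENNReal

namespace Crest.Agent.R276.Geo6_519

variable {L K : Type} [Field L] [Field K] [Algebra ℂ L] [Algebra ℂ K] [Algebra L K]
  [IsScalarTower ℂ L K] {m r : ℕ}

section transport

variable {R : RMdl L K m r} {N s : ℕ} {u : Fin s → R.MK.B} {S : Type} [TopologicalSpace S]
  [T2Space S] [SecondCountableTopology S] [RDom m S] {ρ : S → R.ML.Pts}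

theorem conn_fib (H : SatFam R N u) (hρ : Continuous ρ) (x : S) :
    PreconnectedSpace (Cov_425.Fib (pbF (fF R) hρ) x) := by
  have := H.conn (ρ x)
  have h1 := (GeoN4_348.eF R hρ x).symm.surjective.connectedSpace
    (GeoN4_348.eF R hρ x).symm.continuous
  infer_instance

theorem li_fib (H : SatFam R N u) (hρ : Continuous ρ) (x : S) (a : Fin s → ℂ)
    (ha : ∀ y : Cov_425.Fib (pbF (fF R) hρ) x, ∑ i, a i * Geo4_519.sg R u i y.1 = 0) : a = 0 :=
  H.indep (ρ x) a fun y => ha ((GeoN4_348.eF R hρ x).symm y)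

theorem cl_fib (H : SatFam R N u) (hρ : Continuous ρ) (x : S)
    (_ : MeasurableSpace (Cov_425.Fib (pbF (fF R) hρ) x))
    (_ : BorelSpace (Cov_425.Fib (pbF (fF R) hρ) x))
    (μ : Measure (Cov_425.Fib (pbF (fF R) hρ) x)) (hμ : IsLeb μ)
    (g : Cov_425.Fib (pbF (fF R) hρ) x → ℂ) (hg : AB2_590.HolA g)
    (hfin : ∫⁻ y, ‖g y‖ₑ ^ 2 * (∑ i, ‖Geo4_519.sg R u i y.1‖ₑ ^ 2) ^ (-((N - 1 : ℝ) / N)) ∂μ ≠ ∞) :
    ∃ a : Fin s → ℂ, ∀ y, g y = ∑ i, a i * Geo4_519.sg R u i y.1 := by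
  have : SecondCountableTopology (PB (fF R) ρ) := sc_subtype _
  have : SecondCountableTopology (Cov_425.Fib (pbF (fF R) hρ) x) := sc_subtype _
  have he : REmb ((GeoN4_348.eF R hρ x).symm : R.Fib (ρ x) → _) :=
    REmb.of_homeo _ fun y => rfl
  have h1 := he.lint hμ (nu_leb R (ρ x))
    (fun y => ‖g y‖ₑ ^ 2 * (∑ i, ‖Geo4_519.sg R u i y.1‖ₑ ^ 2) ^ (-((N - 1 : ℝ) / N)))
  have h2 : Sat_210.IK (nu R (ρ x)) (((N : ℝ) - 1) / N)
      (fun y => g ((GeoN4_348.eF R hρ x).symm y))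
      (fun i y => FlatDefs_236.sg u (ρ x) y i) ≠ ∞ := by
    have h3 : Sat_210.IK (nu R (ρ x)) (((N : ℝ) - 1) / N)
        (fun y => g ((GeoN4_348.eF R hρ x).symm y))
        (fun i y => FlatDefs_236.sg u (ρ x) y i) = ∫⁻ y, ‖g ((GeoN4_348.eF R hρ x).symm y)‖ₑ ^ 2 *
          (∑ i, ‖Geo4_519.sg R u i ((GeoN4_348.eF R hρ x).symm y).1‖ₑ ^ 2) ^
            (-((N - 1 : ℝ) / N)) ∂(nu R (ρ x)) := by
      unfold Sat_210.IK Sat_210.KK
      refine lintegral_congr fun y => ?_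
      simp only [ENNReal.rpow_two]
      rfl
    rw [h3, h1]
    exact hfin
  obtain ⟨b, hb⟩ := H.clos (ρ x) _ (AB2_590.hol51_iff.mpr (he.holA hg)) h2
  refine ⟨b, fun y => ?_⟩
  have h4 := hb (GeoN4_348.eF R hρ x y)
  rw [Homeomorph.symm_apply_apply] at h4
  exact h4

end transport

/-- **GEO over an arbitrary base `S → ML`** -/
theorem geo_S (hO : OneStep) (R : RMdl L K m r) {N s : ℕ} {u : Fin s → R.MK.B}
    (H : SatFam R N u) :
    ∃ p : MvPolynomial (Fin m) ℂ, p ≠ 0 ∧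
      ∀ (S : Type) [TopologicalSpace S] [T2Space S] [SecondCountableTopology S]
        [PreconnectedSpace S] [RDom m S] (ρ : S → R.ML.Pts) (_ : Continuous ρ)
        (_ : ∀ x, R.ML.pz (ρ x) = cp x) (_ : ∀ x : S, MvPolynomial.eval (cp x) p ≠ 0),
        ∃ (N₀ : ℕ) (V : VHS m S N₀ (s * r)) (om : S → Fin N₀ → ℂ),
          (∀ z, Top8_815.IsTop (s * r) (V.E z) (om z)) ∧
          (∀ z, HolAt (lV V.P om z) z) ∧
          (∀ z, ENNReal.ofReal (hnsq V z (om z)) = N * DN N u (ρ z)) ∧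
          ∀ z j, ∃ c : ℂ, Dv V.P om j z = dM V.P V.E j z *ᵥ om z + c • om z := by
  obtain ⟨w₀⟩ : Nonempty R.ML.Pts := inferInstance
  have hN : N ≠ 0 := by have := H.N_ge; omega
  obtain ⟨p, hp, h⟩ := exists_rz_full hO R u hN w₀ (fun w _ => H.conn w) (fun w _ v hv => by
    by_contra hcon
    push Not at hcon
    exact hv (H.indep w v fun y => hcon y))
  refine ⟨p, hp, ?_⟩
  intro S _ _ _ _ _ ρ hρ hcp hpS
  obtain ⟨N', V, ι, hι⟩ := h S ρ hρ hcp hpS
  have : SecondCountableTopology (PB (fF R) ρ) := sc_subtype _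
  have hfn : ∀ x, (FR R u hρ hN).fnorm x (fun y => y.1.2) = N * DN N u (ρ x) :=
    GeoN3_348.fnorm_FR' R u hρ hN
  have hlt : ∀ x, (FR R u hρ hN).fnorm x (fun y => y.1.2) < ∞ := by
    intro x
    rw [hfn]
    exact ENNReal.mul_lt_top (ENNReal.natCast_lt_top N) (lt_top_iff_ne_top.mpr (H.D_fin _))
  obtain ⟨v, h1, -, h3, h4, -, h6⟩ := Cy_425.cy_line (F := pbF (fF R) hρ)
    (σ := Geo4_519.sg R u) (δ := dt R u) (fun _ => rfl) (continuous_dt R u) hN
    (by have := H.N_ge; omega) H.s_pos.ne' (GeoN4_348.pb_sg R u hρ hcp) (conn_fib H hρ)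
    (li_fib H hρ) (cl_fib H hρ) hι hlt
  exact ⟨N', V, v, h1, h4, fun z => (h3 z).symm.trans (hfn z), h6⟩

/-- **GEO**: the CY line on every relative model obtained by a sufficient shrinking -/
theorem geo (hO : OneStep) (R₀ : RMdl L K m r) {N s : ℕ} {u : Fin s → R₀.MK.B}
    (H : SatFam R₀ N u) :
    ∃ p : MvPolynomial (Fin m) ℂ, p ≠ 0 ∧
      ∀ (R : RMdl L K m r) (h : Cmp R₀ R) (_ : ∀ w, R₀.ML.pz (h.rL w) = R.ML.pz w)
        (_ : ∀ w : R.ML.Pts, MvPolynomial.eval (R.ML.pz w) p ≠ 0)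
        (_ : ∀ w, Nonempty (R.Fib w)),
        ∃ (N₀ : ℕ) (V : VHS m R.ML.Pts N₀ (s * r)) (om : R.ML.Pts → Fin N₀ → ℂ),
          CYL R N (resU h u) V om := by
  obtain ⟨p, hp, h1⟩ := geo_S hO R₀ H
  refine ⟨p, hp, ?_⟩
  intro R h hz hpR hs
  obtain ⟨N₀, V, om, a1, a2, a3, a4⟩ := h1 R.ML.Pts h.rL h.continuous_rL hz hpR
  refine ⟨N₀, V, om, a1, a2, fun z => ?_, a4⟩
  rw [a3, (cp_cmp h hs u).dn]
  rfl

section ev

variable (R : RMdl L K m r) {p : MvPolynomial (Fin m) ℂ} (hp : p ≠ 0)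
  {q : MvPolynomial (Fin (m + r)) ℂ} (hq : q ≠ 0)

/-- shrinking is a comparison in the sense of 652 -/
theorem cmp_shrink : Cmp R (R.shrink p hp q hq) where
  x_eq _ := rfl
  leL := R.ML.le_loc p hp
  leK := R.MK.le_loc (MvPolynomial.rename (Fin.castAdd r) p * q) (mul_ne_zero (by
      rw [Ne, map_eq_zero_iff _ (MvPolynomial.rename_injective _ (Fin.castAdd_injective m r))]
      exact hp) hq)
  loc := ⟨R.ML.aK p, by rw [R.ML.aK_eq]; exact Subtype.property _, by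
    rw [Ne, map_eq_zero_iff _ R.ML.aK_injective]; exact hp, rfl⟩

theorem pz_cmp_shrink (w : (R.shrink p hp q hq).ML.Pts) :
    R.ML.pz ((cmp_shrink R hp hq).rL w) = (R.shrink p hp q hq).ML.pz w := rfl

theorem eval_shrink_ne {p₀ : MvPolynomial (Fin m) ℂ} (hd : p₀ ∣ p)
    (w : (R.shrink p hp q hq).ML.Pts) :
    MvPolynomial.eval ((R.shrink p hp q hq).ML.pz w) p₀ ≠ 0 := by
  have h1 := (R.shrink p hp q hq).ML.eval_h_ne w
  have h2 : (R.shrink p hp q hq).ML.h = R.ML.h * p := rfl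
  rw [h2, map_mul] at h1
  obtain ⟨b, rfl⟩ := hd
  rw [map_mul] at h1
  exact left_ne_zero_of_mul (right_ne_zero_of_mul h1)

end ev

/-- **GEO**, for all sufficient shrinkings in the sense of 849 -/
theorem geo_ev2 (hO : OneStep) (R : RMdl L K m r) {N s : ℕ} {u : Fin s → R.MK.B}
    (H : SatFam R N u) :
    TowA_849.Ev2 R fun R' => ∃ (hu : ∀ i, (u i : K) ∈ R'.MK.B), 
      SatFam R' N (fun i => (⟨u i, hu i⟩ : R'.MK.B)) ∧
      ∃ (N₀ : ℕ) (V : VHS m R'.ML.Pts N₀ (s * r)) (om : R'.ML.Pts → Fin N₀ → ℂ),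
        CYL R' N (fun i => (⟨u i, hu i⟩ : R'.MK.B)) V om := by
  obtain ⟨p₀, hp₀, h⟩ := geo hO R H
  refine ⟨1, one_ne_zero, fun q hq _ => ?_⟩
  obtain ⟨p₁, hp₁, h1⟩ := R.exists_surj q hq
  refine ⟨p₀ * p₁, mul_ne_zero hp₀ hp₁, fun p hp hd => ?_⟩
  have hs : ∀ w, Nonempty ((R.shrink p hp q hq).Fib w) := by
    intro w
    obtain ⟨y, hy⟩ := h1 p hp (dvd_of_mul_left_dvd hd) w
    exact ⟨⟨y, hy⟩⟩
  refine ⟨fun i => (cmp_shrink R hp hq).leK (u i).2, H.cmp (cmp_shrink R hp hq) hs, ?_⟩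
  exact h _ (cmp_shrink R hp hq) (pz_cmp_shrink R hp hq)
    (eval_shrink_ne R hp hq (dvd_of_mul_right_dvd hd)) hs

end Crest.Agent.R276.Geo6_519
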