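import Crest.Agent.R276.Cy_425
import Crest.Agent.R276.Geo5_519
import Crest.Agent.R276.GeoN4_348
import Crest.Agent.R276.FlatFam_793

/-!
# Row 276 (S0419), GEO (helper425): the Calabi–Yau line of a saturated family

`geo` : for a saturated family (793's `SatFam R N σ`) and after shrinking the base: a variation of Hodge
structures of weight `s r` on the base with a holomorphic, nowhere zero section `ω` of the top piece,
`|ω|² = N D`, `D_j ω ∈ (dE/dz_j) ω + ℂ ω`.
-/

set_option autoImplicit false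
set_option linter.unusedSectionVars false

noncomputable section

open Set Filter Topology MeasureTheory Matrix
open Crest.Agent.R271 Crest.Agent.R271.Ho51 Crest.Agent.R276.AB2_590 Crest.Agent.R276.Ipc735
open Crest.Agent.R276.Top8_815 Crest.Agent.R276.Hone_425 Crest.Agent.R276.Iter_840
open Crest.Agent.R276.Cov_425 Crest.Agent.R276.Par_425 Crest.Agent.R276.Cy_425
open Crest.Agent.R276.IpcRMdl_244 Crest.Agent.R276.Geo4_519 Crest.Agent.R276.Geo5_519
open Crest.Agent.R276.Mod1_987 Crest.Agent.R276.FlatFam_793 Crest.Agent.R276.GeoN4_348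
open scoped ENNReal

namespace Crest.Agent.R276.GeoA_425

variable {L K : Type} [Field L] [Field K] [Algebra ℂ L] [Algebra ℂ K] [Algebra L K]
  [IsScalarTower ℂ L K] {m r : ℕ} (R : RMdl L K m r) {s : ℕ} (σ : Fin s → R.MK.B)
  {S : Type} [TopologicalSpace S] [RDom m S] {ρ : S → R.ML.Pts}

lemma conn_pb {N : ℕ} (H : SatFam R N σ) (hρ : Continuous ρ) (u : S) :
    PreconnectedSpace (Fib (pbF (fF R) hρ) u) := by
  have h := H.conn (ρ u)
  have h1 := h.isPreconnected_univ.image (eF R hρ u).symm (eF R hρ u).symm.continuous.continuousOn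
  rw [image_univ, (eF R hρ u).symm.surjective.range_eq] at h1
  exact ⟨h1⟩

lemma li_pb {N : ℕ} (H : SatFam R N σ) (hρ : Continuous ρ) (u : S) (a : Fin s → ℂ)
    (ha : ∀ y : Fib (pbF (fF R) hρ) u, ∑ i, a i * sg R σ i y.1 = 0) : a = 0 := by
  refine H.li (ρ u) a fun y => ?_
  have h1 := ha ((eF R hρ u).symm y)
  exact h1

/-- transport of measures -/
lemma leb_homeo {n : ℕ} {M M' : Type*} [TopologicalSpace M] [RDom n M] [TopologicalSpace M']
    [RDom n M'] [MeasurableSpace M] [BorelSpace M] [MeasurableSpace M'] [BorelSpace M']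
    (e : M ≃ₜ M') (he : ∀ x, (cp (e x) : Fin n → ℂ) = cp x) {μ : Measure M} (hμ : IsLeb μ) :
    IsLeb (μ.map e) := by
  intro c hc
  set c' : OpenPartialHomeomorph M (Fin n → ℂ) := e.toOpenPartialHomeomorph.trans c with hc'
  have hc'1 : IsCh c' := by
    funext x
    show c (e x) = cp x
    rw [hc.apply, he]
  have h1 := hμ c' hc'1
  have hsrc : c'.source = e ⁻¹' c.source := by
    rw [hc']; simp
  have htgt : c'.target = c.target := by
    rw [hc']; simp
  rw [hsrc, htgt] at h1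
  have hem : Measurable e := e.continuous.measurable
  rw [Measure.restrict_map hem c.open_source.measurableSet, h1]
  rw [AEMeasurable.map_map_of_aemeasurable hem.aemeasurable]
  · refine Measure.map_congr ?_
    filter_upwards [ae_restrict_mem c.open_target.measurableSet] with z hz
    show e (c'.symm z) = c.symm z
    rw [hc']
    simp
  · have := aem_symm (M := M) c'
    rw [htgt] at this
    exact this

lemma cl_pb {N : ℕ} (H : SatFam R N σ) (hρ : Continuous ρ) (u : S)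
    (i1 : MeasurableSpace (Fib (pbF (fF R) hρ) u)) (i2 : BorelSpace (Fib (pbF (fF R) hρ) u))
    (μ : Measure (Fib (pbF (fF R) hρ) u)) (hμ : IsLeb μ) (g : Fib (pbF (fF R) hρ) u → ℂ)
    (hg : HolA g) (hint : ∫⁻ y, ‖g y‖ₑ ^ 2 * (∑ i, ‖sg R σ i y.1‖ₑ ^ 2) ^ (-((N - 1 : ℝ) / N)) ∂μ
      ≠ ∞) : ∃ a : Fin s → ℂ, ∀ y, g y = ∑ i, a i * sg R σ i y.1 := by
  set e := eF R hρ u with he
  have hLeb : IsLeb (μ.map e) := leb_homeo e (cp_eF R hρ u) hμ
  have hh : Hol fun z => g (e.symm z) := (hol_homeo e (cp_eF R hρ u)).1 (hol51_iff.2 hg)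
  obtain ⟨a, ha⟩ := H.cl (ρ u) (μ.map e) hLeb (fun z => g (e.symm z)) hh (by
    have h1 : ∫⁻ y, ‖g (e.symm y)‖ₑ ^ 2 * wK R N σ y.val ∂(μ.map e)
        = ∫⁻ y, ‖g y‖ₑ ^ 2 * (∑ i, ‖sg R σ i y.1‖ₑ ^ 2) ^ (-((N - 1 : ℝ) / N)) ∂μ := by
      rw [e.measurableEmbedding.lintegral_map]
      refine lintegral_congr fun y => ?_
      show ‖g (e.symm (e y))‖ₑ ^ 2 * wK R N σ (e y).val = _
      rw [e.symm_apply_apply]
      rfl
    rw [h1]
    exact hint)
  refine ⟨a, fun y => ?_⟩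
  have h2 := ha (e y)
  rw [e.symm_apply_apply] at h2
  exact h2

/-- **GEO** -/
theorem geo (hO : OneStep) {N : ℕ} (H : SatFam R N σ) (hne : Nonempty R.ML.Pts) :
    ∃ p : MvPolynomial (Fin m) ℂ, p ≠ 0 ∧
      ∀ (S : Type) [TopologicalSpace S] [T2Space S] [SecondCountableTopology S]
        [PreconnectedSpace S] [RDom m S] (ρ : S → R.ML.Pts) (_ : Continuous ρ)
        (_ : ∀ u, R.ML.pz (ρ u) = cp u) (_ : ∀ u : S, MvPolynomial.eval (cp u) p ≠ 0),
        ∃ (N' : ℕ) (V : VHS m S N' (s * r)) (ω : S → Fin N' → ℂ),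
          (∀ u, Top8_815.IsTop (s * r) (V.E u) (ω u)) ∧ (∀ u, HolAt (lV V.P ω u) u) ∧
          (∀ u, ω u ≠ 0) ∧ (∀ u, hnsq V u (ω u) = N * D R N σ (ρ u)) ∧
          ∀ u j, ∃ c : ℂ, Dv V.P ω j u = dM V.P V.E j u *ᵥ ω u + c • ω u := by
  obtain ⟨w₀⟩ := hne
  have hN : N ≠ 0 := by have := H.N_ge; omega
  have hs : s ≠ 0 := by have := H.s_pos; omega
  obtain ⟨p, hp, hex⟩ := exists_rz_full hO R σ hN w₀ (fun w _ => by
      have h1 := H.conn w
      obtain ⟨y, hy⟩ := H.surj w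
      exact { toNonempty := ⟨⟨y, hy⟩⟩ }) (fun w _ v hv => by
      by_contra hcon
      push Not at hcon
      exact hv (H.li w v hcon))
  refine ⟨p, hp, ?_⟩
  intro S _ _ _ _ _ ρ hρ hcp hpS
  obtain ⟨N', V, ι, hR⟩ := hex S ρ hρ hcp hpS
  have hsc : SecondCountableTopology (PB (fF R) ρ) := sc_subtype _
  have hnorm : ∀ u, (FR R σ hρ hN).fnorm u (fun y => y.1.2) = N * De R N σ (ρ u) := by
    intro u
    exact GeoN3_348.fnorm_FR R σ hρ hN u
  obtain ⟨v, hv1, -, hv3, hv4, hv5, hv6⟩ := cy_line (F := pbF (fF R) hρ) (σ := sg R σ)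
    (δ := dt R σ) (fun _ => rfl) (continuous_dt R σ) hN (by have := H.N_ge; omega) hs
    (pb_sg R σ hρ hcp) (conn_pb R σ H hρ) (li_pb R σ H hρ) (cl_pb R σ H hρ) hR
    (fun u => by
      have h1 := hnorm u
      refine lt_of_eq_of_lt h1 ?_
      exact ENNReal.mul_lt_top (ENNReal.natCast_lt_top N) (lt_top_iff_ne_top.2 (H.dfin _)))
  refine ⟨N', V, v, hv1, hv4, hv5, fun u => ?_, hv6⟩
  have h1 := hv3 u
  rw [show (root (pow (pbF (fF R) hρ) s) (continuous_dt R σ) hN).fnorm u (fun y => y.1.2)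
    = N * De R N σ (ρ u) from hnorm u] at h1
  have h2 := congrArg ENNReal.toReal h1
  rw [ENNReal.toReal_mul, ENNReal.toReal_natCast, ENNReal.toReal_ofReal (hnsq_nonneg (hv1 u))] at h2
  exact h2.symm

end Crest.Agent.R276.GeoA_425
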