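import Crest.Agent.R276.GeoY_519

/-!
# Row 276 (S0419), GEO (helper519): fibre powers and root covers of a fibred space, invariant version

`F : FSp m r X P`, `ρ : S → X` continuous, `δ : (Fin s → P) → ℂ` continuous.

* `ZD F ρ δ` : the space of `(u, y_1, …, y_s)`, `q (y_j) = ρ u`, `δ y ≠ 0`; `ZDF` : the same as `FSp`;
* `zd_compact` : properness over the set where a polynomial `g` with
  `g(z, τ) ≠ 0 ⇒ h(z, τ_j) ≠ 0, δ ≠ 0 on all tuples over (z, τ)` does not vanish;
* `OF F g` : the open part `{g ≠ 0}` of a fibred space.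
-/

set_option autoImplicit false
set_option linter.unusedSectionVars false

noncomputable section

open Set Filter Topology MeasureTheory
open Crest.Agent.R271.Ho51 Crest.Agent.R276.Top8_815 Crest.Agent.R276.Rc_348
open Crest.Agent.R276.GeoY_519
open scoped ENNReal

namespace Crest.Agent.R276.GeoY2_519

section zs

variable {m r : ℕ} {S X P : Type*} [TopologicalSpace S] [RDom m S] [TopologicalSpace X] [RDom m X]
  [TopologicalSpace P] (F : FSp m r X P) (ρ : S → X) {s : ℕ} (δ : (Fin s → P) → ℂ)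

/-- fibre power over `S`, without `{δ = 0}` -/
def ZD : Type _ := {p : S × (Fin s → P) // (∀ j, F.q (p.2 j) = ρ p.1) ∧ δ p.2 ≠ 0}

instance : TopologicalSpace (ZD F ρ δ) :=
  inferInstanceAs (TopologicalSpace {p : S × (Fin s → P) // (∀ j, F.q (p.2 j) = ρ p.1) ∧ δ p.2 ≠ 0})

instance [T2Space S] [T2Space P] : T2Space (ZD F ρ δ) :=
  inferInstanceAs (T2Space {p : S × (Fin s → P) // (∀ j, F.q (p.2 j) = ρ p.1) ∧ δ p.2 ≠ 0})

instance [SecondCountableTopology S] [SecondCountableTopology P] :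
    SecondCountableTopology (ZD F ρ δ) :=
  (Topology.IsInducing.mk rfl : Topology.IsInducing (Subtype.val : {p : S × (Fin s → P) //
    (∀ j, F.q (p.2 j) = ρ p.1) ∧ δ p.2 ≠ 0} → S × (Fin s → P))).secondCountableTopology

variable {F ρ δ}

/-- the point of the base -/
def ZD.bs (p : ZD F ρ δ) : S := p.1.1

/-- the points of the tuple -/
def ZD.y (p : ZD F ρ δ) : Fin s → P := p.1.2

lemma ZD.q_y (p : ZD F ρ δ) (j : Fin s) : F.q (p.y j) = ρ p.bs := p.2.1 j

lemma ZD.d_ne (p : ZD F ρ δ) : δ p.y ≠ 0 := p.2.2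

lemma ZD.ext {p p' : ZD F ρ δ} (h1 : p.bs = p'.bs) (h2 : p.y = p'.y) : p = p' :=
  Subtype.ext (Prod.ext h1 h2)

lemma ZD.isInducing : Topology.IsInducing (fun p : ZD F ρ δ => ((p.bs, p.y) : S × (Fin s → P))) :=
  Topology.IsInducing.subtypeVal

lemma ZD.continuous_bs : Continuous (ZD.bs : ZD F ρ δ → S) :=
  continuous_fst.comp continuous_subtype_val

lemma ZD.continuous_y : Continuous (ZD.y : ZD F ρ δ → Fin s → P) :=
  continuous_snd.comp continuous_subtype_val

/-- constructor -/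
def ZD.mk (u : S) (y : Fin s → P) (h1 : ∀ j, F.q (y j) = ρ u) (h2 : δ y ≠ 0) : ZD F ρ δ :=
  ⟨(u, y), h1, h2⟩

variable (F ρ δ)

/-- `(u, y) ↦ (u, x(y))` is a local homeomorphism -/
theorem lh_zd (hρ : Continuous ρ) (hδ : Continuous δ) :
    IsLocalHomeomorph fun p : ZD F ρ δ => ((p.bs, tt F p.y) : S × (Fin (s * r) → ℂ)) := by
  classical
  apply IsLocalHomeomorph.mk
  intro p₀
  choose e he hfe using fun j => F.lh (p₀.y j)
  have hq : ∀ j y, F.q y = (e j y).1 := fun j y => congrArg (fun f => (f y).1) (hfe j)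
  have ht : ∀ j y, F.t y = (e j y).2 := fun j y => congrArg (fun f => (f y).2) (hfe j)
  set T0 : Set (S × (Fin (s * r) → ℂ)) := {p | ∀ j, (ρ p.1, blk p.2 j) ∈ (e j).target} with hT0
  have hT0o : IsOpen T0 := by
    have h1 : T0 = ⋂ j, (fun p : S × (Fin (s * r) → ℂ) => (ρ p.1, blk p.2 j)) ⁻¹' (e j).target := by
      ext p
      simp [hT0]
    rw [h1]
    refine isOpen_iInter_of_finite fun j => (e j).open_target.preimage ?_
    exact (hρ.comp continuous_fst).prodMk ((continuous_blk j).comp continuous_snd)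
  have hcT0 : ContinuousOn (fun p : S × (Fin (s * r) → ℂ) =>
      (fun j => (e j).symm (ρ p.1, blk p.2 j) : Fin s → P)) T0 := by
    refine continuousOn_pi.mpr fun j => ?_
    refine (e j).continuousOn_symm.comp (Continuous.continuousOn ?_) fun p hp => hp j
    exact (hρ.comp continuous_fst).prodMk ((continuous_blk j).comp continuous_snd)
  set T : Set (S × (Fin (s * r) → ℂ)) := T0 ∩ (fun p : S × (Fin (s * r) → ℂ) =>
      δ (fun j => (e j).symm (ρ p.1, blk p.2 j) : Fin s → P)) ⁻¹' {0}ᶜ with hT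
  have hTo : IsOpen T :=
    (hδ.comp_continuousOn hcT0).isOpen_inter_preimage hT0o isOpen_compl_singleton
  have hs1 : ∀ p ∈ T, ∀ j, F.q ((e j).symm (ρ p.1, blk p.2 j)) = ρ p.1 := by
    intro p hp j
    rw [hq j, (e j).right_inv (hp.1 j)]
  have hs2 : ∀ p ∈ T, tt F (fun j => (e j).symm (ρ p.1, blk p.2 j)) = p.2 := by
    intro p hp
    apply blk_ext
    intro j
    rw [blk_tt, ht j, (e j).right_inv (hp.1 j)]
  let inv : S × (Fin (s * r) → ℂ) → ZD F ρ δ := fun p =>
    if h : p ∈ T then ZD.mk p.1 (fun j => (e j).symm (ρ p.1, blk p.2 j)) (hs1 p h) h.2 else p₀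
  have hinv : ∀ p (h : p ∈ T), inv p = ZD.mk p.1 (fun j => (e j).symm (ρ p.1, blk p.2 j)) (hs1 p h)
      h.2 := fun p h => dif_pos h
  have hpair : ∀ (p : ZD F ρ δ) (j : Fin s), (ρ p.bs, blk (tt F p.y) j) = e j (p.y j) := by
    intro p j
    rw [blk_tt]
    exact Prod.ext ((p.q_y j).symm.trans (hq j _)) (ht j _)
  have hmem : ∀ p : ZD F ρ δ, (∀ j, p.y j ∈ (e j).source) →
      ((p.bs, tt F p.y) : S × (Fin (s * r) → ℂ)) ∈ T := by
    intro p hp
    have h1 : ∀ j, (e j).symm (ρ p.bs, blk (tt F p.y) j) = p.y j := by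
      intro j
      rw [hpair]
      exact (e j).left_inv (hp j)
    refine ⟨fun j => ?_, ?_⟩
    · change (ρ p.bs, blk (tt F p.y) j) ∈ _
      rw [hpair]
      exact (e j).map_source (hp j)
    · change δ (fun j => (e j).symm (ρ p.bs, blk (tt F p.y) j)) ≠ 0
      simp_rw [h1]
      exact p.d_ne
  refine ⟨{
    toFun := fun p => (p.bs, tt F p.y)
    invFun := inv
    source := {p | ∀ j, p.y j ∈ (e j).source}
    target := T
    map_source' := hmem
    map_target' := ?_
    left_inv' := ?_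
    right_inv' := ?_
    open_source := ?_
    open_target := hTo
    continuousOn_toFun := ?_
    continuousOn_invFun := ?_ }, ?_, fun _ _ => rfl⟩
  · intro p hp j
    rw [hinv p hp]
    exact (e j).map_target (hp.1 j)
  · intro p hp
    rw [hinv _ (hmem p hp)]
    refine ZD.ext rfl ?_
    funext j
    change (e j).symm (ρ p.bs, blk (tt F p.y) j) = p.y j
    rw [hpair]
    exact (e j).left_inv (hp j)
  · intro p hp
    rw [hinv p hp]
    exact Prod.ext rfl (hs2 p hp)
  · exact (ZD.continuous_bs.prodMk ((continuous_tt F).comp ZD.continuous_y)).continuousOn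
  · rw [ZD.isInducing.continuousOn_iff]
    have h1 : ContinuousOn (fun p : S × (Fin (s * r) → ℂ) =>
        ((p.1, fun j => (e j).symm (ρ p.1, blk p.2 j)) : S × (Fin s → P))) T :=
      continuousOn_fst.prodMk (hcT0.mono inter_subset_left)
    refine h1.congr fun p hp => ?_
    change ((inv p).bs, (inv p).y) = _
    rw [hinv p hp]
    rfl
  · have h1 : {p : ZD F ρ δ | ∀ j, p.y j ∈ (e j).source} =
        ⋂ j, (fun p : ZD F ρ δ => p.y j) ⁻¹' (e j).source := by
      ext p
      simp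
    rw [h1]
    exact isOpen_iInter_of_finite fun j =>
      (e j).open_source.preimage ((continuous_apply j).comp ZD.continuous_y)
  · exact fun j => he j

/-- the fibre power as a fibred space -/
def ZDF (hρ : Continuous ρ) (hδ : Continuous δ) : FSp m (s * r) S (ZD F ρ δ) where
  q := ZD.bs
  t := fun p => tt F p.y
  lh := lh_zd F ρ δ hρ hδ

/-- properness of the fibre power over `{g ≠ 0}` -/
theorem zd_compact [T2Space S] [T2Space X] [T2Space P] (hρ : Continuous ρ)
    (hcp : ∀ u, cp (ρ u) = cp u) (h : MvPolynomial (Fin (m + r)) ℂ)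
    (g : MvPolynomial (Fin (m + s * r)) ℂ)
    (hF : ∀ K : Set (X × (Fin r → ℂ)), IsCompact K →
      (∀ p ∈ K, MvPolynomial.eval (Fin.append (cp p.1) p.2) h ≠ 0) →
      IsCompact {y | (F.q y, F.t y) ∈ K})
    (hgh : ∀ (z : Fin m → ℂ) (τ : Fin (s * r) → ℂ), MvPolynomial.eval (Fin.append z τ) g ≠ 0 →
      ∀ j, MvPolynomial.eval (Fin.append z (blk τ j)) h ≠ 0)
    (hgd : ∀ (u : S) (y : Fin s → P), (∀ j, F.q (y j) = ρ u) →
      MvPolynomial.eval (Fin.append (cp u) (tt F y)) g ≠ 0 → δ y ≠ 0)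
    {K : Set (S × (Fin (s * r) → ℂ))} (hK : IsCompact K)
    (hKg : ∀ p ∈ K, MvPolynomial.eval (Fin.append (cp p.1) p.2) g ≠ 0) :
    IsCompact {p : ZD F ρ δ | (p.bs, tt F p.y) ∈ K} := by
  rw [ZD.isInducing.isCompact_iff]
  have hcont : ∀ j : Fin s, Continuous fun p : S × (Fin (s * r) → ℂ) => (ρ p.1, blk p.2 j) :=
    fun j => (hρ.comp continuous_fst).prodMk ((continuous_blk j).comp continuous_snd)
  have hKj : ∀ j : Fin s, IsCompact {y : P | (F.q y, F.t y) ∈
      (fun p : S × (Fin (s * r) → ℂ) => (ρ p.1, blk p.2 j)) '' K} := by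
    intro j
    apply hF _ (hK.image (hcont j))
    rintro _ ⟨p, hp, rfl⟩
    change MvPolynomial.eval (Fin.append (cp (ρ p.1)) (blk p.2 j)) h ≠ 0
    rw [hcp]
    exact hgh _ _ (hKg p hp) j
  have hbig : IsCompact ((Prod.fst '' K) ×ˢ (Set.univ.pi fun j : Fin s => {y : P | (F.q y, F.t y) ∈
      (fun p : S × (Fin (s * r) → ℂ) => (ρ p.1, blk p.2 j)) '' K})) :=
    (hK.image continuous_fst).prod (isCompact_univ_pi hKj)
  have hcl : IsClosed {p : S × (Fin s → P) | (∀ j, F.q (p.2 j) = ρ p.1) ∧ (p.1, tt F p.2) ∈ K} := by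
    have h1 : {p : S × (Fin s → P) | (∀ j, F.q (p.2 j) = ρ p.1) ∧ (p.1, tt F p.2) ∈ K} =
        (⋂ j, {p : S × (Fin s → P) | F.q (p.2 j) = ρ p.1}) ∩
          (fun p : S × (Fin s → P) => (p.1, tt F p.2)) ⁻¹' K := by
      ext p
      simp
    rw [h1]
    have h2 : Continuous fun p : S × (Fin s → P) => ((p.1, tt F p.2) : S × (Fin (s * r) → ℂ)) :=
      continuous_fst.prodMk ((continuous_tt F).comp continuous_snd)
    have h3 : ∀ j : Fin s, IsClosed {p : S × (Fin s → P) | F.q (p.2 j) = ρ p.1} := by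
      intro j
      have h4 : Continuous fun p : S × (Fin s → P) => F.q (p.2 j) :=
        (continuous_q F).comp ((continuous_apply j).comp continuous_snd)
      exact isClosed_eq h4 (hρ.comp continuous_fst)
    exact (isClosed_iInter h3).inter (hK.isClosed.preimage h2)
  refine (hbig.inter_right hcl).of_isClosed_subset ?_ ?_
  · have h2 : (fun p : ZD F ρ δ => ((p.bs, p.y) : S × (Fin s → P))) ''
        {p : ZD F ρ δ | (p.bs, tt F p.y) ∈ K} =
        {p : S × (Fin s → P) | (∀ j, F.q (p.2 j) = ρ p.1) ∧ (p.1, tt F p.2) ∈ K} := by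
      ext p
      constructor
      · rintro ⟨a, ha, rfl⟩
        exact ⟨a.q_y, ha⟩
      · rintro ⟨h3, h4⟩
        have h5 : MvPolynomial.eval (Fin.append (cp p.1) (tt F p.2)) g ≠ 0 :=
          hKg (p.1, tt F p.2) h4
        exact ⟨ZD.mk p.1 p.2 h3 (hgd _ _ h3 h5), h4, Prod.ext rfl rfl⟩
    rw [h2]
    exact hcl
  · rintro _ ⟨p, hp, rfl⟩
    have hp' : (p.bs, tt F p.y) ∈ K := hp
    have h6 : ∀ j, (F.q (p.y j), F.t (p.y j)) ∈
        (fun p : S × (Fin (s * r) → ℂ) => (ρ p.1, blk p.2 j)) '' K := by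
      intro j
      refine ⟨(p.bs, tt F p.y), hp', ?_⟩
      change (ρ p.bs, blk (tt F p.y) j) = _
      rw [blk_tt, ← p.q_y j]
    exact ⟨⟨⟨(p.bs, tt F p.y), hp', rfl⟩, fun j _ => h6 j⟩, p.q_y, hp'⟩

end zs

section op

variable {m d : ℕ} {S Y : Type*} [TopologicalSpace S] [RDom m S] [TopologicalSpace Y]
  (F : FSp m d S Y) (g : MvPolynomial (Fin (m + d)) ℂ)

/-- the polynomial `g` on the fibred space -/
def gv (y : Y) : ℂ := MvPolynomial.eval (Fin.append (cp (F.q y)) (F.t y)) g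

lemma continuous_gv : Continuous (gv F g) := by
  refine (MvPolynomial.continuous_eval g).comp ?_
  refine continuous_pi fun i => ?_
  refine Fin.addCases (fun i => ?_) (fun j => ?_) i
  · simp only [Fin.append_left]
    exact (continuous_apply i).comp (cp_cont.comp (continuous_q F))
  · simp only [Fin.append_right]
    exact (continuous_apply j).comp (continuous_t F)

/-- the open part `{g ≠ 0}` -/
abbrev OY : Type _ := {y : Y // gv F g y ≠ 0}

lemma isOpen_gv : IsOpen {y : Y | gv F g y ≠ 0} :=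
  isOpen_ne_fun (continuous_gv F g) continuous_const

/-- the open part `{g ≠ 0}` as a fibred space -/
def OF : FSp m d S (OY F g) where
  q := fun y => F.q y.1
  t := fun y => F.t y.1
  lh := F.lh.comp (isOpen_gv F g).isOpenEmbedding_subtypeVal.isLocalHomeomorph

/-- properness of the open part -/
theorem of_compact {K : Set (S × (Fin d → ℂ))}
    (hK : ∀ p ∈ K, MvPolynomial.eval (Fin.append (cp p.1) p.2) g ≠ 0)
    (hY : IsCompact {y | (F.q y, F.t y) ∈ K}) :
    IsCompact {y : OY F g | ((OF F g).q y, (OF F g).t y) ∈ K} := by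
  have hind : Topology.IsInducing (fun y : OY F g => y.1) := ⟨rfl⟩
  rw [hind.isCompact_iff]
  have h1 : (fun y : OY F g => y.1) '' {y : OY F g | ((OF F g).q y, (OF F g).t y) ∈ K} =
      {y | (F.q y, F.t y) ∈ K} := by
    ext y
    constructor
    · rintro ⟨a, ha, rfl⟩
      exact ha
    · intro hy
      have h2 : gv F g y ≠ 0 := hK (F.q y, F.t y) hy
      exact ⟨⟨y, h2⟩, hy, rfl⟩
  rw [h1]
  exact hY

end op

end Crest.Agent.R276.GeoY2_519
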