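import Crest.Agent.R276.GeoN_348
import Crest.Agent.R276.GeoY2_519
import Crest.Agent.R276.IpcRMdl_244
import Crest.Agent.R276.FlatDefs_236
import Crest.Agent.R276.FlatFam_793

/-!
# R276, leaf GEO-NRM (helper348), part 2: the norm of the root on 519's root cover

* `fnorm_ZD` : `(RF (ZDF F ρ δ₀ …) …).fnorm u rt = N * ∫_{s-fold fibre over ρ u} |δ₀|^(2/N)`;
* `fnorm_RF` : the same for the part `{g ≠ 0}` of the fibre power (`ZF F ρ s g`);
* `fintS_pi`, `fintS_eq` : for a relative model the `s`-fold fibre integral is the integral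
  against `Measure.pi (nu R w)` and is 793's `fintS`;
* `fnorm_De`, `De_eq_DN` : the norm of the root of `dl σ` is `N * De R N σ (ρ u) = N * DN N σ (ρ u)`.
-/

set_option autoImplicit false

noncomputable section

open Set Filter Topology MeasureTheory
open Crest.Agent.R271.Ho51 Crest.Agent.R271.Rd692
open Crest.Agent.R276.Top8_815 Crest.Agent.R276.Rc_348 Crest.Agent.R276.Mod1_987
open Crest.Agent.R276.GeoY_519 Crest.Agent.R276.GeoY2_519 Crest.Agent.R276.GeoN_348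
open Crest.Agent.R276.IpcRMdl_244 (fF)
open scoped ENNReal

namespace Crest.Agent.R276.GeoN2_348

section gen

variable {m r : ℕ} {S X P : Type*} [TopologicalSpace S] [RDom m S] [TopologicalSpace X] [RDom m X]
  [TopologicalSpace P] (F : FSp m r X P)

/-- integral over the `s`-fold fibre -/
def fintS (s : ℕ) (x : X) (f : (Fin s → P) → ℝ≥0∞) : ℝ≥0∞ :=
  ∫⁻ τ : Fin (s * r) → ℂ, ∑' y : {y : Fin s → P // (∀ j, F.q (y j) = x) ∧ tt F y = τ}, f y.1

/-- change of variables from `Fin (s * r) → ℂ` to `Fin s → Fin r → ℂ`, no measurability needed -/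
theorem lintegral_blk {r s : ℕ} (G : (Fin s → Fin r → ℂ) → ℝ≥0∞) :
    ∫⁻ τ : Fin (s * r) → ℂ, G (fun j => blk τ j) = ∫⁻ x : Fin s → Fin r → ℂ, G x := by
  have h1 : MeasurableEmbedding (fun (τ : Fin (s * r) → ℂ) (j : Fin s) => (blk τ j : Fin r → ℂ)) :=
    (flatH r s).symm.measurableEmbedding
  exact (mp_blk r s).lintegral_comp_emb h1 G

/-- the `s`-fold fibre integral in unflattened coordinates -/
theorem fintS_eq' (s : ℕ) (x : X) (f : (Fin s → P) → ℝ≥0∞) :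
    fintS F s x f = ∫⁻ ξ : Fin s → Fin r → ℂ,
      ∑' y : {y : Fin s → P // (∀ j, F.q (y j) = x) ∧ ∀ j, F.t (y j) = ξ j}, f y.1 := by
  rw [← lintegral_blk]
  unfold fintS
  refine lintegral_congr fun τ => ?_
  have h1 : ∀ y : Fin s → P, ((∀ j, F.q (y j) = x) ∧ tt F y = τ) ↔
      ((∀ j, F.q (y j) = x) ∧ ∀ j, F.t (y j) = blk τ j) := by
    intro y
    refine and_congr_right fun _ => ⟨?_, ?_⟩
    · rintro rfl j
      exact (blk_tt F y j).symm
    · intro h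
      apply blk_ext
      intro j
      rw [blk_tt, h j]
  exact (Equiv.subtypeEquivRight h1).tsum_eq
    (fun y : {y : Fin s → P // (∀ j, F.q (y j) = x) ∧ ∀ j, F.t (y j) = blk τ j} => f y.1)

variable {F} {ρ : S → X} {s : ℕ} {g : MvPolynomial (Fin (m + s * r)) ℂ}

/-- The norm of the root, on `{g ≠ 0}`. -/
theorem fnorm_RF (hρ : Continuous ρ) {N : ℕ} (hN : N ≠ 0) {d : (Fin s → P) → ℂ}
    (hδ : Continuous fun z : ZS F ρ s g => d z.y) (hne : ∀ z : ZS F ρ s g, d z.y ≠ 0) (u : S)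
    (hsl : ∀ᵐ τ : Fin (s * r) → ℂ, MvPolynomial.eval (Fin.append (cp u) τ) g ≠ 0) :
    (RF (ZF F ρ s g hρ) hN hδ hne).fnorm u RC.rt =
      N * fintS F s (ρ u) (fun y => ‖d y‖ₑ ^ (2 / (N : ℝ))) := by
  unfold FSp.fnorm FSp.fint fintS
  rw [← lintegral_const_mul' _ _ (ENNReal.natCast_ne_top N)]
  refine lintegral_congr_ae ?_
  filter_upwards [hsl] with τ hτ
  let e : {p : RC (fun z : ZS F ρ s g => d z.y) N // (RF (ZF F ρ s g hρ) hN hδ hne).q p = u ∧
      (RF (ZF F ρ s g hρ) hN hδ hne).t p = τ} ≃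
      Σ y : {y : Fin s → P // (∀ j, F.q (y j) = ρ u) ∧ tt F y = τ}, {η : ℂ // η ^ N = d y.1} :=
    { toFun := fun p => ⟨⟨p.1.pr.y, fun j => by
          have h1 := p.1.pr.q_y j
          have h2 : p.1.pr.bs = u := p.2.1
          rw [h1, h2], p.2.2⟩, ⟨p.1.rt, p.1.rt_pow⟩⟩
      invFun := fun z => ⟨RC.mk (ZS.mk u z.1.1 z.1.2.1 (by rw [z.1.2.2]; exact hτ)) z.2.1 z.2.2,
        rfl, z.1.2.2⟩
      left_inv := by
        intro p
        apply Subtype.ext
        apply RC.ext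
        · exact ZS.ext p.2.1.symm rfl
        · rfl
      right_inv := fun z => rfl }
  rw [← e.symm.tsum_eq]
  have h1 : ∀ z : Σ y : {y : Fin s → P // (∀ j, F.q (y j) = ρ u) ∧ tt F y = τ},
      {η : ℂ // η ^ N = d y.1},
      ‖((e.symm z).1 : RC (fun z : ZS F ρ s g => d z.y) N).rt‖ₑ ^ 2 = ‖z.2.1‖ₑ ^ 2 := fun z => rfl
  simp only [h1]
  rw [ENNReal.tsum_sigma', ← ENNReal.tsum_mul_left]
  refine tsum_congr fun y => ?_
  refine rc_tsum hN ?_
  exact hne (ZS.mk u y.1 y.2.1 (by rw [y.2.2]; exact hτ))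

variable {δ₀ : (Fin s → P) → ℂ}

/-- **The norm of the root**, on `{δ₀ ≠ 0}`. -/
theorem fnorm_ZD (hρ : Continuous ρ) (hδ₀ : Continuous δ₀) {N : ℕ} (hN : N ≠ 0)
    (hδ : Continuous fun z : ZD F ρ δ₀ => δ₀ z.y) (hne : ∀ z : ZD F ρ δ₀, δ₀ z.y ≠ 0) (u : S) :
    (RF (ZDF F ρ δ₀ hρ hδ₀) hN hδ hne).fnorm u RC.rt =
      N * fintS F s (ρ u) (fun y => ‖δ₀ y‖ₑ ^ (2 / (N : ℝ))) := by
  classical
  unfold FSp.fnorm FSp.fint fintS
  rw [← lintegral_const_mul' _ _ (ENNReal.natCast_ne_top N)]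
  refine lintegral_congr fun τ => ?_
  let e : {p : RC (fun z : ZD F ρ δ₀ => δ₀ z.y) N // (RF (ZDF F ρ δ₀ hρ hδ₀) hN hδ hne).q p = u ∧
      (RF (ZDF F ρ δ₀ hρ hδ₀) hN hδ hne).t p = τ} ≃
      Σ y : {y : {y : Fin s → P // (∀ j, F.q (y j) = ρ u) ∧ tt F y = τ} // δ₀ y.1 ≠ 0},
        {η : ℂ // η ^ N = δ₀ y.1.1} :=
    { toFun := fun p => ⟨⟨⟨p.1.pr.y, fun j => by
          have h1 := p.1.pr.q_y j
          have h2 : p.1.pr.bs = u := p.2.1
          rw [h1, h2], p.2.2⟩, p.1.pr.d_ne⟩, ⟨p.1.rt, p.1.rt_pow⟩⟩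
      invFun := fun z => ⟨RC.mk (ZD.mk u z.1.1.1 z.1.1.2.1 z.1.2) z.2.1 z.2.2,
        rfl, z.1.1.2.2⟩
      left_inv := by
        intro p
        apply Subtype.ext
        apply RC.ext
        · exact ZD.ext p.2.1.symm rfl
        · rfl
      right_inv := fun z => rfl }
  rw [← e.symm.tsum_eq]
  have h1 : ∀ z : Σ y : {y : {y : Fin s → P // (∀ j, F.q (y j) = ρ u) ∧ tt F y = τ} // δ₀ y.1 ≠ 0},
      {η : ℂ // η ^ N = δ₀ y.1.1},
      ‖((e.symm z).1 : RC (fun z : ZD F ρ δ₀ => δ₀ z.y) N).rt‖ₑ ^ 2 = ‖z.2.1‖ₑ ^ 2 := fun z => rfl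
  simp only [h1]
  rw [ENNReal.tsum_sigma']
  have h2 : ∀ y : {y : {y : Fin s → P // (∀ j, F.q (y j) = ρ u) ∧ tt F y = τ} // δ₀ y.1 ≠ 0},
      ∑' b : {η : ℂ // η ^ N = δ₀ y.1.1}, ‖b.1‖ₑ ^ 2 = N * ‖δ₀ y.1.1‖ₑ ^ (2 / (N : ℝ)) :=
    fun y => rc_tsum hN y.2
  simp only [h2]
  rw [ENNReal.tsum_mul_left]
  congr 1
  have hsupp : Function.support (fun y : {y : Fin s → P // (∀ j, F.q (y j) = ρ u) ∧ tt F y = τ} =>
      ‖δ₀ y.1‖ₑ ^ (2 / (N : ℝ))) ⊆ {y | δ₀ y.1 ≠ 0} := by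
    intro y hy h0
    apply hy
    have : (0 : ℝ) < 2 / (N : ℝ) := by positivity
    simp only [h0, enorm_zero]
    exact ENNReal.zero_rpow_of_pos this
  exact tsum_subtype_eq_of_support_subset hsupp

end gen

/-- The slice polynomial is nonzero: almost every `τ` is good. -/
theorem ae_slice {m n : ℕ} {g : MvPolynomial (Fin (m + n)) ℂ} {a : Fin m → ℂ}
    (h : ∃ τ : Fin n → ℂ, MvPolynomial.eval (Fin.append a τ) g ≠ 0) :
    ∀ᵐ τ : Fin n → ℂ, MvPolynomial.eval (Fin.append a τ) g ≠ 0 := by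
  have h1 : specL (m := m) (r := n) a g ≠ 0 := by
    intro h0
    obtain ⟨τ, hτ⟩ := h
    apply hτ
    rw [← eval_specL, h0, map_zero]
  filter_upwards [Crest.Agent.R271.Null956.ae_eval_ne h1] with τ hτ
  rwa [eval_specL] at hτ

section rel

variable {L K : Type} [Field L] [Field K] [Algebra ℂ L] [Algebra ℂ K] [Algebra L K]
  [IsScalarTower ℂ L K] {m r : ℕ} (R : RMdl L K m r)

/-- The `s`-fold fibre integral on a relative model. -/
theorem fintS_pi {w : R.ML.Pts} {μ : Measure (R.Fib w)} (hμ : IsLeb μ) {s : ℕ}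
    {f : (Fin s → R.MK.Pts) → ℝ≥0∞} (hf : Measurable f) :
    fintS (fF R) s w f = ∫⁻ y, f (fun j => (y j).val) ∂(Measure.pi fun _ : Fin s => μ) := by
  have hm : Measurable fun y : Fin s → R.Fib w => f (fun j => (y j).val) := by
    refine hf.comp (measurable_pi_lambda _ fun j => ?_)
    exact ((RMdl.Fib.continuous_val w).measurable).comp (measurable_pi_apply j)
  rw [lintegral_pi_fibre hμ hm]
  unfold fintS
  refine lintegral_congr fun τ => ?_
  let e : {y : Fin s → R.MK.Pts // (∀ j, (fF R).q (y j) = w) ∧ tt (fF R) y = τ} ≃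
      {y : Fin s → R.Fib w // ∀ j, (cp (y j) : Fin r → ℂ) = blk τ j} :=
    { toFun := fun y => ⟨fun j => ⟨y.1 j, y.2.1 j⟩, fun j => by
        have h1 := blk_tt (fF R) y.1 j
        rw [y.2.2] at h1
        exact h1.symm⟩
      invFun := fun y => ⟨fun j => (y.1 j).val, fun j => (y.1 j).q_eq, by
        apply blk_ext
        intro j
        rw [blk_tt]
        exact y.2 j⟩
      left_inv := fun _ => rfl
      right_inv := fun _ => rfl }
  exact e.tsum_eq (fun y : {y : Fin s → R.Fib w // ∀ j, (cp (y j) : Fin r → ℂ) = blk τ j} =>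
    f (fun j => (y.1 j).val))

/-- It is 793's `fintS`. -/
theorem fintS_793 (s : ℕ) (w : R.ML.Pts) (f : (Fin s → R.MK.Pts) → ℝ≥0∞) :
    fintS (fF R) s w f = FlatFam_793.fintS R s w f := by
  rw [fintS_eq']
  rfl

/-- 793's `fintS` as an integral against the product measure -/
theorem fintS_793_pi {w : R.ML.Pts} {μ : Measure (R.Fib w)} (hμ : IsLeb μ) {s : ℕ}
    {f : (Fin s → R.MK.Pts) → ℝ≥0∞} (hf : Measurable f) :
    FlatFam_793.fintS R s w f = ∫⁻ y, f (fun j => (y j).val) ∂(Measure.pi fun _ : Fin s => μ) := by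
  rw [← fintS_793, fintS_pi R hμ hf]

theorem continuous_dl {s : ℕ} (σ : Fin s → R.MK.B) : Continuous (FlatFam_793.dl σ) := by
  refine Continuous.matrix_det ?_
  exact continuous_matrix fun i j => (continuous_ev (σ i)).comp (continuous_apply j)

/-- 793's `De` is 236's `DN`. -/
theorem De_eq_DN (N : ℕ) {s : ℕ} (σ : Fin s → R.MK.B) (w : R.ML.Pts) :
    FlatFam_793.De R N σ w = FlatDefs_236.DN N σ w := by
  unfold FlatFam_793.De
  rw [fintS_793_pi R (FlatDefs_236.nu_leb R w)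
    ((continuous_dl R σ).measurable.enorm.pow_const _)]
  unfold FlatDefs_236.DN FlatM_464.DD
  refine lintegral_congr fun y => ?_
  have hp : (0 : ℝ) ≤ 2 / (N : ℝ) := by positivity
  rw [← Real.enorm_eq_ofReal (Real.rpow_nonneg (norm_nonneg _) _),
    Real.enorm_rpow_of_nonneg (norm_nonneg _) hp, enorm_norm]
  congr 2
  unfold FlatFam_793.dl
  rw [← Matrix.det_transpose]
  rfl

variable {R} in
/-- **The norm of the root of `dl σ` is `N * De`.** -/
theorem fnorm_De {S : Type*} [TopologicalSpace S] [RDom m S] {ρ : S → R.ML.Pts}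
    (hρ : Continuous ρ) {s : ℕ} {N : ℕ} (hN : N ≠ 0) (σ : Fin s → R.MK.B)
    (hδ₀ : Continuous (FlatFam_793.dl σ))
    (hδ : Continuous fun z : ZD (fF R) ρ (FlatFam_793.dl σ) => FlatFam_793.dl σ z.y)
    (hne : ∀ z : ZD (fF R) ρ (FlatFam_793.dl σ), FlatFam_793.dl σ z.y ≠ 0) (u : S) :
    (RF (ZDF (fF R) ρ (FlatFam_793.dl σ) hρ hδ₀) hN hδ hne).fnorm u RC.rt =
      N * FlatFam_793.De R N σ (ρ u) := by
  rw [fnorm_ZD hρ hδ₀ hN hδ hne u, fintS_793]
  rfl

end rel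

end Crest.Agent.R276.GeoN2_348
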