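import Mathlib
import Crest.Agent.R276.GlobF_739

/-!
# R276, leaf GLOBF (helper739), small form: transports on arbitrarily small discs suffice

`LineS Φ` : for every point `x` and direction `v` a holomorphic family of isometries on SOME disc of the
line `t ↦ ln x v t` (radius depending on `x`, `v`) = output of `LNh_999` (LEMMA N).
Same conclusions as `GlobR_739`, `GlobF_739` with `LineS` instead of `LineT`:
`globS_at`, `fin_all_S`, `lt`, `hyp`, `dat`.
-/

set_option autoImplicit false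
set_option linter.unusedSectionVars false

noncomputable section

open Set Filter Topology Metric Matrix

namespace Crest.Agent.R276.GlobS_739

/-! ### vector space part -/

section vs

open Crest.Agent.R276.GlobN_739 Crest.Agent.R276.GlobN_739.Data

variable {E : Type*} [NormedAddCommGroup E] [NormedSpace ℂ E] [FiniteDimensional ℂ E]
variable {V : Type*} [NormedAddCommGroup V] [NormedSpace ℂ V] [FiniteDimensional ℂ V]
variable {Φ : E → V → ℝ} {f : E → ℂ} {p : ℝ} {B : Set E} {k l : ℕ}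

/-- infinitesimal line transports -/
def LineI (Φ : E → V → ℝ) (f : E → ℂ) (k l : ℕ) (B : Set E) : Prop :=
  ∀ z1 ∈ B, ∀ v : E, ∃ T : ℂ → (V →L[ℂ] V), DifferentiableAt ℂ T 0 ∧ T 0 = 1 ∧
    ∀ᶠ t in 𝓝 (0 : ℂ), T t ∈ J Φ f k l z1 (z1 + t • v)

/-- isometries along segments -/
theorem nonempty_seg (D : Data Φ f p B) (hL : LineI Φ f k l B) {z0 v : E}
    (h : ∀ τ ∈ Icc (0 : ℝ) 1, z0 + (τ : ℂ) • v ∈ B) : (J Φ f k l z0 (z0 + v)).Nonempty := by
  have h00 : z0 ∈ B := by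
    have := h 0 ⟨le_rfl, zero_le_one⟩
    simpa using this
  let S : Set (Icc (0 : ℝ) 1) := {τ | (J Φ f k l z0 (z0 + ((τ : ℝ) : ℂ) • v)).Nonempty}
  have hloc : ∀ τ0 : Icc (0 : ℝ) 1, ∀ᶠ τ : Icc (0 : ℝ) 1 in 𝓝 τ0,
      (J Φ f k l (z0 + ((τ0 : ℝ) : ℂ) • v) (z0 + ((τ : ℝ) : ℂ) • v)).Nonempty := by
    intro τ0
    obtain ⟨T, -, -, hT⟩ := hL _ (h τ0 τ0.2) v
    have h1 : Tendsto (fun τ : Icc (0 : ℝ) 1 => (((τ : ℝ) - (τ0 : ℝ) : ℝ) : ℂ)) (𝓝 τ0) (𝓝 0) := by
      have h2 : Continuous fun τ : Icc (0 : ℝ) 1 => (((τ : ℝ) - (τ0 : ℝ) : ℝ) : ℂ) := by fun_prop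
      have h3 := h2.tendsto τ0
      simpa using h3
    filter_upwards [h1.eventually hT] with τ hτ
    have h2 : z0 + ((τ0 : ℝ) : ℂ) • v + (((τ : ℝ) - (τ0 : ℝ) : ℝ) : ℂ) • v =
        z0 + ((τ : ℝ) : ℂ) • v := by
      push_cast
      rw [sub_smul]
      abel
    rw [h2] at hτ
    exact ⟨_, hτ⟩
  have hcl : IsClopen S := by
    constructor
    · rw [← isOpen_compl_iff, isOpen_iff_mem_nhds]
      intro τ0 hτ0
      filter_upwards [hloc τ0] with τ hτ hS
      obtain ⟨A, hA⟩ := hτ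
      obtain ⟨A', hA'⟩ := hS
      exact hτ0 ⟨_, mul_mem (D.inv_mem (h τ0 τ0.2) (h τ τ.2) hA) hA'⟩
    · rw [isOpen_iff_mem_nhds]
      rintro τ0 ⟨A', hA'⟩
      filter_upwards [hloc τ0] with τ hτ
      obtain ⟨A, hA⟩ := hτ
      exact ⟨_, mul_mem hA hA'⟩
  have hne : S.Nonempty := by
    refine ⟨⟨0, le_rfl, zero_le_one⟩, 1, ?_⟩
    have h1 : z0 + (((0 : ℝ)) : ℂ) • v = z0 := by simp
    show (1 : V →L[ℂ] V) ∈ J Φ f k l z0 (z0 + (((0 : ℝ)) : ℂ) • v)
    rw [h1]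
    exact one_mem z0
  have hPre : PreconnectedSpace (Icc (0 : ℝ) 1) := Subtype.preconnectedSpace isPreconnected_Icc
  have huniv := hcl.eq_univ hne
  have h1 : (⟨1, zero_le_one, le_rfl⟩ : Icc (0 : ℝ) 1) ∈ S := by rw [huniv]; trivial
  have h2 : (J Φ f k l z0 (z0 + (((1 : ℝ)) : ℂ) • v)).Nonempty := h1
  rwa [Complex.ofReal_one, one_smul] at h2

/-- **globalisation** of infinitesimal line transports -/
theorem globI (D : Data Φ f p B) (hL : LineI Φ f k l B) {z0 : E} (hz0 : z0 ∈ B)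
    (hfin : (J Φ f k l z0 z0).Finite) :
    ∃ r > 0, ball z0 r ⊆ B ∧ ∃ T : E → (V →L[ℂ] V), AnalyticOnNhd ℂ T (ball z0 r) ∧ T z0 = 1 ∧
      ∀ z ∈ ball z0 r, T z ∈ J Φ f k l z0 z := by
  classical
  have : CompleteSpace V := FiniteDimensional.complete ℂ V
  obtain ⟨δ, hδ, hisol⟩ := exists_isol hfin
  set ε : ℝ := min (1 / 4) (δ / 8) with hε
  have hεp : 0 < ε := by positivity
  have hε1 : ε ≤ 1 / 4 := min_le_left _ _
  have hε2 : 8 * ε ≤ δ := by have : ε ≤ δ / 8 := min_le_right _ _; linarith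
  obtain ⟨C, hC⟩ := D.bounded (k := k) (l := l) hz0 (isCompact_singleton (x := z0))
    (singleton_subset_iff.2 hz0)
  set C' := max C 0 with hC'
  have hC0 : 0 ≤ C' := le_max_right _ _
  set ε' : ℝ := ε / (C' + 1) with hε'
  have hε'p : 0 < ε' := by positivity
  have husc := D.usc (k := k) (l := l) hz0 hz0 hε'p
  -- radius
  obtain ⟨r0, hr0, hr0B⟩ := Metric.mem_nhds_iff.1 (D.op.mem_nhds hz0)
  obtain ⟨r1, hr1, hr1u⟩ := Metric.eventually_nhds_iff_ball.1 husc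
  set r := min r0 r1 with hr
  have hrp : 0 < r := lt_min hr0 hr1
  have hrB : ball z0 r ⊆ B := (ball_subset_ball (min_le_left _ _)).trans hr0B
  -- nonemptiness
  have hne : ∀ z ∈ ball z0 r, (J Φ f k l z0 z).Nonempty := by
    intro z hz
    have h1 := nonempty_seg D hL (z0 := z0) (v := z - z0) (by
      intro τ hτ
      apply hrB
      rw [mem_ball_iff_norm] at hz ⊢
      rw [add_sub_cancel_left, norm_smul, Complex.norm_real, Real.norm_eq_abs, abs_of_nonneg hτ.1]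
      have := norm_nonneg (z - z0)
      nlinarith [hτ.2])
    rwa [add_sub_cancel] at h1
  -- existence near `1`
  have hex : ∀ z ∈ ball z0 r, ∃ A ∈ J Φ f k l z0 z, ‖A - 1‖ < ε := by
    intro z hz
    obtain ⟨A, hA⟩ := hne z hz
    obtain ⟨g, hg, hAg⟩ := hr1u z (ball_subset_ball (min_le_right _ _) hz) A hA
    have hginv := D.inv_mem hz0 hz0 hg
    refine ⟨A * Ring.inverse g, mul_mem hA hginv, ?_⟩
    have h1 : A * Ring.inverse g - 1 = (A - g) * Ring.inverse g := by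
      rw [sub_mul, Ring.mul_inverse_cancel g (D.isUnit hz0 hz0 hg)]
    rw [h1]
    have h2 : ‖Ring.inverse g‖ ≤ C' := (hC z0 rfl _ hginv).trans (le_max_left _ _)
    calc ‖(A - g) * Ring.inverse g‖ ≤ ‖A - g‖ * ‖Ring.inverse g‖ := norm_mul_le _ _
      _ ≤ ε' * C' := mul_le_mul hAg.le h2 (norm_nonneg _) hε'p.le
      _ < ε := by
        rw [hε', div_mul_eq_mul_div, div_lt_iff₀ (by positivity)]
        nlinarith
  set T : E → (V →L[ℂ] V) := fun z =>
    if h : ∃ A ∈ J Φ f k l z0 z, ‖A - 1‖ < ε then h.choose else 1 with hT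
  have hTJ : ∀ z ∈ ball z0 r, T z ∈ J Φ f k l z0 z ∧ ‖T z - 1‖ < ε := by
    intro z hz
    have h := hex z hz
    have h1 : T z = h.choose := dif_pos h
    rw [h1]
    exact h.choose_spec
  have hz0r : z0 ∈ ball z0 r := mem_ball_self hrp
  have hT0 : T z0 = 1 := by
    have h1 := hTJ z0 hz0r
    refine D.uniq hz0 hz0 hisol hε1 hε2 h1.1 (one_mem z0) (by linarith [h1.2]) ?_
    rw [sub_self, norm_zero]; positivity
  -- continuity
  have hTc : ∀ z1 ∈ ball z0 r, ContinuousAt T z1 := by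
    intro z1 hz1
    rw [Metric.continuousAt_iff']
    intro η hη
    set η' := min η ε with hη'
    have hη'p : 0 < η' := lt_min hη hεp
    filter_upwards [D.usc (k := k) (l := l) hz0 (hrB hz1) hη'p, isOpen_ball.mem_nhds hz1]
      with z h1 hz
    obtain ⟨A1, hA1, hd⟩ := h1 (T z) (hTJ z hz).1
    have h2 : A1 = T z1 := by
      refine D.uniq hz0 (hrB hz1) hisol hε1 hε2 hA1 (hTJ z1 hz1).1 ?_
        (by have := (hTJ z1 hz1).2; linarith)
      calc ‖A1 - 1‖ = ‖(T z - 1) - (T z - A1)‖ := by congr 1; abel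
        _ ≤ ‖T z - 1‖ + ‖T z - A1‖ := norm_sub_le _ _
        _ < 2 * ε := by
          have := (hTJ z hz).2
          have : η' ≤ ε := min_le_right _ _
          linarith
    rw [dist_eq_norm, ← h2]
    exact hd.trans_le (min_le_left _ _)
  refine ⟨r, hrp, hrB, T, ?_, hT0, fun z hz => (hTJ z hz).1⟩
  -- holomorphy
  apply Crest.Agent.R266.SCV.analyticOnNhd_of_gateaux isOpen_ball
    (fun z hz => (hTc z hz).continuousWithinAt)
  intro z1 hz1 w
  obtain ⟨T', hT'd, hT'0, hT'J⟩ := hL z1 (hrB hz1) w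
  set U : ℂ → (V →L[ℂ] V) := fun t => T' t * T z1 with hU
  have hball : ∀ᶠ t : ℂ in 𝓝 (0 : ℂ), z1 + t • w ∈ ball z0 r := by
    have h1 : Tendsto (fun t : ℂ => z1 + t • w) (𝓝 0) (𝓝 z1) := by
      have : Continuous (fun t : ℂ => z1 + t • w) := by fun_prop
      have h2 := this.tendsto 0
      simpa using h2
    exact h1.eventually (isOpen_ball.mem_nhds hz1)
  have hUJ : ∀ᶠ t in 𝓝 (0 : ℂ), U t ∈ J Φ f k l z0 (z1 + t • w) ∧ z1 + t • w ∈ ball z0 r := by
    filter_upwards [hball, hT'J] with t ht h1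
    exact ⟨mul_mem h1 (hTJ z1 hz1).1, ht⟩
  have hUd : DifferentiableAt ℂ U 0 := hT'd.mul_const _
  have hU0 : U 0 = T z1 := by
    simp only [hU, hT'0, one_mul]
  have hunit : IsUnit (U 0) := by
    rw [hU0]; exact D.isUnit hz0 (hrB hz1) (hTJ z1 hz1).1
  -- the difference is locally constant
  have hTl : ContinuousAt (fun t : ℂ => T (z1 + t • w)) 0 := by
    have h1 : ContinuousAt T (z1 + (0:ℂ) • w) := by
      rw [zero_smul, add_zero]; exact hTc z1 hz1
    exact ContinuousAt.comp (f := fun t : ℂ => z1 + t • w) h1 (by fun_prop)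
  have hg : ContinuousAt (fun t : ℂ => Ring.inverse (U t) * T (z1 + t • w)) 0 := by
    obtain ⟨u, hu⟩ := hunit
    have h1 : ContinuousAt Ring.inverse (U 0) := by
      rw [← hu]; exact NormedRing.inverse_continuousAt u
    exact (ContinuousAt.comp (f := U) h1 hUd.continuousAt).mul hTl
  have hg0 : Ring.inverse (U 0) * T (z1 + (0:ℂ) • w) = 1 := by
    rw [zero_smul, add_zero, ← hU0, Ring.inverse_mul_cancel _ hunit]
  have hev : ∀ᶠ t in 𝓝 (0 : ℂ), T (z1 + t • w) = U t := by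
    have h2 : ∀ᶠ t in 𝓝 (0 : ℂ), ‖Ring.inverse (U t) * T (z1 + t • w) - 1‖ < δ := by
      have h3 := hg.tendsto
      rw [hg0] at h3
      have h4 := h3.eventually (ball_mem_nhds 1 hδ)
      filter_upwards [h4] with t ht
      rwa [dist_eq_norm] at ht
    filter_upwards [h2, hUJ] with t h3 h4
    have h5 := D.inv_mul_mem hz0 (hrB h4.2) h4.1 (hTJ _ h4.2).1
    have h6 := hisol _ h5 h3
    have h7 : U t * (Ring.inverse (U t) * T (z1 + t • w)) = T (z1 + t • w) := by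
      rw [← mul_assoc, Ring.mul_inverse_cancel _ (D.isUnit hz0 (hrB h4.2) h4.1), one_mul]
    rw [← h7, h6, mul_one]
  exact hUd.congr_of_eventuallyEq hev

end vs

/-! ### Riemann domain part -/

section rd

open Crest.Agent.R271.Ho51 Crest.Agent.R276.GlobN_739 Crest.Agent.R276.GlobR_739
open Crest.Agent.R276.FlatT_464 (Is Nm Loc Dat)
open Crest.Agent.R276.Ipc735 (HolAt)
open Crest.Agent.R276.Liou_739 (ln)

variable {n : ℕ} {G : Type*} [TopologicalSpace G] [RDom n G] {s : ℕ}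

/-- holomorphic families of isometries on small discs of all lines -/
def LineS {R : Type*} (Φ : G → (Fin s → ℂ) → R) : Prop :=
  ∀ (x : G) (v : Fin n → ℂ), ∃ r > (0 : ℝ), ∃ T : ℂ → Matrix (Fin s) (Fin s) ℂ,
    (∀ i j, DifferentiableOn ℂ (fun t => T t i j) (ball 0 r)) ∧ (T 0).det ≠ 0 ∧
    ∀ t ∈ ball (0 : ℂ) r, ∀ a, Φ (ln x v t) (T t *ᵥ a) = Φ x (T 0 *ᵥ a)

variable {Φ : G → (Fin s → ℂ) → ℝ} {f : G → ℂ} {p : ℝ} {k l : ℕ}

/-- the line through `e.symm z` in a chart `e` -/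
theorem ln_eq {e : OpenPartialHomeomorph G (Fin n → ℂ)} (he : IsCh e) {z : Fin n → ℂ}
    (hz : z ∈ e.target) (v : Fin n → ℂ) :
    ∀ᶠ t in 𝓝 (0 : ℂ), ln (e.symm z) v t = e.symm (z + t • v) := by
  have hx : e.symm z ∈ e.source := e.map_target hz
  have hcp : cp (e.symm z) = z := he.cp_symm hz
  have h1 := he.germ (isCh_ch (e.symm z)) hx (mem_ch (e.symm z))
  rw [hcp] at h1
  have h2 : Tendsto (fun t : ℂ => z + t • v) (𝓝 0) (𝓝 z) := by
    have : Continuous (fun t : ℂ => z + t • v) := by fun_prop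
    simpa using this.tendsto 0
  filter_upwards [h2.eventually h1] with t ht
  unfold ln
  rw [hcp, ← ht]

theorem FD.lineI (D : FD Φ f p k l) (hL : LineS Φ) {e : OpenPartialHomeomorph G (Fin n → ℂ)}
    (he : IsCh e) {B : Set (Fin n → ℂ)} (hBe : B ⊆ e.target) :
    LineI (fun ζ v => Φ (e.symm ζ) v) (fun ζ => f (e.symm ζ)) k l B := by
  intro z1 hz1 v
  have hz1e := hBe hz1
  obtain ⟨r, hr, T, hT, hT0, hTΦ⟩ := hL (e.symm z1) v
  have hu : IsUnit (T 0).det := hT0.isUnit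
  -- a small radius
  have hev : ∀ᶠ t in 𝓝 (0 : ℂ), t ∈ ball (0 : ℂ) r ∧ ln (e.symm z1) v t = e.symm (z1 + t • v) ∧
      z1 + t • v ∈ e.target := by
    have h2 : Tendsto (fun t : ℂ => z1 + t • v) (𝓝 0) (𝓝 z1) := by
      have : Continuous (fun t : ℂ => z1 + t • v) := by fun_prop
      simpa using this.tendsto 0
    have h3 : ∀ᶠ t in 𝓝 (0 : ℂ), t ∈ ball (0 : ℂ) r := ball_mem_nhds _ hr
    exact h3.and ((ln_eq he hz1e v).and (h2.eventually (e.open_target.mem_nhds hz1e)))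
  obtain ⟨ρ, hρ, hball⟩ := Metric.eventually_nhds_iff_ball.1 hev
  have hρr : ball (0 : ℂ) ρ ⊆ ball 0 r := fun t ht => (hball t ht).1
  set S : ℂ → Matrix (Fin s) (Fin s) ℂ := fun t => T t * (T 0)⁻¹ with hS
  have hSd : ∀ i j, DifferentiableOn ℂ (fun t => S t i j) (ball 0 ρ) := by
    intro i j
    simp only [hS, Matrix.mul_apply]
    exact DifferentiableOn.fun_sum fun m _ => ((hT i m).mono hρr).mul_const _
  have hS0 : S 0 = 1 := Matrix.mul_nonsing_inv _ hu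
  have hSI : ∀ t ∈ ball (0 : ℂ) ρ, S t ∈ Is Φ (e.symm z1) (e.symm (z1 + t • v)) := by
    intro t ht a
    obtain ⟨h1, h2, -⟩ := hball t ht
    rw [hS]
    simp only
    rw [← Matrix.mulVec_mulVec, ← h2, hTΦ t h1, Matrix.mulVec_mulVec, Matrix.mul_nonsing_inv _ hu,
      Matrix.one_mulVec]
  have hSdet : DifferentiableOn ℂ (fun t => (S t).det) (ball 0 ρ) := by
    simp only [Matrix.det_apply']
    exact DifferentiableOn.fun_sum fun σ _ =>
      (differentiableOn_const _).mul (DifferentiableOn.fun_finsetProd fun i _ => hSd _ _)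
  have hfd : DifferentiableOn ℂ (fun t : ℂ => f (e.symm (z1 + t • v))) (ball 0 ρ) := by
    have h1 : DifferentiableOn ℂ (f ∘ e.symm) e.target := D.hol e he
    have h2 : DifferentiableOn ℂ (fun t : ℂ => z1 + t • v) (ball 0 ρ) := by fun_prop
    exact h1.comp h2 (fun t ht => (hball t ht).2.2)
  set g : ℂ → ℂ := fun t => (S t).det ^ k * f (e.symm (z1 + t • v)) ^ l with hg
  have hgd : DifferentiableOn ℂ g (ball 0 ρ) := (hSdet.pow k).mul (hfd.pow l)
  have hgn : ∀ t ∈ ball (0 : ℂ) ρ, ‖g t‖ = ‖f (e.symm z1)‖ ^ l := by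
    intro t ht
    rw [hg]
    simp only [norm_mul, norm_pow]
    exact D.det _ _ _ (hSI t ht)
  have h00 : (0 : ℂ) ∈ ball (0 : ℂ) ρ := mem_ball_self hρ
  have hgc : EqOn g (Function.const ℂ (g 0)) (ball 0 ρ) := by
    refine Complex.eqOn_of_isPreconnected_of_isMaxOn_norm (convex_ball _ _).isPreconnected
      isOpen_ball hgd h00 ?_
    intro t ht
    show ‖g t‖ ≤ ‖g 0‖
    rw [hgn t ht, hgn 0 h00]
  have hg0 : g 0 = f (e.symm z1) ^ l := by
    rw [hg]
    simp only [hS0, Matrix.det_one, one_pow, one_mul, zero_smul, add_zero]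
  refine ⟨fun t => cl (S t), ?_, ?_, ?_⟩
  · have h2 : DifferentiableAt ℂ (fun t => (fun i j => S t i j : Fin s → Fin s → ℂ)) 0 := by
      rw [differentiableAt_pi]
      intro i
      rw [differentiableAt_pi]
      exact fun j => (hSd i j).differentiableAt (isOpen_ball.mem_nhds h00)
    have h3 : (fun t => cl (S t)) = (clL (s := s)) ∘ fun t => (fun i j => S t i j) := rfl
    rw [h3]
    exact DifferentiableAt.comp 0 (clL (s := s)).differentiableAt h2
  · show cl (S 0) = 1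
    rw [hS0, cl_one]
  · filter_upwards [ball_mem_nhds (0 : ℂ) hρ] with t ht
    refine ⟨fun a => ?_, ?_⟩
    · show Φ (e.symm (z1 + t • v)) (cl (S t) a) = _
      rw [cl_apply]
      exact hSI t ht a
    · show LinearMap.det ((cl (S t) : (Fin s → ℂ) →L[ℂ] (Fin s → ℂ)) :
        (Fin s → ℂ) →ₗ[ℂ] (Fin s → ℂ)) ^ k * f (e.symm (z1 + t • v)) ^ l = f (e.symm z1) ^ l
      rw [det_cl]
      have := hgc ht
      simp only [Function.const_apply, hg0] at this
      exact this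

/-- **globalisation at a point** -/
theorem globS_at (D : FD Φ f p k l) (hL : LineS Φ) {z1 : G} (hf : FinAt Φ k z1) :
    ∃ T : G → Matrix (Fin s) (Fin s) ℂ, (∀ i j, HolAt (fun z => T z i j) z1) ∧ T z1 = 1 ∧
      ∀ᶠ z in 𝓝 z1, T z ∈ Is Φ z1 z ∧ (T z).det ^ k * f z ^ l = f z1 ^ l := by
  set e := ch z1 with he
  have hec : IsCh e := isCh_ch z1
  have hmem : z1 ∈ e.source := mem_ch z1
  have hcp : cp z1 ∈ e.target := hec.cp_mem hmem
  have hsy : e.symm (cp z1) = z1 := hec.symm_cp hmem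
  have hData := D.data hec e.open_target subset_rfl
  have hLine := FD.lineI D hL hec (B := e.target) subset_rfl
  have hfin : (J (fun ζ v => Φ (e.symm ζ) v) (fun ζ => f (e.symm ζ)) k l (cp z1) (cp z1)).Finite := by
    refine (hf.image cl).subset ?_
    intro B hB
    refine ⟨mt B, ⟨fun a => ?_, ?_⟩, cl_mt B⟩
    · rw [mt_mulVec]
      have := hB.1 a
      simp only [hsy] at this
      exact this
    · rw [det_mt]
      have := hB.2
      simp only [hsy] at this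
      exact mul_right_cancel₀ (pow_ne_zero l (D.f0 z1)) (by rw [this, one_mul])
  obtain ⟨r, hr, -, T, hT, hT1, hTJ⟩ := globI hData hLine hcp hfin
  refine ⟨fun z => mt (T (cp z)), fun i j => ?_, ?_, ?_⟩
  · have h1 : AnalyticAt ℂ T (cp z1) := hT _ (mem_ball_self hr)
    have h2 : AnalyticAt ℂ (fun ζ => T ζ (Pi.single j 1) i) (cp z1) := by
      let L : ((Fin s → ℂ) →L[ℂ] (Fin s → ℂ)) →L[ℂ] ℂ :=
        (ContinuousLinearMap.proj (R := ℂ) (φ := fun _ : Fin s => ℂ) i).comp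
          (ContinuousLinearMap.apply ℂ (Fin s → ℂ) (Pi.single j 1 : Fin s → ℂ))
      exact (L.analyticAt _).comp h1
    show AnalyticAt ℂ ((fun z : G => mt (T (cp z)) i j) ∘ e.symm) (cp z1)
    refine h2.congr ?_
    filter_upwards [e.open_target.mem_nhds hcp] with ζ hζ
    simp only [Function.comp_apply]
    rw [hec.cp_symm hζ, mt_apply]
  · show mt (T (cp z1)) = 1
    rw [hT1, ← cl_one, mt_cl]
  · have h1 : ∀ᶠ z in 𝓝 z1, cp z ∈ ball (cp z1) r :=
      (cp_cont (M := G)).continuousAt.eventually (ball_mem_nhds _ hr)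
    filter_upwards [h1, e.open_source.mem_nhds hmem] with z hz hze
    have h2 := hTJ _ hz
    have h3 : e.symm (cp z) = z := hec.symm_cp hze
    refine ⟨fun a => ?_, ?_⟩
    · rw [mt_mulVec]
      have := h2.1 a
      simp only [h3, hsy] at this
      exact this
    · rw [det_mt]
      have := h2.2
      simp only [h3, hsy] at this
      exact this

/-- nearby fibres are isometric -/
theorem lineS_near {R : Type*} {Ψ : G → (Fin s → ℂ) → R} (hn : Nm Ψ) (hL : LineS Ψ) (z1 : G) :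
    ∀ᶠ z in 𝓝 z1, ∃ A, A ∈ Is Ψ z1 z := by
  set e := ch z1 with he
  have hec : IsCh e := isCh_ch z1
  have hmem : z1 ∈ e.source := mem_ch z1
  have hcp : cp z1 ∈ e.target := hec.cp_mem hmem
  have hsy : e.symm (cp z1) = z1 := hec.symm_cp hmem
  obtain ⟨ρ, hρ, hρe⟩ := Metric.mem_nhds_iff.1 (e.open_target.mem_nhds hcp)
  have h1 : ∀ᶠ z in 𝓝 z1, cp z ∈ ball (cp z1) ρ :=
    (cp_cont (M := G)).continuousAt.eventually (ball_mem_nhds _ hρ)
  filter_upwards [h1, e.open_source.mem_nhds hmem] with z hz hze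
  have h3 : e.symm (cp z) = z := hec.symm_cp hze
  set v := cp z - cp z1 with hv
  have hseg : ∀ τ ∈ Icc (0 : ℝ) 1, cp z1 + (τ : ℂ) • v ∈ e.target := by
    intro τ hτ
    apply hρe
    rw [mem_ball_iff_norm] at hz ⊢
    rw [add_sub_cancel_left, norm_smul, Complex.norm_real, Real.norm_eq_abs, abs_of_nonneg hτ.1]
    have := norm_nonneg (cp z - cp z1)
    nlinarith [hτ.2]
  let S : Set (Icc (0 : ℝ) 1) := {τ | ∃ A, A ∈ Is Ψ z1 (e.symm (cp z1 + ((τ : ℝ) : ℂ) • v))}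
  have hloc : ∀ τ0 : Icc (0 : ℝ) 1, ∀ᶠ τ : Icc (0 : ℝ) 1 in 𝓝 τ0, ∃ A,
      A ∈ Is Ψ (e.symm (cp z1 + ((τ0 : ℝ) : ℂ) • v)) (e.symm (cp z1 + ((τ : ℝ) : ℂ) • v)) := by
    intro τ0
    obtain ⟨r, hr, T, -, hT0, hT⟩ := hL (e.symm (cp z1 + ((τ0 : ℝ) : ℂ) • v)) v
    have h1 : Tendsto (fun τ : Icc (0 : ℝ) 1 => (((τ : ℝ) - (τ0 : ℝ) : ℝ) : ℂ)) (𝓝 τ0) (𝓝 0) := by
      have h2 : Continuous fun τ : Icc (0 : ℝ) 1 => (((τ : ℝ) - (τ0 : ℝ) : ℝ) : ℂ) := by fun_prop
      have h3 := h2.tendsto τ0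
      simpa using h3
    have h0 : ∀ᶠ t in 𝓝 (0 : ℂ), t ∈ ball (0 : ℂ) r := ball_mem_nhds _ hr
    filter_upwards [h1.eventually ((ln_eq hec (hseg τ0 τ0.2) v).and h0)] with τ hτ
    have h2 : cp z1 + ((τ0 : ℝ) : ℂ) • v + (((τ : ℝ) - (τ0 : ℝ) : ℝ) : ℂ) • v =
        cp z1 + ((τ : ℝ) : ℂ) • v := by
      push_cast
      rw [sub_smul]
      abel
    rw [h2] at hτ
    refine ⟨T (((τ : ℝ) - (τ0 : ℝ) : ℝ) : ℂ) * (T 0)⁻¹, fun a => ?_⟩
    have h4 := hT _ hτ.2 ((T 0)⁻¹ *ᵥ a)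
    rw [hτ.1] at h4
    rw [← Matrix.mulVec_mulVec, h4, Matrix.mulVec_mulVec, Matrix.mul_nonsing_inv _ hT0.isUnit,
      Matrix.one_mulVec]
  have hcl : IsClopen S := by
    constructor
    · rw [← isOpen_compl_iff, isOpen_iff_mem_nhds]
      intro τ0 hτ0
      filter_upwards [hloc τ0] with τ hτ hS
      obtain ⟨A, hA⟩ := hτ
      obtain ⟨A', hA'⟩ := hS
      exact hτ0 ⟨_, Is.mul (Is.inv hn hA) hA'⟩
    · rw [isOpen_iff_mem_nhds]
      rintro τ0 ⟨A', hA'⟩
      filter_upwards [hloc τ0] with τ hτ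
      obtain ⟨A, hA⟩ := hτ
      exact ⟨_, Is.mul hA hA'⟩
  have hne : S.Nonempty := by
    refine ⟨⟨0, le_rfl, zero_le_one⟩, 1, ?_⟩
    have h1 : cp z1 + (((0 : ℝ)) : ℂ) • v = cp z1 := by simp
    show (1 : Matrix (Fin s) (Fin s) ℂ) ∈ Is Ψ z1 (e.symm (cp z1 + (((0 : ℝ)) : ℂ) • v))
    rw [h1, hsy]
    exact Is.one
  have hPre : PreconnectedSpace (Icc (0 : ℝ) 1) := Subtype.preconnectedSpace isPreconnected_Icc
  have huniv := hcl.eq_univ hne
  have h4 : (⟨1, zero_le_one, le_rfl⟩ : Icc (0 : ℝ) 1) ∈ S := by rw [huniv]; trivial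
  obtain ⟨A, hA⟩ := h4
  have h5 : cp z1 + (((1 : ℝ)) : ℂ) • v = cp z := by
    rw [Complex.ofReal_one, one_smul, hv]; abel
  refine ⟨A, ?_⟩
  have h6 : A ∈ Is Ψ z1 (e.symm (cp z1 + (((1 : ℝ)) : ℂ) • v)) := hA
  rwa [h5, h3] at h6

/-- **FIN moves to every point** -/
theorem fin_all_S [PreconnectedSpace G] {R : Type*} {Ψ : G → (Fin s → ℂ) → R} (hn : Nm Ψ)
    (hL : LineS Ψ) {z0 : G} (h : FinAt Ψ k z0) (z : G) : FinAt Ψ k z := by
  have hcl : IsClopen {z | FinAt Ψ k z} := by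
    constructor
    · rw [← isOpen_compl_iff, isOpen_iff_mem_nhds]
      intro z1 hz1
      filter_upwards [lineS_near hn hL z1] with z hz hF
      obtain ⟨A, hA⟩ := hz
      exact hz1 (FinAt.of_is hn (Is.inv hn hA) hF)
    · rw [isOpen_iff_mem_nhds]
      intro z1 hz1
      filter_upwards [lineS_near hn hL z1] with z hz
      obtain ⟨A, hA⟩ := hz
      exact FinAt.of_is hn hA hz1
  have := hcl.eq_univ ⟨z0, h⟩
  have hz : z ∈ {z | FinAt Ψ k z} := by rw [this]; trivial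
  exact hz

/-- **the data of FLATALG** -/
theorem datS [PreconnectedSpace G] (D : FD Φ f p k l) (hL : LineS Φ) {w0 : G} (hf : FinAt Φ k w0)
    (z0 : G) : Dat Φ (fun z => (f z0 / f z) ^ l) k z0 where
  toNm := D.nm
  tr := by
    intro z1
    obtain ⟨T, h1, -, h3⟩ := globS_at D hL (fin_all_S D.nm hL hf z1)
    exact ⟨T, h1, h3.mono fun z hz => hz.1⟩
  s_pos := D.s0
  m_pos := D.k0
  D_one := by rw [div_self (D.f0 z0), one_pow]
  D_ne := fun z => pow_ne_zero _ (div_ne_zero (D.f0 z0) (D.f0 z))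
  D_hol := by
    intro z
    have h1 := holAt_of_hol D.hol z
    have h2 : HolAt (fun z => (f z)⁻¹) z := FlatT_464.HolAt.inv h1 (D.f0 z)
    have h3 : HolAt (fun x : G => f z0 * (f x)⁻¹) z :=
      FlatT_464.HolAt.mul (FlatT_464.holAt_const _ z) h2
    have h4 := FlatT_464.HolAt.pow h3 l
    simpa only [div_eq_mul_inv] using h4
  det := by
    intro z A hA
    have h1 := D.det z0 z A hA
    rw [norm_pow, norm_div, div_pow, eq_div_iff (pow_ne_zero _ (norm_ne_zero_iff.2 (D.f0 z)))]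
    exact h1
  fin := fin_all_S D.nm hL hf z0

end rd

/-! ### flat families -/

section ff

open Crest.Agent.R271 Crest.Agent.R271.Ho51 Crest.Agent.R271.Rd692
open Crest.Agent.R276.Mod1_987 Crest.Agent.R276.FlatM_464 Crest.Agent.R276.FlatDefs_236
open Crest.Agent.R276.GlobR_739 Crest.Agent.R276.GlobF_739
open Crest.Agent.R276.FlatT_464 (Is Nm Loc Dat)
open Crest.Agent.R276.Ipc735 (HolAt OneStep)
open Crest.Agent.R276.Iter_840
open Crest.Agent.R276.Liou_739 (ln)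

variable {L K : Type} [Field L] [Field K] [Algebra ℂ L] [Algebra ℂ K] [Algebra L K]
  [IsScalarTower ℂ L K] {m r : ℕ} {R : RMdl L K m r} {N s : ℕ} {u : Fin s → R.MK.B}
  {f : R.ML.Pts → ℂ} {M : ℕ}

theorem lineS_iff (S : SatFam R N u) : LineS (PhiR N u) ↔ LineS (Phi N u) := by
  constructor
  · intro h x v
    obtain ⟨r, hr, T, h1, h2, h3⟩ := h x v
    exact ⟨r, hr, T, h1, h2, fun t ht a =>
      (ENNReal.toReal_eq_toReal_iff' (S.fin _ _) (S.fin _ _)).1 (h3 t ht a)⟩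
  · intro h x v
    obtain ⟨r, hr, T, h1, h2, h3⟩ := h x v
    refine ⟨r, hr, T, h1, h2, fun t ht a => ?_⟩
    unfold PhiR
    rw [h3 t ht a]

/-- `Phi` is a norm -/
theorem nm (S : SatFam R N u) : Nm (Phi N u) :=
  { pos := fun z _ h => Phi_ne_zero S z (h.trans (PHI_zero (rp_pos S.N_ge) z))
    circ := fun z c a hc => PHI_circ z c a hc }

/-- **FIN at every point** -/
theorem fin_at (hO : OneStep) (hR : StepRz) (hRA : StepRzAct) (S : SatFam R N u)
    (hL : LineS (Phi N u)) {k : ℕ} (hk : 0 < k) (z : R.ML.Pts) : FinAt (Phi N u) k z := by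
  obtain ⟨P, hP0, hP⟩ := FinSat_348.fin_sat hO hR hRA S
  obtain ⟨w, hw⟩ := exists_pt (R := R) hP0
  exact fin_all_S (G := R.ML.Pts) (nm S) hL (hP w hw k hk) z

/-- **(LT)** from line transports and FIN at one point -/
theorem lt_of_fin (F : FlatFam R N u f M) (hL : LineS (Phi N u)) {w0 : R.ML.Pts}
    (hf : FinAt (Phi N u) M w0) (z1 : R.ML.Pts) :
    ∃ T : R.ML.Pts → Matrix (Fin s) (Fin s) ℂ, (∀ i j, HolAt (fun z => T z i j) z1) ∧ T z1 = 1 ∧
      ∀ᶠ z in 𝓝 z1, T z ∈ Is (Phi N u) z1 z ∧ (T z).det ^ M * f z ^ N = f z1 ^ N := by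
  have hL' := (lineS_iff F.toSatFam).2 hL
  have hf' := (finAt_iff F.toSatFam).2 hf
  obtain ⟨T, h1, h2, h3⟩ := globS_at (fd F) hL' (fin_all_S (G := R.ML.Pts) (fd F).nm hL' hf' z1)
  exact ⟨T, h1, h2, h3.mono fun z hz => ⟨(is_iff F.toSatFam).1 hz.1, hz.2⟩⟩

/-- **(LT)** from line transports -/
theorem lt (hO : OneStep) (hR : StepRz) (hRA : StepRzAct) (F : FlatFam R N u f M)
    (hL : LineS (Phi N u)) (z1 : R.ML.Pts) :
    ∃ T : R.ML.Pts → Matrix (Fin s) (Fin s) ℂ, (∀ i j, HolAt (fun z => T z i j) z1) ∧ T z1 = 1 ∧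
      ∀ᶠ z in 𝓝 z1, T z ∈ Is (Phi N u) z1 z ∧ (T z).det ^ M * f z ^ N = f z1 ^ N :=
  lt_of_fin F hL (fin_at hO hR hRA F.toSatFam hL F.M_pos z1) z1

/-- **the hypotheses of FLATALG** -/
theorem hyp (hO : OneStep) (hR : StepRz) (hRA : StepRzAct) (F : FlatFam R N u f M)
    (hL : LineS (Phi N u)) :
    FlatA_464.Hyp (nu R) (sg u) N (fun w => (DN N u w).toReal) f M where
  meas := measurable_sg u
  fin := F.fin
  D_pos := fun z => ENNReal.toReal_pos (F.D_pos z).ne' (F.D_fin z)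
  D_eq := fun z => (ENNReal.ofReal_toReal (F.D_fin z)).symm
  M_pos := F.M_pos
  f_hol := holAt_of_hol F.hol
  f_ne := F.ne
  fl := F.eq
  lt := by
    intro z1
    obtain ⟨T, h1, -, h3⟩ := lt hO hR hRA F hL z1
    exact ⟨T, h1, h3.mono fun z hz => hz.1⟩

/-- **the data of FLATALG, torsor form, real valued norm** -/
theorem datR (hO : OneStep) (hR : StepRz) (hRA : StepRzAct) (F : FlatFam R N u f M)
    (hL : LineS (Phi N u)) (z0 : R.ML.Pts) :
    Dat (PhiR N u) (fun z => (f z0 / f z) ^ N) M z0 :=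
  datS (fd F) ((lineS_iff F.toSatFam).2 hL)
    ((finAt_iff F.toSatFam).2 (fin_at hO hR hRA F.toSatFam hL F.M_pos z0)) z0

/-- **the data of FLATALG, torsor form** -/
theorem dat (hO : OneStep) (hR : StepRz) (hRA : StepRzAct) (F : FlatFam R N u f M)
    (hL : LineS (Phi N u)) (z0 : R.ML.Pts) :
    Dat (Phi N u) (fun z => (f z0 / f z) ^ N) M z0 := by
  have h := datR hO hR hRA F hL z0
  refine { toNm := nm F.toSatFam, tr := ?_, s_pos := h.s_pos, m_pos := h.m_pos, D_one := h.D_one,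
           D_ne := h.D_ne, D_hol := h.D_hol, det := ?_, fin := ?_ }
  · intro z1
    obtain ⟨T, h1, h2⟩ := h.tr z1
    exact ⟨T, h1, h2.mono fun z hz => (is_iff F.toSatFam).1 hz⟩
  · intro z A hA
    exact h.det z A ((is_iff F.toSatFam).2 hA)
  · exact fin_at hO hR hRA F.toSatFam hL F.M_pos z0

end ff

end Crest.Agent.R276.GlobS_739
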