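import Crest.Agent.R276.LM1_976
import Crest.Agent.R276.EndTh_659

/-!
# R276, leaf COUNT-GR (helper606), part A: norms with supporting functionals

`Sp ν` : every vector has a supporting functional.  For holomorphic `g` (scalar) and `W` (vector
valued) the function `‖g‖ · ν(W)^k` satisfies the maximum principle on discs and `(‖g‖ ν(W)^k)²` the
sub-mean-value inequality on balanced sets.  No tensor powers.
-/

set_option autoImplicit false

open Set Filter Topology Matrix MeasureTheory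
open scoped ContDiff ComplexConjugate ComplexOrder ENNReal

namespace Crest.Agent.R276.GrA_606

section sp

variable {V : Type*} [NormedAddCommGroup V] [NormedSpace ℂ V]

/-- every vector has a supporting functional -/
def Sp (ν : V → ℝ) : Prop := ∀ v, ∃ l : V →L[ℂ] ℂ, ‖l v‖ = ν v ∧ ∀ u, ‖l u‖ ≤ ν u

variable {ν : V → ℝ}

theorem Sp.nonneg (h : Sp ν) (v : V) : 0 ≤ ν v := by
  obtain ⟨l, h1, -⟩ := h v
  rw [← h1]; exact norm_nonneg _

theorem Sp.zero (h : Sp ν) : ν 0 = 0 := by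
  obtain ⟨l, h1, -⟩ := h 0
  rw [← h1, map_zero, norm_zero]

theorem Sp.add_le (h : Sp ν) (u v : V) : ν (u + v) ≤ ν u + ν v := by
  obtain ⟨l, h1, h2⟩ := h (u + v)
  rw [← h1, map_add]
  exact (norm_add_le _ _).trans (add_le_add (h2 u) (h2 v))

theorem Sp.smul (h : Sp ν) (c : ℂ) (v : V) : ν (c • v) = ‖c‖ * ν v := by
  apply le_antisymm
  · obtain ⟨l, h1, h2⟩ := h (c • v)
    rw [← h1, map_smul, norm_smul]
    exact mul_le_mul_of_nonneg_left (h2 v) (norm_nonneg _)
  · obtain ⟨l, h1, h2⟩ := h v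
    rw [← h1, ← norm_smul, ← map_smul]
    exact h2 _

theorem Sp.neg (h : Sp ν) (v : V) : ν (-v) = ν v := by
  have := h.smul (-1) v
  simpa using this

theorem Sp.sub_le (h : Sp ν) (u v : V) : ν (u - v) ≤ ν u + ν v := by
  rw [sub_eq_add_neg]
  exact (h.add_le _ _).trans (by rw [h.neg])

theorem Sp.sum_le (h : Sp ν) {α : Type*} (s : Finset α) (f : α → V) :
    ν (∑ i ∈ s, f i) ≤ ∑ i ∈ s, ν (f i) := by
  obtain ⟨l, h1, h2⟩ := h (∑ i ∈ s, f i)
  rw [← h1, map_sum]
  exact (norm_sum_le _ _).trans (Finset.sum_le_sum fun i _ => h2 _)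

/-- pull-back by a linear map -/
theorem Sp.comp (h : Sp ν) {V' : Type*} [NormedAddCommGroup V'] [NormedSpace ℂ V']
    (A : V' →L[ℂ] V) : Sp (fun v => ν (A v)) := by
  intro v
  obtain ⟨l, h1, h2⟩ := h (A v)
  exact ⟨l.comp A, h1, fun u => h2 _⟩

theorem Sp.const_mul (h : Sp ν) {c : ℝ} (hc : 0 ≤ c) : Sp (fun v => c * ν v) := by
  intro v
  obtain ⟨l, h1, h2⟩ := h v
  refine ⟨(c : ℂ) • l, ?_, fun u => ?_⟩
  · simp only [_root_.smul_apply, norm_smul, Complex.norm_real, Real.norm_eq_abs,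
      abs_of_nonneg hc, h1]
  · simp only [_root_.smul_apply, norm_smul, Complex.norm_real, Real.norm_eq_abs,
      abs_of_nonneg hc]
    exact mul_le_mul_of_nonneg_left (h2 u) hc

/-- **maximum principle** on a bounded set of `ℂ` -/
theorem Sp.max_le (h : Sp ν) {U : Set ℂ} (hU : Bornology.IsBounded U) {g : ℂ → ℂ} {W : ℂ → V}
    (hg : DiffContOnCl ℂ g U) (hW : DiffContOnCl ℂ W U) {k : ℕ} {M : ℝ}
    (hM : ∀ z ∈ frontier U, ‖g z‖ * ν (W z) ^ k ≤ M) {z : ℂ} (hz : z ∈ closure U) :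
    ‖g z‖ * ν (W z) ^ k ≤ M := by
  obtain ⟨l, h1, h2⟩ := h (W z)
  have hl : DiffContOnCl ℂ (fun z => l (W z)) U :=
    ⟨l.differentiable.comp_differentiableOn hW.differentiableOn,
      l.continuous.comp_continuousOn hW.continuousOn⟩
  have hf : DiffContOnCl ℂ (fun z => g z * l (W z) ^ k) U :=
    ⟨hg.differentiableOn.mul (hl.differentiableOn.pow k),
      hg.continuousOn.mul (hl.continuousOn.pow k)⟩
  have h3 := Complex.norm_le_of_forall_mem_frontier_norm_le hU hf (C := M) (fun w hw => by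
    rw [norm_mul, norm_pow]
    exact (mul_le_mul_of_nonneg_left (pow_le_pow_left₀ (norm_nonneg _) (h2 _) k)
      (norm_nonneg _)).trans (hM w hw)) hz
  rwa [norm_mul, norm_pow, h1] at h3

/-- maximum principle on a disc -/
theorem Sp.max_disc (h : Sp ν) {c : ℂ} {r : ℝ} (hr : 0 < r) {g : ℂ → ℂ} {W : ℂ → V}
    (hg : DiffContOnCl ℂ g (Metric.ball c r)) (hW : DiffContOnCl ℂ W (Metric.ball c r)) {k : ℕ}
    {M : ℝ} (hM : ∀ z ∈ Metric.sphere c r, ‖g z‖ * ν (W z) ^ k ≤ M) :
    ‖g c‖ * ν (W c) ^ k ≤ M := by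
  refine h.max_le Metric.isBounded_ball hg hW (fun z hz => hM z ?_)
    (subset_closure (Metric.mem_ball_self hr))
  rwa [frontier_ball c hr.ne'] at hz

end sp

section mv

variable {V : Type*} [NormedAddCommGroup V] [NormedSpace ℂ V] {ν : V → ℝ}
variable {E : Type*} [NormedAddCommGroup E] [NormedSpace ℂ E] [FiniteDimensional ℂ E]
  [MeasurableSpace E] [BorelSpace E]

/-- **sub-mean-value inequality** on a balanced set -/
theorem Sp.mean (h : Sp ν) (μ : Measure E) [μ.IsAddHaarMeasure] {S : Set E} (hS : IsOpen S)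
    (hb : Balanced ℂ S) {g : E → ℂ} {W : E → V} {p : E}
    (hg : DifferentiableOn ℂ (fun w => g (p + w)) S)
    (hW : DifferentiableOn ℂ (fun w => W (p + w)) S) (k : ℕ) :
    ENNReal.ofReal ((‖g p‖ * ν (W p) ^ k) ^ 2) * μ S ≤
      ∫⁻ w in S, ENNReal.ofReal ((‖g (p + w)‖ * ν (W (p + w)) ^ k) ^ 2) ∂μ := by
  obtain ⟨l, h1, h2⟩ := h (W p)
  have hf : DifferentiableOn ℂ (fun w => g (p + w) * l (W (p + w)) ^ k) S :=
    hg.mul ((l.differentiable.comp_differentiableOn hW).pow k)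
  have h3 := LM1_976.sq_mul_measure_le μ hS hb hf
  simp only [add_zero] at h3
  rw [← LM1_976.enorm_sq_eq, norm_mul, norm_pow, h1] at h3
  refine h3.trans (lintegral_mono fun w => ?_)
  rw [← LM1_976.enorm_sq_eq, norm_mul, norm_pow]
  refine ENNReal.ofReal_le_ofReal (pow_le_pow_left₀ (by positivity) ?_ 2)
  exact mul_le_mul_of_nonneg_left (pow_le_pow_left₀ (norm_nonneg _) (h2 _) k) (norm_nonneg _)

end mv

section hodge

open EndTh_659

variable {ι : Type*} [Fintype ι] [DecidableEq ι]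

/-- Hahn-Banach -/
theorem sp_norm {E : Type*} [NormedAddCommGroup E] [NormedSpace ℂ E] : Sp (fun v : E => ‖v‖) := by
  intro v
  obtain ⟨g, h1, h2⟩ := exists_dual_vector'' ℂ v
  refine ⟨g, ?_, fun u => ?_⟩
  · rw [h2]; simp
  · exact (g.le_opNorm u).trans (mul_le_of_le_one_left (norm_nonneg _) h1)

/-- the norm of a positive definite Hermitian form has supporting functionals -/
theorem sp_nq {K : Matrix ι ι ℂ} (hK : K.PosDef) : Sp (fun v : ι → ℂ => √(nq K v)) := by
  obtain ⟨B, hB, hKB⟩ := VCalc_442.exists_sqrt hK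
  have h1 := (sp_norm (E := EuclideanSpace ℂ ι)).comp
    ((EuclideanSpace.equiv ι ℂ).symm.toContinuousLinearMap.comp
      (LinearMap.toContinuousLinearMap (Matrix.mulVecLin B)))
  have h2 : (fun v : ι → ℂ => √(nq K v)) = fun v => ‖((EuclideanSpace.equiv ι ℂ).symm.toContinuousLinearMap.comp
      (LinearMap.toContinuousLinearMap (Matrix.mulVecLin B))) v‖ := by
    funext v
    rw [nq_eq hKB, EuclideanSpace.norm_eq]
    rfl
  rw [h2]
  exact h1

end hodge

end Crest.Agent.R276.GrA_606
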