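import Crest.Agent.R276.GrAs1_857

/-!
# R276, leaf COUNT-GR, final assembly, part 2 (helper857): growth on the shells

* `g1`, `g2`, `gro`: the structure `Gro` from `WD` and `LD`;
* `phW_gen`: the bound of the canonical weight near every point of the divisor (`Gen`, `p = 1`).
-/

set_option autoImplicit false
set_option linter.unusedSectionVars false

noncomputable section

open Set Filter Topology Matrix Metric ComplexConjugate MeasureTheory
open Crest.Agent.R271.Ho51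
open Crest.Agent.R276.Ipc735
open Crest.Agent.R276.CntDefs_857
open Crest.Agent.R276.LftDefs_327 (WD LD)
open Crest.Agent.R276.GrAs1_857

namespace Crest.Agent.R276.GrAs2_857

variable {d m N w : ℕ} {M E X : Type*} [TopologicalSpace M] [RDom (d + 1) M]
    [MeasurableSpace M] {μ : Measure M} [TopologicalSpace E] [RDom d E] [TopologicalSpace X]
    [RDom m X] {D : DChart M E μ} {V : VHS m X N w} {om : X → Fin N → ℂ} {u : X → ℂ} {M0 : ℕ}
    {f : X → M} {ι : Fin (d + 1) → Fin m} {φ ψ : M → ℝ}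

lemma Sh_sub (D : DChart M E μ) (y : E) {q : Fin (d + 1) → ℂ} (hq : q ∈ Sh d (D.r y)) :
    q ∈ PS d (D.r y) := by
  have hr := r_pos D y
  obtain ⟨h1, h2, h3⟩ := hq
  refine ⟨fun h0 => ?_, fun i => ?_⟩
  · rw [h0, norm_zero] at h1; linarith
  · refine Fin.cases ?_ (fun j => ?_) i
    · linarith
    · have := h3 j; linarith

lemma log_Sh (D : DChart M E μ) (y : E) {q : Fin (d + 1) → ℂ} (hq : q ∈ Sh d (D.r y)) :
    0 ≤ -Real.log ‖q 0‖ ∧ -Real.log ‖q 0‖ ≤ Real.log (1 / D.r y) + 2 := by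
  have hr := r_pos D y
  have hr1 := r_le_one D y
  obtain ⟨h1, h2, -⟩ := hq
  have h0 : 0 < ‖q 0‖ := by linarith
  constructor
  · have := Real.log_nonpos h0.le (by linarith)
    linarith
  · have h3 : Real.log (D.r y / 4) ≤ Real.log ‖q 0‖ := Real.log_le_log (by positivity) h1.le
    rw [Real.log_div hr.ne' (by norm_num)] at h3
    have h4 : Real.log (1 / D.r y) = -Real.log (D.r y) := by
      rw [one_div, Real.log_inv]
    have h5 : Real.log 4 ≤ 2 := by
      have : (4 : ℝ) = 2 ^ 2 := by norm_num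
      rw [this, Real.log_pow]
      have := Real.log_two_lt_d9
      push_cast; linarith
    rw [h4]; linarith

/-- **`g1`** -/
theorem g1 (h : WD V om u M0 f ι φ ψ) (l : LD D V om u f) : ∃ C : ℝ, 0 ≤ C ∧ ∀ y,
    ∀ q ∈ Sh d (D.r y), D.phW φ y q ≤ C * (1 + Real.log (1 / D.r y)) := by
  set c := EndTh_659.cst (Fin N) with hc
  have hc0 : 0 < c := EndTh_659.cst_pos (Fin N)
  refine ⟨|Real.log (16 * c)| + d * |Real.log (4 * c)| + 2 * d + 2 + 4, by positivity,
    fun y q hq => ?_⟩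
  have hr := r_pos D y
  have hr1 := r_le_one D y
  have hL := log_r_nonneg D y
  set Lr := Real.log (1 / D.r y) with hLr
  have hLr' : Lr = -Real.log (D.r y) := by rw [hLr, one_div, Real.log_inv]
  have hPS := Sh_sub D y hq
  obtain ⟨b1, b2⟩ := log_Sh D y hq
  have h0 : 0 < ‖q 0‖ := norm_pos_iff.2 hPS.1
  have h1 := phW_le h l y hPS (δ := D.r y / 2) (by positivity) (fun i => by
    have := hq.2.2 i; linarith)
  refine h1.trans ?_
  rw [← hc]
  -- the distance to the boundary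
  have h2 : (1 : ℝ) / 4 ≤ Real.log (D.r y) - Real.log ‖q 0‖ := by
    rw [← Real.log_div hr.ne' h0.ne']
    have h3 : (4 : ℝ) / 3 ≤ D.r y / ‖q 0‖ := by
      rw [div_le_div_iff₀ (by norm_num) h0]
      have := hq.2.1; linarith
    have h4 : 1 - (4 / 3 : ℝ)⁻¹ ≤ Real.log (4 / 3) := Real.one_sub_inv_le_log_of_pos (by norm_num)
    have h5 := Real.log_le_log (by norm_num) h3
    have h6 : 1 - (4 / 3 : ℝ)⁻¹ = 1 / 4 := by norm_num
    linarith
  have h3 : c / (Real.log (D.r y) - Real.log ‖q 0‖) ^ 2 ≤ 16 * c := by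
    rw [div_le_iff₀ (by apply pow_pos; linarith)]
    have : (1 / 4 : ℝ) ^ 2 ≤ (Real.log (D.r y) - Real.log ‖q 0‖) ^ 2 :=
      pow_le_pow_left₀ (by norm_num) h2 2
    nlinarith
  have h4 : Real.log (c / (Real.log (D.r y) - Real.log ‖q 0‖) ^ 2 * (c / (D.r y / 2) ^ 2) ^ d) ≤
      Real.log (16 * c) + d * (Real.log (4 * c) + 2 * Lr) := by
    have h5 : 0 < c / (Real.log (D.r y) - Real.log ‖q 0‖) ^ 2 := by
      apply div_pos hc0; apply pow_pos; linarith
    have h6 : 0 < c / (D.r y / 2) ^ 2 := by positivity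
    rw [Real.log_mul h5.ne' (pow_pos h6 d).ne', Real.log_pow]
    have h7 : Real.log (c / (D.r y / 2) ^ 2) = Real.log (4 * c) + 2 * Lr := by
      have e1 : c / (D.r y / 2) ^ 2 = 4 * c / (D.r y) ^ 2 := by field_simp; norm_num
      rw [e1, Real.log_div (by positivity) (by positivity), Real.log_pow, hLr']
      push_cast; ring
    rw [h7]
    have h8 := Real.log_le_log h5 h3
    linarith
  have h5 : Real.log (‖q 0‖ ^ 2) = 2 * Real.log ‖q 0‖ := by rw [Real.log_pow]; norm_num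
  rw [h5]
  have a1 := le_abs_self (Real.log (16 * c))
  have a2 := le_abs_self (Real.log (4 * c))
  have a3 : (0 : ℝ) ≤ d := Nat.cast_nonneg d
  have a4 := abs_nonneg (Real.log (16 * c))
  have a5 := abs_nonneg (Real.log (4 * c))
  have a6 : (d : ℝ) * Real.log (4 * c) ≤ d * |Real.log (4 * c)| := mul_le_mul_of_nonneg_left a2 a3
  have a7 : 0 ≤ |Real.log (16 * c)| * Lr := mul_nonneg a4 hL
  have a8 : 0 ≤ (d : ℝ) * |Real.log (4 * c)| * Lr := mul_nonneg (mul_nonneg a3 a5) hL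
  nlinarith [mul_nonneg a3 hL]

/-- **`g2`** -/
theorem g2 (h : WD V om u M0 f ι φ ψ) (l : LD D V om u f) (c : ℝ) (k : ℤ) : ∃ C : ℝ, 0 ≤ C ∧ ∀ y,
    ∀ q ∈ Sh d (D.r y), D.psI (fun x => c * ψ x) k y q ≤ C * (1 + Real.log (1 / D.r y)) := by
  have hM : (0 : ℝ) < M0 := by exact_mod_cast h.hM
  have hC := l.hC
  set A : ℝ := 3 * l.C + 1 / M0 * (2 * (|(l.ku : ℝ)| * 2 + l.C)) with hA
  have hA0 : 0 ≤ A := by
    have : 0 ≤ l.C := by linarith
    positivity
  refine ⟨|c| * A + |(k : ℝ)| * 4, by positivity, fun y q hq => ?_⟩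
  have hL := log_r_nonneg D y
  set Lr := Real.log (1 / D.r y) with hLr
  have hPS := Sh_sub D y hq
  obtain ⟨b1, b2⟩ := log_Sh D y hq
  rw [← hLr] at b2
  have h0 : 0 < ‖q 0‖ := norm_pos_iff.2 hPS.1
  have hLC : 0 ≤ l.C := by linarith
  -- `|ψ|`
  have p1 : |VLevi_327.psi V om (l.s y q)| ≤ 3 * l.C * (1 + Lr) := by
    refine (l.psi_le y q hPS).trans ?_
    have e1 : Real.log (1 / ‖q 0‖) = -Real.log ‖q 0‖ := by rw [one_div, Real.log_inv]
    rw [e1, ← hLr]
    nlinarith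
  -- `log |u|²`
  obtain ⟨G, -, hG, hu⟩ := l.unit y
  have hq0 : q ∈ ball (0 : Fin (d + 1) → ℂ) (D.r y) := by
    rw [mem_ball_zero_iff, pi_norm_lt_iff (r_pos D y)]
    exact hPS.2
  obtain ⟨hG0, hG1⟩ := hG q hq0
  have p2 : |Real.log (‖u (l.s y q)‖ ^ 2)| ≤ 2 * (|(l.ku : ℝ)| * 2 + l.C) * (1 + Lr) := by
    rw [hu q hPS, norm_mul, norm_zpow, Real.log_pow,
      Real.log_mul (zpow_ne_zero _ h0.ne') (norm_pos_iff.2 hG0).ne', Real.log_zpow]
    push_cast
    rw [abs_mul, abs_two]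
    have e1 : |(l.ku : ℝ) * Real.log ‖q 0‖ + Real.log ‖G q‖| ≤
        |(l.ku : ℝ)| * (Lr + 2) + l.C * (1 + Lr) := by
      refine (abs_add_le _ _).trans (add_le_add ?_ hG1)
      rw [abs_mul]
      refine mul_le_mul_of_nonneg_left ?_ (abs_nonneg _)
      rw [abs_of_nonpos (by linarith)]
      exact b2
    have e2 : |(l.ku : ℝ)| * (Lr + 2) + l.C * (1 + Lr) ≤ (|(l.ku : ℝ)| * 2 + l.C) * (1 + Lr) := by
      have := abs_nonneg (l.ku : ℝ)
      nlinarith [mul_nonneg this hL]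
    linarith
  have p3 : |ψ (D.σ y q)| ≤ A * (1 + Lr) := by
    rw [← l.fs y q hPS, h.hψ]
    refine (abs_sub _ _).trans ?_
    rw [abs_mul, abs_of_nonneg (show (0 : ℝ) ≤ 1 / M0 by positivity)]
    have e3 : 1 / (M0 : ℝ) * |Real.log (‖u (l.s y q)‖ ^ 2)| ≤
        1 / M0 * (2 * (|(l.ku : ℝ)| * 2 + l.C) * (1 + Lr)) :=
      mul_le_mul_of_nonneg_left p2 (by positivity)
    calc _ ≤ 3 * l.C * (1 + Lr) + 1 / M0 * (2 * (|(l.ku : ℝ)| * 2 + l.C) * (1 + Lr)) :=
          add_le_add p1 e3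
      _ = A * (1 + Lr) := by rw [hA]; ring
  unfold DChart.psI
  have e4 : c * ψ (D.σ y q) ≤ |c| * (A * (1 + Lr)) := by
    calc c * ψ (D.σ y q) ≤ |c * ψ (D.σ y q)| := le_abs_self _
      _ = |c| * |ψ (D.σ y q)| := abs_mul _ _
      _ ≤ _ := mul_le_mul_of_nonneg_left p3 (abs_nonneg _)
  have e5 : (k : ℝ) * Real.log (‖q 0‖ ^ 2) ≤ |(k : ℝ)| * 4 * (1 + Lr) := by
    rw [Real.log_pow]
    push_cast
    calc (k : ℝ) * (2 * Real.log ‖q 0‖) ≤ |(k : ℝ) * (2 * Real.log ‖q 0‖)| := le_abs_self _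
      _ = |(k : ℝ)| * (2 * -Real.log ‖q 0‖) := by
          rw [abs_mul, abs_of_nonpos (show 2 * Real.log ‖q 0‖ ≤ 0 by linarith)]
          ring
      _ ≤ |(k : ℝ)| * (4 * (1 + Lr)) := by
          refine mul_le_mul_of_nonneg_left ?_ (abs_nonneg _)
          linarith
      _ = _ := by ring
  calc c * ψ (D.σ y q) + (k : ℝ) * Real.log (‖q 0‖ ^ 2)
      ≤ |c| * (A * (1 + Lr)) + |(k : ℝ)| * 4 * (1 + Lr) := add_le_add e4 e5
    _ = _ := by ring

/-- **`Gro`** -/
theorem gro (h : WD V om u M0 f ι φ ψ) (l : LD D V om u f) (c : ℝ) (k : ℤ) :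
    Nonempty (CntB_857.Gro D φ (fun x => c * ψ x) k) := by
  obtain ⟨C1, hC1, h1⟩ := g1 h l
  obtain ⟨C2, hC2, h2⟩ := g2 h l c k
  refine ⟨⟨max 1 (max C1 C2), le_max_left _ _, fun y q hq => (h1 y q hq).trans ?_,
    fun y q hq => (h2 y q hq).trans ?_⟩⟩
  · refine mul_le_mul_of_nonneg_right ((le_max_left _ _).trans (le_max_right _ _)) ?_
    linarith [log_r_nonneg D y]
  · refine mul_le_mul_of_nonneg_right ((le_max_right _ _).trans (le_max_right _ _)) ?_
    linarith [log_r_nonneg D y]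

/-- the bound of `Gen` (`p = 1`) for the canonical weight, at every point of the divisor -/
theorem phW_gen (h : WD V om u M0 f ι φ ψ) (l : LD D V om u f) (y : E) : ∃ C : ℝ,
    ∀ q ∈ PS d (D.r y / 2), D.phW φ y q ≤ C - (1 : ℕ) * Real.log (‖q 0‖ ^ 2) := by
  set c := EndTh_659.cst (Fin N) with hc
  have hc0 : 0 < c := EndTh_659.cst_pos (Fin N)
  have hr := r_pos D y
  refine ⟨Real.log (4 * c * (c / (D.r y / 2) ^ 2) ^ d), fun q hq => ?_⟩
  have hPS : q ∈ PS d (D.r y) := ⟨hq.1, fun i => by have := hq.2 i; linarith⟩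
  have h0 : 0 < ‖q 0‖ := norm_pos_iff.2 hPS.1
  have h1 := phW_le h l y hPS (δ := D.r y / 2) (by positivity) (fun i => by
    have := hq.2 i.succ; linarith)
  refine h1.trans ?_
  rw [← hc]
  have h2 : (1 : ℝ) / 2 ≤ Real.log (D.r y) - Real.log ‖q 0‖ := by
    rw [← Real.log_div hr.ne' h0.ne']
    have h3 : (2 : ℝ) ≤ D.r y / ‖q 0‖ := by
      rw [le_div_iff₀ h0]
      have := hq.2 0; linarith
    have h5 := Real.log_le_log (by norm_num) h3
    have := Real.log_two_gt_d9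
    linarith
  have h3 : c / (Real.log (D.r y) - Real.log ‖q 0‖) ^ 2 ≤ 4 * c := by
    rw [div_le_iff₀ (by apply pow_pos; linarith)]
    have : (1 / 2 : ℝ) ^ 2 ≤ (Real.log (D.r y) - Real.log ‖q 0‖) ^ 2 :=
      pow_le_pow_left₀ (by norm_num) h2 2
    nlinarith
  have h5 : 0 < c / (Real.log (D.r y) - Real.log ‖q 0‖) ^ 2 := by
    apply div_pos hc0; apply pow_pos; linarith
  have h6 : 0 < c / (D.r y / 2) ^ 2 := by positivity
  have h7 := Real.log_le_log (mul_pos h5 (pow_pos h6 d))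
    (mul_le_mul_of_nonneg_right h3 (pow_pos h6 d).le)
  push_cast
  linarith

end Crest.Agent.R276.GrAs2_857
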