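import Crest.Agent.R276.GrK_217
import Crest.Agent.R276.BdNf8_651
import Crest.Agent.R276.DescG_327
import Crest.Agent.R276.GrAs2_857

/-!
# R276, leaf COUNT-GR, part L (helper217): the rank of the twisted section

For the family of normal forms `BFam` (651) the span of `Om` and its derivatives has dimension at most
`ν + 1`, where `ν` is the maximal rank of the Levi form of `ψ`; hence `Full` from `WD`, `LD`, `BFam`.
-/

set_option autoImplicit false
set_option linter.unusedSectionVars false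

open Set Filter Topology Matrix Metric MeasureTheory
open scoped ComplexOrder ContDiff ComplexConjugate

noncomputable section

namespace Crest.Agent.R276.GrL_217

open Crest.Agent.R271.Ho51
open Crest.Agent.R276.VCalc_442

/-! ### the chain rule for `∂̄_v ∂_v` -/

section chain

variable {m : ℕ} {E : Type*} [NormedAddCommGroup E] [NormedSpace ℂ E]

theorem diff_dW {F : (Fin m → ℂ) → ℂ} {z : Fin m → ℂ} (hF : ContDiffAt ℝ 2 F z) (w : Fin m → ℂ) :
    DifferentiableAt ℝ (dW F w) z := by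
  have h : DifferentiableAt ℝ (fderiv ℝ F) z :=
    (hF.fderiv_right (m := 1) (by norm_num)).differentiableAt (by simp)
  have h2 : ∀ u : Fin m → ℂ, DifferentiableAt ℝ (fun y => fderiv ℝ F y u) z :=
    fun u => h.clm_apply (differentiableAt_const u)
  exact ((h2 _).sub ((h2 _).const_smul Complex.I)).const_smul (1 / 2 : ℂ)

theorem dB_dW_comp {F : (Fin m → ℂ) → ℂ} {G : E → Fin m → ℂ} {q : E}
    (hF : ContDiffAt ℝ 2 F (G q)) (hG : AnalyticAt ℂ G q) (v : E) :
    dB (dW (fun y => F (G y)) v) v q = dB (dW F (fderiv ℂ G q v)) (fderiv ℂ G q v) (G q) := by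
  have hGc : ContinuousAt G q := hG.continuousAt
  -- the first derivative near `q`
  have h1 : dW (fun y => F (G y)) v =ᶠ[𝓝 q] fun y =>
      ∑ j, (fderiv ℂ G y v) j * dW F (Pi.single j 1) (G y) := by
    have hF1 : ∀ᶠ x in 𝓝 (G q), ContDiffAt ℝ 2 F x := hF.eventually (by simp)
    filter_upwards [hGc.eventually hF1, hG.eventually_analyticAt] with y hy hy2
    rw [EndTh_659.dW_comp (hy.differentiableAt (by simp)) hy2.differentiableAt, Ipc735.dW_sum_dir]
  have hd : ∀ j : Fin m, DifferentiableAt ℂ (fun y => (fderiv ℂ G y v) j) q := by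
    intro j
    have h2 : DifferentiableAt ℂ (fun y => fderiv ℂ G y v) q :=
      (hG.fderiv.differentiableAt).clm_apply (differentiableAt_const v)
    exact differentiableAt_pi.1 h2 j
  have hd2 : ∀ j : Fin m, DifferentiableAt ℝ (dW F (Pi.single j 1)) (G q) := fun j => diff_dW hF _
  have hGr : DifferentiableAt ℝ G q := hG.differentiableAt.restrictScalars ℝ
  have hd3 : ∀ j : Fin m, DifferentiableAt ℝ (fun y => dW F (Pi.single j 1) (G y)) q := fun j =>
    (hd2 j).comp q hGr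
  rw [dB_congr h1, dB_sum (f := fun j y => (fderiv ℂ G y v) j * dW F (Pi.single j 1) (G y)) _
    (fun j _ => ((hd j).restrictScalars ℝ).mul (hd3 j))]
  have h4 : dW F (fderiv ℂ G q v) = fun x => ∑ j, (fderiv ℂ G q v) j * dW F (Pi.single j 1) x := by
    funext x
    rw [Ipc735.dW_sum_dir]
  rw [h4, dB_sum (f := fun j x => (fderiv ℂ G q v) j * dW F (Pi.single j 1) x) _
    (fun j _ => (hd2 j).const_mul _)]
  refine Finset.sum_congr rfl fun j _ => ?_
  rw [dB_mul ((hd j).restrictScalars ℝ) (hd3 j), dB_of_diff (hd j), zero_mul, zero_add,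
    EndTh_659.dB_comp (hd2 j) hG.differentiableAt]
  rw [dB_mul (differentiableAt_const _) (hd2 j)]
  have h5 : dB (fun _ : Fin m → ℂ => (fderiv ℂ G q v) j) (fderiv ℂ G q v) (G q) = 0 :=
    dB_of_diff (differentiableAt_const _) _
  rw [h5, zero_mul, zero_add]

end chain

/-! ### the boundary charts -/

open Crest.Agent.R276.Ipc735
open Crest.Agent.R276.BdNf1_651
open Crest.Agent.R276.BdNf2_651
open Crest.Agent.R276.BdNf3_651
open Crest.Agent.R276.BdNf4_651
open Crest.Agent.R276.BdNf5_651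
open Crest.Agent.R276.BdNf7_651
open Crest.Agent.R276.BdNf8_651
open Crest.Agent.R276.CntDefs_857
open Crest.Agent.R276.LftDefs_327 (WD LD)
open Crest.Agent.R276.VLevi_327 (CYL)

section chart

variable {d : ℕ} {M E : Type*} [TopologicalSpace M] [RDom (d + 1) M] [MeasurableSpace M]
    {μ : Measure M} [TopologicalSpace E] [RDom d E]

/-- the derivative of the chart over the half space is an isomorphism -/
theorem det_lift (D : DChart M E μ) (y : E) {z : Fin (d + 1) → ℂ} (hz : z ∈ HS d (D.r y)) :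
    LinearMap.det (fderiv ℂ (fun y' => (cp (lift (D.σ y) y') : Fin (d + 1) → ℂ)) z).toLinearMap
      ≠ 0 := by
  have hex := ex_mem (GrH_217.r_pos D y) hz
  have hFd : DifferentiableAt ℂ (fun q => (cp (D.σ y q) : Fin (d + 1) → ℂ)) (ex z) :=
    ((D.hol y) _ hex).differentiableAt ((isOpen_PS d _).mem_nhds hex)
  have h1 := GrAs1_857.det_comp_ex hFd
  have h2 : (Matrix.of fun i k => (fderiv ℂ (fun y' => (cp (lift (D.σ y) y') :
      Fin (d + 1) → ℂ)) z (GrB_606.fr d i)) k) =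
      (LinearMap.toMatrix' (fderiv ℂ (fun y' => (cp (lift (D.σ y) y') :
        Fin (d + 1) → ℂ)) z).toLinearMap)ᵀ := by
    ext i k
    rw [Matrix.of_apply, Matrix.transpose_apply, LinearMap.toMatrix'_apply]
    rfl
  have h3 : (Matrix.of fun i k => (fderiv ℂ (fun y' => (cp (lift (D.σ y) y') :
      Fin (d + 1) → ℂ)) z (GrB_606.fr d i)) k).det = (fderiv ℂ (fun q => (cp (D.σ y q) :
        Fin (d + 1) → ℂ)) (ex z)).det * ex z 0 := h1
  rw [h2, Matrix.det_transpose, LinearMap.det_toMatrix'] at h3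
  rw [h3]
  refine mul_ne_zero (D.jac y _ hex) hex.1

/-- the pull back of a subspace under the derivative of the chart -/
theorem finrank_comap {A : (Fin (d + 1) → ℂ) →ₗ[ℂ] (Fin (d + 1) → ℂ)} (hA : LinearMap.det A ≠ 0)
    (W : Submodule ℂ (Fin (d + 1) → ℂ)) :
    Module.finrank ℂ (W.comap A) = Module.finrank ℂ W := by
  set e := LinearMap.equivOfDetNeZero A hA with he
  have h1 : W.comap A = W.map e.symm.toLinearMap := by
    rw [← Submodule.comap_equiv_eq_map_symm]
    rfl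
  rw [h1]
  exact LinearEquiv.finrank_map_eq e.symm W

end chart

section main

variable {d m N w : ℕ} {M E X : Type*} [TopologicalSpace M] [RDom (d + 1) M]
    [MeasurableSpace M] {μ : Measure M} [TopologicalSpace E] [RDom d E] [TopologicalSpace X]
    [RDom m X] {D : DChart M E μ} {V : VHS m X N w} {om : X → Fin N → ℂ} {u : X → ℂ}
    {f : X → M} {M0 : ℕ} {ι : Fin (d + 1) → Fin m} {φ ψ : M → ℝ}

/-- the weight of the twisted section is `ψ` in the chart -/
theorem pp_eq {l : LD D V om u f} (B : BFam l M0 ψ) (y : E) {q : Fin (d + 1) → ℂ}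
    (hq : q ∈ HS d (D.r y)) :
    pp w (B.n y).fr.S (Om (B.n y) om l.ku M0 (B.g y)) q = ψ (lift (D.σ y) q) := by
  have h1 := B.psi y q hq
  rw [H_eq] at h1
  have hb := (vhs (B.n y) (hp l y)).bn_eq (B.cy y).bot hq
  unfold pp
  rw [hb]
  have h2 : (VCalc_442.sf (VCalc_442.hm w (B.n y).fr.S (PP (B.n y)) q)
      (Om (B.n y) om l.ku M0 (B.g y) q) (Om (B.n y) om l.ku M0 (B.g y) q)).re =
      BndA_563.hn (VCalc_442.hm w (B.n y).fr.S (PP (B.n y)) q)
        (Om (B.n y) om l.ku M0 (B.g y) q) := rfl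
  rw [h2, h1, Real.log_exp, neg_neg]
  rfl

/-- the Laplacian of the weight along a line is the Levi form of `ψ` -/
theorem lap_eq (hw : WD V om u M0 f ι φ ψ) {l : LD D V om u f} (B : BFam l M0 ψ) (y : E)
    {q : Fin (d + 1) → ℂ} (hq : q ∈ HS d (D.r y)) (v : Fin (d + 1) → ℂ) :
    (Laplacian.laplacian (fun ξ : ℂ => pp w (B.n y).fr.S (Om (B.n y) om l.ku M0 (B.g y))
      (q + ξ • v))) 0 = 4 * Levi ψ (lift (D.σ y) q)
        (fderiv ℂ (fun y' => (cp (lift (D.σ y) y') : Fin (d + 1) → ℂ)) q v) := by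
  set χ : (Fin (d + 1) → ℂ) → M := lift (D.σ y) with hχ
  have hHM : HM (HS d (D.r y)) χ := HP.hm ⟨GrH_217.r_pos D y, D.cont y, D.hol y⟩
  set τ : M := χ q with hτ
  set F : (Fin (d + 1) → ℂ) → ℝ := ψ ∘ (ch τ).symm with hF
  set G : (Fin (d + 1) → ℂ) → (Fin (d + 1) → ℂ) := fun y' => cp (χ y') with hG
  have hFs : ContDiffAt ℝ 2 F (G q) := DescG_327.SmAt.two (DescG_327.WD.psi_Sm hw τ)
  have hGa : AnalyticAt ℂ G q := Fr.analyticAt_cp hHM hq
  have hsm : ContDiffAt ℝ 2 (pp w (B.n y).fr.S (Om (B.n y) om l.ku M0 (B.g y))) q :=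
    ((sm_pp (B.lch y).vhs (B.cy y)).contDiffAt ((isOpen_HS d _).mem_nhds hq)).of_le
      ENat.LEInfty.out
  have h1 : cx (pp w (B.n y).fr.S (Om (B.n y) om l.ku M0 (B.g y))) =ᶠ[𝓝 q]
      fun z => cx F (G z) := by
    filter_upwards [Fr.chart_ev hHM hq] with z hz
    show ((pp w (B.n y).fr.S (Om (B.n y) om l.ku M0 (B.g y)) z : ℝ) : ℂ) =
      ((ψ ((ch τ).symm (cp (χ z))) : ℝ) : ℂ)
    rw [hz.2.2, pp_eq B y hz.1]
  have h2 : dW (cx (pp w (B.n y).fr.S (Om (B.n y) om l.ku M0 (B.g y)))) v =ᶠ[𝓝 q]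
      dW (fun z => cx F (G z)) v := by
    filter_upwards [h1.eventually_nhds] with z hz
    exact dW_congr hz v
  have h3 := lap_line (z := q) (v := v) (ζ := 0) (by simpa using hsm)
  rw [zero_smul, add_zero] at h3
  rw [h3, dB_congr h2 v, dB_dW_comp (contDiffAt_cx hFs) hGa,
    LevB_442.levi_eq (isCh_ch τ) (mem_ch τ) hFs]

/-- **the rank of the twisted section** -/
theorem hrk_of (hw : WD V om u M0 f ι φ ψ) (l : LD D V om u f) (B : BFam l M0 ψ) {ν : ℕ}
    (hν : ∀ τ : M, ∃ W : Submodule ℂ (Fin (d + 1) → ℂ), d + 1 ≤ Module.finrank ℂ W + ν ∧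
      ∀ v ∈ W, Levi ψ τ v = 0) (y : E) (q : Fin (d + 1) → ℂ)
    (hq : q ∈ GrB_217.HB d (Real.log (D.r y)) (D.r y)) :
    Module.finrank ℂ (Submodule.span ℂ ({Om (B.n y) om l.ku M0 (B.g y) q} ∪
      range (fderiv ℂ (Om (B.n y) om l.ku M0 (B.g y)) q))) ≤ ν + 1 := by
  refine RkA_25.rk_of_lap (B.lch y).vhs (B.cy y) hq ?_
  obtain ⟨W, hW, hW0⟩ := hν (lift (D.σ y) q)
  refine ⟨W.comap (fderiv ℂ (fun y' => (cp (lift (D.σ y) y') : Fin (d + 1) → ℂ)) q).toLinearMap,
    ?_, fun v hv => ?_⟩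
  · rwa [finrank_comap (det_lift D y hq)]
  · have h1 : Levi ψ (lift (D.σ y) q)
        (fderiv ℂ (fun y' => (cp (lift (D.σ y) y') : Fin (d + 1) → ℂ)) q v) = 0 :=
      hW0 _ (Submodule.mem_comap.1 hv)
    rw [lap_eq hw B y hq v, h1, mul_zero]

/-- the normal form has no zeros on the divisor -/
theorem f0 {l : LD D V om u f} (B : BFam l M0 ψ) (y : E) : B.F y 0 ≠ 0 := by
  obtain ⟨m, -, -, h3, -⟩ := RkB_25.main (B.lch y) (B.cy y) (B.ne y)
  have h4 := h3 0 (mem_ball_self (GrH_217.r_pos D y))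
  rwa [GrH_217.LFam.cons_zero_zero] at h4

/-- the family of normal forms -/
def fam {l : LD D V om u f} (B : BFam l M0 ψ) :
    GrH_217.LFam (Fin N) D w (eN N * M0) B.k ψ := B.toLFam (f0 B)

/-- the monodromy acts on the twisted section by a scalar -/
def Scal {l : LD D V om u f} (B : BFam l M0 ψ) (y : E) : Prop :=
  ∃ ζ : ℂ, ∀ q ∈ HS d (D.r y), cm (B.n y).T *ᵥ Om (B.n y) om l.ku M0 (B.g y) q =
    ζ • Om (B.n y) om l.ku M0 (B.g y) q

/-- a relation between holomorphic vector functions propagates from an open subset of the half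
space -/
theorem ident {r : ℝ} {O : Set (Fin (d + 1) → ℂ)} (hO : IsOpen O) (hne : O.Nonempty)
    (hsub : O ⊆ HS d r) {Q : (Fin (d + 1) → ℂ) → Fin N → ℂ} (hQ : DifferentiableOn ℂ Q (HS d r))
    {A : Matrix (Fin N) (Fin N) ℂ} {ζ : ℂ} (h : ∀ q ∈ O, A *ᵥ Q q = ζ • Q q) :
    ∀ q ∈ HS d r, A *ᵥ Q q = ζ • Q q := by
  have hA : AnalyticOnNhd ℂ Q (HS d r) :=
    R266.SCV.analyticOnNhd_of_differentiableOn (isOpen_HS d r) hQ
  set L : (Fin N → ℂ) →L[ℂ] (Fin N → ℂ) := (Matrix.mulVecLin A).toContinuousLinearMap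
  have h1 : AnalyticOnNhd ℂ (fun q => A *ᵥ Q q) (HS d r) := fun q hq =>
    (L.analyticAt _).comp (hA q hq)
  have h2 : AnalyticOnNhd ℂ (fun q => ζ • Q q) (HS d r) := fun q hq =>
    AnalyticAt.fun_smul analyticAt_const (hA q hq)
  obtain ⟨b, hb⟩ := hne
  have h3 := h1.eqOn_of_preconnected_of_eventuallyEq h2 (convex_HS d r).isPreconnected (hsub hb)
    (by filter_upwards [hO.mem_nhds hb] with q hq using h q hq)
  exact fun q hq => h3 hq

/-- transport of `Scal` under the transitions -/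
theorem scal_tr {l : LD D V om u f} (B : BFam l M0 ψ) {y y' : E} {a : Fin d → ℂ}
    {A : GL (Fin N) ℤ} {c : ℂ} (hA : Fc (B.n y) (B.n y') a A)
    (hne : (Ov d (D.r y) (D.r y') a).Nonempty)
    (hQ : ∀ q ∈ Ov d (D.r y) (D.r y') a, Om (B.n y') om l.ku M0 (B.g y') q =
      c • (cm A *ᵥ Om (B.n y) om l.ku M0 (B.g y) (q + ca a))) (h : Scal B y) : Scal B y' := by
  obtain ⟨ζ, hζ⟩ := h
  refine ⟨ζ, ident (isOpen_Ov _ _ _) hne (fun q hq => hq.1) (B.cy y').bot.hol fun q hq => ?_⟩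
  rw [hQ q hq, Matrix.mulVec_smul, Matrix.mulVec_mulVec, hA.cmT_eq hne, ← Matrix.mulVec_mulVec,
    hζ _ hq.2, Matrix.mulVec_smul, smul_comm]

/-- `Scal` is a locally constant property -/
theorem scal_loc {l : LD D V om u f} (B : BFam l M0 ψ) (y : E) :
    ∀ᶠ y' in 𝓝 y, (Scal B y' ↔ Scal B y) := by
  obtain ⟨ε, hε, hy, ht⟩ := exists_chart D y
  filter_upwards [ε.open_source.mem_nhds hy] with y' hy'
  obtain ⟨A, c, hA, hc1, -, hne, hQ⟩ := B.tr y ε hε hy ht y' hy'
  set a : Fin d → ℂ := cp y' - cp y with ha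
  have hc0 : c ≠ 0 := by rintro rfl; simp at hc1
  constructor
  · refine scal_tr B (c := c⁻¹) hA.symm ?_ ?_
    · obtain ⟨q, hq⟩ := hne
      refine ⟨q + ca a, hq.2, ?_⟩
      have : q + ca a + ca (-a) = q := by rw [ca_neg]; abel
      rw [this]; exact hq.1
    · intro q hq
      have hq' : q + ca (-a) ∈ Ov d (D.r y) (D.r y') a := by
        refine ⟨hq.2, ?_⟩
        have : q + ca (-a) + ca a = q := by rw [ca_neg]; abel
        rw [this]; exact hq.1
      have h1 := hQ _ hq'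
      have h2 : q + ca (-a) + ca a = q := by rw [ca_neg]; abel
      rw [h2] at h1
      rw [h1, Matrix.mulVec_smul, Matrix.mulVec_mulVec, cm_inv_mul_cm, Matrix.one_mulVec,
        smul_smul, inv_mul_cancel₀ hc0, one_smul]
  · exact scal_tr B hA hne hQ

/-- **dichotomy**: the monodromy acts on the twisted section by a scalar at every point of the
divisor or at no point -/
theorem scal_all {l : LD D V om u f} (B : BFam l M0 ψ) :
    (∀ y, Scal B y) ∨ ∀ y, ¬ Scal B y := by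
  by_cases h : ∃ y0, Scal B y0
  · obtain ⟨y0, h0⟩ := h
    left
    intro y
    refine Top1_358.prop_of_isPreconnected (X := E) D.conn (P := fun y => Scal B y) ?_
      (mem_univ y0) h0 (mem_univ y)
    intro z _
    refine ⟨{z' | Scal B z' ↔ Scal B z}, mem_nhdsWithin_of_mem_nhds (scal_loc B z), ?_⟩
    intro z' hz'
    first
      | exact hz'
      | exact hz'.symm
  · right
    push Not at h
    exact h

/-- **`Full`** from `WD`, `LD`, `BFam` -/
theorem full_fam (hw : WD V om u M0 f ι φ ψ) (l : LD D V om u f) (B : BFam l M0 ψ) (n : ℕ) {ν : ℕ}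
    (hν0 : 0 < ν)
    (hν : ∀ τ : M, ∃ W : Submodule ℂ (Fin (d + 1) → ℂ), d + 1 ≤ Module.finrank ℂ W + ν ∧
      ∀ v ∈ W, Levi ψ τ v = 0)
    (hT : ∀ y, ¬ Scal B y) :
    Nonempty (Full D φ (fun x => ((eN N * M0 * n : ℕ) : ℝ) * ψ x) (n * B.k) (ν - 1)) := by
  obtain ⟨C1, -, h1⟩ := GrAs2_857.g1 hw l
  obtain ⟨C2, -, h2⟩ := GrAs2_857.g2 hw l ((eN N * M0 * n : ℕ) : ℝ) (n * B.k)
  refine GrK_217.full (fam B) B.cy n hν0 (max C1 C2) (fun y q hq => ?_) (fun y q hq => ?_)
    (fun y q hq => hrk_of hw l B hν y q hq) (fun y h => hT y h)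
  · exact (h1 y q hq).trans (mul_le_mul_of_nonneg_right (le_max_left _ _)
      (GrI_217.log_inv_nonneg D y))
  · exact (h2 y q hq).trans (mul_le_mul_of_nonneg_right (le_max_right _ _)
      (GrI_217.log_inv_nonneg D y))

end main

end Crest.Agent.R276.GrL_217
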