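import Crest.Agent.R276.GrAs4_857
import Crest.Agent.R276.GrL_217
import Crest.Agent.R276.GrJ_606
import Crest.Agent.R276.HulB_606
import Crest.Agent.R276.LowF_327
import Crest.Agent.R276.C4LocB_327

/-!
# R276, leaf COUNT-GR, final assembly, part 5 (helper857): the alternative

* `scalar_of_rank`: if the period map of the line is constant then `T` is a scalar on the line;
* `alt`: `(0 < ν ∧ Full (ν - 1) ∧ Gen 1) ∨ (Gro ∧ Gen 0)`.
-/

set_option autoImplicit false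
set_option linter.unusedSectionVars false

noncomputable section

open Set Filter Topology Metric MeasureTheory Matrix
open Crest.Agent.R271.Ho51 Crest.Agent.R276.Ipc735 Crest.Agent.R276.CntDefs_857
open Crest.Agent.R276.LftDefs_327 (WD LD)

namespace Crest.Agent.R276.GrAs5_857

open Crest.Agent.R276.GrB_217 Crest.Agent.R276.GrC_217

section

variable {ι : Type*} [Fintype ι] [DecidableEq ι] {d : ℕ}

/-- the derivative is proportional to the value -/
theorem prop_deriv {Om : (Fin (d + 1) → ℂ) → ι → ℂ} {q : Fin (d + 1) → ℂ} (hne : Om q ≠ 0)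
    (hrk : Module.finrank ℂ (Submodule.span ℂ ({Om q} ∪ range (fderiv ℂ Om q))) ≤ 1)
    (v : Fin (d + 1) → ℂ) : ∃ c : ℂ, fderiv ℂ Om q v = c • Om q := by
  have h1 : Om q ∈ Submodule.span ℂ ({Om q} ∪ range (fderiv ℂ Om q)) :=
    Submodule.subset_span (Or.inl rfl)
  have h2 : fderiv ℂ Om q v ∈ Submodule.span ℂ ({Om q} ∪ range (fderiv ℂ Om q)) :=
    Submodule.subset_span (Or.inr ⟨v, rfl⟩)
  generalize Submodule.span ℂ ({Om q} ∪ range (fderiv ℂ Om q)) = W at hrk h1 h2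
  obtain ⟨b, hb⟩ := (finrank_le_one_iff (K := ℂ) (V := W)).1 hrk
  obtain ⟨c1, hc1⟩ := hb ⟨_, h1⟩
  obtain ⟨c2, hc2⟩ := hb ⟨_, h2⟩
  have e1 : c1 • (b : ι → ℂ) = Om q := congrArg Subtype.val hc1
  have e2 : c2 • (b : ι → ℂ) = fderiv ℂ Om q v := congrArg Subtype.val hc2
  have hc10 : c1 ≠ 0 := by
    rintro rfl
    exact hne (by rw [← e1, zero_smul])
  refine ⟨c2 / c1, ?_⟩
  rw [← e2, ← e1, smul_smul, div_mul_cancel₀ _ hc10]

/-- the values of a holomorphic map into `ℂ^ι` whose projectivisation is constant -/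
theorem prop_of_rank {U : Set (Fin (d + 1) → ℂ)} (hU : IsOpen U) (hc : Convex ℝ U)
    {Om : (Fin (d + 1) → ℂ) → ι → ℂ} (hd : DifferentiableOn ℂ Om U)
    (hprop : ∀ q ∈ U, ∀ v, ∃ c : ℂ, fderiv ℂ Om q v = c • Om q)
    {q₀ : Fin (d + 1) → ℂ} (hq₀ : q₀ ∈ U) {i : ι} (hi : Om q₀ i ≠ 0) :
    ∀ q ∈ U, Om q₀ i • Om q = Om q i • Om q₀ := by
  set G : (Fin (d + 1) → ℂ) → ι → ℂ := fun q => Om q₀ i • Om q - Om q i • Om q₀ with hG
  have hda : ∀ x ∈ U, DifferentiableAt ℂ Om x := fun x hx => hd.differentiableAt (hU.mem_nhds hx)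
  have hdj : ∀ x ∈ U, ∀ j, HasFDerivAt (fun q => Om q j)
      ((ContinuousLinearMap.proj j : (ι → ℂ) →L[ℂ] ℂ).comp (fderiv ℂ Om x)) x := fun x hx j =>
    (ContinuousLinearMap.proj j : (ι → ℂ) →L[ℂ] ℂ).hasFDerivAt.comp x (hda x hx).hasFDerivAt
  have hGd : ∀ j, DifferentiableOn ℂ (fun q => G q j) U := by
    intro j x hx
    have h1 := (hdj x hx j).differentiableAt
    have h2 := (hdj x hx i).differentiableAt
    exact ((h1.const_mul (Om q₀ i)).sub (h2.mul_const (Om q₀ j))).differentiableWithinAt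
  have hnear : ∀ᶠ q in 𝓝 q₀, Om q i ≠ 0 ∧ q ∈ U := by
    refine ((hdj q₀ hq₀ i).continuousAt.eventually_ne hi).and (hU.mem_nhds hq₀)
  obtain ⟨r, hr, hball⟩ := Metric.eventually_nhds_iff_ball.1 hnear
  -- quotients are constant on the ball
  have hq : ∀ j, ∀ q ∈ ball q₀ r, G q j = 0 := by
    intro j q hqb
    have hder : ∀ x ∈ ball q₀ r, HasFDerivAt (fun q => Om q j * (Om q i)⁻¹)
        (0 : (Fin (d + 1) → ℂ) →L[ℂ] ℂ) x := by
      intro x hx
      have hxU := (hball x hx).2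
      have hxi := (hball x hx).1
      have h5 := (hdj x hxU j).mul ((hasDerivAt_inv hxi).comp_hasFDerivAt x (hdj x hxU i))
      refine h5.congr_fderiv ?_
      ext v
      obtain ⟨c, hcv⟩ := hprop x hxU v
      simp only [_root_.add_apply, _root_.smul_apply,
        ContinuousLinearMap.comp_apply, ContinuousLinearMap.proj_apply, hcv, Pi.smul_apply,
        smul_eq_mul, _root_.zero_apply, Function.comp_apply]
      field_simp
      ring
    have hconst := (convex_ball q₀ r).is_const_of_fderivWithin_eq_zero (𝕜 := ℂ)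
      (f := fun q => Om q j * (Om q i)⁻¹)
      (fun x hx => (hder x hx).differentiableAt.differentiableWithinAt)
      (fun x hx => by
        rw [fderivWithin_of_isOpen isOpen_ball hx]
        exact (hder x hx).fderiv) hqb (mem_ball_self hr)
    have hqi := (hball q hqb).1
    have h7 : Om q j * (Om q i)⁻¹ = Om q₀ j * (Om q₀ i)⁻¹ := hconst
    rw [← div_eq_mul_inv, ← div_eq_mul_inv, div_eq_div_iff hqi hi] at h7
    simp only [hG, Pi.sub_apply, Pi.smul_apply, smul_eq_mul]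
    linear_combination h7
  intro q hqU
  have h8 : ∀ j, G q j = 0 := by
    intro j
    have han : AnalyticOnNhd ℂ (fun q => G q j) U :=
      Crest.Agent.R266.SCV.analyticOnNhd_of_differentiableOn hU (hGd j)
    exact han.eqOn_zero_of_preconnected_of_eventuallyEq_zero
      hc.isPreconnected hq₀ (Filter.eventually_of_mem (ball_mem_nhds q₀ hr) (hq j)) hqU
  have h9 : G q = 0 := funext h8
  exact sub_eq_zero.1 h9

variable {w e : ℕ} {k : ℤ} {a R : ℝ} {S : Matrix ι ι ℂ}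
  {P : ℕ → (Fin (d + 1) → ℂ) → Matrix ι ι ℂ} {T : Matrix ι ι ℂ} {z : ℂ} {L : Matrix ι ι ℂ}
  {Om f : (Fin (d + 1) → ℂ) → ι → ℂ}

/-- **if the line is constant then the monodromy is a scalar on it** -/
theorem scalar_of_rank (h : LCh w e k a R S P T z L Om f)
    (hcy : BdNf4_651.Cy w (HB d a R) P Om)
    (hrk : ∀ q ∈ HB d a R, Module.finrank ℂ
      (Submodule.span ℂ ({Om q} ∪ range (fderiv ℂ Om q))) ≤ 1) :
    ∃ ζ : ℂ, ∀ q ∈ HB d a R, T *ᵥ Om q = ζ • Om q := by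
  have hR := h.hR
  set q₀ : Fin (d + 1) → ℂ := Fin.cons ((a - 1 : ℝ) : ℂ) 0 with hq₀
  have hmem : q₀ ∈ HB d a R := ⟨by simp [hq₀], fun i => by simp [hq₀, hR]⟩
  have hne0 := hcy.ne q₀ hmem
  obtain ⟨i, hi⟩ : ∃ i, Om q₀ i ≠ 0 := by
    by_contra hcon
    push Not at hcon
    exact hne0 (funext hcon)
  have key := prop_of_rank (isOpen_HB d a R) (convex_HB d a R) hcy.bot.hol
    (fun q hq v => prop_deriv (hcy.ne q hq) (hrk q hq) v) hmem hi
  have hz : z ≠ 0 := by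
    intro h0
    have := h.hz
    rw [h0, norm_zero] at this
    exact zero_ne_one this
  -- the value at the base point
  have hmem' : q₀ + Pi.single 0 tpi ∈ HB d a R := by
    have := LCh.HB_shift hmem 1
    rwa [Nat.cast_one, one_mul] at this
  have e1 := h.om_per q₀ hmem
  have e2 := key _ hmem'
  set c : ℂ := Om (q₀ + Pi.single 0 tpi) i with hc
  have e3 : Om q₀ i • (z • (T *ᵥ Om q₀)) = c • Om q₀ := by rw [← e1]; exact e2
  refine ⟨c / (Om q₀ i * z), fun q hq => ?_⟩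
  have e4 : T *ᵥ Om q₀ = (c / (Om q₀ i * z)) • Om q₀ := by
    have h1 : (Om q₀ i * z) • (T *ᵥ Om q₀) = c • Om q₀ := by rw [← e3, smul_smul]
    have h2 : Om q₀ i * z ≠ 0 := mul_ne_zero hi hz
    rw [div_eq_inv_mul, mul_smul, ← h1, smul_smul, inv_mul_cancel₀ h2, one_smul]
  have e5 := key q hq
  have e6 : Om q = (Om q i / Om q₀ i) • Om q₀ := by
    rw [div_eq_inv_mul, mul_smul, ← e5, smul_smul, inv_mul_cancel₀ hi, one_smul]
  rw [e6, Matrix.mulVec_smul, e4, smul_comm]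

end

section

open Crest.Agent.R276.BdNf1_651 Crest.Agent.R276.BdNf2_651 Crest.Agent.R276.BdNf3_651
open Crest.Agent.R276.BdNf4_651 Crest.Agent.R276.BdNf5_651 Crest.Agent.R276.BdNf6_651
open Crest.Agent.R276.BdNf7_651 Crest.Agent.R276.BdNf8_651
open Crest.Agent.R276.CntB_857 (Gro)

variable {d m N w : ℕ} {M E X : Type*} [TopologicalSpace M] [RDom (d + 1) M]
    [MeasurableSpace M] {μ : Measure M} [TopologicalSpace E] [RDom d E] [TopologicalSpace X]
    [RDom m X] {D : DChart M E μ} {V : VHS m X N w} {om : X → Fin N → ℂ} {u : X → ℂ} {M0 : ℕ}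
    {f : X → M} {ι : Fin (d + 1) → Fin m} {φ ψ : M → ℝ}

/-- **case (A)** -/
theorem gen_zero (hw : WD V om u M0 f ι φ ψ) (l : LD D V om u f) (B : BFam l M0 ψ)
    (hH : HulB_606.HulS V om) (hA : ∀ y, GrL_217.Scal B y) (n : ℕ) :
    Gen D φ (fun x => ((eN N * M0 * n : ℕ) : ℝ) * ψ x) (n * B.k) 0 := by
  have : Nonempty E := GrAs4_857.nonempty_of_cov D.cov
  refine GrJ_606.gen_zero (w := w) (S := fun y => (B.n y).fr.S) (P := fun y => PP (B.n y))
    (T := fun y => cm (B.n y).T) (z := fun _ => zM l.ku M0)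
    (L := fun y => LL (B.n y) (eN N * M0)) (Om := fun y => Om (B.n y) om l.ku M0 (B.g y))
    (f := B.F) isOpen_univ univ_nonempty (fun y _ => ?_) n
  refine ⟨B.lch y, GrL_217.f0 B y, (GrL_217.fam B).psi y, fun q hq p => ?_, fun q hq => ?_⟩
  · obtain ⟨ζ, hζ⟩ := hA y
    refine HulB_606.com_PP (HulB_606.com_of_scalar hH hw l y (B.n y) (ζ := ζ) hq ?_) p
    filter_upwards [(isOpen_HS d (D.r y)).mem_nhds hq] with q' hq'
    have h1 := hζ q' hq'
    unfold Om at h1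
    rw [Matrix.mulVec_smul, smul_comm ζ] at h1
    have h2 : fac l.ku M0 (B.g y) q' ≠ 0 := by
      unfold fac
      exact Complex.exp_ne_zero _
    exact smul_right_injective _ h2 h1
  · have hex := ex_mem (GrH_217.r_pos D y) hq
    have h1 := GrAs1_857.phW_eq hw l y hex
    have h2 := GrAs1_857.det_q hw l y (B.n y) hq
    show Real.exp (D.phW φ y (ex q)) * Real.exp (2 * (q 0).re) = _
    have h3 : 0 < ‖D.J y (ex q)‖ ^ 2 * VLevi_327.gdet V ι (l.s y (ex q)) :=
      mul_pos (by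
        have : D.J y (ex q) ≠ 0 := D.jac y _ hex
        positivity) (hw.pos _)
    rw [h1, Real.exp_log h3]
    have h4 : ‖ex q 0‖ ^ 2 = Real.exp (2 * (q 0).re) := by
      rw [ex_zero, Complex.norm_exp, ← Real.exp_nat_mul]
      norm_num
    rw [← h4]
    refine Eq.trans ?_ h2.symm
    ring

/-- **the alternative**: every divisor is bad (`Full`, `Gen` with `p = 1`) or good (`Gro`, `Gen` with
`p = 0`); the factor `eN N * M0 * n` does not depend on the divisor. -/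
theorem alt (hw : WD V om u M0 f ι φ ψ) (l : LD D V om u f) (B : BFam l M0 ψ)
    (hH : HulB_606.HulS V om) {ν : ℕ}
    (hν : ∀ τ : M, ∃ W : Submodule ℂ (Fin (d + 1) → ℂ), d + 1 ≤ Module.finrank ℂ W + ν ∧
      ∀ v ∈ W, Levi ψ τ v = 0) (n : ℕ) :
    (0 < ν ∧ Nonempty (Full D φ (fun x => ((eN N * M0 * n : ℕ) : ℝ) * ψ x) (n * B.k) (ν - 1)) ∧
      Gen D φ (fun x => ((eN N * M0 * n : ℕ) : ℝ) * ψ x) (n * B.k) 1) ∨
    (Nonempty (Gro D φ (fun x => ((eN N * M0 * n : ℕ) : ℝ) * ψ x) (n * B.k)) ∧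
      Gen D φ (fun x => ((eN N * M0 * n : ℕ) : ℝ) * ψ x) (n * B.k) 0) := by
  have : Nonempty E := GrAs4_857.nonempty_of_cov D.cov
  rcases GrL_217.scal_all B with hA | hB
  · exact Or.inr ⟨GrAs2_857.gro hw l _ _, gen_zero hw l B hH hA n⟩
  · have hν0 : 0 < ν := by
      rcases Nat.eq_zero_or_pos ν with rfl | h
      · exfalso
        obtain ⟨y⟩ := this
        exact hB y (scalar_of_rank (B.lch y) (B.cy y) fun q hq => GrL_217.hrk_of hw l B hν y q hq)
      · exact h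
    exact Or.inl ⟨hν0, GrL_217.full_fam hw l B n hν0 hν hB,
      GrAs4_857.gen_one hw l (GrL_217.fam B) B.cy n⟩

/-- the alternative, from `WD` and `LD` only, with the lower bound of the metric of `L` -/
theorem exists_alt (hw : WD V om u M0 f ι φ ψ) (l : LD D V om u f)
    (hH : HulB_606.HulS V om) {ν : ℕ}
    (hν : ∀ τ : M, ∃ W : Submodule ℂ (Fin (d + 1) → ℂ), d + 1 ≤ Module.finrank ℂ W + ν ∧
      ∀ v ∈ W, Levi ψ τ v = 0) (n : ℕ) : ∃ k : ℤ,
    ((0 < ν ∧ Nonempty (Full D φ (fun x => ((eN N * M0 * n : ℕ) : ℝ) * ψ x) k (ν - 1)) ∧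
      Gen D φ (fun x => ((eN N * M0 * n : ℕ) : ℝ) * ψ x) k 1) ∨
    (Nonempty (Gro D φ (fun x => ((eN N * M0 * n : ℕ) : ℝ) * ψ x) k) ∧
      Gen D φ (fun x => ((eN N * M0 * n : ℕ) : ℝ) * ψ x) k 0)) ∧
    ∀ y, ∃ (C : ℝ) (K : ℕ), ∀ q ∈ PS d (D.r y / 2),
      Real.exp (-D.psI (fun x => ((eN N * M0 * n : ℕ) : ℝ) * ψ x) k y q) ≤
        C * (1 + |Real.log ‖q 0‖|) ^ K := by
  obtain ⟨B⟩ := exists_bfam hw l
  exact ⟨n * B.k, alt hw l B hH hν n,
    fun y => LowF_327.low_of_bfam B (DescG_327.WD.psi_Sm hw).continuous n y⟩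

end

end Crest.Agent.R276.GrAs5_857
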