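import Crest.Agent.R276.DescH_327

/-!
# R276, leaf COUNT-GR (helper857): the maximal rank `ν` of the Levi form of `ψ`

`exists_nu`: `ν` with `Good φ (a ψ) ν` for all `a > 0` and null spaces of codimension `≤ ν` everywhere.
-/

set_option autoImplicit false
set_option linter.unusedSectionVars false

noncomputable section

open Set Filter Topology Metric MeasureTheory Matrix
open Crest.Agent.R271.Ho51 Crest.Agent.R276.Ipc735 Crest.Agent.R276.CntDefs_857
open Crest.Agent.R276.LftDefs_327 (WD LD)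
open scoped ComplexOrder

namespace Crest.Agent.R276.GrAs6_857

section

variable {n : ℕ} {M : Type*} [TopologicalSpace M] [RDom n M]

/-- the matrix of the Levi form -/
def LM (ψ : M → ℝ) (x : M) : Matrix (Fin n) (Fin n) ℂ := Matrix.of fun k j => Lv ψ x j k

theorem levi_LM (ψ : M → ℝ) (x : M) (w : Fin n → ℂ) :
    Levi ψ x w = (star w ⬝ᵥ (LM ψ x *ᵥ w)).re := by
  unfold Levi LM dotProduct mulVec dotProduct
  simp only [Matrix.of_apply, Finset.mul_sum, Pi.star_apply]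
  rw [Finset.sum_comm]
  congr 1
  refine Finset.sum_congr rfl fun j _ => Finset.sum_congr rfl fun k _ => ?_
  show _ = starRingEnd ℂ (w j) * _
  ring

theorem LM_herm {ψ : M → ℝ} (hψ : Sm ψ) (x : M) : (LM ψ x).IsHermitian := by
  ext j k
  rw [Matrix.conjTranspose_apply]
  show star (Lv ψ x j k) = Lv ψ x k j
  exact Lv_conj hψ x j k

theorem LM_psd {ψ : M → ℝ} (hψ : Sm ψ) (h0 : ∀ x w, 0 ≤ Levi ψ x w) (x : M) :
    (LM ψ x).PosSemidef := by
  refine Matrix.PosSemidef.of_dotProduct_mulVec_nonneg (LM_herm hψ x) fun w => ?_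
  have h1 := (LM_herm hψ x).im_star_dotProduct_mulVec_self w
  have h2 := h0 x w
  rw [levi_LM] at h2
  rw [Complex.nonneg_iff]
  exact ⟨h2, h1.symm⟩

/-- the null space of the Levi form -/
def NS (ψ : M → ℝ) (x : M) : Submodule ℂ (Fin n → ℂ) := LinearMap.ker (Matrix.mulVecLin (LM ψ x))

theorem mem_NS {ψ : M → ℝ} (hψ : Sm ψ) (h0 : ∀ x w, 0 ≤ Levi ψ x w) (x : M) (v : Fin n → ℂ) :
    v ∈ NS ψ x ↔ Levi ψ x v = 0 := by
  unfold NS
  rw [LinearMap.mem_ker, Matrix.mulVecLin_apply, levi_LM,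
    ← (LM_psd hψ h0 x).dotProduct_mulVec_zero_iff]
  constructor
  · intro h
    rw [h, Complex.zero_re]
  · intro h
    exact Complex.ext h ((LM_herm hψ x).im_star_dotProduct_mulVec_self v)

end

section

variable {n m N w : ℕ} {M X : Type*} [TopologicalSpace M] [RDom n M] [TopologicalSpace X]
    [RDom m X] {V : VHS m X N w} {om : X → Fin N → ℂ} {u : X → ℂ} {M0 : ℕ}
    {f : X → M} {ι : Fin n → Fin m} {φ ψ : M → ℝ}

/-- **the maximal rank** -/
theorem exists_nu [Nonempty M] (h : WD V om u M0 f ι φ ψ) : ∃ ν : ℕ,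
    (∀ a : ℝ, 0 < a → Nonempty (Good φ (fun τ => a * ψ τ) ν)) ∧
    ∀ τ : M, ∃ W : Submodule ℂ (Fin n → ℂ), n ≤ Module.finrank ℂ W + ν ∧
      ∀ v ∈ W, Levi ψ τ v = 0 := by
  have hS := DescG_327.WD.psi_Sm h
  have hP := DescG_327.WD.psi_psh h
  obtain ⟨τ₀, hτ₀⟩ : ∃ τ₀ : M, ∀ τ, Module.finrank ℂ (NS ψ τ₀) ≤ Module.finrank ℂ (NS ψ τ) := by
    obtain ⟨τ₀, h0⟩ := Nat.sInf_mem (range_nonempty fun τ : M => Module.finrank ℂ (NS ψ τ))
    exact ⟨τ₀, fun τ => h0.le.trans (Nat.sInf_le ⟨τ, rfl⟩)⟩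
  have hle : ∀ τ, Module.finrank ℂ (NS ψ τ) ≤ n := fun τ => by
    simpa using Submodule.finrank_le (NS ψ τ)
  refine ⟨n - Module.finrank ℂ (NS ψ τ₀), fun a ha => ?_, fun τ => ⟨NS ψ τ, ?_, fun v hv =>
    (mem_NS hS hP τ v).1 hv⟩⟩
  · obtain ⟨x, rfl⟩ := h.surj τ₀
    refine DescH_327.good h x ha fun K hK => ?_
    have h1 : K ≤ NS ψ (f x) := fun v hv => (mem_NS hS hP _ v).2 (hK v hv)
    have h2 := Submodule.finrank_mono h1
    have h3 := hle (f x)
    omega
  · have h1 := hτ₀ τ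
    have h3 := hle τ₀
    omega

end

end Crest.Agent.R276.GrAs6_857
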