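import Mathlib

/-!
# R276, leaf GEN0 (helper606), part C: derivative estimate on an annulus

A holomorphic function on `a < ‖x‖ < b` bounded by `M` satisfies
`‖x‖ ‖G' x‖ ≤ 8 M (‖x‖ / b + a / ‖x‖)` for `4 a ≤ ‖x‖ ≤ b / 4`;
the same for `2πi`-periodic functions on a strip.
-/

set_option autoImplicit false
set_option linter.unusedSectionVars false

open Set Filter Topology Metric Complex
open scoped Real

namespace Crest.Agent.R276.GrC_606

variable {E : Type*} [NormedAddCommGroup E] [NormedSpace ℂ E] [CompleteSpace E]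

theorem annulus {G : ℂ → E} {a b M : ℝ} (ha : 0 < a)
    (hG : DifferentiableOn ℂ G {x | a < ‖x‖ ∧ ‖x‖ < b}) (hM : ∀ x, a < ‖x‖ → ‖x‖ < b → ‖G x‖ ≤ M)
    {x : ℂ} (h1 : 4 * a ≤ ‖x‖) (h2 : ‖x‖ ≤ b / 4) :
    ‖x‖ * ‖deriv G x‖ ≤ 8 * M * (‖x‖ / b + a / ‖x‖) := by
  have hx0 : 0 < ‖x‖ := by linarith
  have hb : 0 < b := by linarith
  have hM0 : 0 ≤ M := (norm_nonneg _).trans (hM x (by linarith) (by linarith))
  set Ω : Set ℂ := {x | a < ‖x‖ ∧ ‖x‖ < b} with hΩ
  have hop : IsOpen Ω := (isOpen_lt continuous_const continuous_norm).inter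
    (isOpen_lt continuous_norm continuous_const)
  have hxΩ : x ∈ Ω := ⟨by linarith, by linarith⟩
  have hnx : Ω ∈ 𝓝 x := hop.mem_nhds hxΩ
  set K : ℂ → E := dslope (dslope G x) x with hK
  have hKd : DifferentiableOn ℂ K Ω := by
    rw [hK, differentiableOn_dslope hnx, differentiableOn_dslope hnx]
    exact hG
  -- the two radii
  have hsub : closedBall (0:ℂ) (b / 2) \ ball 0 (2 * a) ⊆ Ω := by
    rintro z ⟨hz1, hz2⟩
    rw [mem_closedBall_zero_iff] at hz1
    rw [mem_ball_zero_iff, not_lt] at hz2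
    exact ⟨by linarith, by linarith⟩
  have key : (∮ z in C(0, b / 2), K z) = ∮ z in C(0, 2 * a), K z := by
    refine circleIntegral_eq_of_differentiable_on_annulus_off_countable (by linarith) (by linarith)
      countable_empty (hKd.continuousOn.mono hsub) ?_
    rintro z ⟨⟨hz1, hz2⟩, -⟩
    rw [mem_ball_zero_iff] at hz1
    rw [mem_closedBall_zero_iff, not_le] at hz2
    have hz : z ∈ Ω := ⟨by linarith, by linarith⟩
    exact (hKd z hz).differentiableAt (hop.mem_nhds hz)
  have hKne : ∀ z, z ≠ x → K z = (z - x)⁻¹ ^ 2 • G z - (z - x)⁻¹ ^ 2 • G x - (z - x)⁻¹ • deriv G x := by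
    intro z hz
    rw [hK, dslope_of_ne _ hz, slope_def_module, dslope_same, dslope_of_ne _ hz, slope_def_module]
    rw [smul_sub, smul_smul, smul_sub, pow_two]
  have hcont : ∀ {ρ : ℝ}, 0 < ρ → 2 * a ≤ ρ → ρ ≤ b / 2 → ρ ≠ ‖x‖ →
      (∮ z in C(0, ρ), K z) = (∮ z in C(0, ρ), (z - x)⁻¹ ^ 2 • G z) -
        (∮ z in C(0, ρ), (z - x)⁻¹ ^ 2) • G x - (∮ z in C(0, ρ), (z - x)⁻¹) • deriv G x := by
    intro ρ hρ hρa hρb hρx
    have hne : ∀ z ∈ sphere (0:ℂ) ρ, z - x ≠ 0 := by
      intro z hz h0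
      rw [sub_eq_zero] at h0
      rw [mem_sphere_zero_iff_norm, h0] at hz
      exact hρx hz.symm
    have hci : ContinuousOn (fun z : ℂ => (z - x)⁻¹) (sphere 0 ρ) :=
      (continuousOn_id.sub continuousOn_const).inv₀ hne
    have hGc : ContinuousOn G (sphere 0 ρ) := by
      refine hG.continuousOn.mono fun z hz => ?_
      rw [mem_sphere_zero_iff_norm] at hz
      exact ⟨by linarith, by linarith⟩
    have e1 : (∮ z in C(0, ρ), K z) = ∮ z in C(0, ρ), ((z - x)⁻¹ ^ 2 • G z -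
        (z - x)⁻¹ ^ 2 • G x - (z - x)⁻¹ • deriv G x) := by
      refine circleIntegral.integral_congr hρ.le fun z hz => hKne z ?_
      intro h0
      exact hne z hz (by rw [h0, sub_self])
    rw [e1, circleIntegral.integral_sub, circleIntegral.integral_sub,
      circleIntegral.integral_smul_const, circleIntegral.integral_smul_const]
    · exact ((hci.pow 2).smul hGc).circleIntegrable hρ.le
    · exact ((hci.pow 2).smul continuousOn_const).circleIntegrable hρ.le
    · exact (((hci.pow 2).smul hGc).sub ((hci.pow 2).smul continuousOn_const)).circleIntegrable hρ.le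
    · exact (hci.smul continuousOn_const).circleIntegrable hρ.le
  have hsq : ∀ ρ : ℝ, (∮ z in C(0, ρ), (z - x)⁻¹ ^ 2) = 0 := by
    intro ρ
    have := circleIntegral.integral_sub_zpow_of_ne (by decide : (-2 : ℤ) ≠ -1) 0 x ρ
    rw [← this]
    congr 1
    funext z
    rw [zpow_neg, inv_pow]
    rfl
  have hb1 := hcont (ρ := b / 2) (by linarith) (by linarith) le_rfl (by linarith)
  have ha1 := hcont (ρ := 2 * a) (by linarith) le_rfl (by linarith) (by linarith)
  have hin : (∮ z in C(0, b / 2), (z - x)⁻¹) = 2 * π * I :=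
    circleIntegral.integral_sub_inv_of_mem_ball (by rw [mem_ball_zero_iff]; linarith)
  have hout : (∮ z in C(0, 2 * a), (z - x)⁻¹) = 0 := by
    refine circleIntegral_eq_zero_of_differentiable_on_off_countable (by linarith) countable_empty
      ?_ ?_
    · refine (continuousOn_id.sub continuousOn_const).inv₀ fun z hz h0 => ?_
      rw [mem_closedBall_zero_iff] at hz
      have : z = x := sub_eq_zero.1 h0
      rw [this] at hz
      linarith
    · rintro z ⟨hz, -⟩
      rw [mem_ball_zero_iff] at hz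
      refine (differentiableAt_id.sub_const x).inv fun h0 => ?_
      have : z = x := sub_eq_zero.1 h0
      rw [this] at hz
      linarith
  rw [hsq, hin, zero_smul, sub_zero] at hb1
  rw [hsq, hout, zero_smul, sub_zero, zero_smul, sub_zero] at ha1
  rw [hb1, ha1] at key
  have key2 : (2 * π * I : ℂ) • deriv G x = (∮ z in C(0, b / 2), (z - x)⁻¹ ^ 2 • G z) -
      ∮ z in C(0, 2 * a), (z - x)⁻¹ ^ 2 • G z := by
    rw [← key]; abel
  -- bounds
  have nb : ‖∮ z in C(0, b / 2), (z - x)⁻¹ ^ 2 • G z‖ ≤ 2 * π * (b / 2) * (16 * M / b ^ 2) := by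
    refine circleIntegral.norm_integral_le_of_norm_le_const (by linarith) fun z hz => ?_
    rw [mem_sphere_zero_iff_norm] at hz
    have h3 : b / 4 ≤ ‖z - x‖ := by
      have := norm_sub_norm_le z x
      linarith
    have h4 : ‖G z‖ ≤ M := hM z (by linarith) (by linarith)
    rw [norm_smul, norm_pow, norm_inv]
    calc ‖z - x‖⁻¹ ^ 2 * ‖G z‖ ≤ (b / 4)⁻¹ ^ 2 * M := by gcongr
      _ = 16 * M / b ^ 2 := by field_simp; ring
  have na : ‖∮ z in C(0, 2 * a), (z - x)⁻¹ ^ 2 • G z‖ ≤ 2 * π * (2 * a) * (4 * M / ‖x‖ ^ 2) := by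
    refine circleIntegral.norm_integral_le_of_norm_le_const (by linarith) fun z hz => ?_
    rw [mem_sphere_zero_iff_norm] at hz
    have h3 : ‖x‖ / 2 ≤ ‖z - x‖ := by
      have := norm_sub_norm_le x z
      rw [norm_sub_rev] at this
      linarith
    have h4 : ‖G z‖ ≤ M := hM z (by linarith) (by linarith)
    rw [norm_smul, norm_pow, norm_inv]
    calc ‖z - x‖⁻¹ ^ 2 * ‖G z‖ ≤ (‖x‖ / 2)⁻¹ ^ 2 * M := by gcongr
      _ = 4 * M / ‖x‖ ^ 2 := by field_simp; ring
  have h5 : 2 * π * ‖deriv G x‖ ≤ 2 * π * (b / 2) * (16 * M / b ^ 2) +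
      2 * π * (2 * a) * (4 * M / ‖x‖ ^ 2) := by
    have h6 : ‖(2 * π * I : ℂ) • deriv G x‖ = 2 * π * ‖deriv G x‖ := by
      rw [norm_smul]
      simp [abs_of_pos Real.pi_pos]
    rw [← h6, key2]
    exact (norm_sub_le _ _).trans (add_le_add nb na)
  have hpi := Real.pi_pos
  have h7 : ‖deriv G x‖ ≤ (b / 2) * (16 * M / b ^ 2) + (2 * a) * (4 * M / ‖x‖ ^ 2) := by
    have : 2 * π * ‖deriv G x‖ ≤ 2 * π * ((b / 2) * (16 * M / b ^ 2) +
      (2 * a) * (4 * M / ‖x‖ ^ 2)) := by linarith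
    exact le_of_mul_le_mul_left this (by positivity)
  calc ‖x‖ * ‖deriv G x‖ ≤ ‖x‖ * ((b / 2) * (16 * M / b ^ 2) + (2 * a) * (4 * M / ‖x‖ ^ 2)) := by
        gcongr
    _ = 8 * M * (‖x‖ / b + a / ‖x‖) := by field_simp; ring

/-- integer translations -/
theorem periodic_int {F : ℂ → E} {p : ℝ → Prop}
    (hper : ∀ z : ℂ, p z.re → F (z + 2 * π * I) = F z) (n : ℤ) {z : ℂ} (hz : p z.re) :
    F (z + n * (2 * π * I)) = F z := by
  have hre : ∀ m : ℤ, (z + m * (2 * π * I)).re = z.re := by intro m; simp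
  induction n using Int.induction_on with
  | zero => simp
  | succ k ih =>
    have h1 : z + ((k + 1 : ℤ) : ℂ) * (2 * π * I) = (z + (k : ℤ) * (2 * π * I)) + 2 * π * I := by
      push_cast; ring
    rw [h1, hper _ (by rw [hre]; exact hz), ih]
  | pred k ih =>
    have h1 : z + ((-(k : ℤ) : ℤ) : ℂ) * (2 * π * I) =
        (z + ((-(k : ℤ) - 1 : ℤ) : ℂ) * (2 * π * I)) + 2 * π * I := by
      push_cast; ring
    rw [h1, hper _ (by rw [hre]; exact hz)] at ih
    exact ih

theorem eq_of_exp_eq {F : ℂ → E} {p : ℝ → Prop}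
    (hper : ∀ z : ℂ, p z.re → F (z + 2 * π * I) = F z) {z w : ℂ} (hz : p z.re)
    (h : exp z = exp w) : F w = F z := by
  obtain ⟨n, hn⟩ := exp_eq_exp_iff_exists_int.1 h.symm
  rw [hn]
  exact periodic_int hper n hz

/-- **periodic functions on a strip** -/
theorem strip {F : ℂ → E} {A1 A2 M : ℝ}
    (hF : DifferentiableOn ℂ F {z | A1 < z.re ∧ z.re < A2})
    (hper : ∀ z : ℂ, A1 < z.re → z.re < A2 → F (z + 2 * π * I) = F z)
    (hM : ∀ z : ℂ, A1 < z.re → z.re < A2 → ‖F z‖ ≤ M) {z : ℂ}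
    (h1 : A1 + Real.log 4 ≤ z.re) (h2 : z.re ≤ A2 - Real.log 4) :
    ‖deriv F z‖ ≤ 8 * M * (Real.exp (z.re - A2) + Real.exp (A1 - z.re)) := by
  have hlog4 : 0 < Real.log 4 := Real.log_pos (by norm_num)
  set p : ℝ → Prop := fun t => A1 < t ∧ t < A2 with hp
  have hper' : ∀ z : ℂ, p z.re → F (z + 2 * π * I) = F z := fun z hz => hper z hz.1 hz.2
  have hop : IsOpen {z : ℂ | A1 < z.re ∧ z.re < A2} :=
    (isOpen_lt continuous_const continuous_re).inter (isOpen_lt continuous_re continuous_const)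
  set G : ℂ → E := fun x => F (log x) with hG
  have hrelog : ∀ x : ℂ, (log x).re = Real.log ‖x‖ := log_re
  have hmem : ∀ x : ℂ, Real.exp A1 < ‖x‖ → ‖x‖ < Real.exp A2 → p (log x).re := by
    intro x hx1 hx2
    rw [hrelog]
    have hx : 0 < ‖x‖ := (Real.exp_pos _).trans hx1
    exact ⟨(Real.lt_log_iff_exp_lt hx).2 hx1, (Real.log_lt_iff_lt_exp hx).2 hx2⟩
  have hGd : DifferentiableOn ℂ G {x | Real.exp A1 < ‖x‖ ∧ ‖x‖ < Real.exp A2} := by
    rintro x0 ⟨hx1, hx2⟩
    have hx0 : x0 ≠ 0 := by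
      intro h; rw [h, norm_zero] at hx1; exact absurd hx1 (not_lt.2 (Real.exp_pos _).le)
    refine DifferentiableAt.differentiableWithinAt ?_
    set ψ : ℂ → ℂ := fun x => log x0 + log (x / x0) with hψ
    have hψd : DifferentiableAt ℂ ψ x0 := by
      refine (differentiableAt_const _).add ?_
      refine (differentiableAt_id.div_const x0).clog ?_
      simp [hx0]
    have hψ0 : ψ x0 = log x0 := by simp [hψ, hx0]
    have hψe : ∀ x : ℂ, x ≠ 0 → exp (ψ x) = x := by
      intro x hx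
      rw [hψ]
      simp only
      rw [exp_add, exp_log hx0, exp_log (div_ne_zero hx hx0)]
      field_simp
    have hev : G =ᶠ[𝓝 x0] fun x => F (ψ x) := by
      have hopx : {x : ℂ | Real.exp A1 < ‖x‖ ∧ ‖x‖ < Real.exp A2} ∈ 𝓝 x0 :=
        ((isOpen_lt continuous_const continuous_norm).inter
          (isOpen_lt continuous_norm continuous_const)).mem_nhds ⟨hx1, hx2⟩
      filter_upwards [hopx] with x hx
      have hxne : x ≠ 0 := by
        intro h; rw [h] at hx
        have hx1 : Real.exp A1 < ‖(0:ℂ)‖ := hx.1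
        rw [norm_zero] at hx1
        exact absurd hx1 (not_lt.2 (Real.exp_pos _).le)
      refine (eq_of_exp_eq hper' (z := log x) (w := ψ x) (hmem x hx.1 hx.2) ?_).symm
      rw [exp_log hxne, hψe x hxne]
    refine DifferentiableAt.congr_of_eventuallyEq ?_ hev
    have h3 : DifferentiableAt ℂ F (ψ x0) := by
      rw [hψ0]
      exact (hF _ (hmem x0 hx1 hx2)).differentiableAt (hop.mem_nhds (hmem x0 hx1 hx2))
    exact h3.comp x0 hψd
  have hGM : ∀ x, Real.exp A1 < ‖x‖ → ‖x‖ < Real.exp A2 → ‖G x‖ ≤ M := by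
    intro x hx1 hx2
    exact hM _ (hmem x hx1 hx2).1 (hmem x hx1 hx2).2
  have hnz : ‖exp z‖ = Real.exp z.re := norm_exp z
  have hz1 : A1 < z.re := by linarith
  have hz2 : z.re < A2 := by linarith
  have hxe1 : Real.exp A1 < ‖exp z‖ := by rw [hnz]; exact Real.exp_lt_exp.2 hz1
  have hxe2 : ‖exp z‖ < Real.exp A2 := by rw [hnz]; exact Real.exp_lt_exp.2 hz2
  have h3 := annulus (Real.exp_pos A1) hGd hGM (x := exp z) (by
    rw [hnz, show (4:ℝ) = Real.exp (Real.log 4) from (Real.exp_log (by norm_num)).symm,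
      ← Real.exp_add]
    exact Real.exp_le_exp.2 (by linarith)) (by
    rw [hnz, le_div_iff₀ (by norm_num), show (4:ℝ) = Real.exp (Real.log 4) from
      (Real.exp_log (by norm_num)).symm, ← Real.exp_add]
    exact Real.exp_le_exp.2 (by linarith))
  -- relation between the derivatives
  have hFG : F =ᶠ[𝓝 z] fun w => G (exp w) := by
    filter_upwards [hop.mem_nhds (show z ∈ {z : ℂ | A1 < z.re ∧ z.re < A2} from ⟨hz1, hz2⟩)]
      with w hw
    refine (eq_of_exp_eq hper' (z := w) (w := log (exp w)) hw ?_).symm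
    rw [exp_log (exp_ne_zero w)]
  have hGz : DifferentiableAt ℂ G (exp z) :=
    (hGd _ ⟨hxe1, hxe2⟩).differentiableAt (((isOpen_lt continuous_const continuous_norm).inter
          (isOpen_lt continuous_norm continuous_const)).mem_nhds ⟨hxe1, hxe2⟩)
  have h4 : deriv F z = exp z • deriv G (exp z) := by
    rw [hFG.deriv_eq]
    exact (hGz.hasDerivAt.scomp z (hasDerivAt_exp z)).deriv
  rw [h4, norm_smul]
  refine h3.trans (le_of_eq ?_)
  rw [hnz, ← Real.exp_sub, ← Real.exp_sub]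

end Crest.Agent.R276.GrC_606
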