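import Crest.Agent.R276.BndA_563
import Crest.Agent.R276.VCalcI_442

/-!
# R276, leaf GEN0 (helper606), part D: graph coordinates for a holomorphic family of subspaces

`gr Q p = p (Q p Q + 1 - Q)⁻¹ Q` : the range of `p` as a graph over the range of `Q` (`p` near `Q`).
If `∂̄ p · p = 0` (holomorphic family) then `gr Q p` is holomorphic.
-/

set_option autoImplicit false
set_option linter.unusedSectionVars false

open Set Filter Topology
open scoped ContDiff

namespace Crest.Agent.R276.GrD_606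

open Crest.Agent.R276.VCalc_442

section alg

variable {R : Type*} [NormedRing R] [NormedAlgebra ℂ R] [CompleteSpace R]

/-- graph coordinate -/
noncomputable def gr (Q p : R) : R := p * Ring.inverse (Q * p * Q + (1 - Q)) * Q

theorem G_eq {Q : R} (hQ : Q * Q = Q) (p : R) :
    Q * p * Q + (1 - Q) = 1 - Q * (Q - p) * Q := by
  have h1 : Q * (Q - p) * Q = Q - Q * p * Q := by
    rw [mul_sub, sub_mul, hQ, hQ]
  rw [h1]; abel

theorem G_unit {Q : R} (hQ : Q * Q = Q) {p : R} (h : ‖Q‖ * ‖p - Q‖ * ‖Q‖ < 1) :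
    IsUnit (Q * p * Q + (1 - Q)) := by
  rw [G_eq hQ]
  refine isUnit_one_sub_of_norm_lt_one (lt_of_le_of_lt ?_ h)
  rw [norm_sub_rev p Q]
  exact (norm_mul_le _ _).trans (mul_le_mul_of_nonneg_right (norm_mul_le _ _) (norm_nonneg _))

theorem G_comm {Q : R} (hQ : Q * Q = Q) (p : R) :
    Q * (Q * p * Q + (1 - Q)) = (Q * p * Q + (1 - Q)) * Q := by
  have h1 : Q * (Q * p * Q) = Q * p * Q := by rw [← mul_assoc, ← mul_assoc, hQ]
  have h2 : Q * p * Q * Q = Q * p * Q := by rw [mul_assoc, hQ]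
  rw [mul_add, add_mul, h1, h2, mul_sub, sub_mul, hQ]
  simp

theorem inv_comm {Q : R} (hQ : Q * Q = Q) {p : R} (hu : IsUnit (Q * p * Q + (1 - Q))) :
    Q * Ring.inverse (Q * p * Q + (1 - Q)) = Ring.inverse (Q * p * Q + (1 - Q)) * Q := by
  have h1 := G_comm hQ p
  set G := Q * p * Q + (1 - Q) with hG
  have h2 : Ring.inverse G * G = 1 := Ring.inverse_mul_cancel _ hu
  have h3 : G * Ring.inverse G = 1 := Ring.mul_inverse_cancel _ hu
  calc Q * Ring.inverse G = (Ring.inverse G * G) * (Q * Ring.inverse G) := by rw [h2, one_mul]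
    _ = Ring.inverse G * (G * Q) * Ring.inverse G := by noncomm_ring
    _ = Ring.inverse G * (Q * G) * Ring.inverse G := by rw [h1]
    _ = Ring.inverse G * Q * (G * Ring.inverse G) := by noncomm_ring
    _ = _ := by rw [h3, mul_one]

theorem p_gr {Q p : R} (hp : p * p = p) : p * gr Q p = gr Q p := by
  unfold gr
  rw [← mul_assoc, ← mul_assoc, hp]

theorem gr_Q {Q : R} (hQ : Q * Q = Q) (p : R) : gr Q p * Q = gr Q p := by
  unfold gr
  rw [mul_assoc, hQ]

theorem Q_gr {Q : R} (hQ : Q * Q = Q) {p : R} (hu : IsUnit (Q * p * Q + (1 - Q))) :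
    Q * gr Q p = Q := by
  have h1 := inv_comm hQ hu
  have h3 : (Q * p * Q + (1 - Q)) * Ring.inverse (Q * p * Q + (1 - Q)) = 1 :=
    Ring.mul_inverse_cancel _ hu
  have h4 : Q * p * Q = Q * (Q * p * Q + (1 - Q)) := by
    rw [mul_add, mul_sub, hQ, ← mul_assoc, ← mul_assoc, hQ]; simp
  unfold gr
  calc Q * (p * Ring.inverse (Q * p * Q + (1 - Q)) * Q)
      = Q * p * (Ring.inverse (Q * p * Q + (1 - Q)) * Q) := by noncomm_ring
    _ = Q * p * Q * Ring.inverse (Q * p * Q + (1 - Q)) := by rw [← h1, ← mul_assoc]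
    _ = Q * (Q * p * Q + (1 - Q)) * Ring.inverse (Q * p * Q + (1 - Q)) :=
        congrArg (fun t => t * Ring.inverse (Q * p * Q + (1 - Q))) h4
    _ = Q := by rw [mul_assoc, h3, mul_one]

theorem eq_zero_of {p Q z : R} (h : ‖p - Q‖ < 1) (h1 : p * z = z) (h2 : Q * z = 0) : z = 0 := by
  have h3 : (p - Q) * z = z := by rw [sub_mul, h1, h2, sub_zero]
  have h4 : ‖z‖ ≤ ‖p - Q‖ * ‖z‖ := by
    conv_lhs => rw [← h3]
    exact norm_mul_le _ _
  by_contra hz
  have h5 : 0 < ‖z‖ := norm_pos_iff.2 hz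
  nlinarith

theorem gr_Q_p {Q : R} (hQ : Q * Q = Q) {p : R} (hp : p * p = p)
    (hu : IsUnit (Q * p * Q + (1 - Q))) (h : ‖p - Q‖ < 1) : gr Q p * (Q * p) = p := by
  rw [← sub_eq_zero]
  refine eq_zero_of h ?_ ?_
  · rw [mul_sub, ← mul_assoc, p_gr hp, hp]
  · rw [mul_sub, ← mul_assoc, Q_gr hQ hu, ← mul_assoc, hQ, sub_self]

theorem norm_gr_le {Q : R} (hQ : Q * Q = Q) {p : R} (h : ‖Q‖ * ‖p - Q‖ * ‖Q‖ ≤ 1 / 2) :
    ‖gr Q p‖ ≤ ‖p‖ * (2 * ‖(1 : R)‖) * ‖Q‖ := by
  have hu : IsUnit (Q * p * Q + (1 - Q)) := G_unit hQ (by linarith)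
  have h3 : (Q * p * Q + (1 - Q)) * Ring.inverse (Q * p * Q + (1 - Q)) = 1 :=
    Ring.mul_inverse_cancel _ hu
  have h4 : ‖Ring.inverse (Q * p * Q + (1 - Q))‖ ≤ 2 * ‖(1 : R)‖ := by
    set G := Q * p * Q + (1 - Q) with hG
    have h5 : Ring.inverse G = 1 + Q * (Q - p) * Q * Ring.inverse G := by
      have h6 : (1 - Q * (Q - p) * Q) * Ring.inverse G = 1 := by rw [← G_eq hQ]; exact h3
      rw [sub_mul, one_mul] at h6
      rw [← h6]; abel
    have h7 : ‖Q * (Q - p) * Q‖ ≤ 1 / 2 := by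
      refine le_trans ?_ h
      rw [norm_sub_rev p Q]
      exact (norm_mul_le _ _).trans (mul_le_mul_of_nonneg_right (norm_mul_le _ _) (norm_nonneg _))
    have h8 : ‖Ring.inverse G‖ ≤ ‖(1 : R)‖ + 1 / 2 * ‖Ring.inverse G‖ := by
      conv_lhs => rw [h5]
      refine (norm_add_le _ _).trans (add_le_add le_rfl ?_)
      exact (norm_mul_le _ _).trans (mul_le_mul_of_nonneg_right h7 (norm_nonneg _))
    linarith
  unfold gr
  refine (norm_mul_le _ _).trans (mul_le_mul_of_nonneg_right ?_ (norm_nonneg _))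
  exact (norm_mul_le _ _).trans (mul_le_mul_of_nonneg_left h4 (norm_nonneg _))

end alg

section hol

variable {R : Type*} [NormedRing R] [NormedAlgebra ℂ R] [CompleteSpace R]
variable {X : Type*} [NormedAddCommGroup X] [NormedSpace ℂ X]

theorem diff_gr {Q : R} (hQ : Q * Q = Q) {π : X → R} {x : X} (hd : DifferentiableAt ℝ π x)
    (h1 : ‖Q‖ * ‖π x - Q‖ * ‖Q‖ < 1) : DifferentiableAt ℝ (fun y => gr Q (π y)) x := by
  unfold gr
  obtain ⟨u, hu⟩ := G_unit hQ h1
  have h2 : DifferentiableAt ℝ (fun y => Q * π y * Q + (1 - Q)) x :=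
    ((hd.const_mul Q).mul_const Q).add_const (1 - Q)
  have h3 : DifferentiableAt ℝ (fun y => Ring.inverse (Q * π y * Q + (1 - Q))) x := by
    have h4 : DifferentiableAt ℝ (Ring.inverse : R → R) (Q * π x * Q + (1 - Q)) := by
      exact differentiableAt_inverse (hu ▸ u.isUnit)
    exact DifferentiableAt.comp x h4 h2
  exact (hd.mul h3).mul_const Q

theorem unit_ev {Q : R} (hQ : Q * Q = Q) {π : X → R} {x : X} (hd : ContinuousAt π x)
    (h1 : ‖Q‖ * ‖π x - Q‖ * ‖Q‖ < 1) : ∀ᶠ y in 𝓝 x, IsUnit (Q * π y * Q + (1 - Q)) := by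
  have h2 : ContinuousAt (fun y => ‖Q‖ * ‖π y - Q‖ * ‖Q‖) x :=
    ((continuousAt_const.mul (hd.sub continuousAt_const).norm).mul continuousAt_const)
  filter_upwards [h2.eventually (gt_mem_nhds h1)] with y hy
  exact G_unit hQ hy

/-- **graph coordinates are holomorphic** -/
theorem hol_gr {Q : R} (hQ : Q * Q = Q) {π : X → R} {x : X} (hd : DifferentiableAt ℝ π x)
    (hid : ∀ᶠ y in 𝓝 x, π y * π y = π y) (hB : ∀ v, dB π v x * π x = 0)
    (h1 : ‖Q‖ * ‖π x - Q‖ * ‖Q‖ < 1) (h2 : ‖π x - Q‖ < 1) :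
    DifferentiableAt ℂ (fun y => gr Q (π y)) x ∧
      ∀ v, (1 - π x) * dW (fun y => gr Q (π y)) v x = dW π v x * gr Q (π x) := by
  have hΨ := diff_gr hQ hd h1
  have hu := unit_ev hQ hd.continuousAt h1
  have e1 : (fun y => π y * gr Q (π y)) =ᶠ[𝓝 x] fun y => gr Q (π y) := by
    filter_upwards [hid] with y hy using p_gr hy
  have e2 : (fun y => Q * gr Q (π y)) =ᶠ[𝓝 x] fun _ => Q := by
    filter_upwards [hu] with y hy using Q_gr hQ hy
  refine ⟨diff_of_dB hΨ fun v => ?_, fun v => ?_⟩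
  · refine eq_zero_of h2 ?_ ?_
    · have h3 := dB_congr e1 v
      rw [dB_mul hd hΨ] at h3
      have h4 : dB π v x * gr Q (π x) = 0 := by
        rw [← p_gr (hid.self_of_nhds) (Q := Q), ← mul_assoc, hB v, zero_mul]
      rw [h4, zero_add] at h3
      exact h3
    · have h3 := dB_congr e2 v
      rw [dB_const, dB_mul (differentiableAt_const Q) hΨ, dB_const, zero_mul, zero_add] at h3
      exact h3
  · have h3 := dW_congr e1 v
    rw [dW_mul hd hΨ] at h3
    rw [sub_mul, one_mul]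
    exact sub_eq_iff_eq_add.2 h3.symm

end hol

end Crest.Agent.R276.GrD_606
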