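import Crest.Agent.R276.GrD_606
import Crest.Agent.R276.GrC_606
import Crest.Agent.R276.VCalcK_442
import Crest.Agent.R276.EndTh_659

/-!
# R276, leaf GEN0 (helper606), part E: bounds in a fixed norm

`nc_up`, `nc_low` : for a positive definite `K` with `‖K‖ ≤ B1`, `‖K⁻¹‖ ≤ B2` the norm `tr (a a*)` is
comparable with the matrix norm.
`Bds` : the resulting bounds for the projectors and the Higgs field of a one-parameter variation.
-/

set_option autoImplicit false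
set_option linter.unusedSectionVars false

open Set Filter Topology Matrix
open scoped ContDiff ComplexConjugate ComplexOrder

namespace Crest.Agent.R276.GrE_606

open Crest.Agent.R276.VCalc_442 Crest.Agent.R276.BndA_563 Crest.Agent.R276.GrD_606

attribute [local instance] Matrix.linftyOpNormedRing Matrix.linftyOpNormedAlgebra

section nc

variable {ι : Type*} [Fintype ι] [DecidableEq ι]

theorem entry_le (a : Matrix ι ι ℂ) (i j : ι) : ‖a i j‖ ≤ ‖a‖ := by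
  rw [Matrix.linfty_opNorm_def]
  have h1 : ‖a i j‖₊ ≤ ∑ j, ‖a i j‖₊ := Finset.single_le_sum (f := fun j => ‖a i j‖₊) (fun _ _ => zero_le) (Finset.mem_univ j)
  have h2 : (∑ j, ‖a i j‖₊) ≤ Finset.univ.sup fun i => ∑ j, ‖a i j‖₊ :=
    Finset.le_sup (f := fun i => ∑ j, ‖a i j‖₊) (Finset.mem_univ i)
  exact_mod_cast h1.trans h2

theorem norm_le_of_entry {a : Matrix ι ι ℂ} {c : ℝ} (hc : 0 ≤ c) (h : ∀ i j, ‖a i j‖ ≤ c) :
    ‖a‖ ≤ Fintype.card ι * c := by
  rw [Matrix.linfty_opNorm_def]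
  obtain ⟨c', rfl⟩ : ∃ c' : NNReal, c = c' := ⟨⟨c, hc⟩, rfl⟩
  have h1 : (Finset.univ.sup fun i => ∑ j, ‖a i j‖₊) ≤ Fintype.card ι * c' := by
    refine Finset.sup_le fun i _ => ?_
    refine (Finset.sum_le_card_nsmul _ _ c' fun j _ => ?_).trans ?_
    · exact_mod_cast h i j
    · rw [nsmul_eq_mul, Finset.card_univ]
  exact_mod_cast h1

theorem norm_ct_le (a : Matrix ι ι ℂ) : ‖aᴴ‖ ≤ Fintype.card ι * ‖a‖ := by
  refine norm_le_of_entry (norm_nonneg _) fun i j => ?_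
  rw [Matrix.conjTranspose_apply, norm_star]
  exact entry_le a j i

theorem trace_re_le (a : Matrix ι ι ℂ) : a.trace.re ≤ Fintype.card ι * ‖a‖ := by
  refine (Complex.re_le_norm _).trans ?_
  unfold Matrix.trace
  refine (norm_sum_le _ _).trans ?_
  refine (Finset.sum_le_card_nsmul _ _ ‖a‖ fun i _ => entry_le a i i).trans ?_
  rw [nsmul_eq_mul, Finset.card_univ]

theorem nc_up {K a a' : Matrix ι ι ℂ} (hK : K.PosDef) {B1 B2 : ℝ} (h1 : ‖K‖ ≤ B1)
    (h2 : ‖K⁻¹‖ ≤ B2) (h : Adj K a a') :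
    (a * a').trace.re ≤ (Fintype.card ι : ℝ) ^ 2 * (B1 * B2) * ‖a‖ ^ 2 := by
  have hu : IsUnit K.det := (Matrix.isUnit_iff_isUnit_det K).1 hK.isUnit
  have e1 : a' = K⁻¹ * (aᴴ * K) := by
    have : aᴴ * K = K * a' := h
    rw [this, ← mul_assoc, Matrix.nonsing_inv_mul K hu, one_mul]
  have hB1 : 0 ≤ B1 := (norm_nonneg _).trans h1
  have hB2 : 0 ≤ B2 := (norm_nonneg _).trans h2
  have h3 : ‖a'‖ ≤ B2 * ((Fintype.card ι * ‖a‖) * B1) := by
    rw [e1]
    refine (norm_mul_le _ _).trans (mul_le_mul h2 ((norm_mul_le _ _).trans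
      (mul_le_mul (norm_ct_le a) h1 (norm_nonneg _) (by positivity))) (norm_nonneg _) hB2)
  refine (trace_re_le _).trans ?_
  calc (Fintype.card ι : ℝ) * ‖a * a'‖ ≤ Fintype.card ι * (‖a‖ * ‖a'‖) := by
        gcongr; exact norm_mul_le _ _
    _ ≤ Fintype.card ι * (‖a‖ * (B2 * ((Fintype.card ι * ‖a‖) * B1))) := by gcongr
    _ = _ := by ring

theorem coord_le {K : Matrix ι ι ℂ} (hK : K.PosDef) {B2 : ℝ} (h2 : ‖K⁻¹‖ ≤ B2) (v : ι → ℂ)
    (i : ι) : ‖v i‖ ^ 2 ≤ B2 * (sf K v v).re := by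
  have hu : IsUnit K.det := (Matrix.isUnit_iff_isUnit_det K).1 hK.isUnit
  set e : ι → ℂ := Pi.single i 1 with he
  have h3 := sf_cs hK (K⁻¹ *ᵥ e) v
  have hKe : K *ᵥ (K⁻¹ *ᵥ e) = e := by
    rw [Matrix.mulVec_mulVec, Matrix.mul_nonsing_inv K hu, Matrix.one_mulVec]
  have hinvH : (K⁻¹)ᴴ = K⁻¹ := by
    rw [Matrix.conjTranspose_nonsing_inv, hK.1]
  have e1 : sf K (K⁻¹ *ᵥ e) v = v i := by
    unfold sf
    rw [Matrix.star_mulVec, hinvH, ← Matrix.dotProduct_mulVec, Matrix.mulVec_mulVec,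
      Matrix.nonsing_inv_mul K hu, Matrix.one_mulVec]
    rw [he]
    simp [dotProduct, Pi.single_apply, apply_ite]
  have e2 : (sf K (K⁻¹ *ᵥ e) (K⁻¹ *ᵥ e)).re ≤ B2 := by
    have e3 : sf K (K⁻¹ *ᵥ e) (K⁻¹ *ᵥ e) = K⁻¹ i i := by
      unfold sf
      rw [hKe, Matrix.star_mulVec, hinvH, ← Matrix.dotProduct_mulVec]
      rw [he]
      simp [dotProduct, Pi.single_apply, apply_ite, Matrix.mulVec]
    rw [e3]
    exact (Complex.re_le_norm _).trans ((entry_le _ i i).trans h2)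
  rw [e1] at h3
  exact h3.trans (mul_le_mul_of_nonneg_right e2 (sf_self_nonneg hK v))

theorem nc_low {K a a' : Matrix ι ι ℂ} (hK : K.PosDef) {B1 B2 : ℝ} (h1 : ‖K‖ ≤ B1)
    (h2 : ‖K⁻¹‖ ≤ B2) (h : Adj K a a') :
    ‖a‖ ^ 2 ≤ (Fintype.card ι : ℝ) ^ 2 * (B1 * B2) * (a * a').trace.re := by
  have hB1 : 0 ≤ B1 := (norm_nonneg _).trans h1
  have hB2 : 0 ≤ B2 := (norm_nonneg _).trans h2
  have ht : 0 ≤ (a * a').trace.re := h.trace_re_nonneg hK
  have h3 : ∀ i j, ‖a i j‖ ≤ Real.sqrt (B2 * (a * a').trace.re * B1) := by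
    intro i j
    refine Real.le_sqrt_of_sq_le ?_
    have h4 := coord_le hK h2 (a *ᵥ Pi.single j 1) i
    have h5 : (a *ᵥ Pi.single j (1:ℂ)) i = a i j := by simp
    rw [h5] at h4
    have h6 := h.sf_bound hK (Pi.single j 1)
    have h7 : (sf K (Pi.single j 1) (Pi.single j 1)).re ≤ B1 := by
      have : sf K (Pi.single j 1) (Pi.single j 1) = K j j := by
        unfold sf
        simp [dotProduct, Pi.single_apply, apply_ite]
      rw [this]
      exact (Complex.re_le_norm _).trans ((entry_le _ j j).trans h1)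
    calc ‖a i j‖ ^ 2 ≤ B2 * (sf K (a *ᵥ Pi.single j 1) (a *ᵥ Pi.single j 1)).re := h4
      _ ≤ B2 * ((a * a').trace.re * (sf K (Pi.single j 1) (Pi.single j 1)).re) := by gcongr
      _ ≤ B2 * ((a * a').trace.re * B1) := by gcongr
      _ = _ := by ring
  have h4 := norm_le_of_entry (Real.sqrt_nonneg _) h3
  calc ‖a‖ ^ 2 ≤ (Fintype.card ι * Real.sqrt (B2 * (a * a').trace.re * B1)) ^ 2 := by gcongr
    _ = (Fintype.card ι : ℝ) ^ 2 * (B2 * (a * a').trace.re * B1) := by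
        rw [mul_pow, Real.sq_sqrt (by positivity)]
    _ = _ := by ring

end nc

end Crest.Agent.R276.GrE_606
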