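import Crest.Agent.R276.GrE_606

/-!
# R276, leaf GEN0 (helper606), part F: the Higgs field on a strip

`Bds` : bounds in a fixed norm of a `2πi`-periodic one-parameter variation on a half plane.
`step` : if the Hodge filtration stays in one graph chart on the strip `A1 < re z < A2` then
`‖θ z‖ ≤ C (exp (re z - A2) + exp (A1 - re z))`.
-/

set_option autoImplicit false
set_option linter.unusedSectionVars false

open Set Filter Topology Matrix
open scoped ContDiff ComplexConjugate ComplexOrder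

namespace Crest.Agent.R276.GrF_606

open Crest.Agent.R276.VCalc_442 Crest.Agent.R276.BndA_563 Crest.Agent.R276.GrD_606
open Crest.Agent.R276.GrE_606

attribute [local instance] Matrix.linftyOpNormedRing Matrix.linftyOpNormedAlgebra

variable {ι : Type*} [Fintype ι] [DecidableEq ι]

/-- bounds in a fixed norm of a periodic one-parameter variation on `re z < a` -/
structure Bds (w : ℕ) (S : Matrix ι ι ℂ) (P : ℕ → ℂ → Matrix ι ι ℂ) (a b C : ℝ) : Prop where
  vhs : VHS w {z : ℂ | z.re < a} S P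
  per : ∀ z : ℂ, z.re < a → ∀ p, P p (z + 2 * Real.pi * Complex.I) = P p z
  hab : b < a
  C1 : 1 ≤ C
  nP : ∀ z : ℂ, z.re ≤ b → ∀ p, ‖P p z‖ ≤ C
  nF : ∀ z : ℂ, z.re ≤ b → ∀ p, ‖Fp w P p z‖ ≤ C
  up : ∀ z : ℂ, z.re ≤ b → gden w P 1 z ≤ C * ‖dW (grOp w P) 1 z‖ ^ 2
  lo : ∀ z : ℂ, z.re ≤ b → ‖dW (grOp w P) 1 z‖ ^ 2 ≤ C * gden w P 1 z
  lo' : ∀ z : ℂ, z.re ≤ b → ‖tb (grOp w P) 1 z‖ ^ 2 ≤ C * gden w P 1 z

section gen

variable {X : Type*} [NormedAddCommGroup X] [NormedSpace ℂ X]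
variable {w : ℕ} {U : Set X} {S : Matrix ι ι ℂ} {P : ℕ → X → Matrix ι ι ℂ} {x : X}

theorem gden_trace (h : VHS w U S P) (hx : x ∈ U) (v : X) :
    (dW (grOp w P) v x * tb (grOp w P) v x).trace.re = gden w P v x := by
  unfold gden
  rw [h.gg_eq hx]
  rfl

/-- the inverse of the Hodge metric -/
theorem norm_inv_le (h : VHS w U S P) (hx : x ∈ U) {B : ℝ} (hB : ‖hm w S P x‖ ≤ B) :
    ‖(hm w S P x)⁻¹‖ ≤ ‖S⁻¹‖ * B * ‖S⁻¹‖ := by
  have hu : IsUnit S.det := (Matrix.isUnit_iff_isUnit_det S).1 (h.S_unit hx)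
  have h1 : hm w S P x * (S⁻¹ * hm w S P x * S⁻¹) = 1 := by
    unfold hm
    rw [show S⁻¹ * (S * sgOp w P x) = sgOp w P x by
      rw [← mul_assoc, Matrix.nonsing_inv_mul S hu, one_mul]]
    rw [mul_assoc S, ← mul_assoc (sgOp w P x), h.C_mul_C hx, one_mul, Matrix.mul_nonsing_inv S hu]
  rw [Matrix.inv_eq_right_inv h1]
  have hB0 : 0 ≤ B := (norm_nonneg _).trans hB
  exact (norm_mul_le _ _).trans (mul_le_mul_of_nonneg_right ((norm_mul_le _ _).trans
    (mul_le_mul_of_nonneg_left hB (norm_nonneg _))) (norm_nonneg _))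

/-- the projectors have trace at most the rank -/
theorem trace_P_le (h : VHS w U S P) (hx : x ∈ U) (p : ℕ) :
    (P p x * P p x).trace.re ≤ Fintype.card ι := by
  have hpos : ∀ q, 0 ≤ (P q x).trace.re := by
    intro q
    have := (BndA_563.adj_P h hx q).trace_re_nonneg (h.hmPos hx)
    rwa [h.idem x hx q] at this
  rw [h.idem x hx p]
  by_cases hp : w < p
  · rw [h.top x hx p hp]; simp
  have h1 : ∑ q ∈ Finset.range (w + 1), (P q x).trace.re = Fintype.card ι := by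
    have h2 := congrArg (fun M => (Matrix.trace M).re) (h.sum x hx)
    simp only [Matrix.trace_sum, Complex.re_sum, Matrix.trace_one] at h2
    rw [h2]; simp
  rw [← h1]
  exact Finset.single_le_sum (f := fun q => (P q x).trace.re) (fun q _ => hpos q)
    (Finset.mem_range.2 (by omega))

end gen

/-- all the bounds follow from an upper bound of the Hodge metric -/
theorem exists_bds (w : ℕ) (S : Matrix ι ι ℂ) (a b B : ℝ) (hab : b < a) :
    ∃ C : ℝ, ∀ P : ℕ → ℂ → Matrix ι ι ℂ, VHS w {z : ℂ | z.re < a} S P →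
      (∀ z : ℂ, z.re < a → ∀ p, P p (z + 2 * Real.pi * Complex.I) = P p z) →
      (∀ z : ℂ, z.re ≤ b → ‖hm w S P z‖ ≤ B) → Bds w S P a b C := by
  set B2 : ℝ := ‖S⁻¹‖ * B * ‖S⁻¹‖ with hB2
  set c : ℝ := (Fintype.card ι : ℝ) ^ 2 * (B * B2) with hc
  set D : ℝ := Real.sqrt (c * Fintype.card ι) with hD
  refine ⟨1 + |c| + D + (w + 1) * D, fun P h hper hK => ?_⟩
  have hD0 : 0 ≤ D := Real.sqrt_nonneg _
  have hw0 : (0:ℝ) ≤ (w + 1) * D := by positivity
  have hx : ∀ z : ℂ, z.re ≤ b → z ∈ {z : ℂ | z.re < a} := fun z hz => lt_of_le_of_lt hz hab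
  have hnP : ∀ z : ℂ, z.re ≤ b → ∀ p, ‖P p z‖ ≤ D := by
    intro z hz p
    have h1 := nc_low (h.hmPos (hx z hz)) (hK z hz) (norm_inv_le h (hx z hz) (hK z hz))
      (BndA_563.adj_P h (hx z hz) p)
    refine Real.le_sqrt_of_sq_le (h1.trans ?_)
    have hB0 : 0 ≤ B := (norm_nonneg _).trans (hK z hz)
    have hc0 : 0 ≤ c := by rw [hc, hB2]; positivity
    exact mul_le_mul_of_nonneg_left (trace_P_le h (hx z hz) p) hc0
  refine ⟨h, hper, hab, by linarith [abs_nonneg c], ?_, ?_, ?_, ?_, ?_⟩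
  · intro z hz p
    linarith [hnP z hz p, abs_nonneg c]
  · intro z hz p
    have h1 : ‖Fp w P p z‖ ≤ (w + 1) * D := by
      unfold Fp
      refine (norm_sum_le _ _).trans ?_
      refine (Finset.sum_le_card_nsmul _ _ D fun q _ => hnP z hz q).trans ?_
      rw [nsmul_eq_mul, Nat.card_Icc]
      refine mul_le_mul_of_nonneg_right ?_ hD0
      have : (w + 1 - p : ℕ) ≤ w + 1 := Nat.sub_le _ _
      exact_mod_cast this
    linarith [abs_nonneg c]
  · intro z hz
    have h1 := nc_up (h.hmPos (hx z hz)) (hK z hz) (norm_inv_le h (hx z hz) (hK z hz))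
      (h.adj_th_tb (hx z hz) 1)
    rw [gden_trace h (hx z hz)] at h1
    refine h1.trans (mul_le_mul_of_nonneg_right ?_ (sq_nonneg _))
    linarith [le_abs_self c]
  · intro z hz
    have h1 := nc_low (h.hmPos (hx z hz)) (hK z hz) (norm_inv_le h (hx z hz) (hK z hz))
      (h.adj_th_tb (hx z hz) 1)
    rw [gden_trace h (hx z hz)] at h1
    refine h1.trans (mul_le_mul_of_nonneg_right ?_ (h.gden_nonneg (hx z hz) 1))
    linarith [le_abs_self c]
  · intro z hz
    have h1 := nc_low (h.hmPos (hx z hz)) (hK z hz) (norm_inv_le h (hx z hz) (hK z hz))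
      ((h.adj_th_tb (hx z hz) 1).symm (h.hmPos (hx z hz)).1)
    rw [Matrix.trace_mul_comm, gden_trace h (hx z hz)] at h1
    refine h1.trans (mul_le_mul_of_nonneg_right ?_ (h.gden_nonneg (hx z hz) 1))
    linarith [le_abs_self c]

section step

variable {w : ℕ} {S : Matrix ι ι ℂ} {P : ℕ → ℂ → Matrix ι ι ℂ} {a b C : ℝ}

/-- `θ P_p` from the second fundamental form of `F^p` -/
theorem th_P_eq {X : Type*} [NormedAddCommGroup X] [NormedSpace ℂ X] {U : Set X}
    {P : ℕ → X → Matrix ι ι ℂ} {x : X} (h : VHS w U S P) (hx : x ∈ U) (v : X) (p : ℕ) :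
    dW (grOp w P) v x * P p x =
      (1 - Fp w P p x) * dW (grOp w P) v x * Fp w P p x * P p x := by
  have h1 : Fp w P p x * P p x = P p x := by rw [Fp_mul_P h hx, if_pos le_rfl]
  rw [mul_assoc _ (Fp w P p x), h1, sub_mul, one_mul, sub_mul]
  have h2 : Fp w P p x * dW (grOp w P) v x * P p x = 0 := by
    rw [mul_assoc]
    rcases p with _ | p
    · rw [h.low_P_zero hx (h.low_th hx v), mul_zero]
    · rw [← h.low_P hx (h.low_th hx v), ← mul_assoc, Fp_mul_P h hx, if_neg (by omega), zero_mul]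
  rw [h2, sub_zero]

theorem Fp_idem {X : Type*} [NormedAddCommGroup X] [NormedSpace ℂ X] {U : Set X}
    {P : ℕ → X → Matrix ι ι ℂ} {x : X} (h : VHS w U S P) (hx : x ∈ U) (p : ℕ) :
    Fp w P p x * Fp w P p x = Fp w P p x := Fp_mul_Fp h hx le_rfl

theorem dB_Fp_mul {X : Type*} [NormedAddCommGroup X] [NormedSpace ℂ X] {U : Set X}
    {P : ℕ → X → Matrix ι ι ℂ} {x : X} (h : VHS w U S P) (hx : x ∈ U) (p : ℕ) (v : X) :
    dB (Fp w P p) v x * Fp w P p x = 0 := by
  rw [dB_Fp h hx, sub_mul, mul_assoc, Fp_idem h hx, mul_assoc, Fp_tb_Fp h hx, sub_self]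

/-- **strip estimate** -/
theorem step (D : Bds w S P a b C) {A1 A2 : ℝ} (hA : A2 ≤ b) {z₀ : ℂ} (h01 : A1 < z₀.re)
    (h02 : z₀.re < A2)
    (hosc : ∀ p, ∀ z : ℂ, A1 < z.re → z.re < A2 →
      ‖Fp w P p z - Fp w P p z₀‖ ≤ 1 / (2 * C ^ 2)) {z : ℂ}
    (h1 : A1 + Real.log 4 ≤ z.re) (h2 : z.re ≤ A2 - Real.log 4) :
    ‖dW (grOp w P) 1 z‖ ≤ ((w + 1 : ℕ) : ℝ) * ((‖(1 : Matrix ι ι ℂ)‖ + C) *
      (8 * (C * (2 * ‖(1 : Matrix ι ι ℂ)‖) * C)) * (C * C) * C) *
      (Real.exp (z.re - A2) + Real.exp (A1 - z.re)) := by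
  have hC0 : 0 < C := lt_of_lt_of_le one_pos D.C1
  have hlog4 : 0 < Real.log 4 := Real.log_pos (by norm_num)
  have hmem : ∀ z : ℂ, z.re < A2 → z ∈ {z : ℂ | z.re < a} := fun z hz => by
    show z.re < a
    linarith [D.hab]
  have h := D.vhs
  have hzm := hmem z (by linarith)
  have hC2 : 1 ≤ C ^ 2 := one_le_pow₀ D.C1
  have hsm : ∀ p, ∀ z : ℂ, A1 < z.re → z.re < A2 →
      ‖Fp w P p z₀‖ * ‖Fp w P p z - Fp w P p z₀‖ * ‖Fp w P p z₀‖ ≤ 1 / 2 := by
    intro p z hz1 hz2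
    have h3 := D.nF z₀ (by linarith) p
    have h4 := hosc p z hz1 hz2
    calc ‖Fp w P p z₀‖ * ‖Fp w P p z - Fp w P p z₀‖ * ‖Fp w P p z₀‖
        ≤ C * (1 / (2 * C ^ 2)) * C := by gcongr
      _ = 1 / 2 := by field_simp
  have hlt1 : ∀ p, ∀ z : ℂ, A1 < z.re → z.re < A2 → ‖Fp w P p z - Fp w P p z₀‖ < 1 := by
    intro p z hz1 hz2
    refine (hosc p z hz1 hz2).trans_lt ?_
    rw [div_lt_one (by positivity)]
    linarith
  have hQ : ∀ p, Fp w P p z₀ * Fp w P p z₀ = Fp w P p z₀ := fun p => Fp_idem h (hmem z₀ h02) p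
  have hop : IsOpen {z : ℂ | A1 < z.re ∧ z.re < A2} :=
    (isOpen_lt continuous_const Complex.continuous_re).inter
      (isOpen_lt Complex.continuous_re continuous_const)
  -- the graph coordinates
  have hhol : ∀ p, ∀ z : ℂ, A1 < z.re → z.re < A2 →
      DifferentiableAt ℂ (fun y => gr (Fp w P p z₀) (Fp w P p y)) z ∧
      ∀ v, (1 - Fp w P p z) * dW (fun y => gr (Fp w P p z₀) (Fp w P p y)) v z =
        dW (Fp w P p) v z * gr (Fp w P p z₀) (Fp w P p z) := by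
    intro p z hz1 hz2
    have hz := hmem z hz2
    refine hol_gr (hQ p) (diff_Fp h hz p) ?_ (fun v => dB_Fp_mul h hz p v)
      (by linarith [hsm p z hz1 hz2]) (hlt1 p z hz1 hz2)
    filter_upwards [h.op.mem_nhds hz] with y hy using Fp_idem h hy p
  have hbd : ∀ p, ∀ z : ℂ, A1 < z.re → z.re < A2 →
      ‖gr (Fp w P p z₀) (Fp w P p z)‖ ≤ C * (2 * ‖(1 : Matrix ι ι ℂ)‖) * C := by
    intro p z hz1 hz2
    refine (norm_gr_le (hQ p) (hsm p z hz1 hz2)).trans ?_
    have h3 := D.nF z₀ (by linarith) p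
    have h4 := D.nF z (by linarith) p
    gcongr
  have hper : ∀ p, ∀ z : ℂ, z.re < a → Fp w P p (z + 2 * Real.pi * Complex.I) = Fp w P p z := by
    intro p z hz
    unfold Fp
    exact Finset.sum_congr rfl fun q _ => D.per z hz q
  have hder : ∀ p, ‖deriv (fun y => gr (Fp w P p z₀) (Fp w P p y)) z‖ ≤
      8 * (C * (2 * ‖(1 : Matrix ι ι ℂ)‖) * C) *
        (Real.exp (z.re - A2) + Real.exp (A1 - z.re)) := by
    intro p
    refine GrC_606.strip (F := fun y => gr (Fp w P p z₀) (Fp w P p y)) (A1 := A1) (A2 := A2)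
      (fun y hy => (hhol p y hy.1 hy.2).1.differentiableWithinAt) ?_
      (fun y hy1 hy2 => hbd p y hy1 hy2) h1 h2
    intro y hy1 hy2
    show gr _ (Fp w P p (y + 2 * Real.pi * Complex.I)) = gr _ (Fp w P p y)
    rw [hper p y (hmem y hy2)]
  set ε : ℝ := Real.exp (z.re - A2) + Real.exp (A1 - z.re) with hε
  have hε0 : 0 < ε := by positivity
  have hz1 : A1 < z.re := by linarith
  have hz2 : z.re < A2 := by linarith
  set N1 : ℝ := ‖(1 : Matrix ι ι ℂ)‖ with hN1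
  have hN0 : 0 ≤ N1 := norm_nonneg _
  -- each block
  have hblock : ∀ p, ‖dW (grOp w P) 1 z * P p z‖ ≤
      (N1 + C) * (8 * (C * (2 * N1) * C)) * (C * C) * C * ε := by
    intro p
    have hnF := D.nF z (by linarith) p
    have hnF0 := D.nF z₀ (by linarith) p
    have hnP := D.nP z (by linarith) p
    set θ := dW (grOp w P) 1 z with hθ
    set π := Fp w P p z with hπ
    set Q := Fp w P p z₀ with hQd
    set Ψ := gr Q π with hΨ
    have hu : IsUnit (Q * π * Q + (1 - Q)) := G_unit (hQ p) (by linarith [hsm p z hz1 hz2])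
    have e1 : (1 - π) * dW (fun y => gr Q (Fp w P p y)) 1 z = (1 - π) * θ * Ψ := by
      rw [(hhol p z hz1 hz2).2 1, dW_Fp h hzm, ← hθ, ← hπ, ← hΨ]
      have h3 : π * Ψ = Ψ := p_gr (Fp_idem h hzm p)
      rw [sub_mul, mul_assoc θ, h3, sub_mul, one_mul, sub_mul]
    have e2 : (1 - π) * θ * π = (1 - π) * dW (fun y => gr Q (Fp w P p y)) 1 z * (Q * π) := by
      rw [e1, mul_assoc _ Ψ, gr_Q_p (hQ p) (Fp_idem h hzm p) hu (hlt1 p z hz1 hz2)]
    have e3 : dW (fun y => gr Q (Fp w P p y)) 1 z =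
        deriv (fun y => gr Q (Fp w P p y)) z := by
      rw [dW_of_diff (hhol p z hz1 hz2).1]
      exact fderiv_apply_one_eq_deriv
    have h4 : ‖(1 - π)‖ ≤ N1 + C := (norm_sub_le _ _).trans (add_le_add le_rfl hnF)
    have h5 : ‖Q * π‖ ≤ C * C := (norm_mul_le _ _).trans (by gcongr)
    have h6 := hder p
    rw [th_P_eq h hzm, ← hθ, ← hπ, e2, e3]
    calc ‖(1 - π) * deriv (fun y => gr Q (Fp w P p y)) z * (Q * π) * P p z‖
        ≤ ‖(1 - π)‖ * ‖deriv (fun y => gr Q (Fp w P p y)) z‖ * ‖Q * π‖ * ‖P p z‖ := by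
          refine (norm_mul_le _ _).trans (mul_le_mul_of_nonneg_right ?_ (norm_nonneg _))
          refine (norm_mul_le _ _).trans (mul_le_mul_of_nonneg_right ?_ (norm_nonneg _))
          exact norm_mul_le _ _
      _ ≤ (N1 + C) * (8 * (C * (2 * N1) * C) * ε) * (C * C) * C := by gcongr
      _ = _ := by ring
  have hsum : dW (grOp w P) 1 z = ∑ p ∈ Finset.range (w + 1), dW (grOp w P) 1 z * P p z := by
    rw [← Finset.mul_sum, h.sum z hzm, mul_one]
  rw [hsum]
  refine (norm_sum_le _ _).trans ?_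
  refine (Finset.sum_le_card_nsmul _ _ _ fun p _ => hblock p).trans (le_of_eq ?_)
  rw [Finset.card_range, nsmul_eq_mul]
  ring

end step

end Crest.Agent.R276.GrF_606
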