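import Crest.Agent.R276.GrF_606

/-!
# R276, leaf GEN0 (helper606), part G: exponential decay of the Higgs field

`decay1` : `‖θ z‖ ≤ C exp (δ re z)` for some `δ > 0`;
`decay2` : `‖θ z‖ ≤ C exp (re z)`, so `gden w P 1 z ≤ C exp (2 re z)`.
All constants depend on the data of `Bds` only.
-/

set_option autoImplicit false
set_option linter.unusedSectionVars false

open Set Filter Topology Matrix
open scoped ContDiff ComplexConjugate ComplexOrder

namespace Crest.Agent.R276.GrG_606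

open Crest.Agent.R276.VCalc_442 Crest.Agent.R276.BndA_563 Crest.Agent.R276.GrD_606
open Crest.Agent.R276.GrE_606 Crest.Agent.R276.GrF_606

attribute [local instance] Matrix.linftyOpNormedRing Matrix.linftyOpNormedAlgebra

variable {ι : Type*} [Fintype ι] [DecidableEq ι]
variable {w : ℕ} {S : Matrix ι ι ℂ} {P : ℕ → ℂ → Matrix ι ι ℂ} {a b C : ℝ}

theorem norm_dir_le (v : ℂ) {z : ℂ} :
    ‖dW (grOp w P) v z + tb (grOp w P) v z‖ ≤
      (‖dW (grOp w P) 1 z‖ + ‖tb (grOp w P) 1 z‖) * ‖v‖ := by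
  have h1 : dW (grOp w P) v z = v • dW (grOp w P) 1 z := by
    have := dW_smul_dir (f := grOp w P) (x := z) v (1 : ℂ)
    rwa [smul_eq_mul, mul_one] at this
  have h2 : tb (grOp w P) v z = (conj v) • tb (grOp w P) 1 z := by
    have := dB_smul_dir (f := grOp w P) (x := z) v (1 : ℂ)
    rw [smul_eq_mul, mul_one] at this
    unfold tb
    rw [this, smul_neg]
  rw [h1, h2]
  refine (norm_add_le _ _).trans ?_
  rw [norm_smul, norm_smul, Complex.norm_conj]
  linarith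

/-- the derivative of the filtration -/
theorem norm_fderiv_le (D : Bds w S P a b C) {z : ℂ} (hz : z.re ≤ b) (p : ℕ) (v : ℂ) :
    ‖fderiv ℝ (Fp w P p) z v‖ ≤ 4 * C * (C * Real.sqrt (gden w P 1 z)) * ‖v‖ := by
  have hC0 : 0 < C := lt_of_lt_of_le one_pos D.C1
  have h := D.vhs
  have hzm : z ∈ {z : ℂ | z.re < a} := lt_of_le_of_lt hz D.hab
  have hg := h.gden_nonneg hzm 1
  have hsq : ∀ {t : ℝ}, 0 ≤ t → t ^ 2 ≤ C * gden w P 1 z → t ≤ C * Real.sqrt (gden w P 1 z) := by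
    intro t ht h1
    have h2 : t ^ 2 ≤ (C * Real.sqrt (gden w P 1 z)) ^ 2 := by
      rw [mul_pow, Real.sq_sqrt hg]
      refine h1.trans (mul_le_mul_of_nonneg_right ?_ hg)
      nlinarith [D.C1]
    exact le_of_sq_le_sq h2 (by positivity)
  have h1 := hsq (norm_nonneg _) (D.lo z hz)
  have h2 := hsq (norm_nonneg _) (D.lo' z hz)
  have e1 : fderiv ℝ (Fp w P p) z v = (dW (grOp w P) v z + tb (grOp w P) v z) * Fp w P p z -
      Fp w P p z * (dW (grOp w P) v z + tb (grOp w P) v z) := by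
    refine (VCalc_442.fderiv_eq (f := Fp w P p) (x := z) v).trans ?_
    rw [dW_Fp h hzm, dB_Fp h hzm, add_mul, mul_add]
    abel
  rw [e1]
  have h3 := D.nF z hz p
  have h4 := norm_dir_le (w := w) (P := P) v (z := z)
  set T := dW (grOp w P) v z + tb (grOp w P) v z with hT
  set s := C * Real.sqrt (gden w P 1 z) with hs
  have h5 : ‖T‖ ≤ 2 * s * ‖v‖ := by
    refine h4.trans (mul_le_mul_of_nonneg_right ?_ (norm_nonneg v))
    linarith
  calc ‖T * Fp w P p z - Fp w P p z * T‖ ≤ ‖T‖ * ‖Fp w P p z‖ + ‖Fp w P p z‖ * ‖T‖ :=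
        (norm_sub_le _ _).trans (add_le_add (norm_mul_le _ _) (norm_mul_le _ _))
    _ ≤ (2 * s * ‖v‖) * C + C * (2 * s * ‖v‖) := by gcongr
    _ = 4 * C * s * ‖v‖ := by ring

theorem Fp_per (D : Bds w S P a b C) (p : ℕ) {z : ℂ} (hz : z.re < a) (n : ℤ) :
    Fp w P p (z + n * (2 * Real.pi * Complex.I)) = Fp w P p z := by
  refine GrC_606.periodic_int (p := fun t => t < a) (fun z hz => ?_) n hz
  unfold Fp
  exact Finset.sum_congr rfl fun q _ => D.per z hz q

/-- translate the imaginary part -/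
theorem exists_shift (z z₀ : ℂ) : ∃ n : ℤ, |(z + n * (2 * Real.pi * Complex.I)).im - z₀.im| ≤
    Real.pi ∧ (z + n * (2 * Real.pi * Complex.I)).re = z.re := by
  have hpi := Real.pi_pos
  refine ⟨round ((z₀.im - z.im) / (2 * Real.pi)), ?_, by simp⟩
  have h1 := abs_sub_round ((z₀.im - z.im) / (2 * Real.pi))
  set n := round ((z₀.im - z.im) / (2 * Real.pi)) with hn
  have h2 : (z + n * (2 * Real.pi * Complex.I)).im - z₀.im =
      -(2 * Real.pi) * ((z₀.im - z.im) / (2 * Real.pi) - n) := by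
    have : (z + n * (2 * Real.pi * Complex.I)).im = z.im + n * (2 * Real.pi) := by simp
    rw [this]
    field_simp
    ring
  rw [h2, abs_mul, abs_neg, abs_of_pos (by positivity : (0:ℝ) < 2 * Real.pi)]
  nlinarith

/-- mean value inequality on a segment -/
theorem segment {E : Type*} [NormedAddCommGroup E] [NormedSpace ℝ E] {f : ℂ → E} {M : ℝ}
    {x y : ℂ} (hf : ∀ t ∈ Icc (0 : ℝ) 1, DifferentiableAt ℝ f (x + t • (y - x)))
    (hM : ∀ t ∈ Icc (0 : ℝ) 1, ∀ v, ‖fderiv ℝ f (x + t • (y - x)) v‖ ≤ M * ‖v‖) :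
    ‖f y - f x‖ ≤ M * ‖y - x‖ := by
  have h1 := norm_image_sub_le_of_norm_deriv_le_segment_01' (f := fun t : ℝ => f (x + t • (y - x)))
    (f' := fun t => fderiv ℝ f (x + t • (y - x)) (y - x)) (C := M * ‖y - x‖)
    (fun t ht => ?_) (fun t ht => hM t ⟨ht.1, ht.2.le⟩ _)
  · simpa using h1
  · have h2 : HasDerivAt (fun t : ℝ => x + t • (y - x)) (y - x) t := by
      have := ((hasDerivAt_id t).smul_const (y - x)).const_add x
      simpa using this
    exact ((hf t ht).hasFDerivAt.comp_hasDerivAt t h2).hasDerivWithinAt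

/-- oscillation of the filtration on a strip on which the derivative is bounded by `M` -/
theorem osc (D : Bds w S P a b C) {A1 A2 M : ℝ} (hA : A2 ≤ b) (hM : 0 ≤ M)
    (hd : ∀ p, ∀ z : ℂ, A1 < z.re → z.re < A2 → ∀ v, ‖fderiv ℝ (Fp w P p) z v‖ ≤ M * ‖v‖)
    (p : ℕ) {z z₀ : ℂ}
    (h1 : A1 < z.re) (h2 : z.re < A2) (h3 : A1 < z₀.re) (h4 : z₀.re < A2) :
    ‖Fp w P p z - Fp w P p z₀‖ ≤ M * ((A2 - A1) + Real.pi) := by
  obtain ⟨n, hn1, hn2⟩ := exists_shift z z₀
  rw [← Fp_per D p (z := z) (by linarith [D.hab]) n]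
  set z' := z + n * (2 * Real.pi * Complex.I) with hz'
  have hconv : Convex ℝ {z : ℂ | A1 < z.re ∧ z.re < A2} :=
    (convex_halfSpace_re_gt A1).inter (convex_halfSpace_re_lt A2)
  have hmem : ∀ y ∈ {z : ℂ | A1 < z.re ∧ z.re < A2}, y ∈ {z : ℂ | z.re < a} := fun y hy => by
    show y.re < a
    have := hy.2
    linarith [D.hab]
  have hseg : ∀ t ∈ Icc (0 : ℝ) 1, z₀ + t • (z' - z₀) ∈ {z : ℂ | A1 < z.re ∧ z.re < A2} :=
    fun t ht => hconv.add_smul_sub_mem (x := z₀) (y := z') ⟨h3, h4⟩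
      ⟨by rw [hn2]; exact h1, by rw [hn2]; exact h2⟩ ht
  have h5 := segment (f := Fp w P p) (M := M) (x := z₀) (y := z')
    (fun t ht => diff_Fp D.vhs (hmem _ (hseg t ht)) p)
    (fun t ht v => hd p _ (hseg t ht).1 (hseg t ht).2 v)
  refine h5.trans (mul_le_mul_of_nonneg_left ?_ hM)
  refine (Complex.norm_le_abs_re_add_abs_im _).trans (add_le_add ?_ ?_)
  · rw [Complex.sub_re, hn2, abs_le]
    constructor <;> linarith
  · rw [Complex.sub_im]
    exact hn1

/-- the constant of `step` -/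
noncomputable def cS (ι : Type*) [Fintype ι] [DecidableEq ι] (w : ℕ) (C : ℝ) : ℝ :=
  ((w + 1 : ℕ) : ℝ) * ((‖(1 : Matrix ι ι ℂ)‖ + C) *
      (8 * (C * (2 * ‖(1 : Matrix ι ι ℂ)‖) * C)) * (C * C) * C)

theorem cS_nonneg {C : ℝ} (hC : 0 ≤ C) : 0 ≤ cS ι w C := by
  unfold cS
  positivity

/-- **first decay** : exponential with some rate -/
theorem decay1 (ι : Type*) [Fintype ι] [DecidableEq ι] (w : ℕ) (a b C : ℝ) :
    ∃ δ C' b' : ℝ, 0 < δ ∧ 0 ≤ C' ∧ b' ≤ b ∧ ∀ (S : Matrix ι ι ℂ) (P : ℕ → ℂ → Matrix ι ι ℂ),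
      Bds w S P a b C → ∀ z : ℂ, z.re ≤ b' →
        ‖dW (grOp w P) 1 z‖ ≤ C' * Real.exp (δ * z.re) := by
  by_cases hC : 1 ≤ C
  swap
  · exact ⟨1, 0, b, one_pos, le_rfl, le_rfl, fun S P D => absurd D.C1 hC⟩
  have hC0 : 0 < C := by linarith
  have hcst := EndTh_659.cst_pos ι
  have hpi := Real.pi_pos
  have hlog4 : 0 < Real.log 4 := Real.log_pos (by norm_num)
  -- `‖fderiv F^p z‖ ≤ K / |re z|` for `re z ≤ b1`
  set K : ℝ := 4 * C * (C * (2 * Real.sqrt (EndTh_659.cst ι))) with hK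
  have hK0 : 0 < K := by positivity
  set η : ℝ := 1 / (2 * C ^ 2) with hη
  have hη0 : 0 < η := by positivity
  set δ : ℝ := min (1 / 2) (η / (8 * K)) with hδ
  have hδ0 : 0 < δ := lt_min (by norm_num) (by positivity)
  have hδ1 : δ ≤ 1 / 2 := min_le_left _ _
  have hδ2 : δ ≤ η / (8 * K) := min_le_right _ _
  -- `τ0` large
  set τ0 : ℝ := 1 + 2 * |b| + 4 * |a| + Real.log 4 / δ + 4 * Real.pi * K / η with hτ0
  have hl4 : 0 ≤ Real.log 4 / δ := by positivity
  have hl5 : 0 ≤ 4 * Real.pi * K / η := by positivity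
  refine ⟨δ, 2 * cS ι w C, -τ0, hδ0, by have := cS_nonneg (ι := ι) (w := w) hC0.le; positivity,
    by have := neg_abs_le b; have := abs_nonneg b; have := abs_nonneg a; linarith, ?_⟩
  intro S P D z hz
  set τ : ℝ := -z.re with hτ
  have hττ : τ0 ≤ τ := by linarith
  have hab0 := abs_nonneg b
  have haa0 := abs_nonneg a
  have hτ1 : 1 ≤ τ := by linarith
  set A1 : ℝ := -(1 + δ) * τ with hA1
  set A2 : ℝ := -(1 - δ) * τ with hA2
  have hA2b : A2 ≤ -(τ / 2) := by
    rw [hA2]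
    nlinarith
  have hA2b' : A2 ≤ b := by
    have := neg_abs_le b
    linarith
  have hA2a : A2 ≤ 2 * a := by
    have := neg_abs_le a
    linarith
  have hτδ : Real.log 4 ≤ δ * τ := by
    have h1 : Real.log 4 / δ ≤ τ := by linarith
    rw [div_le_iff₀ hδ0] at h1
    linarith
  have hfd : ∀ p, ∀ y : ℂ, A1 < y.re → y.re < A2 → ∀ v,
      ‖fderiv ℝ (Fp w P p) y v‖ ≤ 2 * K / τ * ‖v‖ := by
    intro p y _ hy v
    refine (norm_fderiv_le D (by linarith) p v).trans (mul_le_mul_of_nonneg_right ?_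
      (norm_nonneg v))
    have hya : y.re < a := by linarith [D.hab]
    have h1 : gden w P 1 y ≤ EndTh_659.cst ι / (a - y.re) ^ 2 :=
      EndTh_659.gg_le_halfplane D.vhs hya
    have h2 : τ / 4 ≤ a - y.re := by linarith
    have h3 : Real.sqrt (gden w P 1 y) ≤ 2 * Real.sqrt (EndTh_659.cst ι) * (2 / τ) := by
      have h4 : gden w P 1 y ≤ (2 * Real.sqrt (EndTh_659.cst ι) * (2 / τ)) ^ 2 := by
        refine h1.trans ?_
        rw [mul_pow, mul_pow, Real.sq_sqrt hcst.le, div_pow]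
        have h5 : (τ / 4) ^ 2 ≤ (a - y.re) ^ 2 := by gcongr
        calc EndTh_659.cst ι / (a - y.re) ^ 2 ≤ EndTh_659.cst ι / (τ / 4) ^ 2 := by gcongr
          _ = 2 ^ 2 * EndTh_659.cst ι * (2 ^ 2 / τ ^ 2) := by field_simp; norm_num
      calc Real.sqrt (gden w P 1 y) ≤ Real.sqrt ((2 * Real.sqrt (EndTh_659.cst ι) * (2 / τ)) ^ 2) :=
            Real.sqrt_le_sqrt h4
        _ = _ := Real.sqrt_sq (by positivity)
    calc 4 * C * (C * Real.sqrt (gden w P 1 y))
        ≤ 4 * C * (C * (2 * Real.sqrt (EndTh_659.cst ι) * (2 / τ))) := by gcongr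
      _ = 2 * K / τ := by rw [hK]; ring
  have hosc : ∀ p, ∀ y : ℂ, A1 < y.re → y.re < A2 → ‖Fp w P p y - Fp w P p z‖ ≤ 1 / (2 * C ^ 2) := by
    intro p y hy1 hy2
    have hz1 : A1 < z.re := by rw [hA1]; nlinarith
    have hz2 : z.re < A2 := by rw [hA2]; nlinarith
    refine (osc D hA2b' (by positivity) hfd p hy1 hy2 hz1 hz2).trans ?_
    have h1 : A2 - A1 = 2 * δ * τ := by rw [hA1, hA2]; ring
    rw [h1, ← hη]
    have h2 : 2 * K / τ * (2 * δ * τ + Real.pi) = 4 * K * δ + 2 * Real.pi * K / τ := by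
      field_simp; ring
    rw [h2]
    have h3 : 4 * K * δ ≤ η / 2 := by
      calc 4 * K * δ ≤ 4 * K * (η / (8 * K)) := by gcongr
        _ = η / 2 := by field_simp; norm_num
    have h4 : 2 * Real.pi * K / τ ≤ η / 2 := by
      have h5 : 4 * Real.pi * K / η ≤ τ := by linarith
      rw [div_le_iff₀ hη0] at h5
      rw [div_le_iff₀ (by linarith)]
      linarith
    linarith
  have hz1 : A1 < z.re := by rw [hA1]; nlinarith
  have hz2 : z.re < A2 := by rw [hA2]; nlinarith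
  have h1 := step D hA2b' hz1 hz2 hosc (z := z) (by rw [hA1]; nlinarith) (by rw [hA2]; nlinarith)
  refine h1.trans (le_of_eq ?_)
  have e1 : z.re - A2 = δ * z.re := by rw [hA2, hτ]; ring
  have e2 : A1 - z.re = δ * z.re := by rw [hA1, hτ]; ring
  rw [e1, e2]
  unfold cS
  ring

end Crest.Agent.R276.GrG_606
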