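import Crest.Agent.R276.GrG_606

/-!
# R276, leaf GEN0 (helper606), part H: `gden e₀ ≤ C |q₀|²`
-/

set_option autoImplicit false
set_option linter.unusedSectionVars false

open Set Filter Topology Matrix
open scoped ContDiff ComplexConjugate ComplexOrder

namespace Crest.Agent.R276.GrH_606

open Crest.Agent.R276.VCalc_442 Crest.Agent.R276.BndA_563 Crest.Agent.R276.GrD_606
open Crest.Agent.R276.GrE_606 Crest.Agent.R276.GrF_606 Crest.Agent.R276.GrG_606

attribute [local instance] Matrix.linftyOpNormedRing Matrix.linftyOpNormedAlgebra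

/-- horizontal oscillation -/
theorem horiz {E : Type*} [NormedAddCommGroup E] [NormedSpace ℝ E] {f : ℂ → E} {K δ A : ℝ}
    (hδ : 0 < δ) (hf : ∀ z : ℂ, z.re ≤ A → DifferentiableAt ℝ f z)
    (hK : ∀ z : ℂ, z.re ≤ A → ∀ v, ‖fderiv ℝ f z v‖ ≤ K * Real.exp (δ * z.re) * ‖v‖)
    (y : ℝ) {s t : ℝ} (hst : s ≤ t) (ht : t ≤ A) :
    ‖f (t + y * Complex.I) - f (s + y * Complex.I)‖ ≤
      K / δ * (Real.exp (δ * t) - Real.exp (δ * s)) := by
  have hd : ∀ x : ℝ, x ≤ A → HasDerivAt (fun x : ℝ => f (x + y * Complex.I) -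
      f (s + y * Complex.I)) (fderiv ℝ f (x + y * Complex.I) 1) x := by
    intro x hx
    have h2 : HasDerivAt (fun x : ℝ => (x : ℂ) + y * Complex.I) 1 x :=
      (Complex.ofRealCLM.hasDerivAt (x := x)).add_const _
    exact ((hf _ (by simpa using hx)).hasFDerivAt.comp_hasDerivAt x h2).sub_const _
  have hB : ∀ x : ℝ, HasDerivAt (fun x => K / δ * (Real.exp (δ * x) - Real.exp (δ * s)))
      (K * Real.exp (δ * x)) x := by
    intro x
    have h1 : HasDerivAt (fun x : ℝ => Real.exp (δ * x)) (Real.exp (δ * x) * δ) x := by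
      have := ((hasDerivAt_id x).const_mul δ).exp
      simpa using this
    have h2 := (h1.sub_const (Real.exp (δ * s))).const_mul (K / δ)
    have e : K / δ * (Real.exp (δ * x) * δ) = K * Real.exp (δ * x) := by
      field_simp
    rwa [e] at h2
  have h := image_norm_le_of_norm_deriv_right_le_deriv_boundary
    (f := fun x : ℝ => f (x + y * Complex.I) - f (s + y * Complex.I)) (a := s) (b := t)
    (f' := fun x => fderiv ℝ f (x + y * Complex.I) 1)
    (fun x hx => (hd x (hx.2.trans ht)).continuousAt.continuousWithinAt)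
    (fun x hx => (hd x (hx.2.le.trans ht)).hasDerivWithinAt)
    (B := fun x => K / δ * (Real.exp (δ * x) - Real.exp (δ * s)))
    (B' := fun x => K * Real.exp (δ * x)) (by simp) hB
    (fun x hx => by
      have := hK (x + y * Complex.I) (by simpa using hx.2.le.trans ht) 1
      simpa using this)
  exact h ⟨hst, le_rfl⟩

/-- vertical oscillation -/
theorem vert {E : Type*} [NormedAddCommGroup E] [NormedSpace ℝ E] {f : ℂ → E} {K δ A : ℝ}
    (hf : ∀ z : ℂ, z.re ≤ A → DifferentiableAt ℝ f z)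
    (hK : ∀ z : ℂ, z.re ≤ A → ∀ v, ‖fderiv ℝ f z v‖ ≤ K * Real.exp (δ * z.re) * ‖v‖)
    (t : ℝ) (ht : t ≤ A) (y y' : ℝ) :
    ‖f (t + y * Complex.I) - f (t + y' * Complex.I)‖ ≤
      K * Real.exp (δ * t) * |y - y'| := by
  have hre : ∀ s : ℝ, ((t + y' * Complex.I) + s • ((t + y * Complex.I) - (t + y' * Complex.I)) :
      ℂ).re = t := by
    intro s
    simp
  have h := segment (f := f) (M := K * Real.exp (δ * t)) (x := t + y' * Complex.I)
    (y := t + y * Complex.I) (fun s _ => hf _ (by rw [hre]; exact ht))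
    (fun s _ v => by
      have := hK ((t + y' * Complex.I) + s • ((t + y * Complex.I) - (t + y' * Complex.I)))
        (by rw [hre]; exact ht) v
      rwa [hre] at this)
  have e : ‖((t + y * Complex.I) - (t + y' * Complex.I) : ℂ)‖ = |y - y'| := by
    rw [show ((t + y * Complex.I) - (t + y' * Complex.I) : ℂ) = ((y - y' : ℝ) : ℂ) * Complex.I by
      push_cast; ring]
    rw [norm_mul, Complex.norm_I, mul_one, Complex.norm_real, Real.norm_eq_abs]
  rwa [e] at h

variable {ι : Type*} [Fintype ι] [DecidableEq ι]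

/-- **second decay** -/
theorem decay2 (ι : Type*) [Fintype ι] [DecidableEq ι] (w : ℕ) (a b C : ℝ) :
    ∃ C' b' : ℝ, 0 ≤ C' ∧ b' ≤ b ∧ ∀ (S : Matrix ι ι ℂ) (P : ℕ → ℂ → Matrix ι ι ℂ),
      Bds w S P a b C → ∀ z : ℂ, z.re ≤ b' → gden w P 1 z ≤ C' * Real.exp (2 * z.re) := by
  by_cases hC : 1 ≤ C
  swap
  · exact ⟨0, b, le_rfl, le_rfl, fun S P D => absurd D.C1 hC⟩
  have hC0 : 0 < C := by linarith
  have hpi := Real.pi_pos
  have hlog4 : 0 < Real.log 4 := Real.log_pos (by norm_num)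
  obtain ⟨δ, C1, b1, hδ, hC1, hb1, H1⟩ := decay1 ι w a b C
  set K : ℝ := 4 * C * (C * (C * C1)) with hK
  have hK0 : 0 ≤ K := by positivity
  set K' : ℝ := 2 * C ^ 2 * (K * (1 / δ + Real.pi)) + 1 with hK'
  have hK'0 : 0 < K' := by positivity
  set A2 : ℝ := min b1 (Real.log (1 / K') / δ) with hA2
  have hA2b1 : A2 ≤ b1 := min_le_left _ _
  have hA2b : A2 ≤ b := hA2b1.trans hb1
  have hexp : Real.exp (δ * A2) ≤ 1 / K' := by
    have h1 : A2 ≤ Real.log (1 / K') / δ := min_le_right _ _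
    rw [le_div_iff₀ hδ] at h1
    rw [← Real.le_log_iff_exp_le (by positivity)]
    linarith
  have hcS := cS_nonneg (ι := ι) (w := w) hC0.le
  refine ⟨C * (2 * cS ι w C * Real.exp (-A2)) ^ 2, A2 - Real.log 4, by positivity, by linarith,
    ?_⟩
  intro S P D z hz
  have hfd : ∀ p, ∀ y : ℂ, y.re ≤ A2 → ∀ v,
      ‖fderiv ℝ (Fp w P p) y v‖ ≤ K * Real.exp (δ * y.re) * ‖v‖ := by
    intro p y hy v
    refine (norm_fderiv_le D (by linarith) p v).trans (mul_le_mul_of_nonneg_right ?_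
      (norm_nonneg v))
    have h1 := D.up y (by linarith)
    have h2 := H1 S P D y (by linarith)
    have h3 : Real.sqrt (gden w P 1 y) ≤ C * C1 * Real.exp (δ * y.re) := by
      have h4 : gden w P 1 y ≤ (C * C1 * Real.exp (δ * y.re)) ^ 2 := by
        refine h1.trans ?_
        have h5 : ‖dW (grOp w P) 1 y‖ ^ 2 ≤ (C1 * Real.exp (δ * y.re)) ^ 2 := by gcongr
        calc C * ‖dW (grOp w P) 1 y‖ ^ 2 ≤ C ^ 2 * (C1 * Real.exp (δ * y.re)) ^ 2 := by
              refine mul_le_mul ?_ h5 (sq_nonneg _) (by positivity)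
              nlinarith
          _ = _ := by ring
      calc Real.sqrt (gden w P 1 y) ≤ Real.sqrt ((C * C1 * Real.exp (δ * y.re)) ^ 2) :=
            Real.sqrt_le_sqrt h4
        _ = _ := Real.sqrt_sq (by positivity)
    calc 4 * C * (C * Real.sqrt (gden w P 1 y)) ≤ 4 * C * (C * (C * C1 * Real.exp (δ * y.re))) := by
          gcongr
      _ = K * Real.exp (δ * y.re) := by rw [hK]; ring
  have hmem : ∀ y : ℂ, y.re ≤ A2 → y ∈ {z : ℂ | z.re < a} := fun y hy => by
    show y.re < a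
    linarith [D.hab]
  have hdf : ∀ p, ∀ y : ℂ, y.re ≤ A2 → DifferentiableAt ℝ (Fp w P p) y :=
    fun p y hy => diff_Fp D.vhs (hmem y hy) p
  have hH : ∀ p (y : ℝ) {s t : ℝ}, s ≤ A2 → t ≤ A2 →
      ‖Fp w P p (t + y * Complex.I) - Fp w P p (s + y * Complex.I)‖ ≤
        K / δ * Real.exp (δ * A2) := by
    intro p y
    have key : ∀ {s t : ℝ}, s ≤ t → t ≤ A2 →
        ‖Fp w P p (t + y * Complex.I) - Fp w P p (s + y * Complex.I)‖ ≤
          K / δ * Real.exp (δ * A2) := by
      intro s t hst ht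
      refine (horiz hδ (hdf p) (hfd p) y hst ht).trans
        (mul_le_mul_of_nonneg_left ?_ (by positivity))
      have h1 : Real.exp (δ * t) ≤ Real.exp (δ * A2) :=
        Real.exp_le_exp.2 (mul_le_mul_of_nonneg_left ht hδ.le)
      have h2 := Real.exp_pos (δ * s)
      linarith
    intro s t hs ht
    rcases le_total s t with h | h
    · exact key h ht
    · rw [norm_sub_rev]; exact key h hs
  have hosc : ∀ p, ∀ y z₀ : ℂ, y.re < A2 → z₀.re < A2 →
      ‖Fp w P p y - Fp w P p z₀‖ ≤ 1 / (2 * C ^ 2) := by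
    intro p y z₀ hy hz₀
    obtain ⟨n, hn1, hn2⟩ := exists_shift y z₀
    rw [← Fp_per D p (z := y) (by linarith [D.hab]) n]
    set y' := y + n * (2 * Real.pi * Complex.I) with hy'
    have e1 : y' = (y'.re : ℂ) + y'.im * Complex.I := (Complex.re_add_im y').symm
    have e2 : z₀ = (z₀.re : ℂ) + z₀.im * Complex.I := (Complex.re_add_im z₀).symm
    have h1 := vert (hdf p) (hfd p) y'.re (by rw [hn2]; exact hy.le) y'.im z₀.im
    have h2 := hH p z₀.im (s := z₀.re) (t := y'.re) hz₀.le (by rw [hn2]; exact hy.le)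
    rw [← e1] at h1
    rw [← e2] at h2
    have h3 : Real.exp (δ * y'.re) ≤ Real.exp (δ * A2) :=
      Real.exp_le_exp.2 (mul_le_mul_of_nonneg_left (by rw [hn2]; exact hy.le) hδ.le)
    have h4 : K * Real.exp (δ * y'.re) * |y'.im - z₀.im| ≤ K * Real.exp (δ * A2) * Real.pi := by
      gcongr
    have h5 : ‖Fp w P p y' - Fp w P p z₀‖ ≤ K * Real.exp (δ * A2) * Real.pi +
        K / δ * Real.exp (δ * A2) := by
      calc ‖Fp w P p y' - Fp w P p z₀‖ = ‖(Fp w P p y' - Fp w P p (y'.re + z₀.im * Complex.I)) +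
            (Fp w P p (y'.re + z₀.im * Complex.I) - Fp w P p z₀)‖ := by congr 1; abel
        _ ≤ _ := (norm_add_le _ _).trans (add_le_add (h1.trans h4) h2)
    refine h5.trans ?_
    have e3 : K * Real.exp (δ * A2) * Real.pi + K / δ * Real.exp (δ * A2) =
        (K * (1 / δ + Real.pi)) * Real.exp (δ * A2) := by ring
    rw [e3]
    calc (K * (1 / δ + Real.pi)) * Real.exp (δ * A2) ≤ (K * (1 / δ + Real.pi)) * (1 / K') := by
          gcongr
      _ ≤ 1 / (2 * C ^ 2) := by
          rw [mul_one_div, div_le_div_iff₀ hK'0 (by positivity), hK']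
          linarith
  have h1 := step D hA2b (z₀ := z) (A1 := 2 * z.re - A2) (by linarith) (by linarith)
    (fun p y _ hy => hosc p y z hy (by linarith)) (z := z) (by linarith) (by linarith)
  have e1 : 2 * z.re - A2 - z.re = z.re - A2 := by ring
  rw [e1] at h1
  have h2 : ‖dW (grOp w P) 1 z‖ ≤ 2 * cS ι w C * Real.exp (-A2) * Real.exp z.re := by
    refine h1.trans (le_of_eq ?_)
    rw [sub_eq_add_neg, Real.exp_add]
    unfold cS
    ring
  refine (D.up z (by linarith)).trans ?_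
  have h3 : ‖dW (grOp w P) 1 z‖ ^ 2 ≤ (2 * cS ι w C * Real.exp (-A2) * Real.exp z.re) ^ 2 := by
    gcongr
  calc C * ‖dW (grOp w P) 1 z‖ ^ 2 ≤ C * (2 * cS ι w C * Real.exp (-A2) * Real.exp z.re) ^ 2 := by
        gcongr
    _ = _ := by
        rw [mul_pow _ (Real.exp z.re), ← Real.exp_nat_mul]
        push_cast
        ring

end Crest.Agent.R276.GrH_606
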