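import Mathlib
import Crest.Agent.R276.GrH_217

/-!
# R276, leaf COUNT-GR, part I (helper217)

`Full` from a family of normal forms, the growth bounds `g1`, `g2` and the limit metric `ψ'`.
-/

set_option autoImplicit false
set_option linter.unusedSectionVars false

open Set Filter Topology Matrix Metric MeasureTheory
open scoped ComplexOrder ContDiff

namespace Crest.Agent.R276.GrI_217

open Crest.Agent.R271.Ho51
open Crest.Agent.R276.CntDefs_857 Crest.Agent.R276.GrF_217 Crest.Agent.R276.GrH_217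

variable {ι : Type*} [Fintype ι] [DecidableEq ι] {d : ℕ}
variable {M E : Type*} [TopologicalSpace M] [RDom (d + 1) M] [MeasurableSpace M]
    {μ : Measure M} [TopologicalSpace E] [RDom d E]
variable {D : DChart M E μ} {w e : ℕ} {k : ℤ} {ψ₀ : M → ℝ}

theorem log_inv_nonneg (D : DChart M E μ) (y : E) : 0 ≤ 1 + Real.log (1 / D.r y) := by
  have h1 : D.r y ≤ 1 := radf_le_one D.hc0 D.hc1
  have h2 : 0 ≤ Real.log (1 / D.r y) := Real.log_nonneg (by
    rw [le_div_iff₀ (r_pos D y)]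
    linarith)
  linarith

/-- **assembly of `Full`** -/
theorem full_of (F : LFam ι D w e k ψ₀) (n : ℕ) {φ : M → ℝ} {ρ : ℕ} (C0 : ℝ) (ψ' : E → ℝ)
    (g1 : ∀ y, ∀ q ∈ Sh d (D.r y), D.phW φ y q ≤ C0 * (1 + Real.log (1 / D.r y)))
    (g2 : ∀ y, ∀ q ∈ Sh d (D.r y), D.psI (fun x => ((e * n : ℕ) : ℝ) * ψ₀ x) (n * k) y q ≤
      C0 * (1 + Real.log (1 / D.r y)))
    (sm : Sm ψ') (psh : ∀ y w, 0 ≤ Levi ψ' y w)
    (rank : ∀ y : E, ∃ S : Submodule ℂ (Fin d → ℂ), d ≤ Module.finrank ℂ S + ρ ∧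
      ∀ w ∈ S, Levi ψ' y w = 0)
    (tau_le : ∀ y, F.tau n y ≤ ψ' y + C0) :
    Nonempty (Full D φ (fun x => ((e * n : ℕ) : ℝ) * ψ₀ x) (n * k) ρ) := by
  set C : ℝ := max (max 1 C0) (max (LFam.CL ι e n) (LFam.Cl ι D e n)) with hC
  have hC1 : 1 ≤ C := (le_max_left _ _).trans (le_max_left _ _)
  have hC0 : C0 ≤ C := (le_max_right _ _).trans (le_max_left _ _)
  have hCL : LFam.CL ι e n ≤ C := (le_max_left _ _).trans (le_max_right _ _)
  have hCl : LFam.Cl ι D e n ≤ C := (le_max_right _ _).trans (le_max_right _ _)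
  refine ⟨⟨C, hC1, F.tau n, ψ', ?_, ?_, ?_, ?_, sm, psh, rank, ?_⟩⟩
  · intro y q hq
    exact (g1 y q hq).trans (mul_le_mul_of_nonneg_right hC0 (log_inv_nonneg D y))
  · intro y q hq
    exact (g2 y q hq).trans (mul_le_mul_of_nonneg_right hC0 (log_inv_nonneg D y))
  · intro y
    obtain ⟨Λ, h1, h2, h3⟩ := F.Lam n y
    refine ⟨Λ, h1, fun q hq => (h2 q hq).trans ?_, h3.trans ?_⟩
    · exact mul_le_mul_of_nonneg_right hCL (Real.exp_pos _).le
    · exact mul_le_mul_of_nonneg_right hC1 (sq_nonneg _)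
  · intro y
    obtain ⟨l, h1, h2, h3⟩ := F.lam n y
    refine ⟨l, h1, fun g hg hy hgt y' hy' hd => (h2 g hg hy hgt y' hy' hd).trans ?_, h3.trans ?_⟩
    · exact mul_le_mul_of_nonneg_right hCl (Real.exp_pos _).le
    · exact mul_le_mul_of_nonneg_right hC1 (sq_nonneg _)
  · intro y
    exact (tau_le y).trans (by linarith)

end Crest.Agent.R276.GrI_217
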