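import Crest.Agent.R276.GrH_606
import Crest.Agent.R276.GrB_606
import Crest.Agent.R276.GrB_217
import Crest.Agent.R276.EndC_659

/-!
# R276, leaf GEN0 (helper606), part I: a periodic variation on the half space

If the variation on `{re q₀ < a, ‖q_i‖ < R}` is periodic under `q₀ ↦ q₀ + 2πi`, then the Hodge metric
is bounded near `re q₀ = -∞` and the Gram determinant of the coordinate frame is `≤ C |exp q₀|²`.
-/

set_option autoImplicit false
set_option linter.unusedSectionVars false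

open Set Filter Topology Matrix Metric
open scoped ContDiff ComplexConjugate ComplexOrder

namespace Crest.Agent.R276.GrI_606

open Crest.Agent.R276.VCalc_442 Crest.Agent.R276.BndA_563
open Crest.Agent.R276.GrE_606 Crest.Agent.R276.GrF_606
open Crest.Agent.R276.GrB_217 (HB isOpen_HB)
open Crest.Agent.R276.GrB_606 (fr)

variable {ι : Type*} [Fintype ι] [DecidableEq ι]

section nm

attribute [local instance] Matrix.linftyOpNormedRing Matrix.linftyOpNormedAlgebra

theorem norm_le_of_hn {K : Matrix ι ι ℂ} (hK : K.PosDef) {B : ℝ} (hB : 0 ≤ B)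
    (h : ∀ i, hn K (Pi.single i 1) ≤ B) : ‖K‖ ≤ Fintype.card ι * B := by
  refine norm_le_of_entry hB fun i j => ?_
  have h1 := sf_cs hK (Pi.single i 1) (Pi.single j 1)
  have e1 : sf K (Pi.single i 1) (Pi.single j 1) = K i j := by
    unfold sf
    simp
  have h2 : (sf K (Pi.single i 1) (Pi.single i 1)).re ≤ B := h i
  have h3 : (sf K (Pi.single j 1) (Pi.single j 1)).re ≤ B := h j
  have h4 : 0 ≤ (sf K (Pi.single j 1) (Pi.single j 1)).re := hn_nonneg hK _
  rw [e1] at h1
  have h5 : ‖K i j‖ ^ 2 ≤ B ^ 2 := by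
    refine h1.trans ?_
    rw [sq]
    exact mul_le_mul h2 h3 h4 hB
  exact le_of_sq_le_sq h5 hB

end nm

variable {w d : ℕ} {a R : ℝ} {S : Matrix ι ι ℂ} {P : ℕ → (Fin (d + 1) → ℂ) → Matrix ι ι ℂ}

theorem contDiff_cons (z' : Fin d → ℂ) :
    ContDiff ℂ ∞ (fun x : ℂ => (Fin.cons x z' : Fin (d + 1) → ℂ)) := by
  rw [contDiff_pi]
  intro i
  refine Fin.cases ?_ (fun j => ?_) i
  · simp only [Fin.cons_zero]; exact contDiff_id
  · simp only [Fin.cons_succ]; exact contDiff_const

theorem fderiv_cons (z' : Fin d → ℂ) (x : ℂ) :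
    fderiv ℂ (fun x : ℂ => (Fin.cons x z' : Fin (d + 1) → ℂ)) x 1 = Pi.single 0 1 := by
  have h : HasFDerivAt (fun x : ℂ => (Fin.cons x z' : Fin (d + 1) → ℂ))
      ((ContinuousLinearMap.id ℂ ℂ).smulRight (Pi.single 0 1 : Fin (d + 1) → ℂ)) x := by
    have h2 := (((ContinuousLinearMap.id ℂ ℂ).smulRight
      (Pi.single 0 1 : Fin (d + 1) → ℂ)).hasFDerivAt (x := x)).add_const (Fin.cons 0 z')
    refine h2.congr_of_eventuallyEq (Filter.Eventually.of_forall fun y => ?_)
    funext i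
    refine Fin.cases ?_ (fun j => ?_) i
    · simp
    · simp
  rw [h.fderiv]
  simp

/-- the slice at `z'` -/
theorem slice (h : VHS w (HB d a R) S P) {z' : Fin d → ℂ} (hz' : ∀ i, ‖z' i‖ < R) :
    VHS w {x : ℂ | x.re < a} S (fun p x => P p (Fin.cons x z')) := by
  refine EndTh_659.pull h (isOpen_lt Complex.continuous_re continuous_const)
    (contDiff_cons z').contDiffOn fun x hx => ⟨?_, fun i => ?_⟩
  · simpa using hx
  · simpa using hz' i

theorem gden_slice (h : VHS w (HB d a R) S P) {z' : Fin d → ℂ} (hz' : ∀ i, ‖z' i‖ < R) {x : ℂ}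
    (hx : x.re < a) :
    gden w (fun p x => P p (Fin.cons x z')) 1 x = gden w P (Pi.single 0 1) (Fin.cons x z') := by
  have hm : (Fin.cons x z' : Fin (d + 1) → ℂ) ∈ HB d a R := ⟨by simpa using hx,
    fun i => by simpa using hz' i⟩
  have h1 := EndTh_659.gg_pull (f := fun x : ℂ => (Fin.cons x z' : Fin (d + 1) → ℂ)) h (y := x) hm
    (((contDiff_cons z').contDiffAt).differentiableAt (by simp)) 1
  rw [fderiv_cons] at h1
  exact h1

theorem cons_mem {a R : ℝ} {x : ℂ} {z' : Fin d → ℂ} (hx : x.re < a) (hz' : ∀ i, ‖z' i‖ < R) :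
    (Fin.cons x z' : Fin (d + 1) → ℂ) ∈ HB d a R := ⟨by simpa using hx, fun i => by simpa using hz' i⟩

theorem ball_sub {ρ : ℝ} (hρ : ρ ≤ R) {x : ℂ} (hx : x.re + ρ ≤ a) :
    ball (Fin.cons x 0 : Fin (d + 1) → ℂ) ρ ⊆ HB d a R := by
  intro y hy
  rw [mem_ball, dist_eq_norm] at hy
  have h0 : ∀ i, ‖(y - Fin.cons x 0 : Fin (d + 1) → ℂ) i‖ < ρ := fun i =>
    (norm_le_pi_norm _ i).trans_lt hy
  refine ⟨?_, fun i => ?_⟩
  · have h1 := h0 0
    have h2 : ((y - Fin.cons x 0 : Fin (d + 1) → ℂ) 0) = y 0 - x := by simp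
    rw [h2] at h1
    have h3 := (Complex.re_le_norm (y 0 - x)).trans_lt h1
    rw [Complex.sub_re] at h3
    linarith
  · have h1 := h0 i.succ
    have h2 : ((y - Fin.cons x 0 : Fin (d + 1) → ℂ) i.succ) = y i.succ := by simp
    rw [h2] at h1
    linarith

section nm2

attribute [local instance] Matrix.linftyOpNormedRing Matrix.linftyOpNormedAlgebra

/-- **the Hodge metric is bounded** -/
theorem hm_bdd (hR : 0 < R) (h : VHS w (HB d a R) S P)
    (per : ∀ q ∈ HB d a R, ∀ p, P p (q + Pi.single 0 (2 * Real.pi * Complex.I)) = P p q) :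
    ∃ B ε b : ℝ, 0 < ε ∧ ε ≤ R / 2 ∧ b < a ∧ ∀ x : ℂ, x.re ≤ b → ∀ z' : Fin d → ℂ,
      (∀ i, ‖z' i‖ < ε) → ‖hm w S P (Fin.cons x z')‖ ≤ B := by
  set s1 : ℝ := max (-a + 1) 1 with hs1
  have h1a : -a + 1 ≤ s1 := le_max_left _ _
  have h11 : 1 ≤ s1 := le_max_right _ _
  have hsl := slice h (z' := 0) (fun i => by simpa using hR)
  have key : ∀ u : ι → ℂ, ∃ B, ∀ x : ℂ, x.re ≤ -s1 → hn (hm w S P (Fin.cons x 0)) u ≤ B := by
    intro u
    have h2 := EndC_659.bounded_flat (s0 := -a) (s1 := s1) (w := w) (S := S)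
      (P := fun p x => P p (Fin.cons x 0)) (by linarith) (by linarith)
      (by rw [neg_neg]; exact hsl) u (by
        intro x hx
        rw [neg_neg] at hx
        have e1 : ∀ p, P p (Fin.cons (x + 2 * Real.pi * Complex.I) 0) = P p (Fin.cons x 0) := by
          intro p
          rw [← per _ (cons_mem hx fun i => by simpa using hR) p]
          congr 1
          funext i
          refine Fin.cases ?_ (fun j => ?_) i
          · simp
          · simp
        have e2 : hm w S (fun p x => P p (Fin.cons x 0)) (x + 2 * Real.pi * Complex.I) =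
            hm w S (fun p x => P p (Fin.cons x 0)) x := by
          unfold hm sgOp
          simp only [e1]
        rw [e2])
    obtain ⟨B, hB⟩ := h2
    exact ⟨B, hB⟩
  choose Bu hBu using key
  set B : ℝ := ∑ i, |Bu (Pi.single i 1)| with hBd
  have hB0 : 0 ≤ B := Finset.sum_nonneg fun i _ => abs_nonneg _
  set ρ : ℝ := min R 1 with hρ
  have hρ0 : 0 < ρ := lt_min hR one_pos
  have hρR : ρ ≤ R := min_le_left _ _
  have hρ1 : ρ ≤ 1 := min_le_right _ _
  refine ⟨Fintype.card ι * (Real.exp (C0 ι) * B), ρ / 2, -s1, by positivity, by linarith,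
    by linarith, fun x hx z' hz' => ?_⟩
  have hsub := ball_sub (d := d) (a := a) hρR (x := x) (by linarith)
  have hy : (Fin.cons x z' : Fin (d + 1) → ℂ) ∈ ball (Fin.cons x 0 : Fin (d + 1) → ℂ) (ρ / 2) := by
    rw [mem_ball, dist_eq_norm, pi_norm_lt_iff (by positivity)]
    intro i
    refine Fin.cases ?_ (fun j => ?_) i
    · simpa using hρ0
    · simpa using hz' j
  refine norm_le_of_hn (h.hmPos (hsub (ball_subset_ball (by linarith) hy))) (by positivity)
    fun i => ?_
  have h3 := hn_le h hρ0 hsub (Pi.single i 1) hy (mem_ball_self (by positivity))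
  refine h3.trans (mul_le_mul_of_nonneg_left ?_ (Real.exp_pos _).le)
  refine (hBu _ x hx).trans ((le_abs_self _).trans ?_)
  exact Finset.single_le_sum (f := fun i => |Bu (Pi.single i 1)|) (fun i _ => abs_nonneg _)
    (Finset.mem_univ i)

end nm2

/-- **the density of the normal direction** -/
theorem gden_le (hR : 0 < R) (h : VHS w (HB d a R) S P)
    (per : ∀ q ∈ HB d a R, ∀ p, P p (q + Pi.single 0 (2 * Real.pi * Complex.I)) = P p q) :
    ∃ C ε b : ℝ, 0 ≤ C ∧ 0 < ε ∧ ε ≤ R / 2 ∧ b < a ∧ ∀ q : Fin (d + 1) → ℂ, (q 0).re ≤ b →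
      (∀ i : Fin d, ‖q i.succ‖ < ε) → gden w P (Pi.single 0 1) q ≤ C * Real.exp (2 * (q 0).re) := by
  obtain ⟨B, ε, b, hε, hεR, hb, hB⟩ := hm_bdd hR h per
  obtain ⟨C, hC⟩ := exists_bds w S a b B hb
  obtain ⟨C', b', hC', hb', H⟩ := GrH_606.decay2 ι w a b C
  refine ⟨C', ε, b', hC', hε, hεR, by linarith, fun q hq0 hq => ?_⟩
  have hzR : ∀ i : Fin d, ‖q i.succ‖ < R := fun i => by linarith [hq i]
  have hcons : (Fin.cons (q 0) (fun i => q i.succ) : Fin (d + 1) → ℂ) = q := Fin.cons_self_tail q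
  have D : Bds w S (fun p x => P p (Fin.cons x (fun i => q i.succ))) a b C := by
    refine hC _ (slice h hzR) (fun x hx p => ?_) (fun x hx => ?_)
    · rw [← per _ (cons_mem hx hzR) p]
      congr 1
      funext i
      refine Fin.cases ?_ (fun j => ?_) i
      · simp
      · simp
    · exact hB x hx _ hq
  have h1 := H S _ D (q 0) hq0
  rw [gden_slice h hzR (by linarith), hcons] at h1
  exact h1

/-- **the Gram determinant** -/
theorem det_le (hR : 0 < R) (h : VHS w (HB d a R) S P)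
    (per : ∀ q ∈ HB d a R, ∀ p, P p (q + Pi.single 0 (2 * Real.pi * Complex.I)) = P p q) :
    ∃ C ε b : ℝ, 0 < C ∧ 0 < ε ∧ ε ≤ R / 2 ∧ b < a ∧ ∀ q : Fin (d + 1) → ℂ, (q 0).re ≤ b →
      (∀ i : Fin d, ‖q i.succ‖ < ε) →
      (gm w P (fr d) q).det.re ≤ C * Real.exp (2 * (q 0).re) := by
  obtain ⟨C, ε, b, hC, hε, hεR, hb, H⟩ := gden_le hR h per
  have hcst := EndTh_659.cst_pos ι
  refine ⟨(C + 1) * (EndTh_659.cst ι / (R / 2) ^ 2) ^ d, ε, b, by positivity, hε, hεR, hb,
    fun q hq0 hq => ?_⟩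
  have hqm : q ∈ HB d a R := ⟨by linarith, fun i => by linarith [hq i]⟩
  refine (h.det_le hqm (fr d)).trans ?_
  rw [Fin.prod_univ_succ]
  have hsucc : ∀ i : Fin d, gden w P (fr d i.succ) q ≤ EndTh_659.cst ι / (R / 2) ^ 2 := by
    intro i
    refine GrB_606.gden_le_line h (by positivity) fun t ht => ⟨?_, fun j => ?_⟩
    · have h1 : (q + t • (fr d i.succ : Fin (d + 1) → ℂ)) 0 = q 0 := by
        simp [fr]
      rw [h1]
      exact hqm.1
    · rcases eq_or_ne j i with rfl | hji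
      · have h1 : (q + t • (fr d j.succ : Fin (d + 1) → ℂ)) j.succ = q j.succ + t := by simp [fr]
        rw [h1]
        linarith [norm_add_le (q j.succ) t, hq j]
      · have h1 : (q + t • (fr d i.succ : Fin (d + 1) → ℂ)) j.succ = q j.succ := by
          have : j.succ ≠ i.succ := fun h => hji (Fin.succ_injective _ h)
          simp [fr, this]
        rw [h1]
        exact hqm.2 j
  have h0 : gden w P (fr d 0) q ≤ (C + 1) * Real.exp (2 * (q 0).re) :=
    (H q hq0 hq).trans (mul_le_mul_of_nonneg_right (by linarith) (Real.exp_pos _).le)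
  calc gden w P (fr d 0) q * ∏ i : Fin d, gden w P (fr d i.succ) q
      ≤ (C + 1) * Real.exp (2 * (q 0).re) * (EndTh_659.cst ι / (R / 2) ^ 2) ^ d := by
        refine mul_le_mul h0 ?_ (Finset.prod_nonneg fun i _ => h.gden_nonneg hqm _) (by positivity)
        refine (Finset.prod_le_prod (fun i _ => h.gden_nonneg hqm _) (fun i _ => hsucc i)).trans ?_
        rw [Finset.prod_const, Finset.card_univ, Fintype.card_fin]
    _ = _ := by ring

end Crest.Agent.R276.GrI_606
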