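import Crest.Agent.R276.VCalcC_442
import Crest.Agent.R276.Ahl_25

/-!
# R276, leaf VCalc (helper442): negative curvature of the Hodge metric

* `lap_line`, `lap_log_line` : `Δ` along a complex line versus `∂̄_v ∂_v`.
* `exists_neg` (C1): the density `g_v = tr (θ_v θ̄_v)` satisfies `Δ log g ≥ c g` along complex lines.
-/

set_option autoImplicit false
set_option linter.unusedSectionVars false

open Set Filter Topology Matrix Finset InnerProductSpace Laplacian
open scoped ContDiff ComplexConjugate ComplexOrder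

namespace Crest.Agent.R276.VCalc_442

variable {X : Type*} [NormedAddCommGroup X] [NormedSpace ℂ X]

section lap

theorem fderiv2_apply {Y Z : Type*} [NormedAddCommGroup Y] [NormedSpace ℝ Y]
    [NormedAddCommGroup Z] [NormedSpace ℝ Z] {f : Y → Z} {x : Y} (hf : ContDiffAt ℝ 2 f x)
    (v w : Y) : fderiv ℝ (fun y => fderiv ℝ f y v) x w = fderiv ℝ (fderiv ℝ f) x w v := by
  have h : DifferentiableAt ℝ (fderiv ℝ f) x :=
    (hf.fderiv_right (m := 1) (by norm_num)).differentiableAt (by simp)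
  rw [fderiv_clm_apply h (differentiableAt_const v)]
  simp

/-- complexification of a real valued function -/
noncomputable def cx (f : X → ℝ) (x : X) : ℂ := (f x : ℂ)

theorem fderiv_cx {f : X → ℝ} {x : X} (hf : DifferentiableAt ℝ f x) (v : X) :
    fderiv ℝ (cx f) x v = (fderiv ℝ f x v : ℂ) := by
  have h : HasFDerivAt (cx f) (Complex.ofRealCLM.comp (fderiv ℝ f x)) x :=
    Complex.ofRealCLM.hasFDerivAt.comp x hf.hasFDerivAt
  rw [h.fderiv]
  rfl

theorem contDiffAt_cx {f : X → ℝ} {x : X} {n : WithTop ℕ∞} (hf : ContDiffAt ℝ n f x) :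
    ContDiffAt ℝ n (cx f) x := Complex.ofRealCLM.contDiff.contDiffAt.comp x hf

theorem fderiv2_cx {f : X → ℝ} {x : X} (hf : ContDiffAt ℝ 2 f x) (v w : X) :
    fderiv ℝ (fderiv ℝ (cx f)) x w v = (fderiv ℝ (fderiv ℝ f) x w v : ℂ) := by
  rw [← fderiv2_apply (contDiffAt_cx hf), ← fderiv2_apply hf]
  have h1 : (fun y => fderiv ℝ (cx f) y v) =ᶠ[𝓝 x] cx (fun y => fderiv ℝ f y v) := by
    have h2 : ∀ᶠ y in 𝓝 x, DifferentiableAt ℝ f y := by
      have := hf.eventually (by simp)
      filter_upwards [this] with y hy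
      exact hy.differentiableAt (by simp)
    filter_upwards [h2] with y hy
    exact fderiv_cx hy v
  rw [h1.fderiv_eq]
  have h : DifferentiableAt ℝ (fderiv ℝ f) x :=
    (hf.fderiv_right (m := 1) (by norm_num)).differentiableAt (by simp)
  exact fderiv_cx (h.clm_apply (differentiableAt_const v)) w

/-- `4 ∂̄_v ∂_v F = D²F(v,v) + D²F(iv,iv)` -/
theorem four_dB_dW {A : Type*} [NormedAddCommGroup A] [NormedSpace ℂ A] {F : X → A} {x : X}
    (hF : ContDiffAt ℝ 2 F x) (v : X) :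
    (4 : ℂ) • dB (dW F v) v x = fderiv ℝ (fderiv ℝ F) x v v +
      fderiv ℝ (fderiv ℝ F) x (Complex.I • v) (Complex.I • v) := by
  have h : DifferentiableAt ℝ (fderiv ℝ F) x :=
    (hF.fderiv_right (m := 1) (by norm_num)).differentiableAt (by simp)
  have h1 : ∀ u : X, DifferentiableAt ℝ (fun y => fderiv ℝ F y u) x :=
    fun u => h.clm_apply (differentiableAt_const u)
  have key : ∀ u : X, fderiv ℝ (dW F v) x u = (1 / 2 : ℂ) • (fderiv ℝ (fderiv ℝ F) x u v -
      Complex.I • fderiv ℝ (fderiv ℝ F) x u (Complex.I • v)) := by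
    intro u
    have e := (((h1 v).hasFDerivAt.sub ((h1 (Complex.I • v)).hasFDerivAt.const_smul
      Complex.I)).const_smul (1 / 2 : ℂ)).fderiv
    have e' : fderiv ℝ (dW F v) x = _ := e
    rw [e']
    simp only [_root_.smul_apply, _root_.sub_apply]
    rw [fderiv2_apply hF, fderiv2_apply hF]
  have e1 : dB (dW F v) v x = (1 / 2 : ℂ) • (fderiv ℝ (dW F v) x v +
    Complex.I • fderiv ℝ (dW F v) x (Complex.I • v)) := rfl
  have hI : Complex.I * Complex.I = -1 := Complex.I_mul_I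
  rw [e1, key, key, symm2 hF (Complex.I • v) v]
  match_scalars <;> first | linear_combination (0:ℂ) * hI | linear_combination hI | linear_combination -hI

/-- the Laplacian along a complex line -/
theorem lap_line {f : X → ℝ} {z v : X} {ζ : ℂ} (hf : ContDiffAt ℝ 2 f (z + ζ • v)) :
    (Δ (fun ξ : ℂ => f (z + ξ • v))) ζ = 4 * (dB (dW (cx f) v) v (z + ζ • v)).re := by
  rw [Ahl_25.lap_eq]
  set γ : ℂ → X := fun ξ => z + ξ • v with hγ
  have hγd : ∀ ξ, HasFDerivAt γ (ContinuousLinearMap.smulRight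
      (ContinuousLinearMap.id ℂ ℂ) v |>.restrictScalars ℝ) ξ := by
    intro ξ
    have h1 : HasFDerivAt (𝕜 := ℂ) γ (ContinuousLinearMap.smulRight
      (ContinuousLinearMap.id ℂ ℂ) v) ξ := by
      have := ((hasFDerivAt_id (𝕜 := ℂ) ξ).smul_const v).const_add z
      exact this
    exact h1.restrictScalars ℝ
  have hev : ∀ᶠ ξ in 𝓝 ζ, ContDiffAt ℝ 2 f (γ ξ) := by
    have hc : ContinuousAt γ ζ := (hγd ζ).continuousAt
    exact hc.eventually (hf.eventually (by simp))
  have h1 : ∀ a : ℂ, (fun ξ => fderiv ℝ (fun ξ : ℂ => f (γ ξ)) ξ a) =ᶠ[𝓝 ζ]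
      fun ξ => fderiv ℝ f (γ ξ) (a • v) := by
    intro a
    filter_upwards [hev] with ξ hξ
    have := ((hξ.differentiableAt (by simp)).hasFDerivAt.comp ξ (hγd ξ)).fderiv
    have e : fderiv ℝ (fun ξ : ℂ => f (γ ξ)) ξ = _ := this
    rw [e]
    simp
  have hcomp : ContDiffAt ℝ 2 (fun ξ : ℂ => f (γ ξ)) ζ := by
    have hγc : ContDiffAt ℝ 2 γ ζ := by
      have : ContDiff ℝ 2 γ := contDiff_const.add (contDiff_id.smul contDiff_const)
      exact this.contDiffAt
    exact hf.comp ζ hγc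
  have h2 : ∀ a : ℂ, fderiv ℝ (fderiv ℝ (fun ξ : ℂ => f (γ ξ))) ζ a a =
      fderiv ℝ (fderiv ℝ f) (γ ζ) (a • v) (a • v) := by
    intro a
    rw [← fderiv2_apply hcomp, (h1 a).fderiv_eq, ← fderiv2_apply hf]
    have h : DifferentiableAt ℝ (fderiv ℝ f) (γ ζ) :=
      (hf.fderiv_right (m := 1) (by norm_num)).differentiableAt (by simp)
    have h3 : HasFDerivAt (fun y => fderiv ℝ f y (a • v)) (fderiv ℝ
        (fun y => fderiv ℝ f y (a • v)) (γ ζ)) (γ ζ) :=
      (h.clm_apply (differentiableAt_const _)).hasFDerivAt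
    have h4 := (h3.comp ζ (hγd ζ)).fderiv
    have e : fderiv ℝ (fun ξ => fderiv ℝ f (γ ξ) (a • v)) ζ = _ := h4
    rw [e]
    simp
    rfl
  have h3 := four_dB_dW (contDiffAt_cx hf) v
  rw [fderiv2_cx hf, fderiv2_cx hf] at h3
  have h4 := h2 1
  have h5 := h2 Complex.I
  rw [one_smul] at h4
  have e : (fun ξ : ℂ => f (z + ξ • v)) = fun ξ => f (γ ξ) := rfl
  rw [e, h4, h5]
  have h6 := congrArg Complex.re h3
  simp only [smul_eq_mul, Complex.add_re, Complex.ofReal_re] at h6
  rw [← h6]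
  simp [Complex.mul_re]

theorem dW_cx {f : X → ℝ} {x : X} (hf : DifferentiableAt ℝ f x) (v : X) :
    dW (cx f) v x = (1 / 2 : ℂ) * ((fderiv ℝ f x v : ℂ) - Complex.I *
      (fderiv ℝ f x (Complex.I • v) : ℂ)) := by
  unfold dW
  rw [fderiv_cx hf, fderiv_cx hf]
  simp

theorem normSq_dW_cx {f : X → ℝ} {x : X} (hf : DifferentiableAt ℝ f x) (v : X) :
    4 * ‖dW (cx f) v x‖ ^ 2 = (fderiv ℝ f x v) ^ 2 + (fderiv ℝ f x (Complex.I • v)) ^ 2 := by
  rw [dW_cx hf, ← Complex.normSq_eq_norm_sq, Complex.normSq_apply]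
  simp
  ring

/-- the Laplacian of the logarithm along a complex line -/
theorem lap_log_line {f : X → ℝ} {z v : X} {ζ : ℂ} (hf : ContDiffAt ℝ 2 f (z + ζ • v))
    (hpos : f (z + ζ • v) ≠ 0) :
    (Δ (fun ξ : ℂ => Real.log (f (z + ξ • v)))) ζ =
      4 * (f (z + ζ • v) * (dB (dW (cx f) v) v (z + ζ • v)).re -
        ‖dW (cx f) v (z + ζ • v)‖ ^ 2) / f (z + ζ • v) ^ 2 := by
  set x := z + ζ • v with hx
  have hlog : ContDiffAt ℝ 2 (fun y => Real.log (f y)) x := hf.log hpos
  have h1 := lap_line (f := fun y => Real.log (f y)) (z := z) (v := v) (ζ := ζ) hlog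
  rw [h1]
  have key : ∀ u : X, fderiv ℝ (fderiv ℝ (fun y => Real.log (f y))) x u u =
      fderiv ℝ (fderiv ℝ f) x u u / f x - (fderiv ℝ f x u) ^ 2 / f x ^ 2 := by
    intro u
    rw [← fderiv2_apply hlog, ← fderiv2_apply hf]
    have hev : (fun y => fderiv ℝ (fun y => Real.log (f y)) y u) =ᶠ[𝓝 x]
        fun y => (f y)⁻¹ * fderiv ℝ f y u := by
      have e1 : ∀ᶠ y in 𝓝 x, DifferentiableAt ℝ f y := by
        filter_upwards [hf.eventually (by simp)] with y hy
        exact hy.differentiableAt (by simp)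
      have e2 : ∀ᶠ y in 𝓝 x, f y ≠ 0 := hf.continuousAt.eventually_ne hpos
      filter_upwards [e1, e2] with y h1 h2
      have e3 : fderiv ℝ (fun y => Real.log (f y)) y = (f y)⁻¹ • fderiv ℝ f y :=
        (h1.hasFDerivAt.log h2).fderiv
      rw [e3]
      rfl
    rw [hev.fderiv_eq]
    have hd : DifferentiableAt ℝ f x := hf.differentiableAt (by simp)
    have h : DifferentiableAt ℝ (fderiv ℝ f) x :=
      (hf.fderiv_right (m := 1) (by norm_num)).differentiableAt (by simp)
    have hd2 : DifferentiableAt ℝ (fun y => fderiv ℝ f y u) x :=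
      h.clm_apply (differentiableAt_const u)
    have h3 := (((hasDerivAt_inv hpos).comp_hasFDerivAt x hd.hasFDerivAt).mul
      hd2.hasFDerivAt).fderiv
    have e : fderiv ℝ (fun y => (f y)⁻¹ * fderiv ℝ f y u) x = _ := h3
    rw [e]
    simp only [_root_.add_apply, _root_.smul_apply, smul_eq_mul, Function.comp_apply]
    field_simp
    ring
  have h2 := four_dB_dW (contDiffAt_cx hlog) v
  rw [fderiv2_cx hlog, fderiv2_cx hlog, key, key] at h2
  have h3 := four_dB_dW (contDiffAt_cx hf) v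
  rw [fderiv2_cx hf, fderiv2_cx hf] at h3
  have h4 := normSq_dW_cx (hf.differentiableAt (by simp)) v
  have h5 := congrArg Complex.re h2
  have h6 := congrArg Complex.re h3
  simp only [smul_eq_mul, Complex.add_re, Complex.ofReal_re, Complex.mul_re] at h5 h6
  norm_num at h5 h6
  rw [h5, eq_div_iff (by positivity)]
  have h7 : (fderiv ℝ f x v) ^ 2 = 4 * ‖dW (cx f) v x‖ ^ 2 -
    (fderiv ℝ f x (Complex.I • v)) ^ 2 := by linarith
  have h8 : fderiv ℝ (fderiv ℝ f) x v v = 4 * (dB (dW (cx f) v) v x).re -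
    fderiv ℝ (fderiv ℝ f) x (Complex.I • v) (Complex.I • v) := by linarith
  rw [h7, h8]
  field_simp
  ring

end lap

end Crest.Agent.R276.VCalc_442
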