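import Crest.Agent.R276.PosK_767
import Crest.Agent.R276.VCalcD_442

/-!
# R276, leaf COUNT-GR, part J (helper217)

The logarithm of the limit metric is superharmonic on discs in the divisor, hence `-log c_k` is
plurisubharmonic.
-/

set_option autoImplicit false
set_option linter.unusedSectionVars false

open Set Filter Topology Metric Complex MeasureTheory Real
open scoped ContDiff ComplexConjugate Nat

noncomputable section

namespace Crest.Agent.R276.GrJ_217

open Crest.Agent.R276.Bdy_767 Crest.Agent.R276.VCalc_442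

/-- elementary -/
theorem abs_log_sub_le {x c ε : ℝ} (hc : 0 < c) (hε : 0 < ε) (hε1 : ε ≤ 1)
    (h : |x - c| ≤ c * (ε / 2)) : |Real.log x - Real.log c| ≤ ε := by
  obtain ⟨h1, h2⟩ := abs_le.1 h
  have hx : 0 < x := by nlinarith
  have a1 : Real.log x - Real.log c ≤ ε := by
    rw [← Real.log_div hx.ne' hc.ne']
    refine (Real.log_le_sub_one_of_pos (div_pos hx hc)).trans ?_
    rw [div_sub_one hc.ne', div_le_iff₀ hc]
    nlinarith
  have a2 : Real.log c - Real.log x ≤ ε := by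
    rw [← Real.log_div hc.ne' hx.ne']
    refine (Real.log_le_sub_one_of_pos (div_pos hc hx)).trans ?_
    rw [div_sub_one hx.ne', div_le_iff₀ hx]
    nlinarith
  rw [abs_le]
  constructor <;> linarith

section super

variable {V : Type*} [NormedAddCommGroup V] [NormedSpace ℂ V] [CompleteSpace V]
variable {E : Type*} [NormedAddCommGroup E] [NormedSpace ℂ E]
variable {S : V →L⋆[ℂ] V →L[ℂ] ℂ} {N : V →L[ℂ] V} {r : ℝ} {U : Set E} {f : ℂ × E → V}

/-- **the logarithm of the limit metric is superharmonic** -/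
theorem log_cc_super (h : Bd S N r U f) (hY : YD S N U f) {k : ℕ}
    (hk : ∀ j, k < j → ∀ y ∈ U, S (f (0, y)) ((KK N ^ j) (f (0, y))) = 0)
    (hpos : ∀ y ∈ U, 0 < cc S N f k (0, y)) {y0 v : E}
    (hd : ∀ ζ ∈ closedBall (0 : ℂ) 1, y0 + ζ • v ∈ U) :
    circleAverage (fun ζ => Real.log (cc S N f k (0, y0 + ζ • v))) 0 1 ≤
      Real.log (cc S N f k (0, y0)) := by
  set γ : ℂ → E := fun ζ => y0 + ζ • v with hγ
  have hγc : Continuous γ := by fun_prop
  set Q : Set E := γ '' closedBall (0 : ℂ) 1 with hQ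
  have hQc : IsCompact Q := (isCompact_closedBall 0 1).image hγc
  have hQU : Q ⊆ U := by
    rintro _ ⟨ζ, hζ, rfl⟩
    exact hd ζ hζ
  have hy0 : y0 ∈ U := by
    have := hd 0 (mem_closedBall_self zero_le_one)
    simpa using this
  have hccc : ContinuousOn (fun y : E => cc S N f k (0, y)) U := by
    refine (cc_continuousOn h.an.continuousOn k).comp (by fun_prop) ?_
    intro y hy
    exact ⟨mem_ball_self h.hr, hy⟩
  obtain ⟨m, hm0, hm⟩ : ∃ m > 0, ∀ y ∈ Q, m ≤ cc S N f k (0, y) := by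
    obtain ⟨y1, hy1, hmin⟩ := hQc.exists_isMinOn ⟨y0, 0, mem_closedBall_self zero_le_one, by
      simp [hγ]⟩ (hccc.mono hQU)
    exact ⟨_, hpos y1 (hQU hy1), fun y hy => hmin hy⟩
  have hball : ∀ ζ ∈ sphere (0 : ℂ) |1|, γ ζ ∈ Q := fun ζ hζ => by
    rw [abs_one] at hζ
    exact ⟨ζ, sphere_subset_closedBall hζ, rfl⟩
  have hcont1 : ContinuousOn (fun ζ : ℂ => Real.log (cc S N f k (0, γ ζ))) (sphere 0 |1|) := by
    refine ContinuousOn.log ?_ (fun ζ hζ => (hpos _ (hQU (hball ζ hζ))).ne')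
    exact hccc.comp hγc.continuousOn fun ζ hζ => hQU (hball ζ hζ)
  have hint1 : CircleIntegrable (fun ζ : ℂ => Real.log (cc S N f k (0, γ ζ))) 0 1 :=
    hcont1.circleIntegrable'
  refine le_of_forall_pos_le_add fun δ hδ => ?_
  set ε : ℝ := min 1 (δ / 2) with hε
  have hε0 : 0 < ε := lt_min one_pos (by linarith)
  have hε1 : ε ≤ 1 := min_le_left _ _
  have hε2 : ε ≤ δ / 2 := min_le_right _ _
  obtain ⟨A, hA⟩ := tendsto_unif h hk hQc hQU (ε := m * (ε / 2)) (by positivity)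
  obtain ⟨c', -, A', s0, hs0⟩ := hY.mg Q hQU hQc
  obtain ⟨s1, -, hs1⟩ := exp_small h
  obtain ⟨C, s2, hs2⟩ := hY.disc y0 v hd
  set s : ℝ := max (max 1 (-A + 1)) (max s0 (max s1 s2)) with hs
  have e1 : 1 ≤ s := (le_max_left _ _).trans (le_max_left _ _)
  have e2 : -A + 1 ≤ s := (le_max_right _ _).trans (le_max_left _ _)
  have e3 : s0 ≤ s := (le_max_left _ _).trans (le_max_right _ _)
  have e4 : s1 ≤ s := (le_max_left _ _).trans ((le_max_right _ _).trans (le_max_right _ _))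
  have e5 : s2 ≤ s := (le_max_right _ _).trans ((le_max_right _ _).trans (le_max_right _ _))
  have hsp : 0 < s := by linarith
  have key : ∀ y ∈ Q, |(Real.log (hh S N f s y) - k * Real.log s) -
      Real.log (cc S N f k (0, y))| ≤ ε := by
    intro y hy
    have h1 := hA (-(s : ℂ)) (by simp; linarith) y hy
    rw [Bdy_767.neg_re] at h1
    have h2 : |hh S N f s y / s ^ k - cc S N f k (0, y)| ≤ cc S N f k (0, y) * (ε / 2) := by
      refine le_trans h1 ?_
      have := hm y hy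
      gcongr
    have h3 := abs_log_sub_le (hpos y (hQU hy)) hε0 hε1 h2
    rw [Real.log_div (hs0 s e3 y hy).1.ne' (pow_pos hsp k).ne', Real.log_pow] at h3
    exact h3
  have hexp := (hs1 s e4)
  have hcont2 : ContinuousOn (fun ζ : ℂ => Real.log (hh S N f s (γ ζ)) - k * Real.log s)
      (sphere 0 |1|) := by
    refine ContinuousOn.sub ?_ continuousOn_const
    refine ContinuousOn.log ?_ (fun ζ hζ => (hs0 s e3 _ (hball ζ hζ)).1.ne')
    refine (hh_continuousOn h (s := s) ?_).comp hγc.continuousOn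
      fun ζ hζ => hQU (hball ζ hζ)
    have := h.hr
    linarith [hexp.2]
  have hint2 : CircleIntegrable (fun ζ : ℂ => Real.log (hh S N f s (γ ζ)) - k * Real.log s) 0 1 :=
    hcont2.circleIntegrable'
  have hint3 : CircleIntegrable (fun ζ : ℂ => Real.log (hh S N f s (γ ζ))) 0 1 := by
    refine ContinuousOn.circleIntegrable' ?_
    have := hcont2.add (continuousOn_const (c := k * Real.log s))
    refine this.congr fun ζ _ => ?_
    simp
  have m1 : circleAverage (fun ζ => Real.log (cc S N f k (0, γ ζ))) 0 1 ≤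
      circleAverage (fun ζ => (Real.log (hh S N f s (γ ζ)) - k * Real.log s) + ε) 0 1 := by
    refine Real.circleAverage_mono hint1 (hint2.add (circleIntegrable_const ε 0 1)) ?_
    intro ζ hζ
    have := (abs_le.1 (key _ (hball ζ hζ))).1
    linarith
  have m2 : circleAverage (fun ζ => (Real.log (hh S N f s (γ ζ)) - k * Real.log s) + ε) 0 1 =
      circleAverage (fun ζ => Real.log (hh S N f s (γ ζ))) 0 1 + (ε - k * Real.log s) := by
    have h1 : (fun ζ => (Real.log (hh S N f s (γ ζ)) - k * Real.log s) + ε) =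
        fun ζ => Real.log (hh S N f s (γ ζ)) + (ε - k * Real.log s) := by
      funext ζ; ring
    rw [h1, Real.circleAverage_fun_add hint3 (circleIntegrable_const _ 0 1),
      Real.circleAverage_const]
  have m3 := (hs2 s e5).1
  have m4 := (abs_le.1 (key y0 ⟨0, mem_closedBall_self zero_le_one, by simp [hγ]⟩)).2
  have m5 : circleAverage (fun ζ => Real.log (hh S N f s (γ ζ))) 0 1 ≤ Real.log (hh S N f s y0) := m3
  linarith

end super

section lap

variable {X : Type*} [NormedAddCommGroup X] [NormedSpace ℂ X]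

/-- `C²` and superharmonic on small discs ==> the Levi form is nonpositive -/
theorem levi_nonpos {f : X → ℝ} {U : Set X} (hU : IsOpen U) (hf : ContDiffOn ℝ ∞ f U) {x : X}
    (hx : x ∈ U) (v : X)
    (hs : ∀ w : X, (∀ ζ ∈ closedBall (0 : ℂ) 1, x + ζ • w ∈ U) →
      circleAverage (fun ζ => f (x + ζ • w)) 0 1 ≤ f x) :
    (dB (dW (cx f) v) v x).re ≤ 0 := by
  by_contra hpos
  rw [not_le] at hpos
  set δ : ℝ := (dB (dW (cx f) v) v x).re / 2 with hδ
  have hδ0 : 0 < δ := by positivity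
  have hcf : ContDiffOn ℝ ∞ (cx f) U := Complex.ofRealCLM.contDiff.comp_contDiffOn hf
  have h1 := contDiffOn_dB hU (contDiffOn_dW hU hcf v) v
  have h2 : ContinuousAt (fun y => (dB (dW (cx f) v) v y).re) x :=
    Complex.continuous_re.continuousAt.comp (h1.continuousOn.continuousAt (hU.mem_nhds hx))
  have h3 : ∀ᶠ y in 𝓝 x, y ∈ U ∧ δ ≤ (dB (dW (cx f) v) v y).re := by
    have a1 : ∀ᶠ y in 𝓝 x, y ∈ U := hU.mem_nhds hx
    have a2 : ∀ᶠ y in 𝓝 x, δ < (dB (dW (cx f) v) v y).re :=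
      h2.eventually (lt_mem_nhds (by rw [hδ]; linarith))
    filter_upwards [a1, a2] with y h1 h2
    exact ⟨h1, h2.le⟩
  have hc : Continuous fun p : ℝ × ℂ => x + p.2 • ((p.1 : ℂ) • v) := by fun_prop
  -- a uniform radius
  obtain ⟨η, hη, hηb⟩ := Metric.eventually_nhds_iff_ball.1 h3
  obtain ⟨ρ, hρ0, hρ⟩ : ∃ ρ : ℝ, 0 < ρ ∧ ρ * ‖v‖ < η := by
    refine ⟨η / (2 * (‖v‖ + 1)), by positivity, ?_⟩
    rw [div_mul_eq_mul_div, div_lt_iff₀ (by positivity)]
    have := norm_nonneg v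
    nlinarith
  have hmem : ∀ ζ ∈ closedBall (0 : ℂ) 1, x + ζ • ((ρ : ℂ) • v) ∈ ball x η := by
    intro ζ hζ
    rw [mem_closedBall_zero_iff] at hζ
    rw [mem_ball, dist_eq_norm, add_sub_cancel_left, norm_smul, norm_smul, Complex.norm_real,
      Real.norm_of_nonneg hρ0.le]
    calc ‖ζ‖ * (ρ * ‖v‖) ≤ 1 * (ρ * ‖v‖) := by gcongr
      _ = ρ * ‖v‖ := one_mul _
      _ < η := hρ
  have h4 := hs ((ρ : ℂ) • v) fun ζ hζ => (hηb _ (hmem ζ hζ)).1
  have hC2 : ∀ y ∈ U, ContDiffAt ℝ 2 f y := fun y hy =>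
    (hf.contDiffAt (hU.mem_nhds hy)).of_le ENat.LEInfty.out
  have h5 := Crest.Agent.R275.FL884.le_circleAverage_of_contDiffAt
    (ψ := fun ζ : ℂ => f (x + ζ • ((ρ : ℂ) • v))) (c := -(ρ ^ 2 * δ)) (by
      intro ζ hζ
      have h6 : ContDiffAt ℝ 2 f (x + ζ • ((ρ : ℂ) • v)) := hC2 _ (hηb _ (hmem ζ hζ)).1
      have h7 : ContDiff ℝ 2 (fun ζ : ℂ => x + ζ • ((ρ : ℂ) • v)) := by
        refine contDiff_const.add (contDiff_id.smul contDiff_const)
      exact h6.comp ζ h7.contDiffAt) (by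
      intro ζ hζ
      have h6 : ContDiffAt ℝ 2 f (x + ζ • ((ρ : ℂ) • v)) := hC2 _ (hηb _ (hmem ζ hζ)).1
      have h7 := lap_line (f := f) (z := x) (v := (ρ : ℂ) • v) (ζ := ζ) h6
      rw [Ahl_25.lap_eq] at h7
      rw [h7]
      have h8 : (dB (dW (cx f) ((ρ : ℂ) • v)) ((ρ : ℂ) • v) (x + ζ • ((ρ : ℂ) • v))).re =
          ρ ^ 2 * (dB (dW (cx f) v) v (x + ζ • ((ρ : ℂ) • v))).re := by
        have e1 : dW (cx f) ((ρ : ℂ) • v) = fun y => (ρ : ℂ) • dW (cx f) v y := by
          funext y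
          exact dW_smul_dir _ _ _ _
        have e2 : DifferentiableAt ℝ (dW (cx f) v) (x + ζ • ((ρ : ℂ) • v)) :=
          diffAt hU (contDiffOn_dW hU hcf v) (hηb _ (hmem ζ hζ)).1
        rw [e1, dB_const_smul _ e2, dB_smul_dir]
        simp only [smul_eq_mul, Complex.conj_ofReal]
        rw [← mul_assoc, ← Complex.ofReal_mul, Complex.re_ofReal_mul]
        ring
      rw [h8]
      have h9 := (hηb _ (hmem ζ hζ)).2
      have h10 : ρ ^ 2 * δ ≤ ρ ^ 2 * (dB (dW (cx f) v) v (x + ζ • ((ρ : ℂ) • v))).re := by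
        gcongr
      linarith)
  have h6 : 0 < ρ ^ 2 * δ := by positivity
  simp only [zero_smul, add_zero] at h5
  linarith

end lap

end Crest.Agent.R276.GrJ_217
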