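import Crest.Agent.R276.VCalcI_442
import Crest.Agent.R276.VCalcK_442
import Crest.Agent.R276.IpcLoc_735

/-!
# R276, leaf GOODLOC (helper442): the Levi form of R271 and the Wirtinger calculus `VCalc_442`

* `levi_eq` : `Levi φ x w = ∂̄_w ∂_w (φ ∘ e⁻¹)` in any chart `e`;
* `dB_dW_log`, `levi_log` : the Levi form of a logarithm;
* `sum_dz` : `∑ dz_j f(x) w_j = ∂_w (f ∘ e⁻¹)`.
-/

set_option autoImplicit false
set_option linter.unusedSectionVars false

noncomputable section

open Set Filter Topology Matrix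
open Crest.Agent.R271.Ho51
open Crest.Agent.R276.VCalc_442
open scoped ContDiff ComplexConjugate ComplexOrder

namespace Crest.Agent.R276.LevB_442

variable {m : ℕ}

section flat

lemma dB_zero_dir {f : (Fin m → ℂ) → ℂ} (x : Fin m → ℂ) : dB f 0 x = 0 := by
  have := dB_smul_dir f x 0 0
  simpa using this

lemma dB_sum_dir {f : (Fin m → ℂ) → ℂ} (v x : Fin m → ℂ) :
    dB f v x = ∑ j, conj (v j) * dB f (Pi.single j 1) x := by
  have h1 : v = ∑ j, v j • (Pi.single j (1 : ℂ) : Fin m → ℂ) := by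
    rw [← pi_eq_sum_univ' v]
  have h2 : ∀ s : Finset (Fin m), dB f (∑ j ∈ s, v j • (Pi.single j (1 : ℂ) : Fin m → ℂ)) x
      = ∑ j ∈ s, conj (v j) * dB f (Pi.single j 1) x := by
    intro s
    induction s using Finset.induction_on with
    | empty => simp only [Finset.sum_empty]; exact dB_zero_dir x
    | insert j s hj ih =>
      rw [Finset.sum_insert hj, Finset.sum_insert hj, dB_add_dir, ih, dB_smul_dir, smul_eq_mul]
  conv_lhs => rw [h1]
  exact h2 _

/-- the Hessian `∂̄_w ∂_w` in coordinates -/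
lemma dB_dW_sum {F : (Fin m → ℂ) → ℂ} {z : Fin m → ℂ} (hF : ContDiffAt ℝ 2 F z)
    (w : Fin m → ℂ) : dB (dW F w) w z =
      ∑ j, ∑ k, dW (dB F (Pi.single k 1)) (Pi.single j 1) z * w j * conj (w k) := by
  rw [← dW_dB hF]
  have h1 : dB F w = fun y => ∑ k, conj (w k) * dB F (Pi.single k 1) y := by
    funext y; exact dB_sum_dir w y
  have hd : ∀ k : Fin m, DifferentiableAt ℝ (dB F (Pi.single k 1)) z := by
    intro k
    have h : DifferentiableAt ℝ (fderiv ℝ F) z :=
      (hF.fderiv_right (m := 1) (by norm_num)).differentiableAt (by simp)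
    have h2 : ∀ u : Fin m → ℂ, DifferentiableAt ℝ (fun y => fderiv ℝ F y u) z :=
      fun u => h.clm_apply (differentiableAt_const u)
    exact ((h2 _).add ((h2 _).const_smul Complex.I)).const_smul (1 / 2 : ℂ)
  have h2 : dW (dB F w) w z = ∑ k, conj (w k) * dW (dB F (Pi.single k 1)) w z := by
    rw [h1]
    rw [dW_sum (f := fun k y => conj (w k) * dB F (Pi.single k 1) y) _
      (fun k _ => (hd k).const_mul _)]
    refine Finset.sum_congr rfl fun k _ => ?_
    have := dW_const_smul (conj (w k)) (hd k) w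
    simpa [smul_eq_mul] using this
  rw [h2, Finset.sum_comm]
  refine Finset.sum_congr rfl fun k _ => ?_
  rw [Ipc735.dW_sum_dir, Finset.mul_sum]
  refine Finset.sum_congr rfl fun j _ => ?_
  ring

/-- second derivative of the logarithm -/
theorem dB_dW_log {X : Type*} [NormedAddCommGroup X] [NormedSpace ℂ X] {f : X → ℝ} {x : X}
    (hf : ContDiffAt ℝ 2 f x) (hpos : f x ≠ 0) (v : X) :
    (dB (dW (cx fun y => Real.log (f y)) v) v x).re =
      (f x * (dB (dW (cx f) v) v x).re - ‖dW (cx f) v x‖ ^ 2) / f x ^ 2 := by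
  have e : x + (0 : ℂ) • v = x := by simp
  have h1 := lap_line (f := fun y => Real.log (f y)) (z := x) (v := v) (ζ := 0)
    (by rw [e]; exact hf.log hpos)
  have h2 := lap_log_line (f := f) (z := x) (v := v) (ζ := 0) (by rw [e]; exact hf)
    (by rw [e]; exact hpos)
  rw [h2, e] at h1
  have h3 : (4 : ℝ) * ((f x * (dB (dW (cx f) v) v x).re - ‖dW (cx f) v x‖ ^ 2) / f x ^ 2) =
      4 * (dB (dW (cx fun y => Real.log (f y)) v) v x).re := by
    rw [← h1]; ring
  linarith

end flat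

section chart

variable {M : Type*} [TopologicalSpace M] [RDom m M]

/-- `Levi φ x w = ∂̄_w ∂_w (φ ∘ e⁻¹)` -/
theorem levi_eq {φ : M → ℝ} {e : OpenPartialHomeomorph M (Fin m → ℂ)} (he : IsCh e) {x : M}
    (hx : x ∈ e.source) (hφ : ContDiffAt ℝ 2 (φ ∘ e.symm) (cp x)) (w : Fin m → ℂ) :
    Levi φ x w = (dB (dW (cx (φ ∘ e.symm)) w) w (cp x)).re := by
  rw [dB_dW_sum (contDiffAt_cx hφ)]
  unfold Levi
  congr 1
  refine Finset.sum_congr rfl fun j _ => Finset.sum_congr rfl fun k _ => ?_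
  congr 2
  unfold Lv
  rw [Ipc735.dz_eq_dW j _ he hx]
  refine dW_congr ?_ _
  have h2 : ∀ᶠ z in 𝓝 (cp x), z ∈ e.target := e.open_target.mem_nhds (he.cp_mem hx)
  filter_upwards [h2] with z hz
  have hz' : e.symm z ∈ e.source := e.map_target hz
  rw [Function.comp_apply, Ipc735.db_eq_dB k _ he hz', he.cp_symm hz]
  rfl

/-- the Levi form of a function which is a logarithm near `x` -/
theorem levi_log {φ : M → ℝ} {e : OpenPartialHomeomorph M (Fin m → ℂ)} (he : IsCh e) {x : M}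
    (hx : x ∈ e.source) {f : (Fin m → ℂ) → ℝ} (hf : ContDiffAt ℝ 2 f (cp x)) (hpos : f (cp x) ≠ 0)
    (h : φ ∘ e.symm =ᶠ[𝓝 (cp x)] fun z => Real.log (f z)) (w : Fin m → ℂ) :
    Levi φ x w = (f (cp x) * (dB (dW (cx f) w) w (cp x)).re - ‖dW (cx f) w (cp x)‖ ^ 2) /
      f (cp x) ^ 2 := by
  rw [levi_eq he hx ((hf.log hpos).congr_of_eventuallyEq h), ← dB_dW_log hf hpos]
  have h1 : cx (φ ∘ e.symm) =ᶠ[𝓝 (cp x)] cx fun z => Real.log (f z) := by
    filter_upwards [h] with z hz
    unfold cx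
    rw [hz]
  have h2 : dW (cx (φ ∘ e.symm)) w =ᶠ[𝓝 (cp x)] dW (cx fun z => Real.log (f z)) w := by
    filter_upwards [h1.eventually_nhds] with z hz
    exact dW_congr hz w
  rw [dB_congr h2 w]

theorem sum_dz {f : M → ℂ} {e : OpenPartialHomeomorph M (Fin m → ℂ)} (he : IsCh e) {x : M}
    (hx : x ∈ e.source) (w : Fin m → ℂ) :
    ∑ j, dz j f x * w j = dW (f ∘ e.symm) w (cp x) := by
  rw [Ipc735.dW_sum_dir]
  refine Finset.sum_congr rfl fun j _ => ?_
  rw [Ipc735.dz_eq_dW j f he hx]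
  ring

end chart

end Crest.Agent.R276.LevB_442
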