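import Crest.Agent.R276.GrI_217
import Crest.Agent.R276.GrJ_217
import Crest.Agent.R276.RkB_25
import Crest.Agent.R276.LevB_442

/-!
# R276, leaf COUNT-GR, part K (helper217)

The limit metric `ψ'` on the divisor (smooth, plurisubharmonic, rank, `τ ≤ ψ' + C`) from a family of
normal forms; `Full`.
-/

set_option autoImplicit false
set_option linter.unusedSectionVars false

open Set Filter Topology Matrix Metric MeasureTheory
open scoped ComplexOrder ContDiff ComplexConjugate Nat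

noncomputable section

namespace Crest.Agent.R276.GrK_217

open Crest.Agent.R271.Ho51
open Crest.Agent.R276.VCalc_442 Crest.Agent.R276.GrA_217
open Crest.Agent.R276.GrB_217 Crest.Agent.R276.GrC_217 Crest.Agent.R276.GrC_217.LCh
open Crest.Agent.R276.GrE_217 Crest.Agent.R276.GrG_217
open Crest.Agent.R276.CntDefs_857 Crest.Agent.R276.GrF_217 Crest.Agent.R276.GrH_217
open Crest.Agent.R276.Bdy_767 Crest.Agent.R276.RkA_25 Crest.Agent.R276.BdNf4_651

variable {ι : Type*} [Fintype ι] [DecidableEq ι] {d : ℕ}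

theorem sf_smul_smul (S : Matrix ι ι ℂ) (c : ℂ) (hc : ‖c‖ = 1) (u v : ι → ℂ) :
    VCalc_442.sf S (c • u) (c • v) = VCalc_442.sf S u v := by
  unfold VCalc_442.sf
  rw [Matrix.mulVec_smul, star_smul, smul_dotProduct, dotProduct_smul, smul_smul]
  have h1 : star c * c = 1 := by
    rw [Complex.star_def, Complex.conj_mul', hc]
    norm_num
  rw [h1, one_smul]

theorem KK_Nm (L : Matrix ι ι ℂ) (j : ℕ) (u : ι → ℂ) :
    (KK (Nm L) ^ j) u = Complex.I ^ j • (L ^ j *ᵥ u) := by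
  rw [KK, smul_pow]
  show Complex.I ^ j • ((Nm L) ^ j) u = _
  rw [Nm_pow]

theorem SS_KK (w : ℕ) (S L : Matrix ι ι ℂ) (j : ℕ) (u : ι → ℂ) :
    SS w S u ((KK (Nm L) ^ j) u) = Complex.I ^ j * ((-1 : ℂ) ^ w * VCalc_442.sf S u (L ^ j *ᵥ u)) := by
  rw [KK_Nm, map_smul, SS_apply, smul_eq_mul]

theorem pow_comm' {L L' A : Matrix ι ι ℂ} (h : L' * A = A * L) (j : ℕ) :
    L' ^ j * A = A * L ^ j := by
  induction j with
  | zero => simp
  | succ n ih => rw [pow_succ, mul_assoc, h, ← mul_assoc, ih, mul_assoc, pow_succ]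

/-- invariance of the coefficients under the transition -/
theorem sf_trans {S S' L L' A : Matrix ι ι ℂ} {c : ℂ} (hc : ‖c‖ = 1) (hS : Aᴴ * S' * A = S)
    (hL : L' * A = A * L) (j : ℕ) (g : ι → ℂ) :
    VCalc_442.sf S' (c • (A *ᵥ g)) (L' ^ j *ᵥ (c • (A *ᵥ g))) =
      VCalc_442.sf S g (L ^ j *ᵥ g) := by
  have h1 : L' ^ j *ᵥ (A *ᵥ g) = A *ᵥ (L ^ j *ᵥ g) := by
    rw [Matrix.mulVec_mulVec, pow_comm' hL, ← Matrix.mulVec_mulVec]
  rw [Matrix.mulVec_smul, sf_smul_smul S' c hc, h1]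
  unfold VCalc_442.sf
  rw [Matrix.star_mulVec, ← Matrix.dotProduct_mulVec, Matrix.mulVec_mulVec _ S' A,
    Matrix.mulVec_mulVec _ Aᴴ, ← Matrix.mul_assoc, hS]

variable {M E : Type*} [TopologicalSpace M] [RDom (d + 1) M] [MeasurableSpace M]
    {μ : Measure M} [TopologicalSpace E] [RDom d E]
variable {D : DChart M E μ} {w e : ℕ} {k : ℤ} {ψ₀ : M → ℝ}

/-- the chart of `E` over the ball of radius `D.r y` -/
theorem exists_ev (D : DChart M E μ) (y : E) : ∃ g : OpenPartialHomeomorph E (Fin d → ℂ),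
    IsCh g ∧ y ∈ g.source ∧ g.target = ball (cp y) (D.r y) := by
  have hr := r_pos D y
  obtain ⟨s, hs1, -, hs3⟩ := D.cov.ev (cp y) (D.r y) hr (D.hball y)
  have h1 : y ∈ (cp ⁻¹' ball (cp y) (D.r y) : Set E) := mem_ball_self hr
  rw [hs3, mem_iUnion] at h1
  obtain ⟨i, hi⟩ := h1
  exact ⟨s i, (hs1 i).1, hi, (hs1 i).2⟩

/-- abbreviation: the limit coefficient at the point `v` of the chart at `y` -/
def cy' (F : LFam ι D w e k ψ₀) (y : E) (m : ℕ) (v : Fin d → ℂ) : ℝ :=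
  cc (SS w (F.S y)) (Nm (F.L y)) (fr (F.f y)) m (0, v)

/-- the forms at `v` -/
def sy (F : LFam ι D w e k ψ₀) (y : E) (j : ℕ) (v : Fin d → ℂ) : ℂ :=
  SS w (F.S y) (fr (F.f y) (0, v)) ((KK (Nm (F.L y)) ^ j) (fr (F.f y) (0, v)))

theorem cy_eq (F : LFam ι D w e k ψ₀) (y : E) (m : ℕ) (v : Fin d → ℂ) :
    cy' F y m v = (Real.pi ^ m * (m ! : ℝ))⁻¹ * (sy F y m v).re := rfl

theorem fr_zero (F : LFam ι D w e k ψ₀) (y : E) : fr (F.f y) (0, 0) = F.f y 0 := by
  unfold fr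
  rw [LFam.cons_zero_zero]

section main

variable (F : LFam ι D w e k ψ₀)
  (hcy : ∀ y, Cy w (GrB_217.HB d (Real.log (D.r y)) (D.r y)) (F.P y) (F.Om y))

include hcy in
theorem exists_kap (y : E) : ∃ m : ℕ,
    (∀ j, m < j → ∀ v ∈ ball (0 : Fin d → ℂ) (D.r y), sy F y j v = 0) ∧
    ∀ v ∈ ball (0 : Fin d → ℂ) (D.r y), 0 < cy' F y m v := by
  obtain ⟨m, h1, h2, -⟩ := RkB_25.main (F.lch y) (hcy y) ⟨0, fun j => by
    simpa using r_pos D y, by rw [LFam.cons_zero_zero]; exact F.f0 y⟩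
  exact ⟨m, h1, h2⟩

/-- the exponent -/
def kap (y : E) : ℕ := (exists_kap F hcy y).choose

theorem kap_zero (y : E) {j : ℕ} (hj : kap F hcy y < j) {v : Fin d → ℂ}
    (hv : v ∈ ball (0 : Fin d → ℂ) (D.r y)) : sy F y j v = 0 :=
  (exists_kap F hcy y).choose_spec.1 j hj v hv

theorem kap_pos (y : E) {v : Fin d → ℂ} (hv : v ∈ ball (0 : Fin d → ℂ) (D.r y)) :
    0 < cy' F y (kap F hcy y) v :=
  (exists_kap F hcy y).choose_spec.2 v hv

theorem kap_ne (y : E) {v : Fin d → ℂ} (hv : v ∈ ball (0 : Fin d → ℂ) (D.r y)) :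
    sy F y (kap F hcy y) v ≠ 0 := by
  intro h0
  have := kap_pos F hcy y hv
  rw [cy_eq, h0, Complex.zero_re, mul_zero] at this
  exact lt_irrefl _ this

theorem zero_mem (y : E) : (0 : Fin d → ℂ) ∈ ball (0 : Fin d → ℂ) (D.r y) :=
  mem_ball_self (r_pos D y)

/-- transition of the coefficients -/
theorem sy_trans {y y' : E} {g : OpenPartialHomeomorph E (Fin d → ℂ)} (hg : IsCh g)
    (hy : y ∈ g.source) (hgt : g.target = ball (cp y) (D.r y)) (hy' : y' ∈ g.source)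
    (hd : ‖(cp y' : Fin d → ℂ) - cp y‖ < D.r y / 2) (j : ℕ) :
    sy F y' j 0 = sy F y j (cp y' - cp y) := by
  obtain ⟨A, c, ht⟩ := F.tr y g hg hy hgt y' hy' hd
  have hr := r_pos D y
  have hv : ∀ i, ‖((cp y' : Fin d → ℂ) - cp y) i‖ < D.r y := fun i =>
    (norm_le_pi_norm ((cp y' : Fin d → ℂ) - cp y) i).trans_lt (by linarith)
  have h1 := ht.f_eq (F.lch y) (F.lch y') hv
  unfold sy
  rw [SS_KK, SS_KK, fr_zero, h1, sf_trans ht.hc ht.S_eq ht.L_eq]
  rfl

theorem kap_eq {y y' : E} {g : OpenPartialHomeomorph E (Fin d → ℂ)} (hg : IsCh g)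
    (hy : y ∈ g.source) (hgt : g.target = ball (cp y) (D.r y)) (hy' : y' ∈ g.source)
    (hd : ‖(cp y' : Fin d → ℂ) - cp y‖ < D.r y / 2) : kap F hcy y' = kap F hcy y := by
  have hr := r_pos D y
  have hv : (cp y' : Fin d → ℂ) - cp y ∈ ball (0 : Fin d → ℂ) (D.r y) := by
    rw [mem_ball_zero_iff]
    linarith
  rcases lt_trichotomy (kap F hcy y') (kap F hcy y) with h | h | h
  · exfalso
    have h1 := kap_zero F hcy y' h (zero_mem y')
    rw [sy_trans F hg hy hgt hy' hd] at h1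
    exact kap_ne F hcy y hv h1
  · exact h
  · exfalso
    have h1 := kap_zero F hcy y h hv
    rw [← sy_trans F hg hy hgt hy' hd] at h1
    exact kap_ne F hcy y' (zero_mem y') h1

/-- **the limit weight** -/
def psi' (n : ℕ) (y : E) : ℝ := -(((e * n : ℕ) : ℝ) * Real.log (cy' F y (kap F hcy y) 0))

/-- local formula -/
theorem psi'_loc (n : ℕ) {y y' : E} {g : OpenPartialHomeomorph E (Fin d → ℂ)} (hg : IsCh g)
    (hy : y ∈ g.source) (hgt : g.target = ball (cp y) (D.r y)) (hy' : y' ∈ g.source)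
    (hd : ‖(cp y' : Fin d → ℂ) - cp y‖ < D.r y / 2) :
    psi' F hcy n y' = -(((e * n : ℕ) : ℝ) *
      Real.log (cy' F y (kap F hcy y) (cp y' - cp y))) := by
  unfold psi'
  rw [kap_eq F hcy hg hy hgt hy' hd, cy_eq, cy_eq, sy_trans F hg hy hgt hy' hd]

/-- the function `log c_k` in the coordinates of the chart -/
def lc (y : E) (z : Fin d → ℂ) : ℝ := Real.log (cy' F y (kap F hcy y) (z - cp y))

/-- smoothness of the coefficients -/
theorem cc_smooth {V X : Type*} [NormedAddCommGroup V] [NormedSpace ℂ V] [CompleteSpace V]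
    [NormedAddCommGroup X] [NormedSpace ℂ X] [FiniteDimensional ℂ X]
    {S : V →L⋆[ℂ] V →L[ℂ] ℂ} {N : V →L[ℂ] V} {r : ℝ} {U : Set X} {f : ℂ × X → V}
    (h : Bd S N r U f) (m : ℕ) :
    ContDiffOn ℝ ∞ (fun v : X => cc S N f m (0, v)) U := by
  intro v hv
  refine ContDiffAt.contDiffWithinAt ?_
  have h1 : ContDiffAt ℝ ∞ (fun v : X => f (0, v)) v :=
    ((an_f0 h hv).contDiffAt (n := ∞)).restrict_scalars ℝ
  have h2 : ContDiffAt ℝ ∞ (fun v : X => (KK N ^ m) (f (0, v))) v :=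
    ((KK N ^ m).restrictScalars ℝ).contDiff.contDiffAt.comp v h1
  have h3 : ContDiffAt ℝ ∞ (fun v : X => (SR S (f (0, v))) ((KK N ^ m) (f (0, v)))) v :=
    ((SR S).contDiff.contDiffAt.comp v h1).clm_apply h2
  have h4 : ContDiffAt ℝ ∞ (fun v : X => (SR S (f (0, v)) ((KK N ^ m) (f (0, v)))).re) v :=
    Complex.reCLM.contDiff.contDiffAt.comp v h3
  exact contDiffAt_const.mul h4

theorem lc_smooth (y : E) : ContDiffOn ℝ ∞ (lc F hcy y) (ball (cp y) (D.r y)) := by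
  have h1 := cc_smooth (bd (F.lch y)) (kap F hcy y)
  have h2 : ContDiffOn ℝ ∞ (fun z : Fin d → ℂ => cy' F y (kap F hcy y) (z - cp y))
      (ball (cp y) (D.r y)) := by
    refine h1.comp (t := ball 0 (D.r y)) (g := fun v => cc (SS w (F.S y)) (Nm (F.L y)) (fr (F.f y))
      (kap F hcy y) (0, v)) (f := fun z => z - cp y)
      (contDiff_id.sub contDiff_const).contDiffOn ?_
    intro z hz
    rwa [mem_ball_zero_iff, ← dist_eq_norm]
  refine ContDiffOn.log h2 fun z hz => ?_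
  refine (kap_pos F hcy y (v := z - cp y) ?_).ne'
  rwa [mem_ball_zero_iff, ← dist_eq_norm]

theorem germ (n : ℕ) (y : E) {g : OpenPartialHomeomorph E (Fin d → ℂ)} (hg : IsCh g)
    (hy : y ∈ g.source) (hgt : g.target = ball (cp y) (D.r y)) :
    psi' F hcy n ∘ g.symm =ᶠ[𝓝 (cp y)] fun z => -(((e * n : ℕ) : ℝ) * lc F hcy y z) := by
  have hr := r_pos D y
  filter_upwards [ball_mem_nhds (cp y : Fin d → ℂ) (half_pos hr)] with z hz
  have hz' : z ∈ g.target := by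
    rw [hgt]
    exact ball_subset_ball (by linarith) hz
  have h1 : (cp (g.symm z) : Fin d → ℂ) = z := hg.cp_symm hz'
  have h2 : g.symm z ∈ g.source := g.map_target hz'
  rw [Function.comp_apply, psi'_loc F hcy n hg hy hgt h2 (by
    rw [h1, ← dist_eq_norm]; exact hz), h1]
  rfl

/-- **`Full.sm`** -/
theorem psi'_sm (n : ℕ) : Sm (psi' F hcy n) := by
  intro y
  obtain ⟨g, hg, hy, hgt⟩ := exists_ev D y
  have h1 := germ F hcy n y hg hy hgt
  have h2 := comp_germ (isCh_ch y) hg (mem_ch y) hy (psi' F hcy n)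
  have h3 : ContDiffAt ℝ ∞ (fun z => -(((e * n : ℕ) : ℝ) * lc F hcy y z)) (cp y) :=
    (contDiffAt_const.mul ((lc_smooth F hcy y).contDiffAt
      (ball_mem_nhds _ (r_pos D y)))).neg
  exact h3.congr_of_eventuallyEq (h2.trans h1)

theorem levi_psi' (n : ℕ) (y : E) (v : Fin d → ℂ) :
    Levi (psi' F hcy n) y v = -(((e * n : ℕ) : ℝ) *
      (dB (dW (cx (lc F hcy y)) v) v (cp y)).re) := by
  obtain ⟨g, hg, hy, hgt⟩ := exists_ev D y
  have h1 := germ F hcy n y hg hy hgt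
  have hU : IsOpen (ball (cp y : Fin d → ℂ) (D.r y)) := isOpen_ball
  have hm : (cp y : Fin d → ℂ) ∈ ball (cp y : Fin d → ℂ) (D.r y) := mem_ball_self (r_pos D y)
  have h3 : ContDiffAt ℝ ∞ (fun z => -(((e * n : ℕ) : ℝ) * lc F hcy y z)) (cp y) :=
    (contDiffAt_const.mul ((lc_smooth F hcy y).contDiffAt (hU.mem_nhds hm))).neg
  have h4 : ContDiffAt ℝ 2 (psi' F hcy n ∘ g.symm) (cp y) :=
    (h3.congr_of_eventuallyEq h1).of_le ENat.LEInfty.out
  rw [LevB_442.levi_eq hg hy h4]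
  have hcx : ContDiffOn ℝ ∞ (cx (lc F hcy y)) (ball (cp y : Fin d → ℂ) (D.r y)) :=
    Complex.ofRealCLM.contDiff.comp_contDiffOn (lc_smooth F hcy y)
  have e1 : cx (psi' F hcy n ∘ g.symm) =ᶠ[𝓝 (cp y)]
      fun z => (-((e * n : ℕ) : ℂ)) • cx (lc F hcy y) z := by
    filter_upwards [h1] with z hz
    unfold cx
    rw [hz]
    push_cast
    simp only [smul_eq_mul]
    ring
  have e2 : dW (cx (psi' F hcy n ∘ g.symm)) v =ᶠ[𝓝 (cp y)]
      fun z => (-((e * n : ℕ) : ℂ)) • dW (cx (lc F hcy y)) v z := by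
    filter_upwards [e1.eventuallyEq_nhds, hU.mem_nhds hm] with z hz hzU
    rw [dW_congr hz, dW_const_smul _ (diffAt hU hcx hzU)]
  rw [dB_congr e2, dB_const_smul _ (diffAt hU (contDiffOn_dW hU hcx v) hm), smul_eq_mul]
  have : (-((e * n : ℕ) : ℂ)) = ((-((e * n : ℕ) : ℝ) : ℝ) : ℂ) := by push_cast; ring
  rw [this, Complex.re_ofReal_mul]
  ring

/-- **`Full.psh`** -/
theorem psi'_psh (n : ℕ) (y : E) (v : Fin d → ℂ) : 0 ≤ Levi (psi' F hcy n) y v := by
  rw [levi_psi']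
  have hm : (cp y : Fin d → ℂ) ∈ ball (cp y : Fin d → ℂ) (D.r y) := mem_ball_self (r_pos D y)
  have h1 := GrJ_217.levi_nonpos isOpen_ball (lc_smooth F hcy y) hm v (by
    intro v' hv'
    have h2 := GrJ_217.log_cc_super (bd (F.lch y)) (RkB_25.yd (F.lch y) (hcy y))
      (k := kap F hcy y) (fun j hj v hv => kap_zero F hcy y hj hv)
      (fun v hv => kap_pos F hcy y hv) (y0 := 0) (v := v') (by
        intro ζ hζ
        have := hv' ζ hζ
        rw [mem_ball, dist_eq_norm, add_sub_cancel_left] at this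
        rwa [mem_ball_zero_iff, zero_add])
    have h3 : (fun ζ : ℂ => lc F hcy y (cp y + ζ • v')) =
        fun ζ => Real.log (cc (SS w (F.S y)) (Nm (F.L y)) (fr (F.f y)) (kap F hcy y)
          (0, 0 + ζ • v')) := by
      funext ζ
      unfold lc cy'
      rw [add_sub_cancel_left, zero_add]
    have h4 : lc F hcy y (cp y) = Real.log (cc (SS w (F.S y)) (Nm (F.L y)) (fr (F.f y))
        (kap F hcy y) (0, 0)) := by
      unfold lc cy'
      rw [sub_self]
    rw [h3, h4]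
    exact h2)
  have h5 : (0 : ℝ) ≤ ((e * n : ℕ) : ℝ) := Nat.cast_nonneg _
  nlinarith [mul_le_mul_of_nonneg_left h1 h5]

/-- the exponent is bounded -/
theorem kap_lt (y : E) : kap F hcy y ≤ Fintype.card ι := by
  by_contra hlt
  push Not at hlt
  have h1 := kap_ne F hcy y (zero_mem y)
  unfold sy at h1
  rw [SS_KK] at h1
  rw [pow_zero' (F.lch y).nil hlt.le, Matrix.zero_mulVec] at h1
  apply h1
  unfold VCalc_442.sf
  rw [Matrix.mulVec_zero, dotProduct_zero]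
  simp

/-- the constant of `tau_le` -/
def Ct (ι : Type*) [Fintype ι] [DecidableEq ι] (e n : ℕ) : ℝ :=
  ((e * n : ℕ) : ℝ) * (Fintype.card ι * Real.log (cL ι e + 1))

/-- **`Full.tau_le`** -/
theorem psi'_tau (n : ℕ) (y : E) : F.tau n y ≤ psi' F hcy n y + Ct ι e n := by
  have hz := zero_mem (D := D) y
  have hsf : ∀ j, sy F y j 0 = Complex.I ^ j * ((-1 : ℂ) ^ w *
      VCalc_442.sf (F.S y) (F.f y 0) (F.L y ^ j *ᵥ F.f y 0)) := by
    intro j
    unfold sy
    rw [SS_KK, fr_zero]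
  have hvan : ∀ j, kap F hcy y < j →
      VCalc_442.sf (F.S y) (F.f y 0) (F.L y ^ j *ᵥ F.f y 0) = 0 := by
    intro j hj
    have h1 := kap_zero F hcy y hj hz
    rw [hsf] at h1
    rcases mul_eq_zero.1 h1 with h2 | h2
    · exact absurd h2 (pow_ne_zero _ Complex.I_ne_zero)
    · rcases mul_eq_zero.1 h2 with h3 | h3
      · exact absurd h3 (pow_ne_zero _ (neg_ne_zero.2 one_ne_zero))
      · exact h3
  have hne : VCalc_442.sf (F.S y) (F.f y 0) (F.L y ^ kap F hcy y *ᵥ F.f y 0) ≠ 0 := by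
    intro h0
    apply kap_ne F hcy y hz
    rw [hsf, h0, mul_zero, mul_zero]
  have h1 := F.tau_le n y hvan hne
  have hnorm : ‖sy F y (kap F hcy y) 0‖ =
      ‖VCalc_442.sf (F.S y) (F.f y 0) (F.L y ^ kap F hcy y *ᵥ F.f y 0)‖ := by
    rw [hsf, norm_mul, norm_mul, norm_pow, norm_pow, Complex.norm_I, norm_neg, norm_one]
    simp
  have hpos := kap_pos F hcy y hz
  have hle : cy' F y (kap F hcy y) 0 ≤ ‖sy F y (kap F hcy y) 0‖ := by
    rw [cy_eq]
    have h2 : (1 : ℝ) ≤ Real.pi ^ kap F hcy y * ((kap F hcy y)! : ℝ) := by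
      have h3 : (1 : ℝ) ≤ Real.pi ^ kap F hcy y :=
        one_le_pow₀ (by linarith [Real.pi_gt_three])
      have h4 : (1 : ℝ) ≤ ((kap F hcy y)! : ℝ) := by
        exact_mod_cast Nat.one_le_iff_ne_zero.2 (Nat.factorial_ne_zero _)
      nlinarith
    rw [cy_eq] at hpos
    have h5 : (sy F y (kap F hcy y) 0).re ≤ ‖sy F y (kap F hcy y) 0‖ := Complex.re_le_norm _
    have h6 : 0 < (sy F y (kap F hcy y) 0).re := by
      by_contra hcon
      have := mul_nonpos_of_nonneg_of_nonpos (inv_nonneg.2 (zero_le_one.trans h2))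
        (not_lt.1 hcon)
      linarith
    calc (Real.pi ^ kap F hcy y * ((kap F hcy y)! : ℝ))⁻¹ * (sy F y (kap F hcy y) 0).re
        ≤ 1 * (sy F y (kap F hcy y) 0).re := by
          gcongr
          exact inv_le_one_of_one_le₀ h2
      _ ≤ _ := by rw [one_mul]; exact h5
  have h7 := Real.log_le_log hpos hle
  rw [hnorm] at h7
  have hc := cL_nonneg ι e
  have h8 : 0 ≤ Real.log (cL ι e + 1) := Real.log_nonneg (by linarith)
  have h9 : (kap F hcy y : ℝ) ≤ Fintype.card ι := by exact_mod_cast kap_lt F hcy y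
  have h10 : (0 : ℝ) ≤ ((e * n : ℕ) : ℝ) := Nat.cast_nonneg _
  have h11 : ((e * n : ℕ) : ℝ) * (kap F hcy y * Real.log (cL ι e + 1)) ≤ Ct ι e n := by
    unfold Ct
    gcongr
  have h12 := mul_le_mul_of_nonneg_left h7 h10
  unfold psi'
  linarith

/-- **`Full.rank`** -/
theorem psi'_rank (n : ℕ) {ν : ℕ} (hν : 0 < ν)
    (hrk : ∀ y, ∀ q ∈ GrB_217.HB d (Real.log (D.r y)) (D.r y), Module.finrank ℂ
      (Submodule.span ℂ ({F.Om y q} ∪ range (fderiv ℂ (F.Om y) q))) ≤ ν + 1)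
    (hT : ∀ y, ¬ ∃ ζ : ℂ, ∀ q ∈ GrB_217.HB d (Real.log (D.r y)) (D.r y),
      F.T y *ᵥ F.Om y q = ζ • F.Om y q) (y : E) :
    ∃ S : Submodule ℂ (Fin d → ℂ), d ≤ Module.finrank ℂ S + (ν - 1) ∧
      ∀ v ∈ S, Levi (psi' F hcy n) y v = 0 := by
  have hz := zero_mem (D := D) y
  have hrank := RkA_25.rank (F.lch y) (hcy y).bot.hol (hrk y) (hT y) (m := kap F hcy y)
    (fun v hv => kap_zero F hcy y (Nat.lt_succ_self _) hv) hz (kap_ne F hcy y hz)
  refine ⟨nul (SS w (F.S y)) (KK (Nm (F.L y)) ^ kap F hcy y) (fr (F.f y) (0, 0))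
      (D0 (fr (F.f y)) (0, 0)), ?_, fun v hv => ?_⟩
  · omega
  · have h1 := (levi_cc_null (bd (F.lch y)) hz (kap_ne F hcy y hz) hv v).1
    rw [levi_psi']
    -- translate
    set u : (Fin d → ℂ) → ℝ := fun v => Real.log (cc (SS w (F.S y)) (Nm (F.L y)) (fr (F.f y))
      (kap F hcy y) (0, v)) with hu
    have hus : ContDiffOn ℝ ∞ u (ball 0 (D.r y)) :=
      ContDiffOn.log (cc_smooth (bd (F.lch y)) (kap F hcy y)) fun v hv =>
        (kap_pos F hcy y hv).ne'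
    have hcu : ContDiffOn ℝ ∞ (cx u) (ball 0 (D.r y)) :=
      Complex.ofRealCLM.contDiff.comp_contDiffOn hus
    have h2 : dW (dB (cx u) v) v 0 = 0 := h1
    rw [dW_dB (((hcu.contDiffAt (isOpen_ball.mem_nhds hz))).of_le ENat.LEInfty.out)] at h2
    have htr : cx (lc F hcy y) = fun z => cx u (z - cp y) := rfl
    have e1 : ∀ (G : (Fin d → ℂ) → ℂ) (x : Fin d → ℂ),
        dW (fun z => G (z - cp y)) v x = dW G v (x - cp y) := by
      intro G x
      unfold dW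
      rw [fderiv_comp_sub]
    have e2 : ∀ (G : (Fin d → ℂ) → ℂ) (x : Fin d → ℂ),
        dB (fun z => G (z - cp y)) v x = dB G v (x - cp y) := by
      intro G x
      unfold dB
      rw [fderiv_comp_sub]
    have e3 : dW (cx (lc F hcy y)) v = fun z => dW (cx u) v (z - cp y) := by
      rw [htr]
      funext z
      exact e1 _ _
    rw [e3, e2, sub_self, h2, Complex.zero_re, mul_zero, neg_zero]

include hcy in
/-- **`Full`** -/
theorem full (n : ℕ) {Φ : M → ℝ} {ν : ℕ} (hν : 0 < ν) (C0 : ℝ)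
    (g1 : ∀ y, ∀ q ∈ Sh d (D.r y), D.phW Φ y q ≤ C0 * (1 + Real.log (1 / D.r y)))
    (g2 : ∀ y, ∀ q ∈ Sh d (D.r y), D.psI (fun x => ((e * n : ℕ) : ℝ) * ψ₀ x) (n * k) y q ≤
      C0 * (1 + Real.log (1 / D.r y)))
    (hrk : ∀ y, ∀ q ∈ GrB_217.HB d (Real.log (D.r y)) (D.r y), Module.finrank ℂ
      (Submodule.span ℂ ({F.Om y q} ∪ range (fderiv ℂ (F.Om y) q))) ≤ ν + 1)
    (hT : ∀ y, ¬ ∃ ζ : ℂ, ∀ q ∈ GrB_217.HB d (Real.log (D.r y)) (D.r y),
      F.T y *ᵥ F.Om y q = ζ • F.Om y q) :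
    Nonempty (Full D Φ (fun x => ((e * n : ℕ) : ℝ) * ψ₀ x) (n * k) (ν - 1)) := by
  refine GrI_217.full_of F n (max C0 (Ct ι e n)) (psi' F hcy n) ?_ ?_ (psi'_sm F hcy n)
    (psi'_psh F hcy n) (psi'_rank F hcy n hν hrk hT) ?_
  · intro y q hq
    exact (g1 y q hq).trans (mul_le_mul_of_nonneg_right (le_max_left _ _)
      (GrI_217.log_inv_nonneg D y))
  · intro y q hq
    exact (g2 y q hq).trans (mul_le_mul_of_nonneg_right (le_max_left _ _)
      (GrI_217.log_inv_nonneg D y))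
  · intro y
    exact (psi'_tau F hcy n y).trans (by linarith [le_max_right C0 (Ct ι e n)])

end main

end Crest.Agent.R276.GrK_217
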