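import Crest.Agent.R276.GrL_217

/-!
# R276, leaf COUNT-GR, part M (helper217): the case `ν = 0`

If the Levi form of `ψ` vanishes identically then the twisted section stays in a line, so the monodromy
acts on it by a scalar.
-/

set_option autoImplicit false
set_option linter.unusedSectionVars false

open Set Filter Topology Matrix Metric MeasureTheory
open scoped ComplexOrder ContDiff ComplexConjugate

noncomputable section

namespace Crest.Agent.R276.GrM_217

open Crest.Agent.R271.Ho51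
open Crest.Agent.R276.VCalc_442
open Crest.Agent.R276.Ipc735
open Crest.Agent.R276.BdNf1_651
open Crest.Agent.R276.BdNf2_651
open Crest.Agent.R276.BdNf3_651
open Crest.Agent.R276.BdNf4_651
open Crest.Agent.R276.BdNf5_651
open Crest.Agent.R276.BdNf7_651
open Crest.Agent.R276.BdNf8_651
open Crest.Agent.R276.CntDefs_857
open Crest.Agent.R276.LftDefs_327 (WD LD)
open Crest.Agent.R276.GrL_217

section line

variable {E : Type*} [NormedAddCommGroup E] [NormedSpace ℂ E] [FiniteDimensional ℂ E] {N : ℕ}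

/-- a holomorphic vector function whose derivatives are proportional to it stays in a line -/
theorem line_const {U : Set E} (hU : IsOpen U) (hc : IsPreconnected U) {Q : E → Fin N → ℂ}
    (hQ : DifferentiableOn ℂ Q U)
    (h : ∀ q ∈ U, ∀ v, fderiv ℂ Q q v ∈ Submodule.span ℂ {Q q}) {q0 : E} (hq0 : q0 ∈ U)
    (hne : Q q0 ≠ 0) : ∀ q ∈ U, ∃ c : ℂ, Q q = c • Q q0 := by
  obtain ⟨i, hi⟩ : ∃ i, Q q0 i ≠ 0 := by
    by_contra hcon
    push Not at hcon
    exact hne (funext hcon)
  have hd : ∀ q ∈ U, DifferentiableAt ℂ Q q := fun q hq => (hQ q hq).differentiableAt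
    (hU.mem_nhds hq)
  have hdi : ∀ j, ∀ q ∈ U, DifferentiableAt ℂ (fun q => Q q j) q := fun j q hq =>
    differentiableAt_pi.1 (hd q hq) j
  have hder : ∀ j, ∀ q ∈ U, ∀ v, fderiv ℂ (fun q => Q q j) q v = fderiv ℂ Q q v j := by
    intro j q hq v
    rw [fderiv_pi (fun i => hdi i q hq)]
    rfl
  have key : ∀ j, ∀ q ∈ U, Q q j * Q q0 i = Q q0 j * Q q i := by
    intro j
    have hA : AnalyticOnNhd ℂ Q U := R266.SCV.analyticOnNhd_of_differentiableOn hU hQ
    have hAj : ∀ j, AnalyticOnNhd ℂ (fun q => Q q j) U := fun j q hq =>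
      (analyticAt_pi_iff.1 (hA q hq)) j
    have h1 : AnalyticOnNhd ℂ (fun q => Q q j * Q q0 i) U := fun q hq =>
      (hAj j q hq).mul analyticAt_const
    have h2 : AnalyticOnNhd ℂ (fun q => Q q0 j * Q q i) U := fun q hq =>
      analyticAt_const.mul (hAj i q hq)
    refine h1.eqOn_of_preconnected_of_eventuallyEq h2 hc hq0 ?_
    -- near `q0` the ratio is constant
    have hcont : ContinuousAt (fun q => Q q i) q0 := (hdi i q0 hq0).continuousAt
    obtain ⟨ε, hε, hb⟩ := Metric.mem_nhds_iff.1 (inter_mem (hU.mem_nhds hq0)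
      (hcont.eventually_ne hi))
    have hbU : ball q0 ε ⊆ U := fun q hq => (hb hq).1
    have hbi : ∀ q ∈ ball q0 ε, Q q i ≠ 0 := fun q hq => (hb hq).2
    have hR : ∀ q ∈ ball q0 ε, HasFDerivAt (fun q => Q q j / Q q i) (0 : E →L[ℂ] ℂ) q := by
      intro q hq
      have h3 := (hdi j q (hbU hq)).hasFDerivAt.mul ((hasDerivAt_inv (hbi q hq)).comp_hasFDerivAt q
        (hdi i q (hbU hq)).hasFDerivAt)
      refine h3.congr_fderiv ?_
      ext v
      obtain ⟨c, hcv⟩ := Submodule.mem_span_singleton.1 (h q (hbU hq) v)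
      have e1 : fderiv ℂ (fun q => Q q j) q v = c * Q q j := by
        rw [hder j q (hbU hq), ← hcv]; rfl
      have e2 : fderiv ℂ (fun q => Q q i) q v = c * Q q i := by
        rw [hder i q (hbU hq), ← hcv]; rfl
      have h0 := hbi q hq
      simp only [_root_.smul_apply, _root_.add_apply, smul_eq_mul, _root_.zero_apply, e1, e2,
        Function.comp_apply]
      field_simp
      ring
    have hconst : ∀ q ∈ ball q0 ε, Q q j / Q q i = Q q0 j / Q q0 i := by
      intro q hq
      exact (convex_ball q0 ε).is_const_of_fderivWithin_eq_zero (𝕜 := ℂ)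
        (f := fun q => Q q j / Q q i)
        (fun x hx => (hR x hx).differentiableAt.differentiableWithinAt)
        (fun x hx => by
          rw [fderivWithin_of_isOpen isOpen_ball hx, (hR x hx).fderiv]) hq
        (mem_ball_self hε)
    filter_upwards [ball_mem_nhds q0 hε] with q hq
    have h4 := hconst q hq
    have h5 := hbi q hq
    field_simp at h4
    linear_combination h4
  intro q hq
  refine ⟨Q q i / Q q0 i, ?_⟩
  funext j
  have h1 := key j q hq
  rw [Pi.smul_apply, smul_eq_mul]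
  field_simp
  linear_combination h1

end line

section main

variable {d m N w : ℕ} {M E X : Type*} [TopologicalSpace M] [RDom (d + 1) M]
    [MeasurableSpace M] {μ : Measure M} [TopologicalSpace E] [RDom d E] [TopologicalSpace X]
    [RDom m X] {D : DChart M E μ} {V : VHS m X N w} {om : X → Fin N → ℂ} {u : X → ℂ}
    {f : X → M} {M0 : ℕ} {ι : Fin (d + 1) → Fin m} {φ ψ : M → ℝ}

/-- **the case `ν = 0`** -/
theorem scal_of_zero (hw : WD V om u M0 f ι φ ψ) (l : LD D V om u f) (B : BFam l M0 ψ)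
    (hν : ∀ τ : M, ∃ W : Submodule ℂ (Fin (d + 1) → ℂ), d + 1 ≤ Module.finrank ℂ W + 0 ∧
      ∀ v ∈ W, Levi ψ τ v = 0) (y : E) : Scal B y := by
  set Q := Om (B.n y) om l.ku M0 (B.g y) with hQ
  have hdiff : DifferentiableOn ℂ Q (HS d (D.r y)) := (B.cy y).bot.hol
  have hne : ∀ q ∈ HS d (D.r y), Q q ≠ 0 := (B.cy y).ne
  have hr := GrH_217.r_pos D y
  have hspan : ∀ q ∈ HS d (D.r y), ∀ v, fderiv ℂ Q q v ∈ Submodule.span ℂ {Q q} := by
    intro q hq v
    have h1 := hrk_of hw l B hν y q hq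
    rw [zero_add] at h1
    have h2 : Submodule.span ℂ {Q q} = Submodule.span ℂ ({Q q} ∪ range (fderiv ℂ Q q)) := by
      refine Submodule.eq_of_le_of_finrank_le (Submodule.span_mono subset_union_left) ?_
      rw [finrank_span_singleton (hne q hq)]
      exact h1
    rw [h2]
    exact Submodule.subset_span (Or.inr ⟨v, rfl⟩)
  set q0 := bp d (Real.log (D.r y) - 1) with hq0
  have hq0m : q0 ∈ HS d (D.r y) := bp_mem hr (by linarith)
  have hl := line_const (isOpen_HS d _) (convex_HS d _).isPreconnected hdiff hspan hq0m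
    (hne q0 hq0m)
  -- the monodromy at `q0`
  have h1 := Om_tw (om := om) (B.n y) l.ku M0 (B.g y) 1 hq0m
  rw [zpow_one, zpow_one] at h1
  obtain ⟨c, hc⟩ := hl _ ((tw_mem 1).2 hq0m)
  have hz : zM l.ku M0 ≠ 0 := zM_ne _ _
  have h2 : cm (B.n y).T *ᵥ Q q0 = ((zM l.ku M0)⁻¹ * c) • Q q0 := by
    have h3 : zM l.ku M0 • (cm (B.n y).T *ᵥ Q q0) = c • Q q0 := by
      rw [← hc]; exact h1.symm
    rw [mul_smul, ← h3, smul_smul, inv_mul_cancel₀ hz, one_smul]
  refine ⟨(zM l.ku M0)⁻¹ * c, fun q hq => ?_⟩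
  obtain ⟨c', hc'⟩ := hl q hq
  show cm (B.n y).T *ᵥ Q q = _ • Q q
  rw [hc', Matrix.mulVec_smul, h2, smul_comm]

end main

end Crest.Agent.R276.GrM_217
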