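import Crest.Agent.R276.VCalcG_442

/-!
# R276, helper720, task SSVAR: local analysis for the global theory of a variation (574's GVHS)

`V` a polarised variation in a flat frame (`VCalc_442.VHS w U S P`), `K = hm w S P` the Hodge metric,
`θ_v = th w P v`, `θ̄_v = thb w P v`.

* `gm B K = Bᴴ K B`, `pj B K = B (Bᴴ K B)⁻¹ Bᴴ K` (the `K`-orthogonal projector on the range of `B`),
  `ug = log det gm` for a CONSTANT matrix `B` with independent columns.
* `dW_ug`, `dB_dW_ug`, `sm_ug`, `ug_nonneg`, `ug_bound`, `lap_ug` (DS); `ug_eq_at`, `pj_const` (DS0).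
* `na = tr (K⁻¹ Aᴴ K A)`, `ua = log (1 + na)` for a constant matrix `A`: `dB_dW_na`, `sm_ua`,
  `ua_nonneg`, `ua_bound`, `lap_ua`; `ua_eq_at`, `comm_const` (FP).
* change of frames: `gm_frame`, `pj_frame`, `trace_frame`, `det_gm_mul`, `pj_mul`.
-/

set_option autoImplicit false
set_option linter.unusedSectionVars false

open Set Filter Topology Matrix Finset InnerProductSpace Laplacian
open scoped ContDiff ComplexConjugate ComplexOrder

namespace Crest.Agent.R276.SSVar_720

open Crest.Agent.R276.VCalc_442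

variable {X : Type*} [NormedAddCommGroup X] [NormedSpace ℂ X]
variable {ι κ : Type*} [Fintype ι] [DecidableEq ι] [Fintype κ] [DecidableEq κ]

/-- Gram matrix of the columns of `B` -/
def gm (B : Matrix ι κ ℂ) (K : Matrix ι ι ℂ) : Matrix κ κ ℂ := Bᴴ * K * B

/-- the `K`-orthogonal projector on the range of `B` -/
noncomputable def pj (B : Matrix ι κ ℂ) (K : Matrix ι ι ℂ) : Matrix ι ι ℂ :=
  B * (gm B K)⁻¹ * Bᴴ * K

section alg

variable {B : Matrix ι κ ℂ} {K : Matrix ι ι ℂ}

theorem gm_posDef (hB : Function.Injective B.mulVec) (hK : K.PosDef) : (gm B K).PosDef :=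
  hK.conjTranspose_mul_mul_same hB

theorem gm_det (hB : Function.Injective B.mulVec) (hK : K.PosDef) : IsUnit (gm B K).det :=
  (Matrix.isUnit_iff_isUnit_det _).1 (gm_posDef hB hK).isUnit

theorem pj_mul_B (hB : Function.Injective B.mulVec) (hK : K.PosDef) : pj B K * B = B := by
  have h1 : pj B K * B = B * ((gm B K)⁻¹ * (gm B K)) := by
    unfold pj gm
    simp only [Matrix.mul_assoc]
  rw [h1, Matrix.nonsing_inv_mul _ (gm_det hB hK), Matrix.mul_one]

theorem pj_mul_pj (hB : Function.Injective B.mulVec) (hK : K.PosDef) :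
    pj B K * pj B K = pj B K := by
  have h1 : pj B K * pj B K = (pj B K * B) * (gm B K)⁻¹ * Bᴴ * K := by
    conv_lhs => rw [show pj B K * pj B K = pj B K * (B * (gm B K)⁻¹ * Bᴴ * K) from rfl]
    simp only [Matrix.mul_assoc]
  rw [h1, pj_mul_B hB hK]
  rfl

theorem adj_pj (hB : Function.Injective B.mulVec) (hK : K.PosDef) :
    Adj K (pj B K) (pj B K) := by
  unfold Adj pj
  have h1 : ((gm B K)⁻¹)ᴴ = (gm B K)⁻¹ := (gm_posDef hB hK).1.inv
  have h2 : Kᴴ = K := hK.1
  simp only [Matrix.conjTranspose_mul, Matrix.conjTranspose_conjTranspose, h1, h2,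
    Matrix.mul_assoc]

theorem mem_range_iff (hB : Function.Injective B.mulVec) (hK : K.PosDef) (v : ι → ℂ) :
    (∃ c, v = B *ᵥ c) ↔ pj B K *ᵥ v = v := by
  constructor
  · rintro ⟨c, rfl⟩
    rw [Matrix.mulVec_mulVec, pj_mul_B hB hK]
  · intro h
    refine ⟨((gm B K)⁻¹ * Bᴴ * K) *ᵥ v, ?_⟩
    rw [Matrix.mulVec_mulVec]
    conv_lhs => rw [← h]
    unfold pj
    simp only [Matrix.mul_assoc]

theorem trace_pj (hB : Function.Injective B.mulVec) (hK : K.PosDef) :
    (pj B K).trace = (Fintype.card κ : ℂ) := by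
  have h1 : (pj B K).trace = ((gm B K)⁻¹ * gm B K).trace := by
    unfold pj
    rw [Matrix.mul_assoc, Matrix.mul_assoc, Matrix.trace_mul_comm]
    unfold gm
    simp only [Matrix.mul_assoc]
  rw [h1, Matrix.nonsing_inv_mul _ (gm_det hB hK), Matrix.trace_one]

end alg

/-! ### calculus of inverses and determinants -/

section lc

variable {A : Type*} [NormedAddCommGroup A] [NormedSpace ℂ A]

/-- a function with vanishing derivatives on an open set is locally constant -/
theorem loc_const {F : X → A} {U : Set X} (hU : IsOpen U) (hd : ∀ x ∈ U, DifferentiableAt ℝ F x)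
    (h1 : ∀ x ∈ U, ∀ v, dW F v x = 0) (h2 : ∀ x ∈ U, ∀ v, dB F v x = 0) {x : X} (hx : x ∈ U) :
    ∀ᶠ y in 𝓝 x, F y = F x := by
  obtain ⟨ε, hε, hb⟩ := Metric.isOpen_iff.1 hU x hx
  filter_upwards [Metric.ball_mem_nhds x hε] with y hy
  have h3 : ∀ z ∈ Metric.ball x ε, fderiv ℝ F z = 0 := by
    intro z hz
    ext v
    rw [VCalc_442.fderiv_eq, h1 z (hb hz), h2 z (hb hz)]
    simp
  exact (convex_ball x ε).is_const_of_fderivWithin_eq_zero (𝕜 := ℝ)
    (fun z hz => (hd z (hb hz)).differentiableWithinAt)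
    (fun z hz => by rw [fderivWithin_of_isOpen Metric.isOpen_ball hz, h3 z hz]) hy
    (Metric.mem_ball_self hε)

end lc

section inv

variable {R : Type*} [NormedRing R] [NormedAlgebra ℂ R] [CompleteSpace R]

theorem hasFDerivAt_inv {F : X → R} {x : X} (hF : DifferentiableAt ℝ F x) (hu : IsUnit (F x)) :
    DifferentiableAt ℝ (fun y => Ring.inverse (F y)) x ∧
    ∀ v, fderiv ℝ (fun y => Ring.inverse (F y)) x v =
      -(Ring.inverse (F x) * fderiv ℝ F x v * Ring.inverse (F x)) := by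
  obtain ⟨u, hu⟩ := hu
  have h1 := hasFDerivAt_ringInverse (𝕜 := ℝ) u
  rw [hu] at h1
  have h2 := h1.comp x hF.hasFDerivAt
  have e : (fun y => Ring.inverse (F y)) = Ring.inverse ∘ F := rfl
  rw [e]
  refine ⟨h2.differentiableAt, fun v => ?_⟩
  rw [h2.fderiv, ← hu, Ring.inverse_unit]
  simp

theorem dW_inv {F : X → R} {x : X} (hF : DifferentiableAt ℝ F x) (hu : IsUnit (F x)) (v : X) :
    dW (fun y => Ring.inverse (F y)) v x =
      -(Ring.inverse (F x) * dW F v x * Ring.inverse (F x)) := by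
  have h := (hasFDerivAt_inv hF hu).2
  unfold dW
  rw [h, h]
  simp only [mul_sub, sub_mul, mul_smul_comm, smul_mul_assoc]
  module

theorem dB_inv {F : X → R} {x : X} (hF : DifferentiableAt ℝ F x) (hu : IsUnit (F x)) (v : X) :
    dB (fun y => Ring.inverse (F y)) v x =
      -(Ring.inverse (F x) * dB F v x * Ring.inverse (F x)) := by
  have h := (hasFDerivAt_inv hF hu).2
  unfold dB
  rw [h, h]
  simp only [mul_add, add_mul, mul_smul_comm, smul_mul_assoc]
  module

theorem contDiffOn_inv {F : X → R} {U : Set X} (hF : ContDiffOn ℝ ∞ F U)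
    (hu : ∀ x ∈ U, IsUnit (F x)) : ContDiffOn ℝ ∞ (fun y => Ring.inverse (F y)) U := by
  intro x hx
  obtain ⟨u, h1⟩ := hu x hx
  have h2 : ContDiffAt ℝ ∞ Ring.inverse (F x) := by
    rw [← h1]; exact contDiffAt_ringInverse ℝ u
  exact h2.comp_contDiffWithinAt x (hF x hx)

end inv

/-- linear maps between finite dimensional normed algebras are continuous -/
noncomputable def mkM {R R' : Type*} [NormedRing R] [NormedAlgebra ℂ R] [FiniteDimensional ℂ R]
    [NormedRing R'] [NormedAlgebra ℂ R'] (f : R →ₗ[ℂ] R') : R →L[ℂ] R' :=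
  LinearMap.toContinuousLinearMap f

section nm

attribute [local instance] Matrix.linftyOpNormedRing Matrix.linftyOpNormedAlgebra

theorem differentiableAt_det (A : Matrix κ κ ℂ) :
    DifferentiableAt ℝ (fun B : Matrix κ κ ℂ => B.det) A := by
  simp only [Matrix.det_apply]
  refine DifferentiableAt.fun_sum fun σ _ => ?_
  refine DifferentiableAt.fun_const_smul ?_ _
  exact (HasFDerivAt.finsetProd (u := Finset.univ) (g := fun i (B : Matrix κ κ ℂ) => B (σ i) i)
    (x := A) (fun i _ => (((ent (σ i) i).restrictScalars ℝ).differentiableAt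
      (x := A)).hasFDerivAt)).differentiableAt

theorem contDiff_det : ContDiff ℝ ∞ (fun B : Matrix κ κ ℂ => B.det) := by
  simp only [Matrix.det_apply]
  refine ContDiff.sum fun σ _ => ?_
  refine ContDiff.const_smul _ ?_
  exact contDiff_prod fun i _ => ((ent (σ i) i).restrictScalars ℝ).contDiff

theorem hasDerivAt_det_one_add (B : Matrix κ κ ℂ) :
    HasDerivAt (fun t : ℝ => (1 + (t : ℂ) • B).det) B.trace 0 := by
  have h : ∀ t : ℝ, (1 + (t : ℂ) • B).det = 1 + B.trace * (t : ℂ)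
      + (((1 : Matrix κ κ (Polynomial ℂ)) + (Polynomial.X : Polynomial ℂ) •
        B.map Polynomial.C).det.divX.divX.eval (t : ℂ)) * (t : ℂ) ^ 2 := by
    intro t; exact Matrix.det_one_add_smul _ _
  simp only [h]
  have h0 : HasDerivAt (fun t : ℝ => (t : ℂ)) 1 0 := Complex.ofRealCLM.hasDerivAt
  have h1 := (Polynomial.hasDerivAt ((1 : Matrix κ κ (Polynomial ℂ)) +
    (Polynomial.X : Polynomial ℂ) • B.map Polynomial.C).det.divX.divX ((0 : ℝ) : ℂ)).comp (0 : ℝ) h0
  have h2 := ((h0.const_mul B.trace).const_add 1).add (h1.mul (h0.pow 2))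
  refine h2.congr_deriv ?_
  simp

/-- Jacobi's formula -/
theorem fderiv_det {F : X → Matrix κ κ ℂ} {x : X} (hF : DifferentiableAt ℝ F x)
    (hu : IsUnit (F x)) (v : X) :
    fderiv ℝ (fun y => (F y).det) x v = (F x).det * ((F x)⁻¹ * fderiv ℝ F x v).trace := by
  have hd := (Matrix.isUnit_iff_isUnit_det _).1 hu
  have h1 := (differentiableAt_det (F x)).hasFDerivAt
  have h2 := (h1.comp x hF.hasFDerivAt).fderiv
  have e : fderiv ℝ (fun y => (F y).det) x = _ := h2
  rw [e]
  set A' := fderiv ℝ F x v with hA'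
  show fderiv ℝ (fun B : Matrix κ κ ℂ => B.det) (F x) A' = _
  have h3 : HasDerivAt (fun t : ℝ => F x + t • A') A' 0 := by
    have h := ((hasDerivAt_id (0 : ℝ)).smul_const A').const_add (F x)
    rw [one_smul] at h
    exact h
  have h4 : HasFDerivAt (fun B : Matrix κ κ ℂ => B.det)
      (fderiv ℝ (fun B : Matrix κ κ ℂ => B.det) (F x)) (F x + (0 : ℝ) • A') := by
    simpa using h1
  have h5 := h4.comp_hasDerivAt (0 : ℝ) h3
  have h6 : ((fun B : Matrix κ κ ℂ => B.det) ∘ fun t : ℝ => F x + t • A')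
      = fun t : ℝ => (F x).det * (1 + (t : ℂ) • ((F x)⁻¹ * A')).det := by
    ext t
    simp only [Function.comp]
    rw [← Matrix.det_mul, Matrix.mul_add, Matrix.mul_one, Matrix.mul_smul, ← Matrix.mul_assoc,
      Matrix.mul_nonsing_inv _ hd, Matrix.one_mul]
    congr 2
  rw [h6] at h5
  have h7 := (hasDerivAt_det_one_add ((F x)⁻¹ * A')).const_mul (F x).det
  exact h5.unique h7

/-- derivative of `log det` -/
theorem dW_logdet {F : X → Matrix κ κ ℂ} {x : X} (hF : DifferentiableAt ℝ F x)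
    (hp : ∀ᶠ y in 𝓝 x, (F y).PosDef) (v : X) :
    DifferentiableAt ℝ (fun y => Real.log (F y).det.re) x ∧
    dW (cx (fun y => Real.log (F y).det.re)) v x = ((F x)⁻¹ * dW F v x).trace ∧
    dB (cx (fun y => Real.log (F y).det.re)) v x = ((F x)⁻¹ * dB F v x).trace := by
  have hx : (F x).PosDef := hp.self_of_nhds
  have hdet : ∀ M : Matrix κ κ ℂ, M.PosDef → 0 < M.det.re ∧ M.det = (M.det.re : ℂ) := by
    intro M hM
    have h1 := Complex.pos_iff.1 hM.det_pos
    exact ⟨h1.1, Complex.ext (by simp) (by simp [← h1.2])⟩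
  have hdF : DifferentiableAt ℝ (fun y => (F y).det) x :=
    (differentiableAt_det (F x)).comp x hF
  have hre : DifferentiableAt ℝ (fun y => (F y).det.re) x :=
    Complex.reCLM.differentiableAt.comp x hdF
  have hlog : DifferentiableAt ℝ (fun y => Real.log (F y).det.re) x :=
    hre.log (hdet _ hx).1.ne'
  have hev : cx (fun y => Real.log (F y).det.re) =ᶠ[𝓝 x] fun y => Complex.log (F y).det := by
    filter_upwards [hp] with y hy
    have h2 := hdet _ hy
    unfold cx
    rw [Complex.ofReal_log h2.1.le, ← h2.2]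
  have hsl : (F x).det ∈ Complex.slitPlane := by
    rw [(hdet _ hx).2]
    exact Complex.ofReal_mem_slitPlane.2 (hdet _ hx).1
  have key : ∀ v, fderiv ℝ (cx (fun y => Real.log (F y).det.re)) x v =
      ((F x)⁻¹ * fderiv ℝ F x v).trace := by
    intro v
    rw [hev.fderiv_eq]
    have h3 := ((Complex.hasStrictFDerivAt_log_real hsl).hasFDerivAt.comp x
      hdF.hasFDerivAt).fderiv
    have e3 : fderiv ℝ (fun y => Complex.log (F y).det) x = _ := h3
    rw [e3]
    show (F x).det⁻¹ • fderiv ℝ (fun y => (F y).det) x v = _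
    rw [fderiv_det hF hx.isUnit, smul_eq_mul, ← mul_assoc,
      inv_mul_cancel₀ (Complex.slitPlane_ne_zero hsl), one_mul]
  refine ⟨hlog, ?_, ?_⟩
  · unfold dW
    rw [key, key, Matrix.mul_smul, Matrix.mul_sub, Matrix.mul_smul, Matrix.trace_smul,
      Matrix.trace_sub, Matrix.trace_smul]
    rfl
  · unfold dB
    rw [key, key, Matrix.mul_smul, Matrix.mul_add, Matrix.mul_smul, Matrix.trace_smul,
      Matrix.trace_add, Matrix.trace_smul]
    rfl

/-- `M ↦ Bᴴ M B` -/
noncomputable def gmL (B : Matrix ι κ ℂ) := mkM (R := Matrix ι ι ℂ) (R' := Matrix κ κ ℂ)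
  { toFun := fun M => Bᴴ * M * B
    map_add' := fun M N => by rw [Matrix.mul_add, Matrix.add_mul]
    map_smul' := fun c M => by rw [Matrix.mul_smul, Matrix.smul_mul]; rfl }

theorem gmL_apply (B : Matrix ι κ ℂ) (M : Matrix ι ι ℂ) : gmL B M = Bᴴ * M * B := rfl

/-- `M ↦ B M Bᴴ` -/
noncomputable def brL (B : Matrix ι κ ℂ) := mkM (R := Matrix κ κ ℂ) (R' := Matrix ι ι ℂ)
  { toFun := fun M => B * M * Bᴴ
    map_add' := fun M N => by rw [Matrix.mul_add, Matrix.add_mul]
    map_smul' := fun c M => by rw [Matrix.mul_smul, Matrix.smul_mul]; rfl }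

theorem brL_apply (B : Matrix ι κ ℂ) (M : Matrix κ κ ℂ) : brL B M = B * M * Bᴴ := rfl

/-- `log det` of the Gram matrix of the constant frame `B` -/
noncomputable def ug (w : ℕ) (S : Matrix ι ι ℂ) (P : ℕ → X → Matrix ι ι ℂ) (B : Matrix ι κ ℂ)
    (x : X) : ℝ := Real.log (gm B (hm w S P x)).det.re

section vhs

variable {w : ℕ} {U : Set X} {S : Matrix ι ι ℂ} {P : ℕ → X → Matrix ι ι ℂ} {x : X}
  {B : Matrix ι κ ℂ}

theorem sm_gm (h : VHS w U S P) (B : Matrix ι κ ℂ) :
    ContDiffOn ℝ ∞ (fun y => gm B (hm w S P y)) U :=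
  ((gmL B).restrictScalars ℝ).contDiff.comp_contDiffOn h.sm_hm

theorem d_gm (h : VHS w U S P) (B : Matrix ι κ ℂ) (hx : x ∈ U) :
    DifferentiableAt ℝ (fun y => gm B (hm w S P y)) x := diffAt h.op (sm_gm h B) hx

theorem dW_gm (h : VHS w U S P) (B : Matrix ι κ ℂ) (hx : x ∈ U) (v : X) :
    dW (fun y => gm B (hm w S P y)) v x =
      (-2 : ℂ) • (Bᴴ * (hm w S P x * dW (grOp w P) v x) * B) := by
  have h1 : dW (fun y => gmL B (hm w S P y)) v x = gmL B (dW (hm w S P) v x) :=
    dW_clm (gmL B) (h.d_hm hx) v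
  refine h1.trans ?_
  rw [h.dW_hm hx, map_smul, gmL_apply]

theorem dB_gm (h : VHS w U S P) (B : Matrix ι κ ℂ) (hx : x ∈ U) (v : X) :
    dB (fun y => gm B (hm w S P y)) v x =
      (-2 : ℂ) • (Bᴴ * (hm w S P x * tb (grOp w P) v x) * B) := by
  have h1 : dB (fun y => gmL B (hm w S P y)) v x = gmL B (dB (hm w S P) v x) :=
    dB_clm (gmL B) (h.d_hm hx) v
  refine h1.trans ?_
  rw [h.dB_hm hx, map_smul, gmL_apply]

theorem unit_gm (h : VHS w U S P) (hB : Function.Injective B.mulVec) (hx : x ∈ U) :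
    IsUnit (gm B (hm w S P x)) := (gm_posDef hB (h.hmPos hx)).isUnit

/-- `R = B G⁻¹ Bᴴ` -/
noncomputable def rj (B : Matrix ι κ ℂ) (K : Matrix ι ι ℂ) : Matrix ι ι ℂ := brL B (Ring.inverse (gm B K))

theorem pj_eq (B : Matrix ι κ ℂ) (K : Matrix ι ι ℂ) : pj B K = rj B K * K := by
  unfold pj rj
  rw [brL_apply, Matrix.nonsing_inv_eq_ringInverse]

theorem sm_rj (h : VHS w U S P) (hB : Function.Injective B.mulVec) :
    ContDiffOn ℝ ∞ (fun y => rj B (hm w S P y)) U :=
  ((brL B).restrictScalars ℝ).contDiff.comp_contDiffOn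
    (contDiffOn_inv (sm_gm h B) fun _ hy => unit_gm h hB hy)

theorem sm_pj (h : VHS w U S P) (hB : Function.Injective B.mulVec) :
    ContDiffOn ℝ ∞ (fun y => pj B (hm w S P y)) U := by
  have e : (fun y => pj B (hm w S P y)) = fun y => rj B (hm w S P y) * hm w S P y := by
    funext y; exact pj_eq _ _
  rw [e]
  exact (sm_rj h hB).mul h.sm_hm

theorem dW_rj (h : VHS w U S P) (hB : Function.Injective B.mulVec) (hx : x ∈ U) (v : X) :
    dW (fun y => rj B (hm w S P y)) v x = (2 : ℂ) • (rj B (hm w S P x) *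
      (hm w S P x * dW (grOp w P) v x) * rj B (hm w S P x)) := by
  have hu := unit_gm h hB hx
  have hd := d_gm h B hx
  have h1 : dW (fun y => rj B (hm w S P y)) v x =
      brL B (dW (fun y => Ring.inverse (gm B (hm w S P y))) v x) :=
    dW_clm (brL B) (hasFDerivAt_inv hd hu).1 v
  rw [h1, dW_inv hd hu, dW_gm h B hx]
  unfold rj
  rw [brL_apply, brL_apply, mul_smul_comm, smul_mul_assoc, ← neg_smul, Matrix.mul_smul,
    Matrix.smul_mul, neg_neg]
  simp only [Matrix.mul_assoc]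

theorem dB_rj (h : VHS w U S P) (hB : Function.Injective B.mulVec) (hx : x ∈ U) (v : X) :
    dB (fun y => rj B (hm w S P y)) v x = (2 : ℂ) • (rj B (hm w S P x) *
      (hm w S P x * tb (grOp w P) v x) * rj B (hm w S P x)) := by
  have hu := unit_gm h hB hx
  have hd := d_gm h B hx
  have h1 : dB (fun y => rj B (hm w S P y)) v x =
      brL B (dB (fun y => Ring.inverse (gm B (hm w S P y))) v x) :=
    dB_clm (brL B) (hasFDerivAt_inv hd hu).1 v
  rw [h1, dB_inv hd hu, dB_gm h B hx]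
  unfold rj
  rw [brL_apply, brL_apply, mul_smul_comm, smul_mul_assoc, ← neg_smul, Matrix.mul_smul,
    Matrix.smul_mul, neg_neg]
  simp only [Matrix.mul_assoc]

/-- `∂_v Π = -2 Π θ_v (1-Π)` -/
theorem dW_pj (h : VHS w U S P) (hB : Function.Injective B.mulVec) (hx : x ∈ U) (v : X) :
    dW (fun y => pj B (hm w S P y)) v x = (-2 : ℂ) • (pj B (hm w S P x) *
      dW (grOp w P) v x * (1 - pj B (hm w S P x))) := by
  have e : (fun y => pj B (hm w S P y)) = fun y => rj B (hm w S P y) * hm w S P y := by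
    funext y; exact pj_eq _ _
  rw [e, dW_mul (diffAt h.op (sm_rj h hB) hx) (h.d_hm hx), dW_rj h hB hx, h.dW_hm hx, pj_eq]
  simp only [smul_mul_assoc, mul_smul_comm, mul_sub, mul_one, ← mul_assoc]
  module

/-- `∂̄_v Π = -2 Π θ̄_v (1-Π)` -/
theorem dB_pj (h : VHS w U S P) (hB : Function.Injective B.mulVec) (hx : x ∈ U) (v : X) :
    dB (fun y => pj B (hm w S P y)) v x = (-2 : ℂ) • (pj B (hm w S P x) *
      tb (grOp w P) v x * (1 - pj B (hm w S P x))) := by
  have e : (fun y => pj B (hm w S P y)) = fun y => rj B (hm w S P y) * hm w S P y := by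
    funext y; exact pj_eq _ _
  rw [e, dB_mul (diffAt h.op (sm_rj h hB) hx) (h.d_hm hx), dB_rj h hB hx, h.dB_hm hx, pj_eq]
  simp only [smul_mul_assoc, mul_smul_comm, mul_sub, mul_one, ← mul_assoc]
  module

theorem sm_ug (h : VHS w U S P) (hB : Function.Injective B.mulVec) :
    ContDiffOn ℝ ∞ (ug w S P B) U := by
  have h1 : ContDiffOn ℝ ∞ (fun y => (gm B (hm w S P y)).det.re) U :=
    Complex.reCLM.contDiff.comp_contDiffOn (contDiff_det.comp_contDiffOn (sm_gm h B))
  exact h1.log fun y hy => (Complex.pos_iff.1 (gm_posDef hB (h.hmPos hy)).det_pos).1.ne'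

theorem posDef_ev (h : VHS w U S P) (hB : Function.Injective B.mulVec) (hx : x ∈ U) :
    ∀ᶠ y in 𝓝 x, (gm B (hm w S P y)).PosDef :=
  Filter.eventually_of_mem (h.op.mem_nhds hx) fun _ hy => gm_posDef hB (h.hmPos hy)

/-- `∂_v u = -2 tr (Π θ_v)` -/
theorem dW_ug (h : VHS w U S P) (hB : Function.Injective B.mulVec) (hx : x ∈ U) (v : X) :
    dW (cx (ug w S P B)) v x = -2 * trL (pj B (hm w S P x) * dW (grOp w P) v x) := by
  have h1 := (dW_logdet (d_gm h B hx) (posDef_ev h hB hx) v).2.1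
  have e : dW (cx (ug w S P B)) v x = _ := h1
  rw [e, dW_gm h B hx, Matrix.mul_smul, Matrix.trace_smul, smul_eq_mul, trL_apply]
  congr 1
  unfold pj
  rw [Matrix.trace_mul_comm]
  rw [Matrix.mul_assoc B, Matrix.mul_assoc B, Matrix.mul_assoc B, Matrix.trace_mul_comm B]
  rw [Matrix.trace_mul_comm]
  simp only [Matrix.mul_assoc]

/-- trace identity behind the second derivative -/
theorem trace_id (p t s : Matrix ι ι ℂ) (hp : p * p = p) :
    -2 * trL ((-2 : ℂ) • (p * s * (1 - p)) * t + p * (s * t - t * s)) =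
      2 * (((1 - p) * t * p * (p * (s * (1 - p)))).trace +
        ((1 - p) * s * p * (p * (t * (1 - p)))).trace) := by
  have hq : (1 - p) * (1 - p) = 1 - p := by
    rw [mul_sub, sub_mul, sub_mul, hp]; simp
  have key : ∀ a b : Matrix ι ι ℂ, ((1 - p) * a * p * (p * (b * (1 - p)))).trace =
      (p * b * a).trace - (p * b * p * a).trace := by
    intro a b
    calc ((1 - p) * a * p * (p * (b * (1 - p)))).trace
        = ((p * (b * (1 - p))) * ((1 - p) * a * p)).trace := Matrix.trace_mul_comm _ _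
      _ = ((p * b * ((1 - p) * (1 - p)) * a) * p).trace := by
          congr 1; noncomm_ring
      _ = (p * (p * b * ((1 - p) * (1 - p)) * a)).trace := Matrix.trace_mul_comm _ _
      _ = ((p * p) * b * (1 - p) * a).trace := by rw [hq]; congr 1; noncomm_ring
      _ = (p * b * a - p * b * p * a).trace := by rw [hp]; congr 1; noncomm_ring
      _ = _ := Matrix.trace_sub _ _
  have e : (p * t * p * s).trace = (p * s * p * t).trace := by
    rw [mul_assoc (p * t), Matrix.trace_mul_comm, ← mul_assoc]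
  rw [key, key, e]
  simp only [map_add, map_sub, map_smul, mul_sub, sub_mul, mul_one, smul_sub, smul_mul_assoc,
    trL_apply, ← mul_assoc, smul_eq_mul]
  ring

theorem adj_one {K : Matrix ι ι ℂ} : Adj K 1 1 := by
  unfold Adj; simp

theorem adj_a (h : VHS w U S P) (hB : Function.Injective B.mulVec) (hx : x ∈ U) {t s : Matrix ι ι ℂ}
    (hts : Adj (hm w S P x) t s) :
    Adj (hm w S P x) ((1 - pj B (hm w S P x)) * t * pj B (hm w S P x))
      (pj B (hm w S P x) * (s * (1 - pj B (hm w S P x)))) := by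
  have h1 := adj_pj hB (h.hmPos hx)
  have h2 : Adj (hm w S P x) (1 - pj B (hm w S P x)) (1 - pj B (hm w S P x)) := adj_one.sub h1
  exact (h2.mul hts).mul h1

/-- **(DS)** `∂̄_v ∂_v u = 2 (|(1-Π) θ_v Π|² + |(1-Π) θ̄_v Π|²)` -/
theorem dB_dW_ug (h : VHS w U S P) (hB : Function.Injective B.mulVec) (hx : x ∈ U) (v : X) :
    dB (dW (cx (ug w S P B)) v) v x =
      2 * (((1 - pj B (hm w S P x)) * dW (grOp w P) v x * pj B (hm w S P x) *
          (pj B (hm w S P x) * (tb (grOp w P) v x * (1 - pj B (hm w S P x))))).trace +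
        ((1 - pj B (hm w S P x)) * tb (grOp w P) v x * pj B (hm w S P x) *
          (pj B (hm w S P x) * (dW (grOp w P) v x * (1 - pj B (hm w S P x))))).trace) := by
  have hdp : DifferentiableAt ℝ (fun y => pj B (hm w S P y)) x := diffAt h.op (sm_pj h hB) hx
  have hdt := h.gr.d_th hx v
  have h1 : dW (cx (ug w S P B)) v =ᶠ[𝓝 x]
      fun y => (-2 : ℂ) • trL (pj B (hm w S P y) * dW (grOp w P) v y) :=
    Filter.eventually_of_mem (h.op.mem_nhds hx) fun y hy => dW_ug h hB hy v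
  have hdd : DifferentiableAt ℝ (fun y => pj B (hm w S P y) * dW (grOp w P) v y) x :=
    hdp.fun_mul hdt
  have hdT : DifferentiableAt ℝ (fun y => trL (pj B (hm w S P y) * dW (grOp w P) v y)) x :=
    ((trL (ι := ι)).restrictScalars ℝ).differentiableAt.comp x hdd
  rw [dB_congr h1 v, dB_const_smul _ hdT, dB_clm trL hdd, dB_mul hdp hdt, dB_pj h hB hx,
    h.gr.dB_th hx, smul_eq_mul]
  exact trace_id _ _ _ (pj_mul_pj hB (h.hmPos hx))

theorem ug_nonneg (h : VHS w U S P) (hB : Function.Injective B.mulVec) (hx : x ∈ U) (v : X) :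
    0 ≤ (dB (dW (cx (ug w S P B)) v) v x).re := by
  rw [dB_dW_ug h hB hx]
  have hK := h.hmPos hx
  have h1 := (adj_a h hB hx (h.adj_th_tb hx v)).trace_re_nonneg hK
  have h2 := (adj_a h hB hx ((h.adj_th_tb hx v).symm hK.1)).trace_re_nonneg hK
  have e : ∀ a b : ℂ, (2 * (a + b)).re = 2 * (a.re + b.re) := by
    intro a b; simp
  rw [e]
  linarith

/-- `|∂_v u|² ≤ 4 (rank) g_v` -/
theorem ug_bound (h : VHS w U S P) (hB : Function.Injective B.mulVec) (hx : x ∈ U) (v : X) :
    ‖dW (cx (ug w S P B)) v x‖ ^ 2 ≤ 4 * Fintype.card κ * gden w P v x := by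
  have hK := h.hmPos hx
  have h1 := (adj_pj hB hK).cauchy hK ((h.adj_th_tb hx v).symm hK.1)
  have h2 : (pj B (hm w S P x) * pj B (hm w S P x)).trace.re = Fintype.card κ := by
    rw [pj_mul_pj hB hK, trace_pj hB hK]; simp
  have h3 : (tb (grOp w P) v x * dW (grOp w P) v x).trace.re = gden w P v x := by
    unfold gden
    rw [h.gg_eq hx, Matrix.trace_mul_comm]
    rfl
  rw [h2, h3] at h1
  rw [dW_ug h hB hx, norm_mul, mul_pow]
  norm_num
  have h4 : ‖trL (pj B (hm w S P x) * dW (grOp w P) v x)‖ ^ 2 ≤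
    Fintype.card κ * gden w P v x := h1
  linarith

/-- `u` is subharmonic along complex lines -/
theorem lap_ug (h : VHS w U S P) (hB : Function.Injective B.mulVec) {z v : X} {ζ : ℂ}
    (hx : z + ζ • v ∈ U) : 0 ≤ (Δ (fun ξ : ℂ => ug w S P B (z + ξ • v))) ζ := by
  have hC2 : ContDiffAt ℝ 2 (ug w S P B) (z + ζ • v) :=
    ((sm_ug h hB).contDiffAt (h.op.mem_nhds hx)).of_le ENat.LEInfty.out
  rw [lap_line hC2]
  linarith [ug_nonneg h hB hx v]

/-- **(DS0)** equality case at a point -/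
theorem ug_eq_at (h : VHS w U S P) (hB : Function.Injective B.mulVec) (hx : x ∈ U) {v : X}
    (h3 : (dB (dW (cx (ug w S P B)) v) v x).re = 0) :
    dW (grOp w P) v x * pj B (hm w S P x) = pj B (hm w S P x) * dW (grOp w P) v x ∧
    tb (grOp w P) v x * pj B (hm w S P x) = pj B (hm w S P x) * tb (grOp w P) v x := by
  have hK := h.hmPos hx
  have a1 := adj_a h hB hx (h.adj_th_tb hx v)
  have a2 := adj_a h hB hx ((h.adj_th_tb hx v).symm hK.1)
  have n1 := a1.trace_re_nonneg hK
  have n2 := a2.trace_re_nonneg hK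
  rw [dB_dW_ug h hB hx] at h3
  have e : ∀ a b : ℂ, (2 * (a + b)).re = 2 * (a.re + b.re) := by
    intro a b; simp
  rw [e] at h3
  have z1 := a1.eq_zero_of_trace hK (by linarith)
  have z2 := a2.eq_zero_of_trace hK (by linarith)
  have hp := pj_mul_pj hB hK
  -- the adjoints vanish as well
  have adj0 : ∀ {a a' : Matrix ι ι ℂ}, Adj (hm w S P x) a a' → a = 0 → a' = 0 := by
    intro a a' haa h0
    have h4 : hm w S P x * a' = hm w S P x * 0 := by
      rw [← haa, h0]; simp
    exact hK.isUnit.mul_left_cancel h4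
  have z3 := adj0 a1 z1
  have z4 := adj0 a2 z2
  set p := pj B (hm w S P x)
  set t := dW (grOp w P) v x
  set s := tb (grOp w P) v x
  have f1 : t * p = p * t * p := by
    have : t * p - p * t * p = (1 - p) * t * p := by noncomm_ring
    rw [← sub_eq_zero, this, z1]
  have f2 : p * t = p * t * p := by
    have : p * t - p * t * p = p * (t * (1 - p)) := by noncomm_ring
    rw [← sub_eq_zero, this, z4]
  have f3 : s * p = p * s * p := by
    have : s * p - p * s * p = (1 - p) * s * p := by noncomm_ring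
    rw [← sub_eq_zero, this, z2]
  have f4 : p * s = p * s * p := by
    have : p * s - p * s * p = p * (s * (1 - p)) := by noncomm_ring
    rw [← sub_eq_zero, this, z3]
  exact ⟨f1.trans f2.symm, f3.trans f4.symm⟩

/-- if the Levi form of `u = log det Gram` vanishes on `U`, the projector `Π` is locally constant -/
theorem pj_const (h : VHS w U S P) (hB : Function.Injective B.mulVec)
    (h0 : ∀ x ∈ U, ∀ v, (dB (dW (cx (ug w S P B)) v) v x).re = 0) (hx : x ∈ U) :
    ∀ᶠ y in 𝓝 x, pj B (hm w S P y) = pj B (hm w S P x) := by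
  refine loc_const (F := fun y => pj B (hm w S P y)) h.op
    (fun y hy => diffAt h.op (sm_pj h hB) hy) ?_ ?_ hx
  · intro y hy v
    have h1 := (ug_eq_at h hB hy (h0 y hy v)).1
    rw [dW_pj h hB hy, ← h1, mul_sub, mul_one, mul_assoc, pj_mul_pj hB (h.hmPos hy), sub_self,
      smul_zero]
  · intro y hy v
    have h1 := (ug_eq_at h hB hy (h0 y hy v)).2
    rw [dB_pj h hB hy, ← h1, mul_sub, mul_one, mul_assoc, pj_mul_pj hB (h.hmPos hy), sub_self,
      smul_zero]

/-- a locally constant function has vanishing Levi form -/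
theorem levi_of_const {f : X → ℝ} {x : X} (h0 : ∀ᶠ y in 𝓝 x, f y = f x) (v : X) :
    dB (dW (cx f) v) v x = 0 := by
  have h1 : ∀ᶠ y in 𝓝 x, dW (cx f) v y = 0 := by
    filter_upwards [h0.eventually_nhds] with y hy
    have e : cx f =ᶠ[𝓝 y] fun _ => (f x : ℂ) := by
      filter_upwards [hy] with z hz
      unfold cx
      rw [hz]
    rw [dW_congr e, dW_const]
  have e : dW (cx f) v =ᶠ[𝓝 x] fun _ => (0 : ℂ) := h1
  rw [dB_congr e, dB_const]

/-! ### flat endomorphisms -/

/-- the adjoint `K⁻¹ Aᴴ K` -/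
noncomputable def sj (A K : Matrix ι ι ℂ) : Matrix ι ι ℂ := Ring.inverse K * Aᴴ * K

/-- squared Hodge norm `tr (A* A)` of the flat endomorphism `A` -/
noncomputable def na (w : ℕ) (S : Matrix ι ι ℂ) (P : ℕ → X → Matrix ι ι ℂ) (A : Matrix ι ι ℂ)
    (x : X) : ℝ := (trL (sj A (hm w S P x) * A)).re

theorem adj_sj {A K : Matrix ι ι ℂ} (hK : K.PosDef) : Adj K A (sj A K) := by
  unfold Adj sj
  have hd := (Matrix.isUnit_iff_isUnit_det _).1 hK.isUnit
  rw [← Matrix.nonsing_inv_eq_ringInverse]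
  calc Aᴴ * K = 1 * (Aᴴ * K) := by rw [one_mul]
    _ = K * K⁻¹ * (Aᴴ * K) := by rw [Matrix.mul_nonsing_inv _ hd]
    _ = _ := by simp only [mul_assoc]

theorem sm_sj (h : VHS w U S P) (A : Matrix ι ι ℂ) :
    ContDiffOn ℝ ∞ (fun y => sj A (hm w S P y)) U :=
  ((contDiffOn_inv h.sm_hm fun _ hy => (h.hmPos hy).isUnit).mul contDiffOn_const).mul h.sm_hm

theorem dW_sj (h : VHS w U S P) (A : Matrix ι ι ℂ) (hx : x ∈ U) (v : X) :
    dW (fun y => sj A (hm w S P y)) v x = (2 : ℂ) • (dW (grOp w P) v x * sj A (hm w S P x) -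
      sj A (hm w S P x) * dW (grOp w P) v x) := by
  have hu := (h.hmPos hx).isUnit
  have hd := h.d_hm hx
  have hi := (hasFDerivAt_inv hd hu).1
  have e : (fun y => sj A (hm w S P y)) = fun y => Ring.inverse (hm w S P y) * Aᴴ * hm w S P y := rfl
  rw [e, dW_mul (hi.fun_mul (differentiableAt_const _)) hd,
    dW_mul hi (differentiableAt_const _), dW_inv hd hu, h.dW_hm hx, dW_const]
  have hinv : Ring.inverse (hm w S P x) * hm w S P x = 1 := Ring.inverse_mul_cancel _ hu
  unfold sj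
  simp only [mul_smul_comm, smul_mul_assoc, mul_zero, add_zero, neg_mul, ← mul_assoc]
  rw [hinv, one_mul]
  module

theorem dB_sj (h : VHS w U S P) (A : Matrix ι ι ℂ) (hx : x ∈ U) (v : X) :
    dB (fun y => sj A (hm w S P y)) v x = (2 : ℂ) • (tb (grOp w P) v x * sj A (hm w S P x) -
      sj A (hm w S P x) * tb (grOp w P) v x) := by
  have hu := (h.hmPos hx).isUnit
  have hd := h.d_hm hx
  have hi := (hasFDerivAt_inv hd hu).1
  have e : (fun y => sj A (hm w S P y)) = fun y => Ring.inverse (hm w S P y) * Aᴴ * hm w S P y := rfl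
  rw [e, dB_mul (hi.fun_mul (differentiableAt_const _)) hd,
    dB_mul hi (differentiableAt_const _), dB_inv hd hu, h.dB_hm hx, dB_const]
  have hinv : Ring.inverse (hm w S P x) * hm w S P x = 1 := Ring.inverse_mul_cancel _ hu
  unfold sj
  simp only [mul_smul_comm, smul_mul_assoc, mul_zero, add_zero, neg_mul, ← mul_assoc]
  rw [hinv, one_mul]
  module

theorem sm_na (h : VHS w U S P) (A : Matrix ι ι ℂ) : ContDiffOn ℝ ∞ (na w S P A) U := by
  have h1 : ContDiffOn ℝ ∞ (fun y => trL (sj A (hm w S P y) * A)) U :=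
    ((trL (ι := ι)).restrictScalars ℝ).contDiff.comp_contDiffOn ((sm_sj h A).mul contDiffOn_const)
  exact Complex.reCLM.contDiff.comp_contDiffOn h1

theorem na_eq (h : VHS w U S P) (A : Matrix ι ι ℂ) (hx : x ∈ U) :
    (na w S P A x : ℂ) = trL (sj A (hm w S P x) * A) := by
  have h1 := (adj_sj (A := A) (h.hmPos hx)).trace_im (h.hmPos hx)
  apply Complex.ext
  · rfl
  · rw [Complex.ofReal_im, trL_comm]
    exact h1.symm

theorem na_nonneg (h : VHS w U S P) (A : Matrix ι ι ℂ) (hx : x ∈ U) : 0 ≤ na w S P A x := by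
  have h1 := (adj_sj (A := A) (h.hmPos hx)).trace_re_nonneg (h.hmPos hx)
  unfold na
  rw [trL_comm]
  exact h1

theorem na_pos (h : VHS w U S P) {A : Matrix ι ι ℂ} (hA : A ≠ 0) (hx : x ∈ U) :
    0 < na w S P A x := by
  refine lt_of_le_of_ne (na_nonneg h A hx) fun h0 => hA ?_
  refine (adj_sj (A := A) (h.hmPos hx)).eq_zero_of_trace (h.hmPos hx) ?_
  rw [h0]
  unfold na
  rw [trL_comm]
  rfl

theorem na_ev (h : VHS w U S P) (A : Matrix ι ι ℂ) (hx : x ∈ U) :
    cx (na w S P A) =ᶠ[𝓝 x] fun y => trL (sj A (hm w S P y) * A) :=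
  Filter.eventually_of_mem (h.op.mem_nhds hx) fun _ hy => na_eq h A hy

theorem d_sj (h : VHS w U S P) (A : Matrix ι ι ℂ) (hx : x ∈ U) :
    DifferentiableAt ℝ (fun y => sj A (hm w S P y)) x := diffAt h.op (sm_sj h A) hx

/-- `∂_v |A|² = -2 tr (A* [θ_v, A])` -/
theorem dW_na (h : VHS w U S P) (A : Matrix ι ι ℂ) (hx : x ∈ U) (v : X) :
    dW (cx (na w S P A)) v x =
      -2 * trL (sj A (hm w S P x) * (dW (grOp w P) v x * A - A * dW (grOp w P) v x)) := by
  rw [dW_congr (na_ev h A hx), dW_clm trL ((d_sj h A hx).fun_mul (differentiableAt_const _)),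
    dW_mul (d_sj h A hx) (differentiableAt_const _), dW_sj h A hx, dW_const]
  set s := sj A (hm w S P x)
  set t := dW (grOp w P) v x
  have e : trL (t * s * A) = trL (s * A * t) := by rw [mul_assoc, trL_comm]
  simp only [mul_zero, add_zero, smul_mul_assoc, map_smul, sub_mul, mul_sub, map_sub, ← mul_assoc,
    smul_eq_mul]
  rw [e]
  ring

/-- **(FP)** `∂̄_v ∂_v |A|² = 2 (|[θ_v,A]|² + |[θ̄_v,A]|²)` -/
theorem dB_dW_na (h : VHS w U S P) (A : Matrix ι ι ℂ) (hx : x ∈ U) (v : X) :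
    dB (dW (cx (na w S P A)) v) v x =
      2 * (((dW (grOp w P) v x * A - A * dW (grOp w P) v x) *
          (sj A (hm w S P x) * tb (grOp w P) v x - tb (grOp w P) v x * sj A (hm w S P x))).trace +
        ((tb (grOp w P) v x * A - A * tb (grOp w P) v x) *
          (sj A (hm w S P x) * dW (grOp w P) v x -
            dW (grOp w P) v x * sj A (hm w S P x))).trace) := by
  have hdt := h.gr.d_th hx v
  have hds := d_sj h A hx
  have hdA : DifferentiableAt ℝ (fun _ : X => A) x := differentiableAt_const _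
  have h1 : dW (cx (na w S P A)) v =ᶠ[𝓝 x]
      fun y => (-2 : ℂ) • trL (sj A (hm w S P y) *
        (dW (grOp w P) v y * A - A * dW (grOp w P) v y)) :=
    Filter.eventually_of_mem (h.op.mem_nhds hx) fun y hy => dW_na h A hy v
  have hdc : DifferentiableAt ℝ (fun y => dW (grOp w P) v y * A - A * dW (grOp w P) v y) x :=
    (hdt.fun_mul hdA).fun_sub (hdA.fun_mul hdt)
  have hdd := hds.fun_mul hdc
  have hdT : DifferentiableAt ℝ (fun y => trL (sj A (hm w S P y) *
      (dW (grOp w P) v y * A - A * dW (grOp w P) v y))) x :=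
    ((trL (ι := ι)).restrictScalars ℝ).differentiableAt.comp x hdd
  rw [dB_congr h1 v, dB_const_smul _ hdT, dB_clm trL hdd, dB_mul hds hdc, dB_sj h A hx,
    dB_sub (hdt.fun_mul hdA) (hdA.fun_mul hdt), dB_mul hdt hdA, dB_mul hdA hdt,
    h.gr.dB_th hx, dB_const]
  set a := sj A (hm w S P x)
  set t := dW (grOp w P) v x
  set s := tb (grOp w P) v x
  have c1 : ∀ b c d e : Matrix ι ι ℂ, trL (b * c * d * e) = trL (c * d * e * b) := by
    intro b c d e
    rw [show b * c * d * e = b * (c * d * e) by noncomm_ring, trL_comm]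
  have r1 : trL (t * A * a * s) = trL (a * s * t * A) := by rw [c1, c1]
  have r2 : trL (t * A * s * a) = trL (a * t * A * s) := by rw [c1, c1, c1]
  have r3 : trL (A * t * a * s) = trL (a * s * A * t) := by rw [c1, c1]
  have r4 : trL (A * t * s * a) = trL (a * A * t * s) := by rw [c1, c1, c1]
  have r5 : trL (s * A * a * t) = trL (a * t * s * A) := by rw [c1, c1]
  have r6 : trL (s * A * t * a) = trL (a * s * A * t) := by rw [c1, c1, c1]
  have r7 : trL (A * s * a * t) = trL (a * t * A * s) := by rw [c1, c1]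
  have r8 : trL (A * s * t * a) = trL (a * A * s * t) := by rw [c1, c1, c1]
  have r9 : trL (s * a * t * A) = trL (a * t * A * s) := by rw [c1]
  have r10 : trL (s * a * A * t) = trL (a * A * t * s) := by rw [c1]
  simp only [← trL_apply, mul_zero, zero_mul, add_zero, zero_add, smul_mul_assoc, map_smul, sub_mul,
    mul_sub, map_sub, map_add, ← mul_assoc, smul_eq_mul, smul_sub]
  rw [r1, r2, r3, r4, r5, r6, r7, r8, r9, r10]
  ring

theorem adj_X (h : VHS w U S P) (A : Matrix ι ι ℂ) (hx : x ∈ U) {t s : Matrix ι ι ℂ}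
    (hts : Adj (hm w S P x) t s) :
    Adj (hm w S P x) (t * A - A * t) (sj A (hm w S P x) * s - s * sj A (hm w S P x)) :=
  (hts.mul (adj_sj (h.hmPos hx))).sub ((adj_sj (h.hmPos hx)).mul hts)

/-- submultiplicativity of the Hilbert-Schmidt norm -/
theorem hs_mul_le (M N : Matrix ι ι ℂ) : hs (M * N) ≤ hs M * hs N := by
  have e : ∀ M : Matrix ι ι ℂ, hs M = ∑ j, n2 (fun i => M i j) := by
    intro M
    unfold hs n2
    rw [Finset.sum_comm]
  rw [e (M * N), e N, Finset.mul_sum]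
  refine Finset.sum_le_sum fun j _ => ?_
  exact n2_mulVec M (fun i => N i j)

theorem hs_sub_le (M N : Matrix ι ι ℂ) : hs (M - N) ≤ 2 * hs M + 2 * hs N := by
  unfold hs
  rw [Finset.mul_sum, Finset.mul_sum, ← Finset.sum_add_distrib]
  refine Finset.sum_le_sum fun i _ => ?_
  rw [Finset.mul_sum, Finset.mul_sum, ← Finset.sum_add_distrib]
  refine Finset.sum_le_sum fun j _ => ?_
  have h1 := norm_sub_le (M i j) (N i j)
  have h2 : ‖(M - N) i j‖ = ‖M i j - N i j‖ := rfl
  rw [h2]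
  nlinarith [norm_nonneg (M i j - N i j), norm_nonneg (M i j), norm_nonneg (N i j),
    sq_nonneg (‖M i j‖ - ‖N i j‖)]

theorem adj_hs {K D a a' : Matrix ι ι ℂ} (hD : IsUnit D) (hK : K = Dᴴ * D) (h : Adj K a a') :
    (a * a').trace.re = hs (D * a * D⁻¹) := by
  rw [← VCalc_442.trace_conj hD, mul_conj hD, adj_conj hD hK h, trace_mul_conjTranspose_self]
  simp

/-- `|[t, A]|² ≤ 4 |t|² |A|²` -/
theorem comm_bound {K a a' b b' : Matrix ι ι ℂ} (hK : K.PosDef) (h : Adj K a a')
    (h2 : Adj K b b') : ((a * b - b * a) * (b' * a' - a' * b')).trace.re ≤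
      4 * ((a * a').trace.re * (b * b').trace.re) := by
  obtain ⟨D, hD, hKD⟩ := exists_sqrt hK
  rw [adj_hs hD hKD h, adj_hs hD hKD h2, adj_hs hD hKD ((h.mul h2).sub (h2.mul h))]
  have e : D * (a * b - b * a) * D⁻¹ = (D * a * D⁻¹) * (D * b * D⁻¹) -
      (D * b * D⁻¹) * (D * a * D⁻¹) := by
    rw [mul_sub, sub_mul, mul_conj hD, mul_conj hD]
  rw [e]
  refine (hs_sub_le _ _).trans ?_
  have h3 := hs_mul_le (D * a * D⁻¹) (D * b * D⁻¹)
  have h4 := hs_mul_le (D * b * D⁻¹) (D * a * D⁻¹)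
  nlinarith

/-- `log |A|²` is plurisubharmonic -/
theorem curv_na (h : VHS w U S P) (A : Matrix ι ι ℂ) (hx : x ∈ U) (v : X) :
    ‖dW (cx (na w S P A)) v x‖ ^ 2 ≤ na w S P A x * (dB (dW (cx (na w S P A)) v) v x).re := by
  have hK := h.hmPos hx
  have hts := h.adj_th_tb hx v
  have hst := hts.symm hK.1
  have hA : Adj (hm w S P x) A (sj A (hm w S P x)) := adj_sj hK
  have aX := adj_X h A hx hts
  have aY := adj_X h A hx hst
  have c1 := aX.cauchy hK hA
  have c2 := hA.cauchy hK aY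
  have hna : (A * sj A (hm w S P x)).trace.re = na w S P A x := by
    unfold na
    rw [trL_comm]
    rfl
  rw [dW_na h A hx, dB_dW_na h A hx, norm_mul, mul_pow]
  rw [hna] at c1 c2
  set a := sj A (hm w S P x)
  set t := dW (grOp w P) v x
  set s := tb (grOp w P) v x
  have e1 : trL (a * (t * A - A * t)) = ((t * A - A * t) * a).trace := by
    rw [trL_comm]; rfl
  have e2 : trL (a * (t * A - A * t)) = (A * (a * t - t * a)).trace := by
    rw [← trL_apply]
    have : trL (t * a * A) = trL (a * A * t) := by rw [mul_assoc, trL_comm]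
    rw [trL_comm A]
    simp only [mul_sub, sub_mul, map_sub, ← mul_assoc]
    rw [this]
  have d1 : ‖trL (a * (t * A - A * t))‖ ^ 2 ≤
      ((t * A - A * t) * (a * s - s * a)).trace.re * na w S P A x := by rw [e1]; exact c1
  have d2 : ‖trL (a * (t * A - A * t))‖ ^ 2 ≤
      na w S P A x * ((s * A - A * s) * (a * t - t * a)).trace.re := by rw [e2]; exact c2
  have e : ∀ a b : ℂ, (2 * (a + b)).re = 2 * (a.re + b.re) := by
    intro a b; simp
  rw [e]
  norm_num
  linarith

/-- `|∂_v |A|²|² ≤ 16 g_v |A|⁴` -/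
theorem na_bound (h : VHS w U S P) (A : Matrix ι ι ℂ) (hx : x ∈ U) (v : X) :
    ‖dW (cx (na w S P A)) v x‖ ^ 2 ≤ 16 * gden w P v x * na w S P A x ^ 2 := by
  have hK := h.hmPos hx
  have hts := h.adj_th_tb hx v
  have hA : Adj (hm w S P x) A (sj A (hm w S P x)) := adj_sj hK
  have aX := adj_X h A hx hts
  have c1 := aX.cauchy hK hA
  have c2 := comm_bound hK hts hA
  have hna : (A * sj A (hm w S P x)).trace.re = na w S P A x := by
    unfold na
    rw [trL_comm]
    rfl
  have h3 : (dW (grOp w P) v x * tb (grOp w P) v x).trace.re = gden w P v x := by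
    unfold gden
    rw [h.gg_eq hx]
    rfl
  have h0 := na_nonneg h A hx
  rw [hna] at c1 c2
  rw [h3] at c2
  rw [dW_na h A hx, norm_mul, mul_pow, trL_comm]
  norm_num
  have d1 : ‖trL ((dW (grOp w P) v x * A - A * dW (grOp w P) v x) * sj A (hm w S P x))‖ ^ 2 ≤
      ((dW (grOp w P) v x * A - A * dW (grOp w P) v x) *
        (sj A (hm w S P x) * tb (grOp w P) v x - tb (grOp w P) v x * sj A (hm w S P x))).trace.re *
        na w S P A x := c1
  nlinarith [mul_le_mul_of_nonneg_right c2 h0]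

/-- `u_A = log (1 + tr (A* A))` -/
noncomputable def ua (w : ℕ) (S : Matrix ι ι ℂ) (P : ℕ → X → Matrix ι ι ℂ) (A : Matrix ι ι ℂ)
    (x : X) : ℝ := Real.log (1 + na w S P A x)

theorem sm_ua (h : VHS w U S P) (A : Matrix ι ι ℂ) : ContDiffOn ℝ ∞ (ua w S P A) U :=
  (contDiffOn_const.add (sm_na h A)).log fun _ hy => by
    have := na_nonneg h A hy
    positivity

theorem cx_one_add {f : X → ℝ} {x : X} (hf : ∀ᶠ y in 𝓝 x, DifferentiableAt ℝ f y) (v : X) :
    dW (cx (fun y => 1 + f y)) v x = dW (cx f) v x ∧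
    dB (dW (cx (fun y => 1 + f y)) v) v x = dB (dW (cx f) v) v x := by
  have h1 : ∀ᶠ y in 𝓝 x, dW (cx (fun y => 1 + f y)) v y = dW (cx f) v y := by
    filter_upwards [hf] with y hy
    have e1 : fderiv ℝ (fun y => 1 + f y) y = fderiv ℝ f y := by
      rw [fderiv_const_add]
    rw [dW_cx (hy.const_add 1), dW_cx hy, e1]
  exact ⟨h1.self_of_nhds, dB_congr h1 v⟩

theorem d_na_ev (h : VHS w U S P) (A : Matrix ι ι ℂ) (hx : x ∈ U) :
    ∀ᶠ y in 𝓝 x, DifferentiableAt ℝ (na w S P A) y :=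
  Filter.eventually_of_mem (h.op.mem_nhds hx) fun y hy =>
    ((sm_na h A).contDiffAt (h.op.mem_nhds hy)).differentiableAt (by simp)

theorem dW_ua (h : VHS w U S P) (A : Matrix ι ι ℂ) (hx : x ∈ U) (v : X) :
    dW (cx (ua w S P A)) v x = ((1 + na w S P A x)⁻¹ : ℝ) * dW (cx (na w S P A)) v x := by
  have hd : DifferentiableAt ℝ (na w S P A) x := (d_na_ev h A hx).self_of_nhds
  have hp : 0 < 1 + na w S P A x := by
    have := na_nonneg h A hx
    positivity
  have e1 : fderiv ℝ (ua w S P A) x = (1 + na w S P A x)⁻¹ • fderiv ℝ (na w S P A) x := by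
    have := ((hd.const_add 1).hasFDerivAt.log hp.ne').fderiv
    rw [fderiv_const_add] at this
    exact this
  have hd2 : DifferentiableAt ℝ (ua w S P A) x := (hd.const_add 1).log hp.ne'
  rw [dW_cx hd2, dW_cx hd, e1]
  simp only [_root_.smul_apply, smul_eq_mul]
  push_cast
  ring

/-- `|∂_v u_A|² ≤ 16 g_v` -/
theorem ua_bound (h : VHS w U S P) (A : Matrix ι ι ℂ) (hx : x ∈ U) (v : X) :
    ‖dW (cx (ua w S P A)) v x‖ ^ 2 ≤ 16 * gden w P v x := by
  have h0 := na_nonneg h A hx
  have hp : 0 < 1 + na w S P A x := by positivity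
  have h1 := na_bound h A hx v
  have h2 := h.gden_nonneg hx v
  rw [dW_ua h A hx, norm_mul, mul_pow, Complex.norm_real, norm_inv, Real.norm_of_nonneg hp.le,
    inv_pow, inv_mul_le_iff₀ (by positivity)]
  have h3 : na w S P A x ^ 2 ≤ (1 + na w S P A x) ^ 2 := by nlinarith
  nlinarith [mul_le_mul_of_nonneg_left h3 h2]

/-- the Levi form of `u_A` along a line -/
theorem lap_ua_eq (h : VHS w U S P) (A : Matrix ι ι ℂ) {z v : X} {ζ : ℂ} (hx : z + ζ • v ∈ U) :
    (Δ (fun ξ : ℂ => ua w S P A (z + ξ • v))) ζ =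
      4 * ((1 + na w S P A (z + ζ • v)) * (dB (dW (cx (na w S P A)) v) v (z + ζ • v)).re -
        ‖dW (cx (na w S P A)) v (z + ζ • v)‖ ^ 2) / (1 + na w S P A (z + ζ • v)) ^ 2 := by
  have hC2 : ContDiffAt ℝ 2 (fun y => 1 + na w S P A y) (z + ζ • v) :=
    contDiffAt_const.add
      (((sm_na h A).contDiffAt (h.op.mem_nhds hx)).of_le ENat.LEInfty.out)
  have hp : (1 + na w S P A (z + ζ • v)) ≠ 0 := by
    have := na_nonneg h A hx
    positivity
  have e := lap_log_line hC2 hp
  have e2 := cx_one_add (d_na_ev h A hx) v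
  rw [e2.1, e2.2] at e
  exact e

theorem lap_ua (h : VHS w U S P) (A : Matrix ι ι ℂ) {z v : X} {ζ : ℂ}
    (hx : z + ζ • v ∈ U) : 0 ≤ (Δ (fun ξ : ℂ => ua w S P A (z + ξ • v))) ζ := by
  rw [lap_ua_eq h A hx]
  have h0 := na_nonneg h A hx
  have h1 := curv_na h A hx v
  have h2 : 0 ≤ (dB (dW (cx (na w S P A)) v) v (z + ζ • v)).re := by
    rw [dB_dW_na h A hx]
    have hK := h.hmPos hx
    have n1 := (adj_X h A hx (h.adj_th_tb hx v)).trace_re_nonneg hK
    have n2 := (adj_X h A hx ((h.adj_th_tb hx v).symm hK.1)).trace_re_nonneg hK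
    have e : ∀ a b : ℂ, (2 * (a + b)).re = 2 * (a.re + b.re) := by
      intro a b; simp
    rw [e]
    linarith
  refine div_nonneg ?_ (by positivity)
  linarith

/-- the Levi form of `u_A` is nonnegative -/
theorem ua_nonneg (h : VHS w U S P) (A : Matrix ι ι ℂ) (hx : x ∈ U) (v : X) :
    0 ≤ (dB (dW (cx (ua w S P A)) v) v x).re := by
  have hC2 : ContDiffAt ℝ 2 (ua w S P A) (x + (0 : ℂ) • v) := by
    rw [zero_smul, add_zero]
    exact ((sm_ua h A).contDiffAt (h.op.mem_nhds hx)).of_le ENat.LEInfty.out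
  have hx' : x + (0 : ℂ) • v ∈ U := by rwa [zero_smul, add_zero]
  have h1 := lap_ua h A hx'
  rw [lap_line hC2, zero_smul, add_zero] at h1
  linarith

/-- **(FP)** equality case at a point -/
theorem ua_eq_at (h : VHS w U S P) (A : Matrix ι ι ℂ) (hx : x ∈ U) {v : X}
    (h0 : (dB (dW (cx (ua w S P A)) v) v x).re = 0) :
    dW (grOp w P) v x * A = A * dW (grOp w P) v x ∧
    tb (grOp w P) v x * A = A * tb (grOp w P) v x := by
  have hK := h.hmPos hx
  have hC2 : ContDiffAt ℝ 2 (ua w S P A) (x + (0 : ℂ) • v) := by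
    rw [zero_smul, add_zero]
    exact ((sm_ua h A).contDiffAt (h.op.mem_nhds hx)).of_le ENat.LEInfty.out
  have hx' : x + (0 : ℂ) • v ∈ U := by rwa [zero_smul, add_zero]
  have h1 := lap_ua_eq h A hx'
  rw [lap_line hC2, zero_smul, add_zero, h0, mul_zero] at h1
  have hn := na_nonneg h A hx
  have hp : 0 < (1 + na w S P A x) ^ 2 := by positivity
  have h2 := curv_na h A hx v
  have h4 : (1 + na w S P A x) * (dB (dW (cx (na w S P A)) v) v x).re -
      ‖dW (cx (na w S P A)) v x‖ ^ 2 = 0 := by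
    rcases div_eq_zero_iff.1 h1.symm with h5 | h5
    · linarith
    · exact absurd h5 hp.ne'
  have h3 : (dB (dW (cx (na w S P A)) v) v x).re ≤ 0 := by nlinarith
  have a1 := adj_X h A hx (h.adj_th_tb hx v)
  have a2 := adj_X h A hx ((h.adj_th_tb hx v).symm hK.1)
  have n1 := a1.trace_re_nonneg hK
  have n2 := a2.trace_re_nonneg hK
  rw [dB_dW_na h A hx] at h3
  have e : ∀ a b : ℂ, (2 * (a + b)).re = 2 * (a.re + b.re) := by
    intro a b; simp
  rw [e] at h3
  exact ⟨sub_eq_zero.1 (a1.eq_zero_of_trace hK (by linarith)),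
    sub_eq_zero.1 (a2.eq_zero_of_trace hK (by linarith))⟩

/-- if the Levi form of `u_A` vanishes on `U`, then `[E, A]` is locally constant -/
theorem comm_const (h : VHS w U S P) (A : Matrix ι ι ℂ)
    (h0 : ∀ x ∈ U, ∀ v, (dB (dW (cx (ua w S P A)) v) v x).re = 0) (hx : x ∈ U) :
    ∀ᶠ y in 𝓝 x, grOp w P y * A - A * grOp w P y = grOp w P x * A - A * grOp w P x := by
  have hdA : ∀ y, DifferentiableAt ℝ (fun _ : X => A) y := fun y => differentiableAt_const _
  refine loc_const (F := fun y => grOp w P y * A - A * grOp w P y) h.op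
    (fun y hy => ((h.dE hy).fun_mul (hdA y)).fun_sub ((hdA y).fun_mul (h.dE hy))) ?_ ?_ hx
  · intro y hy v
    have h1 := (ua_eq_at h A hy (h0 y hy v)).1
    rw [dW_sub ((h.dE hy).fun_mul (hdA y)) ((hdA y).fun_mul (h.dE hy)), dW_mul (h.dE hy) (hdA y),
      dW_mul (hdA y) (h.dE hy), dW_const, h1]
    simp
  · intro y hy v
    have h1 := (ua_eq_at h A hy (h0 y hy v)).2
    rw [dB_sub ((h.dE hy).fun_mul (hdA y)) ((hdA y).fun_mul (h.dE hy)), dB_mul (h.dE hy) (hdA y),
      dB_mul (hdA y) (h.dE hy), dB_const]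
    have h2 : dB (grOp w P) v y * A = A * dB (grOp w P) v y := by
      have h3 : (- dB (grOp w P) v y) * A = A * (- dB (grOp w P) v y) := h1
      rw [neg_mul, mul_neg] at h3
      exact neg_injective h3
    rw [h2]
    simp

/-! ### statements without a norm on matrices -/

/-- **(DS0)** in terms of `th`, `thb` -/
theorem th_pj (h : VHS w U S P) (hB : Function.Injective B.mulVec) (hx : x ∈ U) {v : X}
    (h0 : (dB (dW (cx (ug w S P B)) v) v x).re = 0) :
    th w P v x * pj B (hm w S P x) = pj B (hm w S P x) * th w P v x ∧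
    thb w P v x * pj B (hm w S P x) = pj B (hm w S P x) * thb w P v x := by
  rw [h.th_eq hx, h.thb_eq hx]
  exact ug_eq_at h hB hx h0

/-- **(FP)** in terms of `th`, `thb` -/
theorem th_comm (h : VHS w U S P) (A : Matrix ι ι ℂ) (hx : x ∈ U) {v : X}
    (h0 : (dB (dW (cx (ua w S P A)) v) v x).re = 0) :
    th w P v x * A = A * th w P v x ∧ thb w P v x * A = A * thb w P v x := by
  rw [h.th_eq hx, h.thb_eq hx]
  exact ua_eq_at h A hx h0

end vhs

end nm

/-! ### change of frames -/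

section frame

variable {B : Matrix ι κ ℂ} {K : Matrix ι ι ℂ}

theorem gm_mul (B : Matrix ι κ ℂ) (K : Matrix ι ι ℂ) (c : Matrix κ κ ℂ) :
    gm (B * c) K = cᴴ * gm B K * c := by
  unfold gm
  rw [Matrix.conjTranspose_mul]
  simp only [Matrix.mul_assoc]

theorem det_gm_mul (B : Matrix ι κ ℂ) (K : Matrix ι ι ℂ) (c : Matrix κ κ ℂ) :
    (gm (B * c) K).det = star c.det * c.det * (gm B K).det := by
  rw [gm_mul, Matrix.det_mul, Matrix.det_mul, Matrix.det_conjTranspose]
  ring

/-- the Gram matrix in another frame (`gᴴ K' g = K`) -/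
theorem gm_frame {g K' : Matrix ι ι ℂ} (hg : gᴴ * K' * g = K) (B : Matrix ι κ ℂ) :
    gm (g * B) K' = gm B K := by
  unfold gm
  rw [← hg, Matrix.conjTranspose_mul]
  simp only [Matrix.mul_assoc]

/-- the projector in another frame -/
theorem pj_frame {g K' : Matrix ι ι ℂ} (hg : gᴴ * K' * g = K) (B : Matrix ι κ ℂ) :
    pj (g * B) K' * g = g * pj B K := by
  have h1 : pj (g * B) K' * g = g * (B * (gm B K)⁻¹ * Bᴴ * (gᴴ * K' * g)) := by
    unfold pj
    rw [gm_frame hg, Matrix.conjTranspose_mul]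
    simp only [Matrix.mul_assoc]
  rw [h1, hg]
  rfl

/-- the projector depends on the range of `B` only -/
theorem pj_mul (B : Matrix ι κ ℂ) (K : Matrix ι ι ℂ) {c : Matrix κ κ ℂ}
    (hc : IsUnit c) : pj (B * c) K = pj B K := by
  have hd := (Matrix.isUnit_iff_isUnit_det _).1 hc
  have hdH : IsUnit (cᴴ).det := by rw [Matrix.det_conjTranspose]; exact hd.star
  unfold pj
  rw [gm_mul, Matrix.mul_inv_rev, Matrix.mul_inv_rev, Matrix.conjTranspose_mul]
  calc B * c * (c⁻¹ * ((gm B K)⁻¹ * (cᴴ)⁻¹)) * (cᴴ * Bᴴ) * K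
      = B * (c * c⁻¹) * (gm B K)⁻¹ * ((cᴴ)⁻¹ * cᴴ) * Bᴴ * K := by simp only [Matrix.mul_assoc]
    _ = B * (gm B K)⁻¹ * Bᴴ * K := by
        rw [Matrix.mul_nonsing_inv _ hd, Matrix.nonsing_inv_mul _ hdH, Matrix.mul_one,
          Matrix.mul_one]

/-- the adjoint in another frame -/
theorem sj_frame {g K' A A' : Matrix ι ι ℂ} (hu : IsUnit g)
    (hg : gᴴ * K' * g = K) (hA : A' * g = g * A) : g * sj A K = sj A' K' * g := by
  have hd := (Matrix.isUnit_iff_isUnit_det _).1 hu
  have hdH : IsUnit (gᴴ).det := by rw [Matrix.det_conjTranspose]; exact hd.star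
  have hK' : K' = (gᴴ)⁻¹ * K * g⁻¹ := by
    rw [← hg]
    calc K' = ((gᴴ)⁻¹ * gᴴ) * K' * (g * g⁻¹) := by
          rw [Matrix.nonsing_inv_mul _ hdH, Matrix.mul_nonsing_inv _ hd, one_mul, mul_one]
      _ = _ := by simp only [mul_assoc]
  have hA' : A'ᴴ = (gᴴ)⁻¹ * Aᴴ * gᴴ := by
    have h1 := congrArg Matrix.conjTranspose hA
    rw [Matrix.conjTranspose_mul, Matrix.conjTranspose_mul] at h1
    calc A'ᴴ = ((gᴴ)⁻¹ * gᴴ) * A'ᴴ := by rw [Matrix.nonsing_inv_mul _ hdH, one_mul]
      _ = (gᴴ)⁻¹ * (gᴴ * A'ᴴ) := by rw [mul_assoc]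
      _ = _ := by rw [h1, mul_assoc]
  have hKi : K'⁻¹ = g * K⁻¹ * gᴴ := by
    rw [hK', Matrix.mul_inv_rev, Matrix.mul_inv_rev, Matrix.nonsing_inv_nonsing_inv _ hd,
      Matrix.nonsing_inv_nonsing_inv _ hdH, mul_assoc]
  unfold sj
  rw [← Matrix.nonsing_inv_eq_ringInverse, ← Matrix.nonsing_inv_eq_ringInverse, hKi, hA', hK']
  calc g * (K⁻¹ * Aᴴ * K) = g * K⁻¹ * 1 * Aᴴ * 1 * K * 1 := by simp only [mul_assoc, mul_one]
    _ = g * K⁻¹ * (gᴴ * (gᴴ)⁻¹) * Aᴴ * (gᴴ * (gᴴ)⁻¹) * K * (g⁻¹ * g) := by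
        rw [Matrix.mul_nonsing_inv _ hdH, Matrix.nonsing_inv_mul _ hd]
    _ = _ := by simp only [mul_assoc]

/-- `tr (A* A)` in another frame -/
theorem trace_frame {g K' A A' : Matrix ι ι ℂ} (hu : IsUnit g)
    (hg : gᴴ * K' * g = K) (hA : A' * g = g * A) :
    (sj A' K' * A').trace = (sj A K * A).trace := by
  have hd := (Matrix.isUnit_iff_isUnit_det _).1 hu
  have h1 := sj_frame hu hg hA
  calc (sj A' K' * A').trace = (sj A' K' * A' * (g * g⁻¹)).trace := by
        rw [Matrix.mul_nonsing_inv _ hd, mul_one]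
    _ = ((sj A' K' * (A' * g)) * g⁻¹).trace := by simp only [mul_assoc]
    _ = ((sj A' K' * g) * A * g⁻¹).trace := by rw [hA]; simp only [mul_assoc]
    _ = (g⁻¹ * (g * sj A K * A)).trace := by rw [← h1, Matrix.trace_mul_comm]
    _ = (sj A K * A).trace := by
        rw [mul_assoc, ← mul_assoc, Matrix.nonsing_inv_mul _ hd, one_mul]

end frame

theorem na_def {w : ℕ} {S : Matrix ι ι ℂ} {P : ℕ → X → Matrix ι ι ℂ} (A : Matrix ι ι ℂ) (x : X) :
    na w S P A x = (sj A (hm w S P x) * A).trace.re := rfl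

end Crest.Agent.R276.SSVar_720
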