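import Mathlib
import Crest.Agent.R276.Liou_739
import Crest.Agent.R276.EndTh_659

/-!
# R276, GVHS (helper574): sheets of a model over a line, sums over the fibres

`M → {h ≠ 0}` is a finite covering (`Prp h M`, `M` Hausdorff).

* `fib_finite`, `sheets`, `sum_fb` : the fibres are finite, near every `ζ` with `h ζ ≠ 0` the fibre is
  `{(ch y).symm ξ | y over ζ}` and the sum over the fibre of a function is
  `∑ y, f ((ch y).symm ξ)`.
* `neg_sum` : `Δ log g ≥ c g` for the summands gives `Δ log G ≥ (c / k) G` for the sum.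
* `liouG` : `u` of class `C²`, `lev u ≥ 0`, `|d_v u|² ≤ C g_v`, `Δ log g_v ≥ c g_v` along lines
  (`c > 0`) ==> `lev u = 0`, given the statement `PlaneSt` about the plane minus finitely many points.
-/

set_option autoImplicit false

open Set Filter Topology Metric InnerProductSpace Laplacian

namespace Crest.Agent.R276.Sheets_574

open Crest.Agent.R271.Ho51 Crest.Agent.R276.Liou_739 Crest.Agent.R276.Ahl_25
  Crest.Agent.R276.MaxP_25

/-! ### sums of densities -/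

/-- square of the gradient -/
noncomputable def gr2 (u : ℂ → ℝ) (z : ℂ) : ℝ := (fderiv ℝ u z 1) ^ 2 + (fderiv ℝ u z Complex.I) ^ 2

theorem lap_log' {u : ℂ → ℝ} {z : ℂ} (hu : ContDiffAt ℝ 2 u z) (h0 : 0 < u z) :
    (Δ (fun w => Real.log (u w))) z = ((Δ u) z * u z - gr2 u z) / (u z) ^ 2 := by
  rw [EndTh_659.lap_log hu h0, EndTh_659.norm_dW_sq (hu.differentiableAt (by norm_num))]
  rfl

theorem norm_sq_le (A : ℂ →L[ℝ] ℝ) : ‖A‖ ^ 2 ≤ (A 1) ^ 2 + (A Complex.I) ^ 2 := by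
  set B := (A 1) ^ 2 + (A Complex.I) ^ 2 with hB
  have hB0 : 0 ≤ B := by positivity
  have h1 : ‖A‖ ≤ Real.sqrt B := by
    refine A.opNorm_le_bound (Real.sqrt_nonneg _) fun w => ?_
    have e1 : w = w.re • (1 : ℂ) + w.im • Complex.I := by
      apply Complex.ext <;> simp
    have e2 : A w = w.re * A 1 + w.im * A Complex.I := by
      conv_lhs => rw [e1]
      rw [map_add, map_smul, map_smul, smul_eq_mul, smul_eq_mul]
    have e3 : ‖w‖ ^ 2 = w.re ^ 2 + w.im ^ 2 := by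
      rw [← Complex.normSq_eq_norm_sq, Complex.normSq_apply]; ring
    rw [e2, Real.norm_eq_abs]
    apply abs_le_of_sq_le_sq _ (by positivity)
    rw [mul_pow, Real.sq_sqrt hB0, e3, hB]
    nlinarith [sq_nonneg (w.re * A Complex.I - w.im * A 1)]
  calc ‖A‖ ^ 2 ≤ (Real.sqrt B) ^ 2 := by gcongr
    _ = B := Real.sq_sqrt hB0

section sum

variable {ι : Type*} {s : Finset ι}

theorem fderiv_sum' {g : ι → ℂ → ℝ} {z : ℂ} (h2 : ∀ i ∈ s, ContDiffAt ℝ 2 (g i) z) (v : ℂ) :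
    fderiv ℝ (fun w => ∑ i ∈ s, g i w) z v = ∑ i ∈ s, fderiv ℝ (g i) z v := by
  rw [fderiv_fun_sum (fun i hi => (h2 i hi).differentiableAt (by norm_num)), _root_.sum_apply]

theorem lap_sum {g : ι → ℂ → ℝ} {z : ℂ} (h2 : ∀ i ∈ s, ContDiffAt ℝ 2 (g i) z) :
    (Δ (fun w => ∑ i ∈ s, g i w)) z = ∑ i ∈ s, (Δ (g i)) z := by
  classical
  induction s using Finset.induction_on with
  | empty =>
    simp only [Finset.sum_empty]
    rw [lap_eq]
    simp
  | insert a s ha ih =>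
    have h3 : ∀ i ∈ s, ContDiffAt ℝ 2 (g i) z := fun i hi => h2 i (Finset.mem_insert_of_mem hi)
    have h4 : (fun w => ∑ i ∈ insert a s, g i w) = g a + fun w => ∑ i ∈ s, g i w := by
      funext w
      rw [Finset.sum_insert ha]; rfl
    rw [h4, Finset.sum_insert ha, ← ih h3]
    exact (h2 a (Finset.mem_insert_self _ _)).laplacian_add (ContDiffAt.sum fun i hi => h3 i hi)

/-- the gradient of a sum -/
theorem gr2_sum_le {g : ι → ℂ → ℝ} {z : ℂ} (h2 : ∀ i ∈ s, ContDiffAt ℝ 2 (g i) z) :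
    gr2 (fun w => ∑ i ∈ s, g i w) z ≤ s.card * ∑ i ∈ s, gr2 (g i) z := by
  unfold gr2
  rw [fderiv_sum' h2, fderiv_sum' h2, Finset.sum_add_distrib, mul_add]
  exact add_le_add sq_sum_le_card_mul_sum_sq sq_sum_le_card_mul_sum_sq

/-- the curvature of a sum of densities -/
theorem neg_sum {g : ι → ℂ → ℝ} {z : ℂ} {c : ℝ} (hc : 0 < c)
    (h2 : ∀ i ∈ s, ContDiffAt ℝ 2 (g i) z) (h0 : ∀ i ∈ s, ∀ᶠ w in 𝓝 z, 0 ≤ g i w)
    (hn : ∀ i ∈ s, g i z ≠ 0 → c * g i z ≤ (Δ (fun w => Real.log (g i w))) z)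
    (hne : (∑ i ∈ s, g i z) ≠ 0) :
    c / s.card * ∑ i ∈ s, g i z ≤ (Δ (fun w => Real.log (∑ i ∈ s, g i w))) z := by
  have h00 : ∀ i ∈ s, 0 ≤ g i z := fun i hi => (h0 i hi).self_of_nhds
  have hA : 0 < ∑ i ∈ s, g i z := lt_of_le_of_ne (Finset.sum_nonneg h00) (Ne.symm hne)
  have hs : 0 < s.card := by
    rcases Finset.eq_empty_or_nonempty s with rfl | h
    · simp at hne
    · exact h.card_pos
  have hs' : (0 : ℝ) < s.card := by exact_mod_cast hs
  -- at the zeros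
  have hz : ∀ i ∈ s, g i z = 0 → fderiv ℝ (g i) z = 0 ∧ 0 ≤ (Δ (g i)) z := by
    intro i hi h
    have hm : IsLocalMin (g i) z := by
      filter_upwards [h0 i hi] with w hw
      rw [h]; exact hw
    refine ⟨hm.fderiv_eq_zero, ?_⟩
    have h3 : (Δ (fun w => - g i w)) z ≤ 0 := lap_nonpos_of_isLocalMax (h2 i hi).neg hm.neg
    have h4 : (Δ (fun w => - g i w)) z = - (Δ (g i)) z := by
      have h5 := laplacian_smul (-1 : ℝ) (h2 i hi)
      have h6 : (fun w => - g i w) = (-1 : ℝ) • g i := by funext w; simp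
      rw [h6, h5]; simp
    rw [h4] at h3
    linarith
  -- one term
  have h1 : ∀ i ∈ s, c * (g i z) ^ 2 + ((fderiv ℝ (g i) z 1) ^ 2 / g i z +
      (fderiv ℝ (g i) z Complex.I) ^ 2 / g i z) ≤ (Δ (g i)) z := by
    intro i hi
    rcases eq_or_ne (g i z) 0 with h | h
    · obtain ⟨e1, e2⟩ := hz i hi h
      rw [e1, h]; simpa using e2
    · have hp : 0 < g i z := lt_of_le_of_ne (h00 i hi) (Ne.symm h)
      have h3 := hn i hi h
      rw [lap_log' (h2 i hi) hp, le_div_iff₀ (by positivity)] at h3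
      have h4 : c * (g i z) ^ 2 + ((fderiv ℝ (g i) z 1) ^ 2 / g i z +
          (fderiv ℝ (g i) z Complex.I) ^ 2 / g i z) =
          (c * g i z * (g i z) ^ 2 + gr2 (g i) z) / g i z := by
        unfold gr2
        field_simp
      rw [h4, div_le_iff₀ hp]
      linarith
  have hsum := Finset.sum_le_sum h1
  rw [Finset.sum_add_distrib, Finset.sum_add_distrib, ← Finset.mul_sum] at hsum
  -- Cauchy-Schwarz
  have hCS : ∀ v : ℂ, (∑ i ∈ s, fderiv ℝ (g i) z v) ^ 2 ≤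
      (∑ i ∈ s, g i z) * ∑ i ∈ s, (fderiv ℝ (g i) z v) ^ 2 / g i z := by
    intro v
    refine Finset.sum_sq_le_sum_mul_sum_of_sq_le_mul s h00
      (fun i hi => div_nonneg (sq_nonneg _) (h00 i hi)) fun i hi => le_of_eq ?_
    rcases eq_or_ne (g i z) 0 with h | h
    · rw [(hz i hi h).1]; simp [h]
    · field_simp
  have hsq : (∑ i ∈ s, g i z) ^ 2 ≤ s.card * ∑ i ∈ s, (g i z) ^ 2 := sq_sum_le_card_mul_sum_sq
  have h2' : ContDiffAt ℝ 2 (fun w => ∑ i ∈ s, g i w) z := ContDiffAt.sum h2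
  rw [lap_log' h2' hA, lap_sum h2, le_div_iff₀ (by positivity)]
  unfold gr2
  rw [fderiv_sum' h2, fderiv_sum' h2]
  have h5 := hCS 1
  have h6 := hCS Complex.I
  set A := ∑ i ∈ s, g i z with hAdef
  set P := ∑ i ∈ s, fderiv ℝ (g i) z 1
  set Q := ∑ i ∈ s, fderiv ℝ (g i) z Complex.I
  set p := ∑ i ∈ s, (fderiv ℝ (g i) z 1) ^ 2 / g i z
  set q := ∑ i ∈ s, (fderiv ℝ (g i) z Complex.I) ^ 2 / g i z
  set S2 := ∑ i ∈ s, (g i z) ^ 2
  set L := ∑ i ∈ s, (Δ (g i)) z
  have h7 : A * (c * S2 + (p + q)) ≤ A * L := mul_le_mul_of_nonneg_left hsum hA.le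
  have h8 : c / s.card * A * A ^ 2 ≤ A * (c * S2) := by
    rw [div_mul_eq_mul_div, div_mul_eq_mul_div, div_le_iff₀ hs']
    have := mul_le_mul_of_nonneg_left hsq (mul_nonneg hc.le hA.le)
    linarith
  nlinarith

end sum

/-- the statement about the plane minus finitely many points (proved by 317) -/
def PlaneSt : Prop := ∀ (F : Finset ℂ) (U G : ℂ → ℝ) (c C : ℝ), 0 < c →
  (∀ z ∉ F, ContDiffAt ℝ 2 U z ∧ 0 ≤ (Δ U) z) → (∀ z ∉ F, ContDiffAt ℝ 2 G z ∧ 0 ≤ G z) →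
  Neg c G ((F : Set ℂ)ᶜ) → (∀ z ∉ F, ‖fderiv ℝ U z‖ ^ 2 ≤ C * G z) → ∀ z ∉ F, (Δ U) z = 0

/-! ### sheets -/

section sheets

variable {n : ℕ} {M : Type*} [TopologicalSpace M] [RDom n M] {h : MvPolynomial (Fin n) ℂ}

theorem fib_finite (P : Prp h M) (ζ : Fin n → ℂ) : {y : M | cp y = ζ}.Finite := by
  by_cases hζ : MvPolynomial.eval ζ h = 0
  · have : {y : M | cp y = ζ} = ∅ := by
      rw [Set.eq_empty_iff_forall_notMem]
      intro y hy
      apply P.ne y
      rw [show cp y = ζ from hy, hζ]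
    rw [this]; exact Set.finite_empty
  · have hK := P.cpt ‖ζ‖ ‖MvPolynomial.eval ζ h‖ (norm_pos_iff.2 hζ)
    have hcl : IsClosed {y : M | cp y = ζ} := isClosed_eq cp_cont continuous_const
    have hc : IsCompact {y : M | cp y = ζ} := by
      refine hK.of_isClosed_subset hcl fun y hy => ?_
      have hy' : cp y = ζ := hy
      simp [hy']
    refine hc.finite ?_
    rw [isDiscrete_iff_nhdsWithin]
    intro y hy
    have hy' : cp y = ζ := hy
    rw [nhdsWithin, ← principal_singleton]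
    refine le_antisymm ?_ ?_
    · rw [le_principal_iff, mem_inf_principal]
      filter_upwards [(ch y).open_source.mem_nhds (mem_ch y)] with x hx hx'
      exact (isCh_ch y).injOn hx (mem_ch y) ((show cp x = ζ from hx').trans hy'.symm)
    · refine le_inf ?_ ?_
      · rw [principal_singleton]; exact pure_le_nhds y
      · rw [principal_mono, singleton_subset_iff]; exact hy

/-- the fibre -/
noncomputable def fb (P : Prp h M) (ζ : Fin n → ℂ) : Finset M := (fib_finite P ζ).toFinset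

theorem mem_fb (P : Prp h M) {ζ : Fin n → ℂ} {y : M} : y ∈ fb P ζ ↔ cp y = ζ := by
  simp [fb]

theorem tendsto_symm (y : M) : Tendsto (ch y).symm (𝓝 (cp y)) (𝓝 y) := by
  have := (ch y).symm.continuousAt (x := cp y) (by simpa using (isCh_ch y).cp_mem (mem_ch y))
  rwa [ContinuousAt, (isCh_ch y).symm_cp (mem_ch y)] at this

/-- **local structure of the fibres** -/
theorem sheets [T2Space M] (P : Prp h M) {ζ : Fin n → ℂ} (hζ : MvPolynomial.eval ζ h ≠ 0) :
    ∀ᶠ ξ in 𝓝 ζ, (∀ y ∈ fb P ζ, ξ ∈ (ch y).target) ∧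
      Set.InjOn (fun y : M => (ch y).symm ξ) (fb P ζ : Set M) ∧
      ∀ x, cp x = ξ → ∃ y ∈ fb P ζ, (ch y).symm ξ = x := by
  classical
  have h1 : ∀ᶠ ξ in 𝓝 ζ, ∀ y ∈ fb P ζ, ξ ∈ (ch y).target := by
    rw [Filter.eventually_all_finset]
    intro y hy
    rw [mem_fb] at hy
    rw [← hy]
    exact (ch y).open_target.mem_nhds ((isCh_ch y).cp_mem (mem_ch y))
  have h2 : ∀ᶠ ξ in 𝓝 ζ, Set.InjOn (fun y : M => (ch y).symm ξ) (fb P ζ : Set M) := by
    have h3 : ∀ y ∈ fb P ζ, ∀ y' ∈ fb P ζ, ∀ᶠ ξ in 𝓝 ζ,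
        (ch y).symm ξ = (ch y').symm ξ → y = y' := by
      intro y hy y' hy'
      rw [mem_fb] at hy hy'
      by_cases hne : y = y'
      · exact Eventually.of_forall fun _ _ => hne
      obtain ⟨U, U', hU, hU', hyU, hyU', hd⟩ := t2_separation hne
      have e1 : ∀ᶠ ξ in 𝓝 ζ, (ch y).symm ξ ∈ U := by
        have := tendsto_symm y
        rw [hy] at this
        exact this.eventually (hU.mem_nhds hyU)
      have e2 : ∀ᶠ ξ in 𝓝 ζ, (ch y').symm ξ ∈ U' := by
        have := tendsto_symm y'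
        rw [hy'] at this
        exact this.eventually (hU'.mem_nhds hyU')
      filter_upwards [e1, e2] with ξ hξ1 hξ2 he
      exfalso
      rw [he] at hξ1
      exact Set.disjoint_left.1 hd hξ1 hξ2
    have h4 : ∀ᶠ ξ in 𝓝 ζ, ∀ y ∈ fb P ζ, ∀ y' ∈ fb P ζ,
        (ch y).symm ξ = (ch y').symm ξ → y = y' := by
      rw [Filter.eventually_all_finset]
      intro y hy
      rw [Filter.eventually_all_finset]
      intro y' hy'
      exact h3 y hy y' hy'
    filter_upwards [h4] with ξ hξ y hy y' hy' he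
    exact hξ y hy y' hy' he
  -- surjectivity
  have hδ : 0 < ‖MvPolynomial.eval ζ h‖ := norm_pos_iff.2 hζ
  set K : Set M := {x : M | ‖cp x‖ ≤ ‖ζ‖ + 1 ∧
    ‖MvPolynomial.eval ζ h‖ / 2 ≤ ‖MvPolynomial.eval (cp x) h‖} with hK
  have hKc : IsCompact K := P.cpt _ _ (by positivity)
  set O : Set M := ⋃ y ∈ fb P ζ, (ch y).source with hO
  have hOo : IsOpen O := isOpen_biUnion fun y _ => (ch y).open_source
  have hK' : IsCompact (K \ O) := hKc.diff hOo
  have hc : IsClosed (cp '' (K \ O)) := (hK'.image cp_cont).isClosed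
  have hζ' : ζ ∉ cp '' (K \ O) := by
    rintro ⟨x, ⟨_, hx⟩, hx'⟩
    apply hx
    rw [hO, mem_iUnion₂]
    exact ⟨x, (mem_fb P).2 hx', mem_ch x⟩
  have h5 : ∀ᶠ ξ in 𝓝 ζ, ξ ∉ cp '' (K \ O) := hc.isOpen_compl.mem_nhds hζ'
  have h6 : ∀ᶠ ξ in 𝓝 ζ, ‖ξ‖ < ‖ζ‖ + 1 :=
    continuous_norm.continuousAt.eventually (gt_mem_nhds (by linarith))
  have h7 : ∀ᶠ ξ in 𝓝 ζ, ‖MvPolynomial.eval ζ h‖ / 2 < ‖MvPolynomial.eval ξ h‖ := by
    have : Continuous fun ξ : Fin n → ℂ => ‖MvPolynomial.eval ξ h‖ :=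
      (MvPolynomial.continuous_eval h).norm
    exact this.continuousAt.eventually (lt_mem_nhds (by linarith))
  filter_upwards [h1, h2, h5, h6, h7] with ξ hξ1 hξ2 hξ5 hξ6 hξ7
  refine ⟨hξ1, hξ2, fun x hx => ?_⟩
  have hxK : x ∈ K := by
    refine ⟨?_, ?_⟩
    · rw [hx]; exact hξ6.le
    · rw [hx]; exact hξ7.le
  have hxO : x ∈ O := by
    by_contra hcon
    exact hξ5 ⟨x, ⟨hxK, hcon⟩, hx⟩
  rw [hO, mem_iUnion₂] at hxO
  obtain ⟨y, hy, hxy⟩ := hxO
  refine ⟨y, hy, ?_⟩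
  rw [← hx]
  exact (isCh_ch y).symm_cp hxy

/-- the fibre near `ζ` -/
theorem fb_eq [T2Space M] [DecidableEq M] (P : Prp h M) {ζ : Fin n → ℂ}
    (hζ : MvPolynomial.eval ζ h ≠ 0) :
    ∀ᶠ ξ in 𝓝 ζ, fb P ξ = (fb P ζ).image (fun y => (ch y).symm ξ) := by
  filter_upwards [sheets P hζ] with ξ hξ
  obtain ⟨h1, _, h3⟩ := hξ
  ext x
  rw [mem_fb, Finset.mem_image]
  constructor
  · intro hx
    exact h3 x hx
  · rintro ⟨y, hy, rfl⟩
    exact (isCh_ch y).cp_symm (h1 y hy)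

/-- sums over the fibre -/
theorem sum_fb [T2Space M] (P : Prp h M) {ζ : Fin n → ℂ} (hζ : MvPolynomial.eval ζ h ≠ 0)
    (f : M → ℝ) :
    ∀ᶠ ξ in 𝓝 ζ, ∑ x ∈ fb P ξ, f x = ∑ y ∈ fb P ζ, (f ∘ (ch y).symm) ξ := by
  classical
  filter_upwards [sheets P hζ, fb_eq P hζ] with ξ h1 h2
  rw [h2, Finset.sum_image]
  · rfl
  · exact h1.2.1

theorem card_fb [T2Space M] (P : Prp h M) {ζ : Fin n → ℂ} (hζ : MvPolynomial.eval ζ h ≠ 0) :
    ∀ᶠ ξ in 𝓝 ζ, (fb P ξ).card = (fb P ζ).card := by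
  classical
  filter_upwards [sheets P hζ, fb_eq P hζ] with ξ h1 h2
  rw [h2, Finset.card_image_of_injOn h1.2.1]

/-! ### Liouville along lines -/

theorem tendsto_cline (z0 v : Fin n → ℂ) (t : ℂ) :
    Tendsto (fun s : ℂ => z0 + s • v) (𝓝 t) (𝓝 (z0 + t • v)) := by
  have : Continuous (fun s : ℂ => z0 + s • v) := by fun_prop
  exact this.tendsto t

theorem gr2_cline {u : (Fin n → ℂ) → ℝ} {z0 v : Fin n → ℂ} {t : ℂ}
    (hu : ContDiffAt ℝ 2 u (z0 + t • v)) :
    gr2 (fun s : ℂ => u (z0 + s • v)) t =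
      (fderiv ℝ u (z0 + t • v) v) ^ 2 + (fderiv ℝ u (z0 + t • v) (Complex.I • v)) ^ 2 := by
  have h1 := ((hu.differentiableAt (by norm_num)).hasFDerivAt.comp t
    (hasFDerivAt_cline z0 v t)).fderiv
  have h2 : fderiv ℝ (fun s : ℂ => u (z0 + s • v)) t = (fderiv ℝ u (z0 + t • v)).comp
    ((ContinuousLinearMap.id ℝ ℂ).smulRight v) := h1
  unfold gr2
  rw [h2]
  simp

/-- the number of sheets is constant along a line -/
theorem card_line [T2Space M] (P : Prp h M) {z0 v : Fin n → ℂ} {F : Finset ℂ}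
    (hF : ∀ t ∉ F, MvPolynomial.eval (z0 + t • v) h ≠ 0) {t t' : ℂ} (ht : t ∉ F) (ht' : t' ∉ F) :
    (fb P (z0 + t • v)).card = (fb P (z0 + t' • v)).card := by
  have hpre : IsPreconnected ((F : Set ℂ)ᶜ) :=
    (F.countable_toSet.isConnected_compl_of_one_lt_rank (by simp)).2
  refine hpre.constant (f := fun t : ℂ => (fb P (z0 + t • v)).card) ?_
    (by simpa using ht) (by simpa using ht')
  intro s hs
  have hs' : s ∉ F := by simpa using hs
  refine ContinuousAt.continuousWithinAt ?_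
  have h1 := (tendsto_cline z0 v s).eventually (card_fb P (hF s hs'))
  exact continuousAt_const.congr (h1.mono fun _ h => h.symm)

/-- **Liouville along lines.** -/
theorem liouG [T2Space M] (hpl : PlaneSt) (P : Prp h M) {u : M → ℝ} {g : (Fin n → ℂ) → M → ℝ}
    {c C : ℝ} (hc : 0 < c)
    (hu : ∀ x, ContDiffAt ℝ 2 (u ∘ (ch x).symm) (cp x))
    (hl : ∀ x v, 0 ≤ lev (u ∘ (ch x).symm) (cp x) v)
    (hg : ∀ x v, ContDiffAt ℝ 2 (g v ∘ (ch x).symm) (cp x))
    (hg0 : ∀ x v, 0 ≤ g v x)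
    (hn : ∀ x v, g v x ≠ 0 →
      c * g v x ≤ lev (fun ξ => Real.log ((g v ∘ (ch x).symm) ξ)) (cp x) v)
    (hd : ∀ x v, (fderiv ℝ (u ∘ (ch x).symm) (cp x) v) ^ 2 +
      (fderiv ℝ (u ∘ (ch x).symm) (cp x) (Complex.I • v)) ^ 2 ≤ C * g v x) (x : M)
    (v : Fin n → ℂ) : lev (u ∘ (ch x).symm) (cp x) v = 0 := by
  classical
  set z0 := cp x with hz0
  have hq0 : (lpoly h z0 v).eval 0 ≠ 0 := by
    rw [lpoly_eval, zero_smul, add_zero]; exact P.ne x
  have hq : lpoly h z0 v ≠ 0 := by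
    intro h0; rw [h0] at hq0; simp at hq0
  set F : Finset ℂ := (lpoly h z0 v).roots.toFinset with hFdef
  have hF : ∀ t ∉ F, MvPolynomial.eval (z0 + t • v) h ≠ 0 := by
    intro t ht h0
    apply ht
    rw [hFdef, Multiset.mem_toFinset, Polynomial.mem_roots hq, Polynomial.IsRoot, lpoly_eval, h0]
  have h0F : (0 : ℂ) ∉ F := by
    intro h0
    rw [hFdef, Multiset.mem_toFinset, Polynomial.mem_roots hq] at h0
    exact hq0 h0
  set k := (fb P z0).card with hk
  have hcard : ∀ t ∉ F, (fb P (z0 + t • v)).card = k := by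
    intro t ht
    have := card_line P hF ht h0F
    rw [zero_smul, add_zero] at this
    exact this
  have hkpos : 0 < k := Finset.card_pos.2 ⟨x, (mem_fb P).2 rfl⟩
  have hkpos' : (0 : ℝ) < k := by exact_mod_cast hkpos
  -- local formulas
  have hloc : ∀ (f : M → ℝ) (t : ℂ), t ∉ F → (fun s : ℂ => ∑ y ∈ fb P (z0 + s • v), f y) =ᶠ[𝓝 t]
      fun s => ∑ y ∈ fb P (z0 + t • v), (f ∘ (ch y).symm) (z0 + s • v) := fun f t ht =>
    (tendsto_cline z0 v t).eventually (sum_fb P (hF t ht) f)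
  have hC2 : ∀ (f : M → ℝ), (∀ y, ContDiffAt ℝ 2 (f ∘ (ch y).symm) (cp y)) → ∀ t : ℂ,
      ∀ y ∈ fb P (z0 + t • v), ContDiffAt ℝ 2 (fun s : ℂ => (f ∘ (ch y).symm) (z0 + s • v)) t := by
    intro f hf t y hy
    have h1 := hf y
    rw [(mem_fb P).1 hy] at h1
    exact ContDiffAt.comp (g := f ∘ (ch y).symm) (f := fun s : ℂ => z0 + s • v) t h1
      (contDiff_cline z0 v).contDiffAt
  set U : ℂ → ℝ := fun t => ∑ y ∈ fb P (z0 + t • v), u y with hU
  set G : ℂ → ℝ := fun t => ∑ y ∈ fb P (z0 + t • v), g v y with hG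
  have hUlap : ∀ t ∉ F, ContDiffAt ℝ 2 U t ∧
      (Δ U) t = ∑ y ∈ fb P (z0 + t • v), lev (u ∘ (ch y).symm) (cp y) v := by
    intro t ht
    have h1 := hloc u t ht
    refine ⟨(ContDiffAt.sum fun y hy => hC2 u hu t y hy).congr_of_eventuallyEq h1, ?_⟩
    rw [(laplacian_congr_nhds h1).self_of_nhds, lap_sum (hC2 u hu t)]
    refine Finset.sum_congr rfl fun y hy => ?_
    have h2 := hu y
    rw [(mem_fb P).1 hy] at h2
    rw [lap_cline h2, (mem_fb P).1 hy]
  have hres := hpl F U G (c / k) (k * C) (by positivity) ?_ ?_ ?_ ?_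
  · have h1 := hres 0 h0F
    rw [(hUlap 0 h0F).2] at h1
    have h2 := (Finset.sum_eq_zero_iff_of_nonneg fun y _ => hl y v).1 h1 x
      ((mem_fb P).2 (by simp [hz0]))
    exact h2
  · intro t ht
    refine ⟨(hUlap t ht).1, ?_⟩
    rw [(hUlap t ht).2]
    exact Finset.sum_nonneg fun y _ => hl y v
  · intro t ht
    refine ⟨(ContDiffAt.sum fun y hy => hC2 (g v) (fun y => hg y v) t y hy).congr_of_eventuallyEq
      (hloc (g v) t ht), ?_⟩
    exact Finset.sum_nonneg fun y _ => hg0 y v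
  · intro t ht hne
    have ht' : t ∉ F := by simpa using ht
    have h1 := hloc (g v) t ht'
    have e1 : G t = ∑ y ∈ fb P (z0 + t • v), (g v ∘ (ch y).symm) (z0 + t • v) := h1.self_of_nhds
    have e2 : (Δ (fun w => Real.log (G w))) t = (Δ (fun w : ℂ => Real.log
        (∑ y ∈ fb P (z0 + t • v), (g v ∘ (ch y).symm) (z0 + w • v)))) t := by
      refine (laplacian_congr_nhds ?_).self_of_nhds
      filter_upwards [h1] with w hw
      rw [show G w = _ from hw]
    rw [e2, e1]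
    rw [e1] at hne
    have h2 := neg_sum (s := fb P (z0 + t • v))
      (g := fun y w => (g v ∘ (ch y).symm) (z0 + w • v)) (z := t) hc
      (hC2 (g v) (fun y => hg y v) t) (fun y _ => Eventually.of_forall fun w => hg0 _ v) ?_ hne
    · rw [hcard t ht'] at h2
      exact h2
    · intro y hy hy0
      have hcy := (mem_fb P).1 hy
      have h3 : (g v ∘ (ch y).symm) (z0 + t • v) = g v y := by
        rw [← hcy, Function.comp_apply, symm_cp]
      have h4 := hg y v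
      rw [hcy] at h4
      have h5 := hn y v (by rw [← h3]; exact hy0)
      rw [hcy] at h5
      rw [lap_cline (u := fun ξ => Real.log ((g v ∘ (ch y).symm) ξ)) (h4.log hy0)]
      calc c * (g v ∘ (ch y).symm) (z0 + t • v) = c * g v y := by rw [h3]
        _ ≤ _ := h5
  · intro t ht
    have h1 := hloc u t ht
    refine (norm_sq_le _).trans ?_
    have e1 : gr2 U t = gr2 (fun s => ∑ y ∈ fb P (z0 + t • v), (u ∘ (ch y).symm) (z0 + s • v)) t := by
      unfold gr2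
      rw [h1.fderiv_eq]
    calc (fderiv ℝ U t 1) ^ 2 + (fderiv ℝ U t Complex.I) ^ 2 = gr2 U t := rfl
      _ ≤ (fb P (z0 + t • v)).card * ∑ y ∈ fb P (z0 + t • v),
          gr2 (fun s => (u ∘ (ch y).symm) (z0 + s • v)) t := by
        rw [e1]
        exact gr2_sum_le (hC2 u hu t)
      _ ≤ k * (∑ y ∈ fb P (z0 + t • v), C * g v y) := by
        rw [hcard t ht]
        refine mul_le_mul_of_nonneg_left (Finset.sum_le_sum fun y hy => ?_) hkpos'.le
        have h2 := hu y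
        rw [(mem_fb P).1 hy] at h2
        rw [gr2_cline h2, ← (mem_fb P).1 hy]
        exact hd y v
      _ = k * C * G t := by rw [← Finset.mul_sum, ← mul_assoc]

end sheets

end Crest.Agent.R276.Sheets_574
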