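import Mathlib
import Crest.Agent.R276.PdC_571
import Crest.Agent.R276.Flux_317
import Crest.Agent.R276.Sheets_574
import Crest.Agent.R276.SSVar_720
import Crest.Agent.R276.TrB_617
import Crest.Agent.R276.DiscA_651

/-!
# R276, GVHS (helper574): Gram functions of flat fields on a model

`X` with `Prp h X`, `T2Space X`; `V : VHS m X N w` (735).

* `liouV` : a function which near every point satisfies `Levi ≥ 0`, `|∂_v u|² ≤ C g_v` is
  pluriharmonic (`Levi = 0`).
* `adE_field` : `E Φ - Φ E` is flat if `Φ` is.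
* `pj_field` : the orthogonal projector on a flat subbundle with unimodular transitions is flat.
-/

set_option autoImplicit false
set_option linter.unusedSectionVars false

noncomputable section

open Set Filter Topology Matrix InnerProductSpace Laplacian
open scoped ContDiff ComplexConjugate ComplexOrder
open Crest.Agent.R271.Ho51
open Crest.Agent.R276.Ipc735
open Crest.Agent.R276.Pd571
open Crest.Agent.R276.Liou_739
open Crest.Agent.R276.Sheets_574
open Crest.Agent.R276.Tr_617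

namespace Crest.Agent.R276.Gram_574

theorem planeSt : PlaneSt := fun F _ _ _ _ hc hU hG hn hd =>
  Flux_317.plane (F := F) hc hU hG hn hd

section flat

variable {m : ℕ}

theorem lev_eq_dB {f : (Fin m → ℂ) → ℝ} {c : Fin m → ℂ} (hf : ContDiffAt ℝ 2 f c)
    (v : Fin m → ℂ) : MaxP_25.lev f c v = 4 * (VCalc_442.dB (VCalc_442.dW (VCalc_442.cx f) v) v c).re := by
  have h0 : ContDiffAt ℝ 2 f (c + (0 : ℂ) • v) := by rwa [zero_smul, add_zero]
  have h1 := MaxP_25.lap_cline h0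
  have h2 := VCalc_442.lap_line h0
  rw [zero_smul, add_zero] at h1 h2
  rw [← h1, h2]

theorem lev_congr {f g : (Fin m → ℂ) → ℝ} {c : Fin m → ℂ} (h : f =ᶠ[𝓝 c] g) (v : Fin m → ℂ) :
    MaxP_25.lev f c v = MaxP_25.lev g c v := by
  rw [MaxP_25.lev_eq, MaxP_25.lev_eq, h.fderiv.fderiv_eq]

end flat

variable {m N w : ℕ} {X : Type*} [TopologicalSpace X] [RDom m X] (V : Ipc735.VHS m X N w)

/-- the period density in the direction `v` -/
def gd (v : Fin m → ℂ) (x : X) : ℝ := VCalc_442.gden w (PL V x) v (cp x)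

variable {V}

theorem gg_sum {z : X} {U : Set (Fin m → ℂ)} (h : Nb V z U) {c : Fin m → ℂ} (hc : c ∈ U)
    (v : Fin m → ℂ) : VCalc_442.gg w (PL V z) v v c =
      ∑ k, conj (v k) * ∑ j, gP V ((ch z).symm c) j k * v j :=
  (gg_expand w (PL V z) v v c).trans (Finset.sum_congr rfl fun k _ =>
    congrArg (fun t => conj (v k) * t) (Finset.sum_congr rfl fun j _ =>
      congrArg (fun t => t * v j) (h.gg_eq hc j k)))

theorem gd_eq {z : X} {U : Set (Fin m → ℂ)} (h : Nb V z U) {c : Fin m → ℂ} (hc : c ∈ U)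
    (v : Fin m → ℂ) : gd V v ((ch z).symm c) = VCalc_442.gden w (PL V z) v c := by
  obtain ⟨W, hW, hN⟩ := exists_Nb V ((ch z).symm c)
  have h1 := gg_sum hN hW v
  rw [symm_cp] at h1
  have h2 := gg_sum h hc v
  exact congrArg Complex.re (h1.trans h2.symm)

theorem gd_germ {z : X} {U : Set (Fin m → ℂ)} (h : Nb V z U) (hz : cp z ∈ U)
    (v : Fin m → ℂ) : (gd V v ∘ (ch z).symm) =ᶠ[𝓝 (cp z)] VCalc_442.gden w (PL V z) v := by
  filter_upwards [h.op.mem_nhds hz] with c hc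
  exact gd_eq h hc v

theorem gd_smooth (z : X) (v : Fin m → ℂ) : ContDiffAt ℝ 2 (gd V v ∘ (ch z).symm) (cp z) := by
  obtain ⟨U, hz, h⟩ := exists_Nb V z
  refine ContDiffAt.congr_of_eventuallyEq ?_ (gd_germ h hz v)
  exact ((h.loc.sm_gden v).contDiffAt (h.op.mem_nhds hz)).of_le ENat.LEInfty.out

theorem gd_nonneg (z : X) (v : Fin m → ℂ) : 0 ≤ gd V v z := by
  obtain ⟨U, hz, h⟩ := exists_Nb V z
  exact h.loc.gden_nonneg hz v

/-- negative curvature of the density -/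
theorem gd_neg (N : ℕ) : ∃ c : ℝ, 0 < c ∧ ∀ {m w : ℕ} {X : Type*} [TopologicalSpace X] [RDom m X]
    (V : Ipc735.VHS m X N w) (x : X) (v : Fin m → ℂ), gd V v x ≠ 0 →
    c * gd V v x ≤ MaxP_25.lev (fun ξ => Real.log ((gd V v ∘ (ch x).symm) ξ)) (cp x) v := by
  obtain ⟨c, hc, hn⟩ := VCalc_442.exists_neg (Fin N)
  refine ⟨c, hc, fun {m w X} _ _ V x v hne => ?_⟩
  obtain ⟨U, hz, h⟩ := exists_Nb V x
  have h1 := hn (Fin m → ℂ) w U (V.S x) (PL V x) h.loc (cp x) v (0 : ℂ)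
    (by simpa using hz) (by simpa [gd] using hne)
  have h2 : ContDiffAt ℝ 2 (fun ξ => Real.log (VCalc_442.gden w (PL V x) v ξ))
      (cp x + (0 : ℂ) • v) := by
    rw [zero_smul, add_zero]
    exact (((h.loc.sm_gden v).contDiffAt (h.op.mem_nhds hz)).of_le ENat.LEInfty.out).log hne
  have h3 := MaxP_25.lap_cline (t := (0 : ℂ)) h2
  have h4 : (fun ξ => Real.log ((gd V v ∘ (ch x).symm) ξ)) =ᶠ[𝓝 (cp x)]
      fun ξ => Real.log (VCalc_442.gden w (PL V x) v ξ) := by
    filter_upwards [gd_germ h hz v] with ξ hξ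
    rw [hξ]
  rw [lev_congr h4]
  rw [zero_smul, add_zero] at h3
  rw [← h3]
  calc c * gd V v x = c * VCalc_442.gden w (PL V x) v (cp x + (0 : ℂ) • v) := by
        rw [zero_smul, add_zero]; rfl
    _ ≤ _ := h1

/-- local data of a function -/
structure Lo (V : Ipc735.VHS m X N w) (u : X → ℝ) (C : ℝ) (z : X) (U : Set (Fin m → ℂ))
    (f : (Fin m → ℂ) → ℝ) : Prop where
  nb : Nb V z U
  eq : ∀ c ∈ U, u ((ch z).symm c) = f c
  sm : ContDiffOn ℝ ∞ f U
  lv : ∀ c ∈ U, ∀ v, 0 ≤ (VCalc_442.dB (VCalc_442.dW (VCalc_442.cx f) v) v c).re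
  bd : ∀ c ∈ U, ∀ v, ‖VCalc_442.dW (VCalc_442.cx f) v c‖ ^ 2 ≤ C * VCalc_442.gden w (PL V z) v c

/-- **Liouville for functions bounded by the period metric** -/
theorem liouV [T2Space X] {h : MvPolynomial (Fin m) ℂ} (hP : Prp h X) {u : X → ℝ} {C : ℝ}
    (hloc : ∀ z, ∃ U f, cp z ∈ U ∧ Lo V u C z U f) {z : X} {U : Set (Fin m → ℂ)}
    {f : (Fin m → ℂ) → ℝ} (hL : Lo V u C z U f) {c : Fin m → ℂ} (hc : c ∈ U) (v : Fin m → ℂ) :
    (VCalc_442.dB (VCalc_442.dW (VCalc_442.cx f) v) v c).re = 0 := by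
  obtain ⟨κ, hκ, hneg⟩ := gd_neg N
  have hC2 : ∀ {z : X} {U : Set (Fin m → ℂ)} {f : (Fin m → ℂ) → ℝ}, Lo V u C z U f →
      ∀ c ∈ U, ContDiffAt ℝ 2 f c := fun hL c hc =>
    (hL.sm.contDiffAt (hL.nb.op.mem_nhds hc)).of_le ENat.LEInfty.out
  have hgerm : ∀ {z : X} {U : Set (Fin m → ℂ)} {f : (Fin m → ℂ) → ℝ}, Lo V u C z U f →
      cp z ∈ U → (u ∘ (ch z).symm) =ᶠ[𝓝 (cp z)] f := by
    intro z U f hL hz
    filter_upwards [hL.nb.op.mem_nhds hz] with c hc
    exact hL.eq c hc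
  have main := liouG (c := κ) (C := 4 * C) planeSt hP (u := u) (g := gd V) hκ ?_ ?_
    (fun x v => gd_smooth x v) (fun x v => gd_nonneg x v) (fun x v hne => hneg V x v hne) ?_
  · -- conclusion at the point over `c`
    set y := (ch z).symm c with hy
    have hys : y ∈ (ch z).source := (ch z).map_target (hL.nb.sub hc)
    have hcy : cp y = c := (isCh_ch z).cp_symm (hL.nb.sub hc)
    have h1 := main y v
    have h2 : (u ∘ (ch y).symm) =ᶠ[𝓝 c] f := by
      have e1 := (isCh_ch z).germ (isCh_ch y) hys (mem_ch y)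
      rw [hcy] at e1
      filter_upwards [e1, hL.nb.op.mem_nhds hc] with d hd hd2
      rw [← hL.eq d hd2, hd]
      rfl
    rw [hcy, lev_congr h2, lev_eq_dB (hC2 hL c hc)] at h1
    linarith
  · intro x
    obtain ⟨U, f, hx, hL⟩ := hloc x
    exact (hC2 hL _ hx).congr_of_eventuallyEq (hgerm hL hx)
  · intro x v
    obtain ⟨U, f, hx, hL⟩ := hloc x
    rw [lev_congr (hgerm hL hx), lev_eq_dB (hC2 hL _ hx)]
    have := hL.lv _ hx v
    linarith
  · intro x v
    obtain ⟨U, f, hx, hL⟩ := hloc x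
    rw [(hgerm hL hx).fderiv_eq, ← VCalc_442.normSq_dW_cx ((hC2 hL _ hx).differentiableAt (by norm_num))]
    have h1 := hL.bd _ hx v
    have h2 : gd V v x = VCalc_442.gden w (PL V x) v (cp x) := rfl
    rw [h2]
    linarith

/-! ### flat fields -/

theorem ev_of_chart {z : X} {p : X → Prop} (h : ∀ᶠ c in 𝓝 (cp z), p ((ch z).symm c)) :
    ∀ᶠ y in 𝓝 z, p y := by
  have h1 : ∀ᶠ y in 𝓝 z, p ((ch z).symm (cp y)) := cp_cont.continuousAt.eventually h
  filter_upwards [h1, (ch z).open_source.mem_nhds (mem_ch z)] with y hy hys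
  rwa [(isCh_ch z).symm_cp hys] at hy

theorem ev_to_chart {z : X} {p : X → Prop} (h : ∀ᶠ y in 𝓝 z, p y) :
    ∀ᶠ c in 𝓝 (cp z), p ((ch z).symm c) := (tendsto_symm z).eventually h

theorem Nb.mono {z : X} {U U' : Set (Fin m → ℂ)} (h : Nb V z U) (hU' : IsOpen U') (hs : U' ⊆ U) :
    Nb V z U' where
  op := hU'
  sub := hs.trans h.sub
  coc := fun c hc d hd => h.coc c (hs hc) d (hs hd)
  trS := fun c hc => h.trS c (hs hc)
  loc :=
    { op := hU'
      sm := fun p i j => (h.loc.sm p i j).mono hs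
      idem := fun x hx => h.loc.idem x (hs hx)
      orth := fun x hx => h.loc.orth x (hs hx)
      top := fun x hx => h.loc.top x (hs hx)
      sum := fun x hx => h.loc.sum x (hs hx)
      herm := h.loc.herm
      adj := fun x hx => h.loc.adj x (hs hx)
      pos := fun x hx => h.loc.pos x (hs hx)
      hor := fun x hx => h.loc.hor x (hs hx) }

/-- the Hodge metric in the frame at `z` -/
theorem hm_eq {z : X} (c : Fin m → ℂ) :
    VCalc_442.hm w (V.S z) (PL V z) c = hodge w (V.S z) (EL V z c) := by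
  unfold VCalc_442.hm hodge
  rw [← sgOp_hq (X := Fin m → ℂ) (EL V z) c]
  rfl

theorem hodge_frame {z : X} {U : Set (Fin m → ℂ)} (h : Nb V z U) {c : Fin m → ℂ} (hc : c ∈ U) :
    (cm (V.P z ((ch z).symm c)))ᴴ * VCalc_442.hm w (V.S z) (PL V z) c *
      cm (V.P z ((ch z).symm c)) =
        hodge w (V.S ((ch z).symm c)) (V.E ((ch z).symm c)) := by
  rw [hm_eq]
  refine (DiscA_651.hodge_conj ?_ (h.trS c hc).symm w).symm
  unfold EL lM
  rw [mul_assoc (cm (V.P z ((ch z).symm c)) * V.E ((ch z).symm c)), Pd571.cm_inv_mul, mul_one]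

/-- **`E Φ - Φ E` is flat if `Φ` is flat** -/
theorem adE_field [T2Space X] {h : MvPolynomial (Fin m) ℂ} (hP : Prp h X)
    {Φ : X → Matrix (Fin N) (Fin N) ℂ} (hΦ : FlM V.P Φ) :
    FlM V.P (fun x => V.E x * Φ x - Φ x * V.E x) := by
  set u : X → ℝ := fun x => Real.log (1 +
    (SSVar_720.sj (Φ x) (hodge w (V.S x) (V.E x)) * Φ x).trace.re) with hu
  have key : ∀ z, ∃ U, cp z ∈ U ∧ Lo V u 16 z U (SSVar_720.ua w (V.S z) (PL V z) (Φ z)) ∧
      ∀ c ∈ U, Φ z * cm (V.P z ((ch z).symm c)) = cm (V.P z ((ch z).symm c)) * Φ ((ch z).symm c) := by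
    intro z
    obtain ⟨U₀, hz₀, h₀⟩ := exists_Nb V z
    obtain ⟨W, hW, hWo, hzW⟩ := mem_nhds_iff.1 (ev_to_chart (hΦ z))
    have hN : Nb V z (U₀ ∩ W) := Nb.mono h₀ (h₀.op.inter hWo) inter_subset_left
    have hcomm : ∀ c ∈ U₀ ∩ W, Φ z * cm (V.P z ((ch z).symm c)) =
        cm (V.P z ((ch z).symm c)) * Φ ((ch z).symm c) := by
      intro c hc
      have h1 : lM V.P Φ z ((ch z).symm c) = Φ z := hW hc.2
      rw [← h1]
      unfold lM
      rw [mul_assoc, Pd571.cm_inv_mul, mul_one]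
    refine ⟨U₀ ∩ W, ⟨hz₀, hzW⟩, ⟨hN, ?_, SSVar_720.sm_ua hN.loc _, ?_, ?_⟩, hcomm⟩
    · intro c hc
      have h1 : (SSVar_720.sj (Φ z) (VCalc_442.hm w (V.S z) (PL V z) c) * Φ z).trace =
          (SSVar_720.sj (Φ ((ch z).symm c)) (hodge w (V.S ((ch z).symm c)) (V.E ((ch z).symm c))) *
            Φ ((ch z).symm c)).trace := by
        refine SSVar_720.trace_frame (g := cm (V.P z ((ch z).symm c))) ?_ (hodge_frame hN hc)
          (hcomm c hc)
        exact IsUnit.of_mul_eq_one _ (Pd571.cm_mul_inv _)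
      show Real.log (1 + (SSVar_720.sj (Φ ((ch z).symm c)) (hodge w (V.S ((ch z).symm c))
        (V.E ((ch z).symm c))) * Φ ((ch z).symm c)).trace.re) = _
      rw [← h1]
      rfl
    · intro c hc v
      exact SSVar_720.ua_nonneg hN.loc _ hc v
    · intro c hc v
      exact SSVar_720.ua_bound hN.loc _ hc v
  intro z
  obtain ⟨U, hz, hL, hcomm⟩ := key z
  have h0 : ∀ c ∈ U, ∀ v, (VCalc_442.dB (VCalc_442.dW (VCalc_442.cx
      (SSVar_720.ua w (V.S z) (PL V z) (Φ z))) v) v c).re = 0 := fun c hc v =>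
    liouV hP (fun z => by obtain ⟨U, hz, hL, _⟩ := key z; exact ⟨U, _, hz, hL⟩) hL hc v
  have h1 := SSVar_720.comm_const hL.nb.loc (Φ z) h0 hz
  refine ev_of_chart ?_
  filter_upwards [h1, hL.nb.op.mem_nhds hz] with c hc hcU
  rw [hL.nb.gr hcU, hL.nb.gr hz] at hc
  have h2 : EL V z (cp z) = V.E z := by
    unfold EL
    rw [symm_cp]
    exact lM_self (V.ndc.on Set.univ) V.E (Set.mem_univ z)
  rw [h2] at hc
  rw [← hc]
  set g := cm (V.P z ((ch z).symm c)) with hg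
  set g' := cm (V.P z ((ch z).symm c))⁻¹ with hg'
  have hgg : g * g' = 1 := Pd571.cm_mul_inv _
  have hgg' : g' * g = 1 := Pd571.cm_inv_mul _
  have h3 : Φ z = g * Φ ((ch z).symm c) * g' := by
    rw [← hcomm c hcU, mul_assoc, hgg, mul_one]
  have h4 : EL V z c = g * V.E ((ch z).symm c) * g' := rfl
  show g * (V.E ((ch z).symm c) * Φ ((ch z).symm c) - Φ ((ch z).symm c) * V.E ((ch z).symm c)) * g'
    = _
  rw [h3, h4]
  calc _ = g * (V.E ((ch z).symm c) * 1 * Φ ((ch z).symm c) -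
        Φ ((ch z).symm c) * 1 * V.E ((ch z).symm c)) * g' := by simp only [mul_one]
    _ = g * (V.E ((ch z).symm c) * (g' * g) * Φ ((ch z).symm c) -
        Φ ((ch z).symm c) * (g' * g) * V.E ((ch z).symm c)) * g' := by rw [hgg']
    _ = _ := by noncomm_ring

/-- **the orthogonal projector on a flat subbundle with unimodular transitions is flat** -/
theorem pj_field [T2Space X] {h : MvPolynomial (Fin m) ℂ} (hP : Prp h X) {κ : Type*} [Fintype κ]
    [DecidableEq κ] {B : X → Matrix (Fin N) κ ℂ} (hinj : ∀ x, Function.Injective (B x).mulVec)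
    (hB : ∀ z, ∀ᶠ y in 𝓝 z, ∃ c : Matrix κ κ ℂ, ‖c.det‖ = 1 ∧ cm (V.P z y) * B y = B z * c) :
    FlM V.P (fun x => SSVar_720.pj (B x) (hodge w (V.S x) (V.E x))) := by
  set u : X → ℝ := fun x => Real.log (SSVar_720.gm (B x) (hodge w (V.S x) (V.E x))).det.re with hu
  have key : ∀ z, ∃ U, cp z ∈ U ∧
      Lo V u (4 * Fintype.card κ) z U (SSVar_720.ug w (V.S z) (PL V z) (B z)) ∧
      ∀ c ∈ U, ∃ k : Matrix κ κ ℂ, ‖k.det‖ = 1 ∧
        cm (V.P z ((ch z).symm c)) * B ((ch z).symm c) = B z * k := by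
    intro z
    obtain ⟨U₀, hz₀, h₀⟩ := exists_Nb V z
    obtain ⟨W, hW, hWo, hzW⟩ := mem_nhds_iff.1 (ev_to_chart (hB z))
    have hN : Nb V z (U₀ ∩ W) := Nb.mono h₀ (h₀.op.inter hWo) inter_subset_left
    refine ⟨U₀ ∩ W, ⟨hz₀, hzW⟩, ⟨hN, ?_, SSVar_720.sm_ug hN.loc (hinj z), ?_, ?_⟩,
      fun c hc => hW hc.2⟩
    · intro c hc
      obtain ⟨k, hk, hBk⟩ : ∃ k : Matrix κ κ ℂ, ‖k.det‖ = 1 ∧
        cm (V.P z ((ch z).symm c)) * B ((ch z).symm c) = B z * k := hW hc.2
      have h1 := SSVar_720.gm_frame (hodge_frame hN hc) (B ((ch z).symm c))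
      rw [hBk] at h1
      have h2 : (SSVar_720.gm (B ((ch z).symm c)) (hodge w (V.S ((ch z).symm c))
          (V.E ((ch z).symm c)))).det =
          (SSVar_720.gm (B z) (VCalc_442.hm w (V.S z) (PL V z) c)).det := by
        rw [← h1, SSVar_720.det_gm_mul]
        have h3 : star k.det * k.det = 1 := by
          rw [mul_comm, Complex.star_def, Complex.mul_conj, Complex.normSq_eq_norm_sq, hk]
          simp
        rw [h3, one_mul]
      show Real.log _ = _
      rw [h2]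
      rfl
    · intro c hc v
      exact SSVar_720.ug_nonneg hN.loc (hinj z) hc v
    · intro c hc v
      exact SSVar_720.ug_bound hN.loc (hinj z) hc v
  intro z
  obtain ⟨U, hz, hL, hk⟩ := key z
  have h0 : ∀ c ∈ U, ∀ v, (VCalc_442.dB (VCalc_442.dW (VCalc_442.cx
      (SSVar_720.ug w (V.S z) (PL V z) (B z))) v) v c).re = 0 := fun c hc v =>
    liouV hP (fun z => by obtain ⟨U, hz, hL, _⟩ := key z; exact ⟨U, _, hz, hL⟩) hL hc v
  have h1 := SSVar_720.pj_const hL.nb.loc (hinj z) h0 hz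
  refine ev_of_chart ?_
  filter_upwards [h1, hL.nb.op.mem_nhds hz] with c hc hcU
  obtain ⟨k, hkd, hBk⟩ := hk c hcU
  have hku : IsUnit k := by
    rw [Matrix.isUnit_iff_isUnit_det, isUnit_iff_ne_zero]
    intro h5; rw [h5] at hkd; simp at hkd
  have h2 : EL V z (cp z) = V.E z := by
    unfold EL
    rw [symm_cp]
    exact lM_self (V.ndc.on Set.univ) V.E (Set.mem_univ z)
  have h3 : VCalc_442.hm w (V.S z) (PL V z) (cp z) = hodge w (V.S z) (V.E z) := by
    rw [hm_eq, h2]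
  have h4 := SSVar_720.pj_frame (hodge_frame hL.nb hcU) (B ((ch z).symm c))
  rw [hBk, SSVar_720.pj_mul _ _ hku, hc, h3] at h4
  show cm (V.P z ((ch z).symm c)) * _ * cm (V.P z ((ch z).symm c))⁻¹ = _
  rw [← h4, mul_assoc, Pd571.cm_mul_inv, mul_one]

end Crest.Agent.R276.Gram_574
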