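import Mathlib
import Crest.Agent.R276.GroLow_358
import Crest.Agent.R276.Mod7_987
import Crest.Agent.R276.DetB_606

/-!
# Row 276 (S0419), GRO-LOW (helper358): lower bound of `D(w) = ∫_{M_w^s} |det u_i(y_j)|^p`

* `fintS` : `s`-fold fibre integral of a relative model;
* `gro_low_D` : `u : Fin s → MK.B` linearly independent over `L` ⇒ `D(w) ≥ c |P|^A (1+|z|²)^(-B)`
  for all `w` with `P(pz w) ≠ 0`;
* `RMdl` versions (987): `gro_low_rmdl`, `gro_low_D_rmdl`, and `gro_low_DD` for 606's `DD`.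
-/

set_option autoImplicit false

open Polynomial Topology Filter MeasureTheory Metric
open scoped ENNReal

noncomputable section

namespace Crest.Agent.R276.GroLowD_358

open Crest.Agent.R271.Defs710 Crest.Agent.R271.Alg255 Crest.Agent.R271.Rd692
open Crest.Agent.R271.AlgB956 Crest.Agent.R271.Ho51 Crest.Agent.R276.Mod1_987
open Crest.Agent.R276.Gram0_358 Crest.Agent.R276.Gram1_358 Crest.Agent.R276.Gram2_358
open Crest.Agent.R276.Gram3_358 Crest.Agent.R276.Top8_815 Crest.Agent.R276.GroLow_358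

section fsp

variable {n d : ℕ} {X Y : Type*} [TopologicalSpace X] [RDom n X] [TopologicalSpace Y]
  (F : FSp n d X Y)

/-- composition with a section is holomorphic -/
theorem differentiableOn_section {u : X} {f : Y → ℂ} (hf : F.FH u f) {x₀ : Fin d → ℂ} {ρ : ℝ}
    {σ : (Fin d → ℂ) → Y} (hσ : ContinuousOn σ (ball x₀ ρ))
    (hq : ∀ x ∈ ball x₀ ρ, F.q (σ x) = u) (ht : ∀ x ∈ ball x₀ ρ, F.t (σ x) = x) :
    DifferentiableOn ℂ (fun x => f (σ x)) (ball x₀ ρ) := by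
  intro x hx
  obtain ⟨g, hg, hev⟩ := hf (σ x) (hq x hx)
  rw [ht x hx] at hg
  have hnhds : ball x₀ ρ ∈ 𝓝 x := isOpen_ball.mem_nhds hx
  have hc : ContinuousAt σ x := hσ.continuousAt hnhds
  have h1 : (fun x => f (σ x)) =ᶠ[𝓝 x] g := by
    filter_upwards [hc.eventually hev, hnhds] with x' hx' hx'b
    have h2 := hx' (hq x' hx'b)
    rw [h2, ht x' hx'b]
  exact (hg.differentiableAt.congr_of_eventuallyEq h1).differentiableWithinAt

end fsp

/-- determinants of differentiable functions -/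
theorem differentiableOn_det {E : Type*} [NormedAddCommGroup E] [NormedSpace ℂ E] {s : ℕ}
    {S : Set E} {g : Fin s → Fin s → E → ℂ} (hg : ∀ j i, DifferentiableOn ℂ (g j i) S) :
    DifferentiableOn ℂ (fun x => (Matrix.of fun j i => g j i x).det) S := by
  simp only [Matrix.det_apply, Matrix.of_apply]
  refine DifferentiableOn.fun_sum fun τ _ => DifferentiableOn.const_smul ?_ _
  have h1 : ∀ T : Finset (Fin s), DifferentiableOn ℂ (fun x => ∏ j ∈ T, g (τ j) j x) S := by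
    intro T
    induction T using Finset.induction_on with
    | empty => simp
    | insert a T ha ih =>
      simp only [Finset.prod_insert ha]
      exact (hg _ _).mul ih
  exact h1 _

section rel

variable {L K : Type} [Field L] [Algebra ℂ L] [Field K] [Algebra ℂ K] [Algebra L K] {m r : ℕ}
  {ML : Mdl L m} {MK : Mdl K (m + r)} (R : Rel ML MK)

/-- `s`-fold fibre integral -/
def fintS (s : ℕ) (w : ML.Pts) (g : (Fin s → MK.Pts) → ℝ≥0∞) : ℝ≥0∞ :=
  ∫⁻ x : Fin s → Cn r, ∑' y : {y : Fin s → MK.Pts // (∀ j, R.q (y j) = w) ∧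
    ∀ j, R.xx (y j) = x j}, g y.1

instance haarS (s r : ℕ) : (volume : Measure (Fin s → Cn r)).IsAddHaarMeasure :=
  Measure.pi.isAddHaarMeasure (fun _ : Fin s => (volume : Measure (Cn r)))

/-- the volume of a polydisc in the `s`-fold product -/
lemma volume_ballS {s : ℕ} (x : Fin s → Cn r) {ρ : ℝ} (hρ : 0 < ρ) :
    volume (ball x ρ) = ENNReal.ofReal (ρ ^ (s * (2 * r)) *
      (volume (ball (0 : Fin s → Cn r) 1)).toReal) := by
  have h1 := Measure.addHaar_ball_of_pos (volume : Measure (Fin s → Cn r)) x hρ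
  have h3 : Module.finrank ℝ (Cn r) = 2 * r := by
    rw [Module.finrank_pi_fintype]
    simp [Complex.finrank_real_complex, mul_comm]
  have h2 : Module.finrank ℝ (Fin s → Cn r) = s * (2 * r) := by
    rw [Module.finrank_pi_fintype]
    simp only [h3, Finset.sum_const, Finset.card_univ, Fintype.card_fin, smul_eq_mul]
  rw [h1, h2, ENNReal.ofReal_mul (by positivity), ENNReal.ofReal_toReal measure_ball_lt_top.ne]

/-- **GRO-LOW** for `D(w)` -/
theorem gro_low_D' {s : ℕ} (u : Fin s → MK.B) (hu : LinearIndependent L fun i => (u i : K))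
    {p : ℝ} (hp : 0 < p) :
    ∃ P0 : MvPolynomial (Fin m) ℂ, P0 ≠ 0 ∧ ∀ P : MvPolynomial (Fin m) ℂ, P0 ∣ P →
      ∃ κ : ML.Pts → ℝ, LB ML P κ ∧ ∀ w : ML.Pts, MvPolynomial.eval (ML.pz w) P ≠ 0 →
        0 < κ w ∧ ENNReal.ofReal (κ w) ≤
          fintS R s w fun y => ‖(Matrix.of fun i j => y j (u i)).det‖ₑ ^ p := by
  classical
  obtain ⟨x, P0, hP0, h⟩ := exists_gram R u hu
  refine ⟨P0, hP0, fun P hP => ?_⟩
  obtain ⟨hLh, D, hLD, hD⟩ := h P hP
  choose ρ hLρ hρ1 hρ using fun j => exists_radius (MK := MK) (x j) (hLh j)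
  set V := (volume (ball (0 : Fin s → Cn r) 1)).toReal with hV
  have hV0 : 0 < V := ENNReal.toReal_pos (measure_ball_pos _ _ one_pos).ne' measure_ball_lt_top.ne
  refine ⟨fun w => D w ^ p * ((∏ j, ρ j w) ^ (s * (2 * r)) * V),
    (LB.rpow hLD hp).mul (((LB.prod _ fun j _ => hLρ j).pow _).mul (LB.const hV0)),
    fun w hw => ?_⟩
  obtain ⟨hD0, y, hq, hxx, hy⟩ := hD w hw
  have hne : ∀ j, hx MK (x j) w ≠ 0 := by
    intro j
    have h1 := MK.eval_h_ne (y j)
    rw [R.pz_eq, hq j, hxx j] at h1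
    exact h1
  have hρpos : ∀ j, 0 < ρ j w := fun j => (hρ j w (hne j)).1
  set ρ0 := ∏ j, ρ j w with hρ0
  have hprod : 0 < ρ0 := Finset.prod_pos fun j _ => hρpos j
  have hle : ∀ j, ρ0 ≤ ρ j w := by
    intro j
    rw [hρ0, ← Finset.mul_prod_erase _ _ (Finset.mem_univ j)]
    have h5 : ∏ j' ∈ Finset.univ.erase j, ρ j' w ≤ 1 :=
      Finset.prod_le_one (fun j' _ => (hρpos j').le) fun j' _ => hρ1 j' w
    calc ρ j w * ∏ j' ∈ Finset.univ.erase j, ρ j' w ≤ ρ j w * 1 :=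
          mul_le_mul_of_nonneg_left h5 (hρpos j).le
      _ = _ := mul_one _
  refine ⟨by positivity, ?_⟩
  -- sections
  have hsec : ∀ j, ∃ σ : Cn r → MK.Pts, ContinuousOn σ (ball (x j) ρ0) ∧
      (∀ x' ∈ ball (x j) ρ0, R.q (σ x') = w) ∧
      (∀ x' ∈ ball (x j) ρ0, R.xx (σ x') = x') ∧ σ (x j) = y j := by
    intro j
    obtain ⟨σ, h1, h2, h3, h4⟩ := exists_section R (y j) hprod (by
      intro x' hx'
      rw [hq j]
      rw [hxx j] at hx'
      exact (hρ j w (hne j)).2 x' (ball_subset_ball (hle j) hx'))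
    rw [hxx j] at h1 h2 h3 h4
    rw [hq j] at h2
    exact ⟨σ, h1, h2, h3, h4⟩
  choose σ hσc hσq hσx hσ0 using hsec
  set G : (Fin s → Cn r) → ℂ := fun x' => (Matrix.of fun j i => (σ j (x' j)) (u i)).det with hG
  have hd : DifferentiableOn ℂ G (ball x ρ0) := by
    apply differentiableOn_det
    intro j i
    have h1 : DifferentiableOn ℂ (fun x' => (σ j x') (u i)) (ball (x j) ρ0) :=
      differentiableOn_section (toFSp R) (fh_elem R w (u i)) (hσc j) (hσq j) (hσx j)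
    refine h1.comp (t := ball (x j) ρ0) (f := fun x' : Fin s → Cn r => x' j) ?_ ?_
    · exact (differentiable_apply (𝕜 := ℂ) j).differentiableOn
    · intro x' hx'
      rw [mem_ball_iff_norm] at hx' ⊢
      exact lt_of_le_of_lt (norm_le_pi_norm (x' - x) j) hx'
  have h1 := SubP_358.rpow_mul_ball_le (volume : Measure (Fin s → Cn r)) hd hp
  have h2 : G x = (Matrix.of fun j i => y j (u i)).det := by
    rw [hG]
    simp only [hσ0]
  rw [h2] at h1
  have h3 : ENNReal.ofReal (D w ^ p * (ρ0 ^ (s * (2 * r)) * V)) ≤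
      ‖(Matrix.of fun j i => y j (u i)).det‖ₑ ^ p * volume (ball x ρ0) := by
    rw [volume_ballS _ hprod]
    have h4 : ‖(Matrix.of fun j i => y j (u i)).det‖ₑ ^ p =
        ENNReal.ofReal (‖(Matrix.of fun j i => y j (u i)).det‖ ^ p) := by
      rw [← ENNReal.ofReal_rpow_of_nonneg (norm_nonneg _) hp.le, ofReal_norm]
    rw [h4, ← ENNReal.ofReal_mul (by positivity)]
    apply ENNReal.ofReal_le_ofReal
    apply mul_le_mul_of_nonneg_right _ (by positivity)
    exact Real.rpow_le_rpow hD0.le hy hp.le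
  refine h3.trans (h1.trans ?_)
  unfold fintS
  refine le_trans (setLIntegral_mono' measurableSet_ball ?_) (setLIntegral_le_lintegral _ _)
  intro x' hx'
  have hxj : ∀ j, x' j ∈ ball (x j) ρ0 := by
    intro j
    rw [mem_ball_iff_norm] at hx' ⊢
    exact lt_of_le_of_lt (norm_le_pi_norm (x' - x) j) hx'
  have h5 := ENNReal.le_tsum (f := fun y : {y : Fin s → MK.Pts // (∀ j, R.q (y j) = w) ∧
    ∀ j, R.xx (y j) = x' j} => ‖(Matrix.of fun i j => y.1 j (u i)).det‖ₑ ^ p)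
    ⟨fun j => σ j (x' j), fun j => hσq j _ (hxj j), fun j => hσx j _ (hxj j)⟩
  refine le_trans (le_of_eq ?_) h5
  have h6 : (Matrix.of fun i j => (σ j (x' j)) (u i)) =
      (Matrix.of fun j i => (σ j (x' j)) (u i)).transpose := rfl
  simp only [h6, Matrix.det_transpose]
  rfl

/-- **GRO-LOW** for `D(w)`, explicit -/
theorem gro_low_D {s : ℕ} (u : Fin s → MK.B) (hu : LinearIndependent L fun i => (u i : K))
    {p : ℝ} (hp : 0 < p) :
    ∃ P0 : MvPolynomial (Fin m) ℂ, P0 ≠ 0 ∧ ∀ P : MvPolynomial (Fin m) ℂ, P0 ∣ P →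
      ∃ (c : ℝ) (A B : ℕ), 0 < c ∧ ∀ w : ML.Pts, MvPolynomial.eval (ML.pz w) P ≠ 0 →
        ENNReal.ofReal (c * ‖MvPolynomial.eval (ML.pz w) P‖ ^ A /
          (1 + ∑ i, ‖ML.pz w i‖ ^ 2) ^ B) ≤
          fintS R s w fun y => ‖(Matrix.of fun i j => y j (u i)).det‖ₑ ^ p := by
  obtain ⟨P0, hP0, h⟩ := gro_low_D' R u hu hp
  refine ⟨P0, hP0, fun P hP => ?_⟩
  obtain ⟨κ, ⟨c, A, B, hc, h1⟩, h2⟩ := h P hP
  refine ⟨c, A, B, hc, fun w hw => le_trans (ENNReal.ofReal_le_ofReal ?_) (h2 w hw).2⟩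
  rw [div_le_iff₀ (by positivity)]
  exact h1 w

end rel

/-! ### 987's relative models -/

section rmdl

variable {L K : Type} [Field L] [Field K] [Algebra ℂ L] [Algebra ℂ K] [Algebra L K]
  [IsScalarTower ℂ L K] {m r : ℕ} (R : RMdl L K m r)

/-- 987's relative models -/
def rel : Gram1_358.Rel R.ML R.MK where
  inc := R.incl
  inc_val _ := rfl
  hz i := Subtype.ext (R.z_eq i)

@[simp] lemma rel_q (y : R.MK.Pts) : (rel R).q y = R.q y := rfl

@[simp] lemma rel_xx (y : R.MK.Pts) : (rel R).xx y = R.x y := rfl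

lemma rel_fint (w : R.ML.Pts) (g : R.MK.Pts → ℝ≥0∞) : (toFSp (rel R)).fint w g = R.fint w g := rfl

/-- **GRO-LOW** on 987's relative models -/
theorem gro_low_rmdl {s : ℕ} (u : Fin s → R.MK.B) (hu : LinearIndependent L fun i => (u i : K))
    {p : ℝ} (hp : 0 < p) :
    ∃ P0 : MvPolynomial (Fin m) ℂ, P0 ≠ 0 ∧ ∀ P : MvPolynomial (Fin m) ℂ, P0 ∣ P →
      ∃ (c : ℝ) (A B : ℕ), 0 < c ∧ ∀ w : R.ML.Pts, MvPolynomial.eval (R.ML.pz w) P ≠ 0 →
        ∀ v : Fin s → ℂ, ENNReal.ofReal (c * ‖MvPolynomial.eval (R.ML.pz w) P‖ ^ A /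
          (1 + ∑ i, ‖R.ML.pz w i‖ ^ 2) ^ B * ‖v‖ ^ p) ≤
          R.fint w fun y => ‖∑ i, v i * y (u i)‖ₑ ^ p :=
  gro_low' (rel R) u hu hp

/-- lower bound of 606's `DD` on the fibres, from the lower bound of `Phi` -/
theorem DD_ge {X : Type*} [MeasurableSpace X] {μ : Measure X} [SigmaFinite μ] {p κ : ℝ}
    (hp : 0 < p) (hκ : 0 < κ) {s : ℕ} {σ : Fin s → X → ℂ} (hσ : ∀ i, Measurable (σ i))
    (h : ∀ v : Fin s → ℂ, ENNReal.ofReal (κ * ‖v‖ ^ p) ≤ DetB_606.Phi μ p σ v) :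
    ENNReal.ofReal (κ ^ s) ≤ DetB_606.DD μ p σ := by
  -- rescale `σ`
  set t : ℝ := κ ^ (-(1 / p)) with ht
  have ht0 : 0 < t := Real.rpow_pos_of_pos hκ _
  have htp : t ^ p = κ⁻¹ := by
    rw [ht, ← Real.rpow_mul hκ.le, neg_mul, one_div, inv_mul_cancel₀ hp.ne', Real.rpow_neg_one]
  have htn : ‖(t : ℂ)‖ₑ ^ p = ENNReal.ofReal κ⁻¹ := by
    rw [← htp, ← ENNReal.ofReal_rpow_of_nonneg ht0.le hp.le, ← ofReal_norm, Complex.norm_real,
      Real.norm_of_nonneg ht0.le]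
  have h1 := DetB_606.lower (μ := μ) (p := p) (σ := fun i x => (t : ℂ) * σ i x)
    (fun i => (hσ i).const_mul _) (by
      intro c i
      have h2 : DetB_606.Phi μ p (fun i x => (t : ℂ) * σ i x) c =
          ‖(t : ℂ)‖ₑ ^ p * DetB_606.Phi μ p σ c := by
        unfold DetB_606.Phi
        rw [← lintegral_const_mul' _ _ (by rw [htn]; exact ENNReal.ofReal_ne_top)]
        refine lintegral_congr fun x => ?_
        rw [← ENNReal.mul_rpow_of_nonneg _ _ hp.le, ← enorm_mul, Finset.mul_sum]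
        congr 2
        exact Finset.sum_congr rfl fun i _ => by ring
      rw [h2, htn]
      refine le_trans ?_ (mul_le_mul_right (h c) _)
      rw [← ENNReal.ofReal_mul (by positivity), ← mul_assoc, inv_mul_cancel₀ hκ.ne', one_mul,
        ← ENNReal.ofReal_rpow_of_nonneg (norm_nonneg _) hp.le, ofReal_norm]
      apply ENNReal.rpow_le_rpow _ hp.le
      rw [← ofReal_norm, ← ofReal_norm]
      exact ENNReal.ofReal_le_ofReal (norm_le_pi_norm c i))
  have h3 : DetB_606.DD μ p (fun i x => (t : ℂ) * σ i x) =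
      ENNReal.ofReal (κ⁻¹ ^ s) * DetB_606.DD μ p σ := by
    unfold DetB_606.DD
    rw [← lintegral_const_mul' _ _ ENNReal.ofReal_ne_top]
    refine lintegral_congr fun x => ?_
    have h4 : (Matrix.of fun i j => (t : ℂ) * σ i (x j)) =
        (t : ℂ) • (Matrix.of fun i j => σ i (x j)) := rfl
    rw [h4, Matrix.det_smul, Fintype.card_fin, enorm_mul, ENNReal.mul_rpow_of_nonneg _ _ hp.le,
      enorm_pow, ← ENNReal.rpow_natCast, ← ENNReal.rpow_mul, mul_comm (s : ℝ) p,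
      ENNReal.rpow_mul, htn, ENNReal.rpow_natCast, ENNReal.ofReal_pow (by positivity)]
  rw [h3] at h1
  have h5 : ENNReal.ofReal (κ ^ s) * ENNReal.ofReal (κ⁻¹ ^ s) = 1 := by
    rw [← ENNReal.ofReal_mul (by positivity), ← mul_pow, mul_inv_cancel₀ hκ.ne', one_pow,
      ENNReal.ofReal_one]
  calc ENNReal.ofReal (κ ^ s) = ENNReal.ofReal (κ ^ s) * 1 := (mul_one _).symm
    _ ≤ ENNReal.ofReal (κ ^ s) * (ENNReal.ofReal (κ⁻¹ ^ s) * DetB_606.DD μ p σ) := by
        gcongr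
    _ = _ := by rw [← mul_assoc, h5, one_mul]

/-- **GRO-LOW** for 606's `DD` on the fibres -/
theorem gro_low_DD {s : ℕ} (u : Fin s → R.MK.B) (hu : LinearIndependent L fun i => (u i : K))
    {p : ℝ} (hp : 0 < p) :
    ∃ P0 : MvPolynomial (Fin m) ℂ, P0 ≠ 0 ∧ ∀ P : MvPolynomial (Fin m) ℂ, P0 ∣ P →
      ∃ (c : ℝ) (A B : ℕ), 0 < c ∧ ∀ w : R.ML.Pts, MvPolynomial.eval (R.ML.pz w) P ≠ 0 →
        ∀ μ : Measure (R.Fib w), IsLeb μ →
        ENNReal.ofReal (c * ‖MvPolynomial.eval (R.ML.pz w) P‖ ^ A /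
          (1 + ∑ i, ‖R.ML.pz w i‖ ^ 2) ^ B) ≤
          DetB_606.DD μ p (fun i (y : R.Fib w) => (y.val : R.MK.B →ₐ[ℂ] ℂ) (u i)) := by
  obtain ⟨P0, hP0, h⟩ := gro_low_rmdl R u hu hp
  refine ⟨P0, hP0, fun P hP => ?_⟩
  obtain ⟨c, A, B, hc, h1⟩ := h P hP
  refine ⟨c ^ s, A * s, B * s, pow_pos hc _, fun w hw μ hμ => ?_⟩
  have hloc : IsLocallyFiniteMeasure μ := hμ.locallyFinite
  have hcont : ∀ b : R.MK.B, Continuous fun y : R.Fib w => (y.val : R.MK.B →ₐ[ℂ] ℂ) b := fun b =>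
    (continuous_ev b).comp (RMdl.Fib.continuous_val w)
  have hpos : 0 < ‖MvPolynomial.eval (R.ML.pz w) P‖ := norm_pos_iff.mpr hw
  set κ := c * ‖MvPolynomial.eval (R.ML.pz w) P‖ ^ A / (1 + ∑ i, ‖R.ML.pz w i‖ ^ 2) ^ B with hκ
  have hκ0 : 0 < κ := by positivity
  have h2 := DD_ge (μ := μ) hp hκ0 (σ := fun i (y : R.Fib w) => (y.val : R.MK.B →ₐ[ℂ] ℂ) (u i))
    (fun i => (hcont (u i)).measurable) (fun v => by
      refine (h1 w hw v).trans (le_of_eq ?_)
      have h3 : Measurable (fun y : R.MK.Pts => ‖∑ i, v i * y (u i)‖ₑ ^ p) := by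
        have h4 : Continuous (fun y : R.MK.Pts => ∑ i, v i * y (u i)) :=
          continuous_finsetSum _ fun i _ => continuous_const.mul (continuous_ev (u i))
        exact h4.enorm.measurable.pow_const p
      rw [R.fint_eq hμ h3]
      rfl)
  refine le_trans (le_of_eq ?_) h2
  congr 1
  rw [hκ, div_pow, mul_pow, pow_mul, pow_mul]

end rmdl

end Crest.Agent.R276.GroLowD_358
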