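import Mathlib
import Crest.Agent.R276.GroLowD_358
import Crest.Agent.R276.SkelDefs_220

/-!
# Row 276 (S0419), GRO-LOW (helper358): the lower bounds on 220's relative models

* `fint_low` : `∫_{M_z} ‖∑ v_i u_i‖^p ≥ c |P|^A (1+|z|²)^(-B) ‖v‖^p`;
* `fintS_low` : `∫_{M_z^s} |δ|^p ≥ c |P|^A (1+|z|²)^(-B)`;
* `cy_low` : `D(z) ≥ c |P|^A (1+|z|²)^(-B)` for `IsCY H N u D`.
-/

set_option autoImplicit false

open Polynomial Topology Filter MeasureTheory Metric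
open scoped ENNReal

noncomputable section

namespace Crest.Agent.R276.GroLowS_358

open Crest.Agent.R271.Defs710 Crest.Agent.R276.Mod1_987
open Crest.Agent.R276.GroLow_358 Crest.Agent.R276.GroLowD_358

variable {L K : Type} [Field L] [Field K] [Algebra ℂ L] [Algebra ℂ K] [Algebra L K]
  [IsScalarTower ℂ L K] {m r : ℕ} {ML : Mdl L m} {MK : Mdl K (m + r)}

/-- 220's relative models -/
def relS (H : SkelDefs_220.Rel ML MK) : Gram1_358.Rel ML MK where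
  inc := H.incl
  inc_val _ := rfl
  hz i := Subtype.ext (H.coord i)

/-- lower bound of the fibre integrals -/
theorem fint_low (H : SkelDefs_220.Rel ML MK) {s : ℕ} (u : Fin s → MK.B)
    (hu : LinearIndependent L fun i => (u i : K)) {p : ℝ} (hp : 0 < p) :
    ∃ P0 : MvPolynomial (Fin m) ℂ, P0 ≠ 0 ∧ ∀ P : MvPolynomial (Fin m) ℂ, P0 ∣ P →
      ∃ (c : ℝ) (A B : ℕ), 0 < c ∧ ∀ w : ML.Pts, MvPolynomial.eval (ML.pz w) P ≠ 0 →
        ∀ v : Fin s → ℂ, ENNReal.ofReal (c * ‖MvPolynomial.eval (ML.pz w) P‖ ^ A /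
          (1 + ∑ i, ‖ML.pz w i‖ ^ 2) ^ B * ‖v‖ ^ p) ≤
          H.fint w fun y => ‖∑ i, v i * y (u i)‖ₑ ^ p :=
  gro_low' (relS H) u hu hp

/-- lower bound of the `s`-fold fibre integral of `|δ|^p` -/
theorem fintS_low (H : SkelDefs_220.Rel ML MK) {s : ℕ} (u : Fin s → MK.B)
    (hu : LinearIndependent L fun i => (u i : K)) {p : ℝ} (hp : 0 < p) :
    ∃ P0 : MvPolynomial (Fin m) ℂ, P0 ≠ 0 ∧ ∀ P : MvPolynomial (Fin m) ℂ, P0 ∣ P →
      ∃ (c : ℝ) (A B : ℕ), 0 < c ∧ ∀ w : ML.Pts, MvPolynomial.eval (ML.pz w) P ≠ 0 →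
        ENNReal.ofReal (c * ‖MvPolynomial.eval (ML.pz w) P‖ ^ A /
          (1 + ∑ i, ‖ML.pz w i‖ ^ 2) ^ B) ≤
          H.fintS s w fun y => ‖SkelDefs_220.dl u y‖ₑ ^ p :=
  gro_low_D (relS H) u hu hp

/-- **GRO-LOW** for the CY function `D` -/
theorem cy_low (H : SkelDefs_220.Rel ML MK) {N : ℕ} (hN : 0 < N) {s : ℕ} (u : Fin s → MK.B)
    (hu : LinearIndependent L fun i => (u i : K)) {D : ML.Pts → ℝ}
    (hD : SkelDefs_220.IsCY H N u D) :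
    ∃ P0 : MvPolynomial (Fin m) ℂ, P0 ≠ 0 ∧ ∀ P : MvPolynomial (Fin m) ℂ, P0 ∣ P →
      ∃ (c : ℝ) (A B : ℕ), 0 < c ∧ ∀ w : ML.Pts, MvPolynomial.eval (ML.pz w) P ≠ 0 →
        c * ‖MvPolynomial.eval (ML.pz w) P‖ ^ A / (1 + ∑ i, ‖ML.pz w i‖ ^ 2) ^ B ≤ D w := by
  have hp : (0 : ℝ) < 2 / N := by positivity
  obtain ⟨P0, hP0, h⟩ := fintS_low H u hu hp
  refine ⟨P0, hP0, fun P hP => ?_⟩
  obtain ⟨c, A, B, hc, h1⟩ := h P hP
  refine ⟨c, A, B, hc, fun w hw => ?_⟩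
  have h2 := h1 w hw
  rw [(hD w).2] at h2
  exact (ENNReal.ofReal_le_ofReal_iff (hD w).1.le).mp h2

end Crest.Agent.R276.GroLowS_358
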