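import Mathlib

/-!
# R276, leaf IPC-GRP (helper591), part 1: isotypic idempotents and frames of idempotents

* `idem A χ` : the `χ`-isotypic idempotent of a representation `A : G → R` of a finite group in a
  complex algebra; `mul_idem`, `idem_mul`, `idem_idem`, `idem_orth`, `comm_idem`, `idem_intertwine`,
  `idem_star` (self-adjointness for an invariant form), `idem_mulVec_iff`.
* `exists_frame` : frames `B' * B = 1`, `B * B' = e` of an idempotent matrix over a field.
* `exists_frame_int` : integral frames of a rational idempotent matrix.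
-/

set_option autoImplicit false

open Matrix Finset

namespace Crest.Agent.R276.Grp_591

section avg

variable {G : Type*} [Group G] [Fintype G] {R : Type*} [Ring R] [Algebra ℂ R]

/-- the `χ`-isotypic idempotent of `A : G → R` -/
noncomputable def idem (A : G → R) (χ : G →* ℂˣ) : R :=
  (Fintype.card G : ℂ)⁻¹ • ∑ g, (((χ g)⁻¹ : ℂˣ) : ℂ) • A g

variable {A : G → R} {χ : G →* ℂˣ}

theorem mul_idem (hA : ∀ g h, A (g * h) = A g * A h) (χ : G →* ℂˣ) (g : G) :
    A g * idem A χ = ((χ g : ℂˣ) : ℂ) • idem A χ := by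
  unfold idem
  rw [mul_smul_comm, Finset.mul_sum, smul_comm (((χ g : ℂˣ) : ℂ)) ((Fintype.card G : ℂ)⁻¹)]
  congr 1
  rw [Finset.smul_sum]
  refine Fintype.sum_equiv (Equiv.mulLeft g) _ _ (fun h => ?_)
  rw [Equiv.coe_mulLeft, mul_smul_comm, hA, smul_smul]
  congr 1
  rw [map_mul, mul_inv]
  push_cast
  rw [← mul_assoc, mul_inv_cancel₀ (Units.ne_zero _), one_mul]

theorem idem_mul (hA : ∀ g h, A (g * h) = A g * A h) (χ : G →* ℂˣ) (g : G) :
    idem A χ * A g = ((χ g : ℂˣ) : ℂ) • idem A χ := by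
  unfold idem
  rw [smul_mul_assoc, Finset.sum_mul, smul_comm (((χ g : ℂˣ) : ℂ)) ((Fintype.card G : ℂ)⁻¹)]
  congr 1
  rw [Finset.smul_sum]
  refine Fintype.sum_equiv (Equiv.mulRight g) _ _ (fun h => ?_)
  rw [Equiv.coe_mulRight, smul_mul_assoc, hA, smul_smul]
  congr 1
  rw [map_mul, mul_inv]
  push_cast
  rw [mul_comm ((χ g : ℂˣ) : ℂ), mul_assoc, inv_mul_cancel₀ (Units.ne_zero _), mul_one]

theorem idem_idem (hA : ∀ g h, A (g * h) = A g * A h) (χ : G →* ℂˣ) :
    idem A χ * idem A χ = idem A χ := by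
  conv_lhs => lhs; unfold idem
  rw [smul_mul_assoc, Finset.sum_mul]
  have : ∀ g ∈ (Finset.univ : Finset G), (((χ g)⁻¹ : ℂˣ) : ℂ) • A g * idem A χ = idem A χ := by
    intro g _
    rw [smul_mul_assoc, mul_idem hA, smul_smul]
    simp
  rw [Finset.sum_congr rfl this, Finset.sum_const, Finset.card_univ, ← Nat.cast_smul_eq_nsmul ℂ,
    smul_smul, inv_mul_cancel₀ (by exact_mod_cast Fintype.card_ne_zero), one_smul]

theorem idem_orth (hA : ∀ g h, A (g * h) = A g * A h) {χ ψ : G →* ℂˣ} (h : χ ≠ ψ) :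
    idem A χ * idem A ψ = 0 := by
  obtain ⟨g, hg⟩ : ∃ g, χ g ≠ ψ g := by
    by_contra hcon
    push Not at hcon
    exact h (MonoidHom.ext hcon)
  have h1 : ((χ g : ℂˣ) : ℂ) • (idem A χ * idem A ψ) = ((ψ g : ℂˣ) : ℂ) • (idem A χ * idem A ψ) := by
    rw [← smul_mul_assoc, ← idem_mul hA, mul_assoc, mul_idem hA, mul_smul_comm]
  have h2 : (((χ g : ℂˣ) : ℂ) - ((ψ g : ℂˣ) : ℂ)) • (idem A χ * idem A ψ) = 0 := by
    rw [sub_smul, h1, sub_self]
  have h3 : ((χ g : ℂˣ) : ℂ) - ((ψ g : ℂˣ) : ℂ) ≠ 0 := by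
    rw [sub_ne_zero]
    exact fun h => hg (Units.ext h)
  have h4 := congrArg (fun x => (((χ g : ℂˣ) : ℂ) - ((ψ g : ℂˣ) : ℂ))⁻¹ • x) h2
  simpa [smul_smul, inv_mul_cancel₀ h3] using h4

theorem comm_idem {a : R} (h : ∀ g, a * A g = A g * a) : a * idem A χ = idem A χ * a := by
  unfold idem
  rw [mul_smul_comm, smul_mul_assoc, Finset.mul_sum, Finset.sum_mul]
  congr 1
  exact Finset.sum_congr rfl (fun g _ => by rw [mul_smul_comm, smul_mul_assoc, h])

theorem idem_congr {A' : G → R} (h : ∀ g, A g = A' g) : idem A χ = idem A' χ := by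
  rw [show A = A' from funext h]

end avg

section mat

variable {G : Type*} [Group G] [Fintype G] {n m : Type*} [Fintype n] [DecidableEq n]
  [Fintype m] [DecidableEq m]

theorem idem_intertwine {A : G → Matrix n n ℂ} {A' : G → Matrix m m ℂ} {χ : G →* ℂˣ}
    {P : Matrix n m ℂ} (h : ∀ g, A g * P = P * A' g) : idem A χ * P = P * idem A' χ := by
  unfold idem
  rw [Matrix.mul_smul, Matrix.smul_mul, Matrix.sum_mul, Matrix.mul_sum]
  congr 1
  exact Finset.sum_congr rfl (fun g _ => by rw [Matrix.mul_smul, Matrix.smul_mul, h])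

theorem char_norm (χ : G →* ℂˣ) (g : G) : star ((χ g : ℂˣ) : ℂ) = (((χ g)⁻¹ : ℂˣ) : ℂ) := by
  have h1 : ((χ g : ℂˣ) : ℂ) ^ (Fintype.card G) = 1 := by
    rw [← Units.val_pow_eq_pow_val, ← map_pow, pow_card_eq_one, map_one, Units.val_one]
  have h2 : ‖((χ g : ℂˣ) : ℂ)‖ = 1 := by
    have h3 : ‖((χ g : ℂˣ) : ℂ)‖ ^ (Fintype.card G) = 1 := by
      rw [← norm_pow, h1, norm_one]
    exact (pow_eq_one_iff_of_nonneg (norm_nonneg _) Fintype.card_ne_zero).1 h3
  rw [Units.val_inv_eq_inv_val, Complex.inv_def, Complex.normSq_eq_norm_sq, h2]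
  simp

/-- self-adjointness of the isotypic idempotent for an invariant form -/
theorem idem_star {A : G → Matrix n n ℂ} (hA1 : A 1 = 1) (hA : ∀ g h, A (g * h) = A g * A h)
    {S : Matrix n n ℂ} (hS : ∀ g, (A g)ᴴ * S * A g = S) (χ : G →* ℂˣ) :
    (idem A χ)ᴴ * S = S * idem A χ := by
  have h1 : ∀ g, (A g)ᴴ * S = S * A g⁻¹ := by
    intro g
    conv_rhs => rw [← hS g]
    rw [Matrix.mul_assoc _ (A g), ← hA, mul_inv_cancel, hA1, Matrix.mul_one]
  unfold idem
  rw [conjTranspose_smul, conjTranspose_sum, Matrix.smul_mul, Matrix.mul_smul, Matrix.sum_mul,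
    Matrix.mul_sum]
  have h0 : star ((Fintype.card G : ℂ)⁻¹) = (Fintype.card G : ℂ)⁻¹ := by
    simp
  rw [h0]
  congr 1
  refine Fintype.sum_equiv (Equiv.inv G) _ _ (fun g => ?_)
  rw [conjTranspose_smul, Matrix.smul_mul, h1, Matrix.mul_smul, Equiv.inv_apply]
  congr 1
  rw [← char_norm, star_star, map_inv, inv_inv]

/-- the image of the isotypic idempotent is the `χ`-eigenspace -/
theorem idem_mulVec_iff {A : G → Matrix n n ℂ} (hA : ∀ g h, A (g * h) = A g * A h)
    (χ : G →* ℂˣ) (v : n → ℂ) :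
    idem A χ *ᵥ v = v ↔ ∀ g, A g *ᵥ v = ((χ g : ℂˣ) : ℂ) • v := by
  constructor
  · intro h g
    conv_lhs => rw [← h, mulVec_mulVec, mul_idem hA, smul_mulVec, h]
  · intro h
    unfold idem
    rw [smul_mulVec, sum_mulVec]
    have : ∀ g ∈ (Finset.univ : Finset G), ((((χ g)⁻¹ : ℂˣ) : ℂ) • A g) *ᵥ v = v := by
      intro g _
      rw [smul_mulVec, h, smul_smul]
      simp
    rw [Finset.sum_congr rfl this, Finset.sum_const, Finset.card_univ,
      ← Nat.cast_smul_eq_nsmul ℂ, smul_smul,
      inv_mul_cancel₀ (by exact_mod_cast Fintype.card_ne_zero), one_smul]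

end mat

section frame

variable {K : Type*} [Field K] {n : Type*} [Fintype n] [DecidableEq n]

/-- if the columns of `B` form a basis of the range of the idempotent `e`, there is `B'` -/
theorem exists_coframe {d : ℕ} {e : Matrix n n K} (he : e * e = e) (B : Matrix n (Fin d) K)
    (hli : LinearIndependent K B.col)
    (hsp : Submodule.span K (Set.range B.col) = LinearMap.range (Matrix.toLin' e)) :
    ∃ B' : Matrix (Fin d) n K, B' * B = 1 ∧ B * B' = e := by
  classical
  have hcol : ∀ i, ∃ c : Fin d → K, B *ᵥ c = e.col i := by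
    intro i
    have h1 : e.col i ∈ Submodule.span K (Set.range B.col) := by
      rw [hsp]
      exact ⟨Pi.single i 1, by rw [toLin'_apply, mulVec_single_one]⟩
    rw [Submodule.mem_span_range_iff_exists_fun] at h1
    obtain ⟨c, hc⟩ := h1
    refine ⟨c, ?_⟩
    rw [← hc]
    ext k
    simp [mulVec, dotProduct, mul_comm]
  choose c hc using hcol
  let B' : Matrix (Fin d) n K := Matrix.of (fun j i => c i j)
  have h1 : B * B' = e := by
    ext k i
    have := congrFun (hc i) k
    simpa [Matrix.mul_apply, mulVec, dotProduct, B'] using this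
  have hinj : Function.Injective (fun v : Fin d → K => B *ᵥ v) := by
    rw [mulVec_injective_iff]
    exact hli
  have heB : e * B = B := by
    ext k j
    have h2 : B.col j ∈ LinearMap.range (Matrix.toLin' e) := by
      rw [← hsp]
      exact Submodule.subset_span ⟨j, rfl⟩
    obtain ⟨v, hv⟩ := h2
    rw [toLin'_apply] at hv
    have h3 : e *ᵥ B.col j = B.col j := by
      rw [← hv, mulVec_mulVec, he]
    have h4 := congrFun h3 k
    simpa [Matrix.mul_apply, mulVec, dotProduct] using h4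
  refine ⟨B', ?_, h1⟩
  have h5 : ∀ v : Fin d → K, (B' * B) *ᵥ v = v := by
    intro v
    apply hinj
    simp only
    rw [mulVec_mulVec, ← Matrix.mul_assoc, h1, heB]
  ext i j
  have h6 := congrFun (h5 (Pi.single j 1)) i
  rw [mulVec_single_one] at h6
  rw [Matrix.one_apply, Pi.single_apply] at *
  simpa using h6

/-- frames of an idempotent matrix -/
theorem exists_frame {e : Matrix n n K} (he : e * e = e) :
    ∃ (B : Matrix n (Fin e.rank) K) (B' : Matrix (Fin e.rank) n K), B' * B = 1 ∧ B * B' = e := by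
  classical
  let W := LinearMap.range (Matrix.toLin' e)
  have hr : Module.finrank K W = e.rank := by
    rw [Matrix.rank, ← Matrix.toLin'_apply']
  let b : Module.Basis (Fin e.rank) K W := Module.finBasisOfFinrankEq K W hr
  let B : Matrix n (Fin e.rank) K := Matrix.of (fun i j => (b j : n → K) i)
  have hcol : B.col = fun j => (b j : n → K) := by
    ext j i
    rfl
  have hli : LinearIndependent K B.col := by
    rw [hcol]
    exact b.linearIndependent.map' W.subtype (Submodule.ker_subtype W)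
  have hsp : Submodule.span K (Set.range B.col) = LinearMap.range (Matrix.toLin' e) := by
    rw [hcol]
    have h1 : (Set.range fun j => (b j : n → K)) = W.subtype '' (Set.range b) := by
      rw [← Set.range_comp]
      rfl
    rw [h1, Submodule.span_image, b.span_eq, Submodule.map_top, Submodule.range_subtype]
  obtain ⟨B', h1, h2⟩ := exists_coframe he B hli hsp
  exact ⟨B, B', h1, h2⟩

end frame

end Crest.Agent.R276.Grp_591
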