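import Crest.Agent.R276.Grp1_591

/-!
# R276, leaf IPC-GRP (helper591), part 2: integral frames of rational idempotents
-/

set_option autoImplicit false

open Matrix Finset

namespace Crest.Agent.R276.Grp_591

variable {n : Type*} [Fintype n] [DecidableEq n]

/-- the lattice of integral vectors fixed by `e` -/
def fixLat (e : Matrix n n ℚ) : Submodule ℤ (n → ℤ) where
  carrier := {v | e *ᵥ (fun i => (v i : ℚ)) = fun i => (v i : ℚ)}
  add_mem' := by
    intro a b ha hb
    simp only [Set.mem_ofPred_eq] at *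
    have : (fun i => (((a + b) i : ℤ) : ℚ)) = (fun i => ((a i : ℤ) : ℚ)) + fun i => ((b i : ℤ) : ℚ) := by
      ext i; simp
    rw [this, mulVec_add, ha, hb]
  zero_mem' := by
    simp only [Set.mem_ofPred_eq, Pi.zero_apply, Int.cast_zero]
    exact mulVec_zero e
  smul_mem' := by
    intro c v hv
    simp only [Set.mem_ofPred_eq] at *
    have : (fun i => (((c • v) i : ℤ) : ℚ)) = (c : ℚ) • (fun i => ((v i : ℤ) : ℚ)) := by
      ext i; simp
    rw [this, mulVec_smul, hv]

omit [DecidableEq n] in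
theorem mem_fixLat {e : Matrix n n ℚ} {v : n → ℤ} :
    v ∈ fixLat e ↔ e *ᵥ (fun i => (v i : ℚ)) = fun i => (v i : ℚ) := Iff.rfl

/-- clear denominators of a rational vector -/
theorem exists_clear (w : n → ℚ) : ∃ (N : ℕ) (v : n → ℤ), N ≠ 0 ∧
    (fun i => (v i : ℚ)) = (N : ℚ) • w := by
  classical
  refine ⟨∏ i, (w i).den, fun i => (w i).num * ∏ j ∈ Finset.univ.erase i, ((w j).den : ℤ), ?_, ?_⟩
  · exact Finset.prod_ne_zero_iff.2 (fun i _ => (w i).den_nz)
  · ext i
    simp only [Pi.smul_apply, smul_eq_mul]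
    rw [← Finset.mul_prod_erase _ _ (Finset.mem_univ i)]
    push_cast
    conv_rhs => rw [mul_comm ((w i).den : ℚ), mul_assoc, mul_comm ((w i).den : ℚ), Rat.mul_den_eq_num]
    ring

/-- integral frames of a rational idempotent: `B` integral, `B'` rational, `B' * B = 1`,
`B * B' = e` and the columns of `B` generate the lattice of integral vectors fixed by `e`. -/
theorem exists_frame_int {e : Matrix n n ℚ} (he : e * e = e) :
    ∃ (B : Matrix n (Fin e.rank) ℤ) (B' : Matrix (Fin e.rank) n ℚ),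
      B' * B.map (Int.cast : ℤ → ℚ) = 1 ∧ B.map (Int.cast : ℤ → ℚ) * B' = e ∧
      ∀ v : n → ℤ, v ∈ fixLat e → ∃ c : Fin e.rank → ℤ, B *ᵥ c = v := by
  classical
  obtain ⟨d, b⟩ := Submodule.basisOfPid (Pi.basisFun ℤ n) (fixLat e)
  let B₀ : Matrix n (Fin d) ℤ := Matrix.of (fun i j => (b j : n → ℤ) i)
  let φ : (n → ℤ) →ₗ[ℤ] (n → ℚ) := 
    { toFun := fun v i => (v i : ℚ)
      map_add' := by intro a b; ext i; simp
      map_smul' := by intro a b; ext i; simp }
  have hφ : Function.Injective φ := by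
    intro a b hab
    ext i
    have := congrFun hab i
    simpa [φ] using this
  have hcol : (B₀.map (Int.cast : ℤ → ℚ)).col = fun j => φ (b j : n → ℤ) := by
    ext j i
    rfl
  have hliZ : LinearIndependent ℤ (B₀.map (Int.cast : ℤ → ℚ)).col := by
    rw [hcol]
    have h1 := b.linearIndependent.map' (fixLat e).subtype (Submodule.ker_subtype _)
    exact h1.map' φ (LinearMap.ker_eq_bot.2 hφ)
  have hli : LinearIndependent ℚ (B₀.map (Int.cast : ℤ → ℚ)).col :=
    (LinearIndependent.iff_fractionRing ℤ ℚ).1 hliZ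
  have hsp : Submodule.span ℚ (Set.range (B₀.map (Int.cast : ℤ → ℚ)).col)
      = LinearMap.range (Matrix.toLin' e) := by
    apply le_antisymm
    · rw [Submodule.span_le]
      rintro _ ⟨j, rfl⟩
      rw [hcol]
      refine ⟨φ (b j), ?_⟩
      rw [toLin'_apply]
      exact (mem_fixLat.1 (b j).2)
    · rintro _ ⟨w, rfl⟩
      rw [toLin'_apply]
      obtain ⟨N, v, hN, hv⟩ := exists_clear (e *ᵥ w)
      have hvmem : v ∈ fixLat e := by
        rw [mem_fixLat, hv, mulVec_smul, mulVec_mulVec, he]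
      have h2 : φ v ∈ Submodule.span ℚ (Set.range (B₀.map (Int.cast : ℤ → ℚ)).col) := by
        have h3 := b.sum_repr ⟨v, hvmem⟩
        have h4 := congrArg (fun x : fixLat e => φ (x : n → ℤ)) h3
        simp only [Submodule.coe_sum, map_sum, Submodule.coe_smul, map_smul] at h4
        rw [← h4]
        refine Submodule.sum_mem _ (fun j _ => ?_)
        rw [← Int.cast_smul_eq_zsmul ℚ]
        refine Submodule.smul_mem _ _ (Submodule.subset_span ⟨j, ?_⟩)
        rw [hcol]
      have h5 : e *ᵥ w = (N : ℚ)⁻¹ • φ v := by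
        have : φ v = (N : ℚ) • (e *ᵥ w) := hv
        rw [this, smul_smul, inv_mul_cancel₀ (by exact_mod_cast hN), one_smul]
      rw [h5]
      exact Submodule.smul_mem _ _ h2
  have hd : d = e.rank := by
    have h1 := finrank_span_eq_card hli
    rw [hsp] at h1
    rw [Matrix.rank, ← Matrix.toLin'_apply', h1, Fintype.card_fin]
  subst hd
  obtain ⟨B', h1, h2⟩ := exists_coframe he _ hli hsp
  refine ⟨B₀, B', h1, h2, fun v hv => ⟨fun j => b.repr ⟨v, hv⟩ j, ?_⟩⟩
  have h3 := congrArg (fun x : fixLat e => (x : n → ℤ)) (b.sum_repr ⟨v, hv⟩)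
  simp only [Submodule.coe_sum, Submodule.coe_smul] at h3
  ext i
  have h4 := congrFun h3 i
  rw [← h4]
  simp [mulVec, dotProduct, B₀, Finset.sum_apply, mul_comm]

end Crest.Agent.R276.Grp_591
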