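import Crest.Agent.R276.VCalc_442

/-!
# R276, leaf VCalc (helper442): the grading operator equation and its consequences

`E : X → R` (values in a normed algebra) with `[E, ∂_v E] = -∂_v E` and `[E, ∂̄_v E] = ∂̄_v E`.
`θ_v = ∂_v E`, `θ̄_v = -∂̄_v E`.
-/

set_option autoImplicit false

open Set Filter Topology
open scoped ContDiff ComplexConjugate

namespace Crest.Agent.R276.VCalc_442

variable {X : Type*} [NormedAddCommGroup X] [NormedSpace ℂ X]
variable {R : Type*} [NormedRing R] [NormedAlgebra ℂ R]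

/-- the grading operator equation on `U` -/
structure Gr (U : Set X) (E : X → R) : Prop where
  op : IsOpen U
  sm : ContDiffOn ℝ ∞ E U
  hW : ∀ x ∈ U, ∀ v, E x * dW E v x - dW E v x * E x = - dW E v x
  hB : ∀ x ∈ U, ∀ v, E x * dB E v x - dB E v x * E x = dB E v x

/-- `θ̄_v` -/
noncomputable def tb (E : X → R) (v : X) (x : X) : R := - dB E v x

namespace Gr

variable {U : Set X} {E : X → R} {x : X}

theorem sm_th (h : Gr U E) (v : X) : ContDiffOn ℝ ∞ (dW E v) U := contDiffOn_dW h.op h.sm v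

theorem sm_dB (h : Gr U E) (v : X) : ContDiffOn ℝ ∞ (dB E v) U := contDiffOn_dB h.op h.sm v

theorem sm_tb (h : Gr U E) (v : X) : ContDiffOn ℝ ∞ (tb E v) U := (h.sm_dB v).neg

theorem c2 (h : Gr U E) (hx : x ∈ U) : ContDiffAt ℝ 2 E x :=
  (h.sm.contDiffAt (h.op.mem_nhds hx)).of_le ENat.LEInfty.out

theorem c2_th (h : Gr U E) (hx : x ∈ U) (v : X) : ContDiffAt ℝ 2 (dW E v) x :=
  ((h.sm_th v).contDiffAt (h.op.mem_nhds hx)).of_le ENat.LEInfty.out

theorem c2_tb (h : Gr U E) (hx : x ∈ U) (v : X) : ContDiffAt ℝ 2 (tb E v) x :=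
  ((h.sm_tb v).contDiffAt (h.op.mem_nhds hx)).of_le ENat.LEInfty.out

theorem d0 (h : Gr U E) (hx : x ∈ U) : DifferentiableAt ℝ E x := diffAt h.op h.sm hx

theorem d_th (h : Gr U E) (hx : x ∈ U) (v : X) : DifferentiableAt ℝ (dW E v) x :=
  diffAt h.op (h.sm_th v) hx

theorem d_dB (h : Gr U E) (hx : x ∈ U) (v : X) : DifferentiableAt ℝ (dB E v) x :=
  diffAt h.op (h.sm_dB v) hx

theorem d_tb (h : Gr U E) (hx : x ∈ U) (v : X) : DifferentiableAt ℝ (tb E v) x :=
  diffAt h.op (h.sm_tb v) hx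

theorem evEq {f g : X → R} (h : Gr U E) (hx : x ∈ U) (hfg : ∀ y ∈ U, f y = g y) : f =ᶠ[𝓝 x] g :=
  (h.op.mem_nhds hx) |> fun hm => Filter.eventually_of_mem hm hfg

theorem sym_th (h : Gr U E) (hx : x ∈ U) (v w : X) :
    dW (dW E v) w x = dW (dW E w) v x := dW_dW (h.c2 hx) v w

/-- first differentiated relation -/
theorem rel1 (h : Gr U E) (hx : x ∈ U) (v w : X) :
    dW E w x * dW E v x + E x * dW (dW E v) w x -
      (dW (dW E v) w x * E x + dW E v x * dW E w x) = - dW (dW E v) w x := by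
  have h1 := dW_congr (h.evEq hx (fun y hy => h.hW y hy v)) w
  rw [dW_sub ((h.d0 hx).fun_mul (h.d_th hx v)) ((h.d_th hx v).fun_mul (h.d0 hx)),
    dW_mul (h.d0 hx) (h.d_th hx v), dW_mul (h.d_th hx v) (h.d0 hx), dW_neg] at h1
  exact h1

/-- `[θ_v, θ_w] = 0` -/
theorem th_comm (h : Gr U E) (hx : x ∈ U) (v w : X) :
    dW E v x * dW E w x = dW E w x * dW E v x := by
  have h1 := h.rel1 hx v w
  have h2 := h.rel1 hx w v
  rw [h.sym_th hx w v] at h2
  have h3 : (2 : ℂ) • (dW E v x * dW E w x) = (2 : ℂ) • (dW E w x * dW E v x) := by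
    rw [two_smul, two_smul]
    have h4 := congrArg₂ (· - ·) h2 h1
    simp only [sub_self] at h4
    rw [← sub_eq_zero, ← h4]
    abel
  exact smul_right_injective _ (two_ne_zero) h3

theorem rel1b (h : Gr U E) (hx : x ∈ U) (v w : X) :
    dB E w x * dB E v x + E x * dB (dB E v) w x -
      (dB (dB E v) w x * E x + dB E v x * dB E w x) = dB (dB E v) w x := by
  have h1 := dB_congr (h.evEq hx (fun y hy => h.hB y hy v)) w
  rw [dB_sub ((h.d0 hx).fun_mul (h.d_dB hx v)) ((h.d_dB hx v).fun_mul (h.d0 hx)),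
    dB_mul (h.d0 hx) (h.d_dB hx v), dB_mul (h.d_dB hx v) (h.d0 hx)] at h1
  exact h1

/-- `[θ̄_v, θ̄_w] = 0` -/
theorem dB_comm (h : Gr U E) (hx : x ∈ U) (v w : X) :
    dB E v x * dB E w x = dB E w x * dB E v x := by
  have h1 := h.rel1b hx v w
  have h2 := h.rel1b hx w v
  rw [dB_dB (h.c2 hx) w v] at h2
  have h3 : (2 : ℂ) • (dB E v x * dB E w x) = (2 : ℂ) • (dB E w x * dB E v x) := by
    rw [two_smul, two_smul]
    have h4 := congrArg₂ (· - ·) h2 h1
    simp only [sub_self] at h4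
    rw [← sub_eq_zero, ← h4]
    abel
  exact smul_right_injective _ (two_ne_zero) h3

theorem tb_comm (h : Gr U E) (hx : x ∈ U) (v w : X) :
    tb E v x * tb E w x = tb E w x * tb E v x := by
  simp only [tb, neg_mul_neg]
  exact h.dB_comm hx v w

/-- `[E, ∂_w θ_v] = -∂_w θ_v` -/
theorem deg_dth (h : Gr U E) (hx : x ∈ U) (v w : X) :
    E x * dW (dW E v) w x - dW (dW E v) w x * E x = - dW (dW E v) w x := by
  have h1 := h.rel1 hx v w
  rw [h.th_comm hx w v] at h1
  rw [← h1]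
  abel

theorem deg_tb (h : Gr U E) (hx : x ∈ U) (v : X) :
    E x * tb E v x - tb E v x * E x = tb E v x := by
  have h1 := h.hB x hx v
  simp only [tb, mul_neg, neg_mul]
  rw [← sub_eq_zero] at h1 ⊢
  rw [← neg_eq_zero, ← h1]
  abel

/-- `∂̄_w θ_v = [θ̄_w, θ_v]` -/
theorem dB_th (h : Gr U E) (hx : x ∈ U) (v w : X) :
    dB (dW E v) w x = tb E w x * dW E v x - dW E v x * tb E w x := by
  have h1 := dB_congr (h.evEq hx (fun y hy => h.hW y hy v)) w
  rw [dB_sub ((h.d0 hx).fun_mul (h.d_th hx v)) ((h.d_th hx v).fun_mul (h.d0 hx)),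
    dB_mul (h.d0 hx) (h.d_th hx v), dB_mul (h.d_th hx v) (h.d0 hx), dB_neg] at h1
  have h2 := dW_congr (h.evEq hx (fun y hy => h.hB y hy w)) v
  rw [dW_sub ((h.d0 hx).fun_mul (h.d_dB hx w)) ((h.d_dB hx w).fun_mul (h.d0 hx)),
    dW_mul (h.d0 hx) (h.d_dB hx w), dW_mul (h.d_dB hx w) (h.d0 hx), dW_dB (h.c2 hx)] at h2
  have h3 := congrArg₂ (· - ·) h1 h2
  simp only [tb]
  have h4 : (2 : ℂ) • dB (dW E v) w x =
      (2 : ℂ) • (-dB E w x * dW E v x - dW E v x * -dB E w x) := by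
    rw [two_smul, two_smul]
    have h5 : dB (dW E v) w x + dB (dW E v) w x =
      -(- dB (dW E v) w x - dB (dW E v) w x) := by abel
    rw [h5, ← h3]
    simp only [neg_mul, mul_neg]
    abel
  exact smul_right_injective _ (two_ne_zero) h4

/-- `∂_w θ̄_v = [θ_w, θ̄_v]` -/
theorem dW_tb (h : Gr U E) (hx : x ∈ U) (v w : X) :
    dW (tb E v) w x = dW E w x * tb E v x - tb E v x * dW E w x := by
  have h1 : dW (tb E v) w x = - dB (dW E w) v x := by
    have : tb E v = fun y => - dB E v y := rfl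
    rw [this, dW_neg, dW_dB (h.c2 hx)]
  rw [h1, h.dB_th hx w v]
  abel

/-- `∂̄_v (∂_v θ_i)` -/
theorem dB_dW_th (h : Gr U E) (hx : x ∈ U) (i v : X) :
    dB (dW (dW E i) v) v x =
      (dW E v x * tb E v x - tb E v x * dW E v x) * dW E i x
        - dW E i x * (dW E v x * tb E v x - tb E v x * dW E v x)
        + (tb E v x * dW (dW E i) v x - dW (dW E i) v x * tb E v x) := by
  rw [← dW_dB (h.c2_th hx i) v v]
  have h1 := dW_congr (h.evEq hx (fun y hy => h.dB_th hy i v)) v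
  rw [h1, dW_sub ((h.d_tb hx v).fun_mul (h.d_th hx i)) ((h.d_th hx i).fun_mul (h.d_tb hx v)),
    dW_mul (h.d_tb hx v) (h.d_th hx i), dW_mul (h.d_th hx i) (h.d_tb hx v), h.dW_tb hx v v]
  abel

section trace

variable (tr : R →L[ℂ] ℂ) (htr : ∀ a b, tr (a * b) = tr (b * a))

include htr

theorem dW_G (h : Gr U E) (hx : x ∈ U) (i j v : X) :
    dW (fun y => tr (dW E i y * tb E j y)) v x = tr (dW (dW E i) v x * tb E j x) := by
  rw [dW_clm tr ((h.d_th hx i).fun_mul (h.d_tb hx j)), dW_mul (h.d_th hx i) (h.d_tb hx j),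
    h.dW_tb hx j v, map_add, mul_sub, map_sub, ← mul_assoc, htr (dW E i x) (tb E j x * dW E v x),
    mul_assoc (tb E j x), htr (tb E j x), h.th_comm hx v i]
  ring

theorem dB_G (h : Gr U E) (hx : x ∈ U) (i j v : X) :
    dB (fun y => tr (dW E i y * tb E j y)) v x = tr (dW E i x * dB (tb E j) v x) := by
  rw [dB_clm tr ((h.d_th hx i).fun_mul (h.d_tb hx j)), dB_mul (h.d_th hx i) (h.d_tb hx j),
    h.dB_th hx i v, map_add, sub_mul, map_sub, mul_assoc (tb E v x), htr (tb E v x),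
    mul_assoc (dW E i x), mul_assoc (dW E i x), h.tb_comm hx v j]
  ring

/-- **the second derivative of `g_{i j̄} = tr (θ_i θ̄_j)`** -/
theorem dB_dW_G (h : Gr U E) (hx : x ∈ U) (i j v : X) :
    dB (dW (fun y => tr (dW E i y * tb E j y)) v) v x =
      tr ((tb E v x * dW E i x - dW E i x * tb E v x) *
        (tb E j x * dW E v x - dW E v x * tb E j x)) +
      tr (dW (dW E i) v x * dB (tb E j) v x) := by
  have hd2 : DifferentiableAt ℝ (dW (dW E i) v) x :=
    diffAt h.op (contDiffOn_dW h.op (h.sm_th i) v) hx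
  have h0 : dW (fun y => tr (dW E i y * tb E j y)) v =ᶠ[𝓝 x]
      fun y => tr (dW (dW E i) v y * tb E j y) :=
    Filter.eventually_of_mem (h.op.mem_nhds hx) (fun y hy => h.dW_G tr htr hy i j v)
  rw [dB_congr h0 v, dB_clm tr (hd2.fun_mul (h.d_tb hx j)), dB_mul hd2 (h.d_tb hx j),
    h.dB_dW_th hx i v, map_add]
  congr 1
  have hc := h.th_comm hx i v
  have hc2 := h.tb_comm hx v j
  set t := dW E v x
  set s := tb E v x
  set a := dW E i x
  set b := tb E j x
  set e := dW (dW E i) v x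
  have e1 : ((t * s - s * t) * a - a * (t * s - s * t) + (s * e - e * s)) * b =
      t * (s * a * b) - s * (t * a) * b - (a * t) * s * b + a * s * t * b + s * (e * b)
        - e * (s * b) := by noncomm_ring
  have e2 : (s * a - a * s) * (b * t - t * b) =
      s * a * b * t - s * (a * t) * b - a * (s * b) * t + a * s * t * b := by noncomm_ring
  rw [e1, e2]
  simp only [map_add, map_sub]
  rw [hc, hc2, htr s (e * b), htr t (s * a * b), ← hc, htr (a * (b * s)) t]
  have e3 : t * (a * (b * s)) = (t * a) * (b * s) := by noncomm_ring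
  have e4 : a * t * s * b = (a * t) * (s * b) := by noncomm_ring
  rw [e3, e4, hc2, ← hc, mul_assoc e b s]
  ring

end trace

end Gr

end Crest.Agent.R276.VCalc_442
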