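import Crest.Agent.R276.Grp2_591
import Crest.Agent.R276.VCalcA_442

/-!
# R276, leaf IPC-GRP (helper591), part 3: corners (flat sub-objects cut out by a flat idempotent)

Data in pointwise frames: `P : X → X → Matrix n n ℂ` near-diagonal cocycle, `e : X → Matrix n n ℂ` a flat
idempotent, frames `B x`, `B' x` of `e x`; `corP B' B P x y = B' x * P x y * B y`.
-/

set_option autoImplicit false
set_option linter.unusedSectionVars false

open Matrix Finset Topology Filter
open scoped ContDiff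

namespace Crest.Agent.R276.Grp_591

section loc

variable {X : Type*} [TopologicalSpace X] {K : Type*} [Field K]
variable {n m l : Type*} [Fintype n] [DecidableEq n] [Fintype m] [DecidableEq m]
  [Fintype l] [DecidableEq l]

/-- near-diagonal cocycle of matrices -/
def MDC (P : X → X → Matrix n n K) : Prop :=
  ∀ z, ∃ U ∈ 𝓝 z, ∀ x ∈ U, ∀ y ∈ U, ∀ w ∈ U, P x y * P y w = P x w

/-- flat homomorphism from `Q` to `P` (near the diagonal `a x * Q x y = P x y * a y`) -/
def FlatHom (P : X → X → Matrix n n K) (Q : X → X → Matrix m m K) (a : X → Matrix n m K) : Prop :=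
  ∀ z, ∃ U ∈ 𝓝 z, ∀ x ∈ U, ∀ y ∈ U, a x * Q x y = P x y * a y

theorem FlatHom.comp {P : X → X → Matrix n n K} {Q : X → X → Matrix m m K}
    {R : X → X → Matrix l l K} {a : X → Matrix n m K} {b : X → Matrix m l K}
    (ha : FlatHom P Q a) (hb : FlatHom Q R b) : FlatHom P R (fun x => a x * b x) := by
  intro z
  obtain ⟨U, hU, h1⟩ := ha z
  obtain ⟨V, hV, h2⟩ := hb z
  refine ⟨U ∩ V, Filter.inter_mem hU hV, fun x hx y hy => ?_⟩
  rw [Matrix.mul_assoc, h2 x hx.2 y hy.2, ← Matrix.mul_assoc, h1 x hx.1 y hy.1, Matrix.mul_assoc]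

omit [DecidableEq n] [DecidableEq m] in
theorem FlatHom.add {P : X → X → Matrix n n K} {Q : X → X → Matrix m m K}
    {a b : X → Matrix n m K} (ha : FlatHom P Q a) (hb : FlatHom P Q b) :
    FlatHom P Q (fun x => a x + b x) := by
  intro z
  obtain ⟨U, hU, h1⟩ := ha z
  obtain ⟨V, hV, h2⟩ := hb z
  refine ⟨U ∩ V, Filter.inter_mem hU hV, fun x hx y hy => ?_⟩
  rw [Matrix.add_mul, Matrix.mul_add, h1 x hx.1 y hy.1, h2 x hx.2 y hy.2]

omit [DecidableEq n] [DecidableEq m] in
theorem FlatHom.smul {P : X → X → Matrix n n K} {Q : X → X → Matrix m m K}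
    {a : X → Matrix n m K} (c : K) (ha : FlatHom P Q a) : FlatHom P Q (fun x => c • a x) := by
  intro z
  obtain ⟨U, hU, h1⟩ := ha z
  exact ⟨U, hU, fun x hx y hy => by rw [Matrix.smul_mul, Matrix.mul_smul, h1 x hx y hy]⟩

omit [DecidableEq n] [DecidableEq m] in
theorem FlatHom.zero {P : X → X → Matrix n n K} {Q : X → X → Matrix m m K} :
    FlatHom P Q (fun _ => (0 : Matrix n m K)) :=
  fun z => ⟨Set.univ, Filter.univ_mem, fun x _ y _ => by simp⟩

omit [DecidableEq n] [DecidableEq m] in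
theorem FlatHom.sum {ι : Type*} (s : Finset ι) {P : X → X → Matrix n n K}
    {Q : X → X → Matrix m m K} {a : ι → X → Matrix n m K} (ha : ∀ i ∈ s, FlatHom P Q (a i)) :
    FlatHom P Q (fun x => ∑ i ∈ s, a i x) := by
  classical
  induction s using Finset.induction_on with
  | empty => simpa using FlatHom.zero
  | insert i s hi ih =>
    simp only [Finset.sum_insert hi]
    exact (ha i (Finset.mem_insert_self _ _)).add
      (ih (fun j hj => ha j (Finset.mem_insert_of_mem hj)))

/-- flat Hermitian form -/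
def FlatForm (P : X → X → Matrix n n ℂ) (S : X → Matrix n n ℂ) : Prop :=
  ∀ z, ∃ U ∈ 𝓝 z, ∀ x ∈ U, ∀ y ∈ U, (P x y)ᴴ * S x * P x y = S y

/-- the corner cocycle -/
def corP (B' : X → Matrix m n K) (B : X → Matrix n m K) (P : X → X → Matrix n n K) :
    X → X → Matrix m m K := fun x y => B' x * P x y * B y

/-- the corner of a flat section of endomorphisms -/
def corE (B' : X → Matrix m n K) (B : X → Matrix n m K) (E : X → Matrix n n K) :
    X → Matrix m m K := fun x => B' x * E x * B x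

/-- the corner of a form -/
def corS (B : X → Matrix n m ℂ) (S : X → Matrix n n ℂ) : X → Matrix m m ℂ :=
  fun x => (B x)ᴴ * S x * B x

variable {B' : X → Matrix m n K} {B : X → Matrix n m K} {e : X → Matrix n n K}

omit [TopologicalSpace X] in
theorem eB (h1 : ∀ x, B' x * B x = 1) (h2 : ∀ x, B x * B' x = e x) (x : X) : e x * B x = B x := by
  rw [← h2, Matrix.mul_assoc, h1, Matrix.mul_one]

omit [TopologicalSpace X] in
theorem B'e (h1 : ∀ x, B' x * B x = 1) (h2 : ∀ x, B x * B' x = e x) (x : X) :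
    B' x * e x = B' x := by
  rw [← h2, ← Matrix.mul_assoc, h1, Matrix.one_mul]

omit [TopologicalSpace X] in
theorem ee (h1 : ∀ x, B' x * B x = 1) (h2 : ∀ x, B x * B' x = e x) (x : X) :
    e x * e x = e x := by
  conv_lhs => rhs; rw [← h2]
  rw [← Matrix.mul_assoc, eB h1 h2, h2]

theorem corP_mul {P : X → X → Matrix n n K} (h1 : ∀ x, B' x * B x = 1)
    (h2 : ∀ x, B x * B' x = e x) {x y w : X}
    (he : e x * P x y = P x y * e y) (hP : P x y * P y w = P x w) :
    corP B' B P x y * corP B' B P y w = corP B' B P x w := by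
  unfold corP
  have : B' x * P x y * B y * (B' y * P y w * B w) = B' x * P x y * (B y * B' y) * P y w * B w := by
    simp only [Matrix.mul_assoc]
  rw [this, h2, Matrix.mul_assoc (B' x) (P x y) (e y), ← he, ← Matrix.mul_assoc, B'e h1 h2,
    Matrix.mul_assoc (B' x) (P x y), hP]

/-- the corner cocycle is a near-diagonal cocycle -/
theorem MDC.cor {P : X → X → Matrix n n K} (hP : MDC P) (h1 : ∀ x, B' x * B x = 1)
    (h2 : ∀ x, B x * B' x = e x) (he : FlatHom P P e) : MDC (corP B' B P) := by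
  intro z
  obtain ⟨U, hU, hc⟩ := hP z
  obtain ⟨V, hV, hd⟩ := he z
  exact ⟨U ∩ V, Filter.inter_mem hU hV, fun x hx y hy w hw =>
    corP_mul h1 h2 (hd x hx.2 y hy.2) (hc x hx.1 y hy.1 w hw.1)⟩

theorem corP_self {P : X → X → Matrix n n K} (h1 : ∀ x, B' x * B x = 1) {x : X}
    (hP : P x x = 1) : corP B' B P x x = 1 := by
  unfold corP
  rw [hP, Matrix.mul_one, h1]

/-- `B` is a flat homomorphism from the corner -/
theorem flatHom_B {P : X → X → Matrix n n K} (h1 : ∀ x, B' x * B x = 1)
    (h2 : ∀ x, B x * B' x = e x) (he : FlatHom P P e) : FlatHom P (corP B' B P) B := by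
  intro z
  obtain ⟨V, hV, hd⟩ := he z
  refine ⟨V, hV, fun x hx y hy => ?_⟩
  unfold corP
  rw [← Matrix.mul_assoc, ← Matrix.mul_assoc, h2, hd x hx y hy, Matrix.mul_assoc, eB h1 h2]

theorem flatHom_B' {P : X → X → Matrix n n K} (h1 : ∀ x, B' x * B x = 1)
    (h2 : ∀ x, B x * B' x = e x) (he : FlatHom P P e) : FlatHom (corP B' B P) P B' := by
  intro z
  obtain ⟨V, hV, hd⟩ := he z
  refine ⟨V, hV, fun x hx y hy => ?_⟩
  unfold corP
  rw [Matrix.mul_assoc (B' x * P x y), h2, Matrix.mul_assoc, ← hd x hx y hy, ← Matrix.mul_assoc,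
    B'e h1 h2]

omit [TopologicalSpace X] in
/-- corners are multiplicative on sections commuting with `e` -/
theorem corE_mul {a b : X → Matrix n n K} (h1 : ∀ x, B' x * B x = 1)
    (h2 : ∀ x, B x * B' x = e x) {x : X} (ha : e x * a x = a x * e x) :
    corE B' B (fun x => a x * b x) x = corE B' B a x * corE B' B b x := by
  unfold corE
  have : B' x * a x * B x * (B' x * b x * B x) = B' x * a x * (B x * B' x) * b x * B x := by
    simp only [Matrix.mul_assoc]
  rw [this, h2, Matrix.mul_assoc (B' x) (a x) (e x), ← ha, ← Matrix.mul_assoc (B' x) (e x),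
    B'e h1 h2, Matrix.mul_assoc (B' x) (a x)]

end loc

section form

variable {X : Type*} [TopologicalSpace X]
variable {n m : Type*} [Fintype n] [DecidableEq n] [Fintype m] [DecidableEq m]
variable {B' : X → Matrix m n ℂ} {B : X → Matrix n m ℂ} {e : X → Matrix n n ℂ}

theorem FlatForm.cor {P : X → X → Matrix n n ℂ} {S : X → Matrix n n ℂ} (hS : FlatForm P S)
    (h1 : ∀ x, B' x * B x = 1) (h2 : ∀ x, B x * B' x = e x) (he : FlatHom P P e) :
    FlatForm (corP B' B P) (corS B S) := by
  intro z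
  obtain ⟨U, hU, hc⟩ := hS z
  obtain ⟨V, hV, hd⟩ := flatHom_B h1 h2 he z
  refine ⟨U ∩ V, Filter.inter_mem hU hV, fun x hx y hy => ?_⟩
  unfold corS
  have h3 := hd x hx.2 y hy.2
  have : (corP B' B P x y)ᴴ * ((B x)ᴴ * S x * B x) * corP B' B P x y
      = (B x * corP B' B P x y)ᴴ * S x * (B x * corP B' B P x y) := by
    rw [conjTranspose_mul]
    simp only [Matrix.mul_assoc]
  rw [this, h3, conjTranspose_mul]
  have h4 : (B y)ᴴ * (P x y)ᴴ * S x * (P x y * B y) = (B y)ᴴ * ((P x y)ᴴ * S x * P x y) * B y := by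
    simp only [Matrix.mul_assoc]
  rw [h4, hc x hx.1 y hy.1]

omit [TopologicalSpace X] [DecidableEq m] [DecidableEq n] in
theorem corS_herm {S : X → Matrix n n ℂ} {x : X} (hS : (S x)ᴴ = S x) :
    (corS B S x)ᴴ = corS B S x := by
  unfold corS
  rw [conjTranspose_mul, conjTranspose_mul, conjTranspose_conjTranspose, hS, Matrix.mul_assoc]

omit [TopologicalSpace X] in
/-- self-adjointness of a corner -/
theorem corE_adj {S E : X → Matrix n n ℂ} (h1 : ∀ x, B' x * B x = 1)
    (h2 : ∀ x, B x * B' x = e x) {x : X} (hE : S x * E x = (E x)ᴴ * S x)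
    (heE : e x * E x = E x * e x) :
    corS B S x * corE B' B E x = (corE B' B E x)ᴴ * corS B S x := by
  unfold corS corE
  have h3 : (B x)ᴴ * S x * B x * (B' x * E x * B x) = (B x)ᴴ * S x * (B x * B' x) * E x * B x := by
    simp only [Matrix.mul_assoc]
  have h4 : (B' x * E x * B x)ᴴ * ((B x)ᴴ * S x * B x)
      = ((B x * B' x) * E x * B x)ᴴ * S x * B x := by
    simp only [conjTranspose_mul, Matrix.mul_assoc]
  have h5 : e x * E x * B x = E x * B x := by
    rw [heE, Matrix.mul_assoc, eB h1 h2]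
  have h6 : (B x)ᴴ * S x * e x * E x * B x = (B x)ᴴ * S x * (e x * E x * B x) := by
    simp only [Matrix.mul_assoc]
  rw [h3, h4, h2, h6, h5, conjTranspose_mul]
  have h7 : (B x)ᴴ * S x * (E x * B x) = (B x)ᴴ * (S x * E x) * B x := by
    simp only [Matrix.mul_assoc]
  rw [h7, hE]
  simp only [Matrix.mul_assoc]

omit [TopologicalSpace X] in
/-- `e x * E x * B x = E x * B x`, hence the action of the corner in the big space -/
theorem B_corE {E : X → Matrix n n ℂ} (h1 : ∀ x, B' x * B x = 1)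
    (h2 : ∀ x, B x * B' x = e x) {x : X} (heE : e x * E x = E x * e x) :
    B x * corE B' B E x = E x * B x := by
  unfold corE
  rw [← Matrix.mul_assoc, ← Matrix.mul_assoc, h2, heE, Matrix.mul_assoc, eB h1 h2]

omit [TopologicalSpace X] [DecidableEq n] [DecidableEq m] in
/-- the form on the corner computed in the big space -/
theorem corS_apply {S : X → Matrix n n ℂ} (x : X) (v w : m → ℂ) :
    star v ⬝ᵥ (corS B S x *ᵥ w) = star (B x *ᵥ v) ⬝ᵥ (S x *ᵥ (B x *ᵥ w)) := by
  unfold corS
  rw [star_mulVec, ← mulVec_mulVec, ← mulVec_mulVec, dotProduct_mulVec]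

omit [TopologicalSpace X] [DecidableEq n] in
theorem B_inj (h1 : ∀ x, B' x * B x = 1) {x : X} {v : m → ℂ} (hv : B x *ᵥ v = 0) : v = 0 := by
  have := congrArg (fun u => B' x *ᵥ u) hv
  simpa [mulVec_mulVec, h1] using this

end form

end Crest.Agent.R276.Grp_591
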