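import Crest.Agent.R276.Grp3_591

/-!
# R276, leaf IPC-GRP (helper591), part 4: the grading operator equation under corners and gauge changes
-/

set_option autoImplicit false
set_option linter.unusedSectionVars false

open Matrix Finset Topology Filter
open scoped ContDiff

namespace Crest.Agent.R276.Grp_591

open VCalc_442

section gr

variable {X : Type*} [NormedAddCommGroup X] [NormedSpace ℂ X]
variable {R : Type*} [NormedRing R] [NormedAlgebra ℂ R]
variable {R' : Type*} [NormedRing R'] [NormedAlgebra ℂ R']

theorem comm_dW {U : Set X} {E : X → R} (h : Gr U E) {e : R} (hc : ∀ x ∈ U, e * E x = E x * e)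
    {x : X} (hx : x ∈ U) (v : X) : e * dW E v x = dW E v x * e := by
  have h1 := dW_congr (h.evEq hx hc) v
  rw [dW_mul (differentiableAt_const e) (h.d0 hx), dW_mul (h.d0 hx) (differentiableAt_const e)] at h1
  simpa using h1

theorem comm_dB {U : Set X} {E : X → R} (h : Gr U E) {e : R} (hc : ∀ x ∈ U, e * E x = E x * e)
    {x : X} (hx : x ∈ U) (v : X) : e * dB E v x = dB E v x * e := by
  have h1 := dB_congr (h.evEq hx hc) v
  rw [dB_mul (differentiableAt_const e) (h.d0 hx), dB_mul (h.d0 hx) (differentiableAt_const e)] at h1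
  simpa using h1

/-- The grading operator equation passes to corners: `φ` continuous linear and multiplicative on
products whose left factor commutes with the idempotent `e`. -/
theorem Gr.cor {U : Set X} {E : X → R} (h : Gr U E) {e : R} (hc : ∀ x ∈ U, e * E x = E x * e)
    (φ : R →L[ℂ] R') (hφ : ∀ a b : R, e * a = a * e → φ (a * b) = φ a * φ b) :
    Gr U (fun x => φ (E x)) where
  op := h.op
  sm := by
    have : ContDiff ℝ ∞ (fun a : R => φ a) := (φ.restrictScalars ℝ).contDiff
    exact this.comp_contDiffOn h.sm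
  hW := by
    intro x hx v
    rw [dW_clm φ (h.d0 hx), ← hφ _ _ (hc x hx), ← hφ _ _ (comm_dW h hc hx v), ← map_sub,
      h.hW x hx v, map_neg]
  hB := by
    intro x hx v
    rw [dB_clm φ (h.d0 hx), ← hφ _ _ (hc x hx), ← hφ _ _ (comm_dB h hc hx v), ← map_sub,
      h.hB x hx v]

theorem Gr.mono {U V : Set X} {E : X → R} (h : Gr U E) (hV : IsOpen V) (hVU : V ⊆ U) : Gr V E where
  op := hV
  sm := h.sm.mono hVU
  hW := fun x hx v => h.hW x (hVU hx) v
  hB := fun x hx v => h.hB x (hVU hx) v

theorem Gr.congr {U : Set X} {E E' : X → R} (h : Gr U E) (he : ∀ x ∈ U, E' x = E x) : Gr U E' where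
  op := h.op
  sm := h.sm.congr he
  hW := by
    intro x hx v
    have h1 : E' =ᶠ[𝓝 x] E := Filter.eventually_of_mem (h.op.mem_nhds hx) he
    rw [dW_congr h1, he x hx]
    exact h.hW x hx v
  hB := by
    intro x hx v
    have h1 : E' =ᶠ[𝓝 x] E := Filter.eventually_of_mem (h.op.mem_nhds hx) he
    rw [dB_congr h1, he x hx]
    exact h.hB x hx v

end gr

end Crest.Agent.R276.Grp_591
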