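import Crest.Agent.R276.IpcDefs_735

/-!
# R276, leaf IPC-GRP (helper591), part 5: automorphisms of a PVHS act on sections, forms, parabolic and
`L²` classes on a punctured plane

`PEnd R a` : `a : ℂ → Mat_N(ℂ)` is flat and commutes with the grading operator; `PIso R a` : moreover it
preserves the form.  `Act.fib` : the restriction of a group action to the fibre over `s`.
-/

set_option autoImplicit false

noncomputable section

open Set Filter Topology MeasureTheory Matrix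

namespace Crest.Agent.R276.Grp_591

open Crest.Agent.R276.Ipc735

section hodge

variable {N : ℕ}

theorem comm_aeval {a E : Matrix (Fin N) (Fin N) ℂ} (h : a * E = E * a) (p : Polynomial ℂ) :
    a * Polynomial.aeval E p = Polynomial.aeval E p * a := by
  induction p using Polynomial.induction_on' with
  | add p q hp hq => rw [map_add, mul_add, add_mul, hp, hq]
  | monomial n c =>
    rw [Polynomial.aeval_monomial, ← mul_assoc, ← Algebra.commutes, mul_assoc, mul_assoc]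
    congr 1
    exact (Commute.pow_right (show Commute a E from h) n)

theorem comm_hpr {w p : ℕ} {a E : Matrix (Fin N) (Fin N) ℂ} (h : a * E = E * a) :
    a * hpr w p E = hpr w p E * a := comm_aeval h _

theorem comm_weil {w : ℕ} {a E : Matrix (Fin N) (Fin N) ℂ} (h : a * E = E * a) :
    a * weil w E = weil w E * a := by
  unfold weil
  rw [Finset.mul_sum, Finset.sum_mul]
  exact Finset.sum_congr rfl (fun p _ => by rw [mul_smul_comm, smul_mul_assoc, comm_hpr h])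

theorem hodge_iso {w : ℕ} {a S E : Matrix (Fin N) (Fin N) ℂ} (h : a * E = E * a)
    (hS : aᴴ * S * a = S) : aᴴ * hodge w S E * a = hodge w S E := by
  unfold hodge
  rw [Matrix.mul_assoc, Matrix.mul_assoc, ← comm_weil h, ← Matrix.mul_assoc, ← Matrix.mul_assoc, hS]

end hodge

section plane

variable {A : Finset ℂ} {N w : ℕ} {R : PVHS A N w}

/-- flat endomorphisms commuting with the grading operator -/
structure PEnd (R : PVHS A N w) (a : ℂ → Matrix (Fin N) (Fin N) ℂ) : Prop where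
  flat : ∀ z ∉ A, ∀ᶠ y in 𝓝 z, cm (R.P z y) * a y = a z * cm (R.P z y)
  comm : ∀ z ∉ A, a z * R.E z = R.E z * a z

/-- flat isometries commuting with the grading operator -/
structure PIso (R : PVHS A N w) (a : ℂ → Matrix (Fin N) (Fin N) ℂ) : Prop extends PEnd R a where
  pres : ∀ z ∉ A, (a z)ᴴ * R.S z * a z = R.S z

/-- action on sections / coefficients of forms -/
def ap (a : ℂ → Matrix (Fin N) (Fin N) ℂ) (φ : ℂ → Fin N → ℂ) : ℂ → Fin N → ℂ :=
  fun x => a x *ᵥ φ x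

/-- the continuous linear map of a matrix -/
def mclm (M : Matrix (Fin N) (Fin N) ℂ) : (Fin N → ℂ) →L[ℂ] (Fin N → ℂ) :=
  LinearMap.toContinuousLinearMap (Matrix.toLin' M)

theorem mclm_apply (M : Matrix (Fin N) (Fin N) ℂ) (v : Fin N → ℂ) : mclm M v = M *ᵥ v := rfl

theorem open_compl (A : Finset ℂ) : IsOpen ((A : Set ℂ)ᶜ) := A.finite_toSet.isClosed.isOpen_compl

theorem ev_notMem {A : Finset ℂ} {z : ℂ} (hz : z ∉ A) : ∀ᶠ y in 𝓝 z, y ∉ A :=
  (open_compl A).mem_nhds (by simpa using hz)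

namespace PEnd

variable {a b : ℂ → Matrix (Fin N) (Fin N) ℂ}

theorem lV_ap (h : PEnd R a) (φ : ℂ → Fin N → ℂ) {z : ℂ} (hz : z ∉ A) :
    lV R.P (ap a φ) z =ᶠ[𝓝 z] fun y => mclm (a z) (lV R.P φ z y) := by
  filter_upwards [h.flat z hz] with y hy
  rw [mclm_apply]
  unfold lV ap
  rw [mulVec_mulVec, hy, ← mulVec_mulVec]

theorem sm (h : PEnd R a) {φ : ℂ → Fin N → ℂ} {z : ℂ} (hz : z ∉ A)
    (hφ : ContDiffAt ℝ (⊤ : ℕ∞) (lV R.P φ z) z) :
    ContDiffAt ℝ (⊤ : ℕ∞) (lV R.P (ap a φ) z) z := by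
  refine ContDiffAt.congr_of_eventuallyEq ?_ (h.lV_ap φ hz)
  exact (((mclm (a z)).restrictScalars ℝ).contDiff.contDiffAt).comp z hφ

theorem Sm (h : PEnd R a) {φ : ℂ → Fin N → ℂ} (hφ : R.Sm φ) : R.Sm (ap a φ) :=
  fun z hz => h.sm hz (hφ z hz)

theorem Ho (h : PEnd R a) {φ : ℂ → Fin N → ℂ} (hφ : R.Ho φ) : R.Ho (ap a φ) := by
  intro z hz
  refine AnalyticAt.congr ?_ (h.lV_ap φ hz).symm
  exact ((mclm (a z)).analyticAt _).comp (hφ z hz)

theorem fd (h : PEnd R a) {φ : ℂ → Fin N → ℂ} {z : ℂ} (hz : z ∉ A)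
    (hφ : DifferentiableAt ℝ (lV R.P φ z) z) (v : ℂ) :
    fderiv ℝ (lV R.P (ap a φ) z) z v = a z *ᵥ fderiv ℝ (lV R.P φ z) z v := by
  rw [(h.lV_ap φ hz).fderiv_eq]
  have h1 : HasFDerivAt (fun y => mclm (a z) (lV R.P φ z y))
      (((mclm (a z)).restrictScalars ℝ).comp (fderiv ℝ (lV R.P φ z) z)) z :=
    (((mclm (a z)).restrictScalars ℝ).hasFDerivAt).comp z hφ.hasFDerivAt
  rw [h1.fderiv]
  rfl

theorem d1 (h : PEnd R a) {φ : ℂ → Fin N → ℂ} {z : ℂ} (hz : z ∉ A)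
    (hφ : DifferentiableAt ℝ (lV R.P φ z) z) : R.d1 (ap a φ) z = a z *ᵥ R.d1 φ z := by
  unfold PVHS.d1 wz
  rw [h.fd hz hφ, h.fd hz hφ, mulVec_smul, mulVec_sub, mulVec_smul]

theorem d2 (h : PEnd R a) {φ : ℂ → Fin N → ℂ} {z : ℂ} (hz : z ∉ A)
    (hφ : DifferentiableAt ℝ (lV R.P φ z) z) : R.d2 (ap a φ) z = a z *ᵥ R.d2 φ z := by
  unfold PVHS.d2 wb
  rw [h.fd hz hφ, h.fd hz hφ, mulVec_smul, mulVec_add, mulVec_smul]

theorem closed (h : PEnd R a) {α β : ℂ → Fin N → ℂ}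
    (hα : ∀ z ∉ A, DifferentiableAt ℝ (lV R.P α z) z)
    (hβ : ∀ z ∉ A, DifferentiableAt ℝ (lV R.P β z) z)
    (hc : R.Closed α β) : R.Closed (ap a α) (ap a β) := by
  intro z hz
  rw [h.d2 hz (hα z hz), h.d1 hz (hβ z hz), hc z hz]

theorem exactOn (h : PEnd R a) {U : Set ℂ} {α β : ℂ → Fin N → ℂ} (he : R.ExactOn U α β) :
    R.ExactOn U (ap a α) (ap a β) := by
  obtain ⟨φ, hφ⟩ := he
  refine ⟨ap a φ, fun z hzU hz => ?_⟩
  obtain ⟨h1, h2, h3⟩ := hφ z hzU hz
  have hd : DifferentiableAt ℝ (lV R.P φ z) z := h1.differentiableAt (by simp)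
  exact ⟨h.sm hz h1, by rw [h.d1 hz hd, h2]; rfl, by rw [h.d2 hz hd, h3]; rfl⟩

theorem par (h : PEnd R a) {α β : ℂ → Fin N → ℂ} (hp : R.Par α β) :
    R.Par (ap a α) (ap a β) := by
  obtain ⟨h1, ρ, h2⟩ := hp
  refine ⟨fun p hp => ?_, ρ, h.exactOn h2⟩
  obtain ⟨U, hU, hE⟩ := h1 p hp
  exact ⟨U, hU, h.exactOn hE⟩

theorem mul (ha : PEnd R a) (hb : PEnd R b) : PEnd R (fun x => a x * b x) where
  flat := by
    intro z hz
    filter_upwards [ha.flat z hz, hb.flat z hz] with y h1 h2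
    rw [← Matrix.mul_assoc, h1, Matrix.mul_assoc, h2, Matrix.mul_assoc]
  comm := by
    intro z hz
    rw [Matrix.mul_assoc, hb.comm z hz, ← Matrix.mul_assoc, ha.comm z hz, Matrix.mul_assoc]

theorem add (ha : PEnd R a) (hb : PEnd R b) : PEnd R (fun x => a x + b x) where
  flat := by
    intro z hz
    filter_upwards [ha.flat z hz, hb.flat z hz] with y h1 h2
    rw [Matrix.mul_add, Matrix.add_mul, h1, h2]
  comm := by
    intro z hz
    rw [Matrix.mul_add, Matrix.add_mul, ha.comm z hz, hb.comm z hz]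

theorem smul (c : ℂ) (ha : PEnd R a) : PEnd R (fun x => c • a x) where
  flat := by
    intro z hz
    filter_upwards [ha.flat z hz] with y h1
    rw [Matrix.mul_smul, Matrix.smul_mul, h1]
  comm := by
    intro z hz
    rw [Matrix.mul_smul, Matrix.smul_mul, ha.comm z hz]

theorem one : PEnd R (fun _ => 1) where
  flat := fun z _ => Filter.Eventually.of_forall (fun y => by rw [Matrix.mul_one, Matrix.one_mul])
  comm := fun z _ => by rw [Matrix.mul_one, Matrix.one_mul]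

end PEnd

namespace PIso

variable {a b : ℂ → Matrix (Fin N) (Fin N) ℂ}

theorem nsq (h : PIso R a) (φ : ℂ → Fin N → ℂ) {z : ℂ} (hz : z ∉ A) :
    R.nsq (ap a φ) z = R.nsq φ z := by
  unfold PVHS.nsq ap PVHS.H
  rw [star_mulVec, ← dotProduct_mulVec, mulVec_mulVec, mulVec_mulVec,
    hodge_iso (h.comm z hz) (h.pres z hz)]

theorem pair (h : PIso R a) (φ ψ : ℂ → Fin N → ℂ) {z : ℂ} (hz : z ∉ A) :
    star (ap a φ z) ⬝ᵥ R.S z *ᵥ ap a ψ z = star (φ z) ⬝ᵥ R.S z *ᵥ ψ z := by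
  unfold ap
  rw [star_mulVec, ← dotProduct_mulVec, mulVec_mulVec, mulVec_mulVec,
    h.pres z hz]

theorem top (h : PIso R a) {f : ℂ → Fin N → ℂ} (hf : R.Top f) : R.Top (ap a f) where
  zero := fun z hz => by
    unfold ap
    rw [hf.zero z hz, mulVec_zero]
  eig := fun z hz => by
    unfold ap
    rw [mulVec_mulVec, ← h.comm z hz, ← mulVec_mulVec, hf.eig z hz, mulVec_smul]
  hol := h.toPEnd.Ho hf.hol
  int := by
    refine hf.int.congr_fun (fun z hz => ?_) (open_compl A).measurableSet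
    exact (h.nsq f (by simpa using hz)).symm

theorem mul (ha : PIso R a) (hb : PIso R b) : PIso R (fun x => a x * b x) where
  toPEnd := ha.toPEnd.mul hb.toPEnd
  pres := by
    intro z hz
    rw [conjTranspose_mul]
    have : (b z)ᴴ * (a z)ᴴ * R.S z * (a z * b z) = (b z)ᴴ * ((a z)ᴴ * R.S z * a z) * b z := by
      simp only [Matrix.mul_assoc]
    rw [this, ha.pres z hz, hb.pres z hz]

end PIso

end plane

section act

open Crest.Agent.R271.Ho51

variable {m : ℕ} {S : Type*} [TopologicalSpace S] [RDom m S] {k N w : ℕ} {Q : Punc S k}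
  {V : VHS (m + 1) (Tot Q) N w} {Γ : Type} [Group Γ]

/-- the action of `g` on the fibre over `s`, as a matrix field on the plane -/
def fa (ρ : Act V Γ) (s : S) (g : Γ) : ℂ → Matrix (Fin N) (Fin N) ℂ :=
  rM Q (fun q => cm (ρ.ρ g q)) s

theorem fa_of (ρ : Act V Γ) {s : S} (g : Γ) {x : ℂ} (h : x ∉ Q.A s) :
    fa ρ s g x = cm (ρ.ρ g (Tot.mk Q s x h)) := by
  unfold fa rM
  rw [dif_pos h]

theorem cm_mul {n : ℕ} (g h : GL (Fin n) ℤ) : cm (g * h) = cm g * cm h := by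
  unfold cm
  rw [Units.val_mul, Matrix.map_mul_intCast]

theorem cm_one {n : ℕ} : cm (1 : GL (Fin n) ℤ) = 1 := by
  unfold cm
  rw [Units.val_one]
  exact Matrix.map_one _ Int.cast_zero Int.cast_one

theorem act_one (ρ : Act V Γ) (q : Tot Q) : ρ.ρ 1 q = 1 := by
  have h := ρ.mul 1 1 q
  rw [mul_one] at h
  exact (left_eq_mul.1 h)

theorem fa_iso (ρ : Act V Γ) {s : S} {R : PVHS (Q.A s) N w} (hR : IsRes V s R) (g : Γ) :
    PIso R (fa ρ s g) where
  flat := by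
    intro z hz
    have hc : ContinuousAt (fun y : {y : ℂ // y ∉ Q.A s} => Tot.mk Q s y.1 y.2) ⟨z, hz⟩ := by
      apply Continuous.continuousAt
      exact Continuous.subtype_mk (continuous_const.prodMk continuous_subtype_val) _
    have h1 := hc.eventually (ρ.flat g (Tot.mk Q s z hz))
    have h2 : ∀ᶠ y in 𝓝 z, ∀ hy : y ∉ Q.A s,
        V.P (Tot.mk Q s z hz) (Tot.mk Q s y hy) * ρ.ρ g (Tot.mk Q s y hy) =
          ρ.ρ g (Tot.mk Q s z hz) * V.P (Tot.mk Q s z hz) (Tot.mk Q s y hy) := by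
      have h3 := (IsOpen.isOpenEmbedding_subtypeVal (open_compl (Q.A s))).map_nhds_eq ⟨z, by simpa using hz⟩
      have h4 : ∀ᶠ y in Filter.map (Subtype.val : {y : ℂ // y ∉ Q.A s} → ℂ) (𝓝 ⟨z, hz⟩), ∀ hy : y ∉ Q.A s,
        V.P (Tot.mk Q s z hz) (Tot.mk Q s y hy) * ρ.ρ g (Tot.mk Q s y hy) =
          ρ.ρ g (Tot.mk Q s z hz) * V.P (Tot.mk Q s z hz) (Tot.mk Q s y hy) := by
        rw [Filter.eventually_map]
        filter_upwards [h1] with y hy _
        exact hy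
      have h5 : Filter.map (Subtype.val : {y : ℂ // y ∉ Q.A s} → ℂ) (𝓝 ⟨z, hz⟩) = 𝓝 z := by
        have ho : IsOpen {y : ℂ | y ∉ Q.A s} := open_compl (Q.A s)
        exact (IsOpen.isOpenEmbedding_subtypeVal ho).map_nhds_eq ⟨z, hz⟩
      rw [h5] at h4
      exact h4
    filter_upwards [h2, ev_notMem hz] with y hy hyA
    rw [hR.P, fa_of ρ g hyA, fa_of ρ g hz]
    unfold rP
    rw [dif_pos ⟨hz, hyA⟩, ← cm_mul, ← cm_mul, hy hyA]
  comm := by
    intro z hz
    rw [hR.E, fa_of ρ g hz]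
    unfold rM
    rw [dif_pos hz, ρ.commE]
  pres := by
    intro z hz
    rw [hR.S, fa_of ρ g hz]
    unfold rM
    rw [dif_pos hz, ρ.presS]

theorem fa_mul (ρ : Act V Γ) (s : S) (g h : Γ) {x : ℂ} (hx : x ∉ Q.A s) :
    fa ρ s (g * h) x = fa ρ s g x * fa ρ s h x := by
  rw [fa_of ρ _ hx, fa_of ρ _ hx, fa_of ρ _ hx, ρ.mul, cm_mul]

theorem fa_one (ρ : Act V Γ) (s : S) {x : ℂ} (hx : x ∉ Q.A s) : fa ρ s 1 x = 1 := by
  rw [fa_of ρ _ hx, act_one, cm_one]

end act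

end Crest.Agent.R276.Grp_591
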