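import Crest.Agent.R276.Grp5_591

/-!
# R276, leaf IPC-GRP (helper591), part 6: an `Act` on a `VHS` from linear maps of the fibres

`act_of_maps` : linear maps `U g s` of the fibres `ℂ^N` (frames of `W`), multiplicative in `g`, integral,
flat near the diagonal, preserving the form and the eigenspaces of the grading operator, come from an
`Act W Γ`.
-/

set_option autoImplicit false
set_option linter.unusedSectionVars false

noncomputable section

open Set Filter Topology MeasureTheory Matrix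

namespace Crest.Agent.R276.Grp_591

open Crest.Agent.R276.Ipc735

section spec

variable {N w : ℕ} {S E : Matrix (Fin N) (Fin N) ℂ}

theorem injOn_cast (w : ℕ) : Set.InjOn (fun q : ℕ => (q : ℂ)) (Finset.range (w + 1) : Set ℕ) :=
  (Nat.cast_injective (R := ℂ)).injOn

theorem sum_hpr (w : ℕ) (E : Matrix (Fin N) (Fin N) ℂ) :
    ∑ p ∈ Finset.range (w + 1), hpr w p E = 1 := by
  unfold hpr
  rw [← map_sum, Lagrange.sum_basis (injOn_cast w) ⟨0, by simp⟩, map_one]

theorem E_hpr (h : IsHS w S E) {p : ℕ} (hp : p ∈ Finset.range (w + 1)) :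
    E * hpr w p E = (p : ℂ) • hpr w p E := by
  have h1 : (Polynomial.X - Polynomial.C (p : ℂ)) *
      Lagrange.basis (Finset.range (w + 1)) (fun q : ℕ => (q : ℂ)) p =
      (∏ j ∈ (Finset.range (w + 1)).erase p, Polynomial.C (((p : ℂ) - (j : ℂ))⁻¹)) *
        ∏ q ∈ Finset.range (w + 1), (Polynomial.X - Polynomial.C (q : ℂ)) := by
    rw [← Finset.mul_prod_erase _ _ hp]
    unfold Lagrange.basis Lagrange.basisDivisor
    rw [Finset.prod_mul_distrib]
    ring
  have h2 := congrArg (Polynomial.aeval E) h1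
  rw [map_mul, map_mul, h.eig, mul_zero, map_sub, Polynomial.aeval_X, Polynomial.aeval_C,
    sub_mul, sub_eq_zero] at h2
  unfold hpr
  rw [h2, Algebra.algebraMap_eq_smul_one, smul_mul_assoc, one_mul]

/-- a matrix preserving all eigenspaces of the grading operator commutes with it -/
theorem comm_of_eigen (h : IsHS w S E) {A : Matrix (Fin N) (Fin N) ℂ}
    (hA : ∀ (p : ℕ) (v : Fin N → ℂ), p ≤ w → E *ᵥ v = (p : ℂ) • v →
      E *ᵥ (A *ᵥ v) = (p : ℂ) • (A *ᵥ v)) : A * E = E * A := by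
  have key : ∀ v : Fin N → ℂ, (A * E) *ᵥ v = (E * A) *ᵥ v := by
    intro v
    have hv : v = ∑ p ∈ Finset.range (w + 1), hpr w p E *ᵥ v := by
      rw [← sum_mulVec, sum_hpr, one_mulVec]
    rw [hv, mulVec_sum, mulVec_sum]
    refine Finset.sum_congr rfl (fun p hp => ?_)
    have h1 : E *ᵥ (hpr w p E *ᵥ v) = (p : ℂ) • (hpr w p E *ᵥ v) := by
      rw [mulVec_mulVec, E_hpr h hp, smul_mulVec]
    have h2 := hA p _ (Nat.lt_succ_iff.1 (Finset.mem_range.1 hp)) h1
    rw [← mulVec_mulVec, ← mulVec_mulVec, h1, h2, mulVec_smul]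
  ext i j
  have := congrFun (key (Pi.single j 1)) i
  simpa using this

end spec

section maps

open Crest.Agent.R271.Ho51

variable {m : ℕ} {X : Type*} [TopologicalSpace X] [RDom m X] {N w : ℕ}

theorem map_cast_inj {n : ℕ} {a b : Matrix (Fin n) (Fin n) ℤ}
    (h : a.map (fun x : ℤ => (x : ℂ)) = b.map (fun x : ℤ => (x : ℂ))) : a = b := by
  ext i j
  have := congrFun (congrFun h i) j
  simpa using this

theorem map_cast_mul {n : ℕ} (a b : Matrix (Fin n) (Fin n) ℤ) :
    (a * b).map (fun x : ℤ => (x : ℂ)) =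
      a.map (fun x : ℤ => (x : ℂ)) * b.map (fun x : ℤ => (x : ℂ)) := by
  ext i j
  simp [Matrix.mul_apply]

theorem exists_int_mat {n : ℕ} (U : (Fin n → ℂ) →ₗ[ℂ] (Fin n → ℂ))
    (h : ∀ v : Fin n → ℤ, ∃ u : Fin n → ℤ, U (fun i => (v i : ℂ)) = fun i => (u i : ℂ)) :
    ∃ A : Matrix (Fin n) (Fin n) ℤ, A.map (fun x : ℤ => (x : ℂ)) = LinearMap.toMatrix' U := by
  choose f hf using fun j : Fin n => h (Pi.single j 1)
  refine ⟨Matrix.of (fun i j => f j i), ?_⟩
  ext i j
  rw [LinearMap.toMatrix'_apply]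
  have h1 : (fun i => (((Pi.single j 1 : Fin n → ℤ) i : ℤ) : ℂ)) = Pi.single j 1 := by
    ext k
    by_cases hk : k = j
    · subst hk; simp
    · simp [hk]
  have h2 := congrFun (hf j) i
  rw [h1] at h2
  rw [h2]
  rfl

/-- **an action from linear maps of the fibres** -/
theorem act_of_maps (W : VHS m X N w) (Γ : Type) [Group Γ]
    (U : Γ → X → ((Fin N → ℂ) →ₗ[ℂ] (Fin N → ℂ)))
    (h1 : ∀ s v, U 1 s v = v)
    (hmul : ∀ g h s v, U (g * h) s v = U g s (U h s v))
    (hint : ∀ g s (v : Fin N → ℤ), ∃ u : Fin N → ℤ, U g s (fun i => (v i : ℂ)) = fun i => (u i : ℂ))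
    (hflat : ∀ g z, ∀ᶠ y in 𝓝 z, ∀ v, cm (W.P z y) *ᵥ U g y v = U g z (cm (W.P z y) *ᵥ v))
    (hE : ∀ g s (p : ℕ) v, p ≤ w → W.E s *ᵥ v = (p : ℂ) • v → W.E s *ᵥ U g s v = (p : ℂ) • U g s v)
    (hS : ∀ g s v u, star (U g s v) ⬝ᵥ W.S s *ᵥ U g s u = star v ⬝ᵥ W.S s *ᵥ u) :
    ∃ ρ : Act W Γ, ∀ g s v, cm (ρ.ρ g s) *ᵥ v = U g s v := by
  choose A hA using fun g s => exists_int_mat (U g s) (hint g s)
  have hAv : ∀ g s v, (A g s).map (fun x : ℤ => (x : ℂ)) *ᵥ v = U g s v := by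
    intro g s v
    rw [hA, LinearMap.toMatrix'_mulVec]
  have hA1 : ∀ s, A 1 s = 1 := by
    intro s
    apply map_cast_inj
    rw [hA]
    have : U 1 s = LinearMap.id := LinearMap.ext (fun v => h1 s v)
    rw [this, LinearMap.toMatrix'_id]
    exact (Matrix.map_one _ Int.cast_zero Int.cast_one).symm
  have hAm : ∀ g h s, A (g * h) s = A g s * A h s := by
    intro g h s
    apply map_cast_inj
    rw [map_cast_mul, hA, hA, hA, ← LinearMap.toMatrix'_comp]
    congr 1
    exact LinearMap.ext (fun v => hmul g h s v)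
  let ρ : Γ → X → GL (Fin N) ℤ := fun g s =>
    ⟨A g s, A g⁻¹ s, by rw [← hAm, mul_inv_cancel, hA1], by rw [← hAm, inv_mul_cancel, hA1]⟩
  have hcm : ∀ g s, cm (ρ g s) = (A g s).map (fun x : ℤ => (x : ℂ)) := fun g s => rfl
  have hcv : ∀ g s v, cm (ρ g s) *ᵥ v = U g s v := fun g s v => by rw [hcm, hAv]
  have hext : ∀ {M M' : Matrix (Fin N) (Fin N) ℂ}, (∀ v, M *ᵥ v = M' *ᵥ v) → M = M' := by
    intro M M' h
    ext i j
    have := congrFun (h (Pi.single j 1)) i
    simpa using this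
  refine ⟨⟨ρ, ?_, ?_, ?_, ?_⟩, hcv⟩
  · intro g h x
    exact Units.ext (hAm g h x)
  · intro g z
    filter_upwards [hflat g z] with y hy
    apply Units.ext
    apply map_cast_inj
    have : cm (W.P z y * ρ g y) = cm (ρ g z * W.P z y) := by
      rw [cm_mul, cm_mul]
      apply hext
      intro v
      rw [← mulVec_mulVec, ← mulVec_mulVec, hcv, hcv, hy]
    exact this
  · intro g x
    refine comm_of_eigen (W.hs x) (fun p v hp hv => ?_)
    rw [hcv]
    exact hE g x p v hp hv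
  · intro g x
    have h2 : ∀ v u : Fin N → ℂ, star v ⬝ᵥ ((cm (ρ g x))ᴴ * W.S x * cm (ρ g x)) *ᵥ u =
        star v ⬝ᵥ W.S x *ᵥ u := by
      intro v u
      rw [← hS g x v u, ← hcv, ← hcv, star_mulVec, ← dotProduct_mulVec, mulVec_mulVec, mulVec_mulVec]
    apply hext
    intro u
    ext i
    have := h2 (Pi.single i 1) u
    simpa [Pi.single_star, ← Pi.single_star] using this

end maps

end Crest.Agent.R276.Grp_591
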