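import Crest.Agent.R276.Lat_348
import Crest.Agent.R276.Res_735
import Crest.Agent.R276.Grp5_591

/-!
# R276, IPC-STEP (helper454): frozen interface between LOC (175) and PACK (454)

* `HFam m S n` : a family `s ↦ W s` of complex vector spaces with lattices, near-diagonal
  identifications `τ s s' : W s' → W s`, flat Hermitian forms and filtrations `F s p`, polarised at every
  point, with holomorphic local frames and Griffiths transversality.  (No chosen bases: this is the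
  basis-free form of a `VHS m S N n`.)
* `HFam.GAct` : action of a group on such a family.
* `TopData` : the top piece of the family is the space of `L²` holomorphic forms `f dx` with values in
  the top piece of `V`.
* `LocStep` : what has to be proved for the one-step theorem.
-/

set_option autoImplicit false

noncomputable section

open Set Filter Topology MeasureTheory Matrix
open Crest.Agent.R271.Ho51
open Crest.Agent.R276.Ipc735 Crest.Agent.R276.Lat_348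

namespace Crest.Agent.R276.Step_454

/-- polarised family with lattice over a Riemann domain `S`, basis free; types `0 ≤ p ≤ n` -/
structure HFam (m : ℕ) (S : Type) [TopologicalSpace S] [RDom m S] (n : ℕ) where
  /-- the fibre -/
  W : S → Type
  [acg : ∀ s, AddCommGroup (W s)]
  [mod : ∀ s, Module ℂ (W s)]
  /-- the lattice -/
  L : ∀ s, AddSubgroup (W s)
  lat : ∀ s, IsCLat (L s)
  /-- transport from `s'` to `s` (meaningful for `s`, `s'` close to each other) -/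
  τ : ∀ s s', W s' →ₗ[ℂ] W s
  idt : ∀ s v, τ s s v = v
  coc : ∀ z, ∃ U ∈ 𝓝 z, ∀ s ∈ U, ∀ s' ∈ U, ∀ s'' ∈ U, ∀ v, τ s s' (τ s' s'' v) = τ s s'' v
  int : ∀ z, ∃ U ∈ 𝓝 z, ∀ s ∈ U, ∀ s' ∈ U, ∀ v ∈ L s', τ s s' v ∈ L s
  /-- the flat Hermitian form, conjugate linear in the first variable -/
  B : ∀ s, W s →ₗ⋆[ℂ] W s →ₗ[ℂ] ℂ
  herm : ∀ s u v, B s v u = star (B s u v)
  flat : ∀ z, ∃ U ∈ 𝓝 z, ∀ s ∈ U, ∀ s' ∈ U, ∀ u v, B s (τ s s' u) (τ s s' v) = B s' u v
  /-- the Hodge filtration -/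
  F : ∀ s, ℕ → Submodule ℂ (W s)
  top : ∀ s, F s 0 = ⊤
  bot : ∀ s, F s (n + 1) = ⊥
  anti : ∀ s p, F s (p + 1) ≤ F s p
  pos : ∀ s p v, v ∈ F s p → (∀ u ∈ F s (p + 1), B s u v = 0) → v ≠ 0 →
    0 < (-1 : ℝ) ^ p * (B s v v).re
  /-- holomorphic frames of `F p`, transported to `z` -/
  hol : ∀ (z : S) (p : ℕ), ∃ (r : ℕ) (f : Fin r → S → W z),
    (∀ i (l : W z →ₗ[ℂ] ℂ), HolAt (fun s => l (f i s)) z) ∧
    ∀ᶠ s in 𝓝 z, LinearIndependent ℂ (fun i => f i s) ∧
      Submodule.span ℂ (range fun i => f i s) = (F s p).map (τ z s)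
  /-- transversality at `z` -/
  trans : ∀ (z : S) (p : ℕ) (c : S → W z), (∀ l : W z →ₗ[ℂ] ℂ, HolAt (fun s => l (c s)) z) →
    (∀ᶠ s in 𝓝 z, c s ∈ (F s (p + 1)).map (τ z s)) →
    ∀ (j : Fin m) (l : W z →ₗ[ℂ] ℂ), (∀ u ∈ F z p, l u = 0) → dz j (fun s => l (c s)) z = 0

attribute [instance] HFam.acg HFam.mod

namespace HFam

variable {m n : ℕ} {S : Type} [TopologicalSpace S] [RDom m S]

/-- flat action of a group on the family -/
structure GAct (H : HFam m S n) (Γ : Type) [Group Γ] where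
  u : Γ → ∀ s, H.W s →ₗ[ℂ] H.W s
  one : ∀ s v, u 1 s v = v
  mul : ∀ g h s v, u (g * h) s v = u g s (u h s v)
  int : ∀ g s, ∀ v ∈ H.L s, u g s v ∈ H.L s
  flat : ∀ g z, ∃ U ∈ 𝓝 z, ∀ s ∈ U, ∀ s' ∈ U, ∀ v, H.τ s s' (u g s' v) = u g s (H.τ s s' v)
  presB : ∀ g s a b, H.B s (u g s a) (u g s b) = H.B s a b
  presF : ∀ g s p, ∀ v ∈ H.F s p, u g s v ∈ H.F s p

end HFam

variable {m k N w : ℕ} {S : Type} [TopologicalSpace S] [RDom m S]

/-- the top piece of `H` is the space of `L²` holomorphic forms with values in the top piece of `V` -/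
structure TopData (Q : Punc S k) (V : VHS (m + 1) (Tot Q) N w) (H : HFam m S (w + 1)) where
  /-- the class of the form `f dx` -/
  tc : ∀ s, (ℂ → Fin N → ℂ) → H.W s
  add : ∀ s f g, (V.res s).Top f → (V.res s).Top g → tc s (f + g) = tc s f + tc s g
  smul : ∀ s (c : ℂ) f, (V.res s).Top f → tc s (c • f) = c • tc s f
  mem : ∀ s f, (V.res s).Top f → tc s f ∈ H.F s (w + 1)
  surj : ∀ s, ∀ v ∈ H.F s (w + 1), ∃ f, (V.res s).Top f ∧ tc s f = v
  norm : ∀ s f, (V.res s).Top f → (-1 : ℝ) ^ (w + 1) * (H.B s (tc s f) (tc s f)).re =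
    ∫ z in ((Q.A s : Set ℂ)ᶜ), (V.res s).nsq f z
  hol : ∀ (s₀ : S) (f : S → ℂ → Fin N → ℂ), (∀ᶠ s in 𝓝 s₀, (V.res s).Top (f s)) →
    (∀ᶠ s in 𝓝 s₀, HolFib V f s) →
    ∀ l : H.W s₀ →ₗ[ℂ] ℂ, HolAt (fun s => l (H.τ s₀ s (tc s (f s)))) s₀
  hol' : ∀ (s₀ : S) (f : S → ℂ → Fin N → ℂ), (∀ᶠ s in 𝓝 s₀, (V.res s).Top (f s)) →
    (∀ l : H.W s₀ →ₗ[ℂ] ℂ, HolAt (fun s => l (H.τ s₀ s (tc s (f s)))) s₀) →
    ∀ᶠ s in 𝓝 s₀, HolFib V f s

/-- what has to be proved for the one-step theorem -/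
structure LocStep (Q : Punc S k) (V : VHS (m + 1) (Tot Q) N w) where
  H : HFam m S (w + 1)
  T : TopData Q V H
  /-- the action of the automorphisms of `V` -/
  act : ∀ (Γ : Type) [Group Γ] (ρ : Act V Γ), ∃ G : H.GAct Γ, ∀ s g f, (V.res s).Top f →
    T.tc s (fun x => rM Q (fun q => cm (ρ.ρ g q)) s x *ᵥ f x) = G.u g s (T.tc s f)

/-- **LOC** -/
def Loc : Prop :=
  ∀ (m k N w : ℕ) (S : Type) [TopologicalSpace S] [T2Space S] [PreconnectedSpace S] [RDom m S]
    (Q : Punc S k) (V : VHS (m + 1) (Tot Q) N w), Nonempty (LocStep Q V)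

end Crest.Agent.R276.Step_454
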