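import Crest.Agent.R276.Grp6_591
import Crest.Agent.R276.StepDefs_454

/-!
# R276, leaf IPC-GRP (helper591), part 7: from a group action on 454's `HFam` to an `Act` on the packed
`VHS`
-/

set_option autoImplicit false
set_option linter.unusedSectionVars false

noncomputable section

open Set Filter Topology MeasureTheory Matrix

namespace Crest.Agent.R276.Grp_591

open Crest.Agent.R276.Ipc735 Crest.Agent.R276.Step_454 Crest.Agent.R276.Lat_348
open Crest.Agent.R271.Ho51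

variable {m n N : ℕ} {S : Type} [TopologicalSpace S] [RDom m S]

/-- the eigenspace conditions in terms of the filtration: `v` is of type `p` -/
def IsType (H : HFam m S n) (s : S) (p : ℕ) (v : H.W s) : Prop :=
  v ∈ H.F s p ∧ ∀ u ∈ H.F s (p + 1), H.B s u v = 0

/-- an action on the family preserves the types -/
theorem gAct_type {H : HFam m S n} {Γ : Type} [Group Γ] (G : H.GAct Γ) (g : Γ) {s : S} {p : ℕ}
    {v : H.W s} (hv : IsType H s p v) : IsType H s p (G.u g s v) := by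
  refine ⟨G.presF g s p v hv.1, fun u hu => ?_⟩
  have h1 : u = G.u g s (G.u g⁻¹ s u) := by
    rw [← G.mul, mul_inv_cancel, G.one]
  rw [h1, G.presB]
  exact hv.2 _ (G.presF g⁻¹ s (p + 1) u hu)

/-- **from a group action on the family to an `Act`** ; `e s` are the frames of the packed `VHS` -/
theorem act_of_gAct (H : HFam m S n) (V : VHS m S N n) (e : ∀ s, H.W s ≃ₗ[ℂ] (Fin N → ℂ))
    (hP : ∀ z, ∀ᶠ s in 𝓝 z, ∀ v, e z (H.τ z s v) = cm (V.P z s) *ᵥ e s v)
    (hB : ∀ s u v, star (e s u) ⬝ᵥ V.S s *ᵥ e s v = H.B s u v)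
    (hL : ∀ s v, v ∈ H.L s ↔ ∃ a : Fin N → ℤ, e s v = fun i => (a i : ℂ))
    (hE : ∀ s (p : ℕ) v, p ≤ n → (V.E s *ᵥ e s v = (p : ℂ) • e s v ↔ IsType H s p v))
    {Γ : Type} [Group Γ] (G : H.GAct Γ) :
    ∃ ρ : Act V Γ, ∀ g s v, cm (ρ.ρ g s) *ᵥ e s v = e s (G.u g s v) := by
  let U : Γ → S → ((Fin N → ℂ) →ₗ[ℂ] (Fin N → ℂ)) :=
    fun g s => (e s).toLinearMap ∘ₗ G.u g s ∘ₗ (e s).symm.toLinearMap
  have hU : ∀ g s v, U g s v = e s (G.u g s ((e s).symm v)) := fun g s v => rfl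
  have h1 : ∀ s v, U 1 s v = v := by
    intro s v
    rw [hU, G.one, LinearEquiv.apply_symm_apply]
  have hmul : ∀ g h s v, U (g * h) s v = U g s (U h s v) := by
    intro g h s v
    rw [hU, hU, hU, G.mul, LinearEquiv.symm_apply_apply]
  have hint : ∀ g s (v : Fin N → ℤ), ∃ u : Fin N → ℤ,
      U g s (fun i => (v i : ℂ)) = fun i => (u i : ℂ) := by
    intro g s a
    have h1 : (e s).symm (fun i => (a i : ℂ)) ∈ H.L s := (hL s _).2 ⟨a, by simp⟩
    obtain ⟨b, hb⟩ := (hL s _).1 (G.int g s _ h1)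
    exact ⟨b, hb⟩
  have hflat : ∀ g z, ∀ᶠ y in 𝓝 z, ∀ v, cm (V.P z y) *ᵥ U g y v = U g z (cm (V.P z y) *ᵥ v) := by
    intro g z
    obtain ⟨O, hO, hfl⟩ := G.flat g z
    filter_upwards [hP z, hO] with y hy hyU v
    rw [hU, hU, ← hy, hfl z (mem_of_mem_nhds hO) y hyU]
    have h2 := hy ((e y).symm v)
    rw [LinearEquiv.apply_symm_apply] at h2
    rw [← h2, LinearEquiv.symm_apply_apply]
  have hEE : ∀ g s (p : ℕ) v, p ≤ n → V.E s *ᵥ v = (p : ℂ) • v →
      V.E s *ᵥ U g s v = (p : ℂ) • U g s v := by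
    intro g s p v hp hv
    have h1 : IsType H s p ((e s).symm v) := (hE s p _ hp).1 (by simpa using hv)
    exact (hE s p _ hp).2 (gAct_type G g h1)
  have hSS : ∀ g s v u, star (U g s v) ⬝ᵥ V.S s *ᵥ U g s u = star v ⬝ᵥ V.S s *ᵥ u := by
    intro g s v u
    rw [hU, hU, hB, G.presB, ← hB, LinearEquiv.apply_symm_apply, LinearEquiv.apply_symm_apply]
  obtain ⟨ρ, hρ⟩ := act_of_maps V Γ U h1 hmul hint hflat hEE hSS
  refine ⟨ρ, fun g s v => ?_⟩
  rw [hρ, hU, LinearEquiv.symm_apply_apply]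

end Crest.Agent.R276.Grp_591
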