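import Crest.Agent.R276.IpcDefs_735

/-!
# R276, helper574: linear algebra of `IsHS` (IpcDefs_735)

For a polarised Hodge structure `IsHS w S E` on `ℂ^N`: the projectors `hpr w p E`, the Weil operator,
positivity of the Hodge metric, polynomials in `E` and in `ad E`.
-/

set_option autoImplicit false

open Matrix Polynomial
open scoped ComplexOrder

namespace Crest.Agent.R276.HSL_574

open Crest.Agent.R276.Ipc735

variable {N w : ℕ} {S E : Matrix (Fin N) (Fin N) ℂ}

/-- a polynomial vanishing on `0, …, w` kills `E` -/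
theorem aeval_eq_zero (h : IsHS w S E) (f : ℂ[X]) (hf : ∀ p ∈ Finset.range (w + 1),
    f.eval (p : ℂ) = 0) : Polynomial.aeval E f = 0 := by
  have h1 : (∏ p ∈ Finset.range (w + 1), (X - C (p : ℂ))) ∣ f := by
    refine Finset.prod_dvd_of_coprime ?_ ?_
    · intro i _ j _ hij
      refine Polynomial.isCoprime_X_sub_C_of_isUnit_sub ?_
      rw [isUnit_iff_ne_zero, sub_ne_zero]
      exact_mod_cast hij
    · intro p hp
      exact Polynomial.dvd_iff_isRoot.2 (hf p hp)
  obtain ⟨q, rfl⟩ := h1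
  rw [map_mul, h.eig, zero_mul]

theorem aeval_congr (h : IsHS w S E) (f g : ℂ[X]) (hf : ∀ p ∈ Finset.range (w + 1),
    f.eval (p : ℂ) = g.eval (p : ℂ)) : Polynomial.aeval E f = Polynomial.aeval E g := by
  rw [← sub_eq_zero, ← map_sub]
  refine aeval_eq_zero h _ fun p hp => ?_
  rw [eval_sub, hf p hp, sub_self]

theorem injOn_cast : Set.InjOn (fun q : ℕ => (q : ℂ)) (Finset.range (w + 1) : Set ℕ) :=
  fun _ _ _ _ h => Nat.cast_injective (R := ℂ) h

theorem eval_basis {p q : ℕ} (hp : p ∈ Finset.range (w + 1)) (hq : q ∈ Finset.range (w + 1)) :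
    (Lagrange.basis (Finset.range (w + 1)) (fun q : ℕ => (q : ℂ)) p).eval (q : ℂ) =
      if p = q then 1 else 0 := by
  split_ifs with h
  · subst h
    exact Lagrange.eval_basis_self injOn_cast hp
  · exact Lagrange.eval_basis_of_ne (v := fun q : ℕ => (q : ℂ)) h hq

/-- functional calculus: `f(E) = ∑ f(p) P_p` -/
theorem aeval_eq_sum (h : IsHS w S E) (f : ℂ[X]) :
    Polynomial.aeval E f = ∑ p ∈ Finset.range (w + 1), f.eval (p : ℂ) • hpr w p E := by
  have h1 : ∑ p ∈ Finset.range (w + 1), f.eval (p : ℂ) • hpr w p E =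
      Polynomial.aeval E (∑ p ∈ Finset.range (w + 1), C (f.eval (p : ℂ)) *
        Lagrange.basis (Finset.range (w + 1)) (fun q : ℕ => (q : ℂ)) p) := by
    rw [map_sum]
    refine Finset.sum_congr rfl fun p _ => ?_
    rw [map_mul, aeval_C, ← Algebra.smul_def]
    rfl
  rw [h1]
  refine aeval_congr h _ _ fun q hq => ?_
  rw [eval_finsetSum, Finset.sum_eq_single q]
  · rw [eval_mul, eval_C, eval_basis hq hq, if_pos rfl, mul_one]
  · intro b hb hbq
    rw [eval_mul, eval_basis hb hq, if_neg hbq, mul_zero]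
  · intro hq'; exact absurd hq hq'

theorem sum_hpr (h : IsHS w S E) : ∑ p ∈ Finset.range (w + 1), hpr w p E = 1 := by
  have := aeval_eq_sum h (1 : ℂ[X])
  simpa using this.symm

theorem E_eq_sum (h : IsHS w S E) :
    E = ∑ p ∈ Finset.range (w + 1), (p : ℂ) • hpr w p E := by
  have := aeval_eq_sum h (X : ℂ[X])
  simpa using this

theorem hpr_mul (h : IsHS w S E) {p q : ℕ} (hp : p ∈ Finset.range (w + 1))
    (hq : q ∈ Finset.range (w + 1)) :
    hpr w p E * hpr w q E = if p = q then hpr w p E else 0 := by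
  unfold hpr
  rw [← map_mul]
  split_ifs with hpq
  · subst hpq
    refine aeval_congr h _ _ fun r hr => ?_
    rw [eval_mul, eval_basis hp hr]
    split_ifs <;> simp
  · refine aeval_eq_zero h _ fun r hr => ?_
    rw [eval_mul, eval_basis hp hr, eval_basis hq hr]
    split_ifs with h1 h2
    · exact absurd (h1.trans h2.symm) hpq
    · simp
    · simp
    · simp

theorem E_mul_hpr (h : IsHS w S E) {p : ℕ} (hp : p ∈ Finset.range (w + 1)) :
    E * hpr w p E = (p : ℂ) • hpr w p E := by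
  have h1 : E * hpr w p E = Polynomial.aeval E
      (X * Lagrange.basis (Finset.range (w + 1)) (fun q : ℕ => (q : ℂ)) p) := by
    rw [map_mul, aeval_X]; rfl
  have h2 : (p : ℂ) • hpr w p E = Polynomial.aeval E
      (C (p : ℂ) * Lagrange.basis (Finset.range (w + 1)) (fun q : ℕ => (q : ℂ)) p) := by
    rw [map_mul, aeval_C, ← Algebra.smul_def]; rfl
  rw [h1, h2]
  refine aeval_congr h _ _ fun r hr => ?_
  rw [eval_mul, eval_mul, eval_X, eval_C, eval_basis hp hr]
  split_ifs with hpr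
  · subst hpr; rfl
  · simp

theorem commute_aeval (E : Matrix (Fin N) (Fin N) ℂ) (f : ℂ[X]) :
    Commute E (Polynomial.aeval E f) := by
  have h1 := map_mul (Polynomial.aeval (R := ℂ) E) X f
  have h2 := map_mul (Polynomial.aeval (R := ℂ) E) f X
  rw [mul_comm f X] at h2
  rw [aeval_X] at h1 h2
  exact h1.symm.trans h2

theorem commute_hpr (w p : ℕ) (E : Matrix (Fin N) (Fin N) ℂ) : Commute E (hpr w p E) :=
  commute_aeval E _

theorem hpr_mul_E (h : IsHS w S E) {p : ℕ} (hp : p ∈ Finset.range (w + 1)) :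
    hpr w p E * E = (p : ℂ) • hpr w p E := by
  rw [← (commute_hpr w p E).eq, E_mul_hpr h hp]

/-- a real polynomial in `E` is `S`-selfadjoint -/
theorem aeval_adj (h : IsHS w S E) (f : ℂ[X]) (hf : ∀ p ∈ Finset.range (w + 1),
    star (f.eval (p : ℂ)) = f.eval (p : ℂ)) :
    S * Polynomial.aeval E f = (Polynomial.aeval E f)ᴴ * S := by
  have h1 : ∀ g : ℂ[X], S * Polynomial.aeval E g = Polynomial.aeval Eᴴ g * S := by
    intro g
    induction g using Polynomial.induction_on' with
    | add p q hp hq => rw [map_add, map_add, mul_add, add_mul, hp, hq]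
    | monomial n a =>
      rw [← C_mul_X_pow_eq_monomial, map_mul, map_mul, aeval_C, aeval_C, map_pow, map_pow,
        aeval_X, aeval_X, ← Algebra.smul_def, ← Algebra.smul_def, Matrix.mul_smul,
        Matrix.smul_mul]
      congr 1
      induction n with
      | zero => simp
      | succ n ih => rw [pow_succ, ← mul_assoc, ih, mul_assoc, h.adj, ← mul_assoc, ← pow_succ]
  have h2 : ∀ g : ℂ[X], (Polynomial.aeval E g)ᴴ = Polynomial.aeval Eᴴ (g.map (starRingEnd ℂ)) := by
    intro g
    induction g using Polynomial.induction_on' with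
    | add p q hp hq => rw [map_add, Matrix.conjTranspose_add, hp, hq, Polynomial.map_add, map_add]
    | monomial n a =>
      rw [← C_mul_X_pow_eq_monomial, map_mul, aeval_C, map_pow, aeval_X, ← Algebra.smul_def,
        Matrix.conjTranspose_smul, Matrix.conjTranspose_pow, Polynomial.map_mul, Polynomial.map_C,
        Polynomial.map_pow, Polynomial.map_X, map_mul, aeval_C, map_pow, aeval_X,
        ← Algebra.smul_def]
      rfl
  rw [h1, h2, ← h1, ← h1]
  congr 1
  refine aeval_congr h _ _ fun p hp => ?_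
  have h3 : (p : ℂ) = starRingEnd ℂ (p : ℂ) := by simp
  conv_rhs => rw [h3, Polynomial.eval_map, Polynomial.eval₂_at_apply]
  exact (hf p hp).symm

theorem S_mul_hpr (h : IsHS w S E) {p : ℕ} (hp : p ∈ Finset.range (w + 1)) :
    S * hpr w p E = (hpr w p E)ᴴ * S := by
  refine aeval_adj h _ fun q hq => ?_
  rw [eval_basis hp hq]
  split_ifs <;> simp

theorem weil_mul_weil (h : IsHS w S E) : weil w E * weil w E = 1 := by
  unfold weil
  rw [Finset.sum_mul]
  rw [← sum_hpr h]
  refine Finset.sum_congr rfl fun p hp => ?_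
  rw [Finset.mul_sum, Finset.sum_eq_single p]
  · rw [Matrix.smul_mul, Matrix.mul_smul, hpr_mul h hp hp, if_pos rfl, smul_smul, ← mul_pow]
    simp
  · intro q hq hqp
    rw [Matrix.smul_mul, Matrix.mul_smul, hpr_mul h hp hq, if_neg (Ne.symm hqp)]
    simp
  · intro h'; exact absurd hp h'

theorem S_mul_weil (h : IsHS w S E) : S * weil w E = (weil w E)ᴴ * S := by
  unfold weil
  rw [Finset.mul_sum, Matrix.conjTranspose_sum, Finset.sum_mul]
  refine Finset.sum_congr rfl fun p hp => ?_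
  rw [Matrix.mul_smul, Matrix.conjTranspose_smul, Matrix.smul_mul, S_mul_hpr h hp]
  congr 1
  simp

theorem hodge_isHermitian (h : IsHS w S E) : (hodge w S E).IsHermitian := by
  unfold hodge
  rw [Matrix.IsHermitian, Matrix.conjTranspose_mul, h.herm.eq, S_mul_weil h]

/-- the Hodge metric is the orthogonal sum of the `(-1)^p S` on the types -/
theorem hodge_dot (h : IsHS w S E) (u v : Fin N → ℂ) :
    star u ⬝ᵥ (hodge w S E *ᵥ v) =
      ∑ p ∈ Finset.range (w + 1), (-1 : ℂ) ^ p *
        (star (hpr w p E *ᵥ u) ⬝ᵥ (S *ᵥ (hpr w p E *ᵥ v))) := by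
  unfold hodge weil
  rw [Finset.mul_sum, Matrix.sum_mulVec, dotProduct_sum]
  refine Finset.sum_congr rfl fun p hp => ?_
  rw [Matrix.mul_smul, Matrix.smul_mulVec, dotProduct_smul, smul_eq_mul]
  congr 1
  have h1 : hpr w p E = hpr w p E * hpr w p E := by rw [hpr_mul h hp hp, if_pos rfl]
  conv_lhs => rw [h1, ← mul_assoc, S_mul_hpr h hp]
  rw [Matrix.star_mulVec, Matrix.mulVec_mulVec, ← Matrix.dotProduct_mulVec,
    Matrix.mulVec_mulVec, mul_assoc]

theorem hodge_posDef (h : IsHS w S E) : (hodge w S E).PosDef := by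
  refine Matrix.PosDef.of_dotProduct_mulVec_pos (hodge_isHermitian h) fun v hv => ?_
  have hre : ∀ u : Fin N → ℂ, star u ⬝ᵥ (S *ᵥ u) = ((star u ⬝ᵥ (S *ᵥ u)).re : ℂ) := by
    intro u
    have h1 : star (star u ⬝ᵥ (S *ᵥ u)) = star u ⬝ᵥ (S *ᵥ u) := by
      rw [← Matrix.star_dotProduct_star, star_star, Matrix.star_mulVec, h.herm.eq,
        ← Matrix.dotProduct_mulVec, dotProduct_comm]
    exact (Complex.conj_eq_iff_re.1 h1).symm
  have hE : ∀ p ∈ Finset.range (w + 1), E *ᵥ (hpr w p E *ᵥ v) = (p : ℂ) • (hpr w p E *ᵥ v) := by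
    intro p hp
    rw [Matrix.mulVec_mulVec, E_mul_hpr h hp, Matrix.smul_mulVec]
  have hterm : ∀ p ∈ Finset.range (w + 1), (-1 : ℂ) ^ p *
        (star (hpr w p E *ᵥ v) ⬝ᵥ (S *ᵥ (hpr w p E *ᵥ v))) =
      (((-1 : ℝ) ^ p * (star (hpr w p E *ᵥ v) ⬝ᵥ (S *ᵥ (hpr w p E *ᵥ v))).re : ℝ) : ℂ) := by
    intro p _
    rw [hre]
    push_cast
    rfl
  rw [hodge_dot h, Finset.sum_congr rfl hterm, ← Complex.ofReal_sum]
  rw [Complex.zero_lt_real]
  have hnn : ∀ p ∈ Finset.range (w + 1), 0 ≤ (-1 : ℝ) ^ p *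
      (star (hpr w p E *ᵥ v) ⬝ᵥ (S *ᵥ (hpr w p E *ᵥ v))).re := by
    intro p hp
    by_cases h0 : hpr w p E *ᵥ v = 0
    · rw [h0]; simp
    · exact (h.pos p _ (Nat.lt_succ_iff.1 (Finset.mem_range.1 hp)) h0 (hE p hp)).le
  refine lt_of_le_of_ne (Finset.sum_nonneg hnn) fun h0 => hv ?_
  have h1 := (Finset.sum_eq_zero_iff_of_nonneg hnn).1 h0.symm
  have h2 : ∀ p ∈ Finset.range (w + 1), hpr w p E *ᵥ v = 0 := by
    intro p hp
    by_contra h3
    exact absurd (h1 p hp) (h.pos p _ (Nat.lt_succ_iff.1 (Finset.mem_range.1 hp)) h3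
      (hE p hp)).ne'
  calc v = (∑ p ∈ Finset.range (w + 1), hpr w p E) *ᵥ v := by rw [sum_hpr h, Matrix.one_mulVec]
    _ = 0 := by
      rw [Matrix.sum_mulVec]
      exact Finset.sum_eq_zero h2

/-! ### `ad E` -/

/-- `ad E` -/
noncomputable def adL (E : Matrix (Fin N) (Fin N) ℂ) :
    Matrix (Fin N) (Fin N) ℂ →ₗ[ℂ] Matrix (Fin N) (Fin N) ℂ :=
  LinearMap.mulLeft ℂ E - LinearMap.mulRight ℂ E

theorem adL_apply (E A : Matrix (Fin N) (Fin N) ℂ) : adL E A = E * A - A * E := rfl

/-- the blocks of `A` -/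
noncomputable def blk (w : ℕ) (E A : Matrix (Fin N) (Fin N) ℂ) (p q : ℕ) :
    Matrix (Fin N) (Fin N) ℂ := hpr w p E * A * hpr w q E

theorem sum_blk (h : IsHS w S E) (A : Matrix (Fin N) (Fin N) ℂ) :
    A = ∑ p ∈ Finset.range (w + 1), ∑ q ∈ Finset.range (w + 1), blk w E A p q := by
  unfold blk
  simp_rw [← Finset.mul_sum]
  rw [sum_hpr h]
  simp_rw [mul_one]
  rw [← Finset.sum_mul, sum_hpr h, one_mul]

theorem adL_blk (h : IsHS w S E) (A : Matrix (Fin N) (Fin N) ℂ) {p q : ℕ}
    (hp : p ∈ Finset.range (w + 1)) (hq : q ∈ Finset.range (w + 1)) :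
    adL E (blk w E A p q) = ((p : ℂ) - q) • blk w E A p q := by
  unfold blk
  rw [adL_apply, ← mul_assoc, ← mul_assoc, E_mul_hpr h hp, mul_assoc _ _ E, hpr_mul_E h hq,
    sub_smul, Matrix.smul_mul, Matrix.smul_mul, Matrix.mul_smul]

theorem aeval_adL_blk (h : IsHS w S E) (A : Matrix (Fin N) (Fin N) ℂ) {p q : ℕ}
    (hp : p ∈ Finset.range (w + 1)) (hq : q ∈ Finset.range (w + 1)) (f : ℂ[X]) :
    Polynomial.aeval (adL E) f (blk w E A p q) = f.eval ((p : ℂ) - q) • blk w E A p q := by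
  induction f using Polynomial.induction_on' with
  | add f g hf hg => rw [map_add, LinearMap.add_apply, hf, hg, eval_add, add_smul]
  | monomial n a =>
    rw [← C_mul_X_pow_eq_monomial, map_mul, aeval_C, map_pow, aeval_X, Module.End.mul_apply,
      Module.algebraMap_end_apply, eval_mul, eval_C, eval_pow, eval_X, mul_smul]
    congr 1
    induction n with
    | zero => simp
    | succ n ih => rw [pow_succ, Module.End.mul_apply, adL_blk h A hp hq, map_smul, ih, smul_smul,
        pow_succ, mul_comm]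

theorem aeval_adL (h : IsHS w S E) (A : Matrix (Fin N) (Fin N) ℂ) (f : ℂ[X]) :
    Polynomial.aeval (adL E) f A = ∑ p ∈ Finset.range (w + 1), ∑ q ∈ Finset.range (w + 1),
      f.eval ((p : ℂ) - q) • blk w E A p q := by
  conv_lhs => rw [sum_blk h A]
  rw [map_sum]
  refine Finset.sum_congr rfl fun p hp => ?_
  rw [map_sum]
  exact Finset.sum_congr rfl fun q hq => aeval_adL_blk h A hp hq f

/-- the degree `k` part of `A` -/
noncomputable def cpt (w : ℕ) (E A : Matrix (Fin N) (Fin N) ℂ) (k : ℤ) :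
    Matrix (Fin N) (Fin N) ℂ :=
  ∑ p ∈ Finset.range (w + 1), ∑ q ∈ Finset.range (w + 1),
    if (p : ℤ) - q = k then blk w E A p q else 0

/-- interpolation on the differences -/
theorem exists_interp (w : ℕ) (r : ℤ → ℂ) : ∃ f : ℂ[X], ∀ p ∈ Finset.range (w + 1),
    ∀ q ∈ Finset.range (w + 1), f.eval ((p : ℂ) - q) = r ((p : ℤ) - q) := by
  let s : Finset ℤ := Finset.Icc (-(w : ℤ)) w
  refine ⟨Lagrange.interpolate s (fun k : ℤ => (k : ℂ)) r, fun p hp q hq => ?_⟩
  have hk : (p : ℤ) - q ∈ s := by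
    rw [Finset.mem_range] at hp hq
    rw [Finset.mem_Icc]
    omega
  have h1 := Lagrange.eval_interpolate_at_node r (s := s) (v := fun k : ℤ => (k : ℂ))
    (fun _ _ _ _ h => Int.cast_injective (α := ℂ) h) hk
  push_cast at h1
  exact h1

theorem sum_cpt (h : IsHS w S E) (A : Matrix (Fin N) (Fin N) ℂ) :
    A = ∑ k ∈ Finset.Icc (-(w : ℤ)) w, cpt w E A k := by
  unfold cpt
  rw [Finset.sum_comm]
  conv_lhs => rw [sum_blk h A]
  refine Finset.sum_congr rfl fun p hp => ?_
  rw [Finset.sum_comm]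
  refine Finset.sum_congr rfl fun q hq => ?_
  rw [Finset.sum_ite_eq, if_pos]
  rw [Finset.mem_range] at hp hq
  rw [Finset.mem_Icc]
  omega

theorem cpt_eq_aeval (h : IsHS w S E) (k : ℤ) : ∃ f : ℂ[X],
    ∀ A : Matrix (Fin N) (Fin N) ℂ, cpt w E A k = Polynomial.aeval (adL E) f A := by
  obtain ⟨f, hf⟩ := exists_interp w (fun j => if j = k then 1 else 0)
  refine ⟨f, fun A => ?_⟩
  rw [aeval_adL h]
  unfold cpt
  refine Finset.sum_congr rfl fun p hp => Finset.sum_congr rfl fun q hq => ?_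
  rw [hf p hp q hq]
  split_ifs <;> simp

theorem weil_conj_eq_aeval (h : IsHS w S E) : ∃ f : ℂ[X],
    ∀ A : Matrix (Fin N) (Fin N) ℂ, weil w E * A * weil w E = Polynomial.aeval (adL E) f A := by
  obtain ⟨f, hf⟩ := exists_interp w (fun j => (-1) ^ j.natAbs)
  refine ⟨f, fun A => ?_⟩
  rw [aeval_adL h]
  unfold weil
  rw [Finset.sum_mul, Finset.sum_mul]
  refine Finset.sum_congr rfl fun p hp => ?_
  rw [Finset.mul_sum]
  refine Finset.sum_congr rfl fun q hq => ?_
  rw [hf p hp q hq]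
  unfold blk
  rw [Matrix.smul_mul, Matrix.smul_mul, Matrix.mul_smul, smul_smul]
  congr 1
  have h1 : ((p : ℤ) - q).natAbs % 2 = (p + q) % 2 := by omega
  rw [← pow_add]
  rcases Nat.even_or_odd (p + q) with h2 | h2
  · rw [h2.neg_one_pow, Even.neg_one_pow]
    rw [Nat.even_iff] at h2 ⊢
    omega
  · rw [h2.neg_one_pow, Odd.neg_one_pow]
    rw [Nat.odd_iff] at h2 ⊢
    omega

/-- degree `k ≠ 0` parts are nilpotent -/
theorem cpt_mul_hpr (h : IsHS w S E) (A : Matrix (Fin N) (Fin N) ℂ) (k : ℤ) {q : ℕ}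
    (hq : q ∈ Finset.range (w + 1)) :
    ∃ r : ℕ → Matrix (Fin N) (Fin N) ℂ, cpt w E A k * hpr w q E =
      ∑ p ∈ Finset.range (w + 1), if (p : ℤ) - q = k then hpr w p E * r p else 0 := by
  refine ⟨fun _ => A * hpr w q E, ?_⟩
  unfold cpt
  rw [Finset.sum_mul]
  refine Finset.sum_congr rfl fun p hp => ?_
  rw [Finset.sum_mul, Finset.sum_eq_single q]
  · split_ifs with h1
    · unfold blk
      rw [mul_assoc, mul_assoc, hpr_mul h hq hq, if_pos rfl]
    · rw [zero_mul]
  · intro q' hq' hne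
    split_ifs with h1
    · unfold blk
      rw [mul_assoc, hpr_mul h hq' hq, if_neg hne, mul_zero]
    · rw [zero_mul]
  · intro h'; exact absurd hq h'

theorem adL_cpt (h : IsHS w S E) (A : Matrix (Fin N) (Fin N) ℂ) (k : ℤ) :
    adL E (cpt w E A k) = (k : ℂ) • cpt w E A k := by
  unfold cpt
  rw [map_sum, Finset.smul_sum]
  refine Finset.sum_congr rfl fun p hp => ?_
  rw [map_sum, Finset.smul_sum]
  refine Finset.sum_congr rfl fun q hq => ?_
  split_ifs with h1
  · rw [adL_blk h A hp hq, ← h1]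
    push_cast
    rfl
  · rw [map_zero, smul_zero]

/-- an eigenvector of `ad E` for a nonzero eigenvalue is nilpotent -/
theorem isNilpotent_of_adL (h : IsHS w S E) {A : Matrix (Fin N) (Fin N) ℂ} {k : ℤ} (hk : k ≠ 0)
    (hA : adL E A = (k : ℂ) • A) : IsNilpotent A := by
  have h1 : ∀ n : ℕ, adL E (A ^ n) = ((n : ℂ) * k) • A ^ n := by
    intro n
    induction n with
    | zero => simp [adL_apply]
    | succ n ih =>
      have h2 : adL E (A ^ n * A) = adL E (A ^ n) * A + A ^ n * adL E A := by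
        simp only [adL_apply]
        noncomm_ring
      rw [pow_succ, h2, ih, hA, Matrix.smul_mul, Matrix.mul_smul, ← add_smul]
      congr 1
      push_cast
      ring
  refine ⟨2 * w + 1, ?_⟩
  have h3 := h1 (2 * w + 1)
  set B := A ^ (2 * w + 1) with hB
  have h4 : ∀ p ∈ Finset.range (w + 1), ∀ q ∈ Finset.range (w + 1), blk w E B p q = 0 := by
    intro p hp q hq
    have h5 : adL E (blk w E B p q) = (((2 * w + 1 : ℕ) : ℂ) * k) • blk w E B p q := by
      have h6 : adL E (blk w E B p q) = blk w E (adL E B) p q := by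
        simp only [adL_apply, blk]
        rw [mul_sub, sub_mul, ← mul_assoc E, ← mul_assoc E, (commute_hpr w p E).eq, mul_assoc _ _ E,
          ← (commute_hpr w q E).eq]
        noncomm_ring
      rw [h6, h3]
      unfold blk
      rw [Matrix.mul_smul, Matrix.smul_mul]
    rw [adL_blk h B hp hq, ← sub_eq_zero, ← sub_smul] at h5
    rcases smul_eq_zero.1 h5 with h6 | h6
    · exfalso
      have h7 : (p : ℤ) - q = (2 * w + 1 : ℕ) * k := by
        have : ((((p : ℤ) - q : ℤ) : ℂ)) = (((2 * w + 1 : ℕ) * k : ℤ) : ℂ) := by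
          push_cast
          push_cast at h6
          linear_combination h6
        exact_mod_cast this
      rw [Finset.mem_range] at hp hq
      have h8 : (2 * w + 1 : ℤ) ≤ |((2 * w + 1 : ℕ) : ℤ) * k| := by
        rw [abs_mul]
        have : 1 ≤ |k| := Int.one_le_abs hk
        push_cast
        rw [abs_of_nonneg (by positivity : (0 : ℤ) ≤ 2 * w + 1)]
        nlinarith
      rw [← h7] at h8
      have h9 : |(p : ℤ) - q| ≤ w := by
        rw [abs_le]; constructor <;> omega
      omega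
    · exact h6
  rw [sum_blk h B]
  exact Finset.sum_eq_zero fun p hp => Finset.sum_eq_zero fun q hq => h4 p hp q hq

/-- invariance of a subspace under polynomials in an operator -/
theorem aeval_mem {M : Type*} [AddCommGroup M] [Module ℂ M] (L : M →ₗ[ℂ] M) (p : Submodule ℂ M)
    (hp : ∀ x ∈ p, L x ∈ p) (f : ℂ[X]) : ∀ x ∈ p, Polynomial.aeval L f x ∈ p := by
  induction f using Polynomial.induction_on' with
  | add f g hf hg =>
    intro x hx
    rw [map_add, LinearMap.add_apply]
    exact p.add_mem (hf x hx) (hg x hx)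
  | monomial n a =>
    intro x hx
    rw [← C_mul_X_pow_eq_monomial, map_mul, aeval_C, map_pow, aeval_X, Module.End.mul_apply,
      Module.algebraMap_end_apply]
    refine p.smul_mem _ ?_
    induction n with
    | zero => simpa using hx
    | succ n ih =>
      rw [pow_succ', Module.End.mul_apply]
      exact hp _ ih

end Crest.Agent.R276.HSL_574
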