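import Crest.Agent.R276.Circ_696
import Crest.Agent.R300.An1

/-
ROW 276, task CIRC (helper696), second half.
NB-CORE: sharp `L^{2θ}` extension over a disc by iterated Hoelder, and the sub-mean-value property of the
`L^{2θ}`-Bergman kernel (`θ = 1/N`), formalism independent.
-/

namespace Crest.Agent.R276.NBcore_696

open MeasureTheory Metric Polynomial Complex Real
open Crest.Agent.R276.Circ_696 (vN dN circle)
open scoped ComplexOrder

noncomputable section

variable {ρ : ℝ} {s : ℕ}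

theorem ci (hρ : 0 < ρ) {f : ℂ → ℝ} (hf : ContinuousOn f (sphere 0 ρ)) :
    CircleIntegrable f 0 ρ := hf.circleIntegrable hρ.le

theorem mono (hρ : 0 < ρ) {f g : ℂ → ℝ} (hf : ContinuousOn f (sphere 0 ρ))
    (hg : ContinuousOn g (sphere 0 ρ)) (h : ∀ t ∈ sphere (0 : ℂ) ρ, f t ≤ g t) :
    circleAverage f 0 ρ ≤ circleAverage g 0 ρ := by
  apply circleAverage_mono (ci hρ hf) (ci hρ hg)
  rwa [abs_of_pos hρ]

/-- Hoelder for circle averages. -/
theorem holder_avg (hρ : 0 < ρ) {f g : ℂ → ℝ} (hf : ContinuousOn f (sphere 0 ρ))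
    (hg : ContinuousOn g (sphere 0 ρ)) (hf0 : ∀ t ∈ sphere (0 : ℂ) ρ, 0 ≤ f t)
    (hg0 : ∀ t ∈ sphere (0 : ℂ) ρ, 0 ≤ g t) {θ a b : ℝ} (hθ : 0 < θ) (hθ1 : θ ≤ 1)
    (ha : 0 < a) (hb : 0 < b) (hfa : circleAverage f 0 ρ ≤ a) (hgb : circleAverage g 0 ρ ≤ b)
    {k : ℂ → ℝ} (hk : ContinuousOn k (sphere 0 ρ))
    (hkfg : ∀ t ∈ sphere (0 : ℂ) ρ, k t ≤ f t ^ θ * g t ^ (1 - θ)) :
    circleAverage k 0 ρ ≤ a ^ θ * b ^ (1 - θ) := by
  set c := a ^ θ * b ^ (1 - θ) with hc
  have hc0 : 0 < c := by positivity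
  have h1 : ∀ t ∈ sphere (0 : ℂ) ρ, k t ≤ (c * θ / a) * f t + (c * (1 - θ) / b) * g t := by
    intro t ht
    refine (hkfg t ht).trans ?_
    have h2 := Real.geom_mean_le_arith_mean2_weighted hθ.le (sub_nonneg.2 hθ1)
      (div_nonneg (hf0 t ht) ha.le) (div_nonneg (hg0 t ht) hb.le) (by ring)
    rw [Real.div_rpow (hf0 t ht) ha.le, Real.div_rpow (hg0 t ht) hb.le] at h2
    have ha' : (a ^ θ) ≠ 0 := by positivity
    have hb' : (b ^ (1 - θ)) ≠ 0 := by positivity
    calc f t ^ θ * g t ^ (1 - θ) = c * (f t ^ θ / a ^ θ * (g t ^ (1 - θ) / b ^ (1 - θ))) := by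
          rw [hc]; field_simp
      _ ≤ c * (θ * (f t / a) + (1 - θ) * (g t / b)) := mul_le_mul_of_nonneg_left h2 hc0.le
      _ = _ := by ring
  have h3 : circleAverage k 0 ρ ≤
      circleAverage (fun t => (c * θ / a) * f t + (c * (1 - θ) / b) * g t) 0 ρ := by
    apply mono hρ hk _ h1
    exact (continuousOn_const.mul hf).add (continuousOn_const.mul hg)
  have h4 : circleAverage (fun t => (c * θ / a) * f t + (c * (1 - θ) / b) * g t) 0 ρ =
      (c * θ / a) * circleAverage f 0 ρ + (c * (1 - θ) / b) * circleAverage g 0 ρ := by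
    have cf : ContinuousOn (fun t => (c * θ / a) * f t) (sphere 0 ρ) := continuousOn_const.mul hf
    have cg : ContinuousOn (fun t => (c * (1 - θ) / b) * g t) (sphere 0 ρ) :=
      continuousOn_const.mul hg
    rw [circleAverage_fun_add (ci hρ cf) (ci hρ cg)]
    have e1 := circleAverage_fun_smul (a := (c * θ / a)) (f := f) (c := 0) (R := ρ)
    have e2 := circleAverage_fun_smul (a := (c * (1 - θ) / b)) (f := g) (c := 0) (R := ρ)
    simp only [smul_eq_mul] at e1 e2
    rw [e1, e2]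
  rw [h4] at h3
  refine h3.trans ?_
  have h5 : (c * θ / a) * circleAverage f 0 ρ ≤ (c * θ / a) * a :=
    mul_le_mul_of_nonneg_left hfa (by positivity)
  have h6 : (c * (1 - θ) / b) * circleAverage g 0 ρ ≤ (c * (1 - θ) / b) * b :=
    mul_le_mul_of_nonneg_left hgb (div_nonneg (mul_nonneg hc0.le (sub_nonneg.2 hθ1)) hb.le)
  have h7 : (c * θ / a) * a = c * θ := by field_simp
  have h8 : (c * (1 - θ) / b) * b = c * (1 - θ) := by field_simp
  rw [h7] at h5
  rw [h8] at h6
  calc _ ≤ c * θ + c * (1 - θ) := add_le_add h5 h6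
    _ = c := by ring

/-- Jensen for circle averages. -/
theorem avg_log_le (hρ : 0 < ρ) {h : ℂ → ℝ} (hh : ContinuousOn h (sphere 0 ρ))
    (hpos : ∀ t ∈ sphere (0 : ℂ) ρ, 0 < h t) {a : ℝ} (ha : 0 < a)
    (hle : circleAverage h 0 ρ ≤ a) :
    circleAverage (fun t => Real.log (h t)) 0 ρ ≤ Real.log a := by
  have ch : ContinuousOn (fun t => a⁻¹ * h t) (sphere 0 ρ) := continuousOn_const.mul hh
  have cc : ContinuousOn (fun _ : ℂ => Real.log a - 1) (sphere 0 ρ) := continuousOn_const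
  have h1 : circleAverage (fun t => Real.log (h t)) 0 ρ ≤
      circleAverage (fun t => a⁻¹ * h t + (Real.log a - 1)) 0 ρ := by
    refine mono hρ (hh.log fun t ht => (hpos t ht).ne') (ch.add cc) ?_
    intro t ht
    have h2 := Real.log_le_sub_one_of_pos (div_pos (hpos t ht) ha)
    rw [Real.log_div (hpos t ht).ne' ha.ne'] at h2
    rw [inv_mul_eq_div]
    linarith
  refine h1.trans ?_
  rw [circleAverage_fun_add (ci hρ ch) (ci hρ cc), circleAverage_const]
  have e1 := circleAverage_fun_smul (a := a⁻¹) (f := h) (c := 0) (R := ρ)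
  simp only [smul_eq_mul] at e1
  rw [e1]
  have h3 : a⁻¹ * circleAverage h 0 ρ ≤ a⁻¹ * a := mul_le_mul_of_nonneg_left hle (by positivity)
  rw [inv_mul_cancel₀ ha.ne'] at h3
  linarith

/-- the `δ`-log form of the sub-mean-value property implies the plain one -/
theorem le_avg_of_log (hρ : 0 < ρ) {b : ℂ → ℝ} (hb : ContinuousOn b (sphere 0 ρ))
    (hb0 : ∀ t ∈ sphere (0 : ℂ) ρ, 0 ≤ b t) {b0 : ℝ} (h0 : 0 ≤ b0) {δ : ℝ} (hδ : 0 < δ)
    (h : Real.log (b0 + δ) ≤ circleAverage (fun t => Real.log (b t + δ)) 0 ρ) :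
    b0 ≤ circleAverage b 0 ρ := by
  have h1 : 0 ≤ circleAverage b 0 ρ := by
    apply circleAverage_nonneg_of_nonneg
    intro t ht
    rw [abs_of_pos hρ] at ht
    exact hb0 t ht
  have h2 : circleAverage (fun t => Real.log (b t + δ)) 0 ρ ≤
      Real.log (circleAverage b 0 ρ + δ) := by
    have hbδ : ContinuousOn (fun t => b t + δ) (sphere 0 ρ) := hb.add continuousOn_const
    apply avg_log_le hρ hbδ (fun t ht => by have := hb0 t ht; linarith) (by linarith)
    have : circleAverage (fun t => b t + δ) 0 ρ = circleAverage b 0 ρ + δ := by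
      rw [circleAverage_fun_add (ci hρ hb) (ci hρ continuousOn_const), circleAverage_const]
    exact this.le
  have h3 := (Real.log_le_log_iff (by linarith) (by linarith)).1 (h.trans h2)
  linarith

/-- the dual norm is attained -/
theorem dN_attained {H : Matrix (Fin s) (Fin s) ℂ} (hH : H.PosDef) (ξ : Fin s → ℂ) :
    ‖ξ ⬝ᵥ H⁻¹.mulVec (star ξ)‖ = dN H ξ ∧ vN H (H⁻¹.mulVec (star ξ)) = dN H ξ := by
  have hu : IsUnit H.det := (Matrix.isUnit_iff_isUnit_det _).1 hH.isUnit
  constructor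
  · have h1 := hH.inv.posSemidef.dotProduct_mulVec_nonneg (star ξ)
    rw [star_star] at h1
    have h2 : ξ ⬝ᵥ H⁻¹.mulVec (star ξ) = ((dN H ξ : ℝ) : ℂ) := by
      rw [Complex.le_def] at h1
      apply Complex.ext
      · rfl
      · rw [← h1.2]; simp
    rw [h2, Complex.norm_real, Real.norm_eq_abs, abs_of_nonneg (Circ_696.dN_nonneg hH ξ)]
  · have h3 : H.mulVec (H⁻¹.mulVec (star ξ)) = star ξ := by
      rw [Matrix.mulVec_mulVec, Matrix.mul_nonsing_inv _ hu, Matrix.one_mulVec]
    rw [vN, h3, Matrix.star_dotProduct_star, dN]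
    simp

/-- upper bounds of the dual norm -/
theorem dN_le {H : Matrix (Fin s) (Fin s) ℂ} (hH : H.PosDef) {ξ : Fin s → ℂ} {c : ℝ} (hc : 0 ≤ c)
    (h : ∀ v, ‖ξ ⬝ᵥ v‖ ^ 2 ≤ c * vN H v) : dN H ξ ≤ c := by
  have h1 := h (H⁻¹.mulVec (star ξ))
  obtain ⟨h2, h3⟩ := dN_attained hH ξ
  rw [h2, h3] at h1
  rcases eq_or_lt_of_le (Circ_696.dN_nonneg hH ξ) with h0 | h0
  · rw [← h0]; exact hc
  · rw [sq] at h1
    exact le_of_mul_le_mul_right h1 h0

/-- the geometric mean is superadditive with respect to constants -/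
theorem geom_superadd (hρ : 0 < ρ) {B : ℂ → ℝ} (hB : ContinuousOn B (sphere 0 ρ))
    (hB0 : ∀ t ∈ sphere (0 : ℂ) ρ, 0 ≤ B t) {δ' c : ℝ} (hδ' : 0 < δ') (hc : 0 < c) :
    Real.exp (circleAverage (fun t => Real.log (B t + δ')) 0 ρ) + c ≤
      Real.exp (circleAverage (fun t => Real.log (B t + (δ' + c))) 0 ρ) := by
  have p1 : ∀ t ∈ sphere (0 : ℂ) ρ, 0 < B t + δ' := fun t ht => by have := hB0 t ht; linarith
  have p2 : ∀ t ∈ sphere (0 : ℂ) ρ, 0 < B t + (δ' + c) := fun t ht => by
    have := hB0 t ht; linarith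
  have c1 : ContinuousOn (fun t => B t + δ') (sphere 0 ρ) := hB.add continuousOn_const
  have c2 : ContinuousOn (fun t => B t + (δ' + c)) (sphere 0 ρ) := hB.add continuousOn_const
  have c3 : ContinuousOn (fun t => (B t + δ') / (B t + (δ' + c))) (sphere 0 ρ) :=
    c1.div c2 fun t ht => (p2 t ht).ne'
  have c4 : ContinuousOn (fun t => c / (B t + (δ' + c))) (sphere 0 ρ) :=
    continuousOn_const.div c2 fun t ht => (p2 t ht).ne'
  set G1 := circleAverage (fun t => Real.log (B t + δ')) 0 ρ with hG1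
  set G2 := circleAverage (fun t => Real.log (B t + (δ' + c))) 0 ρ with hG2
  have l1 : ContinuousOn (fun t => Real.log (B t + δ')) (sphere 0 ρ) :=
    c1.log fun t ht => (p1 t ht).ne'
  have l2 : ContinuousOn (fun t => Real.log (B t + (δ' + c))) (sphere 0 ρ) :=
    c2.log fun t ht => (p2 t ht).ne'
  set A1 := circleAverage (fun t => (B t + δ') / (B t + (δ' + c))) 0 ρ with hA1
  set A2 := circleAverage (fun t => c / (B t + (δ' + c))) 0 ρ with hA2
  have hsum : A1 + A2 = 1 := by
    rw [hA1, hA2, ← circleAverage_fun_add (ci hρ c3) (ci hρ c4)]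
    rw [circleAverage_congr_sphere (f₂ := fun _ => (1 : ℝ)), circleAverage_const]
    intro t ht
    rw [abs_of_pos hρ] at ht
    have := (p2 t ht).ne'
    simp only
    rw [← add_div]
    rw [show B t + δ' + c = B t + (δ' + c) by ring, div_self this]
  -- strict positivity of the averages
  have key : ∀ {h : ℂ → ℝ} (hh : ContinuousOn h (sphere 0 ρ)) (hp : ∀ t ∈ sphere (0 : ℂ) ρ, 0 < h t),
      Real.exp (circleAverage (fun t => Real.log (h t)) 0 ρ) ≤ circleAverage h 0 ρ := by
    intro h hh hp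
    have h0 : 0 ≤ circleAverage h 0 ρ := by
      apply circleAverage_nonneg_of_nonneg
      intro t ht
      rw [abs_of_pos hρ] at ht
      exact (hp t ht).le
    apply le_of_forall_pos_le_add
    intro η hη
    have h1 := avg_log_le hρ hh hp (a := circleAverage h 0 ρ + η) (by linarith) (by linarith)
    calc _ ≤ Real.exp (Real.log (circleAverage h 0 ρ + η)) := Real.exp_le_exp.2 h1
      _ = _ := Real.exp_log (by linarith)
  have k1 := key c3 (fun t ht => div_pos (p1 t ht) (p2 t ht))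
  have k2 := key c4 (fun t ht => div_pos hc (p2 t ht))
  have e1 : circleAverage (fun t => Real.log ((B t + δ') / (B t + (δ' + c)))) 0 ρ = G1 - G2 := by
    rw [hG1, hG2, ← circleAverage_fun_sub (ci hρ l1) (ci hρ l2)]
    apply circleAverage_congr_sphere
    intro t ht
    rw [abs_of_pos hρ] at ht
    exact Real.log_div (p1 t ht).ne' (p2 t ht).ne'
  have e2 : circleAverage (fun t => Real.log (c / (B t + (δ' + c)))) 0 ρ = Real.log c - G2 := by
    have : circleAverage (fun _ : ℂ => Real.log c) 0 ρ = Real.log c := circleAverage_const _ _ _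
    rw [hG2, ← this, ← circleAverage_fun_sub (ci hρ continuousOn_const) (ci hρ l2)]
    apply circleAverage_congr_sphere
    intro t ht
    rw [abs_of_pos hρ] at ht
    exact Real.log_div hc.ne' (p2 t ht).ne'
  rw [e1, Real.exp_sub] at k1
  rw [e2, Real.exp_sub, Real.exp_log hc] at k2
  have hG2p : 0 < Real.exp G2 := Real.exp_pos _
  have : (Real.exp G1 + c) / Real.exp G2 ≤ 1 := by
    rw [add_div, ← hsum]
    exact add_le_add k1 k2
  rwa [div_le_one hG2p] at this

/-- The input of the `L^{2θ}` theory over the disc of radius `ρ`: for every polynomial family `F` through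
`v0` and every `η > 0` there is a Hermitian metric (the `L²` metric with the weight
`(|F|² + δ Σ|u_i|²)^{-(1-θ)}`) with the Hoelder inequality, the dual sub-mean-value inequality
(positivity of direct images) and the bound at the centre. -/
def Weights (ρ θ : ℝ) (p : ℂ → (Fin s → ℂ) → ℝ) (v0 : Fin s → ℂ) (P0 : ℝ) : Prop :=
  ∀ F : Fin s → ℂ[X], (∀ i, (F i).eval 0 = v0 i) → ∀ η : ℝ, 0 < η →
    ∃ (H : ℂ → Matrix (Fin s) (Fin s) ℂ) (H0 : Matrix (Fin s) (Fin s) ℂ) (q : ℂ → ℝ),
      ContinuousOn H (sphere 0 ρ) ∧ (∀ t ∈ sphere (0 : ℂ) ρ, (H t).PosDef) ∧ H0.PosDef ∧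
      (∀ ξ : Fin s → ℂ[X], dN H0 (fun i => (ξ i).eval 0) ≤
        circleAverage (fun t => dN (H t) (fun i => (ξ i).eval t)) 0 ρ) ∧
      ContinuousOn q (sphere 0 ρ) ∧ (∀ t ∈ sphere (0 : ℂ) ρ, 0 ≤ q t) ∧
      (∀ t ∈ sphere (0 : ℂ) ρ, ∀ v, p t v ≤ (vN (H t) v) ^ θ * (q t) ^ (1 - θ)) ∧
      vN H0 v0 ≤ P0 ∧
      circleAverage q 0 ρ ≤ circleAverage (fun t => p t (fun i => (F i).eval t)) 0 ρ + η

/-- **Sharp `L^{2θ}` extension over a disc** (`θ = 1/N`). -/
theorem ext (hρ : 0 < ρ) {θ : ℝ} (hθ : 0 < θ) (hθ1 : θ ≤ 1) (p : ℂ → (Fin s → ℂ) → ℝ)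
    (hpc : ContinuousOn (fun x : ℂ × (Fin s → ℂ) => p x.1 x.2) (sphere 0 ρ ×ˢ Set.univ))
    (hp0 : ∀ t ∈ sphere (0 : ℂ) ρ, ∀ v, 0 ≤ p t v) (v0 : Fin s → ℂ) {P0 : ℝ} (hP0 : 0 ≤ P0)
    (hW : Weights ρ θ p v0 P0)
    {ε : ℝ} (hε : 0 < ε) :
    ∃ F : Fin s → ℂ[X], (∀ i, (F i).eval 0 = v0 i) ∧
      circleAverage (fun t => p t (fun i => (F i).eval t)) 0 ρ ≤ P0 + ε := by
  by_contra hcon
  push Not at hcon
  set JF : (Fin s → ℂ[X]) → ℝ := fun F => circleAverage (fun t => p t (fun i => (F i).eval t)) 0 ρ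
    with hJF
  set S : Set ℝ := JF '' {F | ∀ i, (F i).eval 0 = v0 i} with hS
  have hSne : S.Nonempty := ⟨_, fun i => C (v0 i), by simp, rfl⟩
  have hSb : BddBelow S := ⟨0, by
    rintro _ ⟨F, _, rfl⟩
    apply circleAverage_nonneg_of_nonneg
    intro t ht
    rw [abs_of_pos hρ] at ht
    exact hp0 t ht _⟩
  set I := sInf S with hI
  have hIge : P0 + ε ≤ I := by
    apply le_csInf hSne
    rintro _ ⟨F, hF, rfl⟩
    exact (hcon F hF).le
  have hI0 : 0 < I := by linarith
  have hpF : ∀ F : Fin s → ℂ[X], ContinuousOn (fun t => p t (fun i => (F i).eval t)) (sphere 0 ρ) := by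
    intro F
    have hc : Continuous fun t : ℂ => ((t, fun i => (F i).eval t) : ℂ × (Fin s → ℂ)) :=
      continuous_id.prodMk (continuous_pi fun i => (F i).continuous)
    exact hpc.comp hc.continuousOn (fun t ht => ⟨ht, Set.mem_univ _⟩)
  have hstep : ∀ η : ℝ, 0 < η → I ≤ (P0 + η) ^ θ * (I + 2 * η) ^ (1 - θ) := by
    intro η hη
    obtain ⟨_, ⟨F, hF, rfl⟩, hFI⟩ := exists_lt_of_csInf_lt hSne (show sInf S < I + η by linarith)
    obtain ⟨H, H0, q, hH, hHp, hH0, hyp, hq, hq0, hpq, hv0, hqF⟩ := hW F hF η hη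
    obtain ⟨τ, hτ0, hτ⟩ := circle hρ hH hHp hH0 hyp v0 hη
    have h1 : I ≤ JF τ := csInf_le hSb ⟨τ, hτ0, rfl⟩
    refine h1.trans ?_
    have hcτ : Continuous fun t : ℂ => (fun i => (τ i).eval t : Fin s → ℂ) :=
      continuous_pi fun i => (τ i).continuous
    have hvc : ContinuousOn (fun t => vN (H t) (fun i => (τ i).eval t)) (sphere 0 ρ) := by
      have h2 : ContinuousOn (fun t => star (fun i => (τ i).eval t : Fin s → ℂ) ⬝ᵥ
          (H t).mulVec (fun i => (τ i).eval t)) (sphere 0 ρ) := by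
        rw [continuousOn_iff_continuous_domRestrict] at hH ⊢
        have h3 : Continuous fun t : sphere (0 : ℂ) ρ => (fun i => (τ i).eval (t : ℂ) : Fin s → ℂ) :=
          hcτ.comp continuous_subtype_val
        exact (continuous_star.comp h3).dotProduct (hH.matrix_mulVec h3)
      exact Complex.continuous_re.comp_continuousOn h2
    exact holder_avg hρ hvc hq (fun t ht => Circ_696.vN_nonneg (hHp t ht).posSemidef _) hq0 hθ hθ1
      (by linarith) (by linarith) (hτ.trans (by linarith))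
      (hqF.trans (by have := hFI.le; simp only [hJF] at this; linarith))
      (hpF τ) (fun t ht => hpq t ht _)
  -- let `η → 0`
  have hlim : I ≤ (P0 + 0) ^ θ * (I + 2 * 0) ^ (1 - θ) := by
    have hcont : ContinuousWithinAt (fun η : ℝ => (P0 + η) ^ θ * (I + 2 * η) ^ (1 - θ))
        (Set.Ioi 0) 0 := by
      apply ContinuousAt.continuousWithinAt
      apply ContinuousAt.mul
      · exact (continuousAt_const.add continuousAt_id).rpow_const (Or.inr hθ.le)
      · apply ContinuousAt.rpow_const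
        · fun_prop
        · left; simpa using hI0.ne'
    apply ge_of_tendsto hcont.tendsto
    filter_upwards [self_mem_nhdsWithin] with η hη
    exact hstep η hη
  rw [add_zero, mul_zero, add_zero] at hlim
  have h5 : I = I ^ θ * I ^ (1 - θ) := by
    rw [← Real.rpow_add hI0]; simp
  have h6 : I ^ θ ≤ P0 ^ θ := by
    have h7 : I ^ θ * I ^ (1 - θ) ≤ P0 ^ θ * I ^ (1 - θ) := h5 ▸ hlim
    exact le_of_mul_le_mul_right h7 (by positivity)
  have h8 : I ≤ P0 := by
    by_contra hlt
    push Not at hlt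
    exact absurd h6 (not_le.2 (Real.rpow_lt_rpow hP0 hlt hθ))
  linarith

/-- **Sub-mean-value property of the `L^{2θ}`-Bergman kernel** (`θ = 1/N`) along a holomorphic family
`e t` of evaluation functionals, in the `δ`-form. -/
theorem nb (hρ : 0 < ρ) {θ : ℝ} (hθ : 0 < θ) (hθ1 : θ ≤ 1) (p : ℂ → (Fin s → ℂ) → ℝ)
    (hpc : ContinuousOn (fun x : ℂ × (Fin s → ℂ) => p x.1 x.2) (sphere 0 ρ ×ˢ Set.univ))
    (hp0 : ∀ t ∈ sphere (0 : ℂ) ρ, ∀ v, 0 ≤ p t v) (v0 : Fin s → ℂ) {P0 : ℝ} (hP0 : 0 < P0)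
    (hW : Weights ρ θ p v0 P0) (e : ℂ → Fin s → ℂ)
    (he : ∀ i, AnalyticOnNhd ℂ (fun t => e t i) (closedBall 0 ρ))
    {B : ℂ → ℝ} (hB : ContinuousOn B (sphere 0 ρ)) (hB0 : ∀ t ∈ sphere (0 : ℂ) ρ, 0 ≤ B t)
    (hBp : ∀ t ∈ sphere (0 : ℂ) ρ, ∀ w : Fin s → ℂ, ‖e t ⬝ᵥ w‖ ^ (2 * θ) ≤ B t * p t w)
    {δ : ℝ} (hδ : 0 < δ) :
    Real.log (‖e 0 ⬝ᵥ v0‖ ^ (2 * θ) / P0 + δ) ≤
      circleAverage (fun t => Real.log (B t + δ)) 0 ρ := by
  have p1 : ∀ δ : ℝ, 0 < δ → ∀ t ∈ sphere (0 : ℂ) ρ, 0 < B t + δ := fun δ hδ t ht => by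
    have := hB0 t ht; linarith
  have c1 : ∀ δ : ℝ, ContinuousOn (fun t => B t + δ) (sphere 0 ρ) := fun δ =>
    hB.add continuousOn_const
  have l1 : ∀ δ : ℝ, 0 < δ → ContinuousOn (fun t => Real.log (B t + δ)) (sphere 0 ρ) :=
    fun δ hδ => (c1 δ).log fun t ht => (p1 δ hδ t ht).ne'
  rcases eq_or_ne (e 0 ⬝ᵥ v0) 0 with h0 | h0
  · -- trivial case
    rw [h0, norm_zero, Real.zero_rpow (by positivity), zero_div, zero_add]
    have : circleAverage (fun _ : ℂ => Real.log δ) 0 ρ = Real.log δ := circleAverage_const _ _ _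
    rw [← this]
    apply mono hρ continuousOn_const (l1 δ hδ)
    intro t ht
    exact Real.log_le_log hδ (by have := hB0 t ht; linarith)
  set b0 := ‖e 0 ⬝ᵥ v0‖ ^ (2 * θ) / P0 with hb0
  have hn0 : 0 < ‖e 0 ⬝ᵥ v0‖ := norm_pos_iff.2 h0
  have hb0p : 0 < b0 := by positivity
  -- first step: `b0 ≤ G(δ')` for every `δ' > 0`
  have hG : ∀ δ' : ℝ, 0 < δ' →
      b0 ≤ Real.exp (circleAverage (fun t => Real.log (B t + δ')) 0 ρ) := by
    intro δ' hδ'
    have h1 : ∀ ε : ℝ, 0 < ε → 2 * θ * Real.log ‖e 0 ⬝ᵥ v0‖ ≤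
        circleAverage (fun t => Real.log (B t + δ')) 0 ρ + Real.log (P0 + 2 * ε) := by
      intro ε hε
      obtain ⟨F, hF0, hF⟩ := ext hρ hθ hθ1 p hpc hp0 v0 hP0.le hW hε
      set f : ℂ → ℂ := fun t => e t ⬝ᵥ (fun i => (F i).eval t) with hf
      have hfa : AnalyticOnNhd ℂ f (closedBall 0 ρ) := by
        have : f = fun t => ∑ i, e t i * (F i).eval t := rfl
        rw [this]
        intro t ht
        apply Finset.analyticAt_fun_sum
        intro i _
        exact (he i t ht).mul ((F i).differentiable.analyticAt t)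
      have hf0 : f 0 = e 0 ⬝ᵥ v0 := by
        simp only [hf]
        congr 1
        funext i; exact hF0 i
      have hf0' : f 0 ≠ 0 := by rw [hf0]; exact h0
      have h2 := R300.log_norm_le_circleAverage hρ hfa hf0'
      rw [hf0] at h2
      have cF : ContinuousOn (fun t => p t (fun i => (F i).eval t)) (sphere 0 ρ) := by
        have hc : Continuous fun t : ℂ => ((t, fun i => (F i).eval t) : ℂ × (Fin s → ℂ)) :=
          continuous_id.prodMk (continuous_pi fun i => (F i).continuous)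
        exact hpc.comp hc.continuousOn (fun t ht => ⟨ht, Set.mem_univ _⟩)
      have cFε : ContinuousOn (fun t => p t (fun i => (F i).eval t) + ε) (sphere 0 ρ) :=
        cF.add continuousOn_const
      have hpε : ∀ t ∈ sphere (0 : ℂ) ρ, 0 < p t (fun i => (F i).eval t) + ε := fun t ht => by
        have := hp0 t ht (fun i => (F i).eval t); linarith
      have lF : ContinuousOn (fun t => Real.log (p t (fun i => (F i).eval t) + ε)) (sphere 0 ρ) :=
        cFε.log fun t ht => (hpε t ht).ne'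
      -- a.e. comparison
      have h3 : circleAverage (fun t => (2 * θ) * Real.log ‖f t‖) 0 ρ ≤
          circleAverage (fun t => Real.log (B t + δ') +
            Real.log (p t (fun i => (F i).eval t) + ε)) 0 ρ := by
        have hi1 : CircleIntegrable (fun t => (2 * θ) * Real.log ‖f t‖) 0 ρ := by
          have h4 : CircleIntegrable (fun t => Real.log ‖f t‖) 0 ρ := by
            apply MeromorphicOn.circleIntegrable_log_norm
            intro t ht
            rw [abs_of_pos hρ] at ht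
            exact (hfa t (sphere_subset_closedBall ht)).meromorphicAt
          exact h4.const_mul _
        have hi2 : CircleIntegrable (fun t => Real.log (B t + δ') +
            Real.log (p t (fun i => (F i).eval t) + ε)) 0 ρ := ci hρ ((l1 δ' hδ').add lF)
        rw [circleAverage_def, circleAverage_def]
        apply smul_le_smul_of_nonneg_left _ (by positivity)
        apply intervalIntegral.integral_mono_ae_restrict (by positivity) hi1 hi2
        have h5 := R300.ae_circleMap_ne_zero hρ hfa hf0'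
        rw [Set.uIoc_of_le (by positivity)] at h5
        rw [← restrict_Ioc_eq_restrict_Icc]
        filter_upwards [h5] with x hx
        have ht : circleMap 0 ρ x ∈ sphere (0 : ℂ) ρ := circleMap_mem_sphere _ hρ.le _
        have hxn : 0 < ‖f (circleMap 0 ρ x)‖ := norm_pos_iff.2 hx
        rw [← Real.log_rpow hxn, ← Real.log_mul (p1 δ' hδ' _ ht).ne' (hpε _ ht).ne']
        apply Real.log_le_log (by positivity)
        refine (hBp _ ht _).trans ?_
        apply mul_le_mul _ _ (hp0 _ ht _) (p1 δ' hδ' _ ht).le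
        · linarith
        · linarith
      have h6 : circleAverage (fun t => (2 * θ) * Real.log ‖f t‖) 0 ρ =
          (2 * θ) * circleAverage (fun t => Real.log ‖f t‖) 0 ρ := by
        have := circleAverage_fun_smul (a := 2 * θ) (f := fun t => Real.log ‖f t‖) (c := 0) (R := ρ)
        simpa only [smul_eq_mul] using this
      rw [h6, circleAverage_fun_add (ci hρ (l1 δ' hδ')) (ci hρ lF)] at h3
      have h7 : circleAverage (fun t => Real.log (p t (fun i => (F i).eval t) + ε)) 0 ρ ≤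
          Real.log (P0 + 2 * ε) := by
        apply avg_log_le hρ cFε hpε (by linarith)
        rw [circleAverage_fun_add (ci hρ cF) (ci hρ continuousOn_const), circleAverage_const]
        linarith
      have h8 : 2 * θ * Real.log ‖e 0 ⬝ᵥ v0‖ ≤
          2 * θ * circleAverage (fun t => Real.log ‖f t‖) 0 ρ :=
        mul_le_mul_of_nonneg_left h2 (by positivity)
      linarith
    have h9 : 2 * θ * Real.log ‖e 0 ⬝ᵥ v0‖ ≤
        circleAverage (fun t => Real.log (B t + δ')) 0 ρ + Real.log (P0 + 2 * 0) := by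
      have hcont : ContinuousWithinAt (fun ε : ℝ =>
          circleAverage (fun t => Real.log (B t + δ')) 0 ρ + Real.log (P0 + 2 * ε))
          (Set.Ioi 0) 0 := by
        apply ContinuousAt.continuousWithinAt
        apply ContinuousAt.add continuousAt_const
        apply ContinuousAt.log (by fun_prop)
        simpa using hP0.ne'
      apply ge_of_tendsto hcont.tendsto
      filter_upwards [self_mem_nhdsWithin] with ε hε
      exact h1 ε hε
    rw [mul_zero, add_zero] at h9
    have h10 : Real.log b0 ≤ circleAverage (fun t => Real.log (B t + δ')) 0 ρ := by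
      rw [hb0, Real.log_div (by positivity) hP0.ne', Real.log_rpow hn0]
      linarith
    calc b0 = Real.exp (Real.log b0) := (Real.exp_log hb0p).symm
      _ ≤ _ := Real.exp_le_exp.2 h10
  -- second step: superadditivity
  have h11 : b0 + δ ≤ Real.exp (circleAverage (fun t => Real.log (B t + δ)) 0 ρ) := by
    apply le_of_forall_pos_le_add
    intro η hη
    set δ' := min (δ / 2) η with hδ'd
    have hδ'0 : 0 < δ' := lt_min (by linarith) hη
    have hδ'1 : δ' < δ := lt_of_le_of_lt (min_le_left _ _) (by linarith)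
    have h12 := geom_superadd hρ hB hB0 hδ'0 (sub_pos.2 hδ'1)
    rw [show δ' + (δ - δ') = δ by ring] at h12
    have h13 := hG δ' hδ'0
    have h14 : δ' ≤ η := min_le_right _ _
    linarith
  calc Real.log (b0 + δ) ≤ Real.log (Real.exp (circleAverage (fun t => Real.log (B t + δ)) 0 ρ)) :=
        Real.log_le_log (by positivity) h11
    _ = _ := Real.log_exp _

end

end Crest.Agent.R276.NBcore_696
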