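import Mathlib

/-!
# Row 276, part D1 (helper159): one complex variable

Jensen's inequality for `log (|h|² + η)`, averages over annuli, and the weighted mean value inequality
`|h(0)|² ≤ exp(avg u) · avg(|h|² e^{-u})`.
-/

set_option autoImplicit false

noncomputable section

open Set Filter Topology Complex MeasureTheory Metric
open scoped ENNReal ComplexConjugate Real

namespace Crest.Agent.R276.PV_159

/-- Jensen's inequality -/
theorem log_norm_le_cA {f : ℂ → ℂ} {R : ℝ} (hR : 0 < R)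
    (hf : AnalyticOnNhd ℂ f (Metric.closedBall 0 R)) (h0 : f 0 ≠ 0) :
    Real.log ‖f 0‖ ≤ Real.circleAverage (fun z => Real.log ‖f z‖) 0 R := by
  have hf' : AnalyticOnNhd ℂ f (Metric.closedBall 0 |R|) := by rwa [abs_of_pos hR]
  rw [hf'.circleAverage_log_norm hR.ne' h0]
  have : 0 ≤ ∑ᶠ u, MeromorphicOn.divisor f (Metric.closedBall 0 |R|) u * Real.log (R * ‖0 - u‖⁻¹) := by
    refine finsum_nonneg fun u => ?_
    by_cases hu : u ∈ Metric.closedBall (0 : ℂ) |R|
    · have h1 : 0 ≤ MeromorphicOn.divisor f (Metric.closedBall 0 |R|) u :=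
        (MeromorphicOn.AnalyticOnNhd.divisor_nonneg hf') u
      have h2 : ‖u‖ ≤ R := by simpa [abs_of_pos hR] using hu
      refine mul_nonneg (by exact_mod_cast h1) ?_
      rcases eq_or_ne u 0 with rfl | hu0
      · simp
      · apply Real.log_nonneg
        have : 0 < ‖u‖ := norm_pos_iff.2 hu0
        simp only [zero_sub, norm_neg]
        rw [← div_eq_mul_inv, one_le_div this]
        exact h2
    · have : MeromorphicOn.divisor f (Metric.closedBall 0 |R|) u = 0 :=
        Function.locallyFinsuppWithin.apply_eq_zero_of_notMem _ hu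
      simp [this]
  linarith

/-- zeros of an analytic function on a circle are negligible -/
theorem ae_cM_ne_zero {f : ℂ → ℂ} {R : ℝ} (hR : 0 < R)
    (hf : AnalyticOnNhd ℂ f (Metric.closedBall 0 R)) (h0 : f 0 ≠ 0) :
    ∀ᵐ θ ∂(volume.restrict (uIoc (0 : ℝ) (2 * π))), f (circleMap 0 R θ) ≠ 0 := by
  have h1 : f ⁻¹' {0}ᶜ ∈ codiscreteWithin (Metric.closedBall (0 : ℂ) R) :=
    hf.preimage_zero_mem_codiscreteWithin h0 (by simp [hR.le])
      ((convex_closedBall (0 : ℂ) R).isConnected ⟨0, by simp [hR.le]⟩)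
  have h2 : f ⁻¹' {0}ᶜ ∈ codiscreteWithin (Metric.sphere (0 : ℂ) |R|) := by
    rw [abs_of_pos hR]
    exact codiscreteWithin_mono Metric.sphere_subset_closedBall h1
  have h3 : (circleMap 0 R) ⁻¹' (f ⁻¹' {0}ᶜ) ∈ codiscrete ℝ :=
    circleMap_preimage_codiscrete hR.ne' h2
  have h4 : (circleMap 0 R) ⁻¹' (f ⁻¹' {0}ᶜ) ∈ codiscreteWithin (uIoc (0 : ℝ) (2 * π)) :=
    codiscreteWithin_mono (subset_univ _) h3
  exact ae_restrict_le_codiscreteWithin measurableSet_uIoc h4

/-- `log (|h|² + η)` is subharmonic -/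
theorem log_add_le_cA {h : ℂ → ℂ} {r η : ℝ} (hr : 0 < r) (hη : 0 < η)
    (hh : AnalyticOnNhd ℂ h (closedBall 0 r)) :
    Real.log (‖h 0‖ ^ 2 + η) ≤ Real.circleAverage (fun t => Real.log (‖h t‖ ^ 2 + η)) 0 r := by
  set g : ℂ → ℂ := fun t => conj (h 0) * h t + (η : ℂ) with hg
  have hga : AnalyticOnNhd ℂ g (closedBall 0 r) :=
    (analyticOnNhd_const.mul hh).add analyticOnNhd_const
  have hg0 : g 0 = ((‖h 0‖ ^ 2 + η : ℝ) : ℂ) := by
    simp only [hg]
    rw [mul_comm, Complex.mul_conj, Complex.normSq_eq_norm_sq]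
    push_cast; rfl
  have hp : 0 < ‖h 0‖ ^ 2 + η := by positivity
  have hng0 : ‖g 0‖ = ‖h 0‖ ^ 2 + η := by
    rw [hg0, Complex.norm_real, Real.norm_eq_abs, abs_of_pos hp]
  have hg0' : g 0 ≠ 0 := by
    rw [← norm_pos_iff, hng0]; exact hp
  have hJ := log_norm_le_cA hr hga hg0'
  have hcs : ∀ t, ‖g t‖ ^ 2 ≤ (‖h 0‖ ^ 2 + η) * (‖h t‖ ^ 2 + η) := by
    intro t
    have h1 : ‖g t‖ ≤ ‖h 0‖ * ‖h t‖ + η := by
      calc ‖g t‖ ≤ ‖conj (h 0) * h t‖ + ‖(η : ℂ)‖ := norm_add_le _ _
        _ = ‖h 0‖ * ‖h t‖ + η := by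
          rw [norm_mul, RCLike.norm_conj, Complex.norm_real, Real.norm_eq_abs, abs_of_pos hη]
    have h2 : ‖g t‖ ^ 2 ≤ (‖h 0‖ * ‖h t‖ + η) ^ 2 := by
      have := norm_nonneg (g t)
      gcongr
    nlinarith [mul_nonneg hη.le (sq_nonneg (‖h 0‖ - ‖h t‖))]
  have hcont : ContinuousOn (fun t => Real.log (‖h t‖ ^ 2 + η)) (sphere 0 |r|) := by
    have h1 : ContinuousOn h (sphere 0 |r|) := by
      rw [abs_of_pos hr]
      exact hh.continuousOn.mono sphere_subset_closedBall
    refine ContinuousOn.log ((h1.norm.pow 2).add continuousOn_const) fun t _ => ?_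
    positivity
  have hI1 : CircleIntegrable (fun t => Real.log (‖h t‖ ^ 2 + η)) 0 r :=
    hcont.circleIntegrable'
  have hI2 : CircleIntegrable (fun t => Real.log ‖g t‖) 0 r := by
    refine MeromorphicOn.circleIntegrable_log_norm fun z hz => ?_
    have hz' : z ∈ closedBall (0 : ℂ) r := by
      rw [abs_of_pos hr] at hz
      exact sphere_subset_closedBall hz
    exact (hga z hz').meromorphicAt
  have hcmp : Real.circleAverage (fun t => Real.log ‖g t‖) 0 r ≤
      Real.circleAverage (fun t => (1 / 2 : ℝ) * (Real.log (‖h 0‖ ^ 2 + η) +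
        Real.log (‖h t‖ ^ 2 + η))) 0 r := by
    unfold Real.circleAverage
    have hI3 : CircleIntegrable (fun t => (1 / 2 : ℝ) * (Real.log (‖h 0‖ ^ 2 + η) +
        Real.log (‖h t‖ ^ 2 + η))) 0 r := by
      refine ContinuousOn.circleIntegrable' ?_
      exact continuousOn_const.mul (continuousOn_const.add hcont)
    refine smul_le_smul_of_nonneg_left ?_ (by positivity)
    refine intervalIntegral.integral_mono_ae_restrict Real.two_pi_pos.le hI2 hI3 ?_
    have hae := ae_cM_ne_zero hr hga hg0'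
    rw [uIoc_of_le Real.two_pi_pos.le, Measure.restrict_congr_set Ioc_ae_eq_Icc] at hae
    filter_upwards [hae] with θ hθ
    have h1 : 0 < ‖g (circleMap 0 r θ)‖ := norm_pos_iff.2 hθ
    have h2 := hcs (circleMap 0 r θ)
    have h3 : Real.log (‖g (circleMap 0 r θ)‖ ^ 2) ≤
        Real.log ((‖h 0‖ ^ 2 + η) * (‖h (circleMap 0 r θ)‖ ^ 2 + η)) :=
      Real.log_le_log (by positivity) h2
    rw [Real.log_pow, Real.log_mul hp.ne' (by positivity)] at h3
    push_cast at h3
    linarith
  have hfin : Real.circleAverage (fun t => (1 / 2 : ℝ) * (Real.log (‖h 0‖ ^ 2 + η) +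
        Real.log (‖h t‖ ^ 2 + η))) 0 r = (1 / 2 : ℝ) * (Real.log (‖h 0‖ ^ 2 + η) +
        Real.circleAverage (fun t => Real.log (‖h t‖ ^ 2 + η)) 0 r) := by
    have h1 : (fun t => (1 / 2 : ℝ) * (Real.log (‖h 0‖ ^ 2 + η) +
        Real.log (‖h t‖ ^ 2 + η))) = fun t => (1 / 2 : ℝ) • ((fun _ => Real.log (‖h 0‖ ^ 2 + η)) t +
        (fun t => Real.log (‖h t‖ ^ 2 + η)) t) := by
      funext t; simp
    rw [h1, Real.circleAverage_fun_smul, Real.circleAverage_fun_add (circleIntegrable_const _ _ _) hI1,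
      Real.circleAverage_const]
    simp
  rw [hng0] at hJ
  rw [hfin] at hcmp
  linarith

/-- annuli -/
def Ann (r1 r2 : ℝ) : Set ℂ := {t | r1 < ‖t‖ ∧ ‖t‖ < r2}

lemma isOpen_Ann (r1 r2 : ℝ) : IsOpen (Ann r1 r2) :=
  (isOpen_lt continuous_const continuous_norm).inter (isOpen_lt continuous_norm continuous_const)

lemma measurableSet_Ann (r1 r2 : ℝ) : MeasurableSet (Ann r1 r2) := (isOpen_Ann r1 r2).measurableSet

lemma Ann_sub (r1 r2 : ℝ) : Ann r1 r2 ⊆ closedBall 0 r2 := fun t ht => by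
  rw [mem_closedBall_zero_iff]; exact ht.2.le

lemma vol_Ann_lt (r1 r2 : ℝ) : volume (Ann r1 r2) < ∞ :=
  lt_of_le_of_lt (measure_mono (Ann_sub r1 r2)) (isCompact_closedBall (0 : ℂ) r2).measure_lt_top

lemma vol_Ann_pos {r1 r2 : ℝ} (h1 : 0 ≤ r1) (h : r1 < r2) : 0 < volume (Ann r1 r2) := by
  refine (isOpen_Ann r1 r2).measure_pos volume ⟨(((r1 + r2) / 2 : ℝ) : ℂ), ?_⟩
  have h2 : 0 ≤ (r1 + r2) / 2 := by linarith
  constructor
  · rw [Complex.norm_real, Real.norm_eq_abs, abs_of_nonneg h2]; linarith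
  · rw [Complex.norm_real, Real.norm_eq_abs, abs_of_nonneg h2]; linarith

/-- mean value inequality over annuli from circles -/
lemma submean_Ann {F : ℂ → ℝ} {r1 r2 : ℝ} (h1 : 0 ≤ r1) (h : r1 < r2)
    (hF : ContinuousOn F (closedBall 0 r2))
    (hsub : ∀ r, 0 < r → r < r2 → F 0 ≤ Real.circleAverage F 0 r) :
    F 0 ≤ ⨍ t in Ann r1 r2, F t := by
  set A := Ann r1 r2 with hA
  have hAm : MeasurableSet A := measurableSet_Ann r1 r2
  have hVpos : 0 < (volume A).toReal := ENNReal.toReal_pos (vol_Ann_pos h1 h).ne' (vol_Ann_lt r1 r2).ne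
  -- the rotated integrals
  have hrot : ∀ θ : ℝ, ∫ t in A, F (exp (θ * I) * t) = ∫ t in A, F t := by
    intro θ
    have hmp := (rotation (Circle.exp θ)).measurePreserving
    have hemb : MeasurableEmbedding (rotation (Circle.exp θ)) :=
      (rotation (Circle.exp θ)).toHomeomorph.measurableEmbedding
    have h2 := hmp.setIntegral_preimage_emb hemb F A
    rw [← h2]
    have h3 : (rotation (Circle.exp θ)) ⁻¹' A = A := by
      ext t
      simp only [mem_preimage, hA, Ann, mem_ofPred_eq, LinearIsometryEquiv.norm_map]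
    rw [h3]
    refine setIntegral_congr_fun hAm fun t _ => ?_
    simp [rotation_apply]
  have hcK : ContinuousOn (fun p : ℂ × ℝ => F (exp (p.2 * I) * p.1))
      (closedBall (0 : ℂ) r2 ×ˢ Icc 0 (2 * π)) := by
    refine hF.comp (by fun_prop) ?_
    rintro ⟨t, θ⟩ ⟨ht, _⟩
    rw [mem_closedBall_zero_iff] at ht ⊢
    simp only [norm_mul, Complex.norm_exp_ofReal_mul_I, one_mul]
    exact ht
  have hint : Integrable (Function.uncurry fun (t : ℂ) (θ : ℝ) => F (exp (θ * I) * t))
      ((volume.restrict A).prod (volume.restrict (Ioc 0 (2 * π)))) := by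
    rw [Measure.prod_restrict]
    have h2 : IntegrableOn (fun p : ℂ × ℝ => F (exp (p.2 * I) * p.1))
        (closedBall (0 : ℂ) r2 ×ˢ Icc 0 (2 * π)) (volume.prod volume) :=
      hcK.integrableOn_compact ((isCompact_closedBall (0 : ℂ) r2).prod isCompact_Icc)
    exact h2.mono_set (prod_mono (Ann_sub r1 r2) Ioc_subset_Icc_self)
  have hswap := integral_integral_swap hint
  -- inner integral over `θ`
  have hin : ∀ t ∈ A, 2 * π * F 0 ≤ ∫ θ in Ioc 0 (2 * π), F (exp (θ * I) * t) := by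
    intro t ht
    have ht0 : 0 < ‖t‖ := lt_of_le_of_lt h1 ht.1
    have h2 := hsub ‖t‖ ht0 ht.2
    rw [Real.circleAverage_eq_integral_add (arg t)] at h2
    have h3 : (fun θ : ℝ => F (circleMap 0 ‖t‖ (θ + arg t))) = fun θ : ℝ => F (exp (θ * I) * t) := by
      funext θ
      congr 1
      rw [circleMap_zero]
      push_cast
      rw [add_mul, Complex.exp_add]
      conv_rhs => rw [← Complex.norm_mul_exp_arg_mul_I t]
      ring
    rw [h3, intervalIntegral.integral_of_le Real.two_pi_pos.le, smul_eq_mul] at h2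
    have h4 := mul_le_mul_of_nonneg_left h2 Real.two_pi_pos.le
    rwa [← mul_assoc, mul_inv_cancel₀ Real.two_pi_pos.ne', one_mul] at h4
  have hL : ∫ t in A, 2 * π * F 0 ≤ ∫ t in A, ∫ θ in Ioc 0 (2 * π), F (exp (θ * I) * t) := by
    refine setIntegral_mono_on ?_ ?_ hAm hin
    · exact integrableOn_const (vol_Ann_lt r1 r2).ne
    · exact hint.integral_prod_left
  rw [hswap] at hL
  have hR : ∫ θ in Ioc 0 (2 * π), ∫ t in A, F (exp (θ * I) * t) = 2 * π * ∫ t in A, F t := by
    have h2 : (fun θ : ℝ => ∫ t in A, F (exp (θ * I) * t)) = fun _ => ∫ t in A, F t := by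
      funext θ; exact hrot θ
    rw [h2]
    rw [setIntegral_const]
    simp [Real.two_pi_pos.le]
  rw [hR, setIntegral_const, smul_eq_mul] at hL
  rw [setAverage_eq, smul_eq_mul]
  have h5 : (volume.real A) * F 0 ≤ ∫ t in A, F t := by
    have := Real.two_pi_pos
    have h6 : 2 * π * (volume.real A * F 0) ≤ 2 * π * ∫ t in A, F t := by linarith
    exact le_of_mul_le_mul_left h6 this
  have hVr : 0 < volume.real A := hVpos
  rw [← div_eq_inv_mul, le_div_iff₀ hVr]
  linarith

/-- **weighted mean value inequality** -/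
theorem weighted_mean {h : ℂ → ℂ} {r1 r2 R : ℝ} (hr1 : 0 ≤ r1) (hr : r1 < r2) (hrR : r2 < R)
    (hh : DifferentiableOn ℂ h (ball 0 R)) {u : ℂ → ℝ} (hu : IntegrableOn u (Ann r1 r2))
    {c0 : ℝ} (hc0 : ∀ t ∈ Ann r1 r2, c0 ≤ u t) {A : ℂ → ℝ≥0∞} {B : ℝ≥0∞} (hB : B ≠ ∞)
    (hA : ∫⁻ t, A t ≤ B)
    (hle : ∀ t ∈ Ann r1 r2, ENNReal.ofReal (‖h t‖ ^ 2) ≤ ENNReal.ofReal (Real.exp (u t)) * A t) :
    ‖h 0‖ ^ 2 ≤ Real.exp (⨍ t in Ann r1 r2, u t) * (B.toReal / volume.real (Ann r1 r2)) := by
  set S := Ann r1 r2 with hS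
  have hSm : MeasurableSet S := measurableSet_Ann r1 r2
  have hV : 0 < volume.real S := ENNReal.toReal_pos (vol_Ann_pos hr1 hr).ne' (vol_Ann_lt r1 r2).ne
  have hr2 : 0 < r2 := lt_of_le_of_lt hr1 hr
  have hsubs : closedBall (0 : ℂ) r2 ⊆ ball 0 R := closedBall_subset_ball hrR
  have han : AnalyticOnNhd ℂ h (ball 0 R) := hh.analyticOnNhd isOpen_ball
  have hhc : ContinuousOn h (closedBall 0 r2) := hh.continuousOn.mono hsubs
  -- the integral of `|h|² e^{-u}`
  have hum : AEStronglyMeasurable u (volume.restrict S) := hu.aestronglyMeasurable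
  have hexpm : AEStronglyMeasurable (fun t => Real.exp (-u t)) (volume.restrict S) :=
    Real.continuous_exp.comp_aestronglyMeasurable hum.neg
  have hhm : AEStronglyMeasurable (fun t => ‖h t‖ ^ 2) (volume.restrict S) := by
    have : ContinuousOn (fun t => ‖h t‖ ^ 2) S := (hhc.mono (Ann_sub r1 r2)).norm.pow 2
    exact this.aestronglyMeasurable hSm
  have hprodm : AEStronglyMeasurable (fun t => ‖h t‖ ^ 2 * Real.exp (-u t)) (volume.restrict S) :=
    hhm.mul hexpm
  have hlint : ∫⁻ t in S, ENNReal.ofReal (‖h t‖ ^ 2 * Real.exp (-u t)) ≤ B := by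
    refine le_trans ?_ (le_trans (setLIntegral_le_lintegral S A) hA)
    refine setLIntegral_mono' hSm fun t ht => ?_
    rw [ENNReal.ofReal_mul (by positivity)]
    calc ENNReal.ofReal (‖h t‖ ^ 2) * ENNReal.ofReal (Real.exp (-u t))
        ≤ (ENNReal.ofReal (Real.exp (u t)) * A t) * ENNReal.ofReal (Real.exp (-u t)) := by
          gcongr
          exact hle t ht
      _ = (ENNReal.ofReal (Real.exp (u t)) * ENNReal.ofReal (Real.exp (-u t))) * A t := by ring
      _ = A t := by
          rw [← ENNReal.ofReal_mul (Real.exp_pos _).le, ← Real.exp_add, add_neg_cancel, Real.exp_zero,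
            ENNReal.ofReal_one, one_mul]
  have hI1 : IntegrableOn (fun t => ‖h t‖ ^ 2 * Real.exp (-u t)) S := by
    refine ⟨hprodm, ?_⟩
    rw [hasFiniteIntegral_iff_ofReal (Eventually.of_forall fun t => by positivity)]
    exact lt_of_le_of_lt hlint hB.lt_top
  have hv1 : ∫ t in S, ‖h t‖ ^ 2 * Real.exp (-u t) ≤ B.toReal := by
    rw [integral_eq_lintegral_of_nonneg_ae (Eventually.of_forall fun t => by positivity) hprodm]
    exact ENNReal.toReal_mono hB hlint
  have hI2 : IntegrableOn (fun t => Real.exp (-u t)) S := by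
    refine IntegrableOn.of_bound (vol_Ann_lt r1 r2) hexpm (Real.exp (-c0)) ?_
    rw [ae_restrict_iff' hSm]
    refine Eventually.of_forall fun t ht => ?_
    rw [Real.norm_eq_abs, abs_of_pos (Real.exp_pos _)]
    exact Real.exp_le_exp.2 (neg_le_neg (hc0 t ht))
  -- the inequality for `η > 0`
  have key : ∀ η : ℝ, 0 < η → ‖h 0‖ ^ 2 + η ≤ Real.exp (⨍ t in S, u t) *
      ((B.toReal + η * ∫ t in S, Real.exp (-u t)) / volume.real S) := by
    intro η hη
    set F : ℂ → ℝ := fun t => Real.log (‖h t‖ ^ 2 + η) with hF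
    have hpos : ∀ t, 0 < ‖h t‖ ^ 2 + η := fun t => by positivity
    have hFc : ContinuousOn F (closedBall 0 r2) :=
      ((hhc.norm.pow 2).add continuousOn_const).log fun t _ => (hpos t).ne'
    have h1 : F 0 ≤ ⨍ t in S, F t := by
      refine submean_Ann hr1 hr hFc fun r hr0 hrr => ?_
      exact log_add_le_cA hr0 hη (han.mono ((closedBall_subset_closedBall hrr.le).trans hsubs))
    have hFi : IntegrableOn F S :=
      (hFc.integrableOn_compact (isCompact_closedBall (0 : ℂ) r2)).mono_set (Ann_sub r1 r2)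
    have h2 : Real.exp (⨍ t in S, (F t - u t)) ≤ ⨍ t in S, Real.exp (F t - u t) := by
      refine convexOn_exp.map_set_average_le Real.continuous_exp.continuousOn isClosed_univ
        (vol_Ann_pos hr1 hr).ne' (vol_Ann_lt r1 r2).ne (Eventually.of_forall fun _ => mem_univ _)
        (hFi.sub hu) ?_
      have h3 : (Real.exp ∘ fun t => F t - u t) =
          fun t => ‖h t‖ ^ 2 * Real.exp (-u t) + η * Real.exp (-u t) := by
        funext t
        simp only [Function.comp_apply, hF]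
        rw [sub_eq_add_neg, Real.exp_add, Real.exp_log (hpos t)]
        ring
      rw [h3]
      exact hI1.add (hI2.const_mul η)
    have h3 : ⨍ t in S, Real.exp (F t - u t) ≤
        (B.toReal + η * ∫ t in S, Real.exp (-u t)) / volume.real S := by
      rw [setAverage_eq, smul_eq_mul, ← div_eq_inv_mul]
      refine div_le_div_of_nonneg_right ?_ hV.le
      have h4 : (fun t => Real.exp (F t - u t)) =
          fun t => ‖h t‖ ^ 2 * Real.exp (-u t) + η * Real.exp (-u t) := by
        funext t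
        simp only [hF]
        rw [sub_eq_add_neg, Real.exp_add, Real.exp_log (hpos t)]
        ring
      rw [h4, integral_add hI1 (hI2.const_mul η), integral_const_mul]
      linarith
    have h5 : ⨍ t in S, (F t - u t) = (⨍ t in S, F t) - ⨍ t in S, u t := by
      rw [setAverage_eq, setAverage_eq, setAverage_eq, integral_sub hFi hu]
      rw [smul_sub]
    rw [h5] at h2
    calc ‖h 0‖ ^ 2 + η = Real.exp (F 0) := by rw [hF]; exact (Real.exp_log (hpos 0)).symm
      _ ≤ Real.exp (⨍ t in S, F t) := Real.exp_le_exp.2 h1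
      _ = Real.exp (⨍ t in S, u t) * Real.exp ((⨍ t in S, F t) - ⨍ t in S, u t) := by
          rw [← Real.exp_add]; congr 1; ring
      _ ≤ _ := mul_le_mul_of_nonneg_left (h2.trans h3) (Real.exp_pos _).le
  -- the limit
  have hlim : Tendsto (fun η : ℝ => Real.exp (⨍ t in S, u t) *
      ((B.toReal + η * ∫ t in S, Real.exp (-u t)) / volume.real S)) (𝓝[>] 0)
      (𝓝 (Real.exp (⨍ t in S, u t) * ((B.toReal + 0 * ∫ t in S, Real.exp (-u t)) / volume.real S))) := by
    apply tendsto_nhdsWithin_of_tendsto_nhds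
    have : Continuous fun η : ℝ => Real.exp (⨍ t in S, u t) *
      ((B.toReal + η * ∫ t in S, Real.exp (-u t)) / volume.real S) := by fun_prop
    exact this.tendsto 0
  rw [zero_mul, add_zero] at hlim
  refine ge_of_tendsto hlim ?_
  filter_upwards [self_mem_nhdsWithin] with η hη
  have := key η hη
  have h6 : (0 : ℝ) < η := hη
  linarith

end Crest.Agent.R276.PV_159
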