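import Mathlib
import Crest.Agent.R276.Fdd_999
import Crest.Agent.R276.NBcore_696
import Crest.Agent.R276.PVj_159

/-!
# Consequences of (PV) on a disc (helper999, row 276)

`PVw` (Jensen form, output of 159's `FF.pv`) ⟹ `PV` ⟹ `OT` (through 696's CIRCLE) and
`circleAverage (log det H) ≤ log det H(0)`.
-/

set_option autoImplicit false
set_option linter.unusedSectionVars false

namespace Crest.Agent.R276.Pvx_999

open MeasureTheory Metric Filter Topology Matrix Polynomial
open scoped ComplexOrder
open Real (circleAverage circleAverage_const)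
open Crest.Agent.R276.Nc_999 Crest.Agent.R276.Poi_999 Crest.Agent.R276.Fda_999
open Crest.Agent.R276.Fdb_999 Crest.Agent.R276.Fdc_999 Crest.Agent.R276.Fdd_999

variable {s : ℕ} {H : ℂ → Matrix (Fin s) (Fin s) ℂ}

/-- full circle mean value inequality -/
theorem subM_circle {u : ℂ → ℝ} (hu : ContinuousOn u (closedBall 0 1)) (hs : SubM u) :
    u 0 ≤ circleAverage u 0 1 := by
  have h := poisson_le hu hs (w := 0) (by simp)
  refine h.trans (le_of_eq ?_)
  apply Real.circleAverage_congr_sphere
  intro z hz
  rw [abs_one] at hz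
  have hz0 : z ≠ 0 := by
    intro h0; rw [h0] at hz; simp at hz
  simp only [herglotzRieszKernel]
  simp [hz0]

theorem dN_log_contOn (hHc : ContinuousOn H (closedBall 0 1))
    (hH : ∀ z ∈ closedBall (0 : ℂ) 1, (H z).PosDef) (ξ : Fin s → ℂ[X]) {δ : ℝ} (hδ : 0 < δ) :
    ContinuousOn (fun z => Real.log (dN (H z) (ev ξ z) + δ)) (closedBall 0 1) := by
  apply ContinuousOn.log
  · exact (dN_contOn hHc hH (ev_cont _).continuousOn).add continuousOn_const
  · intro z hz
    have := dN_nonneg (hH z hz) (ev ξ z)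
    linarith

/-- dual norms are sub-mean on the full circle -/
theorem dN_circle (hHc : ContinuousOn H (closedBall 0 1))
    (hH : ∀ z ∈ closedBall (0 : ℂ) 1, (H z).PosDef) (hPV : PV H) (ξ : Fin s → ℂ[X]) :
    dN (H 0) (ev ξ 0) ≤ circleAverage (fun z => dN (H z) (ev ξ z)) 0 1 := by
  have h1 := subM_circle (dN_log_contOn hHc hH ξ one_pos) (hPV ξ 1 one_pos)
  have hsph : ∀ t ∈ sphere (0 : ℂ) 1, t ∈ closedBall (0 : ℂ) 1 := fun t ht =>
    sphere_subset_closedBall ht
  refine NBcore_696.le_avg_of_log one_pos ?_ (fun t ht => dN_nonneg (hH t (hsph t ht)) _)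
    (dN_nonneg (hH 0 (by simp)) _) one_pos h1
  exact (dN_contOn hHc hH (ev_cont _).continuousOn).mono sphere_subset_closedBall

theorem dN_eq (W : Matrix (Fin s) (Fin s) ℂ) (ξ : Fin s → ℂ) : Circ_696.dN W ξ = dN W ξ := by
  rw [Circ_696.dN_eq]; rfl

/-- **(PV) implies (OT)** -/
theorem ot_of_pv (hHc : ContinuousOn H (closedBall 0 1))
    (hH : ∀ z ∈ closedBall (0 : ℂ) 1, (H z).PosDef) (hPV : PV H) : OT H := by
  intro v ε hε
  obtain ⟨τ, h1, h2⟩ := Circ_696.circle (ρ := 1) one_pos (H := H)
    (hHc.mono sphere_subset_closedBall) (fun t ht => hH t (sphere_subset_closedBall ht))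
    (H0 := H 0) (hH 0 (by simp)) (fun ξ => by
      have h := dN_circle hHc hH hPV ξ
      simp only [dN_eq]
      exact h) v hε
  refine ⟨τ, funext h1, ?_⟩
  exact h2

theorem prod_add_le {ι : Type*} (t : Finset ι) (ht : t.Nonempty) (a : ι → ℝ)
    (ha : ∀ k, 0 ≤ a k) {ε : ℝ} (hε : 0 < ε) :
    ∏ k ∈ t, a k + ε ^ t.card ≤ ∏ k ∈ t, (a k + ε) := by
  classical
  induction ht using Finset.Nonempty.cons_induction with
  | singleton b => simp
  | cons b t hb _ ih =>
    rw [Finset.prod_cons, Finset.prod_cons, Finset.card_cons, pow_succ]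
    have e1 := ha b
    have e2 : 0 ≤ ∏ k ∈ t, a k := Finset.prod_nonneg fun k _ => ha k
    have e3 : 0 < ε ^ t.card := by positivity
    nlinarith [mul_nonneg e1 e3.le, mul_nonneg hε.le e2, mul_le_mul_of_nonneg_left ih e1,
      mul_le_mul_of_nonneg_left ih hε.le]

/-- **(PV) implies: `log det H` is super-mean** -/
theorem det_supermean (hHc : ContinuousOn H (closedBall 0 1))
    (hH : ∀ z ∈ closedBall (0 : ℂ) 1, (H z).PosDef) (hOT : OT H) :
    circleAverage (fun z => Real.log (H z).det.re) 0 1 ≤ Real.log (H 0).det.re := by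
  classical
  rcases Nat.eq_zero_or_pos s with hs0 | hs0
  · subst hs0
    have h1 : ∀ z, (H z).det = 1 := fun z => Matrix.det_isEmpty
    simp only [h1, Complex.one_re, Real.log_one]
    exact le_of_eq (circleAverage_const _ _ _)
  have hne : Nonempty (Fin s) := ⟨⟨0, hs0⟩⟩
  have h00 : (0 : ℂ) ∈ closedBall (0 : ℂ) 1 := by simp
  have hsub : sphere (0 : ℂ) 1 ⊆ closedBall 0 1 := sphere_subset_closedBall
  have hdpos : ∀ z ∈ closedBall (0 : ℂ) 1, 0 < (H z).det.re := fun z hz =>
    (Complex.pos_iff.mp (hH z hz).det_pos).1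
  have hdc : ContinuousOn (fun z => (H z).det.re) (closedBall 0 1) :=
    Complex.continuous_re.comp_continuousOn
      ((Continuous.matrix_det continuous_id).comp_continuousOn hHc)
  obtain ⟨T0, hT0⟩ := exists_frame (hH 0 h00)
  have hcol : ∀ k, qf (H 0) (fun i => T0 i k) = 1 := by
    intro k
    have h1 : (T0ᴴ * H 0 * T0) k k = 1 := by rw [hT0]; simp
    have h2 : qf (H 0) (fun i => T0 i k) = ((T0ᴴ * H 0 * T0) k k).re := by
      unfold qf
      congr 1
      rw [Matrix.mul_assoc, Matrix.mul_apply]
      simp only [dotProduct]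
      apply Finset.sum_congr rfl
      intro i _
      congr 1
    rw [h2, h1, Complex.one_re]
  -- a bound for det H on the circle
  obtain ⟨D0, hD0⟩ : ∃ D0 : ℝ, ∀ z ∈ closedBall (0 : ℂ) 1, (H z).det.re ≤ D0 := by
    obtain ⟨z0, _, hz0⟩ := (isCompact_closedBall (0 : ℂ) 1).exists_isMaxOn ⟨0, h00⟩ hdc
    exact ⟨_, fun z hz => hz0 hz⟩
  have hD0p : 0 < D0 := (hdpos 0 h00).trans_le (hD0 0 h00)
  -- the main inequality with ε
  have main : ∀ ε > 0, circleAverage (fun z => Real.log (H z).det.re) 0 1 ≤
      s * Real.log (1 + ε + ε) + Real.log (H 0).det.re := by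
    intro ε hε
    have hex := fun k : Fin s => hOT (fun i => T0 i k) ε hε
    choose p hp0 hpE using hex
    have hpE' : ∀ k, En H (p k) ≤ 1 + ε := fun k => by
      have := hpE k; rwa [hcol k] at this
    set g : ℂ → ℂ := fun z => ((Tm p).det).eval z with hg
    have hga : AnalyticOnNhd ℂ g (closedBall 0 1) := fun z _ =>
      (Polynomial.differentiable (Tm p).det).analyticAt z
    set η : ℝ := ε ^ s / D0 with hη
    have hηp : 0 < η := by positivity
    -- value at zero
    have hT00 : TmE p 0 = T0 := by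
      ext i k
      exact congrFun (hp0 k) i
    have hg0 : ‖g 0‖ ^ 2 * (H 0).det.re = 1 := by
      have h1 : ((TmE p 0)ᴴ * H 0 * TmE p 0).det = 1 := by rw [hT00, hT0, det_one]
      rw [det_mul, det_mul, det_conjTranspose, TmE_det] at h1
      have h2 : star (g 0) * (H 0).det * g 0 = ((‖g 0‖ ^ 2 : ℝ) : ℂ) * (H 0).det := by
        have : star (g 0) * g 0 = ((‖g 0‖ ^ 2 : ℝ) : ℂ) := by
          rw [mul_comm, Complex.star_def, Complex.mul_conj, Complex.normSq_eq_norm_sq]
        rw [← this]; ring
      have h3 : ((‖g 0‖ ^ 2 : ℝ) : ℂ) * (H 0).det = 1 := by rw [← h2]; exact h1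
      have h4 := congrArg Complex.re h3
      rw [Complex.re_ofReal_mul] at h4
      simpa using h4
    -- pointwise bound
    have hpt : ∀ z ∈ sphere (0 : ℂ) |(1 : ℝ)|, Real.log (H z).det.re + Real.log (‖g z‖ ^ 2 + η) ≤
        ∑ k, Real.log (qf (H z) (ev (p k) z) + ε) := by
      intro z hz
      rw [abs_one] at hz
      have hzb := hsub hz
      have hq0 : ∀ k, 0 ≤ qf (H z) (ev (p k) z) := fun k => qf_nonneg (hH z hzb) _
      rw [← Real.log_mul (hdpos z hzb).ne' (by positivity),
        ← Real.log_prod (fun k _ => by have := hq0 k; linarith)]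
      apply Real.log_le_log
      · exact mul_pos (hdpos z hzb) (by positivity)
      have h1 := Nil_840.det_le_prod_diag (Gr_psd p (hH z hzb))
      have h2 : (Gr H p z).det.re = ‖g z‖ ^ 2 * (H z).det.re := by
        unfold Gr
        rw [det_mul, det_mul, det_conjTranspose, TmE_det]
        have : star (g z) * (H z).det * g z = ((‖g z‖ ^ 2 : ℝ) : ℂ) * (H z).det := by
          have : star (g z) * g z = ((‖g z‖ ^ 2 : ℝ) : ℂ) := by
            rw [mul_comm, Complex.star_def, Complex.mul_conj, Complex.normSq_eq_norm_sq]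
          rw [← this]; ring
        change (star (g z) * (H z).det * g z).re = _
        rw [this, Complex.re_ofReal_mul]
      rw [h2] at h1
      simp only [Gr_diag] at h1
      have h3 : ∏ k, qf (H z) (ev (p k) z) + ε ^ s ≤ ∏ k, (qf (H z) (ev (p k) z) + ε) := by
        have := prod_add_le (Finset.univ : Finset (Fin s)) Finset.univ_nonempty
          (fun k => qf (H z) (ev (p k) z)) hq0 hε
        simpa using this
      have h4 : (H z).det.re * η ≤ ε ^ s := by
        rw [hη, mul_div_assoc', div_le_iff₀ hD0p, mul_comm]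
        exact mul_le_mul_of_nonneg_left (hD0 z hzb) (by positivity)
      calc (H z).det.re * (‖g z‖ ^ 2 + η) = ‖g z‖ ^ 2 * (H z).det.re + (H z).det.re * η := by ring
        _ ≤ _ := by linarith
    -- averages
    have ci1 : CircleIntegrable (fun z => Real.log (H z).det.re) 0 1 :=
      ContinuousOn.circleIntegrable' ((hdc.log (fun z hz => (hdpos z hz).ne')).mono (by
        rw [abs_one]; exact hsub))
    have cg : ContinuousOn (fun z => Real.log (‖g z‖ ^ 2 + η)) (sphere (0 : ℂ) |(1 : ℝ)|) := by
      apply ContinuousOn.log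
      · exact ((((Tm p).det.continuous).norm.pow 2).add continuous_const).continuousOn
      · intro z _; positivity
    have ci2 : CircleIntegrable (fun z => Real.log (‖g z‖ ^ 2 + η)) 0 1 :=
      ContinuousOn.circleIntegrable' cg
    have cq : ∀ k, ContinuousOn (fun z => qf (H z) (ev (p k) z) + ε) (sphere (0 : ℂ) 1) := fun k =>
      ((qfev_cont hHc (p k)).mono hsub).add continuousOn_const
    have hqpos : ∀ k, ∀ z ∈ sphere (0 : ℂ) 1, 0 < qf (H z) (ev (p k) z) + ε := fun k z hz => by
      have := qf_nonneg (hH z (hsub hz)) (ev (p k) z)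
      linarith
    have ci3 : ∀ k ∈ Finset.univ, CircleIntegrable
        (fun z => Real.log (qf (H z) (ev (p k) z) + ε)) 0 1 := by
      intro k _
      apply ContinuousOn.circleIntegrable'
      rw [abs_one]
      exact (cq k).log (fun z hz => (hqpos k z hz).ne')
    have hmono := Real.circleAverage_mono (ci1.add ci2)
      (CircleIntegrable.fun_sum Finset.univ ci3) hpt
    rw [Real.circleAverage_add ci1 ci2, Real.circleAverage_fun_sum ci3] at hmono
    have hg1 := PV_159.log_add_le_cA (r := 1) one_pos hηp hga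
    have hg2 : -Real.log (H 0).det.re ≤ Real.log (‖g 0‖ ^ 2 + η) := by
      rw [← Real.log_inv]
      apply Real.log_le_log (inv_pos.mpr (hdpos 0 h00))
      have h5 : ((H 0).det.re)⁻¹ = ‖g 0‖ ^ 2 := inv_eq_of_mul_eq_one_left hg0
      rw [h5]; linarith
    have hk : ∀ k, circleAverage (fun z => Real.log (qf (H z) (ev (p k) z) + ε)) 0 1 ≤
        Real.log (1 + ε + ε) := by
      intro k
      refine NBcore_696.avg_log_le one_pos (cq k) (hqpos k) (by linarith) ?_
      have hi1 := qfev_int hHc (p k)
      have hi2 : CircleIntegrable (fun _ : ℂ => ε) 0 1 :=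
        ContinuousOn.circleIntegrable' continuousOn_const
      rw [Real.circleAverage_fun_add hi1 hi2, circleAverage_const]
      have := hpE' k
      unfold En at this
      linarith
    have hsum : ∑ k, circleAverage (fun z => Real.log (qf (H z) (ev (p k) z) + ε)) 0 1 ≤
        s * Real.log (1 + ε + ε) := by
      calc _ ≤ ∑ _k : Fin s, Real.log (1 + ε + ε) := Finset.sum_le_sum fun k _ => hk k
        _ = _ := by simp
    linarith
  -- the limit
  have hlim : Tendsto (fun ε : ℝ => s * Real.log (1 + ε + ε) + Real.log (H 0).det.re) (𝓝[>] 0)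
      (𝓝 (s * Real.log (1 + 0 + 0) + Real.log (H 0).det.re)) := by
    have : ContinuousAt (fun ε : ℝ => s * Real.log (1 + ε + ε) + Real.log (H 0).det.re) 0 := by
      apply ContinuousAt.add _ continuousAt_const
      apply ContinuousAt.mul continuousAt_const
      apply ContinuousAt.log
      · fun_prop
      · norm_num
    exact this.tendsto.mono_left nhdsWithin_le_nhds
  have := ge_of_tendsto hlim (by
    filter_upwards [self_mem_nhdsWithin] with ε hε
    exact main ε hε)
  simpa using this

/-- Jensen form of (PV), as produced by 159's `FF.pv` -/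
def PVw (H : ℂ → Matrix (Fin s) (Fin s) ℂ) : Prop :=
  ∀ ξ : Fin s → ℂ[X], ∀ c ∈ ball (0 : ℂ) 1, ∃ r0 > 0, ∀ r, 0 < r → r < r0 → ∀ η > 0,
    dN (H c) (ev ξ c) ≤ Real.exp (circleAverage (fun z => Real.log (dN (H z) (ev ξ z) + η)) c r)

theorem geom_superadd' {B : ℂ → ℝ} {c : ℂ} {r : ℝ} (hr : 0 < r) (hB : ContinuousOn B (sphere c r))
    (hB0 : ∀ t ∈ sphere c r, 0 ≤ B t) {δ' δ : ℝ} (hδ' : 0 < δ') (hδ : 0 < δ) :
    Real.exp (circleAverage (fun t => Real.log (B t + δ')) c r) + δ ≤
      Real.exp (circleAverage (fun t => Real.log (B t + (δ' + δ))) c r) := by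
  have h := NBcore_696.geom_superadd (ρ := r) hr (B := fun t => B (t + c)) (by
    refine hB.comp (by fun_prop) ?_
    intro t ht
    simpa using ht) (fun t ht => hB0 _ (by simpa using ht)) hδ' hδ
  have e : ∀ f : ℂ → ℝ, circleAverage (fun t => f (t + c)) 0 r = circleAverage f c r := by
    intro f
    simp only [circleAverage]
    congr 2
    ext θ
    simp [circleMap, add_comm]
  rw [e (fun t => Real.log (B t + δ')), e (fun t => Real.log (B t + (δ' + δ)))] at h
  exact h

/-- the Jensen form implies (PV) -/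
theorem pv_of_pvw (hHc : ContinuousOn H (closedBall 0 1))
    (hH : ∀ z ∈ closedBall (0 : ℂ) 1, (H z).PosDef) (hP : PVw H) : PV H := by
  intro ξ δ hδ c hc
  obtain ⟨r0, hr0, hr⟩ := hP ξ c hc
  have hcn : ‖c‖ < 1 := by simpa using hc
  refine ⟨min r0 (1 - ‖c‖), lt_min hr0 (by linarith), fun r hr1 hr2 => ?_⟩
  have hra : r < r0 := lt_of_lt_of_le hr2 (min_le_left _ _)
  have hrb : r < 1 - ‖c‖ := lt_of_lt_of_le hr2 (min_le_right _ _)
  have hin : sphere c r ⊆ closedBall (0 : ℂ) 1 := by
    intro z hz
    rw [mem_closedBall_zero_iff]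
    have : ‖z - c‖ = r := by simpa [dist_eq_norm] using hz
    calc ‖z‖ = ‖(z - c) + c‖ := by ring_nf
      _ ≤ ‖z - c‖ + ‖c‖ := norm_add_le _ _
      _ ≤ 1 := by linarith
  set f : ℂ → ℝ := fun z => dN (H z) (ev ξ z) with hf
  have hfc : ContinuousOn f (sphere c r) := (dN_contOn hHc hH (ev_cont _).continuousOn).mono hin
  have hf0 : ∀ t ∈ sphere c r, 0 ≤ f t := fun t ht => dN_nonneg (hH t (hin ht)) _
  have hlogc : ∀ a : ℝ, 0 < a → CircleIntegrable (fun t => Real.log (f t + a)) c r := by
    intro a ha
    apply ContinuousOn.circleIntegrable'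
    rw [abs_of_pos hr1]
    have hc' : ContinuousOn (fun t => f t + a) (sphere c r) := hfc.add continuousOn_const
    exact hc'.log (fun t ht => by have := hf0 t ht; linarith)
  have hfc0 : 0 ≤ f c := dN_nonneg (hH c (by simpa using hcn.le)) _
  have key : ∀ η > 0, Real.log (f c + δ) ≤ circleAverage (fun t => Real.log (f t + δ)) c r +
      η / δ := by
    intro η hη
    have h1 := hr r hr1 hra η hη
    have h2 := geom_superadd' hr1 hfc hf0 hη hδ
    have h3 : f c + δ ≤ Real.exp (circleAverage (fun t => Real.log (f t + (η + δ))) c r) := by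
      have : f c ≤ Real.exp (circleAverage (fun t => Real.log (f t + η)) c r) := h1
      linarith
    have h4 : Real.log (f c + δ) ≤ circleAverage (fun t => Real.log (f t + (η + δ))) c r := by
      rw [Real.log_le_iff_le_exp (by linarith)]
      exact h3
    refine h4.trans ?_
    have hci : CircleIntegrable (fun _ : ℂ => η / δ) c r :=
      ContinuousOn.circleIntegrable' continuousOn_const
    have h5 : circleAverage (fun t => Real.log (f t + (η + δ))) c r ≤
        circleAverage ((fun t => Real.log (f t + δ)) + fun _ => η / δ) c r := by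
      apply Real.circleAverage_mono (hlogc _ (by linarith)) ((hlogc _ hδ).add hci)
      intro t ht
      rw [abs_of_pos hr1] at ht
      have h0 := hf0 t ht
      simp only [Pi.add_apply]
      have h6 : f t + (η + δ) ≤ (f t + δ) * Real.exp (η / δ) := by
        have h7 := Real.add_one_le_exp (η / δ)
        have h8 : (f t + δ) * (η / δ + 1) ≤ (f t + δ) * Real.exp (η / δ) :=
          mul_le_mul_of_nonneg_left h7 (by linarith)
        have h9 : f t + (η + δ) ≤ (f t + δ) * (η / δ + 1) := by
          have : (f t + δ) * (η / δ + 1) = f t + (η + δ) + f t * (η / δ) := by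
            field_simp; ring
          rw [this]
          have : 0 ≤ f t * (η / δ) := by positivity
          linarith
        linarith
      calc Real.log (f t + (η + δ)) ≤ Real.log ((f t + δ) * Real.exp (η / δ)) :=
            Real.log_le_log (by linarith) h6
        _ = Real.log (f t + δ) + η / δ := by
            rw [Real.log_mul (by linarith) (Real.exp_pos _).ne', Real.log_exp]
    rw [Real.circleAverage_add (hlogc _ hδ) hci, circleAverage_const] at h5
    exact h5
  refine le_of_forall_pos_le_add fun ε hε => ?_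
  have := key (ε * δ) (by positivity)
  rwa [mul_div_assoc, div_self hδ.ne', mul_one] at this

end Crest.Agent.R276.Pvx_999
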