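import Mathlib
import Crest.Agent.R276.Pvx_999

/-!
# (PV) for holomorphic covectors (helper999, row 276)
-/

set_option autoImplicit false
set_option linter.unusedSectionVars false

namespace Crest.Agent.R276.Hol_999

open MeasureTheory Metric Filter Topology Matrix Polynomial
open scoped ComplexOrder
open Real (circleAverage circleAverage_const)
open Crest.Agent.R276.Nc_999 Crest.Agent.R276.Poi_999 Crest.Agent.R276.Fda_999
open Crest.Agent.R276.Fdb_999 Crest.Agent.R276.Fdc_999 Crest.Agent.R276.Fdd_999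
open Crest.Agent.R276.Pvx_999

variable {s : ℕ} {H : ℂ → Matrix (Fin s) (Fin s) ℂ}

/-- Taylor approximation on the closed unit disc -/
theorem exists_poly_approx {f : ℂ → ℂ} {R : ℝ} (hR : 1 < R) (hf : DifferentiableOn ℂ f (ball 0 R)) :
    ∃ P : ℕ → ℂ[X], TendstoUniformlyOn (fun n z => (P n).eval z) f atTop (closedBall 0 1) := by
  obtain ⟨r, hr1, hr2⟩ := exists_between hR
  have hr0 : 0 < r := by linarith
  obtain ⟨r', hr'1, hr'2⟩ := exists_between hr1
  lift r to NNReal using hr0.le
  lift r' to NNReal using (by linarith)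
  have h1 : HasFPowerSeriesOnBall f (cauchyPowerSeries f 0 r) 0 r :=
    (hf.mono (closedBall_subset_ball hr2)).hasFPowerSeriesOnBall (by exact_mod_cast hr0)
  have h2 := h1.tendstoUniformlyOn (r' := r') (by exact_mod_cast hr'2)
  refine ⟨fun n => ∑ k ∈ Finset.range n, C ((cauchyPowerSeries f 0 r).coeff k) * X ^ k, ?_⟩
  have h3 : ∀ n z, (∑ k ∈ Finset.range n, C ((cauchyPowerSeries f 0 r).coeff k) * X ^ k).eval z =
      (cauchyPowerSeries f 0 r).partialSum n z := by
    intro n z
    rw [eval_finsetSum, FormalMultilinearSeries.partialSum]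
    apply Finset.sum_congr rfl
    intro k _
    simp only [eval_mul, eval_C, eval_pow, eval_X]
    rw [FormalMultilinearSeries.apply_eq_pow_smul_coeff, smul_eq_mul, mul_comm]
  simp only [h3]
  have h4 : TendstoUniformlyOn (fun n z => (cauchyPowerSeries f 0 r).partialSum n z) f atTop
      (ball 0 r') := by
    simpa using h2
  exact h4.mono (closedBall_subset_ball hr'1)

/-- **(PV) for holomorphic covectors**, `δ`-form. -/
theorem hol_le_add (hHc : ContinuousOn H (closedBall 0 1))
    (hH : ∀ z ∈ closedBall (0 : ℂ) 1, (H z).PosDef) (hPV : PV H) {R : ℝ} (hR : 1 < R)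
    {ξ : ℂ → Fin s → ℂ} (hξ : ∀ i, DifferentiableOn ℂ (fun t => ξ t i) (ball 0 R))
    {δ : ℝ} (hδ : 0 < δ) :
    Real.log (dN (H 0) (ξ 0) + δ) ≤ circleAverage (fun t => Real.log (dN (H t) (ξ t) + δ)) 0 1 := by
  choose P hP using fun i => exists_poly_approx hR (hξ i)
  -- pointwise convergence
  have hconv : ∀ t ∈ closedBall (0 : ℂ) 1,
      Tendsto (fun n => ev (fun i => P i n) t) atTop (𝓝 (ξ t)) := by
    intro t ht
    rw [tendsto_pi_nhds]
    intro i
    exact (hP i).tendsto_at ht
  -- uniform bound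
  have hbd : ∃ C : ℝ, ∀ᶠ n in atTop, ∀ t ∈ closedBall (0 : ℂ) 1, ‖ev (fun i => P i n) t‖ ≤ C := by
    have hξc : ∀ i, ContinuousOn (fun t => ξ t i) (closedBall 0 1) := fun i =>
      (hξ i).continuousOn.mono (closedBall_subset_ball hR)
    have hξb : ∀ i, ∃ C : ℝ, ∀ t ∈ closedBall (0 : ℂ) 1, ‖ξ t i‖ ≤ C := by
      intro i
      obtain ⟨C, hC⟩ := (isCompact_closedBall (0 : ℂ) 1).exists_bound_of_continuousOn (hξc i)
      exact ⟨C, hC⟩
    choose C hC using hξb
    refine ⟨∑ i, |C i| + 1, ?_⟩
    have h1 : ∀ᶠ n in atTop, ∀ i, ∀ t ∈ closedBall (0 : ℂ) 1, ‖(P i n).eval t - ξ t i‖ < 1 := by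
      rw [eventually_all]
      intro i
      have := Metric.tendstoUniformlyOn_iff.mp (hP i) 1 one_pos
      filter_upwards [this] with n hn t ht
      have := hn t ht
      rwa [dist_comm, dist_eq_norm] at this
    filter_upwards [h1] with n hn t ht
    rw [pi_norm_le_iff_of_nonneg (by positivity)]
    intro i
    have h2 := hn i t ht
    have h3 := hC i t ht
    have h4 : |C i| ≤ ∑ i, |C i| := Finset.single_le_sum (f := fun i => |C i|)
      (fun _ _ => abs_nonneg _) (Finset.mem_univ i)
    have h5 := le_abs_self (C i)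
    calc ‖ev (fun i => P i n) t i‖ = ‖((P i n).eval t - ξ t i) + ξ t i‖ := by
          simp [ev]
      _ ≤ ‖(P i n).eval t - ξ t i‖ + ‖ξ t i‖ := norm_add_le _ _
      _ ≤ _ := by linarith
  obtain ⟨C, hC⟩ := hbd
  -- bound for the dual norm on a ball of vectors
  have hdNc : ContinuousOn (fun q : ℂ × (Fin s → ℂ) => dN (H q.1) q.2)
      (closedBall (0 : ℂ) 1 ×ˢ closedBall (0 : Fin s → ℂ) C) := by
    have h1 : ContinuousOn (fun q : ℂ × (Fin s → ℂ) => (H q.1)⁻¹)
        (closedBall (0 : ℂ) 1 ×ˢ closedBall (0 : Fin s → ℂ) C) :=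
      (inv_contOn hHc hH).comp continuousOn_fst (fun q hq => hq.1)
    exact qf_contOn h1 (continuousOn_snd.star)
  obtain ⟨C2, hC2⟩ := ((isCompact_closedBall (0 : ℂ) 1).prod
    (isCompact_closedBall (0 : Fin s → ℂ) C)).exists_bound_of_continuousOn hdNc
  have hsph : ∀ θ : ℝ, circleMap 0 1 θ ∈ closedBall (0 : ℂ) 1 := fun θ =>
    circleMap_mem_closedBall 0 zero_le_one θ
  have hdN0 : ∀ t ∈ closedBall (0 : ℂ) 1, ∀ y, 0 ≤ dN (H t) y := fun t ht y => dN_nonneg (hH t ht) y
  have hcd : ∀ t ∈ closedBall (0 : ℂ) 1, Continuous fun y => dN (H t) y := by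
    intro t _
    have : Continuous fun v : Fin s → ℂ => qf (H t)⁻¹ v :=
      qf_cont.comp (Continuous.prodMk (continuous_const (y := (H t)⁻¹)) continuous_id)
    exact this.comp continuous_star
  -- dominated convergence
  have hlim : Tendsto (fun n => circleAverage
      (fun t => Real.log (dN (H t) (ev (fun i => P i n) t) + δ)) 0 1) atTop
      (𝓝 (circleAverage (fun t => Real.log (dN (H t) (ξ t) + δ)) 0 1)) := by
    simp only [circleAverage]
    apply Tendsto.const_smul
    apply intervalIntegral.tendsto_integral_filter_of_dominated_convergence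
      (fun _ => |Real.log δ| + |Real.log (C2 + δ)|)
    · filter_upwards with n
      have h1 : Continuous fun θ : ℝ =>
          Real.log (dN (H (circleMap 0 1 θ)) (ev (fun i => P i n) (circleMap 0 1 θ)) + δ) := by
        rw [← continuousOn_univ]
        exact (dN_log_contOn hHc hH (fun i => P i n) hδ).comp
          (continuous_circleMap 0 1).continuousOn (fun θ _ => hsph θ)
      exact h1.aestronglyMeasurable
    · filter_upwards [hC] with n hn
      filter_upwards with θ _
      have h1 := hdN0 _ (hsph θ) (ev (fun i => P i n) (circleMap 0 1 θ))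
      have h2 : dN (H (circleMap 0 1 θ)) (ev (fun i => P i n) (circleMap 0 1 θ)) ≤ C2 := by
        have := hC2 (circleMap 0 1 θ, ev (fun i => P i n) (circleMap 0 1 θ))
          ⟨hsph θ, by rw [mem_closedBall_zero_iff]; exact hn _ (hsph θ)⟩
        exact (le_abs_self _).trans (by simpa using this)
      rw [Real.norm_eq_abs, abs_le]
      constructor
      · have h3 := Real.log_le_log hδ (by linarith :
          δ ≤ dN (H (circleMap 0 1 θ)) (ev (fun i => P i n) (circleMap 0 1 θ)) + δ)
        have := neg_abs_le (Real.log δ)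
        have := abs_nonneg (Real.log (C2 + δ))
        linarith
      · have h3 := Real.log_le_log (by linarith : 0 <
          dN (H (circleMap 0 1 θ)) (ev (fun i => P i n) (circleMap 0 1 θ)) + δ)
          (by linarith : _ ≤ C2 + δ)
        have := le_abs_self (Real.log (C2 + δ))
        have := abs_nonneg (Real.log δ)
        linarith
    · exact intervalIntegrable_const
    · filter_upwards with θ _
      have h1 := ((hcd _ (hsph θ)).tendsto (ξ (circleMap 0 1 θ))).comp (hconv _ (hsph θ))
      refine (h1.add_const δ).log ?_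
      have := hdN0 _ (hsph θ) (ξ (circleMap 0 1 θ))
      linarith
  have h00 : (0 : ℂ) ∈ closedBall (0 : ℂ) 1 := by simp
  have hlim0 : Tendsto (fun n => Real.log (dN (H 0) (ev (fun i => P i n) 0) + δ)) atTop
      (𝓝 (Real.log (dN (H 0) (ξ 0) + δ))) := by
    have h1 := ((hcd 0 h00).tendsto (ξ 0)).comp (hconv 0 h00)
    refine (h1.add_const δ).log ?_
    have := hdN0 0 h00 (ξ 0)
    linarith
  refine le_of_tendsto_of_tendsto' hlim0 hlim fun n => ?_
  exact subM_circle (dN_log_contOn hHc hH _ hδ) (hPV _ δ hδ)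

/-- **(PV) for holomorphic covectors without zeros.** -/
theorem hol_le (hHc : ContinuousOn H (closedBall 0 1))
    (hH : ∀ z ∈ closedBall (0 : ℂ) 1, (H z).PosDef) (hPV : PV H) {R : ℝ} (hR : 1 < R)
    {ξ : ℂ → Fin s → ℂ} (hξ : ∀ i, DifferentiableOn ℂ (fun t => ξ t i) (ball 0 R))
    (hξ0 : ∀ t ∈ closedBall (0 : ℂ) 1, ξ t ≠ 0) :
    Real.log (dN (H 0) (ξ 0)) ≤ circleAverage (fun t => Real.log (dN (H t) (ξ t))) 0 1 := by
  have hξc : ContinuousOn ξ (closedBall 0 1) :=
    continuousOn_pi.mpr fun i => (hξ i).continuousOn.mono (closedBall_subset_ball hR)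
  have hdc : ContinuousOn (fun t => dN (H t) (ξ t)) (closedBall 0 1) := dN_contOn hHc hH hξc
  have hdp : ∀ t ∈ closedBall (0 : ℂ) 1, 0 < dN (H t) (ξ t) := by
    intro t ht
    apply qf_pos (hH t ht).inv
    intro h0
    exact hξ0 t ht (by rw [← star_star (ξ t), h0, star_zero])
  have h00 : (0 : ℂ) ∈ closedBall (0 : ℂ) 1 := by simp
  obtain ⟨z0, hz0, hmin⟩ := (isCompact_closedBall (0 : ℂ) 1).exists_isMinOn ⟨0, h00⟩ hdc
  set m := dN (H z0) (ξ z0) with hm
  have hmp : 0 < m := hdp z0 hz0
  have hmle : ∀ t ∈ closedBall (0 : ℂ) 1, m ≤ dN (H t) (ξ t) := fun t ht => hmin ht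
  have hci : ∀ a : ℝ, 0 ≤ a → CircleIntegrable (fun t => Real.log (dN (H t) (ξ t) + a)) 0 1 := by
    intro a ha
    apply ContinuousOn.circleIntegrable'
    rw [abs_one]
    have hc' : ContinuousOn (fun t => dN (H t) (ξ t) + a) (sphere 0 1) :=
      (hdc.mono sphere_subset_closedBall).add continuousOn_const
    exact hc'.log (fun t ht => by
      have := hdp t (sphere_subset_closedBall ht); linarith)
  have hci0 : CircleIntegrable (fun t => Real.log (dN (H t) (ξ t))) 0 1 := by
    simpa using hci 0 le_rfl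
  refine le_of_forall_pos_le_add fun ε hε => ?_
  have hδ : 0 < ε * m := by positivity
  have h1 := hol_le_add hHc hH hPV hR hξ hδ
  have h2 : Real.log (dN (H 0) (ξ 0)) ≤ Real.log (dN (H 0) (ξ 0) + ε * m) :=
    Real.log_le_log (hdp 0 h00) (by linarith)
  have hc1 : CircleIntegrable (fun _ : ℂ => ε) 0 1 :=
    ContinuousOn.circleIntegrable' continuousOn_const
  have h3 : circleAverage (fun t => Real.log (dN (H t) (ξ t) + ε * m)) 0 1 ≤
      circleAverage ((fun t => Real.log (dN (H t) (ξ t))) + fun _ => ε) 0 1 := by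
    apply Real.circleAverage_mono (hci _ hδ.le) (hci0.add hc1)
    intro t ht
    rw [abs_one] at ht
    have htb : t ∈ closedBall (0 : ℂ) 1 := sphere_subset_closedBall ht
    have hp := hdp t htb
    have hl := hmle t htb
    simp only [Pi.add_apply]
    have h6 : dN (H t) (ξ t) + ε * m ≤ dN (H t) (ξ t) * Real.exp ε := by
      have h7 := Real.add_one_le_exp ε
      have h8 := mul_le_mul_of_nonneg_left h7 hp.le
      have h9 := mul_le_mul_of_nonneg_left hl hε.le
      nlinarith
    calc Real.log (dN (H t) (ξ t) + ε * m) ≤ Real.log (dN (H t) (ξ t) * Real.exp ε) :=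
          Real.log_le_log (by linarith) h6
      _ = Real.log (dN (H t) (ξ t)) + ε := by
          rw [Real.log_mul hp.ne' (Real.exp_pos _).ne', Real.log_exp]
  rw [Real.circleAverage_add hci0 hc1, circleAverage_const] at h3
  linarith

end Crest.Agent.R276.Hol_999
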