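import Mathlib
import Crest.Agent.R276.Rud_210

/-!
# R276, leaf HOMCONT (helper201)

`μ x` a family of measures on `Y`, `s : Y → ℂⁿ`, `0 < p < 2`.  If `x ↦ ∫ |⟨a, s⟩|^p dμ_x` is continuous
for every `a`, then `x ↦ ∫ g(s) dμ_x` is continuous for every continuous `g` with
`g (c v) = |c|^p g v` (`homcont`); with parameters: `homcont2`; complex valued: `homcont2C`.
Proof: ultrafilter limit of positive functionals on the closed unit ball, Riesz-Markov-Kakutani,
Rudin's equimeasurability theorem `Rud_210.equimeasurable`.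
-/

set_option autoImplicit false
set_option linter.unusedSectionVars false

open MeasureTheory Filter Topology Set Metric
open scoped ENNReal NNReal CompactlySupported

namespace Crest.Agent.R276.HomC_201

variable {n : ℕ} {p : ℝ}

/-- homogeneous functions vanish at `0` -/
theorem hom_zero (hp : 0 < p) {g : (Fin n → ℂ) → ℝ}
    (hh : ∀ (c : ℂ) v, g (c • v) = ‖c‖ ^ p * g v) : g 0 = 0 := by
  have := hh 0 0
  rwa [zero_smul, norm_zero, Real.zero_rpow hp.ne', zero_mul] at this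

/-- normalisation to the closed unit ball -/
noncomputable def nrm (v : Fin n → ℂ) : closedBall (0 : Fin n → ℂ) 1 :=
  ⟨((‖v‖⁻¹ : ℝ) : ℂ) • v, by
    rw [mem_closedBall_zero_iff, norm_smul, Complex.norm_real, norm_inv, norm_norm]
    by_cases h : ‖v‖ = 0
    · rw [h]; simp
    · rw [inv_mul_cancel₀ h]⟩

theorem nrm_val (v : Fin n → ℂ) : (nrm v).1 = ((‖v‖⁻¹ : ℝ) : ℂ) • v := rfl

theorem meas_nrm : Measurable (nrm : (Fin n → ℂ) → closedBall (0 : Fin n → ℂ) 1) := by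
  refine Measurable.subtype_mk ?_
  exact (Complex.measurable_ofReal.comp measurable_norm.inv).smul measurable_id

/-- a homogeneous function is determined by its values on the unit ball -/
theorem hom_eq (hp : 0 < p) {g : (Fin n → ℂ) → ℝ}
    (hh : ∀ (c : ℂ) v, g (c • v) = ‖c‖ ^ p * g v) (v : Fin n → ℂ) :
    g v = ‖v‖ ^ p * g (nrm v).1 := by
  by_cases h : v = 0
  · rw [h, norm_zero, Real.zero_rpow hp.ne', zero_mul, hom_zero hp hh]
  · have h1 : ‖v‖ ≠ 0 := norm_ne_zero_iff.2 h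
    rw [nrm_val, hh, Complex.norm_real, norm_inv, norm_norm, ← mul_assoc,
      ← Real.mul_rpow (norm_nonneg _) (inv_nonneg.2 (norm_nonneg _)), mul_inv_cancel₀ h1,
      Real.one_rpow, one_mul]

/-- boundedness -/
theorem hom_bd (hp : 0 < p) {g : (Fin n → ℂ) → ℝ} (hg : ContinuousOn g {v | v ≠ 0})
    (hh : ∀ (c : ℂ) v, g (c • v) = ‖c‖ ^ p * g v) :
    ∃ C, 0 ≤ C ∧ ∀ v, |g v| ≤ C * ‖v‖ ^ p := by
  obtain ⟨C, hC⟩ := (isCompact_sphere (0 : Fin n → ℂ) 1).exists_bound_of_continuousOn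
    (hg.mono fun v hv => by
      rintro rfl
      simp at hv)
  refine ⟨max C 0, le_max_right _ _, fun v => ?_⟩
  by_cases h : v = 0
  · rw [h, hom_zero hp hh, abs_zero]
    positivity
  · have h1 : ‖v‖ ≠ 0 := norm_ne_zero_iff.2 h
    rw [hom_eq hp hh v, abs_mul, abs_of_nonneg (Real.rpow_nonneg (norm_nonneg _) _), mul_comm]
    refine mul_le_mul_of_nonneg_right ?_ (Real.rpow_nonneg (norm_nonneg _) _)
    refine (hC (nrm v).1 ?_).trans (le_max_left _ _)
    rw [mem_sphere_zero_iff_norm, nrm_val, norm_smul, Complex.norm_real, norm_inv, norm_norm,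
      inv_mul_cancel₀ h1]

/-- continuity at `0` is automatic -/
theorem cont_of_hom (hp : 0 < p) {g : (Fin n → ℂ) → ℝ} (hg : ContinuousOn g {v | v ≠ 0})
    (hh : ∀ (c : ℂ) v, g (c • v) = ‖c‖ ^ p * g v) : Continuous g := by
  obtain ⟨C, hC0, hC⟩ := hom_bd hp hg hh
  rw [continuous_iff_continuousAt]
  intro v
  by_cases h : v = 0
  · subst h
    rw [ContinuousAt, hom_zero hp hh]
    have this : ContinuousAt (fun v : Fin n → ℂ => C * ‖v‖ ^ p) 0 :=
      (continuousAt_const.mul ((continuous_norm.continuousAt).rpow_const (Or.inr hp.le)))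
    have h2 := this.tendsto
    rw [norm_zero, Real.zero_rpow hp.ne', mul_zero] at h2
    exact squeeze_zero_norm (a := fun v : Fin n → ℂ => C * ‖v‖ ^ p) (fun v => hC v) h2
  · exact (hg v h).continuousAt (isOpen_ne.mem_nhds h)

/-- the sup norm is bounded by the sum of the components -/
theorem norm_rpow_le (hp : 0 < p) (v : Fin n → ℂ) : ‖v‖ ^ p ≤ ∑ i, ‖v i‖ ^ p := by
  by_cases h : v = 0
  · rw [h, norm_zero, Real.zero_rpow hp.ne']
    exact Finset.sum_nonneg fun i _ => Real.rpow_nonneg (norm_nonneg _) _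
  · have hne : Nonempty (Fin n) := by
      by_contra hcon
      rw [not_nonempty_iff] at hcon
      exact h (Subsingleton.elim _ _)
    obtain ⟨i, hi⟩ := Finite.exists_max (fun i => ‖v i‖)
    have h1 : ‖v‖ ≤ ‖v i‖ := (pi_norm_le_iff_of_nonneg (norm_nonneg _)).2 hi
    exact (Real.rpow_le_rpow (norm_nonneg _) h1 hp.le).trans
      (Finset.single_le_sum (f := fun i => ‖v i‖ ^ p)
        (fun i _ => Real.rpow_nonneg (norm_nonneg _) _) (Finset.mem_univ i))

section int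

variable {Y : Type*} [MeasurableSpace Y] {μ : Measure Y} {σ : Fin n → Y → ℂ}

/-- the vector -/
def vec (σ : Fin n → Y → ℂ) (y : Y) : Fin n → ℂ := fun i => σ i y

theorem meas_vec (hσ : ∀ i, Measurable (σ i)) : Measurable (vec σ) := measurable_pi_lambda _ hσ

theorem integrable_lin (hσ : ∀ i, Measurable (σ i))
    (hfin : ∀ v : Fin n → ℂ, ∫⁻ y, ENNReal.ofReal (‖∑ i, v i * σ i y‖ ^ p) ∂μ ≠ ∞)
    (v : Fin n → ℂ) : Integrable (fun y => ‖∑ i, v i * σ i y‖ ^ p) μ := by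
  refine ⟨?_, ?_⟩
  · have h1 : Measurable fun y => ∑ i, v i * σ i y :=
      Finset.measurable_sum _ fun i _ => measurable_const.mul (hσ i)
    exact (h1.norm.pow_const p).aestronglyMeasurable
  · rw [HasFiniteIntegral]
    refine lt_of_le_of_lt (le_of_eq ?_) (lt_top_iff_ne_top.2 (hfin v))
    refine lintegral_congr fun y => ?_
    rw [Real.enorm_of_nonneg (Real.rpow_nonneg (norm_nonneg _) _)]

theorem single_sum (σ : Fin n → Y → ℂ) (i : Fin n) (y : Y) :
    ∑ j, (Pi.single i (1 : ℂ) : Fin n → ℂ) j * σ j y = σ i y := by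
  rw [Finset.sum_eq_single i]
  · simp
  · intro j _ hj
    simp [Pi.single_eq_of_ne hj]
  · simp

theorem integrable_comp (hσ : ∀ i, Measurable (σ i))
    (hfin : ∀ v : Fin n → ℂ, ∫⁻ y, ENNReal.ofReal (‖∑ i, v i * σ i y‖ ^ p) ∂μ ≠ ∞)
    (i : Fin n) : Integrable (fun y => ‖σ i y‖ ^ p) μ := by
  have := integrable_lin hσ hfin (Pi.single i 1)
  simpa only [single_sum] using this

theorem integrable_norm (hp : 0 < p) (hσ : ∀ i, Measurable (σ i))
    (hfin : ∀ v : Fin n → ℂ, ∫⁻ y, ENNReal.ofReal (‖∑ i, v i * σ i y‖ ^ p) ∂μ ≠ ∞) :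
    Integrable (fun y => ‖vec σ y‖ ^ p) μ := by
  have h1 : Integrable (fun y => ∑ i, ‖σ i y‖ ^ p) μ :=
    integrable_finsetSum _ fun i _ => integrable_comp hσ hfin i
  refine h1.mono' ((meas_vec hσ).norm.pow_const p).aestronglyMeasurable
    (Eventually.of_forall fun y => ?_)
  rw [Real.norm_eq_abs, abs_of_nonneg (Real.rpow_nonneg (norm_nonneg _) _)]
  exact norm_rpow_le hp (vec σ y)

theorem int_norm_le (hp : 0 < p) (hσ : ∀ i, Measurable (σ i))
    (hfin : ∀ v : Fin n → ℂ, ∫⁻ y, ENNReal.ofReal (‖∑ i, v i * σ i y‖ ^ p) ∂μ ≠ ∞) :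
    ∫ y, ‖vec σ y‖ ^ p ∂μ ≤ ∑ i, ∫ y, ‖∑ j, (Pi.single i (1 : ℂ) : Fin n → ℂ) j * σ j y‖ ^ p ∂μ := by
  simp only [single_sum]
  rw [← integral_finsetSum _ fun i _ => integrable_comp hσ hfin i]
  exact integral_mono (integrable_norm hp hσ hfin)
    (integrable_finsetSum _ fun i _ => integrable_comp hσ hfin i) fun y => norm_rpow_le hp (vec σ y)

/-- integrability of functions of growth `‖v‖^p` -/
theorem integrable_of_bd (hp : 0 < p) (hσ : ∀ i, Measurable (σ i))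
    (hfin : ∀ v : Fin n → ℂ, ∫⁻ y, ENNReal.ofReal (‖∑ i, v i * σ i y‖ ^ p) ∂μ ≠ ∞)
    {g : (Fin n → ℂ) → ℝ} (hg : Measurable g) {C : ℝ} (hC : ∀ v, |g v| ≤ C * ‖v‖ ^ p) :
    Integrable (fun y => g (vec σ y)) μ := by
  refine ((integrable_norm hp hσ hfin).const_mul C).mono'
    (hg.comp (meas_vec hσ)).aestronglyMeasurable (Eventually.of_forall fun y => ?_)
  rw [Real.norm_eq_abs]
  exact hC _

theorem abs_int_le (hp : 0 < p) (hσ : ∀ i, Measurable (σ i))
    (hfin : ∀ v : Fin n → ℂ, ∫⁻ y, ENNReal.ofReal (‖∑ i, v i * σ i y‖ ^ p) ∂μ ≠ ∞)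
    {g : (Fin n → ℂ) → ℝ} {C : ℝ} (hC : ∀ v, |g v| ≤ C * ‖v‖ ^ p) :
    |∫ y, g (vec σ y) ∂μ| ≤ C * ∫ y, ‖vec σ y‖ ^ p ∂μ := by
  rw [← integral_const_mul, ← Real.norm_eq_abs]
  refine norm_integral_le_of_norm_le ((integrable_norm hp hσ hfin).const_mul C)
    (Eventually.of_forall fun y => ?_)
  rw [Real.norm_eq_abs]
  exact hC _

end int

/-- real form of `Rud_210.equimeasurable` -/
theorem equi_real {Y Z : Type*} [MeasurableSpace Y] [MeasurableSpace Z] (hp : 0 < p) (hp2 : p < 2)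
    {μ : Measure Y} {ν : Measure Z} [SFinite μ] [SFinite ν] {s : Y → Fin n → ℂ} {t : Z → Fin n → ℂ}
    (hs : Measurable s) (ht : Measurable t)
    (hfin : ∀ a : Fin n → ℂ, ∫⁻ ω, ENNReal.ofReal (‖∑ i, a i * s ω i‖ ^ p) ∂μ ≠ ∞)
    (heq : ∀ a : Fin n → ℂ, ∫⁻ ω, ENNReal.ofReal (‖∑ i, a i * s ω i‖ ^ p) ∂μ =
      ∫⁻ ω, ENNReal.ofReal (‖∑ i, a i * t ω i‖ ^ p) ∂ν)
    {g : (Fin n → ℂ) → ℝ} (hg : Measurable g)
    (hh : ∀ (c : ℂ) v, g (c • v) = ‖c‖ ^ p * g v)
    (hi : Integrable (fun y => g (s y)) μ) (hi' : Integrable (fun z => g (t z)) ν) :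
    ∫ y, g (s y) ∂μ = ∫ z, g (t z) ∂ν := by
  have key : ∀ {h : (Fin n → ℂ) → ℝ} (_ : Measurable h)
      (_ : ∀ (c : ℂ) v, h (c • v) = ‖c‖ ^ p * h v),
      ∫⁻ y, ENNReal.ofReal (h (s y)) ∂μ = ∫⁻ z, ENNReal.ofReal (h (t z)) ∂ν := by
    intro h hm hh'
    refine Rud_210.equimeasurable hp hp2 hs ht hfin heq (h := fun v => ENNReal.ofReal (h v))
      hm.ennreal_ofReal fun c x => ?_
    have : (fun i => c * x i) = c • x := rfl
    rw [this, hh', ENNReal.ofReal_mul (Real.rpow_nonneg (norm_nonneg _) _)]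
  rw [integral_eq_lintegral_pos_part_sub_lintegral_neg_part hi,
    integral_eq_lintegral_pos_part_sub_lintegral_neg_part hi', key hg hh,
    key (h := fun v => - g v) hg.neg (fun c v => by rw [hh]; ring)]

section main

variable {X : Type*} [TopologicalSpace X] {Y : Type*} [MeasurableSpace Y]

/-- **HOMCONT** -/
theorem homcont (hp : 0 < p) (hp2 : p < 2) (μ : X → Measure Y) [∀ x, SFinite (μ x)]
    (σ : Fin n → Y → ℂ) (hσ : ∀ i, Measurable (σ i))
    (hfin : ∀ x (v : Fin n → ℂ), ∫⁻ y, ENNReal.ofReal (‖∑ i, v i * σ i y‖ ^ p) ∂(μ x) ≠ ∞)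
    (hc : ∀ v : Fin n → ℂ, Continuous fun x => ∫ y, ‖∑ i, v i * σ i y‖ ^ p ∂(μ x))
    (g : (Fin n → ℂ) → ℝ) (hg : ContinuousOn g {v | v ≠ 0})
    (hh : ∀ (c : ℂ) v, g (c • v) = ‖c‖ ^ p * g v) :
    Continuous fun x => ∫ y, g (fun i => σ i y) ∂(μ x) := by
  have hgc : Continuous g := cont_of_hom hp hg hh
  rw [continuous_iff_continuousAt]
  intro x0
  rw [ContinuousAt, tendsto_iff_ultrafilter]
  intro U hU
  -- the total mass
  set B : X → ℝ := fun x =>
    ∑ i, ∫ y, ‖∑ j, (Pi.single i (1 : ℂ) : Fin n → ℂ) j * σ j y‖ ^ p ∂(μ x) with hBdef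
  have hBc : Continuous B := continuous_finsetSum _ fun i _ => hc _
  have hB0 : ∀ x, 0 ≤ B x := fun x => Finset.sum_nonneg fun i _ =>
    integral_nonneg fun y => Real.rpow_nonneg (norm_nonneg _) _
  have hmass : ∀ x, ∫ y, ‖vec σ y‖ ^ p ∂(μ x) ≤ B x := fun x => int_norm_le hp hσ (hfin x)
  have hBU : ∀ᶠ x in (U : Filter X), B x ≤ B x0 + 1 :=
    hU ((hBc.continuousAt.tendsto).eventually (eventually_le_nhds (by linarith)))
  -- homogeneous extension
  set K := closedBall (0 : Fin n → ℂ) 1 with hK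
  have : CompactSpace K := isCompact_iff_compactSpace.1 (isCompact_closedBall _ _)
  let ext : C_c(K, ℝ) → (Fin n → ℂ) → ℝ := fun φ v => ‖v‖ ^ p * φ (nrm v)
  have hem : ∀ φ, Measurable (ext φ) := fun φ =>
    (measurable_norm.pow_const p).mul (φ.continuous.measurable.comp meas_nrm)
  have hbd : ∀ φ : C_c(K, ℝ), ∃ C, ∀ k, |φ k| ≤ C := by
    intro φ
    obtain ⟨C, hC⟩ := (isCompact_univ (X := K)).exists_bound_of_continuousOn
      φ.continuous.continuousOn
    exact ⟨C, fun k => hC k (mem_univ k)⟩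
  have heb : ∀ φ C, (∀ k, |φ k| ≤ C) → ∀ v, |ext φ v| ≤ C * ‖v‖ ^ p := by
    intro φ C hC v
    show |‖v‖ ^ p * φ (nrm v)| ≤ _
    rw [abs_mul, abs_of_nonneg (Real.rpow_nonneg (norm_nonneg _) _), mul_comm]
    exact mul_le_mul_of_nonneg_right (hC _) (Real.rpow_nonneg (norm_nonneg _) _)
  have hint : ∀ φ x, Integrable (fun y => ext φ (vec σ y)) (μ x) := by
    intro φ x
    obtain ⟨C, hC⟩ := hbd φ
    exact integrable_of_bd hp hσ (hfin x) (hem φ) (heb φ C hC)
  -- the limits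
  have hlim : ∀ φ : C_c(K, ℝ), ∃ L, Tendsto (fun x => ∫ y, ext φ (vec σ y) ∂(μ x)) U (𝓝 L) := by
    intro φ
    obtain ⟨C, hC⟩ := hbd φ
    set D := |C| * (B x0 + 1) with hD
    have h1 : ∀ᶠ x in (U : Filter X), (∫ y, ext φ (vec σ y) ∂(μ x)) ∈ Icc (-D) D := by
      filter_upwards [hBU] with x hx
      rw [mem_Icc, ← abs_le]
      refine (abs_int_le hp hσ (hfin x) (heb φ |C| fun k => (hC k).trans (le_abs_self C))).trans ?_
      exact mul_le_mul_of_nonneg_left ((hmass x).trans hx) (abs_nonneg C)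
    have h2 : (U.map (fun x => ∫ y, ext φ (vec σ y) ∂(μ x)) : Filter ℝ) ≤ 𝓟 (Icc (-D) D) := by
      rw [Ultrafilter.coe_map, le_principal_iff]
      exact h1
    obtain ⟨L, -, hL⟩ := isCompact_Icc.ultrafilter_le_nhds _ h2
    exact ⟨L, hL⟩
  choose lam hlam using hlim
  -- the positive functional
  let Λ : C_c(K, ℝ) →ₚ[ℝ] ℝ := PositiveLinearMap.mk₀
    { toFun := lam
      map_add' := fun φ ψ => by
        refine tendsto_nhds_unique (hlam (φ + ψ)) ?_
        refine ((hlam φ).add (hlam ψ)).congr fun x => ?_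
        rw [← integral_add (hint φ x) (hint ψ x)]
        refine integral_congr_ae (Eventually.of_forall fun y => ?_)
        show ‖vec σ y‖ ^ p * φ _ + ‖vec σ y‖ ^ p * ψ _ = ‖vec σ y‖ ^ p * (φ + ψ) _
        rw [CompactlySupportedContinuousMap.add_apply]
        ring
      map_smul' := fun c φ => by
        refine tendsto_nhds_unique (hlam (c • φ)) ?_
        refine ((hlam φ).const_mul c).congr fun x => ?_
        rw [← integral_const_mul]
        refine integral_congr_ae (Eventually.of_forall fun y => ?_)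
        show c * (‖vec σ y‖ ^ p * φ _) = ‖vec σ y‖ ^ p * (c • φ) _
        rw [CompactlySupportedContinuousMap.smul_apply, smul_eq_mul]
        ring } (by
      intro φ hφ
      refine ge_of_tendsto' (hlam φ) fun x => integral_nonneg fun y => ?_
      exact mul_nonneg (Real.rpow_nonneg (norm_nonneg _) _) (hφ _))
  have hΛ : ∀ φ, Λ φ = lam φ := fun φ => rfl
  set ν := RealRMK.rieszMeasure Λ with hν
  have hrmk : ∀ φ : C_c(K, ℝ), ∫ k, φ k ∂ν = lam φ := fun φ => by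
    rw [← hΛ, hν]
    exact RealRMK.integral_rieszMeasure Λ φ
  -- homogeneous functions
  have hhom : ∀ (h : (Fin n → ℂ) → ℝ) (hcont : Continuous h)
      (_ : ∀ (c : ℂ) v, h (c • v) = ‖c‖ ^ p * h v),
      Tendsto (fun x => ∫ y, h (vec σ y) ∂(μ x)) U (𝓝 (∫ k : K, h k.1 ∂ν)) := by
    intro h hcont hh'
    let φ : C_c(K, ℝ) :=
      { toFun := fun k => h k.1
        continuous_toFun := hcont.comp continuous_subtype_val
        hasCompactSupport' := HasCompactSupport.of_compactSpace _ }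
    have e1 : ∀ x, ∫ y, ext φ (vec σ y) ∂(μ x) = ∫ y, h (vec σ y) ∂(μ x) := by
      intro x
      refine integral_congr_ae (Eventually.of_forall fun y => ?_)
      exact (hom_eq hp hh' (vec σ y)).symm
    have e2 : ∫ k : K, h k.1 ∂ν = lam φ := hrmk φ
    rw [e2]
    exact (hlam φ).congr e1
  -- norms of linear forms
  have hlinc : ∀ a : Fin n → ℂ, Continuous fun v : Fin n → ℂ => ‖∑ i, a i * v i‖ ^ p := by
    intro a
    refine Continuous.rpow_const ?_ (fun _ => Or.inr hp.le)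
    fun_prop
  have hlinh : ∀ (a : Fin n → ℂ) (c : ℂ) (v : Fin n → ℂ),
      ‖∑ i, a i * (c • v) i‖ ^ p = ‖c‖ ^ p * ‖∑ i, a i * v i‖ ^ p := by
    intro a c v
    rw [← Real.mul_rpow (norm_nonneg _) (norm_nonneg _), ← norm_mul, Finset.mul_sum]
    have e : ∑ i, a i * (c • v) i = ∑ i, c * (a i * v i) :=
      Finset.sum_congr rfl fun i _ => by
        rw [Pi.smul_apply, smul_eq_mul]
        ring
    rw [e]
  have hequal : ∀ a : Fin n → ℂ, ∫ y, ‖∑ i, a i * σ i y‖ ^ p ∂(μ x0) =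
      ∫ k : K, ‖∑ i, a i * k.1 i‖ ^ p ∂ν := by
    intro a
    refine tendsto_nhds_unique ?_ (hhom _ (hlinc a) (hlinh a))
    exact ((hc a).continuousAt.tendsto.mono_left hU)
  have hintK : ∀ (h : (Fin n → ℂ) → ℝ), Continuous h → Integrable (fun k : K => h k.1) ν := by
    intro h hcont
    exact (hcont.comp continuous_subtype_val).integrable_of_hasCompactSupport
      (HasCompactSupport.of_compactSpace _)
  have heq : ∀ a : Fin n → ℂ, ∫⁻ y, ENNReal.ofReal (‖∑ i, a i * vec σ y i‖ ^ p) ∂(μ x0) =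
      ∫⁻ k : K, ENNReal.ofReal (‖∑ i, a i * k.1 i‖ ^ p) ∂ν := by
    intro a
    have i1 : Integrable (fun y => ‖∑ i, a i * vec σ y i‖ ^ p) (μ x0) :=
      integrable_lin hσ (hfin x0) a
    have i2 := hintK _ (hlinc a)
    rw [← ofReal_integral_eq_lintegral_ofReal i1
        (Eventually.of_forall fun y => Real.rpow_nonneg (norm_nonneg _) _),
      ← ofReal_integral_eq_lintegral_ofReal i2
        (Eventually.of_forall fun y => Real.rpow_nonneg (norm_nonneg _) _)]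
    congr 1
    exact hequal a
  obtain ⟨C, hC0, hC⟩ := hom_bd hp hg hh
  have hfinal : ∫ y, g (vec σ y) ∂(μ x0) = ∫ k : K, g k.1 ∂ν :=
    equi_real hp hp2 (meas_vec hσ) measurable_subtype_coe (hfin x0) heq hgc.measurable hh
      (integrable_of_bd hp hσ (hfin x0) hgc.measurable hC) (hintK g hgc)
  show Tendsto _ _ (𝓝 (∫ y, g (vec σ y) ∂(μ x0)))
  rw [hfinal]
  exact hhom g hgc hh

/-- **HOMCONT with parameters** -/
theorem homcont2 {W : Type*} [TopologicalSpace W] (hp : 0 < p) (hp2 : p < 2) (μ : X → Measure Y)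
    [∀ x, SFinite (μ x)] (σ : Fin n → Y → ℂ) (hσ : ∀ i, Measurable (σ i))
    (hfin : ∀ x (v : Fin n → ℂ), ∫⁻ y, ENNReal.ofReal (‖∑ i, v i * σ i y‖ ^ p) ∂(μ x) ≠ ∞)
    (hc : ∀ v : Fin n → ℂ, Continuous fun x => ∫ y, ‖∑ i, v i * σ i y‖ ^ p ∂(μ x))
    (g : W → (Fin n → ℂ) → ℝ) {T : Set W} (hT : IsOpen T)
    (hg : ContinuousOn (fun q : W × (Fin n → ℂ) => g q.1 q.2) {q | q.1 ∈ T ∧ q.2 ≠ 0})
    (hh : ∀ w ∈ T, ∀ (c : ℂ) v, g w (c • v) = ‖c‖ ^ p * g w v) :
    ContinuousOn (fun q : X × W => ∫ y, g q.2 (fun i => σ i y) ∂(μ q.1)) {q | q.2 ∈ T} := by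
  have hopen : IsOpen {q : W × (Fin n → ℂ) | q.1 ∈ T ∧ q.2 ≠ 0} :=
    (hT.preimage continuous_fst).inter (isOpen_ne.preimage continuous_snd)
  have hgw : ∀ w ∈ T, ContinuousOn (g w) {v | v ≠ 0} := by
    intro w hw v hv
    have h1 := (hg (w, v) ⟨hw, hv⟩).continuousAt (hopen.mem_nhds ⟨hw, hv⟩)
    have h2 : ContinuousAt (fun v : Fin n → ℂ => (w, v)) v := by fun_prop
    exact (ContinuousAt.comp (x := v) (f := fun v : Fin n → ℂ => (w, v)) h1 h2).continuousWithinAt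
  rintro ⟨x0, w0⟩ (hw0 : w0 ∈ T)
  refine ContinuousAt.continuousWithinAt ?_
  set B : X → ℝ := fun x =>
    ∑ i, ∫ y, ‖∑ j, (Pi.single i (1 : ℂ) : Fin n → ℂ) j * σ j y‖ ^ p ∂(μ x) with hBdef
  have hBc : Continuous B := continuous_finsetSum _ fun i _ => hc _
  have hB0 : ∀ x, 0 ≤ B x := fun x => Finset.sum_nonneg fun i _ =>
    integral_nonneg fun y => Real.rpow_nonneg (norm_nonneg _) _
  have hmass : ∀ x, ∫ y, ‖vec σ y‖ ^ p ∂(μ x) ≤ B x := fun x => int_norm_le hp hσ (hfin x)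
  have hcont0 := homcont hp hp2 μ σ hσ hfin hc (g w0) (hgw w0 hw0) (hh w0 hw0)
  rw [ContinuousAt, Metric.tendsto_nhds]
  intro ε hε
  set δ : ℝ := ε / (2 * (B x0 + 1)) with hδ
  have hB1 : 0 < B x0 + 1 := by linarith [hB0 x0]
  have hδ0 : 0 < δ := by positivity
  have h1 : ∀ᶠ w in 𝓝 w0, ∀ v ∈ sphere (0 : Fin n → ℂ) 1, |g w v - g w0 v| < δ := by
    refine (isCompact_sphere (0 : Fin n → ℂ) 1).eventually_forall_of_forall_eventually
      (P := fun w v => |g w v - g w0 v| < δ) fun v hv => ?_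
    have hv0 : v ≠ 0 := by
      rintro rfl
      simp at hv
    have c1 := (hg (w0, v) ⟨hw0, hv0⟩).continuousAt (hopen.mem_nhds ⟨hw0, hv0⟩)
    have c2 : ContinuousAt (g w0) v := (hgw w0 hw0 v hv0).continuousAt (isOpen_ne.mem_nhds hv0)
    have c3 : ContinuousAt (fun z : W × (Fin n → ℂ) => g w0 z.2) (w0, v) :=
      ContinuousAt.comp (x := (w0, v)) (f := Prod.snd) (g := g w0) c2 continuousAt_snd
    have c4 : ContinuousAt (fun z : W × (Fin n → ℂ) => |g z.1 z.2 - g w0 z.2|) (w0, v) :=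
      (c1.sub c3).abs
    have c5 := c4.tendsto.eventually (gt_mem_nhds (by simpa using hδ0) :
      ∀ᶠ r in 𝓝 |g (w0, v).1 (w0, v).2 - g w0 (w0, v).2|, r < δ)
    exact c5
  have hTe : ∀ᶠ w in 𝓝 w0, w ∈ T := hT.mem_nhds hw0
  have hBe : ∀ᶠ x in 𝓝 x0, B x < B x0 + 1 :=
    hBc.continuousAt.tendsto.eventually (gt_mem_nhds (by linarith))
  have hce : ∀ᶠ x in 𝓝 x0, dist (∫ y, g w0 (fun i => σ i y) ∂(μ x))
      (∫ y, g w0 (fun i => σ i y) ∂(μ x0)) < ε / 2 :=
    (Metric.tendsto_nhds.1 hcont0.continuousAt.tendsto) _ (half_pos hε)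
  rw [nhds_prod_eq]
  filter_upwards [(hBe.and hce).prod_mk (h1.and hTe)] with ⟨x, w⟩ ⟨⟨hx1, hx2⟩, hw1, hw2⟩
  have hdiff : ∀ v, |g w v - g w0 v| ≤ δ * ‖v‖ ^ p := by
    intro v
    by_cases hv : v = 0
    · rw [hv, hom_zero hp (hh w hw2), hom_zero hp (hh w0 hw0), sub_zero, abs_zero]
      positivity
    · have hv1 : ‖v‖ ≠ 0 := norm_ne_zero_iff.2 hv
      rw [hom_eq hp (hh w hw2) v, hom_eq hp (hh w0 hw0) v, ← mul_sub, abs_mul,
        abs_of_nonneg (Real.rpow_nonneg (norm_nonneg _) _), mul_comm]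
      refine mul_le_mul_of_nonneg_right (hw1 _ ?_).le (Real.rpow_nonneg (norm_nonneg _) _)
      rw [mem_sphere_zero_iff_norm, nrm_val, norm_smul, Complex.norm_real, norm_inv, norm_norm,
        inv_mul_cancel₀ hv1]
  obtain ⟨C, hC0, hC⟩ := hom_bd hp (hgw w hw2) (hh w hw2)
  obtain ⟨C', hC0', hC'⟩ := hom_bd hp (hgw w0 hw0) (hh w0 hw0)
  have i1 : Integrable (fun y => g w (vec σ y)) (μ x) :=
    integrable_of_bd hp hσ (hfin x) (cont_of_hom hp (hgw w hw2) (hh w hw2)).measurable hC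
  have i2 : Integrable (fun y => g w0 (vec σ y)) (μ x) :=
    integrable_of_bd hp hσ (hfin x) (cont_of_hom hp (hgw w0 hw0) (hh w0 hw0)).measurable hC'
  have h3 : |∫ y, g w (vec σ y) ∂(μ x) - ∫ y, g w0 (vec σ y) ∂(μ x)| ≤ δ * B x := by
    rw [← integral_sub i1 i2]
    exact (abs_int_le hp hσ (hfin x) (g := fun v => g w v - g w0 v) hdiff).trans
      (mul_le_mul_of_nonneg_left (hmass x) hδ0.le)
  have h4 : δ * B x ≤ ε / 2 := by
    have : δ * B x ≤ δ * (B x0 + 1) := mul_le_mul_of_nonneg_left hx1.le hδ0.le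
    refine this.trans (le_of_eq ?_)
    rw [hδ]
    field_simp
  have h5 : dist (∫ y, g w (vec σ y) ∂(μ x)) (∫ y, g w0 (vec σ y) ∂(μ x0)) ≤
      |∫ y, g w (vec σ y) ∂(μ x) - ∫ y, g w0 (vec σ y) ∂(μ x)| +
        dist (∫ y, g w0 (vec σ y) ∂(μ x)) (∫ y, g w0 (vec σ y) ∂(μ x0)) := by
    rw [← Real.dist_eq]
    exact dist_triangle _ _ _
  show dist (∫ y, g w (vec σ y) ∂(μ x)) (∫ y, g w0 (vec σ y) ∂(μ x0)) < ε
  have hx2' : dist (∫ y, g w0 (vec σ y) ∂(μ x)) (∫ y, g w0 (vec σ y) ∂(μ x0)) < ε / 2 := hx2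
  linarith

/-- **HOMCONT with parameters, complex valued** -/
theorem homcont2C {W : Type*} [TopologicalSpace W] (hp : 0 < p) (hp2 : p < 2) (μ : X → Measure Y)
    [∀ x, SFinite (μ x)] (σ : Fin n → Y → ℂ) (hσ : ∀ i, Measurable (σ i))
    (hfin : ∀ x (v : Fin n → ℂ), ∫⁻ y, ENNReal.ofReal (‖∑ i, v i * σ i y‖ ^ p) ∂(μ x) ≠ ∞)
    (hc : ∀ v : Fin n → ℂ, Continuous fun x => ∫ y, ‖∑ i, v i * σ i y‖ ^ p ∂(μ x))
    (g : W → (Fin n → ℂ) → ℂ) {T : Set W} (hT : IsOpen T)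
    (hg : ContinuousOn (fun q : W × (Fin n → ℂ) => g q.1 q.2) {q | q.1 ∈ T ∧ q.2 ≠ 0})
    (hh : ∀ w ∈ T, ∀ (c : ℂ) v, g w (c • v) = (‖c‖ ^ p : ℝ) * g w v) :
    ContinuousOn (fun q : X × W => ∫ y, g q.2 (fun i => σ i y) ∂(μ q.1)) {q | q.2 ∈ T} := by
  have hre := homcont2 hp hp2 μ σ hσ hfin hc (fun w v => (g w v).re) hT
    (Complex.continuous_re.comp_continuousOn hg) (fun w hw c v => by
      rw [hh w hw, Complex.re_ofReal_mul])
  have him := homcont2 hp hp2 μ σ hσ hfin hc (fun w v => (g w v).im) hT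
    (Complex.continuous_im.comp_continuousOn hg) (fun w hw c v => by
      rw [hh w hw, Complex.im_ofReal_mul])
  have hopen : IsOpen {q : W × (Fin n → ℂ) | q.1 ∈ T ∧ q.2 ≠ 0} :=
    (hT.preimage continuous_fst).inter (isOpen_ne.preimage continuous_snd)
  have hgw : ∀ w ∈ T, ContinuousOn (g w) {v | v ≠ 0} := by
    intro w hw v hv
    have h1 := (hg (w, v) ⟨hw, hv⟩).continuousAt (hopen.mem_nhds ⟨hw, hv⟩)
    have h2 : ContinuousAt (fun v : Fin n → ℂ => (w, v)) v := by fun_prop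
    exact (ContinuousAt.comp (x := v) (f := fun v : Fin n → ℂ => (w, v)) h1 h2).continuousWithinAt
  have hint : ∀ x, ∀ w ∈ T, Integrable (fun y => g w (vec σ y)) (μ x) := by
    intro x w hw
    have hr : Integrable (fun y => (g w (vec σ y)).re) (μ x) := by
      obtain ⟨C, -, hC⟩ := hom_bd hp (g := fun v => (g w v).re)
        (Complex.continuous_re.comp_continuousOn (hgw w hw)) (fun c v => by
          rw [hh w hw, Complex.re_ofReal_mul])
      exact integrable_of_bd hp hσ (hfin x) (g := fun v => (g w v).re)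
        (cont_of_hom hp (Complex.continuous_re.comp_continuousOn (hgw w hw)) (fun c v => by
          rw [Function.comp_apply, hh w hw, Complex.re_ofReal_mul]; rfl)).measurable hC
    have hi : Integrable (fun y => (g w (vec σ y)).im) (μ x) := by
      obtain ⟨C, -, hC⟩ := hom_bd hp (g := fun v => (g w v).im)
        (Complex.continuous_im.comp_continuousOn (hgw w hw)) (fun c v => by
          rw [hh w hw, Complex.im_ofReal_mul])
      exact integrable_of_bd hp hσ (hfin x) (g := fun v => (g w v).im)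
        (cont_of_hom hp (Complex.continuous_im.comp_continuousOn (hgw w hw)) (fun c v => by
          rw [Function.comp_apply, hh w hw, Complex.im_ofReal_mul]; rfl)).measurable hC
    have := hr.ofReal (𝕜 := ℂ) |>.add ((hi.ofReal (𝕜 := ℂ)).const_mul Complex.I)
    refine this.congr (Eventually.of_forall fun y => ?_)
    simp only [Pi.add_apply]
    rw [mul_comm]
    exact Complex.re_add_im _
  have key : ∀ q ∈ {q : X × W | q.2 ∈ T}, ∫ y, g q.2 (fun i => σ i y) ∂(μ q.1) =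
      ((∫ y, (g q.2 (fun i => σ i y)).re ∂(μ q.1) : ℝ) : ℂ) +
        ((∫ y, (g q.2 (fun i => σ i y)).im ∂(μ q.1) : ℝ) : ℂ) * Complex.I := by
    rintro ⟨x, w⟩ hw
    have h1 := integral_re_add_im (hint x w hw)
    exact h1.symm
  refine ContinuousOn.congr ?_ key
  exact (Complex.continuous_ofReal.comp_continuousOn hre).add
    ((Complex.continuous_ofReal.comp_continuousOn him).mul continuousOn_const)

end main

end Crest.Agent.R276.HomC_201
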