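import Mathlib

/-!
# SKO-UNI (row 276), part E: determinants of fibre products (helper317)

`det_int` (**DET**): if `∫ m_j ‖∑ A_i u_i‖^{-q} dμ ≤ C_j ‖A‖^{-q}` for all `A ∈ ℂˢ`, then
`∫_{X^s} ∏ m_j(x_j) ‖det (u_i(x_j))‖^{-q} dμ^s ≤ ∏ C_j` (expansion along one column, induction on `s`).
-/

set_option autoImplicit false

noncomputable section

open MeasureTheory ENNReal

namespace Crest.Agent.R276.SkoE_317

theorem enorm_apply_le {s : ℕ} (A : Fin s → ℂ) (i : Fin s) : ‖A i‖ₑ ≤ ‖A‖ₑ := by
  rw [← ofReal_norm, ← ofReal_norm]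
  exact ENNReal.ofReal_le_ofReal (norm_le_pi_norm A i)

theorem rpow_neg_anti {a b : ℝ≥0∞} (h : a ≤ b) {q : ℝ} (hq : 0 ≤ q) : b ^ (-q) ≤ a ^ (-q) := by
  rw [ENNReal.rpow_neg, ENNReal.rpow_neg]
  exact ENNReal.inv_le_inv.mpr (ENNReal.rpow_le_rpow h hq)

/-- the matrix of values -/
def mat {X : Type*} {s : ℕ} (u : Fin s → X → ℂ) (x : Fin s → X) : Matrix (Fin s) (Fin s) ℂ :=
  Matrix.of fun i j => u i (x j)

theorem measurable_det {X : Type*} [MeasurableSpace X] {s : ℕ} (u : Fin s → X → ℂ)
    (hu : ∀ i, Measurable (u i)) : Measurable fun x : Fin s → X => (mat u x).det := by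
  simp only [Matrix.det_apply]
  refine Finset.measurable_sum _ fun σ _ => ?_
  refine Measurable.const_smul ?_ _
  refine Finset.measurable_prod _ fun i _ => ?_
  exact (hu _).comp (measurable_pi_apply _)

/-- **(DET)** -/
theorem det_int {X : Type*} [MeasurableSpace X] (μ : Measure X) [SigmaFinite μ] (q : ℝ)
    (hq : 0 ≤ q) : ∀ (s : ℕ) (u : Fin s → X → ℂ) (_ : ∀ i, Measurable (u i))
      (m : Fin s → X → ℝ≥0∞) (_ : ∀ j, Measurable (m j)) (C : Fin s → ℝ≥0∞)
      (_ : ∀ j, ∀ A : Fin s → ℂ, ∫⁻ x, m j x * ‖∑ i, A i * u i x‖ₑ ^ (-q) ∂μ ≤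
        C j * ‖A‖ₑ ^ (-q)),
      ∫⁻ x : Fin s → X, (∏ j, m j (x j)) * ‖(mat u x).det‖ₑ ^ (-q)
        ∂(Measure.pi fun _ => μ) ≤ ∏ j, C j := by
  intro s
  induction s with
  | zero =>
    intro u hu m hm C h
    simp [mat]
  | succ s ih =>
    intro u hu m hm C h
    have hmp := measurePreserving_piFinSuccAbove (fun _ : Fin (s + 1) => μ) 0
    have hins : ∀ z : X × (Fin s → X), (MeasurableEquiv.piFinSuccAbove
        (fun _ : Fin (s + 1) => X) 0).symm z = (Fin.cons z.1 z.2 : Fin (s + 1) → X) := by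
      intro z
      funext i
      refine Fin.cases ?_ (fun i => ?_) i
      · rfl
      · rfl
    set G : (Fin (s + 1) → X) → ℝ≥0∞ := fun x => (∏ j, m j (x j)) * ‖(mat u x).det‖ₑ ^ (-q)
      with hG
    have hGm : Measurable G :=
      (Finset.measurable_prod _ fun j _ => (hm j).comp (measurable_pi_apply _)).mul
        ((measurable_det u hu).enorm.pow_const _)
    have h1 : ∫⁻ x, G x ∂(Measure.pi fun _ => μ) =
        ∫⁻ z : X × (Fin s → X), G (Fin.cons z.1 z.2) ∂(μ.prod (Measure.pi fun _ => μ)) := by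
      have h2 := hmp.symm.lintegral_comp hGm
      rw [← h2]
      exact lintegral_congr fun z => congrArg G (hins z)
    have hcm : Measurable fun z : X × (Fin s → X) =>
        (Fin.cons z.1 z.2 : Fin (s + 1) → X) := by
      have h3 : (fun z : X × (Fin s → X) => (Fin.cons z.1 z.2 : Fin (s + 1) → X)) =
          fun z => (MeasurableEquiv.piFinSuccAbove (fun _ => X) 0).symm z := by
        funext z
        exact (hins z).symm
      rw [h3]
      exact (MeasurableEquiv.piFinSuccAbove (fun _ => X) 0).symm.measurable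
    have h13 := lintegral_prod_symm (μ := μ) (ν := Measure.pi fun _ : Fin s => μ)
      (fun z : X × (Fin s → X) => G (Fin.cons z.1 z.2)) (hGm.comp hcm).aemeasurable
    rw [h1, h13]
    -- the inner integral
    have h4 : ∀ x' : Fin s → X, ∫⁻ x0, G (Fin.cons x0 x') ∂μ ≤
        C 0 * ((∏ j : Fin s, m j.succ (x' j)) *
          ‖(mat (fun i : Fin s => u i.succ) x').det‖ₑ ^ (-q)) := by
      intro x'
      set A : Fin (s + 1) → ℂ := fun i =>
        (-1) ^ (i : ℕ) * (Matrix.of fun (k : Fin s) (l : Fin s) => u (i.succAbove k) (x' l)).det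
        with hA
      have h5 : ∀ x0, (mat u (Fin.cons x0 x' : Fin (s + 1) → X)).det = ∑ i, A i * u i x0 := by
        intro x0
        rw [Matrix.det_succ_column_zero]
        refine Finset.sum_congr rfl fun i _ => ?_
        rw [hA]
        have h6 : (mat u (Fin.cons x0 x' : Fin (s + 1) → X)).submatrix i.succAbove Fin.succ =
            Matrix.of fun (k : Fin s) (l : Fin s) => u (i.succAbove k) (x' l) := by
          ext k l
          simp [mat]
        rw [h6]
        simp only [mat, Matrix.of_apply, Fin.cons_zero]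
        ring
      have h7 : ∀ x0, G (Fin.cons x0 x') = (∏ j : Fin s, m j.succ (x' j)) *
          (m 0 x0 * ‖∑ i, A i * u i x0‖ₑ ^ (-q)) := by
        intro x0
        rw [hG]
        simp only [h5 x0, Fin.prod_univ_succ, Fin.cons_zero, Fin.cons_succ]
        ring
      simp only [h7]
      have hm7 : Measurable fun x0 => m 0 x0 * ‖∑ i, A i * u i x0‖ₑ ^ (-q) :=
        (hm 0).mul ((Finset.measurable_sum _ fun i _ =>
          (measurable_const.mul (hu i))).enorm.pow_const _)
      rw [lintegral_const_mul _ hm7]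
      have h8 : ‖A‖ₑ ^ (-q) ≤ ‖(mat (fun i : Fin s => u i.succ) x').det‖ₑ ^ (-q) := by
        refine rpow_neg_anti ?_ hq
        have h9 : A 0 = (mat (fun i : Fin s => u i.succ) x').det := by
          rw [hA]
          simp [mat]
        rw [← h9]
        exact enorm_apply_le A 0
      calc (∏ j : Fin s, m j.succ (x' j)) * ∫⁻ x0, m 0 x0 * ‖∑ i, A i * u i x0‖ₑ ^ (-q) ∂μ
          ≤ (∏ j : Fin s, m j.succ (x' j)) * (C 0 *
              ‖(mat (fun i : Fin s => u i.succ) x').det‖ₑ ^ (-q)) :=
            mul_le_mul' le_rfl ((h 0 A).trans (mul_le_mul' le_rfl h8))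
        _ = _ := by ring
    refine (lintegral_mono h4).trans ?_
    have hm8 : Measurable fun x' : Fin s → X => (∏ j : Fin s, m j.succ (x' j)) *
        ‖(mat (fun i : Fin s => u i.succ) x').det‖ₑ ^ (-q) :=
      (Finset.measurable_prod _ fun j _ => (hm _).comp (measurable_pi_apply _)).mul
        ((measurable_det _ fun i => hu _).enorm.pow_const _)
    rw [lintegral_const_mul _ hm8, Fin.prod_univ_succ]
    refine mul_le_mul' le_rfl (ih (fun i => u i.succ) (fun i => hu _) (fun j => m j.succ)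
      (fun j => hm _) (fun j => C j.succ) ?_)
    intro j A
    have h10 := h j.succ (Fin.cons 0 A)
    have h11 : ‖(Fin.cons 0 A : Fin (s + 1) → ℂ)‖ₑ = ‖A‖ₑ := by
      rw [← ofReal_norm, ← ofReal_norm]
      congr 1
      apply le_antisymm
      · rw [pi_norm_le_iff_of_nonneg (norm_nonneg _)]
        intro i
        refine Fin.cases ?_ (fun i => ?_) i
        · simp
        · rw [Fin.cons_succ]
          exact norm_le_pi_norm A i
      · rw [pi_norm_le_iff_of_nonneg (norm_nonneg _)]
        intro i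
        have := norm_le_pi_norm (Fin.cons 0 A : Fin (s + 1) → ℂ) i.succ
        rwa [Fin.cons_succ] at this
    rw [h11] at h10
    simpa only [Fin.sum_univ_succ, Fin.cons_zero, Fin.cons_succ, zero_mul, zero_add] using h10

end Crest.Agent.R276.SkoE_317
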