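import Mathlib
import Crest.Agent.R276.GroUpE_845
import Crest.Agent.R276.UHon_845

/-!
# SKO (row 276), part T (helper845): uniform frames and localised covers

* `cover_away` : `GroUpA_845.cover` for evaluations which extend to `B[1/q]`;
* `exists_frames` : a finite family of pluricanonical forms of arbitrary weights is bounded in one of the frames of
  `UHon` at every valuation ring; together with `cover_away` this covers the fibres.
-/

set_option autoImplicit false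

open Crest.Agent.R276.FKDefs_779 Crest.Agent.R276.UHon_845

noncomputable section

namespace Crest.Agent.R276.SkoT_845

section away

variable {k K : Type} [Field k] [Field K] [Algebra k K]

/-- quantitative cover for homomorphisms which do not kill `q` -/
theorem cover_away {ι κ : Type*} [Finite κ] (f : ι → κ → K)
    (H : ∀ V : ValuationSubring K, (∀ a : k, algebraMap k K a ∈ V) → ∃ i, ∀ j, f i j ∈ V) :
    ∃ (S : Finset ι) (A : Finset k) (C : ℝ) (n : ℕ), 1 ≤ C ∧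
      ∀ (B : Type) [CommRing B] (j : B →+* K) (φ : B →+* ℂ) (q : B) (R : ℝ),
        Function.Injective j → 0 ≤ R → φ q ≠ 0 →
        (∀ i ∈ S, ∀ l, ∃ b, ∃ e : ℕ, j b = f i l * j q ^ e) →
        (∀ i ∈ S, ∀ l, ∃ b, ∃ e : ℕ, j b = (f i l)⁻¹ * j q ^ e) →
        (∀ a ∈ A, ∃ b, ∃ e : ℕ, j b = algebraMap k K a * j q ^ e ∧ ‖φ b‖ ≤ R * ‖φ q‖ ^ e) →
        ∃ i ∈ S, ∀ l, ∀ b, ∀ e : ℕ, j b = f i l * j q ^ e →
          ‖φ b‖ ≤ C * (1 + R) ^ n * ‖φ q‖ ^ e := by
  obtain ⟨S, A, C, n, hC, hmain⟩ := GroUpA_845.cover f H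
  refine ⟨S, A, C, n, hC, fun B _ j φ q R hj hR hq h1 h2 h3 => ?_⟩
  have hq0 : q ≠ 0 := fun h => hq (by rw [h, map_zero])
  have hjq : j q ≠ 0 := fun h => hq0 (hj (by rw [h, map_zero]))
  let B' := Localization.Away q
  have hju : IsUnit (j q) := isUnit_iff_ne_zero.2 hjq
  have hφu : IsUnit (φ q) := isUnit_iff_ne_zero.2 hq
  let j' : B' →+* K := IsLocalization.Away.lift q hju
  let φ' : B' →+* ℂ := IsLocalization.Away.lift q hφu
  have hj' : ∀ b, j' (algebraMap B B' b) = j b := fun b => IsLocalization.Away.lift_eq q hju b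
  have hφ' : ∀ b, φ' (algebraMap B B' b) = φ b := fun b => IsLocalization.Away.lift_eq q hφu b
  have hsurj : ∀ x : B', ∃ b : B, ∃ e : ℕ, x * algebraMap B B' q ^ e = algebraMap B B' b := by
    intro x
    obtain ⟨e, b, h⟩ := IsLocalization.Away.surj q x
    exact ⟨b, e, h⟩
  have hjinj : Function.Injective j' := by
    rw [injective_iff_map_eq_zero]
    intro x hx
    obtain ⟨b, e, h⟩ := hsurj x
    have h4 : j b = 0 := by rw [← hj', ← h, map_mul, hx, zero_mul]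
    have h5 : b = 0 := hj (by rw [h4, map_zero])
    rw [h5, map_zero] at h
    have hu : IsUnit (algebraMap B B' q ^ e) := (IsLocalization.Away.algebraMap_isUnit q).pow e
    exact (hu.mul_left_eq_zero).1 h
  -- preimages
  have hpre : ∀ (c : K) (b : B) (e : ℕ), j b = c * j q ^ e → ∃ x : B', j' x = c ∧
      φ' x * φ q ^ e = φ b := by
    intro c b e hb
    obtain ⟨u, hu⟩ := (IsLocalization.Away.algebraMap_isUnit (S := B') q).pow e
    refine ⟨algebraMap B B' b * ↑u⁻¹, ?_, ?_⟩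
    · have h4 : j' ↑u * j' ↑u⁻¹ = 1 := by rw [← map_mul, Units.mul_inv, map_one]
      have h5 : j' ↑u = j q ^ e := by rw [hu, map_pow, hj']
      rw [map_mul, hj', hb, ← h5, mul_assoc, h4, mul_one]
    · have h4 : φ' ↑u⁻¹ * φ' ↑u = 1 := by rw [← map_mul, Units.inv_mul, map_one]
      have h5 : φ' ↑u = φ q ^ e := by rw [hu, map_pow, hφ']
      rw [map_mul, hφ', ← h5, mul_assoc, h4, mul_one]
  obtain ⟨i, hi, hl⟩ := hmain B' j' φ' R hjinj hR
    (fun i hi l => by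
      obtain ⟨b, e, hb⟩ := h1 i hi l
      obtain ⟨x, hx, -⟩ := hpre _ b e hb
      exact ⟨x, hx⟩)
    (fun i hi l => by
      obtain ⟨b, e, hb⟩ := h2 i hi l
      obtain ⟨x, hx, -⟩ := hpre _ b e hb
      exact ⟨x, hx⟩)
    (fun a ha => by
      obtain ⟨b, e, hb, hb'⟩ := h3 a ha
      obtain ⟨x, hx, hx'⟩ := hpre _ b e hb
      refine ⟨x, hx, ?_⟩
      have h6 : ‖φ' x‖ * ‖φ q‖ ^ e ≤ R * ‖φ q‖ ^ e := by
        rw [← norm_pow, ← norm_mul, hx', norm_pow]
        exact hb'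
      exact le_of_mul_le_mul_right h6 (pow_pos (norm_pos_iff.2 hq) e))
  refine ⟨i, hi, fun l b e hb => ?_⟩
  obtain ⟨x, hx, hx'⟩ := hpre _ b e hb
  have h7 := hl l x hx
  rw [← hx', norm_mul, norm_pow]
  exact mul_le_mul_of_nonneg_right h7 (by positivity)

end away

section frames

variable {L K : Type} [Field L] [Field K] [Algebra L K] {r : ℕ}

/-- the frames given by `UHon` -/
structure IsFrames (bas : Module.Basis (Fin r) K (Ω[K⁄L])) (Y : Finset (Fin r → K)) : Prop where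
  jac_ne : ∀ y ∈ Y, jac L bas y ≠ 0
  cov : ∀ R : ValuationSubring K, (∀ c : L, algebraMap L K c ∈ R) → ∃ y ∈ Y, (∀ i, y i ∈ R) ∧
    ∀ (m : ℕ) (g : K), Pluri L bas m g → R.valuation g ≤ R.valuation (jac L bas y) ^ m

theorem exists_frames (h : UHon L K) (bas : Module.Basis (Fin r) K (Ω[K⁄L])) :
    ∃ Y : Finset (Fin r → K), IsFrames bas Y := by
  classical
  obtain ⟨Y, hY, hcov⟩ := h r bas
  refine ⟨hY.toFinset.filter fun y => jac L bas y ≠ 0, ⟨fun y hy => (Finset.mem_filter.1 hy).2,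
    fun R hR => ?_⟩⟩
  obtain ⟨y, hy, h1, h2, h3⟩ := hcov R hR
  exact ⟨y, Finset.mem_filter.2 ⟨hY.mem_toFinset.2 hy, h2⟩, h1, h3⟩

variable {bas : Module.Basis (Fin r) K (Ω[K⁄L])} {Y : Finset (Fin r → K)}

/-- the tuple attached to a frame and a finite family of forms -/
def tup (bas : Module.Basis (Fin r) K (Ω[K⁄L])) {γ : Type} (wt : γ → ℕ) (g : γ → K)
    (y : Fin r → K) : Fin r ⊕ γ → K :=
  Sum.elim y fun c => g c / jac L bas y ^ wt c

theorem IsFrames.tup_mem (hY : IsFrames bas Y) {γ : Type} {wt : γ → ℕ} {g : γ → K}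
    (hg : ∀ c, Pluri L bas (wt c) (g c)) (V : ValuationSubring K)
    (hV : ∀ a : L, algebraMap L K a ∈ V) : ∃ y : Y, ∀ l, tup bas wt g y l ∈ V := by
  obtain ⟨y, hy, h1, h2⟩ := hY.cov V hV
  refine ⟨⟨y, hy⟩, ?_⟩
  rintro (l | c)
  · exact h1 l
  · have h3 := h2 _ _ (hg c)
    change g c / jac L bas y ^ wt c ∈ V
    have h0 : V.valuation (jac L bas y ^ wt c) ≠ 0 := by
      rw [Ne, map_eq_zero]; exact pow_ne_zero _ (hY.jac_ne y hy)
    rw [← V.valuation_le_one_iff, map_div₀, div_le_one₀ (zero_lt_iff.2 h0), map_pow]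
    exact h3

/-- the fibres are covered by the pieces where a frame `y` and the forms in this frame are bounded -/
theorem IsFrames.cover (hY : IsFrames bas Y) {γ : Type} [Finite γ] {wt : γ → ℕ} {g : γ → K}
    (hg : ∀ c, Pluri L bas (wt c) (g c)) :
    ∃ (A : Finset L) (C : ℝ) (n : ℕ), 1 ≤ C ∧
      ∀ (B : Type) [CommRing B] (j : B →+* K) (φ : B →+* ℂ) (q : B) (R : ℝ),
        Function.Injective j → 0 ≤ R → φ q ≠ 0 →
        (∀ y ∈ Y, ∀ l, ∃ b, ∃ e : ℕ, j b = tup bas wt g y l * j q ^ e) →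
        (∀ y ∈ Y, ∀ l, ∃ b, ∃ e : ℕ, j b = (tup bas wt g y l)⁻¹ * j q ^ e) →
        (∀ a ∈ A, ∃ b, ∃ e : ℕ, j b = algebraMap L K a * j q ^ e ∧ ‖φ b‖ ≤ R * ‖φ q‖ ^ e) →
        ∃ y ∈ Y, ∀ l, ∀ b, ∀ e : ℕ, j b = tup bas wt g y l * j q ^ e →
          ‖φ b‖ ≤ C * (1 + R) ^ n * ‖φ q‖ ^ e := by
  obtain ⟨S, A, C, n, hC, h⟩ := cover_away (k := L) (fun (y : Y) l => tup bas wt g y l)
    (hY.tup_mem hg)
  refine ⟨A, C, n, hC, fun B _ j φ q R hj hR hq h1 h2 h3 => ?_⟩
  obtain ⟨y, _, hy⟩ := h B j φ q R hj hR hq (fun y _ l => h1 y y.2 l) (fun y _ l => h2 y y.2 l) h3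
  exact ⟨y, y.2, hy⟩

end frames

end Crest.Agent.R276.SkoT_845
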