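import Mathlib
import Crest.Agent.R276.SkoT_845

/-!
# SKO (row 276), part F (helper845): from the pieces to the fibre

* `frame_enorm` : `‖J‖^(2+pN) ‖J^N S‖^(-p) = ‖J‖² ‖S‖^(-p)`;
* `sum_pieces` : the sum over the frames.
-/

set_option autoImplicit false

open MeasureTheory Crest.Agent.R276.FKDefs_779
open scoped ENNReal

noncomputable section

namespace Crest.Agent.R276.SkoF_845

theorem frame_enorm {J S : ℂ} (hJ : J ≠ 0) (p : ℝ) (N : ℕ) :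
    ‖J‖ₑ ^ (2 + p * N) * ‖J ^ N * S‖ₑ ^ (-p) = ‖J‖ₑ ^ (2 : ℕ) * ‖S‖ₑ ^ (-p) := by
  have h0 : ‖J‖ₑ ≠ 0 := by simpa using hJ
  have h1 : ‖J‖ₑ ≠ ⊤ := by simp
  rw [enorm_mul, enorm_pow, ENNReal.mul_rpow_of_ne_top (ENNReal.pow_ne_top h1) (by simp),
    ← mul_assoc, ← ENNReal.rpow_natCast, ← ENNReal.rpow_mul, ← ENNReal.rpow_add _ _ h0 h1,
    ← ENNReal.rpow_natCast]
  congr 2
  push_cast
  ring

/-- The sum over the frames.  `E y` is the piece of the frame `y`, `J y` the Jacobian, `W y i` the section `u_i` in this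
frame. -/
theorem sum_pieces {M : Type} [MeasurableSpace M] {μ : Measure M} {ι : Type} (Y : Finset ι)
    {s N : ℕ} {p : ℝ} (E : ι → Set M) (hE : ∀ y ∈ Y, MeasurableSet (E y)) (J : ι → M → ℂ)
    (hJ : ∀ y ∈ Y, ∀ x, J y x ≠ 0) (hJm : ∀ y ∈ Y, Measurable (J y)) (u : Fin s → M → ℂ) (W : ι → Fin s → M → ℂ)
    (hWm : ∀ y ∈ Y, ∀ i, Measurable (W y i))
    (hW : ∀ y ∈ Y, ∀ i x, u i x = J y x ^ N * W y i x)
    {Cy : ι → ℝ≥0∞} {A : Fin s → ℂ} {a : ℝ≥0∞}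
    (hCy : ∀ y ∈ Y, ∫⁻ x in E y, ‖J y x‖ₑ ^ (2 : ℕ) * ‖∑ i, A i * W y i x‖ₑ ^ (-p) ∂μ ≤ Cy y * a)
    {m : M → ℝ≥0∞} {c : ℝ≥0∞} (hc : c ≠ ⊤)
    (hm : ∀ x, m x ≠ 0 → ∃ y ∈ Y, x ∈ E y ∧ m x ≤ c * ‖J y x‖ₑ ^ (2 + p * N)) :
    ∫⁻ x, m x * ‖∑ i, A i * u i x‖ₑ ^ (-p) ∂μ ≤ c * (∑ y ∈ Y, Cy y) * a := by
  have h1 : ∀ x, m x * ‖∑ i, A i * u i x‖ₑ ^ (-p) ≤
      ∑ y ∈ Y, c * (E y).indicator (fun x => ‖J y x‖ₑ ^ (2 : ℕ) *
        ‖∑ i, A i * W y i x‖ₑ ^ (-p)) x := by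
    intro x
    by_cases hx : m x = 0
    · rw [hx, zero_mul]; exact zero_le
    · obtain ⟨y, hy, hxE, hle⟩ := hm x hx
      refine le_trans ?_ (Finset.single_le_sum (fun _ _ => zero_le) hy)
      rw [Set.indicator_of_mem hxE]
      have h2 : ∑ i, A i * u i x = J y x ^ N * ∑ i, A i * W y i x := by
        rw [Finset.mul_sum]
        refine Finset.sum_congr rfl fun i _ => ?_
        rw [hW y hy i x]; ring
      rw [h2, ← frame_enorm (hJ y hy x) p N, ← mul_assoc]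
      exact mul_le_mul_left hle _
  calc ∫⁻ x, m x * ‖∑ i, A i * u i x‖ₑ ^ (-p) ∂μ
      ≤ ∫⁻ x, ∑ y ∈ Y, c * (E y).indicator (fun x => ‖J y x‖ₑ ^ (2 : ℕ) *
        ‖∑ i, A i * W y i x‖ₑ ^ (-p)) x ∂μ := lintegral_mono h1
    _ ≤ ∑ y ∈ Y, ∫⁻ x, c * (E y).indicator (fun x => ‖J y x‖ₑ ^ (2 : ℕ) *
        ‖∑ i, A i * W y i x‖ₑ ^ (-p)) x ∂μ := by
        refine le_of_eq (lintegral_finsetSum' _ fun y hy => ?_)
        refine Measurable.aemeasurable (Measurable.const_mul (Measurable.indicator ?_ (hE y hy)) c)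
        exact ((hJm y hy).enorm.pow_const 2).mul ((Finset.measurable_sum _ fun i _ =>
          (hWm y hy i).const_mul (A i)).enorm.pow_const (-p))
    _ ≤ ∑ y ∈ Y, c * (Cy y * a) := by
        refine Finset.sum_le_sum fun y hy => ?_
        rw [lintegral_const_mul' _ _ hc, lintegral_indicator (hE y hy)]
        exact mul_le_mul_right (hCy y hy) _
    _ = c * (∑ y ∈ Y, Cy y) * a := by
        rw [mul_assoc, Finset.sum_mul, Finset.mul_sum]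

end Crest.Agent.R276.SkoF_845
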