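import Mathlib
import Crest.Agent.R276.SkoF_845
import Crest.Agent.R276.Mod7_987

/-!
# SKO (row 276), part M (helper845): uniform estimates on the fibres of relative models

`ek M x y` : value at the point `y` of the model `M` of the element `x` of the field.
`PE` : the estimate on one piece.  `est_u`, `est_v` : the estimates on the fibres.
-/

set_option autoImplicit false

open Topology Filter MeasureTheory
open scoped ENNReal

noncomputable section

namespace Crest.Agent.R276.SkoM_845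

open Crest.Agent.R271.Defs710 Crest.Agent.R271.Ho51 Crest.Agent.R271.Rd692
open Crest.Agent.R276.Mod1_987 Crest.Agent.R276.FKDefs_779 Crest.Agent.R276.SkoT_845

/-! ### values of elements of the field -/

section ek

variable {K : Type} [Field K] [Algebra ℂ K] {n : ℕ} (M : Mdl K n)

open Classical in
/-- the value of `x : K` at the point `y` (`0` if `x` is not in the coordinate ring) -/
def ek (x : K) (y : M.Pts) : ℂ := if h : x ∈ M.B then y ⟨x, h⟩ else 0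

lemma ek_of_mem {x : K} (h : x ∈ M.B) (y : M.Pts) : ek M x y = y ⟨x, h⟩ := dif_pos h

@[simp] lemma ek_coe (b : M.B) (y : M.Pts) : ek M (b : K) y = y b := ek_of_mem M b.2 y

lemma ek_mul {x x' : K} (h : x ∈ M.B) (h' : x' ∈ M.B) (y : M.Pts) :
    ek M (x * x') y = ek M x y * ek M x' y := by
  rw [ek_of_mem M h, ek_of_mem M h', ek_of_mem M (mul_mem h h'), ← map_mul]
  rfl

lemma ek_pow {x : K} (h : x ∈ M.B) (k : ℕ) (y : M.Pts) : ek M (x ^ k) y = ek M x y ^ k := by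
  rw [ek_of_mem M h, ek_of_mem M (pow_mem h k), ← map_pow]
  rfl

lemma ek_ne_zero {x : K} (hx : x ≠ 0) (h : x ∈ M.B) (h' : x⁻¹ ∈ M.B) (y : M.Pts) :
    ek M x y ≠ 0 := by
  intro h0
  have h1 := ek_mul M h h' y
  rw [h0, zero_mul, mul_inv_cancel₀ hx, ek_of_mem M (one_mem _)] at h1
  have h2 : y (1 : M.B) = 0 := h1
  rw [map_one] at h2
  exact one_ne_zero h2

lemma continuous_ek (x : K) : Continuous fun y : M.Pts => ek M x y := by
  by_cases h : x ∈ M.B
  · have : (fun y : M.Pts => ek M x y) = fun y => y ⟨x, h⟩ := by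
      funext y; exact ek_of_mem M h y
    rw [this]
    exact continuous_ev _
  · have : (fun y : M.Pts => ek M x y) = fun _ => 0 := by
      funext y; exact dif_neg h
    rw [this]
    exact continuous_const

end ek

variable {L K : Type} [Field L] [Field K] [Algebra ℂ L] [Algebra ℂ K] [Algebra L K]
  [IsScalarTower ℂ L K] {m r : ℕ}

/-- the form `u` in the frame `y` -/
def fr (bas : Module.Basis (Fin r) K (Ω[K⁄L])) (y : Fin r → K) (N : ℕ) (u : K) : K :=
  u / jac L bas y ^ N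

/-- the fibre coordinates of the model are those of the basis -/
def Compat (bas : Module.Basis (Fin r) K (Ω[K⁄L])) (R : RMdl L K m r) : Prop :=
  ∀ j, bas j = KaehlerDifferential.D L K (R.MK.zK (Fin.natAdd m j))

/-- the finite sets consist of units of the two coordinate rings -/
def Units' (R : RMdl L K m r) (AA : Finset L) (BB : Finset K) : Prop :=
  (∀ a ∈ AA, a ∈ R.ML.B ∧ a⁻¹ ∈ R.ML.B) ∧ ∀ b ∈ BB, b ∈ R.MK.B ∧ b⁻¹ ∈ R.MK.B

/-- the piece of the fibre over `w` where the frame `y` and the sections `u_i` in this frame are bounded by `T` -/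
def piece (bas : Module.Basis (Fin r) K (Ω[K⁄L])) (N : ℕ) {s : ℕ} (u : Fin s → K) (y : Fin r → K)
    (R : RMdl L K m r) (w : R.ML.Pts) (T : ℝ) : Set (R.Fib w) :=
  {x | (∀ l, ‖ek R.MK (y l) x.val‖ ≤ T) ∧ ∀ i, ‖ek R.MK (fr bas y N (u i)) x.val‖ ≤ T}

/-- THE ESTIMATE ON ONE PIECE -/
def PE (bas : Module.Basis (Fin r) K (Ω[K⁄L])) (N : ℕ) {s : ℕ} (u : Fin s → K) (y : Fin r → K)
    (AA : Finset L) (BB : Finset K) (p : ℝ) : Prop :=
  ∃ (C : ℝ) (n : ℕ), 1 ≤ C ∧ ∀ (m : ℕ) (R : RMdl L K m r), Compat bas R → Units' R AA BB →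
    ∀ (w : R.ML.Pts) (μ : Measure (R.Fib w)), IsLeb μ → ∀ ρ : ℝ, 1 ≤ ρ →
      (∀ a ∈ AA, ‖ek R.ML a w‖ ≤ ρ) → ∀ T : ℝ, 1 ≤ T → ∀ A : Fin s → ℂ,
        ∫⁻ x in piece bas N u y R w T, ‖ek R.MK (jac L bas y) x.val‖ₑ ^ (2 : ℕ) *
          ‖∑ i, A i * ek R.MK (fr bas y N (u i)) x.val‖ₑ ^ (-p) ∂μ ≤
          ENNReal.ofReal (C * (ρ * T) ^ n) * ‖A‖ₑ ^ (-p)

lemma continuous_ekF (R : RMdl L K m r) (w : R.ML.Pts) (x : K) :
    Continuous fun y : R.Fib w => ek R.MK x y.val :=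
  (continuous_ek R.MK x).comp (RMdl.Fib.continuous_val w)

lemma measurable_ekF (R : RMdl L K m r) (w : R.ML.Pts) (x : K) :
    Measurable fun y : R.Fib w => ek R.MK x y.val :=
  (continuous_ekF R w x).measurable

lemma measurableSet_piece (bas : Module.Basis (Fin r) K (Ω[K⁄L])) (N : ℕ) {s : ℕ} (u : Fin s → K)
    (y : Fin r → K) (R : RMdl L K m r) (w : R.ML.Pts) (T : ℝ) :
    MeasurableSet (piece bas N u y R w T) := by
  apply IsClosed.measurableSet
  have : piece bas N u y R w T = (⋂ l, {x | ‖ek R.MK (y l) x.val‖ ≤ T}) ∩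
      ⋂ i, {x | ‖ek R.MK (fr bas y N (u i)) x.val‖ ≤ T} := by
    ext x; simp [piece]
  rw [this]
  exact (isClosed_iInter fun l => isClosed_le (continuous_ekF R w _).norm continuous_const).inter
    (isClosed_iInter fun i => isClosed_le (continuous_ekF R w _).norm continuous_const)

/-- **Sum over the frames on the fibres of a relative model.** -/
theorem fib_sum (bas : Module.Basis (Fin r) K (Ω[K⁄L])) {Y : Finset (Fin r → K)}
    (hY : ∀ y ∈ Y, jac L bas y ≠ 0) (N : ℕ) {s : ℕ} (u : Fin s → K) {AA : Finset L} {BB : Finset K}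
    (hBB : ∀ y ∈ Y, jac L bas y ∈ BB) (hBu : ∀ y ∈ Y, ∀ i, fr bas y N (u i) ∈ BB) {p : ℝ}
    (hPE : ∀ y ∈ Y, PE bas N u y AA BB p) :
    ∃ (C : ℝ) (n : ℕ), 1 ≤ C ∧ ∀ (m : ℕ) (R : RMdl L K m r), Compat bas R → Units' R AA BB →
      ∀ (w : R.ML.Pts) (μ : Measure (R.Fib w)), IsLeb μ → ∀ ρ : ℝ, 1 ≤ ρ →
        (∀ a ∈ AA, ‖ek R.ML a w‖ ≤ ρ) → ∀ T : ℝ, 1 ≤ T → ∀ (g : R.Fib w → ℝ≥0∞) (c : ℝ≥0∞),
        c ≠ ⊤ → (∀ x, g x ≠ 0 → ∃ y ∈ Y, x ∈ piece bas N u y R w T ∧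
          g x ≤ c * ‖ek R.MK (jac L bas y) x.val‖ₑ ^ (2 + p * N)) → ∀ A : Fin s → ℂ,
          ∫⁻ x, g x * ‖∑ i, A i * ek R.MK (u i) x.val‖ₑ ^ (-p) ∂μ ≤
            c * ENNReal.ofReal (C * (ρ * T) ^ n) * ‖A‖ₑ ^ (-p) := by
  classical
  choose! C n hC hPE using hPE
  refine ⟨1 + ∑ y ∈ Y, C y, ∑ y ∈ Y, n y, ?_, ?_⟩
  · have : 0 ≤ ∑ y ∈ Y, C y := Finset.sum_nonneg fun y hy => zero_le_one.trans (hC y hy)
    linarith
  intro m R hR hU w μ hμ ρ hρ hρa T hT g c hc hg A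
  have hJm : ∀ y ∈ Y, jac L bas y ∈ R.MK.B := fun y hy => (hU.2 _ (hBB y hy)).1
  have h1 := SkoF_845.sum_pieces (μ := μ) Y (s := s) (N := N) (p := p)
    (fun y => piece bas N u y R w T) (fun y _ => measurableSet_piece bas N u y R w T)
    (fun y x => ek R.MK (jac L bas y) x.val)
    (fun y hy x => ek_ne_zero R.MK (hY y hy) (hJm y hy) (hU.2 _ (hBB y hy)).2 _)
    (fun y _ => measurable_ekF R w _)
    (fun i x => ek R.MK (u i) x.val) (fun y i x => ek R.MK (fr bas y N (u i)) x.val)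
    (fun y _ i => measurable_ekF R w _)
    (fun y hy i x => by
      have h2 : u i = jac L bas y ^ N * fr bas y N (u i) := by
        rw [fr, mul_div_cancel₀ _ (pow_ne_zero N (hY y hy))]
      conv_lhs => rw [h2]
      rw [ek_mul R.MK (pow_mem (hJm y hy) N) (hU.2 _ (hBu y hy i)).1, ek_pow R.MK (hJm y hy)])
    (Cy := fun y => ENNReal.ofReal (C y * (ρ * T) ^ n y)) (A := A) (a := ‖A‖ₑ ^ (-p))
    (fun y hy => hPE y hy m R hR hU w μ hμ ρ hρ hρa T hT A) (m := g) hc hg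
  refine h1.trans ?_
  gcongr
  have h3 : ∀ y ∈ Y, 0 ≤ C y * (ρ * T) ^ n y := fun y hy => by
    have := hC y hy
    positivity
  rw [← ENNReal.ofReal_sum_of_nonneg h3]
  apply ENNReal.ofReal_le_ofReal
  have hρT : 1 ≤ ρ * T := by nlinarith
  calc ∑ y ∈ Y, C y * (ρ * T) ^ n y ≤ ∑ y ∈ Y, C y * (ρ * T) ^ (∑ y ∈ Y, n y) := by
        refine Finset.sum_le_sum fun y hy => ?_
        refine mul_le_mul_of_nonneg_left ?_ (zero_le_one.trans (hC y hy))
        exact pow_le_pow_right₀ hρT (Finset.single_le_sum (fun _ _ => Nat.zero_le _) hy)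
    _ = (∑ y ∈ Y, C y) * (ρ * T) ^ (∑ y ∈ Y, n y) := by rw [Finset.sum_mul]
    _ ≤ (1 + ∑ y ∈ Y, C y) * (ρ * T) ^ (∑ y ∈ Y, n y) := by
        gcongr
        linarith

end Crest.Agent.R276.SkoM_845
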