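import Mathlib
import Crest.Agent.R276.SkoM_845

/-!
# SKO (row 276), part N (helper845): the estimates on the fibres

* `est_u` : `∫_{M_w} (∑ |u_i|)^((2+pN)/N) |∑ A_i u_i|^(-p) ≤ C ρ(w)^n ‖A‖^(-p)`;
* `est_v` : `∫_{M_w} |v|^t |∑ A_i u_i|^(-p) ≤ C (ρ(w) (1 + 1/|P(w)|))^n ‖A‖^(-p)` for `v` of weight `N1`, `N1 t = 2 + pN`.
-/

set_option autoImplicit false
set_option linter.unusedSectionVars false

open Topology Filter MeasureTheory
open scoped ENNReal

noncomputable section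

namespace Crest.Agent.R276.SkoN_845

open Crest.Agent.R271.Defs710 Crest.Agent.R271.Ho51
open Crest.Agent.R276.Mod1_987 Crest.Agent.R276.FKDefs_779 Crest.Agent.R276.SkoT_845
open Crest.Agent.R276.SkoM_845

variable {L K : Type} [Field L] [Field K] [Algebra ℂ L] [Algebra ℂ K] [Algebra L K]
  [IsScalarTower ℂ L K] {r m₀ : ℕ}

/-- the elements which must be units for the frames `Y` and the sections `u` -/
structure Has (bas : Module.Basis (Fin r) K (Ω[K⁄L])) (Y : Finset (Fin r → K)) (N : ℕ) {s : ℕ}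
    (u : Fin s → K) (BB : Finset K) : Prop where
  y_mem : ∀ y ∈ Y, ∀ l, y l ∈ BB
  jac_mem : ∀ y ∈ Y, jac L bas y ∈ BB
  fr_mem : ∀ y ∈ Y, ∀ i, fr bas y N (u i) ∈ BB

open Classical in
/-- the smallest such set -/
def bb (bas : Module.Basis (Fin r) K (Ω[K⁄L])) (Y : Finset (Fin r → K)) (N : ℕ) {s : ℕ}
    (u : Fin s → K) : Finset K :=
  (Y.biUnion fun y => Finset.univ.image y) ∪ (Y.image fun y => jac L bas y) ∪
    Y.biUnion fun y => Finset.univ.image fun i => fr bas y N (u i)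

lemma has_bb {bas : Module.Basis (Fin r) K (Ω[K⁄L])} {Y : Finset (Fin r → K)} {N : ℕ} {s : ℕ}
    {u : Fin s → K} {BB : Finset K} (h : bb bas Y N u ⊆ BB) : Has bas Y N u BB := by
  classical
  refine ⟨fun y hy l => h ?_, fun y hy => h ?_, fun y hy i => h ?_⟩
  · simp only [bb, Finset.mem_union, Finset.mem_biUnion, Finset.mem_image]
    exact Or.inl (Or.inl ⟨y, hy, l, Finset.mem_univ _, rfl⟩)
  · simp only [bb, Finset.mem_union, Finset.mem_biUnion, Finset.mem_image]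
    exact Or.inl (Or.inr ⟨y, hy, rfl⟩)
  · simp only [bb, Finset.mem_union, Finset.mem_biUnion, Finset.mem_image]
    exact Or.inr ⟨y, hy, i, Finset.mem_univ _, rfl⟩

/-- cover of the fibres, adapted to the sections `u` -/
theorem cover_u {bas : Module.Basis (Fin r) K (Ω[K⁄L])} {Y : Finset (Fin r → K)}
    (hY : IsFrames bas Y) (N : ℕ) {s : ℕ} {u : Fin s → K} (hu : ∀ i, Pluri L bas N (u i)) :
    ∃ (A0 : Finset L) (C : ℝ) (n : ℕ), 1 ≤ C ∧ ∀ (m : ℕ) (R : RMdl L K m r) (AA : Finset L)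
      (BB : Finset K), A0 ⊆ AA → Has bas Y N u BB → Units' R AA BB → ∀ (w : R.ML.Pts) (ρ : ℝ),
        1 ≤ ρ → (∀ a ∈ AA, ‖ek R.ML a w‖ ≤ ρ) → ∀ x : R.Fib w, ∃ y ∈ Y,
          x ∈ piece bas N u y R w (C * ρ ^ n) := by
  obtain ⟨A0, C, n, hC, h⟩ := hY.cover (γ := Fin s) (wt := fun _ => N) (g := u) hu
  refine ⟨A0, C * 2 ^ n, n, ?_, fun m R AA BB hA0 hB hU w ρ hρ hρa x => ?_⟩
  · exact le_trans hC (le_mul_of_one_le_right (zero_le_one.trans hC) (one_le_pow₀ (by norm_num)))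
  obtain ⟨y, hy, hl⟩ := h R.MK.B R.MK.B.val.toRingHom x.val.toRingHom 1 ρ
    (fun a b hab => Subtype.ext hab) (zero_le_one.trans hρ) (by simp)
    (fun y hy l => by
      refine ⟨?_, 0, ?_⟩
      · rcases l with l | i
        · exact ⟨y l, (hU.2 _ (hB.y_mem y hy l)).1⟩
        · exact ⟨fr bas y N (u i), (hU.2 _ (hB.fr_mem y hy i)).1⟩
      · rcases l with l | i <;> simp [tup, fr])
    (fun y hy l => by
      refine ⟨?_, 0, ?_⟩
      · rcases l with l | i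
        · exact ⟨(y l)⁻¹, (hU.2 _ (hB.y_mem y hy l)).2⟩
        · exact ⟨(fr bas y N (u i))⁻¹, (hU.2 _ (hB.fr_mem y hy i)).2⟩
      · rcases l with l | i <;> simp [tup, fr])
    (fun a ha => by
      have ha' := hU.1 a (hA0 ha)
      refine ⟨R.incl ⟨a, ha'.1⟩, 0, by simp, ?_⟩
      have h1 := hρa a (hA0 ha)
      rw [ek_of_mem R.ML ha'.1] at h1
      have h2 : (x.val) (R.incl ⟨a, ha'.1⟩) = w ⟨a, ha'.1⟩ := by
        rw [← R.q_apply, x.q_eq]
      simpa [h2] using h1)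
  have hT : C * (1 + ρ) ^ n ≤ C * 2 ^ n * ρ ^ n := by
    rw [mul_assoc, ← mul_pow]
    have : (1 + ρ) ^ n ≤ (2 * ρ) ^ n := pow_le_pow_left₀ (by linarith) (by linarith) n
    exact mul_le_mul_of_nonneg_left this (zero_le_one.trans hC)
  refine ⟨y, hy, fun l => ?_, fun i => ?_⟩
  · have hm := (hU.2 _ (hB.y_mem y hy l)).1
    have h3 := hl (Sum.inl l) ⟨y l, hm⟩ 0 (by simp [tup])
    rw [ek_of_mem R.MK hm]
    simp only [pow_zero, mul_one] at h3
    exact h3.trans hT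
  · have hm := (hU.2 _ (hB.fr_mem y hy i)).1
    have h3 := hl (Sum.inr i) ⟨fr bas y N (u i), hm⟩ 0 (by simp [tup, fr])
    rw [ek_of_mem R.MK hm]
    simp only [pow_zero, mul_one] at h3
    exact h3.trans hT

/-- **(K1) for the sections `u`** -/
theorem est_u {bas : Module.Basis (Fin r) K (Ω[K⁄L])} {Y : Finset (Fin r → K)}
    (hY : IsFrames bas Y) {N : ℕ} (hN : 0 < N) {s : ℕ} {u : Fin s → K}
    (hu : ∀ i, Pluri L bas N (u i)) :
    ∃ A0 : Finset L, ∀ (AA : Finset L) (BB : Finset K), A0 ⊆ AA → Has bas Y N u BB →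
      ∀ p : ℝ, 0 ≤ p → (∀ y ∈ Y, PE bas N u y AA BB p) →
      ∃ (C : ℝ) (n : ℕ), 1 ≤ C ∧ ∀ (m : ℕ) (R : RMdl L K m r), Compat bas R → Units' R AA BB →
        ∀ (w : R.ML.Pts) (μ : Measure (R.Fib w)), IsLeb μ → ∀ ρ : ℝ, 1 ≤ ρ →
          (∀ a ∈ AA, ‖ek R.ML a w‖ ≤ ρ) → ∀ A : Fin s → ℂ,
            ∫⁻ x, (∑ i, ‖ek R.MK (u i) x.val‖ₑ) ^ ((2 + p * N) / N) *
              ‖∑ i, A i * ek R.MK (u i) x.val‖ₑ ^ (-p) ∂μ ≤
              ENNReal.ofReal (C * ρ ^ n) * ‖A‖ₑ ^ (-p) := by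
  obtain ⟨A0, C0, n0, hC0, hcov⟩ := cover_u hY N hu
  refine ⟨A0, fun AA BB hA0 hB p hp hPE => ?_⟩
  obtain ⟨C1, n1, hC1, hsum⟩ := fib_sum bas hY.jac_ne N u hB.jac_mem hB.fr_mem hPE
  set q : ℝ := (2 + p * N) / N with hq
  have hN0 : (0 : ℝ) < N := by exact_mod_cast hN
  have hq0 : 0 < q := by positivity
  -- the constants
  set q' : ℕ := ⌈q⌉₊ with hq'
  refine ⟨(1 + s * C0) ^ q' * (C1 * C0 ^ n1), n0 * q' + (n1 + n0 * n1), ?_, ?_⟩
  · have h1 : (1 : ℝ) ≤ (1 + s * C0) ^ q' := one_le_pow₀ (by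
      have : 0 ≤ (s : ℝ) * C0 := by positivity
      linarith)
    have h2 : (1 : ℝ) ≤ C1 * C0 ^ n1 := by
      have := one_le_pow₀ hC0 (n := n1)
      nlinarith
    nlinarith
  intro m R hR hU w μ hμ ρ hρ hρa A
  set T : ℝ := C0 * ρ ^ n0 with hT
  have hρn : (1 : ℝ) ≤ ρ ^ n0 := one_le_pow₀ hρ
  have hT1 : 1 ≤ T := by nlinarith
  have hsT : 0 ≤ (s : ℝ) * T := by positivity
  have h1 := hsum m R hR hU w μ hμ ρ hρ hρa T hT1
    (fun x => (∑ i, ‖ek R.MK (u i) x.val‖ₑ) ^ q) (ENNReal.ofReal (s * T) ^ q)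
    (ENNReal.rpow_ne_top_of_nonneg hq0.le ENNReal.ofReal_ne_top)
    (fun x _ => by
      obtain ⟨y, hy, hxy⟩ := hcov m R AA BB hA0 hB hU w ρ hρ hρa x
      refine ⟨y, hy, hxy, ?_⟩
      have hJm := (hU.2 _ (hB.jac_mem y hy)).1
      set J := ek R.MK (jac L bas y) x.val with hJ
      have h2 : ∀ i, ‖ek R.MK (u i) x.val‖ₑ ≤ ENNReal.ofReal T * ‖J‖ₑ ^ N := by
        intro i
        have h3 : u i = jac L bas y ^ N * fr bas y N (u i) := by
          rw [fr, mul_div_cancel₀ _ (pow_ne_zero N (hY.jac_ne y hy))]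
        rw [h3, ek_mul R.MK (pow_mem hJm N) (hU.2 _ (hB.fr_mem y hy i)).1, ek_pow R.MK hJm,
          enorm_mul, enorm_pow, mul_comm]
        gcongr
        rw [← ofReal_norm]
        exact ENNReal.ofReal_le_ofReal (hxy.2 i)
      calc (∑ i, ‖ek R.MK (u i) x.val‖ₑ) ^ q
          ≤ (ENNReal.ofReal (s * T) * ‖J‖ₑ ^ N) ^ q := by
            refine ENNReal.rpow_le_rpow ?_ hq0.le
            refine (Finset.sum_le_sum fun i _ => h2 i).trans ?_
            rw [Finset.sum_const, Finset.card_univ, Fintype.card_fin, nsmul_eq_mul, ← mul_assoc,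
              ENNReal.ofReal_mul (p := (s : ℝ)) (q := T) (by positivity), ENNReal.ofReal_natCast]
        _ = ENNReal.ofReal (s * T) ^ q * ‖J‖ₑ ^ (2 + p * N) := by
            rw [ENNReal.mul_rpow_of_nonneg _ _ hq0.le, ← ENNReal.rpow_natCast, ← ENNReal.rpow_mul]
            congr 2
            rw [hq]
            field_simp) A
  refine h1.trans ?_
  gcongr
  -- the constants
  have h4 : ENNReal.ofReal (s * T) ^ q ≤ ENNReal.ofReal ((1 + s * C0) ^ q' * ρ ^ (n0 * q')) := by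
    rw [ENNReal.ofReal_rpow_of_nonneg hsT hq0.le]
    apply ENNReal.ofReal_le_ofReal
    have h5 : (s : ℝ) * T ≤ (1 + s * C0) * ρ ^ n0 := by
      rw [hT]
      nlinarith
    calc (s * T) ^ q ≤ ((1 + s * C0) * ρ ^ n0) ^ q := Real.rpow_le_rpow hsT h5 hq0.le
      _ ≤ ((1 + s * C0) * ρ ^ n0) ^ (q' : ℝ) := by
          refine Real.rpow_le_rpow_of_exponent_le ?_ (Nat.le_ceil q)
          have : 0 ≤ (s : ℝ) * C0 := by positivity
          nlinarith
      _ = (1 + s * C0) ^ q' * ρ ^ (n0 * q') := by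
          rw [Real.rpow_natCast, mul_pow, ← pow_mul]
  refine (mul_le_mul' h4 le_rfl).trans ?_
  rw [← ENNReal.ofReal_mul (by positivity)]
  apply ENNReal.ofReal_le_ofReal
  have h6 : (ρ * T) ^ n1 = C0 ^ n1 * ρ ^ (n1 + n0 * n1) := by
    rw [hT, pow_add, pow_mul]
    ring
  rw [h6, pow_add]
  apply le_of_eq
  ring

/-- finitely many elements of `L` have a common denominator in the coordinate ring -/
theorem exists_den (M : Mdl L m₀) (A : Finset L) : ∃ P : M.B, P ≠ 0 ∧ ∀ a ∈ A, a * (P : L) ∈ M.B := by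
  classical
  induction A using Finset.induction_on with
  | empty => exact ⟨1, one_ne_zero, by simp⟩
  | insert a A _ ih =>
    obtain ⟨P, hP, h⟩ := ih
    obtain ⟨b, c, hc, hbc⟩ := M.frac a
    have hc' : (c : L) ≠ 0 := fun h0 => hc (Subtype.ext h0)
    refine ⟨P * c, mul_ne_zero hP hc, fun a' ha' => ?_⟩
    rcases Finset.mem_insert.1 ha' with rfl | ha'
    · have h1 : a' * ((P * c : M.B) : L) = ((b * P : M.B) : L) := by
        push_cast
        rw [hbc]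
        field_simp
      rw [h1]
      exact (b * P).2
    · have h1 : a' * ((P * c : M.B) : L) = a' * (P : L) * (c : L) := by
        push_cast; ring
      rw [h1]
      exact mul_mem (h a' ha') c.2

/-- **(K1) for a form `v` of weight `N1`** -/
theorem est_v {bas : Module.Basis (Fin r) K (Ω[K⁄L])} {Y : Finset (Fin r → K)}
    (hY : IsFrames bas Y) {N : ℕ} {s : ℕ} {u : Fin s → K}
    (hu : ∀ i, Pluri L bas N (u i)) {AA : Finset L} {BB : Finset K} (hB : Has bas Y N u BB)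
    {p : ℝ} (hPE : ∀ y ∈ Y, PE bas N u y AA BB p) (R : RMdl L K m₀ r)
    (hR : Compat bas R) (hU : Units' R AA BB) (v : R.MK.B) {N1 : ℕ} {t : ℝ} (ht : 0 < t)
    (hNt : N1 * t = 2 + p * N) (hv : Pluri L bas N1 (v : K)) :
    ∃ (P : R.ML.B) (A' : Finset R.ML.B) (C : ℝ) (n : ℕ), P ≠ 0 ∧ 1 ≤ C ∧
      ∀ w : R.ML.Pts, w P ≠ 0 → ∀ μ : Measure (R.Fib w), IsLeb μ → ∀ ρ : ℝ, 1 ≤ ρ →
        (∀ a ∈ AA, ‖ek R.ML a w‖ ≤ ρ) → (∀ a ∈ A', ‖w a‖ ≤ ρ) → ∀ A : Fin s → ℂ,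
          ∫⁻ x, ‖(x.val) v‖ₑ ^ t * ‖∑ i, A i * ek R.MK (u i) x.val‖ₑ ^ (-p) ∂μ ≤
            ENNReal.ofReal (C * (ρ * (1 + ‖w P‖⁻¹)) ^ n) * ‖A‖ₑ ^ (-p) := by
  classical
  obtain ⟨A0, C0, n0, hC0, hcov⟩ := hY.cover (γ := Fin s ⊕ Unit)
    (wt := Sum.elim (fun _ => N) (fun _ => N1)) (g := Sum.elim u (fun _ => (v : K)))
    (by rintro (i | i); exacts [hu i, hv])
  obtain ⟨C1, n1, hC1, hsum⟩ := fib_sum bas hY.jac_ne N u hB.jac_mem hB.fr_mem hPE
  obtain ⟨P, hP, hPA⟩ := exists_den R.ML A0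
  let A' : Finset R.ML.B := A0.attach.image fun a => ⟨a.1 * (P : L), hPA a.1 a.2⟩
  set t' : ℕ := ⌈t⌉₊ with ht'
  refine ⟨P, A', C0 ^ t' * (C1 * C0 ^ n1), n0 * t' + (n1 + n0 * n1), hP, ?_, ?_⟩
  · have h1 : (1 : ℝ) ≤ C0 ^ t' := one_le_pow₀ hC0
    have h2 : (1 : ℝ) ≤ C1 * C0 ^ n1 := by
      have := one_le_pow₀ hC0 (n := n1)
      nlinarith
    nlinarith
  intro w hw μ hμ ρ hρ hρa hρa' A
  have hwP : 0 < ‖w P‖ := norm_pos_iff.2 hw
  set σ : ℝ := ρ * (1 + ‖w P‖⁻¹) with hσ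
  have hσ1 : 1 ≤ σ := by
    have : 0 ≤ ‖w P‖⁻¹ := by positivity
    nlinarith
  have hρσ : ρ ≤ σ := by
    have : 0 ≤ ‖w P‖⁻¹ := by positivity
    nlinarith
  set T : ℝ := C0 * σ ^ n0 with hT
  have hρn : (1 : ℝ) ≤ σ ^ n0 := one_le_pow₀ hσ1
  have hT1 : 1 ≤ T := by nlinarith
  -- the cover
  have hc : ∀ x : R.Fib w, (x.val) v ≠ 0 → ∃ y ∈ Y, x ∈ piece bas N u y R w T ∧
      ‖(x.val) v‖ ≤ T * ‖ek R.MK (jac L bas y) x.val‖ ^ N1 := by
    intro x hx
    have hv0 : v ≠ 0 := fun h => hx (by rw [h, map_zero])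
    have hv0' : (v : K) ≠ 0 := fun h => hv0 (Subtype.ext h)
    have hxP : (x.val) (R.incl P) = w P := by rw [← R.q_apply, x.q_eq]
    set q : R.MK.B := v * R.incl P with hq
    have hφq : (x.val) q ≠ 0 := by
      rw [hq, map_mul, hxP]
      exact mul_ne_zero hx hw
    have hPK : (R.incl P : K) ≠ 0 := by
      rw [R.incl_coe]
      intro h
      exact hP (Subtype.ext ((algebraMap L K).injective (by rw [h, ZeroMemClass.coe_zero, map_zero])))
    obtain ⟨y, hy, hl⟩ := hcov R.MK.B R.MK.B.val.toRingHom x.val.toRingHom q (ρ * ‖w P‖⁻¹)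
      (fun a b hab => Subtype.ext hab) (by positivity) hφq
      (fun y hy l => by
        refine ⟨?_, 0, ?_⟩
        · rcases l with l | i | i
          · exact ⟨y l, (hU.2 _ (hB.y_mem y hy l)).1⟩
          · exact ⟨fr bas y N (u i), (hU.2 _ (hB.fr_mem y hy i)).1⟩
          · exact v * ⟨(jac L bas y)⁻¹, (hU.2 _ (hB.jac_mem y hy)).2⟩ ^ N1
        · rcases l with l | i | i
          · simp [tup]
          · simp [tup, fr]
          · simp [tup, div_eq_mul_inv])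
      (fun y hy l => by
        rcases l with l | i | i
        · exact ⟨⟨(y l)⁻¹, (hU.2 _ (hB.y_mem y hy l)).2⟩, 0, by simp [tup]⟩
        · exact ⟨⟨(fr bas y N (u i))⁻¹, (hU.2 _ (hB.fr_mem y hy i)).2⟩, 0, by simp [tup, fr]⟩
        · refine ⟨⟨jac L bas y, (hU.2 _ (hB.jac_mem y hy)).1⟩ ^ N1 * R.incl P, 1, ?_⟩
          have hJ0 := hY.jac_ne y hy
          change jac L bas y ^ N1 * (R.incl P : K) =
            ((v : K) / jac L bas y ^ N1)⁻¹ * ((v : K) * (R.incl P : K)) ^ 1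
          field_simp)
      (fun a ha => by
        refine ⟨R.incl ⟨a * (P : L), hPA a ha⟩ * v, 1, ?_, ?_⟩
        · change algebraMap L K (a * (P : L)) * (v : K) =
            algebraMap L K a * ((v : K) * algebraMap L K (P : L)) ^ 1
          rw [map_mul]; ring
        · have h1 : ‖w ⟨a * (P : L), hPA a ha⟩‖ ≤ ρ := by
            apply hρa'
            exact Finset.mem_image.2 ⟨⟨a, ha⟩, Finset.mem_attach _ _, rfl⟩
          have h2 : (x.val) (R.incl ⟨a * (P : L), hPA a ha⟩) = w ⟨a * (P : L), hPA a ha⟩ := by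
            rw [← R.q_apply, x.q_eq]
          change ‖(x.val) (R.incl ⟨a * (P : L), hPA a ha⟩ * v)‖ ≤
            ρ * ‖w P‖⁻¹ * ‖(x.val) q‖ ^ 1
          rw [map_mul, norm_mul, h2, hq, map_mul, norm_mul, hxP, pow_one]
          have h3 : ρ * ‖w P‖⁻¹ * (‖(x.val) v‖ * ‖w P‖) = ρ * ‖(x.val) v‖ := by
            field_simp
          rw [h3]
          exact mul_le_mul_of_nonneg_right h1 (norm_nonneg _))
    have hT' : C0 * (1 + ρ * ‖w P‖⁻¹) ^ n0 ≤ T := by
      refine mul_le_mul_of_nonneg_left (pow_le_pow_left₀ (by positivity) ?_ n0)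
        (zero_le_one.trans hC0)
      rw [hσ]
      nlinarith
    refine ⟨y, hy, ⟨fun l => ?_, fun i => ?_⟩, ?_⟩
    · have hm := (hU.2 _ (hB.y_mem y hy l)).1
      have h3 := hl (Sum.inl l) ⟨y l, hm⟩ 0 (by simp [tup])
      rw [ek_of_mem R.MK hm]
      simp only [pow_zero, mul_one] at h3
      exact h3.trans hT'
    · have hm := (hU.2 _ (hB.fr_mem y hy i)).1
      have h3 := hl (Sum.inr (Sum.inl i)) ⟨fr bas y N (u i), hm⟩ 0 (by simp [tup, fr])
      rw [ek_of_mem R.MK hm]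
      simp only [pow_zero, mul_one] at h3
      exact h3.trans hT'
    · have hm := (hU.2 _ (hB.jac_mem y hy))
      set v' : R.MK.B := v * ⟨(jac L bas y)⁻¹, hm.2⟩ ^ N1 with hv'
      have h3 := hl (Sum.inr (Sum.inr ())) v' 0 (by
        rw [hv']; simp [tup, div_eq_mul_inv])
      simp only [pow_zero, mul_one] at h3
      have h4 : v = v' * ⟨jac L bas y, hm.1⟩ ^ N1 := by
        apply Subtype.ext
        rw [hv']
        change (v : K) = (v : K) * (jac L bas y)⁻¹ ^ N1 * jac L bas y ^ N1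
        rw [mul_assoc, ← mul_pow, inv_mul_cancel₀ (hY.jac_ne y hy), one_pow, mul_one]
      have h5 : (x.val) v = (x.val) v' * ek R.MK (jac L bas y) x.val ^ N1 := by
        conv_lhs => rw [h4]
        rw [map_mul, map_pow, ek_of_mem R.MK hm.1]
      rw [h5, norm_mul, norm_pow]
      exact mul_le_mul_of_nonneg_right (h3.trans hT') (by positivity)
  have h1 := hsum _ R hR hU w μ hμ σ hσ1 (fun a ha => (hρa a ha).trans hρσ) T hT1
    (fun x => ‖(x.val) v‖ₑ ^ t) (ENNReal.ofReal T ^ t)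
    (ENNReal.rpow_ne_top_of_nonneg ht.le ENNReal.ofReal_ne_top)
    (fun x hx => by
      have hx0 : (x.val) v ≠ 0 := by
        intro h0
        apply hx
        change ‖(x.val) v‖ₑ ^ t = 0
        rw [h0, enorm_zero, ENNReal.zero_rpow_of_pos ht]
      obtain ⟨y, hy, hxy, hle⟩ := hc x hx0
      refine ⟨y, hy, hxy, ?_⟩
      set J := ek R.MK (jac L bas y) x.val with hJ
      calc ‖(x.val) v‖ₑ ^ t ≤ (ENNReal.ofReal T * ‖J‖ₑ ^ N1) ^ t := by
            refine ENNReal.rpow_le_rpow ?_ ht.le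
            rw [← ofReal_norm, ← ofReal_norm, ← ENNReal.ofReal_pow (norm_nonneg _),
              ← ENNReal.ofReal_mul (zero_le_one.trans hT1)]
            exact ENNReal.ofReal_le_ofReal hle
        _ = ENNReal.ofReal T ^ t * ‖J‖ₑ ^ (2 + p * N) := by
            rw [ENNReal.mul_rpow_of_nonneg _ _ ht.le, ← ENNReal.rpow_natCast, ← ENNReal.rpow_mul,
              hNt]) A
  refine h1.trans ?_
  gcongr
  have h4 : ENNReal.ofReal T ^ t ≤ ENNReal.ofReal (C0 ^ t' * σ ^ (n0 * t')) := by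
    rw [ENNReal.ofReal_rpow_of_nonneg (zero_le_one.trans hT1) ht.le]
    apply ENNReal.ofReal_le_ofReal
    calc T ^ t ≤ T ^ (t' : ℝ) := Real.rpow_le_rpow_of_exponent_le hT1 (Nat.le_ceil t)
      _ = C0 ^ t' * σ ^ (n0 * t') := by
          rw [Real.rpow_natCast, hT, mul_pow, ← pow_mul]
  refine (mul_le_mul' h4 le_rfl).trans ?_
  rw [← ENNReal.ofReal_mul (by positivity)]
  apply ENNReal.ofReal_le_ofReal
  have h6 : (σ * T) ^ n1 = C0 ^ n1 * σ ^ (n1 + n0 * n1) := by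
    rw [hT, pow_add, pow_mul]
    ring_nf
  rw [h6, pow_add]
  apply le_of_eq
  ring

end Crest.Agent.R276.SkoN_845
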