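import Mathlib
import Crest.Agent.R276.SkoN_845

/-!
# SKO (row 276), part P (helper845): local boundedness

`LB R u p g` : for every `w0` there is a constant `C < ∞` with `∫_{M_w} g |∑ A_i u_i|^(-p) ≤ C ‖A‖^(-p)` for all `w` near
`w0` and all `A`.
-/

set_option autoImplicit false
set_option linter.unusedSectionVars false

open Topology Filter MeasureTheory
open scoped ENNReal

noncomputable section

namespace Crest.Agent.R276.SkoP_845

open Crest.Agent.R271.Defs710 Crest.Agent.R271.Ho51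
open Crest.Agent.R276.Mod1_987 Crest.Agent.R276.FKDefs_779 Crest.Agent.R276.SkoT_845
open Crest.Agent.R276.SkoM_845 Crest.Agent.R276.SkoN_845

variable {L K : Type} [Field L] [Field K] [Algebra ℂ L] [Algebra ℂ K] [Algebra L K]
  [IsScalarTower ℂ L K] {r m : ℕ}

/-- local boundedness of the twisted fibre integrals of `g` -/
def LB (R : RMdl L K m r) {s : ℕ} (u : Fin s → R.MK.B) (p : ℝ) (g : R.MK.Pts → ℝ≥0∞) : Prop :=
  ∀ w0 : R.ML.Pts, ∃ C : ℝ≥0∞, C ≠ ⊤ ∧ ∀ᶠ w in 𝓝 w0, ∀ μ : Measure (R.Fib w), IsLeb μ →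
    ∀ A : Fin s → ℂ, ∫⁻ x, g x.val * ‖∑ i, A i * (x.val) (u i)‖ₑ ^ (-p) ∂μ ≤ C * ‖A‖ₑ ^ (-p)

lemma LB.mono {R : RMdl L K m r} {s : ℕ} {u : Fin s → R.MK.B} {p : ℝ} {g g' : R.MK.Pts → ℝ≥0∞}
    (h : LB R u p g) {c : ℝ≥0∞} (hc : c ≠ ⊤) (hg : ∀ y, g' y ≤ c * g y) : LB R u p g' := by
  intro w0
  obtain ⟨C, hC, h1⟩ := h w0
  refine ⟨c * C, ENNReal.mul_ne_top hc hC, ?_⟩
  filter_upwards [h1] with w hw μ hμ A
  calc ∫⁻ x, g' x.val * ‖∑ i, A i * (x.val) (u i)‖ₑ ^ (-p) ∂μ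
      ≤ ∫⁻ x, c * (g x.val * ‖∑ i, A i * (x.val) (u i)‖ₑ ^ (-p)) ∂μ := by
        refine lintegral_mono fun x => ?_
        rw [← mul_assoc]
        exact mul_le_mul_left (hg x.val) _
    _ = c * ∫⁻ x, g x.val * ‖∑ i, A i * (x.val) (u i)‖ₑ ^ (-p) ∂μ :=
        lintegral_const_mul' _ _ hc
    _ ≤ c * (C * ‖A‖ₑ ^ (-p)) := mul_le_mul_right (hw μ hμ A) _
    _ = c * C * ‖A‖ₑ ^ (-p) := by rw [mul_assoc]

/-- a bound for finitely many functions near a point -/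
lemma exists_rho (R : RMdl L K m r) (AA : Finset L) (A' : Finset R.ML.B) (w0 : R.ML.Pts) :
    ∃ ρ : ℝ, 1 ≤ ρ ∧ ∀ᶠ w in 𝓝 w0, (∀ a ∈ AA, ‖ek R.ML a w‖ ≤ ρ) ∧ ∀ a ∈ A', ‖w a‖ ≤ ρ := by
  refine ⟨1 + ∑ a ∈ AA, (‖ek R.ML a w0‖ + 1) + ∑ a ∈ A', (‖w0 a‖ + 1), ?_, ?_⟩
  · have h1 : 0 ≤ ∑ a ∈ AA, (‖ek R.ML a w0‖ + 1) := Finset.sum_nonneg fun _ _ => by positivity
    have h2 : 0 ≤ ∑ a ∈ A', (‖w0 a‖ + 1) := Finset.sum_nonneg fun _ _ => by positivity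
    linarith
  · have h1 : ∀ᶠ w in 𝓝 w0, ∀ a ∈ AA, ‖ek R.ML a w‖ < ‖ek R.ML a w0‖ + 1 := by
      rw [Filter.eventually_all_finset]
      intro a _
      exact ((continuous_ek R.ML a).norm.tendsto w0).eventually_lt_const (by linarith)
    have h2 : ∀ᶠ w in 𝓝 w0, ∀ a ∈ A', ‖w a‖ < ‖w0 a‖ + 1 := by
      rw [Filter.eventually_all_finset]
      intro a _
      have h3 : Continuous fun w : R.ML.Pts => w a := by
        have := continuous_ek R.ML (a : L)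
        simpa using this
      exact (h3.norm.tendsto w0).eventually_lt_const (by linarith)
    filter_upwards [h1, h2] with w hw1 hw2
    have h3 : 0 ≤ ∑ a ∈ AA, (‖ek R.ML a w0‖ + 1) := Finset.sum_nonneg fun _ _ => by positivity
    have h4 : 0 ≤ ∑ a ∈ A', (‖w0 a‖ + 1) := Finset.sum_nonneg fun _ _ => by positivity
    constructor
    · intro a ha
      have h5 := Finset.single_le_sum (f := fun a => ‖ek R.ML a w0‖ + 1)
        (fun _ _ => by positivity) ha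
      have h6 := hw1 a ha
      linarith
    · intro a ha
      have h5 := Finset.single_le_sum (f := fun a : R.ML.B => ‖w0 a‖ + 1)
        (fun _ _ => by positivity) ha
      have h6 := hw2 a ha
      linarith

/-- local boundedness for the sections `u` -/
theorem lb_u {bas : Module.Basis (Fin r) K (Ω[K⁄L])} {Y : Finset (Fin r → K)}
    (hY : IsFrames bas Y) {N : ℕ} (hN : 0 < N) {s : ℕ} {u : Fin s → K}
    (hu : ∀ i, Pluri L bas N (u i)) :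
    ∃ A0 : Finset L, ∀ (AA : Finset L) (BB : Finset K), A0 ⊆ AA → Has bas Y N u BB →
      ∀ p : ℝ, 0 ≤ p → (∀ y ∈ Y, PE bas N u y AA BB p) →
      ∀ (m : ℕ) (R : RMdl L K m r), Compat bas R → Units' R AA BB →
        ∀ u' : Fin s → R.MK.B, (∀ i, (u' i : K) = u i) →
          LB R u' p (fun y => (∑ i, ‖y (u' i)‖ₑ) ^ ((2 + p * N) / N)) := by
  obtain ⟨A0, h⟩ := est_u hY hN hu
  refine ⟨A0, fun AA BB hA0 hB p hp hPE m R hR hU u' hu' w0 => ?_⟩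
  obtain ⟨C, n, hC, h1⟩ := h AA BB hA0 hB p hp hPE
  obtain ⟨ρ, hρ, hev⟩ := exists_rho R AA ∅ w0
  refine ⟨ENNReal.ofReal (C * ρ ^ n), ENNReal.ofReal_ne_top, ?_⟩
  filter_upwards [hev] with w hw μ hμ A
  have h2 := h1 m R hR hU w μ hμ ρ hρ hw.1 A
  simpa only [← hu', ek_coe] using h2

/-- local boundedness for a form `v` of weight `N1`, multiplied by a power of a function on the base -/
theorem lb_v {bas : Module.Basis (Fin r) K (Ω[K⁄L])} {Y : Finset (Fin r → K)}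
    (hY : IsFrames bas Y) {N : ℕ} {s : ℕ} {u : Fin s → K}
    (hu : ∀ i, Pluri L bas N (u i)) {AA : Finset L} {BB : Finset K} (hB : Has bas Y N u BB)
    {p : ℝ} (hPE : ∀ y ∈ Y, PE bas N u y AA BB p) (R : RMdl L K m r)
    (hR : Compat bas R) (hU : Units' R AA BB) {u' : Fin s → R.MK.B} (hu' : ∀ i, (u' i : K) = u i)
    (v : R.MK.B) {N1 : ℕ} {t : ℝ} (ht : 0 < t)
    (hNt : N1 * t = 2 + p * N) (hv : Pluri L bas N1 (v : K)) :
    ∃ (P : R.ML.B) (a0 : ℕ), P ≠ 0 ∧ ∀ (P' : R.ML.B), P ∣ P' → ∀ a : ℕ, a0 ≤ a →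
      LB R u' p (fun y => ‖y (R.incl P' ^ a * v)‖ₑ ^ t) := by
  obtain ⟨P, A', C, n, hP, hC, h⟩ := est_v hY hu hB hPE R hR hU v ht hNt hv
  refine ⟨P, max 1 ⌈n / t⌉₊, hP, ?_⟩
  rintro P' ⟨Q, rfl⟩ a ha w0
  have ha1 : 1 ≤ a := (le_max_left _ _).trans ha
  have han : (n : ℝ) ≤ a * t := by
    have h1 : (n / t : ℝ) ≤ a := (Nat.le_ceil _).trans (by exact_mod_cast (le_max_right _ _).trans ha)
    rwa [div_le_iff₀ ht] at h1
  classical
  obtain ⟨ρ, hρ, hev⟩ := exists_rho R AA (insert P (insert Q A')) w0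
  set c : ℝ≥0∞ := ENNReal.ofReal (ρ ^ (a * t) * (C * (ρ * (ρ + 1)) ^ n * ρ ^ (a * t - n))) with hc
  refine ⟨c, ENNReal.ofReal_ne_top, ?_⟩
  filter_upwards [hev] with w hw μ hμ A
  have hxP : ∀ x : R.Fib w, ∀ b : R.ML.B, (x.val) (R.incl b) = w b := fun x b => by
    rw [← R.q_apply, x.q_eq]
  have hx : ∀ x : R.Fib w, ‖(x.val) (R.incl (P * Q) ^ a * v)‖ₑ ^ t =
      (‖w (P * Q)‖ₑ ^ a) ^ t * ‖(x.val) v‖ₑ ^ t := by
    intro x
    rw [map_mul, map_pow, hxP, enorm_mul, enorm_pow, ENNReal.mul_rpow_of_nonneg _ _ ht.le]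
  simp only [hx]
  by_cases hwP : w P = 0
  · have h0 : (‖w (P * Q)‖ₑ ^ a) ^ t = 0 := by
      rw [map_mul, hwP, zero_mul, enorm_zero, zero_pow (by omega), ENNReal.zero_rpow_of_pos ht]
    simp only [h0, zero_mul, lintegral_zero]
    exact zero_le
  · have h1 := h w hwP μ hμ ρ hρ hw.1
      (fun a' ha' => hw.2 a' (Finset.mem_insert_of_mem (Finset.mem_insert_of_mem ha'))) A
    have hPρ : ‖w P‖ ≤ ρ := hw.2 P (Finset.mem_insert_self _ _)
    have hQρ : ‖w Q‖ ≤ ρ := hw.2 Q (Finset.mem_insert_of_mem (Finset.mem_insert_self _ _))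
    have hP0 : 0 < ‖w P‖ := norm_pos_iff.2 hwP
    have hcst : (‖w (P * Q)‖ₑ ^ a) ^ t ≠ ⊤ :=
      ENNReal.rpow_ne_top_of_nonneg ht.le (ENNReal.pow_ne_top enorm_ne_top)
    simp only [mul_assoc]
    rw [lintegral_const_mul' _ _ hcst]
    simp only [← hu', ek_coe] at h1
    refine (mul_le_mul_right h1 _).trans ?_
    rw [← mul_assoc]
    gcongr
    have h2 : (‖w (P * Q)‖ₑ ^ a) ^ t = ENNReal.ofReal (‖w P‖ ^ (a * t) * ‖w Q‖ ^ (a * t)) := by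
      rw [← ofReal_norm, ← ENNReal.ofReal_pow (norm_nonneg _),
        ENNReal.ofReal_rpow_of_nonneg (by positivity) ht.le, map_mul, norm_mul, mul_pow,
        Real.mul_rpow (by positivity) (by positivity), ← Real.rpow_natCast, ← Real.rpow_natCast,
        ← Real.rpow_mul (norm_nonneg _), ← Real.rpow_mul (norm_nonneg _)]
    rw [h2, ← ENNReal.ofReal_mul (by positivity), hc]
    apply ENNReal.ofReal_le_ofReal
    have h3 : ‖w P‖ ^ (a * t) = ‖w P‖ ^ n * ‖w P‖ ^ (a * t - n) := by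
      rw [← Real.rpow_natCast, ← Real.rpow_add hP0]
      congr 1; ring
    have h4 : ‖w P‖ ^ (a * t - n) ≤ ρ ^ (a * t - n) :=
      Real.rpow_le_rpow hP0.le hPρ (by linarith)
    have h5 : ‖w Q‖ ^ (a * t) ≤ ρ ^ (a * t) :=
      Real.rpow_le_rpow (norm_nonneg _) hQρ (by positivity)
    have h6 : ‖w P‖ ^ n * (ρ * (1 + ‖w P‖⁻¹)) ^ n ≤ (ρ * (ρ + 1)) ^ n := by
      rw [← mul_pow]
      refine pow_le_pow_left₀ (by positivity) ?_ n
      have : ‖w P‖ * (ρ * (1 + ‖w P‖⁻¹)) = ρ * (‖w P‖ + 1) := by field_simp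
      rw [this]
      nlinarith
    calc ‖w P‖ ^ (a * t) * ‖w Q‖ ^ (a * t) * (C * (ρ * (1 + ‖w P‖⁻¹)) ^ n)
        = ‖w Q‖ ^ (a * t) * (C * (‖w P‖ ^ n * (ρ * (1 + ‖w P‖⁻¹)) ^ n) *
          ‖w P‖ ^ (a * t - n)) := by rw [h3]; ring
      _ ≤ ρ ^ (a * t) * (C * (ρ * (ρ + 1)) ^ n * ρ ^ (a * t - n)) := by
          gcongr

end Crest.Agent.R276.SkoP_845
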