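import Mathlib
import Crest.Agent.R276.SkoP_845
import Crest.Agent.R276.SkoE_317
import Crest.Agent.R276.FlatTop_793

/-!
# Row 276 (S0419), helper793: the input `hSKO` of `flat_top` from local boundedness

* `eval_le` : `|P(v)| ≤ C (∑ |v_i|)^k` for `P` homogeneous of degree `k`;
* `int_det_le` : `∫_{M_z^s} ∏ m_j(y_j) |δ|^{-p} ≤ ∏ C_j` (317's `det_int` on the fibres);
* `hsko_of_lb` : `Ieps ≠ ∞` at every point `z`;
* `flat_top'` : `SkelDefs_220.Flat` from `LB` (845).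
-/

set_option autoImplicit false
set_option linter.unusedSectionVars false

open Topology Filter MeasureTheory Matrix
open scoped ENNReal

noncomputable section

namespace Crest.Agent.R276.Hsko_793

open Crest.Agent.R271 Crest.Agent.R271.Ho51
open Crest.Agent.R271.Rd692 hiding evs
open Crest.Agent.R271.Defs710 hiding glue
open Crest.Agent.R276.Mod1_987 Crest.Agent.R276.FlatDefs_236
open Crest.Agent.R276.SkelDefs_220 Crest.Agent.R276.CInd_870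
open Crest.Agent.R276.SkoP_845

/-- a homogeneous polynomial is bounded by the power of the sum of the variables -/
theorem eval_le {s k : ℕ} {P : MvPolynomial (Fin s) ℂ} (hP : P.IsHomogeneous k) :
    ∃ C : ℝ≥0∞, C ≠ ∞ ∧ ∀ v : Fin s → ℂ, ‖MvPolynomial.eval v P‖ₑ ≤ C * (∑ i, ‖v i‖ₑ) ^ k := by
  refine ⟨∑ d ∈ P.support, ‖P.coeff d‖ₑ, ?_, fun v => ?_⟩
  · rw [ENNReal.sum_ne_top]
    exact fun d _ => enorm_ne_top
  · rw [MvPolynomial.eval_eq', Finset.sum_mul]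
    refine (enorm_sum_le _ _).trans (Finset.sum_le_sum fun d hd => ?_)
    rw [enorm_mul]
    gcongr
    have h1 : ∑ i, d i = k := by
      have h2 := hP (MvPolynomial.mem_support_iff.1 hd)
      rw [Finsupp.weight_apply, Finsupp.sum_fintype _ _ (fun i => by simp)] at h2
      simpa using h2
    have h3 : ‖∏ i, v i ^ d i‖ₑ = ∏ i, ‖v i‖ₑ ^ d i := by
      have : ‖∏ i, v i ^ d i‖₊ = ∏ i, ‖v i‖₊ ^ d i := by
        rw [nnnorm_prod]
        exact Finset.prod_congr rfl fun i _ => nnnorm_pow _ _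
      simp only [enorm_eq_nnnorm, this]
      push_cast
      rfl
    rw [← h1, ← Finset.prod_pow_eq_pow_sum, h3]
    refine Finset.prod_le_prod' fun i _ => ?_
    gcongr
    exact Finset.single_le_sum (f := fun i => ‖v i‖ₑ) (fun _ _ => zero_le) (Finset.mem_univ i)

section fib

variable {L K : Type} [Field L] [Field K] [Algebra ℂ L] [Algebra ℂ K] [Algebra L K]
  [IsScalarTower ℂ L K] {m r : ℕ} {ML : Mdl L m} {MK : Mdl K (m + r)} (H : Rel ML MK)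

/-- **(DET) on the fibres** -/
theorem int_det_le {s : ℕ} (u : Fin s → MK.B) {p : ℝ} (hp : 0 ≤ p) (z : ML.Pts)
    (g : Fin s → MK.Pts → ℝ≥0∞) (hg : ∀ j, Measurable (g j)) (C : Fin s → ℝ≥0∞)
    (h : ∀ j, ∀ μ : Measure ((rm H).Fib z), IsLeb μ → ∀ A : Fin s → ℂ,
      ∫⁻ x, g j x.val * ‖∑ i, A i * (x.val) (u i)‖ₑ ^ (-p) ∂μ ≤ C j * ‖A‖ₑ ^ (-p)) :
    H.fintS s z (fun y => (∏ j, g j (y j)) * ‖dl u y‖ₑ ^ (-p)) ≤ ∏ j, C j := by
  have hv : Measurable (RMdl.Fib.val (rm H) : (rm H).Fib z → (rm H).MK.Pts) :=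
    (RMdl.Fib.continuous_val (R := rm H) z).measurable
  have hm : Measurable fun y : Fin s → MK.Pts => (∏ j, g j (y j)) * ‖dl u y‖ₑ ^ (-p) :=
    (Finset.measurable_fun_prod _ fun j _ => (hg j).comp (measurable_pi_apply j)).mul
      ((FlatC_464.continuous_dl u).measurable.enorm.pow_const _)
  rw [RelC_870.fintS_pi H (nu_leb (rm H) z) hm]
  have h1 := SkoE_317.det_int (nu (rm H) z) p hp s
    (fun i (x : (rm H).Fib z) => (x.val : MK.Pts) (u i))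
    (fun i => (continuous_ev (u i)).measurable.comp hv) (fun j x => g j x.val)
    (fun j => (hg j).comp hv) C (fun j A => h j _ (nu_leb (rm H) z) A)
  refine le_trans (le_of_eq ?_) h1
  refine lintegral_congr fun x => ?_
  rfl

/-- **local boundedness of the `s`-fold integrals** (185's (B)), for a finite family of functions -/
theorem fintS_lb {s : ℕ} {u : Fin s → MK.B} {p : ℝ} (hp : 0 ≤ p) {ι : Type} [Finite ι]
    (g : ι → MK.Pts → ℝ≥0∞) (hg : ∀ i, Measurable (g i)) (h : ∀ i, LB (rm H) u p (g i))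
    (z₀ : ML.Pts) : ∃ C : ℝ≥0∞, C ≠ ∞ ∧ ∀ᶠ z in 𝓝 z₀, ∀ I : Fin s → ι,
      H.fintS s z (fun y => (∏ j, g (I j) (y j)) * ‖dl u y‖ₑ ^ (-p)) ≤ C := by
  cases nonempty_fintype ι
  choose c hc hev using fun i => h i z₀
  refine ⟨(∑ i, c i) ^ s, ENNReal.pow_ne_top ?_, ?_⟩
  · rw [ENNReal.sum_ne_top]
    exact fun i _ => hc i
  · have h1 : ∀ᶠ z in 𝓝 z₀, ∀ i, ∀ μ : Measure ((rm H).Fib z), IsLeb μ →
        ∀ A : Fin s → ℂ, ∫⁻ x, g i x.val * ‖∑ i, A i * (x.val) (u i)‖ₑ ^ (-p) ∂μ ≤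
          c i * ‖A‖ₑ ^ (-p) := eventually_all.2 hev
    filter_upwards [h1] with z hz I
    refine (int_det_le H u hp z (fun j => g (I j)) (fun j => hg _) (fun _ => ∑ i, c i)
      (fun j μ hμ A => (hz (I j) μ hμ A).trans ?_)).trans (le_of_eq ?_)
    · exact mul_le_mul_left (Finset.single_le_sum (f := c) (fun _ _ => zero_le)
        (Finset.mem_univ (I j))) _
    · rw [Finset.prod_const, Finset.card_univ, Fintype.card_fin]

/-- the family `‖y (w i)‖^t` -/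
theorem fintS_lb_pow {s : ℕ} {u : Fin s → MK.B} {p t : ℝ} (hp : 0 ≤ p) {ι : Type} [Finite ι]
    (w : ι → MK.B) (h : ∀ i, LB (rm H) u p (fun y => ‖y (w i)‖ₑ ^ t)) (z₀ : ML.Pts) :
    ∃ C : ℝ≥0∞, C ≠ ∞ ∧ ∀ᶠ z in 𝓝 z₀, ∀ I : Fin s → ι,
      H.fintS s z (fun y => (∏ j, ‖y j (w (I j))‖ₑ ^ t) * ‖dl u y‖ₑ ^ (-p)) ≤ C :=
  fintS_lb H hp (fun i y => ‖y (w i)‖ₑ ^ t)
    (fun i => (continuous_ev (w i)).measurable.enorm.pow_const t) h z₀

/-- monomials: `LB` for `(∑ ‖y (u i)‖)^(kt)` gives `LB` for `‖y P(u)‖^t`, `P` homogeneous of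
degree `k` -/
theorem lb_homog {s k : ℕ} {u : Fin s → MK.B} {p t q : ℝ} (ht : 0 ≤ t) (hq : (k : ℝ) * t = q)
    (h : LB (rm H) u p (fun y => (∑ i, ‖y (u i)‖ₑ) ^ q)) {P : MvPolynomial (Fin s) ℂ}
    (hP : P.IsHomogeneous k) :
    LB (rm H) u p (fun y => ‖y (MvPolynomial.aeval u P)‖ₑ ^ t) := by
  obtain ⟨c, hc, hle⟩ := eval_le hP
  refine h.mono (ENNReal.rpow_ne_top_of_nonneg ht hc) fun y => ?_
  have h1 : y (MvPolynomial.aeval u P) = MvPolynomial.eval (fun i => y (u i)) P := by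
    rw [← MvPolynomial.aeval_eq_eval, MvPolynomial.comp_aeval_apply]
  rw [h1]
  calc ‖MvPolynomial.eval (fun i => y (u i)) P‖ₑ ^ t
      ≤ (c * (∑ i, ‖y (u i)‖ₑ) ^ k) ^ t := ENNReal.rpow_le_rpow (hle _) ht
    _ = c ^ t * (∑ i, ‖y (u i)‖ₑ) ^ q := by
        rw [ENNReal.mul_rpow_of_nonneg _ _ ht, ← ENNReal.rpow_natCast, ← ENNReal.rpow_mul, hq]

/-- **`hSKO`** of `flat_top`, at every point -/
theorem hsko_of_lb {N s : ℕ} {u : Fin s → MK.B} {ε : ℝ} (hN : 0 < N) (hε : 0 ≤ ε)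
    (hLB : LB (rm H) u (2 * ε) (fun y => (∑ i, ‖y (u i)‖ₑ) ^ ((2 + 2 * ε * N) / N)))
    (z : ML.Pts) (k : ℕ) (P : MvPolynomial (Fin s) ℂ) (hk : 0 < k) (hP : P.IsHomogeneous k) :
    Ieps H N k u ε z (evs u P) ≠ ∞ := by
  obtain ⟨C, hC, hev⟩ := hLB z
  have h0 := hev.self_of_nhds
  obtain ⟨c, hc, hle⟩ := eval_le hP
  have hN0 : (0 : ℝ) < N := by exact_mod_cast hN
  have hk0 : (0 : ℝ) < k := by exact_mod_cast hk
  set α : ℝ := 2 * (1 + ε * N) / (k * N) with hα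
  have hα0 : 0 ≤ α := by positivity
  have hkα : (k : ℝ) * α = (2 + 2 * ε * N) / N := by
    rw [hα]
    field_simp
  have hcα : c ^ α ≠ ∞ := ENNReal.rpow_ne_top_of_nonneg hα0 hc
  have h1 : Ieps H N k u ε z (evs u P) ≤ ∏ _j : Fin s, (c ^ α * C) := by
    refine int_det_le H u (by positivity) z (fun _ y => ‖evs u P y‖ₑ ^ α)
      (fun _ => (FlatC_464.continuous_evs u P).measurable.enorm.pow_const _) _
      (fun _ μ hμ A => ?_)
    calc ∫⁻ x, ‖evs u P x.val‖ₑ ^ α * ‖∑ i, A i * (x.val) (u i)‖ₑ ^ (-(2 * ε)) ∂μ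
        ≤ ∫⁻ x, c ^ α * ((∑ i, ‖(x.val) (u i)‖ₑ) ^ ((2 + 2 * ε * N) / N) *
          ‖∑ i, A i * (x.val) (u i)‖ₑ ^ (-(2 * ε))) ∂μ := by
          refine lintegral_mono fun x => ?_
          rw [← mul_assoc]
          refine mul_le_mul_left ?_ _
          calc ‖evs u P x.val‖ₑ ^ α ≤ (c * (∑ i, ‖(x.val) (u i)‖ₑ) ^ k) ^ α :=
                ENNReal.rpow_le_rpow (hle _) hα0
            _ = c ^ α * (∑ i, ‖(x.val) (u i)‖ₑ) ^ ((2 + 2 * ε * N) / N) := by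
                rw [ENNReal.mul_rpow_of_nonneg _ _ hα0, ← ENNReal.rpow_natCast,
                  ← ENNReal.rpow_mul, hkα]
      _ = c ^ α * ∫⁻ x, (∑ i, ‖(x.val) (u i)‖ₑ) ^ ((2 + 2 * ε * N) / N) *
          ‖∑ i, A i * (x.val) (u i)‖ₑ ^ (-(2 * ε)) ∂μ := lintegral_const_mul' _ _ hcα
      _ ≤ c ^ α * (C * ‖A‖ₑ ^ (-(2 * ε))) := mul_le_mul_right (h0 μ hμ A) _
      _ = c ^ α * C * ‖A‖ₑ ^ (-(2 * ε)) := by rw [mul_assoc]
  refine ne_top_of_le_ne_top ?_ h1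
  exact ENNReal.prod_ne_top fun _ _ => ENNReal.mul_ne_top hcα hC

end fib

/-! ### `Flat` -/

section tower

open Crest.Agent.R276.Ipc735 Crest.Agent.R276.Iter_840 Crest.Agent.R276.Restr_236
open Crest.Agent.R276.FlatTop_793

variable {T L K : Type} [Field T] [Field L] [Field K] [Algebra ℂ T] [Algebra ℂ L] [Algebra ℂ K]
  [Algebra T L] [Algebra L K] [IsScalarTower ℂ T L] [IsScalarTower ℂ L K] {ρ a r : ℕ}
  {MT : Mdl T ρ} {ML : Mdl L (ρ + a)} {MK : Mdl K (ρ + a + r)}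
  {H₁ : Rel MT ML} {H₂ : Rel ML MK} (h₁ : H₁.Conn) (h₂ : H₂.Conn)
  {N s : ℕ} {u : Fin s → MK.B} {N₀ w₀ : ℕ}
  {V : VHS (ρ + a) ML.Pts N₀ w₀} {om : ML.Pts → Fin N₀ → ℂ}

include h₁ h₂ in
/-- **FLATTOP** with 845's local boundedness -/
theorem flat_top' (hMo : MonoAll) (hN : LemN) (hO : OneStep) (hR : StepRz)
    (hRA : StepRzAct) (HS : SatFam (rm H₂) N u) (HC : CYL (rm H₂) N u V om)
    (hθ : ∀ (z : ML.Pts) (k : Fin a), dM V.P V.E (Fin.natAdd ρ k) z *ᵥ om z = 0)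
    {d : ℕ} {D : ML.Pts → ℝ} {ε : ℝ} (hε : 0 ≤ ε) (hCY : IsCY H₂ N u D)
    (hkap : ∃ (i0 : Fin s) (ι : Fin d → Fin s),
      AlgebraicIndependent L (fun j => (u (ι j) : K) / (u i0 : K)))
    (hLB : LB (rm H₂) u (2 * ε) (fun y => (∑ i, ‖y (u i)‖ₑ) ^ ((2 + 2 * ε * N) / N))) :
    Flat H₁ H₂ N d u D ε :=
  flat_top h₁ h₂ hMo hN hO hR hRA HS HC hθ hε hCY hkap
    ⟨1, one_ne_zero, fun z _ k P hk hP => hsko_of_lb H₂ (by have := HS.N_ge; omega) hε hLB z k P hk hP⟩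

end tower

end Crest.Agent.R276.Hsko_793
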