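import Mathlib
import Crest.Agent.R276.Gram_574

/-!
# R276, GVHS (helper574): semisimplicity and the fixed part theorem on a model

`mono` : on a connected model (`Prp h X`, Hausdorff) the monodromy group of a variation of Hodge
structure with lattice satisfies `Hull_574.Mono` at every point.
-/

set_option autoImplicit false
set_option linter.unusedSectionVars false

noncomputable section

open Set Filter Topology Matrix
open scoped ContDiff ComplexConjugate ComplexOrder
open Crest.Agent.R271.Ho51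
open Crest.Agent.R276.Ipc735
open Crest.Agent.R276.Liou_739
open Crest.Agent.R276.Hull_574
open Crest.Agent.R276.Tr_617
open Crest.Agent.R276.Gram_574

namespace Crest.Agent.R276.Mono_574

section lattice

variable {N : ℕ} {κ : Type*} [Fintype κ] [DecidableEq κ]

/-- an integral matrix as complex matrix -/
def im {a b : Type*} (B : Matrix a b ℤ) : Matrix a b ℂ := B.map (fun n : ℤ => (n : ℂ))

theorem im_mul {a b c : Type*} [Fintype b] (A : Matrix a b ℤ) (B : Matrix b c ℤ) :
    im (A * B) = im A * im B := Matrix.map_mul (f := Int.castRingHom ℂ)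

theorem im_transpose {a b : Type*} (A : Matrix a b ℤ) : im Aᵀ = (im A)ᴴ := by
  ext i j
  simp [im, Matrix.conjTranspose_apply]

theorem im_det (A : Matrix κ κ ℤ) : (im A).det = ((A.det : ℤ) : ℂ) :=
  ((Int.castRingHom ℂ).map_det A).symm

theorem im_gl (g : GL (Fin N) ℤ) : im (g : Matrix (Fin N) (Fin N) ℤ) = cm g := rfl

/-- a matrix of an integral automorphism on a rational subspace has determinant of absolute value
`≥ 1` -/
theorem one_le_det {B : Matrix (Fin N) κ ℤ} (hB : Function.Injective (im B).mulVec)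
    {γ : GL (Fin N) ℤ} {c : Matrix κ κ ℂ} (h : cm γ * im B = im B * c) (hc : c.det ≠ 0) :
    1 ≤ ‖c.det‖ := by
  have hpow : ∀ n : ℕ, cm (γ ^ n) * im B = im B * c ^ n := by
    intro n
    induction n with
    | zero => rw [pow_zero, pow_zero, Hull_574.cm_one, Matrix.one_mul, Matrix.mul_one]
    | succ n ih =>
      rw [pow_succ', pow_succ', Hull_574.cm_mul, Matrix.mul_assoc, ih, ← Matrix.mul_assoc, h,
        Matrix.mul_assoc]
  have hG : ((im B)ᴴ * im B).PosDef := by
    have h1 := (Matrix.PosDef.one (n := Fin N) (R := ℂ)).conjTranspose_mul_mul_same hB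
    simpa using h1
  set G := (im B)ᴴ * im B with hGdef
  have hG0 : G.det ≠ 0 := hG.det_pos.ne'
  have key : ∀ n : ℕ, 1 ≤ ‖G.det‖ * ‖c.det‖ ^ n := by
    intro n
    set K : Matrix κ κ ℤ := Bᵀ * (((γ ^ n : GL (Fin N) ℤ) : Matrix (Fin N) (Fin N) ℤ) * B) with hK
    have h1 : im K = G * c ^ n := by
      rw [hK, im_mul, im_mul, im_gl, hpow, im_transpose, hGdef, Matrix.mul_assoc]
    have h2 : ((K.det : ℤ) : ℂ) = G.det * c.det ^ n := by
      rw [← im_det, h1, Matrix.det_mul, Matrix.det_pow]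
    have h3 : K.det ≠ 0 := by
      intro h0
      rw [h0] at h2
      simp only [Int.cast_zero] at h2
      exact mul_ne_zero hG0 (pow_ne_zero _ hc) h2.symm
    have h4 : (1 : ℝ) ≤ ‖((K.det : ℤ) : ℂ)‖ := by
      rw [Complex.norm_intCast]
      exact_mod_cast Int.one_le_abs h3
    rw [h2, norm_mul, norm_pow] at h4
    exact h4
  by_contra hlt
  push Not at hlt
  have h5 : Tendsto (fun n : ℕ => ‖G.det‖ * ‖c.det‖ ^ n) atTop (𝓝 (‖G.det‖ * 0)) :=
    (tendsto_pow_atTop_nhds_zero_of_lt_one (norm_nonneg _) hlt).const_mul _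
  rw [mul_zero] at h5
  have h6 := ge_of_tendsto' h5 key
  linarith

/-- unimodularity -/
theorem det_eq_one {B : Matrix (Fin N) κ ℤ} (hB : Function.Injective (im B).mulVec)
    {γ : GL (Fin N) ℤ} {c c' : Matrix κ κ ℂ} (h : cm γ * im B = im B * c)
    (h' : cm γ⁻¹ * im B = im B * c') : ‖c.det‖ = 1 := by
  have h1 : im B * (c * c') = im B * (1 : Matrix κ κ ℂ) := by
    calc im B * (c * c') = cm γ * im B * c' := by rw [← Matrix.mul_assoc, ← h]
      _ = cm γ * (cm γ⁻¹ * im B) := by rw [Matrix.mul_assoc, ← h']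
      _ = im B * (1 : Matrix κ κ ℂ) := by
        rw [← Matrix.mul_assoc, Hull_574.cm_mul_inv, Matrix.one_mul, Matrix.mul_one]
  have h2 : c * c' = 1 := by
    ext i j
    have h3 := congrArg (fun M => M *ᵥ (Pi.single j 1 : κ → ℂ)) h1
    simp only [← Matrix.mulVec_mulVec] at h3
    have h4 := congrFun (hB h3) i
    rw [Matrix.mulVec_mulVec, Matrix.mulVec_single_one, Matrix.mulVec_single_one] at h4
    exact h4
  have h3 : c.det * c'.det = 1 := by rw [← Matrix.det_mul, h2, Matrix.det_one]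
  have hc : c.det ≠ 0 := left_ne_zero_of_mul_eq_one h3
  have hc' : c'.det ≠ 0 := right_ne_zero_of_mul_eq_one h3
  have h4 := one_le_det hB h hc
  have h5 := one_le_det hB h' hc'
  have h6 : ‖c.det‖ * ‖c'.det‖ = 1 := by rw [← norm_mul, h3, norm_one]
  nlinarith

/-- an integral basis of a rational subspace -/
theorem exists_basis (R : Submodule ℚ (Fin N → ℚ)) : ∃ (r : ℕ) (B : Matrix (Fin N) (Fin r) ℤ),
    Function.Injective (im B).mulVec ∧ ∀ v, v ∈ zer R ↔ ∃ c, v = im B *ᵥ c := by
  classical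
  obtain ⟨b, hb, hspan, hli⟩ := exists_linearIndependent ℂ
    {v : Fin N → ℂ | ∃ u : Fin N → ℤ, zv u = v ∧ v ∈ zer R}
  have hfin : b.Finite := hli.setFinite
  have : Fintype b := hfin.fintype
  set e : b ≃ Fin (Fintype.card b) := Fintype.equivFin b
  have hch : ∀ j : Fin (Fintype.card b), ∃ u : Fin N → ℤ, zv u = (e.symm j : Fin N → ℂ) :=
    fun j => by obtain ⟨u, hu, _⟩ := hb (e.symm j).2; exact ⟨u, hu⟩
  choose u hu using hch
  refine ⟨Fintype.card b, Matrix.of fun i j => u j i, ?_, ?_⟩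
  · have h1 : LinearIndependent ℂ (fun j : Fin (Fintype.card b) => (e.symm j : Fin N → ℂ)) :=
      hli.comp _ e.symm.injective
    rw [Matrix.mulVec_injective_iff]
    have h2 : (im (Matrix.of fun i j => u j i : Matrix (Fin N) (Fin (Fintype.card b)) ℤ)).col =
        fun j : Fin (Fintype.card b) => (e.symm j : Fin N → ℂ) := by
      funext j
      rw [← hu j]
      rfl
    rw [h2]
    exact h1
  · intro v
    have h2 : zer R = Submodule.span ℂ (Set.range fun j : Fin (Fintype.card b) =>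
        (e.symm j : Fin N → ℂ)) := by
      rw [zer_eq_span, ← hspan]
      congr 1
      ext x
      constructor
      · intro hx
        exact ⟨e ⟨x, hx⟩, by simp⟩
      · rintro ⟨j, rfl⟩
        exact (e.symm j).2
    rw [h2, Submodule.mem_span_range_iff_exists_fun]
    constructor
    · rintro ⟨c, rfl⟩
      refine ⟨c, ?_⟩
      funext i
      simp only [Matrix.mulVec, dotProduct, im, Matrix.map_apply, Matrix.of_apply,
        Finset.sum_apply, Pi.smul_apply, smul_eq_mul]
      refine Finset.sum_congr rfl fun j _ => ?_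
      rw [← hu j, mul_comm]
      rfl
    · rintro ⟨c, rfl⟩
      refine ⟨c, ?_⟩
      funext i
      simp only [Matrix.mulVec, dotProduct, im, Matrix.map_apply, Matrix.of_apply,
        Finset.sum_apply, Pi.smul_apply, smul_eq_mul]
      refine Finset.sum_congr rfl fun j _ => ?_
      rw [← hu j, mul_comm]
      rfl

end lattice

variable {m N w : ℕ} {X : Type*} [TopologicalSpace X] [RDom m X] {V : Ipc735.VHS m X N w}

/-- **Semisimplicity and fixed part theorem on a model.** -/
theorem mono [T2Space X] [PreconnectedSpace X] {h : MvPolynomial (Fin m) ℂ} (hP : Prp h X)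
    (x₀ : X) : Mono w (V.S x₀) (V.E x₀) (mon V.P x₀) where
  hs := V.hs x₀
  pres := fun g hg => vhs_mon_S V hg
  adE := by
    intro A hA
    obtain ⟨Φ, hΦ, h0, _⟩ := vhs_mat_extend V x₀ hA
    have h1 := mat_fl (x := x₀) (adE_field hP hΦ)
    rw [h0] at h1
    exact h1
  semi := by
    intro R hst
    have := rdom_lc (X := X)
    obtain ⟨r, B₀, hinj, hmem⟩ := exists_basis R
    have hch : ∀ x, ∃ g, Tr V.P x x₀ g := fun x => exists_tr V.ndc x x₀
    choose g hg using hch
    -- the matrix of a monodromy transformation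
    have hc : ∀ k ∈ mon V.P x₀, ∃ c : Matrix (Fin r) (Fin r) ℂ, cm k * im B₀ = im B₀ * c := by
      intro k hk
      have h1 : ∀ j, ∃ c : Fin r → ℂ, cm k *ᵥ (im B₀ *ᵥ Pi.single j 1) = im B₀ *ᵥ c := by
        intro j
        exact (hmem _).1 (hst k hk _ ((hmem _).2 ⟨_, rfl⟩))
      choose c hc using h1
      refine ⟨Matrix.of fun i j => c j i, ?_⟩
      ext i j
      have h2 := congrFun (hc j) i
      rw [Matrix.mulVec_mulVec, Matrix.mulVec_single_one] at h2
      exact h2
    set B : X → Matrix (Fin N) (Fin r) ℂ := fun x => cm (g x) * im B₀ with hBdef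
    have hBinj : ∀ x, Function.Injective (B x).mulVec := by
      intro x a b hab
      have h1 : cm (g x) *ᵥ (im B₀ *ᵥ a) = cm (g x) *ᵥ (im B₀ *ᵥ b) := by
        rw [Matrix.mulVec_mulVec, Matrix.mulVec_mulVec]; exact hab
      have h2 := congrArg (fun v => cm (g x)⁻¹ *ᵥ v) h1
      simp only [Matrix.mulVec_mulVec, ← Matrix.mul_assoc, Hull_574.cm_inv_mul,
        Matrix.one_mul] at h2
      exact hinj h2
    have hflat : ∀ z, ∀ᶠ y in 𝓝 z, ∃ c : Matrix (Fin r) (Fin r) ℂ, ‖c.det‖ = 1 ∧
        cm (V.P z y) * B y = B z * c := by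
      intro z
      filter_upwards [tr_near V.ndc z] with y hy
      have hk : (g z)⁻¹ * (V.P z y * g y) ∈ mon V.P x₀ := (hg z).inv_mul_mem (hy.1.trans (hg y))
      obtain ⟨c, hc1⟩ := hc _ hk
      obtain ⟨c', hc2⟩ := hc _ (inv_mem hk)
      refine ⟨c, det_eq_one hinj hc1 hc2, ?_⟩
      calc cm (V.P z y) * B y = cm (V.P z y * g y) * im B₀ := by
            rw [hBdef, Hull_574.cm_mul, Matrix.mul_assoc]
        _ = cm (g z * ((g z)⁻¹ * (V.P z y * g y))) * im B₀ := by rw [mul_inv_cancel_left]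
        _ = cm (g z) * (cm ((g z)⁻¹ * (V.P z y * g y)) * im B₀) := by
            rw [Hull_574.cm_mul, Matrix.mul_assoc]
        _ = B z * c := by rw [hc1, hBdef, Matrix.mul_assoc]
    have hfl := pj_field hP hBinj hflat
    have hK := HSL_574.hodge_posDef (V.hs x₀)
    refine ⟨SSVar_720.pj (B x₀) (hodge w (V.S x₀) (V.E x₀)), mat_fl (x := x₀) hfl,
      SSVar_720.pj_mul_pj (hBinj x₀) hK, SSVar_720.adj_pj (hBinj x₀) hK, fun v => ?_⟩
    rw [← SSVar_720.mem_range_iff (hBinj x₀) hK, hmem]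
    have hg0 : g x₀ ∈ mon V.P x₀ := hg x₀
    constructor
    · rintro ⟨c, rfl⟩
      obtain ⟨d, hd⟩ := (hmem _).1 (hst _ (inv_mem hg0) _ ((hmem _).2 ⟨c, rfl⟩))
      refine ⟨d, ?_⟩
      rw [hBdef]
      show im B₀ *ᵥ c = (cm (g x₀) * im B₀) *ᵥ d
      rw [← Matrix.mulVec_mulVec, ← hd, Matrix.mulVec_mulVec, Hull_574.cm_mul_inv,
        Matrix.one_mulVec]
    · rintro ⟨c, rfl⟩
      obtain ⟨d, hd⟩ := (hmem _).1 (hst _ hg0 _ ((hmem _).2 ⟨c, rfl⟩))
      refine ⟨d, ?_⟩
      show (cm (g x₀) * im B₀) *ᵥ c = im B₀ *ᵥ d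
      rw [← Matrix.mulVec_mulVec, hd]

end Crest.Agent.R276.Mono_574
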