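import Mathlib
import Crest.Agent.R276.Mono_574
import Crest.Agent.R276.PrpM_739

/-!
# R276, GVHS (helper574): `Mono` on the models of 987
-/

set_option autoImplicit false

noncomputable section

open Set Filter Topology Matrix

namespace Crest.Agent.R276.Mono_574

open Crest.Agent.R271.Defs710 Crest.Agent.R271.Rd692
open Crest.Agent.R271.AlgB956 Crest.Agent.R271.Ho51
open Crest.Agent.R276.Mod1_987 Crest.Agent.R276.Liou_739 Crest.Agent.R276.Ipc735
open Crest.Agent.R276.Tr_617

/-- **`Mono` for every variation on a model** (= `FlatTop_793.MonoAll`) -/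
theorem monoAll {F : Type} [Field F] [Algebra ℂ F] {n : ℕ} (M : Mdl F n) {N w : ℕ}
    (V : VHS n M.Pts N w) (x : M.Pts) : Hull_574.Mono w (V.S x) (V.E x) (mon V.P x) :=
  mono (PrpM_739.prp M) x

end Crest.Agent.R276.Mono_574
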