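import Crest.Agent.R276.SubB_605

/-!
# R276, GVHS-SUB (helper605): lattice bases, flat subspaces, hulls

* `IsInt K` : `K` is spanned by its integral vectors.
* `exists_latBasis` : saturated lattice basis `B` of `K ∩ ℤ^N` with retraction `C`.
* `exists_sub_flat` : flat integral `E`-stable subbundle of constant rank gives `IsSub`.
* `exists_sub_mon` : the same from one subspace stable under the monodromy group at one point.
* `Hul_tr` : the hull of 574 commutes with transports; `exists_sub_Hul`.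
-/

set_option autoImplicit false

noncomputable section

open Set Filter Topology Matrix

namespace Crest.Agent.R276.Sub_605

open Crest.Agent.R271.Ho51 Crest.Agent.R276.Ipc735 Crest.Agent.R276.Hull_574
  Crest.Agent.R276.Tr_617 Crest.Agent.R276.Top8_815 Crest.Agent.R276.VPull_327

theorem ext_mulVec' {a b : ℕ} {A B : Matrix (Fin a) (Fin b) ℂ} (h : ∀ v, A *ᵥ v = B *ᵥ v) :
    A = B := by
  ext i j
  have h2 := congrFun (h (Pi.single j 1)) i
  rw [mulVec_single_one, mulVec_single_one] at h2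
  exact h2

/-! ### lattice bases -/

section lattice

variable {N : ℕ}

theorem zv_add (u v : Fin N → ℤ) : zv (u + v) = zv u + zv v := by
  ext i; simp [zv]

theorem zv_smul (c : ℤ) (u : Fin N → ℤ) : zv (c • u) = (c : ℂ) • zv u := by
  ext i; simp [zv]

theorem zv_zero : zv (0 : Fin N → ℤ) = 0 := by
  ext i; simp [zv]

/-- the integral vectors in `K` -/
def lat (K : Submodule ℂ (Fin N → ℂ)) : Submodule ℤ (Fin N → ℤ) where
  carrier := {v | zv v ∈ K}
  add_mem' := fun {a b} ha hb => by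
    show zv (a + b) ∈ K
    rw [zv_add]
    exact K.add_mem ha hb
  zero_mem' := by
    show zv 0 ∈ K
    rw [zv_zero]
    exact K.zero_mem
  smul_mem' := fun c a ha => by
    show zv (c • a) ∈ K
    rw [zv_smul]
    exact K.smul_mem _ ha

theorem mem_lat {K : Submodule ℂ (Fin N → ℂ)} {v : Fin N → ℤ} : v ∈ lat K ↔ zv v ∈ K := Iff.rfl

/-- `K` is spanned by its integral vectors -/
def IsInt (K : Submodule ℂ (Fin N → ℂ)) : Prop :=
  K ≤ Submodule.span ℂ {v | ∃ u : Fin N → ℤ, zv u = v ∧ v ∈ K}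

theorem isInt_zer (R : Submodule ℚ (Fin N → ℚ)) : IsInt (zer R) := (zer_eq_span R).le

theorem isInt_Hul (Γ : Subgroup (GL (Fin N) ℤ)) (W : Submodule ℂ (Fin N → ℂ)) :
    IsInt (Hul Γ W) := isInt_zer _

theorem torsionFree_quot (K : Submodule ℂ (Fin N → ℂ)) :
    Module.IsTorsionFree ℤ ((Fin N → ℤ) ⧸ lat K) := by
  rw [Module.isTorsionFree_iff_smul_eq_zero]
  intro c q hq
  obtain ⟨v, rfl⟩ := (lat K).mkQ_surjective q
  by_cases hc : c = 0
  · exact Or.inl hc
  · right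
    rw [← map_smul, Submodule.mkQ_apply, Submodule.Quotient.mk_eq_zero, mem_lat, zv_smul] at hq
    rw [Submodule.mkQ_apply, Submodule.Quotient.mk_eq_zero, mem_lat]
    have h1 := K.smul_mem ((c : ℂ)⁻¹) hq
    rwa [smul_smul, inv_mul_cancel₀ (by exact_mod_cast hc), one_smul] at h1

/-- retraction of `ℤ^N` to the saturated lattice -/
theorem exists_retraction (K : Submodule ℂ (Fin N → ℂ)) :
    ∃ ρ : (Fin N → ℤ) →ₗ[ℤ] lat K, ∀ v : lat K, ρ v = v := by
  have := torsionFree_quot K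
  obtain ⟨h, hh⟩ := Module.projective_lifting_property (lat K).mkQ
    (LinearMap.id : ((Fin N → ℤ) ⧸ lat K) →ₗ[ℤ] _) (lat K).mkQ_surjective
  have h1 : ∀ v, v - h ((lat K).mkQ v) ∈ lat K := by
    intro v
    rw [← (Submodule.Quotient.mk_eq_zero (lat K)), ← Submodule.mkQ_apply, map_sub]
    have h2 : (lat K).mkQ (h ((lat K).mkQ v)) = (lat K).mkQ v := by
      have h3 := congrArg (fun f => f ((lat K).mkQ v)) hh
      exact h3
    rw [h2, sub_self]
  refine ⟨LinearMap.codRestrict (lat K) (LinearMap.id - h ∘ₗ (lat K).mkQ) h1, fun v => ?_⟩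
  apply Subtype.ext
  show (v : Fin N → ℤ) - h ((lat K).mkQ v) = v
  have h2 : (lat K).mkQ (v : Fin N → ℤ) = 0 := by
    rw [Submodule.mkQ_apply, Submodule.Quotient.mk_eq_zero]
    exact v.2
  rw [h2, map_zero, sub_zero]

/-- **saturated lattice basis** -/
theorem exists_latBasis (K : Submodule ℂ (Fin N → ℂ)) (hK : IsInt K) {r : ℕ}
    (hr : Module.finrank ℂ K = r) :
    ∃ (B : Matrix (Fin N) (Fin r) ℤ) (C : Matrix (Fin r) (Fin N) ℤ), C * B = 1 ∧
      (∀ v : Fin N → ℤ, zv v ∈ K → B *ᵥ (C *ᵥ v) = v) ∧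
      LinearMap.range (ic B).mulVecLin = K := by
  obtain ⟨ρ, hρ⟩ := exists_retraction K
  obtain ⟨n, ⟨b⟩⟩ : ∃ n, Nonempty (Module.Basis (Fin n) ℤ (lat K)) :=
    ⟨_, ⟨Module.finBasis ℤ (lat K)⟩⟩
  let B : Matrix (Fin N) (Fin n) ℤ := Matrix.of fun i j => (b j : Fin N → ℤ) i
  let C : Matrix (Fin n) (Fin N) ℤ := Matrix.of fun j i => b.repr (ρ (Pi.single i 1)) j
  have hB : ∀ u : Fin n → ℤ, B *ᵥ u = ((∑ j, u j • b j : lat K) : Fin N → ℤ) := by
    intro u
    ext i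
    simp only [B, Matrix.mulVec, dotProduct, Matrix.of_apply, Submodule.coe_sum,
      Submodule.coe_smul, Finset.sum_apply, Pi.smul_apply, smul_eq_mul]
    exact Finset.sum_congr rfl fun j _ => mul_comm _ _
  have hC : ∀ v : Fin N → ℤ, C *ᵥ v = b.repr (ρ v) := by
    intro v
    ext j
    have h1 : v = ∑ i, v i • Pi.single i (1 : ℤ) := by
      ext k
      simp [Finset.sum_apply, Pi.single_apply]
    conv_rhs => rw [h1]
    rw [map_sum, map_sum, Finsupp.coe_finsetSum, Finset.sum_apply]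
    simp only [C, Matrix.mulVec, dotProduct, Matrix.of_apply, map_smul, Finsupp.coe_smul,
      Pi.smul_apply, smul_eq_mul]
    exact Finset.sum_congr rfl fun i _ => mul_comm _ _
  have hCB : C * B = 1 := by
    have h1 : ∀ u : Fin n → ℤ, (C * B) *ᵥ u = u := by
      intro u
      rw [← mulVec_mulVec, hB, hC, hρ]
      ext j
      rw [map_sum, Finsupp.coe_finsetSum, Finset.sum_apply]
      simp only [map_smul, Finsupp.coe_smul, Pi.smul_apply, smul_eq_mul, Module.Basis.repr_self]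
      rw [Finset.sum_eq_single j]
      · simp
      · intro k _ hk
        simp [hk]
      · intro h; exact absurd (Finset.mem_univ _) h
    ext i j
    have h2 := congrFun (h1 (Pi.single j 1)) i
    rw [mulVec_single_one] at h2
    rw [Matrix.one_apply]
    simpa [Matrix.col_apply, Pi.single_apply] using h2
  have hBC : ∀ v : Fin N → ℤ, zv v ∈ K → B *ᵥ (C *ᵥ v) = v := by
    intro v hv
    have h1 : ρ v = ⟨v, hv⟩ := hρ ⟨v, hv⟩
    rw [hC, h1, hB, b.sum_repr]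
  have hrange : LinearMap.range (ic B).mulVecLin = K := by
    apply le_antisymm
    · rintro _ ⟨u, rfl⟩
      rw [mulVecLin_apply]
      have h1 : ic B *ᵥ u = ∑ j, u j • zv (b j : Fin N → ℤ) := by
        ext i
        simp only [Matrix.mulVec, dotProduct, ic_apply, B, Matrix.of_apply, Finset.sum_apply,
          Pi.smul_apply, smul_eq_mul, zv]
        exact Finset.sum_congr rfl fun j _ => mul_comm _ _
      rw [h1]
      exact Submodule.sum_mem _ fun j _ => Submodule.smul_mem _ _ (b j).2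
    · refine hK.trans (Submodule.span_le.2 ?_)
      rintro _ ⟨u, rfl, hu⟩
      refine ⟨zv (C *ᵥ u), ?_⟩
      rw [mulVecLin_apply, ic_mulVec_zv, hBC u hu]
  have hinj : Function.Injective (ic B).mulVecLin := by
    intro u v huv
    exact mulVec_inj (ic_CB hCB) huv
  have hfin : n = r := by
    rw [← hr, ← hrange, LinearMap.finrank_range_of_inj hinj, Module.finrank_fin_fun]
  subst hfin
  exact ⟨B, C, hCB, hBC, hrange⟩

/-- an integral matrix with columns in `K` -/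
theorem mul_of_mem {K : Submodule ℂ (Fin N → ℂ)} {r k : ℕ} {B : Matrix (Fin N) (Fin r) ℤ}
    {C : Matrix (Fin r) (Fin N) ℤ} (hBC : ∀ v : Fin N → ℤ, zv v ∈ K → B *ᵥ (C *ᵥ v) = v)
    (A : Matrix (Fin N) (Fin k) ℤ) (hA : ∀ u : Fin k → ℤ, zv (A *ᵥ u) ∈ K) :
    B * (C * A) = A := by
  have h1 : ∀ u, (B * (C * A)) *ᵥ u = A *ᵥ u := fun u => by
    rw [← mulVec_mulVec, ← mulVec_mulVec, hBC _ (hA u)]
  ext i j
  have h2 := congrFun (h1 (Pi.single j 1)) i
  rw [mulVec_single_one, mulVec_single_one] at h2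
  exact h2

theorem isInt_mapS {K : Submodule ℂ (Fin N → ℂ)} (hK : IsInt K) (g : GL (Fin N) ℤ) :
    IsInt (mapS g K) := by
  intro v hv
  obtain ⟨u, hu, rfl⟩ := hv
  rw [mulVecLin_apply]
  refine Submodule.span_induction (p := fun u _ => cm g *ᵥ u ∈ Submodule.span ℂ
    {v | ∃ u : Fin N → ℤ, zv u = v ∧ v ∈ mapS g K}) ?_ ?_ ?_ ?_ (hK hu)
  · rintro _ ⟨u, rfl, hu⟩
    exact Submodule.subset_span ⟨_, (cm_mulVec_zv g u).symm, mulVec_mem_mapS.2 hu⟩
  · rw [mulVec_zero]; exact Submodule.zero_mem _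
  · intro x y _ _ hx hy
    rw [mulVec_add]; exact Submodule.add_mem _ hx hy
  · intro c x _ hx
    rw [mulVec_smul]; exact Submodule.smul_mem _ _ hx

end lattice

/-! ### flat subbundles -/

section flat

variable {m N r w : ℕ} {X : Type*} [TopologicalSpace X] [RDom m X]

theorem mem_range_ic {B : Matrix (Fin N) (Fin r) ℤ} (u : Fin r → ℤ) :
    zv (B *ᵥ u) ∈ LinearMap.range (ic B).mulVecLin := by
  refine ⟨zv u, ?_⟩
  rw [mulVecLin_apply, ic_mulVec_zv]

/-- lattice bases of a flat subbundle -/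
theorem hflat_of {P : X → X → GL (Fin N) ℤ} {K : X → Submodule ℂ (Fin N → ℂ)} (hfl : FlS P K)
    {B : X → Matrix (Fin N) (Fin r) ℤ} {C : X → Matrix (Fin r) (Fin N) ℤ}
    (hCB : ∀ x, C x * B x = 1)
    (hBC : ∀ x (v : Fin N → ℤ), zv v ∈ K x → B x *ᵥ (C x *ᵥ v) = v)
    (hr : ∀ x, LinearMap.range (ic (B x)).mulVecLin = K x) (z : X) :
    ∀ᶠ y in 𝓝 z, ∃ k : Matrix (Fin r) (Fin r) ℤ, IsUnit k.det ∧
      (P z y : Matrix (Fin N) (Fin N) ℤ) * B y = B z * k := by
  filter_upwards [hfl z] with y hy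
  have h0 : ∀ x (u : Fin r → ℤ), zv (B x *ᵥ u) ∈ K x := fun x u => hr x ▸ mem_range_ic u
  have h1 : B z * (C z * ((P z y : Matrix (Fin N) (Fin N) ℤ) * B y))
      = (P z y : Matrix (Fin N) (Fin N) ℤ) * B y := by
    refine mul_of_mem (hBC z) _ fun u => ?_
    rw [← mulVec_mulVec, ← cm_mulVec_zv, ← hy]
    exact mulVec_mem_mapS.2 (h0 y u)
  have h2 : B y * (C y * ((((P z y)⁻¹ : GL (Fin N) ℤ) : Matrix (Fin N) (Fin N) ℤ) * B z))
      = (((P z y)⁻¹ : GL (Fin N) ℤ) : Matrix (Fin N) (Fin N) ℤ) * B z := by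
    refine mul_of_mem (hBC y) _ fun u => ?_
    rw [← mulVec_mulVec, ← cm_mulVec_zv]
    have h3 := h0 z u
    rw [← hy] at h3
    exact mem_mapS.1 h3
  refine ⟨C z * ((P z y : Matrix (Fin N) (Fin N) ℤ) * B y), ?_, h1.symm⟩
  refine Matrix.isUnit_det_of_right_inverse
    (B := C y * ((((P z y)⁻¹ : GL (Fin N) ℤ) : Matrix (Fin N) (Fin N) ℤ) * B z)) ?_
  apply zmul_inj (hCB z)
  calc B z * (C z * ((P z y : Matrix (Fin N) (Fin N) ℤ) * B y)
        * (C y * ((((P z y)⁻¹ : GL (Fin N) ℤ) : Matrix (Fin N) (Fin N) ℤ) * B z)))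
      = (B z * (C z * ((P z y : Matrix (Fin N) (Fin N) ℤ) * B y)))
        * (C y * ((((P z y)⁻¹ : GL (Fin N) ℤ) : Matrix (Fin N) (Fin N) ℤ) * B z)) := by
        simp only [Matrix.mul_assoc]
    _ = (P z y : Matrix (Fin N) (Fin N) ℤ) * (B y
        * (C y * ((((P z y)⁻¹ : GL (Fin N) ℤ) : Matrix (Fin N) (Fin N) ℤ) * B z))) := by
        rw [h1]; simp only [Matrix.mul_assoc]
    _ = B z * (1 : Matrix (Fin r) (Fin r) ℤ) := by
        rw [h2, ← Matrix.mul_assoc, ← Units.val_mul, mul_inv_cancel, Units.val_one,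
          Matrix.one_mul, Matrix.mul_one]

theorem hE_of {E : Matrix (Fin N) (Fin N) ℂ} {K : Submodule ℂ (Fin N → ℂ)}
    {B : Matrix (Fin N) (Fin r) ℤ} {C : Matrix (Fin r) (Fin N) ℤ} (hCB : C * B = 1)
    (hr : LinearMap.range (ic B).mulVecLin = K) (hE : ∀ v ∈ K, E *ᵥ v ∈ K) :
    ∃ e : Matrix (Fin r) (Fin r) ℂ, E * ic B = ic B * e := by
  refine ⟨ic C * (E * ic B), ?_⟩
  apply ext_mulVec'
  intro u
  have h1 : E *ᵥ (ic B *ᵥ u) ∈ LinearMap.range (ic B).mulVecLin := by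
    rw [hr]
    refine hE _ ?_
    rw [← hr]
    exact ⟨u, rfl⟩
  obtain ⟨a, ha⟩ := h1
  rw [mulVecLin_apply] at ha
  rw [← mulVec_mulVec, ← mulVec_mulVec, ← mulVec_mulVec, ← mulVec_mulVec, ← ha,
    mulVec_mulVec _ (ic C), ic_CB hCB, one_mulVec]

/-- **sub-variation of a flat integral `E`-stable subbundle of constant rank** -/
theorem exists_sub_flat (V : VHS m X N w) {K : X → Submodule ℂ (Fin N → ℂ)}
    (hr : ∀ x, Module.finrank ℂ (K x) = r) (hint : ∀ x, IsInt (K x)) (hfl : FlS V.P K)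
    (hE : ∀ x, ∀ v ∈ K x, V.E x *ᵥ v ∈ K x) :
    ∃ (B : X → Matrix (Fin N) (Fin r) ℤ) (C : X → Matrix (Fin r) (Fin N) ℤ) (V' : VHS m X r w),
      IsSub V B C V' ∧ (∀ x, LinearMap.range (ic (B x)).mulVecLin = K x) ∧
      ∀ x (v : Fin N → ℤ), zv v ∈ K x → B x *ᵥ (C x *ᵥ v) = v := by
  choose B C hCB hBC hrg using fun x => exists_latBasis (K x) (hint x) (hr x)
  exact ⟨B, C, sub V B C hCB (hflat_of hfl hCB hBC hrg) fun x => hE_of (hCB x) (hrg x) (hE x),
    isSub_sub V B C hCB _ _, hrg, hBC⟩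

omit [RDom m X] in
theorem finrank_const [PreconnectedSpace X] [LocallyConnectedSpace X] {P : X → X → GL (Fin N) ℤ} (h : NDC P)
    {K : X → Submodule ℂ (Fin N → ℂ)} (hfl : FlS P K) (x y : X) :
    Module.finrank ℂ (K x) = Module.finrank ℂ (K y) := by
  obtain ⟨g, hg⟩ := exists_tr h x y
  rw [sub_tr hfl hg, finrank_mapS]

/-- **the same over a connected base, rank and integrality at one point** -/
theorem exists_sub_conn [PreconnectedSpace X] (V : VHS m X N w) (x₀ : X)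
    {K : X → Submodule ℂ (Fin N → ℂ)} (hint : IsInt (K x₀)) (hfl : FlS V.P K)
    (hE : ∀ x, ∀ v ∈ K x, V.E x *ᵥ v ∈ K x) :
    ∃ (r : ℕ) (B : X → Matrix (Fin N) (Fin r) ℤ) (C : X → Matrix (Fin r) (Fin N) ℤ)
      (V' : VHS m X r w), r = Module.finrank ℂ (K x₀) ∧
      IsSub V B C V' ∧ (∀ x, LinearMap.range (ic (B x)).mulVecLin = K x) ∧
      ∀ x (v : Fin N → ℤ), zv v ∈ K x → B x *ᵥ (C x *ᵥ v) = v := by
  have := rdom_lc (X := X)
  have hint' : ∀ x, IsInt (K x) := by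
    intro x
    obtain ⟨g, hg⟩ := exists_tr V.ndc x x₀
    rw [sub_tr hfl hg]
    exact isInt_mapS hint g
  obtain ⟨B, C, V', h⟩ := exists_sub_flat V (r := Module.finrank ℂ (K x₀))
    (fun x => finrank_const V.ndc hfl x x₀) hint' hfl hE
  exact ⟨_, B, C, V', rfl, h⟩

/-- **from one subspace stable under the monodromy** -/
theorem exists_sub_mon [PreconnectedSpace X] (V : VHS m X N w) (x₀ : X)
    {K₀ : Submodule ℂ (Fin N → ℂ)} (hint : IsInt K₀) (hst : IsSt (mon V.P x₀) K₀)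
    (hE : ∀ x g, Tr V.P x x₀ g → ∀ v ∈ mapS g K₀, V.E x *ᵥ v ∈ mapS g K₀) :
    ∃ (r : ℕ) (B : X → Matrix (Fin N) (Fin r) ℤ) (C : X → Matrix (Fin r) (Fin N) ℤ)
      (V' : VHS m X r w), r = Module.finrank ℂ K₀ ∧
      IsSub V B C V' ∧
      (∀ x g, Tr V.P x x₀ g → LinearMap.range (ic (B x)).mulVecLin = mapS g K₀) := by
  have := rdom_lc (X := X)
  obtain ⟨K, hK, h0, h1⟩ := vhs_sub_extend V x₀ hst
  obtain ⟨r, B, C, V', hr, hs, hrg, -⟩ := exists_sub_conn V x₀ (K := K) (by rw [h0]; exact hint) hK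
    (fun x => by
      obtain ⟨g, hg⟩ := exists_tr V.ndc x x₀
      rw [h1 x g hg]
      exact hE x g hg)
  exact ⟨r, B, C, V', by rw [hr, h0], hs, fun x g hg => by rw [hrg, h1 x g hg]⟩

end flat

/-! ### hulls -/

section hull

variable {X : Type*} [TopologicalSpace X] {N : ℕ} {P : X → X → GL (Fin N) ℤ} {x y : X}
  {g : GL (Fin N) ℤ}

theorem mapS_le {K L : Submodule ℂ (Fin N → ℂ)} {g : GL (Fin N) ℤ}
    (h : ∀ v ∈ K, cm g *ᵥ v ∈ L) : mapS g K ≤ L := by
  rintro _ ⟨v, hv, rfl⟩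
  exact h v hv

theorem mapS_mono {K L : Submodule ℂ (Fin N → ℂ)} (g : GL (Fin N) ℤ) (h : K ≤ L) :
    mapS g K ≤ mapS g L := Submodule.map_mono h

theorem mapS_fspan_le (h : Tr P x y g) (W : Submodule ℂ (Fin N → ℂ)) :
    mapS g (fspan (mon P y) W) ≤ fspan (mon P x) (mapS g W) := by
  refine mapS_le fun v hv => ?_
  refine Submodule.span_induction (p := fun v _ => cm g *ᵥ v ∈ fspan (mon P x) (mapS g W))
    ?_ ?_ ?_ ?_ hv
  · rintro _ ⟨A, hA, u, hu, rfl⟩
    refine Submodule.subset_span ⟨_, (fl_conj h).1 hA, cm g *ᵥ u, mulVec_mem_mapS.2 hu, ?_⟩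
    rw [mulVec_mulVec, mulVec_mulVec, Matrix.mul_assoc _ (cm g⁻¹), cm_inv_mul, Matrix.mul_one]
  · rw [mulVec_zero]; exact Submodule.zero_mem _
  · intro x y _ _ hx hy
    rw [mulVec_add]; exact Submodule.add_mem _ hx hy
  · intro c x _ hx
    rw [mulVec_smul]; exact Submodule.smul_mem _ _ hx

theorem mapS_hull_le (g : GL (Fin N) ℤ) (W : Submodule ℂ (Fin N → ℂ)) :
    mapS g (hull W) ≤ hull (mapS g W) := by
  refine mapS_le fun v hv => ?_
  intro x hx
  rw [← qm_gq, ← row_mul]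
  refine hv _ fun u hu => ?_
  rw [row_mul, qm_gq]
  exact hx _ (mulVec_mem_mapS.2 hu)

theorem hull_mono {W W' : Submodule ℂ (Fin N → ℂ)} (h : W ≤ W') : hull W ≤ hull W' :=
  fun _ hv x hx => hv x fun u hu => hx u (h hu)

theorem mapS_inv_cancel (g : GL (Fin N) ℤ) (K : Submodule ℂ (Fin N → ℂ)) :
    mapS g (mapS g⁻¹ K) = K := by rw [← mapS_mul, mul_inv_cancel, mapS_one]

theorem mapS_inv_cancel' (g : GL (Fin N) ℤ) (K : Submodule ℂ (Fin N → ℂ)) :
    mapS g⁻¹ (mapS g K) = K := by rw [← mapS_mul, inv_mul_cancel, mapS_one]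

theorem Hul_tr_le (h : Tr P x y g) (W : Submodule ℂ (Fin N → ℂ)) :
    mapS g (Hul (mon P y) W) ≤ Hul (mon P x) (mapS g W) :=
  (mapS_hull_le g _).trans (hull_mono (mapS_fspan_le h W))

/-- **the hull commutes with transports** -/
theorem Hul_tr (h : Tr P x y g) (W : Submodule ℂ (Fin N → ℂ)) :
    Hul (mon P x) (mapS g W) = mapS g (Hul (mon P y) W) := by
  refine le_antisymm ?_ (Hul_tr_le h W)
  have h1 := mapS_mono g (Hul_tr_le h.symm (mapS g W))
  rwa [mapS_inv_cancel, mapS_inv_cancel'] at h1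

/-- the hull of a flat subbundle is flat -/
theorem flS_Hul [LocallyConnectedSpace X] (h : NDC P) {W : X → Submodule ℂ (Fin N → ℂ)}
    (hW : FlS P W) : FlS P (fun x => Hul (mon P x) (W x)) :=
  sub_of_tr h fun x y g hg => by
    show Hul (mon P x) (W x) = mapS g (Hul (mon P y) (W y))
    rw [sub_tr hW hg, Hul_tr hg]

variable {m w : ℕ} [RDom m X]

/-- **the sub-variation of the hull** of a flat subbundle `W` -/
theorem exists_sub_Hul [PreconnectedSpace X] (V : VHS m X N w)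
    (hM : ∀ x, Mono w (V.S x) (V.E x) (mon V.P x)) (x₀ : X)
    {W : X → Submodule ℂ (Fin N → ℂ)} (hW : FlS V.P W) :
    ∃ (r : ℕ) (B : X → Matrix (Fin N) (Fin r) ℤ) (C : X → Matrix (Fin r) (Fin N) ℤ)
      (V' : VHS m X r w), r = Module.finrank ℂ (Hul (mon V.P x₀) (W x₀)) ∧
      IsSub V B C V' ∧
      (∀ x, LinearMap.range (ic (B x)).mulVecLin = Hul (mon V.P x) (W x)) ∧
      ∀ x (v : Fin N → ℤ), zv v ∈ Hul (mon V.P x) (W x) → B x *ᵥ (C x *ᵥ v) = v := by
  have := rdom_lc (X := X)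
  exact exists_sub_conn V x₀ (K := fun x => Hul (mon V.P x) (W x)) (isInt_Hul _ _)
    (flS_Hul V.ndc hW) fun x => Hul_E (hM x) (sub_st hW)

/-- consequences for the transports which are scalars on `W` -/
theorem hul_scalar [PreconnectedSpace X] {r : ℕ} (V : VHS m X N w)
    (hM : ∀ x, Mono w (V.S x) (V.E x) (mon V.P x))
    {W : X → Submodule ℂ (Fin N → ℂ)} (hW : FlS V.P W)
    {B : X → Matrix (Fin N) (Fin r) ℤ} {C : X → Matrix (Fin r) (Fin N) ℤ}
    {V' : VHS m X r w} (hs : IsSub V B C V')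
    (hrg : ∀ x, LinearMap.range (ic (B x)).mulVecLin = Hul (mon V.P x) (W x)) (x₀ : X) :
    ∃ M : ℕ, 0 < M ∧ ∀ (x : X) (g : GL (Fin N) ℤ) (ζ : ℂ), Tr V.P x x g →
      (∀ u ∈ W x, cm g *ᵥ u = ζ • u) →
      ∀ g' : GL (Fin r) ℤ, (g : Matrix (Fin N) (Fin N) ℤ) * B x
          = B x * (g' : Matrix (Fin r) (Fin r) ℤ) →
        g' ^ M = 1 ∧ cm g' * V'.E x = V'.E x * cm g' := by
  have := rdom_lc (X := X)
  obtain ⟨M, hM0, hM1⟩ := Hul_order (hM x₀) (W := W x₀) (sub_st hW)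
  refine ⟨M, hM0, fun x g ζ hg hζ g' hg' => ?_⟩
  have hB : ∀ u, ic (B x) *ᵥ u ∈ Hul (mon V.P x) (W x) := fun u => by
    rw [← hrg]; exact ⟨u, rfl⟩
  have hg'' : cm g * ic (B x) = ic (B x) * cm g' := by
    rw [← ic_gl, ← ic_gl, ← ic_mul, ← ic_mul, hg']
  constructor
  · -- transport to `x₀`
    obtain ⟨k, hk⟩ := exists_tr V.ndc x₀ x
    have h1 : k * g * k⁻¹ ∈ mon V.P x₀ := (mon_conj hk).1 hg
    have h2 : ∀ u ∈ W x₀, cm (k * g * k⁻¹) *ᵥ u = ζ • u := by
      intro u hu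
      have h3 : cm k⁻¹ *ᵥ u ∈ W x := by
        rw [sub_tr hW hk] at hu
        exact mem_mapS.1 hu
      rw [cm_mulVec_mul, cm_mulVec_mul, hζ _ h3, mulVec_smul, ← cm_mulVec_mul, mul_inv_cancel,
        cm_mulVec_one]
    have h4 := hM1 _ h1 ζ h2
    have hpow : ∀ n : ℕ, cm (g ^ n) * ic (B x) = ic (B x) * cm (g' ^ n) := by
      intro n
      induction n with
      | zero => rw [pow_zero, pow_zero, Hull_574.cm_one, Hull_574.cm_one, Matrix.one_mul, Matrix.mul_one]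
      | succ n ih =>
        rw [pow_succ, pow_succ, Hull_574.cm_mul, Hull_574.cm_mul, Matrix.mul_assoc, hg'',
          ← Matrix.mul_assoc, ih, Matrix.mul_assoc]
    have h5 : ∀ u, cm (g' ^ M) *ᵥ u = u := by
      intro u
      apply hs.inj x
      rw [mulVec_mulVec, ← hpow, ← mulVec_mulVec]
      have h6 : cm k *ᵥ (ic (B x) *ᵥ u) ∈ Hul (mon V.P x₀) (W x₀) := by
        rw [sub_tr hW hk, Hul_tr hk]
        exact mulVec_mem_mapS.2 (hB u)
      have h7 := h4 _ h6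
      have h8 : (k * g * k⁻¹) ^ M = k * g ^ M * k⁻¹ := by rw [conj_pow]
      rw [h8, cm_mulVec_mul, cm_mulVec_mul, ← cm_mulVec_mul k⁻¹ k, inv_mul_cancel,
        cm_mulVec_one] at h7
      have h9 := congrArg (fun t => cm k⁻¹ *ᵥ t) h7
      simpa only [← cm_mulVec_mul, inv_mul_cancel_left, inv_mul_cancel, cm_mulVec_one] using h9
    apply Units.ext
    apply ic_injective
    rw [Units.val_one, ic_one, ic_gl]
    apply ext_mulVec'
    intro u
    rw [h5, one_mulVec]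
  · apply ext_mulVec'
    intro u
    apply hs.inj x
    have h1 := Hul_commE (hM x) (sub_st hW) hg hζ _ (hB u)
    calc ic (B x) *ᵥ ((cm g' * V'.E x) *ᵥ u)
        = (ic (B x) * cm g') *ᵥ (V'.E x *ᵥ u) := by
          rw [mulVec_mulVec, mulVec_mulVec, Matrix.mul_assoc]
      _ = cm g *ᵥ (V.E x *ᵥ (ic (B x) *ᵥ u)) := by
          rw [← hg'', ← mulVec_mulVec, mulVec_mulVec _ (V.E x), hs.E, ← mulVec_mulVec]
      _ = V.E x *ᵥ ((cm g * ic (B x)) *ᵥ u) := by rw [h1, mulVec_mulVec _ (cm g)]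
      _ = ic (B x) *ᵥ ((V'.E x * cm g') *ᵥ u) := by
          rw [hg'', ← mulVec_mulVec _ (ic (B x)), mulVec_mulVec _ (V.E x), hs.E,
            ← mulVec_mulVec, mulVec_mulVec _ (V'.E x)]

end hull

end Crest.Agent.R276.Sub_605
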