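import Mathlib
import Crest.Agent.R276.MonoM_574
import Crest.Agent.R276.SubC_605
import Crest.Agent.R276.SkelGeo_220

/-!
# R276, GVHS (helper574): the hull of a line, `LHull`

* `Wsp V om x` : span of all transports of `om` to `x`; it is flat (`flS_Wsp`).
* `exists_hull` : over a connected base with `Mono`, the sub-variation on the hull of `Wsp`; the
  line `om` lives in it, and the monodromies scalar on `Wsp` commute with `E` and have a common
  finite exponent.
* `lHull : SkelGeo_220.LHull`.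
-/

set_option autoImplicit false

noncomputable section

open Set Filter Topology Matrix

namespace Crest.Agent.R276.HullG_574

open Crest.Agent.R271.Ho51 Crest.Agent.R276.Ipc735 Crest.Agent.R276.Hull_574
  Crest.Agent.R276.Tr_617 Crest.Agent.R276.Sub_605
open Crest.Agent.R276.VLevi_327 (CYL hn)

section gen

variable {m N w : ℕ} {X : Type*} [TopologicalSpace X] [RDom m X]

/-- span of all transports of `om` to `x` -/
def Wsp (P : X → X → GL (Fin N) ℤ) (om : X → Fin N → ℂ) (x : X) : Submodule ℂ (Fin N → ℂ) :=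
  Submodule.span ℂ {v | ∃ (y : X) (h : GL (Fin N) ℤ), Tr P x y h ∧ v = cm h *ᵥ om y}

omit [RDom m X] in
theorem tr_self (P : X → X → GL (Fin N) ℤ) (x : X) : Tr P x x 1 := (mon P x).one_mem

omit [RDom m X] in
theorem om_mem (P : X → X → GL (Fin N) ℤ) (om : X → Fin N → ℂ) (x : X) : om x ∈ Wsp P om x :=
  Submodule.subset_span ⟨x, 1, tr_self P x, (cm_mulVec_one _).symm⟩

omit [RDom m X] in
theorem mapS_Wsp_le {P : X → X → GL (Fin N) ℤ} (om : X → Fin N → ℂ) {x y : X}
    {g : GL (Fin N) ℤ} (hg : Tr P x y g) : mapS g (Wsp P om y) ≤ Wsp P om x := by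
  refine mapS_le fun v hv => ?_
  refine Submodule.span_induction (p := fun v _ => cm g *ᵥ v ∈ Wsp P om x) ?_ ?_ ?_ ?_ hv
  · rintro _ ⟨z, h, hh, rfl⟩
    exact Submodule.subset_span ⟨z, g * h, hg.trans hh, by rw [cm_mulVec_mul]⟩
  · rw [mulVec_zero]; exact Submodule.zero_mem _
  · intro u v _ _ hu hv
    rw [mulVec_add]; exact Submodule.add_mem _ hu hv
  · intro c u _ hu
    rw [mulVec_smul]; exact Submodule.smul_mem _ _ hu

omit [RDom m X] in
theorem Wsp_tr {P : X → X → GL (Fin N) ℤ} (om : X → Fin N → ℂ) {x y : X}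
    {g : GL (Fin N) ℤ} (hg : Tr P x y g) : Wsp P om x = mapS g (Wsp P om y) := by
  refine le_antisymm ?_ (mapS_Wsp_le om hg)
  have h1 := mapS_mono g (mapS_Wsp_le om hg.symm)
  rwa [mapS_inv_cancel] at h1

theorem flS_Wsp (V : VHS m X N w) (om : X → Fin N → ℂ) : FlS V.P (Wsp V.P om) := by
  have := rdom_lc (X := X)
  exact sub_of_tr V.ndc fun x y g hg => Wsp_tr om hg

/-- **the hull of a line**: sub-variation in which the monodromies scalar on the flat span of the
line commute with `E` and have a common finite exponent -/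
theorem exists_hull [PreconnectedSpace X] (V : VHS m X N w)
    (hM : ∀ x, Mono w (V.S x) (V.E x) (mon V.P x)) (x₀ : X) {om : X → Fin N → ℂ}
    (hL : CYL V om) :
    ∃ (r : ℕ) (V' : VHS m X r w) (om' : X → Fin r → ℂ), CYL V' om' ∧
      (∀ z, hn V' z (om' z) = hn V z (om z)) ∧
      ∃ e : ℕ, 0 < e ∧ ∀ (x : X) (g : GL (Fin r) ℤ), g ∈ mon V'.P x → ∀ ζ : ℂ,
        (∀ (y : X) (h : GL (Fin r) ℤ), Tr V'.P x y h →
          cm g *ᵥ (cm h *ᵥ om' y) = ζ • (cm h *ᵥ om' y)) →
        cm g * V'.E x = V'.E x * cm g ∧ g ^ e = 1 := by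
  obtain ⟨r, B, C, V', -, hs, hrg, -⟩ := exists_sub_Hul V hM x₀ (flS_Wsp V om)
  have hmem : ∀ x, om x ∈ LinearMap.range (ic (B x)).mulVecLin := fun x => by
    rw [hrg]; exact le_Hul _ (om_mem V.P om x)
  set om' : X → Fin r → ℂ := fun x => ic (C x) *ᵥ om x with hom'
  have hB : ∀ x, ic (B x) *ᵥ om' x = om x := fun x => hs.eq_of_range (hmem x)
  have hhol : ∀ z, HolAt (lV V'.P om' z) z := fun z => hs.holAt_of hmem z (hL.hol z)
  refine ⟨r, V', om', ⟨hhol, fun z => ?_, fun z h0 => ?_, fun z j => ?_⟩, fun z => ?_, ?_⟩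
  · refine (hs.S_herm_eq z (om' z) w).2 ?_
    rw [hB]
    exact hL.eig z
  · apply hL.ne z
    rw [← hB z, h0, mulVec_zero]
  · obtain ⟨c, hc⟩ := hL.par z j
    refine ⟨c, hs.inj z ?_⟩
    have h1 := hs.Dv_hol om' z (hhol z) j
    have h2 : (fun x => ic (B x) *ᵥ om' x) = om := funext hB
    rw [h2] at h1
    have h3 : ic (B z) *ᵥ (fun i => dz j (fun y => lV V'.P om' z y i) z)
        = fun i => dz j (fun y => lV V.P om z y i) z := h1.symm
    rw [h3, hc, mulVec_add, mulVec_smul, mulVec_mulVec, ← hs.dM, ← mulVec_mulVec, hB]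
  · have h1 := hs.hodge_dot z (om' z) (om' z)
    rw [hB] at h1
    exact congrArg Complex.re h1
  · obtain ⟨M, hM0, hM1⟩ := hul_scalar V hM (flS_Wsp V om) hs hrg x₀
    refine ⟨M, hM0, fun x g' hg' ζ h1 => ?_⟩
    obtain ⟨g, hg, hgg⟩ := hs.tr' hg'
    have hgc : cm g * ic (B x) = ic (B x) * cm g' := by
      rw [← ic_gl, ← ic_gl, ← ic_mul, ← ic_mul, hgg]
    have h2 : ∀ u ∈ Wsp V.P om x, cm g *ᵥ u = ζ • u := by
      intro u hu
      refine Submodule.span_induction (p := fun u _ => cm g *ᵥ u = ζ • u) ?_ ?_ ?_ ?_ hu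
      · rintro _ ⟨y, h, hh, rfl⟩
        obtain ⟨h', hh', e⟩ := hs.tr hh
        have hc : cm h * ic (B y) = ic (B x) * cm h' := by
          rw [← ic_gl, ← ic_gl, ← ic_mul, ← ic_mul, e]
        have h4 : cm h *ᵥ om y = ic (B x) *ᵥ (cm h' *ᵥ om' y) := by
          rw [← hB y, mulVec_mulVec, hc, ← mulVec_mulVec]
        rw [h4, mulVec_mulVec, hgc, ← mulVec_mulVec, h1 y h' hh', mulVec_smul]
      · rw [mulVec_zero, smul_zero]
      · intro a b _ _ ha hb
        rw [mulVec_add, ha, hb, smul_add]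
      · intro c a _ ha
        rw [mulVec_smul, ha, smul_comm]
    obtain ⟨h3, h4⟩ := hM1 x g ζ hg h2 g' hgg
    exact ⟨h4, h3⟩

end gen

/-! ### `LHull` -/

open Crest.Agent.R276.Mod1_987 Crest.Agent.R276.SkelGeo_220 in
theorem geoD_hull {L K : Type} [Field L] [Field K] [Algebra ℂ L] [Algebra ℂ K] [Algebra L K]
    [IsScalarTower ℂ L K] {m r : ℕ} {R : RMdl L K m r} {N s : ℕ} {σ : Fin s → K}
    (X : GeoD R N σ) : ∃ X' : GeoD R N σ, X'.Hull := by
  obtain ⟨x₀⟩ := (inferInstance : Nonempty R.ML.Pts)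
  obtain ⟨n', V', om', hL', hn', hH⟩ := exists_hull X.V (Mono_574.monoAll R.ML X.V) x₀ X.cyl
  exact ⟨⟨X.mem, X.sat, n', X.wt, V', om', hL', X.c, X.c_pos, fun z => by
    rw [hn', X.nrm]⟩, hH⟩

/-- **`LHull`** -/
theorem lHull : SkelGeo_220.LHull := fun _ _ _ _ _ _ _ _ _ _ _ _ _ _ _ ⟨X⟩ => geoD_hull X

end Crest.Agent.R276.HullG_574
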