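import Crest.Agent.R276.SubC_605
import Crest.Agent.R276.Mono_574
import Crest.Agent.R276.VLevi2_327

/-!
# R276, GVHS (helper720): the hull package

`P` near-diagonal cocycle over a Riemann domain, `om` a section, holomorphic when seen from each point.

* `ident`, `id_tr` : identity theorem, along a set and along chain transports.
* `Wf P om x` : span of the transports of `om` to `x`; flat (`wf_flat`).
* `HulS V om M` : every monodromy which is a scalar on `Wf` commutes with `E` and has exponent `M`.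
* `HullP V om M` : the same with the scalar condition on the germ of `om` only; `HulS.hullP`.
* `exists_hull` : sub-variation `V'` of the rational hull with `HulS V' om' M`.
* `cyl_sub`, `hn_sub` : transfer of `VLevi_327.CYL` and of the norm to a sub-variation.
-/

set_option autoImplicit false

noncomputable section

open Set Filter Topology Matrix

namespace Crest.Agent.R276.HullV_720

open Crest.Agent.R271.Ho51 Crest.Agent.R276.Ipc735 Crest.Agent.R276.Hull_574
  Crest.Agent.R276.Tr_617 Crest.Agent.R276.Sub_605 Crest.Agent.R276.Liou_739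
open Crest.Agent.R276.Par_425 (Dv holAt_congr holAt_near ndc_self)
open Crest.Agent.R276.VLevi_327 (CYL hn)

/-! ### identity theorem -/

section ident

variable {m k : ℕ} {X : Type*} [TopologicalSpace X] [RDom m X]

/-- local identity theorem -/
theorem ev_zero_of_closure {F : X → Fin k → ℂ} {z : X} (hF : HolAt F z)
    (hz : z ∈ closure {y | ∀ᶠ x in 𝓝 y, F x = 0}) : ∀ᶠ x in 𝓝 z, F x = 0 := by
  have hF' : AnalyticAt ℂ (F ∘ (ch z).symm) (cp z) := hF
  have h1 := hF'.eventually_analyticAt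
  have h2 : ∀ᶠ p in 𝓝 (cp z : Fin m → ℂ), p ∈ (ch z).target :=
    (ch z).open_target.mem_nhds ((isCh_ch z).cp_mem (mem_ch z))
  obtain ⟨ρ, hρ, hball⟩ := Metric.eventually_nhds_iff_ball.1 (h1.and h2)
  have hW : IsOpen ((ch z).source ∩ cp ⁻¹' (Metric.ball (cp z : Fin m → ℂ) ρ)) :=
    (ch z).open_source.inter (Metric.isOpen_ball.preimage cp_cont)
  have hzW : z ∈ (ch z).source ∩ cp ⁻¹' (Metric.ball (cp z : Fin m → ℂ) ρ) :=
    ⟨mem_ch z, Metric.mem_ball_self hρ⟩
  obtain ⟨y, ⟨hye, hyb⟩, hyS⟩ := mem_closure_iff.1 hz _ hW hzW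
  have hA : AnalyticOnNhd ℂ (F ∘ (ch z).symm) (Metric.ball (cp z : Fin m → ℂ) ρ) :=
    fun w hw => (hball w hw).1
  have h3 : ∀ᶠ w in 𝓝 (cp y : Fin m → ℂ), (F ∘ (ch z).symm) w = 0 := by
    have h4 : ContinuousAt (ch z).symm (cp y) :=
      (ch z).symm.continuousAt (by simpa using (isCh_ch z).cp_mem hye)
    have h5 := h4.tendsto
    rw [(isCh_ch z).symm_cp hye] at h5
    exact h5.eventually hyS
  have h6 := hA.eqOn_zero_of_preconnected_of_eventuallyEq_zero
    (convex_ball _ _).isPreconnected hyb h3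
  filter_upwards [hW.mem_nhds hzW] with x hx
  have h7 := h6 hx.2
  have h8 : F ((ch z).symm (cp x)) = 0 := h7
  rwa [(isCh_ch z).symm_cp hx.1] at h8

/-- **identity theorem** on a preconnected set -/
theorem ident {U : Set X} (hc : IsPreconnected U) {F : X → Fin k → ℂ}
    (hF : ∀ z ∈ U, HolAt F z) {x : X} (hx : x ∈ U) (h0 : ∀ᶠ y in 𝓝 x, F y = 0) :
    ∀ z ∈ U, ∀ᶠ y in 𝓝 z, F y = 0 := by
  have hSo : IsOpen {y | ∀ᶠ x in 𝓝 y, F x = 0} := isOpen_setOfPred_eventually_nhds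
  have h1 : U ⊆ {y | ∀ᶠ x in 𝓝 y, F x = 0} :=
    hc.subset_of_closure_inter_subset hSo ⟨x, hx, h0⟩
      fun z hz => ev_zero_of_closure (hF z hz.2) hz.1
  exact fun z hz => h1 hz

end ident

/-! ### (ID) along transports -/

section idtr

variable {m N k : ℕ} {X : Type*} [TopologicalSpace X] [RDom m X] {P : X → X → GL (Fin N) ℤ}
  {om : X → Fin N → ℂ}

/-- a linear image of the section seen from a point of a good set is holomorphic on it -/
theorem holAt_gd {U : Set X} (hU : Gd P U) (hol : ∀ z, HolAt (lV P om z) z)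
    (A : Matrix (Fin k) (Fin N) ℂ) {x : X} (hx : x ∈ U) :
    ∀ u ∈ U, HolAt (fun y => A *ᵥ lV P om x y) u := by
  intro u hu
  have h1 : HolAt (fun y => (A * cm (P x u)) *ᵥ lV P om u y) u :=
    ((LinearMap.toContinuousLinearMap (Matrix.mulVecLin (A * cm (P x u)))).analyticAt _).comp
      (f := lV P om u ∘ (ch u).symm) (hol u)
  refine holAt_congr ?_ h1
  filter_upwards [hU.op.mem_nhds hu] with y hy
  show (A * cm (P x u)) *ᵥ (cm (P u y) *ᵥ om y) = A *ᵥ (cm (P x y) *ᵥ om y)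
  rw [mulVec_mulVec, mulVec_mulVec, Matrix.mul_assoc, ← Hull_574.cm_mul, hU.mul x hx u hu y hy]

/-- **(ID)** a linear relation between the components of the germ of `om` continues along
transports -/
theorem id_tr (hol : ∀ z, HolAt (lV P om z) z) {x z : X} {g : GL (Fin N) ℤ} (hg : Tr P x z g)
    (A : Matrix (Fin k) (Fin N) ℂ) (hA : ∀ᶠ y in 𝓝 x, A *ᵥ lV P om x y = 0) :
    ∀ᶠ y in 𝓝 z, A *ᵥ (cm g *ᵥ lV P om z y) = 0 := by
  induction hg generalizing A with
  | refl x =>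
    filter_upwards [hA] with y hy
    rw [cm_mulVec_one, hy]
  | @step x y z g U hU hx hy _ ih =>
    have h1 : ∀ᶠ u in 𝓝 y, A *ᵥ lV P om x u = 0 :=
      ident hU.pc (holAt_gd hU hol A hx) hx hA y hy
    have h2 : ∀ᶠ u in 𝓝 y, (A * cm (P x y)) *ᵥ lV P om y u = 0 := by
      filter_upwards [h1, hU.op.mem_nhds hy] with u hu huU
      rw [← hu]
      show (A * cm (P x y)) *ᵥ (cm (P y u) *ᵥ om u) = A *ᵥ (cm (P x u) *ᵥ om u)
      rw [mulVec_mulVec, mulVec_mulVec, Matrix.mul_assoc, ← Hull_574.cm_mul,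
        hU.mul x hx y hy u huU]
    filter_upwards [ih _ h2] with u hu
    rw [← hu, cm_mulVec_mul, mulVec_mulVec _ A]

/-- (ID) at the end point -/
theorem id_tr' (h : NDC P) (hol : ∀ z, HolAt (lV P om z) z) {x z : X} {g : GL (Fin N) ℤ}
    (hg : Tr P x z g) (A : Matrix (Fin k) (Fin N) ℂ) (hA : ∀ᶠ y in 𝓝 x, A *ᵥ lV P om x y = 0) :
    A *ᵥ (cm g *ᵥ om z) = 0 := by
  have h1 := (id_tr hol hg A hA).self_of_nhds
  have h2 : lV P om z z = om z := by rw [lV, ndc_self h, cm_mulVec_one]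
  rwa [h2] at h1

end idtr

/-! ### the flat span -/

section span

variable {N : ℕ} {X : Type*} [TopologicalSpace X] {P : X → X → GL (Fin N) ℤ}
  {om : X → Fin N → ℂ} {x y : X} {g : GL (Fin N) ℤ}

/-- span of the transports of `om` -/
def Wf (P : X → X → GL (Fin N) ℤ) (om : X → Fin N → ℂ) (x : X) : Submodule ℂ (Fin N → ℂ) :=
  Submodule.span ℂ {v | ∃ y h, Tr P x y h ∧ cm h *ᵥ om y = v}

theorem mem_wf {h : GL (Fin N) ℤ} (hh : Tr P x y h) : cm h *ᵥ om y ∈ Wf P om x :=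
  Submodule.subset_span ⟨y, h, hh, rfl⟩

theorem om_mem_wf : om x ∈ Wf P om x := by
  have h1 := mem_wf (om := om) (Tr.refl (P := P) x)
  rwa [cm_mulVec_one] at h1

theorem wf_tr_le (hg : Tr P x y g) : mapS g (Wf P om y) ≤ Wf P om x := by
  refine mapS_le fun v hv => ?_
  refine Submodule.span_induction (p := fun v _ => cm g *ᵥ v ∈ Wf P om x) ?_ ?_ ?_ ?_ hv
  · rintro _ ⟨z, h, hh, rfl⟩
    rw [← cm_mulVec_mul]
    exact mem_wf (hg.trans hh)
  · rw [mulVec_zero]; exact Submodule.zero_mem _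
  · intro a b _ _ ha hb
    rw [mulVec_add]; exact Submodule.add_mem _ ha hb
  · intro c a _ ha
    rw [mulVec_smul]; exact Submodule.smul_mem _ _ ha

theorem wf_tr (hg : Tr P x y g) : Wf P om x = mapS g (Wf P om y) := by
  refine le_antisymm ?_ (wf_tr_le hg)
  have h1 := mapS_mono g (wf_tr_le (om := om) hg.symm)
  rwa [mapS_inv_cancel] at h1

/-- **(W)** `Wf` is flat -/
theorem wf_flat [LocallyConnectedSpace X] (h : NDC P) : FlS P (Wf P om) :=
  sub_of_tr h fun _ _ _ hg => wf_tr hg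

/-- a linear property of the transports of `om` holds on `Wf` -/
theorem wf_scalar {ζ : ℂ} {T : Matrix (Fin N) (Fin N) ℂ}
    (hT : ∀ (y : X) (h : GL (Fin N) ℤ), Tr P x y h →
      T *ᵥ (cm h *ᵥ om y) = ζ • (cm h *ᵥ om y)) : ∀ u ∈ Wf P om x, T *ᵥ u = ζ • u := by
  intro u hu
  refine Submodule.span_induction (p := fun u _ => T *ᵥ u = ζ • u) ?_ ?_ ?_ ?_ hu
  · rintro _ ⟨z, h, hh, rfl⟩
    exact hT z h hh
  · rw [mulVec_zero, smul_zero]
  · intro a b _ _ ha hb
    rw [mulVec_add, ha, hb, smul_add]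
  · intro c a _ ha
    rw [mulVec_smul, ha, smul_comm]

end span

/-! ### the two forms of the output -/

section outp

variable {m N w : ℕ} {X : Type*} [TopologicalSpace X] [RDom m X]

/-- every monodromy which is a scalar on the transports of `om` commutes with `E` and has exponent
`M` -/
def HulS (V : VHS m X N w) (om : X → Fin N → ℂ) (M : ℕ) : Prop :=
  ∀ (x : X) (g : GL (Fin N) ℤ), g ∈ mon V.P x → ∀ ζ : ℂ,
    (∀ (y : X) (h : GL (Fin N) ℤ), Tr V.P x y h →
      cm g *ᵥ (cm h *ᵥ om y) = ζ • (cm h *ᵥ om y)) →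
    cm g * V.E x = V.E x * cm g ∧ g ^ M = 1

/-- the same with the scalar condition on the germ of `om` -/
def HullP (V : VHS m X N w) (om : X → Fin N → ℂ) (M : ℕ) : Prop :=
  0 < M ∧ ∀ x, ∀ T ∈ mon V.P x, ∀ ζ : ℂ,
    (∀ᶠ y in 𝓝 x, cm T *ᵥ lV V.P om x y = ζ • lV V.P om x y) →
    T ^ M = 1 ∧ cm T * V.E x = V.E x * cm T

theorem sub_smul_mulVec (A : Matrix (Fin N) (Fin N) ℂ) (ζ : ℂ) (v : Fin N → ℂ) :
    (A - ζ • (1 : Matrix (Fin N) (Fin N) ℂ)) *ᵥ v = A *ᵥ v - ζ • v := by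
  rw [Matrix.sub_mulVec, Matrix.smul_mulVec, one_mulVec]

/-- scalar on the germ implies scalar on all transports -/
theorem scalar_germ {P : X → X → GL (Fin N) ℤ} (h : NDC P) {om : X → Fin N → ℂ}
    (hol : ∀ z, HolAt (lV P om z) z) {x : X} {T : Matrix (Fin N) (Fin N) ℂ} {ζ : ℂ}
    (hT : ∀ᶠ y in 𝓝 x, T *ᵥ lV P om x y = ζ • lV P om x y) (y : X) (k : GL (Fin N) ℤ)
    (hk : Tr P x y k) : T *ᵥ (cm k *ᵥ om y) = ζ • (cm k *ᵥ om y) := by
  have h1 := id_tr' h hol hk (T - ζ • (1 : Matrix (Fin N) (Fin N) ℂ)) (by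
    filter_upwards [hT] with u hu
    rw [sub_smul_mulVec, hu, sub_self])
  rw [sub_smul_mulVec] at h1
  exact sub_eq_zero.1 h1

theorem HulS.hullP {V : VHS m X N w} {om : X → Fin N → ℂ} {M : ℕ} (h : HulS V om M)
    (hM : 0 < M) (hol : ∀ z, HolAt (lV V.P om z) z) : HullP V om M :=
  ⟨hM, fun x T hT ζ hζ => (h x T hT ζ (scalar_germ V.ndc hol hζ)).symm⟩

theorem HullP.hulS {V : VHS m X N w} {om : X → Fin N → ℂ} {M : ℕ} (h : HullP V om M) :
    HulS V om M := by
  have := rdom_lc (X := X)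
  intro x g hg ζ hζ
  refine (h.2 x g hg ζ ?_).symm
  filter_upwards [tr_near V.ndc x] with y hy
  exact hζ y _ hy.1

/-- such a monodromy preserves the Hodge metric -/
theorem hodge_pres {V : VHS m X N w} {x : X} {g : GL (Fin N) ℤ} (hg : g ∈ mon V.P x)
    (hE : cm g * V.E x = V.E x * cm g) :
    (cm g)ᴴ * hodge w (V.S x) (V.E x) * cm g = hodge w (V.S x) (V.E x) := by
  have h1 : ∀ q : Polynomial ℂ, Polynomial.aeval (V.E x) q * cm g
      = cm g * Polynomial.aeval (V.E x) q := by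
    intro q
    have h2 : Commute (V.E x) (cm g) := hE.symm
    have h3 : Commute (Polynomial.aeval (V.E x) q) (cm g) := by
      induction q using Polynomial.induction_on' with
      | add p q hp hq => rw [map_add]; exact hp.add_left hq
      | monomial n a =>
        rw [Polynomial.aeval_monomial]
        have h4 : Commute (algebraMap ℂ (Matrix (Fin N) (Fin N) ℂ) a) (cm g) :=
          Algebra.commutes a (cm g)
        exact h4.mul_left (h2.pow_left n)
    exact h3
  have h2 : weil w (V.E x) * cm g = cm g * weil w (V.E x) := by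
    rw [weil, Finset.sum_mul, Finset.mul_sum]
    refine Finset.sum_congr rfl fun p _ => ?_
    rw [Matrix.smul_mul, Matrix.mul_smul, hpr, h1]
  have h3 := vhs_mon_S V hg
  rw [hodge]
  calc (cm g)ᴴ * (V.S x * weil w (V.E x)) * cm g
      = (cm g)ᴴ * V.S x * (weil w (V.E x) * cm g) := by simp only [Matrix.mul_assoc]
    _ = ((cm g)ᴴ * V.S x * cm g) * weil w (V.E x) := by rw [h2]; simp only [Matrix.mul_assoc]
    _ = _ := by rw [h3]

end outp

/-! ### the hull -/

section hull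

variable {m N w : ℕ} {X : Type*} [TopologicalSpace X] [RDom m X]

/-- transfer of `HulS` from the hull inside `V` to the sub-variation -/
theorem hulS_of {r : ℕ} {V : VHS m X N w} {om : X → Fin N → ℂ}
    {B : X → Matrix (Fin N) (Fin r) ℤ} {C : X → Matrix (Fin r) (Fin N) ℤ}
    {V' : VHS m X r w} (hs : IsSub V B C V') {om' : X → Fin r → ℂ}
    (hom : ∀ x, om x = ic (B x) *ᵥ om' x) {M : ℕ}
    (hM : ∀ (x : X) (g : GL (Fin N) ℤ) (ζ : ℂ), Tr V.P x x g →
      (∀ u ∈ Wf V.P om x, cm g *ᵥ u = ζ • u) →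
      ∀ g' : GL (Fin r) ℤ, (g : Matrix (Fin N) (Fin N) ℤ) * B x
          = B x * (g' : Matrix (Fin r) (Fin r) ℤ) →
        g' ^ M = 1 ∧ cm g' * V'.E x = V'.E x * cm g') : HulS V' om' M := by
  intro x g' hg' ζ hζ
  obtain ⟨g, hg, hgg⟩ := hs.tr' hg'
  refine (hM x g ζ hg (wf_scalar fun y h hh => ?_) g' hgg).symm
  obtain ⟨h', hh', hhh⟩ := hs.tr hh
  have e1 : cm h *ᵥ om y = ic (B x) *ᵥ (cm h' *ᵥ om' y) := by
    rw [hom, mulVec_mulVec, mulVec_mulVec, ← ic_gl, ← ic_gl, ← ic_mul, ← ic_mul, hhh]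
  have e2 : ∀ v, cm g *ᵥ (ic (B x) *ᵥ v) = ic (B x) *ᵥ (cm g' *ᵥ v) := fun v => by
    rw [mulVec_mulVec, mulVec_mulVec, ← ic_gl, ← ic_gl, ← ic_mul, ← ic_mul, hgg]
  rw [e1, e2, hζ y h' hh', mulVec_smul]

/-- **(H)** the sub-variation of the hull of the flat span of `om` -/
theorem exists_hull [T2Space X] [PreconnectedSpace X] {h : MvPolynomial (Fin m) ℂ}
    (hP : Prp h X) (V : VHS m X N w) {om : X → Fin N → ℂ} (hol : ∀ z, HolAt (lV V.P om z) z) :
    ∃ (r : ℕ) (B : X → Matrix (Fin N) (Fin r) ℤ) (C : X → Matrix (Fin r) (Fin N) ℤ)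
      (V' : VHS m X r w) (om' : X → Fin r → ℂ), IsSub V B C V' ∧
      (∀ x, om x = ic (B x) *ᵥ om' x) ∧ (∀ z, HolAt (lV V'.P om' z) z) ∧
      ∃ M : ℕ, 0 < M ∧ HulS V' om' M := by
  have := rdom_lc (X := X)
  rcases isEmpty_or_nonempty X with hX | ⟨⟨x₀⟩⟩
  · refine ⟨N, fun _ => 1, fun _ => 1, V, om, ⟨fun x => hX.elim x, fun x => hX.elim x,
      fun x => hX.elim x, fun x => hX.elim x⟩, fun x => hX.elim x, fun x => hX.elim x, 1, one_pos,
      fun x => hX.elim x⟩
  have hM : ∀ x, Mono w (V.S x) (V.E x) (mon V.P x) := fun x => Mono_574.mono hP x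
  have hW : FlS V.P (Wf V.P om) := wf_flat V.ndc
  obtain ⟨r, B, C, V', -, hs, hrg, -⟩ := exists_sub_Hul V hM x₀ hW
  obtain ⟨M, hM0, hM1⟩ := hul_scalar V hM hW hs hrg x₀
  have hmem : ∀ x, om x ∈ LinearMap.range (ic (B x)).mulVecLin := fun x => by
    rw [hrg]
    exact le_Hul _ om_mem_wf
  have hom : ∀ x, om x = ic (B x) *ᵥ (ic (C x) *ᵥ om x) := fun x => (hs.eq_of_range (hmem x)).symm
  refine ⟨r, B, C, V', fun x => ic (C x) *ᵥ om x, hs, hom,
    fun z => hs.holAt_of hmem z (hol z), M, hM0, hulS_of hs hom hM1⟩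

end hull

/-! ### transfer of the CY line -/

section cyl

variable {m N w r : ℕ} {X : Type*} [TopologicalSpace X] [RDom m X] {V : VHS m X N w}
  {B : X → Matrix (Fin N) (Fin r) ℤ} {C : X → Matrix (Fin r) (Fin N) ℤ} {V' : VHS m X r w}
  {om : X → Fin N → ℂ} {om' : X → Fin r → ℂ}

theorem cyl_sub (hs : IsSub V B C V') (hom : ∀ x, om x = ic (B x) *ᵥ om' x)
    (hc : CYL V om) : CYL V' om' where
  hol := fun z => by
    rw [hs.holAt om' z]
    have h1 := hc.hol z
    have h2 : om = fun x => ic (B x) *ᵥ om' x := funext hom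
    rwa [h2] at h1
  eig := fun z => by
    rw [hs.S_herm_eq z (om' z) w, ← hom]
    exact hc.eig z
  ne := fun z h0 => hc.ne z (by rw [hom, h0, mulVec_zero])
  par := fun z j => by
    obtain ⟨c, hcc⟩ := hc.par z j
    refine ⟨c, ?_⟩
    have h2 : om = fun x => ic (B x) *ᵥ om' x := funext hom
    have h1 : HolAt (lV V'.P om' z) z := by
      rw [hs.holAt om' z]
      have h1 := hc.hol z
      rwa [h2] at h1
    have h3 := hs.Dv_hol om' z h1 j
    rw [← h2] at h3
    apply hs.inj z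
    have h4 : Dv V.P om j z = dM V.P V.E j z *ᵥ om z + c • om z := hcc
    show ic (B z) *ᵥ Dv V'.P om' j z = _
    rw [← h3, h4, hom z, mulVec_add, mulVec_smul, mulVec_mulVec, mulVec_mulVec, hs.dM]

theorem hn_sub (hs : IsSub V B C V') (hom : ∀ x, om x = ic (B x) *ᵥ om' x) (z : X) :
    hn V' z (om' z) = hn V z (om z) := by
  have h1 := hs.hodge_dot z (om' z) (om' z)
  rw [← hom] at h1
  show (star (om' z) ⬝ᵥ hodge w (V'.S z) (V'.E z) *ᵥ om' z).re
    = (star (om z) ⬝ᵥ hodge w (V.S z) (V.E z) *ᵥ om z).re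
  rw [h1]

end cyl

end Crest.Agent.R276.HullV_720
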