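import Mathlib
import Crest.Agent.R276.EndL_663

/-!
# R276, leaf IPC-GL5 (helper827), part 1: one end, in the plane coordinate

A `1`-form on an open subset of `ℂ` is a map `F : ℂ → ℂ →L[ℝ] ℝ`; `dv F` is its divergence.
`φ` is a holomorphic map from a half plane `{s0 < Re w}` to the domain, `φ (w + 2 π i) = φ w`,
for instance `a + exp (-w)` (a puncture) or `exp w` (infinity).
-/

set_option autoImplicit false

open Filter Topology Set MeasureTheory

namespace Crest.Agent.R276.IpcE2_827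

/-- "divergence" of a 1-form on `ℂ` -/
noncomputable def dv (F : ℂ → ℂ →L[ℝ] ℝ) (z : ℂ) : ℝ :=
  fderiv ℝ F z 1 1 + fderiv ℝ F z Complex.I Complex.I

/-- the point `s + iθ` -/
noncomputable def pt (s θ : ℝ) : ℂ := s + θ * Complex.I

/-- the half plane -/
def Hp (s0 : ℝ) : Set ℂ := {w | s0 < w.re}

@[simp] theorem pt_re (s θ : ℝ) : (pt s θ).re = s := by simp [pt]
@[simp] theorem pt_im (s θ : ℝ) : (pt s θ).im = θ := by simp [pt]

theorem continuous_pt : Continuous (fun p : ℝ × ℝ => pt p.1 p.2) := by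
  unfold pt; fun_prop

theorem isOpen_Hp (s0 : ℝ) : IsOpen (Hp s0) := isOpen_lt continuous_const Complex.continuous_re

theorem hasDerivAt_pt_s (s θ : ℝ) : HasDerivAt (fun s : ℝ => pt s θ) 1 s := by
  unfold pt
  simpa using (Complex.ofRealCLM.hasDerivAt (x := s)).add_const (↑θ * Complex.I)

theorem hasDerivAt_pt_t (s θ : ℝ) : HasDerivAt (fun θ : ℝ => pt s θ) Complex.I θ := by
  unfold pt
  simpa using ((Complex.ofRealCLM.hasDerivAt (x := θ)).mul_const Complex.I).const_add (s : ℂ)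

/-- differentiation of circle integrals -/
theorem ci_deriv {s0 s : ℝ} {u : ℂ → ℝ} (hu : ContDiffOn ℝ 1 u (Hp s0)) (hs : s0 < s) :
    HasDerivAt (fun s => ∫ θ in (-Real.pi)..Real.pi, u (pt s θ))
      (∫ θ in (-Real.pi)..Real.pi, fderiv ℝ u (pt s θ) 1) s := by
  have hS := isOpen_Hp s0
  have hfd : ContinuousOn (fderiv ℝ u) (Hp s0) :=
    hu.continuousOn_fderiv_of_isOpen hS le_rfl
  set δ := (s - s0) / 2 with hδ
  have hδ0 : 0 < δ := by rw [hδ]; linarith
  set K : Set (ℝ × ℝ) := Icc (s - δ) (s + δ) ×ˢ Icc (-Real.pi) Real.pi with hK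
  have hKc : IsCompact K := isCompact_Icc.prod isCompact_Icc
  have hmaps : MapsTo (fun p : ℝ × ℝ => pt p.1 p.2) K (Hp s0) := by
    rintro ⟨x, θ⟩ ⟨hx, -⟩
    simp only [Hp, mem_ofPred_eq, pt_re]
    have := hx.1
    simp only at this
    linarith
  have hcont : ContinuousOn (fun p : ℝ × ℝ => fderiv ℝ u (pt p.1 p.2) 1) K :=
    (hfd.comp continuous_pt.continuousOn hmaps).clm_apply continuousOn_const
  obtain ⟨M, hM⟩ := hKc.exists_bound_of_continuousOn hcont
  have hpi : -Real.pi ≤ Real.pi := by linarith [Real.pi_pos]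
  have hnb : Metric.ball s δ ∈ 𝓝 s := Metric.ball_mem_nhds _ hδ0
  have hin : ∀ x ∈ Metric.ball s δ, x ∈ Icc (s - δ) (s + δ) := by
    intro x hx
    rw [Real.ball_eq_Ioo] at hx
    exact ⟨hx.1.le, hx.2.le⟩
  have hmem : ∀ x ∈ Metric.ball s δ, ∀ θ, pt x θ ∈ Hp s0 := by
    intro x hx θ
    have := (hin x hx).1
    simp only [Hp, mem_ofPred_eq, pt_re]
    linarith
  have hsec : ∀ x ∈ Metric.ball s δ, Continuous fun θ => u (pt x θ) := by
    intro x hx
    rw [← continuousOn_univ]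
    exact hu.continuousOn.comp
      ((continuous_pt.comp (continuous_const.prodMk continuous_id)).continuousOn (s := univ))
      (fun θ _ => hmem x hx θ)
  have hsec' : ∀ x ∈ Metric.ball s δ, Continuous fun θ => fderiv ℝ u (pt x θ) 1 := by
    intro x hx
    rw [← continuousOn_univ]
    exact (hfd.comp
      ((continuous_pt.comp (continuous_const.prodMk continuous_id)).continuousOn (s := univ))
      (fun θ _ => hmem x hx θ)).clm_apply continuousOn_const
  refine (intervalIntegral.hasDerivAt_integral_of_dominated_loc_of_deriv_le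
    (F := fun x θ => u (pt x θ)) (F' := fun x θ => fderiv ℝ u (pt x θ) 1)
    (bound := fun _ => M) hnb ?_ ?_ ?_ ?_ ?_ ?_).2
  · filter_upwards [hnb] with x hx
    exact (hsec x hx).aestronglyMeasurable
  · exact (hsec s (Metric.mem_ball_self hδ0)).intervalIntegrable _ _
  · exact (hsec' s (Metric.mem_ball_self hδ0)).aestronglyMeasurable
  · refine Eventually.of_forall fun θ hθ x hx => ?_
    rw [uIoc_of_le hpi] at hθ
    exact hM (x, θ) ⟨hin x hx, hθ.1.le, hθ.2⟩
  · exact intervalIntegrable_const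
  · refine Eventually.of_forall fun θ _ x hx => ?_
    have h1 : HasFDerivAt u (fderiv ℝ u (pt x θ)) (pt x θ) :=
      ((hu.differentiableOn one_ne_zero).differentiableAt
        (hS.mem_nhds (hmem x hx θ))).hasFDerivAt
    exact h1.comp_hasDerivAt x (hasDerivAt_pt_s x θ)

/-- derivative of the flux -/
theorem flux_deriv {s0 s : ℝ} {H : ℂ → ℂ →L[ℝ] ℝ} (hH : ContDiffOn ℝ 1 H (Hp s0))
    (hper : ∀ w ∈ Hp s0, H (w + 2 * Real.pi * Complex.I) = H w) (hs : s0 < s) :
    HasDerivAt (fun s => ∫ θ in (-Real.pi)..Real.pi, H (pt s θ) 1)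
      (∫ θ in (-Real.pi)..Real.pi, dv H (pt s θ)) s := by
  have hS := isOpen_Hp s0
  have hfd : ContinuousOn (fderiv ℝ H) (Hp s0) :=
    hH.continuousOn_fderiv_of_isOpen hS le_rfl
  have hd : ∀ w ∈ Hp s0, HasFDerivAt H (fderiv ℝ H w) w := fun w hw =>
    ((hH.differentiableOn one_ne_zero).differentiableAt (hS.mem_nhds hw)).hasFDerivAt
  have hmem : ∀ θ, pt s θ ∈ Hp s0 := by
    intro θ
    simp only [Hp, mem_ofPred_eq, pt_re]
    exact hs
  have hcomp : Continuous fun θ => fderiv ℝ H (pt s θ) := by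
    rw [← continuousOn_univ]
    exact hfd.comp
      ((continuous_pt.comp (continuous_const.prodMk continuous_id)).continuousOn (s := univ))
      (fun θ _ => hmem θ)
  have h1 := ci_deriv (u := fun w => H w 1) (hH.clm_apply contDiffOn_const) hs
  have h2 : ∀ w ∈ Hp s0, fderiv ℝ (fun w => H w 1) w 1 = fderiv ℝ H w 1 1 := by
    intro w hw
    rw [((hd w hw).clm_apply (hasFDerivAt_const (1 : ℂ) w)).fderiv]
    simp
  have h3 : ∫ θ in (-Real.pi)..Real.pi, fderiv ℝ H (pt s θ) Complex.I Complex.I = 0 := by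
    rw [intervalIntegral.integral_eq_sub_of_hasDerivAt (f := fun θ => H (pt s θ) Complex.I)]
    · have : pt s Real.pi = pt s (-Real.pi) + 2 * Real.pi * Complex.I := by
        unfold pt; push_cast; ring
      rw [this, hper _ (hmem _), sub_self]
    · intro θ _
      have h4 := (hd _ (hmem θ)).comp_hasDerivAt θ (hasDerivAt_pt_t s θ)
      have h5 := h4.clm_apply (hasDerivAt_const θ (Complex.I))
      simpa using h5
    · exact ((hcomp.clm_apply continuous_const).clm_apply continuous_const).intervalIntegrable _ _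
  have h4 : ∫ θ in (-Real.pi)..Real.pi, dv H (pt s θ)
      = ∫ θ in (-Real.pi)..Real.pi, fderiv ℝ (fun w => H w 1) (pt s θ) 1 := by
    unfold dv
    rw [intervalIntegral.integral_add, h3, add_zero]
    · refine intervalIntegral.integral_congr fun θ _ => ?_
      exact (h2 _ (hmem θ)).symm
    · exact ((hcomp.clm_apply continuous_const).clm_apply continuous_const).intervalIntegrable _ _
    · exact ((hcomp.clm_apply continuous_const).clm_apply continuous_const).intervalIntegrable _ _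
  rw [h4]
  exact h1

/-- Cauchy-Schwarz from a pointwise inequality -/
theorem cs_interval {p q r : ℝ → ℝ} {a b : ℝ} (hab : a ≤ b) (hp : Continuous p)
    (hq : Continuous q) (hr : Continuous r) (hq0 : ∀ x, 0 ≤ q x) (hr0 : ∀ x, 0 ≤ r x)
    (h : ∀ x, p x ^ 2 ≤ q x * r x) :
    (∫ x in a..b, p x) ^ 2 ≤ (∫ x in a..b, q x) * (∫ x in a..b, r x) := by
  have key : ∀ t : ℝ, 0 ≤ (∫ x in a..b, q x) * (t * t) + (2 * ∫ x in a..b, p x) * t
      + ∫ x in a..b, r x := by
    intro t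
    have h1 : (∫ x in a..b, q x) * (t * t) + (2 * ∫ x in a..b, p x) * t + ∫ x in a..b, r x
        = ∫ x in a..b, (q x * (t * t) + (2 * p x) * t + r x) := by
      rw [intervalIntegral.integral_add, intervalIntegral.integral_add,
        intervalIntegral.integral_mul_const, intervalIntegral.integral_mul_const,
        intervalIntegral.integral_const_mul]
      all_goals apply Continuous.intervalIntegrable; fun_prop
    rw [h1]
    apply intervalIntegral.integral_nonneg hab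
    intro x _
    rcases (hq0 x).eq_or_lt with h0 | h0
    · have h2 := h x
      rw [← h0, zero_mul] at h2
      have h3 : p x = 0 := by nlinarith [sq_nonneg (p x)]
      rw [← h0, h3]
      have := hr0 x
      simpa using this
    · have h2 := h x
      have h3 : q x * (q x * (t * t) + 2 * p x * t + r x)
          = (q x * t + p x) ^ 2 + (q x * r x - p x ^ 2) := by ring
      have h4 : 0 ≤ q x * (q x * (t * t) + 2 * p x * t + r x) := by
        rw [h3]; nlinarith [sq_nonneg (q x * t + p x)]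
      exact nonneg_of_mul_nonneg_right (by linarith) h0
  have := discrim_le_zero key
  unfold discrim at this
  nlinarith

/-- the pull back of a `1`-form by a holomorphic map -/
noncomputable def pb (φ : ℂ → ℂ) (F : ℂ → ℂ →L[ℝ] ℝ) (w : ℂ) : ℂ →L[ℝ] ℝ :=
  (F (φ w)).comp (ContinuousLinearMap.mul ℝ ℂ (deriv φ w))

@[simp] theorem pb_apply (φ : ℂ → ℂ) (F : ℂ → ℂ →L[ℝ] ℝ) (w v : ℂ) :
    pb φ F w v = F (φ w) (deriv φ w * v) := rfl

theorem differentiable_deriv {φ : ℂ → ℂ} (hφ : Differentiable ℂ φ) :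
    Differentiable ℂ (deriv φ) := by
  have h : ContDiff ℂ 2 φ := hφ.contDiff
  have h2 : ContDiff ℂ 1 (deriv φ) := by
    have : ContDiff ℂ (1 + 1) φ := by simpa [one_add_one_eq_two] using h
    exact (contDiff_succ_iff_deriv.1 this).2.2
  exact h2.differentiable one_ne_zero

theorem contDiff_real {φ : ℂ → ℂ} (hφ : Differentiable ℂ φ) : ContDiff ℝ 1 φ :=
  (hφ.contDiff (n := 1)).restrict_scalars ℝ

theorem contDiffOn_pb {φ : ℂ → ℂ} (hφ : Differentiable ℂ φ) {F : ℂ → ℂ →L[ℝ] ℝ} {U S : Set ℂ}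
    (hF : ContDiffOn ℝ 1 F U) (hS : MapsTo φ S U) : ContDiffOn ℝ 1 (pb φ F) S := by
  unfold pb
  refine ContDiffOn.clm_comp (hF.comp (contDiff_real hφ).contDiffOn hS) ?_
  exact ((ContinuousLinearMap.mul ℝ ℂ).contDiff.comp
    (contDiff_real (differentiable_deriv hφ))).contDiffOn

theorem hasFDerivAt_real {φ : ℂ → ℂ} (hφ : Differentiable ℂ φ) (w : ℂ) :
    HasFDerivAt φ (ContinuousLinearMap.mul ℝ ℂ (deriv φ w)) w := by
  have h := (hφ w).hasDerivAt.hasFDerivAt.restrictScalars ℝ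
  have e : ContinuousLinearMap.restrictScalars ℝ
      (ContinuousLinearMap.toSpanSingleton ℂ (deriv φ w))
      = ContinuousLinearMap.mul ℝ ℂ (deriv φ w) := by
    refine ContinuousLinearMap.ext fun v => ?_
    simp [mul_comm]
  rw [e] at h
  exact h

theorem dv_pb {φ : ℂ → ℂ} (hφ : Differentiable ℂ φ) {F : ℂ → ℂ →L[ℝ] ℝ} {w : ℂ}
    (hF : DifferentiableAt ℝ F (φ w)) :
    dv (pb φ F) w = ‖deriv φ w‖ ^ 2 * dv F (φ w) := by
  have h1 : HasFDerivAt (fun w => F (φ w))
      ((fderiv ℝ F (φ w)).comp (ContinuousLinearMap.mul ℝ ℂ (deriv φ w))) w :=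
    hF.hasFDerivAt.comp w (hasFDerivAt_real hφ w)
  have h2 : HasFDerivAt (fun w => ContinuousLinearMap.mul ℝ ℂ (deriv φ w))
      ((ContinuousLinearMap.mul ℝ ℂ).comp
        (ContinuousLinearMap.mul ℝ ℂ (deriv (deriv φ) w))) w :=
    (ContinuousLinearMap.mul ℝ ℂ).hasFDerivAt.comp w
      (hasFDerivAt_real (differentiable_deriv hφ) w)
  have h3 := h1.clm_comp h2
  have h4 : fderiv ℝ (pb φ F) w = _ := h3.fderiv
  unfold dv
  rw [h4]
  set c := deriv φ w with hc
  set c' := deriv (deriv φ) w with hc'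
  set B := fderiv ℝ F (φ w) with hB
  simp only [add_apply, ContinuousLinearMap.comp_apply,
    ContinuousLinearMap.compL_apply, ContinuousLinearMap.flip_apply,
    ContinuousLinearMap.mul_apply', mul_one]
  have hI : F (φ w) (c' * Complex.I * Complex.I) = - F (φ w) c' := by
    rw [mul_assoc, Complex.I_mul_I, mul_neg_one, map_neg]
  rw [hI]
  have hcre : c = (c.re : ℝ) • (1 : ℂ) + (c.im : ℝ) • Complex.I := by
    simp [Complex.real_smul, Complex.re_add_im]
  have hcI : c * Complex.I = (-c.im : ℝ) • (1 : ℂ) + (c.re : ℝ) • Complex.I := by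
    apply Complex.ext <;> simp
  have hn : ‖c‖ ^ 2 = c.re ^ 2 + c.im ^ 2 := by
    rw [← Complex.normSq_eq_norm_sq, Complex.normSq_apply]; ring
  have e1 : B c c = c.re * (c.re * B 1 1 + c.im * B 1 Complex.I)
      + c.im * (c.re * B Complex.I 1 + c.im * B Complex.I Complex.I) := by
    conv_lhs => rw [hcre]
    simp only [map_add, map_smul, add_apply,
      smul_apply, smul_eq_mul]
    ring
  have e2 : B (c * Complex.I) (c * Complex.I)
      = -c.im * (-c.im * B 1 1 + c.re * B 1 Complex.I)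
      + c.re * (-c.im * B Complex.I 1 + c.re * B Complex.I Complex.I) := by
    rw [hcI]
    simp only [map_add, map_smul, add_apply,
      smul_apply, smul_eq_mul]
    ring
  rw [e1, e2, hn]
  ring

/-- the single valued data of an exact form `η = D φ` on an open subset `U` of `ℂ`:
`A = |φ|²`, `F v = Re ⟨D_v φ, φ⟩`, `G v = -⟨Θ_v φ, φ⟩`, `E = |D φ|²`, `Y = |Θ φ|²`,
`X = Re ⟨D φ, Θ φ⟩` -/
structure Plane (U : Set ℂ) (A E Y X : ℂ → ℝ) (F G : ℂ → ℂ →L[ℝ] ℝ) : Prop where
  hA : ∀ z ∈ U, HasFDerivAt A ((2 : ℝ) • F z + (2 : ℝ) • G z) z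
  hF : ContDiffOn ℝ 1 F U
  hG : ContDiffOn ℝ 1 G U
  hY : ContinuousOn Y U
  hX : ContinuousOn X U
  dF : ∀ z ∈ U, dv F z = E z
  dG : ∀ z ∈ U, dv G z = 2 * Y z - 2 * X z
  A0 : ∀ z ∈ U, 0 ≤ A z
  E0 : ∀ z ∈ U, 0 ≤ E z
  Y0 : ∀ z ∈ U, 0 ≤ Y z
  FA : ∀ z ∈ U, ∀ v, F z v ^ 2 ≤ A z * (‖v‖ ^ 2 * E z)
  GA : ∀ z ∈ U, ∀ v, G z v ^ 2 ≤ A z * (‖v‖ ^ 2 * Y z)
  XE : ∀ z ∈ U, X z ^ 2 ≤ E z * Y z

theorem continuousOn_dv {U : Set ℂ} (hU : IsOpen U) {F : ℂ → ℂ →L[ℝ] ℝ}
    (hF : ContDiffOn ℝ 1 F U) : ContinuousOn (dv F) U := by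
  have h := hF.continuousOn_fderiv_of_isOpen hU le_rfl
  unfold dv
  exact ((h.clm_apply continuousOn_const).clm_apply continuousOn_const).add
    ((h.clm_apply continuousOn_const).clm_apply continuousOn_const)

theorem Plane.contE {U : Set ℂ} {A E Y X : ℂ → ℝ} {F G : ℂ → ℂ →L[ℝ] ℝ}
    (h : Plane U A E Y X F G) (hU : IsOpen U) : ContinuousOn E U :=
  (continuousOn_dv hU h.hF).congr fun z hz => (h.dF z hz).symm

theorem Plane.contA {U : Set ℂ} {A E Y X : ℂ → ℝ} {F G : ℂ → ℂ →L[ℝ] ℝ}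
    (h : Plane U A E Y X F G) (hU : IsOpen U) : ContDiffOn ℝ 1 A U := by
  have h1 : ∀ z ∈ U, HasFDerivAt A ((2 : ℝ) • F z + (2 : ℝ) • G z) z := h.hA
  have h3 : ContinuousOn (fderiv ℝ A) U := by
    have h4 : ContinuousOn (fun z => (2 : ℝ) • F z + (2 : ℝ) • G z) U :=
      (h.hF.continuousOn.const_smul (2 : ℝ)).add (h.hG.continuousOn.const_smul (2 : ℝ))
    exact h4.congr fun z hz => (h1 z hz).fderiv
  have h5 : DifferentiableOn ℝ A U :=
    fun z hz => (h1 z hz).differentiableAt.differentiableWithinAt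
  have h6 : (0 : WithTop ℕ∞) = ⊤ → AnalyticOn ℝ A U := fun h0 => absurd h0 (by simp)
  have h2 : ContDiffOn ℝ ((0 : WithTop ℕ∞) + 1) A U :=
    (contDiffOn_succ_iff_fderiv_of_isOpen hU).2 ⟨h5, h6, contDiffOn_zero.2 h3⟩
  rwa [zero_add] at h2

/-- pull back of plane data by a holomorphic map -/
theorem Plane.pull {U S : Set ℂ} {A E Y X : ℂ → ℝ} {F G : ℂ → ℂ →L[ℝ] ℝ}
    (h : Plane U A E Y X F G) (hU : IsOpen U) {φ : ℂ → ℂ} (hφ : Differentiable ℂ φ)
    (hS : MapsTo φ S U) :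
    Plane S (fun w => A (φ w)) (fun w => ‖deriv φ w‖ ^ 2 * E (φ w))
      (fun w => ‖deriv φ w‖ ^ 2 * Y (φ w)) (fun w => ‖deriv φ w‖ ^ 2 * X (φ w))
      (pb φ F) (pb φ G) := by
  have hn : Continuous fun w => ‖deriv φ w‖ ^ 2 :=
    ((differentiable_deriv hφ).continuous.norm).pow 2
  refine ⟨?_, contDiffOn_pb hφ h.hF hS, contDiffOn_pb hφ h.hG hS, ?_, ?_, ?_, ?_, ?_, ?_, ?_,
    ?_, ?_, ?_⟩
  · intro w hw
    exact (h.hA _ (hS hw)).comp w (hasFDerivAt_real hφ w)
  · exact hn.continuousOn.mul (h.hY.comp hφ.continuous.continuousOn hS)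
  · exact hn.continuousOn.mul (h.hX.comp hφ.continuous.continuousOn hS)
  · intro w hw
    have h1 : DifferentiableAt ℝ F (φ w) :=
      (h.hF.differentiableOn one_ne_zero).differentiableAt (hU.mem_nhds (hS hw))
    rw [dv_pb hφ h1, h.dF _ (hS hw)]
  · intro w hw
    have h1 : DifferentiableAt ℝ G (φ w) :=
      (h.hG.differentiableOn one_ne_zero).differentiableAt (hU.mem_nhds (hS hw))
    rw [dv_pb hφ h1, h.dG _ (hS hw)]
    ring
  · exact fun w hw => h.A0 _ (hS hw)
  · exact fun w hw => mul_nonneg (sq_nonneg _) (h.E0 _ (hS hw))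
  · exact fun w hw => mul_nonneg (sq_nonneg _) (h.Y0 _ (hS hw))
  · intro w hw v
    have h1 := h.FA _ (hS hw) (deriv φ w * v)
    rw [norm_mul, mul_pow] at h1
    rw [pb_apply]
    calc F (φ w) (deriv φ w * v) ^ 2 ≤ _ := h1
      _ = _ := by ring
  · intro w hw v
    have h1 := h.GA _ (hS hw) (deriv φ w * v)
    rw [norm_mul, mul_pow] at h1
    rw [pb_apply]
    calc G (φ w) (deriv φ w * v) ^ 2 ≤ _ := h1
      _ = _ := by ring
  · intro w hw
    have h1 := h.XE _ (hS hw)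
    have h2 : (‖deriv φ w‖ ^ 2) ^ 2 * X (φ w) ^ 2
        ≤ (‖deriv φ w‖ ^ 2) ^ 2 * (E (φ w) * Y (φ w)) :=
      mul_le_mul_of_nonneg_left h1 (by positivity)
    calc (‖deriv φ w‖ ^ 2 * X (φ w)) ^ 2 = (‖deriv φ w‖ ^ 2) ^ 2 * X (φ w) ^ 2 := by ring
      _ ≤ _ := h2
      _ = _ := by ring

/-- **The flux through an end tends to zero** (cylinder form). -/
theorem end_flux_cyl {s0 C B : ℝ} (hs0 : 0 < s0) {A E Y X : ℂ → ℝ} {F G : ℂ → ℂ →L[ℝ] ℝ}
    (h : Plane (Hp s0) A E Y X F G)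
    (hFp : ∀ w ∈ Hp s0, F (w + 2 * Real.pi * Complex.I) = F w)
    (hGp : ∀ w ∈ Hp s0, G (w + 2 * Real.pi * Complex.I) = G w)
    (hC : ∀ w ∈ Hp s0, Y w ≤ (C / w.re) ^ 2 * A w)
    (hB : ∀ s, s0 < s → ∫ θ in (-Real.pi)..Real.pi, F (pt s θ) 1 ≤ B) :
    Tendsto (fun s => ∫ θ in (-Real.pi)..Real.pi, F (pt s θ) 1) atTop (𝓝 0) := by
  have hS := isOpen_Hp s0
  have hmem : ∀ s, s0 + 1 ≤ s → ∀ θ, pt s θ ∈ Hp s0 := by
    intro s hs θ
    simp only [Hp, mem_ofPred_eq, pt_re]
    linarith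
  have hpi : -Real.pi ≤ Real.pi := by linarith [Real.pi_pos]
  have hsec : ∀ {V : Type} [TopologicalSpace V] {f : ℂ → V}, ContinuousOn f (Hp s0) →
      ∀ s, s0 + 1 ≤ s → Continuous fun θ => f (pt s θ) := by
    intro V _ f hf s hs
    rw [← continuousOn_univ]
    exact hf.comp
      ((continuous_pt.comp (continuous_const.prodMk continuous_id)).continuousOn (s := univ))
      (fun θ _ => hmem s hs θ)
  have hEc := h.contE hS
  have hAc := h.contA hS
  have hFs : ∀ s, s0 + 1 ≤ s → Continuous fun θ => F (pt s θ) 1 := fun s hs =>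
    (hsec h.hF.continuousOn s hs).clm_apply continuous_const
  have hGs : ∀ s, s0 + 1 ≤ s → Continuous fun θ => G (pt s θ) 1 := fun s hs =>
    (hsec h.hG.continuousOn s hs).clm_apply continuous_const
  have hnn : ∀ {f : ℂ → ℝ}, (∀ w ∈ Hp s0, 0 ≤ f w) → ∀ s, s0 + 1 ≤ s →
      0 ≤ ∫ θ in (-Real.pi)..Real.pi, f (pt s θ) := by
    intro f hf s hs
    exact intervalIntegral.integral_nonneg hpi fun θ _ => hf _ (hmem s hs θ)
  apply EndL_663.EndData.tendsto_zero (s0 := s0 + 1) (C := C)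
    (a := fun s => ∫ θ in (-Real.pi)..Real.pi, A (pt s θ))
    (e := fun s => ∫ θ in (-Real.pi)..Real.pi, E (pt s θ))
    (g := fun s => ∫ θ in (-Real.pi)..Real.pi, G (pt s θ) 1)
    (g' := fun s => ∫ θ in (-Real.pi)..Real.pi, dv G (pt s θ))
    (t := fun s => ∫ θ in (-Real.pi)..Real.pi, Y (pt s θ))
  refine ⟨by linarith, ?_, ?_, ?_, ?_, hnn h.A0, hnn h.E0, hnn h.Y0, ?_, ?_, ?_, ?_⟩
  · intro s hs
    have h1 := flux_deriv h.hF hFp (s := s) (by linarith)
    have h2 : ∫ θ in (-Real.pi)..Real.pi, dv F (pt s θ)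
        = ∫ θ in (-Real.pi)..Real.pi, E (pt s θ) :=
      intervalIntegral.integral_congr fun θ _ => h.dF _ (hmem s hs θ)
    rw [h2] at h1
    exact h1
  · intro s hs
    have h1 := ci_deriv hAc (s := s) (by linarith)
    have h2 : ∫ θ in (-Real.pi)..Real.pi, fderiv ℝ A (pt s θ) 1
        = ∫ θ in (-Real.pi)..Real.pi, (2 * F (pt s θ) 1 + 2 * G (pt s θ) 1) := by
      refine intervalIntegral.integral_congr fun θ _ => ?_
      show fderiv ℝ A (pt s θ) 1 = _
      rw [(h.hA _ (hmem s hs θ)).fderiv]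
      simp
    rw [h2, intervalIntegral.integral_add, intervalIntegral.integral_const_mul,
      intervalIntegral.integral_const_mul] at h1
    · exact h1
    · exact ((hFs s hs).const_mul 2).intervalIntegrable _ _
    · exact ((hGs s hs).const_mul 2).intervalIntegrable _ _
  · intro s hs
    exact flux_deriv h.hG hGp (s := s) (by linarith)
  · intro s hs
    have h2 : ∫ θ in (-Real.pi)..Real.pi, dv G (pt s θ)
        = 2 * (∫ θ in (-Real.pi)..Real.pi, Y (pt s θ))
          - 2 * ∫ θ in (-Real.pi)..Real.pi, X (pt s θ) := by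
      rw [← intervalIntegral.integral_const_mul, ← intervalIntegral.integral_const_mul,
        ← intervalIntegral.integral_sub]
      · exact intervalIntegral.integral_congr fun θ _ => h.dG _ (hmem s hs θ)
      · exact ((hsec h.hY s hs).const_mul 2).intervalIntegrable _ _
      · exact ((hsec h.hX s hs).const_mul 2).intervalIntegrable _ _
    have h3 := cs_interval hpi (hsec h.hX s hs) (hsec hEc s hs) (hsec h.hY s hs)
      (fun θ => h.E0 _ (hmem s hs θ)) (fun θ => h.Y0 _ (hmem s hs θ))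
      (fun θ => h.XE _ (hmem s hs θ))
    have h4 : ∫ θ in (-Real.pi)..Real.pi, X (pt s θ)
        ≤ √((∫ θ in (-Real.pi)..Real.pi, E (pt s θ)) * ∫ θ in (-Real.pi)..Real.pi, Y (pt s θ)) :=
      Real.le_sqrt_of_sq_le h3
    show _ ≤ ∫ θ in (-Real.pi)..Real.pi, dv G (pt s θ)
    rw [h2]
    linarith
  · intro s hs
    refine cs_interval hpi (hFs s hs) (hsec hAc.continuousOn s hs) (hsec hEc s hs)
      (fun θ => h.A0 _ (hmem s hs θ)) (fun θ => h.E0 _ (hmem s hs θ)) fun θ => ?_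
    have := h.FA _ (hmem s hs θ) 1
    simpa using this
  · intro s hs
    refine cs_interval hpi (hGs s hs) (hsec hAc.continuousOn s hs) (hsec h.hY s hs)
      (fun θ => h.A0 _ (hmem s hs θ)) (fun θ => h.Y0 _ (hmem s hs θ)) fun θ => ?_
    have := h.GA _ (hmem s hs θ) 1
    simpa using this
  · intro s hs
    show _ ≤ (C / s) ^ 2 * ∫ θ in (-Real.pi)..Real.pi, A (pt s θ)
    rw [← intervalIntegral.integral_const_mul]
    refine intervalIntegral.integral_mono_on hpi
      ((hsec h.hY s hs).intervalIntegrable _ _)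
      (((hsec hAc.continuousOn s hs).const_mul _).intervalIntegrable _ _) fun θ _ => ?_
    have := hC _ (hmem s hs θ)
    rwa [pt_re] at this
  · exact ⟨B, fun s hs => hB s (by linarith)⟩

end Crest.Agent.R276.IpcE2_827
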