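import Mathlib
import Crest.Agent.R276.IpcE2_827

/-!
# R276, leaf IPC-GL5 (helper827), part 2: no exact harmonic forms, global plane form

`Plane.eq_zero` : on `Ω = ℂ ∖ S`, `S` finite, plane data with the Ahlfors-Schwarz bound for `Y`
near the points of `S` and near infinity and `∫ E < ∞` has `E = 0`.
-/

set_option autoImplicit false

open Filter Topology Set MeasureTheory

namespace Crest.Agent.R276.IpcE3_827

open Crest.Agent.R276.IpcE2_827

/-- half open half strip -/
def Vs (s0 : ℝ) : Set ℂ := {w | s0 < w.re ∧ -Real.pi < w.im ∧ w.im ≤ Real.pi}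

theorem Vs_eq (s0 : ℝ) : Vs s0 =
    Complex.measurableEquivRealProd ⁻¹' (Ioi s0 ×ˢ Ioc (-Real.pi) Real.pi) := by
  ext w
  simp [Vs]

theorem measurableSet_Vs (s0 : ℝ) : MeasurableSet (Vs s0) := by
  rw [Vs_eq]
  exact Complex.measurableEquivRealProd.measurable (measurableSet_Ioi.prod measurableSet_Ioc)

theorem Vs_subset (s0 : ℝ) : Vs s0 ⊆ Hp s0 := fun _ h => h.1

theorem det_mul (c : ℂ) : (ContinuousLinearMap.mul ℝ ℂ c).det = ‖c‖ ^ 2 := by
  have h1 : (ContinuousLinearMap.mul ℝ ℂ c).det = LinearMap.det (Algebra.lmul ℝ ℂ c) := rfl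
  rw [h1, ← Algebra.norm_apply, Algebra.norm_complex_apply, Complex.normSq_eq_norm_sq]

/-- change of variables on a half strip -/
theorem cv {φ : ℂ → ℂ} (hφ : Differentiable ℂ φ) {s0 : ℝ} (hinj : InjOn φ (Vs s0))
    {h : ℂ → ℝ} (hint : IntegrableOn h (φ '' Vs s0)) :
    IntegrableOn (fun s => ∫ θ in (-Real.pi)..Real.pi,
        ‖deriv φ (pt s θ)‖ ^ 2 * h (φ (pt s θ))) (Ioi s0) ∧
      ∫ z in φ '' Vs s0, h z = ∫ s in Ioi s0, ∫ θ in (-Real.pi)..Real.pi,
        ‖deriv φ (pt s θ)‖ ^ 2 * h (φ (pt s θ)) := by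
  have hpi : -Real.pi ≤ Real.pi := by linarith [Real.pi_pos]
  have hd : ∀ w ∈ Vs s0, HasFDerivWithinAt φ (ContinuousLinearMap.mul ℝ ℂ (deriv φ w)) (Vs s0) w :=
    fun w _ => (hasFDerivAt_real hφ w).hasFDerivWithinAt
  have e1 := integral_image_eq_integral_abs_det_fderiv_smul volume (measurableSet_Vs s0) hd hinj h
  have e2 := (integrableOn_image_iff_integrableOn_abs_det_fderiv_smul volume
    (measurableSet_Vs s0) hd hinj h).1 hint
  have e3 : (fun w => |(ContinuousLinearMap.mul ℝ ℂ (deriv φ w)).det| • h (φ w))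
      = fun w => ‖deriv φ w‖ ^ 2 * h (φ w) := by
    funext w
    rw [det_mul, abs_of_nonneg (by positivity), smul_eq_mul]
  rw [e3] at e1 e2
  have mp := Complex.volume_preserving_equiv_real_prod
  set g : ℝ × ℝ → ℝ := fun p => ‖deriv φ (pt p.1 p.2)‖ ^ 2 * h (φ (pt p.1 p.2)) with hg
  have e4 : (fun w => ‖deriv φ w‖ ^ 2 * h (φ w)) = fun w =>
      g (Complex.measurableEquivRealProd w) := by
    funext w
    have : pt w.re w.im = w := by
      unfold pt; exact Complex.re_add_im w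
    simp only [hg, Complex.measurableEquivRealProd_apply, this]
  rw [e4] at e1 e2
  rw [Vs_eq] at e2
  have e5 : IntegrableOn g (Ioi s0 ×ˢ Ioc (-Real.pi) Real.pi) :=
    (mp.integrableOn_comp_preimage Complex.measurableEquivRealProd.measurableEmbedding).1 e2
  have e6 : ∫ w in Vs s0, g (Complex.measurableEquivRealProd w)
      = ∫ p in Ioi s0 ×ˢ Ioc (-Real.pi) Real.pi, g p := by
    rw [Vs_eq]
    exact mp.setIntegral_preimage_emb Complex.measurableEquivRealProd.measurableEmbedding g _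
  have e7 : ∀ s, ∫ θ in (-Real.pi)..Real.pi, ‖deriv φ (pt s θ)‖ ^ 2 * h (φ (pt s θ))
      = ∫ θ in Ioc (-Real.pi) Real.pi, g (s, θ) := by
    intro s
    rw [intervalIntegral.integral_of_le hpi]
  constructor
  · simp_rw [e7]
    have e8 : Integrable g ((volume.restrict (Ioi s0)).prod
        (volume.restrict (Ioc (-Real.pi) Real.pi))) := by
      rw [Measure.prod_restrict]
      exact e5
    exact e8.integral_prod_left
  · rw [e1, e6]
    simp_rw [e7]
    rw [Measure.volume_eq_prod, setIntegral_prod _ (by rw [← Measure.volume_eq_prod]; exact e5)]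

/-- **the flux through an end tends to zero**, plane form -/
theorem end_flux {U : Set ℂ} (hU : IsOpen U) {A E Y X : ℂ → ℝ} {F G : ℂ → ℂ →L[ℝ] ℝ}
    (h : Plane U A E Y X F G) (hint : IntegrableOn E U) {φ : ℂ → ℂ} (hφ : Differentiable ℂ φ)
    (hper : ∀ w, φ (w + 2 * Real.pi * Complex.I) = φ w) {s0 C : ℝ} (hs0 : 0 < s0)
    (hS : MapsTo φ (Hp s0) U) (hinj : InjOn φ (Vs s0))
    (hC : ∀ w ∈ Hp s0, ‖deriv φ w‖ ^ 2 * Y (φ w) ≤ (C / w.re) ^ 2 * A (φ w)) :
    Tendsto (fun s => ∫ θ in (-Real.pi)..Real.pi, pb φ F (pt s θ) 1) atTop (𝓝 0) := by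
  have hpi : -Real.pi ≤ Real.pi := by linarith [Real.pi_pos]
  have hp := h.pull hU hφ hS
  have hder : ∀ w, deriv φ (w + 2 * Real.pi * Complex.I) = deriv φ w := by
    intro w
    have h1 : (fun w => φ (w + 2 * Real.pi * Complex.I)) = φ := funext hper
    have h2 := deriv_comp_add_const φ (2 * Real.pi * Complex.I) w
    rw [h1] at h2
    exact h2.symm
  have hFp : ∀ w ∈ Hp s0, pb φ F (w + 2 * Real.pi * Complex.I) = pb φ F w := by
    intro w _
    unfold pb
    rw [hper, hder]
  have hGp : ∀ w ∈ Hp s0, pb φ G (w + 2 * Real.pi * Complex.I) = pb φ G w := by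
    intro w _
    unfold pb
    rw [hper, hder]
  have hsub : Vs (s0 + 1) ⊆ Vs s0 := fun w hw => ⟨by linarith [hw.1], hw.2⟩
  have himg : φ '' Vs (s0 + 1) ⊆ U := by
    rintro _ ⟨w, hw, rfl⟩
    exact hS (Vs_subset _ (hsub hw))
  have hcv := cv hφ (hinj.mono hsub) (hint.mono_set himg)
  set B : ℝ := (∫ θ in (-Real.pi)..Real.pi, pb φ F (pt (s0 + 1) θ) 1) + ∫ s in Ioi (s0 + 1),
    ∫ θ in (-Real.pi)..Real.pi, ‖deriv φ (pt s θ)‖ ^ 2 * E (φ (pt s θ)) with hB
  have hp' : Plane (Hp (s0 + 1)) (fun w => A (φ w)) (fun w => ‖deriv φ w‖ ^ 2 * E (φ w))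
      (fun w => ‖deriv φ w‖ ^ 2 * Y (φ w)) (fun w => ‖deriv φ w‖ ^ 2 * X (φ w))
      (pb φ F) (pb φ G) :=
    h.pull hU hφ fun w hw => hS (by
      simp only [Hp, mem_ofPred_eq] at hw ⊢; linarith)
  have hlt : ∀ w ∈ Hp (s0 + 1), w ∈ Hp s0 := fun w hw => by
    simp only [Hp, mem_ofPred_eq] at hw ⊢; linarith
  refine end_flux_cyl (s0 := s0 + 1) (C := C) (B := B) (by linarith) hp'
    (fun w hw => hFp w (hlt w hw)) (fun w hw => hGp w (hlt w hw)) (fun w hw => hC w (hlt w hw)) ?_
  intro s hs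
  have hd : ∀ x ∈ uIcc (s0 + 1) s, HasDerivAt
      (fun s => ∫ θ in (-Real.pi)..Real.pi, pb φ F (pt s θ) 1)
      (∫ θ in (-Real.pi)..Real.pi, ‖deriv φ (pt x θ)‖ ^ 2 * E (φ (pt x θ))) x := by
    intro x hx
    rw [uIcc_of_le hs.le] at hx
    have hx0 : s0 < x := by linarith [hx.1]
    have h1 := flux_deriv hp.hF hFp hx0
    have h2 : ∫ θ in (-Real.pi)..Real.pi, dv (pb φ F) (pt x θ)
        = ∫ θ in (-Real.pi)..Real.pi, ‖deriv φ (pt x θ)‖ ^ 2 * E (φ (pt x θ)) :=
      intervalIntegral.integral_congr fun θ _ => hp.dF _ (by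
        simp only [Hp, mem_ofPred_eq, pt_re]; exact hx0)
    rw [h2] at h1
    exact h1
  have hii : IntervalIntegrable (fun x => ∫ θ in (-Real.pi)..Real.pi,
      ‖deriv φ (pt x θ)‖ ^ 2 * E (φ (pt x θ))) volume (s0 + 1) s := by
    rw [intervalIntegrable_iff_integrableOn_Ioc_of_le hs.le]
    exact hcv.1.mono_set Ioc_subset_Ioi_self
  have hft := intervalIntegral.integral_eq_sub_of_hasDerivAt hd hii
  have hle : ∫ x in (s0 + 1)..s, ∫ θ in (-Real.pi)..Real.pi,
      ‖deriv φ (pt x θ)‖ ^ 2 * E (φ (pt x θ)) ≤ ∫ s in Ioi (s0 + 1),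
      ∫ θ in (-Real.pi)..Real.pi, ‖deriv φ (pt s θ)‖ ^ 2 * E (φ (pt s θ)) := by
    rw [intervalIntegral.integral_of_le hs.le]
    refine setIntegral_mono_set hcv.1 ?_ (Ioc_subset_Ioi_self.eventuallyLE)
    rw [EventuallyLE, ae_restrict_iff' measurableSet_Ioi]
    refine Eventually.of_forall fun x hx => ?_
    refine intervalIntegral.integral_nonneg hpi fun θ _ => ?_
    refine mul_nonneg (sq_nonneg _) (h.E0 _ (hS ?_))
    simp only [Hp, mem_ofPred_eq, pt_re]
    have := mem_Ioi.1 hx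
    linarith
  rw [hB]
  linarith

/-- the gradient term of `dv (η • F)` -/
noncomputable def gr (η : ℂ → ℝ) (F : ℂ → ℂ →L[ℝ] ℝ) (z : ℂ) : ℝ :=
  fderiv ℝ η z 1 * F z 1 + fderiv ℝ η z Complex.I * F z Complex.I

theorem dv_smul {η : ℂ → ℝ} {F : ℂ → ℂ →L[ℝ] ℝ} {z : ℂ} (hη : DifferentiableAt ℝ η z)
    (hF : DifferentiableAt ℝ F z) :
    dv (fun z => η z • F z) z = η z * dv F z + gr η F z := by
  have h := (hη.hasFDerivAt.smul hF.hasFDerivAt).fderiv
  unfold dv gr
  have h' : fderiv ℝ (fun z => η z • F z) z = _ := h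
  rw [h']
  simp
  ring

theorem dv_congr {F G : ℂ → ℂ →L[ℝ] ℝ} {z : ℂ} (h : F =ᶠ[𝓝 z] G) : dv F z = dv G z := by
  unfold dv
  rw [h.fderiv_eq]

theorem dv_zero_of {F : ℂ → ℂ →L[ℝ] ℝ} {z : ℂ} (h : F =ᶠ[𝓝 z] fun _ => 0) : dv F z = 0 := by
  rw [dv_congr h]
  unfold dv
  simp

/-- the divergence of a compactly supported `C¹` `1`-form has integral zero -/
theorem integral_dv_eq_zero {H : ℂ → ℂ →L[ℝ] ℝ} (hH : ContDiff ℝ 1 H)
    (hc : HasCompactSupport H) : ∫ z, dv H z = 0 := by
  have key : ∀ v : ℂ, Integrable (fun z => fderiv ℝ H z v v) ∧ ∫ z, fderiv ℝ H z v v = 0 := by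
    intro v
    have hu : ContDiff ℝ 1 (fun z => H z v) := hH.clm_apply contDiff_const
    have hcu : HasCompactSupport (fun z => H z v) :=
      hc.comp_left (g := fun L : ℂ →L[ℝ] ℝ => L v) (by simp)
    have hfd : ∀ z, fderiv ℝ (fun z => H z v) z v = fderiv ℝ H z v v := by
      intro z
      have h1 := (((hH.differentiable one_ne_zero) z).hasFDerivAt.clm_apply
        (hasFDerivAt_const v z)).fderiv
      rw [h1]
      simp
    have hcont : Continuous (fun z => fderiv ℝ (fun z => H z v) z v) :=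
      (hu.continuous_fderiv one_ne_zero).clm_apply continuous_const
    have hcs : HasCompactSupport (fun z => fderiv ℝ (fun z => H z v) z v) :=
      (hcu.fderiv (𝕜 := ℝ)).comp_left (g := fun L : ℂ →L[ℝ] ℝ => L v) (by simp)
    have hi : Integrable (fun z => fderiv ℝ (fun z => H z v) z v) :=
      hcont.integrable_of_hasCompactSupport hcs
    have hi0 : Integrable (fun z => H z v) := hu.continuous.integrable_of_hasCompactSupport hcu
    have h2 := integral_mul_fderiv_eq_neg_fderiv_mul_of_integrable (μ := (volume : Measure ℂ))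
      (f := fun _ : ℂ => (1 : ℝ)) (g := fun z => H z v) (v := v) (by simp) (by simpa using hi)
      (by simpa using hi0) (fun _ _ => differentiableAt_const _)
      (fun z _ => (hu.differentiable one_ne_zero) z)
    simp only [one_mul, fderiv_fun_const, Pi.zero_apply, zero_apply, zero_mul,
      integral_zero, neg_zero] at h2
    have h3 : (fun z => fderiv ℝ H z v v) = fun z => fderiv ℝ (fun z => H z v) z v :=
      funext fun z => (hfd z).symm
    rw [h3]
    exact ⟨hi, h2⟩
  unfold dv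
  rw [integral_add (key 1).1 (key Complex.I).1, (key 1).2, (key Complex.I).2, add_zero]

/-- the integral of `dv (η • F)` over an end vanishes, if `η = 1` far out -/
theorem end_int {U : Set ℂ} (hU : IsOpen U) {F : ℂ → ℂ →L[ℝ] ℝ} (hF : ContDiffOn ℝ 1 F U)
    {φ : ℂ → ℂ} (hφ : Differentiable ℂ φ)
    (hper : ∀ w, φ (w + 2 * Real.pi * Complex.I) = φ w) {s0 s1 s2 : ℝ} (h01 : s0 < s1)
    (hS : MapsTo φ (Hp s0) U) (hinj : InjOn φ (Vs s0))
    (hfl : Tendsto (fun s => ∫ θ in (-Real.pi)..Real.pi, pb φ F (pt s θ) 1) atTop (𝓝 0))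
    {η : ℂ → ℝ} (hη : ContDiff ℝ 1 η) (hη0 : ∀ z ∈ U, z ∉ φ '' Vs s1 → η =ᶠ[𝓝 z] fun _ => 0)
    (hη1 : ∀ w, w.re = s1 → η (φ w) = 0) (hη2 : ∀ w, s2 ≤ w.re → η (φ w) = 1)
    (hint : IntegrableOn (dv fun z => η z • F z) U) :
    ∫ z in U, dv (fun z => η z • F z) z = 0 := by
  set H : ℂ → ℂ →L[ℝ] ℝ := fun z => η z • F z with hH
  have hHc : ContDiffOn ℝ 1 H U := hη.contDiffOn.smul hF
  have hsub : Vs s1 ⊆ Vs s0 := fun w hw => ⟨by linarith [hw.1], hw.2⟩
  have himg : φ '' Vs s1 ⊆ U := by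
    rintro _ ⟨w, hw, rfl⟩
    exact hS (Vs_subset _ (hsub hw))
  have hder : ∀ w, deriv φ (w + 2 * Real.pi * Complex.I) = deriv φ w := by
    intro w
    have h1 : (fun w => φ (w + 2 * Real.pi * Complex.I)) = φ := funext hper
    have h2 := deriv_comp_add_const φ (2 * Real.pi * Complex.I) w
    rw [h1] at h2
    exact h2.symm
  have hHp : ∀ w ∈ Hp s0, pb φ H (w + 2 * Real.pi * Complex.I) = pb φ H w := by
    intro w _
    unfold pb
    rw [hper, hder]
  have e1 : ∫ z in U, dv H z = ∫ z in φ '' Vs s1, dv H z := by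
    refine setIntegral_eq_of_subset_of_forall_sdiff_eq_zero hU.measurableSet himg ?_
    rintro z ⟨hz, hz'⟩
    refine dv_zero_of ?_
    filter_upwards [hη0 z hz hz'] with y hy
    simp [hH, hy]
  have hcv := cv hφ (hinj.mono hsub) (hint.mono_set himg)
  rw [e1, hcv.2]
  have hpH : ContDiffOn ℝ 1 (pb φ H) (Hp s0) := contDiffOn_pb hφ hHc hS
  have hd : ∀ x ∈ Ici s1, HasDerivAt
      (fun s => ∫ θ in (-Real.pi)..Real.pi, pb φ H (pt s θ) 1)
      (∫ θ in (-Real.pi)..Real.pi, ‖deriv φ (pt x θ)‖ ^ 2 * dv H (φ (pt x θ))) x := by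
    intro x hx
    have hx0 : s0 < x := lt_of_lt_of_le h01 hx
    have h1 := flux_deriv hpH hHp hx0
    have h2 : ∫ θ in (-Real.pi)..Real.pi, dv (pb φ H) (pt x θ)
        = ∫ θ in (-Real.pi)..Real.pi, ‖deriv φ (pt x θ)‖ ^ 2 * dv H (φ (pt x θ)) := by
      refine intervalIntegral.integral_congr fun θ _ => ?_
      have hm : φ (pt x θ) ∈ U := hS (by simp only [Hp, mem_ofPred_eq, pt_re]; exact hx0)
      exact dv_pb hφ ((hHc.differentiableOn one_ne_zero).differentiableAt (hU.mem_nhds hm))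
    rw [h2] at h1
    exact h1
  have hlim : Tendsto (fun s => ∫ θ in (-Real.pi)..Real.pi, pb φ H (pt s θ) 1) atTop (𝓝 0) := by
    refine hfl.congr' ?_
    filter_upwards [eventually_ge_atTop s2] with s hs
    refine intervalIntegral.integral_congr fun θ _ => ?_
    show pb φ F (pt s θ) 1 = pb φ H (pt s θ) 1
    rw [pb_apply, pb_apply, hH]
    simp only
    rw [hη2 (pt s θ) (by rw [pt_re]; exact hs), one_smul]
  have h3 := integral_Ioi_of_hasDerivAt_of_tendsto' hd hcv.1 hlim
  rw [h3]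
  have h4 : ∫ θ in (-Real.pi)..Real.pi, pb φ H (pt s1 θ) 1 = 0 := by
    have : ∀ θ, pb φ H (pt s1 θ) 1 = 0 := by
      intro θ
      rw [pb_apply, hH]
      simp only
      rw [hη1 (pt s1 θ) (pt_re _ _), zero_smul]
      simp
    simp [this]
  rw [h4, sub_zero]

/-! ### the two kinds of ends -/

/-- the log coordinate at a puncture -/
noncomputable def fb (b : ℂ) (w : ℂ) : ℂ := b + Complex.exp (-w)

theorem hasDerivAt_fb (b w : ℂ) : HasDerivAt (fb b) (-Complex.exp (-w)) w := by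
  unfold fb
  have h := ((hasDerivAt_id w).neg.cexp).const_add b
  simpa using h

theorem diff_fb (b : ℂ) : Differentiable ℂ (fb b) := fun w =>
  (hasDerivAt_fb b w).differentiableAt

theorem norm_deriv_fb (b w : ℂ) : ‖deriv (fb b) w‖ = Real.exp (-w.re) := by
  rw [(hasDerivAt_fb b w).deriv, norm_neg, Complex.norm_exp, Complex.neg_re]

theorem norm_fb_sub (b w : ℂ) : ‖fb b w - b‖ = Real.exp (-w.re) := by
  unfold fb
  rw [add_sub_cancel_left, Complex.norm_exp, Complex.neg_re]

theorem fb_ne (b w : ℂ) : fb b w ≠ b := by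
  intro h
  have h1 := norm_fb_sub b w
  rw [h, sub_self, norm_zero] at h1
  exact absurd h1.symm (Real.exp_pos _).ne'

theorem fb_per (b w : ℂ) : fb b (w + 2 * Real.pi * Complex.I) = fb b w := by
  unfold fb
  rw [neg_add, Complex.exp_add, Complex.exp_neg (2 * Real.pi * Complex.I),
    Complex.exp_two_pi_mul_I, inv_one, mul_one]

theorem fb_inj (b : ℂ) (s : ℝ) : InjOn (fb b) (Vs s) := by
  rintro w ⟨-, h1, h2⟩ w' ⟨-, h1', h2'⟩ h
  refine Complex.exp_inj_of_neg_pi_lt_of_le_pi h1 h2 h1' h2' ?_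
  have h3 : Complex.exp (-w) = Complex.exp (-w') := by
    unfold fb at h
    exact add_left_cancel h
  rw [Complex.exp_neg, Complex.exp_neg] at h3
  exact inv_injective h3

theorem mem_fb_image {b z : ℂ} {s : ℝ} (hz : z ≠ b) (h : ‖z - b‖ < Real.exp (-s)) :
    z ∈ fb b '' Vs s := by
  have hzb : z - b ≠ 0 := sub_ne_zero.2 hz
  refine ⟨Complex.log (z - b)⁻¹, ⟨?_, Complex.neg_pi_lt_log_im _, Complex.log_im_le_pi _⟩, ?_⟩
  · rw [Complex.log_re, norm_inv, Real.log_inv]
    have h1 : Real.log ‖z - b‖ < -s := by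
      rw [Real.log_lt_iff_lt_exp (norm_pos_iff.2 hzb)]
      exact h
    linarith
  · unfold fb
    rw [Complex.exp_neg, Complex.exp_log (inv_ne_zero hzb), inv_inv]
    ring

theorem norm_deriv_exp (w : ℂ) : ‖deriv Complex.exp w‖ = Real.exp w.re := by
  rw [Complex.deriv_exp, Complex.norm_exp]

theorem exp_per (w : ℂ) : Complex.exp (w + 2 * Real.pi * Complex.I) = Complex.exp w := by
  rw [Complex.exp_add, Complex.exp_two_pi_mul_I, mul_one]

theorem exp_inj (s : ℝ) : InjOn Complex.exp (Vs s) := by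
  rintro w ⟨-, h1, h2⟩ w' ⟨-, h1', h2'⟩ h
  exact Complex.exp_inj_of_neg_pi_lt_of_le_pi h1 h2 h1' h2' h

theorem mem_exp_image {z : ℂ} {s : ℝ} (h : Real.exp s < ‖z‖) : z ∈ Complex.exp '' Vs s := by
  have hz : z ≠ 0 := by
    rintro rfl
    rw [norm_zero] at h
    exact absurd h (not_lt.2 (Real.exp_pos _).le)
  refine ⟨Complex.log z, ⟨?_, Complex.neg_pi_lt_log_im _, Complex.log_im_le_pi _⟩,
    Complex.exp_log hz⟩
  rw [Complex.log_re, Real.lt_log_iff_exp_lt (norm_pos_iff.2 hz)]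
  exact h

/-- the gradient term is integrable -/
theorem integrable_gr {S : Finset ℂ} {F : ℂ → ℂ →L[ℝ] ℝ} (hF : ContinuousOn F (↑S : Set ℂ)ᶜ)
    {η : ℂ → ℝ} (hη : ContDiff ℝ 1 η) (hc : HasCompactSupport (fderiv ℝ η))
    (h0 : ∀ b ∈ S, fderiv ℝ η =ᶠ[𝓝 b] fun _ => 0) : Integrable (gr η F) := by
  have hcs : HasCompactSupport (gr η F) := by
    refine hc.mono ?_
    intro z hz
    rw [Function.mem_support] at hz ⊢
    intro h
    apply hz
    unfold gr
    rw [h]
    simp
  have hcont : Continuous (gr η F) := by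
    rw [continuous_iff_continuousAt]
    intro z
    by_cases hz : z ∈ S
    · have h1 : gr η F =ᶠ[𝓝 z] fun _ => 0 := by
        filter_upwards [h0 z hz] with y hy
        unfold gr
        rw [hy]
        simp
      exact continuousAt_const.congr h1.symm
    · have hF' : ContinuousAt F z :=
        hF.continuousAt ((S.finite_toSet.isClosed.isOpen_compl).mem_nhds hz)
      have hd : ContinuousAt (fderiv ℝ η) z :=
        (hη.continuous_fderiv one_ne_zero).continuousAt
      unfold gr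
      exact ((hd.clm_apply continuousAt_const).mul (hF'.clm_apply continuousAt_const)).add
        ((hd.clm_apply continuousAt_const).mul (hF'.clm_apply continuousAt_const))
  exact hcont.integrable_of_hasCompactSupport hcs

theorem integrableOn_dv_smul {S : Finset ℂ} {F : ℂ → ℂ →L[ℝ] ℝ}
    (hF : ContDiffOn ℝ 1 F (↑S : Set ℂ)ᶜ) (hint : IntegrableOn (dv F) (↑S : Set ℂ)ᶜ)
    {η : ℂ → ℝ} (hη : ContDiff ℝ 1 η) (hb : ∀ z, |η z| ≤ 1)
    (hc : HasCompactSupport (fderiv ℝ η))
    (h0 : ∀ b ∈ S, fderiv ℝ η =ᶠ[𝓝 b] fun _ => 0) :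
    IntegrableOn (dv fun z => η z • F z) (↑S : Set ℂ)ᶜ := by
  have hU : IsOpen (↑S : Set ℂ)ᶜ := S.finite_toSet.isClosed.isOpen_compl
  have h1 : IntegrableOn (fun z => η z * dv F z + gr η F z) (↑S : Set ℂ)ᶜ := by
    refine Integrable.add ?_ (integrable_gr hF.continuousOn hη hc h0).integrableOn
    exact hint.bdd_mul (c := 1) hη.continuous.aestronglyMeasurable
      (Eventually.of_forall fun z => hb z)
  refine h1.congr_fun (fun z hz => ?_) hU.measurableSet
  exact (dv_smul ((hη.differentiable one_ne_zero) z)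
    ((hF.differentiableOn one_ne_zero).differentiableAt (hU.mem_nhds hz))).symm

theorem bump_abs {c : ℂ} (f : ContDiffBump c) (z : ℂ) : |f z| ≤ 1 := by
  rw [abs_of_nonneg f.nonneg]; exact f.le_one

theorem bump_far {c z : ℂ} (f : ContDiffBump c) (h : f.rOut < ‖z - c‖) :
    (f : ℂ → ℝ) =ᶠ[𝓝 z] fun _ => 0 := by
  have h1 : z ∉ tsupport f := by
    rw [f.tsupport_eq, Metric.mem_closedBall, dist_eq_norm]
    exact not_le.2 h
  exact notMem_tsupport_iff_eventuallyEq.1 h1

theorem bump_near {c z : ℂ} (f : ContDiffBump c) (h : ‖z - c‖ < f.rIn) :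
    (f : ℂ → ℝ) =ᶠ[𝓝 z] fun _ => 1 :=
  f.eventuallyEq_one_of_mem_ball (by rw [Metric.mem_ball, dist_eq_norm]; exact h)

/-- **No exact harmonic forms** (global, plane form): `Ω = ℂ ∖ S`. -/
theorem integral_eq_zero (S : Finset ℂ) {A E Y X : ℂ → ℝ} {F G : ℂ → ℂ →L[ℝ] ℝ}
    (h : Plane (↑S : Set ℂ)ᶜ A E Y X F G) (hint : IntegrableOn E (↑S : Set ℂ)ᶜ)
    (hb : ∀ b ∈ S, ∃ C r : ℝ, 0 < r ∧ ∀ z, z ≠ b → ‖z - b‖ < r →
      Y z ≤ (C / (‖z - b‖ * Real.log ‖z - b‖)) ^ 2 * A z)
    (hinf : ∃ C R : ℝ, ∀ z, R < ‖z‖ → Y z ≤ (C / (‖z‖ * Real.log ‖z‖)) ^ 2 * A z) :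
    ∫ z in (↑S : Set ℂ)ᶜ, E z = 0 := by
  classical
  set U : Set ℂ := (↑S : Set ℂ)ᶜ with hUdef
  have hU : IsOpen U := S.finite_toSet.isClosed.isOpen_compl
  have hmU : ∀ z, z ∈ U ↔ z ∉ S := fun z => by simp [hUdef]
  choose! C r hr hY using hb
  obtain ⟨Ci, Ri, hYi⟩ := hinf
  -- choice of `T`
  have htend : Tendsto (fun T : ℝ => Real.exp (-T)) atTop (𝓝 0) :=
    Real.tendsto_exp_neg_atTop_nhds_zero
  have hsmall : ∀ x : ℝ, 0 < x → ∀ᶠ T : ℝ in atTop, Real.exp (-T) < x := fun x hx =>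
    htend.eventually_lt_const hx
  have hbig : ∀ x : ℝ, ∀ᶠ T : ℝ in atTop, x < Real.exp T := fun x =>
    Real.tendsto_exp_atTop.eventually_gt_atTop x
  have hev : ∀ᶠ T : ℝ in atTop, 0 < T ∧ (∀ b ∈ S, Real.exp (-T) < r b) ∧ Ri < Real.exp T ∧
      (∀ b ∈ S, ‖b‖ + 1 < Real.exp T) ∧
      ∀ b ∈ S, ∀ b' ∈ S, b ≠ b' → Real.exp (-T) < ‖b - b'‖ / 2 := by
    refine (eventually_gt_atTop 0).and (Eventually.and ?_ ((hbig _).and (Eventually.and ?_ ?_)))
    · exact (Filter.eventually_all_finset S).2 fun b hb => hsmall _ (hr b hb)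
    · exact (Filter.eventually_all_finset S).2 fun b _ => hbig _
    · refine (Filter.eventually_all_finset S).2 fun b _ =>
        (Filter.eventually_all_finset S).2 fun b' _ => ?_
      by_cases hbb : b = b'
      · exact Eventually.of_forall fun T hne => absurd hbb hne
      · filter_upwards [hsmall (‖b - b'‖ / 2)
          (by have := norm_pos_iff.2 (sub_ne_zero.2 hbb); linarith)] with T hT _
        exact hT
  obtain ⟨T, hT0, hT1, hT2, hT3, hT4⟩ := hev.exists
  have hexpT : Real.exp (-T) < 1 := by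
    rw [Real.exp_lt_one_iff]; linarith
  -- the bumps
  let β : (b : ℂ) → ContDiffBump b := fun b =>
    ⟨Real.exp (-(T + 3)), Real.exp (-(T + 2)), Real.exp_pos _,
      Real.exp_lt_exp.2 (by linarith)⟩
  let βi : ContDiffBump (0 : ℂ) :=
    ⟨Real.exp (T + 2), Real.exp (T + 3), Real.exp_pos _, Real.exp_lt_exp.2 (by linarith)⟩
  have hβ1 : ∀ b, (β b).rIn = Real.exp (-(T + 3)) := fun b => rfl
  have hβ2 : ∀ b, (β b).rOut = Real.exp (-(T + 2)) := fun b => rfl
  have hβi1 : βi.rIn = Real.exp (T + 2) := rfl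
  have hβi2 : βi.rOut = Real.exp (T + 3) := rfl
  have hout : Real.exp (-(T + 2)) < Real.exp (-T) := Real.exp_lt_exp.2 (by linarith)
  -- near the points of `S`
  have near_self : ∀ b, (β b : ℂ → ℝ) =ᶠ[𝓝 b] fun _ => 1 := fun b =>
    bump_near _ (by rw [sub_self, norm_zero]; exact Real.exp_pos _)
  have near_other : ∀ b ∈ S, ∀ b' ∈ S, b ≠ b' → (β b : ℂ → ℝ) =ᶠ[𝓝 b'] fun _ => 0 := by
    intro b hb b' hb' hne
    refine bump_far _ ?_
    rw [hβ2, norm_sub_rev]
    have h1 := hT4 b hb b' hb' hne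
    have h2 := Real.exp_pos (-T)
    linarith
  have near_inf : ∀ b ∈ S, (βi : ℂ → ℝ) =ᶠ[𝓝 b] fun _ => 1 := by
    intro b hb
    refine bump_near _ ?_
    rw [hβi1, sub_zero]
    have h1 := hT3 b hb
    have h2 : Real.exp T < Real.exp (T + 2) := Real.exp_lt_exp.2 (by linarith)
    linarith
  have fd_zero : ∀ {f : ℂ → ℝ} {b : ℂ} {c : ℝ}, f =ᶠ[𝓝 b] (fun _ => c) →
      fderiv ℝ f =ᶠ[𝓝 b] fun _ => 0 := by
    intro f b c hf
    have h1 : fderiv ℝ f =ᶠ[𝓝 b] fderiv ℝ (fun _ : ℂ => c) := hf.fderiv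
    refine h1.trans (Eventually.of_forall fun z => ?_)
    simp
  have hEdv : IntegrableOn (dv F) U :=
    hint.congr_fun (fun z hz => (h.dF z hz).symm) hU.measurableSet
  -- integrability of the pieces
  have int_b : ∀ b ∈ S, IntegrableOn (dv fun z => β b z • F z) U := by
    intro b hb
    refine integrableOn_dv_smul h.hF hEdv (β b).contDiff (bump_abs _)
      ((β b).hasCompactSupport.fderiv (𝕜 := ℝ)) fun b' hb' => ?_
    by_cases hbb : b = b'
    · subst hbb
      exact fd_zero (near_self b)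
    · exact fd_zero (near_other b hb b' hb' hbb)
  set ηi : ℂ → ℝ := fun z => 1 - βi z with hηi
  have hηic : ContDiff ℝ 1 ηi := contDiff_const.sub βi.contDiff
  have int_i : IntegrableOn (dv fun z => ηi z • F z) U := by
    refine integrableOn_dv_smul h.hF hEdv hηic (fun z => ?_) ?_ fun b' hb' => ?_
    · rw [hηi, abs_of_nonneg (by simpa using βi.le_one)]
      have : 0 ≤ βi z := βi.nonneg
      simp only
      linarith
    · have h1 : fderiv ℝ ηi = fun z => -fderiv ℝ βi z := by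
        funext z
        rw [hηi, fderiv_const_sub]
      rw [h1]
      exact (βi.hasCompactSupport.fderiv (𝕜 := ℝ)).comp_left
        (g := fun L : ℂ →L[ℝ] ℝ => -L) (by simp)
    · refine fd_zero (c := 0) ?_
      filter_upwards [near_inf b' hb'] with z hz
      rw [hηi]
      simp only
      rw [hz]
      norm_num
  -- the middle piece
  set η0 : ℂ → ℝ := fun z => βi z - ∑ b ∈ S, β b z with hη0
  have hη0c : ContDiff ℝ 1 η0 :=
    βi.contDiff.sub (ContDiff.sum fun b _ => (β b).contDiff)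
  have hη0S : ∀ b ∈ S, η0 =ᶠ[𝓝 b] fun _ => 0 := by
    intro b hb
    have h1 : ∀ᶠ z in 𝓝 b, ∀ b' ∈ S, b' ≠ b → β b' z = 0 := by
      refine (Filter.eventually_all_finset S).2 fun b' hb' => ?_
      by_cases hbb : b' = b
      · exact Eventually.of_forall fun z hne => absurd hbb hne
      · filter_upwards [near_other b' hb' b hb hbb] with z hz _
        exact hz
    filter_upwards [h1, near_self b, near_inf b hb] with z h1 h2 h3
    rw [hη0]
    simp only
    rw [h3, Finset.sum_eq_single b (fun b' hb' hne => h1 b' hb' hne)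
      (fun hn => absurd hb hn), h2]
    norm_num
  set H0 : ℂ → ℂ →L[ℝ] ℝ := fun z => η0 z • F z with hH0
  have hH0S : ∀ b ∈ S, H0 =ᶠ[𝓝 b] fun _ => 0 := by
    intro b hb
    filter_upwards [hη0S b hb] with z hz
    rw [hH0]
    simp only
    rw [hz, zero_smul]
  have hH0c : ContDiff ℝ 1 H0 := by
    rw [contDiff_iff_contDiffAt]
    intro z
    by_cases hz : z ∈ S
    · exact (contDiffAt_const (c := (0 : ℂ →L[ℝ] ℝ))).congr_of_eventuallyEq (hH0S z hz)
    · exact hη0c.contDiffAt.smul (h.hF.contDiffAt (hU.mem_nhds ((hmU z).2 hz)))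
  have hH0s : HasCompactSupport H0 := by
    refine HasCompactSupport.intro (isCompact_closedBall (0 : ℂ) (Real.exp (T + 3))) ?_
    intro z hz
    rw [Metric.mem_closedBall, dist_zero_right, not_le] at hz
    have h1 : βi z = 0 := βi.zero_of_le_dist (by rw [hβi2, dist_zero_right]; exact hz.le)
    have h2 : ∀ b ∈ S, β b z = 0 := by
      intro b hb
      refine (β b).zero_of_le_dist ?_
      rw [hβ2, dist_eq_norm]
      have h3 := hT3 b hb
      have h4 : Real.exp T < Real.exp (T + 3) := Real.exp_lt_exp.2 (by linarith)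
      have h5 : ‖z‖ ≤ ‖z - b‖ + ‖b‖ := by
        calc ‖z‖ = ‖(z - b) + b‖ := by rw [sub_add_cancel]
          _ ≤ _ := norm_add_le _ _
      linarith
    rw [hH0]
    simp only
    rw [hη0]
    simp only
    rw [h1, Finset.sum_eq_zero h2, sub_zero, zero_smul]
  have int_0 : IntegrableOn (dv H0) U := by
    have hc : Continuous (dv H0) := by
      have := continuousOn_dv isOpen_univ hH0c.contDiffOn
      rwa [continuousOn_univ] at this
    have hcs : HasCompactSupport (dv H0) := by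
      have h1 := hH0s.fderiv (𝕜 := ℝ)
      exact h1.comp_left (g := fun L : ℂ →L[ℝ] ℂ →L[ℝ] ℝ => L 1 1 + L Complex.I Complex.I)
        (by simp)
    exact (hc.integrable_of_hasCompactSupport hcs).integrableOn
  have z0 : ∫ z in U, dv H0 z = 0 := by
    rw [setIntegral_eq_integral_of_forall_compl_eq_zero]
    · exact integral_dv_eq_zero hH0c hH0s
    · intro z hz
      rw [hmU, not_not] at hz
      exact dv_zero_of (hH0S z hz)
  -- the ends at the punctures
  have zb : ∀ b ∈ S, ∫ z in U, dv (fun z => β b z • F z) z = 0 := by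
    intro b hb
    have hS : MapsTo (fb b) (Hp T) U := by
      intro w hw
      rw [hmU]
      intro hmem
      have h1 := fb_ne b w
      have h2 := hT4 b hb _ hmem (Ne.symm h1)
      rw [norm_sub_rev, norm_fb_sub] at h2
      have h3 : Real.exp (-w.re) < Real.exp (-T) := Real.exp_lt_exp.2 (by
        have : T < w.re := hw
        linarith)
      have h4 := Real.exp_pos (-w.re)
      linarith
    have hfl : Tendsto (fun s => ∫ θ in (-Real.pi)..Real.pi, pb (fb b) F (pt s θ) 1)
        atTop (𝓝 0) := by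
      refine end_flux hU h hint (diff_fb b) (fb_per b) hT0 hS (fb_inj b T) (C := C b) ?_
      intro w hw
      have hw' : T < w.re := hw
      have hwp : 0 < w.re := by linarith
      have h1 : ‖fb b w - b‖ < r b := by
        rw [norm_fb_sub]
        exact lt_trans (Real.exp_lt_exp.2 (by linarith)) (hT1 b hb)
      have h2 := hY b hb _ (fb_ne b w) h1
      rw [norm_fb_sub, Real.log_exp] at h2
      rw [norm_deriv_fb]
      have he := Real.exp_pos (-w.re)
      calc Real.exp (-w.re) ^ 2 * Y (fb b w)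
          ≤ Real.exp (-w.re) ^ 2 * ((C b / (Real.exp (-w.re) * -w.re)) ^ 2 * A (fb b w)) :=
            mul_le_mul_of_nonneg_left h2 (by positivity)
        _ = (C b / w.re) ^ 2 * A (fb b w) := by
            field_simp
    refine end_int (s1 := T + 1) (s2 := T + 3) hU h.hF (diff_fb b) (fb_per b) (by linarith) hS
      (fb_inj b T) hfl (β b).contDiff ?_ ?_ ?_ (int_b b hb)
    · intro z hz hz'
      refine bump_far _ ?_
      rw [hβ2]
      by_contra hcon
      rw [not_lt] at hcon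
      refine hz' (mem_fb_image ?_ (lt_of_le_of_lt hcon (Real.exp_lt_exp.2 (by linarith))))
      rintro rfl
      exact (hmU z).1 hz hb
    · intro w hw
      refine (β b).zero_of_le_dist ?_
      rw [hβ2, dist_eq_norm, norm_fb_sub, hw]
      exact Real.exp_le_exp.2 (by linarith)
    · intro w hw
      refine (β b).one_of_mem_closedBall ?_
      rw [Metric.mem_closedBall, dist_eq_norm, norm_fb_sub, hβ1]
      exact Real.exp_le_exp.2 (by linarith)
  -- the end at infinity
  have zi : ∫ z in U, dv (fun z => ηi z • F z) z = 0 := by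
    have hS : MapsTo Complex.exp (Hp T) U := by
      intro w hw
      rw [hmU]
      intro hmem
      have h1 := hT3 _ hmem
      rw [Complex.norm_exp] at h1
      have h3 : Real.exp T < Real.exp w.re := Real.exp_lt_exp.2 hw
      linarith
    have hfl : Tendsto (fun s => ∫ θ in (-Real.pi)..Real.pi, pb Complex.exp F (pt s θ) 1)
        atTop (𝓝 0) := by
      refine end_flux hU h hint Complex.differentiable_exp exp_per hT0 hS (exp_inj T)
        (C := Ci) ?_
      intro w hw
      have hw' : T < w.re := hw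
      have hwp : 0 < w.re := by linarith
      have h1 : Ri < ‖Complex.exp w‖ := by
        rw [Complex.norm_exp]
        exact lt_trans hT2 (Real.exp_lt_exp.2 hw')
      have h2 := hYi _ h1
      rw [Complex.norm_exp, Real.log_exp] at h2
      rw [norm_deriv_exp]
      have he := Real.exp_pos w.re
      calc Real.exp w.re ^ 2 * Y (Complex.exp w)
          ≤ Real.exp w.re ^ 2 * ((Ci / (Real.exp w.re * w.re)) ^ 2 * A (Complex.exp w)) :=
            mul_le_mul_of_nonneg_left h2 (by positivity)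
        _ = (Ci / w.re) ^ 2 * A (Complex.exp w) := by
            field_simp
    refine end_int (s1 := T + 1) (s2 := T + 3) hU h.hF Complex.differentiable_exp exp_per
      (by linarith) hS (exp_inj T) hfl hηic ?_ ?_ ?_ int_i
    · intro z hz hz'
      have hn : ‖z‖ ≤ Real.exp (T + 1) := by
        by_contra hcon
        exact hz' (mem_exp_image (not_le.1 hcon))
      have h1 : (βi : ℂ → ℝ) =ᶠ[𝓝 z] fun _ => 1 := by
        refine bump_near _ ?_
        rw [hβi1, sub_zero]
        exact lt_of_le_of_lt hn (Real.exp_lt_exp.2 (by linarith))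
      filter_upwards [h1] with y hy
      rw [hηi]
      simp only
      rw [hy]
      norm_num
    · intro w hw
      have h1 : βi (Complex.exp w) = 1 := by
        refine βi.one_of_mem_closedBall ?_
        rw [Metric.mem_closedBall, dist_zero_right, Complex.norm_exp, hβi1, hw]
        exact Real.exp_le_exp.2 (by linarith)
      rw [hηi]
      simp only
      rw [h1]
      norm_num
    · intro w hw
      have h1 : βi (Complex.exp w) = 0 := by
        refine βi.zero_of_le_dist ?_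
        rw [hβi2, dist_zero_right, Complex.norm_exp]
        exact Real.exp_le_exp.2 (by linarith)
      rw [hηi]
      simp only
      rw [h1]
      norm_num
  -- the sum
  have hsum : ∀ z ∈ U, E z = dv H0 z + ∑ b ∈ S, dv (fun z => β b z • F z) z
      + dv (fun z => ηi z • F z) z := by
    intro z hz
    have hFz : DifferentiableAt ℝ F z :=
      (h.hF.differentiableOn one_ne_zero).differentiableAt (hU.mem_nhds hz)
    have e0 : dv H0 z = η0 z * dv F z + gr η0 F z :=
      dv_smul ((hη0c.differentiable one_ne_zero) z) hFz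
    have eb : ∀ b ∈ S, dv (fun z => β b z • F z) z = β b z * dv F z + gr (β b) F z :=
      fun b _ => dv_smul ((((β b).contDiff (n := 1)).differentiable one_ne_zero) z) hFz
    have ei : dv (fun z => ηi z • F z) z = ηi z * dv F z + gr ηi F z :=
      dv_smul ((hηic.differentiable one_ne_zero) z) hFz
    have hdβi : DifferentiableAt ℝ (βi : ℂ → ℝ) z :=
      ((βi.contDiff (n := 1)).differentiable one_ne_zero) z
    have hdβ : ∀ b ∈ S, DifferentiableAt ℝ (β b : ℂ → ℝ) z := fun b _ =>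
      (((β b).contDiff (n := 1)).differentiable one_ne_zero) z
    have f0 : fderiv ℝ η0 z = fderiv ℝ βi z - ∑ b ∈ S, fderiv ℝ (β b) z := by
      rw [hη0, fderiv_fun_sub hdβi (DifferentiableAt.fun_sum hdβ), fderiv_fun_sum hdβ]
    have fi : fderiv ℝ ηi z = -fderiv ℝ βi z := by
      rw [hηi, fderiv_const_sub]
    rw [e0, Finset.sum_congr rfl eb, ei, Finset.sum_add_distrib, ← Finset.sum_mul, h.dF z hz]
    unfold gr
    rw [f0, fi, Finset.sum_add_distrib, ← Finset.sum_mul, ← Finset.sum_mul, hη0, hηi]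
    simp only [sub_apply, neg_apply, sum_apply]
    ring
  have hsi : IntegrableOn (fun z => ∑ b ∈ S, dv (fun z => β b z • F z) z) U :=
    integrable_finsetSum S int_b
  have hs0 : IntegrableOn (fun z => dv H0 z + ∑ b ∈ S, dv (fun z => β b z • F z) z) U :=
    int_0.add hsi
  calc ∫ z in U, E z = ∫ z in U, (dv H0 z + ∑ b ∈ S, dv (fun z => β b z • F z) z
      + dv (fun z => ηi z • F z) z) := setIntegral_congr_fun hU.measurableSet hsum
    _ = 0 := by
      have h1 := integral_add (μ := volume.restrict U) hs0 int_i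
      have h2 := integral_add (μ := volume.restrict U) int_0 hsi
      have h3 : ∫ z in U, ∑ b ∈ S, dv (fun z => β b z • F z) z
          = ∑ b ∈ S, ∫ z in U, dv (fun z => β b z • F z) z := integral_finsetSum S int_b
      rw [h1, h2, h3, Finset.sum_eq_zero zb, z0, zi]
      norm_num

/-- **No exact harmonic forms** (global, plane form), pointwise version -/
theorem eq_zero (S : Finset ℂ) {A E Y X : ℂ → ℝ} {F G : ℂ → ℂ →L[ℝ] ℝ}
    (h : Plane (↑S : Set ℂ)ᶜ A E Y X F G) (hint : IntegrableOn E (↑S : Set ℂ)ᶜ)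
    (hb : ∀ b ∈ S, ∃ C r : ℝ, 0 < r ∧ ∀ z, z ≠ b → ‖z - b‖ < r →
      Y z ≤ (C / (‖z - b‖ * Real.log ‖z - b‖)) ^ 2 * A z)
    (hinf : ∃ C R : ℝ, ∀ z, R < ‖z‖ → Y z ≤ (C / (‖z‖ * Real.log ‖z‖)) ^ 2 * A z) :
    ∀ z ∉ S, E z = 0 := by
  have hU : IsOpen (↑S : Set ℂ)ᶜ := S.finite_toSet.isClosed.isOpen_compl
  have h0 := integral_eq_zero S h hint hb hinf
  rw [setIntegral_eq_zero_iff_of_nonneg_ae ?_ hint] at h0
  · intro z hz
    exact Measure.eqOn_open_of_ae_eq h0 hU (h.contE hU) continuousOn_const (by simpa using hz)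
  · rw [EventuallyLE, ae_restrict_iff' hU.measurableSet]
    exact Eventually.of_forall fun z hz => h.E0 z hz

end Crest.Agent.R276.IpcE3_827
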