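import Crest.Agent.R276.VCalcE_442

/-!
# R276, leaf VCalc (helper442): flat sections of a polarised VHS

* `VHS.dW_P`, `VHS.dB_P` : `∂_v P_p = [θ_v, P_p]`, `∂̄_v P_p = [θ̄_v, P_p]`;
* `VHS.dW_hm`, `VHS.dB_hm`, `VHS.dB_dW_hm` : derivatives of the Hodge metric;
* `hn w S P u x = |u|²` (Hodge norm of the flat section `u`):
  `VHS.curv_hn` (`log |u|²` is psh), `VHS.growth_hn` (`|∂_v |u|²| ≤ 2 √g_v |u|²`).
* `tc w S P p u x = |P_p u|²`: `VHS.curv_tc` if `P_{p+1} u = 0`.
-/

set_option autoImplicit false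
set_option linter.unusedSectionVars false

open Set Filter Topology Matrix Finset InnerProductSpace Laplacian
open scoped ContDiff ComplexConjugate ComplexOrder

namespace Crest.Agent.R276.VCalc_442

variable {X : Type*} [NormedAddCommGroup X] [NormedSpace ℂ X]
variable {ι : Type*} [Fintype ι] [DecidableEq ι]

section sums

variable {A : Type*} [NormedAddCommGroup A] [NormedSpace ℂ A]

theorem dW_sum {κ : Type*} (s : Finset κ) {f : κ → X → A} {x : X}
    (hf : ∀ k ∈ s, DifferentiableAt ℝ (f k) x) (v : X) :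
    dW (fun y => ∑ k ∈ s, f k y) v x = ∑ k ∈ s, dW (f k) v x := by
  classical
  induction s using Finset.induction_on with
  | empty => simp
  | insert a s ha ih =>
    have h1 : ∀ k ∈ s, DifferentiableAt ℝ (f k) x := fun k hk => hf k (Finset.mem_insert_of_mem hk)
    have h2 : DifferentiableAt ℝ (fun y => ∑ k ∈ s, f k y) x := DifferentiableAt.fun_sum h1
    have h3 : (fun y => ∑ k ∈ insert a s, f k y) = fun y => f a y + ∑ k ∈ s, f k y := by
      funext y
      rw [Finset.sum_insert ha]
    rw [h3, dW_add (hf a (Finset.mem_insert_self a s)) h2, ih h1, Finset.sum_insert ha]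

theorem dB_sum {κ : Type*} (s : Finset κ) {f : κ → X → A} {x : X}
    (hf : ∀ k ∈ s, DifferentiableAt ℝ (f k) x) (v : X) :
    dB (fun y => ∑ k ∈ s, f k y) v x = ∑ k ∈ s, dB (f k) v x := by
  classical
  induction s using Finset.induction_on with
  | empty => simp
  | insert a s ha ih =>
    have h1 : ∀ k ∈ s, DifferentiableAt ℝ (f k) x := fun k hk => hf k (Finset.mem_insert_of_mem hk)
    have h2 : DifferentiableAt ℝ (fun y => ∑ k ∈ s, f k y) x := DifferentiableAt.fun_sum h1
    have h3 : (fun y => ∑ k ∈ insert a s, f k y) = fun y => f a y + ∑ k ∈ s, f k y := by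
      funext y
      rw [Finset.sum_insert ha]
    rw [h3, dB_add (hf a (Finset.mem_insert_self a s)) h2, ih h1, Finset.sum_insert ha]

end sums

section nm

attribute [local instance] Matrix.linftyOpNormedRing Matrix.linftyOpNormedAlgebra

namespace VHS

variable {w : ℕ} {U : Set X} {S : Matrix ι ι ℂ} {P : ℕ → X → Matrix ι ι ℂ} {x : X}

theorem eq_of_blocks (h : VHS w U S P) (hx : x ∈ U) {a b : Matrix ι ι ℂ}
    (hab : ∀ q r, P q x * a * P r x = P q x * b * P r x) : a = b := by
  rw [h.expand_left hx a, h.expand_left hx b]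
  refine Finset.sum_congr rfl fun q _ => ?_
  rw [h.expand_right hx (P q x * a), h.expand_right hx (P q x * b)]
  exact Finset.sum_congr rfl fun r _ => hab q r

/-- `∂_v P_p = [θ_v, P_p]` -/
theorem dW_P (h : VHS w U S P) (hx : x ∈ U) (p : ℕ) (v : X) :
    dW (P p) v x = dW (grOp w P) v x * P p x - P p x * dW (grOp w P) v x := by
  set θ := dW (grOp w P) v x with hθ
  have hl := h.low_th hx v
  -- first relation
  have r1 : θ * P p x + grOp w P x * dW (P p) v x = (p : ℂ) • dW (P p) v x := by
    have h1 := dW_congr (Filter.eventually_of_mem (h.op.mem_nhds hx)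
      (fun y hy => h.E_mul_P hy p)) v
    rwa [dW_mul (h.dE hx) (h.dP p hx), dW_const_smul _ (h.dP p hx)] at h1
  have r2 : dW (P p) v x * grOp w P x + P p x * θ = (p : ℂ) • dW (P p) v x := by
    have h1 := dW_congr (Filter.eventually_of_mem (h.op.mem_nhds hx)
      (fun y hy => h.P_mul_E hy p)) v
    rwa [dW_mul (h.dP p hx) (h.dE hx), dW_const_smul _ (h.dP p hx)] at h1
  have r3 : dW (P p) v x * P p x + P p x * dW (P p) v x = dW (P p) v x := by
    have h1 := dW_congr (Filter.eventually_of_mem (h.op.mem_nhds hx)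
      (fun y hy => h.idem y hy p)) v
    rwa [dW_mul (h.dP p hx) (h.dP p hx)] at h1
  set D := dW (P p) v x with hD
  refine h.eq_of_blocks hx fun q r => ?_
  have b1 : P q x * θ * P p x * P r x + (q : ℂ) • (P q x * D * P r x) =
      (p : ℂ) • (P q x * D * P r x) := by
    have := congrArg (fun M => P q x * M * P r x) r1
    simp only [mul_add, add_mul, mul_smul_comm, smul_mul_assoc] at this
    rw [← this]
    congr 1
    · simp only [mul_assoc]
    · rw [← mul_assoc, h.P_mul_E hx q]
      simp only [smul_mul_assoc]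
  have b2 : (r : ℂ) • (P q x * D * P r x) + P q x * P p x * θ * P r x =
      (p : ℂ) • (P q x * D * P r x) := by
    have := congrArg (fun M => P q x * M * P r x) r2
    simp only [mul_add, add_mul, mul_smul_comm, smul_mul_assoc] at this
    rw [← this]
    congr 1
    · rw [← mul_assoc, mul_assoc _ (grOp w P x), h.E_mul_P hx r]
      simp only [mul_smul_comm]
    · simp only [mul_assoc]
  have e0 : P q x * (θ * P p x - P p x * θ) * P r x =
      P q x * θ * (P p x * P r x) - (P q x * P p x) * θ * P r x := by noncomm_ring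
  rw [e0]
  by_cases hq : q = p
  · by_cases hr : r = p
    · rw [hq, hr, h.idem x hx]
      have := congrArg (fun M => P p x * M * P p x) r3
      simp only [mul_add, add_mul] at this
      rw [mul_assoc (P p x) (D * P p x), mul_assoc D, h.idem x hx, ← mul_assoc (P p x) (P p x) D,
        h.idem x hx] at this
      have h2 : P p x * D * P p x = 0 := by
        have h3 : P p x * (D * P p x) = P p x * D * P p x := by rw [mul_assoc]
        rw [h3] at this
        simpa using this
      rw [h2, sub_self]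
    · rw [hq] at b1 b2 ⊢
      rw [h.orth x hx p r (Ne.symm hr), mul_zero, zero_sub]
      rw [h.idem x hx] at b2 ⊢
      by_cases hr2 : p + 1 = r
      · have h4 : (r : ℂ) = (p : ℂ) + 1 := by rw [← hr2]; push_cast; ring
        rw [h4, add_smul, one_smul, add_assoc] at b2
        have h5 := add_left_cancel (b2.trans (add_zero _).symm)
        exact eq_neg_of_add_eq_zero_left h5
      · rw [h.low_block hx hl hr2] at b2 ⊢
        rw [add_zero, ← sub_eq_zero, ← sub_smul] at b2
        rw [neg_zero]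
        rcases smul_eq_zero.1 b2 with h6 | h6
        · exfalso
          apply hr
          have h7 : (r : ℂ) = (p : ℂ) := sub_eq_zero.1 h6
          exact_mod_cast h7
        · exact h6
  · rw [h.orth x hx q p hq, zero_mul, zero_mul, sub_zero]
    by_cases hr : r = p
    · rw [hr] at b1 ⊢
      rw [h.idem x hx]
      rw [mul_assoc (P q x * θ), h.idem x hx] at b1
      by_cases hq2 : q + 1 = p
      · have h4 : (p : ℂ) = (q : ℂ) + 1 := by rw [← hq2]; push_cast; ring
        rw [h4, add_smul, one_smul, add_comm] at b1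
        exact (add_left_cancel b1).symm
      · rw [h.low_block hx hl hq2] at b1 ⊢
        rw [zero_add, ← sub_eq_zero, ← sub_smul] at b1
        rcases smul_eq_zero.1 b1 with h6 | h6
        · exfalso
          apply hq
          have h7 : (q : ℂ) = (p : ℂ) := sub_eq_zero.1 h6
          exact_mod_cast h7
        · exact h6
    · rw [h.orth x hx p r (Ne.symm hr), mul_zero]
      rw [mul_assoc (P q x * θ), h.orth x hx p r (Ne.symm hr), mul_zero, zero_add,
        ← sub_eq_zero, ← sub_smul] at b1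
      rcases smul_eq_zero.1 b1 with h6 | h6
      · exfalso
        apply hq
        have h7 : (q : ℂ) = (p : ℂ) := sub_eq_zero.1 h6
        exact_mod_cast h7
      · exact h6

/-- `∂̄_v P_p = [θ̄_v, P_p]` -/
theorem dB_P (h : VHS w U S P) (hx : x ∈ U) (p : ℕ) (v : X) :
    dB (P p) v x = tb (grOp w P) v x * P p x - P p x * tb (grOp w P) v x := by
  apply h.S_cancel hx
  rw [← h.adj_dW (h.smP p) (h.smP p) (fun y hy => h.adj y hy p) hx v, h.dW_P hx]
  rw [Matrix.conjTranspose_sub, Matrix.conjTranspose_mul, Matrix.conjTranspose_mul, sub_mul,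
    mul_assoc, mul_assoc, h.adj_th hx v, h.adj x hx, ← mul_assoc, ← mul_assoc, h.adj_th hx v,
    h.adj x hx]
  simp only [tb]
  noncomm_ring

/-- `∂_v C = 2 θ_v C` -/
theorem dW_C (h : VHS w U S P) (hx : x ∈ U) (v : X) :
    dW (sgOp w P) v x = (2 : ℂ) • (dW (grOp w P) v x * sgOp w P x) := by
  have e : sgOp w P = fun y => ∑ p ∈ Finset.range (w + 1), ((-1 : ℂ) ^ p) • P p y := rfl
  have h1 : dW (sgOp w P) v x = ∑ p ∈ Finset.range (w + 1), ((-1 : ℂ) ^ p) •
      (dW (grOp w P) v x * P p x - P p x * dW (grOp w P) v x) := by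
    rw [e, dW_sum (f := fun p y => ((-1 : ℂ) ^ p) • P p y) _ (fun p _ => (h.dP p hx).fun_const_smul _)]
    refine Finset.sum_congr rfl fun p _ => ?_
    rw [← h.dW_P hx p v]
    exact dW_const_smul _ (h.dP p hx) v
  have h2 : ∑ p ∈ Finset.range (w + 1), ((-1 : ℂ) ^ p) •
      (dW (grOp w P) v x * P p x - P p x * dW (grOp w P) v x) =
      dW (grOp w P) v x * sgOp w P x - sgOp w P x * dW (grOp w P) v x := by
    have e2 : sgOp w P x = ∑ p ∈ Finset.range (w + 1), ((-1 : ℂ) ^ p) • P p x := rfl
    rw [e2, Finset.mul_sum, Finset.sum_mul, ← Finset.sum_sub_distrib]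
    refine Finset.sum_congr rfl fun p _ => ?_
    rw [smul_sub, mul_smul_comm, smul_mul_assoc]
  rw [h1, h2, h.low_C hx (h.low_th hx v), two_smul]
  abel

/-- `∂̄_v C = 2 θ̄_v C` -/
theorem dB_C (h : VHS w U S P) (hx : x ∈ U) (v : X) :
    dB (sgOp w P) v x = (2 : ℂ) • (tb (grOp w P) v x * sgOp w P x) := by
  have e : sgOp w P = fun y => ∑ p ∈ Finset.range (w + 1), ((-1 : ℂ) ^ p) • P p y := rfl
  have h1 : dB (sgOp w P) v x = ∑ p ∈ Finset.range (w + 1), ((-1 : ℂ) ^ p) •
      (tb (grOp w P) v x * P p x - P p x * tb (grOp w P) v x) := by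
    rw [e, dB_sum (f := fun p y => ((-1 : ℂ) ^ p) • P p y) _ (fun p _ => (h.dP p hx).fun_const_smul _)]
    refine Finset.sum_congr rfl fun p _ => ?_
    rw [← h.dB_P hx p v]
    exact dB_const_smul _ (h.dP p hx) v
  have h2 : ∑ p ∈ Finset.range (w + 1), ((-1 : ℂ) ^ p) •
      (tb (grOp w P) v x * P p x - P p x * tb (grOp w P) v x) =
      tb (grOp w P) v x * sgOp w P x - sgOp w P x * tb (grOp w P) v x := by
    have e2 : sgOp w P x = ∑ p ∈ Finset.range (w + 1), ((-1 : ℂ) ^ p) • P p x := rfl
    rw [e2, Finset.mul_sum, Finset.sum_mul, ← Finset.sum_sub_distrib]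
    refine Finset.sum_congr rfl fun p _ => ?_
    rw [smul_sub, mul_smul_comm, smul_mul_assoc]
  rw [h1, h2, h.up_C hx (h.up_tb hx v), two_smul]
  abel

theorem sm_hm (h : VHS w U S P) : ContDiffOn ℝ ∞ (hm w S P) U :=
  contDiffOn_const.mul h.smC

theorem d_hm (h : VHS w U S P) (hx : x ∈ U) : DifferentiableAt ℝ (hm w S P) x :=
  diffAt h.op h.sm_hm hx

/-- `∂_v K = - 2 K θ_v` -/
theorem dW_hm (h : VHS w U S P) (hx : x ∈ U) (v : X) :
    dW (hm w S P) v x = (-2 : ℂ) • (hm w S P x * dW (grOp w P) v x) := by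
  have e : hm w S P = fun y => S * sgOp w P y := rfl
  have h1 : dW (hm w S P) v x = S * dW (sgOp w P) v x := by
    rw [e, dW_mul (differentiableAt_const S) (h.dC hx)]
    simp
  have h2 := h.low_C hx (h.low_th hx v)
  rw [h1, h.dW_C hx]
  unfold hm
  rw [mul_assoc, h2, mul_smul_comm]
  simp

/-- `∂̄_v K = - 2 K θ̄_v` -/
theorem dB_hm (h : VHS w U S P) (hx : x ∈ U) (v : X) :
    dB (hm w S P) v x = (-2 : ℂ) • (hm w S P x * tb (grOp w P) v x) := by
  have e : hm w S P = fun y => S * sgOp w P y := rfl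
  have h1 : dB (hm w S P) v x = S * dB (sgOp w P) v x := by
    rw [e, dB_mul (differentiableAt_const S) (h.dC hx)]
    simp
  have h2 := h.up_C hx (h.up_tb hx v)
  rw [h1, h.dB_C hx]
  unfold hm
  rw [mul_assoc, h2, mul_smul_comm]
  simp

/-- `∂̄_v ∂_v K = 2 K (θ̄_v θ_v + θ_v θ̄_v)` -/
theorem dB_dW_hm (h : VHS w U S P) (hx : x ∈ U) (v : X) :
    dB (dW (hm w S P) v) v x = (2 : ℂ) • (hm w S P x *
      (tb (grOp w P) v x * dW (grOp w P) v x + dW (grOp w P) v x * tb (grOp w P) v x)) := by
  have h1 := dB_congr (Filter.eventually_of_mem (h.op.mem_nhds hx)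
    (fun y hy => h.dW_hm hy v)) v
  have hd : DifferentiableAt ℝ (fun y => hm w S P y * dW (grOp w P) v y) x :=
    (h.d_hm hx).fun_mul (h.gr.d_th hx v)
  rw [h1, dB_const_smul _ hd, dB_mul (h.d_hm hx) (h.gr.d_th hx v), h.dB_hm hx, h.gr.dB_th hx]
  simp only [smul_mul_assoc]
  rw [mul_assoc]
  simp only [mul_sub, mul_add]
  module

end VHS

end nm

end Crest.Agent.R276.VCalc_442
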