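import Crest.Agent.R276.IpcLoc_735
import Crest.Agent.R276.CylP_593
import Crest.Agent.R276.VCalcF_442
import Crest.Agent.R276.EndTh_659
import Crest.Agent.R276.IpcE3_827

/-!
# R276, IPC (5): no exact harmonic forms, PVHS version (helper827)

* `Loc V z U` : the local data of a `PVHS` near `z` in the frame at `z`;
* `planeData` : a section with `D* D φ = 0` gives `CylP_593.PlaneData` in a local frame;
* `gv V z = |θ|²` at `z`, `gv_le_punct`, `gv_le_inf` : Ahlfors-Schwarz bounds near the punctures;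
* `no_exact` : a square integrable exact harmonic form vanishes.
-/

set_option autoImplicit false
set_option linter.unusedSectionVars false

open Set Filter Topology MeasureTheory
open scoped ComplexOrder Matrix ContDiff

noncomputable section

namespace Crest.Agent.R276.NoEx_827

open Crest.Agent.R276.Ipc735 hiding dM
open Crest.Agent.R276.CylP_593
open Crest.Agent.R276.Cyl_593 (S)

/-! ### constant change of frame -/

section frame

variable {κ : Type*} [Fintype κ] [DecidableEq κ]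

omit [Fintype κ] [DecidableEq κ] in
lemma dM_const (M : Matrix κ κ ℂ) (z v : ℂ) : dM (fun _ => M) z v = 0 := by
  ext i j
  simp [dM]

omit [Fintype κ] [DecidableEq κ] in
lemma MC_const {n : WithTop ℕ∞} (M : Matrix κ κ ℂ) (U : Set ℂ) : MC n (fun _ => M) U :=
  fun _ _ => contDiffOn_const

omit [DecidableEq κ] in
lemma MC_mul {n : WithTop ℕ∞} {A B : ℂ → Matrix κ κ ℂ} {U : Set ℂ} (hA : MC n A U)
    (hB : MC n B U) : MC n (fun z => A z * B z) U := fun i j => by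
  simp only [Matrix.mul_apply]
  exact ContDiffOn.sum fun k _ => (hA i k).mul (hB k j)

omit [DecidableEq κ] in
lemma VC_mulVec {n : WithTop ℕ∞} {A : ℂ → Matrix κ κ ℂ} {u : ℂ → κ → ℂ} {U : Set ℂ}
    (hA : MC n A U) (hu : VC n u U) : VC n (fun z => A z *ᵥ u z) U := fun i => by
  simp only [Matrix.mulVec, dotProduct]
  exact ContDiffOn.sum fun k _ => (hA i k).mul (hu k)

omit [DecidableEq κ] in
lemma dM_conj {H : ℂ → Matrix κ κ ℂ} {U : Set ℂ} (hU : IsOpen U) (hH : MC 1 H U) (g g' : Matrix κ κ ℂ)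
    {z : ℂ} (hz : z ∈ U) (v : ℂ) :
    dM (fun y => g * H y * g') z v = g * dM H z v * g' := by
  rw [dM_mul hU (MC_mul (MC_const g U) hH) (MC_const g' U) hz, dM_const, Matrix.mul_zero, add_zero,
    dM_mul hU (MC_const g U) hH hz, dM_const, Matrix.zero_mul, zero_add]

omit [DecidableEq κ] in
lemma dV_mul_const {φ : ℂ → κ → ℂ} {U : Set ℂ} (hU : IsOpen U) (hφ : VC 1 φ U) (g : Matrix κ κ ℂ)
    {z : ℂ} (hz : z ∈ U) (v : ℂ) : dV (fun y => g *ᵥ φ y) z v = g *ᵥ dV φ z v := by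
  rw [dV_mulVec hU (MC_const g U) hφ hz, dM_const, Matrix.zero_mulVec, zero_add]

omit [Fintype κ] [DecidableEq κ] in
lemma dV_congr {a b : ℂ → κ → ℂ} {U : Set ℂ} (hU : IsOpen U) (h : ∀ z ∈ U, a z = b z) {z : ℂ}
    (hz : z ∈ U) (v : ℂ) : dV a z v = dV b z v := by
  ext i
  simp only [dV]
  have : (fun y => a y i) =ᶠ[𝓝 z] fun y => b y i := by
    filter_upwards [hU.mem_nhds hz] with y hy
    rw [h y hy]
  rw [this.fderiv_eq]

lemma S_frame (M : Matrix κ κ ℂ) {g g' : Matrix κ κ ℂ} (hg : g * g' = 1) (u v : κ → ℂ) :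
    S (gᴴ * M * g) (g' *ᵥ u) (g' *ᵥ v) = S M u v := by
  have h1 : g *ᵥ (g' *ᵥ u) = u := by rw [Matrix.mulVec_mulVec, hg, Matrix.one_mulVec]
  have h2 : g *ᵥ (g' *ᵥ v) = v := by rw [Matrix.mulVec_mulVec, hg, Matrix.one_mulVec]
  rw [Cyl_593.S_mul, ← Cyl_593.S_mulVec_left, h1, h2]

/-- a constant change of frame -/
structure Fr (U : Set ℂ) (g g' : Matrix κ κ ℂ) (H H' : ℂ → Matrix κ κ ℂ) (φ φ' : ℂ → κ → ℂ) :
    Prop where
  op : IsOpen U
  gg : g * g' = 1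
  cH : MC 2 H U
  cφ : VC 2 φ U
  hH : ∀ y ∈ U, H' y = gᴴ * H y * g
  hφ : ∀ y ∈ U, φ' y = g' *ᵥ φ y

namespace Fr

variable {U : Set ℂ} {g g' : Matrix κ κ ℂ} {H H' : ℂ → Matrix κ κ ℂ} {φ φ' : ℂ → κ → ℂ}

variable (F : Fr U g g' H H' φ φ')
include F

lemma cH1 : MC 1 H U := fun i j => (F.cH i j).of_le (by norm_num)
lemma cφ1 : VC 1 φ U := fun i => (F.cφ i).of_le (by norm_num)
lemma cdH (v : ℂ) : MC 1 (fun z => dM H z v) U :=
  MC.dM F.op (by simpa [one_add_one_eq_two] using F.cH) v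
lemma cdφ (v : ℂ) : VC 1 (fun z => dV φ z v) U :=
  VC.dV F.op (by simpa [one_add_one_eq_two] using F.cφ) v

lemma dM_eq {z : ℂ} (hz : z ∈ U) (v : ℂ) : dM H' z v = gᴴ * dM H z v * g := by
  rw [dM_congr F.op F.hH hz, dM_conj F.op F.cH1 _ _ hz]

lemma dV_eq {z : ℂ} (hz : z ∈ U) (v : ℂ) : dV φ' z v = g' *ᵥ dV φ z v := by
  rw [dV_congr F.op F.hφ hz, dV_mul_const F.op F.cφ1 _ hz]

lemma d2M_eq {z : ℂ} (hz : z ∈ U) (v : ℂ) : d2M H' z v = gᴴ * d2M H z v * g := by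
  rw [d2M, dM_congr F.op (fun y hy => F.dM_eq hy v) hz, dM_conj F.op (F.cdH v) _ _ hz, d2M]

lemma pA_eq {z : ℂ} (hz : z ∈ U) : pA H' φ' z = pA H φ z := by
  rw [pA, F.hH z hz, F.hφ z hz, S_frame _ F.gg, pA]

lemma pf_eq {z : ℂ} (hz : z ∈ U) (v : ℂ) : pf H' φ' v z = pf H φ v z := by
  rw [pf, F.hH z hz, F.hφ z hz, F.dV_eq hz, S_frame _ F.gg, pf]

lemma pg_eq {z : ℂ} (hz : z ∈ U) (v : ℂ) : pg H' φ' v z = pg H φ v z := by
  rw [pg, F.dM_eq hz, F.hφ z hz, S_frame _ F.gg, pg]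

lemma pe_eq {z : ℂ} (hz : z ∈ U) (v : ℂ) : pe H' φ' v z = pe H φ v z := by
  rw [pe, F.hH z hz, F.dV_eq hz, S_frame _ F.gg, pe]

lemma px_eq {z : ℂ} (hz : z ∈ U) (v : ℂ) : px H' φ' v z = px H φ v z := by
  rw [px, F.dM_eq hz, F.hφ z hz, F.dV_eq hz, S_frame _ F.gg, px]

lemma pF_eq {z : ℂ} (hz : z ∈ U) : pF H' φ' z = pF H φ z := by
  rw [pF, F.pf_eq hz, F.pf_eq hz, pF]

lemma pG_eq {z : ℂ} (hz : z ∈ U) : pG H' φ' z = pG H φ z := by
  rw [pG, F.pg_eq hz, F.pg_eq hz, pG]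

lemma pE_eq {z : ℂ} (hz : z ∈ U) : pE H' φ' z = pE H φ z := by
  rw [pE, F.pe_eq hz, F.pe_eq hz, pE]

lemma pX_eq {z : ℂ} (hz : z ∈ U) : pX H' φ' z = pX H φ z := by
  rw [pX, F.px_eq hz, F.px_eq hz, pX]

lemma pY_eq {z : ℂ} (hz : z ∈ U) : pY H' φ' z = pY H φ z := by
  have h : gᴴ * d2M H z 1 * g + gᴴ * d2M H z Complex.I * g =
      gᴴ * (d2M H z 1 + d2M H z Complex.I) * g := by
    rw [Matrix.mul_add, Matrix.add_mul]
  rw [pY, F.d2M_eq hz, F.d2M_eq hz, h, F.hφ z hz, S_frame _ F.gg, pY]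

end Fr

end frame

/-! ### local data -/

section loc

variable {A : Finset ℂ} {N w : ℕ} (V : PVHS A N w)

/-- the Hodge projectors in the frame at `z` -/
def fP (z : ℂ) : ℕ → ℂ → Matrix (Fin N) (Fin N) ℂ := fun p x => hq w (lM V.P V.E z x) p

/-- the Hodge metric in the frame at `z` -/
def fH (z : ℂ) : ℂ → Matrix (Fin N) (Fin N) ℂ := fun x => hodge w (V.S z) (lM V.P V.E z x)

lemma hm_fP (z : ℂ) : VCalc_442.hm w (V.S z) (fP V z) = fH V z := by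
  funext x
  unfold VCalc_442.hm fH hodge fP
  rw [sgOp_hq]

/-- local data near `z`, in the frame at `z` -/
structure Loc (z : ℂ) (U : Set ℂ) : Prop where
  op : IsOpen U
  mem : z ∈ U
  sub : ∀ x ∈ U, x ∉ A
  coc : ∀ y ∈ U, ∀ x ∈ U, V.P z y * V.P y x = V.P z x
  fS : ∀ y ∈ U, V.S y = (cm (V.P z y))ᴴ * V.S z * cm (V.P z y)
  vhs : VCalc_442.VHS w U (V.S z) (fP V z)

theorem exists_loc {z : ℂ} (hz : z ∉ A) : ∃ U, Loc V z U := by
  obtain ⟨U, h1, h2, h3, h4, h5, h6⟩ := V.local hz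
  exact ⟨U, h1, h2, h3, h4, h5, h6⟩

namespace Loc

variable {V} {z : ℂ} {U : Set ℂ} (L : Loc V z U)
include L

lemma fE_change {y x : ℂ} (hy : y ∈ U) (hx : x ∈ U) :
    lM V.P V.E z x = cm (V.P z y) * lM V.P V.E y x * cm (V.P z y)⁻¹ := by
  unfold lM
  rw [← L.coc y hy x hx, cm_mul, _root_.mul_inv_rev, cm_mul]
  noncomm_ring

lemma fE_change' {y x : ℂ} (hy : y ∈ U) (hx : x ∈ U) :
    lM V.P V.E y x = cm (V.P z y)⁻¹ * lM V.P V.E z x * cm (V.P z y) := by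
  rw [L.fE_change hy hx]
  calc lM V.P V.E y x = 1 * lM V.P V.E y x * 1 := by simp
    _ = (cm (V.P z y)⁻¹ * cm (V.P z y)) * lM V.P V.E y x * (cm (V.P z y)⁻¹ * cm (V.P z y)) := by
      rw [cm_inv_mul_cm]
    _ = _ := by noncomm_ring

lemma lV_change (φ : ℂ → Fin N → ℂ) {y x : ℂ} (hy : y ∈ U) (hx : x ∈ U) :
    lV V.P φ z x = cm (V.P z y) *ᵥ lV V.P φ y x := by
  unfold lV
  rw [← L.coc y hy x hx, cm_mul, Matrix.mulVec_mulVec]

lemma lV_change' (φ : ℂ → Fin N → ℂ) {y x : ℂ} (hy : y ∈ U) (hx : x ∈ U) :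
    lV V.P φ y x = cm (V.P z y)⁻¹ *ᵥ lV V.P φ z x := by
  rw [L.lV_change φ hy hx, cm_inv_mulVec]

lemma fH_change {y x : ℂ} (hy : y ∈ U) (hx : x ∈ U) :
    fH V y x = (cm (V.P z y))ᴴ * fH V z x * cm (V.P z y) := by
  unfold fH
  rw [L.fS y hy, L.fE_change' hy hx]
  exact hodge_conj (cm_inv_mul_cm _) (cm_mul_cm_inv _) w _ _

lemma cH : MC 2 (fH V z) U := by
  have h := L.vhs.sm_hm
  rw [hm_fP] at h
  intro i j
  exact (VCalc_442.contDiffOn_matrix.1 h i j).of_le ENat.LEInfty.out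

lemma cE : MC 2 (lM V.P V.E z) U := by
  have h := VCalc_442.contDiffOn_matrix.1 L.vhs.smE
  intro i j
  refine ((h i j).of_le ENat.LEInfty.out).congr fun x hx => ?_
  unfold fP
  rw [grOp_hq ((V.hs x (L.sub x hx)).lM (L.fS x hx))]

lemma th_fP {x : ℂ} (hx : x ∈ U) (v : ℂ) :
    VCalc_442.th w (fP V z) v x = VCalc_442.mW (lM V.P V.E z) v x := by
  ext i j
  simp only [VCalc_442.th, VCalc_442.mW, Matrix.of_apply]
  refine VCalc_442.dW_congr ?_ v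
  filter_upwards [L.op.mem_nhds hx] with y hy
  unfold fP
  rw [grOp_hq ((V.hs y (L.sub y hy)).lM (L.fS y hy))]

lemma thb_fP {x : ℂ} (hx : x ∈ U) (v : ℂ) :
    VCalc_442.thb w (fP V z) v x = - VCalc_442.mB (lM V.P V.E z) v x := by
  unfold VCalc_442.thb
  congr 1
  ext i j
  simp only [VCalc_442.mB, Matrix.of_apply]
  refine VCalc_442.dB_congr ?_ v
  filter_upwards [L.op.mem_nhds hx] with y hy
  unfold fP
  rw [grOp_hq ((V.hs y (L.sub y hy)).lM (L.fS y hy))]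

lemma mW_H {x : ℂ} (hx : x ∈ U) : VCalc_442.mW (fH V z) 1 x =
    (-2 : ℂ) • (fH V z x * VCalc_442.th w (fP V z) 1 x) := by
  have h := L.vhs.dW_hm hx 1
  rw [← L.vhs.th_eq hx, ← VCalc_442.mW_eq_dW (L.vhs.d_hm hx), hm_fP] at h
  exact h

lemma mB_H {x : ℂ} (hx : x ∈ U) : VCalc_442.mB (fH V z) 1 x =
    (-2 : ℂ) • (fH V z x * VCalc_442.thb w (fP V z) 1 x) := by
  have h := L.vhs.dB_hm hx 1
  rw [← L.vhs.thb_eq hx, ← VCalc_442.mB_eq_dB (L.vhs.d_hm hx), hm_fP] at h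
  exact h

end Loc

lemma dM_eq_add (H : ℂ → Matrix (Fin N) (Fin N) ℂ) (x v : ℂ) :
    dM H x v = VCalc_442.mW H v x + VCalc_442.mB H v x := by
  ext i j
  simp only [dM, VCalc_442.mW, VCalc_442.mB, Matrix.of_apply, Matrix.add_apply]
  exact VCalc_442.fderiv_eq _ _ _

lemma mW_smul (H : ℂ → Matrix (Fin N) (Fin N) ℂ) (x v c : ℂ) :
    VCalc_442.mW H (c * v) x = c • VCalc_442.mW H v x := by
  ext i j
  simp only [VCalc_442.mW, Matrix.of_apply, Matrix.smul_apply]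
  exact VCalc_442.dW_smul_dir _ x c v

lemma mB_smul (H : ℂ → Matrix (Fin N) (Fin N) ℂ) (x v c : ℂ) :
    VCalc_442.mB H (c * v) x = (starRingEnd ℂ c) • VCalc_442.mB H v x := by
  ext i j
  simp only [VCalc_442.mB, Matrix.of_apply, Matrix.smul_apply]
  exact VCalc_442.dB_smul_dir _ x c v

lemma dM_one (H : ℂ → Matrix (Fin N) (Fin N) ℂ) (x : ℂ) :
    dM H x 1 = VCalc_442.mW H 1 x + VCalc_442.mB H 1 x := dM_eq_add H x 1

lemma dM_I (H : ℂ → Matrix (Fin N) (Fin N) ℂ) (x : ℂ) :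
    dM H x Complex.I = Complex.I • (VCalc_442.mW H 1 x - VCalc_442.mB H 1 x) := by
  have h1 := mW_smul H x 1 Complex.I
  have h2 := mB_smul H x 1 Complex.I
  rw [mul_one] at h1 h2
  rw [dM_eq_add, h1, h2, Complex.conj_I, neg_smul, smul_sub, sub_eq_add_neg]

namespace Loc

variable {V} {z : ℂ} {U : Set ℂ} (L : Loc V z U)
include L

lemma dM_H_one {x : ℂ} (hx : x ∈ U) : dM (fH V z) x 1 = (-2 : ℂ) • (fH V z x *
    (VCalc_442.th w (fP V z) 1 x + VCalc_442.thb w (fP V z) 1 x)) := by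
  rw [dM_one, L.mW_H hx, L.mB_H hx, Matrix.mul_add, smul_add]

lemma dM_H_I {x : ℂ} (hx : x ∈ U) : dM (fH V z) x Complex.I = (-(2 * Complex.I)) • (fH V z x *
    (VCalc_442.th w (fP V z) 1 x - VCalc_442.thb w (fP V z) 1 x)) := by
  rw [dM_I, L.mW_H hx, L.mB_H hx, Matrix.mul_sub]
  module

lemma h1 {x : ℂ} (hx : x ∈ U) :
    dM (fH V z) x 1 = (2 * Complex.I) • (fH V z x * dM (lM V.P V.E z) x Complex.I) := by
  rw [L.dM_H_one hx, L.th_fP hx, L.thb_fP hx, dM_I, Matrix.mul_smul, smul_smul]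
  have : (2 * Complex.I) * Complex.I = -2 := by
    rw [mul_assoc, Complex.I_mul_I]; ring
  rw [this, sub_eq_add_neg]

lemma h2 {x : ℂ} (hx : x ∈ U) :
    dM (fH V z) x Complex.I = (-(2 * Complex.I)) • (fH V z x * dM (lM V.P V.E z) x 1) := by
  rw [L.dM_H_I hx, L.th_fP hx, L.thb_fP hx, dM_one, sub_neg_eq_add]

lemma pos {x : ℂ} (hx : x ∈ U) : (fH V z x).PosDef := by
  have h := L.vhs.hmPos hx
  rwa [hm_fP] at h

lemma harm {x : ℂ} (hx : x ∈ U) : d2M (fH V z) x 1 + d2M (fH V z) x Complex.I =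
    dM (fH V z) x 1 * (fH V z x)⁻¹ * dM (fH V z) x 1 +
      dM (fH V z) x Complex.I * (fH V z x)⁻¹ * dM (fH V z) x Complex.I := by
  refine harm_of_grading L.op (fun i j => (L.cH i j).of_le (by norm_num)) L.cE (fun y hy => ?_)
    (fun y hy => L.h1 hy) (fun y hy => L.h2 hy) hx
  exact (Matrix.isUnit_iff_isUnit_det _).1 (L.pos hy).isUnit

lemma cφ {φ : ℂ → Fin N → ℂ} (hφ : V.Sm φ) : VC 2 (lV V.P φ z) U := by
  intro i y hy
  have h1 : ContDiffAt ℝ 2 (lV V.P φ y) y := (hφ y (L.sub y hy)).of_le ENat.LEInfty.out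
  have h2 : ∀ k, ContDiffAt ℝ 2 (fun x => lV V.P φ y x k) y := fun k => (contDiffAt_pi.1 h1) k
  have h3 : (fun x => lV V.P φ z x i) =ᶠ[𝓝 y] fun x => ∑ k, cm (V.P z y) i k * lV V.P φ y x k := by
    filter_upwards [L.op.mem_nhds hy] with x hx
    rw [L.lV_change φ hy hx]
    rfl
  refine (ContDiffAt.congr_of_eventuallyEq ?_ h3).contDiffWithinAt
  exact ContDiffAt.sum fun k _ => contDiffAt_const.mul (h2 k)

end Loc

end loc

/-! ### vector valued functions -/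

section vec

variable {N : ℕ}

lemma diffAt_of_VC {f : ℂ → Fin N → ℂ} {U : Set ℂ} (hU : IsOpen U) (hf : VC 1 f U) {x : ℂ}
    (hx : x ∈ U) : DifferentiableAt ℝ f x :=
  differentiableAt_pi.2 fun i => ((hf i).contDiffAt (hU.mem_nhds hx)).differentiableAt one_ne_zero

lemma fderiv_eq_dV {f : ℂ → Fin N → ℂ} {x : ℂ} (hf : DifferentiableAt ℝ f x) (v : ℂ) :
    fderiv ℝ f x v = dV f x v := by
  have h := fderiv_pi (𝕜 := ℝ) (fun i => (differentiableAt_pi.1 hf) i)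
  have h2 : (fun (y : ℂ) (i : Fin N) => f y i) = f := rfl
  rw [h2] at h
  rw [h]
  rfl

lemma wz_eq {f : ℂ → Fin N → ℂ} {x : ℂ} (hf : DifferentiableAt ℝ f x) :
    wz f x = (1 / 2 : ℂ) • (dV f x 1 - Complex.I • dV f x Complex.I) := by
  rw [wz, fderiv_eq_dV hf, fderiv_eq_dV hf]

lemma wb_eq {f : ℂ → Fin N → ℂ} {x : ℂ} (hf : DifferentiableAt ℝ f x) :
    wb f x = (1 / 2 : ℂ) • (dV f x 1 + Complex.I • dV f x Complex.I) := by
  rw [wb, fderiv_eq_dV hf, fderiv_eq_dV hf]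

lemma wz_congr {f g : ℂ → Fin N → ℂ} {x : ℂ} (h : f =ᶠ[𝓝 x] g) : wz f x = wz g x := by
  rw [wz, wz, h.fderiv_eq]

lemma wb_congr {f g : ℂ → Fin N → ℂ} {x : ℂ} (h : f =ᶠ[𝓝 x] g) : wb f x = wb g x := by
  rw [wb, wb, h.fderiv_eq]

lemma mulVec_fderiv (g : Matrix (Fin N) (Fin N) ℂ) {f : ℂ → Fin N → ℂ} {x : ℂ}
    (hf : DifferentiableAt ℝ f x) (v : ℂ) :
    fderiv ℝ (fun y => g *ᵥ f y) x v = g *ᵥ fderiv ℝ f x v := by
  have h1 : HasFDerivAt (fun y => (((Matrix.mulVecLin g).toContinuousLinearMap).restrictScalars ℝ)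
      (f y)) ((((Matrix.mulVecLin g).toContinuousLinearMap).restrictScalars ℝ).comp
      (fderiv ℝ f x)) x := (ContinuousLinearMap.hasFDerivAt _).comp x hf.hasFDerivAt
  have h2 := h1.fderiv
  have h3 : (fun y => g *ᵥ f y) = fun y =>
      (((Matrix.mulVecLin g).toContinuousLinearMap).restrictScalars ℝ) (f y) := rfl
  rw [h3, h2]
  rfl

lemma wz_mulVec (g : Matrix (Fin N) (Fin N) ℂ) {f : ℂ → Fin N → ℂ} {x : ℂ}
    (hf : DifferentiableAt ℝ f x) : wz (fun y => g *ᵥ f y) x = g *ᵥ wz f x := by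
  rw [wz, wz, mulVec_fderiv g hf, mulVec_fderiv g hf, Matrix.mulVec_smul, Matrix.mulVec_sub,
    Matrix.mulVec_smul]

lemma wb_mulVec (g : Matrix (Fin N) (Fin N) ℂ) {f : ℂ → Fin N → ℂ} {x : ℂ}
    (hf : DifferentiableAt ℝ f x) : wb (fun y => g *ᵥ f y) x = g *ᵥ wb f x := by
  rw [wb, wb, mulVec_fderiv g hf, mulVec_fderiv g hf, Matrix.mulVec_smul, Matrix.mulVec_add,
    Matrix.mulVec_smul]

lemma dV_lin {f g : ℂ → Fin N → ℂ} {U : Set ℂ} (hU : IsOpen U) (hf : VC 1 f U) (hg : VC 1 g U)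
    (c d : ℂ) {x : ℂ} (hx : x ∈ U) (v : ℂ) :
    dV (fun y => c • f y + d • g y) x v = c • dV f x v + d • dV g x v := by
  ext i
  simp only [dV, Pi.add_apply, Pi.smul_apply, smul_eq_mul]
  have h1 := ((hf i).contDiffAt (hU.mem_nhds hx)).differentiableAt one_ne_zero
  have h2 := ((hg i).contDiffAt (hU.mem_nhds hx)).differentiableAt one_ne_zero
  rw [fderiv_fun_add (h1.const_mul c) (h2.const_mul d), fderiv_const_mul h1, fderiv_const_mul h2]
  rfl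

lemma VC_lin {n : WithTop ℕ∞} {f g : ℂ → Fin N → ℂ} {U : Set ℂ} (hf : VC n f U) (hg : VC n g U)
    (c d : ℂ) : VC n (fun y => c • f y + d • g y) U := fun i =>
  (contDiffOn_const.mul (hf i)).add (contDiffOn_const.mul (hg i))

end vec

section loc2

variable {A : Finset ℂ} {N w : ℕ} {V : PVHS A N w}

lemma lV_mul (P : ℂ → ℂ → GL (Fin N) ℤ) (M : ℂ → Matrix (Fin N) (Fin N) ℂ) (ψ : ℂ → Fin N → ℂ)
    (z x : ℂ) : lV P (fun x => M x *ᵥ ψ x) z x = lM P M z x *ᵥ lV P ψ z x := by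
  unfold lV lM
  simp only [Matrix.mulVec_mulVec]
  rw [mul_assoc _ _ (cm (P z x)), cm_inv_mul_cm, mul_one]

lemma lM_weil (P : ℂ → ℂ → GL (Fin N) ℤ) (E : ℂ → Matrix (Fin N) (Fin N) ℂ) (z x : ℂ) :
    lM P (fun x => weil w (E x)) z x = weil w (lM P E z x) := by
  unfold lM
  rw [weil_conj (cm_mul_cm_inv _) (cm_inv_mul_cm _)]

namespace Loc

variable {z : ℂ} {U : Set ℂ} (L : Loc V z U)
include L

lemma lV_d1 {φ : ℂ → Fin N → ℂ} (hφ : V.Sm φ) {x : ℂ} (hx : x ∈ U) :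
    lV V.P (V.d1 φ) z x = wz (lV V.P φ z) x := by
  have h1 : lV V.P φ z =ᶠ[𝓝 x] fun y => cm (V.P z x) *ᵥ lV V.P φ x y := by
    filter_upwards [L.op.mem_nhds hx] with y hy
    exact L.lV_change φ hx hy
  rw [wz_congr h1, wz_mulVec _ ((hφ x (L.sub x hx)).differentiableAt (by simp))]
  rfl

lemma lV_d2 {φ : ℂ → Fin N → ℂ} (hφ : V.Sm φ) {x : ℂ} (hx : x ∈ U) :
    lV V.P (V.d2 φ) z x = wb (lV V.P φ z) x := by
  have h1 : lV V.P φ z =ᶠ[𝓝 x] fun y => cm (V.P z x) *ᵥ lV V.P φ x y := by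
    filter_upwards [L.op.mem_nhds hx] with y hy
    exact L.lV_change φ hx hy
  rw [wb_congr h1, wb_mulVec _ ((hφ x (L.sub x hx)).differentiableAt (by simp))]
  rfl

/-- the flat derivatives of a section which is differentiable in one local frame -/
lemma d1_eq {ψ : ℂ → Fin N → ℂ} {x : ℂ} (hx : x ∈ U) (hψ : DifferentiableAt ℝ (lV V.P ψ z) x) :
    wz (lV V.P ψ z) x = cm (V.P z x) *ᵥ V.d1 ψ x := by
  have h1 : lV V.P ψ x =ᶠ[𝓝 x] fun y => cm (V.P z x)⁻¹ *ᵥ lV V.P ψ z y := by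
    filter_upwards [L.op.mem_nhds hx] with y hy
    exact L.lV_change' ψ hx hy
  rw [PVHS.d1, wz_congr h1, wz_mulVec _ hψ, cm_mulVec_inv]

lemma d2_eq {ψ : ℂ → Fin N → ℂ} {x : ℂ} (hx : x ∈ U) (hψ : DifferentiableAt ℝ (lV V.P ψ z) x) :
    wb (lV V.P ψ z) x = cm (V.P z x) *ᵥ V.d2 ψ x := by
  have h1 : lV V.P ψ x =ᶠ[𝓝 x] fun y => cm (V.P z x)⁻¹ *ᵥ lV V.P ψ z y := by
    filter_upwards [L.op.mem_nhds hx] with y hy
    exact L.lV_change' ψ hx hy
  rw [PVHS.d2, wb_congr h1, wb_mulVec _ hψ, cm_mulVec_inv]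

lemma cC : MC 1 (fun x => weil w (lM V.P V.E z x)) U := by
  have h := VCalc_442.contDiffOn_matrix.1 L.vhs.smC
  intro i j
  refine ((h i j).of_le ENat.LEInfty.out).congr fun x hx => ?_
  unfold fP
  rw [sgOp_hq]

lemma cdφ {φ : ℂ → Fin N → ℂ} (hφ : V.Sm φ) (v : ℂ) :
    VC 1 (fun x => dV (lV V.P φ z) x v) U :=
  VC.dV L.op (by simpa [one_add_one_eq_two] using L.cφ hφ) v

lemma cφ1 {φ : ℂ → Fin N → ℂ} (hφ : V.Sm φ) : VC 1 (lV V.P φ z) U :=
  fun i => (L.cφ hφ i).of_le (by norm_num)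

lemma cH1 : MC 1 (fH V z) U := fun i j => (L.cH i j).of_le (by norm_num)

/-- the harmonic equation in a local frame -/
theorem eqn {φ : ℂ → Fin N → ℂ} (hφ : V.Sm φ)
    (hharm : ∀ z ∉ A, V.d2 (fun x => weil w (V.E x) *ᵥ V.d1 φ x) z =
      - V.d1 (fun x => weil w (V.E x) *ᵥ V.d2 φ x) z) {x : ℂ} (hx : x ∈ U) :
    dM (fH V z) x 1 *ᵥ dV (lV V.P φ z) x 1 + fH V z x *ᵥ d2V (lV V.P φ z) x 1
      + (dM (fH V z) x Complex.I *ᵥ dV (lV V.P φ z) x Complex.I +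
        fH V z x *ᵥ d2V (lV V.P φ z) x Complex.I) = 0 := by
  refine eqn_of_div L.op L.cH1 (L.cφ hφ) hx ?_
  set u := lV V.P φ z with hu
  set a : ℂ → Fin N → ℂ := fun y => dV u y 1 with ha
  set b : ℂ → Fin N → ℂ := fun y => dV u y Complex.I with hb
  set C : ℂ → Matrix (Fin N) (Fin N) ℂ := fun x => weil w (lM V.P V.E z x) with hC
  have hwz : ∀ y ∈ U, wz u y = (1 / 2 : ℂ) • a y + (-(1 / 2) * Complex.I) • b y := by
    intro y hy
    rw [wz_eq (diffAt_of_VC L.op (L.cφ1 hφ) hy)]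
    module
  have hwb : ∀ y ∈ U, wb u y = (1 / 2 : ℂ) • a y + ((1 / 2) * Complex.I) • b y := by
    intro y hy
    rw [wb_eq (diffAt_of_VC L.op (L.cφ1 hφ) hy)]
    module
  -- the two sections
  have hψ1 : ∀ y ∈ U, lV V.P (fun x => weil w (V.E x) *ᵥ V.d1 φ x) z y =
      (1 / 2 : ℂ) • (C y *ᵥ a y) + (-(1 / 2) * Complex.I) • (C y *ᵥ b y) := by
    intro y hy
    rw [lV_mul, lM_weil, L.lV_d1 hφ hy, hwz y hy, Matrix.mulVec_add, Matrix.mulVec_smul,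
      Matrix.mulVec_smul]
  have hψ2 : ∀ y ∈ U, lV V.P (fun x => weil w (V.E x) *ᵥ V.d2 φ x) z y =
      (1 / 2 : ℂ) • (C y *ᵥ a y) + ((1 / 2) * Complex.I) • (C y *ᵥ b y) := by
    intro y hy
    rw [lV_mul, lM_weil, L.lV_d2 hφ hy, hwb y hy, Matrix.mulVec_add, Matrix.mulVec_smul,
      Matrix.mulVec_smul]
  have cCa : VC 1 (fun y => C y *ᵥ a y) U := VC_mulVec L.cC (L.cdφ hφ 1)
  have cCb : VC 1 (fun y => C y *ᵥ b y) U := VC_mulVec L.cC (L.cdφ hφ Complex.I)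
  have c1 := VC_lin cCa cCb (1 / 2 : ℂ) (-(1 / 2) * Complex.I)
  have c2 := VC_lin cCa cCb (1 / 2 : ℂ) ((1 / 2) * Complex.I)
  have e1 : lV V.P (fun x => weil w (V.E x) *ᵥ V.d1 φ x) z =ᶠ[𝓝 x]
      fun y => (1 / 2 : ℂ) • (C y *ᵥ a y) + (-(1 / 2) * Complex.I) • (C y *ᵥ b y) := by
    filter_upwards [L.op.mem_nhds hx] with y hy using hψ1 y hy
  have e2 : lV V.P (fun x => weil w (V.E x) *ᵥ V.d2 φ x) z =ᶠ[𝓝 x]
      fun y => (1 / 2 : ℂ) • (C y *ᵥ a y) + ((1 / 2) * Complex.I) • (C y *ᵥ b y) := by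
    filter_upwards [L.op.mem_nhds hx] with y hy using hψ2 y hy
  have hd1 := diffAt_of_VC L.op c1 hx
  have hd2 := diffAt_of_VC L.op c2 hx
  have k1 := L.d2_eq hx (hd1.congr_of_eventuallyEq e1)
  have k2 := L.d1_eq hx (hd2.congr_of_eventuallyEq e2)
  have key : wb (lV V.P (fun x => weil w (V.E x) *ᵥ V.d1 φ x) z) x +
      wz (lV V.P (fun x => weil w (V.E x) *ᵥ V.d2 φ x) z) x = 0 := by
    rw [k1, k2, hharm x (L.sub x hx), Matrix.mulVec_neg, neg_add_cancel]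
  rw [wb_congr e1, wz_congr e2, wb_eq hd1, wz_eq hd2, dV_lin L.op cCa cCb _ _ hx,
    dV_lin L.op cCa cCb _ _ hx, dV_lin L.op cCa cCb _ _ hx, dV_lin L.op cCa cCb _ _ hx] at key
  have key2 : dV (fun y => C y *ᵥ a y) x 1 + dV (fun y => C y *ᵥ b y) x Complex.I = 0 := by
    have h3 : ∀ p q r s : Fin N → ℂ,
        (1 / 2 : ℂ) • ((1 / 2 : ℂ) • p + (-(1 / 2) * Complex.I) • q +
          Complex.I • ((1 / 2 : ℂ) • r + (-(1 / 2) * Complex.I) • s)) +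
        (1 / 2 : ℂ) • ((1 / 2 : ℂ) • p + ((1 / 2) * Complex.I) • q -
          Complex.I • ((1 / 2 : ℂ) • r + ((1 / 2) * Complex.I) • s)) = (1 / 2 : ℂ) • (p + s) := by
      intro p q r s
      ext i
      simp only [Pi.add_apply, Pi.sub_apply, Pi.smul_apply, smul_eq_mul]
      linear_combination (-(1 / 2) * s i) * Complex.I_mul_I
    rw [h3] at key
    exact (smul_eq_zero.1 key).resolve_left (by norm_num)
  have hHa : ∀ y ∈ U, fH V z y *ᵥ a y = V.S z *ᵥ (C y *ᵥ a y) := by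
    intro y _
    rw [Matrix.mulVec_mulVec]
    rfl
  have hHb : ∀ y ∈ U, fH V z y *ᵥ b y = V.S z *ᵥ (C y *ᵥ b y) := by
    intro y _
    rw [Matrix.mulVec_mulVec]
    rfl
  show dV (fun y => fH V z y *ᵥ a y) x 1 + dV (fun y => fH V z y *ᵥ b y) x Complex.I = 0
  rw [dV_congr L.op hHa hx, dV_congr L.op hHb hx, dV_mul_const L.op cCa _ hx,
    dV_mul_const L.op cCb _ hx, ← Matrix.mulVec_add, key2, Matrix.mulVec_zero]

theorem planeData {φ : ℂ → Fin N → ℂ} (hφ : V.Sm φ)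
    (hharm : ∀ z ∉ A, V.d2 (fun x => weil w (V.E x) *ᵥ V.d1 φ x) z =
      - V.d1 (fun x => weil w (V.E x) *ᵥ V.d2 φ x) z) :
    PlaneData (fH V z) (lV V.P φ z) U where
  op := L.op
  cH := L.cH
  cφ := L.cφ hφ
  pos := fun _ hx => L.pos hx
  harm := fun _ hx => L.harm hx
  eqn := fun _ hx => L.eqn hφ hharm hx

end Loc

end loc2

/-! ### global scalars -/

section glob

variable {A : Finset ℂ} {N w : ℕ} (V : PVHS A N w) (φ : ℂ → Fin N → ℂ)

def gA (z : ℂ) : ℝ := pA (fH V z) (lV V.P φ z) z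
def gF (z : ℂ) : ℂ →L[ℝ] ℝ := pF (fH V z) (lV V.P φ z) z
def gG (z : ℂ) : ℂ →L[ℝ] ℝ := pG (fH V z) (lV V.P φ z) z
def gE (z : ℂ) : ℝ := pE (fH V z) (lV V.P φ z) z
def gX (z : ℂ) : ℝ := pX (fH V z) (lV V.P φ z) z
def gY (z : ℂ) : ℝ := pY (fH V z) (lV V.P φ z) z

variable {V φ}

lemma Loc.fr {z : ℂ} {U : Set ℂ} (L : Loc V z U) (hφ : V.Sm φ) {y : ℂ} (hy : y ∈ U) :
    Fr U (cm (V.P z y)) (cm (V.P z y)⁻¹) (fH V z) (fH V y) (lV V.P φ z) (lV V.P φ y) where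
  op := L.op
  gg := cm_mul_cm_inv _
  cH := L.cH
  cφ := L.cφ hφ
  hH := fun _ hx => L.fH_change hy hx
  hφ := fun _ hx => L.lV_change' φ hy hx

variable {z : ℂ} {U : Set ℂ} (L : Loc V z U) (hφ : V.Sm φ)
include L hφ

lemma gA_eq {y : ℂ} (hy : y ∈ U) : gA V φ y = pA (fH V z) (lV V.P φ z) y := (L.fr hφ hy).pA_eq hy
lemma gF_eq {y : ℂ} (hy : y ∈ U) : gF V φ y = pF (fH V z) (lV V.P φ z) y := (L.fr hφ hy).pF_eq hy
lemma gG_eq {y : ℂ} (hy : y ∈ U) : gG V φ y = pG (fH V z) (lV V.P φ z) y := (L.fr hφ hy).pG_eq hy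
lemma gE_eq {y : ℂ} (hy : y ∈ U) : gE V φ y = pE (fH V z) (lV V.P φ z) y := (L.fr hφ hy).pE_eq hy
lemma gX_eq {y : ℂ} (hy : y ∈ U) : gX V φ y = pX (fH V z) (lV V.P φ z) y := (L.fr hφ hy).pX_eq hy
lemma gY_eq {y : ℂ} (hy : y ∈ U) : gY V φ y = pY (fH V z) (lV V.P φ z) y := (L.fr hφ hy).pY_eq hy

end glob

section plane

variable {A : Finset ℂ} {N w : ℕ} {V : PVHS A N w} {φ : ℂ → Fin N → ℂ}

/-- the plane data of an exact harmonic form -/
theorem plane (hφ : V.Sm φ)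
    (hharm : ∀ z ∉ A, V.d2 (fun x => weil w (V.E x) *ᵥ V.d1 φ x) z =
      - V.d1 (fun x => weil w (V.E x) *ᵥ V.d2 φ x) z) :
    IpcE2_827.Plane (↑A : Set ℂ)ᶜ (gA V φ) (gE V φ) (gY V φ) (gX V φ) (gF V φ) (gG V φ) := by
  have hloc : ∀ z ∈ (↑A : Set ℂ)ᶜ, ∃ U, Loc V z U := fun z hz => exists_loc V (by simpa using hz)
  refine ⟨?_, ?_, ?_, ?_, ?_, ?_, ?_, ?_, ?_, ?_, ?_, ?_, ?_⟩
  · intro z hz
    obtain ⟨U, L⟩ := hloc z hz
    have D := L.planeData hφ hharm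
    have h1 : gA V φ =ᶠ[𝓝 z] pA (fH V z) (lV V.P φ z) := by
      filter_upwards [L.op.mem_nhds L.mem] with y hy using gA_eq L hφ hy
    have h2 := D.fderiv_A L.mem
    have h3 : DifferentiableAt ℝ (pA (fH V z) (lV V.P φ z)) z :=
      (D.contDiffOn_A.contDiffAt (L.op.mem_nhds L.mem)).differentiableAt two_ne_zero
    have h4 := h3.hasFDerivAt
    rw [h2] at h4
    exact h4.congr_of_eventuallyEq h1
  · intro z hz
    obtain ⟨U, L⟩ := hloc z hz
    have D := L.planeData hφ hharm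
    have h1 : gF V φ =ᶠ[𝓝 z] pF (fH V z) (lV V.P φ z) := by
      filter_upwards [L.op.mem_nhds L.mem] with y hy using gF_eq L hφ hy
    exact ((D.contDiffOn_F.contDiffAt (L.op.mem_nhds L.mem)).congr_of_eventuallyEq
      h1).contDiffWithinAt
  · intro z hz
    obtain ⟨U, L⟩ := hloc z hz
    have D := L.planeData hφ hharm
    have h1 : gG V φ =ᶠ[𝓝 z] pG (fH V z) (lV V.P φ z) := by
      filter_upwards [L.op.mem_nhds L.mem] with y hy using gG_eq L hφ hy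
    exact ((D.contDiffOn_G.contDiffAt (L.op.mem_nhds L.mem)).congr_of_eventuallyEq
      h1).contDiffWithinAt
  · intro z hz
    obtain ⟨U, L⟩ := hloc z hz
    have D := L.planeData hφ hharm
    have h1 : gY V φ =ᶠ[𝓝 z] pY (fH V z) (lV V.P φ z) := by
      filter_upwards [L.op.mem_nhds L.mem] with y hy using gY_eq L hφ hy
    exact ((D.continuousOn_Y.continuousAt (L.op.mem_nhds L.mem)).congr h1.symm).continuousWithinAt
  · intro z hz
    obtain ⟨U, L⟩ := hloc z hz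
    have D := L.planeData hφ hharm
    have h1 : gX V φ =ᶠ[𝓝 z] pX (fH V z) (lV V.P φ z) := by
      filter_upwards [L.op.mem_nhds L.mem] with y hy using gX_eq L hφ hy
    exact ((D.contDiffOn_X.continuousOn.continuousAt (L.op.mem_nhds L.mem)).congr
      h1.symm).continuousWithinAt
  · intro z hz
    obtain ⟨U, L⟩ := hloc z hz
    have D := L.planeData hφ hharm
    have h1 : gF V φ =ᶠ[𝓝 z] pF (fH V z) (lV V.P φ z) := by
      filter_upwards [L.op.mem_nhds L.mem] with y hy using gF_eq L hφ hy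
    have h2 := D.div_F L.mem
    have h3 : IpcE2_827.dv (gF V φ) z = div (pF (fH V z) (lV V.P φ z)) z := by
      rw [IpcE2_827.dv, div, h1.fderiv_eq]
    rw [h3, h2]
    rfl
  · intro z hz
    obtain ⟨U, L⟩ := hloc z hz
    have D := L.planeData hφ hharm
    have h1 : gG V φ =ᶠ[𝓝 z] pG (fH V z) (lV V.P φ z) := by
      filter_upwards [L.op.mem_nhds L.mem] with y hy using gG_eq L hφ hy
    have h2 := D.div_G L.mem
    have h3 : IpcE2_827.dv (gG V φ) z = div (pG (fH V z) (lV V.P φ z)) z := by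
      rw [IpcE2_827.dv, div, h1.fderiv_eq]
    rw [h3, h2]
    rfl
  · intro z hz
    obtain ⟨U, L⟩ := hloc z hz
    exact (L.planeData hφ hharm).A_nonneg L.mem
  · intro z hz
    obtain ⟨U, L⟩ := hloc z hz
    exact (L.planeData hφ hharm).E_nonneg L.mem
  · intro z hz
    obtain ⟨U, L⟩ := hloc z hz
    exact (L.planeData hφ hharm).Y_nonneg L.mem
  · intro z hz v
    obtain ⟨U, L⟩ := hloc z hz
    refine ((L.planeData hφ hharm).F_sq L.mem v).trans (le_of_eq ?_)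
    simp only [gA, gE]
    ring
  · intro z hz v
    obtain ⟨U, L⟩ := hloc z hz
    refine ((L.planeData hφ hharm).G_sq L.mem v).trans (le_of_eq ?_)
    simp only [gA, gY]
    ring
  · intro z hz
    obtain ⟨U, L⟩ := hloc z hz
    exact (L.planeData hφ hharm).X_sq L.mem

lemma fH_self {z : ℂ} (hz : z ∉ A) : fH V z z = V.H z := by
  have h : z ∈ (↑A : Set ℂ)ᶜ := by simpa using hz
  rw [fH, lM_self V.ndc _ h, PVHS.H]

/-- `|D φ|² = 2 |∂φ|² + 2 |∂̄φ|²` -/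
lemma gE_nsq (hφ : V.Sm φ) {z : ℂ} (hz : z ∉ A) :
    gE V φ z = 2 * V.nsq (V.d1 φ) z + 2 * V.nsq (V.d2 φ) z := by
  have hd : DifferentiableAt ℝ (lV V.P φ z) z := (hφ z hz).differentiableAt (by simp)
  have h1 : dV (lV V.P φ z) z 1 = V.d1 φ z + V.d2 φ z := by
    rw [PVHS.d1, PVHS.d2, wz_eq hd, wb_eq hd]
    module
  have h2 : dV (lV V.P φ z) z Complex.I = Complex.I • (V.d1 φ z - V.d2 φ z) := by
    rw [PVHS.d1, PVHS.d2, wz_eq hd, wb_eq hd]
    ext i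
    simp only [Pi.add_apply, Pi.sub_apply, Pi.smul_apply, smul_eq_mul]
    linear_combination (dV (lV V.P φ z) z Complex.I i) * Complex.I_mul_I
  have hH : (V.H z).IsHermitian := (V.hs z hz).hodge_isHermitian
  rw [gE, pE, pe, pe, h1, h2, fH_self hz]
  set a := V.d1 φ z with ha
  set b := V.d2 φ z with hb
  have e1 : S (V.H z) (Complex.I • (a - b)) (Complex.I • (a - b)) = S (V.H z) (a - b) (a - b) := by
    rw [Cyl_593.S_smul_left, Cyl_593.S_smul_right, ← mul_assoc]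
    have : star Complex.I * Complex.I = 1 := by
      rw [Complex.star_def, Complex.conj_I, neg_mul, Complex.I_mul_I, neg_neg]
    rw [this, one_mul]
  have e2 : S (V.H z) (a + b) (a + b) = S (V.H z) a a + S (V.H z) b b +
      (S (V.H z) a b + S (V.H z) b a) := by
    rw [Cyl_593.S_add_left, Cyl_593.S_add_right, Cyl_593.S_add_right]
    ring
  have e3 : S (V.H z) (a - b) (a - b) = S (V.H z) a a + S (V.H z) b b -
      (S (V.H z) a b + S (V.H z) b a) := by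
    have h5 : a - b = a + (-1 : ℂ) • b := by rw [neg_one_smul, sub_eq_add_neg]
    rw [h5, Cyl_593.S_add_left, Cyl_593.S_add_right, Cyl_593.S_add_right, Cyl_593.S_smul_right,
      Cyl_593.S_smul_left, Cyl_593.S_smul_left, Cyl_593.S_smul_right]
    simp
    ring
  rw [e1, e2, e3]
  simp only [Complex.add_re, Complex.sub_re]
  have e4 : (S (V.H z) a a).re = V.nsq (V.d1 φ) z := rfl
  have e5 : (S (V.H z) b b).re = V.nsq (V.d2 φ) z := rfl
  rw [e4, e5]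
  ring

end plane

/-! ### the Higgs field -/

section higgs

variable {A : Finset ℂ} {N w : ℕ}

/-- `|θ|²` at `z` for the Hodge metric and the coordinate of `ℂ` -/
def gv (V : PVHS A N w) (z : ℂ) : ℝ := EndTh_659.gg w (fP V z) 1 z

variable {V : PVHS A N w} {φ : ℂ → Fin N → ℂ}

lemma quarter {κ : Type*} [Fintype κ] [DecidableEq κ] {K M T : Matrix κ κ ℂ} (hK : K.PosDef)
    (hM : M.IsHermitian) {c : ℂ} (hc : star c * c = 4) (h : M = c • (K * T)) (u : κ → ℂ) :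
    1 / 4 * (S (M * K⁻¹ * M) u u).re = EndTh_659.nq K (T *ᵥ u) := by
  have hdet : IsUnit K.det := (Matrix.isUnit_iff_isUnit_det _).1 hK.isUnit
  have e1 : S (M * K⁻¹ * M) u u = S K⁻¹ (M *ᵥ u) (M *ᵥ u) := by
    rw [Cyl_593.S_mulVec_left, hM.eq, ← Cyl_593.S_mul]
  have e2 : M *ᵥ u = c • (K *ᵥ (T *ᵥ u)) := by
    rw [h, Matrix.smul_mulVec, Matrix.mulVec_mulVec]
  have e3 : S K⁻¹ (K *ᵥ (T *ᵥ u)) (K *ᵥ (T *ᵥ u)) = S K (T *ᵥ u) (T *ᵥ u) := by
    rw [Cyl_593.S_mulVec_left, hK.isHermitian.eq, Matrix.mul_nonsing_inv _ hdet]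
    simp [Cyl_593.S]
  rw [e1, e2, Cyl_593.S_smul_left, Cyl_593.S_smul_right, ← mul_assoc, hc, e3]
  have e4 : EndTh_659.nq K (T *ᵥ u) = (S K (T *ᵥ u) (T *ᵥ u)).re := rfl
  rw [e4]
  simp

lemma nq_para {κ : Type*} [Fintype κ] [DecidableEq κ] (K : Matrix κ κ ℂ) (a b : κ → ℂ) :
    EndTh_659.nq K (a + b) + EndTh_659.nq K (a - b) =
      2 * EndTh_659.nq K a + 2 * EndTh_659.nq K b := by
  have e : ∀ v, EndTh_659.nq K v = (S K v v).re := fun _ => rfl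
  have e2 : S K (a + b) (a + b) = S K a a + S K b b + (S K a b + S K b a) := by
    rw [Cyl_593.S_add_left, Cyl_593.S_add_right, Cyl_593.S_add_right]
    ring
  have e3 : S K (a - b) (a - b) = S K a a + S K b b - (S K a b + S K b a) := by
    have h5 : a - b = a + (-1 : ℂ) • b := by rw [neg_one_smul, sub_eq_add_neg]
    rw [h5, Cyl_593.S_add_left, Cyl_593.S_add_right, Cyl_593.S_add_right, Cyl_593.S_smul_right,
      Cyl_593.S_smul_left, Cyl_593.S_smul_left, Cyl_593.S_smul_right]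
    simp
    ring
  rw [e, e, e, e, e2, e3]
  simp only [Complex.add_re, Complex.sub_re]
  ring

/-- `|Θ φ|² ≤ 4 |θ|² |φ|²` -/
theorem gY_le (hφ : V.Sm φ)
    (hharm : ∀ z ∉ A, V.d2 (fun x => weil w (V.E x) *ᵥ V.d1 φ x) z =
      - V.d1 (fun x => weil w (V.E x) *ᵥ V.d2 φ x) z) {z : ℂ} (hz : z ∉ A) :
    gY V φ z ≤ 4 * gv V z * gA V φ z := by
  obtain ⟨U, L⟩ := exists_loc V hz
  have D := L.planeData hφ hharm
  have hK := L.pos L.mem
  have h1 := quarter hK (D.herm L.mem 1) (by norm_num) (L.dM_H_one L.mem) (lV V.P φ z z)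
  have h2 := quarter hK (D.herm L.mem Complex.I) (by
    simp only [star_neg, star_mul', Complex.star_def, Complex.conj_I, Complex.conj_ofNat]
    linear_combination (-4 : ℂ) * Complex.I_mul_I) (L.dM_H_I L.mem) (lV V.P φ z z)
  have h3 := EndTh_659.nq_th_le L.vhs L.mem 1 (lV V.P φ z z)
  have h4 := EndTh_659.nq_thb_le L.vhs L.mem 1 (lV V.P φ z z)
  rw [hm_fP] at h3 h4
  have h5 := nq_para (fH V z z) (VCalc_442.th w (fP V z) 1 z *ᵥ lV V.P φ z z)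
    (VCalc_442.thb w (fP V z) 1 z *ᵥ lV V.P φ z z)
  rw [Matrix.add_mulVec] at h1
  rw [Matrix.sub_mulVec] at h2
  have h6 : gY V φ z = PlaneData.py (fH V z) (lV V.P φ z) 1 z +
      PlaneData.py (fH V z) (lV V.P φ z) Complex.I z := D.Y_eq L.mem
  have h7 : gA V φ z = EndTh_659.nq (fH V z z) (lV V.P φ z z) := rfl
  rw [h6, PlaneData.py, PlaneData.py, h1, h2, h5, h7, gv]
  linarith

lemma mW_eq_half (H : ℂ → Matrix (Fin N) (Fin N) ℂ) (x : ℂ) :
    VCalc_442.mW H 1 x = (1 / 2 : ℂ) • (dM H x 1 - Complex.I • dM H x Complex.I) := by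
  rw [dM_one, dM_I, smul_smul, Complex.I_mul_I]
  module

lemma mB_eq_half (H : ℂ → Matrix (Fin N) (Fin N) ℂ) (x : ℂ) :
    VCalc_442.mB H 1 x = (1 / 2 : ℂ) • (dM H x 1 + Complex.I • dM H x Complex.I) := by
  rw [dM_one, dM_I, smul_smul, Complex.I_mul_I]
  module

/-- `|θ|²` does not depend on the frame -/
theorem Loc.gv_eq {z : ℂ} {U : Set ℂ} (L : Loc V z U) {y : ℂ} (hy : y ∈ U) :
    gv V y = EndTh_659.gg w (fP V z) 1 y := by
  obtain ⟨U', L'⟩ := exists_loc V (L.sub y hy)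
  have hc : MC 1 (lM V.P V.E z) U := fun i j => (L.cE i j).of_le (by norm_num)
  have hd : ∀ v, dM (lM V.P V.E y) y v =
      cm (V.P z y)⁻¹ * dM (lM V.P V.E z) y v * cm (V.P z y) := by
    intro v
    rw [dM_congr L.op (fun x hx => L.fE_change' hy hx) hy, dM_conj L.op hc _ _ hy]
  unfold gv EndTh_659.gg
  rw [L'.th_fP L'.mem, L'.thb_fP L'.mem, L.th_fP hy, L.thb_fP hy, mW_eq_half, mB_eq_half,
    mW_eq_half, mB_eq_half, hd, hd]
  set g := cm (V.P z y)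
  set g' := cm (V.P z y)⁻¹
  have hgg : g * g' = 1 := cm_mul_cm_inv _
  set a := dM (lM V.P V.E z) y 1
  set b := dM (lM V.P V.E z) y Complex.I
  have e1 : (1 / 2 : ℂ) • (g' * a * g - Complex.I • (g' * b * g)) =
      g' * ((1 / 2 : ℂ) • (a - Complex.I • b)) * g := by
    rw [Matrix.mul_smul, Matrix.smul_mul, Matrix.mul_sub, Matrix.sub_mul, Matrix.mul_smul,
      Matrix.smul_mul]
  have e2 : -((1 / 2 : ℂ) • (g' * a * g + Complex.I • (g' * b * g))) =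
      g' * (-((1 / 2 : ℂ) • (a + Complex.I • b))) * g := by
    rw [Matrix.mul_neg, Matrix.neg_mul, Matrix.mul_smul, Matrix.smul_mul, Matrix.mul_add,
      Matrix.add_mul, Matrix.mul_smul, Matrix.smul_mul]
  rw [e1, e2]
  congr 1
  set p := (1 / 2 : ℂ) • (a - Complex.I • b)
  set q := -((1 / 2 : ℂ) • (a + Complex.I • b))
  have e3 : g' * p * g * (g' * q * g) = g' * (p * q) * g := by
    calc g' * p * g * (g' * q * g) = g' * p * (g * g') * q * g := by noncomm_ring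
      _ = _ := by rw [hgg]; noncomm_ring
  rw [e3, Matrix.trace_mul_cycle, hgg, Matrix.one_mul]

lemma gg_smul (P : ℕ → ℂ → Matrix (Fin N) (Fin N) ℂ) (c x : ℂ) :
    EndTh_659.gg w P c x = ‖c‖ ^ 2 * EndTh_659.gg w P 1 x := by
  have h1 : VCalc_442.th w P c x = c • VCalc_442.th w P 1 x := by
    have := mW_smul (VCalc_442.grOp w P) x 1 c
    rwa [mul_one] at this
  have h2 : VCalc_442.thb w P c x = (starRingEnd ℂ c) • VCalc_442.thb w P 1 x := by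
    have := mB_smul (VCalc_442.grOp w P) x 1 c
    rw [mul_one] at this
    unfold VCalc_442.thb
    rw [this, smul_neg]
  unfold EndTh_659.gg
  rw [h1, h2, Matrix.smul_mul, Matrix.mul_smul, smul_smul, Complex.mul_conj,
    Complex.normSq_eq_norm_sq, Matrix.trace_smul, smul_eq_mul, Complex.re_ofReal_mul]

/-- **Ahlfors-Schwarz along a holomorphic map** into the punctured plane -/
theorem ahl_map (V : PVHS A N w) {W : Set ℂ} (hW : IsOpen W) {f : ℂ → ℂ}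
    (hf : ContDiffOn ℂ ∞ f W) (hm : ∀ u ∈ W, f u ∉ A) :
    (∀ u ∈ W, ContDiffAt ℝ 2 (fun u => ‖deriv f u‖ ^ 2 * gv V (f u)) u) ∧
    (∀ u ∈ W, 0 ≤ ‖deriv f u‖ ^ 2 * gv V (f u)) ∧
    Ahl_25.Neg (Classical.choose (EndTh_659.neg (Fin N)))
      (fun u => ‖deriv f u‖ ^ 2 * gv V (f u)) W := by
  obtain ⟨hc, hneg⟩ := Classical.choose_spec (EndTh_659.neg (Fin N))
  have key : ∀ u0 ∈ W, ∃ (W' : Set ℂ) (S' : Matrix (Fin N) (Fin N) ℂ)
      (P' : ℕ → ℂ → Matrix (Fin N) (Fin N) ℂ), u0 ∈ W' ∧ VCalc_442.VHS w W' S' P' ∧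
      ∀ u ∈ W', ‖deriv f u‖ ^ 2 * gv V (f u) = EndTh_659.gg w P' 1 u := by
    intro u0 hu0
    obtain ⟨U, L⟩ := exists_loc V (hm u0 hu0)
    have hWo : IsOpen (W ∩ f ⁻¹' U) := hf.continuousOn.isOpen_inter_preimage hW L.op
    refine ⟨W ∩ f ⁻¹' U, V.S (f u0), fun p y => fP V (f u0) p (f y), ⟨hu0, L.mem⟩, ?_, ?_⟩
    · exact EndTh_659.pull L.vhs hWo (hf.mono inter_subset_left) (fun y hy => hy.2)
    · intro u hu
      have hd : DifferentiableAt ℂ f u :=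
        ((hf.contDiffAt (hW.mem_nhds hu.1))).differentiableAt (by simp)
      rw [EndTh_659.gg_pull L.vhs hu.2 hd, L.gv_eq hu.2]
      have h1 : fderiv ℂ f u 1 = deriv f u := rfl
      rw [h1, gg_smul _ (deriv f u)]
  refine ⟨fun u0 hu0 => ?_, fun u0 hu0 => ?_, fun u0 hu0 hne => ?_⟩
  · obtain ⟨W', S', P', h1, h2, h3⟩ := key u0 hu0
    have h4 : ContDiffAt ℝ 2 (fun x => EndTh_659.gg w P' 1 x) u0 :=
      ((EndTh_659.sm_gg h2 1).contDiffAt (h2.op.mem_nhds h1)).of_le ENat.LEInfty.out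
    refine h4.congr_of_eventuallyEq ?_
    filter_upwards [h2.op.mem_nhds h1] with u hu using h3 u hu
  · obtain ⟨W', S', P', h1, h2, h3⟩ := key u0 hu0
    rw [h3 u0 h1]
    exact EndTh_659.gg_nonneg h2 h1 1
  · obtain ⟨W', S', P', h1, h2, h3⟩ := key u0 hu0
    have hne' : EndTh_659.gg w P' 1 u0 ≠ 0 := by
      rw [← h3 u0 h1]
      exact hne
    have h5 := hneg w W' S' P' h2 u0 h1 hne'
    have h7 : (fun u => ‖deriv f u‖ ^ 2 * gv V (f u)) u0 = EndTh_659.gg w P' 1 u0 := h3 u0 h1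
    rw [h7]
    refine h5.trans (le_of_eq ?_)
    have h6 : (fun u => Real.log (EndTh_659.gg w P' 1 u)) =ᶠ[𝓝 u0]
        fun u => Real.log (‖deriv f u‖ ^ 2 * gv V (f u)) := by
      filter_upwards [h2.op.mem_nhds h1] with u hu
      rw [h3 u hu]
    exact (InnerProductSpace.laplacian_congr_nhds h6).self_of_nhds

lemma isOpen_pball (R : ℝ) : IsOpen (Metric.ball (0 : ℂ) R \ {0}) :=
  Metric.isOpen_ball.sdiff isClosed_singleton

/-- the punctured disc version -/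
theorem ahl_punct (V : PVHS A N w) {R : ℝ} (hR : 0 < R) {f : ℂ → ℂ}
    (hf : ContDiffOn ℂ ∞ f (Metric.ball (0 : ℂ) R \ {0}))
    (hm : ∀ u ∈ Metric.ball (0 : ℂ) R \ {0}, f u ∉ A) :
    ∃ C r : ℝ, 0 < C ∧ 0 < r ∧ ∀ t : ℂ, t ≠ 0 → ‖t‖ < r →
      ‖deriv f t‖ ^ 2 * gv V (f t) ≤ (C / (‖t‖ * Real.log ‖t‖)) ^ 2 := by
  obtain ⟨h1, h2, h3⟩ := ahl_map V (isOpen_pball R) hf hm
  obtain ⟨hc, -⟩ := Classical.choose_spec (EndTh_659.neg (Fin N))
  set c := Classical.choose (EndTh_659.neg (Fin N)) with hcdef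
  refine ⟨√(32 / c), min R (min (R ^ 2) 1), by positivity, by positivity, fun t ht htr => ?_⟩
  have htR : ‖t‖ < R := htr.trans_le (min_le_left _ _)
  have htR2 : ‖t‖ < R ^ 2 := htr.trans_le ((min_le_right _ _).trans (min_le_left _ _))
  have ht1 : ‖t‖ < 1 := htr.trans_le ((min_le_right _ _).trans (min_le_right _ _))
  have ht0 : 0 < ‖t‖ := norm_pos_iff.2 ht
  have hmem : t ∈ Metric.ball (0 : ℂ) R \ {0} := ⟨mem_ball_zero_iff.2 htR, by simpa using ht⟩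
  have h4 := Ahl_25.ahlfors_punctured hc hR h1 h2 h3 hmem
  refine h4.trans ?_
  have hlog : Real.log ‖t‖ < 0 := Real.log_neg ht0 ht1
  have hlR : Real.log ‖t‖ ≤ 2 * Real.log R := by
    have := Real.log_le_log ht0 htR2.le
    rwa [Real.log_pow] at this
  have h5 : Real.log (R / ‖t‖) = Real.log R - Real.log ‖t‖ := Real.log_div hR.ne' ht0.ne'
  have h6 : -(1 / 2) * Real.log ‖t‖ ≤ Real.log (R / ‖t‖) := by rw [h5]; linarith
  have h7 : 0 < -(1 / 2) * Real.log ‖t‖ := by linarith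
  have h8 : (1 / 4) * (Real.log ‖t‖) ^ 2 ≤ (Real.log (R / ‖t‖)) ^ 2 := by
    have := pow_le_pow_left₀ h7.le h6 2
    refine le_trans (le_of_eq ?_) this
    ring
  rw [div_pow, Real.sq_sqrt (by positivity), mul_pow, div_div]
  have h9 : 0 < (Real.log ‖t‖) ^ 2 := by nlinarith
  have h11 : 0 < (Real.log (R / ‖t‖)) ^ 2 := lt_of_lt_of_le (by positivity) h8
  rw [div_le_div_iff₀ (by positivity) (by positivity)]
  have h10 : c * ‖t‖ ^ 2 * ((1 / 4) * (Real.log ‖t‖) ^ 2) ≤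
      c * ‖t‖ ^ 2 * (Real.log (R / ‖t‖)) ^ 2 := mul_le_mul_of_nonneg_left h8 (by positivity)
  nlinarith

/-- `|θ|² ≤ (C / (|z - b| log |z - b|))²` near a puncture (or a regular point) `b` -/
theorem gv_le_punct (V : PVHS A N w) (b : ℂ) : ∃ C r : ℝ, 0 < C ∧ 0 < r ∧ ∀ z, z ≠ b → ‖z - b‖ < r →
    gv V z ≤ (C / (‖z - b‖ * Real.log ‖z - b‖)) ^ 2 := by
  obtain ⟨R, hR, hRA⟩ : ∃ R : ℝ, 0 < R ∧ ∀ z, z ≠ b → ‖z - b‖ < R → z ∉ A := by
    have h1 : IsOpen ((↑(A.erase b) : Set ℂ)ᶜ) := (A.erase b).finite_toSet.isClosed.isOpen_compl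
    have h2 : b ∈ ((↑(A.erase b) : Set ℂ)ᶜ) := by simp
    obtain ⟨R, hR, h3⟩ := Metric.isOpen_iff.1 h1 b h2
    refine ⟨R, hR, fun z hz hzR hzA => ?_⟩
    have h4 := h3 (mem_ball_iff_norm.2 hzR)
    simp [hz, hzA] at h4
  obtain ⟨C, r, hC, hr, h⟩ := ahl_punct V hR (f := fun t => b + t)
    (contDiff_const.add contDiff_id).contDiffOn (fun u hu => by
      refine hRA _ ?_ ?_
      · simpa using hu.2
      · simpa using hu.1)
  refine ⟨C, r, hC, hr, fun z hz hzr => ?_⟩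
  have h1 := h (z - b) (sub_ne_zero.2 hz) hzr
  have h2 : deriv (fun t : ℂ => b + t) (z - b) = 1 := by
    simp
  rw [h2, norm_one, one_pow, one_mul] at h1
  simpa using h1

/-- `|θ|² ≤ (C / (|z| log |z|))²` near infinity -/
theorem gv_le_inf (V : PVHS A N w) : ∃ C R : ℝ, 0 < C ∧ 1 < R ∧ ∀ z, R < ‖z‖ →
    gv V z ≤ (C / (‖z‖ * Real.log ‖z‖)) ^ 2 := by
  obtain ⟨R, hR, hRA⟩ : ∃ R : ℝ, 0 < R ∧ ∀ z ∈ A, ‖z‖ ≤ R := by
    obtain ⟨R, hR⟩ := A.finite_toSet.isBounded.exists_norm_le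
    exact ⟨max R 1, by positivity, fun z hz => (hR z hz).trans (le_max_left _ _)⟩
  obtain ⟨C, r, hC, hr, h⟩ := ahl_punct V (R := R⁻¹) (by positivity) (f := fun t => t⁻¹)
    (fun t ht => by
      have ht0 : t ≠ 0 := by simpa using ht.2
      exact ((contDiffAt_inv ℂ ht0).contDiffWithinAt)) (fun u hu hA => by
      have hu0 : u ≠ 0 := by simpa using hu.2
      have h1 : ‖u‖ < R⁻¹ := by simpa using hu.1
      have h2 := hRA _ hA
      rw [norm_inv] at h2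
      have h3 : 0 < ‖u‖ := norm_pos_iff.2 hu0
      have h4 : R < ‖u‖⁻¹ := by
        rw [lt_inv_comm₀ hR h3]
        exact h1
      linarith)
  refine ⟨C, max r⁻¹ 2, hC, by
    have := le_max_right r⁻¹ 2
    linarith, fun z hz => ?_⟩
  have hz2 : 2 < ‖z‖ := (le_max_right _ _).trans_lt hz
  have hzr : r⁻¹ < ‖z‖ := (le_max_left _ _).trans_lt hz
  have hz0 : 0 < ‖z‖ := by linarith
  have hzne : z ≠ 0 := norm_pos_iff.1 hz0
  have h1 := h z⁻¹ (inv_ne_zero hzne) (by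
    rw [norm_inv]
    exact inv_lt_of_inv_lt₀ hr hzr)
  rw [inv_inv, deriv_inv, norm_inv, Real.log_inv] at h1
  have h2 : ‖-((z⁻¹) ^ 2)⁻¹‖ ^ 2 = ‖z‖ ^ 4 := by
    rw [norm_neg, norm_inv, norm_pow, norm_inv]
    field_simp
  rw [h2] at h1
  have hlog : 0 < Real.log ‖z‖ := Real.log_pos (by linarith)
  have h3 : (C / (‖z‖⁻¹ * -Real.log ‖z‖)) ^ 2 = ‖z‖ ^ 4 * (C / (‖z‖ * Real.log ‖z‖)) ^ 2 := by
    field_simp
  rw [h3] at h1
  exact le_of_mul_le_mul_left h1 (by positivity)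

/-- **No exact harmonic forms.**  A square integrable exact harmonic one-form `Dφ` vanishes. -/
theorem no_exact (V : PVHS A N w) {φ : ℂ → Fin N → ℂ} (hφ : V.Sm φ)
    (hharm : ∀ z ∉ A, V.d2 (fun x => weil w (V.E x) *ᵥ V.d1 φ x) z =
      - V.d1 (fun x => weil w (V.E x) *ᵥ V.d2 φ x) z)
    (h1 : IntegrableOn (V.nsq (V.d1 φ)) ((A : Set ℂ)ᶜ))
    (h2 : IntegrableOn (V.nsq (V.d2 φ)) ((A : Set ℂ)ᶜ)) :
    ∀ z ∉ A, V.d1 φ z = 0 ∧ V.d2 φ z = 0 := by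
  have hP := plane hφ hharm
  have hU : IsOpen (↑A : Set ℂ)ᶜ := A.finite_toSet.isClosed.isOpen_compl
  have hint : IntegrableOn (gE V φ) (↑A : Set ℂ)ᶜ := by
    refine ((h1.const_mul 2).add (h2.const_mul 2)).congr ?_
    rw [EventuallyEq, ae_restrict_iff' hU.measurableSet]
    refine Eventually.of_forall fun z hz => ?_
    exact (gE_nsq hφ (by simpa using hz)).symm
  have hA0 : ∀ z ∉ A, 0 ≤ gA V φ z := fun z hz => hP.A0 z (by simpa using hz)
  have hE := IpcE3_827.eq_zero A hP hint (fun b _ => ?_) ?_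
  · intro z hz
    have h3 := hE z hz
    rw [gE_nsq hφ hz] at h3
    have h4 : 0 ≤ V.nsq (V.d1 φ) z := (V.hs z hz).hodge_nonneg _
    have h5 : 0 ≤ V.nsq (V.d2 φ) z := (V.hs z hz).hodge_nonneg _
    have h6 : V.nsq (V.d1 φ) z = 0 := by linarith
    have h7 : V.nsq (V.d2 φ) z = 0 := by linarith
    constructor
    · by_contra hne
      exact absurd h6 ((V.hs z hz).hodge_pos hne).ne'
    · by_contra hne
      exact absurd h7 ((V.hs z hz).hodge_pos hne).ne'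
  · obtain ⟨R, hR, hRA⟩ : ∃ R : ℝ, 0 < R ∧ ∀ z, z ≠ b → ‖z - b‖ < R → z ∉ A := by
      have h1 : IsOpen ((↑(A.erase b) : Set ℂ)ᶜ) := (A.erase b).finite_toSet.isClosed.isOpen_compl
      have h2 : b ∈ ((↑(A.erase b) : Set ℂ)ᶜ) := by simp
      obtain ⟨R, hR, h3⟩ := Metric.isOpen_iff.1 h1 b h2
      refine ⟨R, hR, fun z hz hzR hzA => ?_⟩
      have h4 := h3 (mem_ball_iff_norm.2 hzR)
      simp [hz, hzA] at h4
    obtain ⟨C, r, hC, hr, h⟩ := gv_le_punct V b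
    refine ⟨2 * C, min r R, by positivity, fun z hz hzr => ?_⟩
    have hzA := hRA z hz (hzr.trans_le (min_le_right _ _))
    refine (gY_le hφ hharm hzA).trans ?_
    have h4 := h z hz (hzr.trans_le (min_le_left _ _))
    have h5 : (2 * C / (‖z - b‖ * Real.log ‖z - b‖)) ^ 2 =
        4 * (C / (‖z - b‖ * Real.log ‖z - b‖)) ^ 2 := by ring
    rw [h5]
    exact mul_le_mul_of_nonneg_right (mul_le_mul_of_nonneg_left h4 (by norm_num)) (hA0 z hzA)
  · obtain ⟨R, hRA⟩ : ∃ R : ℝ, ∀ z ∈ A, ‖z‖ ≤ R := A.finite_toSet.isBounded.exists_norm_le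
    obtain ⟨C, R', hC, hR', h⟩ := gv_le_inf V
    refine ⟨2 * C, max R R', fun z hz => ?_⟩
    have hzA : z ∉ A := fun hzA => by
      have h3 := hRA z hzA
      have h4 := (le_max_left R R').trans_lt hz
      linarith
    refine (gY_le hφ hharm hzA).trans ?_
    have h4 := h z ((le_max_right _ _).trans_lt hz)
    have h5 : (2 * C / (‖z‖ * Real.log ‖z‖)) ^ 2 = 4 * (C / (‖z‖ * Real.log ‖z‖)) ^ 2 := by ring
    rw [h5]
    exact mul_le_mul_of_nonneg_right (mul_le_mul_of_nonneg_left h4 (by norm_num)) (hA0 z hzA)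

end higgs

end Crest.Agent.R276.NoEx_827
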