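import Crest.Agent.R276.PvT_175
import Crest.Agent.R276.EndP3_659
import Crest.Agent.R276.IpcEx_309
import Crest.Agent.R276.NoEx_827

/-!
# R276, IPC-LOC (helper175): the inputs `PV.Inp` for a polarised variation over a punctured plane
-/

set_option autoImplicit false

noncomputable section

open Set Filter Topology MeasureTheory Matrix
open scoped ContDiff ComplexConjugate

namespace Crest.Agent.R276.PvO_175

open Crest.Agent.R276.Ipc735 Crest.Agent.R276.Nat_591 Crest.Agent.R276.IpcG1_975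
open Crest.Agent.R276.IpcGr_975 Crest.Agent.R276.TopE_175 Crest.Agent.R276.DR_175
open Crest.Agent.R276.Wcl_175

variable {A : Finset ℂ} {N w : ℕ} (R : PVHS A N w)

theorem isOpenC (A : Finset ℂ) : IsOpen ((A : Set ℂ)ᶜ) := A.finite_toSet.isClosed.isOpen_compl

theorem G_nsq {x : ℂ} (hx : x ∉ A) (α : ℂ → (Fin N → ℂ) × (Fin N → ℂ)) :
    ((pvOf R).mb.dbl.G x (α x) (α x)).re = R.nsq (fun x => (α x).1) x + R.nsq (fun x => (α x).2) x := by
  show ((pvOf R).Gf x (α x).1 (α x).1 + (pvOf R).Gf x (α x).2 (α x).2).re = _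
  rw [Complex.add_re, pvOf_nsq R hx (fun x => (α x).1), pvOf_nsq R hx (fun x => (α x).2)]

theorem nsq_int {α : ℂ → (Fin N → ℂ) × (Fin N → ℂ)} (hs : (pvOf R).toFB.dbl.Sm α)
    (hf : (pvOf R).Fin2 α) :
    IntegrableOn (R.nsq (fun x => (α x).1)) ((A : Set ℂ)ᶜ) ∧
      IntegrableOn (R.nsq (fun x => (α x).2)) ((A : Set ℂ)ᶜ) := by
  obtain ⟨h1, h2⟩ := FB.sm_dbl.1 hs
  have hsum : IntegrableOn (fun x => R.nsq (fun x => (α x).1) x + R.nsq (fun x => (α x).2) x)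
      ((A : Set ℂ)ᶜ) := by
    refine hf.congr_fun (fun x hx => ?_) (isOpenC A).measurableSet
    exact G_nsq R hx α
  have hn : ∀ φ : ℂ → Fin N → ℂ, ∀ x ∈ ((A : Set ℂ)ᶜ), 0 ≤ R.nsq φ x := fun φ x hx =>
    IpcEx_309.nsq_nonneg R φ hx
  have hm : ∀ φ : ℂ → Fin N → ℂ, R.Sm φ →
      AEStronglyMeasurable (R.nsq φ) (volume.restrict ((A : Set ℂ)ᶜ)) := fun φ hφ =>
    ContinuousOn.aestronglyMeasurable
      (fun x hx => (IpcEx_309.nsq_cont R hφ hx).continuousWithinAt) (isOpenC A).measurableSet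
  constructor
  · refine hsum.mono' (hm _ ((sm_iff R _).1 h1)) ?_
    filter_upwards [ae_restrict_mem (isOpenC A).measurableSet] with x hx
    rw [Real.norm_of_nonneg (hn _ x hx)]
    linarith [hn (fun x => (α x).2) x hx]
  · refine hsum.mono' (hm _ ((sm_iff R _).1 h2)) ?_
    filter_upwards [ae_restrict_mem (isOpenC A).measurableSet] with x hx
    rw [Real.norm_of_nonneg (hn _ x hx)]
    linarith [hn (fun x => (α x).1) x hx]

/-- parabolic forms are cohomologous to compactly supported ones -/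
theorem exists_CF' {a b : ℂ → Fin N → ℂ} (h : SC R a b) (hp : R.Par a b) :
    ∃ a' b' g, CF R a' b' ∧ R.Sm g ∧
      ∀ z ∉ A, a' z = a z - R.d1 g z ∧ b' z = b z - R.d2 g z := by
  classical
  obtain ⟨h1, r, h2⟩ := hp
  obtain ⟨g, hg, K, hK, hKA, hcut⟩ := exists_cut (A := A) (P := R.P) (a := a) (b := b) h1 ⟨r, h2⟩
  have hgS : R.Sm g := (smOn_iff R g).2 hg
  obtain ⟨a', ha'⟩ : ∃ a' : ℂ → Fin N → ℂ, a' = fun z => if z ∈ A then 0 else a z - R.d1 g z :=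
    ⟨_, rfl⟩
  obtain ⟨b', hb'⟩ : ∃ b' : ℂ → Fin N → ℂ, b' = fun z => if z ∈ A then 0 else b z - R.d2 g z :=
    ⟨_, rfl⟩
  have ea : ∀ z ∉ A, a' z = a z - R.d1 g z := fun z hz => by rw [ha']; exact if_neg hz
  have eb : ∀ z ∉ A, b' z = b z - R.d2 g z := fun z hz => by rw [hb']; exact if_neg hz
  have ea0 : ∀ z ∈ A, a' z = 0 := fun z hz => by rw [ha']; exact if_pos hz
  have eb0 : ∀ z ∈ A, b' z = 0 := fun z hz => by rw [hb']; exact if_pos hz
  refine ⟨a', b', g, ⟨?_, K, hK, hKA, fun z hz => ?_⟩, hgS, fun z hz => ⟨ea z hz, eb z hz⟩⟩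
  · have hclo : (pvOf R).toFB.Clo (fun x => (a x - (pvOf R).d1 g x, b x - (pvOf R).d2 g x)) := by
      obtain ⟨c1, c2⟩ := (clo_iff (R := R) a b).2 h
      obtain ⟨c3, c4⟩ := FB.sm_dbl.1 c1
      have hg' : (pvOf R).Sm g := (sm_iff R g).2 hgS
      refine ⟨FB.sm_dbl.2 ⟨c3.sub hg'.d1, c4.sub hg'.d2⟩, fun z hz => ?_⟩
      have k1 : (pvOf R).d2 (fun x => a x - (pvOf R).d1 g x) z =
          (pvOf R).d2 a z - (pvOf R).d2 ((pvOf R).d1 g) z := by
        have e : (fun x => a x - (pvOf R).d1 g x) = fun x => a x + (-1 : ℂ) • (pvOf R).d1 g x := by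
          funext x; rw [neg_one_smul, sub_eq_add_neg]
        rw [e]
        have h5 : (pvOf R).d2 (fun x => a x + (-1 : ℂ) • (pvOf R).d1 g x) z =
            (pvOf R).d2 a z + (pvOf R).d2 (fun x => (-1 : ℂ) • (pvOf R).d1 g x) z :=
          FB.d2_add c3 (hg'.d1.const_smul (-1)) hz
        have h6 : (pvOf R).d2 (fun x => (-1 : ℂ) • (pvOf R).d1 g x) z =
            (-1 : ℂ) • (pvOf R).d2 ((pvOf R).d1 g) z := FB.d2_smul hg'.d1 (-1) hz
        rw [h5, h6, neg_one_smul, sub_eq_add_neg]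
      have k2 : (pvOf R).d1 (fun x => b x - (pvOf R).d2 g x) z =
          (pvOf R).d1 b z - (pvOf R).d1 ((pvOf R).d2 g) z := by
        have e : (fun x => b x - (pvOf R).d2 g x) = fun x => b x + (-1 : ℂ) • (pvOf R).d2 g x := by
          funext x; rw [neg_one_smul, sub_eq_add_neg]
        rw [e]
        have h5 : (pvOf R).d1 (fun x => b x + (-1 : ℂ) • (pvOf R).d2 g x) z =
            (pvOf R).d1 b z + (pvOf R).d1 (fun x => (-1 : ℂ) • (pvOf R).d2 g x) z :=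
          FB.d1_add c4 (hg'.d2.const_smul (-1)) hz
        have h6 : (pvOf R).d1 (fun x => (-1 : ℂ) • (pvOf R).d2 g x) z =
            (-1 : ℂ) • (pvOf R).d1 ((pvOf R).d2 g) z := FB.d1_smul hg'.d2 (-1) hz
        rw [h5, h6, neg_one_smul, sub_eq_add_neg]
      show (pvOf R).d2 (fun x => a x - (pvOf R).d1 g x) z =
        (pvOf R).d1 (fun x => b x - (pvOf R).d2 g x) z
      rw [k1, k2, FB.d2_d1 hg' hz]
      congr 1
      exact c2 z hz
    have h3 := (clo_iff (R := R) _ _).1 hclo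
    -- change on the punctures
    have hA : ∀ z ∉ A, ∀ᶠ y in 𝓝 z, a' y = a y - (pvOf R).d1 g y ∧
        b' y = b y - (pvOf R).d2 g y := by
      intro z hz
      filter_upwards [(isOpenC A).mem_nhds (show z ∈ ((A : Set ℂ)ᶜ) from hz)] with y hy
      rw [ea y hy, eb y hy, d1_eq, d2_eq]
      exact ⟨rfl, rfl⟩
    refine ⟨fun z hz => ?_, fun z hz => ?_, fun z hz => ?_⟩
    · exact sm_congr ((hA z hz).mono fun y hy => hy.1) (h3.smA z hz)
    · exact sm_congr ((hA z hz).mono fun y hy => hy.2) (h3.smB z hz)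
    · have k3 : R.d2 a' z = R.d2 (fun x => a x - (pvOf R).d1 g x) z :=
        e2_congr (P := R.P) ((hA z hz).mono fun y hy => hy.1)
      have k4 : R.d1 b' z = R.d1 (fun x => b x - (pvOf R).d2 g x) z :=
        e1_congr (P := R.P) ((hA z hz).mono fun y hy => hy.2)
      rw [k3, k4]
      exact h3.cl z hz
  · by_cases hzA : z ∈ A
    · exact ⟨ea0 z hzA, eb0 z hzA⟩
    · obtain ⟨h5, h6⟩ := hcut z hz hzA
      rw [ea z hzA, eb z hzA, h5, h6]
      exact ⟨sub_self _, sub_self _⟩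

/-- (I3) -/
theorem inp3 (α : ℂ → (Fin N → ℂ) × (Fin N → ℂ)) (hc : (pvOf R).toFB.Clo α)
    (hf : (pvOf R).Fin2 α) : ∃ ζ ∈ (pvOf R).ZS, (pvOf R).Exact (fun x => α x - ζ.f x) := by
  have hsc : SC R (fun x => (α x).1) (fun x => (α x).2) := (clo_iff _ _).1 hc
  obtain ⟨i1, i2⟩ := nsq_int R hc.1 hf
  have hp := EndP_659.par_of_L2 R hsc.smA hsc.smB hsc.cl i1 i2
  obtain ⟨a', b', g, hcf, hg, he⟩ := exists_CF' R hsc hp
  refine ⟨(zs hcf : (pvOf R).mb.dbl.H0), (zs hcf).2, ?_⟩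
  rw [exact_iff]
  refine ⟨g, hg, fun z hz => ?_⟩
  obtain ⟨e1, e2⟩ := he z hz
  constructor
  · show R.d1 g z = (α z).1 - a' z
    rw [e1]; abel
  · show R.d2 g z = (α z).2 - b' z
    rw [e2]; abel

/-- (I5) -/
theorem inp5 (ψ : ℂ → Fin N → ℂ) (hψ : (pvOf R).Sm ψ)
    (hc : (pvOf R).toFB.Clo (fun x => (pvOf R).bt x ((pvOf R).toFB.Df ψ x)))
    (hf : (pvOf R).Fin2 ((pvOf R).toFB.Df ψ)) :
    ∀ x ∈ ((A : Set ℂ)ᶜ), (pvOf R).toFB.Df ψ x = 0 := by
  have hsm : (pvOf R).toFB.dbl.Sm ((pvOf R).toFB.Df ψ) := FB.sm_dbl.2 ⟨hψ.d1, hψ.d2⟩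
  obtain ⟨i1, i2⟩ := nsq_int R hsm hf
  have e1 : (fun x => ((pvOf R).toFB.Df ψ x).1) = R.d1 ψ := by
    funext x; exact d1_eq R ψ x
  have e2 : (fun x => ((pvOf R).toFB.Df ψ x).2) = R.d2 ψ := by
    funext x; exact d2_eq R ψ x
  rw [e1] at i1
  rw [e2] at i2
  have hharm : ∀ z ∉ A, R.d2 (fun x => weil w (R.E x) *ᵥ R.d1 ψ x) z =
      - R.d1 (fun x => weil w (R.E x) *ᵥ R.d2 ψ x) z := by
    intro z hz
    have h1 := hc.2 z hz
    have k1 : (fun x => ((pvOf R).bt x ((pvOf R).toFB.Df ψ x)).1) =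
        fun x => (-1 : ℂ) • (weil w (R.E x) *ᵥ R.d1 ψ x) := by
      funext x
      show - (pvOf R).Jf x ((pvOf R).d1 ψ x) = _
      rw [pvOf_Jf, d1_eq, neg_one_smul]
    have k2 : (fun x => ((pvOf R).bt x ((pvOf R).toFB.Df ψ x)).2) =
        fun x => (weil w (R.E x) *ᵥ R.d2 ψ x) := by
      funext x
      show (pvOf R).Jf x ((pvOf R).d2 ψ x) = _
      rw [pvOf_Jf, d2_eq]
    have hJ : (pvOf R).Sm (fun x => weil w (R.E x) *ᵥ R.d1 ψ x) := by
      have := FB.Sm.app (pvOf R).smJ hψ.d1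
      refine (by
        have e : (fun x => (pvOf R).Jf x ((pvOf R).d1 ψ x)) =
            fun x => weil w (R.E x) *ᵥ R.d1 ψ x := by
          funext x; rw [pvOf_Jf, d1_eq]
        rw [← e]; exact this)
    have h6 : (pvOf R).d2 (fun x => (-1 : ℂ) • (weil w (R.E x) *ᵥ R.d1 ψ x)) z =
        (-1 : ℂ) • (pvOf R).d2 (fun x => weil w (R.E x) *ᵥ R.d1 ψ x) z := FB.d2_smul hJ (-1) hz
    rw [k1, k2, h6, neg_one_smul, d1_eq, d2_eq] at h1
    rw [← h1, neg_neg]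
  have h := NoEx_827.no_exact R ((sm_iff R ψ).1 hψ) hharm i1 i2
  intro x hx
  obtain ⟨h1, h2⟩ := h x hx
  refine Prod.ext ?_ ?_
  · show (pvOf R).d1 ψ x = 0
    rw [d1_eq, h1]
  · show (pvOf R).d2 ψ x = 0
    rw [d2_eq, h2]

/-- (IT) -/
theorem inpT (α : ℂ → (Fin N → ℂ) × (Fin N → ℂ)) (hc : (pvOf R).toFB.Clo α)
    (h : ∀ ε : ℝ, 0 < ε → ∃ φ ∈ (pvOf R).toFB.A0,
      IntegrableOn (fun x => ((pvOf R).mb.dbl.G x (α x - (pvOf R).toFB.Df φ x)
        (α x - (pvOf R).toFB.Df φ x)).re) ((A : Set ℂ)ᶜ) ∧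
      ∫ x in ((A : Set ℂ)ᶜ), ((pvOf R).mb.dbl.G x (α x - (pvOf R).toFB.Df φ x)
        (α x - (pvOf R).toFB.Df φ x)).re < ε) : (pvOf R).Exact α := by
  have hsc : SC R (fun x => (α x).1) (fun x => (α x).2) := (clo_iff _ _).1 hc
  rw [exact_iff]
  obtain ⟨φ, h1, h2, h3⟩ := IpcEx_309.exact_of_approx R hsc.smA hsc.smB hsc.cl (by
    intro K hK _ ε hε
    obtain ⟨φ, hφ, hi, hlt⟩ := h ε hε
    refine ⟨φ, (sm_iff R φ).1 hφ.1, ?_⟩
    have key : ∀ x ∈ ((A : Set ℂ)ᶜ), ((pvOf R).mb.dbl.G x (α x - (pvOf R).toFB.Df φ x)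
        (α x - (pvOf R).toFB.Df φ x)).re =
        R.nsq (fun z => (α z).1 - R.d1 φ z) x + R.nsq (fun z => (α z).2 - R.d2 φ z) x := by
      intro x hx
      have := G_nsq R hx (fun x => α x - (pvOf R).toFB.Df φ x)
      rw [this]
      have e1 : (fun x => (α x - (pvOf R).toFB.Df φ x).1) = fun z => (α z).1 - R.d1 φ z := by
        funext z
        show (α z).1 - (pvOf R).d1 φ z = _
        rw [d1_eq]
      have e2 : (fun x => (α x - (pvOf R).toFB.Df φ x).2) = fun z => (α z).2 - R.d2 φ z := by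
        funext z
        show (α z).2 - (pvOf R).d2 φ z = _
        rw [d2_eq]
      rw [e1, e2]
    have hi' : IntegrableOn (fun x => R.nsq (fun z => (α z).1 - R.d1 φ z) x +
        R.nsq (fun z => (α z).2 - R.d2 φ z) x) ((A : Set ℂ)ᶜ) :=
      hi.congr_fun key (isOpenC A).measurableSet
    calc ∫ x in K, (R.nsq (fun z => (α z).1 - R.d1 φ z) x + R.nsq (fun z => (α z).2 - R.d2 φ z) x)
        ≤ ∫ x in ((A : Set ℂ)ᶜ), (R.nsq (fun z => (α z).1 - R.d1 φ z) x +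
            R.nsq (fun z => (α z).2 - R.d2 φ z) x) := by
          refine setIntegral_mono_set hi' ?_ (Eventually.of_forall hK)
          filter_upwards [ae_restrict_mem (isOpenC A).measurableSet] with x hx
          exact add_nonneg (IpcEx_309.nsq_nonneg R _ hx) (IpcEx_309.nsq_nonneg R _ hx)
      _ = ∫ x in ((A : Set ℂ)ᶜ), ((pvOf R).mb.dbl.G x (α x - (pvOf R).toFB.Df φ x)
            (α x - (pvOf R).toFB.Df φ x)).re :=
          (setIntegral_congr_fun (isOpenC A).measurableSet key).symm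
      _ < ε := hlt)
  exact ⟨φ, h1, fun z hz => ⟨h2 z hz, h3 z hz⟩⟩

/-- **the inputs** -/
theorem inp : (pvOf R).Inp where
  I3 := inp3 R
  I5 := inp5 R
  IT := inpT R

end Crest.Agent.R276.PvO_175
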