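import Mathlib
import Crest.Agent.R276.IntF_448
import Crest.Agent.R276.GroUpB_845

/-!
# HON: honest forms are integrable on the total space with a polynomial weight on the base

`L/ℂ`, `K/L` fields, `M` a model of `K` whose first `m` coordinates are a transcendence basis of `L`;
`v · (dx₁ ∧ … ∧ dx_r)^N` a relative form regular at all valuation rings of `K ⊇ L`.  Then
`∫_M |v|^{2/N} |p(t)|^κ (1+|t|²)^{-α} < ∞` for some polynomial `p ≠ 0` in `t` and some `κ`, `α`.
-/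

set_option autoImplicit false

open Filter Set MeasureTheory Polynomial
open scoped ENNReal

noncomputable section

namespace Crest.Agent.R276.IntG_448

open Crest.Agent.R271.Defs710 Crest.Agent.R271.Alg255 Crest.Agent.R271.Rd692 Crest.Agent.R271
open Crest.Agent.R276.Mod1_987 Crest.Agent.R276.Mod1_987.Mdl
open Crest.Agent.R276.FKDefs_779
open Crest.Agent.R276.IntA_448 Crest.Agent.R276.IntB_448 Crest.Agent.R276.IntC_448
open Crest.Agent.R276.IntD_448 Crest.Agent.R276.IntE_448 Crest.Agent.R276.IntF_448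

/-- the real estimate -/
lemma est {X P C0 C C1 : ℝ} (hX : 1 ≤ X) (hP : 0 < P) (k0 k n1 n r : ℕ) (hC0 : 0 ≤ C0) (hC : 0 ≤ C)
    (hC1 : 1 ≤ C1) (hPX : P ≤ C0 * X ^ k0) {H Q s : ℝ} (hH : 0 ≤ H)
    (hHT : H ≤ C1 * (1 + C * X ^ k / P) ^ n1) (hs : 0 ≤ s) (hs2 : s ≤ 2) (hQ : 0 < Q)
    (hQT : Q ≤ (1 + r) * X * (C1 * (1 + C * X ^ k / P) ^ n1) ^ 2) :
    H ^ s * (P ^ (n1 * (2 * n + 4) + 1) / X ^ (n + 1 + (k0 + k) * n1 * (2 * n + 4) + k0)) ≤
      ((1 + r) ^ (n + 1) * (C1 * (C0 + C) ^ n1) ^ (2 * n + 4) * C0) / Q ^ (n + 1) := by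
  set T : ℝ := C1 * (1 + C * X ^ k / P) ^ n1 with hT
  have hX0 : 0 < X := by linarith
  have hR : 0 ≤ C * X ^ k / P := by positivity
  have hT1 : 1 ≤ T := by
    have h1 : (1 : ℝ) ≤ (1 + C * X ^ k / P) ^ n1 := one_le_pow₀ (by linarith)
    calc (1 : ℝ) = 1 * 1 := by ring
      _ ≤ T := mul_le_mul hC1 h1 zero_le_one (by linarith)
  have hT0 : 0 < T := by linarith
  have hHs : H ^ s ≤ T ^ 2 := by
    calc H ^ s ≤ T ^ s := Real.rpow_le_rpow hH hHT hs
      _ ≤ T ^ (2 : ℝ) := Real.rpow_le_rpow_of_exponent_le hT1 hs2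
      _ = T ^ 2 := by norm_cast
  have hTP : T * P ^ n1 ≤ (C1 * (C0 + C) ^ n1) * X ^ ((k0 + k) * n1) := by
    have h1 : T * P ^ n1 = C1 * (P + C * X ^ k) ^ n1 := by
      rw [hT, mul_assoc, ← mul_pow]
      congr 2
      field_simp
    have h2 : P + C * X ^ k ≤ (C0 + C) * X ^ (k0 + k) := by
      have h3 : X ^ k0 ≤ X ^ (k0 + k) := pow_le_pow_right₀ hX (by omega)
      have h4 : X ^ k ≤ X ^ (k0 + k) := pow_le_pow_right₀ hX (by omega)
      have h5 : C0 * X ^ k0 ≤ C0 * X ^ (k0 + k) := mul_le_mul_of_nonneg_left h3 hC0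
      have h6 : C * X ^ k ≤ C * X ^ (k0 + k) := mul_le_mul_of_nonneg_left h4 hC
      calc P + C * X ^ k ≤ C0 * X ^ (k0 + k) + C * X ^ (k0 + k) := add_le_add (hPX.trans h5) h6
        _ = _ := by ring
    rw [h1]
    calc C1 * (P + C * X ^ k) ^ n1 ≤ C1 * ((C0 + C) * X ^ (k0 + k)) ^ n1 := by
          gcongr
      _ = _ := by rw [mul_pow, ← pow_mul]; ring
  rw [← mul_div_assoc, div_le_div_iff₀ (by positivity) (by positivity)]
  calc H ^ s * P ^ (n1 * (2 * n + 4) + 1) * Q ^ (n + 1)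
      ≤ T ^ 2 * P ^ (n1 * (2 * n + 4) + 1) * ((1 + r) * X * T ^ 2) ^ (n + 1) := by
        gcongr
    _ = (1 + r) ^ (n + 1) * X ^ (n + 1) * (T * P ^ n1) ^ (2 * n + 4) * P := by
        clear_value T
        generalize (1 + (r : ℝ)) = ρ
        ring
    _ ≤ (1 + r) ^ (n + 1) * X ^ (n + 1) * ((C1 * (C0 + C) ^ n1) * X ^ ((k0 + k) * n1)) ^ (2 * n + 4) *
          (C0 * X ^ k0) := by
        gcongr
    _ = _ := by
        generalize C1 * (C0 + C) ^ n1 = D
        ring

variable {L K : Type} [Field L] [Field K] [Algebra ℂ L] [Algebra ℂ K] [Algebra L K]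
  [IsScalarTower ℂ L K] {m r : ℕ}

theorem exists_growth_fin (t : Fin m → L) (ht : IsTranscendenceBasis ℂ t) (A : Finset L) :
    ∃ c : MvPolynomial (Fin m) ℂ, c ≠ 0 ∧ ∀ (B' : Subalgebra ℂ K) (tB : Fin m → B')
      (_ : ∀ i, (tB i : K) = algebraMap L K (t i)), ∀ a ∈ A, ∀ (a' : B')
      (_ : (a' : K) = algebraMap L K a), PG tB (az tB c * a') := by
  classical
  have haz : ∀ (B' : Subalgebra ℂ K) (tB : Fin m → B') (c : MvPolynomial (Fin m) ℂ),
      PG tB (az tB c) := by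
    intro B' tB c
    apply PG.adjoin
    rw [Algebra.adjoin_range_eq_range_aeval]
    exact ⟨c, rfl⟩
  induction A using Finset.induction_on with
  | empty => exact ⟨1, one_ne_zero, by simp⟩
  | insert a A _ ih =>
    obtain ⟨c, hc, h⟩ := ih
    obtain ⟨c', hc', h'⟩ := exists_growth (K := K) t ht a
    refine ⟨c * c', mul_ne_zero hc hc', ?_⟩
    intro B' tB htB x hx x' hx'
    rcases Finset.mem_insert.1 hx with rfl | hx
    · have h1 : az tB (c * c') * x' = az tB c * (az tB c' * x') := by rw [map_mul]; ring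
      rw [h1]
      exact (haz B' tB c).mul (h' B' tB htB x' hx')
    · have h1 : az tB (c * c') * x' = az tB c' * (az tB c * x') := by rw [map_mul]; ring
      rw [h1]
      exact (haz B' tB c').mul (h B' tB htB x hx x' hx')

/-- the weighted integrand -/
def wint {B : Type} [CommRing B] [Algebra ℂ B] (tB : Fin m → B) (v : B) (s : ℝ)
    (p : MvPolynomial (Fin m) ℂ) (κ α : ℕ) (y : B →ₐ[ℂ] ℂ) : ℝ≥0∞ :=
  ENNReal.ofReal (‖y v‖ ^ s * (‖MvPolynomial.eval (fun i => y (tB i)) p‖ ^ κ / (oz tB y) ^ α))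

lemma continuous_oz {B : Type} [CommRing B] [Algebra ℂ B] (tB : Fin m → B) :
    Continuous fun y : B →ₐ[ℂ] ℂ => oz tB y := by
  unfold oz
  have h1 : ∀ i, Continuous fun y : B →ₐ[ℂ] ℂ => y (tB i) := fun i => continuous_ev _
  fun_prop

lemma continuous_evp {B : Type} [CommRing B] [Algebra ℂ B] (tB : Fin m → B)
    (p : MvPolynomial (Fin m) ℂ) :
    Continuous fun y : B →ₐ[ℂ] ℂ => MvPolynomial.eval (fun i => y (tB i)) p := by
  have h1 : Continuous fun y : B →ₐ[ℂ] ℂ => (fun i => y (tB i)) :=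
    continuous_pi fun i => continuous_ev _
  exact (MvPolynomial.continuous_eval p).comp h1

lemma measurable_wint {B : Type} [CommRing B] [Algebra ℂ B] (tB : Fin m → B) (v : B) (s : ℝ)
    (p : MvPolynomial (Fin m) ℂ) (κ α : ℕ) : Measurable (wint tB v s p κ α) := by
  unfold wint
  have h1 : Measurable fun y : B →ₐ[ℂ] ℂ => oz tB y := (continuous_oz tB).measurable
  have h2 : Measurable fun y : B →ₐ[ℂ] ℂ => ‖MvPolynomial.eval (fun i => y (tB i)) p‖ :=
    (continuous_evp tB p).norm.measurable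
  have h3 : Measurable fun y : B →ₐ[ℂ] ℂ => ‖y v‖ := (continuous_ev v).norm.measurable
  exact ((h3.pow_const _).mul ((h2.pow_const _).div (h1.pow_const _))).ennreal_ofReal

end Crest.Agent.R276.IntG_448
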