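import Crest.Agent.R276.LsDefs_450
import Crest.Agent.R276.PdD_571

/-!
# Row 276 (S0419): the instance of `LsDefs_450.Inv` given by a VHS (helper450)

`V : VHS (n+1) M N w`, `i₀ : Fin (n+1)` the coordinate of the curves, `A : Finset (Fin n)` (the coordinates
`i₀.succAbove i`, `i ∈ A`, are also used as invariants), `X` a holomorphic vector field with `X i₀ = 1`,
`X = 0` on `A` and `∑ X_j g_{jk} = 0` (`g = gP V` the period metric).
-/

set_option autoImplicit false
set_option linter.unusedSectionVars false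

noncomputable section

open Set Filter Topology Matrix
open Crest.Agent.R271.Ho51
open Crest.Agent.R276.Ipc735 (SmAt HolAt lM dM cm)
open Crest.Agent.R276.Pd571 Crest.Agent.R276.PdL571
open Crest.Agent.R276.LsDefs_450

namespace Crest.Agent.R276.InvV_450

section gen

variable {m : ℕ} {M : Type*} [TopologicalSpace M] [RDom m M]
  {W W' : Type*} [NormedAddCommGroup W] [NormedSpace ℝ W] [NormedAddCommGroup W'] [NormedSpace ℝ W']

lemma D_clm_at {f : M → W} {x : M} (hf : DifferentiableAt ℝ (f ∘ (ch x).symm) (cp x))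
    (T : W →L[ℝ] W') (v : Fin m → ℂ) : D (fun y => T (f y)) x v = T (D f x v) := by
  have h1 : HasFDerivAt ((fun y => T (f y)) ∘ (ch x).symm) (T.comp (D f x)) (cp x) :=
    T.hasFDerivAt.comp (cp x) hf.hasFDerivAt
  have h2 : D (fun y => T (f y)) x = T.comp (D f x) := h1.fderiv
  rw [h2]; rfl

lemma D_coord (x : M) (j : Fin m) (v : Fin m → ℂ) : D (fun y : M => cp y j) x v = v j := by
  have h1 : ((fun y : M => cp y j) ∘ (ch x).symm) =ᶠ[𝓝 (cp x)] fun c => c j := by
    filter_upwards [(ch x).open_target.mem_nhds ((isCh_ch x).cp_mem (mem_ch x))] with c hc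
    simp [(isCh_ch x).cp_symm hc]
  have h2 : D (fun y : M => cp y j) x = fderiv ℝ (fun c : Fin m → ℂ => c j) (cp x) := h1.fderiv_eq
  rw [h2]
  have h3 : HasFDerivAt (fun c : Fin m → ℂ => c j)
      (ContinuousLinearMap.proj (R := ℝ) (φ := fun _ : Fin m => ℂ) j) (cp x) :=
    (ContinuousLinearMap.proj (R := ℝ) (φ := fun _ : Fin m => ℂ) j).hasFDerivAt
  rw [h3.fderiv]
  rfl

end gen

variable {n N w : ℕ} {M : Type*} [TopologicalSpace M] [RDom (n + 1) M]
variable (V : Ipc735.VHS (n + 1) M N w) (i₀ : Fin (n + 1)) (A : Finset (Fin n))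

/-- the invariant in the frame at `z` -/
def FI (z y : M) : Vt N A := vt (FF V z y) fun i => cp y (i₀.succAbove i.1)

/-- the invariant -/
def eI (x : M) : Vt N A := vt (ev V x) fun i => cp x (i₀.succAbove i.1)

lemma FI_self (z : M) : FI V i₀ A z z = eI V i₀ A z := by
  unfold FI eI
  rw [FF_self]

lemma FI_orb (z y : M) : FI V i₀ A z y = rho (V.P z y) (eI V i₀ A y) := rfl

lemma FI_sm (z : M) : SmAt (FI V i₀ A z) z := by
  have h1 : ContDiffAt ℝ (⊤ : ℕ∞)
      (fun c => fun i k => lM V.P V.E z ((ch z).symm c) i k) (cp z) := by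
    rw [contDiffAt_pi]
    intro i
    rw [contDiffAt_pi]
    intro k
    exact V.smE z i k
  have h2 : ContDiffAt ℝ (⊤ : ℕ∞)
      (fun c => fun i k => (FF V z ((ch z).symm c)).2 i k) (cp z) := by
    refine (contDiffAt_const (c := fun i k => V.S z i k)).congr_of_eventuallyEq ?_
    have ht : Tendsto (ch z).symm (𝓝 (cp z)) (𝓝 z) := by
      have := (ch z).symm.continuousAt (x := cp z) (by simpa using (isCh_ch z).cp_mem (mem_ch z))
      rwa [ContinuousAt, (isCh_ch z).symm_cp (mem_ch z)] at this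
    filter_upwards [ht.eventually (FF_snd V z)] with c hc
    rw [hc]
  have h3 : ContDiffAt ℝ (⊤ : ℕ∞)
      (fun c => fun i : A => cp ((ch z).symm c) (i₀.succAbove i.1)) (cp z) := by
    rw [contDiffAt_pi]
    intro i
    have h4 : ContDiffAt ℝ (⊤ : ℕ∞) (fun c : Fin (n + 1) → ℂ => c (i₀.succAbove i.1)) (cp z) :=
      (contDiff_apply ℝ ℂ (i₀.succAbove i.1)).contDiffAt
    refine h4.congr_of_eventuallyEq ?_
    filter_upwards [(ch z).open_target.mem_nhds ((isCh_ch z).cp_mem (mem_ch z))] with c hc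
    rw [(isCh_ch z).cp_symm hc]
  exact h1.prodMk (h2.prodMk h3)

lemma FI_diff (z : M) : DifferentiableAt ℝ (FI V i₀ A z ∘ (ch z).symm) (cp z) :=
  ContDiffAt.differentiableAt (FI_sm V i₀ A z) (by simp)

/-- the derivative of the invariant at the centre -/
theorem D_FI (z : M) (v : Fin (n + 1) → ℂ) : D (FI V i₀ A z) z v =
    (fun i k => TE V z v i k, fun _ _ => 0, fun i : A => v (i₀.succAbove i.1)) := by
  have hd := FI_diff V i₀ A z
  refine Prod.ext ?_ (Prod.ext ?_ ?_)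
  · funext i k
    have h1 := D_clm_at hd ((ContinuousLinearMap.proj (R := ℝ) (φ := fun _ : Fin N => ℂ) k).comp
      ((ContinuousLinearMap.proj (R := ℝ) (φ := fun _ : Fin N => Fin N → ℂ) i).comp
        (ContinuousLinearMap.fst ℝ (Fin N → Fin N → ℂ) ((Fin N → Fin N → ℂ) × (A → ℂ))))) v
    exact h1.symm
  · funext i k
    have h1 := D_clm_at hd ((ContinuousLinearMap.proj (R := ℝ) (φ := fun _ : Fin N => ℂ) k).comp
      ((ContinuousLinearMap.proj (R := ℝ) (φ := fun _ : Fin N => Fin N → ℂ) i).comp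
        ((ContinuousLinearMap.fst ℝ (Fin N → Fin N → ℂ) (A → ℂ)).comp
        (ContinuousLinearMap.snd ℝ (Fin N → Fin N → ℂ) ((Fin N → Fin N → ℂ) × (A → ℂ)))))) v
    have h2 : (fun y => (FF V z y).2 i k) =ᶠ[𝓝 z] fun _ => V.S z i k := by
      filter_upwards [FF_snd V z] with y hy
      rw [hy]
    have h3 : D (fun y => (FF V z y).2 i k) z v = 0 := by
      rw [D_congr h2, D_const]; rfl
    exact h1.symm.trans h3
  · funext i
    have h1 := D_clm_at hd ((ContinuousLinearMap.proj (R := ℝ) (φ := fun _ : A => ℂ) i).comp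
        ((ContinuousLinearMap.snd ℝ (Fin N → Fin N → ℂ) (A → ℂ)).comp
        (ContinuousLinearMap.snd ℝ (Fin N → Fin N → ℂ) ((Fin N → Fin N → ℂ) × (A → ℂ))))) v
    exact h1.symm.trans (D_coord z (i₀.succAbove i.1) v)

lemma FI_ndc (z : M) : ∀ᶠ x in 𝓝 z, ∃ γ : GL (Fin N) ℤ, ∀ᶠ y in 𝓝 x,
    FI V i₀ A z y = rho γ (FI V i₀ A x y) := by
  obtain ⟨U, hU, h⟩ := FF_change V z
  filter_upwards [eventually_mem_nhds_iff.2 hU] with x hx
  refine ⟨V.P z x, ?_⟩
  filter_upwards [hx] with y hy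
  unfold FI
  rw [h z (mem_of_mem_nhds hU) x (mem_of_mem_nhds hx) y hy, rho_vt]

lemma FI_pd (p q : M) : ∃ U ∈ 𝓝 p, ∃ W ∈ 𝓝 q,
    {γ : GL (Fin N) ℤ | ∃ x ∈ U, ∃ y ∈ W, rho γ (FI V i₀ A p x) = FI V i₀ A q y}.Finite := by
  obtain ⟨U, hU, W, hW, hf⟩ := PD V p q
  refine ⟨U, hU, W, hW, hf.subset ?_⟩
  rintro g ⟨x, hx, y, hy, hg⟩
  unfold FI at hg
  rw [rho_vt] at hg
  exact ⟨x, hx, y, hy, (vt_inj hg).1⟩

/-- a real direction annihilated by the period metric does not move the Hodge structure -/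
lemma TE_zero_of {x : M} {X : Fin (n + 1) → ℂ} (h : ∀ k, ∑ j, X j * gP V x j k = 0) (c : ℂ) :
    TE V x (c • X) = 0 := by
  rw [TE_eq_zero_iff, bf_apply]
  have h1 : (gP V x)ᵀ *ᵥ (c • X) = 0 := by
    rw [Matrix.mulVec_smul]
    have : (gP V x)ᵀ *ᵥ X = 0 := by
      funext k
      simp only [Matrix.mulVec, dotProduct, Matrix.transpose_apply, Pi.zero_apply]
      rw [← h k]
      exact Finset.sum_congr rfl fun j _ => mul_comm _ _
    rw [this, smul_zero]
  rw [h1]
  simp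

/-- **The instance.** -/
def mkInv (X : M → Fin (n + 1) → ℂ) (hX1 : ∀ x, X x i₀ = 1)
    (hXA : ∀ x, ∀ i ∈ A, X x (i₀.succAbove i) = 0) (hXh : ∀ j, Hol (fun y => X y j))
    (hXg : ∀ x k, ∑ j, X x j * gP V x j k = 0) : Inv M i₀ (Vt N A) (GL (Fin N) ℤ) where
  ρ := rho
  e := eI V i₀ A
  F := FI V i₀ A
  X := X
  Fz := FI_self V i₀ A
  orb := fun z y => ⟨V.P z y, FI_orb V i₀ A z y⟩
  sm := FI_sm V i₀ A
  ndc := FI_ndc V i₀ A
  pd := FI_pd V i₀ A
  X1 := hX1
  holX := hXh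
  tan := fun z c => by
    rw [D_FI, TE_zero_of V (hXg z) c]
    refine Prod.ext rfl (Prod.ext rfl ?_)
    funext i
    show (c • X z) (i₀.succAbove i.1) = 0
    rw [Pi.smul_apply, hXA z i.1 i.2, smul_zero]

section inst

variable {V i₀ A} {X : M → Fin (n + 1) → ℂ} (hX1 : ∀ x, X x i₀ = 1)
    (hXA : ∀ x, ∀ i ∈ A, X x (i₀.succAbove i) = 0) (hXh : ∀ j, Hol (fun y => X y j))
    (hXg : ∀ x k, ∑ j, X x j * gP V x j k = 0)

/-- the class of `p` : isomorphic polarised integral Hodge structures and the same coordinates `A` -/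
theorem mem_S_iff (p q : M) : q ∈ (mkInv V i₀ A X hX1 hXA hXh hXg).S p ↔
    Sim V p q ∧ ∀ i ∈ A, cp q (i₀.succAbove i) = cp p (i₀.succAbove i) := by
  constructor
  · rintro ⟨γ, hγ⟩
    have h1 : vt (ev V q) (fun i : A => cp q (i₀.succAbove i.1)) =
        vt (act γ (ev V p)) (fun i : A => cp p (i₀.succAbove i.1)) := hγ
    obtain ⟨h2, h3⟩ := vt_inj h1
    exact ⟨⟨γ, h2⟩, fun i hi => congrFun h3 ⟨i, hi⟩⟩
  · rintro ⟨⟨γ, hγ⟩, h⟩
    refine ⟨γ, ?_⟩
    show vt (ev V q) (fun i : A => cp q (i₀.succAbove i.1)) =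
        vt (act γ (ev V p)) (fun i : A => cp p (i₀.succAbove i.1))
    rw [hγ]
    congr 1
    funext i
    exact h i.1 i.2

theorem mem_Mst_iff (x : M) : x ∈ (mkInv V i₀ A X hX1 hXA hXh hXg).Mst ↔
    ∀ v : Fin (n + 1) → ℂ, v i₀ = 0 → (∀ i ∈ A, v (i₀.succAbove i) = 0) → TE V x v = 0 → v = 0 := by
  have key : ∀ v : Fin (n + 1) → ℂ, D ((mkInv V i₀ A X hX1 hXA hXh hXg).F x) x v = 0 ↔
      TE V x v = 0 ∧ ∀ i ∈ A, v (i₀.succAbove i) = 0 := by
    intro v
    have h0 : D ((mkInv V i₀ A X hX1 hXA hXh hXg).F x) x v = _ := D_FI V i₀ A x v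
    rw [h0]
    constructor
    · intro h
      have h1 := congrArg (fun q : Vt N A => q.1) h
      have h3 := congrArg (fun q : Vt N A => q.2.2) h
      exact ⟨by ext i k; exact congrFun (congrFun h1 i) k, fun i hi => congrFun h3 ⟨i, hi⟩⟩
    · rintro ⟨h1, h2⟩
      rw [h1]
      refine Prod.ext rfl (Prod.ext rfl ?_)
      funext i
      exact h2 i.1 i.2
  constructor
  · intro h v hv hA hT
    exact h v hv ((key v).2 ⟨hT, hA⟩)
  · intro h v hv hD
    obtain ⟨h1, h2⟩ := (key v).1 hD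
    exact h v hv h2 h1

end inst

end Crest.Agent.R276.InvV_450
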