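import Mathlib

/-!
# Row 276 (S0419): level sets of a smooth map constant along a transversal vector field (helper450)

Calculus in `E = Fin m → ℂ`.
-/

set_option autoImplicit false
set_option linter.unusedSectionVars false

noncomputable section

open Set Filter Topology

namespace Crest.Agent.R276.LsA_450

variable {m : ℕ} {i₀ : Fin m} {V : Type*} [NormedAddCommGroup V] [NormedSpace ℝ V]

/-- a left inverse of a linear map on `{v i₀ = 0}` -/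
lemma exists_left_inv [FiniteDimensional ℝ V] (L : (Fin m → ℂ) →L[ℝ] V) (i₀ : Fin m)
    (hL : ∀ v : Fin m → ℂ, v i₀ = 0 → L v = 0 → v = 0) :
    ∃ π : V →L[ℝ] (Fin m → ℂ), (∀ x, π x i₀ = 0) ∧ ∀ v : Fin m → ℂ, v i₀ = 0 → π (L v) = v := by
  let H : Submodule ℝ (Fin m → ℂ) :=
    LinearMap.ker ((LinearMap.proj i₀ : (Fin m → ℂ) →ₗ[ℝ] ℂ))
  have hH : ∀ v, v ∈ H ↔ v i₀ = 0 := fun v => Iff.rfl
  have hker : LinearMap.ker ((L : (Fin m → ℂ) →ₗ[ℝ] V).comp H.subtype) = ⊥ := by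
    rw [LinearMap.ker_eq_bot']
    rintro ⟨v, hv⟩ h
    exact Subtype.ext (hL v ((hH v).1 hv) h)
  obtain ⟨g, hg⟩ := LinearMap.exists_leftInverse_of_injective _ hker
  refine ⟨LinearMap.toContinuousLinearMap (H.subtype.comp g), fun x => (hH _).1 (g x).2, ?_⟩
  intro v hv
  have := congrArg (fun f => ((f ⟨v, (hH v).2 hv⟩ : H) : Fin m → ℂ)) hg
  simpa using this

/-- the coordinate `i₀` -/
def pr (i₀ : Fin m) : (Fin m → ℂ) →L[ℝ] ℂ := ContinuousLinearMap.proj i₀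

@[simp] lemma pr_apply (v : Fin m → ℂ) : pr i₀ v = v i₀ := rfl

/-- the straightening map -/
def Psi (i₀ : Fin m) (X₀ : Fin m → ℂ) (π : V →L[ℝ] (Fin m → ℂ)) (Φ : (Fin m → ℂ) → V)
    (x : Fin m → ℂ) : Fin m → ℂ := x i₀ • X₀ + π (Φ x)

lemma hasFDerivAt_Psi {X₀ : Fin m → ℂ} {π : V →L[ℝ] (Fin m → ℂ)} {Φ : (Fin m → ℂ) → V}
    {x : Fin m → ℂ} (h : DifferentiableAt ℝ Φ x) :
    HasFDerivAt (Psi i₀ X₀ π Φ) ((pr i₀).smulRight X₀ + π.comp (fderiv ℝ Φ x)) x := by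
  unfold Psi
  have h1 : HasFDerivAt (fun x : Fin m → ℂ => x i₀ • X₀) ((pr i₀).smulRight X₀) x :=
    ((pr i₀).smulRight X₀).hasFDerivAt
  exact h1.add (π.hasFDerivAt.comp x h.hasFDerivAt)

lemma contDiffAt_Psi {n : WithTop ℕ∞} {X₀ : Fin m → ℂ} {π : V →L[ℝ] (Fin m → ℂ)}
    {Φ : (Fin m → ℂ) → V} {x : Fin m → ℂ} (h : ContDiffAt ℝ n Φ x) :
    ContDiffAt ℝ n (Psi i₀ X₀ π Φ) x := by
  unfold Psi
  have h1 : ContDiffAt ℝ n (fun x : Fin m → ℂ => x i₀ • X₀) x :=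
    ((pr i₀).smulRight X₀).contDiff.contDiffAt
  exact h1.add (π.contDiff.contDiffAt.comp x h)

/-- Local structure of a level set. -/
theorem level {Φ : (Fin m → ℂ) → V} {x₀ : Fin m → ℂ} [FiniteDimensional ℝ V]
    (hΦ : ContDiffAt ℝ 1 Φ x₀) {X : (Fin m → ℂ) → (Fin m → ℂ)}
    (hX1 : ∀ᶠ x in 𝓝 x₀, X x i₀ = 1)
    (htan : ∀ᶠ x in 𝓝 x₀, ∀ c : ℂ, fderiv ℝ Φ x (c • X x) = 0)
    (himm : ∀ v : Fin m → ℂ, v i₀ = 0 → fderiv ℝ Φ x₀ v = 0 → v = 0) :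
    ∃ (g : ℂ → (Fin m → ℂ)) (r : ℝ), 0 < r ∧ g (x₀ i₀) = x₀ ∧
      (∀ ζ ∈ Metric.ball (x₀ i₀) r, g ζ i₀ = ζ ∧ HasDerivAt g (X (g ζ)) ζ ∧ Φ (g ζ) = Φ x₀) ∧
      ∀ᶠ x in 𝓝 x₀, Φ x = Φ x₀ → x = g (x i₀) := by
  obtain ⟨π, hπ0, hπ⟩ := exists_left_inv (fderiv ℝ Φ x₀) i₀ himm
  have hX10 : X x₀ i₀ = 1 := hX1.self_of_nhds
  have htan0 : ∀ c : ℂ, fderiv ℝ Φ x₀ (c • X x₀) = 0 := htan.self_of_nhds
  set Ψ := Psi i₀ (X x₀) π Φ with hΨ
  have hΨc : ContDiffAt ℝ 1 Ψ x₀ := contDiffAt_Psi hΦ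
  have hone : (1 : WithTop ℕ∞) ≠ 0 := one_ne_zero
  have hd : HasFDerivAt Ψ ((ContinuousLinearEquiv.refl ℝ (Fin m → ℂ) :
      (Fin m → ℂ) ≃L[ℝ] (Fin m → ℂ)) : (Fin m → ℂ) →L[ℝ] (Fin m → ℂ)) x₀ := by
    have h := hasFDerivAt_Psi (i₀ := i₀) (X₀ := X x₀) (π := π) (hΦ.differentiableAt hone)
    have h2 : (pr i₀).smulRight (X x₀) + π.comp (fderiv ℝ Φ x₀) =
        ((ContinuousLinearEquiv.refl ℝ (Fin m → ℂ) :
      (Fin m → ℂ) ≃L[ℝ] (Fin m → ℂ)) : (Fin m → ℂ) →L[ℝ] (Fin m → ℂ)) := by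
      ext1 v
      have h3 : (v - v i₀ • X x₀) i₀ = 0 := by simp [hX10]
      have h4 := hπ _ h3
      rw [map_sub, htan0, sub_zero] at h4
      simp [h4]
    rw [← h2]
    exact h
  let e : OpenPartialHomeomorph (Fin m → ℂ) (Fin m → ℂ) :=
    hΨc.toOpenPartialHomeomorph Ψ hd hone
  have hee : ∀ x, e x = Ψ x := fun x => rfl
  have hxs : x₀ ∈ e.source := hΨc.mem_toOpenPartialHomeomorph_source hd hone
  have hxt : Ψ x₀ ∈ e.target := hΨc.image_mem_toOpenPartialHomeomorph_target hd hone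
  have hec : ContDiffAt ℝ 1 e.symm (Ψ x₀) := hΨc.to_localInverse hd hone
  -- the line
  let w : ℂ → (Fin m → ℂ) := fun ζ => ζ • X x₀ + π (Φ x₀)
  have hw0 : w (x₀ i₀) = Ψ x₀ := rfl
  have hwc : Continuous w := by fun_prop
  have hwd : ∀ ζ, HasFDerivAt w ((ContinuousLinearMap.id ℝ ℂ).smulRight (X x₀)) ζ := fun ζ =>
    ((ContinuousLinearMap.id ℝ ℂ).smulRight (X x₀)).hasFDerivAt.add_const (π (Φ x₀))
  let g : ℂ → (Fin m → ℂ) := fun ζ => e.symm (w ζ)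
  have hg0 : g (x₀ i₀) = x₀ := by
    show e.symm (w (x₀ i₀)) = x₀
    rw [hw0, ← hee]
    exact e.left_inv hxs
  have hgc : ContinuousAt g (x₀ i₀) := by
    have h1 : ContinuousAt e.symm (w (x₀ i₀)) := by rw [hw0]; exact hec.continuousAt
    exact ContinuousAt.comp h1 hwc.continuousAt
  have htg : Tendsto g (𝓝 (x₀ i₀)) (𝓝 x₀) := by
    have := hgc.tendsto; rwa [hg0] at this
  have htw : Tendsto w (𝓝 (x₀ i₀)) (𝓝 (Ψ x₀)) := by
    have := hwc.continuousAt.tendsto (x := x₀ i₀); rwa [hw0] at this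
  have hΨev : ∀ᶠ x in 𝓝 x₀, ContDiffAt ℝ 1 Φ x := hΦ.eventually (by simp)
  have hecev : ∀ᶠ y in 𝓝 (Ψ x₀), ContDiffAt ℝ 1 e.symm y := hec.eventually (by simp)
  have hall : ∀ᶠ ζ in 𝓝 (x₀ i₀), w ζ ∈ e.target ∧ ContDiffAt ℝ 1 e.symm (w ζ) ∧
      ContDiffAt ℝ 1 Φ (g ζ) ∧ X (g ζ) i₀ = 1 ∧ ∀ c : ℂ, fderiv ℝ Φ (g ζ) (c • X (g ζ)) = 0 := by
    filter_upwards [htw.eventually (e.open_target.mem_nhds hxt), htw.eventually hecev,
      htg.eventually hΨev, htg.eventually hX1, htg.eventually htan] with ζ h1 h2 h3 h4 h5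
    exact ⟨h1, h2, h3, h4, h5⟩
  obtain ⟨r, hr, hball⟩ := Metric.eventually_nhds_iff_ball.1 hall
  have key : ∀ ζ ∈ Metric.ball (x₀ i₀) r, g ζ i₀ = ζ ∧
      HasFDerivAt g ((ContinuousLinearMap.id ℝ ℂ).smulRight (X (g ζ))) ζ := by
    intro ζ hζ
    obtain ⟨h1, h2, h3, h4, h5⟩ := hball ζ hζ
    have h6 : Ψ (g ζ) = w ζ := e.right_inv h1
    have h7 : g ζ ∈ e.source := e.map_target h1
    refine ⟨?_, ?_⟩
    · have h8 := congrFun h6 i₀
      simpa [hΨ, Psi, w, hπ0, hX10] using h8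
    · have hs : HasFDerivAt e.symm (fderiv ℝ e.symm (w ζ)) (w ζ) :=
        (h2.differentiableAt hone).hasFDerivAt
      have hc := hs.comp ζ (hwd ζ)
      have hDΨ := hasFDerivAt_Psi (i₀ := i₀) (X₀ := X x₀) (π := π) (h3.differentiableAt hone)
      have hid : HasFDerivAt (fun x => e.symm (Ψ x)) (ContinuousLinearMap.id ℝ _) (g ζ) := by
        refine (hasFDerivAt_id (g ζ)).congr_of_eventuallyEq ?_
        filter_upwards [e.open_source.mem_nhds h7] with x hx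
        exact e.left_inv hx
      have hs' : HasFDerivAt e.symm (fderiv ℝ e.symm (w ζ)) (Ψ (g ζ)) := by rw [h6]; exact hs
      have hu := (hs'.comp (g ζ) hDΨ).unique hid
      have h9 : (fderiv ℝ e.symm (w ζ)).comp ((ContinuousLinearMap.id ℝ ℂ).smulRight (X x₀)) =
          (ContinuousLinearMap.id ℝ ℂ).smulRight (X (g ζ)) := by
        ext1 c
        have h10 := congrArg (fun f : (Fin m → ℂ) →L[ℝ] (Fin m → ℂ) => f (c • X (g ζ))) hu
        simpa [h4, h5] using h10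
      rw [← h9]
      exact hc
  refine ⟨g, r, hr, hg0, fun ζ hζ => ⟨(key ζ hζ).1, ?_, ?_⟩, ?_⟩
  · have h1 := (key ζ hζ).2
    have h2 : HasFDerivAt g ((ContinuousLinearMap.id ℂ ℂ).smulRight (X (g ζ))) ζ := by
      apply hasFDerivAt_of_restrictScalars ℝ h1
      ext1 c
      simp
    have := h2.hasDerivAt
    simpa using this
  · have h1 : ∀ ζ ∈ Metric.ball (x₀ i₀) r, HasFDerivAt (fun ζ => Φ (g ζ)) (0 : ℂ →L[ℝ] V) ζ := by
      intro ζ hζ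
      obtain ⟨_, _, h3, _, h5⟩ := hball ζ hζ
      have h6 := (h3.differentiableAt hone).hasFDerivAt.comp ζ (key ζ hζ).2
      have h7 : (fderiv ℝ Φ (g ζ)).comp ((ContinuousLinearMap.id ℝ ℂ).smulRight (X (g ζ))) = 0 := by
        ext1 c
        simpa using h5 c
      rw [h7] at h6
      exact h6
    have h2 := (Metric.isOpen_ball (x := x₀ i₀) (ε := r)).is_const_of_fderiv_eq_zero (𝕜 := ℝ)
      (f := fun ζ => Φ (g ζ)) (convex_ball _ _).isPreconnected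
      (fun z hz => (h1 z hz).differentiableAt.differentiableWithinAt)
      (fun z hz => (h1 z hz).fderiv) hζ (Metric.mem_ball_self hr)
    rw [hg0] at h2
    exact h2
  · filter_upwards [e.open_source.mem_nhds hxs] with x hx hxΦ
    have h1 : Ψ x = w (x i₀) := by simp only [hΨ, Psi, w, hxΦ]
    have h2 := e.left_inv hx
    rw [hee, h1] at h2
    exact h2.symm

end Crest.Agent.R276.LsA_450
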