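import Crest.Agent.R276.LsDefs_450
import Crest.Agent.R276.LsA_450

/-!
# Row 276 (S0419): the classes of local invariants are closed curves (helper450)
-/

set_option autoImplicit false
set_option linter.unusedSectionVars false

noncomputable section

open Set Filter Topology MeasureTheory
open Crest.Agent.R271.Ho51
open Crest.Agent.R276.Ipc735 (SmAt HolAt)
open Crest.Agent.R276.LsDefs_450 Crest.Agent.R276.LsA_450

namespace Crest.Agent.R276.LsB_450

variable {m : ℕ} {M : Type*} [TopologicalSpace M] [RDom m M]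

section basics

/-- the inverse chart at `q` is continuous at `cp q` -/
lemma tendsto_ch_symm (q : M) : Tendsto (ch q).symm (𝓝 (cp q)) (𝓝 q) := by
  have := (ch q).symm.continuousAt (x := cp q) (by simpa using (isCh_ch q).cp_mem (mem_ch q))
  rwa [ContinuousAt, (isCh_ch q).symm_cp (mem_ch q)] at this

lemma mem_target (q : M) : ∀ᶠ z in 𝓝 (cp q), z ∈ (ch q).target :=
  (ch q).open_target.mem_nhds ((isCh_ch q).cp_mem (mem_ch q))

lemma continuousAt_of_smAt {V : Type*} [NormedAddCommGroup V] [NormedSpace ℝ V] {f : M → V} {q : M}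
    (h : SmAt f q) : ContinuousAt f q := by
  have h1 : ContinuousAt (fun y => (f ∘ (ch q).symm) (cp y)) q :=
    ContinuousAt.comp (g := f ∘ (ch q).symm) (ContDiffAt.continuousAt h) cp_cont.continuousAt
  exact h1.congr (eventually_eq_comp (isCh_ch q) (mem_ch q) f).symm

lemma hol_continuous {f : M → ℂ} (hf : Hol f) : Continuous f := by
  rw [continuous_iff_continuousAt]
  intro q
  have h0 : ContinuousAt (f ∘ (ch q).symm) (cp q) :=
    ((hf (ch q) (isCh_ch q)).differentiableAt (mem_target q)).continuousAt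
  have h1 : ContinuousAt (fun y => (f ∘ (ch q).symm) (cp y)) q :=
    ContinuousAt.comp (g := f ∘ (ch q).symm) h0 cp_cont.continuousAt
  exact h1.congr (eventually_eq_comp (isCh_ch q) (mem_ch q) f).symm

end basics

variable {i₀ : Fin m} {V : Type*} [NormedAddCommGroup V] [NormedSpace ℝ V] {G : Type*} [Group G]
  (I : Inv M i₀ V G)

lemma contAt_F (q : M) : ContinuousAt (I.F q) q := continuousAt_of_smAt (I.sm q)

lemma diffAt_F (q : M) : DifferentiableAt ℝ (I.F q ∘ (ch q).symm) (cp q) :=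
  ContDiffAt.differentiableAt (I.sm q) (by simp)

/-- the chart expression of `F q` -/
def Ph (q : M) : (Fin m → ℂ) → V := I.F q ∘ (ch q).symm

lemma ρ_mul (a b : G) (v : V) : I.ρ (a * b) v = I.ρ a (I.ρ b v) := by
  rw [map_mul]; rfl

lemma ρ_one (v : V) : I.ρ 1 v = v := by rw [map_one]; rfl

lemma ρ_inv (a : G) (v : V) : I.ρ a⁻¹ (I.ρ a v) = v := by
  rw [← ρ_mul, inv_mul_cancel, ρ_one]

lemma ρ_inv' (a : G) (v : V) : I.ρ a (I.ρ a⁻¹ v) = v := by
  rw [← ρ_mul, mul_inv_cancel, ρ_one]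

lemma mem_S_self (p : M) : p ∈ I.S p := ⟨1, (ρ_one I _).symm⟩

lemma S_symm {p q : M} (h : q ∈ I.S p) : p ∈ I.S q := by
  obtain ⟨γ, hγ⟩ := h
  exact ⟨γ⁻¹, by rw [hγ, ρ_inv]⟩

lemma S_trans {p q r : M} (h : q ∈ I.S p) (h' : r ∈ I.S q) : r ∈ I.S p := by
  obtain ⟨γ, hγ⟩ := h
  obtain ⟨γ', hγ'⟩ := h'
  exact ⟨γ' * γ, by rw [hγ', hγ, ρ_mul]⟩

lemma S_eq {p q : M} (h : q ∈ I.S p) : I.S q = I.S p :=
  Set.ext fun _ => ⟨fun h' => S_trans I h h', fun h' => S_trans I (S_symm I h) h'⟩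

/-- near `z` the derivatives of `F z` and `F x` agree up to the group -/
lemma D_near (z : M) : ∀ᶠ x in 𝓝 z, ∃ γ, D (I.F z) x = (I.ρ γ).comp (D (I.F x) x) := by
  filter_upwards [I.ndc z] with x hx
  obtain ⟨γ, hγ⟩ := hx
  refine ⟨γ, ?_⟩
  rw [D_congr hγ]
  have h1 : HasFDerivAt ((fun y => I.ρ γ (I.F x y)) ∘ (ch x).symm)
      ((I.ρ γ).comp (D (I.F x) x)) (cp x) :=
    (I.ρ γ).hasFDerivAt.comp (cp x) (diffAt_F I x).hasFDerivAt
  exact h1.fderiv

lemma tan_near (z : M) : ∀ᶠ x in 𝓝 z, ∀ c : ℂ, D (I.F z) x (c • I.X x) = 0 := by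
  filter_upwards [D_near I z] with x hx c
  obtain ⟨γ, hγ⟩ := hx
  rw [hγ, ContinuousLinearMap.comp_apply, I.tan, map_zero]

/-- near a point `q` of a class, the class is `{F q = e q}` -/
theorem S_near [FiniteDimensional ℝ V] {p q : M} (hq : q ∈ I.S p) :
    ∀ᶠ y in 𝓝 q, (y ∈ I.S p ↔ I.F q y = I.e q) := by
  obtain ⟨U, hU, W, hW, hfin⟩ := I.pd q q
  set T := {γ | ∃ x ∈ U, ∃ y ∈ W, I.ρ γ (I.F q x) = I.F q y}
  have hfin2 : ((fun γ => I.ρ γ (I.e q)) '' T \ {I.e q}).Finite := (hfin.image _).diff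
  have hclosed : IsClosed ((fun γ => I.ρ γ (I.e q)) '' T \ {I.e q}) := hfin2.isClosed
  have hnot : I.F q q ∉ ((fun γ => I.ρ γ (I.e q)) '' T \ {I.e q}) := by
    rw [I.Fz]; simp
  have hev : ∀ᶠ y in 𝓝 q, I.F q y ∉ ((fun γ => I.ρ γ (I.e q)) '' T \ {I.e q}) :=
    (contAt_F I q).eventually (hclosed.isOpen_compl.mem_nhds hnot)
  filter_upwards [hev, hW] with y hy hyW
  constructor
  · intro hyS
    obtain ⟨a, ha⟩ := S_trans I (S_symm I hq) hyS
    obtain ⟨b, hb⟩ := I.orb q y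
    have h1 : I.F q y = I.ρ (b * a) (I.e q) := by rw [hb, ha, ρ_mul]
    by_contra hne
    apply hy
    refine ⟨⟨b * a, ⟨q, mem_of_mem_nhds hU, y, hyW, ?_⟩, h1.symm⟩, hne⟩
    rw [I.Fz, h1]
  · intro hF
    obtain ⟨b, hb⟩ := I.orb q y
    refine S_trans I hq ⟨b⁻¹, ?_⟩
    rw [← hF, hb, ρ_inv]

theorem isClosed_S [FiniteDimensional ℝ V] (p : M) : IsClosed (I.S p) := by
  rw [← closure_subset_iff_isClosed]
  intro q hq
  obtain ⟨U, hU, W, hW, hfin⟩ := I.pd p q
  set T := {γ | ∃ x ∈ U, ∃ y ∈ W, I.ρ γ (I.F p x) = I.F q y}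
  have hfin2 : ((fun γ => I.ρ γ (I.e p)) '' T).Finite := hfin.image _
  have hfr : ∃ᶠ y in 𝓝 q, y ∈ I.S p ∧ y ∈ W := by
    rw [mem_closure_iff_frequently] at hq
    exact hq.and_eventually hW
  have h2 : ∃ᶠ y in 𝓝 q, I.F q y ∈ (fun γ => I.ρ γ (I.e p)) '' T := by
    refine hfr.mono ?_
    rintro y ⟨⟨a, ha⟩, hyW⟩
    obtain ⟨b, hb⟩ := I.orb q y
    have h1 : I.F q y = I.ρ (b * a) (I.e p) := by rw [hb, ha, ρ_mul]
    refine ⟨b * a, ⟨p, mem_of_mem_nhds hU, y, hyW, ?_⟩, h1.symm⟩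
    rw [I.Fz, h1]
  have h3 : I.F q q ∈ (fun γ => I.ρ γ (I.e p)) '' T := by
    by_contra hnot
    have := (contAt_F I q).eventually (hfin2.isClosed.isOpen_compl.mem_nhds hnot)
    exact h2 this
  obtain ⟨γ, _, hγ⟩ := h3
  rw [I.Fz] at hγ
  exact ⟨γ, hγ.symm⟩

/-- **Local structure of a class** near a point of `M*`: in the chart at `q` it is a holomorphic graph
over the coordinate `i₀`, an integral curve of `X`. -/
theorem graph [FiniteDimensional ℝ V] {p q : M} (hq : q ∈ I.S p) (hqM : q ∈ I.Mst) :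
    ∃ (g : ℂ → (Fin m → ℂ)) (r : ℝ), 0 < r ∧ g (cp q i₀) = cp q ∧
      (∀ ζ ∈ Metric.ball (cp q i₀) r, g ζ ∈ (ch q).target ∧ g ζ i₀ = ζ ∧
        HasDerivAt g (I.X ((ch q).symm (g ζ))) ζ ∧ (ch q).symm (g ζ) ∈ I.S p ∧
        I.F q ((ch q).symm (g ζ)) = I.e q) ∧
      ∀ᶠ y in 𝓝 q, (I.F q y = I.e q → cp y = g (cp y i₀)) ∧ (y ∈ I.S p ↔ I.F q y = I.e q) := by
  have hsm : ContDiffAt ℝ 1 (Ph I q) (cp q) := ContDiffAt.of_le (I.sm q) (by exact_mod_cast le_top)
  have hX1 : ∀ᶠ x in 𝓝 (cp q), (fun x => I.X ((ch q).symm x)) x i₀ = 1 :=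
    Eventually.of_forall fun x => I.X1 _
  have htan : ∀ᶠ x in 𝓝 (cp q), ∀ c : ℂ,
      fderiv ℝ (Ph I q) x (c • (fun x => I.X ((ch q).symm x)) x) = 0 := by
    filter_upwards [(tendsto_ch_symm q).eventually (tan_near I q), mem_target q] with x hx hxt c
    have := hx c
    rw [D_symm (isCh_ch q) hxt] at this
    exact this
  have himm : ∀ v : Fin m → ℂ, v i₀ = 0 → fderiv ℝ (Ph I q) (cp q) v = 0 → v = 0 := hqM
  have hval : Ph I q (cp q) = I.e q := by
    show I.F q ((ch q).symm (cp q)) = _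
    rw [symm_cp, I.Fz]
  obtain ⟨g, r, hr, hg0, hg1, hg2⟩ := level hsm hX1 htan himm
  have hgc : ContinuousAt g (cp q i₀) := (hg1 _ (Metric.mem_ball_self hr)).2.1.continuousAt
  have hgt : Tendsto g (𝓝 (cp q i₀)) (𝓝 (cp q)) := by
    have := hgc.tendsto; rwa [hg0] at this
  have hall : ∀ᶠ ζ in 𝓝 (cp q i₀), g ζ ∈ (ch q).target ∧
      ((ch q).symm (g ζ) ∈ I.S p ↔ I.F q ((ch q).symm (g ζ)) = I.e q) := by
    filter_upwards [hgt.eventually (mem_target q),
      ((tendsto_ch_symm q).comp hgt).eventually (S_near I hq)] with ζ h1 h2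
    exact ⟨h1, h2⟩
  obtain ⟨r', hr', hball⟩ := Metric.eventually_nhds_iff_ball.1 hall
  refine ⟨g, min r r', lt_min hr hr', hg0, ?_, ?_⟩
  · intro ζ hζ
    have hζ1 : ζ ∈ Metric.ball (cp q i₀) r := Metric.ball_subset_ball (min_le_left _ _) hζ
    have hζ2 : ζ ∈ Metric.ball (cp q i₀) r' := Metric.ball_subset_ball (min_le_right _ _) hζ
    obtain ⟨h1, h2, h3⟩ := hg1 ζ hζ1
    obtain ⟨h4, h5⟩ := hball ζ hζ2
    have h6 : I.F q ((ch q).symm (g ζ)) = I.e q := by rw [← hval]; exact h3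
    exact ⟨h4, h1, h2, h5.2 h6, h6⟩
  · filter_upwards [S_near I hq, cp_cont.continuousAt.eventually hg2,
      (ch q).open_source.mem_nhds (mem_ch q)] with y h1 h2 h3
    refine ⟨fun hF => ?_, h1⟩
    apply h2
    show I.F q ((ch q).symm (cp y)) = _
    rw [(isCh_ch q).symm_cp h3, hval]
    exact hF

/-- the coordinate on a class -/
def pS (p : M) (q : I.S p) : Fin 1 → ℂ := fun _ => cp (q : M) i₀

/-- a chart of a class at a point of `M*` -/
theorem exists_chart [FiniteDimensional ℝ V] {p : M} (q : I.S p) (hqM : (q : M) ∈ I.Mst) :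
    ∃ (e : OpenPartialHomeomorph (I.S p) (Fin 1 → ℂ)) (g : ℂ → (Fin m → ℂ)), q ∈ e.source ∧
      (⇑e : I.S p → (Fin 1 → ℂ)) = pS I p ∧ g (cp (q : M) i₀) = cp (q : M) ∧
      ∀ z ∈ e.target, g (z 0) ∈ (ch (q : M)).target ∧
        ((e.symm z : I.S p) : M) = (ch (q : M)).symm (g (z 0)) ∧
        HasDerivAt g (I.X (e.symm z)) (z 0) := by
  classical
  obtain ⟨g, r, hr, hg0, hg1, hg2⟩ := graph I q.2 hqM
  obtain ⟨N, hN, hNo, hqN⟩ := _root_.eventually_nhds_iff.1
    ((hg2.and ((ch (q : M)).open_source.mem_nhds (mem_ch (q : M)))).and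
      ((continuous_apply i₀).continuousAt.comp cp_cont.continuousAt |>.eventually
        (Metric.ball_mem_nhds (cp (q : M) i₀) hr)))
  -- the inverse
  let B : Set (Fin 1 → ℂ) := (fun z : Fin 1 → ℂ => z 0) ⁻¹' Metric.ball (cp (q : M) i₀) r
  have hBo : IsOpen B := Metric.isOpen_ball.preimage (continuous_apply 0)
  let k : (Fin 1 → ℂ) → M := fun z => (ch (q : M)).symm (g (z 0))
  have hkc : ContinuousOn k B := by
    intro z hz
    obtain ⟨h1, _, h3, _⟩ := hg1 _ hz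
    have h4 : ContinuousAt (fun z : Fin 1 → ℂ => g (z 0)) z :=
      ContinuousAt.comp (g := g) h3.continuousAt (continuous_apply 0).continuousAt
    exact (ContinuousAt.comp (g := (ch (q : M)).symm)
      ((ch (q : M)).symm.continuousAt (by simpa using h1)) h4).continuousWithinAt
  have hkS : ∀ z ∈ B, k z ∈ I.S p := fun z hz => (hg1 _ hz).2.2.2.1
  let k' : (Fin 1 → ℂ) → I.S p := fun z => if h : k z ∈ I.S p then ⟨k z, h⟩ else q
  have hk' : ∀ z ∈ B, (k' z : M) = k z := by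
    intro z hz
    simp only [k', dif_pos (hkS z hz)]
  have hto : IsOpen (B ∩ k ⁻¹' N) := hkc.isOpen_inter_preimage hBo hNo
  have hz1 : ∀ z ∈ B, cp (k z) i₀ = z 0 := by
    intro z hz
    obtain ⟨h1, h2, _⟩ := hg1 _ hz
    show cp ((ch (q : M)).symm (g (z 0))) i₀ = z 0
    rw [(isCh_ch (q : M)).cp_symm h1, h2]
  have hz2 : ∀ y : I.S p, (y : M) ∈ N → pS I p y ∈ B ∧ k (pS I p y) = y := by
    intro y hy
    obtain ⟨⟨⟨h1, h2⟩, h3⟩, h4⟩ := hN _ hy
    have h5 := h1 (h2.1 y.2)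
    refine ⟨h4, ?_⟩
    show (ch (q : M)).symm (g (cp (y : M) i₀)) = y
    rw [← h5, (isCh_ch (q : M)).symm_cp h3]
  let e : OpenPartialHomeomorph (I.S p) (Fin 1 → ℂ) :=
    { toFun := pS I p
      invFun := k'
      source := {y | (y : M) ∈ N}
      target := B ∩ k ⁻¹' N
      map_source' := by
        intro y hy
        obtain ⟨h1, h2⟩ := hz2 y hy
        exact ⟨h1, by rw [mem_preimage, h2]; exact hy⟩
      map_target' := by
        rintro z ⟨hz, hzN⟩
        show (k' z : M) ∈ N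
        rw [hk' z hz]; exact hzN
      left_inv' := by
        intro y hy
        obtain ⟨h1, h2⟩ := hz2 y hy
        apply Subtype.ext
        rw [hk' _ h1, h2]
      right_inv' := by
        rintro z ⟨hz, hzN⟩
        funext i
        show cp (k' z : M) i₀ = z i
        rw [hk' z hz, hz1 z hz, Subsingleton.elim i 0]
      open_source := hNo.preimage continuous_subtype_val
      open_target := hto
      continuousOn_toFun := by
        apply Continuous.continuousOn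
        exact continuous_pi fun _ => (continuous_apply i₀).comp (cp_cont.comp continuous_subtype_val)
      continuousOn_invFun := by
        rw [Topology.IsInducing.subtypeVal.continuousOn_iff]
        refine (hkc.mono inter_subset_left).congr ?_
        rintro z ⟨hz, hzN⟩
        exact hk' z hz }
  refine ⟨e, g, hqN, rfl, hg0, ?_⟩
  rintro z ⟨hz, hzN⟩
  obtain ⟨h1, h2, h3, _⟩ := hg1 _ hz
  have h5 : ((e.symm z : I.S p) : M) = k z := hk' z hz
  refine ⟨h1, h5, ?_⟩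
  rw [h5]
  exact h3

theorem lh_pS [FiniteDimensional ℝ V] {p : M} (h : I.S p ⊆ I.Mst) : IsLocalHomeomorph (pS I p) := by
  intro q
  obtain ⟨e, g, h1, h2, _⟩ := exists_chart I q (h q.2)
  exact ⟨e, h1, h2.symm⟩

/-- the Riemann domain structure of a class contained in `M*` -/
@[reducible] def rdomS [FiniteDimensional ℝ V] {p : M} (h : I.S p ⊆ I.Mst) : RDom 1 (I.S p) where
  p := pS I p
  hp := lh_pS I h

end Crest.Agent.R276.LsB_450
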