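import Crest.Agent.R276.SardA_450
import Crest.Agent.R276.LsB_450
import Crest.Agent.R266.Osgood

/-!
# Row 276 (S0419): almost all classes meeting `M*` are contained in `M*` (helper450)
-/

set_option autoImplicit false
set_option linter.unusedSectionVars false

noncomputable section

open Set Filter Topology MeasureTheory
open Crest.Agent.R271.Ho51
open Crest.Agent.R276.Ipc735 (SmAt HolAt)
open Crest.Agent.R276.LsDefs_450 Crest.Agent.R276.LsA_450 Crest.Agent.R276.LsB_450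
open Crest.Agent.R276.SardA_450

namespace Crest.Agent.R276.SardB_450

section coord

variable {m : ℕ} {i₀ : Fin m} {V : Type*} [NormedAddCommGroup V] [NormedSpace ℝ V]

/-- the cylinder `{ζ X₀ + L n : n ∈ A}` over a set of radii -/
def cyl (X₀ : Fin m → ℂ) (B : Set ℂ) (A : Set (Fin m → ℂ)) : Set (Fin m → ℂ) :=
  {w | ∃ ζ ∈ B, ∃ n ∈ A, w = ζ • X₀ + n}

lemma det_eq_zero_of_ker {L : (Fin m → ℂ) →L[ℝ] (Fin m → ℂ)} {v : Fin m → ℂ} (hv : v ≠ 0)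
    (h : L v = 0) : L.det = 0 := by
  show LinearMap.det (L : (Fin m → ℂ) →ₗ[ℝ] (Fin m → ℂ)) = 0
  rw [LinearMap.det_eq_zero_iff_ker_ne_bot]
  intro hb
  rw [LinearMap.ker_eq_bot'] at hb
  exact hv (hb v h)

/-- the cylinder over the critical values of `L ∘ Φ` near a point is a null set -/
theorem cyl_null {Φ : (Fin m → ℂ) → V} {X : (Fin m → ℂ) → (Fin m → ℂ)} {x₀ : Fin m → ℂ}
    (hΦ : ContDiffAt ℝ 2 Φ x₀) (hX : ContDiffAt ℝ 2 X x₀)
    (hX1 : ∀ᶠ x in 𝓝 x₀, X x i₀ = 1)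
    (htan : ∀ᶠ x in 𝓝 x₀, ∀ c : ℂ, fderiv ℝ Φ x (c • X x) = 0) :
    ∃ δ > 0, ∀ (X₀ : Fin m → ℂ) (L : V →L[ℝ] (Fin m → ℂ)),
      volume (cyl X₀ univ ((fun x => L (Φ x)) '' (Metric.ball x₀ δ ∩ Bad i₀ Φ))) = 0 := by
  have hN : {x | ContDiffAt ℝ 2 Φ x} ∈ 𝓝 x₀ := hΦ.eventually (by simp)
  obtain ⟨δ, hδ, hT⟩ := transport hΦ hX hX1 htan hN
  refine ⟨δ, hδ, fun X₀ L => ?_⟩
  set N' : Set (Fin m → ℂ) := (fun x => L (Φ x)) '' (Metric.ball x₀ δ ∩ Bad i₀ Φ) with hN'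
  -- over a ball
  have h1 : volume (cyl X₀ (Metric.ball (x₀ i₀) δ) N') = 0 := by
    have hsub : cyl X₀ (Metric.ball (x₀ i₀) δ) N' ⊆
        Psi i₀ X₀ L Φ '' ({x | ContDiffAt ℝ 2 Φ x} ∩ Bad i₀ Φ) := by
      rintro w ⟨ζ, hζ, n, ⟨q, ⟨hq, hqB⟩, rfl⟩, rfl⟩
      obtain ⟨q', hq'N, hq'i, hq'Φ, hq'B⟩ := hT q hq hqB ζ hζ
      refine ⟨q', ⟨hq'N, hq'B⟩, ?_⟩
      simp only [Psi, hq'i, hq'Φ]
    refine measure_mono_null hsub ?_
    refine addHaar_image_eq_zero_of_det_fderivWithin_eq_zero volume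
      (f' := fun x => (pr i₀).smulRight X₀ + L.comp (fderiv ℝ Φ x)) ?_ ?_
    · rintro x ⟨hx, _⟩
      have hx' : ContDiffAt ℝ 2 Φ x := hx
      exact (hasFDerivAt_Psi (hx'.differentiableAt (by norm_num))).hasFDerivWithinAt
    · rintro x ⟨_, v, hv, hv0, hvk⟩
      refine det_eq_zero_of_ker hv ?_
      simp [hv0, hvk]
  -- translates
  have h2 : ∀ c : ℂ, volume (cyl X₀ (Metric.ball c δ) N') = 0 := by
    intro c
    have hsub : cyl X₀ (Metric.ball c δ) N' ⊆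
        (fun w => w + (x₀ i₀ - c) • X₀) ⁻¹' cyl X₀ (Metric.ball (x₀ i₀) δ) N' := by
      rintro w ⟨ζ, hζ, n, hn, rfl⟩
      refine ⟨ζ + (x₀ i₀ - c), ?_, n, hn, ?_⟩
      · rw [Metric.mem_ball, dist_eq_norm] at hζ ⊢
        have : ζ + (x₀ i₀ - c) - x₀ i₀ = ζ - c := by ring
        rwa [this]
      · simp only [add_smul]
        abel
    refine measure_mono_null hsub ?_
    rw [measure_preimage_add_right]
    exact h1
  have h3 : cyl X₀ univ N' ⊆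
      ⋃ k : ℕ, cyl X₀ (Metric.ball (TopologicalSpace.denseSeq ℂ k) δ) N' := by
    rintro w ⟨ζ, _, n, hn, rfl⟩
    obtain ⟨k, hk⟩ := (TopologicalSpace.denseRange_denseSeq ℂ).exists_dist_lt ζ hδ
    exact mem_iUnion.2 ⟨k, ζ, Metric.mem_ball.2 hk, n, hn, rfl⟩
  exact measure_mono_null h3 (measure_iUnion_null fun k => h2 _)

/-- the preimage of a null set under the straightening map at an immersive point is locally null -/
theorem pre_null {Φ : (Fin m → ℂ) → V} {x₀ : Fin m → ℂ} [FiniteDimensional ℝ V]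
    (hΦ : ContDiffAt ℝ 1 Φ x₀) {X₀ : Fin m → ℂ} (hX1 : X₀ i₀ = 1)
    (htan : ∀ c : ℂ, fderiv ℝ Φ x₀ (c • X₀) = 0)
    (himm : ∀ v : Fin m → ℂ, v i₀ = 0 → fderiv ℝ Φ x₀ v = 0 → v = 0) :
    ∃ (π : V →L[ℝ] (Fin m → ℂ)), ∃ O ∈ 𝓝 x₀, ∀ Z : Set (Fin m → ℂ), volume Z = 0 →
      volume (O ∩ Psi i₀ X₀ π Φ ⁻¹' Z) = 0 := by
  obtain ⟨π, hπ0, hπ⟩ := exists_left_inv (fderiv ℝ Φ x₀) i₀ himm
  set Ψ := Psi i₀ X₀ π Φ with hΨ
  have hΨc : ContDiffAt ℝ 1 Ψ x₀ := contDiffAt_Psi hΦ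
  have hone : (1 : WithTop ℕ∞) ≠ 0 := one_ne_zero
  have hd : HasFDerivAt Ψ ((ContinuousLinearEquiv.refl ℝ (Fin m → ℂ) :
      (Fin m → ℂ) ≃L[ℝ] (Fin m → ℂ)) : (Fin m → ℂ) →L[ℝ] (Fin m → ℂ)) x₀ := by
    have h := hasFDerivAt_Psi (i₀ := i₀) (X₀ := X₀) (π := π) (hΦ.differentiableAt hone)
    have h2 : (pr i₀).smulRight X₀ + π.comp (fderiv ℝ Φ x₀) =
        ((ContinuousLinearEquiv.refl ℝ (Fin m → ℂ) :
      (Fin m → ℂ) ≃L[ℝ] (Fin m → ℂ)) : (Fin m → ℂ) →L[ℝ] (Fin m → ℂ)) := by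
      ext1 v
      have h3 : (v - v i₀ • X₀) i₀ = 0 := by simp [hX1]
      have h4 := hπ _ h3
      rw [map_sub, htan, sub_zero] at h4
      simp [h4]
    rw [← h2]
    exact h
  let e : OpenPartialHomeomorph (Fin m → ℂ) (Fin m → ℂ) :=
    hΨc.toOpenPartialHomeomorph Ψ hd hone
  have hee : ∀ x, e x = Ψ x := fun x => rfl
  have hxs : x₀ ∈ e.source := hΨc.mem_toOpenPartialHomeomorph_source hd hone
  have hec : ContDiffAt ℝ 1 e.symm (Ψ x₀) := hΨc.to_localInverse hd hone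
  have hev : ∀ᶠ x in 𝓝 x₀, ContDiffAt ℝ 1 e.symm (Ψ x) :=
    hΨc.continuousAt.eventually (hec.eventually (by simp))
  refine ⟨π, e.source ∩ {x | ContDiffAt ℝ 1 e.symm (Ψ x)},
    inter_mem (e.open_source.mem_nhds hxs) hev, fun Z hZ => ?_⟩
  have hsub : e.source ∩ {x | ContDiffAt ℝ 1 e.symm (Ψ x)} ∩ Ψ ⁻¹' Z ⊆
      e.symm '' (Z ∩ {w | ContDiffAt ℝ 1 e.symm w}) := by
    rintro x ⟨⟨h1, h2⟩, h3⟩
    exact ⟨Ψ x, ⟨h3, h2⟩, e.left_inv h1⟩
  refine measure_mono_null hsub ?_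
  refine addHaar_image_eq_zero_of_differentiableOn_of_addHaar_eq_zero volume ?_
    (measure_mono_null inter_subset_left hZ)
  rintro w ⟨_, hw⟩
  have hw' : ContDiffAt ℝ 1 e.symm w := hw
  exact (hw'.differentiableAt hone).differentiableWithinAt

end coord

/-! ### on the Riemann domain -/

variable {m : ℕ} {M : Type*} [TopologicalSpace M] [RDom m M]
  {i₀ : Fin m} {V : Type*} [NormedAddCommGroup V] [NormedSpace ℝ V] {G : Type*} [Group G]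
  (I : Inv M i₀ V G)

lemma ρ_inj (γ : G) {v : V} (h : I.ρ γ v = 0) : v = 0 := by
  have := ρ_inv I γ v
  rw [h, map_zero] at this
  exact this.symm

/-- near `z` the complement of `M*` is the set where `d F z` is degenerate -/
lemma bad_near (z : M) : ∀ᶠ x in 𝓝 z, x ∉ I.Mst → cp x ∈ Bad i₀ (Ph I z) := by
  filter_upwards [D_near I z, (ch z).open_source.mem_nhds (mem_ch z)] with x hx hxs hxM
  obtain ⟨γ, hγ⟩ := hx
  have h1 : ∃ v : Fin m → ℂ, v i₀ = 0 ∧ D (I.F x) x v = 0 ∧ v ≠ 0 := by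
    by_contra hcon
    apply hxM
    intro v hv0 hv
    by_contra hne
    exact hcon ⟨v, hv0, hv, hne⟩
  obtain ⟨v, hv0, hv, hne⟩ := h1
  refine ⟨v, hne, hv0, ?_⟩
  have h2 : D (I.F z) x = fderiv ℝ (Ph I z) (cp x) := D_eq (isCh_ch z) hxs (I.F z)
  rw [← h2, hγ, ContinuousLinearMap.comp_apply, hv, map_zero]

lemma X_contDiffAt (z : M) : ContDiffAt ℝ 2 (fun x => I.X ((ch z).symm x)) (cp z) := by
  rw [contDiffAt_pi]
  intro j
  have h1 := I.holX j (ch z) (isCh_ch z)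
  have h2 : AnalyticAt ℂ ((fun y => I.X y j) ∘ (ch z).symm) (cp z) :=
    Crest.Agent.R266.SCV.analyticOnNhd_of_differentiableOn (ch z).open_target h1 _
      ((isCh_ch z).cp_mem (mem_ch z))
  exact (h2.restrictScalars (𝕜 := ℝ)).contDiffAt

lemma Ph_contDiffAt (z : M) : ContDiffAt ℝ 2 (Ph I z) (cp z) :=
  ContDiffAt.of_le (I.sm z) two_le_top'

lemma tan_Ph (z : M) : ∀ᶠ x in 𝓝 (cp z), ∀ c : ℂ,
    fderiv ℝ (Ph I z) x (c • (fun x => I.X ((ch z).symm x)) x) = 0 := by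
  filter_upwards [(tendsto_ch_symm z).eventually (tan_near I z), mem_target z] with x hx hxt c
  have := hx c
  rw [D_symm (isCh_ch z) hxt] at this
  exact this

/-- a neighbourhood of `z` such that the cylinder over the critical values is null -/
lemma exists_U (z : M) : ∃ U ∈ 𝓝 z, ∀ (X₀ : Fin m → ℂ) (L : V →L[ℝ] (Fin m → ℂ)),
    volume (cyl X₀ univ ((fun x => L (I.F z x)) '' (U ∩ (I.Mst)ᶜ))) = 0 := by
  obtain ⟨δ, hδ, h⟩ := cyl_null (i₀ := i₀) (Ph_contDiffAt I z) (X_contDiffAt I z)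
    (Eventually.of_forall fun x => I.X1 _) (tan_Ph I z)
  refine ⟨{x | (x ∉ I.Mst → cp x ∈ Bad i₀ (Ph I z)) ∧ x ∈ (ch z).source ∧
    cp x ∈ Metric.ball (cp z) δ}, ?_, fun X₀ L => ?_⟩
  · filter_upwards [bad_near I z, (ch z).open_source.mem_nhds (mem_ch z),
      cp_cont.continuousAt.eventually (Metric.ball_mem_nhds (cp z) hδ)] with x h1 h2 h3
    exact ⟨h1, h2, h3⟩
  · refine measure_mono_null ?_ (h X₀ L)
    rintro w ⟨ζ, hζ, n, ⟨x, ⟨⟨h1, h2, h3⟩, hxM⟩, rfl⟩, rfl⟩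
    refine ⟨ζ, hζ, _, ⟨cp x, ⟨h3, h1 hxM⟩, rfl⟩, ?_⟩
    show _ = ζ • X₀ + L (I.F z ((ch z).symm (cp x)))
    rw [(isCh_ch z).symm_cp h2]

variable [MeasurableSpace M] [BorelSpace M]

/-- a subset of a chart domain whose image in coordinates is null is null -/
lemma null_of_cp {μ : Measure M} (hμ : IsLeb μ) {z : M} {A : Set M} (hA : A ⊆ (ch z).source)
    (h : volume (cp '' A) = 0) : μ A = 0 := by
  set T := toMeasurable volume (cp '' A) with hT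
  have hTm : MeasurableSet T := measurableSet_toMeasurable _ _
  have hT0 : volume T = 0 := by rw [hT, measure_toMeasurable, h]
  have hm : MeasurableSet ((ch z).source ∩ cp ⁻¹' T) :=
    (ch z).open_source.measurableSet.inter (cp_cont.measurable hTm)
  have hsub : A ⊆ (ch z).source ∩ cp ⁻¹' T := fun x hx =>
    ⟨hA hx, subset_toMeasurable _ _ ⟨x, hx, rfl⟩⟩
  refine measure_mono_null hsub ?_
  have h1 : μ ((ch z).source ∩ cp ⁻¹' T) = chm (ch z) ((ch z).source ∩ cp ⁻¹' T) := by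
    rw [chm, ← hμ (ch z) (isCh_ch z), Measure.restrict_apply hm]
    congr 1
    ext y; simp only [mem_inter_iff]; tauto
  rw [h1, chm_apply_sub (isCh_ch z) hm inter_subset_left]
  refine measure_mono_null ?_ hT0
  rintro _ ⟨y, ⟨_, hy⟩, rfl⟩
  exact hy

theorem sard [SecondCountableTopology M] [FiniteDimensional ℝ V] [Countable G] {μ : Measure M}
    (hμ : IsLeb μ) : μ {p | p ∈ I.Mst ∧ ¬ I.S p ⊆ I.Mst} = 0 := by
  -- a countable cover by good neighbourhoods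
  choose U hU hUn using exists_U I
  obtain ⟨C, hCc, hCu⟩ := TopologicalSpace.countable_cover_nhds (f := U) hU
  refine measure_null_of_locally_null _ fun p₀ hp₀ => ?_
  obtain ⟨hp₀M, _⟩ := hp₀
  have hsm : ContDiffAt ℝ 1 (Ph I p₀) (cp p₀) := (Ph_contDiffAt I p₀).of_le (by norm_num)
  obtain ⟨π, O, hO, hOn⟩ := pre_null (i₀ := i₀) hsm (I.X1 p₀)
    (fun c => by
      have := I.tan p₀ c
      exact this) hp₀M
  set O' : Set M := (ch p₀).source ∩ cp ⁻¹' O with hO'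
  have hO'n : O' ∈ 𝓝 p₀ := inter_mem ((ch p₀).open_source.mem_nhds (mem_ch p₀))
    (cp_cont.continuousAt.preimage_mem_nhds hO)
  refine ⟨O' ∩ {p | ¬ I.S p ⊆ I.Mst}, ?_, ?_⟩
  · have : {p | p ∈ I.Mst ∧ ¬ I.S p ⊆ I.Mst} ∩ O' ∈ 𝓝[{p | p ∈ I.Mst ∧ ¬ I.S p ⊆ I.Mst}] p₀ :=
      inter_mem self_mem_nhdsWithin (mem_nhdsWithin_of_mem_nhds hO'n)
    exact mem_of_superset this fun p hp => ⟨hp.2, hp.1.2⟩
  · refine null_of_cp hμ (z := p₀) (fun p hp => hp.1.1) ?_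
    have hsub : cp '' (O' ∩ {p | ¬ I.S p ⊆ I.Mst}) ⊆ ⋃ z ∈ C, ⋃ γ : G,
        (O ∩ Psi i₀ (I.X p₀) π (Ph I p₀) ⁻¹'
          (cyl (I.X p₀) univ ((fun x => (π.comp (I.ρ γ)) (I.F z x)) '' (U z ∩ (I.Mst)ᶜ)))) := by
      rintro _ ⟨p, ⟨⟨hps, hpO⟩, hpS⟩, rfl⟩
      obtain ⟨q, hqS, hqM⟩ := Set.not_subset.1 hpS
      obtain ⟨γ, hγ⟩ := hqS
      have hq : q ∈ ⋃ z ∈ C, U z := by rw [hCu]; exact mem_univ q
      obtain ⟨z, hz, hqU⟩ := mem_iUnion₂.1 hq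
      obtain ⟨a, ha⟩ := I.orb z q
      obtain ⟨b, hb⟩ := I.orb p₀ p
      refine mem_iUnion₂.2 ⟨z, hz, mem_iUnion.2 ⟨b * γ⁻¹ * a⁻¹, hpO, ?_⟩⟩
      refine ⟨cp p i₀, mem_univ _, _, ⟨q, ⟨hqU, hqM⟩, rfl⟩, ?_⟩
      simp only [Psi, Ph, Function.comp_apply, (isCh_ch p₀).symm_cp hps,
        ContinuousLinearMap.comp_apply]
      have : I.F p₀ p = I.ρ (b * γ⁻¹ * a⁻¹) (I.F z q) := by
        rw [ha, hγ, ρ_mul, ρ_inv, ρ_mul, ρ_inv, hb]
      rw [this]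
    refine measure_mono_null hsub ?_
    refine (measure_biUnion_null_iff hCc).2 fun z _ => measure_iUnion_null fun γ => ?_
    exact hOn _ (hUn z _ _)

theorem main_SARD : SARD := by
  intro m M _ _ _ _ _ i₀ V _ _ _ G _ _ I μ hμ
  exact sard I hμ

end Crest.Agent.R276.SardB_450
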