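import Crest.Agent.R276.InvV_450
import Crest.Agent.R276.PdW_571
import Crest.Agent.R276.Coa3_375
import Crest.Agent.R276.SardB_450

/-!
# Row 276 (S0419): almost every curve of the period foliation is contained in `M*` and has finite area
(helper450; glue of `SARD`, `COA` (375), `PD`, `INV` (571))
-/

set_option autoImplicit false
set_option linter.unusedSectionVars false

noncomputable section

open Set Filter Topology Matrix MeasureTheory
open Crest.Agent.R271.Ho51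
open Crest.Agent.R276.Ipc735 (SmAt HolAt lM dM cm)
open Crest.Agent.R276.Pd571 Crest.Agent.R276.PdL571
open Crest.Agent.R276.LsDefs_450 Crest.Agent.R276.InvV_450
open Crest.Agent.R276.Coa2_375 (ins ins_apply)

namespace Crest.Agent.R276.InvW_450

variable {n N w : ℕ} {M : Type*} [TopologicalSpace M] [RDom (n + 1) M]
  {V : Ipc735.VHS (n + 1) M N w} {i₀ : Fin (n + 1)} {A : Finset (Fin n)}
  {X : M → Fin (n + 1) → ℂ} (hX1 : ∀ x, X x i₀ = 1)
  (hXA : ∀ x, ∀ i ∈ A, X x (i₀.succAbove i) = 0) (hXh : ∀ j, Hol (fun y => X y j))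
  (hXg : ∀ x k, ∑ j, X x j * gP V x j k = 0)

/-- `M*` is the set where the Gram determinant of the remaining coordinates is positive -/
theorem Mst_eq : (mkInv V i₀ A X hX1 hXA hXh hXg).Mst =
    {x | 0 < (sub A (gS V i₀ x)).det.re} := by
  ext x
  rw [mem_Mst_iff, imm_iff]
  rfl

theorem isOpen_Mst : IsOpen (mkInv V i₀ A X hX1 hXA hXh hXg).Mst := by
  rw [Mst_eq]
  exact isOpen_lt continuous_const (sm_det_gS V i₀ A).continuous

/-- invariance of the density in the form needed by `Coa3_375.coa_curve` -/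
theorem hw (x y : M) (γ : GL (Fin N) ℤ)
    (he : (mkInv V i₀ A X hX1 hXA hXh hXg).e y =
      (mkInv V i₀ A X hX1 hXA hXh hXg).ρ γ ((mkInv V i₀ A X hX1 hXA hXh hXg).e x))
    (L : (Fin n → ℂ) →L[ℝ] (Fin n → ℂ))
    (hL : ∀ v, D ((mkInv V i₀ A X hX1 hXA hXh hXg).F y) y (ins i₀ (0, L v)) =
      (mkInv V i₀ A X hX1 hXA hXh hXg).ρ γ
        (D ((mkInv V i₀ A X hX1 hXA hXh hXg).F x) x (ins i₀ (0, v)))) :
    ENNReal.ofReal (wS V i₀ A x) = ENNReal.ofReal |L.det| * ENNReal.ofReal (wS V i₀ A y) := by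
  have h1 : vt (ev V y) (fun i : A => cp y (i₀.succAbove i.1)) =
      vt (act γ (ev V x)) (fun i : A => cp x (i₀.succAbove i.1)) := he
  obtain ⟨_, h2⟩ := vt_inj h1
  have h3 : ∀ v : Fin n → ℂ,
      ((fun i k => TE V y (i₀.insertNth 0 (L v)) i k, fun _ _ => 0,
        fun i : A => (i₀.insertNth (α := fun _ => ℂ) 0 (L v)) (i₀.succAbove i.1)) : Vt N A) =
      rho γ ((fun i k => TE V x (i₀.insertNth 0 v) i k, fun _ _ => 0,
        fun i : A => (i₀.insertNth (α := fun _ => ℂ) 0 v) (i₀.succAbove i.1)) : Vt N A) := by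
    intro v
    have h4 := hL v
    have e1 : D ((mkInv V i₀ A X hX1 hXA hXh hXg).F y) y (ins i₀ (0, L v)) = _ :=
      D_FI V i₀ A y (ins i₀ (0, L v))
    have e2 : D ((mkInv V i₀ A X hX1 hXA hXh hXg).F x) x (ins i₀ (0, v)) = _ :=
      D_FI V i₀ A x (ins i₀ (0, v))
    rw [e1, e2, ins_apply, ins_apply] at h4
    exact h4
  have hT : ∀ v, TE V y (i₀.insertNth 0 (L v)) = cm γ * TE V x (i₀.insertNth 0 v) * cm γ⁻¹ := by
    intro v
    have h4 := congrArg (fun q : Vt N A => q.1) (h3 v)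
    ext i k
    exact congrFun (congrFun h4 i) k
  have hA : ∀ v, ∀ i ∈ A, L v i = v i := by
    intro v i hi
    have h4 := congrFun (congrArg (fun q : Vt N A => q.2.2) (h3 v)) ⟨i, hi⟩
    have h5 : (i₀.insertNth (α := fun _ => ℂ) 0 (L v)) (i₀.succAbove i) =
        (i₀.insertNth (α := fun _ => ℂ) 0 v) (i₀.succAbove i) := h4
    rwa [Fin.insertNth_apply_succAbove, Fin.insertNth_apply_succAbove] at h5
  have h6 := inv_pt (V := V) (i₀ := i₀) (A := A) γ (fun i hi => congrFun h2 ⟨i, hi⟩) L hT hA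
  rw [← h6, ENNReal.ofReal_mul (abs_nonneg _)]

instance countable_gl : Countable (GL (Fin N) ℤ) := by
  have h : Countable (Matrix (Fin N) (Fin N) ℤ) := inferInstanceAs (Countable (Fin N → Fin N → ℤ))
  exact Function.Injective.countable (f := fun g : GL (Fin N) ℤ => (g : Matrix (Fin N) (Fin N) ℤ))
    fun a b hab => Units.ext hab

/-- **Almost every curve is contained in `M*` and has finite area.** -/
theorem ae_curve [SecondCountableTopology M] [MeasurableSpace M] [BorelSpace M] {μ : Measure M}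
    (hμ : IsLeb μ) {a : M → ENNReal} (ha : Measurable a)
    (hmass : ∫⁻ x, a x * ENNReal.ofReal (wS V i₀ A x) ∂μ ≠ ⊤) :
    ∀ᵐ p ∂μ, 0 < (sub A (gS V i₀ p)).det.re →
      ∃ h : (mkInv V i₀ A X hX1 hXA hXh hXg).S p ⊆ (mkInv V i₀ A X hX1 hXA hXh hXg).Mst,
        letI := LsB_450.rdomS _ h
        ∀ ν : Measure ((mkInv V i₀ A X hX1 hXA hXh hXg).S p), IsLeb ν → ∫⁻ q, a q ∂ν < ⊤ := by
  set I := mkInv V i₀ A X hX1 hXA hXh hXg with hI
  have h1 : ∀ᵐ p ∂μ, ¬ (p ∈ I.Mst ∧ ¬ I.S p ⊆ I.Mst) := by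
    rw [ae_iff]
    simp only [not_not]
    exact SardB_450.sard I hμ
  have h2 := Coa3_375.coa_curve I hμ (fun x => ENNReal.ofReal (wS V i₀ A x))
    ((sm_wS V i₀ A).continuous.measurable.ennreal_ofReal) (hw hX1 hXA hXh hXg) a ha hmass
  filter_upwards [h1, h2] with p hp1 hp2 hp
  have hpM : p ∈ I.Mst := by
    have := Mst_eq (V := V) (i₀ := i₀) (A := A) hX1 hXA hXh hXg
    rw [hI, this]; exact hp
  have hS : I.S p ⊆ I.Mst := by
    by_contra hcon
    exact hp1 ⟨hpM, hcon⟩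
  refine ⟨hS, hp2 hpM ?_ hS⟩
  rw [Ne, ENNReal.ofReal_eq_zero, not_le]
  exact (wS_pos_iff V i₀ A p).2 hp

end Crest.Agent.R276.InvW_450
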