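import Crest.Agent.R276.IpcEx_309
import Crest.Agent.R276.Psi_563
import Crest.Agent.R276.EndF_659

/-!
# R276 (S0419), IPC, leaf IPC-B (helper309): the Hermitian form on one-forms with values in a PVHS

`sS V u v z = S_z(u(z), v(z))` (antilinear in `u`),
`SB V a b a' b' = ∫ (S(b, b') - S(a, a'))` for the one-forms `a dx + b dx̄`, `a' dx + b' dx̄`.
* `wz_sS`, `wb_sS` : product rules;
* `stokes_left`, `stokes_right` : `SB (D φ, ω) = 0 = SB (ω, D φ)` for `ω` closed with compact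
  support;
* `SB_conj`, `SB_add_left` ..., `SB_congr` : Hermitian, sesquilinear, well defined on classes;
* `SB_pull` : invariance under pull-back by a diffeomorphism and a gauge;
* `sS_le` : Cauchy-Schwarz with respect to the Hodge norm.
-/

set_option autoImplicit false
set_option linter.unusedSectionVars false

open MeasureTheory Set Filter Topology Matrix
open scoped ContDiff ComplexConjugate ComplexOrder

noncomputable section

namespace Crest.Agent.R276.IpcB_309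

open Crest.Agent.R276.Ipc735 Crest.Agent.R276.IpcRegS_309 Crest.Agent.R276.IpcEx_309

variable {A : Finset ℂ} {N w : ℕ}

/-! ### product rules -/

/-- `(u, v) ↦ uᴴ M v` as a real bilinear map -/
def bil (M : Matrix (Fin N) (Fin N) ℂ) : (Fin N → ℂ) →L[ℝ] (Fin N → ℂ) →L[ℝ] ℂ :=
  LinearMap.toContinuousBilinearMap (LinearMap.mk₂ ℝ (fun u v => star u ⬝ᵥ M *ᵥ v)
    (fun u u' v => by rw [star_add, add_dotProduct])
    (fun c u v => by
      have : star (c • u) = c • star u := by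
        funext i
        simp
      rw [this, smul_dotProduct])
    (fun u v v' => by rw [Matrix.mulVec_add, dotProduct_add])
    (fun c u v => by rw [Matrix.mulVec_smul, dotProduct_smul]))

theorem bil_apply (M : Matrix (Fin N) (Fin N) ℂ) (u v : Fin N → ℂ) :
    bil M u v = star u ⬝ᵥ M *ᵥ v := rfl

theorem fderiv_bil {U W : ℂ → Fin N → ℂ} {z : ℂ} (hU : DifferentiableAt ℝ U z)
    (hW : DifferentiableAt ℝ W z) (M : Matrix (Fin N) (Fin N) ℂ) (h : ℂ) :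
    fderiv ℝ (fun y => star (U y) ⬝ᵥ M *ᵥ W y) z h =
      star (fderiv ℝ U z h) ⬝ᵥ M *ᵥ W z + star (U z) ⬝ᵥ M *ᵥ fderiv ℝ W z h := by
  have h1 := (bil M).hasFDerivAt_of_bilinear hU.hasFDerivAt hW.hasFDerivAt
  have h2 : fderiv ℝ (fun y => star (U y) ⬝ᵥ M *ᵥ W y) z = _ := HasFDerivAt.fderiv h1
  rw [h2, add_comm]
  rfl

theorem wz_bil {U W : ℂ → Fin N → ℂ} {z : ℂ} (hU : DifferentiableAt ℝ U z)
    (hW : DifferentiableAt ℝ W z) (M : Matrix (Fin N) (Fin N) ℂ) :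
    wz (fun y => star (U y) ⬝ᵥ M *ᵥ W y) z =
      star (wb U z) ⬝ᵥ M *ᵥ W z + star (U z) ⬝ᵥ M *ᵥ wz W z := by
  simp only [wz, wb, fderiv_bil hU hW, star_smul, star_add, Matrix.mulVec_smul, Matrix.mulVec_sub,
    smul_dotProduct, dotProduct_smul, add_dotProduct, dotProduct_sub, smul_eq_mul,
    Complex.star_def, map_div₀, map_one, map_ofNat, Complex.conj_I]
  ring

theorem wb_bil {U W : ℂ → Fin N → ℂ} {z : ℂ} (hU : DifferentiableAt ℝ U z)
    (hW : DifferentiableAt ℝ W z) (M : Matrix (Fin N) (Fin N) ℂ) :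
    wb (fun y => star (U y) ⬝ᵥ M *ᵥ W y) z =
      star (wz U z) ⬝ᵥ M *ᵥ W z + star (U z) ⬝ᵥ M *ᵥ wb W z := by
  simp only [wz, wb, fderiv_bil hU hW, star_smul, star_sub, Matrix.mulVec_smul, Matrix.mulVec_add,
    smul_dotProduct, dotProduct_smul, sub_dotProduct, dotProduct_add, smul_eq_mul,
    Complex.star_def, map_div₀, map_one, map_ofNat, Complex.conj_I]
  ring

/-- `S(u, v)` -/
def sS (V : PVHS A N w) (u v : ℂ → Fin N → ℂ) (z : ℂ) : ℂ := star (u z) ⬝ᵥ V.S z *ᵥ v z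

theorem lV_self (V : PVHS A N w) {z : ℂ} (hz : z ∉ A) (φ : ℂ → Fin N → ℂ) :
    lV V.P φ z z = φ z := by
  obtain ⟨r, h⟩ := exists_good V hz
  unfold Ipc735.lV
  rw [h.self (Metric.mem_ball_self h.pos), IpcRegS_309.cm_one, Matrix.one_mulVec]

theorem sS_frame (V : PVHS A N w) {z : ℂ} (hz : z ∉ A) : ∀ᶠ y in 𝓝 z, ∀ u v : ℂ → Fin N → ℂ,
    sS V u v y = star (lV V.P u z y) ⬝ᵥ V.S z *ᵥ lV V.P v z y := by
  filter_upwards [V.flatS z hz] with y hy u v
  unfold sS Ipc735.lV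
  rw [hy, ← Matrix.mulVec_mulVec, ← Matrix.mulVec_mulVec, Matrix.dotProduct_mulVec (star (u y)),
    Matrix.star_mulVec]

theorem wz_sS (V : PVHS A N w) {u v : ℂ → Fin N → ℂ} {z : ℂ} (hz : z ∉ A)
    (hu : ContDiffAt ℝ (⊤ : ℕ∞) (lV V.P u z) z) (hv : ContDiffAt ℝ (⊤ : ℕ∞) (lV V.P v z) z) :
    wz (sS V u v) z = sS V (V.d2 u) v z + sS V u (V.d1 v) z := by
  have h1 : sS V u v =ᶠ[𝓝 z] fun y => star (lV V.P u z y) ⬝ᵥ V.S z *ᵥ lV V.P v z y := by
    filter_upwards [sS_frame V hz] with y hy using hy u v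
  rw [wz_congr h1, wz_bil (hu.differentiableAt (by simp)) (hv.differentiableAt (by simp)),
    lV_self V hz, lV_self V hz]
  rfl

theorem wb_sS (V : PVHS A N w) {u v : ℂ → Fin N → ℂ} {z : ℂ} (hz : z ∉ A)
    (hu : ContDiffAt ℝ (⊤ : ℕ∞) (lV V.P u z) z) (hv : ContDiffAt ℝ (⊤ : ℕ∞) (lV V.P v z) z) :
    wb (sS V u v) z = sS V (V.d1 u) v z + sS V u (V.d2 v) z := by
  have h1 : sS V u v =ᶠ[𝓝 z] fun y => star (lV V.P u z y) ⬝ᵥ V.S z *ᵥ lV V.P v z y := by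
    filter_upwards [sS_frame V hz] with y hy using hy u v
  rw [wb_congr h1, wb_bil (hu.differentiableAt (by simp)) (hv.differentiableAt (by simp)),
    lV_self V hz, lV_self V hz]
  rfl

theorem sS_smooth (V : PVHS A N w) {u v : ℂ → Fin N → ℂ} {z : ℂ} (hz : z ∉ A)
    (hu : ContDiffAt ℝ (⊤ : ℕ∞) (lV V.P u z) z) (hv : ContDiffAt ℝ (⊤ : ℕ∞) (lV V.P v z) z) :
    ContDiffAt ℝ (⊤ : ℕ∞) (sS V u v) z := by
  have h1 : sS V u v =ᶠ[𝓝 z] fun y => bil (V.S z) (lV V.P u z y) (lV V.P v z y) := by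
    filter_upwards [sS_frame V hz] with y hy using hy u v
  refine ContDiffAt.congr_of_eventuallyEq ?_ h1
  exact (((bil (V.S z)).contDiff.contDiffAt).comp z hu).clm_apply hv

/-! ### compact supports -/

/-- smooth sections with compact support in the complement of the punctures -/
structure CSm (V : PVHS A N w) (a : ℂ → Fin N → ℂ) : Prop where
  sm : V.Sm a
  cs : ∃ K ⊆ (A : Set ℂ)ᶜ, IsCompact K ∧ ∀ z ∉ K, a z = 0

/-- closed smooth one-forms with compact support -/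
structure ZC (V : PVHS A N w) (a b : ℂ → Fin N → ℂ) : Prop where
  sa : CSm V a
  sb : CSm V b
  cl : V.Closed a b

theorem cut_of {g : ℂ → ℂ} (hs : ∀ z ∉ A, ContDiffAt ℝ (⊤ : ℕ∞) g z)
    (hc : ∃ K ⊆ (A : Set ℂ)ᶜ, IsCompact K ∧ ∀ z ∉ K, g z = 0) :
    IpcReg_309.Cut ((A : Set ℂ)ᶜ) g := by
  obtain ⟨K, hKA, hK, h0⟩ := hc
  have h1 : tsupport g ⊆ K := closure_minimal (fun z hz => by
    by_contra h
    exact hz (h0 z h)) hK.isClosed
  refine ⟨?_, HasCompactSupport.intro hK fun z hz => h0 z hz, h1.trans hKA⟩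
  rw [contDiff_iff_contDiffAt]
  intro z
  by_cases hz : z ∈ K
  · exact hs z (hKA hz)
  · have h2 : g =ᶠ[𝓝 z] fun _ => 0 := by
      filter_upwards [hK.isClosed.isOpen_compl.mem_nhds hz] with y hy using h0 y hy
    exact contDiffAt_const.congr_of_eventuallyEq h2

theorem cut_sS_right (V : PVHS A N w) {u v : ℂ → Fin N → ℂ} (hu : V.Sm u) (hv : CSm V v) :
    IpcReg_309.Cut ((A : Set ℂ)ᶜ) (sS V u v) := by
  obtain ⟨K, hKA, hK, h0⟩ := hv.cs
  exact cut_of (fun z hz => sS_smooth V hz (hu z hz) (hv.sm z hz))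
    ⟨K, hKA, hK, fun z hz => by unfold sS; rw [h0 z hz, Matrix.mulVec_zero, dotProduct_zero]⟩

theorem cut_sS_left (V : PVHS A N w) {u v : ℂ → Fin N → ℂ} (hu : CSm V u) (hv : V.Sm v) :
    IpcReg_309.Cut ((A : Set ℂ)ᶜ) (sS V u v) := by
  obtain ⟨K, hKA, hK, h0⟩ := hu.cs
  exact cut_of (fun z hz => sS_smooth V hz (hu.sm z hz) (hv z hz))
    ⟨K, hKA, hK, fun z hz => by unfold sS; rw [h0 z hz, star_zero, zero_dotProduct]⟩

theorem isOpen_cA (A : Finset ℂ) : IsOpen ((A : Set ℂ)ᶜ) := A.finite_toSet.isClosed.isOpen_compl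

theorem cut_integrable {U : Set ℂ} {g : ℂ → ℂ} (h : IpcReg_309.Cut U g) : Integrable g :=
  h.sm.continuous.integrable_of_hasCompactSupport h.cs

theorem integral_wb {U : Set ℂ} {g : ℂ → ℂ} (hU : IsOpen U) (h : IpcReg_309.Cut U g) :
    Integrable (wb g) ∧ ∫ z, wb g z = 0 := by
  have h1 : Integrable (IpcReg_309.dS Complex.I g) := cut_integrable (h.dS Complex.I)
  refine ⟨h1, ?_⟩
  have h2 := IpcReg_309.integral_dS (s := Complex.I) (v := fun _ => (1 : ℂ)) hU h contDiffOn_const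
  have h3 : ∀ z, IpcReg_309.dS Complex.I (fun _ => (1 : ℂ)) z = 0 := by
    intro z
    simp [IpcReg_309.dS]
  simp only [h3, mul_one, mul_zero, integral_zero, neg_zero] at h2
  exact h2

theorem integral_wz {U : Set ℂ} {g : ℂ → ℂ} (hU : IsOpen U) (h : IpcReg_309.Cut U g) :
    Integrable (wz g) ∧ ∫ z, wz g z = 0 := by
  have e : wz g = IpcReg_309.dS (-Complex.I) g := by
    funext z
    rw [dS_neg_I]
  have h1 : Integrable (IpcReg_309.dS (-Complex.I) g) := cut_integrable (h.dS (-Complex.I))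
  rw [e]
  refine ⟨h1, ?_⟩
  have h2 := IpcReg_309.integral_dS (s := -Complex.I) (v := fun _ => (1 : ℂ)) hU h contDiffOn_const
  have h3 : ∀ z, IpcReg_309.dS (-Complex.I) (fun _ => (1 : ℂ)) z = 0 := by
    intro z
    simp [IpcReg_309.dS]
  simp only [h3, mul_one, mul_zero, integral_zero, neg_zero] at h2
  exact h2

theorem ae_notMem (A : Finset ℂ) : ∀ᵐ z : ℂ, z ∉ A := by
  have h : volume (A : Set ℂ) = 0 := A.finite_toSet.measure_zero _
  exact measure_eq_zero_iff_ae_notMem.1 h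

/-- **Stokes** -/
theorem stokes_left (V : PVHS A N w) {φ a b : ℂ → Fin N → ℂ} (hφ : V.Sm φ) (h : ZC V a b) :
    ∫ z, (sS V (V.d2 φ) b z - sS V (V.d1 φ) a z) = 0 := by
  have c1 := cut_sS_right V hφ h.sb
  have c2 := cut_sS_right V hφ h.sa
  obtain ⟨i1, e1⟩ := integral_wz (isOpen_cA A) c1
  obtain ⟨i2, e2⟩ := integral_wb (isOpen_cA A) c2
  have h1 : ∫ z, (wz (sS V φ b) z - wb (sS V φ a) z) = 0 := by
    rw [integral_sub i1 i2, e1, e2, sub_zero]
  rw [← h1]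
  refine integral_congr_ae ?_
  filter_upwards [ae_notMem A] with z hz
  rw [wz_sS V hz (hφ z hz) (h.sb.sm z hz), wb_sS V hz (hφ z hz) (h.sa.sm z hz)]
  have h2 : sS V φ (V.d2 a) z = sS V φ (V.d1 b) z := by
    unfold sS
    rw [h.cl z hz]
  rw [h2]
  ring

theorem stokes_right (V : PVHS A N w) {φ a b : ℂ → Fin N → ℂ} (hφ : V.Sm φ) (h : ZC V a b) :
    ∫ z, (sS V b (V.d2 φ) z - sS V a (V.d1 φ) z) = 0 := by
  have c1 := cut_sS_left V h.sb hφ
  have c2 := cut_sS_left V h.sa hφ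
  obtain ⟨i1, e1⟩ := integral_wb (isOpen_cA A) c1
  obtain ⟨i2, e2⟩ := integral_wz (isOpen_cA A) c2
  have h1 : ∫ z, (wb (sS V b φ) z - wz (sS V a φ) z) = 0 := by
    rw [integral_sub i1 i2, e1, e2, sub_zero]
  rw [← h1]
  refine integral_congr_ae ?_
  filter_upwards [ae_notMem A] with z hz
  rw [wb_sS V hz (h.sb.sm z hz) (hφ z hz), wz_sS V hz (h.sa.sm z hz) (hφ z hz)]
  have h2 : sS V (V.d2 a) φ z = sS V (V.d1 b) φ z := by
    unfold sS
    rw [h.cl z hz]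
  rw [h2]
  ring

/-! ### the form -/

/-- the form `SB(a dx + b dx̄, a' dx + b' dx̄) = ∫ (S(b, b') - S(a, a'))` -/
def SB (V : PVHS A N w) (a b a' b' : ℂ → Fin N → ℂ) : ℂ := ∫ z, (sS V b b' z - sS V a a' z)

theorem sS_conj (V : PVHS A N w) {z : ℂ} (hz : z ∉ A) (u v : ℂ → Fin N → ℂ) :
    (starRingEnd ℂ) (sS V u v z) = sS V v u z := by
  unfold sS
  have h1 : star (star (u z) ⬝ᵥ V.S z *ᵥ v z) = star (v z) ⬝ᵥ V.S z *ᵥ u z := by
    rw [← Matrix.star_dotProduct_star, star_star, Matrix.star_mulVec, ← Matrix.dotProduct_mulVec,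
      (V.hs z hz).herm.eq]
  exact h1

theorem SB_conj (V : PVHS A N w) (a b a' b' : ℂ → Fin N → ℂ) :
    (starRingEnd ℂ) (SB V a b a' b') = SB V a' b' a b := by
  unfold SB
  rw [← integral_conj]
  refine integral_congr_ae ?_
  filter_upwards [ae_notMem A] with z hz
  rw [map_sub, sS_conj V hz, sS_conj V hz]

theorem sS_int_right (V : PVHS A N w) {u v : ℂ → Fin N → ℂ} (hu : V.Sm u) (hv : CSm V v) :
    Integrable (sS V u v) := cut_integrable (cut_sS_right V hu hv)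

theorem sS_int_left (V : PVHS A N w) {u v : ℂ → Fin N → ℂ} (hu : CSm V u) (hv : V.Sm v) :
    Integrable (sS V u v) := cut_integrable (cut_sS_left V hu hv)

theorem SB_smul_right (V : PVHS A N w) (c : ℂ) (a b a' b' : ℂ → Fin N → ℂ) :
    SB V a b (fun z => c • a' z) (fun z => c • b' z) = c * SB V a b a' b' := by
  unfold SB sS
  rw [← integral_const_mul]
  refine integral_congr_ae (Eventually.of_forall fun z => ?_)
  simp only [Matrix.mulVec_smul, dotProduct_smul, smul_eq_mul]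
  ring

theorem SB_smul_left (V : PVHS A N w) (c : ℂ) (a b a' b' : ℂ → Fin N → ℂ) :
    SB V (fun z => c • a z) (fun z => c • b z) a' b' = (starRingEnd ℂ) c * SB V a b a' b' := by
  unfold SB sS
  rw [← integral_const_mul]
  refine integral_congr_ae (Eventually.of_forall fun z => ?_)
  simp only [star_smul, smul_dotProduct, smul_eq_mul, Complex.star_def]
  ring

theorem SB_add_right (V : PVHS A N w) {a b a1 b1 a2 b2 : ℂ → Fin N → ℂ} (ha : V.Sm a)
    (hb : V.Sm b) (ha1 : CSm V a1) (hb1 : CSm V b1) (ha2 : CSm V a2) (hb2 : CSm V b2) :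
    SB V a b (fun z => a1 z + a2 z) (fun z => b1 z + b2 z) = SB V a b a1 b1 + SB V a b a2 b2 := by
  have i1 : Integrable (fun z => sS V b b1 z - sS V a a1 z) :=
    (sS_int_right V hb hb1).sub (sS_int_right V ha ha1)
  have i2 : Integrable (fun z => sS V b b2 z - sS V a a2 z) :=
    (sS_int_right V hb hb2).sub (sS_int_right V ha ha2)
  unfold SB
  rw [← integral_add i1 i2]
  refine integral_congr_ae (Eventually.of_forall fun z => ?_)
  simp only [sS, Matrix.mulVec_add, dotProduct_add]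
  ring

theorem SB_add_left (V : PVHS A N w) {a b a1 b1 a2 b2 : ℂ → Fin N → ℂ} (ha1 : V.Sm a1)
    (hb1 : V.Sm b1) (ha2 : V.Sm a2) (hb2 : V.Sm b2) (ha : CSm V a) (hb : CSm V b) :
    SB V (fun z => a1 z + a2 z) (fun z => b1 z + b2 z) a b = SB V a1 b1 a b + SB V a2 b2 a b := by
  have i1 : Integrable (fun z => sS V b1 b z - sS V a1 a z) :=
    (sS_int_right V hb1 hb).sub (sS_int_right V ha1 ha)
  have i2 : Integrable (fun z => sS V b2 b z - sS V a2 a z) :=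
    (sS_int_right V hb2 hb).sub (sS_int_right V ha2 ha)
  unfold SB
  rw [← integral_add i1 i2]
  refine integral_congr_ae (Eventually.of_forall fun z => ?_)
  simp only [sS, star_add, add_dotProduct]
  ring

/-- the form vanishes on exact forms -/
theorem SB_exact_left (V : PVHS A N w) {φ a b : ℂ → Fin N → ℂ} (hφ : V.Sm φ) (h : ZC V a b) :
    SB V (V.d1 φ) (V.d2 φ) a b = 0 := stokes_left V hφ h

theorem SB_exact_right (V : PVHS A N w) {φ a b : ℂ → Fin N → ℂ} (hφ : V.Sm φ) (h : ZC V a b) :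
    SB V a b (V.d1 φ) (V.d2 φ) = 0 := stokes_right V hφ h

theorem SB_ae_congr (V : PVHS A N w) {a b a' b' a1 b1 a1' b1' : ℂ → Fin N → ℂ}
    (h1 : ∀ z ∉ A, a z = a1 z) (h2 : ∀ z ∉ A, b z = b1 z) (h3 : ∀ z ∉ A, a' z = a1' z)
    (h4 : ∀ z ∉ A, b' z = b1' z) : SB V a b a' b' = SB V a1 b1 a1' b1' := by
  unfold SB
  refine integral_congr_ae ?_
  filter_upwards [ae_notMem A] with z hz
  simp only [sS, h1 z hz, h2 z hz, h3 z hz, h4 z hz]

/-- the form is well defined on classes -/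
theorem SB_congr (V : PVHS A N w) {a b a' b' a1 b1 a1' b1' φ ψ : ℂ → Fin N → ℂ}
    (h' : ZC V a' b') (h1 : ZC V a1 b1) (h1' : ZC V a1' b1') (hφ : V.Sm φ)
    (hψ : V.Sm ψ) (e1 : ∀ z ∉ A, a z = a1 z + V.d1 φ z) (e2 : ∀ z ∉ A, b z = b1 z + V.d2 φ z)
    (e3 : ∀ z ∉ A, a' z = a1' z + V.d1 ψ z) (e4 : ∀ z ∉ A, b' z = b1' z + V.d2 ψ z) :
    SB V a b a' b' = SB V a1 b1 a1' b1' := by
  obtain ⟨s1, s2⟩ := Sm_d V hφ
  obtain ⟨t1, t2⟩ := Sm_d V hψ
  calc SB V a b a' b' = SB V (fun z => a1 z + V.d1 φ z) (fun z => b1 z + V.d2 φ z) a' b' :=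
        SB_ae_congr V e1 e2 (fun _ _ => rfl) (fun _ _ => rfl)
    _ = SB V a1 b1 a' b' := by
        rw [SB_add_left V h1.sa.sm h1.sb.sm s1 s2 h'.sa h'.sb, SB_exact_left V hφ h', add_zero]
    _ = (starRingEnd ℂ) (SB V a' b' a1 b1) := (SB_conj V _ _ _ _).symm
    _ = (starRingEnd ℂ) (SB V (fun z => a1' z + V.d1 ψ z) (fun z => b1' z + V.d2 ψ z) a1 b1) := by
        rw [SB_ae_congr V e3 e4 (fun _ _ => rfl) (fun _ _ => rfl)]
    _ = (starRingEnd ℂ) (SB V a1' b1' a1 b1) := by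
        rw [SB_add_left V h1'.sa.sm h1'.sb.sm t1 t2 h1.sa h1.sb, SB_exact_left V hψ h1, add_zero]
    _ = SB V a1 b1 a1' b1' := SB_conj V _ _ _ _

/-! ### the Hodge norm -/

/-- Cauchy-Schwarz -/
theorem sS_le (V : PVHS A N w) {z : ℂ} (hz : z ∉ A) (u v : ℂ → Fin N → ℂ) :
    ‖sS V u v z‖ ^ 2 ≤ V.nsq u z * V.nsq v z := by
  have hs := V.hs z hz
  have hC : weil w (V.E z) * weil w (V.E z) = 1 := weil_sq hs
  have hK : (hodge w (V.S z) (V.E z)).PosDef := hs.hodge_posDef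
  have e1 : V.S z = hodge w (V.S z) (V.E z) * weil w (V.E z) := by
    rw [hodge, mul_assoc, hC, mul_one]
  have h1 := EndF_659.nq_cs hK (u z) (weil w (V.E z) *ᵥ v z)
  rw [Matrix.mulVec_mulVec, ← e1] at h1
  have e3 : EndTh_659.nq (hodge w (V.S z) (V.E z)) (weil w (V.E z) *ᵥ v z) =
      EndTh_659.nq (hodge w (V.S z) (V.E z)) (v z) := by
    unfold EndTh_659.nq
    have h2 : (weil w (V.E z))ᴴ * hodge w (V.S z) (V.E z) * weil w (V.E z) =
        hodge w (V.S z) (V.E z) := by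
      rw [mul_assoc, ← e1, ← hs.S_weil]
      rfl
    have h3 : star (weil w (V.E z) *ᵥ v z) ⬝ᵥ (hodge w (V.S z) (V.E z) *ᵥ (weil w (V.E z) *ᵥ v z)) =
        star (v z) ⬝ᵥ (hodge w (V.S z) (V.E z) *ᵥ v z) := by
      conv_rhs => rw [← h2]
      rw [← Matrix.mulVec_mulVec, ← Matrix.mulVec_mulVec, Matrix.dotProduct_mulVec (star (v z)),
        Matrix.star_mulVec]
    rw [h3]
  rw [e3] at h1
  exact h1

/-- on the type `p` part `S = (-1)^p h` -/
theorem sS_eig (V : PVHS A N w) {z : ℂ} (hz : z ∉ A) {p : ℕ} (hp : p ≤ w) {u v : ℂ → Fin N → ℂ}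
    (hv : V.E z *ᵥ v z = (p : ℂ) • v z) :
    sS V u v z = (-1 : ℂ) ^ p * (star (u z) ⬝ᵥ V.H z *ᵥ v z) := by
  have h1 := (V.hs z hz).hodge_mulVec_of_eig hp hv
  unfold sS PVHS.H
  rw [h1, dotProduct_smul, smul_eq_mul, ← mul_assoc, ← mul_pow, neg_one_mul, neg_neg, one_pow,
    one_mul]

theorem nsq_coe (V : PVHS A N w) {z : ℂ} (hz : z ∉ A) (u : ℂ → Fin N → ℂ) :
    star (u z) ⬝ᵥ V.H z *ᵥ u z = (V.nsq u z : ℂ) := by
  refine Complex.ext rfl ?_
  rw [Complex.ofReal_im]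
  have h1 : star (star (u z) ⬝ᵥ V.H z *ᵥ u z) = star (u z) ⬝ᵥ V.H z *ᵥ u z := by
    rw [← Matrix.star_dotProduct_star, star_star, Matrix.star_mulVec, ← Matrix.dotProduct_mulVec]
    have := (V.hs z hz).hodge_isHermitian
    unfold PVHS.H
    rw [this.eq]
  have h2 := congrArg Complex.im h1
  rw [Complex.star_def, Complex.conj_im] at h2
  linarith

/-- the norm of the top piece: `(-1)^(w+1) SB(f dx, f dx) = ∫ nsq f` -/
theorem SB_top (V : PVHS A N w) {f : ℂ → Fin N → ℂ} (hf : ∀ z ∉ A, V.E z *ᵥ f z = (w : ℂ) • f z) :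
    (-1 : ℂ) ^ (w + 1) * SB V f (fun _ => 0) f (fun _ => 0) = ((∫ z, V.nsq f z : ℝ) : ℂ) := by
  unfold SB
  rw [← integral_const_mul, ← integral_complex_ofReal]
  refine integral_congr_ae ?_
  filter_upwards [ae_notMem A] with z hz
  rw [sS_eig V hz le_rfl (hf z hz), nsq_coe V hz]
  have h0 : sS V (fun _ => 0) (fun _ => 0) z = 0 := by
    unfold sS
    rw [Matrix.mulVec_zero, dotProduct_zero]
  rw [h0, zero_sub, pow_succ]
  have h1 : (-1 : ℂ) ^ w * (-1) ^ w = 1 := by rw [← mul_pow, neg_one_mul, neg_neg, one_pow]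
  linear_combination (V.nsq f z : ℂ) * h1

/-! ### invariance under diffeomorphisms -/

/-- pull-back of a pair by a map with Wirtinger derivatives `p`, `q` and a gauge `G` -/
def plA (Ψ p q : ℂ → ℂ) (G : ℂ → GL (Fin N) ℤ) (a b : ℂ → Fin N → ℂ) (x : ℂ) : Fin N → ℂ :=
  cm (G x)⁻¹ *ᵥ (p x • a (Ψ x) + conj (q x) • b (Ψ x))

/-- second component -/
def plB (Ψ p q : ℂ → ℂ) (G : ℂ → GL (Fin N) ℤ) (a b : ℂ → Fin N → ℂ) (x : ℂ) : Fin N → ℂ :=
  cm (G x)⁻¹ *ᵥ (q x • a (Ψ x) + conj (p x) • b (Ψ x))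

theorem pl_wedge (S0 S1 : Matrix (Fin N) (Fin N) ℂ) (g : GL (Fin N) ℤ)
    (hS : S0 = (cm g)ᴴ * S1 * cm g) (p q : ℂ) (a b a' b' : Fin N → ℂ) :
    star (cm g⁻¹ *ᵥ (q • a + conj p • b)) ⬝ᵥ S0 *ᵥ (cm g⁻¹ *ᵥ (q • a' + conj p • b')) -
      star (cm g⁻¹ *ᵥ (p • a + conj q • b)) ⬝ᵥ S0 *ᵥ (cm g⁻¹ *ᵥ (p • a' + conj q • b')) =
    ((‖p‖ ^ 2 - ‖q‖ ^ 2 : ℝ) : ℂ) * (star b ⬝ᵥ S1 *ᵥ b' - star a ⬝ᵥ S1 *ᵥ a') := by
  have key : ∀ u v : Fin N → ℂ, star (cm g⁻¹ *ᵥ u) ⬝ᵥ S0 *ᵥ (cm g⁻¹ *ᵥ v) =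
      star u ⬝ᵥ S1 *ᵥ v := by
    intro u v
    have h1 : cm g *ᵥ (cm g⁻¹ *ᵥ v) = v := by
      rw [Matrix.mulVec_mulVec, IpcRegS_309.cm_mul_inv, Matrix.one_mulVec]
    have h2 : cm g *ᵥ (cm g⁻¹ *ᵥ u) = u := by
      rw [Matrix.mulVec_mulVec, IpcRegS_309.cm_mul_inv, Matrix.one_mulVec]
    rw [hS, ← Matrix.mulVec_mulVec, ← Matrix.mulVec_mulVec,
      Matrix.dotProduct_mulVec (star (cm g⁻¹ *ᵥ u)), ← Matrix.star_mulVec, h1, h2]
  rw [key, key]
  simp only [star_add, star_smul, Matrix.mulVec_add, Matrix.mulVec_smul, add_dotProduct,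
    dotProduct_add, smul_dotProduct, dotProduct_smul, smul_eq_mul, Complex.star_def,
    Complex.conj_conj]
  have hDD : ((‖p‖ ^ 2 - ‖q‖ ^ 2 : ℝ) : ℂ) = p * conj p - q * conj q := by
    rw [Complex.mul_conj', Complex.mul_conj']; push_cast; ring
  rw [hDD]
  ring

/-- invariance of the form under diffeomorphisms and gauges -/
theorem SB_pull {A0 A1 : Finset ℂ} {w0 w1 : ℕ} (V0 : PVHS A0 N w0) (V1 : PVHS A1 N w1)
    {Ψ p q : ℂ → ℂ} (hΨ : ∀ x, HasFDerivAt Ψ (Psi_563.wir (p x) (q x)) x)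
    (hb : Function.Bijective Ψ) (hpq : ∀ x, ‖q x‖ < ‖p x‖) {G : ℂ → GL (Fin N) ℤ}
    (hS : ∀ x ∉ A0, V0.S x = (cm (G x))ᴴ * V1.S (Ψ x) * cm (G x)) (a b a' b' : ℂ → Fin N → ℂ) :
    SB V0 (plA Ψ p q G a b) (plB Ψ p q G a b) (plA Ψ p q G a' b') (plB Ψ p q G a' b') =
      SB V1 a b a' b' := by
  unfold SB
  have h1 : ∫ z, (sS V1 b b' z - sS V1 a a' z) =
      ∫ x, ((‖p x‖ ^ 2 - ‖q x‖ ^ 2 : ℝ) : ℂ) * (sS V1 b b' (Ψ x) - sS V1 a a' (Ψ x)) := by
    have h2 := integral_image_eq_integral_abs_det_fderiv_smul volume MeasurableSet.univ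
      (fun x _ => (hΨ x).hasFDerivWithinAt) hb.1.injOn (fun z => sS V1 b b' z - sS V1 a a' z)
    rw [image_univ, hb.2.range_eq, setIntegral_univ, setIntegral_univ] at h2
    rw [h2]
    refine integral_congr_ae (Eventually.of_forall fun x => ?_)
    simp only [Psi_563.det_wir]
    have h3 : 0 ≤ ‖p x‖ ^ 2 - ‖q x‖ ^ 2 := by
      have := hpq x
      have := norm_nonneg (q x)
      nlinarith
    rw [abs_of_nonneg h3, Complex.real_smul]
  rw [h1]
  refine integral_congr_ae ?_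
  filter_upwards [ae_notMem A0] with x hx
  exact pl_wedge (V0.S x) (V1.S (Ψ x)) (G x) (hS x hx) (p x) (q x) (a (Ψ x)) (b (Ψ x))
    (a' (Ψ x)) (b' (Ψ x))

end Crest.Agent.R276.IpcB_309
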