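import Crest.Agent.R276.IpcMB_975
import Crest.Agent.R276.HsB_817

/-!
# R276, IPC fixed-s assembly (helper975), part 6: one-forms, the operators of type, `Ex` and `Zc`
-/

set_option autoImplicit false

open Set Filter Topology MeasureTheory UniformSpace
open scoped ContDiff ComplexConjugate

namespace Crest.Agent.R276.IpcG1_975

open VCalc_442 IpcGr_975

variable {V : Type*} [NormedAddCommGroup V] [NormedSpace ℂ V] {X : Set ℂ}

/-- `(u, v) ↦ B(u₁, v₁) + B'(u₂, v₂)` -/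
noncomputable def dblB (B B' : V →L⋆[ℂ] V →L[ℂ] ℂ) : (V × V) →L⋆[ℂ] (V × V) →L[ℂ] ℂ :=
  ((ContinuousLinearMap.compL ℂ (V × V) V ℂ).flip (ContinuousLinearMap.fst ℂ V V)).comp
      (B.comp (ContinuousLinearMap.fst ℂ V V)) +
  ((ContinuousLinearMap.compL ℂ (V × V) V ℂ).flip (ContinuousLinearMap.snd ℂ V V)).comp
      (B'.comp (ContinuousLinearMap.snd ℂ V V))

@[simp] theorem dblB_apply (B B' : V →L⋆[ℂ] V →L[ℂ] ℂ) (u v : V × V) :
    dblB B B' u v = B u.1 v.1 + B' u.2 v.2 := rfl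

namespace FB

/-- the flat bundle of one-forms (in the frame `dx`, `dx̄`) -/
noncomputable def dbl (F : FB V X) : FB (V × V) X where
  P x y := (F.P x y).prodMap (F.P x y)
  op := F.op
  ndc := by
    intro z hz
    obtain ⟨U, hU, h⟩ := F.ndc z hz
    refine ⟨U, hU, fun x hx y hy v hv => ?_⟩
    have h1 := h x hx y hy v hv
    ext u
    · exact congrArg (fun T : V →L[ℂ] V => T u) h1
    · simp
    · simp
    · exact congrArg (fun T : V →L[ℂ] V => T u) h1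
  one := by
    intro z hz
    have h1 := F.one z hz
    ext u <;> simp [h1]

variable {F : FB V X}

theorem dbl_P (x y : ℂ) (u : V × V) : F.dbl.P x y u = (F.P x y u.1, F.P x y u.2) := rfl

theorem dbl_tr (z : ℂ) (φ : ℂ → V × V) (y : ℂ) :
    F.dbl.tr z φ y = (F.tr z (fun x => (φ x).1) y, F.tr z (fun x => (φ x).2) y) := rfl

theorem sm_dbl {φ : ℂ → V × V} : F.dbl.Sm φ ↔ F.Sm (fun x => (φ x).1) ∧ F.Sm (fun x => (φ x).2) := by
  constructor
  · intro h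
    exact ⟨fun z hz => (h z hz).fst, fun z hz => (h z hz).snd⟩
  · rintro ⟨h1, h2⟩ z hz
    exact (h1 z hz).prodMk (h2 z hz)

theorem mem_dbl_A0 {φ : ℂ → V × V} :
    φ ∈ F.dbl.A0 ↔ (fun x => (φ x).1) ∈ F.A0 ∧ (fun x => (φ x).2) ∈ F.A0 := by
  constructor
  · rintro ⟨h1, K, hK, hKc, h0⟩
    have h2 := sm_dbl.1 h1
    exact ⟨⟨h2.1, K, hK, hKc, fun x hx => by simp [h0 x hx]⟩,
      ⟨h2.2, K, hK, hKc, fun x hx => by simp [h0 x hx]⟩⟩
  · rintro ⟨⟨h1, K, hK, hKc, h0⟩, ⟨h2, K', hK', hKc', h0'⟩⟩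
    refine ⟨sm_dbl.2 ⟨h1, h2⟩, K ∪ K', union_subset hK hK', hKc.union hKc', fun x hx => ?_⟩
    exact Prod.ext (h0 x fun h => hx (Or.inl h)) (h0' x fun h => hx (Or.inr h))

/-- `D φ = (∂ φ, ∂̄ φ)` -/
noncomputable def Df (F : FB V X) (φ : ℂ → V) (z : ℂ) : V × V := (F.d1 φ z, F.d2 φ z)

theorem Df_mem {φ : ℂ → V} (h : φ ∈ F.A0) : F.Df φ ∈ F.dbl.A0 :=
  mem_dbl_A0.2 ⟨d1_mem h, d2_mem h⟩

/-- diagonal operator field -/
noncomputable def dg (A B : ℂ → (V →L[ℂ] V)) (z : ℂ) : V × V →L[ℂ] V × V := (A z).prodMap (B z)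

@[simp] theorem dg_apply (A B : ℂ → (V →L[ℂ] V)) (z : ℂ) (u : V × V) :
    dg A B z u = (A z u.1, B z u.2) := rfl

theorem smO_dg {A B : ℂ → (V →L[ℂ] V)} (hA : F.SmO A) (hB : F.SmO B) : F.dbl.SmO (dg A B) := by
  intro z hz
  have h1 : F.dbl.trO z (dg A B) = fun y => (F.trO z A y).prodMap (F.trO z B y) := by
    funext y
    ext u <;> simp [trO, dg, dbl]
  rw [h1]
  have h2 : ∀ y, (F.trO z A y).prodMap (F.trO z B y) =
      (ContinuousLinearMap.prodMapL ℂ V V V V) (F.trO z A y, F.trO z B y) := fun y => rfl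
  simp only [h2]
  exact ((ContinuousLinearMap.prodMapL ℂ V V V V).restrictScalars ℝ).contDiff.contDiffAt.comp z
    ((hA z hz).prodMk (hB z hz))

theorem d2_d1 {φ : ℂ → V} (hφ : F.Sm φ) {z : ℂ} (hz : z ∈ X) :
    F.d2 (F.d1 φ) z = F.d1 (F.d2 φ) z := by
  obtain ⟨U, hU⟩ := F.exists_nb hz
  have h1 : F.tr z (F.d1 φ) =ᶠ[𝓝 z] fun y => dW (F.tr z φ) 1 y := by
    filter_upwards [hU.op.mem_nhds hU.mem] with y hy
    exact hU.tr_d1 hφ hy
  have h2 : F.tr z (F.d2 φ) =ᶠ[𝓝 z] fun y => dB (F.tr z φ) 1 y := by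
    filter_upwards [hU.op.mem_nhds hU.mem] with y hy
    exact hU.tr_d2 hφ hy
  have e1 : F.d2 (F.d1 φ) z = dB (fun y => dW (F.tr z φ) 1 y) 1 z := dB_congr h1 1
  have e2 : F.d1 (F.d2 φ) z = dW (fun y => dB (F.tr z φ) 1 y) 1 z := dW_congr h2 1
  rw [e1, e2]
  exact (dW_dB ((hφ z hz).of_le ENat.LEInfty.out) 1 1).symm

end FB

namespace MB

/-- the metric bundle of one-forms -/
@[reducible] noncomputable def dbl (M : MB V X) : MB (V × V) X where
  toFB := M.toFB.dbl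
  G z := dblB (M.G z) (M.G z)
  herm z hz u v := by
    rw [dblB_apply, dblB_apply, map_add, M.herm z hz, M.herm z hz]
  smG φ ψ hφ hψ z hz := by
    simp only [dblB_apply]
    have h1 := FB.sm_dbl.1 hφ
    have h2 := FB.sm_dbl.1 hψ
    exact (M.smG _ _ h1.1 h2.1 z hz).add (M.smG _ _ h1.2 h2.2 z hz)
  bd z hz := by
    obtain ⟨C, hC, h⟩ := M.bd z hz
    refine ⟨2 * C, by positivity, ?_⟩
    filter_upwards [h] with y hy u
    obtain ⟨a1, a2⟩ := hy u.1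
    obtain ⟨b1, b2⟩ := hy u.2
    have e1 : ‖M.toFB.dbl.P z y u‖ = max ‖M.P z y u.1‖ ‖M.P z y u.2‖ := rfl
    rw [e1, dblB_apply, Complex.add_re]
    have g1 : 0 ≤ (M.G y u.1 u.1).re := by
      by_contra hcon
      push Not at hcon
      nlinarith [sq_nonneg ‖M.P z y u.1‖]
    have g2 : 0 ≤ (M.G y u.2 u.2).re := by
      by_contra hcon
      push Not at hcon
      nlinarith [sq_nonneg ‖M.P z y u.2‖]
    constructor
    · rcases max_cases ‖M.P z y u.1‖ ‖M.P z y u.2‖ with ⟨h1, _⟩ | ⟨h1, _⟩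
      · rw [h1]; nlinarith
      · rw [h1]; nlinarith
    · have h1 : ‖M.P z y u.1‖ ^ 2 ≤ (max ‖M.P z y u.1‖ ‖M.P z y u.2‖) ^ 2 := by
        gcongr; exact le_max_left _ _
      have h2 : ‖M.P z y u.2‖ ^ 2 ≤ (max ‖M.P z y u.1‖ ‖M.P z y u.2‖) ^ 2 := by
        gcongr; exact le_max_right _ _
      nlinarith

theorem dbl_G (M : MB V X) (z : ℂ) (u v : V × V) :
    M.dbl.G z u v = M.G z u.1 v.1 + M.G z u.2 v.2 := rfl

end MB

end Crest.Agent.R276.IpcG1_975
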