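import Mathlib

/-!
# R276, IPC step (5) (post 755): the end ODE lemma

Real analysis on a cylindrical end.  `a = ∮|φ|²`, `e = ∮|Dφ|²`, `f = Re ∮⟨D_s φ, φ⟩`,
`g = -∮⟨Θ_s φ, φ⟩`, `y² a = ∮|Θ φ|²`.  If the energy is finite (`f` bounded above) then `f → 0`.
-/

set_option autoImplicit false

open Set Filter Topology

namespace Crest.Agent.R276.IpcE1_827

/-- finite energy and `a = O(s)` force `f → 0` -/
theorem tendsto_zero_of_linear {s1 M F : ℝ} {a e f : ℝ → ℝ} (hM : 0 < M) (hs1 : 0 < s1)
    (hf : ∀ s, s1 ≤ s → HasDerivAt f (e s) s) (he : ∀ s, s1 ≤ s → 0 ≤ e s)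
    (hF : ∀ s, s1 ≤ s → f s ≤ F)
    (ha : ∀ s, s1 ≤ s → a s ≤ M * s)
    (hcs : ∀ s, s1 ≤ s → f s ^ 2 ≤ a s * e s) :
    Tendsto f atTop (𝓝 0) := by
  have hmono : MonotoneOn f (Ici s1) := by
    refine monotoneOn_of_deriv_nonneg (convex_Ici s1) ?_ ?_ ?_
    · intro s hs
      exact (hf s hs).continuousAt.continuousWithinAt
    · intro s hs
      rw [interior_Ici] at hs
      exact (hf s hs.le).differentiableAt.differentiableWithinAt
    · intro s hs
      rw [interior_Ici] at hs
      rw [(hf s hs.le).deriv]
      exact he s hs.le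
  -- the limit
  set f1 : ℝ → ℝ := fun s => f (max s s1) with hf1
  have hf1mono : Monotone f1 := by
    intro s t hst
    exact hmono (mem_Ici.2 (le_max_right _ _)) (mem_Ici.2 (le_max_right _ _))
      (max_le_max hst le_rfl)
  have hbdd : BddAbove (range f1) := by
    refine ⟨F, ?_⟩
    rintro _ ⟨s, rfl⟩
    exact hF _ (le_max_right _ _)
  obtain ⟨L, hL⟩ : ∃ L, Tendsto f1 atTop (𝓝 L) := ⟨_, tendsto_atTop_ciSup hf1mono hbdd⟩
  have hfL : Tendsto f atTop (𝓝 L) := by
    refine hL.congr' ?_
    filter_upwards [eventually_ge_atTop s1] with s hs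
    simp only [hf1, max_eq_left hs]
  by_cases hL0 : L = 0
  · rw [hL0] at hfL
    exact hfL
  exfalso
  have hLpos : 0 < L ^ 2 := by positivity
  -- eventually f² ≥ L²/2
  have hsq : ∀ᶠ s in atTop, L ^ 2 / 2 ≤ f s ^ 2 := by
    have h1 : Tendsto (fun s => f s ^ 2) atTop (𝓝 (L ^ 2)) := hfL.pow 2
    have h2 : ∀ᶠ s in atTop, L ^ 2 / 2 < f s ^ 2 := h1.eventually (lt_mem_nhds (by linarith))
    exact h2.mono fun s hs => hs.le
  obtain ⟨s2, hs2⟩ := eventually_atTop.1 (hsq.and (eventually_ge_atTop s1))
  have hs2' : s1 ≤ s2 := (hs2 s2 le_rfl).2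
  have hs2pos : 0 < s2 := lt_of_lt_of_le hs1 hs2'
  set κ : ℝ := L ^ 2 / (2 * M) with hκ
  have hκpos : 0 < κ := by positivity
  have hlow : ∀ s, s2 ≤ s → κ / s ≤ e s := by
    intro s hs
    have hs' := hs2 s hs
    have hspos : 0 < s := lt_of_lt_of_le hs2pos hs
    have h1 : L ^ 2 / 2 ≤ (M * s) * e s :=
      (hs'.1.trans (hcs s hs'.2)).trans (mul_le_mul_of_nonneg_right (ha s hs'.2) (he s hs'.2))
    rw [hκ, div_div, div_le_iff₀ (by positivity)]
    nlinarith
  have hmono2 : MonotoneOn (fun s => f s - κ * Real.log s) (Ici s2) := by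
    have hd : ∀ s, s2 ≤ s → HasDerivAt (fun s => f s - κ * Real.log s) (e s - κ * s⁻¹) s := by
      intro s hs
      have hspos : 0 < s := lt_of_lt_of_le hs2pos hs
      exact (hf s (hs2'.trans hs)).sub ((Real.hasDerivAt_log hspos.ne').const_mul κ)
    refine monotoneOn_of_deriv_nonneg (convex_Ici s2) ?_ ?_ ?_
    · intro s hs
      exact (hd s hs).continuousAt.continuousWithinAt
    · intro s hs
      rw [interior_Ici] at hs
      exact (hd s hs.le).differentiableAt.differentiableWithinAt
    · intro s hs
      rw [interior_Ici] at hs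
      rw [(hd s hs.le).deriv]
      have := hlow s hs.le
      rw [div_eq_mul_inv] at this
      linarith
  have hlog : Tendsto (fun s => κ * Real.log s) atTop atTop :=
    Real.tendsto_log_atTop.const_mul_atTop hκpos
  obtain ⟨s3, hs3⟩ := (hlog.eventually_gt_atTop (F - f s2 + κ * Real.log s2)).and
    (eventually_ge_atTop s2) |>.exists
  have h1 := hmono2 (mem_Ici.2 le_rfl) (mem_Ici.2 hs3.2) hs3.2
  have h2 := hF s3 (hs2'.trans hs3.2)
  simp only at h1
  linarith [hs3.1]

/-- **The end ODE lemma.** -/
theorem end_ode {s0 C F : ℝ} {a e f g g' y : ℝ → ℝ} (hs0 : 0 < s0)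
    (ha0 : ∀ s, s0 ≤ s → 0 ≤ a s) (he : ∀ s, s0 ≤ s → 0 ≤ e s)
    (hf : ∀ s, s0 ≤ s → HasDerivAt f (e s) s)
    (ha : ∀ s, s0 ≤ s → HasDerivAt a (2 * f s + 2 * g s) s)
    (hg : ∀ s, s0 ≤ s → HasDerivAt g (g' s) s)
    (hconv : ∀ s, s0 ≤ s → 0 ≤ e s + g' s)
    (hF : ∀ s, s0 ≤ s → f s ≤ F)
    (hcs : ∀ s, s0 ≤ s → f s ^ 2 ≤ a s * e s)
    (hy0 : ∀ s, s0 ≤ s → 0 ≤ y s) (hy : ∀ s, s0 ≤ s → y s ≤ C / s)
    (hgy : ∀ s, s0 ≤ s → |g s| ≤ y s * a s)
    (hg' : ∀ s, s0 ≤ s → 2 * y s ^ 2 * a s - 2 * y s * Real.sqrt (a s * e s) ≤ g' s) :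
    Tendsto f atTop (𝓝 0) := by
  -- the derivative of `a` is monotone
  have hamono : MonotoneOn (fun s => 2 * f s + 2 * g s) (Ici s0) := by
    have hd : ∀ s, s0 ≤ s → HasDerivAt (fun s => 2 * f s + 2 * g s) (2 * e s + 2 * g' s) s :=
      fun s hs => ((hf s hs).const_mul 2).add ((hg s hs).const_mul 2)
    refine monotoneOn_of_deriv_nonneg (convex_Ici s0) ?_ ?_ ?_
    · intro s hs
      exact (hd s hs).continuousAt.continuousWithinAt
    · intro s hs
      rw [interior_Ici] at hs
      exact (hd s hs.le).differentiableAt.differentiableWithinAt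
    · intro s hs
      rw [interior_Ici] at hs
      rw [(hd s hs.le).deriv]
      have := hconv s hs.le
      linarith
  by_cases hneg : ∀ s, s0 ≤ s → 2 * f s + 2 * g s ≤ 0
  · -- `a` is nonincreasing, hence bounded
    have hanti : AntitoneOn a (Ici s0) := by
      refine antitoneOn_of_deriv_nonpos (convex_Ici s0) ?_ ?_ ?_
      · intro s hs
        exact (ha s hs).continuousAt.continuousWithinAt
      · intro s hs
        rw [interior_Ici] at hs
        exact (ha s hs.le).differentiableAt.differentiableWithinAt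
      · intro s hs
        rw [interior_Ici] at hs
        rw [(ha s hs.le).deriv]
        exact hneg s hs.le
    refine tendsto_zero_of_linear (M := (a s0 + 1) / s0) (F := F) (a := a) (e := e) ?_ hs0 hf he hF ?_
      hcs
    · have := ha0 s0 le_rfl
      positivity
    · intro s hs
      have h1 : a s ≤ a s0 := hanti (mem_Ici.2 le_rfl) (mem_Ici.2 hs) hs
      have h2 := ha0 s0 le_rfl
      calc a s ≤ a s0 + 1 := by linarith
        _ = (a s0 + 1) / s0 * s0 := by field_simp
        _ ≤ (a s0 + 1) / s0 * s := by
            apply mul_le_mul_of_nonneg_left hs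
            positivity
  · push Not at hneg
    obtain ⟨s1', hs1', hpos1⟩ := hneg
    -- increase `s1` so that `a s1 > 0`
    set c : ℝ := 2 * f s1' + 2 * g s1' with hc
    have hcpos : 0 < c := hpos1
    have hder : ∀ s, s1' ≤ s → c ≤ 2 * f s + 2 * g s := by
      intro s hs
      exact hamono (mem_Ici.2 hs1') (mem_Ici.2 (hs1'.trans hs)) hs
    have hlin : MonotoneOn (fun s => a s - c * s) (Ici s1') := by
      have hd : ∀ s, s1' ≤ s → HasDerivAt (fun s => a s - c * s) (2 * f s + 2 * g s - c * 1) s :=
        fun s hs => (ha s (hs1'.trans hs)).sub ((hasDerivAt_id s).const_mul c)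
      refine monotoneOn_of_deriv_nonneg (convex_Ici s1') ?_ ?_ ?_
      · intro s hs
        exact (hd s hs).continuousAt.continuousWithinAt
      · intro s hs
        rw [interior_Ici] at hs
        exact (hd s hs.le).differentiableAt.differentiableWithinAt
      · intro s hs
        rw [interior_Ici] at hs
        rw [(hd s hs.le).deriv]
        have := hder s hs.le
        linarith
    set s1 : ℝ := s1' + 1 with hs1
    have hs1s0 : s0 ≤ s1 := by linarith
    have hs1pos : 0 < s1 := by linarith
    have hapos1 : 0 < a s1 := by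
      have h1 := hlin (mem_Ici.2 le_rfl) (mem_Ici.2 (show s1' ≤ s1 by linarith)) (by linarith)
      have h2 := ha0 s1' hs1'
      simp only at h1
      have h3 : c * s1 = c * s1' + c := by rw [hs1]; ring
      linarith
    have hamon : MonotoneOn a (Ici s1) := by
      refine monotoneOn_of_deriv_nonneg (convex_Ici s1) ?_ ?_ ?_
      · intro s hs
        exact (ha s (hs1s0.trans hs)).continuousAt.continuousWithinAt
      · intro s hs
        rw [interior_Ici] at hs
        exact (ha s (hs1s0.trans hs.le)).differentiableAt.differentiableWithinAt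
      · intro s hs
        rw [interior_Ici] at hs
        have hs' : s1 < s := hs
        rw [(ha s (hs1s0.trans hs'.le)).deriv]
        have := hder s (by linarith)
        linarith
    have hapos : ∀ s, s1 ≤ s → 0 < a s := fun s hs =>
      lt_of_lt_of_le hapos1 (hamon (mem_Ici.2 le_rfl) (mem_Ici.2 hs) hs)
    -- the function x = g / a
    set x : ℝ → ℝ := fun s => g s / a s with hx
    have hxd : ∀ s, s1 ≤ s →
        HasDerivAt x ((g' s * a s - g s * (2 * f s + 2 * g s)) / a s ^ 2) s := fun s hs =>
      (hg s (hs1s0.trans hs)).div (ha s (hs1s0.trans hs)) (hapos s hs).ne'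
    have hxy : ∀ s, s1 ≤ s → |x s| ≤ y s := by
      intro s hs
      rw [hx]
      simp only
      rw [abs_div, abs_of_pos (hapos s hs), div_le_iff₀ (hapos s hs)]
      exact hgy s (hs1s0.trans hs)
    -- lower bound of x'
    have hx' : ∀ s, s1 ≤ s → ∀ lam : ℝ, 0 < lam →
        -(lam * e s + 4 * C ^ 2 / (lam * a s * s ^ 2)) ≤
          (g' s * a s - g s * (2 * f s + 2 * g s)) / a s ^ 2 := by
      intro s hs lam hlam
      have hs' := hs1s0.trans hs
      have hspos : 0 < s := lt_of_lt_of_le hs1pos hs
      have hA := hapos s hs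
      have hE := he s hs'
      set r : ℝ := Real.sqrt (a s * e s) with hr
      have hr0 : 0 ≤ r := Real.sqrt_nonneg _
      have hr2 : r ^ 2 = a s * e s := Real.sq_sqrt (mul_nonneg hA.le hE)
      have hY0 := hy0 s hs'
      have hY := hy s hs'
      have hgY := hgy s hs'
      have hfr : |f s| ≤ r := by
        apply Real.abs_le_sqrt
        exact hcs s hs'
      have h1 : g s * f s ≤ y s * a s * r := by
        calc g s * f s ≤ |g s * f s| := le_abs_self _
          _ = |g s| * |f s| := abs_mul _ _
          _ ≤ (y s * a s) * r := mul_le_mul hgY hfr (abs_nonneg _) (by positivity)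
      have h2 : g s ^ 2 ≤ (y s * a s) ^ 2 := by
        rw [← sq_abs (g s)]
        exact pow_le_pow_left₀ (abs_nonneg _) hgY 2
      have h3 : (2 * y s ^ 2 * a s - 2 * y s * r) * a s ≤ g' s * a s :=
        mul_le_mul_of_nonneg_right (hg' s hs') hA.le
      have h4 : -(4 * y s * r * a s) ≤ g' s * a s - g s * (2 * f s + 2 * g s) := by
        nlinarith
      have h5 : -(4 * y s * r / a s) ≤
          (g' s * a s - g s * (2 * f s + 2 * g s)) / a s ^ 2 := by
        rw [le_div_iff₀ (by positivity)]
        have : -(4 * y s * r / a s) * a s ^ 2 = -(4 * y s * r * a s) := by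
          field_simp
        rw [this]
        exact h4
      refine le_trans ?_ h5
      apply neg_le_neg
      -- 4 y r / a ≤ lam e + 4 C² / (lam a s²)
      have h6 : 4 * y s * r / a s ≤ 4 * (C / s) * r / a s := by
        gcongr
      refine h6.trans ?_
      have h7 : lam * e s + 4 * C ^ 2 / (lam * a s * s ^ 2) - 4 * (C / s) * r / a s =
          (lam * r * s - 2 * C) ^ 2 / (lam * a s * s ^ 2) := by
        have : e s = r ^ 2 / a s := by
          rw [hr2]
          field_simp
        rw [this]
        field_simp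
        ring
      have h8 : 0 ≤ (lam * r * s - 2 * C) ^ 2 / (lam * a s * s ^ 2) := by positivity
      linarith
    -- x → 0
    have hx0 : Tendsto x atTop (𝓝 0) := by
      have hCs : Tendsto (fun s : ℝ => C / s) atTop (𝓝 0) := tendsto_const_nhds.div_atTop tendsto_id
      refine squeeze_zero_norm' ?_ hCs
      filter_upwards [eventually_ge_atTop s1] with s hs
      rw [Real.norm_eq_abs]
      exact (hxy s hs).trans (hy s (hs1s0.trans hs))
    -- lower bound of f
    have hfmono : MonotoneOn f (Ici s0) := by
      refine monotoneOn_of_deriv_nonneg (convex_Ici s0) ?_ ?_ ?_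
      · intro s hs
        exact (hf s hs).continuousAt.continuousWithinAt
      · intro s hs
        rw [interior_Ici] at hs
        exact (hf s hs.le).differentiableAt.differentiableWithinAt
      · intro s hs
        rw [interior_Ici] at hs
        rw [(hf s hs.le).deriv]
        exact he s hs.le
    set F0 : ℝ := F - f s0 with hF0
    have hF00 : 0 ≤ F0 := by
      have := hF s0 le_rfl
      linarith
    have hxbound : ∀ s, s1 ≤ s → x s ≤ (F0 + 4 * C ^ 2) / Real.sqrt (s * a s) := by
      intro s hs
      have hspos : 0 < s := lt_of_lt_of_le hs1pos hs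
      have hA := hapos s hs
      set q : ℝ := Real.sqrt (s * a s) with hq
      have hqpos : 0 < q := Real.sqrt_pos.2 (by positivity)
      have hq2 : q ^ 2 = s * a s := Real.sq_sqrt (by positivity)
      set lam : ℝ := 1 / q with hlam
      have hlampos : 0 < lam := by positivity
      -- G is monotone on [s, ∞)
      set G : ℝ → ℝ := fun t => x t + lam * f t - 4 * C ^ 2 / (lam * a s) * t⁻¹ with hG
      have hGd : ∀ t, s ≤ t → HasDerivAt G
          ((g' t * a t - g t * (2 * f t + 2 * g t)) / a t ^ 2 + lam * e t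
            - 4 * C ^ 2 / (lam * a s) * (-(t ^ 2)⁻¹)) t := by
        intro t ht
        have htpos : 0 < t := lt_of_lt_of_le hspos ht
        exact ((hxd t (hs.trans ht)).add ((hf t (hs1s0.trans (hs.trans ht))).const_mul lam)).sub
          ((hasDerivAt_inv htpos.ne').const_mul _)
      have hGmono : MonotoneOn G (Ici s) := by
        refine monotoneOn_of_deriv_nonneg (convex_Ici s) ?_ ?_ ?_
        · intro t ht
          exact (hGd t ht).continuousAt.continuousWithinAt
        · intro t ht
          rw [interior_Ici] at ht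
          exact (hGd t ht.le).differentiableAt.differentiableWithinAt
        · intro t ht
          rw [interior_Ici] at ht
          have ht' : s ≤ t := ht.le
          have htpos : 0 < t := lt_of_lt_of_le hspos ht'
          rw [(hGd t ht').deriv]
          have h1 := hx' t (hs.trans ht') lam hlampos
          have h2 : a s ≤ a t := hamon (mem_Ici.2 hs) (mem_Ici.2 (hs.trans ht')) ht'
          have h3 : 4 * C ^ 2 / (lam * a t * t ^ 2) ≤ 4 * C ^ 2 / (lam * a s) * (t ^ 2)⁻¹ := by
            rw [← div_eq_mul_inv, div_div]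
            apply div_le_div_of_nonneg_left (by positivity) (by positivity)
            gcongr
          have h4 : 4 * C ^ 2 / (lam * a s) * (-(t ^ 2)⁻¹) =
              -(4 * C ^ 2 / (lam * a s) * (t ^ 2)⁻¹) := by ring
          rw [h4]
          linarith
      -- upper bound of G at infinity
      have hGle : ∀ t, s ≤ t → G t ≤ x t + lam * F := by
        intro t ht
        have htpos : 0 < t := lt_of_lt_of_le hspos ht
        have h1 := hF t (hs1s0.trans (hs.trans ht))
        have h2 : lam * f t ≤ lam * F := mul_le_mul_of_nonneg_left h1 hlampos.le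
        have h3 : 0 ≤ 4 * C ^ 2 / (lam * a s) * t⁻¹ := by positivity
        simp only [hG]
        linarith
      have hlim : Tendsto (fun t => x t + lam * F) atTop (𝓝 (0 + lam * F)) :=
        hx0.add tendsto_const_nhds
      have hGs : G s ≤ 0 + lam * F := by
        refine ge_of_tendsto hlim ?_
        filter_upwards [eventually_ge_atTop s] with t ht
        exact (hGmono (mem_Ici.2 le_rfl) (mem_Ici.2 ht) ht).trans (hGle t ht)
      simp only [hG] at hGs
      have h1 : f s0 ≤ f s := hfmono (mem_Ici.2 le_rfl) (mem_Ici.2 (hs1s0.trans hs)) (hs1s0.trans hs)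
      have h2 : lam * f s0 ≤ lam * f s := mul_le_mul_of_nonneg_left h1 hlampos.le
      have h3 : 4 * C ^ 2 / (lam * a s) * s⁻¹ = 4 * C ^ 2 / q := by
        rw [hlam]
        have : 1 / q * a s = a s / q := by ring
        rw [this]
        rw [div_div_eq_mul_div]
        rw [← div_eq_mul_inv, div_div]
        rw [div_eq_div_iff (by positivity) (by positivity)]
        have : a s * s = q ^ 2 := by rw [hq2]; ring
        rw [this]
        ring
      rw [h3] at hGs
      have h4 : (F0 + 4 * C ^ 2) / q = lam * F - lam * f s0 + 4 * C ^ 2 / q := by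
        rw [hF0, hlam]
        ring
      rw [h4]
      linarith
    -- g ≤ K sqrt (a / s)
    set K : ℝ := F0 + 4 * C ^ 2 with hK
    have hK0 : 0 ≤ K := by positivity
    have hgb : ∀ s, s1 ≤ s → g s ≤ K * Real.sqrt (a s / s) := by
      intro s hs
      have hspos : 0 < s := lt_of_lt_of_le hs1pos hs
      have hA := hapos s hs
      have h1 := hxbound s hs
      have h2 : g s = x s * a s := by
        simp only [hx]
        field_simp
      rw [h2]
      have h3 : Real.sqrt (a s / s) = a s / Real.sqrt (s * a s) := by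
        rw [eq_div_iff (Real.sqrt_pos.2 (by positivity)).ne', ← Real.sqrt_mul (by positivity)]
        have : a s / s * (s * a s) = a s ^ 2 := by field_simp
        rw [this, Real.sqrt_sq hA.le]
      rw [h3]
      calc x s * a s ≤ K / Real.sqrt (s * a s) * a s := mul_le_mul_of_nonneg_right h1 hA.le
        _ = K * (a s / Real.sqrt (s * a s)) := by ring
    -- barrier
    obtain ⟨M, hMpos, hM1, hM2⟩ : ∃ M : ℝ, 0 < M ∧ a s1 ≤ M * s1 ∧
        2 * |F| + 2 * (K * Real.sqrt M) < M := by
      refine ⟨max (a s1 / s1) ((2 * |F| + 1 + 2 * K) ^ 2 + 1), ?_, ?_, ?_⟩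
      · refine lt_of_lt_of_le ?_ (le_max_right _ _)
        positivity
      · have : a s1 = a s1 / s1 * s1 := by field_simp
        calc a s1 = a s1 / s1 * s1 := this
          _ ≤ _ := mul_le_mul_of_nonneg_right (le_max_left _ _) hs1pos.le
      · set M : ℝ := max (a s1 / s1) ((2 * |F| + 1 + 2 * K) ^ 2 + 1) with hM
        have hM' : (2 * |F| + 1 + 2 * K) ^ 2 + 1 ≤ M := le_max_right _ _
        have hb : 0 ≤ 2 * |F| + 1 + 2 * K := by positivity
        have hMge1 : 1 ≤ M := by
          have : 0 ≤ (2 * |F| + 1 + 2 * K) ^ 2 := by positivity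
          linarith
        set m : ℝ := Real.sqrt M with hm
        have hm2 : m ^ 2 = M := Real.sq_sqrt (by linarith)
        have hm0 : 0 ≤ m := Real.sqrt_nonneg _
        have hmb : 2 * |F| + 1 + 2 * K < m := by
          apply Real.lt_sqrt_of_sq_lt
          linarith
        have hm1 : 1 ≤ m := by
          have := abs_nonneg F
          linarith
        rw [← hm2]
        have h1 : 2 * |F| ≤ 2 * |F| * m := by
          have := abs_nonneg F
          nlinarith
        nlinarith
    have hbar : ∀ s, s1 ≤ s → a s ≤ M * s := by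
      intro s hs
      have key := image_le_of_deriv_right_lt_deriv_boundary (f := a)
        (f' := fun s => 2 * f s + 2 * g s) (a := s1) (b := s)
        (B := fun s => M * s) (B' := fun _ => M * 1)
        (fun t ht => (ha t (hs1s0.trans ht.1)).continuousAt.continuousWithinAt)
        (fun t ht => (ha t (hs1s0.trans ht.1)).hasDerivWithinAt) hM1
        (fun t => (hasDerivAt_id t).const_mul M) ?_
      · exact key (right_mem_Icc.2 hs)
      · intro t ht heq
        have htpos : 0 < t := lt_of_lt_of_le hs1pos ht.1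
        have h1 := hgb t ht.1
        have h2 : a t / t = M := by
          rw [heq]
          field_simp
        rw [h2] at h1
        have h3 := hF t (hs1s0.trans ht.1)
        have h4 := le_abs_self F
        simp only [mul_one]
        linarith
    exact tendsto_zero_of_linear (s1 := s1) (M := M) (F := F) (a := a) (e := e) hMpos hs1pos
      (fun s hs => hf s (hs1s0.trans hs)) (fun s hs => he s (hs1s0.trans hs))
      (fun s hs => hF s (hs1s0.trans hs)) hbar (fun s hs => hcs s (hs1s0.trans hs))

end Crest.Agent.R276.IpcE1_827
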