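/-
R276 (S0419), IPC (post 755, helper735), one end of a punctured line (helper659).

* `end5` : the differential inequality argument of step (5) (no exact harmonic forms):
  on a cylinder end the boundary term `f` tends to zero.
* `end2` : a convex function with sublinear growth is nonincreasing.
-/
import Mathlib.Analysis.Calculus.MeanValue
import Mathlib.Analysis.SpecialFunctions.Integrals.Basic
import Mathlib.MeasureTheory.Integral.IntegralEqImproper
import Mathlib.Analysis.Convex.Slope
import Mathlib.Analysis.SpecialFunctions.Pow.Asymptotics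

set_option autoImplicit false

open Set Filter Topology

namespace Crest.Agent.R276.IpcEnd_659

/-- monotonicity from a nonnegative derivative on a half line -/
theorem mono_of_deriv {s0 : ℝ} {f f' : ℝ → ℝ} (hf : ∀ s, s0 ≤ s → HasDerivAt f (f' s) s)
    (h : ∀ s, s0 ≤ s → 0 ≤ f' s) : MonotoneOn f (Ici s0) := by
  refine monotoneOn_of_deriv_nonneg (convex_Ici s0) (fun s hs => (hf s hs).continuousAt.continuousWithinAt)
    (fun s hs => (hf s (interior_subset hs)).differentiableAt.differentiableWithinAt) ?_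
  intro s hs
  rw [(hf s (interior_subset hs)).deriv]
  exact h s (interior_subset hs)

/-- `e ≥ c / s` is impossible if `f` is bounded above -/
theorem no_log {s0 c B : ℝ} (hs0 : 0 < s0) (hc : 0 < c) {f e : ℝ → ℝ}
    (hf : ∀ s, s0 ≤ s → HasDerivAt f (e s) s) (hB : ∀ s, s0 ≤ s → f s ≤ B)
    (he : ∀ s, s0 ≤ s → c / s ≤ e s) : False := by
  have h1 : MonotoneOn (fun s => f s - c * Real.log s) (Ici s0) := by
    refine mono_of_deriv (f' := fun s => e s - c * s⁻¹) (fun s hs => ?_) (fun s hs => ?_)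
    · exact (hf s hs).sub ((Real.hasDerivAt_log (hs0.trans_le hs).ne').const_mul c)
    · have := he s hs
      rw [div_eq_mul_inv] at this
      linarith
  have h2 : Tendsto (fun s => c * Real.log s) atTop atTop :=
    Real.tendsto_log_atTop.const_mul_atTop hc
  obtain ⟨s, hs1, hs2⟩ := ((h2.eventually_gt_atTop (B - (f s0 - c * Real.log s0))).and
    (eventually_ge_atTop s0)).exists
  have h3 := h1 (mem_Ici.2 le_rfl) (mem_Ici.2 hs2) hs2
  have h4 := hB s hs2
  simp only at h3
  linarith

/-- growth bound: if `a' ≤ K (1 + √(a/s))` then `a = O(s)` -/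
theorem growth {s0 K : ℝ} (hs0 : 0 < s0) (hK : 0 ≤ K) {a a' : ℝ → ℝ}
    (ha : ∀ s, s0 ≤ s → HasDerivAt a (a' s) s)
    (hK' : ∀ s, s0 ≤ s → a' s ≤ K * (1 + √(a s / s))) :
    ∃ M, 0 < M ∧ ∀ s, s0 ≤ s → a s ≤ M * s := by
  set M : ℝ := max (a s0 / s0) ((2 * K + 2) ^ 2) with hM
  have hM1 : (2 * K + 2) ^ 2 ≤ M := le_max_right _ _
  have hM0 : 0 < M := lt_of_lt_of_le (by positivity) hM1
  refine ⟨M, hM0, fun s hs => ?_⟩
  have key := image_le_of_deriv_right_lt_deriv_boundary (f := a) (f' := a') (a := s0) (b := s)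
    (B := fun t => M * t) (B' := fun _ => M)
    (fun t ht => (ha t ht.1).continuousAt.continuousWithinAt)
    (fun t ht => (ha t ht.1).hasDerivWithinAt)
    (by
      have : a s0 / s0 ≤ M := le_max_left _ _
      rw [div_le_iff₀ hs0] at this
      exact this)
    (fun t => by simpa using (hasDerivAt_id t).const_mul M)
    (fun t ht hat => by
      have ht0 : 0 < t := hs0.trans_le ht.1
      refine (hK' t ht.1).trans_lt ?_
      have h1 : a t / t = M := by
        rw [hat]; field_simp
      rw [h1]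
      have h2 : 2 * K + 2 ≤ √M := by
        rw [← Real.sqrt_sq (by linarith : (0:ℝ) ≤ 2 * K + 2)]
        exact Real.sqrt_le_sqrt hM1
      have h3 : √M * √M = M := Real.mul_self_sqrt hM0.le
      nlinarith [Real.sqrt_nonneg M])
  exact key (right_mem_Icc.2 hs)

/-- **(END5)** the boundary term of an exact harmonic form on a cylinder end tends to zero -/
theorem end5_aux {s0 C ℓ : ℝ} (hs0 : 0 < s0) {a e f g g' p : ℝ → ℝ}
    (ha0 : ∀ s, s0 ≤ s → 0 ≤ a s) (he0 : ∀ s, s0 ≤ s → 0 ≤ e s)
    (hp0 : ∀ s, s0 ≤ s → 0 ≤ p s)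
    (hf : ∀ s, s0 ≤ s → HasDerivAt f (e s) s)
    (ha : ∀ s, s0 ≤ s → HasDerivAt a (2 * f s + 2 * g s) s)
    (hg : ∀ s, s0 ≤ s → HasDerivAt g (g' s) s)
    (hg' : ∀ s, s0 ≤ s → 2 * p s - 2 * √(e s * p s) ≤ g' s)
    (hconv : ∀ s, s0 ≤ s → 0 ≤ e s + g' s)
    (hfa : ∀ s, s0 ≤ s → |f s| ≤ √(e s * a s))
    (hga : ∀ s, s0 ≤ s → |g s| ≤ √(p s * a s))
    (hpa : ∀ s, s0 ≤ s → p s ≤ (C / s) ^ 2 * a s)
    (hℓ : Tendsto f atTop (𝓝 ℓ)) : ℓ = 0 := by
  by_contra hne
  have hfm : MonotoneOn f (Ici s0) := mono_of_deriv hf he0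
  have hfl : ∀ s, s0 ≤ s → f s ≤ ℓ := fun s hs =>
    ge_of_tendsto hℓ ((eventually_ge_atTop s).mono fun t ht =>
      hfm (mem_Ici.2 hs) (mem_Ici.2 (hs.trans ht)) ht)
  -- eventually `|f| ≥ c`
  set c : ℝ := |ℓ| / 2 with hc
  have hc0 : 0 < c := by positivity
  obtain ⟨s1, hs01, hs1⟩ : ∃ s1, s0 ≤ s1 ∧ ∀ s, s1 ≤ s → c ≤ |f s| := by
    have h1 : ∀ᶠ s in atTop, c < |f s| :=
      (hℓ.abs).eventually_const_lt (by rw [hc]; linarith [abs_pos.2 hne])
    obtain ⟨s1, h⟩ := (h1.and (eventually_ge_atTop s0)).exists_forall_of_atTop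
    exact ⟨max s0 s1, le_max_left _ _, fun s hs => (h s ((le_max_right _ _).trans hs)).1.le⟩
  have hea : ∀ s, s1 ≤ s → c ^ 2 ≤ e s * a s := by
    intro s hs
    have h0 := hs01.trans hs
    have h1 := (hs1 s hs).trans (hfa s h0)
    have h2 : 0 ≤ e s * a s := mul_nonneg (he0 s h0) (ha0 s h0)
    calc c ^ 2 ≤ (√(e s * a s)) ^ 2 := by gcongr
      _ = e s * a s := Real.sq_sqrt h2
  have hapos : ∀ s, s1 ≤ s → 0 < a s := by
    intro s hs
    have h0 := hs01.trans hs
    rcases (ha0 s h0).lt_or_eq with h | h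
    · exact h
    · have := hea s hs
      rw [← h, mul_zero] at this
      have : 0 < c ^ 2 := by positivity
      linarith
  -- it suffices to bound `a` linearly
  suffices hlin : ∃ s2 M, s1 ≤ s2 ∧ 0 < M ∧ ∀ s, s2 ≤ s → a s ≤ M * s by
    obtain ⟨s2, M, h12, hM, hlin⟩ := hlin
    have hs2 : 0 < s2 := hs0.trans_le (hs01.trans h12)
    refine no_log (s0 := s2) (c := c ^ 2 / M) (B := ℓ) hs2 (by positivity)
      (fun s hs => hf s (hs01.trans (h12.trans hs))) (fun s hs => hfl s (hs01.trans (h12.trans hs)))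
      (fun s hs => ?_)
    have h1 := hea s (h12.trans hs)
    have h2 := hapos s (h12.trans hs)
    have h3 := hlin s hs
    have hs' : 0 < s := hs2.trans_le hs
    have h4 : c ^ 2 / M / s = c ^ 2 / (M * s) := by field_simp
    rw [h4, div_le_iff₀ (by positivity)]
    calc c ^ 2 ≤ e s * a s := h1
      _ ≤ e s * (M * s) := mul_le_mul_of_nonneg_left h3 (he0 s (hs01.trans (h12.trans hs)))
  have hamono : MonotoneOn (fun s => 2 * f s + 2 * g s) (Ici s0) := by
    refine mono_of_deriv (f' := fun s => 2 * e s + 2 * g' s) (fun s hs => ?_) (fun s hs => ?_)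
    · exact ((hf s hs).const_mul 2).add ((hg s hs).const_mul 2)
    · have := hconv s hs
      linarith
  by_cases hcase : ∀ s, s1 ≤ s → 2 * f s + 2 * g s ≤ 0
  · -- `a` is bounded
    have hanti : AntitoneOn a (Ici s1) := by
      have h1 : MonotoneOn (fun s => - a s) (Ici s1) :=
        mono_of_deriv (f' := fun s => -(2 * f s + 2 * g s)) (fun s hs => (ha s (hs01.trans hs)).neg)
          (fun s hs => by have := hcase s hs; linarith)
      intro x hx y hy hxy
      have := h1 hx hy hxy
      simpa using this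
    have hs1' : 0 < s1 := hs0.trans_le hs01
    refine ⟨s1, a s1 / s1, le_rfl, div_pos (hapos s1 le_rfl) hs1', fun s hs => ?_⟩
    have h1 := hanti (mem_Ici.2 le_rfl) (mem_Ici.2 hs) hs
    calc a s ≤ a s1 := h1
      _ = a s1 / s1 * s1 := by field_simp
      _ ≤ a s1 / s1 * s := by
        have := hapos s1 le_rfl
        gcongr
  · push Not at hcase
    obtain ⟨s2, h12, h2⟩ := hcase
    have h02 : s0 ≤ s2 := hs01.trans h12
    have hs2 : 0 < s2 := hs0.trans_le h02
    have hamon : MonotoneOn a (Ici s2) :=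
      mono_of_deriv (fun s hs => ha s (h02.trans hs)) (fun s hs => by
        have := hamono (mem_Ici.2 h02) (mem_Ici.2 (h02.trans hs)) hs
        simp only at this
        linarith)
    set C' : ℝ := |C| with hC'
    have hC'0 : 0 ≤ C' := abs_nonneg C
    -- bound for `g`
    set F : ℝ := ℓ - f s0 with hF
    have hF0 : 0 ≤ F := by have := hfl s0 le_rfl; linarith
    -- auxiliary quantities
    have hy : ∀ t, s2 ≤ t → √(p t / a t) ≤ C' / t := by
      intro t ht
      have h0 := h02.trans ht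
      have hat := hapos t (h12.trans ht)
      have ht0 : 0 < t := hs2.trans_le ht
      refine Real.sqrt_le_iff.2 ⟨by positivity, ?_⟩
      rw [div_le_iff₀ hat, hC', div_pow, sq_abs, ← div_pow]
      exact hpa t h0
    have hx : ∀ t, s2 ≤ t → |g t / a t| ≤ √(p t / a t) := by
      intro t ht
      have h0 := h02.trans ht
      have hat := hapos t (h12.trans ht)
      rw [abs_div, abs_of_pos hat, div_le_iff₀ hat]
      refine (hga t h0).trans (le_of_eq ?_)
      rw [show p t * a t = p t / a t * (a t * a t) by field_simp,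
        Real.sqrt_mul (div_nonneg (hp0 t h0) hat.le), Real.sqrt_mul_self hat.le]
    have hxd : ∀ t, s2 ≤ t → HasDerivAt (fun t => g t / a t)
        ((g' t * a t - g t * (2 * f t + 2 * g t)) / (a t) ^ 2) t := fun t ht =>
      (hg t (h02.trans ht)).div (ha t (h02.trans ht)) (hapos t (h12.trans ht)).ne'
    have hxlow : ∀ t, s2 ≤ t → -(4 * (C' / t) * √(e t / a t)) ≤
        (g' t * a t - g t * (2 * f t + 2 * g t)) / (a t) ^ 2 := by
      intro t ht
      have h0 := h02.trans ht
      have hat := hapos t (h12.trans ht)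
      have ht0 : 0 < t := hs2.trans_le ht
      set x := g t / a t with hxdef
      set y := √(p t / a t) with hydef
      set z := √(e t / a t) with hzdef
      have hy0 : 0 ≤ y := Real.sqrt_nonneg _
      have hz0 : 0 ≤ z := Real.sqrt_nonneg _
      have hxy : |x| ≤ y := hx t ht
      have hyC : y ≤ C' / t := hy t ht
      have hyy : y ^ 2 = p t / a t := Real.sq_sqrt (div_nonneg (hp0 t h0) hat.le)
      have hzz : z ^ 2 = e t / a t := Real.sq_sqrt (div_nonneg (he0 t h0) hat.le)
      have hgx : g t = x * a t := by rw [hxdef]; field_simp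
      have hsq : √(e t * p t) = y * z * a t := by
        rw [show e t * p t = (y * z * a t) ^ 2 by
          have : p t = y ^ 2 * a t := by rw [hyy]; field_simp
          have h' : e t = z ^ 2 * a t := by rw [hzz]; field_simp
          rw [this, h']; ring]
        exact Real.sqrt_sq (by positivity)
      have hfz : |f t| ≤ z * a t := by
        refine (hfa t h0).trans (le_of_eq ?_)
        rw [show e t * a t = (z * a t) ^ 2 by
          have h' : e t = z ^ 2 * a t := by rw [hzz]; field_simp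
          rw [h']; ring]
        exact Real.sqrt_sq (by positivity)
      have hpp : p t = y ^ 2 * a t := by rw [hyy]; field_simp
      have hgl := hg' t h0
      rw [hsq, hpp] at hgl
      have e1 : (g' t * a t - g t * (2 * f t + 2 * g t)) / (a t) ^ 2
          = g' t / a t - x * (2 * f t / a t) - 2 * x ^ 2 := by
        rw [hgx]; field_simp; ring
      rw [e1]
      have e2 : 2 * y ^ 2 - 2 * (y * z) ≤ g' t / a t := by
        rw [le_div_iff₀ hat]
        linarith [hgl]
      have e3 : x * (2 * f t / a t) ≤ 2 * (y * z) := by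
        have h1 : |2 * f t / a t| ≤ 2 * z := by
          rw [abs_div, abs_of_pos hat, abs_mul, abs_two, div_le_iff₀ hat]
          linarith
        calc x * (2 * f t / a t) ≤ |x * (2 * f t / a t)| := le_abs_self _
          _ = |x| * |2 * f t / a t| := abs_mul _ _
          _ ≤ y * (2 * z) := mul_le_mul hxy h1 (abs_nonneg _) hy0
          _ = 2 * (y * z) := by ring
      have e4 : x ^ 2 ≤ y ^ 2 := by
        rw [← sq_abs]
        gcongr
      have e5 : y * z ≤ C' / t * z := mul_le_mul_of_nonneg_right hyC hz0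
      nlinarith
    have hx0 : Tendsto (fun t => g t / a t) atTop (𝓝 0) := by
      refine squeeze_zero_norm' (a := fun t => C' / t) ?_ ?_
      · filter_upwards [eventually_ge_atTop s2] with t ht
        rw [Real.norm_eq_abs]
        exact (hx t ht).trans (hy t ht)
      · exact tendsto_const_nhds.div_atTop tendsto_id
    have hgb : ∀ s, s2 ≤ s → g s / a s ≤ 2 * C' * (1 + F) / √(a s * s) := by
      intro s hs
      have has := hapos s (h12.trans hs)
      have hsp : 0 < s := hs2.trans_le hs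
      set k : ℝ := 2 * C' / √(a s) with hk
      have hk0 : 0 ≤ k := by positivity
      -- the monotone function
      have hH : MonotoneOn (fun t => g t / a t + k * (-(√s) * t⁻¹ + f t / √s)) (Ici s) := by
        refine mono_of_deriv (f' := fun t =>
          (g' t * a t - g t * (2 * f t + 2 * g t)) / (a t) ^ 2
            + k * (-(√s) * (-(t ^ 2)⁻¹) + e t / √s)) (fun t ht => ?_) (fun t ht => ?_)
        · have ht2 := hs.trans ht
          have htp : t ≠ 0 := (hsp.trans_le ht).ne'
          exact (hxd t ht2).add ((((hasDerivAt_inv htp).const_mul (-√s)).add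
            ((hf t (h02.trans ht2)).div_const _)).const_mul k)
        · have ht2 := hs.trans ht
          have htp : 0 < t := hsp.trans_le ht
          have hlow := hxlow t ht2
          have hat := hapos t (h12.trans ht2)
          have hmon : a s ≤ a t := hamon (mem_Ici.2 hs) (mem_Ici.2 ht2) ht
          have h1 : √(e t / a t) ≤ √(e t) / √(a s) := by
            rw [Real.sqrt_div (he0 t (h02.trans ht2))]
            have : √(a s) ≤ √(a t) := Real.sqrt_le_sqrt hmon
            have h' : 0 < √(a s) := Real.sqrt_pos.2 has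
            gcongr
          have h2 : 2 * (t⁻¹ * √(e t)) ≤ √s * (t ^ 2)⁻¹ + e t / √s := by
            have hss : 0 < √s := Real.sqrt_pos.2 hsp
            set q := √(√s) with hq
            have hq0 : 0 < q := Real.sqrt_pos.2 hss
            have hqq : q ^ 2 = √s := Real.sq_sqrt hss.le
            have hee : (√(e t)) ^ 2 = e t := Real.sq_sqrt (he0 t (h02.trans ht2))
            have h3 : √s * (t ^ 2)⁻¹ + e t / √s - 2 * (t⁻¹ * √(e t))
                = (q * t⁻¹ - √(e t) / q) ^ 2 := by
              rw [sub_sq, mul_pow, div_pow, hqq, hee, inv_pow]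
              field_simp
              ring
            nlinarith [sq_nonneg (q * t⁻¹ - √(e t) / q)]
          have h4 : 4 * (C' / t) * √(e t / a t) ≤ k * (√s * (t ^ 2)⁻¹ + e t / √s) := by
            calc 4 * (C' / t) * √(e t / a t) ≤ 4 * (C' / t) * (√(e t) / √(a s)) := by gcongr
              _ = k * (2 * (t⁻¹ * √(e t))) := by rw [hk]; field_simp; ring
              _ ≤ k * (√s * (t ^ 2)⁻¹ + e t / √s) := by gcongr
          have h5 : k * (-(√s) * (-(t ^ 2)⁻¹) + e t / √s) = k * (√s * (t ^ 2)⁻¹ + e t / √s) := by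
            ring
          rw [h5]
          linarith
      have hlim : Tendsto (fun t => g t / a t + k * (-(√s) * t⁻¹ + f t / √s)) atTop
          (𝓝 (0 + k * (-(√s) * 0 + ℓ / √s))) :=
        hx0.add (((tendsto_inv_atTop_zero.const_mul _).add (hℓ.div_const _)).const_mul k)
      have hle : g s / a s + k * (-(√s) * s⁻¹ + f s / √s) ≤ 0 + k * (-(√s) * 0 + ℓ / √s) :=
        ge_of_tendsto hlim ((eventually_ge_atTop s).mono fun t ht =>
          hH (mem_Ici.2 le_rfl) (mem_Ici.2 ht) ht)
      have hsq0 : 0 < √s := Real.sqrt_pos.2 hsp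
      have hsa0 : 0 < √(a s) := Real.sqrt_pos.2 has
      have hfs : ℓ - f s ≤ F := by
        have := hfm (mem_Ici.2 le_rfl) (mem_Ici.2 (h02.trans hs)) (h02.trans hs)
        rw [hF]; linarith
      have h6 : g s / a s ≤ k * ((1 + (ℓ - f s)) / √s) := by
        have h7 : √s * s⁻¹ = 1 / √s := by
          have h' : √s * √s = s := Real.mul_self_sqrt hsp.le
          rw [eq_div_iff hsq0.ne']
          calc √s * s⁻¹ * √s = (√s * √s) * s⁻¹ := by ring
            _ = 1 := by rw [h']; exact mul_inv_cancel₀ hsp.ne'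
        have h8 : k * ((1 + (ℓ - f s)) / √s) = k * (√s * s⁻¹ + ℓ / √s - f s / √s) := by
          rw [h7]; ring
        rw [h8]
        have h9 : k * (-(√s) * s⁻¹ + f s / √s) = - (k * (√s * s⁻¹)) + k * (f s / √s) := by ring
        have h10 : 0 + k * (-(√s) * 0 + ℓ / √s) = k * (ℓ / √s) := by ring
        rw [h9, h10] at hle
        have h11 : k * (√s * s⁻¹ + ℓ / √s - f s / √s) =
          k * (√s * s⁻¹) + k * (ℓ / √s) - k * (f s / √s) := by ring
        rw [h11]
        linarith
      refine h6.trans ?_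
      have h12 : 2 * C' * (1 + F) / √(a s * s) = k * ((1 + F) / √s) := by
        rw [hk, Real.sqrt_mul has.le]; field_simp
      rw [h12]
      gcongr
    -- conclude with `growth`
    set K : ℝ := max (2 * |ℓ|) (4 * C' * (1 + F)) with hKdef
    have hK0 : 0 ≤ K := le_max_of_le_left (by positivity)
    obtain ⟨M, hM, hMb⟩ := growth (s0 := s2) (K := K) hs2 hK0 (fun s hs => ha s (h02.trans hs))
      (fun s hs => by
        have has := hapos s (h12.trans hs)
        have hsp : 0 < s := hs2.trans_le hs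
        have h1 := hgb s hs
        rw [div_le_iff₀ has] at h1
        have h2 : 2 * C' * (1 + F) / √(a s * s) * a s = 2 * C' * (1 + F) * √(a s / s) := by
          rw [Real.sqrt_mul has.le, Real.sqrt_div has.le]
          have hsa0 : 0 < √(a s) := Real.sqrt_pos.2 has
          have hsq0 : 0 < √s := Real.sqrt_pos.2 hsp
          have h3 : a s = √(a s) * √(a s) := (Real.mul_self_sqrt has.le).symm
          field_simp
          rw [sq]
          exact congrArg (C' * ·) h3
        rw [h2] at h1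
        have h4 := hfl s (h02.trans hs)
        have h5 : 2 * |ℓ| ≤ K := le_max_left _ _
        have h6 : 4 * C' * (1 + F) ≤ K := le_max_right _ _
        have h7 : ℓ ≤ |ℓ| := le_abs_self _
        have h8 : 4 * C' * (1 + F) * √(a s / s) ≤ K * √(a s / s) :=
          mul_le_mul_of_nonneg_right h6 (Real.sqrt_nonneg _)
        nlinarith)
    exact ⟨s2, M, h12, hM, hMb⟩

/-- **(END5)** for `e` integrable -/
theorem end5 {s0 C : ℝ} (hs0 : 0 < s0) {a e f g g' p : ℝ → ℝ}
    (ha0 : ∀ s, s0 ≤ s → 0 ≤ a s) (he0 : ∀ s, s0 ≤ s → 0 ≤ e s)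
    (hp0 : ∀ s, s0 ≤ s → 0 ≤ p s)
    (hf : ∀ s, s0 ≤ s → HasDerivAt f (e s) s)
    (ha : ∀ s, s0 ≤ s → HasDerivAt a (2 * f s + 2 * g s) s)
    (hg : ∀ s, s0 ≤ s → HasDerivAt g (g' s) s)
    (hg' : ∀ s, s0 ≤ s → 2 * p s - 2 * √(e s * p s) ≤ g' s)
    (hconv : ∀ s, s0 ≤ s → 0 ≤ e s + g' s)
    (hfa : ∀ s, s0 ≤ s → |f s| ≤ √(e s * a s))
    (hga : ∀ s, s0 ≤ s → |g s| ≤ √(p s * a s))
    (hpa : ∀ s, s0 ≤ s → p s ≤ (C / s) ^ 2 * a s)
    (hint : MeasureTheory.IntegrableOn e (Ioi s0)) : Tendsto f atTop (𝓝 0) := by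
  have h1 : Tendsto f atTop (𝓝 (f s0 + ∫ t in Ioi s0, e t)) := by
    have h2 := MeasureTheory.intervalIntegral_tendsto_integral_Ioi s0 hint tendsto_id
    refine (h2.const_add (f s0)).congr' ?_
    filter_upwards [eventually_ge_atTop s0] with s hs
    have h3 : ∫ t in s0..s, e t = f s - f s0 := by
      refine intervalIntegral.integral_eq_sub_of_hasDerivAt (fun t ht => ?_) ?_
      · rw [uIcc_of_le hs] at ht
        exact hf t ht.1
      · rw [intervalIntegrable_iff_integrableOn_Ioc_of_le hs]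
        exact hint.mono_set Ioc_subset_Ioi_self
    simp only [id_eq]
    rw [h3]; ring
  have h2 := end5_aux hs0 ha0 he0 hp0 hf ha hg hg' hconv hfa hga hpa h1
  rwa [h2] at h1

/-- bounded-above version -/
theorem end5_bdd {s0 C B : ℝ} (hs0 : 0 < s0) {a e f g g' p : ℝ → ℝ}
    (ha0 : ∀ s, s0 ≤ s → 0 ≤ a s) (he0 : ∀ s, s0 ≤ s → 0 ≤ e s)
    (hp0 : ∀ s, s0 ≤ s → 0 ≤ p s)
    (hf : ∀ s, s0 ≤ s → HasDerivAt f (e s) s)
    (ha : ∀ s, s0 ≤ s → HasDerivAt a (2 * f s + 2 * g s) s)
    (hg : ∀ s, s0 ≤ s → HasDerivAt g (g' s) s)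
    (hg' : ∀ s, s0 ≤ s → 2 * p s - 2 * √(e s * p s) ≤ g' s)
    (hconv : ∀ s, s0 ≤ s → 0 ≤ e s + g' s)
    (hfa : ∀ s, s0 ≤ s → |f s| ≤ √(e s * a s))
    (hga : ∀ s, s0 ≤ s → |g s| ≤ √(p s * a s))
    (hpa : ∀ s, s0 ≤ s → p s ≤ (C / s) ^ 2 * a s)
    (hB : ∀ s, s0 ≤ s → f s ≤ B) : Tendsto f atTop (𝓝 0) := by
  have hfm : MonotoneOn f (Ici s0) := mono_of_deriv hf he0
  have h1 : ∃ ℓ, Tendsto f atTop (𝓝 ℓ) := by
    set F : ℝ → ℝ := fun s => f (max s0 s) with hF
    have hFm : Monotone F := fun x y hxy =>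
      hfm (mem_Ici.2 (le_max_left _ _)) (mem_Ici.2 (le_max_left _ _)) (max_le_max le_rfl hxy)
    have hFb : BddAbove (range F) := ⟨B, by rintro _ ⟨x, rfl⟩; exact hB _ (le_max_left _ _)⟩
    refine ⟨⨆ i, F i, (tendsto_atTop_ciSup hFm hFb).congr' ?_⟩
    filter_upwards [eventually_ge_atTop s0] with s hs
    rw [hF]; simp [max_eq_right hs]
  obtain ⟨ℓ, h1⟩ := h1
  have h2 := end5_aux hs0 ha0 he0 hp0 hf ha hg hg' hconv hfa hga hpa h1
  rwa [h2] at h1

/-- **(END2)** a convex function on a half line with `o(s)` growth is nonincreasing -/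
theorem end2 {s0 : ℝ} {A : ℝ → ℝ} (hA : ConvexOn ℝ (Ici s0) A)
    (hgr : ∀ ε > 0, ∀ᶠ s in atTop, A s ≤ ε * s) : AntitoneOn A (Ici s0) := by
  intro x hx y hy hxy
  rcases hxy.eq_or_lt with rfl | hlt
  · exact le_rfl
  by_contra hcon
  push Not at hcon
  set m : ℝ := (A y - A x) / (y - x) with hm
  have hm0 : 0 < m := div_pos (by linarith) (by linarith)
  -- for `s > y`: `A s ≥ A y + m (s - y)`
  have h1 : ∀ s, y < s → A y + m * (s - y) ≤ A s := by
    intro s hs
    have := hA.slope_mono_adjacent hx (mem_Ici.2 ((mem_Ici.1 hy).trans hs.le)) hlt hs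
    rw [← hm, le_div_iff₀ (by linarith)] at this
    linarith
  have h2 : Tendsto (fun s : ℝ => A y + m * (s - y) - m / 2 * s) atTop atTop := by
    have h3 : (fun s : ℝ => A y + m * (s - y) - m / 2 * s) = fun s => (m / 2) * s + (A y - m * y) := by
      funext s; ring
    rw [h3]
    exact tendsto_atTop_add_const_right _ _ (tendsto_id.const_mul_atTop (by positivity))
  obtain ⟨s, hs1, hs2, hs3⟩ := ((hgr (m / 2) (by positivity)).and
    ((eventually_gt_atTop y).and (h2.eventually_gt_atTop 0))).exists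
  have := h1 s hs2
  linarith

/-- **(END2)** logarithmic growth -/
theorem end2_log {s0 C D : ℝ} {A : ℝ → ℝ} (hA : ConvexOn ℝ (Ici s0) A)
    (hgr : ∀ᶠ s in atTop, A s ≤ C * Real.log s + D) : AntitoneOn A (Ici s0) := by
  refine end2 hA fun ε hε => ?_
  have h1 : Tendsto (fun s : ℝ => (C * Real.log s + D) / s) atTop (𝓝 0) := by
    have h2 : Tendsto (fun s : ℝ => Real.log s / s) atTop (𝓝 0) := by
      simpa using Real.isLittleO_log_id_atTop.tendsto_div_nhds_zero
    have h3 : Tendsto (fun s : ℝ => D / s) atTop (𝓝 0) := tendsto_const_nhds.div_atTop tendsto_id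
    have h4 := (h2.const_mul C).add h3
    simp only [mul_zero, add_zero] at h4
    refine h4.congr fun s => ?_
    ring
  filter_upwards [hgr, h1.eventually_lt_const hε, eventually_gt_atTop 0] with s hs1 hs2 hs3
  rw [div_lt_iff₀ hs3] at hs2
  linarith

/-- two differentiable form: `A' ` monotone -/
theorem end2_deriv {s0 C D : ℝ} {A A' : ℝ → ℝ} (hA : ∀ s, s0 ≤ s → HasDerivAt A (A' s) s)
    (hA' : MonotoneOn A' (Ici s0)) (hgr : ∀ᶠ s in atTop, A s ≤ C * Real.log s + D) :
    AntitoneOn A (Ici s0) := by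
  refine end2_log ?_ hgr
  refine MonotoneOn.convexOn_of_deriv (convex_Ici s0)
    (fun s hs => (hA s hs).continuousAt.continuousWithinAt)
    (fun s hs => (hA s (interior_subset hs)).differentiableAt.differentiableWithinAt) ?_
  intro x hx y hy hxy
  rw [(hA x (interior_subset hx)).deriv, (hA y (interior_subset hy)).deriv]
  exact hA' (interior_subset hx) (interior_subset hy) hxy

end Crest.Agent.R276.IpcEnd_659
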