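import Crest.Agent.R276.IpcTy_975

/-!
# R276, IPC fixed-s assembly (helper975), part 8: `Ex`, `Zc`, Stokes, smooth representatives
-/

set_option autoImplicit false

open Set Filter Topology MeasureTheory UniformSpace
open scoped ContDiff ComplexConjugate

namespace Crest.Agent.R276.IpcG1_975

open VCalc_442 IpcGr_975

variable {V : Type*} [NormedAddCommGroup V] [NormedSpace ℂ V] {X : Set ℂ}

namespace FB

variable {F : FB V X}

theorem d1_zero_out {φ : ℂ → V} (h : φ ∈ F.A0) {z : ℂ} (hz : z ∉ X) : F.d1 φ z = 0 := by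
  obtain ⟨_, K, hK, hKc, h0⟩ := h
  exact d1_zero_of hKc h0 fun h => hz (hK h)

theorem d2_zero_out {φ : ℂ → V} (h : φ ∈ F.A0) {z : ℂ} (hz : z ∉ X) : F.d2 φ z = 0 := by
  obtain ⟨_, K, hK, hKc, h0⟩ := h
  exact d2_zero_of hKc h0 fun h => hz (hK h)

theorem zero_out {φ : ℂ → V} (h : φ ∈ F.A0) {z : ℂ} (hz : z ∉ X) : φ z = 0 := by
  obtain ⟨_, K, hK, hKc, h0⟩ := h
  exact h0 z fun h => hz (hK h)

/-- smooth closed forms -/
def Clo (F : FB V X) (α : ℂ → V × V) : Prop :=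
  F.dbl.Sm α ∧ ∀ z ∈ X, F.d2 (fun x => (α x).1) z = F.d1 (fun x => (α x).2) z

/-- `D φ` for a smooth section is closed -/
theorem clo_Df {φ : ℂ → V} (h : F.Sm φ) : F.Clo (F.Df φ) :=
  ⟨sm_dbl.2 ⟨h.d1, h.d2⟩, fun _ hz => d2_d1 h hz⟩

end FB

namespace PV

variable {w : ℕ} (M : PV V X w)

theorem cs_S {φ ψ : ℂ → V} (hφ : φ ∈ M.A0) (hψ : M.Sm ψ) :
    CS X (fun x => M.S x (φ x) (ψ x)) := by
  refine ⟨fun z hz => M.sm_S hφ.1 hψ hz, ?_⟩
  obtain ⟨K, hK, hKc, h0⟩ := hφ.2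
  exact ⟨K, hK, hKc, fun x hx => by simp [h0 x hx]⟩

theorem dW_S' {φ ψ : ℂ → V} (hφ : φ ∈ M.A0) (hψ : M.Sm ψ) (z : ℂ) :
    dW (fun y => M.S y (φ y) (ψ y)) 1 z = M.S z (M.d2 φ z) (ψ z) + M.S z (φ z) (M.d1 ψ z) := by
  by_cases hz : z ∈ X
  · exact M.dW_S hφ.1 hψ hz
  · obtain ⟨K, hK, hKc, h0⟩ := hφ.2
    have hzK : z ∉ K := fun h => hz (hK h)
    have h1 : (fun y => M.S y (φ y) (ψ y)) =ᶠ[𝓝 z] fun _ => 0 := by
      filter_upwards [hKc.isClosed.isOpen_compl.mem_nhds hzK] with y hy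
      simp [h0 y hy]
    rw [dW_congr h1, dW_const, FB.d2_zero_out hφ hz, FB.zero_out hφ hz]
    simp

theorem dB_S' {φ ψ : ℂ → V} (hφ : φ ∈ M.A0) (hψ : M.Sm ψ) (z : ℂ) :
    dB (fun y => M.S y (φ y) (ψ y)) 1 z = M.S z (M.d1 φ z) (ψ z) + M.S z (φ z) (M.d2 ψ z) := by
  by_cases hz : z ∈ X
  · exact M.dB_S hφ.1 hψ hz
  · obtain ⟨K, hK, hKc, h0⟩ := hφ.2
    have hzK : z ∉ K := fun h => hz (hK h)
    have h1 : (fun y => M.S y (φ y) (ψ y)) =ᶠ[𝓝 z] fun _ => 0 := by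
      filter_upwards [hKc.isClosed.isOpen_compl.mem_nhds hzK] with y hy
      simp [h0 y hy]
    rw [dB_congr h1, dB_const, FB.d1_zero_out hφ hz, FB.zero_out hφ hz]
    simp

/-- integration by parts -/
theorem parts1 {φ ψ : ℂ → V} (hφ : φ ∈ M.A0) (hψ : M.Sm ψ) :
    ∫ z, M.S z (M.d1 φ z) (ψ z) = - ∫ z, M.S z (φ z) (M.d2 ψ z) := by
  have h := (M.cs_S hφ hψ).integral_dB 1
  simp only [M.dB_S' hφ hψ] at h
  rw [integral_add (M.cs_S (FB.d1_mem hφ) hψ).integrable (M.cs_S hφ hψ.d2).integrable] at h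
  exact eq_neg_of_add_eq_zero_left h

theorem parts2 {φ ψ : ℂ → V} (hφ : φ ∈ M.A0) (hψ : M.Sm ψ) :
    ∫ z, M.S z (M.d2 φ z) (ψ z) = - ∫ z, M.S z (φ z) (M.d1 ψ z) := by
  have h := (M.cs_S hφ hψ).integral_dW 1
  simp only [M.dW_S' hφ hψ] at h
  rw [integral_add (M.cs_S (FB.d2_mem hφ) hψ).integrable (M.cs_S hφ hψ.d1).integrable] at h
  exact eq_neg_of_add_eq_zero_left h

/-- **Stokes** -/
theorem stokes {φ : ℂ → V} (hφ : φ ∈ M.A0) {α : ℂ → V × V} (hα : M.toFB.dbl.Sm α) :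
    ∫ z, (M.S z (M.d1 φ z) (α z).1 - M.S z (M.d2 φ z) (α z).2) =
      - ∫ z, M.S z (φ z) (M.d2 (fun x => (α x).1) z - M.d1 (fun x => (α x).2) z) := by
  obtain ⟨h1, h2⟩ := FB.sm_dbl.1 hα
  rw [integral_sub (M.cs_S (FB.d1_mem hφ) h1).integrable (M.cs_S (FB.d2_mem hφ) h2).integrable,
    M.parts1 hφ h1, M.parts2 hφ h2]
  simp only [map_sub]
  rw [integral_sub (M.cs_S hφ h1.d2).integrable (M.cs_S hφ h2.d1).integrable]
  ring

variable [FiniteDimensional ℂ V]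

/-- `D φ` as an element of the Hilbert space -/
noncomputable def DL : M.toFB.A0 →ₗ[ℂ] M.L where
  toFun φ := ((M.mb.dbl.s0 (M.toFB.Df φ.1) (FB.Df_mem φ.2) : M.mb.dbl.H0) : M.L)
  map_add' φ ψ := by
    rw [← Completion.coe_add]
    congr 1
    refine MB.H0.ext ?_
    funext z
    rw [MB.add_f, MB.s0_f, MB.s0_f, MB.s0_f]
    by_cases hz : z ∈ X
    · exact Prod.ext (FB.d1_add φ.2.1 ψ.2.1 hz) (FB.d2_add φ.2.1 ψ.2.1 hz)
    · refine Prod.ext ?_ ?_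
      · show M.d1 _ z = M.d1 _ z + M.d1 _ z
        rw [FB.d1_zero_out φ.2 hz, FB.d1_zero_out ψ.2 hz, FB.d1_zero_out (φ + ψ).2 hz, add_zero]
      · show M.d2 _ z = M.d2 _ z + M.d2 _ z
        rw [FB.d2_zero_out φ.2 hz, FB.d2_zero_out ψ.2 hz, FB.d2_zero_out (φ + ψ).2 hz, add_zero]
  map_smul' c φ := by
    rw [RingHom.id_apply, ← Completion.coe_smul]
    congr 1
    refine MB.H0.ext ?_
    funext z
    rw [MB.smul_f, MB.s0_f, MB.s0_f]
    by_cases hz : z ∈ X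
    · exact Prod.ext (FB.d1_smul φ.2.1 c hz) (FB.d2_smul φ.2.1 c hz)
    · refine Prod.ext ?_ ?_
      · show M.d1 _ z = c • M.d1 _ z
        rw [FB.d1_zero_out φ.2 hz, FB.d1_zero_out (c • φ).2 hz, smul_zero]
      · show M.d2 _ z = c • M.d2 _ z
        rw [FB.d2_zero_out φ.2 hz, FB.d2_zero_out (c • φ).2 hz, smul_zero]

theorem DL_apply {φ : ℂ → V} (h : φ ∈ M.toFB.A0) :
    M.DL ⟨φ, h⟩ = ((M.mb.dbl.s0 (M.toFB.Df φ) (FB.Df_mem h) : M.mb.dbl.H0) : M.L) := rfl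

/-- closure of the exact compactly supported forms -/
noncomputable def Ex : Submodule ℂ M.L := (LinearMap.range M.DL).topologicalClosure

theorem ex_closed : IsClosed (M.Ex : Set M.L) := Submodule.isClosed_topologicalClosure _

theorem DL_mem_ex (φ : M.toFB.A0) : M.DL φ ∈ M.Ex :=
  Submodule.le_topologicalClosure _ ⟨φ, rfl⟩

/-- weakly closed forms -/
noncomputable def Zc : Submodule ℂ M.L where
  carrier := {u | ∀ e ∈ M.Ex, inner ℂ (M.be u) e = 0}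
  add_mem' := by
    intro u v hu hv e he
    rw [map_add, inner_add_left, hu e he, hv e he, add_zero]
  zero_mem' := by
    intro e _
    rw [map_zero, inner_zero_left]
  smul_mem' := by
    intro c u hu e he
    rw [map_smul, inner_smul_left, hu e he, mul_zero]

theorem mem_Zc {u : M.L} : u ∈ M.Zc ↔ ∀ e ∈ M.Ex, inner ℂ (M.be u) e = 0 := Iff.rfl

/-- it is enough to test with `D φ` -/
theorem mem_Zc' {u : M.L} : u ∈ M.Zc ↔ ∀ φ : M.toFB.A0, inner ℂ (M.be u) (M.DL φ) = 0 := by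
  constructor
  · intro h φ
    exact h _ (M.DL_mem_ex φ)
  · intro h e he
    have hcl : IsClosed {d : M.L | inner ℂ (M.be u) d = 0} :=
      isClosed_eq (by fun_prop) continuous_const
    have hsub : (LinearMap.range M.DL : Set M.L) ⊆ {d : M.L | inner ℂ (M.be u) d = 0} := by
      rintro _ ⟨φ, rfl⟩
      exact h φ
    exact closure_minimal hsub hcl he

/-- the smooth form `α` represents `u` -/
def Rep (u : M.L) (α : ℂ → V × V) : Prop :=
  M.toFB.dbl.Sm α ∧ ∀ ζ : M.mb.dbl.H0, inner ℂ (ζ : M.L) u = ∫ x, M.mb.dbl.G x (ζ.f x) (α x)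

theorem rep_coe (ζ : M.mb.dbl.H0) : M.Rep (ζ : M.L) ζ.f :=
  ⟨ζ.mem.1, fun ζ' => by rw [Completion.inner_coe]; rfl⟩

variable {M}

theorem Rep.add {u v : M.L} {α η : ℂ → V × V} (hu : M.Rep u α) (hv : M.Rep v η) :
    M.Rep (u + v) (fun x => α x + η x) := by
  refine ⟨hu.1.add hv.1, fun ζ => ?_⟩
  rw [inner_add_right, hu.2, hv.2, ← integral_add (M.mb.dbl.cs_left ζ.mem hu.1).integrable
    (M.mb.dbl.cs_left ζ.mem hv.1).integrable]
  simp only [map_add]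

theorem Rep.smul {u : M.L} {α : ℂ → V × V} (hu : M.Rep u α) (c : ℂ) :
    M.Rep (c • u) (fun x => c • α x) := by
  refine ⟨hu.1.const_smul c, fun ζ => ?_⟩
  rw [inner_smul_right, hu.2, ← integral_const_mul]
  simp only [map_smul, smul_eq_mul]

theorem Rep.sub {u v : M.L} {α η : ℂ → V × V} (hu : M.Rep u α) (hv : M.Rep v η) :
    M.Rep (u - v) (fun x => α x - η x) := by
  refine ⟨hu.1.sub hv.1, fun ζ => ?_⟩
  rw [inner_sub_right, hu.2, hv.2, ← integral_sub (M.mb.dbl.cs_left ζ.mem hu.1).integrable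
    (M.mb.dbl.cs_left ζ.mem hv.1).integrable]
  simp only [map_sub]

/-- adjoint fields -/
theorem Rep.op {A B : ℂ → (V × V →L[ℂ] V × V)} (hA : M.mb.dbl.Ok A) (hB : M.mb.dbl.Ok B)
    (h : ∀ x ∈ X, ∀ u v, M.mb.dbl.G x (A x u) v = M.mb.dbl.G x u (B x v))
    {u : M.L} {α : ℂ → V × V} (hu : M.Rep u α) :
    M.Rep (M.mb.dbl.opL B u) (fun x => B x (α x)) := by
  refine ⟨FB.Sm.app hB.1 hu.1, fun ζ => ?_⟩
  rw [← M.mb.dbl.op_adj hA hB h, M.mb.dbl.op_coe hA, hu.2]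
  refine integral_congr_ae (Eventually.of_forall fun x => ?_)
  simp only [MB.s0_f]
  by_cases hx : x ∈ X
  · exact h x hx _ _
  · simp [M.mb.dbl.f_eq_zero ζ hx]

theorem bt_adj {z : ℂ} (hz : z ∈ X) (u v : V × V) :
    M.mb.dbl.G z (M.bt z u) v = M.mb.dbl.G z u (M.bt z v) := by
  show M.Gf z (- M.Jf z u.1) v.1 + M.Gf z (M.Jf z u.2) v.2 =
    M.Gf z u.1 (- M.Jf z v.1) + M.Gf z u.2 (M.Jf z v.2)
  rw [map_neg, map_neg, neg_apply, M.G_adj_J hz, M.G_adj_J hz]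

theorem Rep.be {u : M.L} {α : ℂ → V × V} (hu : M.Rep u α) :
    M.Rep (M.be u) (fun x => M.bt x (α x)) :=
  Rep.op M.ok_bt M.ok_bt (fun _ hz u v => bt_adj hz u v) hu

/-- the pairing of `β u` with `D φ` -/
theorem Rep.pair {u : M.L} {α : ℂ → V × V} (hu : M.Rep u α) (φ : M.toFB.A0) :
    inner ℂ (M.DL φ) (M.be u) = 
      ∫ z, M.S z (φ.1 z) (M.d2 (fun x => (α x).1) z - M.d1 (fun x => (α x).2) z) := by
  have h1 := hu.be.2 (M.mb.dbl.s0 (M.toFB.Df φ.1) (FB.Df_mem φ.2))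
  have h2 : M.DL φ = ((M.mb.dbl.s0 (M.toFB.Df φ.1) (FB.Df_mem φ.2) : M.mb.dbl.H0) : M.L) := rfl
  rw [h2, h1, ← neg_neg (∫ z, M.S z (φ.1 z) (M.d2 (fun x => (α x).1) z - M.d1 (fun x => (α x).2) z)),
    ← M.stokes φ.2 hu.1, ← integral_neg]
  refine integral_congr_ae (Eventually.of_forall fun z => ?_)
  simp only [MB.s0_f]
  by_cases hz : z ∈ X
  · show M.Gf z (M.d1 φ.1 z) (- M.Jf z (α z).1) + M.Gf z (M.d2 φ.1 z) (M.Jf z (α z).2) = _
    rw [map_neg, ← M.G_adj_J hz, ← M.G_adj_J hz, M.G_J hz, M.G_J hz]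
    ring
  · have e1 : M.toFB.Df φ.1 z = 0 := Prod.ext (FB.d1_zero_out φ.2 hz) (FB.d2_zero_out φ.2 hz)
    rw [e1, FB.d1_zero_out φ.2 hz, FB.d2_zero_out φ.2 hz]
    simp

/-- closed smooth forms are weakly closed -/
theorem Rep.mem_Zc {u : M.L} {α : ℂ → V × V} (hu : M.Rep u α)
    (hc : ∀ z ∈ X, M.d2 (fun x => (α x).1) z = M.d1 (fun x => (α x).2) z) : u ∈ M.Zc := by
  rw [M.mem_Zc']
  intro φ
  rw [← inner_conj_symm, hu.pair φ]
  have : ∀ z, M.S z (φ.1 z) (M.d2 (fun x => (α x).1) z - M.d1 (fun x => (α x).2) z) = 0 := by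
    intro z
    by_cases hz : z ∈ X
    · rw [hc z hz, sub_self, map_zero]
    · rw [FB.zero_out φ.2 hz]; simp
  simp [this]

variable (M) in
theorem DL_mem_Zc (φ : M.toFB.A0) : M.DL φ ∈ M.Zc := by
  have h : M.Rep (M.DL φ) (M.toFB.Df φ.1) := M.rep_coe _
  exact h.mem_Zc (FB.clo_Df φ.2.1).2

variable (M) in
theorem zc_closed : IsClosed (M.Zc : Set M.L) := by
  have : (M.Zc : Set M.L) = ⋂ e ∈ M.Ex, {u | inner ℂ (M.be u) e = 0} := by
    ext u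
    simp only [SetLike.mem_coe, M.mem_Zc, mem_iInter, mem_ofPred_eq]
  rw [this]
  refine isClosed_biInter fun e _ => ?_
  exact isClosed_eq (by fun_prop) continuous_const

variable (M) in
theorem ex_le_zc : M.Ex ≤ M.Zc := by
  intro e he
  refine closure_minimal ?_ M.zc_closed he
  rintro _ ⟨φ, rfl⟩
  exact M.DL_mem_Zc φ

end PV

end Crest.Agent.R276.IpcG1_975
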