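import Mathlib

/-!
# R276, IPC fixed-s assembly (helper975): algebra of a grading operator with spectrum in `{0..w}`

`T` in a complex algebra with `∏_{q ≤ w} (T - q) = 0`.  `pr w p T` is the spectral projector
(Lagrange polynomial), `J w T = ∑ (-1)^p pr w p T` the Weil operator.
-/

set_option autoImplicit false

open Polynomial Finset

namespace Crest.Agent.R276.IpcGr_975

variable {R : Type*} [Ring R] [Algebra ℂ R]

/-- the polynomial `∏_{q ≤ w} (X - q)` -/
noncomputable def nod (w : ℕ) : ℂ[X] := ∏ q ∈ range (w + 1), (X - C (q : ℂ))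

/-- Lagrange polynomial at `p` for the nodes `0..w` (zero if `p > w`) -/
noncomputable def lag (w p : ℕ) : ℂ[X] :=
  if p ≤ w then ∏ q ∈ (range (w + 1)).erase p, (C (((p : ℂ) - (q : ℂ))⁻¹) * (X - C (q : ℂ)))
  else 0

theorem eval_lag (w p q : ℕ) (hq : q ≤ w) : (lag w p).eval (q : ℂ) = if p = q then 1 else 0 := by
  unfold lag
  by_cases hp : p ≤ w
  · rw [if_pos hp, eval_prod]
    by_cases h : p = q
    · subst h
      rw [if_pos rfl]
      apply Finset.prod_eq_one
      intro r hr
      have hne : (p : ℂ) - (r : ℂ) ≠ 0 := by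
        rw [sub_ne_zero]
        exact_mod_cast (Finset.ne_of_mem_erase hr).symm
      simp [inv_mul_cancel₀ hne]
    · rw [if_neg h]
      apply Finset.prod_eq_zero (i := q)
      · rw [Finset.mem_erase, Finset.mem_range]
        exact ⟨fun e => h e.symm, by omega⟩
      · simp
  · rw [if_neg hp, if_neg (by omega)]
    simp

theorem nod_dvd (w : ℕ) (f : ℂ[X]) (h : ∀ q : ℕ, q ≤ w → f.eval (q : ℂ) = 0) : nod w ∣ f := by
  unfold nod
  apply Finset.prod_dvd_of_coprime
  · intro a ha b hb hab
    have : (X - C (a : ℂ)) = X - C (a : ℂ) := rfl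
    exact isCoprime_X_sub_C_of_isUnit_sub (by
      rw [isUnit_iff_ne_zero, sub_ne_zero]
      exact_mod_cast hab)
  · intro q hq
    rw [Finset.mem_range] at hq
    rw [dvd_iff_isRoot]
    exact h q (by omega)

/-- spectrum condition -/
def Sp (w : ℕ) (T : R) : Prop := aeval T (nod w) = 0

theorem aeval_zero {w : ℕ} {T : R} (hT : Sp w T) (f : ℂ[X])
    (h : ∀ q : ℕ, q ≤ w → f.eval (q : ℂ) = 0) : aeval T f = 0 := by
  obtain ⟨g, hg⟩ := nod_dvd w f h
  rw [hg, map_mul, hT, zero_mul]

theorem aeval_eq {w : ℕ} {T : R} (hT : Sp w T) (f g : ℂ[X])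
    (h : ∀ q : ℕ, q ≤ w → f.eval (q : ℂ) = g.eval (q : ℂ)) : aeval T f = aeval T g := by
  have := aeval_zero hT (f - g) (fun q hq => by rw [eval_sub, h q hq, sub_self])
  rwa [map_sub, sub_eq_zero] at this

/-- spectral projector -/
noncomputable def pr (w p : ℕ) (T : R) : R := aeval T (lag w p)

theorem pr_gt {w p : ℕ} (h : w < p) (T : R) : pr w p T = 0 := by
  unfold pr lag
  rw [if_neg (by omega), map_zero]

theorem T_mul_pr {w : ℕ} {T : R} (hT : Sp w T) (p : ℕ) : T * pr w p T = (p : ℂ) • pr w p T := by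
  have h1 : T * pr w p T = aeval T (X * lag w p) := by rw [map_mul, aeval_X]; rfl
  have h2 : (p : ℂ) • pr w p T = aeval T (C (p : ℂ) * lag w p) := by
    rw [map_mul, aeval_C, Algebra.smul_def]; rfl
  rw [h1, h2]
  apply aeval_eq hT
  intro q hq
  rw [eval_mul, eval_mul, eval_lag w p q hq, eval_X, eval_C]
  split_ifs with h
  · rw [h]
  · simp

theorem pr_mul_T {w : ℕ} {T : R} (hT : Sp w T) (p : ℕ) : pr w p T * T = (p : ℂ) • pr w p T := by
  have h1 : pr w p T * T = aeval T (lag w p * X) := by rw [map_mul, aeval_X]; rfl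
  have h2 : (p : ℂ) • pr w p T = aeval T (C (p : ℂ) * lag w p) := by
    rw [map_mul, aeval_C, Algebra.smul_def]; rfl
  rw [h1, h2]
  apply aeval_eq hT
  intro q hq
  rw [eval_mul, eval_mul, eval_lag w p q hq, eval_X, eval_C]
  split_ifs with h
  · rw [h]; ring
  · simp

theorem pr_mul_pr {w : ℕ} {T : R} (hT : Sp w T) (p q : ℕ) :
    pr w p T * pr w q T = if p = q then pr w p T else 0 := by
  have h1 : pr w p T * pr w q T = aeval T (lag w p * lag w q) := by rw [map_mul]; rfl
  split_ifs with h
  · subst h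
    rw [h1]
    apply aeval_eq hT
    intro r hr
    rw [eval_mul, eval_lag w p r hr]
    split_ifs <;> simp
  · rw [h1]
    apply aeval_zero hT
    intro r hr
    rw [eval_mul, eval_lag w p r hr, eval_lag w q r hr]
    by_cases hp : p = r
    · have hq : ¬ q = r := fun e => h (hp.trans e.symm)
      rw [if_neg hq, mul_zero]
    · rw [if_neg hp, zero_mul]

theorem sum_pr {w : ℕ} {T : R} (hT : Sp w T) : ∑ p ∈ range (w + 1), pr w p T = 1 := by
  have h1 : ∑ p ∈ range (w + 1), pr w p T = aeval T (∑ p ∈ range (w + 1), lag w p) := by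
    rw [map_sum]; rfl
  rw [h1, ← map_one (aeval T : ℂ[X] →ₐ[ℂ] R)]
  apply aeval_eq hT
  intro q hq
  rw [eval_finsetSum, eval_one]
  rw [Finset.sum_eq_single q]
  · rw [eval_lag w q q hq, if_pos rfl]
  · intro b _ hb
    rw [eval_lag w b q hq, if_neg hb]
  · intro h
    exact absurd (Finset.mem_range.2 (by omega)) h

/-- Weil operator `(-1)^T` -/
noncomputable def J (w : ℕ) (T : R) : R := ∑ p ∈ range (w + 1), ((-1 : ℂ) ^ p) • pr w p T

theorem J_mul_pr {w : ℕ} {T : R} (hT : Sp w T) (p : ℕ) :
    J w T * pr w p T = ((-1 : ℂ) ^ p) • pr w p T := by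
  by_cases hp : p ≤ w
  · unfold J
    rw [Finset.sum_mul, Finset.sum_eq_single p]
    · rw [smul_mul_assoc, pr_mul_pr hT, if_pos rfl]
    · intro b _ hb
      rw [smul_mul_assoc, pr_mul_pr hT, if_neg hb, smul_zero]
    · intro h
      exact absurd (Finset.mem_range.2 (by omega)) h
  · rw [pr_gt (by omega), mul_zero, smul_zero]

theorem pr_mul_J {w : ℕ} {T : R} (hT : Sp w T) (p : ℕ) :
    pr w p T * J w T = ((-1 : ℂ) ^ p) • pr w p T := by
  by_cases hp : p ≤ w
  · unfold J
    rw [Finset.mul_sum, Finset.sum_eq_single p]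
    · rw [mul_smul_comm, pr_mul_pr hT, if_pos rfl]
    · intro b _ hb
      rw [mul_smul_comm, pr_mul_pr hT, if_neg (fun e => hb e.symm), smul_zero]
    · intro h
      exact absurd (Finset.mem_range.2 (by omega)) h
  · rw [pr_gt (by omega), zero_mul, smul_zero]

theorem J_mul_J {w : ℕ} {T : R} (hT : Sp w T) : J w T * J w T = 1 := by
  have h : J w T * J w T = ∑ p ∈ range (w + 1), ((-1 : ℂ) ^ p) • (pr w p T * J w T) := by
    conv_lhs => enter [1]; unfold J
    rw [Finset.sum_mul]
    simp_rw [smul_mul_assoc]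
  rw [h, ← sum_pr hT]
  apply Finset.sum_congr rfl
  intro p _
  rw [pr_mul_J hT, smul_smul, ← mul_pow]
  simp

/-- shifting: if `T x = p x` (acting on a module) then `pr p` fixes `x` and the others kill it -/
theorem pr_apply_of_eigen {M : Type*} [AddCommGroup M] [Module ℂ M] [Module R M]
    [IsScalarTower ℂ R M] {w : ℕ} {T : R} {x : M} {p : ℕ} (hp : p ≤ w)
    (hx : T • x = (p : ℂ) • x) (q : ℕ) :
    pr w q T • x = if q = p then x else 0 := by
  have key : ∀ f : ℂ[X], (aeval T f) • x = f.eval (p : ℂ) • x := by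
    intro f
    induction f using Polynomial.induction_on' with
    | add f g hf hg => rw [map_add, add_smul, hf, hg, eval_add, add_smul]
    | monomial n a =>
      rw [aeval_monomial, eval_monomial, mul_smul, mul_smul]
      have : ∀ n : ℕ, T ^ n • x = ((p : ℂ) ^ n) • x := by
        intro n
        induction n with
        | zero => simp
        | succ n ih =>
          rw [pow_succ, mul_smul, hx]
          have hcomm : T ^ n • (p : ℂ) • x = (p : ℂ) • T ^ n • x := by
            have h1 : (p : ℂ) • x = ((algebraMap ℂ R (p : ℂ)) : R) • x := by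
              rw [algebraMap_smul]
            rw [h1, ← mul_smul, ← Algebra.commutes, mul_smul, algebraMap_smul]
          rw [hcomm, ih, smul_smul, pow_succ, mul_comm]
      rw [this n, algebraMap_smul]
  unfold pr
  rw [key, eval_lag w q p hp]
  split_ifs <;> simp

end Crest.Agent.R276.IpcGr_975
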