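import Crest.Agent.R276.VCalcA_442
import Crest.Agent.R276.IpcGr_975

/-!
# R276, IPC fixed-s assembly (helper975), part 1

`FB V X`: a flat bundle on an open set `X` of the complex plane, in pointwise frames: `P x y : V_y → V_x` is the transport, defined near the
diagonal.  Sections are functions `φ : ℂ → V`; `tr z φ y = P z y (φ y)` is the section read in the
frame at `z`.
-/

set_option autoImplicit false

open Set Filter Topology MeasureTheory
open scoped ContDiff ComplexConjugate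

namespace Crest.Agent.R276.IpcG1_975

open VCalc_442 IpcGr_975

variable {V : Type*} [NormedAddCommGroup V] [NormedSpace ℂ V]

/-- flat bundle on an open subset `X` of the plane, in pointwise frames: `P x y : V_y → V_x` is the
transport, meaningful for `x`, `y` close to each other -/
structure FB (V : Type*) [NormedAddCommGroup V] [NormedSpace ℂ V] (X : Set ℂ) where
  /-- transport `V_y → V_x` for `y` near `x` -/
  P : ℂ → ℂ → (V →L[ℂ] V)
  op : IsOpen X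
  ndc : ∀ z ∈ X, ∃ U ∈ 𝓝 z, ∀ x ∈ U, ∀ y ∈ U, ∀ v ∈ U, P x y * P y v = P x v
  one : ∀ z ∈ X, P z z = 1

namespace FB

variable {X : Set ℂ} (F : FB V X)

/-- section read in the frame at `z` -/
def tr (z : ℂ) (φ : ℂ → V) (y : ℂ) : V := F.P z y (φ y)

/-- operator field read in the frame at `z` -/
def trO (z : ℂ) (A : ℂ → (V →L[ℂ] V)) (y : ℂ) : V →L[ℂ] V := F.P z y * A y * F.P y z

/-- a good neighbourhood -/
structure Nb (z : ℂ) (U : Set ℂ) : Prop where
  op : IsOpen U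
  mem : z ∈ U
  sub : U ⊆ X
  c : ∀ x ∈ U, ∀ y ∈ U, ∀ v ∈ U, F.P x y * F.P y v = F.P x v

variable {F}

theorem Nb.inv {z : ℂ} {U : Set ℂ} (h : F.Nb z U) {x y : ℂ} (hx : x ∈ U) (hy : y ∈ U) :
    F.P x y * F.P y x = 1 := by
  rw [h.c x hx y hy x hx, F.one x (h.sub hx)]

theorem Nb.inv_apply {z : ℂ} {U : Set ℂ} (h : F.Nb z U) {x y : ℂ} (hx : x ∈ U) (hy : y ∈ U)
    (v : V) : F.P x y (F.P y x v) = v := by
  have := h.inv hx hy
  calc F.P x y (F.P y x v) = (F.P x y * F.P y x) v := rfl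
    _ = v := by rw [this]; rfl

theorem Nb.comp_apply {z : ℂ} {U : Set ℂ} (h : F.Nb z U) {x y v : ℂ} (hx : x ∈ U) (hy : y ∈ U)
    (hv : v ∈ U) (u : V) : F.P x y (F.P y v u) = F.P x v u := by
  have := h.c x hx y hy v hv
  calc F.P x y (F.P y v u) = (F.P x y * F.P y v) u := rfl
    _ = _ := by rw [this]

/-- a good neighbourhood of `z` is a good neighbourhood of each of its points -/
theorem Nb.move {z z' : ℂ} {U : Set ℂ} (h : F.Nb z U) (hz' : z' ∈ U) : F.Nb z' U :=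
  ⟨h.op, hz', h.sub, h.c⟩

theorem Nb.mono {z : ℂ} {U U' : Set ℂ} (h : F.Nb z U) (hU' : IsOpen U') (hz : z ∈ U')
    (hs : U' ⊆ U) : F.Nb z U' :=
  ⟨hU', hz, hs.trans h.sub, fun x hx y hy v hv => h.c x (hs hx) y (hs hy) v (hs hv)⟩

variable (F)

theorem exists_nb {z : ℂ} (hz : z ∈ X) : ∃ U, F.Nb z U := by
  obtain ⟨U0, hU0, hc⟩ := F.ndc z hz
  have h1 : ∀ᶠ y in 𝓝 z, y ∈ U0 ∧ y ∈ X := by
    filter_upwards [hU0, F.op.mem_nhds hz] with y h1 h2
    exact ⟨h1, h2⟩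
  obtain ⟨U, hU, hop, hzU⟩ := eventually_nhds_iff.1 h1
  exact ⟨U, hop, hzU, fun y hy => (hU y hy).2,
    fun x hx y hy v hv => hc x (hU x hx).1 y (hU y hy).1 v (hU v hv).1⟩

/-- good neighbourhood inside a given neighbourhood -/
theorem exists_nb_sub {z : ℂ} (hz : z ∈ X) {W : Set ℂ} (hW : W ∈ 𝓝 z) :
    ∃ U, F.Nb z U ∧ U ⊆ W := by
  obtain ⟨U, hU⟩ := F.exists_nb hz
  obtain ⟨W', hW', hop, hzW⟩ := mem_nhds_iff.1 hW
  exact ⟨U ∩ W', hU.mono (hU.op.inter hop) ⟨hU.mem, hzW⟩ inter_subset_left,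
    fun x hx => hW' hx.2⟩

variable {F}

/-- change of frame -/
theorem Nb.tr_eq {z : ℂ} {U : Set ℂ} (h : F.Nb z U) {x y : ℂ} (hx : x ∈ U) (hy : y ∈ U)
    (φ : ℂ → V) : F.tr x φ y = F.P x z (F.tr z φ y) := by
  unfold tr
  rw [h.comp_apply hx h.mem hy]

theorem Nb.tr_eq' {z : ℂ} {U : Set ℂ} (h : F.Nb z U) {x y : ℂ} (hx : x ∈ U) (hy : y ∈ U)
    (φ : ℂ → V) : F.tr z φ y = F.P z x (F.tr x φ y) := by
  unfold tr
  rw [h.comp_apply h.mem hx hy]

theorem tr_self {z : ℂ} (hz : z ∈ X) (φ : ℂ → V) : F.tr z φ z = φ z := by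
  unfold tr
  rw [F.one z hz]
  rfl

/-- value from the frame at `z` -/
theorem Nb.val {z : ℂ} {U : Set ℂ} (h : F.Nb z U) {x : ℂ} (hx : x ∈ U)
    (φ : ℂ → V) : φ x = F.P x z (F.tr z φ x) := by
  unfold tr
  rw [h.inv_apply hx h.mem]

theorem Nb.trO_eq' {z : ℂ} {U : Set ℂ} (h : F.Nb z U) {x y : ℂ} (hx : x ∈ U) (hy : y ∈ U)
    (A : ℂ → (V →L[ℂ] V)) : F.trO z A y = F.P z x * F.trO x A y * F.P x z := by
  unfold trO
  rw [← h.c z h.mem x hx y hy, ← h.c y hy x hx z h.mem]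
  simp only [mul_assoc]

theorem Nb.trO_eq {z : ℂ} {U : Set ℂ} (h : F.Nb z U) {x y : ℂ} (hx : x ∈ U) (hy : y ∈ U)
    (A : ℂ → (V →L[ℂ] V)) : F.trO x A y = F.P x z * F.trO z A y * F.P z x := by
  unfold trO
  rw [← h.c x hx z h.mem y hy, ← h.c y hy z h.mem x hx]
  simp only [mul_assoc]

theorem Nb.tr_trO {z : ℂ} {U : Set ℂ} (h : F.Nb z U) {y : ℂ} (hy : y ∈ U)
    (A : ℂ → (V →L[ℂ] V)) (φ : ℂ → V) :
    F.tr z (fun y => A y (φ y)) y = F.trO z A y (F.tr z φ y) := by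
  unfold tr trO
  calc F.P z y (A y (φ y)) = F.P z y (A y (F.P y z (F.P z y (φ y)))) := by
        rw [h.inv_apply hy h.mem]
    _ = _ := rfl

variable (F)

/-- smooth section over `X` -/
def Sm (φ : ℂ → V) : Prop := ∀ z ∈ X, ContDiffAt ℝ ∞ (F.tr z φ) z

/-- smooth field of operators over `X` -/
def SmO (A : ℂ → (V →L[ℂ] V)) : Prop := ∀ z ∈ X, ContDiffAt ℝ ∞ (F.trO z A) z

/-- `∂` of a section -/
noncomputable def d1 (φ : ℂ → V) (z : ℂ) : V := dW (F.tr z φ) 1 z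

/-- `∂̄` of a section -/
noncomputable def d2 (φ : ℂ → V) (z : ℂ) : V := dB (F.tr z φ) 1 z

/-- `∂` of an operator field -/
noncomputable def D1 (A : ℂ → (V →L[ℂ] V)) (z : ℂ) : V →L[ℂ] V := dW (F.trO z A) 1 z

/-- `∂̄` of an operator field -/
noncomputable def D2 (A : ℂ → (V →L[ℂ] V)) (z : ℂ) : V →L[ℂ] V := dB (F.trO z A) 1 z

variable {F}

theorem Nb.contDiffOn {z : ℂ} {U : Set ℂ} (h : F.Nb z U) {φ : ℂ → V} (hφ : F.Sm φ) :
    ContDiffOn ℝ ∞ (F.tr z φ) U := by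
  intro x hx
  have h1 := hφ x (h.sub hx)
  have h2 : ContDiffAt ℝ ∞ (fun y => F.P z x (F.tr x φ y)) x :=
    ((F.P z x).restrictScalars ℝ).contDiff.contDiffAt.comp x h1
  refine (h2.congr_of_eventuallyEq ?_).contDiffWithinAt
  filter_upwards [h.op.mem_nhds hx] with y hy
  exact h.tr_eq' hx hy φ

theorem Nb.contDiffOnO {z : ℂ} {U : Set ℂ} (h : F.Nb z U) {A : ℂ → (V →L[ℂ] V)} (hA : F.SmO A) :
    ContDiffOn ℝ ∞ (F.trO z A) U := by
  intro x hx
  have h1 := hA x (h.sub hx)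
  have h2 : ContDiffAt ℝ ∞ (fun y => F.P z x * F.trO x A y * F.P x z) x :=
    (contDiffAt_const.mul h1).mul contDiffAt_const
  refine (h2.congr_of_eventuallyEq ?_).contDiffWithinAt
  filter_upwards [h.op.mem_nhds hx] with y hy
  exact h.trO_eq' hx hy A

theorem sm_of_nb {φ : ℂ → V} (h : ∀ z ∈ X, ∃ U, F.Nb z U ∧ ∃ x0 ∈ U, ContDiffOn ℝ ∞ (F.tr x0 φ) U) :
    F.Sm φ := by
  intro z hz
  obtain ⟨U, hU, x0, hx0, hc⟩ := h z hz
  have h1 : ContDiffAt ℝ ∞ (F.tr x0 φ) z := hc.contDiffAt (hU.op.mem_nhds hU.mem)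
  have h2 : ContDiffAt ℝ ∞ (fun y => F.P z x0 (F.tr x0 φ y)) z :=
    ((F.P z x0).restrictScalars ℝ).contDiff.contDiffAt.comp z h1
  refine h2.congr_of_eventuallyEq ?_
  filter_upwards [hU.op.mem_nhds hU.mem] with y hy
  exact hU.tr_eq' hx0 hy φ

theorem Nb.diffAt {z : ℂ} {U : Set ℂ} (h : F.Nb z U) {φ : ℂ → V} (hφ : F.Sm φ) {x : ℂ}
    (hx : x ∈ U) : DifferentiableAt ℝ (F.tr z φ) x :=
  VCalc_442.diffAt h.op (h.contDiffOn hφ) hx

theorem Nb.diffAtO {z : ℂ} {U : Set ℂ} (h : F.Nb z U) {A : ℂ → (V →L[ℂ] V)} (hA : F.SmO A) {x : ℂ}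
    (hx : x ∈ U) : DifferentiableAt ℝ (F.trO z A) x :=
  VCalc_442.diffAt h.op (h.contDiffOnO hA) hx

/-- `∂` in the frame at `z` -/
theorem Nb.tr_d1 {z : ℂ} {U : Set ℂ} (h : F.Nb z U) {φ : ℂ → V} (hφ : F.Sm φ) {x : ℂ}
    (hx : x ∈ U) : F.tr z (F.d1 φ) x = dW (F.tr z φ) 1 x := by
  have h1 : dW (F.tr z φ) 1 x = dW (fun y => F.P z x (F.tr x φ y)) 1 x := by
    apply dW_congr
    filter_upwards [h.op.mem_nhds hx] with y hy
    exact h.tr_eq' hx hy φ
  rw [h1, dW_clm (F.P z x) ((h.move hx).diffAt hφ hx)]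
  rfl

theorem Nb.tr_d2 {z : ℂ} {U : Set ℂ} (h : F.Nb z U) {φ : ℂ → V} (hφ : F.Sm φ) {x : ℂ}
    (hx : x ∈ U) : F.tr z (F.d2 φ) x = dB (F.tr z φ) 1 x := by
  have h1 : dB (F.tr z φ) 1 x = dB (fun y => F.P z x (F.tr x φ y)) 1 x := by
    apply dB_congr
    filter_upwards [h.op.mem_nhds hx] with y hy
    exact h.tr_eq' hx hy φ
  rw [h1, dB_clm (F.P z x) ((h.move hx).diffAt hφ hx)]
  rfl

theorem Sm.d1 {φ : ℂ → V} (hφ : F.Sm φ) : F.Sm (F.d1 φ) := by
  intro z hz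
  obtain ⟨U, hU⟩ := F.exists_nb hz
  have h1 := (contDiffOn_dW hU.op (hU.contDiffOn hφ) 1).contDiffAt (hU.op.mem_nhds hU.mem)
  refine h1.congr_of_eventuallyEq ?_
  filter_upwards [hU.op.mem_nhds hU.mem] with y hy
  exact hU.tr_d1 hφ hy

theorem Sm.d2 {φ : ℂ → V} (hφ : F.Sm φ) : F.Sm (F.d2 φ) := by
  intro z hz
  obtain ⟨U, hU⟩ := F.exists_nb hz
  have h1 := (contDiffOn_dB hU.op (hU.contDiffOn hφ) 1).contDiffAt (hU.op.mem_nhds hU.mem)
  refine h1.congr_of_eventuallyEq ?_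
  filter_upwards [hU.op.mem_nhds hU.mem] with y hy
  exact hU.tr_d2 hφ hy

theorem Sm.add {φ ψ : ℂ → V} (hφ : F.Sm φ) (hψ : F.Sm ψ) : F.Sm (fun z => φ z + ψ z) := by
  intro z hz
  have : F.tr z (fun z => φ z + ψ z) = fun y => F.tr z φ y + F.tr z ψ y := by
    funext y
    unfold tr
    rw [map_add]
  rw [this]
  exact (hφ z hz).add (hψ z hz)

theorem Sm.const_smul {φ : ℂ → V} (hφ : F.Sm φ) (c : ℂ) : F.Sm (fun z => c • φ z) := by
  intro z hz
  have : F.tr z (fun z => c • φ z) = fun y => c • F.tr z φ y := by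
    funext y
    unfold tr
    rw [map_smul]
  rw [this]
  exact (hφ z hz).const_smul c

theorem Sm.smul {φ : ℂ → V} (hφ : F.Sm φ) {f : ℂ → ℂ} (hf : ∀ z ∈ X, ContDiffAt ℝ ∞ f z) :
    F.Sm (fun z => f z • φ z) := by
  intro z hz
  have : F.tr z (fun z => f z • φ z) = fun y => f y • F.tr z φ y := by
    funext y
    unfold tr
    rw [map_smul]
  rw [this]
  exact (hf z hz).smul (hφ z hz)

theorem Sm.sub {φ ψ : ℂ → V} (hφ : F.Sm φ) (hψ : F.Sm ψ) : F.Sm (fun z => φ z - ψ z) := by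
  intro z hz
  have : F.tr z (fun z => φ z - ψ z) = fun y => F.tr z φ y - F.tr z ψ y := by
    funext y
    unfold tr
    rw [map_sub]
  rw [this]
  exact (hφ z hz).sub (hψ z hz)

theorem Sm.neg {φ : ℂ → V} (hφ : F.Sm φ) : F.Sm (fun z => - φ z) := by
  intro z hz
  have : F.tr z (fun z => - φ z) = fun y => - F.tr z φ y := by
    funext y
    unfold tr
    rw [map_neg]
  rw [this]
  exact (hφ z hz).neg

theorem sm_zero : F.Sm (fun _ => 0) := by
  intro z hz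
  have : F.tr z (fun _ => 0) = fun _ => 0 := by
    funext y
    unfold tr
    rw [map_zero]
  rw [this]
  exact contDiffAt_const

theorem Sm.app {A : ℂ → (V →L[ℂ] V)} {φ : ℂ → V} (hA : F.SmO A) (hφ : F.Sm φ) :
    F.Sm (fun z => A z (φ z)) := by
  intro z hz
  obtain ⟨U, hU⟩ := F.exists_nb hz
  have h1 : ContDiffAt ℝ ∞ (fun y => F.trO z A y (F.tr z φ y)) z := by
    have hc : ContDiffAt ℝ ∞ (fun y => (F.trO z A y).restrictScalars ℝ) z :=
      (ContinuousLinearMap.restrictScalarsL ℂ V V ℝ ℝ).contDiff.contDiffAt.comp z (hA z hz)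
    exact hc.clm_apply (hφ z hz)
  refine h1.congr_of_eventuallyEq ?_
  filter_upwards [hU.op.mem_nhds hU.mem] with y hy
  exact hU.tr_trO hy A φ

/-- Leibniz rules -/
theorem dW_clm_apply {A : ℂ → (V →L[ℂ] V)} {f : ℂ → V} {x : ℂ} (hA : DifferentiableAt ℝ A x)
    (hf : DifferentiableAt ℝ f x) (v : ℂ) :
    dW (fun y => A y (f y)) v x = dW A v x (f x) + A x (dW f v x) := by
  have key : ∀ v, fderiv ℝ (fun y => A y (f y)) x v = fderiv ℝ A x v (f x) + A x (fderiv ℝ f x v) := by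
    intro v
    let B : (V →L[ℂ] V) →L[ℝ] V →L[ℝ] V :=
      (ContinuousLinearMap.restrictScalarsL ℂ V V ℝ ℝ)
    have h := B.hasFDerivAt_of_bilinear hA.hasFDerivAt hf.hasFDerivAt
    have h' : HasFDerivAt (fun y => A y (f y)) _ x := h
    rw [h'.fderiv]
    simp only [add_apply]
    rw [add_comm]
    rfl
  unfold dW
  rw [key, key]
  simp only [map_sub, map_smul, smul_apply, sub_apply]
  module

theorem dB_clm_apply {A : ℂ → (V →L[ℂ] V)} {f : ℂ → V} {x : ℂ} (hA : DifferentiableAt ℝ A x)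
    (hf : DifferentiableAt ℝ f x) (v : ℂ) :
    dB (fun y => A y (f y)) v x = dB A v x (f x) + A x (dB f v x) := by
  have key : ∀ v, fderiv ℝ (fun y => A y (f y)) x v = fderiv ℝ A x v (f x) + A x (fderiv ℝ f x v) := by
    intro v
    let B : (V →L[ℂ] V) →L[ℝ] V →L[ℝ] V :=
      (ContinuousLinearMap.restrictScalarsL ℂ V V ℝ ℝ)
    have h := B.hasFDerivAt_of_bilinear hA.hasFDerivAt hf.hasFDerivAt
    have h' : HasFDerivAt (fun y => A y (f y)) _ x := h
    rw [h'.fderiv]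
    simp only [add_apply]
    rw [add_comm]
    rfl
  unfold dB
  rw [key, key]
  simp only [map_add, map_smul, smul_apply, add_apply]
  module

theorem dW_sesq (B : V →L⋆[ℂ] V →L[ℂ] ℂ) {f g : ℂ → V} {x : ℂ} (hf : DifferentiableAt ℝ f x)
    (hg : DifferentiableAt ℝ g x) (v : ℂ) :
    dW (fun y => B (f y) (g y)) v x = B (dB f v x) (g x) + B (f x) (dW g v x) := by
  have key : ∀ v, fderiv ℝ (fun y => B (f y) (g y)) x v =
      B (fderiv ℝ f x v) (g x) + B (f x) (fderiv ℝ g x v) := by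
    intro v
    let B' : V →L[ℝ] V →L[ℝ] ℂ :=
      LinearMap.mkContinuous₂
        ({ toFun := fun u => ((B u).restrictScalars ℝ).toLinearMap
           map_add' := by intro a b; ext c; simp
           map_smul' := by
            intro r a
            ext c
            have h1 : B (r • a) = (r : ℂ) • B a := by
              rw [← Complex.coe_smul r a, map_smulₛₗ, Complex.conj_ofReal]
            simp [h1] } : V →ₗ[ℝ] V →ₗ[ℝ] ℂ) ‖B‖
        (fun u v => B.le_opNorm₂ u v)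
    have h := B'.hasFDerivAt_of_bilinear hf.hasFDerivAt hg.hasFDerivAt
    have h' : HasFDerivAt (fun y => B (f y) (g y)) _ x := h
    rw [h'.fderiv]
    simp only [add_apply]
    rw [add_comm]
    rfl
  unfold dW dB
  rw [key, key]
  simp only [map_add, map_sub, map_smul, map_smulₛₗ, smul_apply,
    add_apply, sub_apply]
  simp only [one_div, map_inv₀, map_ofNat, Complex.conj_I, smul_eq_mul]
  ring

theorem dB_sesq (B : V →L⋆[ℂ] V →L[ℂ] ℂ) {f g : ℂ → V} {x : ℂ} (hf : DifferentiableAt ℝ f x)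
    (hg : DifferentiableAt ℝ g x) (v : ℂ) :
    dB (fun y => B (f y) (g y)) v x = B (dW f v x) (g x) + B (f x) (dB g v x) := by
  have key : ∀ v, fderiv ℝ (fun y => B (f y) (g y)) x v =
      B (fderiv ℝ f x v) (g x) + B (f x) (fderiv ℝ g x v) := by
    intro v
    let B' : V →L[ℝ] V →L[ℝ] ℂ :=
      LinearMap.mkContinuous₂
        ({ toFun := fun u => ((B u).restrictScalars ℝ).toLinearMap
           map_add' := by intro a b; ext c; simp
           map_smul' := by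
            intro r a
            ext c
            have h1 : B (r • a) = (r : ℂ) • B a := by
              rw [← Complex.coe_smul r a, map_smulₛₗ, Complex.conj_ofReal]
            simp [h1] } : V →ₗ[ℝ] V →ₗ[ℝ] ℂ) ‖B‖
        (fun u v => B.le_opNorm₂ u v)
    have h := B'.hasFDerivAt_of_bilinear hf.hasFDerivAt hg.hasFDerivAt
    have h' : HasFDerivAt (fun y => B (f y) (g y)) _ x := h
    rw [h'.fderiv]
    simp only [add_apply]
    rw [add_comm]
    rfl
  unfold dW dB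
  rw [key, key]
  simp only [map_add, map_sub, map_smul, map_smulₛₗ, smul_apply,
    add_apply, sub_apply]
  simp only [one_div, map_inv₀, map_ofNat, Complex.conj_I, smul_eq_mul]
  ring

end FB

end Crest.Agent.R276.IpcG1_975
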