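import Crest.Agent.R276.IpcG1_975

/-!
# R276, IPC fixed-s assembly (helper975), part 2: compactly supported sections, L² space

`F.A0`: smooth compactly supported sections.  `MB V X`: flat bundle with a smooth positive
Hermitian metric; `M.L2` = completion of `A0` for `∫ G(φ,ψ)`.
-/

set_option autoImplicit false

open Set Filter Topology MeasureTheory
open scoped ContDiff ComplexConjugate

namespace Crest.Agent.R276.IpcG1_975

open VCalc_442 IpcGr_975

variable {V : Type*} [NormedAddCommGroup V] [NormedSpace ℂ V]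

/-- a scalar function, smooth at the points of the open set `X`, zero off a compact part of `X` -/
structure CS (X : Set ℂ) (g : ℂ → ℂ) : Prop where
  sm : ∀ z ∈ X, ContDiffAt ℝ ∞ g z
  cp : ∃ K ⊆ X, IsCompact K ∧ ∀ x ∉ K, g x = 0

theorem CS.contDiff {X : Set ℂ} {g : ℂ → ℂ} (h : CS X g) : ContDiff ℝ ∞ g := by
  rw [contDiff_iff_contDiffAt]
  intro z
  obtain ⟨K, hK, hKc, h0⟩ := h.cp
  by_cases hz : z ∈ K
  · exact h.sm z (hK hz)
  · have : g =ᶠ[𝓝 z] fun _ => 0 := by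
      filter_upwards [hKc.isClosed.isOpen_compl.mem_nhds hz] with y hy
      exact h0 y hy
    exact contDiffAt_const.congr_of_eventuallyEq this

theorem CS.hasCompactSupport {X : Set ℂ} {g : ℂ → ℂ} (h : CS X g) : HasCompactSupport g := by
  obtain ⟨K, _, hKc, h0⟩ := h.cp
  exact HasCompactSupport.intro hKc h0

theorem CS.continuous {X : Set ℂ} {g : ℂ → ℂ} (h : CS X g) : Continuous g := h.contDiff.continuous

theorem CS.integrable {X : Set ℂ} {g : ℂ → ℂ} (h : CS X g) : Integrable g :=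
  h.continuous.integrable_of_hasCompactSupport h.hasCompactSupport

theorem CS.integral_fderiv {X : Set ℂ} {g : ℂ → ℂ} (h : CS X g) (v : ℂ) :
    ∫ x, fderiv ℝ g x v = 0 := by
  have hd : Differentiable ℝ g := h.contDiff.differentiable (by simp)
  have hc : Continuous (fun x => fderiv ℝ g x v) :=
    (h.contDiff.continuous_fderiv (by simp)).clm_apply continuous_const
  have hs : HasCompactSupport (fun x => fderiv ℝ g x v) := h.hasCompactSupport.fderiv_apply ℝ v
  have hi : Integrable (fun x => fderiv ℝ g x v) := hc.integrable_of_hasCompactSupport hs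
  have := integral_smul_fderiv_eq_neg_fderiv_smul_of_integrable (𝕜 := ℝ)
    (μ := (volume : Measure ℂ))
    (f := fun _ : ℂ => (1 : ℝ)) (g := g) (v := v) (by simp) (by simpa using hi)
    (by simpa using h.integrable) (fun x _ => differentiableAt_const _) (fun x _ => hd x)
  simpa using this

theorem CS.integral_dW {X : Set ℂ} {g : ℂ → ℂ} (h : CS X g) (v : ℂ) :
    ∫ x, dW g v x = 0 := by
  unfold dW
  have hc : ∀ v, Continuous (fun x => fderiv ℝ g x v) := fun v =>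
    (h.contDiff.continuous_fderiv (by simp)).clm_apply continuous_const
  have hs : ∀ v, HasCompactSupport (fun x => fderiv ℝ g x v) := fun v =>
    h.hasCompactSupport.fderiv_apply ℝ v
  have hi : ∀ v, Integrable (fun x => fderiv ℝ g x v) := fun v =>
    (hc v).integrable_of_hasCompactSupport (hs v)
  have hi2 : Integrable (fun x => Complex.I • fderiv ℝ g x (Complex.I • v)) := (hi _).smul Complex.I
  rw [integral_smul, integral_sub (hi _) hi2, integral_smul,
    h.integral_fderiv, h.integral_fderiv]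
  simp

theorem CS.integral_dB {X : Set ℂ} {g : ℂ → ℂ} (h : CS X g) (v : ℂ) :
    ∫ x, dB g v x = 0 := by
  unfold dB
  have hc : ∀ v, Continuous (fun x => fderiv ℝ g x v) := fun v =>
    (h.contDiff.continuous_fderiv (by simp)).clm_apply continuous_const
  have hs : ∀ v, HasCompactSupport (fun x => fderiv ℝ g x v) := fun v =>
    h.hasCompactSupport.fderiv_apply ℝ v
  have hi : ∀ v, Integrable (fun x => fderiv ℝ g x v) := fun v =>
    (hc v).integrable_of_hasCompactSupport (hs v)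
  have hi2 : Integrable (fun x => Complex.I • fderiv ℝ g x (Complex.I • v)) := (hi _).smul Complex.I
  rw [integral_smul, integral_add (hi _) hi2, integral_smul,
    h.integral_fderiv, h.integral_fderiv]
  simp

namespace FB

variable {X : Set ℂ} (F : FB V X)

/-- `φ` vanishes off a compact part of `X` -/
def Cpt (X : Set ℂ) (φ : ℂ → V) : Prop := ∃ K ⊆ X, IsCompact K ∧ ∀ x ∉ K, φ x = 0

/-- smooth compactly supported sections -/
def A0 : Submodule ℂ (ℂ → V) where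
  carrier := {φ | F.Sm φ ∧ Cpt X φ}
  add_mem' := by
    rintro φ ψ ⟨h1, K, hK, hKc, h2⟩ ⟨h3, L, hL, hLc, h4⟩
    refine ⟨h1.add h3, K ∪ L, union_subset hK hL, hKc.union hLc, ?_⟩
    intro x hx
    rw [Pi.add_apply, h2 x (fun h => hx (Or.inl h)), h4 x (fun h => hx (Or.inr h)), add_zero]
  zero_mem' := ⟨sm_zero, ∅, empty_subset _, isCompact_empty, fun _ _ => rfl⟩
  smul_mem' := by
    rintro c φ ⟨h1, K, hK, hKc, h2⟩
    refine ⟨h1.const_smul c, K, hK, hKc, ?_⟩
    intro x hx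
    rw [Pi.smul_apply, h2 x hx, smul_zero]

variable {F}

theorem mem_A0 {φ : ℂ → V} : φ ∈ F.A0 ↔ F.Sm φ ∧ Cpt X φ := Iff.rfl

theorem d1_add {φ ψ : ℂ → V} (hφ : F.Sm φ) (hψ : F.Sm ψ) {z : ℂ} (hz : z ∈ X) :
    F.d1 (φ + ψ) z = F.d1 φ z + F.d1 ψ z := by
  unfold d1
  rw [← dW_add ((hφ z hz).differentiableAt (by simp)) ((hψ z hz).differentiableAt (by simp))]
  congr 1
  funext y
  simp [tr]

theorem d2_add {φ ψ : ℂ → V} (hφ : F.Sm φ) (hψ : F.Sm ψ) {z : ℂ} (hz : z ∈ X) :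
    F.d2 (φ + ψ) z = F.d2 φ z + F.d2 ψ z := by
  unfold d2
  rw [← dB_add ((hφ z hz).differentiableAt (by simp)) ((hψ z hz).differentiableAt (by simp))]
  congr 1
  funext y
  simp [tr]

theorem d1_smul {φ : ℂ → V} (hφ : F.Sm φ) (c : ℂ) {z : ℂ} (hz : z ∈ X) :
    F.d1 (c • φ) z = c • F.d1 φ z := by
  unfold d1
  rw [← dW_const_smul c ((hφ z hz).differentiableAt (by simp))]
  congr 1
  funext y
  simp [tr]

theorem d2_smul {φ : ℂ → V} (hφ : F.Sm φ) (c : ℂ) {z : ℂ} (hz : z ∈ X) :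
    F.d2 (c • φ) z = c • F.d2 φ z := by
  unfold d2
  rw [← dB_const_smul c ((hφ z hz).differentiableAt (by simp))]
  congr 1
  funext y
  simp [tr]

theorem tr_zero_of {φ : ℂ → V} {K : Set ℂ} (hK : IsCompact K) (h : ∀ x ∉ K, φ x = 0) {z : ℂ}
    (hz : z ∉ K) : F.tr z φ =ᶠ[𝓝 z] fun _ => 0 := by
  filter_upwards [hK.isClosed.isOpen_compl.mem_nhds hz] with y hy
  unfold tr
  rw [h y hy, map_zero]

theorem d1_zero_of {φ : ℂ → V} {K : Set ℂ} (hK : IsCompact K) (h : ∀ x ∉ K, φ x = 0) {z : ℂ}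
    (hz : z ∉ K) : F.d1 φ z = 0 := by
  unfold d1
  rw [dW_congr (tr_zero_of hK h hz), dW_const]

theorem d2_zero_of {φ : ℂ → V} {K : Set ℂ} (hK : IsCompact K) (h : ∀ x ∉ K, φ x = 0) {z : ℂ}
    (hz : z ∉ K) : F.d2 φ z = 0 := by
  unfold d2
  rw [dB_congr (tr_zero_of hK h hz), dB_const]

theorem d1_mem {φ : ℂ → V} (h : φ ∈ F.A0) : F.d1 φ ∈ F.A0 := by
  obtain ⟨h1, K, hK, hKc, h2⟩ := h
  exact ⟨h1.d1, K, hK, hKc, fun x hx => d1_zero_of hKc h2 hx⟩

theorem d2_mem {φ : ℂ → V} (h : φ ∈ F.A0) : F.d2 φ ∈ F.A0 := by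
  obtain ⟨h1, K, hK, hKc, h2⟩ := h
  exact ⟨h1.d2, K, hK, hKc, fun x hx => d2_zero_of hKc h2 hx⟩

/-- a section of `A0` times a smooth function, or a smooth section times a function with compact
support, is in `A0` -/
theorem smul_mem_A0 {φ : ℂ → V} (h : F.Sm φ) {f : ℂ → ℂ} (hf : CS X f) :
    (fun z => f z • φ z) ∈ F.A0 := by
  refine ⟨h.smul hf.sm, ?_⟩
  obtain ⟨K, hK, hKc, h0⟩ := hf.cp
  exact ⟨K, hK, hKc, fun x hx => by simp [h0 x hx]⟩

theorem smul_mem_A0' {φ : ℂ → V} (h : φ ∈ F.A0) {f : ℂ → ℂ} (hf : ∀ z ∈ X, ContDiffAt ℝ ∞ f z) :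
    (fun z => f z • φ z) ∈ F.A0 := by
  refine ⟨h.1.smul hf, ?_⟩
  obtain ⟨K, hK, hKc, h0⟩ := h.2
  exact ⟨K, hK, hKc, fun x hx => by simp [h0 x hx]⟩

theorem app_mem_A0 {A : ℂ → (V →L[ℂ] V)} (hA : F.SmO A) {φ : ℂ → V} (h : φ ∈ F.A0) :
    (fun z => A z (φ z)) ∈ F.A0 := by
  refine ⟨Sm.app hA h.1, ?_⟩
  obtain ⟨K, hK, hKc, h0⟩ := h.2
  exact ⟨K, hK, hKc, fun x hx => by simp [h0 x hx]⟩

theorem Nb.trO_D1 {z : ℂ} {U : Set ℂ} (h : F.Nb z U) {A : ℂ → (V →L[ℂ] V)} (hA : F.SmO A) {x : ℂ}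
    (hx : x ∈ U) : F.trO z (F.D1 A) x = dW (F.trO z A) 1 x := by
  have h1 : dW (F.trO z A) 1 x = dW (fun y => F.P z x * F.trO x A y * F.P x z) 1 x := by
    apply dW_congr
    filter_upwards [h.op.mem_nhds hx] with y hy
    exact h.trO_eq' hx hy A
  let L : (V →L[ℂ] V) →L[ℂ] (V →L[ℂ] V) :=
    (ContinuousLinearMap.mul ℂ (V →L[ℂ] V) (F.P z x)).comp
      ((ContinuousLinearMap.mul ℂ (V →L[ℂ] V)).flip (F.P x z))
  have h2 : ∀ T : V →L[ℂ] V, F.P z x * T * F.P x z = L T := by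
    intro T
    rw [mul_assoc]
    rfl
  rw [h1]
  simp_rw [h2]
  rw [dW_clm L ((h.move hx).diffAtO hA hx), ← h2]
  rfl

theorem Nb.trO_D2 {z : ℂ} {U : Set ℂ} (h : F.Nb z U) {A : ℂ → (V →L[ℂ] V)} (hA : F.SmO A) {x : ℂ}
    (hx : x ∈ U) : F.trO z (F.D2 A) x = dB (F.trO z A) 1 x := by
  have h1 : dB (F.trO z A) 1 x = dB (fun y => F.P z x * F.trO x A y * F.P x z) 1 x := by
    apply dB_congr
    filter_upwards [h.op.mem_nhds hx] with y hy
    exact h.trO_eq' hx hy A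
  let L : (V →L[ℂ] V) →L[ℂ] (V →L[ℂ] V) :=
    (ContinuousLinearMap.mul ℂ (V →L[ℂ] V) (F.P z x)).comp
      ((ContinuousLinearMap.mul ℂ (V →L[ℂ] V)).flip (F.P x z))
  have h2 : ∀ T : V →L[ℂ] V, F.P z x * T * F.P x z = L T := by
    intro T
    rw [mul_assoc]
    rfl
  rw [h1]
  simp_rw [h2]
  rw [dB_clm L ((h.move hx).diffAtO hA hx), ← h2]
  rfl

theorem SmO.D1 {A : ℂ → (V →L[ℂ] V)} (hA : F.SmO A) : F.SmO (F.D1 A) := by
  intro z hz
  obtain ⟨U, hU⟩ := F.exists_nb hz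
  have h1 := (contDiffOn_dW hU.op (hU.contDiffOnO hA) 1).contDiffAt (hU.op.mem_nhds hU.mem)
  refine h1.congr_of_eventuallyEq ?_
  filter_upwards [hU.op.mem_nhds hU.mem] with y hy
  exact hU.trO_D1 hA hy

theorem SmO.D2 {A : ℂ → (V →L[ℂ] V)} (hA : F.SmO A) : F.SmO (F.D2 A) := by
  intro z hz
  obtain ⟨U, hU⟩ := F.exists_nb hz
  have h1 := (contDiffOn_dB hU.op (hU.contDiffOnO hA) 1).contDiffAt (hU.op.mem_nhds hU.mem)
  refine h1.congr_of_eventuallyEq ?_
  filter_upwards [hU.op.mem_nhds hU.mem] with y hy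
  exact hU.trO_D2 hA hy

/-- Leibniz rule for an operator field applied to a section -/
theorem d1_app {A : ℂ → (V →L[ℂ] V)} (hA : F.SmO A) {φ : ℂ → V} (hφ : F.Sm φ) {z : ℂ}
    (hz : z ∈ X) : F.d1 (fun z => A z (φ z)) z = F.D1 A z (φ z) + A z (F.d1 φ z) := by
  obtain ⟨U, hU⟩ := F.exists_nb hz
  unfold d1 D1
  have : F.tr z (fun z => A z (φ z)) =ᶠ[𝓝 z] fun y => F.trO z A y (F.tr z φ y) := by
    filter_upwards [hU.op.mem_nhds hU.mem] with y hy
    exact hU.tr_trO hy A φ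
  rw [dW_congr this, dW_clm_apply ((hA z hz).differentiableAt (by simp))
    ((hφ z hz).differentiableAt (by simp)), tr_self hz]
  congr 1
  unfold trO
  rw [F.one z hz, one_mul, mul_one]

theorem d2_app {A : ℂ → (V →L[ℂ] V)} (hA : F.SmO A) {φ : ℂ → V} (hφ : F.Sm φ) {z : ℂ}
    (hz : z ∈ X) : F.d2 (fun z => A z (φ z)) z = F.D2 A z (φ z) + A z (F.d2 φ z) := by
  obtain ⟨U, hU⟩ := F.exists_nb hz
  unfold d2 D2
  have : F.tr z (fun z => A z (φ z)) =ᶠ[𝓝 z] fun y => F.trO z A y (F.tr z φ y) := by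
    filter_upwards [hU.op.mem_nhds hU.mem] with y hy
    exact hU.tr_trO hy A φ
  rw [dB_congr this, dB_clm_apply ((hA z hz).differentiableAt (by simp))
    ((hφ z hz).differentiableAt (by simp)), tr_self hz]
  congr 1
  unfold trO
  rw [F.one z hz, one_mul, mul_one]

/-- Leibniz rule for a scalar function times a section -/
theorem d1_fsmul {f : ℂ → ℂ} {φ : ℂ → V} {z : ℂ} (hf : DifferentiableAt ℝ f z) (hφ : F.Sm φ)
    (hz : z ∈ X) : F.d1 (fun z => f z • φ z) z = dW f 1 z • φ z + f z • F.d1 φ z := by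
  unfold d1
  have e : F.tr z (fun z => f z • φ z) = fun y => f y • F.tr z φ y := by
    funext y
    unfold tr
    rw [map_smul]
  rw [e]
  have hd := (hφ z hz).differentiableAt (n := ∞) (by simp)
  have key : ∀ v, fderiv ℝ (fun y => f y • F.tr z φ y) z v =
      fderiv ℝ f z v • F.tr z φ z + f z • fderiv ℝ (F.tr z φ) z v := by
    intro v
    rw [fderiv_fun_smul hf hd]
    simp only [add_apply, smul_apply, ContinuousLinearMap.smulRight_apply]
    rw [add_comm]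
  unfold dW
  rw [key, key, tr_self hz]
  simp only [smul_eq_mul]
  module

theorem d2_fsmul {f : ℂ → ℂ} {φ : ℂ → V} {z : ℂ} (hf : DifferentiableAt ℝ f z) (hφ : F.Sm φ)
    (hz : z ∈ X) : F.d2 (fun z => f z • φ z) z = dB f 1 z • φ z + f z • F.d2 φ z := by
  unfold d2
  have e : F.tr z (fun z => f z • φ z) = fun y => f y • F.tr z φ y := by
    funext y
    unfold tr
    rw [map_smul]
  rw [e]
  have hd := (hφ z hz).differentiableAt (n := ∞) (by simp)
  have key : ∀ v, fderiv ℝ (fun y => f y • F.tr z φ y) z v =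
      fderiv ℝ f z v • F.tr z φ z + f z • fderiv ℝ (F.tr z φ) z v := by
    intro v
    rw [fderiv_fun_smul hf hd]
    simp only [add_apply, smul_apply, ContinuousLinearMap.smulRight_apply]
    rw [add_comm]
  unfold dB
  rw [key, key, tr_self hz]
  simp only [smul_eq_mul]
  module

end FB

end Crest.Agent.R276.IpcG1_975
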