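import Crest.Agent.R276.IpcGr_975

/-!
# R276, IPC fixed-s assembly (helper975): operators lowering / raising the type by one

`Lo T t : T t - t T = -t`, `Hi T t : T t - t T = t`.
-/

set_option autoImplicit false

open Polynomial Finset

namespace Crest.Agent.R276.IpcGr_975

variable {R : Type*} [Ring R] [Algebra ℂ R] {w : ℕ} {T t : R}

/-- `t` lowers the type by one -/
def Lo (T t : R) : Prop := T * t - t * T = - t

/-- `t` raises the type by one -/
def Hi (T t : R) : Prop := T * t - t * T = t

theorem eval_nod_ne (w : ℕ) (c : ℂ) (hc : ∀ q : ℕ, q ≤ w → c ≠ (q : ℂ)) : (nod w).eval c ≠ 0 := by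
  unfold nod
  rw [eval_prod, Finset.prod_ne_zero_iff]
  intro q hq
  rw [Finset.mem_range] at hq
  rw [eval_sub, eval_X, eval_C, sub_ne_zero]
  exact hc q (by omega)

theorem aeval_mul_eigen {x : R} {c : ℂ} (hx : T * x = c • x) (f : ℂ[X]) :
    aeval T f * x = f.eval c • x := by
  induction f using Polynomial.induction_on' with
  | add f g hf hg => rw [map_add, add_mul, hf, hg, eval_add, add_smul]
  | monomial n a =>
    rw [aeval_monomial, eval_monomial]
    have : ∀ n : ℕ, T ^ n * x = (c ^ n) • x := by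
      intro n
      induction n with
      | zero => simp
      | succ n ih => rw [pow_succ, mul_assoc, hx, mul_smul_comm, ih, smul_smul, pow_succ, mul_comm c]
    rw [mul_assoc, this n, ← Algebra.smul_def, smul_smul]

theorem mul_aeval_eigen {x : R} {c : ℂ} (hx : x * T = c • x) (f : ℂ[X]) :
    x * aeval T f = f.eval c • x := by
  induction f using Polynomial.induction_on' with
  | add f g hf hg => rw [map_add, mul_add, hf, hg, eval_add, add_smul]
  | monomial n a =>
    rw [aeval_monomial, eval_monomial]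
    have : ∀ n : ℕ, x * T ^ n = (c ^ n) • x := by
      intro n
      induction n with
      | zero => simp
      | succ n ih => rw [pow_succ', ← mul_assoc, hx, smul_mul_assoc, ih, smul_smul, pow_succ']
    rw [← mul_assoc, ← Algebra.commutes, mul_assoc, this n, ← Algebra.smul_def, smul_smul]

/-- an eigenvector for an eigenvalue outside `{0..w}` is zero -/
theorem eq_zero_of_eigen (hT : Sp w T) {x : R} {c : ℂ} (hx : T * x = c • x)
    (hc : ∀ q : ℕ, q ≤ w → c ≠ (q : ℂ)) : x = 0 := by
  have h1 := aeval_mul_eigen hx (nod w)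
  have h0 : aeval T (nod w) = 0 := hT
  rw [h0, zero_mul] at h1
  exact ((smul_eq_zero.1 h1.symm).resolve_left (eval_nod_ne w c hc))

theorem eq_zero_of_eigen' (hT : Sp w T) {x : R} {c : ℂ} (hx : x * T = c • x)
    (hc : ∀ q : ℕ, q ≤ w → c ≠ (q : ℂ)) : x = 0 := by
  have h1 := mul_aeval_eigen hx (nod w)
  have h0 : aeval T (nod w) = 0 := hT
  rw [h0, mul_zero] at h1
  exact ((smul_eq_zero.1 h1.symm).resolve_left (eval_nod_ne w c hc))

theorem pr_mul_eigen {x : R} {p : ℕ} (hp : p ≤ w) (hx : T * x = (p : ℂ) • x) (q : ℕ) :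
    pr w q T * x = if q = p then x else 0 := by
  have h := aeval_mul_eigen hx (lag w q)
  rw [eval_lag w q p hp] at h
  unfold pr
  rw [h]
  split_ifs <;> simp

theorem mul_pr_eigen {x : R} {p : ℕ} (hp : p ≤ w) (hx : x * T = (p : ℂ) • x) (q : ℕ) :
    x * pr w q T = if q = p then x else 0 := by
  have h := mul_aeval_eigen hx (lag w q)
  rw [eval_lag w q p hp] at h
  unfold pr
  rw [h]
  split_ifs <;> simp

theorem Lo.eigen (hT : Sp w T) (h : Lo T t) (p : ℕ) :
    T * (t * pr w p T) = ((p : ℂ) - 1) • (t * pr w p T) := by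
  have h1 : T * t = t * T - t := by
    have := h
    unfold Lo at this
    rw [sub_eq_iff_eq_add] at this
    rw [this]; abel
  rw [← mul_assoc, h1, sub_mul, mul_assoc, T_mul_pr hT, mul_smul_comm, sub_smul, one_smul]

theorem Hi.eigen (hT : Sp w T) (h : Hi T t) (p : ℕ) :
    T * (t * pr w p T) = ((p : ℂ) + 1) • (t * pr w p T) := by
  have h1 : T * t = t * T + t := by
    have := h
    unfold Hi at this
    rw [sub_eq_iff_eq_add] at this
    rw [this]; abel
  rw [← mul_assoc, h1, add_mul, mul_assoc, T_mul_pr hT, mul_smul_comm, add_smul, one_smul]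

theorem Lo.mul_pr_zero (hT : Sp w T) (h : Lo T t) : t * pr w 0 T = 0 := by
  refine eq_zero_of_eigen hT (h.eigen hT 0) fun q _ hq => ?_
  have : ((-1 : ℝ) : ℂ) = ((q : ℝ) : ℂ) := by
    rw [show ((-1 : ℝ) : ℂ) = (((0 : ℕ) : ℂ) - 1) by push_cast; ring, hq]
    push_cast
    rfl
  have h2 : (-1 : ℝ) = (q : ℝ) := by exact_mod_cast this
  have h3 : (0 : ℝ) ≤ q := Nat.cast_nonneg q
  linarith

theorem pr_mul_pr_ne (hT : Sp w T) {p q : ℕ} (h : p ≠ q) : pr w p T * pr w q T = 0 := by
  rw [pr_mul_pr hT, if_neg h]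

/-- blocks of a lowering operator -/
theorem Lo.block (hT : Sp w T) (h : Lo T t) {p q : ℕ} (hpq : p ≠ q + 1) :
    pr w q T * (t * pr w p T) = 0 := by
  rcases Nat.eq_zero_or_pos p with h0 | h0
  · rw [h0, h.mul_pr_zero hT, mul_zero]
  · obtain ⟨r, rfl⟩ : ∃ r, p = r + 1 := ⟨p - 1, by omega⟩
    by_cases hr : r + 1 ≤ w
    · have h1 := h.eigen hT (r + 1)
      have h2 : T * (t * pr w (r + 1) T) = (r : ℂ) • (t * pr w (r + 1) T) := by
        rw [h1]; push_cast; simp
      rw [pr_mul_eigen (by omega) h2, if_neg (by omega)]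
    · rw [pr_gt (by omega : w < r + 1), mul_zero, mul_zero]

theorem Hi.block (hT : Sp w T) (h : Hi T t) {p q : ℕ} (hpq : q ≠ p + 1) :
    pr w q T * (t * pr w p T) = 0 := by
  by_cases hp : p + 1 ≤ w
  · have h1 := h.eigen hT p
    have h2 : T * (t * pr w p T) = ((p + 1 : ℕ) : ℂ) • (t * pr w p T) := by
      rw [h1]; push_cast; rfl
    rw [pr_mul_eigen hp h2, if_neg hpq]
  · have h0 : t * pr w p T = 0 := by
      by_cases hp' : p ≤ w
      · refine eq_zero_of_eigen hT (h.eigen hT p) fun q hq hq' => ?_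
        have h3 : ((p + 1 : ℕ) : ℂ) = (q : ℂ) := by rw [← hq']; push_cast; rfl
        have h4 : p + 1 = q := by exact_mod_cast h3
        omega
      · rw [pr_gt (by omega), mul_zero]
    rw [h0, mul_zero]

theorem Lo.mul_pr (hT : Sp w T) (h : Lo T t) (p : ℕ) : t * pr w (p + 1) T = pr w p T * t := by
  have h1 : t * pr w (p + 1) T = pr w p T * (t * pr w (p + 1) T) := by
    conv_lhs => rw [← one_mul (t * pr w (p + 1) T), ← sum_pr hT, Finset.sum_mul]
    by_cases hp : p ≤ w
    · rw [Finset.sum_eq_single p]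
      · intro b _ hb
        exact h.block hT (by omega)
      · intro hp'
        exact absurd (Finset.mem_range.2 (by omega)) hp'
    · rw [pr_gt (by omega : w < p), zero_mul]
      refine Finset.sum_eq_zero fun b _ => ?_
      rw [pr_gt (by omega : w < p + 1), mul_zero, mul_zero]
  have h2 : pr w p T * t = pr w p T * (t * pr w (p + 1) T) := by
    conv_lhs => rw [← mul_one (pr w p T * t), ← sum_pr hT, Finset.mul_sum]
    by_cases hp : p + 1 ≤ w
    · rw [Finset.sum_eq_single (p + 1)]
      · rw [mul_assoc]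
      · intro b _ hb
        rw [mul_assoc]
        exact h.block hT (by omega)
      · intro hp'
        exact absurd (Finset.mem_range.2 (by omega)) hp'
    · rw [pr_gt (by omega : w < p + 1), mul_zero, mul_zero]
      refine Finset.sum_eq_zero fun b hb => ?_
      rw [Finset.mem_range] at hb
      rw [mul_assoc]
      exact h.block hT (by omega)
  rw [h1, h2]

theorem Hi.pr_zero_mul (hT : Sp w T) (h : Hi T t) : pr w 0 T * t = 0 := by
  conv_lhs => rw [← mul_one (pr w 0 T * t), ← sum_pr hT, Finset.mul_sum]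
  refine Finset.sum_eq_zero fun b _ => ?_
  rw [mul_assoc]
  exact h.block hT (by omega)

theorem Hi.mul_pr (hT : Sp w T) (h : Hi T t) (p : ℕ) : t * pr w p T = pr w (p + 1) T * t := by
  have h1 : t * pr w p T = pr w (p + 1) T * (t * pr w p T) := by
    conv_lhs => rw [← one_mul (t * pr w p T), ← sum_pr hT, Finset.sum_mul]
    by_cases hp : p + 1 ≤ w
    · rw [Finset.sum_eq_single (p + 1)]
      · intro b _ hb
        exact h.block hT (by omega)
      · intro hp'
        exact absurd (Finset.mem_range.2 (by omega)) hp'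
    · rw [pr_gt (by omega : w < p + 1), zero_mul]
      refine Finset.sum_eq_zero fun b hb => ?_
      rw [Finset.mem_range] at hb
      exact h.block hT (by omega)
  have h2 : pr w (p + 1) T * t = pr w (p + 1) T * (t * pr w p T) := by
    conv_lhs => rw [← mul_one (pr w (p + 1) T * t), ← sum_pr hT, Finset.mul_sum]
    by_cases hp : p ≤ w
    · rw [Finset.sum_eq_single p]
      · rw [mul_assoc]
      · intro b _ hb
        rw [mul_assoc]
        exact h.block hT (by omega)
      · intro hp'
        exact absurd (Finset.mem_range.2 (by omega)) hp'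
    · rw [pr_gt (by omega : w < p), mul_zero, mul_zero]
      refine Finset.sum_eq_zero fun b hb => ?_
      rw [Finset.mem_range] at hb
      rw [mul_assoc]
      exact h.block hT (by omega)
  rw [h1, h2]

theorem Lo.J_mul (hT : Sp w T) (h : Lo T t) : J w T * t = - (t * J w T) := by
  have h1 : J w T * t = ∑ p ∈ range (w + 1), ((-1 : ℂ) ^ p) • (t * pr w (p + 1) T) := by
    unfold J
    rw [Finset.sum_mul]
    refine Finset.sum_congr rfl fun p _ => ?_
    rw [h.mul_pr hT, smul_mul_assoc]
  have h2 : t * J w T = ∑ p ∈ range (w + 1), ((-1 : ℂ) ^ p) • (t * pr w p T) := by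
    unfold J
    rw [Finset.mul_sum]
    refine Finset.sum_congr rfl fun p _ => ?_
    rw [mul_smul_comm]
  rw [h1, h2, Finset.sum_range_succ, Finset.sum_range_succ', h.mul_pr_zero hT,
    pr_gt (by omega : w < w + 1), mul_zero, smul_zero, smul_zero, add_zero, add_zero,
    ← Finset.sum_neg_distrib]
  refine Finset.sum_congr rfl fun p _ => ?_
  rw [pow_succ, ← neg_smul]
  congr 1
  ring

theorem Hi.J_mul (hT : Sp w T) (h : Hi T t) : J w T * t = - (t * J w T) := by
  have h1 : t * J w T = ∑ p ∈ range (w + 1), ((-1 : ℂ) ^ p) • (pr w (p + 1) T * t) := by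
    unfold J
    rw [Finset.mul_sum]
    refine Finset.sum_congr rfl fun p _ => ?_
    rw [← h.mul_pr hT, mul_smul_comm]
  have h2 : J w T * t = ∑ p ∈ range (w + 1), ((-1 : ℂ) ^ p) • (pr w p T * t) := by
    unfold J
    rw [Finset.sum_mul]
    refine Finset.sum_congr rfl fun p _ => ?_
    rw [smul_mul_assoc]
  rw [h1, h2, Finset.sum_range_succ', Finset.sum_range_succ, h.pr_zero_mul hT,
    pr_gt (by omega : w < w + 1), zero_mul, smul_zero, smul_zero, add_zero, add_zero,
    ← Finset.sum_neg_distrib]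
  refine Finset.sum_congr rfl fun p _ => ?_
  rw [pow_succ, ← neg_smul]
  congr 1
  ring

end Crest.Agent.R276.IpcGr_975
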