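import Crest.Agent.R276.IpcAs_975
import Crest.Agent.R276.NoEx_827
import Crest.Agent.R276.EndP3_659
import Crest.Agent.R276.IpcEx_309
import Crest.Agent.R276.DR4_175

/-!
# R276, IPC fixed-s assembly (helper975), part 15: the inputs `Inp` for a `PVHS` of IpcDefs_735

`Dic R M`: the dictionary between `R : PVHS A N w` and `M : PV (Fin N → ℂ) (ℂ \ A) w`.
-/

set_option autoImplicit false

open Set Filter Topology MeasureTheory UniformSpace Matrix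
open scoped ContDiff ComplexConjugate ENNReal

namespace Crest.Agent.R276.IpcG1_975

open VCalc_442 IpcGr_975 Ipc735

/-- dictionary -/
structure Dic {A : Finset ℂ} {N w : ℕ} (R : PVHS A N w) (M : PV (Fin N → ℂ) ((A : Set ℂ)ᶜ) w) :
    Prop where
  sm : ∀ φ, M.Sm φ ↔ R.Sm φ
  d1 : ∀ φ z, M.d1 φ z = R.d1 φ z
  d2 : ∀ φ z, M.d2 φ z = R.d2 φ z
  nsq : ∀ φ, ∀ x ∉ A, (M.Gf x (φ x) (φ x)).re = R.nsq φ x
  J : ∀ x ∉ A, ∀ v, M.Jf x v = weil w (R.E x) *ᵥ v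

namespace Dic

variable {A : Finset ℂ} {N w : ℕ} {R : PVHS A N w} {M : PV (Fin N → ℂ) ((A : Set ℂ)ᶜ) w}
  (h : Dic R M)

include h

theorem clo (α : ℂ → (Fin N → ℂ) × (Fin N → ℂ)) :
    M.toFB.Clo α ↔ R.Sm (fun x => (α x).1) ∧ R.Sm (fun x => (α x).2) ∧
      R.Closed (fun x => (α x).1) (fun x => (α x).2) := by
  unfold FB.Clo
  rw [FB.sm_dbl, h.sm, h.sm, and_assoc]
  refine and_congr Iff.rfl (and_congr Iff.rfl ?_)
  unfold PVHS.Closed
  constructor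
  · intro h1 z hz
    have := h1 z hz
    rwa [h.d2, h.d1] at this
  · intro h1 z hz
    rw [h.d2, h.d1]
    exact h1 z hz

theorem G2 (α : ℂ → (Fin N → ℂ) × (Fin N → ℂ)) {x : ℂ} (hx : x ∉ A) :
    (M.mb.dbl.G x (α x) (α x)).re =
      R.nsq (fun x => (α x).1) x + R.nsq (fun x => (α x).2) x := by
  rw [← h.nsq (fun x => (α x).1) x hx, ← h.nsq (fun x => (α x).2) x hx, ← Complex.add_re]
  rfl

theorem int_split {α : ℂ → (Fin N → ℂ) × (Fin N → ℂ)} (hs : M.toFB.dbl.Sm α) (hf : M.Fin2 α) :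
    IntegrableOn (R.nsq (fun x => (α x).1)) ((A : Set ℂ)ᶜ) ∧
      IntegrableOn (R.nsq (fun x => (α x).2)) ((A : Set ℂ)ᶜ) := by
  have hX : MeasurableSet ((A : Set ℂ)ᶜ) := M.op.measurableSet
  obtain ⟨h1, h2⟩ := FB.sm_dbl.1 hs
  have c1 : ContinuousOn (R.nsq (fun x => (α x).1)) ((A : Set ℂ)ᶜ) := by
    refine (MB.contOn_re (M := M.mb) h1).congr fun x hx => ?_
    exact (h.nsq (fun x => (α x).1) x hx).symm
  have c2 : ContinuousOn (R.nsq (fun x => (α x).2)) ((A : Set ℂ)ᶜ) := by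
    refine (MB.contOn_re (M := M.mb) h2).congr fun x hx => ?_
    exact (h.nsq (fun x => (α x).2) x hx).symm
  have nn : ∀ φ : ℂ → Fin N → ℂ, ∀ x ∉ A, 0 ≤ R.nsq φ x := by
    intro φ x hx
    rw [← h.nsq φ x hx]
    exact M.G_nonneg' hx _
  constructor
  · refine Integrable.mono hf (c1.aestronglyMeasurable hX) ?_
    filter_upwards [ae_restrict_mem hX] with x hx
    rw [Real.norm_of_nonneg (nn _ x hx), h.G2 α hx, Real.norm_of_nonneg (add_nonneg (nn _ x hx) (nn _ x hx))]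
    linarith [nn (fun x => (α x).2) x hx]
  · refine Integrable.mono hf (c2.aestronglyMeasurable hX) ?_
    filter_upwards [ae_restrict_mem hX] with x hx
    rw [Real.norm_of_nonneg (nn _ x hx), h.G2 α hx, Real.norm_of_nonneg (add_nonneg (nn _ x hx) (nn _ x hx))]
    linarith [nn (fun x => (α x).1) x hx]

theorem I3 (α : ℂ → (Fin N → ℂ) × (Fin N → ℂ)) (hc : M.toFB.Clo α) (hf : M.Fin2 α) :
    ∃ ζ ∈ M.ZS, M.Exact (fun x => α x - ζ.f x) := by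
  obtain ⟨sa, sb, cab⟩ := (h.clo α).1 hc
  obtain ⟨i1, i2⟩ := h.int_split hc.1 hf
  have hpar := EndP_659.par_of_L2 R sa sb cab i1 i2
  obtain ⟨g, hg, K, hK, hKA, hcut⟩ := DR_175.exists_cut (P := R.P) hpar.1 hpar.2
  have hgS : M.Sm g := (h.sm g).2 hg
  have hDg : M.toFB.dbl.Sm (M.toFB.Df g) := FB.sm_dbl.2 ⟨hgS.d1, hgS.d2⟩
  classical
  set β : ℂ → (Fin N → ℂ) × (Fin N → ℂ) := fun x => if x ∈ A then 0 else α x - M.toFB.Df g x with hβ
  have hβX : ∀ x ∈ ((A : Set ℂ)ᶜ), β x = α x - M.toFB.Df g x := fun x hx => by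
    rw [hβ]; simp only; exact if_neg (fun h' => hx h')
  have hsm : M.toFB.dbl.Sm β := by
    intro z hz
    refine ((hc.1.sub hDg) z hz).congr_of_eventuallyEq ?_
    filter_upwards [M.op.mem_nhds hz] with y hy
    rw [FB.tr, FB.tr, hβX y hy]
  have hmem : β ∈ M.toFB.dbl.A0 := by
    refine ⟨hsm, K, hKA, hK, fun x hx => ?_⟩
    by_cases hxA : x ∈ A
    · rw [hβ]; simp only; rw [if_pos hxA]
    · rw [hβX x hxA]
      obtain ⟨e1, e2⟩ := hcut x hx hxA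
      refine Prod.ext ?_ ?_
      · show (α x).1 - M.d1 g x = 0
        rw [h.d1, e1]
        exact sub_self _
      · show (α x).2 - M.d2 g x = 0
        rw [h.d2, e2]
        exact sub_self _
  have hclo : M.toFB.Clo β := by
    refine ⟨hsm, fun z hz => ?_⟩
    obtain ⟨s1, s2⟩ := FB.sm_dbl.1 hc.1
    have e1 : M.d2 (fun x => (β x).1) z = M.d2 ((fun x => (α x).1) + ((-1 : ℂ) • M.d1 g)) z := by
      have : M.tr z (fun x => (β x).1) =ᶠ[𝓝 z] M.tr z ((fun x => (α x).1) + ((-1 : ℂ) • M.d1 g)) := by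
        filter_upwards [M.op.mem_nhds hz] with y hy
        rw [FB.tr, FB.tr, hβX y hy]
        simp [FB.Df, sub_eq_add_neg]
      exact dB_congr this 1
    have e2 : M.d1 (fun x => (β x).2) z = M.d1 ((fun x => (α x).2) + ((-1 : ℂ) • M.d2 g)) z := by
      have : M.tr z (fun x => (β x).2) =ᶠ[𝓝 z] M.tr z ((fun x => (α x).2) + ((-1 : ℂ) • M.d2 g)) := by
        filter_upwards [M.op.mem_nhds hz] with y hy
        rw [FB.tr, FB.tr, hβX y hy]
        simp [FB.Df, sub_eq_add_neg]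
      exact dW_congr this 1
    have c1 : M.Sm ((-1 : ℂ) • M.d1 g) := hgS.d1.const_smul _
    have c2 : M.Sm ((-1 : ℂ) • M.d2 g) := hgS.d2.const_smul _
    rw [e1, e2, FB.d2_add s1 c1 hz, FB.d1_add s2 c2 hz,
      FB.d2_smul hgS.d1 _ hz, FB.d1_smul hgS.d2 _ hz, FB.d2_d1 hgS hz, hc.2 z hz]
  refine ⟨M.mb.dbl.s0 β hmem, hclo, g, hgS, fun x hx => ?_⟩
  simp only [MB.s0_f]
  rw [hβX x hx]
  abel

theorem I5 (ψ : ℂ → Fin N → ℂ) (hψ : M.Sm ψ) (hc : M.toFB.Clo (fun x => M.bt x (M.toFB.Df ψ x)))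
    (hf : M.Fin2 (M.toFB.Df ψ)) : ∀ x ∈ ((A : Set ℂ)ᶜ), M.toFB.Df ψ x = 0 := by
  have hsm : M.toFB.dbl.Sm (M.toFB.Df ψ) := FB.sm_dbl.2 ⟨hψ.d1, hψ.d2⟩
  obtain ⟨i1, i2⟩ := h.int_split hsm hf
  have hJ1 : M.Sm (fun x => M.Jf x (M.d1 ψ x)) := FB.Sm.app M.smJ hψ.d1
  have hJ2 : M.Sm (fun x => M.Jf x (M.d2 ψ x)) := FB.Sm.app M.smJ hψ.d2
  have hharm : ∀ z ∉ A, R.d2 (fun x => weil w (R.E x) *ᵥ R.d1 ψ x) z =
      - R.d1 (fun x => weil w (R.E x) *ᵥ R.d2 ψ x) z := by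
    intro z hz
    have h1 := hc.2 z hz
    have e1 : M.d2 (fun x => (M.bt x (M.toFB.Df ψ x)).1) z =
        - M.d2 (fun x => M.Jf x (M.d1 ψ x)) z := by
      have : (fun x => (M.bt x (M.toFB.Df ψ x)).1) = (-1 : ℂ) • (fun x => M.Jf x (M.d1 ψ x)) := by
        funext x
        simp [PV.bt, FB.Df]
      rw [this, FB.d2_smul hJ1 _ hz, neg_one_smul]
    have e2 : (fun x => (M.bt x (M.toFB.Df ψ x)).2) = (fun x => M.Jf x (M.d2 ψ x)) := rfl
    rw [e1, e2] at h1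
    have hev : ∀ {f g : ℂ → Fin N → ℂ}, (∀ x ∉ A, f x = g x) →
        M.tr z f =ᶠ[𝓝 z] M.tr z g := by
      intro f g hfg
      filter_upwards [M.op.mem_nhds hz] with y hy
      rw [FB.tr, FB.tr, hfg y hy]
    have e3 : M.d2 (fun x => M.Jf x (M.d1 ψ x)) z =
        M.d2 (fun x => weil w (R.E x) *ᵥ R.d1 ψ x) z := by
      refine dB_congr (hev fun x hx => ?_) 1
      rw [h.J x hx, h.d1]
    have e4 : M.d1 (fun x => M.Jf x (M.d2 ψ x)) z =
        M.d1 (fun x => weil w (R.E x) *ᵥ R.d2 ψ x) z := by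
      refine dW_congr (hev fun x hx => ?_) 1
      rw [h.J x hx, h.d2]
    rw [e3, e4, h.d2, h.d1] at h1
    rw [← h1, neg_neg]
  have i1' : IntegrableOn (R.nsq (R.d1 ψ)) ((A : Set ℂ)ᶜ) := by
    have : (fun x => (M.toFB.Df ψ x).1) = R.d1 ψ := by funext x; exact h.d1 ψ x
    rwa [this] at i1
  have i2' : IntegrableOn (R.nsq (R.d2 ψ)) ((A : Set ℂ)ᶜ) := by
    have : (fun x => (M.toFB.Df ψ x).2) = R.d2 ψ := by funext x; exact h.d2 ψ x
    rwa [this] at i2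
  have h0 := NoEx_827.no_exact R ((h.sm ψ).1 hψ) hharm i1' i2'
  intro x hx
  obtain ⟨a1, a2⟩ := h0 x hx
  refine Prod.ext ?_ ?_
  · show M.d1 ψ x = 0
    rw [h.d1, a1]
  · show M.d2 ψ x = 0
    rw [h.d2, a2]

theorem IT (α : ℂ → (Fin N → ℂ) × (Fin N → ℂ)) (hc : M.toFB.Clo α)
    (ha : ∀ ε : ℝ, 0 < ε → ∃ φ ∈ M.toFB.A0,
      IntegrableOn (fun x => (M.mb.dbl.G x (α x - M.toFB.Df φ x) (α x - M.toFB.Df φ x)).re)
        ((A : Set ℂ)ᶜ) ∧
      ∫ x in ((A : Set ℂ)ᶜ), (M.mb.dbl.G x (α x - M.toFB.Df φ x) (α x - M.toFB.Df φ x)).re < ε) :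
    M.Exact α := by
  obtain ⟨sa, sb, cab⟩ := (h.clo α).1 hc
  obtain ⟨ψ, h1, h2, h3⟩ := IpcEx_309.exact_of_approx R sa sb cab (fun K hK hKc ε hε => by
    obtain ⟨φ, hφ, hi, hlt⟩ := ha ε hε
    refine ⟨φ, (h.sm φ).1 hφ.1, lt_of_le_of_lt ?_ hlt⟩
    have e1 : ∫ z in K, (R.nsq (fun z => (α z).1 - R.d1 φ z) z +
        R.nsq (fun z => (α z).2 - R.d2 φ z) z) =
        ∫ x in K, (M.mb.dbl.G x (α x - M.toFB.Df φ x) (α x - M.toFB.Df φ x)).re := by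
      refine setIntegral_congr_fun hKc.measurableSet fun x hx => ?_
      simp only
      rw [h.G2 (fun x => α x - M.toFB.Df φ x) (hK hx)]
      have a1 : (fun x => (α x - M.toFB.Df φ x).1) = fun z => (α z).1 - R.d1 φ z := by
        funext z; show (α z).1 - M.d1 φ z = _; rw [h.d1]
      have a2 : (fun x => (α x - M.toFB.Df φ x).2) = fun z => (α z).2 - R.d2 φ z := by
        funext z; show (α z).2 - M.d2 φ z = _; rw [h.d2]
      rw [a1, a2]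
    rw [e1]
    refine setIntegral_mono_set hi ?_ (HasSubset.Subset.eventuallyLE hK)
    filter_upwards [ae_restrict_mem M.op.measurableSet] with x hx
    exact M.mb.dbl.G_nonneg hx _)
  refine ⟨ψ, (h.sm ψ).2 h1, fun x hx => ?_⟩
  refine Prod.ext ?_ ?_
  · show (α x).1 = M.d1 ψ x
    rw [h.d1, h2 x hx]
  · show (α x).2 = M.d2 ψ x
    rw [h.d2, h3 x hx]

/-- **the inputs hold** -/
theorem inp : M.Inp := ⟨h.I3, h.I5, h.IT⟩

end Dic

end Crest.Agent.R276.IpcG1_975
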