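import Crest.Agent.R276.IpcRp_975

/-!
# R276, IPC fixed-s assembly (helper975), part 11: local L² coordinates of an element of `M.L2`
-/

set_option autoImplicit false

open Set Filter Topology MeasureTheory UniformSpace
open scoped ContDiff ComplexConjugate ENNReal

namespace Crest.Agent.R276.IpcG1_975

open VCalc_442 IpcGr_975

variable {V : Type*} [NormedAddCommGroup V] [NormedSpace ℂ V] {X : Set ℂ}

namespace MB

/-- a small disc -/
structure Disc (M : MB V X) (z : ℂ) (r : ℝ) : Prop where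
  pos : 0 < r
  nb : ∃ U, M.Nb z U ∧ Metric.closedBall z r ⊆ U
  bd : ∃ C : ℝ, 0 < C ∧ ∀ y ∈ Metric.closedBall z r, ∀ u, ‖M.P z y u‖ ^ 2 ≤ C * (M.G y u u).re

theorem exists_disc (M : MB V X) {z : ℂ} (hz : z ∈ X) : ∃ r, M.Disc z r := by
  obtain ⟨U, hU⟩ := M.exists_nb hz
  obtain ⟨C, hC, hb⟩ := M.bd z hz
  obtain ⟨r, hr, hrU⟩ := Metric.mem_nhds_iff.1 (inter_mem (hU.op.mem_nhds hU.mem) hb)
  have hsub : Metric.closedBall z (r / 2) ⊆ Metric.ball z r :=
    Metric.closedBall_subset_ball (by linarith)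
  exact ⟨r / 2, by linarith, ⟨U, hU, fun y hy => (hrU (hsub hy)).1⟩, C, hC,
    fun y hy u => ((hrU (hsub hy)).2 u).1⟩

/-- exists a small disc inside a neighbourhood -/
theorem Disc.mono {M : MB V X} {z : ℂ} {r r' : ℝ} (h : M.Disc z r) (hr' : 0 < r') (hle : r' ≤ r) :
    M.Disc z r' := by
  obtain ⟨U, hU, hs⟩ := h.nb
  obtain ⟨C, hC, hb⟩ := h.bd
  exact ⟨hr', ⟨U, hU, (Metric.closedBall_subset_closedBall hle).trans hs⟩, C, hC,
    fun y hy => hb y (Metric.closedBall_subset_closedBall hle hy)⟩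

variable {M : MB V X} {z : ℂ} {r : ℝ}

theorem Disc.sub (h : M.Disc z r) : Metric.closedBall z r ⊆ X := by
  obtain ⟨U, hU, hs⟩ := h.nb
  exact hs.trans hU.sub

/-- measure on the disc -/
noncomputable abbrev mu (z : ℂ) (r : ℝ) : Measure ℂ := volume.restrict (Metric.ball z r)

instance (z : ℂ) (r : ℝ) : IsFiniteMeasure (mu z r) :=
  ⟨by rw [Measure.restrict_apply_univ]; exact measure_ball_lt_top⟩

theorem Disc.contOn (h : M.Disc z r) {φ : ℂ → V} (hφ : M.Sm φ) :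
    ContinuousOn (M.tr z φ) (Metric.closedBall z r) := by
  obtain ⟨U, hU, hs⟩ := h.nb
  exact (hU.contDiffOn hφ).continuousOn.mono hs

theorem Disc.memLp (h : M.Disc z r) {φ : ℂ → V} (hφ : M.Sm φ) (ℓ : V →L[ℂ] ℂ) :
    MemLp (fun y => ℓ (M.tr z φ y)) 2 (mu z r) := by
  have hc : ContinuousOn (fun y => ℓ (M.tr z φ y)) (Metric.closedBall z r) :=
    ℓ.continuous.comp_continuousOn (h.contOn hφ)
  obtain ⟨B, hB⟩ := (isCompact_closedBall z r).exists_bound_of_continuousOn hc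
  refine MemLp.of_bound ((hc.mono Metric.ball_subset_closedBall).aestronglyMeasurable
    Metric.isOpen_ball.measurableSet) B ?_
  filter_upwards [ae_restrict_mem Metric.isOpen_ball.measurableSet] with y hy
  exact hB y (Metric.ball_subset_closedBall hy)

theorem norm_sq_toLp {μ : Measure ℂ} {f : ℂ → ℂ} (hf : MemLp f 2 μ) :
    ‖hf.toLp f‖ ^ 2 = ∫ x, ‖f x‖ ^ 2 ∂μ := by
  have h1 : ‖hf.toLp f‖ ^ 2 = (inner ℂ (hf.toLp f) (hf.toLp f)).re :=
    norm_sq_eq_re_inner (𝕜 := ℂ) _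
  rw [h1, L2.inner_def]
  have h2 : (∫ a, inner ℂ ((hf.toLp f) a) ((hf.toLp f) a) ∂μ) = ∫ x, ((‖f x‖ ^ 2 : ℝ) : ℂ) ∂μ := by
    refine integral_congr_ae ?_
    filter_upwards [hf.coeFn_toLp] with x hx
    rw [hx, inner_self_eq_norm_sq_to_K]
    push_cast
    rfl
  have h3 : ∫ x, ((‖f x‖ ^ 2 : ℝ) : ℂ) ∂μ = ((∫ x, ‖f x‖ ^ 2 ∂μ : ℝ) : ℂ) :=
    integral_ofReal (𝕜 := ℂ)
  rw [h2, h3, Complex.ofReal_re]

/-- the bound -/
theorem Disc.bound (h : M.Disc z r) (ℓ : V →L[ℂ] ℂ) :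
    ∃ C : ℝ, ∀ φ : M.H0, ‖(h.memLp φ.mem.1 ℓ).toLp _‖ ≤ C * ‖φ‖ := by
  obtain ⟨C, hC, hb⟩ := h.bd
  refine ⟨Real.sqrt (‖ℓ‖ ^ 2 * C), fun φ => ?_⟩
  have h0 : 0 ≤ Real.sqrt (‖ℓ‖ ^ 2 * C) * ‖φ‖ := by positivity
  refine (abs_le_of_sq_le_sq' ?_ h0).2
  rw [mul_pow, Real.sq_sqrt (by positivity), norm_sq_toLp, M.norm_sq_H0]
  have hint : Integrable (fun x => (M.G x (φ.f x) (φ.f x)).re) :=
    (M.cs φ.mem φ.mem).integrable.re
  have hle : ∀ y ∈ Metric.ball z r, ‖ℓ (M.tr z φ.f y)‖ ^ 2 ≤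
      ‖ℓ‖ ^ 2 * C * (M.G y (φ.f y) (φ.f y)).re := by
    intro y hy
    have h1 := ℓ.le_opNorm (M.tr z φ.f y)
    have h2 := hb y (Metric.ball_subset_closedBall hy) (φ.f y)
    calc ‖ℓ (M.tr z φ.f y)‖ ^ 2 ≤ (‖ℓ‖ * ‖M.tr z φ.f y‖) ^ 2 := by gcongr
      _ = ‖ℓ‖ ^ 2 * ‖M.P z y (φ.f y)‖ ^ 2 := by rw [mul_pow]; rfl
      _ ≤ ‖ℓ‖ ^ 2 * (C * (M.G y (φ.f y) (φ.f y)).re) := by gcongr
      _ = _ := by ring
  calc ∫ x in Metric.ball z r, ‖ℓ (M.tr z φ.f x)‖ ^ 2
      ≤ ∫ x in Metric.ball z r, ‖ℓ‖ ^ 2 * C * (M.G x (φ.f x) (φ.f x)).re := by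
        refine setIntegral_mono_on ?_ (hint.const_mul _).integrableOn
          Metric.isOpen_ball.measurableSet hle
        exact ((h.memLp φ.mem.1 ℓ).integrable_norm_pow (by norm_num)).congr
          (Eventually.of_forall fun x => rfl)
    _ ≤ ∫ x, ‖ℓ‖ ^ 2 * C * (M.G x (φ.f x) (φ.f x)).re := by
        refine setIntegral_le_integral (hint.const_mul _) (Eventually.of_forall fun x => ?_)
        show 0 ≤ ‖ℓ‖ ^ 2 * C * (M.G x (φ.f x) (φ.f x)).re
        by_cases hx : x ∈ X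
        · have := M.G_nonneg hx (φ.f x)
          positivity
        · rw [M.f_eq_zero' φ hx]; simp
    _ = ‖ℓ‖ ^ 2 * C * ∫ x, (M.G x (φ.f x) (φ.f x)).re := integral_const_mul _ _

/-- the local coordinate map on `H0` -/
noncomputable def Disc.loc0 (h : M.Disc z r) (ℓ : V →L[ℂ] ℂ) : M.H0 →L[ℂ] Lp ℂ 2 (mu z r) :=
  LinearMap.mkContinuous
    { toFun := fun φ => (h.memLp φ.mem.1 ℓ).toLp _
      map_add' := fun φ ψ => by
        rw [← MemLp.toLp_add]
        refine MemLp.toLp_congr _ _ (Eventually.of_forall fun y => ?_)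
        simp [FB.tr]
      map_smul' := fun c φ => by
        rw [RingHom.id_apply, ← MemLp.toLp_const_smul]
        refine MemLp.toLp_congr _ _ (Eventually.of_forall fun y => ?_)
        simp [FB.tr] }
    (h.bound ℓ).choose (h.bound ℓ).choose_spec

/-- the local coordinate map on `L2` -/
noncomputable def Disc.loc (h : M.Disc z r) (ℓ : V →L[ℂ] ℂ) : M.L2 →L[ℂ] Lp ℂ 2 (mu z r) :=
  (h.loc0 ℓ).fromCompletion

theorem Disc.loc_coe (h : M.Disc z r) (ℓ : V →L[ℂ] ℂ) (φ : M.H0) :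
    h.loc ℓ (φ : M.L2) = (h.memLp φ.mem.1 ℓ).toLp _ :=
  ContinuousLinearMap.fromCompletion_apply_coe _ _

/-- the coefficient functions -/
theorem Disc.coef (h : M.Disc z r) (ζ : M.H0) (e : V) :
    MemLp (fun y => (starRingEnd ℂ) (M.G y (ζ.f y) (M.P y z e))) 2 (mu z r) := by
  obtain ⟨U, hU, hs⟩ := h.nb
  obtain ⟨f, hf, hc, hfs, -, -, hf1⟩ := exists_cutK (isCompact_closedBall z r) hU.op hs
  have hfC : CutC U f := ⟨hf, hc, hfs⟩
  have hsm : ∀ x ∈ U, ContDiffAt ℝ ∞ (M.tr x (fun y => M.P y z e)) x := by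
    intro x hx
    have e1 : M.tr x (fun y => M.P y z e) =ᶠ[𝓝 x] fun _ => M.P x z e := by
      filter_upwards [hU.op.mem_nhds hx] with y hy
      exact hU.comp_apply hx hy hU.mem e
    exact contDiffAt_const.congr_of_eventuallyEq e1
  have hm : (fun x => (f x : ℂ) • M.P x z e) ∈ M.A0 :=
    FB.cut_mem_A0 hU.op hU.sub hfC.smC hfC.csC hfC.subC hsm
  have hcont := (M.cs ζ.mem hm).continuous
  obtain ⟨B, hB⟩ := (isCompact_closedBall z r).exists_bound_of_continuousOn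
    (Complex.continuous_conj.comp hcont).continuousOn
  have hmem : MemLp (fun y => (starRingEnd ℂ) (M.G y (ζ.f y) ((f y : ℂ) • M.P y z e))) 2
      (mu z r) := by
    refine MemLp.of_bound (Complex.continuous_conj.comp hcont).aestronglyMeasurable B ?_
    filter_upwards [ae_restrict_mem Metric.isOpen_ball.measurableSet] with y hy
    exact hB y (Metric.ball_subset_closedBall hy)
  refine hmem.ae_eq ?_
  filter_upwards [ae_restrict_mem Metric.isOpen_ball.measurableSet] with y hy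
  rw [hf1 y (Metric.ball_subset_closedBall hy)]
  simp

/-- **the pairing in local coordinates** -/
theorem Disc.pair (h : M.Disc z r) {κ : Type*} [Fintype κ] {e : κ → V} {ℓ : κ → (V →L[ℂ] ℂ)}
    (hel : ∀ u, ∑ k, ℓ k u • e k = u) {ζ : M.H0} (hζ : M.Sup ζ (Metric.ball z r)) (η : M.L2) :
    inner ℂ (ζ : M.L2) η = ∫ y in Metric.ball z r,
      ∑ k, M.G y (ζ.f y) (M.P y z (e k)) * (h.loc (ℓ k) η) y := by
  have e1 : ∀ η : M.L2, ∫ y in Metric.ball z r,
      ∑ k, M.G y (ζ.f y) (M.P y z (e k)) * (h.loc (ℓ k) η) y =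
      ∑ k, inner ℂ ((h.coef ζ (e k)).toLp _) (h.loc (ℓ k) η) := by
    intro η
    rw [integral_finsetSum]
    · refine Finset.sum_congr rfl fun k _ => ?_
      rw [L2.inner_def]
      refine integral_congr_ae ?_
      filter_upwards [(h.coef ζ (e k)).coeFn_toLp] with y hy
      rw [hy, RCLike.inner_apply, Complex.conj_conj, mul_comm]
    · intro k _
      have := L2.integrable_inner (𝕜 := ℂ) ((h.coef ζ (e k)).toLp _) (h.loc (ℓ k) η)
      refine this.congr ?_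
      filter_upwards [(h.coef ζ (e k)).coeFn_toLp] with y hy
      rw [hy, RCLike.inner_apply, Complex.conj_conj, mul_comm]
  refine M.dense_ext (f := fun η => inner ℂ (ζ : M.L2) η) (g := fun η => ∫ y in Metric.ball z r,
      ∑ k, M.G y (ζ.f y) (M.P y z (e k)) * (h.loc (ℓ k) η) y) (by fun_prop) ?_ (fun φ => ?_) η
  · simp only [e1]
    refine continuous_finsetSum _ fun k _ => ?_
    exact continuous_const.inner (h.loc (ℓ k)).continuous
  · rw [Completion.inner_coe, M.inner_H0]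
    obtain ⟨K, hK, hKc, h0⟩ := hζ
    have e2 : ∫ x, M.G x (ζ.f x) (φ.f x) = ∫ x in Metric.ball z r, M.G x (ζ.f x) (φ.f x) := by
      symm
      refine setIntegral_eq_integral_of_forall_compl_eq_zero fun x hx => ?_
      rw [h0 x fun h => hx (hK h)]; simp
    rw [e2]
    refine integral_congr_ae ?_
    have hall : ∀ᵐ y ∂(mu z r), ∀ k, (h.loc (ℓ k) (φ : M.L2)) y = ℓ k (M.tr z φ.f y) := by
      rw [ae_all_iff]
      intro k
      rw [h.loc_coe]
      exact (h.memLp φ.mem.1 (ℓ k)).coeFn_toLp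
    filter_upwards [hall, ae_restrict_mem Metric.isOpen_ball.measurableSet] with y hy hyb
    obtain ⟨U, hU, hs⟩ := h.nb
    have hyU : y ∈ U := hs (Metric.ball_subset_closedBall hyb)
    have e3 : φ.f y = ∑ k, ℓ k (M.tr z φ.f y) • M.P y z (e k) := by
      conv_lhs => rw [hU.val hyU φ.f, ← hel (M.tr z φ.f y)]
      rw [map_sum]
      simp only [map_smul]
    conv_lhs => rw [e3]
    rw [map_sum]
    refine Finset.sum_congr rfl fun k _ => ?_
    rw [map_smul, hy k, smul_eq_mul, mul_comm]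

end MB

end Crest.Agent.R276.IpcG1_975
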