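import Crest.Agent.R276.IpcPV_975

/-!
# R276, IPC fixed-s assembly (helper975), part 5: the metric bundles of a polarised variation

`M.mb : MB V X` (sections) and `M.mb2 : MB (V × V) X` (one-forms `a dx + b dx̄`).
-/

set_option autoImplicit false

open Set Filter Topology MeasureTheory UniformSpace
open scoped ContDiff ComplexConjugate

namespace Crest.Agent.R276.IpcG1_975

open VCalc_442 IpcGr_975

section bd

variable {V : Type*} [NormedAddCommGroup V] [NormedSpace ℂ V]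

/-- a positive definite form on a finite dimensional space dominates the square of the norm -/
theorem exists_lower [FiniteDimensional ℂ V] (B : V →L⋆[ℂ] V →L[ℂ] ℂ)
    (h : ∀ u, u ≠ 0 → 0 < (B u u).re) : ∃ c : ℝ, 0 < c ∧ ∀ u, c * ‖u‖ ^ 2 ≤ (B u u).re := by
  haveI : ProperSpace V := FiniteDimensional.proper ℂ V
  have hcont : Continuous fun u : V => (B u u).re :=
    Complex.continuous_re.comp (B.continuous.clm_apply continuous_id)
  by_cases hne : (Metric.sphere (0 : V) 1).Nonempty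
  · obtain ⟨u0, hu0, hmin⟩ := (isCompact_sphere (0 : V) 1).exists_isMinOn hne hcont.continuousOn
    have hu0n : ‖u0‖ = 1 := by simpa using hu0
    have hu00 : u0 ≠ 0 := by
      intro h0
      rw [h0, norm_zero] at hu0n
      exact zero_ne_one hu0n
    refine ⟨(B u0 u0).re, h u0 hu00, fun u => ?_⟩
    by_cases hu : u = 0
    · simp [hu]
    · have hn : 0 < ‖u‖ := norm_pos_iff.2 hu
      have h1 : ((‖u‖ : ℂ)⁻¹ • u) ∈ Metric.sphere (0 : V) 1 := by
        rw [mem_sphere_zero_iff_norm, norm_smul, norm_inv, Complex.norm_real, norm_norm,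
          inv_mul_cancel₀ hn.ne']
      have h2 := hmin h1
      simp only [mem_ofPred_eq] at h2
      rw [map_smul, map_smulₛₗ, smul_apply, smul_eq_mul, smul_eq_mul, map_inv₀,
        Complex.conj_ofReal, ← mul_assoc] at h2
      have h3 : ((‖u‖ : ℂ)⁻¹ * (‖u‖ : ℂ)⁻¹ * B u u).re = (‖u‖ ^ 2)⁻¹ * (B u u).re := by
        have : ((‖u‖ : ℂ)⁻¹ * (‖u‖ : ℂ)⁻¹) = (((‖u‖ ^ 2)⁻¹ : ℝ) : ℂ) := by
          push_cast
          rw [sq, mul_inv]
        rw [this, Complex.re_ofReal_mul]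
      rw [h3] at h2
      rwa [mul_comm, ← le_inv_mul_iff₀ (by positivity)]
  · refine ⟨1, one_pos, fun u => ?_⟩
    have hu : u = 0 := by
      by_contra hu
      apply hne
      have hn : 0 < ‖u‖ := norm_pos_iff.2 hu
      refine ⟨(‖u‖ : ℂ)⁻¹ • u, ?_⟩
      rw [mem_sphere_zero_iff_norm, norm_smul, norm_inv, Complex.norm_real, norm_norm,
        inv_mul_cancel₀ hn.ne']
    simp [hu]

end bd

namespace PV

variable {V : Type*} [NormedAddCommGroup V] [NormedSpace ℂ V] {X : Set ℂ} {w : ℕ} (M : PV V X w)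

theorem bd [FiniteDimensional ℂ V] {z : ℂ} (hz : z ∈ X) : ∃ C : ℝ, 0 < C ∧ ∀ᶠ y in 𝓝 z, ∀ u,
    ‖M.P z y u‖ ^ 2 ≤ C * (M.Gf y u u).re ∧ (M.Gf y u u).re ≤ C * ‖M.P z y u‖ ^ 2 := by
  obtain ⟨c, hc, hlow⟩ := exists_lower (M.Gf z) (fun u hu => M.G_pos hz hu)
  obtain ⟨U, hU, hS⟩ := Nb.exists_flatS (M := M) hz
  set s := ‖M.S z‖ with hs
  have hs0 : 0 ≤ s := by rw [hs]; exact norm_nonneg (M.S z)
  have hcont : ContinuousAt (M.trO z M.Jf) z :=
    ((M.smJ z hz).continuousAt)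
  have h1 : ∀ᶠ y in 𝓝 z, ‖M.trO z M.Jf y - M.trO z M.Jf z‖ < c / (2 * (s + 1)) := by
    have := Metric.continuousAt_iff'.1 hcont (c / (2 * (s + 1))) (by positivity)
    simpa [dist_eq_norm] using this
  set C := 2 / c + (s * (‖M.Jf z‖ + c / (2 * (s + 1)))) + 1 with hC
  have hCpos : 0 < C := by positivity
  refine ⟨C, hCpos, ?_⟩
  filter_upwards [h1, hU.op.mem_nhds hU.mem] with y hy hyU u
  set u' := M.P z y u with hu'
  have hG : M.Gf y u u = M.S z (M.trO z M.Jf y u') u' := by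
    have e1 : M.trO z M.Jf y u' = M.P z y (M.Jf y (M.P y z u')) := rfl
    rw [e1, hu', hU.inv_apply hyU hU.mem, hS y hyU]
    rfl
  rw [FB.trO_self hz] at hy
  have hd : ‖M.S z (M.trO z M.Jf y u' - M.Jf z u') u'‖ ≤ s * (c / (2 * (s + 1))) * ‖u'‖ ^ 2 := by
    have h2 : ‖M.S z (M.trO z M.Jf y u' - M.Jf z u') u'‖ ≤
        s * ‖M.trO z M.Jf y u' - M.Jf z u'‖ * ‖u'‖ := (M.S z).le_opNorm₂ _ _
    have h3 : ‖M.trO z M.Jf y u' - M.Jf z u'‖ ≤ c / (2 * (s + 1)) * ‖u'‖ := by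
      have : M.trO z M.Jf y u' - M.Jf z u' = (M.trO z M.Jf y - M.Jf z) u' := rfl
      rw [this]
      exact ((M.trO z M.Jf y - M.Jf z).le_opNorm u').trans
        (mul_le_mul_of_nonneg_right hy.le (norm_nonneg _))
    calc _ ≤ s * ‖M.trO z M.Jf y u' - M.Jf z u'‖ * ‖u'‖ := h2
      _ ≤ s * (c / (2 * (s + 1)) * ‖u'‖) * ‖u'‖ := by gcongr
      _ = _ := by ring
  have hsmall : s * (c / (2 * (s + 1))) ≤ c / 2 := by
    rw [mul_div_assoc', div_le_div_iff₀ (by positivity) (by positivity)]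
    nlinarith
  have e2 : M.Gf y u u = M.Gf z u' u' + M.S z (M.trO z M.Jf y u' - M.Jf z u') u' := by
    rw [hG, Gf_apply, map_sub, sub_apply]; ring
  have hre : |(M.S z (M.trO z M.Jf y u' - M.Jf z u') u').re| ≤ c / 2 * ‖u'‖ ^ 2 :=
    (Complex.abs_re_le_norm _).trans (hd.trans (by gcongr))
  have hlow' := hlow u'
  constructor
  · have h4 : c / 2 * ‖u'‖ ^ 2 ≤ (M.Gf y u u).re := by
      rw [e2, Complex.add_re]
      have := (abs_le.1 hre).1
      linarith
    have h5 : ‖u'‖ ^ 2 ≤ 2 / c * (M.Gf y u u).re := by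
      rw [div_mul_eq_mul_div, le_div_iff₀ hc]
      linarith
    have h6 : 0 ≤ (M.Gf y u u).re := le_trans (by positivity) h4
    calc ‖u'‖ ^ 2 ≤ 2 / c * (M.Gf y u u).re := h5
      _ ≤ C * (M.Gf y u u).re := by
          apply mul_le_mul_of_nonneg_right _ h6
          rw [hC]
          have : 0 ≤ (s * (‖M.Jf z‖ + c / (2 * (s + 1)))) := by positivity
          linarith
  · have h7 : ‖M.trO z M.Jf y‖ ≤ ‖M.Jf z‖ + c / (2 * (s + 1)) := by
      have := norm_add_le (M.Jf z) (M.trO z M.Jf y - M.Jf z)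
      rw [add_sub_cancel] at this
      linarith
    have h8 : (M.Gf y u u).re ≤ s * (‖M.Jf z‖ + c / (2 * (s + 1))) * ‖u'‖ ^ 2 := by
      rw [hG]
      calc (M.S z (M.trO z M.Jf y u') u').re ≤ ‖M.S z (M.trO z M.Jf y u') u'‖ :=
            Complex.re_le_norm _
        _ ≤ s * ‖M.trO z M.Jf y u'‖ * ‖u'‖ := (M.S z).le_opNorm₂ _ _
        _ ≤ s * ((‖M.Jf z‖ + c / (2 * (s + 1))) * ‖u'‖) * ‖u'‖ := by
            gcongr
            exact ((M.trO z M.Jf y).le_opNorm u').trans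
              (mul_le_mul_of_nonneg_right h7 (norm_nonneg _))
        _ = _ := by ring
    refine h8.trans ?_
    apply mul_le_mul_of_nonneg_right _ (by positivity)
    rw [hC]
    have : 0 ≤ 2 / c := by positivity
    linarith

/-- the metric bundle -/
@[reducible] noncomputable def mb [FiniteDimensional ℂ V] : MB V X where
  toFB := M.toFB
  G := M.Gf
  herm := fun _ hz => M.G_herm hz
  smG := fun _ _ hφ hψ _ hz => M.sm_G hφ hψ hz
  bd := fun _ hz => M.bd hz

end PV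

end Crest.Agent.R276.IpcG1_975
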