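import Mathlib.Analysis.Calculus.MeanValue
import Mathlib.Analysis.SpecialFunctions.Log.Deriv
import Mathlib.Analysis.SpecialFunctions.Sqrt
import Mathlib.Topology.Order.MonotoneConvergence

/-!
# IPC, step (5): the real variable lemma

`a = ∮|φ|²`, `e = ∮|Dφ|²`, `f = Re ∮⟨D_s φ, φ⟩`, `g = -∮⟨Θ_s φ, φ⟩`, `t = ∮|Θφ|²` on a half cylinder.
The relations are `f' = e`, `a' = 2f + 2g`, `a'' ≥ 0`, `g' ≥ 2t - 2√(et)`, `g² ≤ at`, `f² ≤ ae`,
`t ≤ (C/s)² a` and `f` bounded above (i.e. `∫ e < ∞`). Then `f → 0`.
-/

set_option autoImplicit false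
open Filter Set Topology

namespace Crest.Agent.R276.IpcOde_454

/-- A function with nonnegative derivative on `[s0, ∞)` is monotone there. -/
theorem mono_of_deriv {f e : ℝ → ℝ} {s0 : ℝ} (hf : ∀ s, s0 ≤ s → HasDerivAt f (e s) s)
    (he : ∀ s, s0 ≤ s → 0 ≤ e s) : MonotoneOn f (Ici s0) := by
  apply monotoneOn_of_deriv_nonneg (convex_Ici s0)
  · exact fun x hx => (hf x hx).continuousAt.continuousWithinAt
  · intro x hx
    rw [interior_Ici] at hx
    exact (hf x hx.le).differentiableAt.differentiableWithinAt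
  · intro x hx
    rw [interior_Ici] at hx
    rw [(hf x hx.le).deriv]
    exact he x hx.le

/-- If `f' ≥ δ / s` on `[s1, ∞)`, `s1 > 0`, `δ > 0`, then `f` is not bounded above. -/
theorem not_bdd_of_deriv_ge {f e : ℝ → ℝ} {s1 δ B : ℝ} (hs1 : 0 < s1) (hδ : 0 < δ)
    (hf : ∀ s, s1 ≤ s → HasDerivAt f (e s) s) (he : ∀ s, s1 ≤ s → δ / s ≤ e s)
    (hB : ∀ s, s1 ≤ s → f s ≤ B) : False := by
  have hmono : MonotoneOn (fun s => f s - δ * Real.log s) (Ici s1) := by
    apply mono_of_deriv (e := fun s => e s - δ * s⁻¹)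
    · intro s hs
      have hs' : s ≠ 0 := (lt_of_lt_of_le hs1 hs).ne'
      exact (hf s hs).sub ((Real.hasDerivAt_log hs').const_mul δ)
    · intro s hs
      have := he s hs
      rw [div_eq_mul_inv] at this
      linarith
  have hlog : Tendsto (fun s => f s1 - δ * Real.log s1 + δ * Real.log s) atTop atTop := by
    apply tendsto_atTop_add_const_left
    exact Real.tendsto_log_atTop.const_mul_atTop hδ
  have hev := (hlog.eventually_gt_atTop B).and (eventually_ge_atTop s1)
  obtain ⟨s, hs, hs'⟩ := hev.exists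
  have h1 := hmono (mem_Ici.2 le_rfl) (mem_Ici.2 hs') hs'
  simp only at h1
  have h2 := hB s hs'
  linarith

/-- THE REAL VARIABLE LEMMA of IPC step (5). -/
theorem tendsto_zero {a e f g g' t : ℝ → ℝ} {s0 C B : ℝ} (hs0 : 0 < s0) (hC : 0 ≤ C)
    (hf : ∀ s, s0 ≤ s → HasDerivAt f (e s) s)
    (ha : ∀ s, s0 ≤ s → HasDerivAt a (2 * f s + 2 * g s) s)
    (hg : ∀ s, s0 ≤ s → HasDerivAt g (g' s) s)
    (ha0 : ∀ s, s0 ≤ s → 0 ≤ a s) (he0 : ∀ s, s0 ≤ s → 0 ≤ e s) (ht0 : ∀ s, s0 ≤ s → 0 ≤ t s)
    (hconv : ∀ s, s0 ≤ s → 0 ≤ e s + g' s)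
    (hg' : ∀ s, s0 ≤ s → 2 * t s - 2 * Real.sqrt (e s * t s) ≤ g' s)
    (hgt : ∀ s, s0 ≤ s → g s ^ 2 ≤ a s * t s)
    (hfe : ∀ s, s0 ≤ s → f s ^ 2 ≤ a s * e s)
    (hta : ∀ s, s0 ≤ s → t s ≤ (C / s) ^ 2 * a s)
    (hB : ∀ s, s0 ≤ s → f s ≤ B) : Tendsto f atTop (𝓝 0) := by
  -- `f` is monotone and converges to `L`
  have hfm : MonotoneOn f (Ici s0) := mono_of_deriv hf he0
  obtain ⟨L, hL⟩ : ∃ L, Tendsto f atTop (𝓝 L) := by
    have hm : Monotone (fun s => f (max s0 s)) := by
      intro x y hxy
      exact hfm (mem_Ici.2 (le_max_left _ _)) (mem_Ici.2 (le_max_left _ _))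
        (max_le_max le_rfl hxy)
    have hb : BddAbove (range fun s => f (max s0 s)) := by
      refine ⟨B, ?_⟩
      rintro _ ⟨s, rfl⟩
      exact hB _ (le_max_left _ _)
    refine ⟨_, (tendsto_atTop_ciSup hm hb).congr' ?_⟩
    filter_upwards [eventually_ge_atTop s0] with s hs
    rw [max_eq_right hs]
  have hfL : ∀ s, s0 ≤ s → f s ≤ L := by
    intro s hs
    apply ge_of_tendsto hL
    filter_upwards [eventually_ge_atTop s] with r hr
    exact hfm (mem_Ici.2 hs) (mem_Ici.2 (hs.trans hr)) hr
  by_cases hL0 : L = 0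
  · rwa [hL0] at hL
  exfalso
  -- eventually `f² ≥ L²/4`
  have hev : ∀ᶠ s in atTop, L ^ 2 / 4 ≤ f s ^ 2 := by
    have h1 : Tendsto (fun s => f s ^ 2) atTop (𝓝 (L ^ 2)) := hL.pow 2
    have h2 : L ^ 2 / 4 < L ^ 2 := by
      have : 0 < L ^ 2 := by positivity
      linarith
    exact (h1.eventually (lt_mem_nhds h2)).mono fun s hs => hs.le
  have hLpos : 0 < L ^ 2 / 4 := by positivity
  -- it suffices to bound `a` by `M s`
  suffices hM : ∃ M s1, 0 < M ∧ s0 ≤ s1 ∧ ∀ s, s1 ≤ s → a s ≤ M * s by
    obtain ⟨M, s1, hM, hs1, hbd⟩ := hM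
    obtain ⟨s2, hs2⟩ := (hev.and (eventually_ge_atTop s1)).exists_forall_of_atTop
    set s3 := max s2 s1 with hs3
    have hs3pos : 0 < s3 := lt_of_lt_of_le hs0 (hs1.trans (le_max_right _ _))
    refine not_bdd_of_deriv_ge (f := f) (e := e) (B := B) (δ := L ^ 2 / 4 / M) hs3pos
      (by positivity) ?_ ?_ ?_
    · intro s hs
      exact hf s (hs1.trans ((le_max_right _ _).trans hs))
    · intro s hs
      have hss : s0 ≤ s := hs1.trans ((le_max_right _ _).trans hs)
      have hspos : 0 < s := lt_of_lt_of_le hs0 hss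
      have h1 := (hs2 s ((le_max_left _ _).trans hs)).1
      have h2 := hfe s hss
      have h3 := hbd s ((le_max_right _ _).trans hs)
      have h4 := he0 s hss
      have h5 : L ^ 2 / 4 ≤ M * s * e s := by
        calc L ^ 2 / 4 ≤ f s ^ 2 := h1
          _ ≤ a s * e s := h2
          _ ≤ M * s * e s := by gcongr
      rw [div_div, div_le_iff₀ (by positivity)]
      linarith
    · intro s hs
      exact hB s (hs1.trans ((le_max_right _ _).trans hs))
  -- `a' = 2f+2g` is monotone
  have ham : MonotoneOn (fun s => 2 * f s + 2 * g s) (Ici s0) := by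
    apply mono_of_deriv (e := fun s => 2 * e s + 2 * g' s)
    · intro s hs
      exact ((hf s hs).const_mul 2).add ((hg s hs).const_mul 2)
    · intro s hs
      have := hconv s hs
      linarith
  by_cases hneg : ∀ s, s0 ≤ s → 2 * f s + 2 * g s ≤ 0
  · -- `a` is antitone, hence bounded
    have hanti : AntitoneOn a (Ici s0) := by
      have : MonotoneOn (fun s => - a s) (Ici s0) := by
        apply mono_of_deriv (e := fun s => -(2 * f s + 2 * g s))
        · intro s hs
          exact (ha s hs).neg
        · intro s hs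
          have := hneg s hs
          linarith
      intro x hx y hy hxy
      have := this hx hy hxy
      simp only at this
      linarith
    refine ⟨(a s0 + 1) / s0, s0, ?_, le_rfl, ?_⟩
    · have := ha0 s0 le_rfl
      positivity
    · intro s hs
      have h1 := hanti (mem_Ici.2 le_rfl) (mem_Ici.2 hs) hs
      have h2 := ha0 s0 le_rfl
      have h3 : a s0 + 1 ≤ (a s0 + 1) / s0 * s := by
        rw [div_mul_eq_mul_div, le_div_iff₀ hs0]
        gcongr
      linarith
  push Not at hneg
  obtain ⟨s1, hs1, hc⟩ := hneg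
  set c := 2 * f s1 + 2 * g s1 with hcdef
  -- `a s ≥ c (s - s1)`
  have hagrow : ∀ s, s1 ≤ s → c * (s - s1) ≤ a s := by
    have hmm : MonotoneOn (fun s => a s - c * s) (Ici s1) := by
      apply mono_of_deriv (e := fun s => (2 * f s + 2 * g s) - c * 1)
      · intro s hs
        exact (ha s (hs1.trans hs)).sub ((hasDerivAt_id s).const_mul c)
      · intro s hs
        have := ham (mem_Ici.2 hs1) (mem_Ici.2 (hs1.trans hs)) hs
        simp only at this
        linarith
    intro s hs
    have := hmm (mem_Ici.2 le_rfl) (mem_Ici.2 hs) hs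
    simp only at this
    have h2 := ha0 s1 hs1
    linarith
  have hamono : MonotoneOn a (Ici s1) := by
    apply mono_of_deriv (e := fun s => 2 * f s + 2 * g s)
    · intro s hs
      exact ha s (hs1.trans hs)
    · intro s hs
      have := ham (mem_Ici.2 hs1) (mem_Ici.2 (hs1.trans hs)) hs
      simp only at this
      linarith
  set s2 := s1 + 1 with hs2
  have hs2pos : 0 < s2 := by have := lt_of_lt_of_le hs0 hs1; linarith
  have hs02 : s0 ≤ s2 := by linarith
  have hapos : ∀ s, s2 ≤ s → 0 < a s := by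
    intro s hs
    have h1 := hagrow s (by linarith)
    have h2 : 0 < c * (s - s1) := by
      apply mul_pos hc
      linarith
    linarith
  -- `x = g/a`
  have hxlim : Tendsto (fun s => g s / a s) atTop (𝓝 0) := by
    have hCs : Tendsto (fun s : ℝ => C / s) atTop (𝓝 0) := tendsto_const_nhds.div_atTop tendsto_id
    refine squeeze_zero_norm' ?_ hCs
    filter_upwards [eventually_ge_atTop s2] with s hs
    have hss : s0 ≤ s := hs02.trans hs
    have hsp : 0 < s := lt_of_lt_of_le hs0 hss
    have hap := hapos s hs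
    rw [Real.norm_eq_abs]
    apply abs_le_of_sq_le_sq _ (by positivity)
    rw [div_pow, div_le_iff₀ (by positivity)]
    calc g s ^ 2 ≤ a s * t s := hgt s hss
      _ ≤ a s * ((C / s) ^ 2 * a s) := by
          gcongr
          exact hta s hss
      _ = (C / s) ^ 2 * a s ^ 2 := by ring
  -- the key estimate for `x`
  have hkey : ∀ s, s2 ≤ s → ∀ lam, 0 < lam →
      g s / a s ≤ lam * (L - f s) + 4 * C ^ 2 / (lam * a s * s) := by
    intro s hs lam hlam
    have has := hapos s hs
    have hsp : 0 < s := lt_of_lt_of_le hs2pos hs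
    set K := 4 * C ^ 2 / (lam * a s) with hK
    have hKnn : 0 ≤ K := by positivity
    -- `H r = g r / a r + lam * f r - K / r` is monotone on `[s, ∞)`
    have hH : MonotoneOn (fun r => g r / a r + lam * f r - K * r⁻¹) (Ici s) := by
      apply mono_of_deriv (e := fun r => (g' r * a r - g r * (2 * f r + 2 * g r)) / a r ^ 2
        + lam * e r - K * (-(r ^ 2)⁻¹))
      · intro r hr
        have hr0 : s0 ≤ r := hs02.trans (hs.trans hr)
        have hrp : r ≠ 0 := (lt_of_lt_of_le hsp hr).ne'
        exact (((hg r hr0).div (ha r hr0) (hapos r (hs.trans hr)).ne').add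
          ((hf r hr0).const_mul lam)).sub ((hasDerivAt_inv hrp).const_mul K)
      · intro r hr
        have hr0 : s0 ≤ r := hs02.trans (hs.trans hr)
        have hrp : 0 < r := lt_of_lt_of_le hsp hr
        have har := hapos r (hs.trans hr)
        have her := he0 r hr0
        have htr := ht0 r hr0
        -- notation: E = sqrt (e/a), Y = sqrt (t/a)
        set Y := Real.sqrt (t r / a r) with hY
        set E := Real.sqrt (e r / a r) with hE
        have hYsq : Y ^ 2 = t r / a r := Real.sq_sqrt (by positivity)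
        have hEsq : E ^ 2 = e r / a r := Real.sq_sqrt (by positivity)
        have hY0 : 0 ≤ Y := Real.sqrt_nonneg _
        have hE0 : 0 ≤ E := Real.sqrt_nonneg _
        have hX : |g r / a r| ≤ Y := by
          apply abs_le_of_sq_le_sq _ hY0
          rw [hYsq, div_pow, div_le_div_iff₀ (by positivity) har]
          have := hgt r hr0
          nlinarith
        have hF : |f r / a r| ≤ E := by
          apply abs_le_of_sq_le_sq _ hE0
          rw [hEsq, div_pow, div_le_div_iff₀ (by positivity) har]
          have := hfe r hr0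
          nlinarith
        have hYC : Y ≤ C / r := by
          apply Real.sqrt_le_iff.2 ⟨by positivity, ?_⟩
          rw [div_le_iff₀ har]
          exact hta r hr0
        have hsq : Real.sqrt (e r * t r) = a r * (E * Y) := by
          rw [hE, hY, ← Real.sqrt_mul (by positivity)]
          rw [show e r / a r * (t r / a r) = (e r * t r) / (a r) ^ 2 by
            field_simp]
          rw [Real.sqrt_div' _ (by positivity), Real.sqrt_sq har.le]
          field_simp
        have h1 : 2 * Y ^ 2 - 2 * (E * Y) ≤ g' r / a r := by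
          rw [le_div_iff₀ har]
          have h0 := hg' r hr0
          rw [hsq] at h0
          have h2 : Y ^ 2 * a r = t r := by rw [hYsq]; field_simp
          nlinarith
        have h2 : (g' r * a r - g r * (2 * f r + 2 * g r)) / a r ^ 2
            = g' r / a r - 2 * (g r / a r) * (f r / a r) - 2 * (g r / a r) ^ 2 := by
          field_simp
          ring
        have h3 : (g r / a r) ^ 2 ≤ Y ^ 2 := by
          rw [← sq_abs]
          gcongr
        have h4 : (g r / a r) * (f r / a r) ≤ Y * E := by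
          calc (g r / a r) * (f r / a r) ≤ |(g r / a r) * (f r / a r)| := le_abs_self _
            _ = |g r / a r| * |f r / a r| := abs_mul _ _
            _ ≤ Y * E := by gcongr
        have h5 : -(4 * (E * Y)) ≤ (g' r * a r - g r * (2 * f r + 2 * g r)) / a r ^ 2 := by
          rw [h2]
          nlinarith
        have h6 : E * Y ≤ E * (C / r) := by gcongr
        -- `4 E C / r ≤ lam e + K / r²`, where `a r ≥ a s`
        have hasr : a s ≤ a r := hamono (mem_Ici.2 (by linarith)) (mem_Ici.2 (by
          have : s ≤ r := hr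
          linarith)) hr
        have h7 : 4 * (E * (C / r)) ≤ lam * e r + K * (r ^ 2)⁻¹ := by
          have h8 : e r = a r * E ^ 2 := by rw [hEsq]; field_simp
          have h9 : K * (r ^ 2)⁻¹ = 4 * (C / r) ^ 2 / (lam * a s) := by
            rw [hK]
            field_simp
          have h10 : lam * e r ≥ lam * (a s * E ^ 2) := by
            rw [h8]
            gcongr
          have h11 : 4 * (E * (C / r)) ≤ lam * (a s * E ^ 2) + 4 * (C / r) ^ 2 / (lam * a s) := by
            have h12 : lam * (a s * E ^ 2) + 4 * (C / r) ^ 2 / (lam * a s)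
                - 4 * (E * (C / r)) = (lam * a s * E - 2 * (C / r)) ^ 2 / (lam * a s) := by
              field_simp
              ring
            have h13 : 0 ≤ (lam * a s * E - 2 * (C / r)) ^ 2 / (lam * a s) := by positivity
            linarith
          rw [h9]
          linarith
        have : K * (-(r ^ 2)⁻¹) = -(K * (r ^ 2)⁻¹) := by ring
        linarith
    have hlim : Tendsto (fun r => g r / a r + lam * f r - K * r⁻¹) atTop
        (𝓝 (0 + lam * L - K * 0)) := by
      exact (hxlim.add (hL.const_mul lam)).sub ((tendsto_inv_atTop_zero).const_mul K)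
    have hle : g s / a s + lam * f s - K * s⁻¹ ≤ 0 + lam * L - K * 0 := by
      apply ge_of_tendsto hlim
      filter_upwards [eventually_ge_atTop s] with r hr
      exact hH (mem_Ici.2 le_rfl) (mem_Ici.2 hr) hr
    have h2 : 4 * C ^ 2 / (lam * a s * s) = K * s⁻¹ := by
      rw [hK]
      field_simp
    rw [h2]
    nlinarith
  -- `g ≤ K' √(a/s)`
  have hfb : ∀ s, s2 ≤ s → L - f s ≤ L - f s0 := by
    intro s hs
    have := hfm (mem_Ici.2 le_rfl) (mem_Ici.2 (hs02.trans hs)) (hs02.trans hs)
    linarith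
  have hLf0 : 0 ≤ L - f s0 := by
    have := hfL s0 le_rfl
    linarith
  set K' := 2 * (C + 1) * (L - f s0 + 1) with hK'
  have hK'pos : 0 < K' := by positivity
  have hgbd : ∀ s, s2 ≤ s → g s ≤ K' * Real.sqrt (a s / s) := by
    intro s hs
    have has := hapos s hs
    have hsp : 0 < s := lt_of_lt_of_le hs2pos hs
    set q := Real.sqrt (s * a s) with hq
    have hqpos : 0 < q := Real.sqrt_pos.2 (by positivity)
    have hqsq : q ^ 2 = s * a s := Real.sq_sqrt (by positivity)
    have h1 := hkey s hs (2 * (C + 1) / q) (by positivity)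
    have h2 : 4 * C ^ 2 / (2 * (C + 1) / q * a s * s) ≤ 2 * (C + 1) / q := by
      rw [div_le_div_iff₀ (by positivity) hqpos]
      have h3 : 2 * (C + 1) * (2 * (C + 1) / q * a s * s) = 4 * (C + 1) ^ 2 * (s * a s) / q := by
        ring
      rw [h3, ← hqsq]
      have h4 : 4 * (C + 1) ^ 2 * q ^ 2 / q = 4 * (C + 1) ^ 2 * q := by
        field_simp
      rw [h4]
      gcongr
      linarith
    have h5 : g s / a s ≤ K' / q := by
      calc g s / a s ≤ 2 * (C + 1) / q * (L - f s) + 4 * C ^ 2 / (2 * (C + 1) / q * a s * s) := h1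
        _ ≤ 2 * (C + 1) / q * (L - f s0) + 2 * (C + 1) / q := by
            gcongr
            exact hfm (mem_Ici.2 le_rfl) (mem_Ici.2 (hs02.trans hs)) (hs02.trans hs)
        _ = K' / q := by
            rw [hK']
            ring
    have h6 : g s ≤ K' / q * a s := by
      rwa [div_le_iff₀ has] at h5
    have h7 : a s / q = Real.sqrt (a s / s) := by
      symm
      rw [Real.sqrt_eq_iff_mul_self_eq (by positivity) (by positivity)]
      rw [div_mul_div_comm, ← sq q, hqsq]
      field_simp
    calc g s ≤ K' / q * a s := h6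
      _ = K' * (a s / q) := by ring
      _ = K' * Real.sqrt (a s / s) := by rw [h7]
  -- barrier: `b = a / s`
  set K1 := 2 * |L| + 2 * K' with hK1
  have hK1pos : 0 < K1 := by positivity
  set M := a s2 / s2 + (K1 + 2) ^ 2 with hM
  have hMpos : 0 < M := by
    have := hapos s2 le_rfl
    positivity
  have hM1 : K1 + K1 * Real.sqrt M < M := by
    have hr : K1 + 2 ≤ Real.sqrt M := by
      apply Real.le_sqrt_of_sq_le
      have := hapos s2 le_rfl
      have h0 : 0 < a s2 / s2 := by positivity
      linarith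
    have hs := Real.sq_sqrt hMpos.le
    nlinarith [Real.sqrt_nonneg M]
  have hbar : ∀ T, s2 ≤ T → ∀ s ∈ Icc s2 T, a s * s⁻¹ ≤ M := by
    intro T hT
    have hderiv : ∀ s ∈ Icc s2 T, HasDerivAt (fun s => a s * s⁻¹)
        ((2 * f s + 2 * g s) * s⁻¹ + a s * (-(s ^ 2)⁻¹)) s := by
      intro s hs
      have hsp : 0 < s := lt_of_lt_of_le hs2pos hs.1
      exact (ha s (hs02.trans hs.1)).mul (hasDerivAt_inv hsp.ne')
    apply image_le_of_deriv_right_lt_deriv_boundary (f := fun s => a s * s⁻¹)
      (f' := fun s => (2 * f s + 2 * g s) * s⁻¹ + a s * (-(s ^ 2)⁻¹)) (B := fun _ => M)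
      (B' := fun _ => 0)
    · exact fun s hs => (hderiv s hs).continuousAt.continuousWithinAt
    · intro s hs
      exact (hderiv s ⟨hs.1, hs.2.le⟩).hasDerivWithinAt
    · rw [hM, ← div_eq_mul_inv]
      have : 0 ≤ (K1 + 2) ^ 2 := by positivity
      linarith
    · intro s
      exact hasDerivAt_const s M
    · intro s hs heq
      have hsp : 0 < s := lt_of_lt_of_le hs2pos hs.1
      have has := hapos s hs.1
      have h1 : a s / s = M := by rw [div_eq_mul_inv]; exact heq
      have h2 := hgbd s hs.1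
      rw [h1] at h2
      have h3 := hfL s (hs02.trans hs.1)
      have h4 : 2 * f s + 2 * g s ≤ K1 + K1 * Real.sqrt M := by
        have h5 : L ≤ |L| := le_abs_self L
        have h6 : 0 ≤ Real.sqrt M := Real.sqrt_nonneg _
        have h7 : 0 ≤ |L| := abs_nonneg L
        rw [hK1]
        nlinarith [mul_nonneg h7 h6]
      have h8 : (2 * f s + 2 * g s) * s⁻¹ + a s * (-(s ^ 2)⁻¹)
          = ((2 * f s + 2 * g s) - a s / s) / s := by
        field_simp
        ring
      rw [h8, h1]
      apply div_neg_of_neg_of_pos _ hsp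
      linarith
  refine ⟨M, s2, hMpos, hs02, ?_⟩
  intro s hs
  have hsp : 0 < s := lt_of_lt_of_le hs2pos hs
  have h1 := hbar s hs s ⟨hs, le_rfl⟩
  rwa [← div_eq_mul_inv, div_le_iff₀ hsp] at h1

end Crest.Agent.R276.IpcOde_454
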