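import Crest.Agent.R276.IpcL2_975
import Crest.Agent.R276.IpcGrB_975

/-!
# R276, IPC fixed-s assembly (helper975), part 4: polarised variations over an open set of the plane

`PV V X w`: flat bundle with flat Hermitian form `S` and grading operator field `E`.
-/

set_option autoImplicit false

open Set Filter Topology MeasureTheory UniformSpace
open scoped ContDiff ComplexConjugate

namespace Crest.Agent.R276.IpcG1_975

open VCalc_442 IpcGr_975

/-- polarised variation of weight `w` over the open set `X` -/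
structure PV (V : Type*) [NormedAddCommGroup V] [NormedSpace ℂ V] (X : Set ℂ) (w : ℕ)
    extends FB V X where
  S : ℂ → (V →L⋆[ℂ] V →L[ℂ] ℂ)
  E : ℂ → (V →L[ℂ] V)
  flatS : ∀ z ∈ X, ∀ᶠ y in 𝓝 z, ∀ u v, S z (P z y u) (P z y v) = S y u v
  hermS : ∀ z ∈ X, ∀ u v, (starRingEnd ℂ) (S z u v) = S z v u
  sa : ∀ z ∈ X, ∀ u v, S z (E z u) v = S z u (E z v)
  sp : ∀ z ∈ X, Sp w (E z)
  pos : ∀ z ∈ X, ∀ u, u ≠ 0 → 0 < (S z (J w (E z) u) u).re
  smE : toFB.SmO E
  lo : ∀ z ∈ X, Lo (E z) (toFB.D1 E z)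

namespace FB

variable {V : Type*} [NormedAddCommGroup V] [NormedSpace ℂ V] {X : Set ℂ} {F : FB V X}

theorem Nb.trO_mul {z : ℂ} {U : Set ℂ} (h : F.Nb z U) {y : ℂ} (hy : y ∈ U)
    (A B : ℂ → (V →L[ℂ] V)) : F.trO z (fun y => A y * B y) y = F.trO z A y * F.trO z B y := by
  unfold trO
  have := h.inv hy h.mem
  calc F.P z y * (A y * B y) * F.P y z = F.P z y * A y * 1 * (B y * F.P y z) := by
        simp only [mul_assoc, one_mul]
    _ = F.P z y * A y * (F.P y z * F.P z y) * (B y * F.P y z) := by rw [this]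
    _ = _ := by simp only [mul_assoc]

theorem trO_add (z : ℂ) (A B : ℂ → (V →L[ℂ] V)) (y : ℂ) :
    F.trO z (fun y => A y + B y) y = F.trO z A y + F.trO z B y := by
  unfold trO
  rw [mul_add, add_mul]

theorem trO_smul (z : ℂ) (c : ℂ) (A : ℂ → (V →L[ℂ] V)) (y : ℂ) :
    F.trO z (fun y => c • A y) y = c • F.trO z A y := by
  unfold trO
  rw [mul_smul_comm, smul_mul_assoc]

theorem Nb.trO_one {z : ℂ} {U : Set ℂ} (h : F.Nb z U) {y : ℂ} (hy : y ∈ U) :
    F.trO z (fun _ => 1) y = 1 := by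
  unfold trO
  rw [mul_one, h.inv h.mem hy]

theorem trO_self {z : ℂ} (hz : z ∈ X) (A : ℂ → (V →L[ℂ] V)) : F.trO z A z = A z := by
  unfold trO
  rw [F.one z hz, one_mul, mul_one]

theorem SmO.mul {A B : ℂ → (V →L[ℂ] V)} (hA : F.SmO A) (hB : F.SmO B) :
    F.SmO (fun z => A z * B z) := by
  intro z hz
  obtain ⟨U, hU⟩ := F.exists_nb hz
  refine ((hA z hz).mul (hB z hz)).congr_of_eventuallyEq ?_
  filter_upwards [hU.op.mem_nhds hU.mem] with y hy
  exact hU.trO_mul hy A B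

theorem SmO.add {A B : ℂ → (V →L[ℂ] V)} (hA : F.SmO A) (hB : F.SmO B) :
    F.SmO (fun z => A z + B z) := by
  intro z hz
  refine ((hA z hz).add (hB z hz)).congr_of_eventuallyEq ?_
  exact Eventually.of_forall fun y => trO_add z A B y

theorem SmO.smul {A : ℂ → (V →L[ℂ] V)} (hA : F.SmO A) (c : ℂ) : F.SmO (fun z => c • A z) := by
  intro z hz
  refine ((hA z hz).const_smul c).congr_of_eventuallyEq ?_
  exact Eventually.of_forall fun y => trO_smul z c A y

theorem SmO.one : F.SmO (fun _ => 1) := by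
  intro z hz
  obtain ⟨U, hU⟩ := F.exists_nb hz
  refine (contDiffAt_const (c := (1 : V →L[ℂ] V))).congr_of_eventuallyEq ?_
  filter_upwards [hU.op.mem_nhds hU.mem] with y hy
  exact hU.trO_one hy

theorem SmO.zero : F.SmO (fun _ => 0) := by
  intro z hz
  refine (contDiffAt_const (c := (0 : V →L[ℂ] V))).congr_of_eventuallyEq ?_
  exact Eventually.of_forall fun y => by simp [trO]

theorem SmO.neg {A : ℂ → (V →L[ℂ] V)} (hA : F.SmO A) : F.SmO (fun z => - A z) := by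
  have := hA.smul (-1 : ℂ)
  simpa using this

theorem SmO.sub {A B : ℂ → (V →L[ℂ] V)} (hA : F.SmO A) (hB : F.SmO B) :
    F.SmO (fun z => A z - B z) := by
  simpa [sub_eq_add_neg] using hA.add hB.neg

theorem SmO.sum {κ : Type*} (s : Finset κ) {A : κ → ℂ → (V →L[ℂ] V)} (hA : ∀ k ∈ s, F.SmO (A k)) :
    F.SmO (fun z => ∑ k ∈ s, A k z) := by
  classical
  induction s using Finset.induction_on with
  | empty => simpa using SmO.zero
  | insert a s ha ih =>
    simp only [Finset.sum_insert ha]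
    exact (hA a (Finset.mem_insert_self a s)).add
      (ih fun k hk => hA k (Finset.mem_insert_of_mem hk))

theorem SmO.pow {A : ℂ → (V →L[ℂ] V)} (hA : F.SmO A) (n : ℕ) : F.SmO (fun z => A z ^ n) := by
  induction n with
  | zero => simpa using SmO.one
  | succ n ih => simpa [pow_succ] using ih.mul hA

theorem SmO.aeval {A : ℂ → (V →L[ℂ] V)} (hA : F.SmO A) (f : Polynomial ℂ) :
    F.SmO (fun z => Polynomial.aeval (A z) f) := by
  induction f using Polynomial.induction_on' with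
  | add f g hf hg => simpa using hf.add hg
  | monomial n a =>
    have := (hA.pow n).smul a
    simpa [Polynomial.aeval_monomial, Algebra.smul_def] using this

theorem D1_mul {A B : ℂ → (V →L[ℂ] V)} (hA : F.SmO A) (hB : F.SmO B) {z : ℂ} (hz : z ∈ X) :
    F.D1 (fun z => A z * B z) z = F.D1 A z * B z + A z * F.D1 B z := by
  obtain ⟨U, hU⟩ := F.exists_nb hz
  unfold D1
  have : F.trO z (fun y => A y * B y) =ᶠ[𝓝 z] fun y => F.trO z A y * F.trO z B y := by
    filter_upwards [hU.op.mem_nhds hU.mem] with y hy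
    exact hU.trO_mul hy A B
  rw [dW_congr this, dW_mul ((hA z hz).differentiableAt (by simp))
    ((hB z hz).differentiableAt (by simp)), trO_self hz, trO_self hz]

theorem D2_mul {A B : ℂ → (V →L[ℂ] V)} (hA : F.SmO A) (hB : F.SmO B) {z : ℂ} (hz : z ∈ X) :
    F.D2 (fun z => A z * B z) z = F.D2 A z * B z + A z * F.D2 B z := by
  obtain ⟨U, hU⟩ := F.exists_nb hz
  unfold D2
  have : F.trO z (fun y => A y * B y) =ᶠ[𝓝 z] fun y => F.trO z A y * F.trO z B y := by
    filter_upwards [hU.op.mem_nhds hU.mem] with y hy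
    exact hU.trO_mul hy A B
  rw [dB_congr this, dB_mul ((hA z hz).differentiableAt (by simp))
    ((hB z hz).differentiableAt (by simp)), trO_self hz, trO_self hz]

theorem D1_add {A B : ℂ → (V →L[ℂ] V)} (hA : F.SmO A) (hB : F.SmO B) {z : ℂ} (hz : z ∈ X) :
    F.D1 (fun z => A z + B z) z = F.D1 A z + F.D1 B z := by
  unfold D1
  rw [← dW_add ((hA z hz).differentiableAt (by simp)) ((hB z hz).differentiableAt (by simp))]
  congr 1
  funext y
  exact trO_add z A B y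

theorem D2_add {A B : ℂ → (V →L[ℂ] V)} (hA : F.SmO A) (hB : F.SmO B) {z : ℂ} (hz : z ∈ X) :
    F.D2 (fun z => A z + B z) z = F.D2 A z + F.D2 B z := by
  unfold D2
  rw [← dB_add ((hA z hz).differentiableAt (by simp)) ((hB z hz).differentiableAt (by simp))]
  congr 1
  funext y
  exact trO_add z A B y

theorem D1_smul {A : ℂ → (V →L[ℂ] V)} (hA : F.SmO A) (c : ℂ) {z : ℂ} (hz : z ∈ X) :
    F.D1 (fun z => c • A z) z = c • F.D1 A z := by
  unfold D1
  rw [← dW_const_smul c ((hA z hz).differentiableAt (by simp))]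
  congr 1
  funext y
  exact trO_smul z c A y

theorem D2_smul {A : ℂ → (V →L[ℂ] V)} (hA : F.SmO A) (c : ℂ) {z : ℂ} (hz : z ∈ X) :
    F.D2 (fun z => c • A z) z = c • F.D2 A z := by
  unfold D2
  rw [← dB_const_smul c ((hA z hz).differentiableAt (by simp))]
  congr 1
  funext y
  exact trO_smul z c A y

theorem D1_one {z : ℂ} (hz : z ∈ X) : F.D1 (fun _ => 1) z = 0 := by
  obtain ⟨U, hU⟩ := F.exists_nb hz
  unfold D1
  have : F.trO z (fun _ => 1) =ᶠ[𝓝 z] fun _ => 1 := by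
    filter_upwards [hU.op.mem_nhds hU.mem] with y hy
    exact hU.trO_one hy
  rw [dW_congr this, dW_const]

theorem D2_one {z : ℂ} (hz : z ∈ X) : F.D2 (fun _ => 1) z = 0 := by
  obtain ⟨U, hU⟩ := F.exists_nb hz
  unfold D2
  have : F.trO z (fun _ => 1) =ᶠ[𝓝 z] fun _ => 1 := by
    filter_upwards [hU.op.mem_nhds hU.mem] with y hy
    exact hU.trO_one hy
  rw [dB_congr this, dB_const]

/-- if `D A = [t, A]` then `D f(A) = [t, f(A)]` -/
theorem D1_aeval {A : ℂ → (V →L[ℂ] V)} (hA : F.SmO A) {z : ℂ} (hz : z ∈ X) {t : V →L[ℂ] V}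
    (h : F.D1 A z = t * A z - A z * t) (f : Polynomial ℂ) :
    F.D1 (fun z => Polynomial.aeval (A z) f) z =
      t * Polynomial.aeval (A z) f - Polynomial.aeval (A z) f * t := by
  have hp : ∀ n : ℕ, F.D1 (fun z => A z ^ n) z = t * A z ^ n - A z ^ n * t := by
    intro n
    induction n with
    | zero => simp only [pow_zero]; rw [D1_one hz]; simp
    | succ n ih =>
      simp only [pow_succ]
      rw [D1_mul (hA.pow n) hA hz, ih, h]
      noncomm_ring
  induction f using Polynomial.induction_on' with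
  | add f g hf hg =>
    simp only [map_add]
    rw [D1_add (hA.aeval f) (hA.aeval g) hz, hf, hg]
    noncomm_ring
  | monomial n a =>
    simp only [Polynomial.aeval_monomial, ← Algebra.smul_def]
    rw [D1_smul (hA.pow n) a hz, hp, smul_sub, mul_smul_comm, smul_mul_assoc]

theorem D2_aeval {A : ℂ → (V →L[ℂ] V)} (hA : F.SmO A) {z : ℂ} (hz : z ∈ X) {t : V →L[ℂ] V}
    (h : F.D2 A z = t * A z - A z * t) (f : Polynomial ℂ) :
    F.D2 (fun z => Polynomial.aeval (A z) f) z =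
      t * Polynomial.aeval (A z) f - Polynomial.aeval (A z) f * t := by
  have hp : ∀ n : ℕ, F.D2 (fun z => A z ^ n) z = t * A z ^ n - A z ^ n * t := by
    intro n
    induction n with
    | zero => simp only [pow_zero]; rw [D2_one hz]; simp
    | succ n ih =>
      simp only [pow_succ]
      rw [D2_mul (hA.pow n) hA hz, ih, h]
      noncomm_ring
  induction f using Polynomial.induction_on' with
  | add f g hf hg =>
    simp only [map_add]
    rw [D2_add (hA.aeval f) (hA.aeval g) hz, hf, hg]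
    noncomm_ring
  | monomial n a =>
    simp only [Polynomial.aeval_monomial, ← Algebra.smul_def]
    rw [D2_smul (hA.pow n) a hz, hp, smul_sub, mul_smul_comm, smul_mul_assoc]

end FB

namespace PV

variable {V : Type*} [NormedAddCommGroup V] [NormedSpace ℂ V] {X : Set ℂ} {w : ℕ} (M : PV V X w)

/-- Weil operator field -/
noncomputable def Jf (z : ℂ) : V →L[ℂ] V := J w (M.E z)

/-- projector field -/
noncomputable def Pf (p : ℕ) (z : ℂ) : V →L[ℂ] V := pr w p (M.E z)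

/-- `θ` -/
noncomputable def th (z : ℂ) : V →L[ℂ] V := M.D1 M.E z

/-- `θ*` -/
noncomputable def ths (z : ℂ) : V →L[ℂ] V := - M.D2 M.E z

theorem smP (p : ℕ) : M.SmO (M.Pf p) := FB.SmO.aeval M.smE _

theorem smJ : M.SmO M.Jf := by
  unfold Jf J
  exact FB.SmO.sum _ fun p _ => (M.smP p).smul _

theorem sm_th : M.SmO M.th := FB.SmO.D1 M.smE

theorem sm_ths : M.SmO M.ths := (FB.SmO.D2 M.smE).neg

theorem lo_th {z : ℂ} (hz : z ∈ X) : Lo (M.E z) (M.th z) := M.lo z hz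

variable {M} in
/-- `S` in the frame at `z` -/
theorem Nb.exists_flatS {z : ℂ} (hz : z ∈ X) : ∃ U, M.toFB.Nb z U ∧
    ∀ y ∈ U, ∀ u v, M.S z (M.P z y u) (M.P z y v) = M.S y u v := by
  obtain ⟨U, h1, h2⟩ := M.exists_nb_sub hz (M.flatS z hz)
  exact ⟨U, h1, fun y hy => h2 hy⟩

/-- `∂ S(φ, ψ) = S(∂̄ φ, ψ) + S(φ, ∂ ψ)` -/
theorem dW_S {φ ψ : ℂ → V} (hφ : M.Sm φ) (hψ : M.Sm ψ) {z : ℂ} (hz : z ∈ X) :
    dW (fun y => M.S y (φ y) (ψ y)) 1 z = M.S z (M.d2 φ z) (ψ z) + M.S z (φ z) (M.d1 ψ z) := by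
  have : (fun y => M.S y (φ y) (ψ y)) =ᶠ[𝓝 z] fun y => M.S z (M.tr z φ y) (M.tr z ψ y) := by
    filter_upwards [M.flatS z hz] with y hy
    rw [FB.tr, FB.tr, hy]
  rw [dW_congr this, FB.dW_sesq (M.S z) ((hφ z hz).differentiableAt (by simp))
    ((hψ z hz).differentiableAt (by simp)), FB.tr_self hz, FB.tr_self hz]
  rfl

/-- `∂̄ S(φ, ψ) = S(∂ φ, ψ) + S(φ, ∂̄ ψ)` -/
theorem dB_S {φ ψ : ℂ → V} (hφ : M.Sm φ) (hψ : M.Sm ψ) {z : ℂ} (hz : z ∈ X) :
    dB (fun y => M.S y (φ y) (ψ y)) 1 z = M.S z (M.d1 φ z) (ψ z) + M.S z (φ z) (M.d2 ψ z) := by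
  have : (fun y => M.S y (φ y) (ψ y)) =ᶠ[𝓝 z] fun y => M.S z (M.tr z φ y) (M.tr z ψ y) := by
    filter_upwards [M.flatS z hz] with y hy
    rw [FB.tr, FB.tr, hy]
  rw [dB_congr this, FB.dB_sesq (M.S z) ((hφ z hz).differentiableAt (by simp))
    ((hψ z hz).differentiableAt (by simp)), FB.tr_self hz, FB.tr_self hz]
  rfl

/-- real bilinear version of a sesquilinear form -/
noncomputable def realB (B : V →L⋆[ℂ] V →L[ℂ] ℂ) : V →L[ℝ] V →L[ℝ] ℂ :=
  LinearMap.mkContinuous₂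
    ({ toFun := fun u => ((B u).restrictScalars ℝ).toLinearMap
       map_add' := by intro a b; ext c; simp
       map_smul' := by
        intro r a
        ext c
        have h1 : B (r • a) = (r : ℂ) • B a := by
          rw [← Complex.coe_smul r a, map_smulₛₗ, Complex.conj_ofReal]
        simp [h1] } : V →ₗ[ℝ] V →ₗ[ℝ] ℂ) ‖B‖
    (fun u v => B.le_opNorm₂ u v)

@[simp] theorem realB_apply (B : V →L⋆[ℂ] V →L[ℂ] ℂ) (u v : V) : realB B u v = B u v := rfl

theorem sm_S {φ ψ : ℂ → V} (hφ : M.Sm φ) (hψ : M.Sm ψ) {z : ℂ} (hz : z ∈ X) :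
    ContDiffAt ℝ ∞ (fun y => M.S y (φ y) (ψ y)) z := by
  have h1 : ContDiffAt ℝ ∞ (fun y => realB (M.S z) (M.tr z φ y) (M.tr z ψ y)) z :=
    ((realB (M.S z)).contDiff.contDiffAt.comp z (hφ z hz)).clm_apply (hψ z hz)
  refine h1.congr_of_eventuallyEq ?_
  filter_upwards [M.flatS z hz] with y hy
  rw [FB.tr, FB.tr, realB_apply, hy]

theorem nondeg {z : ℂ} (hz : z ∈ X) {v : V} (h : ∀ u, M.S z u v = 0) : v = 0 := by
  by_contra hne
  have h1 := M.pos z hz v hne
  rw [h] at h1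
  simp at h1

/-- adjoint of a derivative -/
theorem adj_D {A B : ℂ → (V →L[ℂ] V)} (hA : M.SmO A) (hB : M.SmO B)
    (h : ∀ z ∈ X, ∀ u v, M.S z (A z u) v = M.S z u (B z v)) {z : ℂ} (hz : z ∈ X) (u v : V) :
    M.S z (M.D2 A z u) v = M.S z u (M.D1 B z v) := by
  obtain ⟨U, hU, hS⟩ := Nb.exists_flatS (M := M) hz
  have key : (fun y => M.S z (M.trO z A y u) v) =ᶠ[𝓝 z] fun y => M.S z u (M.trO z B y v) := by
    filter_upwards [hU.op.mem_nhds hU.mem] with y hy
    have e1 : M.trO z A y u = M.P z y (A y (M.P y z u)) := rfl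
    have e2 : M.trO z B y v = M.P z y (B y (M.P y z v)) := rfl
    have h1 := hS y hy (A y (M.P y z u)) (M.P y z v)
    have h2 := hS y hy (M.P y z u) (B y (M.P y z v))
    rw [hU.inv_apply hU.mem hy] at h1 h2
    rw [e1, e2, h1, h2, h y (hU.sub hy)]
  have h1 := dW_congr key 1
  have dA : DifferentiableAt ℝ (fun y => M.trO z A y u) z := by
    have := ((hA z hz).differentiableAt (by simp) : DifferentiableAt ℝ (M.trO z A) z)
    exact ((ContinuousLinearMap.apply ℂ V u).restrictScalars ℝ).differentiableAt.comp z this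
  have dB' : DifferentiableAt ℝ (fun y => M.trO z B y v) z := by
    have := ((hB z hz).differentiableAt (by simp) : DifferentiableAt ℝ (M.trO z B) z)
    exact ((ContinuousLinearMap.apply ℂ V v).restrictScalars ℝ).differentiableAt.comp z this
  rw [FB.dW_sesq (M.S z) (f := fun y => M.trO z A y u) (g := fun _ => v) dA
      (differentiableAt_const _),
    FB.dW_sesq (M.S z) (f := fun _ => u) (g := fun y => M.trO z B y v)
      (differentiableAt_const _) dB'] at h1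
  simp only [dW_const, dB_const, map_zero, zero_apply, add_zero, zero_add] at h1
  have e1 : dB (fun y => M.trO z A y u) 1 z = M.D2 A z u :=
    dB_clm (ContinuousLinearMap.apply ℂ V u) ((hA z hz).differentiableAt (by simp)) 1
  have e2 : dW (fun y => M.trO z B y v) 1 z = M.D1 B z v :=
    dW_clm (ContinuousLinearMap.apply ℂ V v) ((hB z hz).differentiableAt (by simp)) 1
  rw [e1, e2] at h1
  exact h1

/-- `θ*` is minus the `S`-adjoint of `θ` -/
theorem S_ths {z : ℂ} (hz : z ∈ X) (u v : V) : M.S z (M.ths z u) v = - M.S z u (M.th z v) := by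
  unfold ths th
  rw [neg_apply, map_neg, neg_apply, M.adj_D M.smE M.smE M.sa hz]

theorem S_th {z : ℂ} (hz : z ∈ X) (u v : V) : M.S z (M.th z u) v = - M.S z u (M.ths z v) := by
  rw [← M.hermS z hz v, ← neg_eq_iff_eq_neg, ← map_neg, ← M.S_ths hz, M.hermS z hz]

/-- `θ*` raises the type -/
theorem hi_ths {z : ℂ} (hz : z ∈ X) : Hi (M.E z) (M.ths z) := by
  unfold Hi
  ext v
  rw [← sub_eq_zero]
  refine M.nondeg hz fun u => ?_
  have h := M.lo_th hz
  unfold Lo at h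
  have h1 : M.S z ((M.E z * M.th z - M.th z * M.E z + M.th z) u) v = 0 := by
    rw [h]; simp
  simp only [sub_apply, add_apply, mul_apply_eq_comp, map_sub, map_add] at h1 ⊢
  have e1 : M.S z u (M.E z (M.ths z v)) = - M.S z (M.th z (M.E z u)) v := by
    rw [← M.sa z hz, M.S_th hz, neg_neg]
  have e2 : M.S z u (M.ths z (M.E z v)) = - M.S z (M.E z (M.th z u)) v := by
    rw [M.sa z hz, M.S_th hz, neg_neg]
  have e3 : M.S z u (M.ths z v) = - M.S z (M.th z u) v := by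
    rw [M.S_th hz, neg_neg]
  rw [e1, e2, e3, ← h1]
  ring

theorem D1_E {z : ℂ} (hz : z ∈ X) : M.D1 M.E z = M.th z * M.E z - M.E z * M.th z := by
  have h := M.lo_th hz
  unfold Lo at h
  rw [← neg_sub, h, neg_neg]
  rfl

theorem D2_E {z : ℂ} (hz : z ∈ X) : M.D2 M.E z = M.ths z * M.E z - M.E z * M.ths z := by
  have h := M.hi_ths hz
  unfold Hi at h
  rw [← neg_sub, h]
  unfold ths
  rw [neg_neg]

theorem D1_P (p : ℕ) {z : ℂ} (hz : z ∈ X) :
    M.D1 (M.Pf p) z = M.th z * M.Pf p z - M.Pf p z * M.th z :=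
  FB.D1_aeval M.smE hz (M.D1_E hz) _

theorem D2_P (p : ℕ) {z : ℂ} (hz : z ∈ X) :
    M.D2 (M.Pf p) z = M.ths z * M.Pf p z - M.Pf p z * M.ths z :=
  FB.D2_aeval M.smE hz (M.D2_E hz) _

/-- the Weil operator as a polynomial in `E` -/
theorem Jf_eq (z : ℂ) : M.Jf z = Polynomial.aeval (M.E z)
    (∑ p ∈ Finset.range (w + 1), Polynomial.C ((-1 : ℂ) ^ p) * lag w p) := by
  unfold Jf J pr
  rw [map_sum]
  refine Finset.sum_congr rfl fun p _ => ?_
  rw [map_mul, Polynomial.aeval_C, Algebra.smul_def]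

theorem J_th {z : ℂ} (hz : z ∈ X) : M.Jf z * M.th z = - (M.th z * M.Jf z) :=
  (M.lo_th hz).J_mul (M.sp z hz)

theorem J_ths {z : ℂ} (hz : z ∈ X) : M.Jf z * M.ths z = - (M.ths z * M.Jf z) :=
  (M.hi_ths hz).J_mul (M.sp z hz)

theorem D1_J {z : ℂ} (hz : z ∈ X) : M.D1 M.Jf z = - (2 : ℂ) • (M.Jf z * M.th z) := by
  have e : M.Jf = fun z => Polynomial.aeval (M.E z)
    (∑ p ∈ Finset.range (w + 1), Polynomial.C ((-1 : ℂ) ^ p) * lag w p) := by
    funext z; exact M.Jf_eq z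
  have h := FB.D1_aeval M.smE hz (M.D1_E hz)
    (∑ p ∈ Finset.range (w + 1), Polynomial.C ((-1 : ℂ) ^ p) * lag w p)
  rw [← e, ← M.Jf_eq] at h
  rw [h, M.J_th hz]
  module

theorem D2_J {z : ℂ} (hz : z ∈ X) : M.D2 M.Jf z = - (2 : ℂ) • (M.Jf z * M.ths z) := by
  have e : M.Jf = fun z => Polynomial.aeval (M.E z)
    (∑ p ∈ Finset.range (w + 1), Polynomial.C ((-1 : ℂ) ^ p) * lag w p) := by
    funext z; exact M.Jf_eq z
  have h := FB.D2_aeval M.smE hz (M.D2_E hz)
    (∑ p ∈ Finset.range (w + 1), Polynomial.C ((-1 : ℂ) ^ p) * lag w p)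
  rw [← e, ← M.Jf_eq] at h
  rw [h, M.J_ths hz]
  module

/-- eigenspaces are `S`-orthogonal -/
theorem S_pr_pr {z : ℂ} (hz : z ∈ X) {p q : ℕ} (hpq : p ≠ q) (u v : V) :
    M.S z (M.Pf p z u) (M.Pf q z v) = 0 := by
  have h1 : M.E z (M.Pf p z u) = (p : ℂ) • M.Pf p z u := by
    exact congrArg (fun T : V →L[ℂ] V => T u) (T_mul_pr (M.sp z hz) p)
  have h2 : M.E z (M.Pf q z v) = (q : ℂ) • M.Pf q z v := by
    exact congrArg (fun T : V →L[ℂ] V => T v) (T_mul_pr (M.sp z hz) q)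
  have h3 := M.sa z hz (M.Pf p z u) (M.Pf q z v)
  rw [h1, h2, map_smulₛₗ, map_smul, smul_apply, smul_eq_mul, smul_eq_mul, Complex.conj_natCast] at h3
  have h4 : ((p : ℂ) - q) * M.S z (M.Pf p z u) (M.Pf q z v) = 0 := by
    rw [sub_mul, h3, sub_self]
  rcases mul_eq_zero.1 h4 with h | h
  · rw [sub_eq_zero] at h
    exact absurd (by exact_mod_cast h) hpq
  · exact h

theorem sum_Pf {z : ℂ} (hz : z ∈ X) (v : V) :
    ∑ p ∈ Finset.range (w + 1), M.Pf p z v = v := by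
  have := congrArg (fun T : V →L[ℂ] V => T v) (sum_pr (M.sp z hz))
  simp only [ContinuousLinearMap.sum_apply] at this
  exact this

theorem S_pr_left {z : ℂ} (hz : z ∈ X) (p : ℕ) (u v : V) :
    M.S z (M.Pf p z u) v = M.S z (M.Pf p z u) (M.Pf p z v) := by
  by_cases hp : p ≤ w
  · conv_lhs => rw [← M.sum_Pf hz v]
    rw [map_sum, Finset.sum_eq_single p]
    · intro b _ hb
      exact M.S_pr_pr hz (Ne.symm hb) u v
    · intro h
      exact absurd (Finset.mem_range.2 (by omega)) h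
  · have : M.Pf p z = 0 := pr_gt (by omega) _
    rw [this]; simp

theorem S_pr_right {z : ℂ} (hz : z ∈ X) (p : ℕ) (u v : V) :
    M.S z u (M.Pf p z v) = M.S z (M.Pf p z u) (M.Pf p z v) := by
  rw [← M.hermS z hz, M.S_pr_left hz, M.hermS z hz]

/-- the projectors are `S`-selfadjoint -/
theorem S_P {z : ℂ} (hz : z ∈ X) (p : ℕ) (u v : V) :
    M.S z (M.Pf p z u) v = M.S z u (M.Pf p z v) := by
  rw [M.S_pr_left hz p u v, M.S_pr_right hz p u v]

/-- the Weil operator is `S`-selfadjoint -/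
theorem S_J {z : ℂ} (hz : z ∈ X) (u v : V) : M.S z (M.Jf z u) v = M.S z u (M.Jf z v) := by
  unfold Jf J
  simp only [ContinuousLinearMap.sum_apply, smul_apply, map_sum, map_smul, map_smulₛₗ]
  refine Finset.sum_congr rfl fun p _ => ?_
  have := M.S_P hz p u v
  unfold Pf at this
  rw [this]
  simp

theorem JJ {z : ℂ} (hz : z ∈ X) (u : V) : M.Jf z (M.Jf z u) = u := by
  exact congrArg (fun T : V →L[ℂ] V => T u) (J_mul_J (M.sp z hz))

/-- the Hodge metric -/
noncomputable def Gf (z : ℂ) : V →L⋆[ℂ] V →L[ℂ] ℂ := (M.S z).comp (M.Jf z)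

theorem Gf_apply (z : ℂ) (u v : V) : M.Gf z u v = M.S z (M.Jf z u) v := rfl

theorem G_J {z : ℂ} (hz : z ∈ X) (u v : V) : M.Gf z (M.Jf z u) v = M.S z u v := by
  rw [Gf_apply, M.JJ hz]

theorem G_herm {z : ℂ} (hz : z ∈ X) (u v : V) :
    (starRingEnd ℂ) (M.Gf z u v) = M.Gf z v u := by
  rw [Gf_apply, Gf_apply, M.hermS z hz, M.S_J hz]

theorem G_adj_J {z : ℂ} (hz : z ∈ X) (u v : V) : M.Gf z (M.Jf z u) v = M.Gf z u (M.Jf z v) := by
  rw [Gf_apply, Gf_apply, M.JJ hz, ← M.S_J hz, M.JJ hz]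

theorem G_P {z : ℂ} (hz : z ∈ X) (p : ℕ) (u v : V) :
    M.Gf z (M.Pf p z u) v = M.Gf z u (M.Pf p z v) := by
  rw [Gf_apply, Gf_apply]
  have h1 : M.Jf z (M.Pf p z u) = M.Pf p z (M.Jf z u) := by
    have e : M.Jf z * M.Pf p z = M.Pf p z * M.Jf z :=
      (J_mul_pr (M.sp z hz) p).trans (pr_mul_J (M.sp z hz) p).symm
    exact congrArg (fun T : V →L[ℂ] V => T u) e
  rw [h1, M.S_P hz]

theorem G_th {z : ℂ} (hz : z ∈ X) (u v : V) : M.Gf z (M.th z u) v = M.Gf z u (M.ths z v) := by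
  rw [Gf_apply, Gf_apply]
  have h1 : M.Jf z (M.th z u) = - M.th z (M.Jf z u) :=
    congrArg (fun T : V →L[ℂ] V => T u) (M.J_th hz)
  rw [h1, map_neg, neg_apply, M.S_th hz, neg_neg]

theorem G_pos {z : ℂ} (hz : z ∈ X) {u : V} (hu : u ≠ 0) : 0 < (M.Gf z u u).re :=
  M.pos z hz u hu

theorem sm_G {φ ψ : ℂ → V} (hφ : M.Sm φ) (hψ : M.Sm ψ) {z : ℂ} (hz : z ∈ X) :
    ContDiffAt ℝ ∞ (fun y => M.Gf y (φ y) (ψ y)) z :=
  M.sm_S (FB.Sm.app M.smJ hφ) hψ hz

end PV

end Crest.Agent.R276.IpcG1_975
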