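import Crest.Agent.R276.IpcModel_244
import Crest.Agent.R276.Mod5_987

/-!
# Row 276 (S0419), leaf IPC-MODEL (helper244), part 2: the geometric variation of a relative model

`ML` a model of `L`, `MK` a model of `K` (helper987), `f : MK.Pts → ML.Pts` continuous, compatible with the
first `m` coordinates.
-/

set_option autoImplicit false

noncomputable section

open Set Filter Topology MeasureTheory
open Crest.Agent.R271.Ho51 Crest.Agent.R276.Ipc735 Crest.Agent.R276.Top8_815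
open Crest.Agent.R276.Tow2_244 Crest.Agent.R276.Tow4_244 Crest.Agent.R276.Iter_840
open Crest.Agent.R276.IpcModel_244 Crest.Agent.R276.Mod1_987 Crest.Agent.R271.Rd692

namespace Crest.Agent.R276.IpcRel_244

variable {L K : Type} [Field L] [Field K] [Algebra ℂ L] [Algebra ℂ K] {m r : ℕ}
  (ML : Mdl L m) (MK : Mdl K (m + r))

/-- `(w, x) ↦ (z(w), x)` -/
def apc (p : ML.Pts × (Fin r → ℂ)) : Fin (m + r) → ℂ := Fin.append (cp p.1) p.2

lemma continuous_apc : Continuous (apc ML (r := r)) := by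
  have h1 : Continuous fun p : ML.Pts × (Fin r → ℂ) => ((cp p.1 : Fin m → ℂ), p.2) :=
    (cp_cont.comp continuous_fst).prodMk continuous_snd
  exact (Fin.appendHomeomorph (X := ℂ) m r).continuous.comp h1

lemma isLocalHomeomorph_apc : IsLocalHomeomorph (apc ML (r := r)) := by
  have h1 : IsLocalHomeomorph (fun p : ML.Pts × (Fin r → ℂ) => ((cp p.1 : Fin m → ℂ), p.2)) :=
    lh_prod_id cp_lh
  exact (Fin.appendHomeomorph (X := ℂ) m r).isLocalHomeomorph.comp h1

variable {f : MK.Pts → ML.Pts} (hf : Continuous f)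
  (hfz : ∀ (y : MK.Pts) (i : Fin m), ML.pz (f y) i = MK.pz y (Fin.castAdd r i))

include hfz in
lemma apc_eq (y : MK.Pts) : apc ML (f y, fun i => MK.pz y (Fin.natAdd m i)) = MK.pz y := by
  funext i
  refine Fin.addCases (fun i => ?_) (fun i => ?_) i
  · change Fin.append (cp (f y)) _ (Fin.castAdd r i) = _
    rw [Fin.append_left]
    exact hfz y i
  · change Fin.append (cp (f y)) _ (Fin.natAdd m i) = _
    rw [Fin.append_right]

/-- `MK.Pts` fibred over `ML.Pts`, with the last `r` coordinates as fibre coordinates -/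
def relF : FSp m r ML.Pts MK.Pts where
  q := f
  t := fun y i => MK.pz y (Fin.natAdd m i)
  lh := by
    have hc : Continuous fun y => (f y, fun i => MK.pz y (Fin.natAdd m i)) :=
      hf.prodMk (continuous_pi fun i => continuous_ev (MK.z (Fin.natAdd m i)))
    refine IsLocalHomeomorph.of_comp (g := apc ML) ?_ (isLocalHomeomorph_apc ML) hc
    have h1 : (apc ML ∘ fun y => (f y, fun i => MK.pz y (Fin.natAdd m i))) = MK.pz :=
      funext fun y => apc_eq ML MK hfz y
    rw [h1]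
    exact isLocalHomeomorph_pr MK.hch

@[simp] lemma relF_q (y : MK.Pts) : (relF ML MK hf hfz).q y = f y := rfl

@[simp] lemma relF_t (y : MK.Pts) (i : Fin r) :
    (relF ML MK hf hfz).t y i = MK.pz y (Fin.natAdd m i) := rfl

/-- properness -/
lemma rel_compact {g : MvPolynomial (Fin (m + r)) ℂ} {k : ℕ}
    (hk : MK.h ∣ (g * MvPolynomial.rename (Fin.castAdd r) ML.h) ^ k)
    (C : Set (ML.Pts × (Fin r → ℂ))) (hC : IsCompact C)
    (hg : ∀ p ∈ C, MvPolynomial.eval (Fin.append (cp p.1) p.2) g ≠ 0) :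
    IsCompact {y : MK.Pts | ((relF ML MK hf hfz).q y, (relF ML MK hf hfz).t y) ∈ C} := by
  have h1 : IsCompact (apc ML '' C) := hC.image (continuous_apc ML)
  have h2 : ∀ ζ ∈ apc ML '' C, MvPolynomial.eval ζ MK.h ≠ 0 := by
    rintro _ ⟨p, hp, rfl⟩ h0
    obtain ⟨e, he⟩ := hk
    have h3 := congrArg (MvPolynomial.eval (apc ML p)) he
    rw [map_mul, h0, zero_mul, map_pow, map_mul, MvPolynomial.eval_rename] at h3
    have h4 := eq_zero_of_pow_eq_zero h3
    rcases mul_eq_zero.mp h4 with h5 | h5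
    · exact hg p hp h5
    · have h6 : (apc ML p ∘ Fin.castAdd r) = ML.pz p.1 := by
        funext i
        exact Fin.append_left _ _ i
      rw [h6] at h5
      exact ML.eval_h_ne p.1 h5
  have h3 := MK.isCompact_preimage h1 h2
  refine h3.of_isClosed_subset (hC.isClosed.preimage (relF ML MK hf hfz).lh.continuous) ?_
  intro y hy
  exact ⟨_, hy, apc_eq ML MK hfz y⟩

/-- **The geometric variation of a relative model.** -/
theorem geo_rel (hO : OneStep) (hR : StepRz) (hA : StepRzAct) (m r : ℕ)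
    (h : MvPolynomial (Fin (m + r)) ℂ) (hh : h ≠ 0) :
    ∃ (c₀ : MvPolynomial (Fin m) ℂ) (g : MvPolynomial (Fin (m + r)) ℂ), c₀ ≠ 0 ∧ g ≠ 0 ∧ h ∣ g ∧
      MvPolynomial.rename (Fin.castAdd r) c₀ ∣ g ∧
      ∀ (L K : Type) [Field L] [Field K] [Algebra ℂ L] [Algebra ℂ K] (ML : Mdl L m)
        (MK : Mdl K (m + r)) (f : MK.Pts → ML.Pts) (hf : Continuous f)
        (hfz : ∀ (y : MK.Pts) (i : Fin m), ML.pz (f y) i = MK.pz y (Fin.castAdd r i))
        (_ : c₀ ∣ ML.h) (_ : g ∣ MK.h) (k : ℕ)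
        (_ : MK.h ∣ (g * MvPolynomial.rename (Fin.castAdd r) ML.h) ^ k)
        (Γ : Type) [Group Γ] (α : Γ →* Equiv.Perm MK.Pts) (_ : ∀ g, Continuous (α g))
        (_ : ∀ g y, f (α g y) = f y)
        (_ : ∀ g y (i : Fin r), MK.pz (α g y) (Fin.natAdd m i) = MK.pz y (Fin.natAdd m i)),
        ∃ (N' : ℕ) (W : VHS m ML.Pts N' r) (ρ : Act W Γ)
          (ι : ML.Pts → (Fin N' → ℂ) → MK.Pts → ℂ),
          Rz W (relF ML MK hf hfz) ι ∧ RzAct ρ (relF ML MK hf hfz) ι (fun g => α g) := by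
  obtain ⟨c₀, g, h1, h2, h3, h4, H⟩ := geo_cov hO hR hA m r h hh
  refine ⟨c₀, g, h1, h2, h3, h4, ?_⟩
  intro L K _ _ _ _ ML MK f hf hfz hc hg k hk Γ _ α hα hq ht
  have hne : ∀ s : ML.Pts, MvPolynomial.eval (cp s) c₀ ≠ 0 := by
    intro s h0
    obtain ⟨e, he⟩ := hc
    apply ML.eval_h_ne s
    rw [he, map_mul]
    change MvPolynomial.eval (cp s) c₀ * _ = 0
    rw [h0, zero_mul]
  refine H ML.Pts hne MK.Pts (relF ML MK hf hfz) ?_ (fun C hC hCg =>
    rel_compact ML MK hf hfz hk C hC hCg) Γ α hα hq (fun g y => funext fun i => ht g y i)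
  intro y h0
  obtain ⟨e, he⟩ := hg
  apply MK.eval_h_ne y
  rw [he, map_mul]
  have h5 : (Fin.append (cp ((relF ML MK hf hfz).q y)) ((relF ML MK hf hfz).t y) :
      Fin (m + r) → ℂ) = MK.pz y := apc_eq ML MK hfz y
  rw [h5] at h0
  rw [h0, zero_mul]

end Crest.Agent.R276.IpcRel_244
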