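import Crest.Agent.R276.IpcL2_975
import Mathlib.Geometry.Manifold.PartitionOfUnity

/-!
# R276, IPC fixed-s assembly (helper975), part 10: local smooth representatives glue
-/

set_option autoImplicit false

open Set Filter Topology MeasureTheory UniformSpace
open scoped ContDiff ComplexConjugate

namespace Crest.Agent.R276.IpcG1_975

open VCalc_442 IpcGr_975

/-- finite partition of unity on a compact set -/
theorem exists_partition {K : Set ℂ} (hK : IsCompact K) {U : ℂ → Set ℂ}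
    (hU : ∀ x ∈ K, IsOpen (U x) ∧ x ∈ U x) :
    ∃ (s : Finset K) (f : K → ℂ → ℝ), (∀ i, ContDiff ℝ ∞ (f i)) ∧
      (∀ i, tsupport (f i) ⊆ U i) ∧ (∀ i x, 0 ≤ f i x) ∧ (∀ x ∈ K, ∑ i ∈ s, f i x = 1) := by
  obtain ⟨f, hf⟩ := SmoothPartitionOfUnity.exists_isSubordinate (modelWithCornersSelf ℝ ℂ)
    (s := K) hK.isClosed (fun x : K => U x) (fun x => (hU x x.2).1)
    (fun x hx => mem_iUnion.2 ⟨⟨x, hx⟩, (hU x hx).2⟩)
  have hfin := f.locallyFinite.finite_nonempty_inter_compact hK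
  refine ⟨hfin.toFinset, fun i => f i, fun i => (f i).contMDiff.contDiff, hf,
    fun i x => f.nonneg i x, fun x hx => ?_⟩
  rw [← f.sum_eq_one hx]
  symm
  refine finsum_eq_sum_of_support_subset _ fun i hi => ?_
  rw [Finset.mem_coe, Set.Finite.mem_toFinset]
  exact ⟨x, hi, hx⟩

variable {V : Type*} [NormedAddCommGroup V] [NormedSpace ℂ V] {X : Set ℂ}

namespace FB

variable {F : FB V X}

/-- a smooth function with compact support in `U` times a section which is smooth over `U` -/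
theorem cut_mem_A0 {U : Set ℂ} (hU : IsOpen U) (hUX : U ⊆ X) {f : ℂ → ℂ} (hf : ContDiff ℝ ∞ f)
    (hc : HasCompactSupport f) (hs : tsupport f ⊆ U) {φ : ℂ → V}
    (hφ : ∀ z ∈ U, ContDiffAt ℝ ∞ (F.tr z φ) z) : (fun z => f z • φ z) ∈ F.A0 := by
  refine ⟨fun z hz => ?_, tsupport f, hs.trans hUX, hc, fun x hx => by
    simp [image_eq_zero_of_notMem_tsupport hx]⟩
  by_cases h : z ∈ tsupport f
  · have e : F.tr z (fun z => f z • φ z) = fun y => f y • F.tr z φ y := by
      funext y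
      unfold tr
      rw [map_smul]
    rw [e]
    exact hf.contDiffAt.smul (hφ z (hs h))
  · have e : F.tr z (fun z => f z • φ z) =ᶠ[𝓝 z] fun _ => 0 := by
      filter_upwards [(isClosed_tsupport f).isOpen_compl.mem_nhds h] with y hy
      have h0 : f y = 0 := image_eq_zero_of_notMem_tsupport hy
      show F.P z y (f y • φ y) = 0
      rw [h0, zero_smul, map_zero]
    exact contDiffAt_const.congr_of_eventuallyEq e

end FB

/-- cut-off function equal to `1` on a compact set -/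
theorem exists_cutK {T W : Set ℂ} (hT : IsCompact T) (hW : IsOpen W) (h : T ⊆ W) :
    ∃ f : ℂ → ℝ, ContDiff ℝ ∞ f ∧ HasCompactSupport f ∧ tsupport f ⊆ W ∧ (∀ x, 0 ≤ f x) ∧
      (∀ x, f x ≤ 1) ∧ ∀ x ∈ T, f x = 1 := by
  obtain ⟨K, hK, hTK, hKW⟩ := exists_compact_between hT hW h
  obtain ⟨f, h1, h2, h3, h4⟩ := exists_contMDiff_support_eq_eq_one_iff
    (modelWithCornersSelf ℝ ℂ) (n := ⊤) (isOpen_interior (s := K)) hT.isClosed hTK
  have hts : tsupport f ⊆ K := by
    unfold tsupport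
    rw [h3]
    exact closure_minimal interior_subset hK.isClosed
  refine ⟨f, h1.contDiff, HasCompactSupport.of_support_subset_isCompact hK
    ((subset_tsupport f).trans hts), hts.trans hKW, fun x => ?_, fun x => ?_,
    fun x hx => (h4 x).1 hx⟩
  · exact (h2 (mem_range_self x)).1
  · exact (h2 (mem_range_self x)).2

/-- the complex valued version of a real cut-off function -/
structure CutC (U : Set ℂ) (f : ℂ → ℝ) : Prop where
  sm : ContDiff ℝ ∞ f
  cs : HasCompactSupport f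
  sub : tsupport f ⊆ U

theorem CutC.smC {U : Set ℂ} {f : ℂ → ℝ} (h : CutC U f) : ContDiff ℝ ∞ (fun x => (f x : ℂ)) :=
  Complex.ofRealCLM.contDiff.comp h.sm

theorem CutC.csC {U : Set ℂ} {f : ℂ → ℝ} (h : CutC U f) :
    HasCompactSupport (fun x => (f x : ℂ)) :=
  h.cs.comp_left (g := fun x : ℝ => (x : ℂ)) Complex.ofReal_zero

theorem CutC.subC {U : Set ℂ} {f : ℂ → ℝ} (h : CutC U f) :
    tsupport (fun x => (f x : ℂ)) ⊆ U := by
  refine (closure_mono fun y hy => ?_).trans h.sub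
  intro h0
  exact hy (by simp [h0])

theorem CutC.zero {U : Set ℂ} {f : ℂ → ℝ} (_ : CutC U f) {x : ℂ} (hx : x ∉ tsupport f) :
    f x = 0 := image_eq_zero_of_notMem_tsupport hx

namespace MB

variable (M : MB V X)

theorem sum_f' {κ : Type*} (s : Finset κ) (φ : κ → M.H0) (z : ℂ) :
    (∑ k ∈ s, φ k).f z = ∑ k ∈ s, (φ k).f z := by
  classical
  induction s using Finset.induction_on with
  | empty => simp
  | insert a s ha ih =>
    rw [Finset.sum_insert ha, Finset.sum_insert ha, add_f]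
    simp only
    rw [ih]

theorem f_eq_zero' (φ : M.H0) {x : ℂ} (hx : x ∉ X) : φ.f x = 0 := by
  obtain ⟨K, hK, -, h0⟩ := φ.mem.2
  exact h0 x (fun h => hx (hK h))

theorem coe_sum' {κ : Type*} (s : Finset κ) (φ : κ → M.H0) :
    ((∑ k ∈ s, φ k : M.H0) : M.L2) = ∑ k ∈ s, (φ k : M.L2) := by
  classical
  induction s using Finset.induction_on with
  | empty =>
    rw [Finset.sum_empty, Finset.sum_empty]
    exact Completion.coe_zero
  | insert a s ha ih => rw [Finset.sum_insert ha, Finset.sum_insert ha, Completion.coe_add, ih]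

/-- `ζ` vanishes off a compact part of `U` -/
def Sup (ζ : M.H0) (U : Set ℂ) : Prop := ∃ K ⊆ U, IsCompact K ∧ ∀ x ∉ K, ζ.f x = 0

/-- the section `α`, smooth over the open set `U`, represents `η` over `U` -/
structure LRep (η : M.L2) (U : Set ℂ) (α : ℂ → V) : Prop where
  op : IsOpen U
  sub : U ⊆ X
  sm : ∀ z ∈ U, ContDiffAt ℝ ∞ (M.tr z α) z
  rep : ∀ ζ : M.H0, M.Sup ζ U → inner ℂ (ζ : M.L2) η = ∫ x, M.G x (ζ.f x) (α x)

variable {M}

theorem eq_zero_of_G {z : ℂ} (hz : z ∈ X) {u : V} (h : (M.G z u u).re = 0) : u = 0 := by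
  obtain ⟨C, hC, hb⟩ := M.bd z hz
  have h1 := (hb.self_of_nhds u).1
  rw [h, mul_zero, M.one z hz] at h1
  have h2 : ‖u‖ ^ 2 ≤ 0 := h1
  have h3 : ‖u‖ = 0 := by nlinarith [norm_nonneg u, sq_nonneg ‖u‖]
  exact norm_eq_zero.1 h3

theorem LRep.unique {η : M.L2} {U U' : Set ℂ} {α α' : ℂ → V} (h : M.LRep η U α)
    (h' : M.LRep η U' α') {z : ℂ} (hz : z ∈ U) (hz' : z ∈ U') : α z = α' z := by
  have hW : IsOpen (U ∩ U') := h.op.inter h'.op
  have hWX : U ∩ U' ⊆ X := inter_subset_left.trans h.sub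
  obtain ⟨f, hf, hc, hs, hf0, -, hf1⟩ := exists_cutK (isCompact_singleton (x := z)) hW
    (singleton_subset_iff.2 ⟨hz, hz'⟩)
  obtain ⟨g, hg, hgc, hgs, hg0, -, hg1⟩ := exists_cutK hc hW hs
  have hfC : CutC (U ∩ U') f := ⟨hf, hc, hs⟩
  have hgC : CutC (U ∩ U') g := ⟨hg, hgc, hgs⟩
  have hf1 := hf1 z rfl
  have hgz : g z = 1 := hg1 z (subset_tsupport f (by rw [Function.mem_support, hf1]; norm_num))
  have ma : (fun x => (g x : ℂ) • α x) ∈ M.A0 :=
    FB.cut_mem_A0 hW hWX hgC.smC hgC.csC hgC.subC fun z hz => h.sm z hz.1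
  have ma' : (fun x => (g x : ℂ) • α' x) ∈ M.A0 :=
    FB.cut_mem_A0 hW hWX hgC.smC hgC.csC hgC.subC fun z hz => h'.sm z hz.2
  set a : M.H0 := M.s0 _ ma with ha
  set a' : M.H0 := M.s0 _ ma' with ha'
  have mζ : (fun x => (f x : ℂ) • (a - a').f x) ∈ M.A0 :=
    FB.smul_mem_A0' (a - a').mem fun z _ => hfC.smC.contDiffAt
  set ζ : M.H0 := M.s0 _ mζ with hζ
  have hζ0 : ∀ x, x ∉ tsupport f → ζ.f x = 0 := by
    intro x hx
    show (f x : ℂ) • (a - a').f x = 0
    rw [hfC.zero hx]; simp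
  have hsup : ∀ {W : Set ℂ}, U ∩ U' ⊆ W → M.Sup ζ W := fun {W} hW =>
    ⟨tsupport f, hs.trans hW, hc, hζ0⟩
  have e1 := h.rep ζ (hsup inter_subset_left)
  have e2 := h'.rep ζ (hsup inter_subset_right)
  have e3 : ∫ x, M.G x (ζ.f x) (α x) = ∫ x, M.G x (ζ.f x) (a.f x) := by
    refine integral_congr_ae (Eventually.of_forall fun x => ?_)
    simp only
    by_cases hx : x ∈ tsupport f
    · have : a.f x = α x := by
        show (g x : ℂ) • α x = α x
        rw [hg1 x hx]; simp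
      rw [this]
    · rw [hζ0 x hx]; simp
  have e4 : ∫ x, M.G x (ζ.f x) (α' x) = ∫ x, M.G x (ζ.f x) (a'.f x) := by
    refine integral_congr_ae (Eventually.of_forall fun x => ?_)
    simp only
    by_cases hx : x ∈ tsupport f
    · have : a'.f x = α' x := by
        show (g x : ℂ) • α' x = α' x
        rw [hg1 x hx]; simp
      rw [this]
    · rw [hζ0 x hx]; simp
  have e5 : ∫ x, M.G x (ζ.f x) ((a - a').f x) = 0 := by
    have : ∀ x, M.G x (ζ.f x) ((a - a').f x) = M.G x (ζ.f x) (a.f x) - M.G x (ζ.f x) (a'.f x) := by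
      intro x
      rw [sub_f, map_sub]
    simp only [this]
    rw [integral_sub (M.cs ζ.mem a.mem).integrable (M.cs ζ.mem a'.mem).integrable, ← e3, ← e4,
      ← e1, ← e2, sub_self]
  have hpt : ∀ x, (M.G x (ζ.f x) ((a - a').f x)).re =
      f x * (M.G x ((a - a').f x) ((a - a').f x)).re := by
    intro x
    have : ζ.f x = (f x : ℂ) • (a - a').f x := rfl
    rw [this, map_smulₛₗ, smul_apply, Complex.conj_ofReal, smul_eq_mul, Complex.re_ofReal_mul]
  have hnn : ∀ x, 0 ≤ (M.G x (ζ.f x) ((a - a').f x)).re := by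
    intro x
    rw [hpt]
    by_cases hx : x ∈ X
    · exact mul_nonneg (hf0 x) (M.G_nonneg hx _)
    · rw [M.f_eq_zero' (a - a') hx]; simp
  have hcs := M.cs ζ.mem (a - a').mem
  have hint : Integrable (fun x => (M.G x (ζ.f x) ((a - a').f x)).re) := hcs.integrable.re
  have h0 : ∫ x, (M.G x (ζ.f x) ((a - a').f x)).re = 0 := by
    have := integral_re hcs.integrable
    have h2 : ∫ x, (M.G x (ζ.f x) ((a - a').f x)).re =
      (∫ x, M.G x (ζ.f x) ((a - a').f x)).re := this
    rw [h2, e5, Complex.zero_re]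
  have hae := (integral_eq_zero_iff_of_nonneg hnn hint).1 h0
  have hcont : Continuous (fun x => (M.G x (ζ.f x) ((a - a').f x)).re) :=
    Complex.continuous_re.comp hcs.continuous
  have hall := (Continuous.ae_eq_iff_eq volume hcont continuous_const).1 hae
  have hz0 : (M.G z (ζ.f z) ((a - a').f z)).re = 0 := congrFun hall z
  rw [hpt, hf1, one_mul] at hz0
  have h3 := eq_zero_of_G (h.sub hz) hz0
  have h4 : (a - a').f z = α z - α' z := by
    show (g z : ℂ) • α z - (g z : ℂ) • α' z = α z - α' z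
    rw [hgz]; simp
  rw [h4] at h3
  exact sub_eq_zero.1 h3

/-- smooth global representative -/
structure GRep (M : MB V X) (η : M.L2) (α : ℂ → V) : Prop where
  sm : M.Sm α
  rep : ∀ ζ : M.H0, inner ℂ (ζ : M.L2) η = ∫ x, M.G x (ζ.f x) (α x)

/-- local representatives glue -/
theorem LRep.glue {η : M.L2} (h : ∀ z ∈ X, ∃ U, z ∈ U ∧ ∃ α, M.LRep η U α) :
    ∃ α, M.GRep η α := by
  classical
  choose! U hzU β hβ using h
  set α : ℂ → V := fun x => β x x with hα
  have hagree : ∀ z ∈ X, ∀ x ∈ U z, α x = β z x := by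
    intro z hz x hx
    have hxX : x ∈ X := (hβ z hz).sub hx
    exact (hβ x hxX).unique (hβ z hz) (hzU x hxX) hx
  have hsm : M.Sm α := by
    intro z hz
    refine ((hβ z hz).sm z (hzU z hz)).congr_of_eventuallyEq ?_
    filter_upwards [(hβ z hz).op.mem_nhds (hzU z hz)] with y hy
    rw [FB.tr, FB.tr, hagree z hz y hy]
  refine ⟨α, hsm, fun ζ => ?_⟩
  obtain ⟨K, hK, hKc, h0⟩ := ζ.mem.2
  obtain ⟨s, f, hf1, hf2, hf3, hf4⟩ := exists_partition hKc (U := U)
    (fun x hx => ⟨(hβ x (hK hx)).op, hzU x (hK hx)⟩)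
  have hfC : ∀ i : K, ContDiff ℝ ∞ (fun x => (f i x : ℂ)) := fun i =>
    Complex.ofRealCLM.contDiff.comp (hf1 i)
  have hm : ∀ i : K, (fun x => (f i x : ℂ) • ζ.f x) ∈ M.A0 := fun i =>
    FB.smul_mem_A0' ζ.mem fun z _ => (hfC i).contDiffAt
  have hsum : ζ = ∑ i ∈ s, M.s0 _ (hm i) := by
    refine H0.ext ?_
    funext x
    rw [M.sum_f' s (fun i => M.s0 _ (hm i)) x]
    simp only [s0_f]
    rw [← Finset.sum_smul]
    by_cases hx : x ∈ K
    · have : ∑ i ∈ s, (f i x : ℂ) = 1 := by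
        have := hf4 x hx
        exact_mod_cast this
      rw [this, one_smul]
    · rw [h0 x hx, smul_zero]
  have hterm : ∀ i : K, inner ℂ ((M.s0 _ (hm i) : M.H0) : M.L2) η =
      ∫ x, M.G x ((M.s0 _ (hm i)).f x) (α x) := by
    intro i
    rw [(hβ i (hK i.2)).rep (M.s0 _ (hm i)) ⟨K ∩ tsupport (f i), fun x hx => hf2 i hx.2,
      hKc.inter_right (isClosed_tsupport _), fun x hx => ?_⟩]
    · refine integral_congr_ae (Eventually.of_forall fun x => ?_)
      simp only [s0_f]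
      by_cases hx : x ∈ tsupport (f i)
      · rw [hagree i (hK i.2) x (hf2 i hx)]
      · have : f i x = 0 := image_eq_zero_of_notMem_tsupport hx
        rw [this]; simp
    · show (f i x : ℂ) • ζ.f x = 0
      by_cases hxK : x ∈ K
      · have : f i x = 0 := image_eq_zero_of_notMem_tsupport fun h => hx ⟨hxK, h⟩
        rw [this]; simp
      · rw [h0 x hxK, smul_zero]
  have e1 : (ζ : M.L2) = ∑ i ∈ s, ((M.s0 _ (hm i) : M.H0) : M.L2) := by
    conv_lhs => rw [hsum]
    exact M.coe_sum' s _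
  have hint : ∀ i ∈ s, Integrable (fun x => M.G x ((M.s0 _ (hm i)).f x) (α x)) := fun i _ =>
    (M.cs_left (hm i) hsm).integrable
  rw [e1, sum_inner, Finset.sum_congr rfl fun i _ => hterm i, ← integral_finsetSum _ hint]
  refine integral_congr_ae (Eventually.of_forall fun x => ?_)
  simp only
  have e2 : ζ.f x = ∑ i ∈ s, (M.s0 _ (hm i)).f x := by
    conv_lhs => rw [hsum]
    exact M.sum_f' s (fun i => M.s0 _ (hm i)) x
  rw [e2, map_sum, ContinuousLinearMap.sum_apply]

end MB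

end Crest.Agent.R276.IpcG1_975
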