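import Crest.Agent.R276.IpcDb_975

/-!
# R276, IPC fixed-s assembly (helper975), part 7: the operators of type on the L² space of forms
-/

set_option autoImplicit false

open Set Filter Topology MeasureTheory UniformSpace
open scoped ContDiff ComplexConjugate

namespace Crest.Agent.R276.IpcG1_975

open VCalc_442 IpcGr_975

variable {V : Type*} [NormedAddCommGroup V] [NormedSpace ℂ V] {X : Set ℂ}

namespace MB

variable (M : MB V X)

theorem ok_one : M.Ok (fun _ => 1) :=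
  ⟨FB.SmO.one, 1, zero_le_one, fun x _ u => by simp⟩

theorem ok_zero : M.Ok (fun _ => 0) :=
  ⟨FB.SmO.zero, 0, le_rfl, fun x _ u => by simp⟩

theorem opL_one (u : M.L2) : M.opL (fun _ => 1) u = u := by
  refine M.dense_ext (f := fun u => M.opL (fun _ => 1) u) (g := fun u => u)
    (M.opL _).continuous continuous_id (fun φ => ?_) u
  rw [M.op_coe M.ok_one]
  rfl

theorem opL_zero (u : M.L2) : M.opL (fun _ => 0) u = 0 := by
  refine M.dense_ext (f := fun u => M.opL (fun _ => 0) u) (g := fun _ => 0)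
    (M.opL _).continuous continuous_const (fun φ => ?_) u
  rw [M.op_coe M.ok_zero, ← Completion.coe_zero]
  rfl

/-- the section of a sum -/
theorem sum_f {κ : Type*} (s : Finset κ) (φ : κ → M.H0) (z : ℂ) :
    (∑ k ∈ s, φ k).f z = ∑ k ∈ s, (φ k).f z := by
  classical
  induction s using Finset.induction_on with
  | empty => simp
  | insert a s ha ih =>
    rw [Finset.sum_insert ha, Finset.sum_insert ha, add_f]
    simp only
    rw [ih]

theorem f_eq_zero (φ : M.H0) {x : ℂ} (hx : x ∉ X) : φ.f x = 0 := by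
  obtain ⟨K, hK, -, h0⟩ := φ.mem.2
  exact h0 x (fun h => hx (hK h))

theorem coe_sum {κ : Type*} (s : Finset κ) (φ : κ → M.H0) :
    ((∑ k ∈ s, φ k : M.H0) : M.L2) = ∑ k ∈ s, (φ k : M.L2) := by
  classical
  induction s using Finset.induction_on with
  | empty =>
    rw [Finset.sum_empty, Finset.sum_empty]
    exact Completion.coe_zero
  | insert a s ha ih => rw [Finset.sum_insert ha, Finset.sum_insert ha, Completion.coe_add, ih]

theorem sum_opL {κ : Type*} (s : Finset κ) (c : κ → ℂ) {A : κ → ℂ → (V →L[ℂ] V)}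
    (hA : ∀ k ∈ s, M.Ok (A k)) {B : ℂ → (V →L[ℂ] V)} (hB : M.Ok B)
    (h : ∀ x ∈ X, ∑ k ∈ s, c k • A k x = B x) (u : M.L2) :
    ∑ k ∈ s, c k • M.opL (A k) u = M.opL B u := by
  refine M.dense_ext (f := fun u => ∑ k ∈ s, c k • M.opL (A k) u) (g := fun u => M.opL B u)
    (continuous_finsetSum _ fun k _ => (M.opL (A k)).continuous.const_smul (c k))
    (M.opL _).continuous (fun φ => ?_) u
  rw [M.op_coe hB]
  have h1 : ∀ k ∈ s, c k • M.opL (A k) (φ : M.L2) = ((c k • M.opL (A k) (φ : M.L2)) : M.L2) :=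
    fun _ _ => rfl
  have h2 : ∀ k : s, ∃ ψ : M.H0, c k • M.opL (A k) (φ : M.L2) = (ψ : M.L2) ∧
      ∀ z, ψ.f z = c k • A k z (φ.f z) := by
    intro k
    refine ⟨c k • M.s0 _ (FB.app_mem_A0 (hA k k.2).1 φ.mem), ?_, fun z => rfl⟩
    rw [M.op_coe (hA k k.2), ← Completion.coe_smul]
  choose ψ hψ hψ2 using h2
  rw [← Finset.sum_coe_sort, Finset.sum_congr rfl (fun k _ => hψ k), ← M.coe_sum]
  congr 1
  refine H0.ext ?_
  funext z
  rw [M.sum_f, s0_f, Finset.sum_congr rfl (fun k _ => hψ2 k z),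
    Finset.sum_coe_sort s (fun k => c k • A k z (φ.f z))]
  by_cases hz : z ∈ X
  · rw [← h z hz]
    simp [ContinuousLinearMap.sum_apply]
  · simp [M.f_eq_zero φ hz]

end MB

namespace PV

variable {w : ℕ} (M : PV V X w)

/-- projector on the type `p - 1` part (`0` if `p = 0`) -/
noncomputable def Pm (p : ℕ) (z : ℂ) : V →L[ℂ] V := if p = 0 then 0 else M.Pf (p - 1) z

theorem Pm_zero (z : ℂ) : M.Pm 0 z = 0 := rfl
theorem Pm_succ (p : ℕ) (z : ℂ) : M.Pm (p + 1) z = M.Pf p z := rfl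

theorem sm_Pm (p : ℕ) : M.SmO (M.Pm p) := by
  cases p with
  | zero =>
    have : M.Pm 0 = fun _ => 0 := by funext z; rfl
    rw [this]
    exact FB.SmO.zero
  | succ p =>
    have : M.Pm (p + 1) = M.Pf p := by funext z; rfl
    rw [this]
    exact M.smP p

/-- projector on the total type `p` -/
noncomputable def ty (p : ℕ) (z : ℂ) : V × V →L[ℂ] V × V := FB.dg (M.Pm p) (M.Pf p) z

/-- `β (a, b) = (-J a, J b)` -/
noncomputable def bt (z : ℂ) : V × V →L[ℂ] V × V := FB.dg (fun z => - M.Jf z) M.Jf z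

theorem sm_ty (p : ℕ) : M.toFB.dbl.SmO (M.ty p) := FB.smO_dg (M.sm_Pm p) (M.smP p)

theorem sm_bt : M.toFB.dbl.SmO M.bt := FB.smO_dg M.smJ.neg M.smJ

theorem Pf_idem {z : ℂ} (hz : z ∈ X) (p : ℕ) (u : V) : M.Pf p z (M.Pf p z u) = M.Pf p z u := by
  have h := pr_mul_pr (M.sp z hz) p p
  rw [if_pos rfl] at h
  exact congrArg (fun T : V →L[ℂ] V => T u) h

theorem Pf_mul0 {z : ℂ} (hz : z ∈ X) {p q : ℕ} (hpq : p ≠ q) (u : V) :
    M.Pf p z (M.Pf q z u) = 0 := by
  have h := pr_mul_pr (M.sp z hz) p q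
  rw [if_neg hpq] at h
  exact congrArg (fun T : V →L[ℂ] V => T u) h

theorem G_nonneg' {z : ℂ} (hz : z ∈ X) (u : V) : 0 ≤ (M.Gf z u u).re := by
  by_cases hu : u = 0
  · simp [hu]
  · exact (M.G_pos hz hu).le

theorem G_P_le {z : ℂ} (hz : z ∈ X) (p : ℕ) (u : V) :
    (M.Gf z (M.Pf p z u) (M.Pf p z u)).re ≤ (M.Gf z u u).re := by
  have h1 : M.Gf z u u = M.Gf z (M.Pf p z u) (M.Pf p z u) +
      M.Gf z (u - M.Pf p z u) (u - M.Pf p z u) := by
    have e1 : M.Gf z (M.Pf p z u) (u - M.Pf p z u) = 0 := by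
      rw [M.G_P hz, map_sub, M.Pf_idem hz, sub_self, map_zero]
    have e2 : M.Gf z (u - M.Pf p z u) (M.Pf p z u) = 0 := by
      rw [← M.G_herm hz, e1, map_zero]
    have e3 : u = M.Pf p z u + (u - M.Pf p z u) := by abel
    conv_lhs => rw [e3]
    rw [map_add, map_add, add_apply, add_apply, e1, e2]
    ring
  have h2 := M.G_nonneg' hz (u - M.Pf p z u)
  rw [h1, Complex.add_re]
  linarith

theorem G_J_J {z : ℂ} (hz : z ∈ X) (u v : V) :
    M.Gf z (M.Jf z u) (M.Jf z v) = M.Gf z u v := by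
  rw [M.G_adj_J hz, M.JJ hz]

variable [FiniteDimensional ℂ V]

theorem ok_ty (p : ℕ) : M.mb.dbl.Ok (M.ty p) := by
  refine ⟨M.sm_ty p, 1, zero_le_one, fun z hz u => ?_⟩
  rw [one_pow, one_mul]
  show (M.Gf z (M.Pm p z u.1) (M.Pm p z u.1) + M.Gf z (M.Pf p z u.2) (M.Pf p z u.2)).re ≤
    (M.Gf z u.1 u.1 + M.Gf z u.2 u.2).re
  rw [Complex.add_re, Complex.add_re]
  refine add_le_add ?_ (M.G_P_le hz p u.2)
  cases p with
  | zero => rw [M.Pm_zero]; simpa using M.G_nonneg' hz u.1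
  | succ p => rw [M.Pm_succ]; exact M.G_P_le hz p u.1

theorem ok_bt : M.mb.dbl.Ok M.bt := by
  refine ⟨M.sm_bt, 1, zero_le_one, fun z hz u => ?_⟩
  rw [one_pow, one_mul]
  show (M.Gf z (- M.Jf z u.1) (- M.Jf z u.1) + M.Gf z (M.Jf z u.2) (M.Jf z u.2)).re ≤
    (M.Gf z u.1 u.1 + M.Gf z u.2 u.2).re
  rw [map_neg, map_neg, neg_apply, neg_neg, M.G_J_J hz, M.G_J_J hz]

/-- the Hilbert space of forms -/
abbrev L (M : PV V X w) : Type _ := M.mb.dbl.L2

/-- the operator `β` -/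
noncomputable def be : M.L →L[ℂ] M.L := M.mb.dbl.opL M.bt

/-- the projector on total type `p` -/
noncomputable def Ty (p : ℕ) : M.L →L[ℂ] M.L := M.mb.dbl.opL (M.ty p)

theorem be_symm (u v : M.L) : inner ℂ (M.be u) v = inner ℂ u (M.be v) := by
  refine M.mb.dbl.op_adj M.ok_bt M.ok_bt (fun z hz u v => ?_) u v
  show M.Gf z (- M.Jf z u.1) v.1 + M.Gf z (M.Jf z u.2) v.2 =
    M.Gf z u.1 (- M.Jf z v.1) + M.Gf z u.2 (M.Jf z v.2)
  rw [map_neg, map_neg, neg_apply, M.G_adj_J hz, M.G_adj_J hz]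

theorem be_be (u : M.L) : M.be (M.be u) = u := by
  have hok : M.mb.dbl.Ok (fun x => M.bt x * M.bt x) := by
    refine ⟨FB.SmO.mul M.sm_bt M.sm_bt, 1, zero_le_one, fun z hz u => ?_⟩
    have : (M.bt z * M.bt z) u = u := by
      show (- M.Jf z (- M.Jf z u.1), M.Jf z (M.Jf z u.2)) = u
      rw [map_neg, neg_neg, M.JJ hz, M.JJ hz]
    rw [this]; simp
  have h := M.mb.dbl.op_mul M.ok_bt M.ok_bt hok u
  have h2 : M.mb.dbl.opL (fun x => M.bt x * M.bt x) = M.mb.dbl.opL (fun _ => 1) := by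
    refine M.mb.dbl.op_congr hok M.mb.dbl.ok_one fun z hz => ?_
    ext u <;> simp [bt, M.JJ hz]
  unfold be
  rw [h, h2, M.mb.dbl.opL_one]

theorem Ty_sum (u : M.L) : ∑ p ∈ Finset.range (w + 1 + 1), M.Ty p u = u := by
  have h := M.mb.dbl.sum_opL (Finset.range (w + 1 + 1)) (fun _ => 1) (A := M.ty)
    (fun p _ => M.ok_ty p) M.mb.dbl.ok_one (fun z hz => ?_) u
  · rw [M.mb.dbl.opL_one] at h
    simp only [one_smul] at h
    exact h
  · simp only [one_smul]
    ext u
    · simp only [ty, ContinuousLinearMap.sum_apply, ContinuousLinearMap.comp_apply,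
        ContinuousLinearMap.inl_apply, FB.dg_apply, Prod.fst_sum]
      rw [Finset.sum_range_succ']
      simp only [M.Pm_zero, M.Pm_succ, zero_apply, add_zero]
      exact M.sum_Pf hz u
    · simp only [ty, ContinuousLinearMap.sum_apply, ContinuousLinearMap.comp_apply,
        ContinuousLinearMap.inl_apply, FB.dg_apply, Prod.snd_sum, map_zero]
      simp
    · simp only [ty, ContinuousLinearMap.sum_apply, ContinuousLinearMap.comp_apply,
        ContinuousLinearMap.inr_apply, FB.dg_apply, Prod.fst_sum, map_zero]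
      simp
    · simp only [ty, ContinuousLinearMap.sum_apply, ContinuousLinearMap.comp_apply,
        ContinuousLinearMap.inr_apply, FB.dg_apply, Prod.snd_sum]
      rw [Finset.sum_range_succ]
      have h0 : M.Pf (w + 1) z = 0 := pr_gt (by omega) _
      rw [h0, zero_apply, add_zero]
      exact M.sum_Pf hz u

theorem Ty_Ty (p q : ℕ) (u : M.L) :
    M.Ty p (M.Ty q u) = if p = q then M.Ty p u else 0 := by
  have hPm : ∀ z ∈ X, ∀ v, M.Pm p z (M.Pm q z v) = if p = q then M.Pm p z v else 0 := by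
    intro z hz v
    cases p with
    | zero =>
      rw [M.Pm_zero]
      split_ifs <;> simp
    | succ p =>
      cases q with
      | zero => rw [M.Pm_zero, M.Pm_succ]; simp
      | succ q =>
        rw [M.Pm_succ, M.Pm_succ]
        split_ifs with h
        · have : p = q := by omega
          subst this
          exact M.Pf_idem hz p v
        · exact M.Pf_mul0 hz (by omega) v
  have hPf : ∀ z ∈ X, ∀ v, M.Pf p z (M.Pf q z v) = if p = q then M.Pf p z v else 0 := by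
    intro z hz v
    split_ifs with h
    · subst h
      exact M.Pf_idem hz p v
    · exact M.Pf_mul0 hz h v
  have hpt : ∀ z ∈ X, M.ty p z * M.ty q z = if p = q then M.ty p z else 0 := by
    intro z hz
    refine ContinuousLinearMap.ext fun u => ?_
    show (M.Pm p z (M.Pm q z u.1), M.Pf p z (M.Pf q z u.2)) = _
    rw [hPm z hz, hPf z hz]
    split_ifs <;> rfl
  by_cases h : p = q
  · subst h
    simp only [if_true] at hpt ⊢
    have hok : M.mb.dbl.Ok (fun x => M.ty p x * M.ty p x) := by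
      refine ⟨FB.SmO.mul (M.sm_ty p) (M.sm_ty p), ?_⟩
      obtain ⟨C, h0, hC⟩ := (M.ok_ty p).2
      exact ⟨C, h0, fun z hz u => by simpa only [hpt z hz] using hC z hz u⟩
    unfold Ty
    rw [M.mb.dbl.op_mul (M.ok_ty p) (M.ok_ty p) hok, M.mb.dbl.op_congr hok (M.ok_ty p) hpt]
  · simp only [h, if_false] at hpt ⊢
    have hok : M.mb.dbl.Ok (fun x => M.ty p x * M.ty q x) := by
      refine ⟨FB.SmO.mul (M.sm_ty p) (M.sm_ty q), 0, le_rfl, fun z hz u => ?_⟩
      simp only [hpt z hz]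
      simp
    unfold Ty
    rw [M.mb.dbl.op_mul (M.ok_ty p) (M.ok_ty q) hok,
      M.mb.dbl.op_congr hok M.mb.dbl.ok_zero hpt, M.mb.dbl.opL_zero]

theorem Ty_orth {p q : ℕ} (h : p ≠ q) (u v : M.L) :
    inner ℂ (M.be (M.Ty p u)) (M.Ty q v) = 0 := by
  have hcomm : ∀ z ∈ X, ∀ a b : V × V, M.mb.dbl.G z (M.ty p z a) b = M.mb.dbl.G z a (M.ty p z b) := by
    intro z hz a b
    show M.Gf z (M.Pm p z a.1) b.1 + M.Gf z (M.Pf p z a.2) b.2 =
      M.Gf z a.1 (M.Pm p z b.1) + M.Gf z a.2 (M.Pf p z b.2)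
    rw [M.G_P hz]
    congr 1
    cases p with
    | zero => rw [M.Pm_zero]; simp
    | succ p => rw [M.Pm_succ]; exact M.G_P hz p _ _
  have h1 : inner ℂ (M.be (M.Ty p u)) (M.Ty q v) = inner ℂ (M.Ty p (M.be u)) (M.Ty q v) := by
    have hA : M.be (M.Ty p u) = M.Ty p (M.be u) := by
      have hok1 : M.mb.dbl.Ok (fun x => M.bt x * M.ty p x) := by
        refine ⟨FB.SmO.mul M.sm_bt (M.sm_ty p), 1, zero_le_one, fun z hz u => ?_⟩
        obtain ⟨C, hC⟩ := M.ok_bt.2
        have e1 : (M.mb.dbl.G z ((M.bt z * M.ty p z) u) ((M.bt z * M.ty p z) u)).re =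
            (M.mb.dbl.G z (M.ty p z u) (M.ty p z u)).re := by
          show (M.Gf z (- M.Jf z (M.Pm p z u.1)) (- M.Jf z (M.Pm p z u.1)) +
            M.Gf z (M.Jf z (M.Pf p z u.2)) (M.Jf z (M.Pf p z u.2))).re = _
          rw [map_neg, map_neg, neg_apply, neg_neg, M.G_J_J hz, M.G_J_J hz]
          rfl
        rw [e1, one_pow, one_mul]
        show (M.Gf z (M.Pm p z u.1) (M.Pm p z u.1) + M.Gf z (M.Pf p z u.2) (M.Pf p z u.2)).re ≤
          (M.Gf z u.1 u.1 + M.Gf z u.2 u.2).re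
        rw [Complex.add_re, Complex.add_re]
        refine add_le_add ?_ (M.G_P_le hz p u.2)
        cases p with
        | zero => rw [M.Pm_zero]; simpa using M.G_nonneg' hz u.1
        | succ p => rw [M.Pm_succ]; exact M.G_P_le hz p u.1
      have hpt : ∀ z ∈ X, M.bt z * M.ty p z = M.ty p z * M.bt z := by
        intro z hz
        have hJP : ∀ r, ∀ a : V, M.Jf z (M.Pf r z a) = M.Pf r z (M.Jf z a) := by
          intro r a
          have e : M.Jf z * M.Pf r z = M.Pf r z * M.Jf z :=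
            (J_mul_pr (M.sp z hz) r).trans (pr_mul_J (M.sp z hz) r).symm
          exact congrArg (fun T : V →L[ℂ] V => T a) e
        refine ContinuousLinearMap.ext fun u => ?_
        show (- M.Jf z (M.Pm p z u.1), M.Jf z (M.Pf p z u.2)) =
          (M.Pm p z (- M.Jf z u.1), M.Pf p z (M.Jf z u.2))
        rw [hJP, map_neg]
        congr 2
        cases p with
        | zero => rw [M.Pm_zero]; simp
        | succ p => rw [M.Pm_succ]; exact hJP p u.1
      have hok2 : M.mb.dbl.Ok (fun x => M.ty p x * M.bt x) := by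
        refine ⟨FB.SmO.mul (M.sm_ty p) M.sm_bt, ?_⟩
        obtain ⟨C, h0, hC⟩ := hok1.2
        exact ⟨C, h0, fun z hz u => by simpa only [hpt z hz] using hC z hz u⟩
      unfold be Ty
      rw [M.mb.dbl.op_mul M.ok_bt (M.ok_ty p) hok1, M.mb.dbl.op_mul (M.ok_ty p) M.ok_bt hok2,
        M.mb.dbl.op_congr hok1 hok2 hpt]
    rw [hA]
  rw [h1]
  have h2 : inner ℂ (M.Ty p (M.be u)) (M.Ty q v) = inner ℂ (M.be u) (M.Ty p (M.Ty q v)) :=
    M.mb.dbl.op_adj (M.ok_ty p) (M.ok_ty p) hcomm _ _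
  rw [h2, M.Ty_Ty, if_neg h, inner_zero_right]

/-- the Weil operator of 817 is `β` -/
theorem Jop_eq (u : M.L) : HsB_817.Jop (w + 1) M.Ty u = M.be u := by
  rw [HsB_817.Jop_apply]
  refine M.mb.dbl.sum_opL (Finset.range (w + 1 + 1)) (fun p => (-1 : ℂ) ^ p) (A := M.ty)
    (fun p _ => M.ok_ty p) M.ok_bt (fun z hz => ?_) u
  have hJ : ∀ v, M.Jf z v = ∑ p ∈ Finset.range (w + 1), ((-1 : ℂ) ^ p) • M.Pf p z v := by
    intro v
    unfold Jf J
    simp only [ContinuousLinearMap.sum_apply, smul_apply]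
    rfl
  refine ContinuousLinearMap.ext fun u => ?_
  have e1 : (∑ p ∈ Finset.range (w + 1 + 1), ((-1 : ℂ) ^ p) • M.ty p z) u =
      (∑ p ∈ Finset.range (w + 1 + 1), ((-1 : ℂ) ^ p) • M.Pm p z u.1,
        ∑ p ∈ Finset.range (w + 1 + 1), ((-1 : ℂ) ^ p) • M.Pf p z u.2) := by
    simp only [ContinuousLinearMap.sum_apply, smul_apply]
    refine Prod.ext ?_ ?_
    · rw [Prod.fst_sum]; rfl
    · rw [Prod.snd_sum]; rfl
  rw [e1]
  show _ = (- M.Jf z u.1, M.Jf z u.2)
  refine Prod.ext ?_ ?_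
  · simp only
    rw [Finset.sum_range_succ', hJ, ← Finset.sum_neg_distrib]
    simp only [M.Pm_zero, M.Pm_succ, zero_apply, smul_zero, add_zero]
    refine Finset.sum_congr rfl fun p _ => ?_
    rw [pow_succ, ← neg_smul]
    congr 1
    ring
  · simp only
    have h0 : M.Pf (w + 1) z = 0 := pr_gt (by omega) _
    rw [Finset.sum_range_succ, h0, zero_apply, smul_zero, add_zero, hJ]

theorem be_coer (u : M.L) :
    (1 : ℝ) * ‖u‖ ^ 2 ≤ (inner ℂ (M.be (HsB_817.Jop (w + 1) M.Ty u)) u).re := by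
  rw [M.Jop_eq, M.be_be, one_mul]
  exact (norm_sq_eq_re_inner (𝕜 := ℂ) u).le

end PV

end Crest.Agent.R276.IpcG1_975
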