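import Mathlib

/-!
# Row 276, leaf A2-ISO (helper425): analytic Künneth formula and the sign-isotypic line

`V` a finite dimensional space of continuous functions on `X`, `μ` a measure on `X`,
`alt g x = det (g i (x j))`.

* `alt_ne_zero_ae`: `alt g ≠ 0` a.e. on `X^k` for linearly independent `g`.
* `slices_mem`: if `∫ |u|² |δ|^{-a} < ∞` on `X^s` then all partial functions of `u` are in `V`.
* `exists_tensor`: a function on `X^k` all of whose partial functions are in `V` is a combination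
  of products.
* `alternating_eq_smul`: if moreover it is alternating (`k = dim V`) it is a multiple of `δ`.
* `lintegral_alt_rpow_lt_top`: `∫ |δ|^p < ∞`.
-/

open MeasureTheory Set Filter Topology
open scoped ENNReal

namespace Crest.Agent.R276.Iso_425

variable {X : Type*}

/-- `det (g i (x j))` -/
noncomputable def alt {k : ℕ} (g : Fin k → X → ℂ) (x : Fin k → X) : ℂ :=
  (Matrix.of fun i j => g i (x j)).det

theorem alt_insertNth {k : ℕ} (g : Fin (k + 1) → X → ℂ) (j : Fin (k + 1)) (t : X)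
    (r : Fin k → X) :
    alt g (j.insertNth t r)
      = ∑ i : Fin (k + 1), ((-1) ^ (i + j : ℕ) * alt (fun i' => g (i.succAbove i')) r) * g i t := by
  unfold alt
  rw [Matrix.det_succ_column _ j]
  refine Finset.sum_congr rfl fun i _ => ?_
  have h1 : (Matrix.of fun i' j' => g i' (j.insertNth (α := fun _ => X) t r j')) i j = g i t := by
    simp
  have h2 : (Matrix.of fun i' j' => g i' (j.insertNth (α := fun _ => X) t r j')).submatrix
      i.succAbove j.succAbove = Matrix.of fun i' j' => g (i.succAbove i') (r j') := by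
    ext i' j'
    simp
  rw [h1, h2]
  ring

theorem alt_slice_mem {k : ℕ} {V : Submodule ℂ (X → ℂ)} (g : Fin (k + 1) → X → ℂ)
    (hg : ∀ i, g i ∈ V) (j : Fin (k + 1)) (r : Fin k → X) :
    (fun t => alt g (j.insertNth t r)) ∈ V := by
  have h : (fun t => alt g (j.insertNth t r))
      = ∑ i : Fin (k + 1), ((-1) ^ (i + j : ℕ) * alt (fun i' => g (i.succAbove i')) r) • g i := by
    funext t
    rw [alt_insertNth, Finset.sum_apply]
    rfl
  rw [h]
  exact V.sum_mem fun i _ => V.smul_mem _ (hg i)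

theorem alt_slice_ne {k : ℕ} (g : Fin (k + 1) → X → ℂ)
    (hg : LinearIndependent ℂ g) (j : Fin (k + 1)) (r : Fin k → X) (i : Fin (k + 1))
    (hi : alt (fun i' => g (i.succAbove i')) r ≠ 0) :
    (fun t => alt g (j.insertNth t r)) ≠ 0 := by
  have h : (fun t => alt g (j.insertNth t r))
      = ∑ i : Fin (k + 1), ((-1) ^ (i + j : ℕ) * alt (fun i' => g (i.succAbove i')) r) • g i := by
    funext t
    rw [alt_insertNth, Finset.sum_apply]
    rfl
  rw [h]
  intro h0
  have h1 := Fintype.linearIndependent_iff.1 hg _ h0 i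
  rcases mul_eq_zero.1 h1 with h2 | h2
  · exact absurd h2 (pow_ne_zero _ (by norm_num))
  · exact hi h2

section cont
variable [TopologicalSpace X]

theorem continuous_alt {k : ℕ} {g : Fin k → X → ℂ} (hg : ∀ i, Continuous (g i)) :
    Continuous (alt g) := by
  unfold alt
  refine Continuous.matrix_det ?_
  refine continuous_matrix fun i j => ?_
  exact (hg i).comp (continuous_apply j)

end cont

variable [TopologicalSpace X] [SecondCountableTopology X] [MeasurableSpace X] [BorelSpace X]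
variable {μ : Measure X} [SigmaFinite μ]

theorem alt_ne_zero_ae {V : Submodule ℂ (X → ℂ)} (hVc : ∀ g ∈ V, Continuous g)
    (hNZ : ∀ σ ∈ V, σ ≠ 0 → ∀ᵐ x ∂μ, σ x ≠ 0) {k : ℕ} (g : Fin k → X → ℂ)
    (hg : LinearIndependent ℂ g) (hgV : ∀ i, g i ∈ V) :
    ∀ᵐ x ∂(Measure.pi fun _ : Fin k => μ), alt g x ≠ 0 := by
  induction k with
  | zero =>
    refine Eventually.of_forall fun x => ?_
    simp [alt]
  | succ k ih =>
    have hcont : Continuous (alt g) := continuous_alt fun i => hVc _ (hgV i)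
    have hmp := measurePreserving_piFinSuccAbove (fun _ : Fin (k + 1) => μ) 0
    have hmeas : MeasurableSet {x : Fin (k + 1) → X | alt g x ≠ 0} :=
      (hcont.measurable (measurableSet_singleton 0)).compl
    have hg' : LinearIndependent ℂ (fun i' => g ((0 : Fin (k + 1)).succAbove i')) :=
      hg.comp _ Fin.succAbove_right_injective
    have hih := ih (fun i' => g ((0 : Fin (k + 1)).succAbove i')) hg' (fun i => hgV _)
    have hslice : ∀ᵐ r ∂(Measure.pi fun _ : Fin k => μ), ∀ᵐ t ∂μ,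
        alt g ((0 : Fin (k + 1)).insertNth t r) ≠ 0 := by
      filter_upwards [hih] with r hr
      exact hNZ _ (alt_slice_mem g hgV 0 r) (alt_slice_ne g hg 0 r 0 hr)
    have hprod : ∀ᵐ p ∂(μ.prod (Measure.pi fun _ : Fin k => μ)),
        alt g ((0 : Fin (k + 1)).insertNth p.1 p.2) ≠ 0 := by
      have hm2 : MeasurableSet {p : X × (Fin k → X) |
          alt g ((0 : Fin (k + 1)).insertNth p.1 p.2) ≠ 0} := by
        have := (MeasurableEquiv.piFinSuccAbove (fun _ : Fin (k + 1) => X) 0).symm.measurable hmeas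
        exact this
      have h3 : ∀ᵐ p ∂((Measure.pi fun _ : Fin k => μ).prod μ),
          alt g ((0 : Fin (k + 1)).insertNth p.2 p.1) ≠ 0 := by
        rw [Measure.ae_prod_iff_ae_ae]
        · exact hslice
        · exact measurable_swap hm2
      have h4 := (Measure.measurePreserving_swap (μ := μ)
        (ν := Measure.pi fun _ : Fin k => μ)).quasiMeasurePreserving.ae h3
      exact h4
    have := hmp.quasiMeasurePreserving.ae hprod
    filter_upwards [this] with x hx
    have hxx : (0 : Fin (k + 1)).insertNth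
        ((MeasurableEquiv.piFinSuccAbove (fun _ : Fin (k + 1) => X) 0) x).1
        ((MeasurableEquiv.piFinSuccAbove (fun _ : Fin (k + 1) => X) 0) x).2 = x :=
      (MeasurableEquiv.piFinSuccAbove (fun _ : Fin (k + 1) => X) 0).symm_apply_apply x
    rwa [hxx] at hx

/-- **Step A**: all partial functions are in `V`. -/
theorem slices_mem [μ.IsOpenPosMeasure] {V : Submodule ℂ (X → ℂ)} [FiniteDimensional ℂ V]
    (hVc : ∀ g ∈ V, Continuous g)
    (hNZ : ∀ σ ∈ V, σ ≠ 0 → ∀ᵐ x ∂μ, σ x ≠ 0) {HH : Set (X → ℂ)} {a : ℝ}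
    (hCl : ∀ σ ∈ V, σ ≠ 0 → ∀ f ∈ HH, ∫⁻ x, ‖f x‖ₑ ^ 2 * ‖σ x‖ₑ ^ (-a) ∂μ < ∞ → f ∈ V)
    {k : ℕ} (g : Fin (k + 1) → X → ℂ)
    (hg : LinearIndependent ℂ g) (hgV : ∀ i, g i ∈ V)
    {u : (Fin (k + 1) → X) → ℂ} (hu : Continuous u)
    (huH : ∀ (j : Fin (k + 1)) (r : Fin k → X), (fun t => u (j.insertNth t r)) ∈ HH)
    (hint : ∫⁻ x, ‖u x‖ₑ ^ 2 * ‖alt g x‖ₑ ^ (-a) ∂(Measure.pi fun _ : Fin (k + 1) => μ) ≠ ∞)
    (j : Fin (k + 1)) (r : Fin k → X) : (fun t => u (j.insertNth t r)) ∈ V := by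
  have hcont : Continuous (alt g) := continuous_alt fun i => hVc _ (hgV i)
  have hF : Measurable fun x : Fin (k + 1) → X => ‖u x‖ₑ ^ 2 * ‖alt g x‖ₑ ^ (-a) :=
    (hu.measurable.enorm.pow_const 2).mul (hcont.measurable.enorm.pow_const (-a))
  have hmp := (measurePreserving_piFinSuccAbove (fun _ : Fin (k + 1) => μ) j).symm
  have h1 := hmp.lintegral_comp hF
  have hF2 : Measurable fun p : X × (Fin k → X) => ‖u (j.insertNth p.1 p.2)‖ₑ ^ 2 *
      ‖alt g (j.insertNth p.1 p.2)‖ₑ ^ (-a) :=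
    hF.comp (MeasurableEquiv.piFinSuccAbove (fun _ : Fin (k + 1) => X) j).symm.measurable
  have h2 : ∫⁻ r, ∫⁻ t, ‖u (j.insertNth t r)‖ₑ ^ 2 * ‖alt g (j.insertNth t r)‖ₑ ^ (-a) ∂μ
      ∂(Measure.pi fun _ : Fin k => μ) ≠ ∞ := by
    rw [← h1] at hint
    have h3 := lintegral_prod_symm' (μ := μ) (ν := Measure.pi fun _ : Fin k => μ) _ hF2
    rw [← h3]
    exact hint
  have hF3 : Measurable fun r : Fin k → X => ∫⁻ t, ‖u (j.insertNth t r)‖ₑ ^ 2 *
      ‖alt g (j.insertNth t r)‖ₑ ^ (-a) ∂μ := hF2.lintegral_prod_left'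
  have h4 := ae_lt_top hF3 h2
  have hg' : LinearIndependent ℂ (fun i' => g ((0 : Fin (k + 1)).succAbove i')) :=
    hg.comp _ Fin.succAbove_right_injective
  have h5 := alt_ne_zero_ae (μ := μ) hVc hNZ _ hg' (fun i => hgV _)
  have h6 : ∀ᵐ r ∂(Measure.pi fun _ : Fin k => μ), (fun t => u (j.insertNth t r)) ∈ V := by
    filter_upwards [h4, h5] with r hr4 hr5
    exact hCl _ (alt_slice_mem g hgV j r) (alt_slice_ne g hg j r 0 hr5) _ (huH j r) hr4
  have hclosed : IsClosed {r : Fin k → X | (fun t => u (j.insertNth t r)) ∈ V} := by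
    have hVcl : IsClosed (V : Set (X → ℂ)) := V.closed_of_finiteDimensional
    have hΦ : Continuous fun (r : Fin k → X) (t : X) => u (j.insertNth t r) := by
      refine continuous_pi fun t => ?_
      exact hu.comp (continuous_const.finInsertNth j continuous_id)
    exact hVcl.preimage hΦ
  have hdense : Dense {r : Fin k → X | (fun t => u (j.insertNth t r)) ∈ V} := by
    exact Measure.dense_of_ae h6
  have h7 := hclosed.closure_eq.symm.trans hdense.closure_eq
  exact (Set.eq_univ_iff_forall.1 h7) r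

omit [TopologicalSpace X] [SecondCountableTopology X] [MeasurableSpace X] [BorelSpace X] in
/-- evaluation points -/
theorem exists_points {s : ℕ} (g : Fin s → X → ℂ) (hg : LinearIndependent ℂ g) :
    ∃ p : Fin s → X, (Matrix.of fun i j => g i (p j)).det ≠ 0 := by
  induction s with
  | zero => exact ⟨Fin.elim0, by simp⟩
  | succ s ih =>
    obtain ⟨p, hp⟩ := ih (fun i' => g ((0 : Fin (s + 1)).succAbove i'))
      (hg.comp _ Fin.succAbove_right_injective)
    have h := alt_slice_ne g hg 0 p 0 hp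
    obtain ⟨t, ht⟩ := Function.ne_iff.1 h
    exact ⟨(0 : Fin (s + 1)).insertNth t p, ht⟩

omit [TopologicalSpace X] [SecondCountableTopology X] [MeasurableSpace X] [BorelSpace X] in
/-- coordinates of a function in the span by evaluation at points: there are a matrix `A` and
points `p` with `f = ∑ i, (∑ j, A i j * f (p j)) • g i` for all `f` in the span. -/
theorem exists_coord {s : ℕ} (g : Fin s → X → ℂ) (hg : LinearIndependent ℂ g) :
    ∃ (p : Fin s → X) (A : Fin s → Fin s → ℂ), ∀ f ∈ Submodule.span ℂ (Set.range g), ∀ t,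
      f t = ∑ i, (∑ j, A i j * f (p j)) * g i t := by
  obtain ⟨p, hp⟩ := exists_points g hg
  set M : Matrix (Fin s) (Fin s) ℂ := Matrix.of fun i j => g i (p j) with hM
  have hunit : IsUnit M.det := isUnit_iff_ne_zero.2 hp
  refine ⟨p, fun i j => M⁻¹ j i, ?_⟩
  intro f hf t
  obtain ⟨c, rfl⟩ := (Submodule.mem_span_range_iff_exists_fun ℂ).1 hf
  have key : ∀ i, ∑ j, M⁻¹ j i * (∑ l, c l • g l) (p j) = c i := by
    intro i
    have h1 : ∀ j, (∑ l, c l • g l) (p j) = ∑ l, c l * M l j := by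
      intro j
      simp [hM, Finset.sum_apply]
    calc ∑ j, M⁻¹ j i * (∑ l, c l • g l) (p j) = ∑ j, M⁻¹ j i * ∑ l, c l * M l j := by
          simp_rw [h1]
      _ = ∑ l, c l * (M * M⁻¹) l i := by
          simp_rw [Finset.mul_sum, Matrix.mul_apply]
          rw [Finset.sum_comm]
          refine Finset.sum_congr rfl fun l _ => ?_
          rw [Finset.mul_sum]
          refine Finset.sum_congr rfl fun j _ => ?_
          ring
      _ = c i := by
          rw [Matrix.mul_nonsing_inv _ hunit]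
          simp [Matrix.one_apply]
  simp_rw [key]
  simp [Finset.sum_apply]

omit [TopologicalSpace X] [SecondCountableTopology X] [MeasurableSpace X] [BorelSpace X] in
/-- **Step B**: tensor form. -/
theorem exists_tensor {s : ℕ} (g : Fin s → X → ℂ) (hg : LinearIndependent ℂ g) {k : ℕ}
    (u : (Fin k → X) → ℂ)
    (hu : ∀ (j : Fin k) (x : Fin k → X),
      (fun t => u (Function.update x j t)) ∈ Submodule.span ℂ (Set.range g)) :
    ∃ c : (Fin k → Fin s) → ℂ, ∀ x, u x = ∑ i, c i * ∏ j, g (i j) (x j) := by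
  induction k with
  | zero =>
    refine ⟨fun _ => u Fin.elim0, fun x => ?_⟩
    have : x = Fin.elim0 := Subsingleton.elim _ _
    simp [this]
  | succ k ih =>
    obtain ⟨p, A, hA⟩ := exists_coord g hg
    -- coefficient functions
    have h1 : ∀ (i : Fin s), ∃ c : (Fin k → Fin s) → ℂ, ∀ r : Fin k → X,
        (∑ j, A i j * u (Fin.cons (p j) r)) = ∑ i', c i' * ∏ j, g (i' j) (r j) := by
      intro i
      apply ih
      intro j r
      have h2 : (fun t => ∑ l, A i l * u (Fin.cons (p l) (Function.update r j t)))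
          = ∑ l, A i l • fun t => u (Function.update (Fin.cons (p l) r : Fin (k + 1) → X)
            j.succ t) := by
        funext t
        rw [Finset.sum_apply]
        refine Finset.sum_congr rfl fun l _ => ?_
        rw [Fin.cons_update]
        rfl
      rw [h2]
      exact Submodule.sum_mem _ fun l _ => Submodule.smul_mem _ _ (hu _ _)
    choose c hc using h1
    refine ⟨fun i => c (i 0) (Fin.tail i), fun x => ?_⟩
    have h3 := hA _ (hu 0 x) (x 0)
    rw [Function.update_eq_self] at h3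
    rw [h3]
    have h4 : ∀ j : Fin s, u (Function.update x 0 (p j)) = u (Fin.cons (p j) (Fin.tail x)) := by
      intro j
      congr 1
      funext l
      refine Fin.cases ?_ (fun l => ?_) l
      · simp
      · simp [Fin.tail]
    simp_rw [h4, hc]
    rw [← (Fin.consEquiv (fun _ : Fin (k + 1) => Fin s)).sum_comp, Fintype.sum_prod_type]
    refine Finset.sum_congr rfl fun i _ => ?_
    rw [Finset.sum_mul]
    refine Finset.sum_congr rfl fun i' _ => ?_
    rw [Fin.prod_univ_succ]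
    have ht : Fin.tail ((Fin.consEquiv fun _ : Fin (k + 1) => Fin s) (i, i')) = i' := by
      simp [Fin.consEquiv, Fin.tail_cons]
    rw [ht]
    simp only [Fin.consEquiv_apply, Fin.cons_zero, Fin.cons_succ, Fin.tail]
    ring

omit [TopologicalSpace X] [SecondCountableTopology X] [MeasurableSpace X] [BorelSpace X] in
/-- determinant of rows selected by a function -/
theorem det_rows {s : ℕ} (g : Fin s → X → ℂ) (i : Fin s → Fin s) :
    ∃ e : ℂ, ∀ x : Fin s → X,
      (Matrix.of fun a b => g (i a) (x b)).det = e * alt g x := by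
  by_cases hi : Function.Injective i
  · have hb : Function.Bijective i := (Finite.injective_iff_bijective).1 hi
    set π : Equiv.Perm (Fin s) := Equiv.ofBijective i hb with hπ
    refine ⟨((Equiv.Perm.sign π : ℤ) : ℂ), fun x => ?_⟩
    have h := Matrix.det_permute π (Matrix.of fun a b => g a (x b))
    have h2 : (Matrix.of fun a b => g a (x b)).submatrix π id
        = Matrix.of fun a b => g (i a) (x b) := by
      ext a b
      simp [hπ]
    rw [h2] at h
    exact h
  · refine ⟨0, fun x => ?_⟩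
    rw [zero_mul]
    simp only [Function.Injective, not_forall] at hi
    obtain ⟨a, b, hab, hne⟩ := hi
    apply Matrix.det_zero_of_row_eq hne
    funext c
    simp [hab]

omit [TopologicalSpace X] [SecondCountableTopology X] [MeasurableSpace X] [BorelSpace X] in
/-- **Step C**: alternating functions in `V^{⊗ s}`, `s = dim V`, are multiples of `δ`. -/
theorem alternating_eq_smul {s : ℕ} (g : Fin s → X → ℂ) {u : (Fin s → X) → ℂ}
    {c : (Fin s → Fin s) → ℂ} (hc : ∀ x, u x = ∑ i, c i * ∏ j, g (i j) (x j))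
    (halt : ∀ (π : Equiv.Perm (Fin s)) (x : Fin s → X),
      u (x ∘ π) = ((Equiv.Perm.sign π : ℤ) : ℂ) * u x) :
    ∃ C : ℂ, ∀ x, u x = C * alt g x := by
  choose e he using fun i => det_rows g i
  have hfac : ((s.factorial : ℕ) : ℂ) ≠ 0 := by exact_mod_cast s.factorial_ne_zero
  refine ⟨(∑ i, c i * e i) / (s.factorial : ℂ), fun x => ?_⟩
  have h1 : ∑ π : Equiv.Perm (Fin s), ((Equiv.Perm.sign π : ℤ) : ℂ) * u (x ∘ π)
      = (s.factorial : ℂ) * u x := by
    have h2 : ∀ π : Equiv.Perm (Fin s), ((Equiv.Perm.sign π : ℤ) : ℂ) * u (x ∘ π) = u x := by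
      intro π
      rw [halt, ← mul_assoc, ← Int.cast_mul, ← Units.val_mul, Int.units_mul_self]
      simp
    simp_rw [h2]
    rw [Finset.sum_const, Finset.card_univ, Fintype.card_perm, Fintype.card_fin, nsmul_eq_mul]
  have h3 : ∑ π : Equiv.Perm (Fin s), ((Equiv.Perm.sign π : ℤ) : ℂ) * u (x ∘ π)
      = ∑ i, c i * (e i * alt g x) := by
    have h4 : ∀ i : Fin s → Fin s, e i * alt g x
        = ∑ π : Equiv.Perm (Fin s), ((Equiv.Perm.sign π : ℤ) : ℂ) * ∏ j, g (i j) (x (π j)) := by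
      intro i
      rw [← he, ← Matrix.det_transpose, Matrix.det_apply']
      rfl
    simp_rw [h4, hc, Finset.mul_sum]
    rw [Finset.sum_comm]
    refine Finset.sum_congr rfl fun i _ => Finset.sum_congr rfl fun π _ => ?_
    simp only [Function.comp]
    ring
  have h5 : u x = (∑ i, c i * (e i * alt g x)) / (s.factorial : ℂ) := by
    rw [← h3, h1]
    field_simp
  rw [h5, div_mul_eq_mul_div, Finset.sum_mul]
  congr 1
  refine Finset.sum_congr rfl fun i _ => ?_
  ring

omit [TopologicalSpace X] [SecondCountableTopology X] [BorelSpace X] in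
/-- Tonelli for products -/
theorem lintegral_pi_prod {k : ℕ} (f : Fin k → X → ℝ≥0∞) (hf : ∀ i, Measurable (f i)) :
    ∫⁻ x, ∏ j, f j (x j) ∂(Measure.pi fun _ : Fin k => μ) = ∏ j, ∫⁻ t, f j t ∂μ := by
  induction k with
  | zero =>
    simp [Measure.pi_of_empty (fun _ : Fin 0 => μ) Fin.elim0]
  | succ k ih =>
    have hmp := (measurePreserving_piFinSuccAbove (fun _ : Fin (k + 1) => μ) 0).symm
    have hF : Measurable fun x : Fin (k + 1) → X => ∏ j, f j (x j) :=
      Finset.measurable_prod _ fun i _ => (hf i).comp (measurable_pi_apply i)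
    have h1 := hmp.lintegral_comp hF
    rw [← h1]
    have h2 : ∀ p : X × (Fin k → X),
        (∏ j, f j ((MeasurableEquiv.piFinSuccAbove (fun _ : Fin (k + 1) => X) 0).symm p j))
          = f 0 p.1 * ∏ j : Fin k, f j.succ (p.2 j) := by
      intro p
      rw [Fin.prod_univ_succ]
      rfl
    simp_rw [h2]
    have hG : Measurable fun r : Fin k → X => ∏ j, f j.succ (r j) :=
      Finset.measurable_prod _ fun i _ => (hf i.succ).comp (measurable_pi_apply i)
    have h3 := lintegral_prod_mul (μ := μ) (ν := Measure.pi fun _ : Fin k => μ)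
      (hf 0).aemeasurable hG.aemeasurable
    rw [Fin.prod_univ_succ, ← ih (fun j => f j.succ) (fun j => hf j.succ), ← h3]

omit [SecondCountableTopology X] in
/-- **Step D**: `∫ |δ|^p < ∞` for `0 ≤ p ≤ 1`. -/
theorem lintegral_alt_rpow_lt_top {p : ℝ} (hp0 : 0 ≤ p) (hp1 : p ≤ 1) {k : ℕ}
    (g : Fin k → X → ℂ) (hg : ∀ i, Continuous (g i))
    (hfin : ∀ i, ∫⁻ t, ‖g i t‖ₑ ^ p ∂μ < ∞) :
    ∫⁻ x, ‖alt g x‖ₑ ^ p ∂(Measure.pi fun _ : Fin k => μ) < ∞ := by
  have h0 : ∀ x : Fin k → X, ‖alt g x‖ₑ ^ p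
      ≤ ∑ π : Equiv.Perm (Fin k), ∏ j, ‖g (π j) (x j)‖ₑ ^ p := by
    intro x
    by_cases hpz : p = 0
    · subst hpz
      simp only [ENNReal.rpow_zero, Finset.prod_const_one, Finset.sum_const, Finset.card_univ,
        nsmul_eq_mul, mul_one]
      exact_mod_cast Nat.one_le_iff_ne_zero.2 Fintype.card_ne_zero
    have hp : 0 < p := lt_of_le_of_ne hp0 (Ne.symm hpz)
    have h1 : ‖alt g x‖ₑ ≤ ∑ π : Equiv.Perm (Fin k), ∏ j, ‖g (π j) (x j)‖ₑ := by
      unfold alt
      rw [Matrix.det_apply']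
      refine (enorm_sum_le _ _).trans (Finset.sum_le_sum fun π _ => ?_)
      rw [enorm_mul]
      have h2 : ‖(((Equiv.Perm.sign π : ℤ) : ℂ))‖ₑ = 1 := by
        rcases Int.units_eq_one_or (Equiv.Perm.sign π) with h | h <;> simp [h]
      rw [h2, one_mul]
      refine le_of_eq ?_
      rw [← ofReal_norm, norm_prod, ENNReal.ofReal_prod_of_nonneg
        (fun _ _ => norm_nonneg _)]
      refine Finset.prod_congr rfl fun j _ => ?_
      rw [ofReal_norm]
      rfl
    calc ‖alt g x‖ₑ ^ p ≤ (∑ π : Equiv.Perm (Fin k), ∏ j, ‖g (π j) (x j)‖ₑ) ^ p :=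
          ENNReal.rpow_le_rpow h1 hp0
      _ ≤ ∑ π : Equiv.Perm (Fin k), (∏ j, ‖g (π j) (x j)‖ₑ) ^ p :=
          Finset.le_sum_of_subadditive (fun y : ℝ≥0∞ => y ^ p) (by simp [hp])
            (fun a b => ENNReal.rpow_add_le_add_rpow a b hp0 hp1) _ _
      _ = ∑ π : Equiv.Perm (Fin k), ∏ j, ‖g (π j) (x j)‖ₑ ^ p := by
          refine Finset.sum_congr rfl fun π _ => ?_
          rw [ENNReal.prod_rpow_of_nonneg hp0]
  refine lt_of_le_of_lt (lintegral_mono h0) ?_
  have hm : ∀ i, Measurable fun t => ‖g i t‖ₑ ^ p := fun i =>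
    (hg i).measurable.enorm.pow_const p
  rw [lintegral_finsetSum]
  · refine ENNReal.sum_lt_top.2 fun π _ => ?_
    rw [lintegral_pi_prod (fun j t => ‖g (π j) t‖ₑ ^ p) (fun j => hm _)]
    exact ENNReal.prod_lt_top fun j _ => hfin _
  · intro π _
    exact Finset.measurable_prod _ fun j _ => (hm (π j)).comp (measurable_pi_apply j)

/-- **Künneth**: an `L²(|δ|^{-a})`-function on `X^s`, `s = dim V`, with partial functions in `HH`,
is a combination of products. -/
theorem kuenneth [μ.IsOpenPosMeasure] {V : Submodule ℂ (X → ℂ)}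
    (hVc : ∀ g ∈ V, Continuous g)
    (hNZ : ∀ σ ∈ V, σ ≠ 0 → ∀ᵐ x ∂μ, σ x ≠ 0) {HH : Set (X → ℂ)} {a : ℝ}
    (hCl : ∀ σ ∈ V, σ ≠ 0 → ∀ f ∈ HH, ∫⁻ x, ‖f x‖ₑ ^ 2 * ‖σ x‖ₑ ^ (-a) ∂μ < ∞ → f ∈ V)
    {k : ℕ} (g : Fin (k + 1) → X → ℂ)
    (hg : LinearIndependent ℂ g) (hgV : Submodule.span ℂ (Set.range g) = V)
    {u : (Fin (k + 1) → X) → ℂ} (hu : Continuous u)
    (huH : ∀ (j : Fin (k + 1)) (r : Fin k → X), (fun t => u (j.insertNth t r)) ∈ HH)
    (hint : ∫⁻ x, ‖u x‖ₑ ^ 2 * ‖alt g x‖ₑ ^ (-a) ∂(Measure.pi fun _ : Fin (k + 1) => μ) ≠ ∞) :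
    ∃ c : (Fin (k + 1) → Fin (k + 1)) → ℂ, ∀ x, u x = ∑ i, c i * ∏ j, g (i j) (x j) := by
  have hmem : ∀ i, g i ∈ V := fun i => hgV ▸ Submodule.subset_span (mem_range_self i)
  have : FiniteDimensional ℂ V := hgV ▸ FiniteDimensional.span_of_finite ℂ (finite_range g)
  refine exists_tensor g hg u fun j x => ?_
  have h := slices_mem hVc hNZ hCl g hg hmem hu huH hint j (j.removeNth x)
  rw [hgV]
  simpa only [Fin.insertNth_removeNth] using h

/-- **The sign-isotypic line**: alternating `L²(|δ|^{-a})`-functions are multiples of `δ`. -/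
theorem alternating_line [μ.IsOpenPosMeasure] {V : Submodule ℂ (X → ℂ)}
    (hVc : ∀ g ∈ V, Continuous g)
    (hNZ : ∀ σ ∈ V, σ ≠ 0 → ∀ᵐ x ∂μ, σ x ≠ 0) {HH : Set (X → ℂ)} {a : ℝ}
    (hCl : ∀ σ ∈ V, σ ≠ 0 → ∀ f ∈ HH, ∫⁻ x, ‖f x‖ₑ ^ 2 * ‖σ x‖ₑ ^ (-a) ∂μ < ∞ → f ∈ V)
    {k : ℕ} (g : Fin (k + 1) → X → ℂ)
    (hg : LinearIndependent ℂ g) (hgV : Submodule.span ℂ (Set.range g) = V)
    {u : (Fin (k + 1) → X) → ℂ} (hu : Continuous u)
    (huH : ∀ (j : Fin (k + 1)) (r : Fin k → X), (fun t => u (j.insertNth t r)) ∈ HH)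
    (hint : ∫⁻ x, ‖u x‖ₑ ^ 2 * ‖alt g x‖ₑ ^ (-a) ∂(Measure.pi fun _ : Fin (k + 1) => μ) ≠ ∞)
    (halt : ∀ (π : Equiv.Perm (Fin (k + 1))) (x : Fin (k + 1) → X),
      u (x ∘ π) = ((Equiv.Perm.sign π : ℤ) : ℂ) * u x) :
    ∃ C : ℂ, ∀ x, u x = C * alt g x := by
  obtain ⟨c, hc⟩ := kuenneth hVc hNZ hCl g hg hgV hu huH hint
  exact alternating_eq_smul g hc halt

omit [TopologicalSpace X] [SecondCountableTopology X] [MeasurableSpace X] [BorelSpace X] in
theorem alt_perm {k : ℕ} (g : Fin k → X → ℂ) (π : Equiv.Perm (Fin k)) (x : Fin k → X) :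
    alt g (x ∘ π) = ((Equiv.Perm.sign π : ℤ) : ℂ) * alt g x := by
  unfold alt
  have h := Matrix.det_permute' π (Matrix.of fun i j => g i (x j))
  exact h

omit [TopologicalSpace X] [SecondCountableTopology X] [MeasurableSpace X] [BorelSpace X] in
/-- change of basis -/
theorem alt_basis {k : ℕ} (g g' : Fin k → X → ℂ) (A : Matrix (Fin k) (Fin k) ℂ)
    (h : ∀ i t, g' i t = ∑ l, A i l * g l t) (x : Fin k → X) :
    alt g' x = A.det * alt g x := by
  unfold alt
  rw [← Matrix.det_mul]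
  congr 1
  ext i j
  simp [Matrix.mul_apply, h]

end Crest.Agent.R276.Iso_425
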