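import Crest.Agent.R271.H1_51

/-!
# Row 276, D-END (helper723): the jet lemma

`M` a Riemann domain over `ℂⁿ`, `t = cp ∘ ι : M → ℂ^r` some of the coordinates, `M_c = {t = c}`.
If continuous functions `F₀, …, F_q` on `M` have restrictions to `M_c` satisfying no nontrivial
homogeneous polynomial relation of degree `d`, then they satisfy no nontrivial homogeneous relation of
degree `d` with coefficients polynomials in `t` (`jet`).
-/

set_option autoImplicit false
set_option linter.unusedSectionVars false

noncomputable section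

open Set Filter Topology

namespace Crest.Agent.R276.Jet_723

open Crest.Agent.R271.Ho51

/-- order of vanishing at `0` of a finite family of one variable polynomials -/
lemma exists_order {ι : Type*} (s : Finset ι) (p : ι → Polynomial ℂ) (i0 : ι) (hi0 : i0 ∈ s)
    (h0 : p i0 ≠ 0) :
    ∃ (k : ℕ) (r : ι → Polynomial ℂ), (∀ i ∈ s, p i = Polynomial.X ^ k * r i) ∧
      ∃ i ∈ s, (r i).eval 0 ≠ 0 := by
  classical
  have hbdd : ∀ k : ℕ, (∀ i ∈ s, Polynomial.X ^ k ∣ p i) → k ≤ (p i0).natDegree := by
    intro k hk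
    obtain ⟨r, hr⟩ := hk i0 hi0
    have hr0 : r ≠ 0 := by
      rintro rfl
      exact h0 (by rw [hr, mul_zero])
    rw [hr, Polynomial.natDegree_mul (pow_ne_zero _ Polynomial.X_ne_zero) hr0,
      Polynomial.natDegree_X_pow]
    exact Nat.le_add_right _ _
  set P : ℕ → Prop := fun k => ∀ i ∈ s, Polynomial.X ^ k ∣ p i with hP
  have hP0 : P 0 := fun i _ => by simp
  obtain ⟨k, hk, hk'⟩ : ∃ k, P k ∧ ¬ P (k + 1) := by
    by_contra hcon
    push Not at hcon
    have hall : ∀ k, P k := by
      intro k
      induction k with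
      | zero => exact hP0
      | succ k ih => exact hcon k ih
    have := hbdd _ (hall ((p i0).natDegree + 1))
    omega
  choose! r hr using hk
  refine ⟨k, r, hr, ?_⟩
  by_contra hcon
  push Not at hcon
  refine hk' fun i hi => ?_
  have h1 : Polynomial.X ∣ r i := by
    rw [Polynomial.X_dvd_iff, Polynomial.coeff_zero_eq_eval_zero]
    exact hcon i hi
  obtain ⟨r', hr'⟩ := h1
  exact ⟨r', by rw [hr i hi, hr', pow_succ, mul_assoc]⟩

variable {n : ℕ} {M : Type*} [TopologicalSpace M] [RDom n M]

/-- a straight path through `x` in the coordinates -/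
lemma path_tendsto (x : M) (v : Fin n → ℂ) :
    Tendsto (fun e : ℂ => (ch x).symm (cp x + e • v)) (𝓝 0) (𝓝 x) := by
  have h1 : ContinuousAt (ch x).symm (cp x) :=
    (ch x).symm.continuousAt (by simpa using (isCh_ch x).cp_mem (mem_ch x))
  have h2 : Tendsto (fun e : ℂ => cp x + e • v) (𝓝 0) (𝓝 (cp x)) := by
    have : Continuous (fun e : ℂ => cp x + e • v) := by fun_prop
    simpa using this.tendsto 0
  have h3 := h1.tendsto.comp h2
  rwa [(isCh_ch x).symm_cp (mem_ch x)] at h3

lemma path_cp (x : M) (v : Fin n → ℂ) :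
    ∀ᶠ e : ℂ in 𝓝 0, cp ((ch x).symm (cp x + e • v)) = cp x + e • v := by
  have h2 : Tendsto (fun e : ℂ => cp x + e • v) (𝓝 0) (𝓝 (cp x)) := by
    have : Continuous (fun e : ℂ => cp x + e • v) := by fun_prop
    simpa using this.tendsto 0
  filter_upwards [h2.eventually ((ch x).open_target.mem_nhds ((isCh_ch x).cp_mem (mem_ch x)))]
    with e he using (isCh_ch x).cp_symm he

/-- **JET LEMMA.** -/
theorem jet {r q : ℕ} (ι : Fin r ↪ Fin n) (c : Fin r → ℂ) (F : Fin q → M → ℂ)
    (hF : ∀ i, Continuous (F i)) (d : ℕ)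
    (hU : ∀ Q : MvPolynomial (Fin q) ℂ, Q.IsHomogeneous d →
      (∀ x : M, (∀ i, cp x (ι i) = c i) → MvPolynomial.eval (fun j => F j x) Q = 0) → Q = 0)
    (P : MvPolynomial (Fin q) (MvPolynomial (Fin r) ℂ)) (hP : P.IsHomogeneous d)
    (hPF : ∀ x : M, MvPolynomial.eval (fun j => F j x)
      (MvPolynomial.map (MvPolynomial.eval (fun i => cp x (ι i))) P) = 0) : P = 0 := by
  classical
  by_contra hne
  obtain ⟨m0, hm0⟩ := MvPolynomial.ne_zero_iff.1 hne
  obtain ⟨t1, ht1⟩ : ∃ t1 : Fin r → ℂ, MvPolynomial.eval t1 (P.coeff m0) ≠ 0 := by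
    by_contra hcon
    push Not at hcon
    exact hm0 (MvPolynomial.funext fun t => by simpa using hcon t)
  set v : Fin r → ℂ := fun i => t1 i - c i with hv
  -- the line `c + ε v`
  set lin : MvPolynomial (Fin r) ℂ →+* Polynomial ℂ :=
    (MvPolynomial.aeval (fun i => Polynomial.C (c i) + Polynomial.X * Polynomial.C (v i)) :
      MvPolynomial (Fin r) ℂ →ₐ[ℂ] Polynomial ℂ).toRingHom with hlin
  have hev : ∀ (a : MvPolynomial (Fin r) ℂ) (e : ℂ),
      (lin a).eval e = MvPolynomial.eval (fun i => c i + e * v i) a := by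
    intro a e
    have h1 : ((Polynomial.evalRingHom e).comp lin) a =
        MvPolynomial.eval (fun i => c i + e * v i) a := by
      have h2 : (Polynomial.evalRingHom e).comp lin =
          (MvPolynomial.eval (fun i => c i + e * v i)) := by
        apply MvPolynomial.ringHom_ext
        · intro z; simp [hlin]
        · intro i
          have h9 : v i * e = e * v i := mul_comm _ _
          simp [hlin, h9]
      rw [h2]
    simpa using h1
  have hp0 : lin (P.coeff m0) ≠ 0 := by
    intro h
    apply ht1
    have h1 := hev (P.coeff m0) 1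
    rw [h] at h1
    simp only [Polynomial.eval_zero, one_mul, hv] at h1
    have h2 : (fun i => c i + (t1 i - c i)) = t1 := by funext i; ring
    rw [h2] at h1
    exact h1.symm
  obtain ⟨k, rr, hrr, m1, hm1, hm1'⟩ := exists_order P.support (fun m => lin (P.coeff m)) m0
    (MvPolynomial.mem_support_iff.2 hm0) hp0
  set Q : MvPolynomial (Fin q) ℂ := ∑ m ∈ P.support, MvPolynomial.monomial m ((rr m).eval 0) with hQ
  have hQh : Q.IsHomogeneous d := by
    refine MvPolynomial.IsHomogeneous.sum _ _ _ fun m hm => ?_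
    refine MvPolynomial.isHomogeneous_monomial _ ?_
    have := hP (MvPolynomial.mem_support_iff.1 hm)
    rw [← this, Finsupp.degree_eq_weight_one]
    rfl
  have hQ0 : Q = 0 := by
    refine hU Q hQh fun x hx => ?_
    -- the vector of the path
    set w : Fin n → ℂ := fun j => if h : ∃ i, ι i = j then v h.choose else 0 with hw
    have hwi : ∀ i, w (ι i) = v i := by
      intro i
      have hex : ∃ i', ι i' = ι i := ⟨i, rfl⟩
      have h1 : hex.choose = i := ι.injective hex.choose_spec
      simp only [hw, dif_pos hex, h1]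
    set γ : ℂ → M := fun e => (ch x).symm (cp x + e • w) with hγ
    have hlim : Tendsto (fun e : ℂ => ∑ m ∈ P.support, (rr m).eval e *
        ∏ j, (F j (γ e)) ^ (m j)) (𝓝 0) (𝓝 (∑ m ∈ P.support, (rr m).eval 0 *
        ∏ j, (F j x) ^ (m j))) := by
      refine tendsto_finsetSum _ fun m _ => ?_
      refine Tendsto.mul ((rr m).continuous.tendsto 0) ?_
      refine tendsto_finsetProd _ fun j _ => ?_
      exact (((hF j).tendsto x).comp (path_tendsto x w)).pow _
    have hzero : ∀ᶠ e : ℂ in 𝓝[≠] 0, ∑ m ∈ P.support, (rr m).eval e *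
        ∏ j, (F j (γ e)) ^ (m j) = 0 := by
      filter_upwards [nhdsWithin_le_nhds (path_cp x w), self_mem_nhdsWithin] with e he hene
      have h1 := hPF (γ e)
      rw [MvPolynomial.eval_map, MvPolynomial.eval₂_eq'] at h1
      have h2 : ∀ i, cp (γ e) (ι i) = c i + e * v i := by
        intro i
        rw [hγ, he]
        simp [hx i, hwi i]
      have h3 : (fun i => cp (γ e) (ι i)) = fun i => c i + e * v i := funext h2
      rw [h3] at h1
      have h4 : ∀ m ∈ P.support, MvPolynomial.eval (fun i => c i + e * v i) (P.coeff m) =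
          e ^ k * (rr m).eval e := by
        intro m hm
        rw [← hev, hrr m hm]
        simp
      rw [Finset.sum_congr rfl fun m hm => by rw [h4 m hm]] at h1
      have h5 : e ^ k * ∑ m ∈ P.support, (rr m).eval e * ∏ j, (F j (γ e)) ^ (m j) = 0 := by
        rw [Finset.mul_sum, ← h1]
        exact Finset.sum_congr rfl fun m _ => by ring
      exact (mul_eq_zero.1 h5).resolve_left (pow_ne_zero _ hene)
    have h6 := tendsto_nhds_unique (hlim.mono_left nhdsWithin_le_nhds)
      ((tendsto_congr' hzero).2 tendsto_const_nhds)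
    rw [hQ, map_sum]
    refine Eq.trans (Finset.sum_congr rfl fun m _ => ?_) h6
    rw [MvPolynomial.eval_monomial, Finsupp.prod_fintype _ _ (fun i => pow_zero _)]
  have h7 : Q.coeff m1 = (rr m1).eval 0 := by
    rw [hQ, MvPolynomial.coeff_sum]
    simp only [MvPolynomial.coeff_monomial]
    rw [Finset.sum_ite_eq' P.support m1]
    simp [hm1]
  rw [hQ0, MvPolynomial.coeff_zero] at h7
  exact hm1' h7.symm

end Crest.Agent.R276.Jet_723
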