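import Mathlib
import Crest.Agent.R276.Hsko_793
import Crest.Agent.R276.Cl3_886
import Crest.Agent.R276.Den_464
import Crest.Agent.R276.W1Defs_185
import Crest.Agent.R276.End0A_508

/-!
# Row 276 (helper464): the data of (C1), part (a): on one relative model

* `lb_sum`, `bb_of_lb` : (B) of 185 from 845's local boundedness;
* `cl_of` : (Cl) of 185 from 886;
* `exists_family` : the family `v` = `P^a ·` (basis of `V_{N₁}`) together with all monomials of
  degree `N₁/N` in `u`.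
-/

set_option autoImplicit false
set_option linter.unusedSectionVars false

open Set Filter Topology MeasureTheory
open scoped ENNReal

noncomputable section

namespace Crest.Agent.R276.LC1a_464

open Crest.Agent.R271 Crest.Agent.R271.Ho51
open Crest.Agent.R271.Rd692 hiding evs
open Crest.Agent.R271.Defs710 hiding glue
open Crest.Agent.R276.Mod1_987 Crest.Agent.R276.FKDefs_779 Crest.Agent.R276.BetaDefs_231
open Crest.Agent.R276.FlatDefs_236
open Crest.Agent.R276.SkelDefs_220 Crest.Agent.R276.CInd_870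
open Crest.Agent.R276.SkoP_845 Crest.Agent.R276.W1_185

variable {L K : Type} [Field L] [Field K] [Algebra ℂ L] [Algebra ℂ K] [Algebra L K]
  [IsScalarTower ℂ L K] {m r : ℕ} {ML : Mdl L m} {MK : Mdl K (m + r)} {H : Rel ML MK}

/-! ### sums -/

theorem lb_sum {s : ℕ} {u : Fin s → MK.B} {p : ℝ} {ι : Type} [Fintype ι] (g : ι → MK.Pts → ℝ≥0∞)
    (hg : ∀ i, Measurable (g i)) (h : ∀ i, LB (rm H) u p (g i)) :
    LB (rm H) u p (fun y => ∑ i, g i y) := by
  intro w0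
  choose c hc hev using fun i => h i w0
  refine ⟨∑ i, c i, by rw [ENNReal.sum_ne_top]; exact fun i _ => hc i, ?_⟩
  have h1 : ∀ᶠ w in 𝓝 w0, ∀ i, ∀ μ : Measure ((rm H).Fib w), IsLeb μ →
      ∀ A : Fin s → ℂ, ∫⁻ x, g i x.val * ‖∑ i, A i * (x.val) (u i)‖ₑ ^ (-p) ∂μ ≤
        c i * ‖A‖ₑ ^ (-p) := eventually_all.2 hev
  filter_upwards [h1] with w hw μ hμ A
  have hv : Measurable (RMdl.Fib.val (rm H) : (rm H).Fib w → (rm H).MK.Pts) :=
    (RMdl.Fib.continuous_val (R := rm H) w).measurable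
  have hA : Measurable fun x : (rm H).Fib w => ‖∑ i, A i * (x.val) (u i)‖ₑ ^ (-p) := by
    refine Measurable.pow_const (Measurable.enorm ?_) _
    exact Finset.measurable_fun_sum _ fun i _ =>
      ((continuous_ev (u i)).measurable.comp hv).const_mul (A i)
  calc ∫⁻ x, (∑ i, g i x.val) * ‖∑ i, A i * (x.val) (u i)‖ₑ ^ (-p) ∂μ
      = ∫⁻ x, ∑ i, g i x.val * ‖∑ i, A i * (x.val) (u i)‖ₑ ^ (-p) ∂μ := by
        refine lintegral_congr fun x => ?_
        rw [Finset.sum_mul]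
    _ = ∑ i, ∫⁻ x, g i x.val * ‖∑ i, A i * (x.val) (u i)‖ₑ ^ (-p) ∂μ :=
        lintegral_finsetSum _ fun i _ => ((hg i).comp hv).mul hA
    _ ≤ ∑ i, c i * ‖A‖ₑ ^ (-p) := Finset.sum_le_sum fun i _ => hw i μ hμ A
    _ = (∑ i, c i) * ‖A‖ₑ ^ (-p) := by rw [Finset.sum_mul]

lemma ofReal_Kf {q : ℕ} (v : Fin q → MK.B) (y : MK.Pts) :
    ENNReal.ofReal (Kf v y) = ∑ i, ‖y (v i)‖ₑ ^ 2 := by
  unfold Kf
  rw [ENNReal.ofReal_sum_of_nonneg fun i _ => by positivity]
  refine Finset.sum_congr rfl fun i _ => ?_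
  rw [ENNReal.ofReal_pow (norm_nonneg _), ofReal_norm]

lemma Kf_rpow_le {q : ℕ} (v : Fin q → MK.B) {θ : ℝ} (hθ : 0 < θ) (hθ1 : θ ≤ 1) (y : MK.Pts) :
    ENNReal.ofReal (Kf v y) ^ θ ≤ ∑ i, ‖y (v i)‖ₑ ^ (2 * θ) := by
  rw [ofReal_Kf]
  refine (DetB_606.rpow_sum_le Finset.univ _ hθ hθ1).trans (le_of_eq ?_)
  refine Finset.sum_congr rfl fun i _ => ?_
  rw [← ENNReal.rpow_natCast, ← ENNReal.rpow_mul]
  norm_num

/-- **(B)** -/
theorem bb_of_lb {s q : ℕ} {u : Fin s → MK.B} {v : Fin q → MK.B} {θ ε : ℝ} (hθ : 0 < θ)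
    (hθ1 : θ ≤ 1) (hε : 0 ≤ ε) (h : ∀ i, LB (rm H) u (2 * ε) (fun y => ‖y (v i)‖ₑ ^ (2 * θ))) :
    BB H u v θ ε := by
  intro z₀
  have hm : ∀ i, Measurable fun y : MK.Pts => ‖y (v i)‖ₑ ^ (2 * θ) := fun i =>
    (continuous_ev (v i)).measurable.enorm.pow_const _
  obtain ⟨C, hC, hev⟩ := Hsko_793.fintS_lb H (u := u) (p := 2 * ε) (by positivity) (ι := Unit)
    (fun _ y => ∑ i, ‖y (v i)‖ₑ ^ (2 * θ))
    (fun _ => Finset.measurable_fun_sum _ fun i _ => hm i) (fun _ => lb_sum _ hm h) z₀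
  refine ⟨C, hC, ?_⟩
  filter_upwards [hev] with z hz
  refine le_trans ?_ (hz fun _ => ())
  refine lintegral_mono fun x => ENNReal.tsum_le_tsum fun y => ?_
  refine mul_le_mul_left ?_ _
  rw [← ENNReal.prod_rpow_of_nonneg hθ.le]
  exact Finset.prod_le_prod' fun j _ => Kf_rpow_le v hθ hθ1 _

/-- **(Cl)** -/
theorem cl_of {q N₁ : ℕ} (hN : 0 < N₁) {bK : Module.Basis (Fin r) K (Ω[K⁄L])}
    (hbK : IsRelBasis MK bK) {v : Fin q → MK.B} (hv : ∀ i, Pluri L bK N₁ (v i : K))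
    (hspan : ∀ g : K, Pluri L bK N₁ g →
      g ∈ Submodule.span L (Set.range fun i => ((v i : MK.B) : K))) :
    CL H v (1 - 1 / (N₁ : ℝ)) := by
  have hN0 : (0 : ℝ) < N₁ := by exact_mod_cast hN
  obtain ⟨P, hP, h⟩ := SatC_886.cl_pluri H hN hbK hv hspan
  refine ⟨MvPolynomial.aeval ML.z P, fun h0 => hP ?_, fun z hz => ?_⟩
  · exact ML.az_injective (by rw [map_zero]; exact h0)
  · have e1 : z (MvPolynomial.aeval ML.z P) = MvPolynomial.eval (ML.pz z) P := by
      rw [← MvPolynomial.aeval_eq_eval, MvPolynomial.comp_aeval_apply]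
      rfl
    rw [e1] at hz
    obtain ⟨C, -, hC, hf⟩ := h z hz
    refine ⟨C, hC, fun f hfh hfin y hy => ?_⟩
    have e2 : (fun y : MK.Pts => ‖f y‖ₑ ^ (2 : ℝ) / ENNReal.ofReal (Kf v y ^ (1 - 1 / (N₁ : ℝ)))) =
        fun y => ‖f y‖ₑ ^ 2 * SatC_886.kv N₁ v y := by
      funext y
      have h0 : 0 ≤ Kf v y := Finset.sum_nonneg fun i _ => by positivity
      have h1 : (0 : ℝ) ≤ 1 - 1 / N₁ := by
        have h3 : (1 : ℝ) ≤ N₁ := by exact_mod_cast hN
        have h4 : 1 / (N₁ : ℝ) ≤ 1 := by rw [div_le_one hN0]; exact h3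
        linarith
      unfold SatC_886.kv
      rw [← ENNReal.ofReal_rpow_of_nonneg h0 h1, ENNReal.div_eq_inv_mul, ← ENNReal.rpow_neg,
        mul_comm, ENNReal.rpow_ofNat]
      congr 2
      field_simp
    rw [e2] at hfin ⊢
    have h5 := hf f hfh hfin.ne y hy
    rw [ENNReal.rpow_ofNat]
    exact h5

/-! ### the family -/

section alg

variable {k F : Type*} [Field k] [Field F] [Algebra k F] {n : ℕ}
  {b : Module.Basis (Fin n) F (Ω[F⁄k])}

lemma regAt_one (R : ValuationSubring F) (N : ℕ) (hN : N = 0) (hne : ∃ y : Fin n → F, (∀ i, y i ∈ R)) :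
    RegAt k R b N 1 := by
  subst hN
  obtain ⟨y, hy⟩ := hne
  exact ⟨y, hy, by simp⟩

lemma pluriS_monomial {s N : ℕ} (u : Fin s → F) (hu : ∀ i, PluriS k b N (u i)) (α : Fin s →₀ ℕ) :
    PluriS k b (N * α.degree) (∏ i, u i ^ α i) := by
  classical
  intro R hR
  have h1 : ∀ S : Finset (Fin s), RegAt k R b (N * ∑ i ∈ S, α i) (∏ i ∈ S, u i ^ α i) := by
    intro S
    induction S using Finset.induction_on with
    | empty => exact ⟨0, fun _ => R.zero_mem, by simp⟩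
    | insert i S hi ih =>
      rw [Finset.sum_insert hi, Finset.prod_insert hi, mul_add]
      exact End0_508.regAt_mul (End0_508.regAt_pow (hu i R hR) _) ih
  have h2 := h1 Finset.univ
  have h3 : ∑ i, α i = α.degree := by
    rw [Finsupp.degree_eq_sum]
  rwa [h3] at h2

end alg

/-- the family `v` -/
theorem exists_family (hHon : Honest L K) {bK : Module.Basis (Fin r) K (Ω[K⁄L])}
    (hbK : IsRelBasis MK bK) {s N N₁ d : ℕ} (hN : 0 < N) (hd : N₁ = N * d) (u : Fin s → MK.B)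
    (hu : ∀ i, PluriS L bK N (u i : K)) {p t : ℝ} (ht : 0 < t) (hNt : (N₁ : ℝ) * t = 2 + p * N)
    (hu1 : LB (rm H) u p (fun y => (∑ i, ‖y (u i)‖ₑ) ^ ((2 + p * N) / N)))
    (hv1 : ∀ v : MK.B, Pluri L bK N₁ (v : K) → ∃ (P : ML.B) (a0 : ℕ), P ≠ 0 ∧
      ∀ P' : ML.B, P ∣ P' → ∀ a : ℕ, a0 ≤ a →
        LB (rm H) u p (fun y => ‖y ((rm H).incl P' ^ a * v)‖ₑ ^ t)) :
    ∃ (n : ℕ) (v : Fin n → MK.B), (∀ i, PluriS L bK N₁ (v i : K)) ∧
      (∀ α : Fin s →₀ ℕ, α.degree = d → ∃ i, v i = ∏ j, u j ^ α j) ∧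
      (∀ g, Pluri L bK N₁ g → g ∈ Submodule.span L (Set.range fun i => ((v i : MK.B) : K))) ∧
      ∀ i, LB (rm H) u p (fun y => ‖y (v i)‖ₑ ^ t) := by
  classical
  obtain ⟨n₀, v₀, -, hv₀, hsp⟩ := Den_464.exists_v H bK hbK hHon N₁
  choose P a0 hP hLB using fun i => hv1 (v₀ i) fun R hR => hv₀ i R hR.alg
  set P' : ML.B := ∏ i, P i with hP'
  have hP'0 : P' ≠ 0 := Finset.prod_ne_zero_iff.2 fun i _ => hP i
  set a : ℕ := ∑ i, a0 i with ha
  have hLB' : ∀ i, LB (rm H) u p (fun y => ‖y ((rm H).incl P' ^ a * v₀ i)‖ₑ ^ t) := fun i =>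
    hLB i P' (Finset.dvd_prod_of_mem _ (Finset.mem_univ i)) a
      (Finset.single_le_sum (f := a0) (fun _ _ => Nat.zero_le _) (Finset.mem_univ i))
  -- the index type
  let ι : Type := Fin n₀ ⊕ {α : Fin s →₀ ℕ // α ∈ Finset.finsuppAntidiag Finset.univ d}
  let f : ι → MK.B := Sum.elim (fun i => (rm H).incl P' ^ a * v₀ i) fun α => ∏ j, u j ^ α.1 j
  let e : ι ≃ Fin (Fintype.card ι) := Fintype.equivFin ι
  have hmem : ∀ α : Fin s →₀ ℕ, α ∈ Finset.finsuppAntidiag Finset.univ d ↔ α.degree = d := by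
    intro α
    rw [Finset.mem_finsuppAntidiag, Finsupp.degree_eq_sum]
    exact ⟨fun h => h.1, fun h => ⟨h, Finset.subset_univ _⟩⟩
  have hfS : ∀ x : ι, PluriS L bK N₁ (f x : K) := by
    rintro (i | α)
    · intro R hR
      obtain ⟨y, hy, hle⟩ := hv₀ i R hR
      refine ⟨y, hy, ?_⟩
      have e1 : ((f (Sum.inl i) : MK.B) : K) = algebraMap L K ((P' : L) ^ a) * (v₀ i : K) := by
        rw [map_pow]
        rfl
      rw [e1, map_mul]
      have h3 : R.valuation (algebraMap L K ((P' : L) ^ a)) ≤ 1 :=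
        (ValuationSubring.valuation_le_one_iff _ _).2 (hR _)
      calc _ ≤ 1 * R.valuation (v₀ i : K) := mul_le_mul_left h3 _
        _ ≤ _ := by rw [one_mul]; exact hle
    · have h1 := pluriS_monomial (k := L) (fun i => (u i : K)) hu α.1
      rw [(hmem _).1 α.2, ← hd] at h1
      have e1 : ((f (Sum.inr α) : MK.B) : K) = ∏ i, (u i : K) ^ α.1 i := by
        change ((∏ j, u j ^ α.1 j : MK.B) : K) = _
        push_cast
        rfl
      rw [e1]
      exact h1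
  have hfLB : ∀ x : ι, LB (rm H) u p (fun y => ‖y (f x)‖ₑ ^ t) := by
    rintro (i | α)
    · exact hLB' i
    · have hN0 : (0 : ℝ) < N := by exact_mod_cast hN
      have hq : (d : ℝ) * t = (2 + p * N) / N := by
        rw [← hNt, hd]
        push_cast
        field_simp
      have h1 := Hsko_793.lb_homog H (k := d) ht.le hq hu1
        (P := MvPolynomial.monomial α.1 1)
        (MvPolynomial.isHomogeneous_monomial (1 : ℂ) ((hmem _).1 α.2))
      have e1 : MvPolynomial.aeval u (MvPolynomial.monomial α.1 (1 : ℂ)) = ∏ j, u j ^ α.1 j := by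
        rw [MvPolynomial.aeval_monomial, map_one, one_mul, Finsupp.prod_fintype _ _ fun _ => pow_zero _]
      rw [e1] at h1
      exact h1
  refine ⟨Fintype.card ι, fun i => f (e.symm i), fun i => hfS _, fun α hα => ?_, fun g hg => ?_,
    fun i => hfLB _⟩
  · refine ⟨e (Sum.inr ⟨α, (hmem α).2 hα⟩), ?_⟩
    simp only [Equiv.symm_apply_apply]
    rfl
  · refine Submodule.span_le.2 ?_ (hsp g hg)
    rintro _ ⟨i, rfl⟩
    have hP0 : (P' : L) ^ a ≠ 0 := pow_ne_zero _ fun h => hP'0 (Subtype.ext h)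
    have e1 : ((f (Sum.inl i) : MK.B) : K) = (P' : L) ^ a • (v₀ i : K) := by
      rw [Algebra.smul_def, map_pow]
      rfl
    have h4 : (v₀ i : K) = ((P' : L) ^ a)⁻¹ • ((f (Sum.inl i) : MK.B) : K) := by
      rw [e1, smul_smul, inv_mul_cancel₀ hP0, one_smul]
    have h5 : ((f (Sum.inl i) : MK.B) : K) ∈
        Submodule.span L (Set.range fun j => ((f (e.symm j) : MK.B) : K)) :=
      Submodule.subset_span ⟨e (Sum.inl i), by simp⟩
    change (v₀ i : K) ∈ Submodule.span L (Set.range fun j => ((f (e.symm j) : MK.B) : K))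
    rw [h4]
    exact Submodule.smul_mem _ _ h5

end Crest.Agent.R276.LC1a_464
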