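import Mathlib
import Crest.Agent.R276.LC1a_464
import Crest.Agent.R276.Skel_220
import Crest.Agent.R276.ModPack_849
import Crest.Agent.R276.SatI_152

/-!
# Row 276 (helper464): the data of (C1), part (b): on all small towers

`data` : from 425's estimate on the pieces (`PEAll`), on every sufficiently small tower:
`Ieps ≠ ∞` (SKO), and for every `q` with `1/q < ε₀` and every `k` the family `v` of (C1) with
(B) and (Cl).
-/

set_option autoImplicit false
set_option linter.unusedSectionVars false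

open Set Filter Topology MeasureTheory
open scoped ENNReal

noncomputable section

namespace Crest.Agent.R276.LC1a_464

open Crest.Agent.R271 Crest.Agent.R271.Ho51
open Crest.Agent.R271.Rd692 hiding evs
open Crest.Agent.R271.Defs710 hiding glue
open Crest.Agent.R276.Mod1_987 Crest.Agent.R276.FKDefs_779 Crest.Agent.R276.BetaDefs_231
open Crest.Agent.R276.FlatDefs_236 Crest.Agent.R276.TowA_849
open Crest.Agent.R276.SkelDefs_220 Crest.Agent.R276.CInd_870 Crest.Agent.R276.SkelGeo_220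
open Crest.Agent.R276.SkoP_845 Crest.Agent.R276.W1_185 Crest.Agent.R276.SkoT_845
open Crest.Agent.R276.SkoM_845 Crest.Agent.R276.SkoN_845

/-- (PE) [425]: the estimate on all pieces -/
def PEAll : Prop :=
  ∀ (L K : Type) [Field L] [Field K] [Algebra ℂ L] [Algebra ℂ K] [Algebra L K]
    [IsScalarTower ℂ L K] (r : ℕ) (bas : Module.Basis (Fin r) K (Ω[K⁄L])) (N s : ℕ)
    (Y : Finset (Fin r → K)) (u : Fin s → K), Setup L K → 0 < r → 0 < N → IsFrames bas Y →
    LinearIndependent L u → (∀ i, Pluri L bas N (u i)) →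
    ∃ p₀ : ℝ, 0 < p₀ ∧ ∃ (AA : Finset L) (BB : Finset K), ∀ (AA' : Finset L) (BB' : Finset K),
      AA ⊆ AA' → BB ⊆ BB' → ∀ p : ℝ, 0 ≤ p → p < p₀ → ∀ y ∈ Y, PE bas N u y AA' BB' p

/-! ### linear independence -/

section li

variable {L K : Type} [Field L] [Field K] [Algebra ℂ L] [Algebra ℂ K] [Algebra L K]
  [IsScalarTower ℂ L K] {m r : ℕ}

theorem li_of_sat {R : RMdl L K m r} {N s : ℕ} {u : Fin s → R.MK.B} (hS : SatFam R N u) :
    LinearIndependent L fun i => (u i : K) := by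
  classical
  have hfr : IsFractionRing R.ML.B L := inferInstance
  rw [Fintype.linearIndependent_iff]
  intro c hc
  by_contra hcon
  push Not at hcon
  obtain ⟨i₀, hi₀⟩ := hcon
  obtain ⟨b, hb⟩ := IsLocalization.exist_integer_multiples_of_finite (nonZeroDivisors R.ML.B) c
  choose a ha using hb
  have hb0 : ((b : R.ML.B) : L) ≠ 0 := fun h =>
    nonZeroDivisors.ne_zero b.2 (Subtype.ext h)
  have ha' : ∀ i, ((a i : R.ML.B) : L) = ((b : R.ML.B) : L) * c i := fun i => by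
    have h1 := ha i
    rw [Algebra.smul_def] at h1
    exact h1
  have hai : a i₀ ≠ 0 := by
    intro h
    have h1 := ha' i₀
    rw [h] at h1
    exact mul_ne_zero hb0 hi₀ h1.symm
  obtain ⟨p, hp, hpt⟩ := RMdl.exists_dvd_poly R.ML hai
  obtain ⟨w, hw⟩ := GlobF_739.exists_pt (R := R) hp
  have h0 : ∑ i, R.incl (a i) * u i = 0 := by
    apply Subtype.ext
    push_cast
    have h1 : ∀ i, ((R.incl (a i) : R.MK.B) : K) * (u i : K) =
        algebraMap L K ((b : R.ML.B) : L) * (c i • (u i : K)) := by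
      intro i
      rw [RMdl.incl_coe, ha', map_mul, Algebra.smul_def]
      ring
    rw [Finset.sum_congr rfl fun i _ => h1 i, ← Finset.mul_sum, hc, mul_zero]
  have h2 := hS.indep w (fun i => w (a i)) fun y => by
    have h3 := congrArg (y.val : R.MK.B →ₐ[ℂ] ℂ) h0
    rw [map_sum, map_zero] at h3
    rw [← h3]
    refine Finset.sum_congr rfl fun i _ => ?_
    rw [map_mul]
    have h4 : (y.val : R.MK.B →ₐ[ℂ] ℂ) (R.incl (a i)) = w (a i) := by
      rw [← R.q_apply, y.q_eq]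
    rw [h4]
    rfl
  exact hpt w hw (congrFun h2 i₀)

end li

/-! ### towers -/

section tow

variable {T L K : Type} [Field T] [Field L] [Field K] [Algebra ℂ T] [Algebra ℂ L] [Algebra ℂ K]
  [Algebra T L] [Algebra L K] [IsScalarTower ℂ T L] [IsScalarTower ℂ L K] {ρ a r : ℕ}

/-- the data on one small tower -/
structure Dat1 (W : Tow T L K ρ a r) (N : ℕ) {s : ℕ} (σ : Fin s → K) (ε₀ : ℝ)
    (H₂ : Rel W.ML W.MK) (u : Fin s → W.MK.B) (bK : Module.Basis (Fin r) K (Ω[K⁄L])) : Prop where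
  basis : IsRelBasis W.MK bK
  pluri : ∀ i, PluriS L bK N (u i : K)
  sko : ∀ ε : ℝ, 0 ≤ ε → ε < ε₀ → ∀ (z : W.ML.Pts) (k : ℕ) (P : MvPolynomial (Fin s) ℂ), 0 < k →
    P.IsHomogeneous k → Ieps H₂ N k u ε z (evs u P) ≠ ∞
  fam : ∀ q : ℕ, 0 < q → 1 / (q : ℝ) < ε₀ → ∀ k : ℕ, 0 < k →
    ∃ (n : ℕ) (v : Fin n → W.MK.B), (∀ i, PluriS L bK (N * (k * (q + N))) (v i : K)) ∧
      (∀ α : Fin s →₀ ℕ, α.degree = k * (q + N) → ∃ i, v i = ∏ j, u j ^ α j) ∧
      (∀ g, Pluri L bK (N * (k * (q + N))) g →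
        g ∈ Submodule.span L (Set.range fun i => ((v i : W.MK.B) : K))) ∧
      BB H₂ u v (1 / ((q * k * N : ℕ) : ℝ)) (1 / (q : ℝ)) ∧
      CL H₂ v (1 - 1 / ((N * (k * (q + N)) : ℕ) : ℝ))

/-- **the data of (C1)** -/
theorem data (hPE : PEAll) {W : Tow T L K ρ a r} {N d e₀ s e : ℕ} {σ : Fin s → K}
    {w : Fin (e + 1) → L} (h : TowOK W N d e₀ σ w) :
    ∃ (ε₀ : ℝ) (bK : Module.Basis (Fin r) K (Ω[K⁄L])), 0 < ε₀ ∧
      Ev W fun W' => ∀ (H₂ : Rel W'.ML W'.MK) (u : Fin s → W'.MK.B), (∀ i, (u i : K) = σ i) →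
        Dat1 W' N σ ε₀ H₂ u bK := by
  classical
  obtain ⟨X, -, -⟩ := h.geo
  have hN : 0 < N := by have := h.N_ge; omega
  have hN0 : (0 : ℝ) < N := by exact_mod_cast hN
  have hcL : CharZero L := charZero_of_injective_algebraMap (algebraMap ℂ L).injective
  obtain ⟨bK, hb⟩ : ∃ b : Module.Basis (Fin r) K (Ω[K⁄L]),
      ∀ j, b j = KaehlerDifferential.D L K (W.MK.zK (Fin.natAdd (ρ + a) j)) :=
    FKB0_143.exists_kbasis (SatG_152.isTB_x W.LK)
  have hHon : Honest L K := h.setup.uhon.honest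
  have hσ : ∀ i, Pluri L bK N (σ i) := fun i =>
    (h.span bK hb (σ i)).2 (Submodule.subset_span ⟨i, rfl⟩)
  have hli : LinearIndependent L σ := li_of_sat X.sat
  obtain ⟨Y, hY⟩ := exists_frames h.setup.uhon bK
  obtain ⟨p₀, hp₀, AA, BB₀, hpe⟩ := hPE L K r bK N s Y σ h.setup h.r_pos hN hY hli hσ
  obtain ⟨A0, hlbu⟩ := lb_u hY hN hσ
  refine ⟨p₀ / 2, bK, by positivity, ?_⟩
  refine ((ModPack_849.ev_units W ∅ (AA ∪ A0) (BB₀ ∪ bb bK Y N σ)).and
    (Skel_220.ev_coord W)).mono ?_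
  rintro W' ⟨⟨-, hL, hK⟩, hzL, hzK⟩ H₂ u hu
  have hcompat : Compat bK (rm H₂) := by
    intro j
    rw [hb j]
    congr 1
    exact (congrFun hzK _).symm
  have hbas : IsRelBasis W'.MK bK := hcompat
  have hU : Units' (rm H₂) (AA ∪ A0) (BB₀ ∪ bb bK Y N σ) := ⟨hL, hK⟩
  have hHas : Has bK Y N σ (BB₀ ∪ bb bK Y N σ) := has_bb Finset.subset_union_right
  have hpe' : ∀ p : ℝ, 0 ≤ p → p < p₀ → ∀ y ∈ Y,
      PE bK N σ y (AA ∪ A0) (BB₀ ∪ bb bK Y N σ) p := fun p h1 h2 =>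
    hpe _ _ Finset.subset_union_left Finset.subset_union_left p h1 h2
  have hlb : ∀ p : ℝ, 0 ≤ p → p < p₀ →
      LB (rm H₂) u p (fun y => (∑ i, ‖y (u i)‖ₑ) ^ ((2 + p * N) / N)) := fun p h1 h2 =>
    hlbu _ _ Finset.subset_union_right hHas p h1 (hpe' p h1 h2) _ (rm H₂) hcompat hU u hu
  have hPS : ∀ i, PluriS L bK N (u i : K) := fun i => by
    rw [hu i]; exact hHon r bK N (σ i) (hσ i)
  refine ⟨hbas, hPS, fun ε hε0 hε1 z k P hk hP => ?_, fun q hq hqε k hk => ?_⟩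
  · exact Hsko_793.hsko_of_lb H₂ hN hε0 (by
      have := hlb (2 * ε) (by positivity) (by linarith)
      exact this) z k P hk hP
  · have hq0 : (0 : ℝ) < q := by exact_mod_cast hq
    have hk0 : (0 : ℝ) < k := by exact_mod_cast hk
    set t : ℝ := 2 * (1 / ((q * k * N : ℕ) : ℝ)) with ht
    have hcast : ((q * k * N : ℕ) : ℝ) = q * k * N := by push_cast; ring
    have ht0 : 0 < t := by rw [ht, hcast]; positivity
    have hNt : ((N * (k * (q + N)) : ℕ) : ℝ) * t = 2 + (2 * (1 / (q : ℝ))) * N := by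
      rw [ht, hcast]
      push_cast
      field_simp
    have hp1 : 2 * (1 / (q : ℝ)) < p₀ := by linarith
    obtain ⟨n, v, hv1, hv2, hv3, hv4⟩ := exists_family (H := H₂) hHon hbas hN
      (N₁ := N * (k * (q + N))) (d := k * (q + N)) rfl u hPS (p := 2 * (1 / (q : ℝ))) ht0 hNt
      (hlb _ (by positivity) hp1) (fun v hv =>
        lb_v hY hσ hHas (hpe' _ (by positivity) hp1) (rm H₂) hcompat hU hu v ht0 hNt hv)
    refine ⟨n, v, hv1, hv2, hv3, ?_, ?_⟩
    · refine bb_of_lb (by rw [hcast]; positivity) ?_ (by positivity) hv4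
      rw [div_le_one (by rw [hcast]; positivity)]
      exact_mod_cast Nat.mul_pos (Nat.mul_pos hq hk) hN
    · refine cl_of (Nat.mul_pos hN (Nat.mul_pos hk (by omega))) hbas
        (fun i R hR => hv1 i R hR.alg) hv3

end tow

end Crest.Agent.R276.LC1a_464
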