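import Mathlib
import Crest.Agent.R276.Skel_220
import Crest.Agent.R276.IsCY_464
import Crest.Agent.R276.ModPack_849

/-!
# Row 276 (helper464): `Skel_220.LCY`
-/

set_option autoImplicit false

noncomputable section

namespace Crest.Agent.R276.LCY_464

open Crest.Agent.R271.Defs710 hiding glue
open Crest.Agent.R276.Mod1_987 Crest.Agent.R276.SkelDefs_220 Crest.Agent.R276.TowA_849
open Crest.Agent.R276.SkelGeo_220 Crest.Agent.R276.Skel_220 Crest.Agent.R276.FlatDefs_236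
open Crest.Agent.R276.CInd_870 (rm)

section tow

variable {T L K : Type} [Field T] [Field L] [Field K] [Algebra ℂ T] [Algebra ℂ L] [Algebra ℂ K]
  [Algebra T L] [Algebra L K] [IsScalarTower ℂ T L] [IsScalarTower ℂ L K] {ρ a r : ℕ}
  {W : Tow T L K ρ a r} {N s : ℕ}

theorem satFam_rm {u : Fin s → W.MK.B} (h : SatFam W.LK N u) (H₂ : Rel W.ML W.MK) :
    SatFam (rm H₂) N u := h

theorem DR_rm (u : Fin s → W.MK.B) (H₂ : Rel W.ML W.MK) :
    DR W.LK N u = IsCY_464.Dr H₂ N u := rfl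

end tow

/-- **LCY** -/
theorem lcy : LCY := by
  intro T L K _ _ _ _ _ _ _ _ _ _ ρ a r W N d e e₀ s σ w h
  obtain ⟨X, -, -⟩ := h.geo
  exact ⟨h.H₁, h.H₂, X.mem, h.wmem, IsCY_464.isCY (satFam_rm X.sat h.H₂)⟩

end Crest.Agent.R276.LCY_464
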