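import Crest.Agent.R276.Skel_220
import Crest.Agent.R276.TrG_220
import Crest.Agent.R276.ModPack_849

/-!
# Row 276 (helper220): `Skel_220.LEv`
-/

set_option autoImplicit false

open Set Filter Topology MeasureTheory
open scoped ENNReal

noncomputable section

namespace Crest.Agent.R276.LEv_220

open Crest.Agent.R271 Crest.Agent.R271.Defs710 Crest.Agent.R271.Rd692 Crest.Agent.R271.Ho51
open Crest.Agent.R276.Mod1_987 Crest.Agent.R276.FKDefs_779
open Crest.Agent.R276.SkelDefs_220 Crest.Agent.R276.SkelGeo_220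
open Crest.Agent.R276.TowA_849 Crest.Agent.R276.ModPack_849
open Crest.Agent.R276.CmpR_652 (Cmp)
open Crest.Agent.R276.VLevi_327 (thV)
open Crest.Agent.R276.VPull_327

variable {L K : Type} [Field L] [Field K] [Algebra ℂ L] [Algebra ℂ K] [Algebra L K]
  [IsScalarTower ℂ L K] {m r : ℕ}

/-- for the same base coordinates the map of the bases is an isomorphism over `ℂ^m` -/
theorem jac_rL_eq {R R' : RMdl L K m r} (h : Cmp R R') (hz : R.ML.zK = R'.ML.zK)
    (z : R'.ML.Pts) (v : Fin m → ℂ) : jac h.rL z v = v := by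
  have h1 : ∀ y : R'.ML.Pts, (cp (h.rL y) : Fin m → ℂ) = cp y := by
    intro y
    funext i
    change y ⟨(R.ML.z i : L), _⟩ = y (R'.ML.z i)
    congr 1
    exact Subtype.ext (congrFun hz i)
  have h2 : ((fun y' : R'.ML.Pts => (cp (h.rL y') : Fin m → ℂ)) ∘ (ch z).symm)
      =ᶠ[𝓝 (cp z)] fun p => p := by
    filter_upwards [(ch z).open_target.mem_nhds ((isCh_ch z).cp_mem (mem_ch z))] with p hp
    simp only [Function.comp]
    rw [h1]
    exact (isCh_ch z).cp_symm hp
  unfold VPull_327.jac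
  rw [h2.fderiv_eq]
  simp

theorem lev : Skel_220.LEv := by
  intro T L K _ _ _ _ _ _ _ _ _ _ ρ a r W N d e e₀ s σ w hOK
  let _ : Algebra T K := ((algebraMap L K).comp (algebraMap T L)).toAlgebra
  have : IsScalarTower T L K := IsScalarTower.of_algebraMap_eq fun _ => rfl
  have : IsScalarTower ℂ T K := IsScalarTower.of_algebraMap_eq fun c => by
    rw [IsScalarTower.algebraMap_apply T L K, ← IsScalarTower.algebraMap_apply ℂ T L,
      ← IsScalarTower.algebraMap_apply ℂ L K]
  have hdv : Dv W := ⟨hOK.H₁.dvd, hOK.H₂.dvd⟩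
  have h1 : BN1_143.AC T L := fun b hb => hOK.acT b hb
  have h2 : BN1_143.AC L K := fun b hb => hOK.setup.ac b hb
  refine ((ev_good W hdv h1 h2).and ((ev_tle W).and
    (CmpR_652.ev_cmp W W.LK fun _ => rfl))).mono ?_
  rintro W' ⟨hG, hle, hc, hne⟩
  obtain ⟨X, hX, hXa⟩ := hOK.geo
  obtain ⟨X', hX', hth⟩ := X.tr hc hne
  exact
    { N_even := hOK.N_even
      N_ge := hOK.N_ge
      s_pos := hOK.s_pos
      e₀_pos := hOK.e₀_pos
      r_pos := hOK.r_pos
      m_pos := hOK.m_pos
      setup := hOK.setup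
      acT := hOK.acT
      H₁ := hG.relTL
      H₂ := hG.relLK
      conn₁ := hG.conn_relTL
      conn₂ := hG.conn_relLK
      span := fun b hb v => hOK.span b (fun j => by rw [hb j, hc.x_eq j]) v
      ind := hOK.ind
      geo := ⟨X', hX' hX, fun z v => by
        have h3 : VPull_327.jac hc.rL (z : W'.LK.ML.Pts) v = v := jac_rL_eq hc hle.zL z v
        have h4 := hth (z : W'.LK.ML.Pts) v
        rw [h3] at h4
        exact (hXa (hc.rL (z : W'.LK.ML.Pts)) v).trans h4.symm⟩
      wmem := fun j => hle.bL (hOK.wmem j)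
      wreg := fun b hb => hOK.wreg b fun j => by rw [hb j, hle.zL]
      w0 := hOK.w0
      wind := hOK.wind }

end Crest.Agent.R276.LEv_220
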