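import Mathlib
import Crest.Agent.R276.EndMain_870
import Crest.Agent.R276.Skel_220

/-!
# Row 276 (helper870): `Skel_220.LComp`
-/

set_option autoImplicit false

noncomputable section

namespace Crest.Agent.R276.LComp_870

open Crest.Agent.R276.EndMain_870

/-- **LComp** -/
theorem lcomp : Skel_220.LComp := by
  intro T L K _ _ _ _ _ _ _ _ _ _ ρ a r N s e₀ d e MT ML MK H₁ H₂ u w D ε _ hN hs he₀ hε hCY _ _
    hTC hC1 hC2 hC3 hC4 hF hJ hI hZ
  letI : Algebra T K := ((algebraMap L K).comp (algebraMap T L)).toAlgebra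
  haveI : IsScalarTower T L K := IsScalarTower.of_algebraMap_eq fun _ => rfl
  haveI : IsScalarTower ℂ T K := IsScalarTower.of_algebraMap_eq fun x => by
    rw [IsScalarTower.algebraMap_apply ℂ L K, IsScalarTower.algebraMap_apply ℂ T L]
    rfl
  exact kapGeF_of_tower H₁ H₂ hN hs he₀ hε hCY hTC hC1 hC2 hC3 hC4 hF hJ hI hZ

end Crest.Agent.R276.LComp_870
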