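import Mathlib
import Crest.Agent.R276.Skel_220
import Crest.Agent.R276.TChC_858
import Crest.Agent.R276.W2c_748
import Crest.Agent.R276.LComp_870

/-!
# Row 276 (helper870): glue for `Skel_220`: `LTCh`, `LC2` (from `LEv`)
-/

set_option autoImplicit false

noncomputable section

namespace Crest.Agent.R276.LGlue_870

open Crest.Agent.R271.Defs710 hiding glue
open Crest.Agent.R276.Mod1_987 Crest.Agent.R276.FKDefs_779 Crest.Agent.R276.BetaDefs_231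
open Crest.Agent.R276.SkelDefs_220 Crest.Agent.R276.TowA_849 Crest.Agent.R276.SkelGeo_220
open Crest.Agent.R276.Skel_220 Crest.Agent.R276.FKB0_143

section stm

variable {T L K : Type} [Field T] [Field L] [Field K] [Algebra ℂ T] [Algebra ℂ L] [Algebra ℂ K]
  [Algebra T L] [Algebra L K] [IsScalarTower ℂ T L] [IsScalarTower ℂ L K] {ρ a r : ℕ}
  {W : Tow T L K ρ a r} {N d e₀ s e : ℕ} {σ : Fin s → K} {w : Fin (e + 1) → L}

/-- the sections are in the ring -/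
theorem mem (h : TowOK W N d e₀ σ w) : ∀ i, σ i ∈ W.MK.B := by
  obtain ⟨X, -⟩ := h.geo
  exact X.mem

/-- statements which hold for all relative models of the tower -/
theorem stm_of (h : TowOK W N d e₀ σ w)
    {Φ : ∀ {MT : Mdl T ρ} {ML : Mdl L (ρ + a)} {MK : Mdl K (ρ + a + r)} (_ : Rel MT ML)
      (_ : Rel ML MK) (_ : Fin s → MK.B) (_ : Fin (e + 1) → ML.B) (_ : ML.Pts → ℝ), Prop}
    (hΦ : ∀ (H₁ : Rel W.MT W.ML) (H₂ : Rel W.ML W.MK),
      Φ H₁ H₂ (fr W.LK σ (mem h)) (fun j => ⟨w j, h.wmem j⟩) (DR W.LK N (fr W.LK σ (mem h)))) :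
    Stm W N σ w Φ :=
  ⟨h.H₁, h.H₂, mem h, h.wmem, hΦ h.H₁ h.H₂⟩

end stm

/-- **LTCh** -/
theorem ltch (hEv : LEv) : LTCh := by
  intro T L K _ _ _ _ _ _ _ _ _ _ ρ a r W N d e e₀ s σ w hOK
  exact (hEv T L K ρ a r W N d e e₀ s σ w hOK).mono fun W' h =>
    stm_of h (Φ := fun H₁ H₂ _ _ _ => TCh H₁ H₂) fun H₁ H₂ => TCh_858.tch H₁ H₂

/-- **LC2** -/
theorem lc2 (hEv : LEv) : LC2 := by
  intro T L K _ _ _ _ _ _ _ _ _ _ ρ a r W N d e e₀ s σ w hOK
  exact (hEv T L K ρ a r W N d e e₀ s σ w hOK).mono fun W' h =>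
    stm_of h (Φ := fun H₁ H₂ _ w _ => ∃ b₂, C2 H₁ H₂ w e₀ b₂) fun H₁ H₂ =>
      ⟨_, W2_748.c2 H₁ H₂ _ h.e₀_pos (kbasis (Cmp_595.isTranscendenceBasis W'.ML))
        (fun j => kbasis_apply _ j)
        (h.wreg (kbasis (Cmp_595.isTranscendenceBasis W'.ML)) fun j => kbasis_apply _ j)⟩

end Crest.Agent.R276.LGlue_870
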