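import Crest.Agent.R276.SkoA_567

/-!
# SKO (row 276), part B: negative powers of algebraic functions (helper567)

`sko_alg`: if `y : X → ℂⁿ` satisfies an area inequality on `E` (weight `w = |jacobian|²`, multiplicity `D`, image
in the polydisc of radius `R`) and `|P(y)| ≤ A |b|` on `E` for a polynomial `P` of degree `≤ d` in each variable,
then `∫_E w |b|^{-p} ≤ D C A^p |coeff m P|^{-p}`, `C = C(n,d,p,R)`.
`lower_bound`: `|P₀(y)| ≤ A |b|` follows from an algebraic equation `∑ P_k(y) b^k = 0`.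
-/

set_option autoImplicit false

noncomputable section

open Set Filter Topology MeasureTheory ENNReal

namespace Crest.Agent.R276.SkoB_567

open SkoA_567

/-- if `∑_{k ≤ q} a_k b^k = 0` then `|a_0| ≤ A |b|`, `A = ∑_{k < q} |a_{k+1}| |b|^k` -/
theorem lower_bound (q : ℕ) (a : ℕ → ℂ) (b : ℂ) (h : ∑ k ∈ Finset.range (q + 1), a k * b ^ k = 0)
    (A : ℝ) (hA : ∑ k ∈ Finset.range q, ‖a (k + 1)‖ * ‖b‖ ^ k ≤ A) : ‖a 0‖ ≤ A * ‖b‖ := by
  rw [Finset.sum_range_succ'] at h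
  have h1 : a 0 = -(∑ k ∈ Finset.range q, a (k + 1) * b ^ k) * b := by
    have h2 : a 0 = -∑ k ∈ Finset.range q, a (k + 1) * b ^ (k + 1) := by
      rw [pow_zero, mul_one] at h
      exact eq_neg_of_add_eq_zero_right h
    rw [h2, neg_mul, Finset.sum_mul]
    congr 1
    exact Finset.sum_congr rfl fun k _ => by ring
  rw [h1, norm_mul, norm_neg]
  refine mul_le_mul_of_nonneg_right (le_trans ?_ hA) (norm_nonneg _)
  refine (norm_sum_le _ _).trans (Finset.sum_le_sum fun k _ => ?_)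
  rw [norm_mul, norm_pow]

/-- the same in `ℝ≥0∞` -/
theorem lower_bound_enorm (q : ℕ) (a : ℕ → ℂ) (b : ℂ)
    (h : ∑ k ∈ Finset.range (q + 1), a k * b ^ k = 0) (A : ℝ)
    (hA : ∑ k ∈ Finset.range q, ‖a (k + 1)‖ * ‖b‖ ^ k ≤ A) :
    ‖a 0‖ₑ ≤ ENNReal.ofReal A * ‖b‖ₑ := by
  have hA0 : 0 ≤ A := le_trans (Finset.sum_nonneg fun k _ => by positivity) hA
  rw [← ofReal_norm, ← ofReal_norm, ← ENNReal.ofReal_mul hA0]
  exact ENNReal.ofReal_le_ofReal (lower_bound q a b h A hA)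

/-- uniform integrability of negative powers of algebraic functions -/
theorem sko_alg (n d : ℕ) (p R : ℝ) (hp : 0 ≤ p) (hpd : p * d < 2) : ∃ C : ℝ≥0∞, C < ∞ ∧
    ∀ {X : Type*} [MeasurableSpace X] (μ : Measure X) (E : Set X) (_ : MeasurableSet E)
      (y : X → Fin n → ℂ) (w : X → ℝ≥0∞) (D : ℝ≥0∞)
      (_ : ∀ f : (Fin n → ℂ) → ℝ≥0∞, Measurable f →
        ∫⁻ x in E, w x * f (y x) ∂μ ≤ D * ∫⁻ η in Metric.closedBall (0 : Fin n → ℂ) R, f η)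
      (b : X → ℂ) (P : MvPolynomial (Fin n) ℂ) (_ : ∀ i, P.degreeOf i ≤ d) (A : ℝ≥0∞)
      (_ : A ≠ 0) (_ : A ≠ ∞) (_ : ∀ x ∈ E, ‖MvPolynomial.eval (y x) P‖ₑ ≤ A * ‖b x‖ₑ) (m),
      ∫⁻ x in E, w x * ‖b x‖ₑ ^ (-p) ∂μ ≤
        D * (A ^ p * (C * ‖MvPolynomial.coeff m P‖ₑ ^ (-p))) := by
  obtain ⟨C, hC, h⟩ := sko n d p R hp hpd
  refine ⟨C, hC, ?_⟩
  intro X _ μ E hE y w D harea b P hP A hA0 hA hb m
  have h1 : ∀ x ∈ E, w x * ‖b x‖ₑ ^ (-p) ≤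
      w x * (A ^ p * ‖MvPolynomial.eval (y x) P‖ₑ ^ (-p)) := by
    intro x hx
    refine mul_le_mul_right ?_ _
    have h2 : ‖MvPolynomial.eval (y x) P‖ₑ / A ≤ ‖b x‖ₑ :=
      ENNReal.div_le_of_le_mul' (hb x hx)
    have h3 : ‖b x‖ₑ ^ (-p) ≤ (‖MvPolynomial.eval (y x) P‖ₑ / A) ^ (-p) := by
      rw [ENNReal.rpow_neg, ENNReal.rpow_neg]
      exact ENNReal.inv_le_inv.mpr (ENNReal.rpow_le_rpow h2 hp)
    refine h3.trans (le_of_eq ?_)
    rw [ENNReal.rpow_neg, ENNReal.rpow_neg, ENNReal.div_rpow_of_nonneg _ _ hp,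
      ENNReal.inv_div (Or.inl (ENNReal.rpow_ne_top_of_nonneg hp hA))
        (Or.inl (ENNReal.rpow_pos (pos_iff_ne_zero.mpr hA0) hA).ne'), div_eq_mul_inv]
  calc ∫⁻ x in E, w x * ‖b x‖ₑ ^ (-p) ∂μ
      ≤ ∫⁻ x in E, w x * (A ^ p * ‖MvPolynomial.eval (y x) P‖ₑ ^ (-p)) ∂μ :=
        setLIntegral_mono' hE h1
    _ ≤ D * ∫⁻ η in Metric.closedBall (0 : Fin n → ℂ) R,
          A ^ p * ‖MvPolynomial.eval η P‖ₑ ^ (-p) :=
        harea (fun η => A ^ p * ‖MvPolynomial.eval η P‖ₑ ^ (-p))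
          (measurable_const.mul ((measurable_eval P).enorm.pow_const _))
    _ = D * (A ^ p * ∫⁻ η in Metric.closedBall (0 : Fin n → ℂ) R,
          ‖MvPolynomial.eval η P‖ₑ ^ (-p)) := by
        rw [lintegral_const_mul _ ((measurable_eval P).enorm.pow_const _)]
    _ ≤ _ := mul_le_mul_right (mul_le_mul_right (h P hP m) _) _

end Crest.Agent.R276.SkoB_567
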