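import Crest.Agent.R276.SkoC_317
import Crest.Agent.R276.SkoB_567

/-!
# SKO-UNI (row 276), part D: numeric forms, uniform in `A ∈ ℂˢ` (helper317)

`null_bound` (**NULL**): points `χ` over a fixed point `e` of the base; polynomial bounds in `ρ` (base) and `R`.
`int_null` (**INT**): `∫_{‖η_l‖ ≤ R} (C₀ (ρR)^n)^p ‖P η‖^{-p} ≤ C₁ (ρR)^{n₁} ‖A‖^{-p}`.
-/

set_option autoImplicit false

noncomputable section

open MvPolynomial MeasureTheory ENNReal

namespace Crest.Agent.R276.SkoD_317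

open SkoC_317

section Ev

variable {R S : Type*} [CommRing R] [CommRing S]

/-- specialisation of the coefficients (`e`) and of `A` -/
def ev (e : R →+* ℂ) {r s : ℕ} (A : Fin s → ℂ) :
    MvPolynomial (Fin r) (MvPolynomial (Fin s) R) →+* MvPolynomial (Fin r) ℂ :=
  MvPolynomial.map (eval₂Hom e A)

theorem coeff_ev (e : R →+* ℂ) {r s : ℕ} (A : Fin s → ℂ)
    (P : MvPolynomial (Fin r) (MvPolynomial (Fin s) R)) (β : Fin r →₀ ℕ) :
    coeff β (ev e A P) = eval₂ e A (coeff β P) := by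
  rw [ev, coeff_map]
  rfl

/-- evaluation at a point `χ` over `e` -/
theorem eval_Th (j : R →+* S) (χ : S →+* ℂ) {r s : ℕ} (y : Fin r → S) (A : Fin s → ℂ)
    (P : MvPolynomial (Fin r) (MvPolynomial (Fin s) R)) :
    eval₂ χ A (Th j y P) = MvPolynomial.eval (fun i => χ (y i)) (ev (χ.comp j) A P) := by
  have h : (eval₂Hom χ A).comp (Th j y) =
      (MvPolynomial.eval fun i => χ (y i)).comp (ev (χ.comp j) A) := by
    apply MvPolynomial.ringHom_ext
    · intro c
      rw [RingHom.comp_apply, RingHom.comp_apply, Th_C, ev, map_C, eval_C, coe_eval₂Hom, eval₂_map]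
      rfl
    · intro i
      rw [RingHom.comp_apply, RingHom.comp_apply, Th, eval₂Hom_X', ev, map_X, eval_X,
        coe_eval₂Hom, eval₂_C]
  exact RingHom.congr_fun h P

theorem map_Th {L K BL BK : Type*} [CommRing L] [CommRing K] [CommRing BL] [CommRing BK]
    (f : L →+* K) (iL : BL →+* L) (iK : BK →+* K) (j : BL →+* BK)
    (hj : ∀ b, iK (j b) = f (iL b)) {r s : ℕ} (y : Fin r → BK)
    (P : MvPolynomial (Fin r) (MvPolynomial (Fin s) BL)) :
    MvPolynomial.map iK (Th j y P) =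
      Th f (fun i => iK (y i)) (MvPolynomial.map (MvPolynomial.map iL) P) := by
  have hj' : iK.comp j = f.comp iL := RingHom.ext hj
  have h : (MvPolynomial.map iK).comp (Th (s := s) j y) =
      (Th f (fun i => iK (y i))).comp (MvPolynomial.map (MvPolynomial.map iL)) := by
    apply MvPolynomial.ringHom_ext
    · intro c
      rw [RingHom.comp_apply, RingHom.comp_apply, Th_C, map_C, Th_C, MvPolynomial.map_map,
        MvPolynomial.map_map, hj']
    · intro i
      rw [RingHom.comp_apply, RingHom.comp_apply, map_X, Th, eval₂Hom_X', map_C, Th,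
        eval₂Hom_X']
  exact RingHom.congr_fun h P

theorem norm_eval₂_le (e : R →+* ℂ) {s : ℕ} (A : Fin s → ℂ) (hA : ∀ i, ‖A i‖ ≤ 1)
    (p : MvPolynomial (Fin s) R) (ρ : ℝ) (hp : ∀ m, ‖e (coeff m p)‖ ≤ ρ) :
    ‖eval₂ e A p‖ ≤ p.support.card * ρ := by
  rw [eval₂_eq']
  refine (norm_sum_le _ _).trans ?_
  rw [← nsmul_eq_mul]
  refine Finset.sum_le_card_nsmul _ _ _ fun m _ => ?_
  rw [norm_mul]
  have h1 : ‖∏ i, A i ^ m i‖ ≤ 1 := by
    rw [norm_prod]
    refine Finset.prod_le_one (fun i _ => norm_nonneg _) fun i _ => ?_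
    rw [norm_pow]
    exact pow_le_one₀ (norm_nonneg _) (hA i)
  calc ‖e (coeff m p)‖ * ‖∏ i, A i ^ m i‖ ≤ ‖e (coeff m p)‖ * 1 :=
        mul_le_mul_of_nonneg_left h1 (norm_nonneg _)
    _ ≤ ρ := by rw [mul_one]; exact hp m

/-- number of monomials -/
def cc {r s : ℕ} (P : MvPolynomial (Fin r) (MvPolynomial (Fin s) R)) : ℕ :=
  ∑ β ∈ P.support, (coeff β P).support.card

theorem norm_ev_le (e : R →+* ℂ) {r s : ℕ} (A : Fin s → ℂ) (hA : ∀ i, ‖A i‖ ≤ 1)
    (P : MvPolynomial (Fin r) (MvPolynomial (Fin s) R)) (ρ : ℝ)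
    (hP : ∀ β m, ‖e (coeff m (coeff β P))‖ ≤ ρ) (v : Fin r → ℂ) (T : ℝ) (hT : 1 ≤ T)
    (hv : ∀ i, ‖v i‖ ≤ T) (D : ℕ) (hD : P.totalDegree ≤ D) :
    ‖MvPolynomial.eval v (ev e A P)‖ ≤ cc P * ρ * T ^ D := by
  have hρ : 0 ≤ ρ := (norm_nonneg _).trans (hP 0 0)
  rw [ev, eval_map, eval₂_eq']
  refine (norm_sum_le _ _).trans ?_
  rw [cc, Nat.cast_sum, Finset.sum_mul, Finset.sum_mul]
  refine Finset.sum_le_sum fun β hβ => ?_
  rw [norm_mul]
  refine mul_le_mul (norm_eval₂_le e A hA _ ρ (hP β)) ?_ (norm_nonneg _) (by positivity)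
  rw [norm_prod]
  have h1 : ∏ i, ‖v i ^ β i‖ ≤ ∏ i, T ^ β i := by
    refine Finset.prod_le_prod (fun i _ => norm_nonneg _) fun i _ => ?_
    rw [norm_pow]
    exact pow_le_pow_left₀ (norm_nonneg _) (hv i) _
  refine h1.trans ?_
  rw [Finset.prod_pow_eq_pow_sum]
  refine pow_le_pow_right₀ hT (le_trans ?_ hD)
  have := le_totalDegree hβ
  rwa [Finsupp.sum_fintype _ _ (fun _ => rfl)] at this

theorem cc_map {L BL : Type*} [CommRing L] [CommRing BL] (iL : BL →+* L)
    (hiL : Function.Injective iL) {r s : ℕ} (P : MvPolynomial (Fin r) (MvPolynomial (Fin s) BL)) :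
    cc (MvPolynomial.map (MvPolynomial.map iL) P) = cc P := by
  rw [cc, cc, support_map_of_injective _ (map_injective iL hiL)]
  refine Finset.sum_congr rfl fun β _ => ?_
  rw [coeff_map, support_map_of_injective _ hiL]

/-- lifting polynomials along `iL` -/
theorem exists_lift {L BL : Type*} [CommRing L] [CommRing BL] (iL : BL →+* L) {s : ℕ}
    (P : MvPolynomial (Fin s) L) (h : ∀ m, coeff m P ∈ Set.range iL) :
    ∃ P' : MvPolynomial (Fin s) BL, MvPolynomial.map iL P' = P := by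
  have h1 : P ∈ Set.range (MvPolynomial.map (σ := Fin s) iL) := by
    rw [mem_range_map_iff_coeffs_subset]
    intro c hc
    obtain ⟨m, _, rfl⟩ := mem_coeffs_iff.mp hc
    exact h m
  exact h1

theorem exists_lift2 {L BL : Type*} [CommRing L] [CommRing BL] (iL : BL →+* L) {r s : ℕ}
    (P : MvPolynomial (Fin r) (MvPolynomial (Fin s) L))
    (h : ∀ β m, coeff m (coeff β P) ∈ Set.range iL) :
    ∃ P' : MvPolynomial (Fin r) (MvPolynomial (Fin s) BL),
      MvPolynomial.map (MvPolynomial.map iL) P' = P :=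
  exists_lift (MvPolynomial.map iL) P fun β => exists_lift iL (coeff β P) (h β)

end Ev

/-- all coefficients of the coefficients -/
def cfs {L : Type*} [CommRing L] {r s : ℕ} (P : MvPolynomial (Fin r) (MvPolynomial (Fin s) L)) :
    Finset L :=
  letI := Classical.decEq L
  insert 0 (P.support.biUnion fun β => (coeff β P).coeffs)

theorem mem_cfs {L : Type*} [CommRing L] {r s : ℕ}
    (P : MvPolynomial (Fin r) (MvPolynomial (Fin s) L)) (β : Fin r →₀ ℕ) (m : Fin s →₀ ℕ) :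
    coeff m (coeff β P) ∈ cfs P := by
  classical
  rw [cfs]
  by_cases h : coeff m (coeff β P) = 0
  · rw [h]
    exact Finset.mem_insert_self _ _
  · refine Finset.mem_insert_of_mem (Finset.mem_biUnion.mpr ⟨β, ?_, ?_⟩)
    · rw [mem_support_iff]
      intro h0
      exact h (by rw [h0, coeff_zero])
    · exact coeff_mem_coeffs m h

/-- **(NULL)**: bounds uniform in `A ∈ ℂˢ`, polynomial in the size of the base point and of the coordinates -/
theorem null_bound {L K : Type*} [Field L] [Field K] [Algebra L K] [CharZero K]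
    (hac : ∀ x : K, IsAlgebraic L x → x ∈ Set.range (algebraMap L K))
    {r s : ℕ} (y : Fin r → K) (w : Fin s → K)
    (hal : ∀ i, IsAlgebraic (IntermediateField.adjoin L (Set.range y)) (w i))
    (hw : LinearIndependent L w) :
    ∃ (d n : ℕ) (C0 : ℝ) (T : Finset L), 1 ≤ C0 ∧
      ∀ {BL BK : Type*} [CommRing BL] [CommRing BK] (iL : BL →+* L) (iK : BK →+* K)
        (_ : Function.Injective iL) (_ : Function.Injective iK)
        (_ : ∀ l ∈ T, l ∈ Set.range iL) (j : BL →+* BK)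
        (_ : ∀ b, iK (j b) = algebraMap L K (iL b))
        (y' : Fin r → BK) (_ : ∀ i, iK (y' i) = y i) (w' : Fin s → BK) (_ : ∀ i, iK (w' i) = w i)
        (e : BL →+* ℂ) (ρ : ℝ) (_ : 1 ≤ ρ) (_ : ∀ b : BL, iL b ∈ T → ‖e b‖ ≤ ρ)
        (A : Fin s → ℂ) (_ : A ≠ 0), ∃ P : MvPolynomial (Fin r) ℂ,
          (∀ i, P.degreeOf i ≤ d) ∧ (∃ m, ‖A‖ ≤ C0 * ρ ^ n * ‖P.coeff m‖) ∧
          ∀ (χ : BK →+* ℂ) (_ : ∀ b, χ (j b) = e b) (R : ℝ) (_ : 1 ≤ R)
            (_ : ∀ i, ‖χ (y' i)‖ ≤ R) (_ : ∀ i, ‖χ (w' i)‖ ≤ R),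
            ‖MvPolynomial.eval (fun i => χ (y' i)) P‖ ≤
              C0 * (ρ * R) ^ n * ‖∑ i, A i * χ (w' i)‖ := by
  classical
  obtain ⟨q, P, hrel, hnull⟩ := exists_null hac y w hal hw
  choose M Q hQ using hnull
  -- constants
  set D : ℕ := ∑ k ∈ Finset.range (q + 1), (P k).totalDegree with hD
  set c1 : ℝ := ∑ k ∈ Finset.range (q + 1), (cc (P k) : ℝ) * (s : ℝ) ^ k with hc1
  set c2 : ℝ := ∑ i, ∑ β ∈ (Q i).support, ((Q i β).support.card : ℝ) with hc2
  set T : Finset L := ((Finset.range (q + 1)).biUnion fun k => cfs (P k)) ∪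
    (insert 0 (Finset.univ.biUnion fun i => (Q i).support.biUnion fun β => (Q i β).coeffs)) with hT
  have hTP : ∀ k ∈ Finset.range (q + 1), ∀ β m, coeff m (coeff β (P k)) ∈ T := by
    intro k hk β m
    exact Finset.mem_union_left _ (Finset.mem_biUnion.mpr ⟨k, hk, mem_cfs _ _ _⟩)
  have hTQ : ∀ i β m, coeff m (Q i β) ∈ T := by
    intro i β m
    refine Finset.mem_union_right _ ?_
    by_cases h : coeff m (Q i β) = 0
    · rw [h]
      exact Finset.mem_insert_self _ _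
    · refine Finset.mem_insert_of_mem (Finset.mem_biUnion.mpr ⟨i, Finset.mem_univ _,
        Finset.mem_biUnion.mpr ⟨β, ?_, coeff_mem_coeffs m h⟩⟩)
      rw [Finsupp.mem_support_iff]
      intro h0
      exact h (by rw [h0, coeff_zero])
  have hc1' : 0 ≤ c1 := Finset.sum_nonneg fun k _ => by positivity
  have hc2' : 0 ≤ c2 := Finset.sum_nonneg fun k _ => Finset.sum_nonneg fun _ _ => by positivity
  refine ⟨D, D + q + 1, 1 + c1 + c2, T, by linarith, ?_⟩
  intro BL BK _ _ iL iK hiL hiK hTL j hj y' hy' w' hw' e ρ hρ he A hA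
  -- lifts
  have hP'e : ∀ k, ∃ P' : MvPolynomial (Fin r) (MvPolynomial (Fin s) BL),
      k ∈ Finset.range (q + 1) → MvPolynomial.map (MvPolynomial.map iL) P' = P k := by
    intro k
    by_cases hk : k ∈ Finset.range (q + 1)
    · obtain ⟨P', hP'⟩ := exists_lift2 iL (P k) fun β m => hTL _ (hTP k hk β m)
      exact ⟨P', fun _ => hP'⟩
    · exact ⟨0, fun h => absurd h hk⟩
  choose P' hP' using hP'e
  have hQ'e : ∀ i β, ∃ Q' : MvPolynomial (Fin s) BL, MvPolynomial.map iL Q' = Q i β :=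
    fun i β => exists_lift iL (Q i β) fun m => hTL _ (hTQ i β m)
  choose Q' hQ' using hQ'e
  have hdeg : ∀ k ∈ Finset.range (q + 1), (P' k).totalDegree ≤ D := by
    intro k hk
    have h1 : (P' k).totalDegree = (P k).totalDegree := by
      rw [← hP' k hk, totalDegree, totalDegree,
        support_map_of_injective _ (map_injective iL hiL)]
    rw [h1, hD]
    exact Finset.single_le_sum (f := fun k => (P k).totalDegree) (fun _ _ => Nat.zero_le _) hk
  have hcc : ∀ k ∈ Finset.range (q + 1), cc (P' k) = cc (P k) := by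
    intro k hk
    rw [← hP' k hk, cc_map iL hiL]
  have hcoef : ∀ k ∈ Finset.range (q + 1), ∀ β m, ‖e (coeff m (coeff β (P' k)))‖ ≤ ρ := by
    intro k hk β m
    apply he
    have h1 := hTP k hk β m
    rw [← hP' k hk, coeff_map, coeff_map] at h1
    exact h1
  have hcoefQ : ∀ i β m, ‖e (coeff m (Q' i β))‖ ≤ ρ := by
    intro i β m
    apply he
    have h1 := hTQ i β m
    rw [← hQ' i β, coeff_map] at h1
    exact h1
  have h0q : (0 : ℕ) ∈ Finset.range (q + 1) := Finset.mem_range.mpr (Nat.succ_pos q)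
  -- the relation over `BK`
  have hrelB : ∑ k ∈ Finset.range (q + 1), Th j y' (P' k) * (∑ i, X i * C (w' i)) ^ k = 0 := by
    apply map_injective iK hiK
    rw [map_zero, ← hrel, map_sum]
    refine Finset.sum_congr rfl fun k hk => ?_
    rw [map_mul, map_pow, map_sum, map_Th (algebraMap L K) iL iK j hj, hP' k hk]
    have h1 : (fun i => iK (y' i)) = y := funext hy'
    rw [h1]
    congr 2
    exact Finset.sum_congr rfl fun i _ => by rw [map_mul, map_X, map_C, hw' i]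
  -- normalisation
  have hnA : 0 < ‖A‖ := norm_pos_iff.mpr hA
  have hnAc : ((‖A‖ : ℝ) : ℂ) ≠ 0 := Complex.ofReal_ne_zero.mpr hnA.ne'
  set A1 : Fin s → ℂ := fun i => ((‖A‖ : ℝ) : ℂ)⁻¹ * A i with hA1
  have hA1le : ∀ i, ‖A1 i‖ ≤ 1 := by
    intro i
    rw [hA1]
    simp only [norm_mul, norm_inv, Complex.norm_real, norm_norm]
    rw [inv_mul_le_iff₀ hnA, mul_one]
    exact norm_le_pi_norm A i
  obtain ⟨i0, hi0⟩ : ∃ i, ‖A1 i‖ = 1 := by
    by_contra hcon
    push Not at hcon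
    have h1 : ∀ i, ‖A i‖ < ‖A‖ := by
      intro i
      have h2 : ‖A1 i‖ < 1 := lt_of_le_of_ne (hA1le i) (hcon i)
      rw [hA1] at h2
      simp only [norm_mul, norm_inv, Complex.norm_real, norm_norm] at h2
      rwa [inv_mul_lt_iff₀ hnA, mul_one] at h2
    exact absurd ((pi_norm_lt_iff hnA).mpr h1) (lt_irrefl _)
  have hs : 1 ≤ (s : ℝ) := by
    have : 0 < s := Fin.pos i0
    exact_mod_cast this
  refine ⟨C ((‖A‖ : ℝ) : ℂ) * ev e A1 (P' 0), ?_, ?_, ?_⟩
  · intro i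
    refine (degreeOf_C_mul_le _ _ _).trans ?_
    rw [degreeOf_le_iff]
    intro m hm
    have h1 : m ∈ (P' 0).support := support_map_subset _ _ hm
    have h2 := (le_totalDegree h1).trans (hdeg 0 h0q)
    rw [Finsupp.sum_fintype _ _ (fun _ => rfl)] at h2
    exact (Finset.single_le_sum (f := fun i => m i) (fun _ _ => Nat.zero_le _)
      (Finset.mem_univ i)).trans h2
  · -- lower bound of one coefficient
    have h1 : ∑ β ∈ (Q i0).support, Q' i0 β * coeff β (P' 0) = X i0 ^ M i0 := by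
      apply map_injective iL hiL
      rw [map_pow, map_X, ← hQ i0, Finsupp.sum, map_sum]
      refine Finset.sum_congr rfl fun β _ => ?_
      rw [map_mul, hQ' i0 β, ← hP' 0 h0q, coeff_map]
    have h2 : ∑ β ∈ (Q i0).support, eval₂ e A1 (Q' i0 β) * eval₂ e A1 (coeff β (P' 0)) =
        A1 i0 ^ M i0 := by
      have h3 := congrArg (eval₂Hom e A1) h1
      rw [map_sum, map_pow, eval₂Hom_X'] at h3
      rw [← h3]
      exact Finset.sum_congr rfl fun β _ => by rw [map_mul]; rfl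
    have h4 : (1 : ℝ) ≤ ∑ β ∈ (Q i0).support, ((Q i0 β).support.card : ℝ) * ρ *
        ‖eval₂ e A1 (coeff β (P' 0))‖ := by
      calc (1 : ℝ) = ‖A1 i0 ^ M i0‖ := by rw [norm_pow, hi0, one_pow]
        _ ≤ ∑ β ∈ (Q i0).support, ‖eval₂ e A1 (Q' i0 β) * eval₂ e A1 (coeff β (P' 0))‖ := by
          rw [← h2]
          exact norm_sum_le _ _
        _ ≤ _ := by
          refine Finset.sum_le_sum fun β _ => ?_
          rw [norm_mul]
          refine mul_le_mul_of_nonneg_right ?_ (norm_nonneg _)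
          have h5 := norm_eval₂_le e A1 hA1le (Q' i0 β) ρ (hcoefQ i0 β)
          rwa [← support_map_of_injective (Q' i0 β) hiL, hQ' i0 β] at h5
    have hne : (Q i0).support.Nonempty := by
      by_contra hcon
      rw [Finset.not_nonempty_iff_eq_empty] at hcon
      rw [hcon, Finset.sum_empty] at h4
      linarith
    obtain ⟨β, hβ, hmax⟩ := Finset.exists_max_image (Q i0).support
      (fun β => ‖eval₂ e A1 (coeff β (P' 0))‖) hne
    refine ⟨β, ?_⟩
    rw [coeff_C_mul, coeff_ev, norm_mul, Complex.norm_real, norm_norm]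
    have h6 : (1 : ℝ) ≤ c2 * ρ * ‖eval₂ e A1 (coeff β (P' 0))‖ := by
      refine h4.trans ?_
      calc ∑ β ∈ (Q i0).support, ((Q i0 β).support.card : ℝ) * ρ *
            ‖eval₂ e A1 (coeff β (P' 0))‖
          ≤ ∑ β' ∈ (Q i0).support, ((Q i0 β').support.card : ℝ) * ρ *
            ‖eval₂ e A1 (coeff β (P' 0))‖ :=
            Finset.sum_le_sum fun β' hβ' =>
              mul_le_mul_of_nonneg_left (hmax β' hβ') (by positivity)
        _ = (∑ β' ∈ (Q i0).support, ((Q i0 β').support.card : ℝ)) * ρ *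
            ‖eval₂ e A1 (coeff β (P' 0))‖ := by
            rw [Finset.sum_mul, Finset.sum_mul]
        _ ≤ c2 * ρ * ‖eval₂ e A1 (coeff β (P' 0))‖ := by
            refine mul_le_mul_of_nonneg_right (mul_le_mul_of_nonneg_right ?_ (by linarith))
              (norm_nonneg _)
            exact Finset.single_le_sum
              (f := fun i => ∑ β' ∈ (Q i).support, ((Q i β').support.card : ℝ))
              (fun _ _ => Finset.sum_nonneg fun _ _ => by positivity) (Finset.mem_univ i0)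
    have h7 : c2 * ρ ≤ (1 + c1 + c2) * ρ ^ (D + q + 1) := by
      refine mul_le_mul (by linarith) ?_ (by linarith) (by linarith)
      calc ρ = ρ ^ 1 := (pow_one ρ).symm
        _ ≤ ρ ^ (D + q + 1) := pow_le_pow_right₀ hρ (by omega)
    have h8 : (1 : ℝ) ≤ (1 + c1 + c2) * ρ ^ (D + q + 1) *
        ‖eval₂ e A1 (coeff β (P' 0))‖ :=
      h6.trans (mul_le_mul_of_nonneg_right h7 (norm_nonneg _))
    calc ‖A‖ = ‖A‖ * 1 := (mul_one _).symm
      _ ≤ ‖A‖ * ((1 + c1 + c2) * ρ ^ (D + q + 1) * ‖eval₂ e A1 (coeff β (P' 0))‖) :=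
        mul_le_mul_of_nonneg_left h8 hnA.le
      _ = _ := by ring
  · -- the upper bound
    intro χ hχ R hR hyR hwR
    have hχe : χ.comp j = e := RingHom.ext hχ
    set v : Fin r → ℂ := fun i => χ (y' i) with hv
    set b1 : ℂ := ∑ i, A1 i * χ (w' i) with hb1
    have hrelC : ∑ k ∈ Finset.range (q + 1), MvPolynomial.eval v (ev e A1 (P' k)) * b1 ^ k = 0 := by
      have h1 := congrArg (eval₂Hom χ A1) hrelB
      rw [map_zero, map_sum] at h1
      rw [← h1]
      refine Finset.sum_congr rfl fun k _ => ?_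
      rw [map_mul, map_pow, map_sum, coe_eval₂Hom, eval_Th, hχe]
      congr 2
      exact Finset.sum_congr rfl fun i _ => by
        rw [← coe_eval₂Hom, map_mul, eval₂Hom_X', eval₂Hom_C]
    have hb1le : ‖b1‖ ≤ s * R := by
      refine (norm_sum_le _ _).trans ?_
      calc ∑ i, ‖A1 i * χ (w' i)‖ ≤ ∑ _i : Fin s, R := by
            refine Finset.sum_le_sum fun i _ => ?_
            rw [norm_mul]
            calc ‖A1 i‖ * ‖χ (w' i)‖ ≤ 1 * R :=
                  mul_le_mul (hA1le i) (hwR i) (norm_nonneg _) zero_le_one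
              _ = R := one_mul R
        _ = s * R := by simp
    have hbound : ∑ k ∈ Finset.range q, ‖MvPolynomial.eval v (ev e A1 (P' (k + 1)))‖ * ‖b1‖ ^ k ≤
        (1 + c1 + c2) * (ρ * R) ^ (D + q + 1) := by
      calc ∑ k ∈ Finset.range q, ‖MvPolynomial.eval v (ev e A1 (P' (k + 1)))‖ * ‖b1‖ ^ k
          ≤ ∑ k ∈ Finset.range q, ((cc (P (k + 1)) : ℝ) * (s : ℝ) ^ (k + 1)) *
            (ρ * R) ^ (D + q + 1) := by
            refine Finset.sum_le_sum fun k hk => ?_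
            have hk' : k + 1 ∈ Finset.range (q + 1) := by
              rw [Finset.mem_range] at hk ⊢
              omega
            have h1 := norm_ev_le e A1 hA1le (P' (k + 1)) ρ (hcoef _ hk') v R hR hyR D
              (hdeg _ hk')
            rw [hcc _ hk'] at h1
            have h2 : ‖b1‖ ^ k ≤ (s : ℝ) ^ (k + 1) * R ^ k := by
              calc ‖b1‖ ^ k ≤ (s * R) ^ k := pow_le_pow_left₀ (norm_nonneg _) hb1le _
                _ = (s : ℝ) ^ k * R ^ k := mul_pow _ _ _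
                _ ≤ (s : ℝ) ^ (k + 1) * R ^ k :=
                  mul_le_mul_of_nonneg_right (pow_le_pow_right₀ hs (Nat.le_succ k))
                    (by positivity)
            have h3 : ρ * R ^ D * R ^ k ≤ (ρ * R) ^ (D + q + 1) := by
              rw [mul_pow, mul_assoc, ← pow_add]
              refine mul_le_mul ?_ (pow_le_pow_right₀ hR ?_) (by positivity) (by positivity)
              · calc ρ = ρ ^ 1 := (pow_one ρ).symm
                  _ ≤ ρ ^ (D + q + 1) := pow_le_pow_right₀ hρ (by omega)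
              · rw [Finset.mem_range] at hk
                omega
            calc ‖MvPolynomial.eval v (ev e A1 (P' (k + 1)))‖ * ‖b1‖ ^ k
                ≤ ((cc (P (k + 1)) : ℝ) * ρ * R ^ D) * ((s : ℝ) ^ (k + 1) * R ^ k) :=
                  mul_le_mul h1 h2 (by positivity) (by positivity)
              _ = ((cc (P (k + 1)) : ℝ) * (s : ℝ) ^ (k + 1)) * (ρ * R ^ D * R ^ k) := by ring
              _ ≤ _ := mul_le_mul_of_nonneg_left h3 (by positivity)
        _ = (∑ k ∈ Finset.range q, (cc (P (k + 1)) : ℝ) * (s : ℝ) ^ (k + 1)) *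
            (ρ * R) ^ (D + q + 1) := by rw [Finset.sum_mul]
        _ ≤ (1 + c1 + c2) * (ρ * R) ^ (D + q + 1) := by
            refine mul_le_mul_of_nonneg_right ?_ (by positivity)
            have h1 : c1 = (∑ k ∈ Finset.range q, (cc (P (k + 1)) : ℝ) * (s : ℝ) ^ (k + 1)) +
                (cc (P 0) : ℝ) * (s : ℝ) ^ 0 := by
              rw [hc1, Finset.sum_range_succ']
            have h2 : 0 ≤ (cc (P 0) : ℝ) * (s : ℝ) ^ 0 := by positivity
            linarith
    have hlow := SkoB_567.lower_bound q (fun k => MvPolynomial.eval v (ev e A1 (P' k))) b1 hrelC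
      _ hbound
    rw [map_mul, eval_C, norm_mul, Complex.norm_real, norm_norm]
    have hb : ‖∑ i, A i * χ (w' i)‖ = ‖A‖ * ‖b1‖ := by
      have h1 : ∑ i, A i * χ (w' i) = ((‖A‖ : ℝ) : ℂ) * b1 := by
        rw [hb1, Finset.mul_sum]
        refine Finset.sum_congr rfl fun i _ => ?_
        rw [hA1]
        field_simp
      rw [h1, norm_mul, Complex.norm_real, norm_norm]
    rw [hb]
    calc ‖A‖ * ‖MvPolynomial.eval v (ev e A1 (P' 0))‖
        ≤ ‖A‖ * ((1 + c1 + c2) * (ρ * R) ^ (D + q + 1) * ‖b1‖) :=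
          mul_le_mul_of_nonneg_left hlow hnA.le
      _ = _ := by ring

section Int

theorem lintegral_closedBall_scale {r : ℕ} {R : ℝ} (hR : 1 ≤ R) (f : (Fin r → ℂ) → ℝ≥0∞)
    (hf : Measurable f) :
    ∫⁻ η in Metric.closedBall (0 : Fin r → ℂ) R, f η =
      ENNReal.ofReal (R ^ (2 * r)) * ∫⁻ η in Metric.closedBall (0 : Fin r → ℂ) 1, f (R • η) := by
  have hR0 : 0 < R := lt_of_lt_of_le zero_lt_one hR
  set g : (Fin r → ℂ) → ℝ≥0∞ := (Metric.closedBall (0 : Fin r → ℂ) R).indicator f with hg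
  have hgm : Measurable g := hf.indicator Metric.isClosed_closedBall.measurableSet
  have hfr : Module.finrank ℝ (Fin r → ℂ) = 2 * r := by
    rw [Module.finrank_pi_fintype]
    simp [Complex.finrank_real_complex, mul_comm]
  have h1 : ∫⁻ η, g (R • η) = ENNReal.ofReal |(R ^ (2 * r))⁻¹| * ∫⁻ η, g η := by
    have h2 := Measure.map_addHaar_smul (volume : Measure (Fin r → ℂ)) hR0.ne'
    rw [hfr] at h2
    rw [← lintegral_map hgm (measurable_const_smul R), h2, lintegral_smul_measure, smul_eq_mul]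
  have h3 : (fun η : Fin r → ℂ => g (R • η)) =
      (Metric.closedBall (0 : Fin r → ℂ) 1).indicator fun η => f (R • η) := by
    funext η
    rw [hg]
    by_cases h : η ∈ Metric.closedBall (0 : Fin r → ℂ) 1
    · rw [Set.indicator_of_mem h, Set.indicator_of_mem]
      rw [mem_closedBall_zero_iff] at h ⊢
      rw [norm_smul, Real.norm_of_nonneg hR0.le]
      nlinarith
    · rw [Set.indicator_of_notMem h, Set.indicator_of_notMem]
      rw [mem_closedBall_zero_iff] at h ⊢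
      rw [norm_smul, Real.norm_of_nonneg hR0.le]
      intro h'
      apply h
      by_contra hcon
      push Not at hcon
      nlinarith
  rw [h3, lintegral_indicator Metric.isClosed_closedBall.measurableSet, hg,
    lintegral_indicator Metric.isClosed_closedBall.measurableSet] at h1
  rw [h1, ← mul_assoc, ← ENNReal.ofReal_mul (by positivity), abs_of_pos (by positivity),
    mul_inv_cancel₀ (by positivity), ENNReal.ofReal_one, one_mul]

/-- rescaled polynomial `P (R ·)` -/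
def scl (R : ℝ) {r : ℕ} (P : MvPolynomial (Fin r) ℂ) : MvPolynomial (Fin r) ℂ :=
  ∑ m ∈ P.support, monomial m (((R ^ m.degree : ℝ) : ℂ) * coeff m P)

theorem coeff_scl (R : ℝ) {r : ℕ} (P : MvPolynomial (Fin r) ℂ) (m : Fin r →₀ ℕ) :
    coeff m (scl R P) = ((R ^ m.degree : ℝ) : ℂ) * coeff m P := by
  classical
  rw [scl, coeff_sum]
  by_cases h : m ∈ P.support
  · rw [Finset.sum_eq_single m]
    · rw [coeff_monomial, if_pos rfl]
    · intro m' _ hne
      rw [coeff_monomial, if_neg hne]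
    · intro h'
      exact absurd h h'
  · rw [notMem_support_iff.mp h, mul_zero]
    refine Finset.sum_eq_zero fun m' hm' => ?_
    rw [coeff_monomial, if_neg]
    rintro rfl
    exact h hm'

theorem eval_scl (R : ℝ) {r : ℕ} (P : MvPolynomial (Fin r) ℂ) (η : Fin r → ℂ) :
    MvPolynomial.eval η (scl R P) = MvPolynomial.eval (R • η) P := by
  rw [scl, map_sum, MvPolynomial.eval_eq' (R • η) P]
  refine Finset.sum_congr rfl fun m _ => ?_
  rw [eval_monomial, Finsupp.prod_fintype _ _ (fun i => pow_zero _)]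
  have h1 : ∏ i, (R • η) i ^ m i = ((R ^ m.degree : ℝ) : ℂ) * ∏ i, η i ^ m i := by
    have h2 : ∀ i, (R • η) i ^ m i = ((R : ℂ) ^ m i) * η i ^ m i := by
      intro i
      rw [Pi.smul_apply, Complex.real_smul, mul_pow]
    rw [Finset.prod_congr rfl fun i _ => h2 i, Finset.prod_mul_distrib,
      Finset.prod_pow_eq_pow_sum, Finsupp.degree_eq_sum]
    push_cast
    rfl
  rw [h1]
  ring

theorem int_poly (r d : ℕ) (p : ℝ) (hp : 0 ≤ p) (hpd : p * d < 2) : ∃ c : ℝ, 1 ≤ c ∧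
    ∀ P : MvPolynomial (Fin r) ℂ, (∀ i, P.degreeOf i ≤ d) → ∀ m, ∀ R : ℝ, 1 ≤ R →
      ∫⁻ η in Metric.closedBall (0 : Fin r → ℂ) R, ‖MvPolynomial.eval η P‖ₑ ^ (-p) ≤
        ENNReal.ofReal (c * R ^ (2 * r)) * ‖MvPolynomial.coeff m P‖ₑ ^ (-p) := by
  obtain ⟨c, hc, h⟩ := SkoA_567.sko r d p 1 hp hpd
  refine ⟨1 + c.toReal, by linarith [ENNReal.toReal_nonneg (a := c)], ?_⟩
  intro P hP m R hR
  have hR0 : 0 < R := lt_of_lt_of_le zero_lt_one hR
  rw [lintegral_closedBall_scale hR _ ((SkoA_567.measurable_eval P).enorm.pow_const _)]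
  have h1 := h (scl R P) (fun i => by
    rw [degreeOf_le_iff]
    intro m' hm'
    refine degreeOf_le_iff.mp (hP i) m' ?_
    rw [mem_support_iff] at hm' ⊢
    intro h0
    exact hm' (by rw [coeff_scl, h0, mul_zero])) m
  simp only [eval_scl] at h1
  have h2 : ‖coeff m (scl R P)‖ₑ ^ (-p) ≤ ‖coeff m P‖ₑ ^ (-p) := by
    rw [ENNReal.rpow_neg, ENNReal.rpow_neg]
    refine ENNReal.inv_le_inv.mpr (ENNReal.rpow_le_rpow ?_ hp)
    rw [coeff_scl, enorm_mul]
    have h3 : (1 : ℝ≥0∞) ≤ ‖((R ^ m.degree : ℝ) : ℂ)‖ₑ := by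
      rw [← ofReal_norm, Complex.norm_real, Real.norm_of_nonneg (by positivity)]
      rw [← ENNReal.ofReal_one]
      exact ENNReal.ofReal_le_ofReal (one_le_pow₀ hR)
    calc ‖coeff m P‖ₑ = 1 * ‖coeff m P‖ₑ := (one_mul _).symm
      _ ≤ _ := mul_le_mul' h3 le_rfl
  calc ENNReal.ofReal (R ^ (2 * r)) *
        ∫⁻ η in Metric.closedBall (0 : Fin r → ℂ) 1, ‖MvPolynomial.eval (R • η) P‖ₑ ^ (-p)
      ≤ ENNReal.ofReal (R ^ (2 * r)) * (c * ‖coeff m P‖ₑ ^ (-p)) :=
        mul_le_mul' le_rfl (h1.trans (mul_le_mul' le_rfl h2))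
    _ = (c * ENNReal.ofReal (R ^ (2 * r))) * ‖coeff m P‖ₑ ^ (-p) := by ring
    _ ≤ ENNReal.ofReal ((1 + c.toReal) * R ^ (2 * r)) * ‖coeff m P‖ₑ ^ (-p) := by
        refine mul_le_mul' ?_ le_rfl
        rw [ENNReal.ofReal_mul (by positivity)]
        refine mul_le_mul' ?_ le_rfl
        rw [ENNReal.ofReal_add zero_le_one ENNReal.toReal_nonneg, ENNReal.ofReal_toReal hc.ne]
        exact le_add_self

/-- **(INT)** for the polynomials of `null_bound` -/
theorem int_null (r d n : ℕ) (C0 : ℝ) (hC0 : 1 ≤ C0) (p : ℝ) (hp : 0 ≤ p) (hpd : p * d < 2) :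
    ∃ (C1 : ℝ) (n1 : ℕ), 1 ≤ C1 ∧ ∀ (s : ℕ) (A : Fin s → ℂ) (ρ R : ℝ) (_ : 1 ≤ ρ) (_ : 1 ≤ R)
      (P : MvPolynomial (Fin r) ℂ) (_ : ∀ i, P.degreeOf i ≤ d)
      (_ : ∃ m, ‖A‖ ≤ C0 * ρ ^ n * ‖P.coeff m‖),
      ∫⁻ η in Metric.closedBall (0 : Fin r → ℂ) R,
        ENNReal.ofReal (C0 * (ρ * R) ^ n) ^ p * ‖MvPolynomial.eval η P‖ₑ ^ (-p) ≤
        ENNReal.ofReal (C1 * (ρ * R) ^ n1) * ‖A‖ₑ ^ (-p) := by
  obtain ⟨c, hc, h⟩ := int_poly r d p hp hpd
  set k : ℕ := ⌈p⌉₊ with hk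
  have hpk : p ≤ k := Nat.le_ceil p
  refine ⟨c * C0 ^ (2 * k), 2 * r + 2 * n * k, ?_, ?_⟩
  · exact one_le_mul_of_one_le_of_one_le hc (one_le_pow₀ hC0)
  intro s A ρ R hρ hR P hP hm
  obtain ⟨m, hm⟩ := hm
  have hρR : 1 ≤ ρ * R := one_le_mul_of_one_le_of_one_le hρ hR
  have hc0 : 0 < C0 := by linarith
  have hρ0 : 0 < ρ := by linarith
  rw [lintegral_const_mul _ ((SkoA_567.measurable_eval P).enorm.pow_const _)]
  have h1 := h P hP m R hR
  have h2 : ‖coeff m P‖ₑ ^ (-p) ≤ ENNReal.ofReal (C0 * ρ ^ n) ^ p * ‖A‖ₑ ^ (-p) := by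
    have h3 : ‖A‖ₑ ≤ ENNReal.ofReal (C0 * ρ ^ n) * ‖coeff m P‖ₑ := by
      rw [← ofReal_norm, ← ofReal_norm, ← ENNReal.ofReal_mul (by positivity)]
      exact ENNReal.ofReal_le_ofReal hm
    have h4 : ENNReal.ofReal (C0 * ρ ^ n) ≠ 0 := by
      rw [Ne, ENNReal.ofReal_eq_zero, not_le]
      positivity
    have h5 : (ENNReal.ofReal (C0 * ρ ^ n) * ‖coeff m P‖ₑ) ^ (-p) ≤ ‖A‖ₑ ^ (-p) := by
      rw [ENNReal.rpow_neg, ENNReal.rpow_neg]
      exact ENNReal.inv_le_inv.mpr (ENNReal.rpow_le_rpow h3 hp)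
    rw [ENNReal.mul_rpow_of_ne_top ENNReal.ofReal_ne_top enorm_ne_top] at h5
    have h6 : ENNReal.ofReal (C0 * ρ ^ n) ^ p * ENNReal.ofReal (C0 * ρ ^ n) ^ (-p) = 1 := by
      rw [← ENNReal.rpow_add _ _ h4 ENNReal.ofReal_ne_top, add_neg_cancel, ENNReal.rpow_zero]
    calc ‖coeff m P‖ₑ ^ (-p) = ENNReal.ofReal (C0 * ρ ^ n) ^ p *
          (ENNReal.ofReal (C0 * ρ ^ n) ^ (-p) * ‖coeff m P‖ₑ ^ (-p)) := by
          rw [← mul_assoc, h6, one_mul]
      _ ≤ _ := mul_le_mul' le_rfl h5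
  have hpow : ∀ x : ℝ, 1 ≤ x → ENNReal.ofReal x ^ p ≤ ENNReal.ofReal (x ^ k) := by
    intro x hx
    have h1 : (1 : ℝ≥0∞) ≤ ENNReal.ofReal x := by
      rw [← ENNReal.ofReal_one]
      exact ENNReal.ofReal_le_ofReal hx
    calc ENNReal.ofReal x ^ p ≤ ENNReal.ofReal x ^ (k : ℝ) := ENNReal.rpow_le_rpow_of_exponent_le h1 hpk
      _ = ENNReal.ofReal (x ^ k) := by
        rw [ENNReal.rpow_natCast, ENNReal.ofReal_pow (by linarith)]
  have h7 : ENNReal.ofReal (C0 * (ρ * R) ^ n) ^ p ≤ ENNReal.ofReal ((C0 * (ρ * R) ^ n) ^ k) :=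
    hpow _ (one_le_mul_of_one_le_of_one_le hC0 (one_le_pow₀ hρR))
  have h8 : ENNReal.ofReal (C0 * ρ ^ n) ^ p ≤ ENNReal.ofReal ((C0 * (ρ * R) ^ n) ^ k) := by
    refine (hpow _ (one_le_mul_of_one_le_of_one_le hC0 (one_le_pow₀ hρ))).trans ?_
    refine ENNReal.ofReal_le_ofReal (pow_le_pow_left₀ (by positivity) ?_ _)
    refine mul_le_mul_of_nonneg_left (pow_le_pow_left₀ hρ0.le ?_ _) hc0.le
    nlinarith
  have h9 : ENNReal.ofReal (c * R ^ (2 * r)) ≤ ENNReal.ofReal (c * (ρ * R) ^ (2 * r)) := by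
    refine ENNReal.ofReal_le_ofReal (mul_le_mul_of_nonneg_left
      (pow_le_pow_left₀ (by linarith) ?_ _) (by linarith))
    nlinarith
  calc ENNReal.ofReal (C0 * (ρ * R) ^ n) ^ p *
        ∫⁻ η in Metric.closedBall (0 : Fin r → ℂ) R, ‖MvPolynomial.eval η P‖ₑ ^ (-p)
      ≤ ENNReal.ofReal (C0 * (ρ * R) ^ n) ^ p * (ENNReal.ofReal (c * R ^ (2 * r)) *
          (ENNReal.ofReal (C0 * ρ ^ n) ^ p * ‖A‖ₑ ^ (-p))) :=
        mul_le_mul' le_rfl (h1.trans (mul_le_mul' le_rfl h2))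
    _ ≤ ENNReal.ofReal ((C0 * (ρ * R) ^ n) ^ k) * (ENNReal.ofReal (c * (ρ * R) ^ (2 * r)) *
          (ENNReal.ofReal ((C0 * (ρ * R) ^ n) ^ k) * ‖A‖ₑ ^ (-p))) :=
        mul_le_mul' h7 (mul_le_mul' h9 (mul_le_mul' h8 le_rfl))
    _ = ENNReal.ofReal (c * C0 ^ (2 * k) * (ρ * R) ^ (2 * r + 2 * n * k)) * ‖A‖ₑ ^ (-p) := by
        rw [← mul_assoc, ← mul_assoc, ← ENNReal.ofReal_mul (by positivity),
          ← ENNReal.ofReal_mul (by positivity)]
        congr 2
        rw [mul_pow, ← pow_mul, pow_add, two_mul k, pow_add]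
        ring

end Int

end Crest.Agent.R276.SkoD_317
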