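import Mathlib
import Crest.Agent.R276.SkoM_845
import Crest.Agent.R276.SkoD_317
import Crest.Agent.R276.FibI_448
import Crest.Agent.R276.IntF_448
import Crest.Agent.R276.CmpA_595
import Crest.Agent.R276.SkoN_845

/-!
# SKO (row 276), part Q (helper425): the estimate on one piece

* `open_at` : `(q, y)` is open where the Jacobian of `y` does not vanish;
* `mult` : the fibres of `(q, y)` have at most `[K : L(y)]` points with nonvanishing Jacobian, for EVERY relative
  model and EVERY point of the base;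
* `exists_pe` : the piece estimate `SkoM_845.PE`.
-/

set_option autoImplicit false

open Topology Filter MeasureTheory
open scoped ENNReal

noncomputable section

namespace Crest.Agent.R276.SkoQ_425

open Crest.Agent.R271.Defs710 Crest.Agent.R271.Ho51 Crest.Agent.R271.Alg255 Crest.Agent.R271.Rd692
open Crest.Agent.R271
open Crest.Agent.R276.Mod1_987 Crest.Agent.R276.FKDefs_779 Crest.Agent.R276.SkoM_845
open Crest.Agent.R276.IntA_448 Crest.Agent.R276.IntE_448 Crest.Agent.R276.Area_448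

/-! ### degree -/

section deg

variable {L K : Type} [Field L] [Field K] [Algebra L K] {r : ℕ}

/-- existence of the polynomial of `deg_bound`, with the degree -/
theorem exists_poly_deg {y : Fin r → K}
    [FiniteDimensional (IntermediateField.adjoin L (Set.range y)) K] (b : K) :
    ∃ P : Polynomial (MvPolynomial (Fin r) L), P ≠ 0 ∧
      P.natDegree ≤ Module.finrank (IntermediateField.adjoin L (Set.range y)) K ∧
      Polynomial.eval₂ (MvPolynomial.aeval y : MvPolynomial (Fin r) L →ₐ[L] K).toRingHom b P = 0 := by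
  classical
  set p := minpoly (IntermediateField.adjoin L (Set.range y)) b with hpdef
  have hint : IsIntegral (IntermediateField.adjoin L (Set.range y)) b :=
    Algebra.IsIntegral.isIntegral b
  have hp0 : p ≠ 0 := minpoly.ne_zero hint
  have hp : Polynomial.aeval b p = 0 := minpoly.aeval _ _
  have hpd : p.natDegree ≤ Module.finrank (IntermediateField.adjoin L (Set.range y)) K :=
    minpoly.natDegree_le b
  -- clear denominators
  have hmem : ∀ n, ∃ a c : MvPolynomial (Fin r) L, MvPolynomial.aeval y c ≠ 0 ∧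
      ((p.coeff n : IntermediateField.adjoin L (Set.range y)) : K) * MvPolynomial.aeval y c =
        MvPolynomial.aeval y a := by
    intro n
    have h1 := (p.coeff n).2
    rw [IntermediateField.mem_adjoin_range_iff] at h1
    obtain ⟨a, c, hac⟩ := h1
    by_cases hc : MvPolynomial.aeval y c = 0
    · refine ⟨0, 1, by simp, ?_⟩
      rw [hac, hc]
      simp
    · refine ⟨a, c, hc, ?_⟩
      rw [hac]
      field_simp
  choose a c hc hac using hmem
  set s := p.support with hs
  set d : MvPolynomial (Fin r) L := ∏ n ∈ s, c n with hd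
  have hdne : MvPolynomial.aeval y d ≠ 0 := by
    rw [hd, map_prod]
    exact Finset.prod_ne_zero_iff.2 fun n _ => hc n
  set e : ℕ → MvPolynomial (Fin r) L := fun n => a n * ∏ m ∈ s.erase n, c m with he
  have hen : ∀ n ∈ s, MvPolynomial.aeval y (e n) =
      ((p.coeff n : IntermediateField.adjoin L (Set.range y)) : K) * MvPolynomial.aeval y d := by
    intro n hn
    rw [he, hd, ← Finset.mul_prod_erase s c hn]
    simp only [map_mul]
    rw [← hac n]
    ring
  set P : Polynomial (MvPolynomial (Fin r) L) := ∑ n ∈ s, Polynomial.monomial n (e n) with hP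
  have hPc : ∀ n ∈ s, P.coeff n = e n := by
    intro n hn
    rw [hP, Polynomial.finsetSum_coeff, Finset.sum_eq_single n]
    · rw [Polynomial.coeff_monomial, if_pos rfl]
    · intro m _ hmn
      rw [Polynomial.coeff_monomial, if_neg hmn]
    · intro h
      exact absurd hn h
  refine ⟨P, ?_, ?_, ?_⟩
  · intro h0
    obtain ⟨n, hn⟩ : s.Nonempty := by
      rw [hs]
      exact Polynomial.nonempty_support_iff.2 hp0
    have h1 := hen n hn
    rw [← hPc n hn, h0, Polynomial.coeff_zero, map_zero] at h1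
    have h2 : p.coeff n ≠ 0 := by
      rw [hs, Polynomial.mem_support_iff] at hn
      exact hn
    have h3 : ((p.coeff n : IntermediateField.adjoin L (Set.range y)) : K) ≠ 0 := by
      intro h
      apply h2
      exact_mod_cast h
    exact (mul_ne_zero h3 hdne) h1.symm
  · refine le_trans ?_ hpd
    rw [hP]
    apply Polynomial.natDegree_sum_le_of_forall_le
    intro n hn
    exact (Polynomial.natDegree_monomial_le _).trans (Polynomial.le_natDegree_of_mem_supp n hn)
  · rw [hP, Polynomial.eval₂_finsetSum]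
    have h1 : ∀ n ∈ s, Polynomial.eval₂ (MvPolynomial.aeval y : MvPolynomial (Fin r) L →ₐ[L] K).toRingHom b
        (Polynomial.monomial n (e n)) =
        (((p.coeff n : IntermediateField.adjoin L (Set.range y)) : K) * b ^ n) * MvPolynomial.aeval y d := by
      intro n hn
      rw [Polynomial.eval₂_monomial]
      have := hen n hn
      simp only [AlgHom.toRingHom_eq_coe, RingHom.coe_coe]
      rw [this]
      ring
    rw [Finset.sum_congr rfl h1, ← Finset.sum_mul]
    have h2 : ∑ n ∈ s, ((p.coeff n : IntermediateField.adjoin L (Set.range y)) : K) * b ^ n = 0 := by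
      rw [Polynomial.aeval_def, Polynomial.eval₂_eq_sum, Polynomial.sum_def] at hp
      exact hp
    rw [h2, zero_mul]

/-- the coefficients can be taken in the coordinate ring of a model of `L` -/
theorem exists_poly_mdl [Algebra ℂ L] {m : ℕ} (M : Mdl L m) {y : Fin r → K}
    [FiniteDimensional (IntermediateField.adjoin L (Set.range y)) K] (b : K) :
    ∃ P : Polynomial (MvPolynomial (Fin r) M.B), P ≠ 0 ∧
      P.natDegree ≤ Module.finrank (IntermediateField.adjoin L (Set.range y)) K ∧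
      Polynomial.eval₂ ((MvPolynomial.aeval y : MvPolynomial (Fin r) L →ₐ[L] K).toRingHom.comp
        (MvPolynomial.map (M.B.val : M.B →+* L))) b P = 0 := by
  classical
  obtain ⟨P1, hP1, hdeg, heval⟩ := exists_poly_deg (L := L) (y := y) b
  obtain ⟨c, hc, hden⟩ := SkoN_845.exists_den M (GroUpC_845.cofs P1)
  have hc' : (c : L) ≠ 0 := fun h0 => hc (Subtype.ext h0)
  set P2 : Polynomial (MvPolynomial (Fin r) L) :=
    Polynomial.C (MvPolynomial.C (c : L)) * P1 with hP2
  have hP2ne : P2 ≠ 0 := by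
    rw [hP2]
    refine mul_ne_zero ?_ hP1
    rw [Ne, Polynomial.C_eq_zero, MvPolynomial.C_eq_zero]
    exact hc'
  obtain ⟨P0, hP0⟩ := GroUpC_845.exists_lift (M.B.val : M.B →+* L) P2 (by
    intro a ha
    simp only [GroUpC_845.cofs, Finset.mem_biUnion] at ha
    obtain ⟨n, _, ha⟩ := ha
    rw [MvPolynomial.mem_coeffs_iff] at ha
    obtain ⟨k, hk, hak⟩ := ha
    have h1 : a = (c : L) * MvPolynomial.coeff k (P1.coeff n) := by
      rw [hak, hP2, Polynomial.coeff_C_mul, MvPolynomial.coeff_C_mul]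
    have h2 : MvPolynomial.coeff k (P1.coeff n) ∈ GroUpC_845.cofs P1 := by
      apply GroUpC_845.mem_cofs (n := n)
      apply MvPolynomial.coeff_mem_coeffs
      intro h0
      rw [MvPolynomial.mem_support_iff, hP2, Polynomial.coeff_C_mul, MvPolynomial.coeff_C_mul,
        h0, mul_zero] at hk
      exact hk rfl
    have h3 := hden _ h2
    rw [mul_comm] at h3
    exact ⟨⟨_, h3⟩, h1.symm⟩)
  have hinj : Function.Injective (MvPolynomial.map (M.B.val : M.B →+* L) :
      MvPolynomial (Fin r) M.B →+* MvPolynomial (Fin r) L) :=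
    MvPolynomial.map_injective _ Subtype.val_injective
  refine ⟨P0, ?_, ?_, ?_⟩
  · rintro rfl
    rw [Polynomial.map_zero] at hP0
    exact hP2ne hP0.symm
  · rw [← Polynomial.natDegree_map_eq_of_injective hinj P0, hP0, hP2]
    exact (Polynomial.natDegree_C_mul_le _ _).trans hdeg
  · rw [← Polynomial.eval₂_map, hP0, hP2, Polynomial.eval₂_mul, heval, mul_zero]

end deg

/-! ### separation of points -/

/-- finitely many points are separated by one function -/
theorem exists_sep {B : Type} [CommRing B] [Algebra ℂ B] (S : Finset (B →ₐ[ℂ] ℂ)) :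
    ∃ b : B, Set.InjOn (fun x : B →ₐ[ℂ] ℂ => x b) (S : Set (B →ₐ[ℂ] ℂ)) := by
  classical
  set s : Finset (Subspace ℂ B) := S.offDiag.image
    (fun p => LinearMap.ker (p.1.toLinearMap - p.2.toLinearMap)) with hs
  have htop : (⊤ : Subspace ℂ B) ∉ s := by
    intro h
    obtain ⟨p, hp, hp'⟩ := Finset.mem_image.1 h
    rw [Finset.mem_offDiag] at hp
    apply hp.2.2
    apply AlgHom.ext
    intro b
    have h1 : b ∈ LinearMap.ker (p.1.toLinearMap - p.2.toLinearMap) := by
      rw [hp']; trivial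
    rw [LinearMap.mem_ker, LinearMap.sub_apply, sub_eq_zero] at h1
    exact h1
  have h1 := Subspace.biUnion_ne_univ_of_top_notMem htop
  obtain ⟨b, hb⟩ := (Set.ne_univ_iff_exists_notMem _).1 h1
  refine ⟨b, fun x hx x' hx' hxx => ?_⟩
  by_contra hne
  apply hb
  simp only [Set.mem_iUnion]
  refine ⟨LinearMap.ker (x.toLinearMap - x'.toLinearMap), Finset.mem_image.2
    ⟨(x, x'), Finset.mem_offDiag.2 ⟨hx, hx', hne⟩, rfl⟩, ?_⟩
  change b ∈ LinearMap.ker (x.toLinearMap - x'.toLinearMap)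
  rw [LinearMap.mem_ker, LinearMap.sub_apply, sub_eq_zero]
  exact hxx

/-! ### density -/

lemma dense_eval_ne {n : ℕ} {p : MvPolynomial (Fin n) ℂ} (hp : p ≠ 0) :
    Dense {ζ : Fin n → ℂ | MvPolynomial.eval ζ p ≠ 0} :=
  Measure.dense_of_ae (μ := volume) (Null956.ae_eval_ne hp)

/-- a nonzero function on a model does not vanish at some point of every nonempty open set -/
lemma exists_ne_near {L : Type} [Field L] [Algebra ℂ L] {m : ℕ} (M : Mdl L m) {a : M.B}
    (ha : a ≠ 0) (w : M.Pts) {W : Set M.Pts} (hW : W ∈ 𝓝 w) : ∃ w' ∈ W, w' a ≠ 0 := by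
  obtain ⟨p, hp, hdvd⟩ := IntC_448.exists_dvd M ha
  have hlh : IsLocalHomeomorph M.pz := isLocalHomeomorph_pr M.hch
  have h1 : M.pz '' W ∈ 𝓝 (M.pz w) := by
    have := hlh.isOpenMap.image_mem_nhds hW
    exact this
  obtain ⟨ζ, hζ1, hζ2⟩ := (dense_eval_ne hp).inter_nhds_nonempty h1
  obtain ⟨w', hw', rfl⟩ := hζ2
  refine ⟨w', hw', fun h0 => hζ1 ?_⟩
  obtain ⟨c, hc⟩ := hdvd
  have h2 : w' (az M.z p) = MvPolynomial.eval (M.pz w') p := M.apply_az' w' p
  rw [← h2, hc, map_mul, h0, zero_mul]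

lemma exists_near {L : Type} [Field L] [Algebra ℂ L] {m r : ℕ} (M : Mdl L m)
    {c : MvPolynomial (Fin r) M.B} (hc : c ≠ 0) (w : M.Pts) (η : Fin r → ℂ)
    {W : Set (M.Pts × (Fin r → ℂ))} (hW : W ∈ 𝓝 (w, η)) :
    ∃ p ∈ W, MvPolynomial.eval₂ (p.1 : M.B →+* ℂ) p.2 c ≠ 0 := by
  obtain ⟨W1, hW1, W2, hW2, hWW⟩ := mem_nhds_prod_iff.1 hW
  obtain ⟨k, hk⟩ : ∃ k, MvPolynomial.coeff k c ≠ 0 := by
    by_contra h
    push Not at h
    exact hc (MvPolynomial.ext _ _ fun k => by rw [h k, MvPolynomial.coeff_zero])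
  obtain ⟨w', hw', hne⟩ := exists_ne_near M hk w hW1
  have h1 : MvPolynomial.map (w' : M.B →+* ℂ) c ≠ 0 := by
    intro h0
    apply hne
    have h2 := congrArg (MvPolynomial.coeff k) h0
    rw [MvPolynomial.coeff_map, MvPolynomial.coeff_zero] at h2
    exact h2
  obtain ⟨η', hη1, hη2⟩ := (dense_eval_ne h1).inter_nhds_nonempty hW2
  refine ⟨(w', η'), hWW ⟨hw', hη2⟩, ?_⟩
  rw [Set.mem_ofPred_eq, MvPolynomial.eval_map] at hη1
  exact hη1

/-! ### openness -/

section rel

variable {L K : Type} [Field L] [Field K] [Algebra ℂ L] [Algebra ℂ K] [Algebra L K]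
  [IsScalarTower ℂ L K] {m r : ℕ}

/-- the map `(q, y)` is open at the points where the Jacobian of `y` does not vanish -/
theorem open_at (R : RMdl L K m r) {bas : Module.Basis (Fin r) K (Ω[K⁄L])} (hR : Compat bas R)
    (yB : Fin r → R.MK.B) {J : R.MK.B} (hJ : (J : K) = jac L bas (fun l => (yB l : K)))
    (x : R.MK.Pts) (hx : x J ≠ 0) {U : Set R.MK.Pts} (hU : U ∈ 𝓝 x) :
    (fun v : R.MK.Pts => (R.q v, fun l => v (yB l))) '' U ∈ 𝓝 (R.q x, fun l => x (yB l)) := by
  classical
  obtain ⟨B, hB⟩ := FK1_779.exists_basis_of_transc (k := ℂ) (fun i => (R.MK.z i : K))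
    (IntC_448.isTranscendenceBasis R.MK)
  obtain ⟨D, hD⟩ := Bd741.exists_coord_deriv R.MK.z R.MK.het
  set G : R.MK.Pts → R.ML.Pts × (Fin r → ℂ) := fun v => (R.q v, fun l => v (yB l)) with hG
  have hGc : Continuous G :=
    R.continuous_q.prodMk (continuous_pi fun l => continuous_ev _)
  set Y : Fin (m + r) → R.MK.B := Fin.append (fun i => R.MK.z (Fin.castAdd r i)) yB with hY
  have hsd := IntA_448.sd_ev R.MK.het D hD Y
  have hdet : (qd D Y x).det ≠ 0 := by
    rw [qd_det]
    have h1 : jd D Y = J := by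
      apply Subtype.ext
      rw [coe_jd R.MK D hD B hB, hJ]
      have h2 : (fun i => (Y i : K)) =
          Fin.append (fun i => algebraMap L K (R.ML.zK i)) (fun l => (yB l : K)) := by
        funext i
        refine Fin.addCases (fun i => ?_) (fun j => ?_) i
        · rw [hY, Fin.append_left, Fin.append_left]
          exact R.z_eq i
        · rw [hY, Fin.append_right, Fin.append_right]
      rw [h2]
      exact IntF_448.jac_append (fun i => R.ML.zK i) R.z_eq B hB bas hR _
    rwa [h1]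
  -- `F = (z_L, y)` is open at `x`
  set F : R.MK.Pts → (Fin (m + r) → ℂ) := fun v i => v (Y i) with hF
  have hFG : ∀ v, F v = R.pL (G v) := by
    intro v
    funext i
    refine Fin.addCases (fun i => ?_) (fun j => ?_) i
    · simp only [hF, hY, hG, RMdl.pL, Fin.append_left]
      exact (R.pz_q v i).symm
    · simp only [hF, hY, hG, RMdl.pL, Fin.append_right]
  have hFx : map F (𝓝 x) = 𝓝 (F x) := by
    let e' := (qd D Y x).toContinuousLinearEquivOfDetNeZero hdet
    have he' : (e' : (Fin (m + r) → ℂ) →L[ℂ] (Fin (m + r) → ℂ)) = qd D Y x :=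
      ContinuousLinearMap.coe_toContinuousLinearEquivOfDetNeZero _ _
    have hd : HasStrictFDerivAt (F ∘ (ch (M := R.MK.B →ₐ[ℂ] ℂ) x).symm)
        (e' : (Fin (m + r) → ℂ) →L[ℂ] (Fin (m + r) → ℂ)) (cp x) := by
      rw [he']; exact hsd x
    have h1 := hd.map_nhds_eq_of_equiv
    have h2 : (ch (M := R.MK.B →ₐ[ℂ] ℂ) x).symm (cp x) = x := by
      have h3 := (ch (M := R.MK.B →ₐ[ℂ] ℂ) x).left_inv (mem_ch x)
      rwa [isCh_ch x] at h3
    have h4 : cp x ∈ (ch (M := R.MK.B →ₐ[ℂ] ℂ) x).symm.source := by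
      have h5 := (ch (M := R.MK.B →ₐ[ℂ] ℂ) x).map_source (mem_ch x)
      rwa [isCh_ch x] at h5
    have h6 := (ch (M := R.MK.B →ₐ[ℂ] ℂ) x).symm.map_nhds_eq h4
    rw [h2] at h6
    rw [← Filter.map_map, h6, Function.comp_apply, h2] at h1
    exact h1
  obtain ⟨e, heG, heq⟩ := R.isLocalHomeomorph_pL (G x)
  have hU' : U ∩ G ⁻¹' e.source ∈ 𝓝 x :=
    inter_mem hU (hGc.continuousAt.preimage_mem_nhds (e.open_source.mem_nhds heG))
  have h1 : F '' (U ∩ G ⁻¹' e.source) ∈ 𝓝 (F x) := by
    rw [← hFx]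
    exact image_mem_map hU'
  rw [hFG x] at h1
  have h2 : R.pL ⁻¹' (F '' (U ∩ G ⁻¹' e.source)) ∩ e.source ∈ 𝓝 (G x) :=
    inter_mem (R.continuous_pL.continuousAt.preimage_mem_nhds h1) (e.open_source.mem_nhds heG)
  refine mem_of_superset h2 ?_
  rintro p ⟨⟨v, ⟨hv1, hv2⟩, hv3⟩, hp⟩
  refine ⟨v, hv1, ?_⟩
  rw [hFG v] at hv3
  apply e.injOn hv2 hp
  rw [← heq]
  exact hv3

/-- **multiplicity**: for every relative model and every point `w` of the base, `y` takes every value at most
`[K : L(y)]` times at points of the fibre with nonvanishing Jacobian -/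
theorem mult {bas : Module.Basis (Fin r) K (Ω[K⁄L])} {y : Fin r → K}
    [FiniteDimensional (IntermediateField.adjoin L (Set.range y)) K] (R : RMdl L K m r)
    (hR : Compat bas R) (yB : Fin r → R.MK.B) (hy : ∀ l, (yB l : K) = y l) {J : R.MK.B}
    (hJ : (J : K) = jac L bas y) (w : R.ML.Pts) (η : Fin r → ℂ) :
    {x : R.Fib w | (x.val) J ≠ 0 ∧ (fun l => (x.val) (yB l)) = η}.encard ≤
      Module.finrank (IntermediateField.adjoin L (Set.range y)) K := by
  classical
  set N := Module.finrank (IntermediateField.adjoin L (Set.range y)) K with hN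
  by_contra hcon
  rw [not_le] at hcon
  have h1 : ((N + 1 : ℕ) : ℕ∞) ≤
      {x : R.Fib w | (x.val) J ≠ 0 ∧ (fun l => (x.val) (yB l)) = η}.encard := by
    have := Order.add_one_le_of_lt hcon
    exact_mod_cast this
  obtain ⟨t, hts, htc⟩ := Set.exists_subset_encard_eq h1
  have htf : t.Finite := Set.finite_of_encard_eq_coe htc
  set S : Finset R.MK.Pts := htf.toFinset.image (fun x => x.val) with hS
  have hScard : S.card = N + 1 := by
    rw [hS, Finset.card_image_of_injective _ (fun a b h => RMdl.Fib.ext h)]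
    have h2 : (htf.toFinset : Set (R.Fib w)).encard = t.encard := by
      rw [htf.coe_toFinset]
    rw [Set.encard_coe_eq_coe_finsetCard, htc] at h2
    exact_mod_cast h2
  have hSmem : ∀ x ∈ S, R.q x = w ∧ x J ≠ 0 ∧ (fun l => x (yB l)) = η := by
    intro x hx
    obtain ⟨x', hx', rfl⟩ := Finset.mem_image.1 hx
    have h2 := hts (htf.mem_toFinset.1 hx')
    exact ⟨x'.q_eq, h2.1, h2.2⟩
  obtain ⟨b, hb⟩ := exists_sep S
  obtain ⟨P, hP0, hPdeg, hPb⟩ := exists_poly_mdl R.ML (y := y) (b : K)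
  -- the relation in the coordinate ring
  have hrel : Polynomial.eval₂ (MvPolynomial.eval₂Hom (R.incl : R.ML.B →+* R.MK.B) yB) b P = 0 := by
    apply Subtype.val_injective (p := fun x => x ∈ R.MK.B)
    change (R.MK.B.val : R.MK.B →+* K) _ = 0
    rw [Polynomial.hom_eval₂]
    have h2 : (R.MK.B.val : R.MK.B →+* K).comp
        (MvPolynomial.eval₂Hom (R.incl : R.ML.B →+* R.MK.B) yB) =
        ((MvPolynomial.aeval y : MvPolynomial (Fin r) L →ₐ[L] K).toRingHom).comp
          (MvPolynomial.map (R.ML.B.val : R.ML.B →+* L)) := by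
      apply MvPolynomial.ringHom_ext
      · intro a
        simp
      · intro l
        simp [hy]
    rw [h2]
    exact hPb
  -- disjoint neighbourhoods of the values
  obtain ⟨V, hV, hVd⟩ := (S.image fun x => x b).finite_toSet.t2_separation
  set G : R.MK.Pts → R.ML.Pts × (Fin r → ℂ) := fun v => (R.q v, fun l => v (yB l)) with hG
  have hGx : ∀ x ∈ S, G x = (w, η) := fun x hx =>
    Prod.ext (hSmem x hx).1 (hSmem x hx).2.2
  have hW : (⋂ x ∈ S, G '' {v | v b ∈ V (x b)}) ∈ 𝓝 (w, η) := by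
    rw [Finset.iInter_mem_sets]
    intro x hx
    have h2 : {v : R.MK.Pts | v b ∈ V (x b)} ∈ 𝓝 x :=
      (continuous_ev b).continuousAt.preimage_mem_nhds ((hV (x b)).2.mem_nhds (hV (x b)).1)
    have h3 := open_at R hR yB (J := J) (by
      rw [hJ]
      congr 1
      exact (funext hy).symm) x (hSmem x hx).2.1 h2
    rw [← hGx x hx]
    exact h3
  obtain ⟨p, hpW, hp⟩ := exists_near R.ML (c := P.leadingCoeff)
    (by rwa [Ne, Polynomial.leadingCoeff_eq_zero]) w η hW
  have hpt : ∀ x ∈ S, ∃ v : R.MK.Pts, v b ∈ V (x b) ∧ G v = p := by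
    intro x hx
    have h2 := Set.mem_iInter₂.1 hpW x hx
    obtain ⟨v, hv1, hv2⟩ := h2
    exact ⟨v, hv1, hv2⟩
  choose! v hv1 hv2 using hpt
  set ev : MvPolynomial (Fin r) R.ML.B →+* ℂ :=
    MvPolynomial.eval₂Hom (p.1 : R.ML.B →+* ℂ) p.2 with hev
  set Q : Polynomial ℂ := P.map ev with hQ
  have hQ0 : Q ≠ 0 := by
    intro h0
    apply hp
    have h2 : Q.coeff P.natDegree = 0 := by rw [h0, Polynomial.coeff_zero]
    rw [hQ, Polynomial.coeff_map] at h2
    exact h2
  have hroot : ∀ x ∈ S, v x b ∈ Q.roots.toFinset := by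
    intro x hx
    rw [Multiset.mem_toFinset, Polynomial.mem_roots hQ0, Polynomial.IsRoot.def, hQ,
      Polynomial.eval_map]
    have h3 := congrArg (v x : R.MK.B →+* ℂ) hrel
    rw [map_zero, Polynomial.hom_eval₂] at h3
    have h4 : (v x : R.MK.B →+* ℂ).comp
        (MvPolynomial.eval₂Hom (R.incl : R.ML.B →+* R.MK.B) yB) = ev := by
      have h5 := hv2 x hx
      apply MvPolynomial.ringHom_ext
      · intro a
        simp only [RingHom.comp_apply, MvPolynomial.eval₂Hom_C, hev]
        rw [← h5]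
        rfl
      · intro l
        simp only [RingHom.comp_apply, MvPolynomial.eval₂Hom_X', hev]
        rw [← h5]
        rfl
    rw [h4] at h3
    exact h3
  have hinj : Set.InjOn (fun x => v x b) (S : Set R.MK.Pts) := by
    intro x hx x' hx' hxx
    apply hb hx hx'
    by_contra hne
    have h2 := hVd (Finset.mem_coe.2 (Finset.mem_image_of_mem _ hx))
      (Finset.mem_coe.2 (Finset.mem_image_of_mem _ hx')) hne
    have h3 : v x b ∈ V (x' b) := by
      have h4 : v x b = v x' b := hxx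
      rw [h4]
      exact hv1 x' hx'
    exact (Set.disjoint_left.1 h2) (hv1 x hx) h3
  have hcard : S.card ≤ N := by
    calc S.card ≤ Q.roots.toFinset.card :=
          Finset.card_le_card_of_injOn _ hroot hinj
      _ ≤ Multiset.card Q.roots := Multiset.toFinset_card_le _
      _ ≤ Q.natDegree := Polynomial.card_roots' Q
      _ ≤ P.natDegree := Polynomial.natDegree_map_le
      _ ≤ N := hPdeg
  omega

/-! ### the piece estimate -/

lemma rpow_le_aux {a b c : ℝ≥0∞} (hc : c ≠ 0) (hc' : c ≠ ⊤) (h : a ≤ c * b) {p : ℝ}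
    (hp : 0 ≤ p) : b ^ (-p) ≤ c ^ p * a ^ (-p) := by
  have h1 : (c * b) ^ (-p) ≤ a ^ (-p) := by
    rw [ENNReal.rpow_neg, ENNReal.rpow_neg]
    exact ENNReal.inv_le_inv.mpr (ENNReal.rpow_le_rpow h hp)
  by_cases hb : b = ⊤
  · subst hb
    rcases hp.eq_or_lt with rfl | hp0
    · simp
    · rw [ENNReal.top_rpow_of_neg (by linarith)]
      exact zero_le
  · rw [ENNReal.mul_rpow_of_ne_top hc' hb] at h1
    calc b ^ (-p) = c ^ p * (c ^ (-p) * b ^ (-p)) := by
          rw [← mul_assoc, ← ENNReal.rpow_add _ _ hc hc', add_neg_cancel, ENNReal.rpow_zero,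
            one_mul]
      _ ≤ c ^ p * a ^ (-p) := mul_le_mul_right h1 _

/-- the area formula on the fibres -/
theorem area_fib {bas : Module.Basis (Fin r) K (Ω[K⁄L])} {y : Fin r → K}
    [FiniteDimensional (IntermediateField.adjoin L (Set.range y)) K] (R : RMdl L K m r)
    (hR : Compat bas R) (yB : Fin r → R.MK.B) (hy : ∀ l, (yB l : K) = y l) {J : R.MK.B}
    (hJ : (J : K) = jac L bas y) (b' : Fin r → Fin r → R.MK.B)
    (hb' : ∀ l k, (b' l k : K) = bas.repr (KaehlerDifferential.D L K (y l)) k)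
    (w : R.ML.Pts) {μ : Measure (R.Fib w)} (hμ : IsLeb μ) {E : Set (R.Fib w)}
    (hE : MeasurableSet E) {T : ℝ} (hT : 0 ≤ T) (hET : ∀ x ∈ E, ∀ l, ‖(x.val) (yB l)‖ ≤ T)
    {wt : (Fin r → ℂ) → ℝ≥0∞} (hwt : Measurable wt) {F : R.Fib w → ℝ≥0∞}
    (hF : ∀ x ∈ E, F x ≤ ‖(x.val) J‖ₑ ^ (2 : ℕ) * wt (fun l => (x.val) (yB l))) :
    ∫⁻ x in E, F x ∂μ ≤ (Module.finrank (IntermediateField.adjoin L (Set.range y)) K : ℝ≥0∞) *
      ∫⁻ η in Metric.closedBall (0 : Fin r → ℂ) T, wt η := by
  classical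
  have hfib := FibI_448.isFib R bas hR w
  have hb'' : ∀ l k, (R.MK.B.val : R.MK.B →+* K) (b' l k) =
      bas.repr (KaehlerDifferential.D L K ((R.MK.B.val : R.MK.B →+* K) (yB l))) k := by
    intro l k
    have h1 : (R.MK.B.val : R.MK.B →+* K) (yB l) = y l := hy l
    rw [h1]
    exact hb' l k
  have hsd := hfib.sd (yB := yB) (b' := b') hb''
  have hdetJ : (Matrix.of b').det = J := by
    apply Subtype.ext
    rw [hJ]
    have h1 := GroUpD_845.jB_det (jB := (R.MK.B.val : R.MK.B →+* K)) hb''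
    refine h1.trans ?_
    congr 1
    exact funext hy
  have hdet : ∀ x : R.Fib w, (GroUpD_845.jm (fun y : R.Fib w =>
      ((y.val : R.MK.B →ₐ[ℂ] ℂ) : R.MK.B →+* ℂ)) b' x).det = (x.val) J := by
    intro x
    rw [GroUpD_845.det_jm, hdetJ]
    rfl
  refine GroUpB_845.area_ae_le (q := fun (x : R.Fib w) l => (x.val) (yB l)) hμ hsd ?_ hE
    Metric.isClosed_closedBall.measurableSet ?_ (ae_of_all _ fun η => ?_) hwt ?_
  · simp_rw [hdet]
    exact hfib.cont _
  · intro x hx _
    rw [mem_closedBall_zero_iff, pi_norm_le_iff_of_nonneg hT]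
    exact hET x hx
  · refine le_trans (Set.encard_le_encard ?_) (mult R hR yB hy hJ w η)
    rintro x ⟨_, hx1, hx2⟩
    rw [hdet] at hx1
    exact ⟨hx1, hx2⟩
  · intro x hx
    rw [hdet, ENNReal.ofReal_pow (norm_nonneg _), ofReal_norm]
    exact hF x hx

/-- **THE PIECE ESTIMATE** -/
theorem exists_pe (hac : ∀ x : K, IsAlgebraic L x → x ∈ Set.range (algebraMap L K))
    (bas : Module.Basis (Fin r) K (Ω[K⁄L])) (N : ℕ) {y : Fin r → K} (hJ : jac L bas y ≠ 0)
    {s : ℕ} {u : Fin s → K} (hu : LinearIndependent L u) :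
    ∃ p0 : ℝ, 0 < p0 ∧ ∃ (AA : Finset L) (BB : Finset K), ∀ (AA' : Finset L) (BB' : Finset K),
      AA ⊆ AA' → BB ⊆ BB' → ∀ p : ℝ, 0 ≤ p → p < p0 → PE bas N u y AA' BB' p := by
  classical
  by_cases hE : Algebra.EssFiniteType L K
  swap
  · refine ⟨1, one_pos, ∅, ∅, fun AA' BB' _ _ p _ _ => ⟨1, 0, le_rfl, fun m R => ?_⟩⟩
    exfalso
    apply hE
    have := Cmp_595.essFiniteType R.MK
    exact Algebra.EssFiniteType.of_comp ℂ L K
  have : CharZero L := charZero_of_injective_algebraMap (algebraMap ℂ L).injective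
  have : CharZero K := charZero_of_injective_algebraMap (algebraMap ℂ K).injective
  have halg : Algebra.IsAlgebraic (IntermediateField.adjoin L (Set.range y)) K := by
    apply GroUpC_845.algebraic_of_basis
    rw [jac] at hJ
    exact ((Module.Basis.is_basis_iff_det bas).2 (IsUnit.mk0 _ hJ)).2
  have : Algebra.EssFiniteType (IntermediateField.adjoin L (Set.range y)) K :=
    Algebra.EssFiniteType.of_comp L _ K
  have : FiniteDimensional (IntermediateField.adjoin L (Set.range y)) K :=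
    Algebra.finite_of_essFiniteType_of_isAlgebraic
  -- the sections in the frame
  set W : Fin s → K := fun i => fr bas y N (u i) with hW
  have hJN : (jac L bas y ^ N)⁻¹ ≠ 0 := inv_ne_zero (pow_ne_zero _ hJ)
  have hWli : LinearIndependent L W := by
    have h1 := hu.map' (LinearMap.mulLeft L ((jac L bas y ^ N)⁻¹))
      (LinearMap.ker_eq_bot.2 (mul_right_injective₀ hJN))
    have h2 : (LinearMap.mulLeft L ((jac L bas y ^ N)⁻¹)) ∘ u = W := by
      funext i
      simp [hW, fr, div_eq_mul_inv, mul_comm]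
    rwa [h2] at h1
  obtain ⟨d, n, C0, T0, hC0, hnull⟩ := SkoD_317.null_bound hac y W
    (fun i => halg.isAlgebraic _) hWli
  set D := Module.finrank (IntermediateField.adjoin L (Set.range y)) K with hD
  set BB : Finset K := {jac L bas y} ∪ (Finset.univ.image y) ∪ (Finset.univ.image W) ∪
    (Finset.univ.biUnion fun l : Fin r => Finset.univ.image fun k : Fin r =>
      bas.repr (KaehlerDifferential.D L K (y l)) k) with hBB
  refine ⟨2 / (d + 1), by positivity, T0, BB, fun AA' BB' hAA' hBB' p hp hp0 => ?_⟩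
  have hpd : p * d < 2 := by
    rw [lt_div_iff₀ (by positivity)] at hp0
    nlinarith
  obtain ⟨C1, n1, hC1, hint⟩ := SkoD_317.int_null r d n C0 hC0 p hp hpd
  refine ⟨1 + D * C1, n1, by nlinarith [show (0 : ℝ) ≤ D * C1 by positivity], ?_⟩
  intro m R hR hU w μ hμ ρ hρ hρa T hT A
  have hρT : 1 ≤ ρ * T := one_le_mul_of_one_le_of_one_le hρ hT
  -- representatives
  have hmB : ∀ b ∈ BB, b ∈ R.MK.B := fun b hb => (hU.2 b (hBB' hb)).1
  have hJm : jac L bas y ∈ R.MK.B := hmB _ (by simp [hBB])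
  have hym : ∀ l, y l ∈ R.MK.B := fun l => hmB _ (by simp [hBB])
  have hWm : ∀ i, W i ∈ R.MK.B := fun i => hmB _ (by simp [hBB])
  have hdm : ∀ l k, bas.repr (KaehlerDifferential.D L K (y l)) k ∈ R.MK.B := fun l k =>
    hmB _ (by
      rw [hBB]
      exact Finset.mem_union_right _ (Finset.mem_biUnion.2 ⟨l, Finset.mem_univ _,
        Finset.mem_image_of_mem _ (Finset.mem_univ _)⟩))
  set yB : Fin r → R.MK.B := fun l => ⟨y l, hym l⟩ with hyB
  set WB : Fin s → R.MK.B := fun i => ⟨W i, hWm i⟩ with hWB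
  set JB : R.MK.B := ⟨jac L bas y, hJm⟩ with hJB
  set b' : Fin r → Fin r → R.MK.B := fun l k => ⟨_, hdm l k⟩ with hb'
  -- the weight
  obtain ⟨P, hPdeg, hPm, hPx⟩ : ∃ P : MvPolynomial (Fin r) ℂ, (∀ i, P.degreeOf i ≤ d) ∧
      (∃ m, ‖A‖ ≤ C0 * ρ ^ n * ‖P.coeff m‖) ∧
      ((A = 0 ∧ 0 < p) ∨ ∀ x : R.Fib w, x ∈ piece bas N u y R w T →
        (‖∑ i, A i * (x.val) (WB i)‖ₑ ^ (-p) ≤ ENNReal.ofReal (C0 * (ρ * T) ^ n) ^ p *
          ‖MvPolynomial.eval (fun l => (x.val) (yB l)) P‖ₑ ^ (-p))) := by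
    by_cases hA : A = 0
    · refine ⟨1, fun i => by simp, ⟨0, ?_⟩, ?_⟩
      · rw [hA]
        simp
        positivity
      · rcases hp.eq_or_lt with hp00 | hp00
        · right
          intro x _
          rw [← hp00]
          simp
        · exact Or.inl ⟨hA, hp00⟩
    · obtain ⟨P, h1, h2, h3⟩ := hnull (R.ML.B.val : R.ML.B →+* L) (R.MK.B.val : R.MK.B →+* K)
        Subtype.val_injective Subtype.val_injective
        (fun l hl => ⟨⟨l, (hU.1 l (hAA' hl)).1⟩, rfl⟩) (R.incl : R.ML.B →+* R.MK.B)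
        (fun b => rfl) yB (fun _ => rfl) WB (fun _ => rfl) (w : R.ML.B →+* ℂ) ρ hρ
        (fun b hb => by
          have h4 := hρa _ (hAA' hb)
          have h5 : ek R.ML ((R.ML.B.val : R.ML.B →+* L) b) w = w b := ek_coe R.ML b w
          rw [h5] at h4
          exact h4) A hA
      refine ⟨P, h1, h2, Or.inr fun x hx => ?_⟩
      have h4 := h3 (x.val : R.MK.B →+* ℂ) (fun b => by
        have h5 := x.q_eq
        exact congrArg (fun f : R.ML.B →ₐ[ℂ] ℂ => f b) h5) T hT
        (fun l => by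
          have h5 := hx.1 l
          rwa [ek_of_mem R.MK (hym l)] at h5)
        (fun i => by
          have h5 := hx.2 i
          rwa [ek_of_mem R.MK (hWm i)] at h5)
      apply rpow_le_aux _ ENNReal.ofReal_ne_top _ hp
      · rw [Ne, ENNReal.ofReal_eq_zero, not_le]
        positivity
      · rw [← ofReal_norm, ← ofReal_norm, ← ENNReal.ofReal_mul (by positivity)]
        exact ENNReal.ofReal_le_ofReal h4
  rcases hPx with ⟨hA, hp00⟩ | hPx
  · have h1 : ‖A‖ₑ ^ (-p) = ⊤ := by
      rw [hA, enorm_zero, ENNReal.zero_rpow_of_neg (by linarith)]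
    rw [h1, ENNReal.mul_top]
    · exact le_top
    · rw [Ne, ENNReal.ofReal_eq_zero, not_le]
      positivity
  -- the area formula
  have harea := area_fib R hR yB (fun _ => rfl) (J := JB) rfl b' (fun _ _ => rfl) w hμ
    (measurableSet_piece bas N u y R w T) (T := T) (by linarith)
    (fun x hx l => by
      have h5 := hx.1 l
      rwa [ek_of_mem R.MK (hym l)] at h5)
    (wt := fun η => ENNReal.ofReal (C0 * (ρ * T) ^ n) ^ p * ‖MvPolynomial.eval η P‖ₑ ^ (-p))
    (((SkoA_567.measurable_eval P).enorm.pow_const _).const_mul _)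
    (F := fun x => ‖ek R.MK (jac L bas y) x.val‖ₑ ^ (2 : ℕ) *
      ‖∑ i, A i * ek R.MK (fr bas y N (u i)) x.val‖ₑ ^ (-p))
    (fun x hx => by
      have h1 := hPx x hx
      have h2 : ∀ i, ek R.MK (fr bas y N (u i)) x.val = (x.val) (WB i) :=
        fun i => ek_of_mem R.MK (hWm i) _
      simp only [h2]
      rw [ek_of_mem R.MK hJm]
      exact mul_le_mul_right h1 _)
  refine harea.trans ?_
  calc (D : ℝ≥0∞) * ∫⁻ η in Metric.closedBall (0 : Fin r → ℂ) T,
        ENNReal.ofReal (C0 * (ρ * T) ^ n) ^ p * ‖MvPolynomial.eval η P‖ₑ ^ (-p)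
      ≤ (D : ℝ≥0∞) * (ENNReal.ofReal (C1 * (ρ * T) ^ n1) * ‖A‖ₑ ^ (-p)) :=
        mul_le_mul_right (hint s A ρ T hρ hT P hPdeg hPm) _
    _ = ENNReal.ofReal (D * (C1 * (ρ * T) ^ n1)) * ‖A‖ₑ ^ (-p) := by
        rw [ENNReal.ofReal_mul (p := (D : ℝ)) (q := C1 * (ρ * T) ^ n1) (Nat.cast_nonneg D),
          ENNReal.ofReal_natCast, mul_assoc]
    _ ≤ ENNReal.ofReal ((1 + D * C1) * (ρ * T) ^ n1) * ‖A‖ₑ ^ (-p) := by
        refine mul_le_mul_left (ENNReal.ofReal_le_ofReal ?_) _
        have h1 : 0 ≤ (ρ * T) ^ n1 := by positivity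
        nlinarith

/-- **the piece estimates for all frames** -/
theorem exists_pe_all (hac : ∀ x : K, IsAlgebraic L x → x ∈ Set.range (algebraMap L K))
    (bas : Module.Basis (Fin r) K (Ω[K⁄L])) (N : ℕ) (Y : Finset (Fin r → K))
    (hY : ∀ y ∈ Y, jac L bas y ≠ 0) {s : ℕ} {u : Fin s → K} (hu : LinearIndependent L u) :
    ∃ p0 : ℝ, 0 < p0 ∧ ∃ (AA : Finset L) (BB : Finset K), ∀ (AA' : Finset L) (BB' : Finset K),
      AA ⊆ AA' → BB ⊆ BB' → ∀ p : ℝ, 0 ≤ p → p < p0 → ∀ y ∈ Y, PE bas N u y AA' BB' p := by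
  classical
  induction Y using Finset.induction_on with
  | empty => exact ⟨1, one_pos, ∅, ∅, fun _ _ _ _ _ _ _ y hy => absurd hy (by simp)⟩
  | insert y Y _ ih =>
    obtain ⟨p1, hp1, A1, B1, h1⟩ := ih fun y' hy' => hY y' (Finset.mem_insert_of_mem hy')
    obtain ⟨p2, hp2, A2, B2, h2⟩ := exists_pe hac bas N (hY y (Finset.mem_insert_self _ _)) hu
    refine ⟨min p1 p2, lt_min hp1 hp2, A1 ∪ A2, B1 ∪ B2, fun AA' BB' hA hB p hp hpp y' hy' => ?_⟩
    rcases Finset.mem_insert.1 hy' with rfl | hy'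
    · exact h2 AA' BB' (Finset.union_subset_right hA) (Finset.union_subset_right hB) p hp
        (hpp.trans_le (min_le_right _ _))
    · exact h1 AA' BB' (Finset.union_subset_left hA) (Finset.union_subset_left hB) p hp
        (hpp.trans_le (min_le_left _ _)) y' hy'

end rel

end Crest.Agent.R276.SkoQ_425
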