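import Mathlib
import Crest.Agent.R276.LC1b_464
import Crest.Agent.R276.LCY_464
import Crest.Agent.R276.LGlue_870
import Crest.Agent.R276.LEv_220
import Crest.Agent.R276.SkoQ_425
import Crest.Agent.R276.C1fin_986

/-!
# Row 276 (helper986): `Skel_220.LC1`

Data (B), (Cl), family `v` (464, 845, 425, 886) + `c1_data` (986, 185, 201, 505, 748).
-/

set_option autoImplicit false

noncomputable section

namespace Crest.Agent.R276.LC1_986

open Crest.Agent.R271.Defs710 hiding glue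
open Crest.Agent.R276.Mod1_987 Crest.Agent.R276.FKDefs_779 Crest.Agent.R276.BetaDefs_231
open Crest.Agent.R276.SkelDefs_220 Crest.Agent.R276.TowA_849 Crest.Agent.R276.SkelGeo_220
open Crest.Agent.R276.Skel_220 Crest.Agent.R276.LGlue_870 Crest.Agent.R276.LC1a_464

/-- (PE) -/
theorem peAll : PEAll := by
  intro L K _ _ _ _ _ _ r bas N s Y u hS hr hN hY hu hP
  have hac : ∀ x : K, IsAlgebraic L x → x ∈ Set.range (algebraMap L K) := fun x hx => by
    obtain ⟨y, hy⟩ := hS.ac x hx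
    exact ⟨y, hy⟩
  exact SkoQ_425.exists_pe_all hac bas N Y (fun y hy => hY.jac_ne y hy) hu

/-- **LC1** -/
theorem lc1 : Skel_220.LC1 := by
  intro T L K _ _ _ _ _ _ _ _ _ _ ρ a r W N d e e₀ s σ w hOK
  obtain ⟨ε₀, bK, hε₀, hEvd⟩ := data peAll hOK
  refine ⟨ε₀, hε₀, ((LEv_220.lev T L K ρ a r W N d e e₀ s σ w hOK).and hEvd).mono ?_⟩
  rintro W' ⟨h, hd⟩ q hq hqε
  refine stm_of h (Φ := fun H₁ H₂ u _ D =>
    (∀ k : ℕ, 0 < k → ∃ b₁, C1 H₁ H₂ N k u D (1 / (q : ℝ)) b₁) ∧ SkoP H₂ N u (1 / (q : ℝ)))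
    fun H₁ H₂ => ?_
  have hD := hd H₂ (fr W'.LK σ (mem h)) fun i => rfl
  have hq0 : (0 : ℝ) < q := by exact_mod_cast hq
  have hN : 0 < N := by have := h.N_ge; omega
  refine ⟨fun k hk => ?_, 1, one_ne_zero, fun z _ k P hk hP =>
    hD.sko (1 / (q : ℝ)) (by positivity) hqε z k P hk hP⟩
  obtain ⟨n, v, hv, hmon, -, hBB, hCL⟩ := hD.fam q hq hqε k hk
  obtain ⟨X, -, -⟩ := h.geo
  have hsat : FlatDefs_236.SatFam (CInd_870.rm H₂) N (fr W'.LK σ (mem h)) :=
    LCY_464.satFam_rm X.sat H₂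
  refine ⟨_, C1fin_986.c1_data H₁ H₂ bK hD.basis (N' := q * k * N) (N₁ := N * (k * (q + N)))
    (l := q + N) h.s_pos hN (by positivity) hk (by positivity) ?_ rfl
    (fr W'.LK σ (mem h)) hD.pluri v hv hmon (IsCY_464.isCY hsat)
    (IsCY_464.continuous_Dr hsat) hBB hCL⟩
  push_cast
  field_simp

end Crest.Agent.R276.LC1_986
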