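import Mathlib
import Crest.Agent.R276.LC1b_464
import Crest.Agent.R276.SkoQ_425

/-!
# Row 276 (helper464): the data of (C1), unconditional
-/

set_option autoImplicit false

open Set Filter Topology MeasureTheory
open scoped ENNReal

noncomputable section

namespace Crest.Agent.R276.LC1a_464

open Crest.Agent.R271.Defs710 hiding glue
open Crest.Agent.R276.Mod1_987 Crest.Agent.R276.FKDefs_779 Crest.Agent.R276.TowA_849
open Crest.Agent.R276.SkelDefs_220 Crest.Agent.R276.SkelGeo_220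

/-- (PE) -/
theorem peAll : PEAll := fun _ _ _ _ _ _ _ _ _ bas N _ Y _ hS _ _ hY hli _ =>
  SkoQ_425.exists_pe_all hS.ac bas N Y hY.jac_ne hli

/-- **the data of (C1)** on all small towers -/
theorem exists_data {T L K : Type} [Field T] [Field L] [Field K] [Algebra ℂ T] [Algebra ℂ L]
    [Algebra ℂ K] [Algebra T L] [Algebra L K] [IsScalarTower ℂ T L] [IsScalarTower ℂ L K]
    {ρ a r : ℕ} {W : Tow T L K ρ a r} {N d e₀ s e : ℕ} {σ : Fin s → K}
    {w : Fin (e + 1) → L} (h : TowOK W N d e₀ σ w) :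
    ∃ (ε₀ : ℝ) (bK : Module.Basis (Fin r) K (Ω[K⁄L])), 0 < ε₀ ∧
      Ev W fun W' => ∀ (H₂ : Rel W'.ML W'.MK) (u : Fin s → W'.MK.B), (∀ i, (u i : K) = σ i) →
        Dat1 W' N σ ε₀ H₂ u bK :=
  data peAll h

end Crest.Agent.R276.LC1a_464
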