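import Crest.Agent.R276.R0B_858

/-! # Row 276, helper858: (R0) algebra of relative boundary charts, part C: the pairs of models. -/

set_option autoImplicit false

noncomputable section

namespace Crest.Agent.R276.DivVal_858

open IsLocalRing MvPolynomial Crest.Agent.R276.FKDefs_779 Crest.Agent.R276.BC_986

variable {L K : Type} [Field L] [Field K] [Algebra ℂ L] [Algebra ℂ K] [Algebra L K]
variable [IsScalarTower ℂ L K] {m r : ℕ}

/-- **(R0-H)**: `L ⊆ R`, arbitrary transcendence basis `w` of `L` over `ℂ`. -/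
theorem r0_H [Algebra.EssFiniteType ℂ K] (hm : Algebra.trdeg ℂ L = m)
    (hn : Algebra.trdeg ℂ K = (m + r : ℕ)) {R : ValuationSubring K} (hR : IsDiv ℂ (m + r) R)
    (hL : ∀ c : L, algebraMap L K c ∈ R) (w : Fin m → L) (hw : AlgebraicIndependent ℂ w) :
    ∃ (hr : 0 < r) (D : DivModel (m + r) K), D.ModelOf R ∧ D.i₀ = Fin.natAdd m ⟨0, hr⟩ ∧
      ∀ i, algebraMap D.A K (D.w (Fin.castAdd r i)) = algebraMap L K (w i) := by
  obtain ⟨hmn, -, hw'⟩ := restrict_top hn hm hR hL
  have hdvr := dvr_of_isDiv hn hR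
  obtain ⟨r', rfl⟩ : ∃ r', r = r' + 1 := ⟨r - 1, by omega⟩
  have key := hw' w hw
  have h0 : m + (r' + 1) - 1 - m = r' := by omega
  rw [h0] at key
  obtain ⟨x, -, hx⟩ := key
  obtain ⟨t, ht⟩ := exists_isUnif R
  let z : Fin (m + (r' + 1)) → K := Fin.append (algebraMap L K ∘ w) (Fin.cons t x : Fin (r' + 1) → K)
  have hz0 : z (Fin.natAdd m 0) = t := by
    change Fin.append (algebraMap L K ∘ w) (Fin.cons t x : Fin (r' + 1) → K) (Fin.natAdd m 0) = t
    rw [Fin.append_right, Fin.cons_zero]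
  let f : {i : Fin (m + (r' + 1)) // i ≠ Fin.natAdd m 0} → Fin r' ⊕ Fin m := fun i =>
    if h : i.1.val < m then Sum.inr ⟨i.1.val, h⟩ else Sum.inl ⟨i.1.val - m - 1, by
      have h1 := i.1.isLt
      have h2 : i.1.val ≠ m := fun h3 => i.2 (Fin.ext (by simpa using h3))
      omega⟩
  have hne : ∀ i : {i : Fin (m + (r' + 1)) // i ≠ Fin.natAdd m 0}, i.1.val ≠ m := fun i h3 =>
    i.2 (Fin.ext (by simpa using h3))
  have hf : Function.Injective f := by
    intro i j hij
    have hi := hne i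
    have hj := hne j
    apply Subtype.ext
    apply Fin.ext
    by_cases h1 : i.1.val < m <;> by_cases h2 : j.1.val < m <;>
      simp only [f, h1, h2, dif_pos, dif_neg, not_false_iff, Sum.inr.injEq, Sum.inl.injEq,
        Fin.mk.injEq, reduceCtorEq] at hij
    · exact hij
    · omega
  have hzf : (fun i : {i : Fin (m + (r' + 1)) // i ≠ Fin.natAdd m 0} => z i) =
      (Sum.elim x (algebraMap L K ∘ w)) ∘ f := by
    funext i
    have hi := hne i
    by_cases h1 : i.1.val < m
    · have h2 : i.1 = Fin.castAdd (r' + 1) ⟨i.1.val, h1⟩ := Fin.ext rfl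
      have h3 : f i = Sum.inr ⟨i.1.val, h1⟩ := by simp only [f, h1, dif_pos]
      rw [Function.comp_apply, h3, Sum.elim_inr]
      change Fin.append (algebraMap L K ∘ w) (Fin.cons t x : Fin (r' + 1) → K) i.1 = _
      conv_lhs => rw [h2]
      rw [Fin.append_left]
    · have hlt := i.1.isLt
      have h4 : i.1.val - m - 1 < r' := by omega
      have h2 : i.1 = Fin.natAdd m (Fin.succ ⟨i.1.val - m - 1, h4⟩) := by
        apply Fin.ext
        simp only [Fin.val_natAdd, Fin.val_succ]
        omega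
      have h3 : f i = Sum.inl ⟨i.1.val - m - 1, h4⟩ := by
        simp only [f, h1, dif_neg, not_false_iff]
      rw [Function.comp_apply, h3, Sum.elim_inl]
      change Fin.append (algebraMap L K ∘ w) (Fin.cons t x : Fin (r' + 1) → K) i.1 = _
      conv_lhs => rw [h2]
      rw [Fin.append_right, Fin.cons_succ]
  have hres : ResInd ℂ R (fun i : {i : Fin (m + (r' + 1)) // i ≠ Fin.natAdd m 0} => z i) := by
    rw [hzf]
    exact hx.comp f hf
  obtain ⟨D, hD, hi, hw2⟩ := exists_divModel_of_unif hn hR.alg hres (by rw [hz0]; exact ht)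
  refine ⟨Nat.succ_pos _, D, hD, hi, fun i => ?_⟩
  rw [hw2]
  change Fin.append (algebraMap L K ∘ w) (Fin.cons t x : Fin (r' + 1) → K) (Fin.castAdd _ i) = _
  rw [Fin.append_left]
  rfl

omit [Algebra ℂ L] [Algebra ℂ K] [IsScalarTower ℂ L K] in
/-- the value of an element of a subfield -/
theorem valuation_comap_lt_one_iff {R : ValuationSubring K} (c : L) :
    (R.comap (algebraMap L K)).valuation c < 1 ↔ R.valuation (algebraMap L K c) < 1 := by
  by_cases hc : c = 0
  · simp [hc]
  · have h1 : ∀ (T : Type) [Field T] (S : ValuationSubring T) (a : T), a ≠ 0 →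
        (S.valuation a < 1 ↔ a⁻¹ ∉ S) := by
      intro T _ S a ha
      rw [← ValuationSubring.valuation_le_one_iff, map_inv₀, not_le]
      have hpos : 0 < S.valuation a := (Valuation.pos_iff _).mpr ha
      exact (one_lt_inv₀ hpos).symm
    rw [h1 L _ c hc, h1 K _ (algebraMap L K c) (by
      rw [Ne, map_eq_zero_iff _ (algebraMap L K).injective]; exact hc), ValuationSubring.mem_comap,
      map_inv₀]

/-- every element is a power of the uniformiser times a unit -/
theorem exists_eq_pow_mul {R : ValuationSubring K} {n : ℕ} {D : DivModel n K} (hD : D.ModelOf R)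
    {y : K} (hy0 : y ≠ 0) (hy : R.valuation y < 1) :
    ∃ (e : ℕ) (u : K), 0 < e ∧ R.valuation u = 1 ∧ y = (algebraMap D.A K D.t) ^ e * u := by
  obtain ⟨a, ha⟩ := D.exists_hasOrd y hy0
  have h1 := hD.val_eq ha
  have hlt := hD.lt
  have hpos := hD.pos
  have ha1 : 1 ≤ a := by
    by_contra hcon
    have ha0 : a ≤ 0 := by omega
    rw [h1] at hy
    have : (1 : _) ≤ R.valuation (algebraMap D.A K D.t) ^ a := by
      rw [← zpow_zero (R.valuation (algebraMap D.A K D.t))]
      exact zpow_le_zpow_right_of_le_one₀ hpos hlt.le ha0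
    exact absurd hy (not_lt.mpr this)
  obtain ⟨e, rfl⟩ : ∃ e : ℕ, a = e := ⟨a.toNat, by omega⟩
  have ht0 : (algebraMap D.A K D.t) ^ e ≠ 0 := pow_ne_zero _ D.tK_ne
  refine ⟨e, y / (algebraMap D.A K D.t) ^ e, by omega, ?_, (mul_div_cancel₀ _ ht0).symm⟩
  rw [map_div₀, h1, map_pow, zpow_natCast, div_self]
  exact pow_ne_zero _ hpos.ne'

/-- **(R0-V)**: `L ⊄ R`, PRESCRIBED model `DL` of `R ∩ L`. -/
theorem r0_V [Algebra.EssFiniteType ℂ K] (hm : Algebra.trdeg ℂ L = m)
    (hn : Algebra.trdeg ℂ K = (m + r : ℕ)) {R : ValuationSubring K} (hR : IsDiv ℂ (m + r) R)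
    (DL : DivModel m L) (hDL : DL.ModelOf (R.comap (algebraMap L K))) :
    ∃ (D : DivModel (m + r) K) (e : ℕ) (u : K), D.ModelOf R ∧
      D.i₀ = Fin.castAdd r DL.i₀ ∧
      (∀ i, i ≠ DL.i₀ → algebraMap D.A K (D.w (Fin.castAdd r i)) =
        algebraMap L K (algebraMap DL.A L (DL.w i))) ∧
      AlgebraicIndependent L (fun j : Fin r => algebraMap D.A K (D.w (Fin.natAdd m j))) ∧
      0 < e ∧ R.valuation u = 1 ∧
      algebraMap L K (algebraMap DL.A L DL.t) = (algebraMap D.A K D.t) ^ e * u := by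
  have hne : R.comap (algebraMap L K) ≠ ⊤ := by
    intro htop
    have h1 := hDL.lt
    have h2 : (algebraMap DL.A L DL.t)⁻¹ ∈ R.comap (algebraMap L K) := by rw [htop]; trivial
    rw [← ValuationSubring.valuation_le_one_iff, map_inv₀] at h2
    have h3 := (one_lt_inv₀ hDL.pos).mpr h1
    exact absurd h2 (not_le.mpr h3)
  obtain ⟨hm1, -, -, hw'⟩ := restrict_of_ne_top hn hm hR hne
  have hdvr := dvr_of_isDiv hn hR
  obtain ⟨m', rfl⟩ : ∃ m', m = m' + 1 := ⟨m - 1, by omega⟩
  have hresL := resInd_of_modelOf hDL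
  let w : Fin m' → L := fun j => algebraMap DL.A L (DL.w (DL.i₀.succAbove j))
  have hw : ResInd ℂ (R.comap (algebraMap L K)) w :=
    hresL.comp (fun j => (⟨DL.i₀.succAbove j, Fin.succAbove_ne _ _⟩ : {i // i ≠ DL.i₀}))
      (fun a b hab => Fin.succAbove_right_injective (congrArg Subtype.val hab))
  have key := hw' w hw
  have h0 : m' + 1 + r - (m' + 1) = r := by omega
  rw [h0] at key
  obtain ⟨x, -, hx, hxL⟩ := key
  obtain ⟨t, ht⟩ := exists_isUnif R
  let b : Fin (m' + 1) → K := fun i =>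
    if i = DL.i₀ then t else algebraMap L K (algebraMap DL.A L (DL.w i))
  let z : Fin (m' + 1 + r) → K := Fin.append b x
  have hz0 : z (Fin.castAdd r DL.i₀) = t := by
    change Fin.append b x (Fin.castAdd r DL.i₀) = t
    rw [Fin.append_left]
    simp only [b, if_pos]
  let g : {i : Fin (m' + 1) // i ≠ DL.i₀} → Fin m' := fun i =>
    (Fin.exists_succAbove_eq i.2).choose
  have hg : ∀ i, DL.i₀.succAbove (g i) = i.1 := fun i => (Fin.exists_succAbove_eq i.2).choose_spec
  have hne' : ∀ (i : {i : Fin (m' + 1 + r) // i ≠ Fin.castAdd r DL.i₀}) (h : i.1.val < m' + 1),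
      (⟨i.1.val, h⟩ : Fin (m' + 1)) ≠ DL.i₀ := by
    intro i h heq
    apply i.2
    apply Fin.ext
    rw [Fin.val_castAdd]
    exact congrArg Fin.val heq
  let f : {i : Fin (m' + 1 + r) // i ≠ Fin.castAdd r DL.i₀} → Fin r ⊕ Fin m' := fun i =>
    if h : i.1.val < m' + 1 then Sum.inr (g ⟨⟨i.1.val, h⟩, hne' i h⟩) else
      Sum.inl ⟨i.1.val - (m' + 1), by
        have h1 := i.1.isLt
        omega⟩
  have hf : Function.Injective f := by
    intro i j hij
    apply Subtype.ext
    apply Fin.ext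
    by_cases h1 : i.1.val < m' + 1 <;> by_cases h2 : j.1.val < m' + 1 <;>
      simp only [f, h1, h2, dif_pos, dif_neg, not_false_iff, Sum.inr.injEq, Sum.inl.injEq,
        Fin.mk.injEq, reduceCtorEq] at hij
    · have h3 := congrArg DL.i₀.succAbove hij
      rw [hg, hg] at h3
      have h4 : i.1.val = j.1.val := congrArg (fun y : Fin (m' + 1) => y.val) h3
      exact h4
    · omega
  have hzf : (fun i : {i : Fin (m' + 1 + r) // i ≠ Fin.castAdd r DL.i₀} => z i) =
      (Sum.elim x (algebraMap L K ∘ w)) ∘ f := by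
    funext i
    by_cases h1 : i.1.val < m' + 1
    · have h2 : i.1 = Fin.castAdd r ⟨i.1.val, h1⟩ := Fin.ext rfl
      have h3 : f i = Sum.inr (g ⟨⟨i.1.val, h1⟩, hne' i h1⟩) := by simp only [f, h1, dif_pos]
      rw [Function.comp_apply, h3, Sum.elim_inr]
      change Fin.append b x i.1 = _
      conv_lhs => rw [h2]
      rw [Fin.append_left]
      simp only [b, if_neg (hne' i h1), w, Function.comp_apply]
      rw [hg]
    · have hlt := i.1.isLt
      have h4 : i.1.val - (m' + 1) < r := by omega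
      have h2 : i.1 = Fin.natAdd (m' + 1) ⟨i.1.val - (m' + 1), h4⟩ := by
        apply Fin.ext
        simp only [Fin.val_natAdd]
        omega
      have h3 : f i = Sum.inl ⟨i.1.val - (m' + 1), h4⟩ := by
        simp only [f, h1, dif_neg, not_false_iff]
      rw [Function.comp_apply, h3, Sum.elim_inl]
      change Fin.append b x i.1 = _
      conv_lhs => rw [h2]
      rw [Fin.append_right]
  have hres : ResInd ℂ R (fun i : {i : Fin (m' + 1 + r) // i ≠ Fin.castAdd r DL.i₀} => z i) := by
    rw [hzf]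
    exact hx.comp f hf
  obtain ⟨D, hD, hi, hw2⟩ := exists_divModel_of_unif hn hR.alg hres (by rw [hz0]; exact ht)
  have hy0 : algebraMap L K (algebraMap DL.A L DL.t) ≠ 0 := by
    rw [Ne, map_eq_zero_iff _ (algebraMap L K).injective]
    exact DL.tK_ne
  obtain ⟨e, u, he, hu, heu⟩ := exists_eq_pow_mul hD hy0 ((valuation_comap_lt_one_iff _).mp hDL.lt)
  refine ⟨D, e, u, hD, hi, ?_, ?_, he, hu, heu⟩
  · intro i hii
    rw [hw2]
    change Fin.append b x (Fin.castAdd _ i) = _
    rw [Fin.append_left]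
    simp only [b, if_neg hii]
  · have h5 : (fun j : Fin r => algebraMap D.A K (D.w (Fin.natAdd (m' + 1) j))) = x := by
      funext j
      rw [hw2]
      change Fin.append b x (Fin.natAdd _ j) = _
      rw [Fin.append_right]
    rw [h5]
    exact hxL

end Crest.Agent.R276.DivVal_858
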