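import Crest.Agent.R276.SatC_210
import Crest.Agent.R276.BC7_986
import Crest.Agent.R276.TChK_858
import Crest.Agent.R276.R0C_858
import Crest.Agent.R276.FolC_508
import Crest.Agent.R276.CmpA_595

/-!
# Row 276 (S0419), SAT (helper152), part G: regularity at the horizontal divisorial valuations

`R : RMdl L K m r`, `bK` the basis `d x_j` of `Ω[K⁄L]`, `u_i ∈ B_K` regular relative `N`-forms at a
horizontal divisorial valuation ring `R₀` (`IsDiv L r R₀`), `b ∈ B_K` with
`∫ |b|² K_u^{-(N-1)/N} · weight < ∞`.  Then `b` is a regular relative `N`-form at `R₀`.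

* `isDiv_abs` : `IsDiv L r R₀ → IsDiv ℂ (m + r) R₀`;
* `regAt_of_inE` : the statement above;
* `pluri_of_inE` : the same with `Pluri`.
-/

set_option autoImplicit false

noncomputable section

open Set Filter Topology Metric MeasureTheory
open scoped ENNReal

namespace Crest.Agent.R276.SatG_152

open Crest.Agent.R271 Crest.Agent.R271.Defs710 Crest.Agent.R271.Alg255
open Crest.Agent.R276.Mod1_987 Crest.Agent.R276.FKDefs_779 Crest.Agent.R276.BC_986
open Crest.Agent.R276.DivVal_858 Crest.Agent.R276.SatB_210 Crest.Agent.R276.SatC_210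

section div

open IsLocalRing MvPolynomial

variable {L K : Type} [Field L] [Field K] [Algebra ℂ L] [Algebra ℂ K] [Algebra L K]
  [IsScalarTower ℂ L K] {m r : ℕ}

/-- a valuation ring which is divisorial over `L` is divisorial over `ℂ` -/
theorem isDiv_abs (hr : Algebra.trdeg L K = r) (w : Fin m → L) (hw : AlgebraicIndependent ℂ w)
    {R : ValuationSubring K} (hR : IsDiv L r R) : IsDiv ℂ (m + r) R := by
  have hpos := pos_of_isDiv hr R hR
  have halg : ∀ c : ℂ, algebraMap ℂ K c ∈ R := fun c => by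
    rw [IsScalarTower.algebraMap_apply ℂ L K]; exact hR.alg _
  let : Algebra L R := ((algebraMap L K).codRestrict R.toSubring hR.alg).toAlgebra
  let : Algebra ℂ R := ((algebraMap ℂ K).codRestrict R.toSubring halg).toAlgebra
  have : IsScalarTower ℂ L R := IsScalarTower.of_algebraMap_eq (fun c => by
    apply Subtype.ext
    change algebraMap ℂ K c = algebraMap L K (algebraMap ℂ L c)
    exact IsScalarTower.algebraMap_apply ℂ L K c)
  have hkR : ∀ c : ℂ, ((algebraMap ℂ R c : R) : K) = algebraMap ℂ K c := fun c => rfl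
  have hLR : ∀ c : L, ((algebraMap L R c : R) : K) = algebraMap L K c := fun c => rfl
  have : IsScalarTower ℂ L (ResidueField R) := inferInstance
  obtain ⟨x, hx1, hx2⟩ := hR.res
  have hxres : ResInd L R x := ⟨hx1, hx2⟩
  let y : Fin (r - 1) → R := fun i => ⟨x i, hx1 i⟩
  have hy : AlgebraicIndependent L (fun i => residue R (y i)) := (resInd_iff hLR y).1 hxres
  have h7 := hw.sumElim_comp hy
  let z : Fin (r - 1) ⊕ Fin m → R := Sum.elim y (fun i => algebraMap L R (w i))
  have h8 : (fun i => residue R (z i)) =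
      Sum.elim (fun i => residue R (y i)) (algebraMap L (ResidueField R) ∘ w) := by
    funext i
    rcases i with i | i
    · rfl
    · rfl
  have h9 : ResInd ℂ R (fun i => (z i : K)) := by
    rw [resInd_iff hkR z, h8]
    exact h7
  let e : Fin (m + r - 1) ≃ Fin (r - 1) ⊕ Fin m :=
    (finCongr (by omega : m + r - 1 = (r - 1) + m)).trans finSumFinEquiv.symm
  exact ⟨halg, hR.ne_top, _, h9.comp e e.injective⟩

omit [Algebra ℂ L] [IsScalarTower ℂ L K] in
/-- the order of a nonzero element of `L` is zero at a horizontal divisor -/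
lemma ord_zero {n : ℕ} {D : DivModel n K} {R : ValuationSubring K} (hD : D.ModelOf R)
    (hL : ∀ c : L, algebraMap L K c ∈ R) {c : L} {a : ℤ}
    (ha : D.HasOrd (algebraMap L K c) a) : a = 0 := by
  have h1 : 0 ≤ a := (hD.mem_iff ha).1 (hL c)
  have h2 : 0 ≤ -a := by
    have h3 := ha.inv
    rw [← map_inv₀] at h3
    exact (hD.mem_iff h3).1 (hL c⁻¹)
  omega

end div

variable {L K : Type} [Field L] [Field K] [Algebra ℂ L] [Algebra ℂ K] [Algebra L K]
  [IsScalarTower ℂ L K] {m r : ℕ} (R : RMdl L K m r)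

lemma etChart {n : ℕ} (M : Mdl K n) : EtChart ℂ K M.B M.zK := by
  refine ⟨M.B.fg_iff_finiteType.mpr M.ft, ?_, fun i => (M.z i).2, M.het⟩
  intro a
  obtain ⟨b, c, hc, h⟩ := M.frac a
  refine ⟨b, b.2, c, c.2, ?_, ?_⟩
  · intro h0
    exact hc (Subtype.ext h0)
  · rw [h, div_eq_mul_inv]

lemma zK_append (R : RMdl L K m r) : R.MK.zK = Fin.append (fun i => algebraMap L K (R.ML.zK i))
    (fun j => R.MK.zK (Fin.natAdd m j)) := by
  funext i
  refine Fin.addCases (fun i => ?_) (fun j => ?_) i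
  · rw [Fin.append_left, R.z_eq]
  · rw [Fin.append_right]

include R in
lemma isTB_x : IsTranscendenceBasis L (fun j => R.MK.zK (Fin.natAdd m j)) := by
  refine End0_508.isTranscendenceBasis_right (Cmp_595.isTranscendenceBasis R.ML) ?_
  rw [← zK_append]
  exact Cmp_595.isTranscendenceBasis R.MK

include R in
lemma trdeg_rel : Algebra.trdeg L K = r := by
  rw [← (isTB_x R).cardinalMk_eq_trdeg, Cardinal.mk_fin]

include R in
lemma trdeg_L : Algebra.trdeg ℂ L = m := by
  rw [← (Cmp_595.isTranscendenceBasis R.ML).cardinalMk_eq_trdeg, Cardinal.mk_fin]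

include R in
lemma trdeg_K : Algebra.trdeg ℂ K = (m + r : ℕ) := by
  rw [← (Cmp_595.isTranscendenceBasis R.MK).cardinalMk_eq_trdeg, Cardinal.mk_fin]

/-! ### the dictionary -/

/-- regularity at a horizontal divisor, relative and absolute -/
theorem regAt_iff_abs {R₀ : ValuationSubring K} (hR₀ : IsDiv L r R₀)
    (bK : Module.Basis (Fin r) K (Ω[K⁄L]))
    (hbK : ∀ j, bK j = KaehlerDifferential.D L K (R.MK.zK (Fin.natAdd m j))) :
    ∃ (b : Module.Basis (Fin (m + r)) K (Ω[K⁄ℂ])) (D : DivModel (m + r) K),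
      (∀ i, b i = KaehlerDifferential.D ℂ K (R.MK.zK i)) ∧ D.ModelOf R₀ ∧
      ∀ (q : ℕ) (g : K), RegAt L R₀ bK q g ↔ RegAt ℂ R₀ b q g := by
  have hess : Algebra.EssFiniteType ℂ K := Cmp_595.essFiniteType R.MK
  have hcL : CharZero L := charZero_of_injective_algebraMap (algebraMap ℂ L).injective
  have hzL := Cmp_595.isTranscendenceBasis R.ML
  obtain ⟨bL, hbL⟩ := FKB0_143.exists_kbasis hzL
  obtain ⟨b, hb, hb'⟩ := End0_508.exists_adapted hzL (isTB_x R) bL hbL bK hbK
  obtain ⟨-, D, hD, -, hw⟩ := r0_H (trdeg_L R) (trdeg_K R)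
    (isDiv_abs (trdeg_rel R) R.ML.zK hzL.1 hR₀) hR₀.alg R.ML.zK hzL.1
  refine ⟨b, D, fun i => by rw [hb', ← zK_append], hD, fun q g => ?_⟩
  rcases eq_or_ne g 0 with rfl | hg
  · refine iff_of_true ⟨0, fun _ => R₀.zero_mem, by rw [map_zero]; exact zero_le⟩
      (DivModel.regAt_zero R₀ b q)
  obtain ⟨k, hk⟩ := D.exists_hasOrd g hg
  obtain ⟨c, hc⟩ := D.exists_hasOrd _ (DivModel.det_ne_zero D.dw b)
  rw [TCh_858.regAt_H hD hR₀.alg R.ML.zK hw hb hc hk, hD.regAt_iff b hk hc]

end Crest.Agent.R276.SatG_152
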