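import Mathlib
import Crest.Agent.R276.WdB_450
import Crest.Agent.R276.GroLowD_358
import Crest.Agent.R276.FibJ_448
import Crest.Agent.R276.SatG_152
import Crest.Agent.R276.RestrC_236
import Crest.Agent.R276.SkelGeo_220

/-!
# Row 276 (S0419), LGD (helper870): growth of the CY norm `D`

* `lin` : `SatFam` ⇒ the sections are linearly independent over `L`;
* `dn_le` : `D(w) ≤ s! B^s` if all `∫_{Fib w} |u_i|^{2/N} ≤ B`;
* `log_bd` : `log (1 + bd C k l X H)` has logarithmic growth;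
* `lg_mono` : logarithmic growth on a smaller model;
* `ev2_lg` : `log D` has logarithmic growth (both sides) on all sufficiently small relative models;
* `ev_lg` : the same for towers;
* `psi_lg` : for `psi V om`.
-/

set_option autoImplicit false

open Set Filter Topology MeasureTheory
open scoped ENNReal

noncomputable section

namespace Crest.Agent.R276.LgD_870

open Crest.Agent.R271 Crest.Agent.R271.Defs710 Crest.Agent.R271.Alg255 Crest.Agent.R271.Rd692
open Crest.Agent.R271.AlgB956 Crest.Agent.R271.Ho51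
open Crest.Agent.R276.Mod1_987 Crest.Agent.R276.Mod1_987.Mdl Crest.Agent.R276.FKDefs_779
open Crest.Agent.R276.TowA_849 Crest.Agent.R276.FlatDefs_236 Crest.Agent.R276.FlatM_464
open Crest.Agent.R276.CmpR_652 Crest.Agent.R276.Restr_236
open Crest.Agent.R276.FibI_448 (bd Xz Hz one_le_Xz Hz_pos exists_poly_le bd_nonneg)
open Crest.Agent.R276.Wd_450 (lg LG lg_nonneg)
open Crest.Agent.R276.SkelGeo_220
open Crest.Agent.R276.VLevi_327 (hn psi)

variable {L K : Type} [Field L] [Field K] [Algebra ℂ L] [Algebra ℂ K] [Algebra L K]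
  [IsScalarTower ℂ L K] {m r : ℕ}

/-- the sections of a saturated family are linearly independent over `L` -/
theorem lin {R : RMdl L K m r} {N s : ℕ} {u : Fin s → R.MK.B} (H : SatFam R N u) :
    LinearIndependent L fun i => (u i : K) := by
  classical
  rw [Fintype.linearIndependent_iff]
  intro c hc
  -- clear denominators
  obtain ⟨d, hd⟩ := IsLocalization.exist_integer_multiples_of_finset (nonZeroDivisors R.ML.B)
    (Finset.univ.image c)
  have hd' : ∀ i, ∃ a : R.ML.B, algebraMap R.ML.B L a = (d : R.ML.B) • c i := fun i =>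
    hd (c i) (Finset.mem_image_of_mem _ (Finset.mem_univ i))
  choose a ha using hd'
  have hd0 : ((d : R.ML.B) : L) ≠ 0 := by
    intro h0
    have h1 : (d : R.ML.B) = 0 := Subtype.ext h0
    exact nonZeroDivisors.ne_zero d.2 h1
  have ha' : ∀ i, ((a i : R.ML.B) : L) = ((d : R.ML.B) : L) * c i := fun i => ha i
  have hsum : ∑ i, R.incl (a i) * u i = 0 := by
    apply Subtype.ext
    rw [AddSubmonoidClass.coe_finsetSum]
    change ∑ i, algebraMap L K (a i : L) * (u i : K) = 0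
    have h1 : ∀ i, algebraMap L K (a i : L) * (u i : K) =
        algebraMap L K ((d : R.ML.B) : L) * (c i • (u i : K)) := by
      intro i
      rw [ha', map_mul, Algebra.smul_def, mul_assoc]
    rw [Finset.sum_congr rfl fun i _ => h1 i, ← Finset.mul_sum, hc, mul_zero]
  intro i
  have hai : a i = 0 := by
    apply R.ML.ext_of_pts
    intro w
    rw [map_zero]
    have h2 := H.indep w (fun i => w (a i)) (fun y => by
      have h3 := congrArg (fun b : R.MK.B => (y.val : R.MK.B →ₐ[ℂ] ℂ) b) hsum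
      simp only [map_sum, map_mul, map_zero] at h3
      rw [← h3]
      refine Finset.sum_congr rfl fun i _ => ?_
      congr 1
      have h4 := y.q_eq
      exact (DFunLike.congr_fun h4 (a i)).symm)
    exact congrFun h2 i
  have h5 := ha' i
  rw [hai] at h5
  have h6 : ((d : R.ML.B) : L) * c i = 0 := h5.symm
  exact (mul_eq_zero.1 h6).resolve_left hd0

/-- upper bound of `D` by the norms of the `u_i` -/
theorem dn_le {R : RMdl L K m r} {N s : ℕ} (hN : 2 ≤ N) (u : Fin s → R.MK.B) (w : R.ML.Pts)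
    {B : ℝ≥0∞}
    (h : ∀ i, R.fint w (fun y => ENNReal.ofReal (‖y (u i)‖ ^ (2 / (N : ℝ)))) ≤ B) :
    DN N u w ≤ (s.factorial : ℝ≥0∞) * B ^ s := by
  classical
  have hN0 : (0 : ℝ) < N := by
    have : 0 < N := by omega
    exact_mod_cast this
  have hp : (0 : ℝ) < 2 / (N : ℝ) := by positivity
  have hp1 : 2 / (N : ℝ) ≤ 1 := by
    rw [div_le_one hN0]
    exact_mod_cast hN
  have hcont : ∀ b : R.MK.B, Continuous fun y : R.MK.Pts => y b := fun b => continuous_ev b
  have hmeas : ∀ b : R.MK.B, Measurable fun y : R.Fib w => (y.val : R.MK.B →ₐ[ℂ] ℂ) b := fun b =>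
    ((hcont b).comp (RMdl.Fib.continuous_val w)).measurable
  have h1 : ∀ i, ∫⁻ y : R.Fib w, ENNReal.ofReal (‖(y.val : R.MK.B →ₐ[ℂ] ℂ) (u i)‖ ^ (2 / (N : ℝ)))
      ∂(nu R w) ≤ B := by
    intro i
    refine le_trans (le_of_eq ?_) (h i)
    exact (R.fint_eq (nu_leb R w)
      (((hcont (u i)).norm.measurable.pow_const _).ennreal_ofReal)).symm
  have hlf : IsLocallyFiniteMeasure (nu R w) := (nu_leb R w).locallyFinite
  have key : ∀ x : Fin s → R.Fib w,
      ENNReal.ofReal (‖(Matrix.of fun j : Fin s => sg u w (x j)).det‖ ^ (2 / (N : ℝ))) ≤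
      ∑ π : Equiv.Perm (Fin s), ∏ j,
        ENNReal.ofReal (‖((x (π j)).val : R.MK.B →ₐ[ℂ] ℂ) (u j)‖ ^ (2 / (N : ℝ))) := by
    intro x
    have e1 : ∀ z : ℂ, ENNReal.ofReal (‖z‖ ^ (2 / (N : ℝ))) = ‖z‖ₑ ^ (2 / (N : ℝ)) := by
      intro z
      rw [← ENNReal.ofReal_rpow_of_nonneg (norm_nonneg _) hp.le, ofReal_norm]
    simp only [e1]
    rw [Matrix.det_apply]
    refine (ENNReal.rpow_le_rpow (enorm_sum_le _ _) hp.le).trans ?_
    refine (DetB_606.rpow_sum_le _ _ hp hp1).trans (Finset.sum_le_sum fun π _ => ?_)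
    have : ‖Equiv.Perm.sign π • ∏ i, Matrix.of (fun j : Fin s => sg u w (x j)) (π i) i‖ₑ =
        ∏ j, ‖((x (π j)).val : R.MK.B →ₐ[ℂ] ℂ) (u j)‖ₑ := by
      rcases Int.units_eq_one_or (Equiv.Perm.sign π) with h | h <;> rw [h] <;>
        simp [DetB_606.enorm_prod', sg]
    rw [this]
    exact le_of_eq (ENNReal.prod_rpow_of_nonneg hp.le).symm
  refine (lintegral_mono key).trans ?_
  rw [lintegral_finsetSum]
  · have : ∀ π ∈ (Finset.univ : Finset (Equiv.Perm (Fin s))),
        ∫⁻ x : Fin s → R.Fib w, ∏ j,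
          ENNReal.ofReal (‖((x (π j)).val : R.MK.B →ₐ[ℂ] ℂ) (u j)‖ ^ (2 / (N : ℝ)))
          ∂(Measure.pi fun _ => nu R w) ≤ B ^ s := by
      intro π _
      have h2 : ∀ x : Fin s → R.Fib w, ∏ j,
          ENNReal.ofReal (‖((x (π j)).val : R.MK.B →ₐ[ℂ] ℂ) (u j)‖ ^ (2 / (N : ℝ))) =
          ∏ j, (fun i (y : R.Fib w) =>
            ENNReal.ofReal (‖(y.val : R.MK.B →ₐ[ℂ] ℂ) (u (π.symm i))‖ ^ (2 / (N : ℝ)))) j (x j) := by
        intro x
        rw [← Equiv.prod_comp π (fun j => (fun i (y : R.Fib w) =>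
            ENNReal.ofReal (‖(y.val : R.MK.B →ₐ[ℂ] ℂ) (u (π.symm i))‖ ^ (2 / (N : ℝ)))) j (x j))]
        simp
      rw [lintegral_congr h2, DetB_606.lintegral_prod_eq
        (fun i => ((hmeas (u (π.symm i))).norm.pow_const _).ennreal_ofReal)]
      refine (Finset.prod_le_prod' fun i _ => h1 (π.symm i)).trans ?_
      simp
    refine (Finset.sum_le_sum this).trans ?_
    simp [Fintype.card_perm]
  · intro π _
    exact Finset.measurable_prod _ fun i _ =>
      (((hmeas (u i)).comp (measurable_pi_apply (π i))).norm.pow_const _).ennreal_ofReal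

section lg

variable {n : ℕ} {F : Type} [Field F] [Algebra ℂ F] (M : Mdl F n)

lemma lg_eq (y : M.Pts) : lg M y = Real.log (Xz M y) + Real.posLog (Hz M y)⁻¹ := by
  unfold lg Xz Hz
  rfl

lemma le_lg_X (y : M.Pts) : Real.log (Xz M y) ≤ lg M y := by
  rw [lg_eq]
  have := Real.posLog_nonneg (x := (Hz M y)⁻¹)
  linarith

lemma le_lg_H (y : M.Pts) : Real.posLog (Hz M y)⁻¹ ≤ lg M y := by
  rw [lg_eq]
  have := Real.log_nonneg (one_le_Xz M y)
  linarith

/-- `log (1 + C X^k / H^l)` has logarithmic growth -/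
theorem log_bd {C : ℝ} (hC : 0 ≤ C) (k l : ℕ) : ∃ C' : ℝ, 0 ≤ C' ∧ ∀ y : M.Pts,
    Real.log (1 + bd C k l (Xz M y) (Hz M y)) ≤ C' * (1 + lg M y) := by
  refine ⟨Real.log (1 + C) + k + l, by
    have := Real.log_nonneg (show (1 : ℝ) ≤ 1 + C by linarith)
    positivity, fun y => ?_⟩
  have hX := one_le_Xz M y
  have hH := Hz_pos M y
  have hX0 : 0 < Xz M y := by linarith
  set Z : ℝ := max 1 (Hz M y)⁻¹ with hZ
  have hZ1 : 1 ≤ Z := le_max_left _ _
  have hZ0 : 0 < Z := by linarith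
  have h1 : 1 + bd C k l (Xz M y) (Hz M y) ≤ (1 + C) * Xz M y ^ k * Z ^ l := by
    have h2 : bd C k l (Xz M y) (Hz M y) = C * Xz M y ^ k * ((Hz M y)⁻¹) ^ l := by
      unfold bd
      rw [inv_pow, div_eq_mul_inv]
    have h3 : ((Hz M y)⁻¹) ^ l ≤ Z ^ l := pow_le_pow_left₀ (by positivity) (le_max_right _ _) l
    have h4 : (1 : ℝ) ≤ Xz M y ^ k * Z ^ l := by
      calc (1 : ℝ) = 1 * 1 := by ring
        _ ≤ Xz M y ^ k * Z ^ l := mul_le_mul (one_le_pow₀ hX) (one_le_pow₀ hZ1) zero_le_one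
            (by positivity)
    have h5 : C * Xz M y ^ k * ((Hz M y)⁻¹) ^ l ≤ C * Xz M y ^ k * Z ^ l :=
      mul_le_mul_of_nonneg_left h3 (by positivity)
    rw [h2]
    nlinarith
  have hb0 := bd_nonneg (k := k) (l := l) hC hX0.le hH.le
  have h6 : Real.log (1 + bd C k l (Xz M y) (Hz M y)) ≤
      Real.log (1 + C) + k * Real.log (Xz M y) + l * Real.log Z := by
    refine (Real.log_le_log (by linarith) h1).trans (le_of_eq ?_)
    rw [Real.log_mul (by positivity) (by positivity), Real.log_mul (by positivity) (by positivity),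
      Real.log_pow, Real.log_pow]
  have h7 : Real.log Z = Real.posLog (Hz M y)⁻¹ := Wd_450.log_max_one (by positivity)
  rw [h7] at h6
  have h8 := le_lg_X M y
  have h9 := le_lg_H M y
  have h10 := Real.log_nonneg (show (1 : ℝ) ≤ 1 + C by linarith)
  have h11 := lg_nonneg M y
  have hk : (0 : ℝ) ≤ k := Nat.cast_nonneg k
  have hl : (0 : ℝ) ≤ l := Nat.cast_nonneg l
  nlinarith [mul_le_mul_of_nonneg_left h8 hk, mul_le_mul_of_nonneg_left h9 hl,
    mul_nonneg h10 h11]

end lg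

/-! ### smaller models -/

section res

variable {F : Type} [Field F] [Algebra ℂ F] {n n' : ℕ} {M : Mdl F n} {M' : Mdl F n'}

lemma one_add_sum_le {ι : Type*} (S : Finset ι) (f : ι → ℝ) (hf : ∀ i ∈ S, 0 ≤ f i) :
    1 + ∑ i ∈ S, f i ^ 2 ≤ (∏ i ∈ S, (1 + f i)) ^ 2 := by
  classical
  induction S using Finset.induction_on with
  | empty => simp
  | insert i S hi ih =>
    have h1 := ih fun j hj => hf j (Finset.mem_insert_of_mem hj)
    have h2 := hf i (Finset.mem_insert_self i S)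
    rw [Finset.sum_insert hi, Finset.prod_insert hi, mul_pow]
    have h3 : 0 ≤ ∑ j ∈ S, f j ^ 2 := Finset.sum_nonneg fun _ _ => by positivity
    calc 1 + (f i ^ 2 + ∑ j ∈ S, f j ^ 2) ≤ (1 + f i) ^ 2 * (1 + ∑ j ∈ S, f j ^ 2) := by nlinarith
      _ ≤ (1 + f i) ^ 2 * (∏ j ∈ S, (1 + f j)) ^ 2 := by gcongr

/-- the growth function of a model is of logarithmic growth on every smaller model -/
theorem lg_res (hle : M.B ≤ M'.B) : LG M' fun y => lg M (resB hle y) := by
  classical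
  obtain ⟨g, hg⟩ := M.h_unit.exists_right_inv
  set G : Finset M'.B := insert ⟨(g : F), hle g.2⟩
    (Finset.univ.image fun i => (⟨(M.z i : F), hle (M.z i).2⟩ : M'.B)) with hG
  have hnn : ∀ (b : M'.B) (y : M'.Pts), 0 ≤ Real.log (1 + ‖y b‖) := fun b y =>
    Real.log_nonneg (by linarith [norm_nonneg (y b)])
  refine LG.of_elts G (2 * (n + 1)) fun y => ?_
  have hX := one_le_Xz M (resB hle y)
  have h1 : Real.log (Xz M (resB hle y)) ≤
      2 * ∑ i, Real.log (1 + ‖y ⟨(M.z i : F), hle (M.z i).2⟩‖) := by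
    have h2 := one_add_sum_le Finset.univ (fun i => ‖M.pz (resB hle y) i‖)
      (fun i _ => norm_nonneg _)
    have h3 : Real.log (Xz M (resB hle y)) ≤
        Real.log ((∏ i, (1 + ‖M.pz (resB hle y) i‖)) ^ 2) :=
      Real.log_le_log (by linarith) h2
    refine h3.trans (le_of_eq ?_)
    rw [Real.log_pow, Real.log_prod (fun i _ => by positivity)]
    push_cast
    rfl
  have h4 : Real.posLog (Hz M (resB hle y))⁻¹ ≤
      Real.log (1 + ‖y ⟨(g : F), hle g.2⟩‖) := by
    have h5 : (Hz M (resB hle y))⁻¹ = ‖y ⟨(g : F), hle g.2⟩‖ := by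
      have h6 := congrArg (resB hle y) hg
      rw [map_mul, map_one] at h6
      have h7 : ‖(resB hle y) (az M.z M.h)‖ * ‖(resB hle y) g‖ = 1 := by
        rw [← norm_mul, h6, norm_one]
      have h8 : Hz M (resB hle y) = ‖(resB hle y) (az M.z M.h)‖ := by
        unfold Hz
        rw [M.apply_az']
      rw [h8]
      exact (eq_inv_of_mul_eq_one_right h7).symm
    rw [h5]
    show max 0 (Real.log _) ≤ _
    refine max_le (hnn _ y) ?_
    rcases eq_or_lt_of_le (norm_nonneg (y (⟨(g : F), hle g.2⟩ : M'.B))) with h0 | h0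
    · rw [← h0, Real.log_zero]
      simp
    · exact Real.log_le_log h0 (by linarith)
  rw [abs_of_nonneg (lg_nonneg M _), lg_eq]
  have h9 : ∑ i, Real.log (1 + ‖y ⟨(M.z i : F), hle (M.z i).2⟩‖) ≤
      n * ∑ b ∈ G, Real.log (1 + ‖y b‖) := by
    calc ∑ i : Fin n, Real.log (1 + ‖y ⟨(M.z i : F), hle (M.z i).2⟩‖)
        ≤ ∑ _i : Fin n, ∑ b ∈ G, Real.log (1 + ‖y b‖) := by
          refine Finset.sum_le_sum fun i _ => ?_
          refine Finset.single_le_sum (f := fun b : M'.B => Real.log (1 + ‖y b‖))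
            (fun b _ => hnn b y) ?_
          rw [hG]
          exact Finset.mem_insert_of_mem (Finset.mem_image_of_mem _ (Finset.mem_univ i))
      _ = n * ∑ b ∈ G, Real.log (1 + ‖y b‖) := by simp
  have h10 : Real.log (1 + ‖y ⟨(g : F), hle g.2⟩‖) ≤ ∑ b ∈ G, Real.log (1 + ‖y b‖) := by
    refine Finset.single_le_sum (f := fun b : M'.B => Real.log (1 + ‖y b‖))
            (fun b _ => hnn b y) ?_
    rw [hG]
    exact Finset.mem_insert_self _ _
  have h11 : 0 ≤ ∑ b ∈ G, Real.log (1 + ‖y b‖) := Finset.sum_nonneg fun b _ => hnn b y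
  have hn : (0 : ℝ) ≤ n := Nat.cast_nonneg n
  nlinarith

/-- logarithmic growth is inherited by smaller models -/
theorem _root_.Crest.Agent.R276.Wd_450.LG.res {g : M.Pts → ℝ} (hg : LG M g) (hle : M.B ≤ M'.B) :
    LG M' fun y => g (resB hle y) := by
  obtain ⟨C, hC, h⟩ := hg
  refine (((LG.const (M := M') 1).add (lg_res hle)).const_mul C).mono fun y => ?_
  refine (h (resB hle y)).trans (le_abs_self _)

end res

/-! ### the growth of `D` -/

section D

/-- two-sided growth of `log D` on all sufficiently small models -/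
theorem ev2_lg (R : RMdl L K m r) {N s : ℕ} {u : Fin s → R.MK.B} (H : SatFam R N u)
    (bas : Module.Basis (Fin r) K (Ω[K⁄L]))
    (hbas : ∀ j, bas j = KaehlerDifferential.D L K (R.MK.zK (Fin.natAdd m j)))
    (hS : ∀ i, PluriS L bas N (u i : K)) :
    Ev2 R fun R' => ∀ (h : Cmp R R'), (∀ w, Nonempty (R'.Fib w)) →
      LG R'.ML fun w => Real.log (DN N (resU h u) w).toReal := by
  classical
  have hN2 : 2 ≤ N := le_trans (by norm_num) H.N_ge
  have hN : 0 < N := by omega
  have hN0 : (0 : ℝ) < N := by exact_mod_cast hN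
  have hup := Ev2.forall_finset R (Finset.univ : Finset (Fin s))
    (fun i _ => FibI_448.ev2_int_fib R bas hbas hN (hS i))
  obtain ⟨P0, hP0, hlow⟩ := GroLowD_358.gro_low_DD (R := R) u (lin H)
    (p := 2 / (N : ℝ)) (by positivity)
  have hev : Ev2 R fun R' => (∀ w : R'.ML.Pts, MvPolynomial.eval (R'.ML.pz w) P0 ≠ 0) ∧
      P0 ∣ R'.ML.h ∧ R'.ML.zK = R.ML.zK := by
    refine ⟨1, one_ne_zero, fun s _ _ => ⟨P0, hP0, fun p hp hd => ?_⟩⟩
    have h1 : P0 ∣ (R.ML.loc p hp).h := by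
      rw [Mdl.loc_h]
      exact hd.trans (Dvd.intro_left _ rfl)
    refine ⟨fun w => ?_, h1, rfl⟩
    obtain ⟨q, hq⟩ := h1
    have h2 := (R.ML.loc p hp).eval_h_ne w
    rw [hq, map_mul] at h2
    exact left_ne_zero_of_mul h2
  refine (hup.and hev).mono ?_
  rintro R' ⟨hR', hP, hdvd, hz⟩ h hs
  obtain ⟨c, A, B, hc, hl⟩ := hlow P0 dvd_rfl
  -- the upper bound
  have hU : ∃ C' : ℝ, 0 ≤ C' ∧ ∀ w, Real.log (DN N (resU h u) w).toReal ≤ C' * (1 + lg R'.ML w) := by
    have hR'' : ∀ i : Fin s, ∃ (C : ℝ) (k l : ℕ), 0 ≤ C ∧ ∀ w : R'.ML.Pts,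
        R'.fint w (fun y => ENNReal.ofReal (‖y (resU h u i)‖ ^ (2 / (N : ℝ)))) ≤
          ENNReal.ofReal (bd C k l (Xz _ w) (Hz _ w)) := by
      intro i
      obtain ⟨-, C, k, l, hC, hb⟩ := hR' i (Finset.mem_univ i)
      exact ⟨C, k, l, hC, fun w => hb (resU h u i) rfl w⟩
    choose C k l hC hb using hR''
    obtain ⟨C', k', l', hC', hsum⟩ := FibI_448.bd_sum R'.ML Finset.univ C k l fun i _ => hC i
    obtain ⟨E, hE, hlog⟩ := log_bd R'.ML hC' k' l'
    refine ⟨Real.log s.factorial + s * E, by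
      have : 0 ≤ Real.log (s.factorial : ℝ) := Real.log_natCast_nonneg _
      positivity, fun w => ?_⟩
    have h1 : ∀ i, R'.fint w (fun y => ENNReal.ofReal (‖y (resU h u i)‖ ^ (2 / (N : ℝ)))) ≤
        ENNReal.ofReal (1 + bd C' k' l' (Xz _ w) (Hz _ w)) := by
      intro i
      refine (hb i w).trans (ENNReal.ofReal_le_ofReal ?_)
      have h2 : bd (C i) (k i) (l i) (Xz R'.ML w) (Hz R'.ML w) ≤
          ∑ i, bd (C i) (k i) (l i) (Xz R'.ML w) (Hz R'.ML w) :=
        Finset.single_le_sum (f := fun i => bd (C i) (k i) (l i) (Xz R'.ML w) (Hz R'.ML w))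
          (fun i _ => bd_nonneg (hC i) (by linarith [one_le_Xz R'.ML w]) (Hz_pos _ w).le)
          (Finset.mem_univ i)
      linarith [hsum w]
    have h2 := dn_le hN2 (resU h u) w h1
    have hb0 : 0 ≤ bd C' k' l' (Xz R'.ML w) (Hz R'.ML w) :=
      bd_nonneg hC' (by linarith [one_le_Xz R'.ML w]) (Hz_pos _ w).le
    have h3 : (DN N (resU h u) w).toReal ≤
        s.factorial * (1 + bd C' k' l' (Xz R'.ML w) (Hz R'.ML w)) ^ s := by
      refine ENNReal.toReal_le_of_le_ofReal (by positivity) (h2.trans (le_of_eq ?_))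
      rw [ENNReal.ofReal_mul (by positivity), ENNReal.ofReal_natCast,
        ENNReal.ofReal_pow (by linarith)]
    have h4 : 0 < (DN N (resU h u) w).toReal :=
      ENNReal.toReal_pos ((H.cmp h hs).D_pos w).ne' ((H.cmp h hs).D_fin w)
    have hfac : (0 : ℝ) < s.factorial := by exact_mod_cast s.factorial_pos
    refine (Real.log_le_log h4 h3).trans ?_
    rw [Real.log_mul hfac.ne' (by positivity), Real.log_pow]
    have h5 := hlog w
    have h6 : 0 ≤ Real.log (s.factorial : ℝ) := Real.log_natCast_nonneg _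
    have h7 := lg_nonneg R'.ML w
    have h8 : (0 : ℝ) ≤ s := Nat.cast_nonneg s
    nlinarith [mul_le_mul_of_nonneg_left h5 h8, mul_nonneg h6 h7]
  -- the lower bound
  have hL : ∃ C' : ℝ, 0 ≤ C' ∧ ∀ w, -Real.log (DN N (resU h u) w).toReal ≤ C' * (1 + lg R'.ML w) := by
    obtain ⟨Q, hQ⟩ := hdvd
    obtain ⟨E, e, hE, hQb⟩ := exists_poly_le R'.ML Q
    refine ⟨|Real.log c| + A * (1 + Real.log E + e) + B, by
      have := Real.log_nonneg hE
      positivity, fun w => ?_⟩
    have hpz : R.ML.pz (h.rL w) = R'.ML.pz w := by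
      funext i
      show (h.rL w) (R.ML.z i) = w (R'.ML.z i)
      rw [h.rL_apply]
      congr 1
      exact Subtype.ext (congrFun hz i).symm
    have h1 := hl (h.rL w) (by rw [hpz]; exact hP w) (nu R (h.rL w)) (nu_leb R (h.rL w))
    have h2 : DetB_606.DD (nu R (h.rL w)) (2 / (N : ℝ))
        (fun i (y : R.Fib (h.rL w)) => (y.val : R.MK.B →ₐ[ℂ] ℂ) (u i)) = DN N u (h.rL w) := by
      unfold DetB_606.DD DN FlatM_464.DD
      refine lintegral_congr fun x => ?_
      rw [← Matrix.det_transpose, ← ENNReal.ofReal_rpow_of_nonneg (norm_nonneg _) (by positivity),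
        ofReal_norm]
      rfl
    have hdn : DN N u (h.rL w) = DN N (resU h u) w := ((cp_cmp h hs u).dn N w).symm
    rw [h2, hpz, hdn] at h1
    have h4 : 0 < (DN N (resU h u) w).toReal :=
      ENNReal.toReal_pos ((H.cmp h hs).D_pos w).ne' ((H.cmp h hs).D_fin w)
    have h3 : c * ‖MvPolynomial.eval (R'.ML.pz w) P0‖ ^ A / (1 + ∑ i, ‖R'.ML.pz w i‖ ^ 2) ^ B ≤
        (DN N (resU h u) w).toReal := by
      rw [← ENNReal.ofReal_le_iff_le_toReal ((H.cmp h hs).D_fin w)]
      exact h1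
    have hPp : 0 < ‖MvPolynomial.eval (R'.ML.pz w) P0‖ := norm_pos_iff.2 (hP w)
    have hX := one_le_Xz R'.ML w
    have hX' : 0 < Xz R'.ML w := by linarith
    have h5 : Real.log c + A * Real.log ‖MvPolynomial.eval (R'.ML.pz w) P0‖ -
        B * Real.log (Xz R'.ML w) ≤ Real.log (DN N (resU h u) w).toReal := by
      refine le_trans (le_of_eq ?_) (Real.log_le_log ?_ h3)
      · rw [Real.log_div (by positivity) (by
          have : 0 < (1 + ∑ i, ‖R'.ML.pz w i‖ ^ 2) := hX'
          positivity), Real.log_mul hc.ne' (by positivity), Real.log_pow, Real.log_pow]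
        rfl
      · have : 0 < (1 + ∑ i, ‖R'.ML.pz w i‖ ^ 2) := hX'
        positivity
    have h6 : Real.log (Hz R'.ML w) ≤ Real.log ‖MvPolynomial.eval (R'.ML.pz w) P0‖ +
        (Real.log E + e * Real.log (Xz R'.ML w)) := by
      have h7 : Hz R'.ML w ≤ ‖MvPolynomial.eval (R'.ML.pz w) P0‖ * (E * Xz R'.ML w ^ e) := by
        unfold Hz
        rw [hQ, map_mul, norm_mul]
        exact mul_le_mul_of_nonneg_left (hQb w) hPp.le
      refine (Real.log_le_log (Hz_pos _ w) h7).trans (le_of_eq ?_)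
      rw [Real.log_mul hPp.ne' (by positivity), Real.log_mul (by positivity) (by positivity),
        Real.log_pow]
    have h8 : -Real.log (Hz R'.ML w) ≤ lg R'.ML w := by
      refine le_trans ?_ (le_lg_H R'.ML w)
      rw [← Real.log_inv]
      exact le_max_right _ _
    have h9 := le_lg_X R'.ML w
    have h10 := lg_nonneg R'.ML w
    have h11 := Real.log_nonneg hE
    have hA : (0 : ℝ) ≤ A := Nat.cast_nonneg A
    have hB : (0 : ℝ) ≤ B := Nat.cast_nonneg B
    have he : (0 : ℝ) ≤ e := Nat.cast_nonneg e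
    have h12 : -Real.log ‖MvPolynomial.eval (R'.ML.pz w) P0‖ ≤
        (1 + Real.log E + e) * (1 + lg R'.ML w) := by
      nlinarith [mul_le_mul_of_nonneg_left h9 he, mul_nonneg h11 h10]
    have h13 := mul_le_mul_of_nonneg_left h12 hA
    have h14 := mul_le_mul_of_nonneg_left h9 hB
    have h15 := neg_abs_le (Real.log c)
    have h16 := mul_nonneg (abs_nonneg (Real.log c)) h10
    nlinarith
  obtain ⟨C₁, hC₁, hU⟩ := hU
  obtain ⟨C₂, hC₂, hL⟩ := hL
  refine ⟨C₁ + C₂, by positivity, fun w => abs_le.2 ⟨?_, ?_⟩⟩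
  · have h1 := hL w
    have h2 := lg_nonneg R'.ML w
    nlinarith [mul_nonneg hC₁ h2]
  · have h1 := hU w
    have h2 := lg_nonneg R'.ML w
    nlinarith [mul_nonneg hC₂ h2]

end D

/-! ### towers -/

section tower

variable {T : Type} [Field T] [Algebra ℂ T] [Algebra T L] [IsScalarTower ℂ T L] {ρ a : ℕ}

/-- **growth of `D` on the tower** -/
theorem ev_lgD {W : Tow T L K ρ a r} {N d e₀ s e : ℕ} {σ : Fin s → K} {w : Fin (e + 1) → L}
    (h : TowOK W N d e₀ σ w) :
    Ev W fun W' => ∀ hσ : ∀ i, σ i ∈ W'.MK.B,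
      LG W'.ML fun z => Real.log (DR W'.LK N (fr W'.LK σ hσ) z) := by
  have : CharZero L := charZero_of_injective_algebraMap (algebraMap ℂ L).injective
  obtain ⟨X, -⟩ := h.geo
  have hx := SatG_152.isTB_x W.LK
  have hbas : ∀ j, FKB0_143.kbasis hx j =
      KaehlerDifferential.D L K (W.LK.MK.zK (Fin.natAdd (ρ + a) j)) := fun j =>
    FKB0_143.kbasis_apply hx j
  have hS : ∀ i, PluriS L (FKB0_143.kbasis hx) N (σ i) := fun i =>
    h.setup.uhon.honest r _ N _ ((h.span _ hbas (σ i)).2 (Submodule.subset_span ⟨i, rfl⟩))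
  have h1 := ev2_lg W.LK X.sat (FKB0_143.kbasis hx) hbas hS
  refine ((Ev.of_LK h1).and (ev_cmp W W.LK fun _ => rfl)).mono ?_
  rintro W' ⟨h2, h3, h4⟩ hσ
  exact h2 h3 h4

/-- **growth of `psi`** -/
theorem ev_psi {W : Tow T L K ρ a r} {N d e₀ s e : ℕ} {σ : Fin s → K} {w : Fin (e + 1) → L}
    (h : TowOK W N d e₀ σ w) :
    Ev W fun W' => ∀ X : GeoD W'.LK N σ, LG W'.LK.ML (psi X.V X.om) := by
  refine (ev_lgD h).mono fun W' h1 X => ?_
  have h2 := ((LG.const (M := W'.LK.ML) (Real.log X.c)).add (h1 X.mem)).neg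
  refine h2.mono fun z => le_of_eq ?_
  have h3 : 0 < DR W'.LK N (fr W'.LK σ X.mem) z :=
    ENNReal.toReal_pos (X.sat.D_pos z).ne' (X.sat.D_fin z)
  congr 1
  unfold psi
  rw [X.nrm z, Real.log_mul X.c_pos.ne' h3.ne']

end tower

end Crest.Agent.R276.LgD_870
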