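import Mathlib
import Crest.Agent.R276.DescH_327

/-!
# R276, leaf LC4 (helper327): the rank `ν` of `Levi ψ`

One `ν` with both properties used in the counting theorem: `Levi ψ` has rank `≤ ν` everywhere and
there is a good point of rank `ν`.
-/

set_option autoImplicit false
set_option linter.unusedSectionVars false

noncomputable section

open Set Filter Topology Matrix
open Crest.Agent.R271.Ho51 Crest.Agent.R276.Ipc735
open Crest.Agent.R276.LftDefs_327 (WD)

namespace Crest.Agent.R276.NuF_327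

variable {n m N w : ℕ} {M X : Type*} [TopologicalSpace M] [RDom n M] [TopologicalSpace X]
    [RDom m X] {V : VHS m X N w} {om : X → Fin N → ℂ} {u : X → ℂ} {M0 : ℕ} {f : X → M}
    {ι : Fin n → Fin m} {φ ψ : M → ℝ}

/-- **the generic rank of `Levi ψ`** -/
theorem exists_nu [Nonempty M] (h : WD V om u M0 f ι φ ψ) :
    ∃ ν : ℕ, (∀ τ : M, ∃ W : Submodule ℂ (Fin n → ℂ), n ≤ Module.finrank ℂ W + ν ∧
      ∀ v ∈ W, Levi ψ τ v = 0) ∧
      ∀ a : ℝ, 0 < a → Nonempty (CntDefs_857.Good φ (fun τ => a * ψ τ) ν) := by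
  classical
  set P : ℕ → Prop := fun k => ∃ τ : M, ∀ K : Submodule ℂ (Fin n → ℂ),
    (∀ v ∈ K, Levi ψ τ v = 0) → k + Module.finrank ℂ K ≤ n with hP
  have hP0 : P 0 := by
    obtain ⟨τ⟩ := ‹Nonempty M›
    refine ⟨τ, fun K _ => ?_⟩
    rw [zero_add]
    simpa using Submodule.finrank_le K
  have hPn : ∀ k, P k → k ≤ n := by
    rintro k ⟨τ, hτ⟩
    have h1 := hτ ⊥ (fun v hv => by
      rw [Submodule.mem_bot] at hv
      subst hv
      simp [Levi])
    simpa using h1
  set ν := Nat.findGreatest P n with hν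
  have hPν : P ν := Nat.findGreatest_spec (Nat.zero_le n) hP0
  refine ⟨ν, fun τ => ?_, fun a ha => ?_⟩
  · by_contra hcon
    push Not at hcon
    have h1 : P (ν + 1) := by
      refine ⟨τ, fun K hK => ?_⟩
      by_contra h2
      push Not at h2
      obtain ⟨v, hv, hv0⟩ := hcon K (by omega)
      exact hv0 (hK v hv)
    have h2 : ν + 1 ≤ ν := Nat.le_findGreatest (hPn _ h1) h1
    omega
  · obtain ⟨τ, hτ⟩ := hPν
    obtain ⟨x, rfl⟩ := h.surj τ
    exact DescH_327.good h x ha hτ

end Crest.Agent.R276.NuF_327
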