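import Mathlib

/-!
# R276, leaf ALG-NL (helper137): determinants of sums of nonnegative Hermitian matrices

* `det_le_det_add` : `det G ≤ det (G + P)`;
* `block_det` : `det A * det G ≤ det [[A, B], [B*, D + G]]` if `[[A,B],[B*,D]] ≥ 0`, `G ≥ 0`;
* `det_frame` (409's (LA1)), `det_diag` (409's (LA2)), `det_frame_diag` : both together.
-/

set_option autoImplicit false

open Matrix ComplexConjugate
open scoped ComplexOrder MatrixOrder

noncomputable section

namespace Crest.Agent.R276.LinAlg_137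

variable {ι α β : Type*} [Fintype ι] [DecidableEq ι] [Fintype α] [DecidableEq α] [Fintype β]
  [DecidableEq β]

theorem one_le_det_one_add {Q : Matrix ι ι ℂ} (hQ : Q.PosSemidef) : 1 ≤ (1 + Q).det := by
  have h1 := Matrix.eval_charpoly Q (-1)
  rw [hQ.1.charpoly_eq, Polynomial.eval_prod] at h1
  have h2 : Matrix.scalar ι (-1 : ℂ) - Q = (-1 : ℂ) • (1 + Q) := by
    ext i j
    by_cases h : i = j
    · subst h; simp; ring
    · simp [h]
  rw [h2, Matrix.det_smul] at h1
  have h3 : ∏ i, Polynomial.eval (-1) (Polynomial.X - Polynomial.C ((hQ.1.eigenvalues i : ℝ) : ℂ)) =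
      (-1) ^ Fintype.card ι * ∏ i, (1 + ((hQ.1.eigenvalues i : ℝ) : ℂ)) := by
    rw [← Finset.card_univ, ← Finset.prod_const, ← Finset.prod_mul_distrib]
    refine Finset.prod_congr rfl fun i _ => ?_
    simp
    ring
  have h4 : (1 + Q).det = ∏ i, (1 + ((hQ.1.eigenvalues i : ℝ) : ℂ)) := by
    have h5 : ((-1 : ℂ)) ^ Fintype.card ι ≠ 0 := pow_ne_zero _ (by norm_num)
    refine mul_left_cancel₀ h5 ?_
    rw [← h1, ← h3]
    rfl
  rw [h4]
  have h6 : (∏ i, (1 + ((hQ.1.eigenvalues i : ℝ) : ℂ))) =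
      ((∏ i, (1 + hQ.1.eigenvalues i) : ℝ) : ℂ) := by push_cast; rfl
  rw [h6]
  have h7 : (1 : ℝ) ≤ ∏ i, (1 + hQ.1.eigenvalues i) := by
    have : ∀ i ∈ Finset.univ, (1 : ℝ) ≤ 1 + hQ.1.eigenvalues i := fun i _ => by
      linarith [hQ.eigenvalues_nonneg i]
    calc (1 : ℝ) = ∏ _i : ι, (1 : ℝ) := by simp
      _ ≤ ∏ i, (1 + hQ.1.eigenvalues i) := Finset.prod_le_prod (fun _ _ => zero_le_one) this
  exact_mod_cast h7

theorem det_le_det_add {G P : Matrix ι ι ℂ} (hG : G.PosSemidef) (hP : P.PosSemidef) :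
    G.det ≤ (G + P).det := by
  by_cases h0 : G.det = 0
  · rw [h0]; exact (hG.add hP).det_nonneg
  obtain ⟨B, hB⟩ := CStarAlgebra.nonneg_iff_eq_star_mul_self.1 hG.nonneg
  have hBd : B.det ≠ 0 := by
    intro h
    apply h0
    rw [hB, det_mul, h, mul_zero]
  have hu : IsUnit B.det := isUnit_iff_ne_zero.2 hBd
  set Q : Matrix ι ι ℂ := (B⁻¹)ᴴ * P * B⁻¹ with hQ
  have hQp : Q.PosSemidef := hP.conjTranspose_mul_mul_same _
  have h1 : G + P = Bᴴ * (1 + Q) * B := by
    have e1 : Bᴴ * (B⁻¹)ᴴ = 1 := by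
      rw [← conjTranspose_mul, nonsing_inv_mul _ hu, conjTranspose_one]
    have e2 : B⁻¹ * B = 1 := nonsing_inv_mul _ hu
    have e3 : Bᴴ * Q * B = P := by
      rw [hQ]
      calc Bᴴ * ((B⁻¹)ᴴ * P * B⁻¹) * B = (Bᴴ * (B⁻¹)ᴴ) * P * (B⁻¹ * B) := by
            simp only [Matrix.mul_assoc]
        _ = P := by rw [e1, e2, Matrix.one_mul, Matrix.mul_one]
    rw [Matrix.mul_add, Matrix.add_mul, e3, Matrix.mul_one, hB]
    rfl
  have h2 : (G + P).det = (1 + Q).det * G.det := by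
    have h3 : G.det = Bᴴ.det * B.det := by
      rw [hB, star_eq_conjTranspose, det_mul]
    rw [h1, det_mul, det_mul, h3]; ring
  rw [h2]
  exact le_mul_of_one_le_left hG.det_nonneg (one_le_det_one_add hQp)

theorem block_det {A : Matrix α α ℂ} {B : Matrix α β ℂ} {D G : Matrix β β ℂ}
    (h : (fromBlocks A B Bᴴ D).PosSemidef) (hG : G.PosSemidef) :
    A.det * G.det ≤ (fromBlocks A B Bᴴ (D + G)).det := by
  have hA : A.PosSemidef := by
    have := h.submatrix (Sum.inl : α → α ⊕ β)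
    have e : (fromBlocks A B Bᴴ D).submatrix (Sum.inl : α → α ⊕ β) Sum.inl = A := by
      ext i j; rfl
    rwa [e] at this
  have hG' : (fromBlocks (0 : Matrix α α ℂ) 0 0 G).PosSemidef := by
    have h1 : fromBlocks (0 : Matrix α α ℂ) 0 0 G =
        (fromCols (0 : Matrix β α ℂ) (1 : Matrix β β ℂ))ᴴ * G *
          fromCols (0 : Matrix β α ℂ) (1 : Matrix β β ℂ) := by
      ext i j
      rcases i with i | i <;> rcases j with j | j <;>
        simp [Matrix.mul_apply, fromCols, Matrix.one_apply]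
    rw [h1]
    exact hG.conjTranspose_mul_mul_same _
  have hsum : fromBlocks A B Bᴴ (D + G) = fromBlocks A B Bᴴ D +
      fromBlocks (0 : Matrix α α ℂ) 0 0 G := by
    rw [fromBlocks_add]; simp
  by_cases h0 : A.det = 0
  · rw [h0, zero_mul, hsum]; exact (h.add hG').det_nonneg
  have hAd : A.PosDef := hA.posDef_iff_det_ne_zero.2 h0
  have hu : IsUnit A.det := isUnit_iff_ne_zero.2 h0
  let : Invertible A := A.invertibleOfIsUnitDet hu
  have hS : (D - Bᴴ * A⁻¹ * B).PosSemidef := (Matrix.PosDef.fromBlocks₁₁ B D hAd).1 h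
  rw [det_fromBlocks₁₁, ← Matrix.invOf_eq_nonsing_inv] at *
  have e1 : D + G - Bᴴ * ⅟A * B = G + (D - Bᴴ * ⅟A * B) := by abel
  rw [e1]
  exact mul_le_mul_of_nonneg_left (det_le_det_add hG (by simpa using hS)) hA.det_nonneg

theorem block_det' {M : Matrix (α ⊕ β) (α ⊕ β) ℂ} {G : Matrix β β ℂ} (hM : M.PosSemidef)
    (hG : G.PosSemidef) :
    M.toBlocks₁₁.det * G.det ≤ (M + fromBlocks (0 : Matrix α α ℂ) 0 0 G).det := by
  have hB : M.toBlocks₂₁ = M.toBlocks₁₂ᴴ := by
    ext i j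
    have := congrFun (congrFun hM.1 (Sum.inr i)) (Sum.inl j)
    rw [conjTranspose_apply] at this
    exact this.symm
  have h1 : M = fromBlocks M.toBlocks₁₁ M.toBlocks₁₂ M.toBlocks₁₂ᴴ M.toBlocks₂₂ := by
    conv_lhs => rw [← fromBlocks_toBlocks M, hB]
  have h2 : (fromBlocks M.toBlocks₁₁ M.toBlocks₁₂ M.toBlocks₁₂ᴴ M.toBlocks₂₂).PosSemidef := by
    rw [← h1]; exact hM
  have h3 := block_det h2 hG
  have h4 : M + fromBlocks (0 : Matrix α α ℂ) 0 0 G =
      fromBlocks M.toBlocks₁₁ M.toBlocks₁₂ M.toBlocks₁₂ᴴ (M.toBlocks₂₂ + G) := by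
    conv_lhs => rw [h1]
    rw [fromBlocks_add]; simp
  rw [h4]; exact h3

/-- (LA1) in block form: rows `X i = (e_i, F_i)` with `X G = 0` -/
theorem det_frame_aux {G Om : Matrix (α ⊕ β) (α ⊕ β) ℂ} (hG : G.PosSemidef) (hOm : Om.PosSemidef)
    (F : Matrix α β ℂ) (hker : fromCols (1 : Matrix α α ℂ) F * G = 0) :
    (fromCols (1 : Matrix α α ℂ) F * Om * (fromCols (1 : Matrix α α ℂ) F)ᴴ).det *
      G.toBlocks₂₂.det ≤ (G + Om).det := by
  set X := fromCols (1 : Matrix α α ℂ) F with hX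
  set E := fromCols (0 : Matrix β α ℂ) (1 : Matrix β β ℂ) with hE
  set T : Matrix (α ⊕ β) (α ⊕ β) ℂ := fromRows X E with hT
  have hTd : T.det = 1 := by
    rw [hT, hX, hE, fromRows_fromCols_eq_fromBlocks, det_fromBlocks_zero₂₁]; simp
  have hker' : G * Xᴴ = 0 := by
    have h := congrArg conjTranspose hker
    rw [conjTranspose_mul, hG.1, conjTranspose_zero] at h
    exact h
  have hEG : E * G * Eᴴ = G.toBlocks₂₂ := by
    ext i j
    simp [hE, Matrix.mul_apply, fromCols, Matrix.one_apply, toBlocks₂₂]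
  have h1 : T * G * Tᴴ = fromBlocks (0 : Matrix α α ℂ) 0 0 G.toBlocks₂₂ := by
    rw [hT, conjTranspose_fromRows_eq_fromCols_conjTranspose, fromRows_mul, fromRows_mul_fromCols,
      hker, hEG, Matrix.mul_assoc E G Xᴴ, hker']
    simp
  have h2 : (T * Om * Tᴴ).toBlocks₁₁ = X * Om * Xᴴ := by
    rw [hT, conjTranspose_fromRows_eq_fromCols_conjTranspose, fromRows_mul, fromRows_mul_fromCols,
      toBlocks_fromBlocks₁₁]
  have h3 : (T * Om * Tᴴ).PosSemidef := hOm.mul_mul_conjTranspose_same T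
  have hGy : G.toBlocks₂₂.PosSemidef := by
    rw [← hEG]; exact hG.mul_mul_conjTranspose_same E
  have h4 := block_det' h3 hGy
  rw [h2, ← h1] at h4
  have h5 : T * Om * Tᴴ + T * G * Tᴴ = T * (G + Om) * Tᴴ := by
    rw [Matrix.mul_add, Matrix.add_mul, add_comm]
  rw [h5, det_mul, det_mul, hTd, one_mul, det_conjTranspose, hTd, star_one, mul_one] at h4
  exact h4

/-- (LA1): `X i` has the coordinates `δ` on `α`, `Σ_j X i j G j k = 0` -/
theorem det_frame (e : ι ≃ α ⊕ β) {G Om : Matrix ι ι ℂ} (hG : G.PosSemidef) (hOm : Om.PosSemidef)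
    (X : Matrix α ι ℂ) (hX : ∀ i j, X i (e.symm (Sum.inl j)) = if i = j then 1 else 0)
    (hker : X * G = 0) :
    (X * Om * Xᴴ).det * (G.submatrix (e.symm ∘ Sum.inr) (e.symm ∘ Sum.inr)).det ≤
      (G + Om).det := by
  have hX' : X.submatrix id e.symm = fromCols (1 : Matrix α α ℂ)
      (X.submatrix id (e.symm ∘ Sum.inr)) := by
    ext i j
    rcases j with j | j
    · simp [hX, Matrix.one_apply]
    · simp
  have h1 : X.submatrix id e.symm * G.submatrix e.symm e.symm = 0 := by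
    rw [submatrix_mul_equiv, hker]; rfl
  rw [hX'] at h1
  have h2 := det_frame_aux (hG.submatrix e.symm) (hOm.submatrix e.symm) _ h1
  rw [← hX', conjTranspose_submatrix, submatrix_mul_equiv, submatrix_mul_equiv] at h2
  have h3 : (G.submatrix e.symm e.symm).toBlocks₂₂ =
      G.submatrix (e.symm ∘ Sum.inr) (e.symm ∘ Sum.inr) := by
    ext i j; rfl
  have h4 : (G.submatrix e.symm e.symm + Om.submatrix e.symm e.symm).det = (G + Om).det := by
    rw [show G.submatrix e.symm e.symm + Om.submatrix e.symm e.symm =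
      (G + Om).submatrix e.symm e.symm from rfl, det_submatrix_equiv_self]
  rw [h3, h4, submatrix_id_id] at h2
  exact h2

/-- (LA2) -/
theorem det_diag {W : Matrix α α ℂ} (hW : W.PosSemidef) (s : α → ℝ) (i₀ : α) (hs : ∀ i, 0 ≤ s i)
    (hs0 : s i₀ = 0) :
    W i₀ i₀ * ∏ i ∈ Finset.univ.erase i₀, (s i : ℂ) ≤ (W + diagonal fun i => (s i : ℂ)).det := by
  set e : {i // i = i₀} ⊕ {i // ¬ i = i₀} ≃ α := Equiv.sumCompl (fun i => i = i₀) with he
  have h0 : (diagonal fun i => (s i : ℂ)).submatrix e e =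
      fromBlocks (0 : Matrix {i // i = i₀} {i // i = i₀} ℂ) 0 0
        (diagonal fun i : {i // ¬ i = i₀} => (s i.1 : ℂ)) := by
    ext i j
    rw [submatrix_apply, diagonal_apply]
    rcases i with i | i <;> rcases j with j | j
    · rw [fromBlocks_apply₁₁]
      split_ifs with h
      · have : e (Sum.inl i) = i₀ := i.2
        rw [this, hs0]; simp
      · rfl
    · have hne : e (Sum.inl i) ≠ e (Sum.inr j) := fun h => j.2 (by
        have h5 : (i : α) = j := h
        rw [← h5]; exact i.2)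
      rw [if_neg hne]; rfl
    · have hne : e (Sum.inr i) ≠ e (Sum.inl j) := fun h => i.2 (by
        have h5 : (i : α) = j := h
        rw [h5]; exact j.2)
      rw [if_neg hne]; rfl
    · rw [fromBlocks_apply₂₂, diagonal_apply]
      by_cases h : i = j
      · subst h; simp; rfl
      · have hne : e (Sum.inr i) ≠ e (Sum.inr j) := fun h' => h (Subtype.ext h')
        rw [if_neg hne, if_neg h]
  have h1 : (W + diagonal fun i => (s i : ℂ)).submatrix e e = W.submatrix e e +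
      fromBlocks (0 : Matrix {i // i = i₀} {i // i = i₀} ℂ) 0 0
        (diagonal fun i : {i // ¬ i = i₀} => (s i.1 : ℂ)) := by
    rw [← h0]; rfl
  have h2 : (diagonal fun i : {i // ¬ i = i₀} => (s i.1 : ℂ)).PosSemidef :=
    PosSemidef.diagonal fun i => by
      have := hs i.1
      show (0 : ℂ) ≤ (s i.1 : ℂ)
      exact_mod_cast this
  have h3 := block_det' (hW.submatrix e) h2
  rw [← h1, det_submatrix_equiv_self] at h3
  have h4 : (W.submatrix e e).toBlocks₁₁.det = W i₀ i₀ := by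
    rw [det_unique]
    rfl
  have h5 : (diagonal fun i : {i // ¬ i = i₀} => (s i.1 : ℂ)).det =
      ∏ i ∈ Finset.univ.erase i₀, (s i : ℂ) := by
    rw [det_diagonal]
    rw [← Finset.prod_subtype (Finset.univ.erase i₀) (p := fun i => ¬ i = i₀)
      (f := fun i => (s i : ℂ))]
    intro x; simp
  rw [h4, h5] at h3
  exact h3

/-- (LA1) and (LA2) together -/
theorem det_frame_diag (e : ι ≃ α ⊕ β) {G Om : Matrix ι ι ℂ} (hG : G.PosSemidef)
    (hOm : Om.PosSemidef) (X : Matrix α ι ℂ)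
    (hX : ∀ i j, X i (e.symm (Sum.inl j)) = if i = j then 1 else 0) (hker : X * G = 0)
    (s : α → ℝ) (i₀ : α) (hs : ∀ i, 0 ≤ s i) (hs0 : s i₀ = 0) (S : ι → ℂ)
    (hS1 : ∀ i, S (e.symm (Sum.inl i)) = s i) (hS2 : ∀ b, S (e.symm (Sum.inr b)) = 0) :
    (X * Om * Xᴴ) i₀ i₀ * (∏ i ∈ Finset.univ.erase i₀, (s i : ℂ)) *
      (G.submatrix (e.symm ∘ Sum.inr) (e.symm ∘ Sum.inr)).det ≤ (G + (Om + diagonal S)).det := by
  have hSn : ∀ l, 0 ≤ S l := by
    intro l
    obtain ⟨m, rfl⟩ := e.symm.surjective l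
    rcases m with i | b
    · rw [hS1]; exact_mod_cast hs i
    · rw [hS2]
  have hd : (diagonal S).PosSemidef := PosSemidef.diagonal hSn
  have h1 := det_frame e hG (hOm.add hd) X hX hker
  have h2 : X * (Om + diagonal S) * Xᴴ = X * Om * Xᴴ + diagonal fun i => (s i : ℂ) := by
    rw [Matrix.mul_add, Matrix.add_mul]
    congr 1
    ext i k
    rw [Matrix.mul_apply]
    simp only [mul_diagonal, conjTranspose_apply]
    rw [← e.symm.sum_comp, Fintype.sum_sum_type]
    simp only [hS1, hS2, mul_zero, zero_mul, Finset.sum_const_zero, add_zero, hX]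
    rw [diagonal_apply]
    by_cases hik : i = k
    · subst hik; simp
    · simp [hik]
  rw [h2] at h1
  have h3 := det_diag (hOm.mul_mul_conjTranspose_same X) s i₀ hs hs0
  have h4 : 0 ≤ (G.submatrix (e.symm ∘ Sum.inr) (e.symm ∘ Sum.inr)).det :=
    (hG.submatrix _).det_nonneg
  exact (mul_le_mul_of_nonneg_right h3 h4).trans h1

end Crest.Agent.R276.LinAlg_137
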