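import Crest.Agent.R276.Mass_137
import Crest.Agent.R276.LinAlg_137

/-!
# R276, leaf ALG-MASS (helper137), part 5: the finite mass theorem in the form of 409's (MASS)

* `mass_h` : `∫_{d>0} det (Lv (log d) + Lv Ψ) dμ < ∞` for `d` with `log d` psh of growth
  `log d ≤ C + C log (1+|z|²) + C log⁺ |h|⁻¹`, `Ψ` smooth psh of logarithmic growth on `ℂⁿ`;
* `mass_frame` : the version with a frame `X_i` of the kernel.
-/

set_option autoImplicit false
set_option linter.unusedSectionVars false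

noncomputable section

open Set Filter Topology MeasureTheory ComplexConjugate
open scoped Matrix ENNReal

namespace Crest.Agent.R276.NL_137

open Crest.Agent.R271.Ho51

attribute [local instance] flat

variable {n : ℕ}

/-! ### `log (1 + |z_j|²)` -/

/-- `1 + |z_j|²` -/
def rj (j : Fin n) (z : Fin n → ℂ) : ℝ := 1 + ‖z j‖ ^ 2

lemma rj_pos (j : Fin n) (z : Fin n → ℂ) : 0 < rj j z := by unfold rj; positivity

lemma rj_contDiff (j : Fin n) : ContDiff ℝ (⊤ : ℕ∞) (rj j) :=
  contDiff_const.add ((contDiff_apply ℝ ℂ j).norm_sq ℝ)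

lemma Sm_rj (j : Fin n) : Sm (rj j) := Sm_flat (rj_contDiff j)

/-- `log (1 + |z_j|²)` -/
def Lj (j : Fin n) (z : Fin n → ℂ) : ℝ := Real.log (rj j z)

lemma Sm_Lj (j : Fin n) : Sm (Lj j) :=
  Sm_flat ((rj_contDiff j).log fun z => (rj_pos j z).ne')

lemma rj_eq (j : Fin n) : (fun z : Fin n → ℂ => ((rj j z : ℝ) : ℂ)) =
    fun z => 1 + conj (cf j z) * cf j z := by
  funext z
  simp only [rj, cf]
  push_cast
  rw [← Complex.conj_mul' (z j)]

lemma db_rj (j k : Fin n) (z : Fin n → ℂ) : db k (fun z => ((rj j z : ℝ) : ℂ)) z =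
    if k = j then z j else 0 := by
  rw [rj_eq, db_add (Sm.const 1) ((Sm_cf j).conj.mul (Sm_cf j)), db_const,
    db_mul (Sm_cf j).conj (Sm_cf j), db_conj (Sm_cf j), dz_cf, db_cf, mul_zero, add_zero, zero_add]
  by_cases h : k = j
  · simp [h, cf]
  · simp [h]

lemma dz_rj (j k : Fin n) (z : Fin n → ℂ) : dz k (fun z => ((rj j z : ℝ) : ℂ)) z =
    if k = j then conj (z j) else 0 := by
  have h := db_ofReal (Sm_rj j) k z
  rw [db_rj] at h
  have h2 := congrArg conj h
  rw [Complex.conj_conj] at h2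
  rw [← h2]
  split_ifs <;> simp

lemma Lv_Lj (j k l : Fin n) (z : Fin n → ℂ) : Lv (Lj j) z k l =
    if k = j ∧ l = j then (((rj j z)⁻¹ ^ 2 : ℝ) : ℂ) else 0 := by
  have hr : ∀ z : Fin n → ℂ, 0 < rj j z := rj_pos j
  have hinv : Sm (fun z : Fin n → ℂ => (rj j z)⁻¹) :=
    Sm_flat ((rj_contDiff j).inv fun z => (hr z).ne')
  have h1 : db l (fun z => ((Lj j z : ℝ) : ℂ)) = fun z => (((rj j z)⁻¹ : ℝ) : ℂ) *
      (if l = j then cf j z else 0) := by
    funext y
    have h2 := db_comp_real (f := rj j) (g := Real.log) (g' := (rj j y)⁻¹) (Sm_rj j) (Sm_Lj j) y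
      (Real.hasDerivAt_log (hr y).ne') l
    rw [db_rj] at h2
    exact h2
  unfold Lv
  rw [h1]
  by_cases hl : l = j
  · simp only [hl, if_true, and_true]
    rw [dz_mul hinv.ofReal (Sm_cf j), dz_cf]
    have h3 := dz_comp_real (f := rj j) (g := fun t => t⁻¹) (g' := -(rj j z ^ 2)⁻¹) (Sm_rj j) hinv z
      (hasDerivAt_inv (hr z).ne') k
    rw [dz_rj] at h3
    rw [h3]
    by_cases hk : k = j
    · simp only [hk, if_true, cf]
      have h4 : (rj j z : ℂ) ≠ 0 := by exact_mod_cast (hr z).ne'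
      have h5 : conj (z j) * z j = (rj j z : ℂ) - 1 := by
        rw [Complex.conj_mul']; simp [rj]
      push_cast
      have h6 : -((rj j z : ℂ) ^ 2)⁻¹ * conj (z j) * z j = -((rj j z : ℂ) ^ 2)⁻¹ * ((rj j z : ℂ) - 1) := by
        rw [mul_assoc, h5]
      rw [h6]
      field_simp
      ring
    · simp [hk]
  · simp [hl, dz_const]

lemma Levi_Lj_nonneg (j : Fin n) (z w : Fin n → ℂ) : 0 ≤ Levi (Lj j) z w := by
  have h : Levi (Lj j) z w = (rj j z)⁻¹ ^ 2 * ‖w j‖ ^ 2 := by
    unfold Levi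
    have h1 : ∑ k, ∑ l, Lv (Lj j) z k l * w k * conj (w l) =
        (((rj j z)⁻¹ ^ 2 * ‖w j‖ ^ 2 : ℝ) : ℂ) := by
      rw [Finset.sum_eq_single j, Finset.sum_eq_single j]
      · rw [Lv_Lj]
        simp only [and_self, if_true]
        push_cast
        rw [← Complex.mul_conj']; ring
      · intro l _ hl; rw [Lv_Lj]; simp [hl]
      · simp
      · intro k _ hk
        refine Finset.sum_eq_zero fun l _ => ?_
        rw [Lv_Lj]; simp [hk]
      · simp
    rw [h1, Complex.ofReal_re]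
  rw [h]; positivity

lemma Lj_le (j : Fin n) (z : Fin n → ℂ) : Lj j z ≤ Lg z := by
  unfold Lj Lg
  refine Real.log_le_log (rj_pos j z) ?_
  unfold rj nsq
  have := Finset.single_le_sum (f := fun i => ‖z i‖ ^ 2) (fun i _ => by positivity)
    (Finset.mem_univ j)
  linarith

lemma Lv_sum {M : Type*} [TopologicalSpace M] [RDom n M] {ι : Type*} (s : Finset ι)
    {φ : ι → M → ℝ} (hφ : ∀ i, Sm (φ i)) (x : M) (j k : Fin n) :
    Lv (fun y => ∑ i ∈ s, φ i y) x j k = ∑ i ∈ s, Lv (φ i) x j k := by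
  classical
  induction s using Finset.induction_on with
  | empty => simpa using Lv_const (M := M) 0 x j k
  | insert a s ha ih =>
    simp only [Finset.sum_insert ha]
    rw [Lv_add (hφ a) (Sm.sum fun i _ => hφ i), ih]

lemma Levi_sum {M : Type*} [TopologicalSpace M] [RDom n M] {ι : Type*} (s : Finset ι)
    {φ : ι → M → ℝ} (hφ : ∀ i, Sm (φ i)) (x : M) (w : Fin n → ℂ) :
    Levi (fun y => ∑ i ∈ s, φ i y) x w = ∑ i ∈ s, Levi (φ i) x w := by
  classical
  induction s using Finset.induction_on with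
  | empty => simpa using Levi_const (M := M) 0 x w
  | insert a s ha ih =>
    simp only [Finset.sum_insert ha]
    rw [Levi_add (hφ a) (Sm.sum fun i _ => hφ i), ih]

/-! ### `log |F|²` is pluriharmonic -/

section logh

variable {M : Type*} [TopologicalSpace M] [RDom n M]

lemma Sm_normSq {F : M → ℂ} (hF : Sm F) : Sm (fun x => ‖F x‖ ^ 2) := by
  have h1 : Sm (fun x => Complex.reCLM (F x * conj (F x))) :=
    (hF.mul hF.conj).clm Complex.reCLM
  have h2 : (fun x => ‖F x‖ ^ 2) = fun x => Complex.reCLM (F x * conj (F x)) := by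
    funext x
    rw [Complex.mul_conj, Complex.normSq_eq_norm_sq, Complex.reCLM_apply, Complex.ofReal_re]
  rw [h2]; exact h1

lemma Sm_log {f : M → ℝ} (hf : Sm f) (h0 : ∀ x, 0 < f x) : Sm (fun x => Real.log (f x)) :=
  Sm.comp_at hf fun x => Real.contDiffAt_log.2 (h0 x).ne'

lemma Sm_inv {f : M → ℝ} (hf : Sm f) (h0 : ∀ x, 0 < f x) : Sm (fun x => (f x)⁻¹) :=
  Sm.comp_at hf fun x => contDiffAt_inv ℝ (h0 x).ne'

theorem Lv_log_normSq {F : M → ℂ} (hF : Sm F) (hdb : ∀ k x, db k F x = 0) (h0 : ∀ x, F x ≠ 0)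
    (x : M) (j k : Fin n) : Lv (fun y => Real.log (‖F y‖ ^ 2)) x j k = 0 := by
  have hN : Sm (fun x => ‖F x‖ ^ 2) := Sm_normSq hF
  have hN0 : ∀ x, 0 < ‖F x‖ ^ 2 := fun x => by
    have := norm_pos_iff.2 (h0 x)
    positivity
  have hinv : Sm (fun x => (‖F x‖ ^ 2)⁻¹) := Sm_inv hN hN0
  -- q = ∂_k F / F
  set q : M → ℂ := fun y => (((‖F y‖ ^ 2)⁻¹ : ℝ) : ℂ) * conj (F y) * dz k F y with hq
  have hqs : Sm q := (hinv.ofReal.mul hF.conj).mul (hF.dz k)
  have hqF : ∀ y, q y * F y = dz k F y := by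
    intro y
    simp only [hq]
    have h1 : conj (F y) * F y = ((‖F y‖ ^ 2 : ℝ) : ℂ) := by
      rw [Complex.conj_mul']; push_cast; rfl
    have h2 : ((‖F y‖ ^ 2 : ℝ) : ℂ) ≠ 0 := by exact_mod_cast (hN0 y).ne'
    calc (((‖F y‖ ^ 2)⁻¹ : ℝ) : ℂ) * conj (F y) * dz k F y * F y =
        (((‖F y‖ ^ 2)⁻¹ : ℝ) : ℂ) * (conj (F y) * F y) * dz k F y := by ring
      _ = dz k F y := by
        rw [h1, Complex.ofReal_inv, inv_mul_cancel₀ h2, one_mul]
  have hdq : db j q x = 0 := by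
    have h1 : db j (fun y => q y * F y) x = db j (dz k F) x := by
      apply db_congr
      exact Eventually.of_forall hqF
    rw [db_mul hqs hF, hdb, mul_zero, add_zero, ← dz_db_comm hF] at h1
    have h2 : dz k (db j F) x = 0 := by
      have : db j F = fun _ => (0 : ℂ) := funext fun y => hdb j y
      rw [this, dz_const]
    rw [h2] at h1
    exact (mul_eq_zero.1 h1).resolve_right (h0 x)
  have h1 : db k (fun y => ((Real.log (‖F y‖ ^ 2) : ℝ) : ℂ)) = fun y => conj (q y) := by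
    funext y
    have h2 := db_comp_real (f := fun x => ‖F x‖ ^ 2) (g := Real.log) (g' := (‖F y‖ ^ 2)⁻¹) hN
      (Sm_log hN hN0) y (Real.hasDerivAt_log (hN0 y).ne') k
    rw [h2]
    have h3 : db k (fun x => ((‖F x‖ ^ 2 : ℝ) : ℂ)) y = F y * conj (dz k F y) := by
      have h4 : (fun x => ((‖F x‖ ^ 2 : ℝ) : ℂ)) = fun x => F x * conj (F x) := by
        funext x; rw [Complex.mul_conj']; push_cast; rfl
      rw [h4, db_mul hF hF.conj, hdb, zero_mul, zero_add, db_conj hF]
    rw [h3]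
    simp only [hq, map_mul, Complex.conj_conj, Complex.conj_ofReal]
    ring
  unfold Lv
  rw [h1, dz_conj hqs, hdq, map_zero]

lemma db_hol [T2Space M] {h : (Fin n → ℂ) → ℂ} (hh : Differentiable ℂ h) (k : Fin n) (x : M) :
    db k (fun y : M => h (cp y)) x = 0 := by
  rw [db_coord, db_eq, D_flat]
  have h1 : fderiv ℝ h (cp x) = (fderiv ℂ h (cp x)).restrictScalars ℝ :=
    (hh (cp x)).fderiv_restrictScalars ℝ
  rw [h1]
  simp only [ContinuousLinearMap.coe_restrictScalars']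
  have h2 : (Pi.single k Complex.I : Fin n → ℂ) = Complex.I • Pi.single k 1 := by
    rw [← Pi.single_smul]; simp
  rw [h2, map_smul, smul_eq_mul, ← mul_assoc, Complex.I_mul_I]
  ring

end logh

/-! ### the finite mass theorem with a boundary function `h` -/

section massh

variable {M : Type*} [TopologicalSpace M] [RDom n M] [T2Space M] [SecondCountableTopology M]
  [MeasurableSpace M] [BorelSpace M] {μ : Measure M}

/-- the data of the finite mass theorem -/
structure MData (M : Type*) [TopologicalSpace M] [RDom n M] where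
  /-- bound of the fibres -/
  N : ℕ
  hN : ∀ z : Fin n → ℂ, ((cp : M → (Fin n → ℂ)) ⁻¹' {z}).encard ≤ N
  /-- the boundary function -/
  h : (Fin n → ℂ) → ℂ
  hh : Differentiable ℂ h
  hs : ContDiff ℝ (⊤ : ℕ∞) h
  h0 : ∀ x : M, h (cp x) ≠ 0
  /-- growth constant -/
  C : ℝ
  hC : 0 ≤ C
  hgh : ∀ x : M, Real.log ‖h (cp x)‖ ≤ C + C * Lg (cp x)
  hprop : ∀ R δ : ℝ, 0 < δ → IsCompact {x : M | nsq (cp x) ≤ R ∧ δ ≤ ‖h (cp x)‖}
  /-- `log d` is the psh function -/
  d : M → ℝ
  sd : Sm d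
  hpsh : ∀ x, 0 < d x → ∀ w, 0 ≤ Levi (fun y => Real.log (d y)) x w
  hgr : ∀ x, 0 < d x → Real.log (d x) ≤ C + C * Lg (cp x) + C * Real.posLog ‖h (cp x)‖⁻¹

variable (P : MData (n := n) M)

lemma MData.split (P : MData (n := n) M) {Ψ : (Fin n → ℂ) → ℝ} (hΨ : Sm Ψ) (k : ℕ) {x : M}
    (hx : 0 < P.d x) (i j : Fin n) :
    Lv (fun y : M => Real.log (P.d y * (‖P.h (cp y)‖ ^ 2) ^ k * Real.exp (Ψ (cp y)))) x i j =
      Lv (fun y => Real.log (P.d y)) x i j + Lv Ψ (cp x) i j := by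
  obtain ⟨J, hJ⟩ := log_eq_VL P.sd.continuous hx
  have hF : Sm (fun y : M => P.h (cp y)) := Sm.of_coord P.hs
  have hN0 : ∀ y : M, 0 < ‖P.h (cp y)‖ ^ 2 := fun y => by
    have := norm_pos_iff.2 (P.h0 y)
    positivity
  have hH : Sm (fun y : M => Real.log (‖P.h (cp y)‖ ^ 2)) := Sm_log (Sm_normSq hF) hN0
  have hΨs : Sm (fun y : M => Ψ (cp y)) := Sm.of_coord (Sm_flat_iff.1 hΨ)
  have hV : Sm (fun y => VL J (P.d y)) := Sm.comp (VL_contDiff J) P.sd
  have h1 : (fun y : M => Real.log (P.d y * (‖P.h (cp y)‖ ^ 2) ^ k * Real.exp (Ψ (cp y))))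
      =ᶠ[𝓝 x] fun y => (VL J (P.d y) + k * Real.log (‖P.h (cp y)‖ ^ 2)) + Ψ (cp y) := by
    filter_upwards [hJ, P.sd.continuous.continuousAt.eventually (lt_mem_nhds hx)] with y hy hy0
    rw [← hy, Real.log_mul (mul_pos hy0 (pow_pos (hN0 y) k)).ne' (Real.exp_pos _).ne',
      Real.log_mul hy0.ne' (pow_pos (hN0 y) k).ne', Real.log_exp, Real.log_pow]
  rw [Lv_congr h1, Lv_add (hV.add ((Sm.const (k : ℝ)).mulR hH)) hΨs,
    Lv_add hV ((Sm.const (k : ℝ)).mulR hH), Lv_const_mul hH,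
    Lv_log_normSq hF (fun k x => db_hol P.hh k x) P.h0, mul_zero, add_zero, Lv_coord, Lv_congr hJ]

/-- **finite mass** with an auxiliary psh function `Ψ` of logarithmic growth on `ℂⁿ` -/
theorem mass_h (hμ : IsLeb μ) (P : MData (n := n) M) {Ψ : (Fin n → ℂ) → ℝ} (hΨ : Sm Ψ)
    (pΨ : ∀ z w, 0 ≤ Levi Ψ z w) {c : ℝ} (hc : 0 ≤ c) (gΨ : ∀ z, Ψ z ≤ c + c * Lg z) :
    ∫⁻ x in {x | 0 < P.d x},
      ENNReal.ofReal (LvM (fun y => Real.log (P.d y)) x + LvM Ψ (cp x)).det.re ∂μ < ∞ := by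
  obtain ⟨k, hk⟩ := exists_nat_ge ((P.C + 1) / 2)
  have hk2 : P.C + 1 ≤ 2 * k := by linarith
  set D : M → ℝ := fun y => P.d y * (‖P.h (cp y)‖ ^ 2) ^ k * Real.exp (Ψ (cp y)) with hDdef
  have hF : Sm (fun y : M => P.h (cp y)) := Sm.of_coord P.hs
  have hN : Sm (fun y : M => ‖P.h (cp y)‖ ^ 2) := Sm_normSq hF
  have hn0 : ∀ y : M, 0 < ‖P.h (cp y)‖ := fun y => norm_pos_iff.2 (P.h0 y)
  have hN0 : ∀ y : M, 0 < ‖P.h (cp y)‖ ^ 2 := fun y => by
    have := hn0 y
    positivity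
  have hΨs : Sm (fun y : M => Ψ (cp y)) := Sm.of_coord (Sm_flat_iff.1 hΨ)
  have hD : Sm D := (P.sd.mulR (Sm.comp (contDiff_id.pow k) hN)).mulR
    (Sm.comp Real.contDiff_exp hΨs)
  have hpos : ∀ x, 0 < D x ↔ 0 < P.d x := by
    intro x
    have h1 : 0 < (‖P.h (cp x)‖ ^ 2) ^ k := pow_pos (hN0 x) k
    have h2 := Real.exp_pos (Ψ (cp x))
    simp only [hDdef]
    rw [mul_pos_iff_of_pos_right h2, mul_pos_iff_of_pos_right h1]
  have hlog : ∀ x, 0 < P.d x → Real.log (D x) = Real.log (P.d x) +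
      2 * k * Real.log ‖P.h (cp x)‖ + Ψ (cp x) := by
    intro x hx
    simp only [hDdef]
    rw [Real.log_mul (mul_pos hx (pow_pos (hN0 x) k)).ne' (Real.exp_pos _).ne',
      Real.log_mul hx.ne' (pow_pos (hN0 x) k).ne', Real.log_exp, Real.log_pow, Real.log_pow]
    push_cast; ring
  have hsplit : ∀ x, 0 < P.d x → ∀ i j, Lv (fun y => Real.log (D y)) x i j =
      Lv (fun y => Real.log (P.d y)) x i j + Lv Ψ (cp x) i j := fun x hx i j =>
    P.split hΨ k hx i j
  have hpsh : ∀ x, 0 < D x → ∀ w, 0 ≤ Levi (fun y => Real.log (D y)) x w := by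
    intro x hx w
    have hx' := (hpos x).1 hx
    have h1 : Levi (fun y => Real.log (D y)) x w =
        Levi (fun y => Real.log (P.d y)) x w + Levi Ψ (cp x) w := by
      unfold Levi
      rw [← Complex.add_re]
      congr 1
      simp only [hsplit x hx', add_mul, Finset.sum_add_distrib]
    rw [h1]
    exact add_nonneg (P.hpsh x hx' w) (pΨ _ w)
  -- upper bounds
  have hup : ∀ x, 0 < P.d x → Real.log (D x) ≤
      (P.C + c) + (P.C + c) * Lg (cp x) + (if 1 ≤ ‖P.h (cp x)‖ then 2 * k * (P.C + P.C * Lg (cp x))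
        else Real.log ‖P.h (cp x)‖) := by
    intro x hx
    rw [hlog x hx]
    have h1 := P.hgr x hx
    have h2 := gΨ (cp x)
    have h3 := P.hgh x
    have hk0 : (0 : ℝ) ≤ 2 * k := by positivity
    split_ifs with hh
    · have h4 : Real.posLog ‖P.h (cp x)‖⁻¹ = 0 := by
        rw [Real.posLog_eq_zero_iff]
        rw [abs_of_nonneg (by positivity)]
        exact inv_le_one_of_one_le₀ hh
      rw [h4, mul_zero, add_zero] at h1
      have h5 := mul_le_mul_of_nonneg_left h3 hk0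
      nlinarith
    · push Not at hh
      have h4 : Real.posLog ‖P.h (cp x)‖⁻¹ = - Real.log ‖P.h (cp x)‖ := by
        show max 0 (Real.log ‖P.h (cp x)‖⁻¹) = _
        rw [Real.log_inv, max_eq_right]
        have := Real.log_neg (hn0 x) hh
        linarith
      rw [h4] at h1
      have h5 : Real.log ‖P.h (cp x)‖ < 0 := Real.log_neg (hn0 x) hh
      have h6 : (2 * k - P.C) * Real.log ‖P.h (cp x)‖ ≤ Real.log ‖P.h (cp x)‖ := by
        nlinarith
      nlinarith
  have hgr : ∀ x, 0 < D x → Real.log (D x) ≤ (P.C + c + 2 * k * P.C) +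
      (P.C + c + 2 * k * P.C) * Lg (cp x) := by
    intro x hx
    refine (hup x ((hpos x).1 hx)).trans ?_
    have hL := Lg_nonneg (cp x)
    have hC := P.hC
    have hk0 : (0 : ℝ) ≤ 2 * k * P.C := by positivity
    split_ifs with hh
    · nlinarith
    · push Not at hh
      have h5 : Real.log ‖P.h (cp x)‖ < 0 := Real.log_neg (hn0 x) hh
      have : 0 ≤ 2 * k * P.C * Lg (cp x) := by positivity
      nlinarith
  have hcp : ∀ R ε : ℝ, 0 < ε → IsCompact {x : M | nsq (cp x) ≤ R ∧ ε ≤ D x} := by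
    intro R ε hε
    set B : ℝ := (P.C + c) + (P.C + c) * Real.log (1 + |R|) with hB
    set δ : ℝ := min 1 (Real.exp (Real.log ε - B)) with hδ
    have hδ0 : 0 < δ := lt_min one_pos (Real.exp_pos _)
    refine (P.hprop R δ hδ0).of_isClosed_subset ?_ ?_
    · exact (isClosed_le (continuous_nsq.comp cp_cont) continuous_const).inter
        (isClosed_le continuous_const hD.continuous)
    · rintro x ⟨h1, h2⟩
      refine ⟨h1, ?_⟩
      by_cases hh : 1 ≤ ‖P.h (cp x)‖
      · exact (min_le_left _ _).trans hh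
      · have hDx : 0 < D x := hε.trans_le h2
        have h3 := hup x ((hpos x).1 hDx)
        rw [if_neg hh] at h3
        have h4 : Real.log ε ≤ Real.log (D x) := Real.log_le_log hε h2
        have h5 : Lg (cp x) ≤ Real.log (1 + |R|) := by
          unfold Lg
          refine Real.log_le_log (rho_pos _) ?_
          linarith [le_abs_self R]
        have h6 : (P.C + c) * Lg (cp x) ≤ (P.C + c) * Real.log (1 + |R|) :=
          mul_le_mul_of_nonneg_left h5 (by linarith [P.hC])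
        have h7 : Real.log ε - B ≤ Real.log ‖P.h (cp x)‖ := by
          simp only [hB]; linarith
        refine (min_le_right _ _).trans ?_
        rw [← Real.exp_log (hn0 x)]
        exact Real.exp_le_exp.2 h7
  have key := mass_log hμ P.hN hD hpsh
    (C := P.C + c + 2 * k * P.C) (by have := P.hC; positivity) hgr hcp
  have hset : {x | 0 < D x} = {x | 0 < P.d x} := by ext x; exact hpos x
  rw [hset] at key
  have hmeas : MeasurableSet {x : M | 0 < P.d x} :=
    (isOpen_lt continuous_const P.sd.continuous).measurableSet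
  have heq : ∫⁻ x in {x | 0 < P.d x}, dens (fun y => Real.log (D y)) x ∂μ =
      ∫⁻ x in {x | 0 < P.d x},
        ENNReal.ofReal (LvM (fun y => Real.log (P.d y)) x + LvM Ψ (cp x)).det.re ∂μ := by
    refine setLIntegral_congr_fun hmeas fun x hx => ?_
    have h1 : LvM (fun y => Real.log (D y)) x =
        LvM (fun y => Real.log (P.d y)) x + LvM Ψ (cp x) := by
      ext i j
      exact hsplit x hx i j
    simp only [dens, h1]
  rw [← heq]
  refine key.trans_lt ?_
  exact ENNReal.mul_lt_top (ENNReal.natCast_lt_top _)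
    (ENNReal.mul_lt_top ENNReal.ofReal_lt_top (K0_lt_top n))

/-! ### the version with a frame -/

section frame

variable {α β : Type*} [Fintype α] [DecidableEq α] [Fintype β] [DecidableEq β]

/-- `log (1+|z|²) + Σ_{i ≠ i₀} log (1+|z_i|²)` -/
def Psi (e : Fin n ≃ α ⊕ β) (i₀ : α) (z : Fin n → ℂ) : ℝ :=
  Lg z + ∑ i ∈ Finset.univ.erase i₀, Lj (e.symm (Sum.inl i)) z

lemma Sm_Psi (e : Fin n ≃ α ⊕ β) (i₀ : α) : Sm (Psi e i₀) :=
  Sm_Lg.add (Sm.sum fun _ _ => Sm_Lj _)

lemma Levi_Psi_nonneg (e : Fin n ≃ α ⊕ β) (i₀ : α) (z w : Fin n → ℂ) :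
    0 ≤ Levi (Psi e i₀) z w := by
  unfold Psi
  rw [Levi_add Sm_Lg (Sm.sum fun _ _ => Sm_Lj _), Levi_sum _ fun _ => Sm_Lj _]
  exact add_nonneg (Levi_Lg_nonneg z w) (Finset.sum_nonneg fun _ _ => Levi_Lj_nonneg _ z w)

lemma Psi_le (e : Fin n ≃ α ⊕ β) (i₀ : α) (z : Fin n → ℂ) :
    Psi e i₀ z ≤ (1 + Fintype.card α) + (1 + Fintype.card α) * Lg z := by
  have h1 : ∑ i ∈ Finset.univ.erase i₀, Lj (e.symm (Sum.inl i)) z ≤ Fintype.card α * Lg z := by
    refine (Finset.sum_le_sum fun i _ => Lj_le (e.symm (Sum.inl i)) z).trans ?_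
    rw [Finset.sum_const, nsmul_eq_mul]
    refine mul_le_mul_of_nonneg_right ?_ (Lg_nonneg z)
    exact_mod_cast Finset.card_le_univ _
  have h2 : (0 : ℝ) ≤ 1 + Fintype.card α := by positivity
  unfold Psi
  linarith

open Crest.Agent.R276.LinAlg_137 in
open scoped ComplexOrder in
/-- 409's (MASS): `G` a nonnegative Hermitian matrix function with `G ≤ Lv (log d)`, rows `X i` with
`X i = (e_i, *)` and `X i · G = 0`. -/
theorem mass_frame (hμ : IsLeb μ) (P : MData (n := n) M) (e : Fin n ≃ α ⊕ β) (i₀ : α)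
    (G : M → Matrix (Fin n) (Fin n) ℂ) (X : M → Matrix α (Fin n) ℂ)
    (hG : ∀ x, 0 < P.d x → (G x).PosSemidef)
    (hGle : ∀ x, 0 < P.d x → (LvM (fun y => Real.log (P.d y)) x - G x).PosSemidef)
    (hX : ∀ x i j, X x i (e.symm (Sum.inl j)) = if i = j then 1 else 0)
    (hker : ∀ x, 0 < P.d x → X x * G x = 0) :
    ∫⁻ x in {x | 0 < P.d x}, ENNReal.ofReal (Levi Lg (cp x) (X x i₀) *
      (∏ i ∈ Finset.univ.erase i₀, ((1 + ‖cp x (e.symm (Sum.inl i))‖ ^ 2)⁻¹) ^ 2) *
      ((G x).submatrix (e.symm ∘ Sum.inr) (e.symm ∘ Sum.inr)).det.re) ∂μ < ∞ := by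
  have hfin := mass_h hμ P (Sm_Psi e i₀) (Levi_Psi_nonneg e i₀)
    (c := 1 + Fintype.card α) (by positivity) (Psi_le e i₀)
  have hmeas : MeasurableSet {x : M | 0 < P.d x} :=
    (isOpen_lt continuous_const P.sd.continuous).measurableSet
  refine (setLIntegral_mono' hmeas fun x hx => ?_).trans_lt hfin
  refine ENNReal.ofReal_le_ofReal ?_
  have hx0 : 0 < P.d x := hx
  set z := cp x with hz
  set s : α → ℝ := fun i => if i = i₀ then 0 else ((1 + ‖z (e.symm (Sum.inl i))‖ ^ 2)⁻¹) ^ 2 with hs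
  set S : Fin n → ℂ := fun l => Sum.elim (fun i => (s i : ℂ)) (fun _ : β => (0 : ℂ)) (e l) with hS
  have hLvPsi : LvM (Psi e i₀) z = LvM Lg z + Matrix.diagonal S := by
    ext k l
    have h1 : Lv (Psi e i₀) z k l = Lv Lg z k l +
        ∑ i ∈ Finset.univ.erase i₀, Lv (Lj (e.symm (Sum.inl i))) z k l := by
      unfold Psi
      rw [Lv_add Sm_Lg (Sm.sum fun _ _ => Sm_Lj _), Lv_sum _ fun _ => Sm_Lj _]
    have h2 : ∑ i ∈ Finset.univ.erase i₀, Lv (Lj (e.symm (Sum.inl i))) z k l =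
        (Matrix.diagonal S) k l := by
      rw [Matrix.diagonal_apply]
      simp only [Lv_Lj]
      by_cases hkl : k = l
      · subst hkl
        simp only [and_self, if_true]
        rcases hek : e k with i | b
        · have hk' : k = e.symm (Sum.inl i) := by rw [← hek, e.symm_apply_apply]
          have hinj : ∀ i', (k = e.symm (Sum.inl i')) ↔ i = i' := by
            intro i'
            rw [hk', e.symm.injective.eq_iff, Sum.inl_injective.eq_iff]
          simp only [hinj, hS, hek, Sum.elim_inl, hs]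
          rw [Finset.sum_ite_eq]
          by_cases hii : i = i₀
          · simp [hii]
          · simp [hii, rj]
        · have hk' : k = e.symm (Sum.inr b) := by rw [← hek, e.symm_apply_apply]
          simp only [hS, hek, Sum.elim_inr]
          refine Finset.sum_eq_zero fun i _ => ?_
          rw [if_neg]
          rw [hk', e.symm.injective.eq_iff]
          simp
      · rw [if_neg hkl]
        refine Finset.sum_eq_zero fun i _ => ?_
        rw [if_neg]
        rintro ⟨h3, h4⟩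
        exact hkl (h3.trans h4.symm)
    show Lv (Psi e i₀) z k l = Lv Lg z k l + (Matrix.diagonal S) k l
    rw [h1, h2]
  have hLgp : (LvM Lg z).PosSemidef := LvM_posSemidef Sm_Lg (Levi_Lg_nonneg z)
  have hOm : ((LvM (fun y => Real.log (P.d y)) x - G x) + LvM Lg z).PosSemidef :=
    (hGle x hx0).add hLgp
  have hsn : ∀ i, 0 ≤ s i := by
    intro i
    simp only [hs]
    split_ifs
    · exact le_rfl
    · positivity
  have key := det_frame_diag e (hG x hx0) hOm (X x) (hX x) (hker x hx0) s i₀ hsn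
    (by simp [hs]) S (fun i => by simp [hS]) (fun b => by simp [hS])
  have hsum : G x + ((LvM (fun y => Real.log (P.d y)) x - G x + LvM Lg z) + Matrix.diagonal S) =
      LvM (fun y => Real.log (P.d y)) x + LvM (Psi e i₀) z := by
    rw [hLvPsi]; abel
  rw [hsum] at key
  have hprod : (∏ i ∈ Finset.univ.erase i₀, (s i : ℂ)) =
      ((∏ i ∈ Finset.univ.erase i₀, ((1 + ‖z (e.symm (Sum.inl i))‖ ^ 2)⁻¹) ^ 2 : ℝ) : ℂ) := by
    push_cast
    refine Finset.prod_congr rfl fun i hi => ?_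
    have hne : i ≠ i₀ := Finset.ne_of_mem_erase hi
    simp [hs, hne]
  rw [hprod] at key
  -- the diagonal entries
  have hentry : ∀ A : Matrix (Fin n) (Fin n) ℂ, (X x * A * (X x)ᴴ) i₀ i₀ =
      ∑ j, ∑ k, A j k * X x i₀ j * conj (X x i₀ k) := by
    intro A
    simp only [Matrix.mul_apply, Matrix.conjTranspose_apply, Finset.sum_mul]
    rw [Finset.sum_comm]
    refine Finset.sum_congr rfl fun j _ => Finset.sum_congr rfl fun k _ => ?_
    simp only [RCLike.star_def]
    ring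
  have hLgentry : (X x * LvM Lg z * (X x)ᴴ) i₀ i₀ = ((Levi Lg z (X x i₀) : ℝ) : ℂ) := by
    rw [hentry, Levi_eq Sm_Lg]; rfl
  have hle : ((Levi Lg z (X x i₀) : ℝ) : ℂ) ≤
      (X x * ((LvM (fun y => Real.log (P.d y)) x - G x) + LvM Lg z) * (X x)ᴴ) i₀ i₀ := by
    have h1 : (X x * ((LvM (fun y => Real.log (P.d y)) x - G x) + LvM Lg z) * (X x)ᴴ) i₀ i₀ =
        (X x * (LvM (fun y => Real.log (P.d y)) x - G x) * (X x)ᴴ) i₀ i₀ +
          (X x * LvM Lg z * (X x)ᴴ) i₀ i₀ := by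
      rw [Matrix.mul_add, Matrix.add_mul, Matrix.add_apply]
    rw [h1, hLgentry]
    have h2 := ((hGle x hx0).mul_mul_conjTranspose_same (X x)).diag_nonneg (i := i₀)
    exact le_add_of_nonneg_left h2
  have hGy : 0 ≤ ((G x).submatrix (e.symm ∘ Sum.inr) (e.symm ∘ Sum.inr)).det :=
    ((hG x hx0).submatrix _).det_nonneg
  set π : ℝ := ∏ i ∈ Finset.univ.erase i₀, ((1 + ‖z (e.symm (Sum.inl i))‖ ^ 2)⁻¹) ^ 2 with hπ
  have hπ0 : (0 : ℂ) ≤ (π : ℂ) := by
    have : 0 ≤ π := Finset.prod_nonneg fun i _ => by positivity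
    exact_mod_cast this
  have h5 := (mul_le_mul_of_nonneg_right (mul_le_mul_of_nonneg_right hle hπ0) hGy).trans key
  have h6 := (Complex.le_def.1 h5).1
  have hGyre : ((G x).submatrix (e.symm ∘ Sum.inr) (e.symm ∘ Sum.inr)).det =
      ((((G x).submatrix (e.symm ∘ Sum.inr) (e.symm ∘ Sum.inr)).det.re : ℝ) : ℂ) := by
    have := (Complex.le_def.1 hGy).2
    exact Complex.ext (by simp) (by simpa using this.symm)
  rw [hGyre, ← Complex.ofReal_mul, ← Complex.ofReal_mul, Complex.ofReal_re] at h6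
  exact h6

end frame

end massh

end Crest.Agent.R276.NL_137
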