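import Mathlib
import Crest.Agent.R276.PdG_571
import Crest.Agent.R276.PdH_571

/-!
# R276, leaf PF-LEVI / PF-GRO (helper571): the two inputs of `Pf2_409`

* `curv_det_ker`: 442's curvature inequality for `log det gm` in directions `v ≡ b` modulo the kernel of `θ`,
  `b` in the span of the frame.
* `Levi_log_minor_ker`: the same for the Gram minors of `gP` on a Riemann domain (all directions).
* `det_growth_sum`: polynomial growth of the minors in the format `(1 + ∑ |z_i|²)^a`.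
-/

set_option autoImplicit false
set_option linter.unusedSectionVars false

noncomputable section

open Set Filter Topology Matrix
open scoped ContDiff ComplexConjugate ComplexOrder
open Crest.Agent.R271.Ho51
open Crest.Agent.R276.Ipc735
open Crest.Agent.R276.PdL571

namespace Crest.Agent.R276.Pd571

section vcalc

open VCalc_442 (dW dB mW mB cx gg gm gden th thb tb grOp hm sf bn Adj)

attribute [local instance] Matrix.linftyOpNormedRing Matrix.linftyOpNormedAlgebra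

variable {ι : Type*} [Fintype ι] [DecidableEq ι] {Y : Type*} [NormedAddCommGroup Y]
  [NormedSpace ℂ Y] {κ : Type*} [Fintype κ] [DecidableEq κ]
  {w : ℕ} {U : Set Y} {S : Matrix ι ι ℂ} {P : ℕ → Y → Matrix ι ι ℂ} {x : Y}

lemma gden_zero_dW (h : VCalc_442.VHS w U S P) (hx : x ∈ U) {v : Y} (h0 : gden w P v x = 0) :
    dW (grOp w P) v x = 0 ∧ tb (grOp w P) v x = 0 := by
  have h1 : (dW (grOp w P) v x * tb (grOp w P) v x).trace.re = 0 := by
    unfold gden at h0
    rwa [h.gg_eq hx] at h0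
  have hK := h.hmPos hx
  refine ⟨(h.adj_th_tb hx v).eq_zero_of_trace hK h1, ?_⟩
  refine ((h.adj_th_tb hx v).symm hK.1).eq_zero_of_trace hK ?_
  rw [Matrix.trace_mul_comm]
  exact h1

lemma dW_eq_of_ker (h : VCalc_442.VHS w U S P) (hx : x ∈ U) {v b : Y}
    (h0 : gden w P (v - b) x = 0) :
    dW (grOp w P) v x = dW (grOp w P) b x ∧ tb (grOp w P) v x = tb (grOp w P) b x := by
  obtain ⟨h1, h2⟩ := gden_zero_dW h hx h0
  have hv : v = (v - b) + b := by abel
  constructor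
  · conv_lhs => rw [hv]
    rw [VCalc_442.dW_add_dir, h1, zero_add]
  · unfold tb at h2 ⊢
    conv_lhs => rw [hv]
    rw [VCalc_442.dB_add_dir, neg_add, h2, zero_add]

/-- the curvature inequality modulo the kernel -/
theorem curv_det_ker (h : VCalc_442.VHS w U S P) {c : ℝ} (hc : ∀ K a a' : Matrix ι ι ℂ, K.PosDef →
    Adj K a a' → IsNilpotent a →
    c * (a * a').trace.re ^ 2 ≤ ((a' * a - a * a') * (a' * a - a * a')).trace.re)
    (hx : x ∈ U) (e : κ → Y) (hpos : (gm w P e x).PosDef) {v b : Y}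
    (hb : b ∈ Submodule.span ℂ (Set.range e)) (h0 : gden w P (v - b) x = 0) :
    (gm w P e x).det.re ^ 2 * (c * gden w P v x) ≤
      (gm w P e x).det.re * (dB (dW (fun y => (gm w P e y).det) v) v x).re -
        ‖dW (fun y => (gm w P e y).det) v x‖ ^ 2 := by
  obtain ⟨hW, hT'⟩ := dW_eq_of_ker h hx h0
  obtain ⟨T, hT, hone, h2⟩ := h.curv_det_aux hx e hpos v
  refine le_trans (mul_le_mul_of_nonneg_left ?_ (sq_nonneg _)) h2
  obtain ⟨a, ha⟩ := (Submodule.mem_span_range_iff_exists_fun ℂ).1 hb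
  have hTd : IsUnit T.det := (Matrix.isUnit_iff_isUnit_det T).1 hT
  have hb' : b = ∑ i, (a ᵥ* T⁻¹) i • ∑ j, T i j • e j := by
    have e1 : ∑ i, (a ᵥ* T⁻¹) i • ∑ j, T i j • e j = ∑ j, ((a ᵥ* T⁻¹) ᵥ* T) j • e j := by
      simp only [Finset.smul_sum, smul_smul]
      rw [Finset.sum_comm]
      refine Finset.sum_congr rfl fun j _ => ?_
      rw [← Finset.sum_smul]
      rfl
    rw [e1, Matrix.vecMul_vecMul, Matrix.nonsing_inv_mul T hTd, Matrix.vecMul_one, ha]
  have h3 := h.bb_span_one hc hx (fun i => ∑ j, T i j • e j) hone (a ᵥ* T⁻¹)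
  rw [← hb'] at h3
  have h4 : gden w P v x = gden w P b x := by
    unfold gden
    rw [h.gg_eq hx, h.gg_eq hx, hW, hT']
  have h5 : ∀ u : Y, VCalc_442.VHS.bb w P u v x = VCalc_442.VHS.bb w P u b x := by
    intro u
    unfold VCalc_442.VHS.bb
    rw [hT']
  have h6 : ∀ u : Y, VCalc_442.VHS.bc w P u v x = VCalc_442.VHS.bc w P u b x := by
    intro u
    unfold VCalc_442.VHS.bc
    rw [hW]
  simp only [h4, h5, h6]
  exact h3

end vcalc

section rdom

variable {m N w : ℕ} {X : Type*} [TopologicalSpace X] [RDom m X]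
variable (V : Ipc735.VHS m X N w)

lemma gq_eq' (v : Fin m → ℂ) (x : X) : VLevi_327.gq V v x =
    (∑ j, ∑ k, gP V x j k * v j * conj (v k)).re := by
  unfold VLevi_327.gq
  congr 1
  refine Finset.sum_congr rfl fun i _ => Finset.sum_congr rfl fun j _ => ?_
  rw [gV_eq]
  ring

lemma gq_zero_of {v : Fin m → ℂ} {x : X} (h : ∀ k, ∑ j, v j * gP V x j k = 0) :
    VLevi_327.gq V v x = 0 := by
  rw [gq_eq']
  have h1 : ∑ j, ∑ k, gP V x j k * v j * conj (v k) = 0 := by
    rw [Finset.sum_comm]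
    refine Finset.sum_eq_zero fun k _ => ?_
    rw [← Finset.sum_mul]
    have h2 : ∑ j, gP V x j k * v j = ∑ j, v j * gP V x j k :=
      Finset.sum_congr rfl fun j _ => mul_comm _ _
    rw [h2, h k, zero_mul]
  rw [h1]; rfl

section fin

variable {r : ℕ}

theorem Levi_log_gdet_ker {c : ℝ} (hc : ∀ (K a a' : Matrix (Fin N) (Fin N) ℂ), K.PosDef →
    VCalc_442.Adj K a a' → IsNilpotent a →
    c * (a * a').trace.re ^ 2 ≤ ((a' * a - a * a') * (a' * a - a * a')).trace.re)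
    (ι : Fin r → Fin m) {z : X} (hpos : 0 < VLevi_327.gdet V ι z) {v b : Fin m → ℂ}
    (hb : b ∈ Submodule.span ℂ (Set.range (VLevi_327.fr ι))) (h0 : VLevi_327.gq V (v - b) z = 0) :
    c * VLevi_327.gq V v z ≤ Levi (fun x => Real.log (VLevi_327.gdet V ι x)) z v := by
  obtain ⟨U, P', hU, hzU, hUt, hV, hm, hd, hgq⟩ := VLevi_327.gq_local V ι z
  have hsm : ContDiffAt ℝ 2 (VLevi_327.gdet V ι ∘ (ch z).symm) (cp z) :=
    ContDiffAt.of_le (VLevi_327.gdet_smooth V ι z) (by norm_cast)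
  rw [VLevi_327.Levi_log hsm hpos, le_div_iff₀ (by positivity)]
  have hpd : (VCalc_442.gm w P' (VLevi_327.fr ι) (cp z)).PosDef := by
    have h1 := hm (cp z) hzU
    rw [symm_cp] at h1
    rw [← h1]
    exact VLevi_327.gV_pd V ι hpos
  have e4 : ∀ v, VCalc_442.gden w P' v (cp z) = VLevi_327.gq V v z := by
    intro v
    have := hgq (cp z) hzU v
    rwa [symm_cp] at this
  have hcv := curv_det_ker hV hc hzU (VLevi_327.fr ι) hpd hb (by rw [e4]; exact h0)
  have hev := VLevi_327.cx_ev V ι hU hzU hV hd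
  rw [VLevi_327.Levi_eq hsm]
  have e1 : VCalc_442.dW (VCalc_442.cx (VLevi_327.gdet V ι ∘ (ch z).symm)) v (cp z) =
      VCalc_442.dW (fun c => (VCalc_442.gm w P' (VLevi_327.fr ι) c).det) v (cp z) :=
    VCalc_442.dW_congr hev v
  have e2 : VCalc_442.dB (VCalc_442.dW (VCalc_442.cx (VLevi_327.gdet V ι ∘ (ch z).symm)) v) v (cp z) =
      VCalc_442.dB (VCalc_442.dW (fun c => (VCalc_442.gm w P' (VLevi_327.fr ι) c).det) v) v
        (cp z) := by
    refine VCalc_442.dB_congr ?_ v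
    filter_upwards [hev.eventually_nhds] with y hy
    exact VCalc_442.dW_congr hy v
  have e3 : (VCalc_442.gm w P' (VLevi_327.fr ι) (cp z)).det.re = VLevi_327.gdet V ι z := by
    rw [← hd (cp z) hzU, symm_cp]
  rw [e1, e2]
  rw [e3, e4 v] at hcv
  linarith

end fin

variable {κ : Type*} [Fintype κ] [DecidableEq κ]

/-- **PF-LEVI**: `Levi (log det g_β)(v,v) ≥ c g(v,v)` for every `v` congruent to a vector of the span of
the frame `β` modulo the kernel of `g` -/
theorem Levi_log_minor_ker {c : ℝ} (hc : ∀ (K a a' : Matrix (Fin N) (Fin N) ℂ), K.PosDef →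
    VCalc_442.Adj K a a' → IsNilpotent a →
    c * (a * a').trace.re ^ 2 ≤ ((a' * a - a * a') * (a' * a - a * a')).trace.re)
    (ι : κ → Fin m) {x : X} (hpos : 0 < ((gP V x).submatrix ι ι).det.re) {v b : Fin m → ℂ}
    (hb : ∀ j, j ∉ Set.range ι → b j = 0) (h0 : ∀ k, ∑ j, (v - b) j * gP V x j k = 0) :
    c * (∑ j, ∑ k, gP V x j k * v j * conj (v k)).re ≤
      Levi (fun y => Real.log ((gP V y).submatrix ι ι).det.re) x v := by
  simp only [det_equiv] at hpos ⊢
  rw [← gq_eq']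
  refine Levi_log_gdet_ker V hc _ hpos (b := b) ?_ (gq_zero_of V h0)
  have h1 : Set.range (VLevi_327.fr (ι ∘ (Fintype.equivFin κ).symm)) =
      Set.range fun i => (Pi.single (ι i) 1 : Fin m → ℂ) := by
    ext u
    constructor
    · rintro ⟨i, rfl⟩
      exact ⟨(Fintype.equivFin κ).symm i, rfl⟩
    · rintro ⟨i, rfl⟩
      refine ⟨Fintype.equivFin κ i, ?_⟩
      simp [VLevi_327.fr]
  rw [h1]
  exact mem_span_of hb

/-- the form of 409's `Pf2`: universal constant, all directions -/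
theorem exists_levi (N : ℕ) : ∃ c : ℝ, 0 < c ∧ ∀ (m w : ℕ) (X : Type) [TopologicalSpace X] [RDom m X]
    (V : Ipc735.VHS m X N w) (κ : Type) [Fintype κ] [DecidableEq κ] (ι : κ → Fin m) (y : X),
    0 < ((gP V y).submatrix ι ι).det.re → ∀ v b : Fin m → ℂ, (∀ j, j ∉ Set.range ι → b j = 0) →
    (∀ k, ∑ j, (v - b) j * gP V y j k = 0) →
    c * (∑ j, ∑ k, gP V y j k * v j * conj (v k)).re ≤
      Levi (fun y => Real.log ((gP V y).submatrix ι ι).det.re) y v := by
  obtain ⟨c, hc, hcN⟩ := VLevi_327.exists_cN N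
  exact ⟨c, hc, fun m w X _ _ V κ _ _ ι y hpos v b hb h0 => Levi_log_minor_ker V hcN ι hpos hb h0⟩

end rdom

section growth

variable {K : Type} [Field K] [Algebra ℂ K] {m N w : ℕ} (M : Mod1_987.Mdl K m)
  (V : Ipc735.VHS m M.Pts N w)

/-- **PF-GRO** in the format `(1 + ∑ |z_i|²)^a` -/
theorem det_growth_sum {κ : Type*} [Fintype κ] [DecidableEq κ] (iota : κ → Fin m) :
    ∃ (C : ℝ) (a l : ℕ), 0 ≤ C ∧ ∀ y : M.Pts,
    ((gP V y).submatrix iota iota).det.re * ‖MvPolynomial.eval (M.pz y) M.h‖ ^ l ≤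
      C * (1 + ∑ i, ‖M.pz y i‖ ^ 2) ^ a := by
  obtain ⟨C, a, l, hC, H⟩ := det_growth' M V iota
  refine ⟨C * 2 ^ a, a, l, by positivity, fun y => (H y).trans ?_⟩
  have h1 : ∀ i, ‖M.pz y i‖ ^ 2 ≤ ∑ i, ‖M.pz y i‖ ^ 2 := fun i =>
    Finset.single_le_sum (f := fun i => ‖M.pz y i‖ ^ 2) (fun _ _ => by positivity)
      (Finset.mem_univ i)
  have hs : 0 ≤ ∑ i, ‖M.pz y i‖ ^ 2 := Finset.sum_nonneg fun _ _ => by positivity
  have h2 : ‖M.pz y‖ ≤ 1 + ∑ i, ‖M.pz y i‖ ^ 2 := by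
    refine (pi_norm_le_iff_of_nonneg (by positivity)).2 fun i => ?_
    have h3 := h1 i
    nlinarith [sq_nonneg (‖M.pz y i‖ - 1), norm_nonneg (M.pz y i)]
  have h4 : 1 + ‖M.pz y‖ ≤ 2 * (1 + ∑ i, ‖M.pz y i‖ ^ 2) := by linarith
  calc C * (1 + ‖M.pz y‖) ^ a ≤ C * (2 * (1 + ∑ i, ‖M.pz y i‖ ^ 2)) ^ a := by gcongr
    _ = C * 2 ^ a * (1 + ∑ i, ‖M.pz y i‖ ^ 2) ^ a := by rw [mul_pow]; ring

end growth

end Crest.Agent.R276.Pd571
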