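import Mathlib
import Crest.Agent.R276.WdB_450
import Crest.Agent.R276.GrAs1_857
import Crest.Agent.R276.GoodLoc_442
import Crest.Agent.R276.PdI_571
import Crest.Agent.R276.MassH_137
import Crest.Agent.R276.SkelDefs_220

/-!
# R276, leaf DESC-WD (helper450), part C: the weights of a `WD` structure

For any `h : WD V om u M0 f ι φ ψ`:
* `sm_φ`, `sm_ψ`, `psh_φ`, `psh_ψ`;
* `levi_φ`, `levi_ψ` : the Levi forms upstairs;
* `good`, `exists_nu` : the good point of the counting argument;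
* `pgr_φ`, `pgr_ψ` : polynomial growth on the model of the base.
-/

set_option autoImplicit false
set_option linter.unusedSectionVars false

noncomputable section

open Set Filter Topology Matrix ComplexConjugate
open scoped ContDiff ComplexOrder
open Crest.Agent.R271.Ho51 Crest.Agent.R276.Ipc735
open Crest.Agent.R276.DescC_327 (Prj upd upd_ι upd_of_notMem upd_comp fg)
open Crest.Agent.R276.DescF_327 (Fl)
open Crest.Agent.R276.LftDefs_327 (WD)
open Crest.Agent.R276.VLevi_327 (gV gdet CYL psi hn thV)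
open Crest.Agent.R276.NL_137 (Sm_log Sm_normSq Lv_log_normSq Levi_const_mul)

namespace Crest.Agent.R276.Wd_450

section wd

variable {n m N w : ℕ} {M X : Type*} [TopologicalSpace M] [RDom n M] [TopologicalSpace X]
  [RDom m X] {V : VHS m X N w} {om : X → Fin N → ℂ} {u : X → ℂ} {M0 : ℕ} {f : X → M}
  {ι : Fin n → Fin m} {φ ψ : M → ℝ} (h : WD V om u M0 f ι φ ψ)

include h

theorem sm_u : Sm u := fun x => VPull_327.HolAt.smAt (h.uhol x)

theorem sm_logu : Sm (fun x => Real.log (‖u x‖ ^ 2)) :=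
  Sm_log (Sm_normSq (sm_u h)) fun x => by
    have := norm_pos_iff.2 (h.une x)
    positivity

theorem φ_comp : (fun x => φ (f x)) = fun x => Real.log (gdet V ι x) := funext h.hφ

theorem ψ_comp : (fun x => ψ (f x)) =
    fun x => psi V om x + (-(1 / M0 : ℝ)) * Real.log (‖u x‖ ^ 2) := by
  funext x
  rw [h.hψ]
  ring

theorem sm_φ : Sm φ := by
  refine sm_of_comp h.prj h.surj fun x => ?_
  rw [φ_comp h]
  exact Sm_log (VLevi_327.gdet_Sm V ι) h.pos x

theorem sm_ψ : Sm ψ := by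
  refine sm_of_comp h.prj h.surj fun x => ?_
  rw [ψ_comp h]
  exact (h.cyl.psi_Sm.add ((Sm.const (-(1 / M0 : ℝ))).mulR (sm_logu h))) x

/-- Levi form of `φ`, upstairs -/
theorem levi_φ (x : X) (v : Fin m → ℂ) :
    Levi φ (f x) (fun i => v (ι i)) = Levi (fun x => Real.log (gdet V ι x)) x v := by
  rw [Prj.levi h.prj (sm_φ h), φ_comp h]

theorem levi_logu (x : X) (v : Fin m → ℂ) : Levi (fun x => Real.log (‖u x‖ ^ 2)) x v = 0 := by
  unfold Levi
  have h1 : ∀ j k, Lv (fun y => Real.log (‖u y‖ ^ 2)) x j k = 0 := fun j k =>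
    Lv_log_normSq (sm_u h) (fun k x => VPull_327.HolAt.db (h.uhol x) k) h.une x j k
  simp only [h1, zero_mul, Finset.sum_const_zero, Complex.zero_re]

/-- Levi form of `ψ`, upstairs -/
theorem levi_ψ (x : X) (v : Fin m → ℂ) :
    Levi ψ (f x) (fun i => v (ι i)) = Levi (psi V om) x v := by
  rw [Prj.levi h.prj (sm_ψ h), ψ_comp h,
    Levi_add h.cyl.psi_Sm ((Sm.const (-(1 / M0 : ℝ))).mulR (sm_logu h)),
    Levi_const_mul (sm_logu h), levi_logu h, mul_zero, add_zero]

theorem psh_φ (τ : M) (v : Fin n → ℂ) : 0 ≤ Levi φ τ v := by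
  obtain ⟨x, rfl⟩ := h.surj τ
  have h1 := levi_φ h x (upd ι 0 v)
  rw [upd_comp h.prj.inj] at h1
  rw [h1]
  exact VLevi_327.Levi_log_gdet_nonneg V ι (h.pos x) _

theorem psh_ψ (τ : M) (v : Fin n → ℂ) : 0 ≤ Levi ψ τ v := by
  obtain ⟨x, rfl⟩ := h.surj τ
  have h1 := levi_ψ h x (upd ι 0 v)
  rw [upd_comp h.prj.inj] at h1
  rw [h1]
  exact h.cyl.Levi_psi_nonneg x _

/-- `|u|² |om|^{2 M0} = exp (-M0 ψ)` -/
theorem norm_u (x : X) : ‖u x‖ ^ 2 * hn V x (om x) ^ M0 = Real.exp (-(M0 * ψ (f x))) := by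
  have h1 : 0 < hn V x (om x) := VLevi_327.hn_pos V x (h.cyl.ne x)
  have h2 : 0 < ‖u x‖ ^ 2 := by
    have := norm_pos_iff.2 (h.une x)
    positivity
  have h3 : (M0 : ℝ) ≠ 0 := by exact_mod_cast h.hM.ne'
  rw [← Real.exp_log (show 0 < ‖u x‖ ^ 2 * hn V x (om x) ^ M0 by positivity)]
  congr 1
  have h4 : Real.log (hn V x (om x) ^ M0) = M0 * Real.log (hn V x (om x)) := Real.log_pow _ _
  rw [Real.log_mul h2.ne' (by positivity), h4, h.hψ]
  unfold VLevi_327.psi
  generalize Real.log (‖u x‖ ^ 2) = L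
  field_simp
  ring

/-! ### the kernel of the Levi form of `ψ` -/

/-- the kernel of `Levi ψ` at `f x` -/
def kerψ (_h : WD V om u M0 f ι φ ψ) (x : X) : Submodule ℂ (Fin n → ℂ) where
  carrier := {v | thV V x (upd ι 0 v) *ᵥ om x = 0}
  zero_mem' := by
    show thV V x (upd ι 0 0) *ᵥ om x = 0
    have h1 : upd ι (0 : Fin m → ℂ) 0 = 0 := by
      have := DescC_327.upd_self (ι := ι) (0 : Fin m → ℂ)
      exact this
    rw [h1]
    unfold VLevi_327.thV
    simp
  add_mem' := by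
    intro a b ha hb
    show thV V x (upd ι 0 (a + b)) *ᵥ om x = 0
    have h1 : upd ι (0 : Fin m → ℂ) (a + b) = upd ι 0 a + upd ι 0 b := by
      classical
      funext j
      simp only [Pi.add_apply, DescC_327.upd]
      split_ifs <;> simp
    have h2 : thV V x (upd ι 0 (a + b)) = thV V x (upd ι 0 a) + thV V x (upd ι 0 b) := by
      rw [h1]
      unfold VLevi_327.thV
      rw [← Finset.sum_add_distrib]
      exact Finset.sum_congr rfl fun j _ => by rw [Pi.add_apply, add_smul]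
    have ha' : thV V x (upd ι 0 a) *ᵥ om x = 0 := ha
    have hb' : thV V x (upd ι 0 b) *ᵥ om x = 0 := hb
    rw [h2, Matrix.add_mulVec, ha', hb', add_zero]
  smul_mem' := by
    intro c a ha
    show thV V x (upd ι 0 (c • a)) *ᵥ om x = 0
    have h1 : upd ι (0 : Fin m → ℂ) (c • a) = c • upd ι 0 a := by
      classical
      funext j
      simp only [Pi.smul_apply, DescC_327.upd]
      split_ifs <;> simp
    have h2 : thV V x (upd ι 0 (c • a)) = c • thV V x (upd ι 0 a) := by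
      rw [h1]
      unfold VLevi_327.thV
      rw [Finset.smul_sum]
      exact Finset.sum_congr rfl fun j _ => by rw [Pi.smul_apply, smul_assoc]
    have ha' : thV V x (upd ι 0 a) *ᵥ om x = 0 := ha
    rw [h2, Matrix.smul_mulVec, ha', smul_zero]

theorem mem_kerψ (x : X) (v : Fin n → ℂ) : v ∈ kerψ h x ↔ Levi ψ (f x) v = 0 := by
  have h1 := levi_ψ h x (upd ι 0 v)
  rw [upd_comp h.prj.inj] at h1
  rw [h1, h.cyl.Levi_psi, div_eq_zero_iff]
  have h2 : hn V x (om x) ≠ 0 := (VLevi_327.hn_pos V x (h.cyl.ne x)).ne'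
  constructor
  · intro hv
    left
    have hv' : thV V x (upd ι 0 v) *ᵥ om x = 0 := hv
    rw [hv']
    simp [VLevi_327.hn, Desc_327.qf]
  · rintro (h3 | h3)
    · by_contra hne
      exact (VLevi_327.hn_pos V x (v := thV V x (upd ι 0 v) *ᵥ om x) hne).ne' h3
    · exact absurd h3 h2

end wd

/-! ### the variation along a local section -/

section frame

open Crest.Agent.R276.BdNf1_651 (HM Fr)
open VCalc_442 (dW th gm bn sf)

attribute [local instance] Matrix.linftyOpNormedRing Matrix.linftyOpNormedAlgebra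

variable {m N w : ℕ} {X : Type*} [TopologicalSpace X] [RDom m X] {V : VHS m X N w}
  {om : X → Fin N → ℂ} {Y : Type*} [NormedAddCommGroup Y] [NormedSpace ℂ Y]
  [FiniteDimensional ℂ Y] {Ω : Set Y} {χ : Y → X}

/-- the line is parallel in the flat frame: `∂_v σ = θ_v σ + l σ` -/
theorem dσ (hL : CYL V om) (hm : HM Ω χ) (n : Fr V Ω χ) {z : Y} (hz : z ∈ Ω) (v : Y) :
    ∃ l : ℂ, dW (n.pull om) v z =
      th w (fun p z => hq w (n.E z) p) v z *ᵥ n.pull om z + l • n.pull om z := by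
  set x := χ z with hx
  set v' : Fin m → ℂ := fderiv ℂ (fun y => (cp (χ y) : Fin m → ℂ)) z v with hv'
  have han : AnalyticAt ℂ (lV V.P om x ∘ (ch x).symm) (cp x) := hL.hol x
  obtain ⟨cj, hcj⟩ : ∃ cj : Fin m → ℂ, ∀ j, (fun i => dz j (fun y => lV V.P om x y i) x) =
      dM V.P V.E j x *ᵥ om x + cj j • om x := ⟨fun j => (hL.par x j).choose, fun j =>
        (hL.par x j).choose_spec⟩
  have hD : fderiv ℂ (lV V.P om x ∘ (ch x).symm) (cp x) v' =
      thV V x v' *ᵥ om x + (∑ j, v' j * cj j) • om x := by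
    rw [← VCalc_442.dW_of_diff han.differentiableAt]
    have h1 : ∀ j, dW (lV V.P om x ∘ (ch x).symm) (Pi.single j 1) (cp x) =
        fun i => dz j (fun y => lV V.P om x y i) x := by
      intro j
      funext i
      have hd : DifferentiableAt ℝ (lV V.P om x ∘ (ch x).symm) (cp x) :=
        han.differentiableAt.restrictScalars ℝ
      rw [← VCalc_442.dW_apply hd]
      rw [dz_eq_dW j _ (isCh_ch x) (mem_ch x)]
      rfl
    conv_lhs => rw [pi_eq_sum_univ' v']
    rw [VCalc_442.dW_sum_dir]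
    have h2 : ∑ j, v' j • dW (lV V.P om x ∘ (ch x).symm) (Pi.single j 1) (cp x) =
        ∑ j, (v' j • (dM V.P V.E j x *ᵥ om x) + (v' j * cj j) • om x) := by
      refine Finset.sum_congr rfl fun j _ => ?_
      rw [h1 j, hcj j, smul_add, smul_smul]
    rw [h2, Finset.sum_add_distrib, ← Finset.sum_smul]
    congr 1
    unfold VLevi_327.thV
    rw [Matrix.sum_mulVec]
    exact Finset.sum_congr rfl fun j _ => by rw [Matrix.smul_mulVec]
  refine ⟨∑ j, v' j * cj j, ?_⟩
  rw [VCalc_442.dW_of_diff (n.pull_analytic hm hz (hL.hol x)).differentiableAt,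
    n.fderiv_pull hm hz (hL.hol x), hD, GrAs1_857.th_eq n hm hz]
  have h5 : n.pull om z = cm (n.g z)⁻¹ *ᵥ om x := rfl
  rw [h5, Matrix.mulVec_add, Matrix.mulVec_smul]
  congr 1
  rw [Matrix.mulVec_mulVec, Matrix.mulVec_mulVec]
  congr 1
  have h4 : cm (n.g z) * cm (n.g z)⁻¹ = 1 := cm_mul_cm_inv _
  rw [Matrix.mul_assoc, h4, Matrix.mul_one]
  rfl

/-- the line as a section of the top piece -/
theorem bot (hL : CYL V om) (hm : HM Ω χ) (n : Fr V Ω χ) :
    VCalc_442.Bot w Ω (fun p z => hq w (n.E z) p) (n.pull om) := by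
  refine ⟨fun z hz => ?_, fun z hz => ?_, fun z hz => ?_⟩
  · exact (n.pull_analytic hm hz (hL.hol (χ z))).differentiableAt.differentiableWithinAt
  · exact (((n.pull_analytic hm hz (hL.hol (χ z))).contDiffAt).restrict_scalars
      ℝ).contDiffWithinAt
  · show hq w (n.E z) w *ᵥ n.pull om z = n.pull om z
    rw [hq_of_le le_rfl, (n.hs hz).hpr_mulVec_of_eig le_rfl (n.pull_eig (hL.eig (χ z))) le_rfl,
      if_pos rfl]

/-- the norm of the line -/
theorem hn_eq (hL : CYL V om) (n : Fr V Ω χ) {z : Y} (hz : z ∈ Ω) :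
    hn V (χ z) (om (χ z)) = bn w n.S (n.pull om) z := by
  unfold VLevi_327.hn Desc_327.qf VCalc_442.bn VCalc_442.sf
  rw [← n.hodge_pull hz om om, (n.hs hz).hodge_mulVec_of_eig le_rfl (n.pull_eig (hL.eig (χ z))),
    dotProduct_smul, smul_eq_mul]

/-- the line is parallel -/
theorem par_line (hL : CYL V om) (hm : HM Ω χ) (n : Fr V Ω χ) {z : Y} (hz : z ∈ Ω) (v : Y) :
    ∃ l : ℂ, hq w (n.E z) w *ᵥ dW (n.pull om) v z = l • n.pull om z := by
  obtain ⟨l, hl⟩ := dσ hL hm n hz v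
  have hV := n.vhs hm
  have hb := bot hL hm n
  refine ⟨l, ?_⟩
  rw [hl, Matrix.mulVec_add, Matrix.mulVec_smul]
  have h1 : hq w (n.E z) w *ᵥ n.pull om z = n.pull om z := hb.mem z hz
  have h2 := hV.bot_orth hb hz v
  rw [← hV.th_eq hz] at h2
  have h3 : hq w (n.E z) w *ᵥ (th w (fun p z => hq w (n.E z) p) v z *ᵥ n.pull om z) = 0 := h2
  rw [h1, h3, zero_add]

end frame

section good

open Crest.Agent.R276.BdNf1_651 (HM Fr)
open VCalc_442 (dW th gm bn sf)

variable {n m N w : ℕ} {M X : Type*} [TopologicalSpace M] [RDom n M] [TopologicalSpace X]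
  [RDom m X] {V : VHS m X N w} {om : X → Fin N → ℂ} {u : X → ℂ} {M0 : ℕ} {f : X → M}
  {ι : Fin n → Fin m} {φ ψ : M → ℝ}

/-- the local section in coordinates -/
def ls (ι : Fin n → Fin m) (x : X) (c : Fin n → ℂ) : X := (ch x).symm (upd ι (cp x) c)

/-- the linear part of `upd` -/
def updL (ι : Fin n → Fin m) : (Fin n → ℂ) →ₗ[ℂ] (Fin m → ℂ) where
  toFun := upd ι 0
  map_add' a b := by
    classical
    funext j
    simp only [Pi.add_apply, DescC_327.upd]
    split_ifs <;> simp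
  map_smul' c a := by
    classical
    funext j
    simp only [Pi.smul_apply, DescC_327.upd, RingHom.id_apply]
    split_ifs <;> simp

theorem hasFDerivAt_upd (a : Fin m → ℂ) (c : Fin n → ℂ) :
    HasFDerivAt (upd ι a) (updL ι).toContinuousLinearMap c := by
  have h1 : upd ι a = fun c => (updL ι).toContinuousLinearMap c + upd ι a 0 := by
    classical
    funext c j
    show upd ι a c j = upd ι 0 c j + upd ι a 0 j
    simp only [DescC_327.upd]
    split_ifs <;> simp
  rw [h1]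
  exact ((updL ι).toContinuousLinearMap.hasFDerivAt).add_const _

theorem exists_hm (hf : Prj ι f) (x : X) : ∃ Ω : Set (Fin n → ℂ), cp (f x) ∈ Ω ∧
    HM Ω (ls ι x) ∧ (∀ c ∈ Ω, cp (ls ι x c) = upd ι (cp x) c) ∧
    ∀ c ∈ Ω, f (ls ι x c) = (ch (f x)).symm c := by
  have hup : Continuous (upd ι (cp x : Fin m → ℂ)) :=
    continuous_iff_continuousAt.2 fun c => (hasFDerivAt_upd _ c).continuousAt
  have hbase : upd ι (cp x) (cp (f x)) = cp x := hf.upd_base x
  have h1 : ∀ᶠ c in 𝓝 (cp (f x) : Fin n → ℂ), upd ι (cp x) c ∈ (ch x).target := by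
    refine hup.continuousAt.eventually ((ch x).open_target.mem_nhds ?_)
    rw [hbase]
    exact (isCh_ch x).cp_mem (mem_ch x)
  have h2 : Tendsto (ls ι x) (𝓝 (cp (f x))) (𝓝 x) := by
    have h3 : Tendsto (upd ι (cp x)) (𝓝 (cp (f x))) (𝓝 (cp x)) := by
      have := hup.continuousAt (x := cp (f x))
      rwa [ContinuousAt, hbase] at this
    exact (VPull_327.tendsto_symm x).comp h3
  have h3 : ∀ᶠ c in 𝓝 (cp (f x) : Fin n → ℂ), f (ls ι x c) = (ch (f x)).symm c := by
    filter_upwards [h2.eventually (hf.ev_eq x), h1] with c hc hc1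
    rw [hc]
    congr 1
    have h4 : cp (ls ι x c) = upd ι (cp x) c := (isCh_ch x).cp_symm hc1
    rw [h4, DescC_327.fg_upd hf.inj]
  obtain ⟨r, hr, hball⟩ := Metric.mem_nhds_iff.1 (h1.and h3)
  have hcp : ∀ c ∈ Metric.ball (cp (f x) : Fin n → ℂ) r, cp (ls ι x c) = upd ι (cp x) c :=
    fun c hc => (isCh_ch x).cp_symm (hball hc).1
  refine ⟨Metric.ball (cp (f x)) r, Metric.mem_ball_self hr,
    ⟨Metric.isOpen_ball, convex_ball _ _, ⟨_, Metric.mem_ball_self hr⟩, ?_, ?_⟩, hcp,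
    fun c hc => (hball hc).2⟩
  · exact (ch x).symm.continuousOn.comp hup.continuousOn fun c hc => (hball hc).1
  · intro c hc
    exact ((hasFDerivAt_upd (cp x) c).differentiableAt.congr_of_eventuallyEq (by
      filter_upwards [Metric.isOpen_ball.mem_nhds hc] with y hy
      exact hcp y hy)).differentiableWithinAt

theorem fderiv_ls {x : X} {Ω : Set (Fin n → ℂ)} (ho : IsOpen Ω)
    (hcp : ∀ c ∈ Ω, cp (ls ι x c) = upd ι (cp x) c) {c : Fin n → ℂ} (hc : c ∈ Ω)
    (v : Fin n → ℂ) :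
    fderiv ℂ (fun y => (cp (ls ι x y) : Fin m → ℂ)) c v = upd ι 0 v := by
  have h1 : (fun y => (cp (ls ι x y) : Fin m → ℂ)) =ᶠ[𝓝 c] upd ι (cp x) := by
    filter_upwards [ho.mem_nhds hc] with y hy
    exact hcp y hy
  rw [h1.fderiv_eq, (hasFDerivAt_upd _ c).fderiv]
  rfl

/-- `θ` is injective in the directions `ι` -/
theorem thV_inj (hι : Function.Injective ι) {x : X} (hpos : 0 < gdet V ι x) {v : Fin n → ℂ}
    (hv : thV V x (upd ι 0 v) = 0) : v = 0 := by
  classical
  set G : Matrix (Fin n) (Fin n) ℂ := Matrix.of fun i j => gV V (ι i) (ι j) x with hG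
  have hdet : G.det ≠ 0 := by
    intro h0
    unfold VLevi_327.gdet at hpos
    rw [← hG, h0] at hpos
    exact lt_irrefl _ hpos
  refine Matrix.eq_zero_of_vecMul_eq_zero hdet ?_
  funext j
  show ∑ i, v i * gV V (ι i) (ι j) x = 0
  have h1 : thV V x (upd ι 0 v) = ∑ i, v i • dM V.P V.E (ι i) x := by
    unfold VLevi_327.thV
    symm
    refine Fintype.sum_of_injective ι hι _ _ ?_ ?_
    · intro j hj
      rw [upd_of_notMem _ _ fun i hi => hj ⟨i, hi⟩]
      simp
    · intro i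
      rw [upd_ι hι]
  rw [h1] at hv
  unfold VLevi_327.gV
  have h2 : ∑ i, v i * (dM V.P V.E (ι i) x * -VLevi_327.dMb V.P V.E (ι j) x).trace =
      ((∑ i, v i • dM V.P V.E (ι i) x) * -VLevi_327.dMb V.P V.E (ι j) x).trace := by
    rw [Finset.sum_mul, Matrix.trace_sum]
    refine Finset.sum_congr rfl fun i _ => ?_
    rw [Matrix.smul_mul, Matrix.trace_smul, smul_eq_mul]
  rw [h2, hv, Matrix.zero_mul, Matrix.trace_zero]

/-- **the good point**: at `f x`, if `ν` is at most the rank of `Levi ψ` there -/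
theorem good (h : WD V om u M0 f ι φ ψ) (x : X) {ν : ℕ}
    (hν : ∀ K : Submodule ℂ (Fin n → ℂ), (∀ v ∈ K, Levi ψ (f x) v = 0) →
      ν + Module.finrank ℂ K ≤ n) : Nonempty (CntDefs_857.Good φ ψ ν) := by
  obtain ⟨Ω, hxΩ, hm, hcp, hfs⟩ := exists_hm h.prj x
  obtain ⟨fr⟩ := BdNf1_651.exists_fr V hm
  have hx : ls ι x (cp (f x)) = x := by
    unfold ls
    rw [h.prj.upd_base, symm_cp]
  have hfd : ∀ c ∈ Ω, ∀ v, fderiv ℂ (fun y => (cp (ls ι x y) : Fin m → ℂ)) c v = upd ι 0 v :=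
    fun c hc v => fderiv_ls hm.op hcp hc v
  refine GoodLoc_442.exists_good (e := ch (f x)) (isCh_ch (f x)) (mem_ch (f x)) (fr.vhs hm) hxΩ
    (bot h.cyl hm fr) (a := 1) (g := fun c => u (ls ι x c)) ?_ ?_ ?_ one_pos ?_ ?_ (-(1 / M0 : ℝ))
    ?_ ?_ hν
  · -- `σ ≠ 0`
    rw [Ne, fr.pull_eq_zero_iff, hx]
    exact h.cyl.ne x
  · -- parallel
    exact fun z hz v => par_line h.cyl hm fr hz v
  · -- immersive
    intro v hv
    rw [GrAs1_857.th_eq fr hm hxΩ] at hv
    have h1 : ∑ j, (fderiv ℂ (fun y => (cp (ls ι x y) : Fin m → ℂ)) (cp (f x)) v) j •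
        dM V.P V.E j (ls ι x (cp (f x))) = thV V x (upd ι 0 v) := by
      rw [hfd _ hxΩ, hx]
      rfl
    rw [h1] at hv
    refine thV_inj h.prj.inj (h.pos x) ?_
    have h4 : cm (fr.g (cp (f x))) * cm (fr.g (cp (f x)))⁻¹ = 1 := cm_mul_cm_inv _
    calc thV V x (upd ι 0 v) = (cm (fr.g (cp (f x))) * cm (fr.g (cp (f x)))⁻¹) *
          thV V x (upd ι 0 v) * (cm (fr.g (cp (f x))) * cm (fr.g (cp (f x)))⁻¹) := by
          rw [h4]; simp
      _ = cm (fr.g (cp (f x))) * (cm (fr.g (cp (f x)))⁻¹ *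
          thV V x (upd ι 0 v) * cm (fr.g (cp (f x)))) * cm (fr.g (cp (f x)))⁻¹ := by
          noncomm_ring
      _ = 0 := by rw [hv]; simp
  · -- `g` analytic
    have h1 : AnalyticAt ℂ (u ∘ (ch x).symm) (upd ι (cp x) (cp (f x))) := by
      rw [h.prj.upd_base]
      exact h.uhol x
    exact h1.comp (DescC_327.upd_analytic (cp x) (cp (f x)))
  · exact h.une _
  · -- `φ`
    filter_upwards [hm.op.mem_nhds hxΩ] with z hz
    rw [← hfs z hz, h.hφ]
    have h1 := GrAs1_857.det_gm fr hm h.fl h.prj.inj hz (GoodLoc_442.fr n)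
    have h2 : (Matrix.of fun i k => (fderiv ℂ (fun y => (cp (ls ι x y) : Fin m → ℂ)) z
        (GoodLoc_442.fr n i)) (ι k)) = (1 : Matrix (Fin n) (Fin n) ℂ) := by
      ext i k
      rw [Matrix.of_apply, hfd z hz, upd_ι h.prj.inj, Matrix.one_apply]
      unfold GoodLoc_442.fr
      rw [Pi.single_apply]
      by_cases hik : i = k
      · rw [if_pos hik.symm, if_pos hik]
      · rw [if_neg (Ne.symm hik), if_neg hik]
    rw [h2, Matrix.det_one, norm_one, one_pow, one_mul] at h1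
    rw [h1]
  · -- `ψ`
    filter_upwards [hm.op.mem_nhds hxΩ] with z hz
    rw [← hfs z hz, h.hψ, one_mul]
    unfold VLevi_327.psi
    rw [hn_eq h.cyl fr hz]
    ring

/-- **the generic rank**: a good point of rank `ν`, and the rank of `Levi ψ` is `≤ ν` everywhere -/
theorem exists_nu [Nonempty X] (h : WD V om u M0 f ι φ ψ) : ∃ ν ≤ n,
    Nonempty (CntDefs_857.Good φ ψ ν) ∧ ∀ τ : M, ∃ S : Submodule ℂ (Fin n → ℂ),
      n ≤ Module.finrank ℂ S + ν ∧ ∀ v ∈ S, Levi ψ τ v = 0 := by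
  classical
  set P : ℕ → Prop := fun k => ∃ x : X, Module.finrank ℂ (kerψ h x) = k with hP
  have hex : ∃ k, P k := ⟨_, Classical.arbitrary X, rfl⟩
  obtain ⟨x, hx⟩ := Nat.find_spec hex
  set k := Nat.find hex with hk
  have hkn : k ≤ n := by
    rw [← hx]
    have := Submodule.finrank_le (kerψ h x)
    simpa using this
  refine ⟨n - k, Nat.sub_le _ _, good h x fun K hK => ?_, fun τ => ?_⟩
  · have h1 : K ≤ kerψ h x := fun v hv => (mem_kerψ h x v).2 (hK v hv)
    have h2 := Submodule.finrank_mono h1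
    rw [hx] at h2
    omega
  · obtain ⟨y, rfl⟩ := h.surj τ
    refine ⟨kerψ h y, ?_, fun v hv => (mem_kerψ h y v).1 hv⟩
    have h1 : k ≤ Module.finrank ℂ (kerψ h y) := Nat.find_min' hex ⟨y, rfl⟩
    omega

end good

end Crest.Agent.R276.Wd_450
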