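import Mathlib
import Crest.Agent.R276.WdC_450

/-!
# R276, leaf DESC-WD (helper450), part D: growth of the descended weights

`R : RMdl T L ρ a`, `h : WD V om u M0 R.q (Fin.castAdd a) φ ψ`, `u` a unit of `R.MK.B`,
`specR ξ R.MK.h ∣ R.ML.h ^ j`, `LG R.MK (psi V om)`:
* `lg_ψ : LG R.ML ψ`, `pgr_ψ : PGr R.ML (exp (c * ψ))` (any real `c`);
* `le_φ`, `pgr_φ : PGr R.ML (exp φ)`.
-/

set_option autoImplicit false
set_option linter.unusedSectionVars false

noncomputable section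

open Set Filter Topology Matrix
open Crest.Agent.R271.Ho51 Crest.Agent.R276.Ipc735
open Crest.Agent.R271.Defs710 Crest.Agent.R271.Alg255 Crest.Agent.R271.Rd692
open Crest.Agent.R276.Mod1_987
open Crest.Agent.R276.LftDefs_327 (WD)
open Crest.Agent.R276.VLevi_327 (gdet CYL psi)
open Crest.Agent.R276.SkelDefs_220 (PGr)

namespace Crest.Agent.R276.Wd_450

section one

variable {K : Type} [Field K] [Algebra ℂ K] {n : ℕ} {M : Mdl K n}

/-- `log |b|` of a unit -/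
theorem LG.log_unit (u : (M.B)ˣ) : LG M (fun y => Real.log ‖y (u : M.B)‖) := by
  have h1 := (LG.elt (M := M) (u : M.B)).add (LG.elt (M := M) ((u⁻¹ : (M.B)ˣ) : M.B))
  refine h1.mono fun y => ?_
  have h2 : y (u : M.B) * y ((u⁻¹ : (M.B)ˣ) : M.B) = 1 := by
    rw [← map_mul, Units.mul_inv, map_one]
  have h3 : y (u : M.B) ≠ 0 := left_ne_zero_of_mul_eq_one h2
  have h4 : ‖y ((u⁻¹ : (M.B)ˣ) : M.B)‖ = ‖y (u : M.B)‖⁻¹ := by
    rw [← norm_inv]
    congr 1
    exact (eq_inv_of_mul_eq_one_right h2)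
  rw [h4]
  set t := ‖y (u : M.B)‖ with ht
  have ht0 : 0 < t := norm_pos_iff.2 h3
  have h5 : 0 ≤ Real.log (1 + t) := Real.log_nonneg (by linarith)
  have h6 : 0 ≤ Real.log (1 + t⁻¹) := Real.log_nonneg (by
    have : 0 < t⁻¹ := inv_pos.2 ht0
    linarith)
  rw [abs_of_nonneg (add_nonneg h5 h6), abs_le]
  constructor
  · have h7 : Real.log t⁻¹ ≤ Real.log (1 + t⁻¹) := Real.log_le_log (inv_pos.2 ht0) (by linarith)
    rw [Real.log_inv] at h7
    linarith
  · have h7 : Real.log t ≤ Real.log (1 + t) := Real.log_le_log ht0 (by linarith)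
    linarith

/-- from logarithmic upper growth to polynomial growth -/
theorem pgr_of_le {g : M.Pts → ℝ} {C : ℝ} (hgr : ∀ y, g y ≤ C * (1 + lg M y)) :
    PGr M (fun y => Real.exp (g y)) := by
  obtain ⟨l, hl⟩ := exists_nat_ge C
  obtain ⟨D, k, j, hD, H⟩ := M.growth (az M.z M.h)
  refine ⟨Real.exp l * (1 + D) ^ l, l * (j + 1), l + k * l, fun y => ?_⟩
  set W := 1 + ∑ i, ‖M.pz y i‖ ^ 2 with hW
  have hW1 : 1 ≤ W := by
    have h0 : 0 ≤ ∑ i, ‖M.pz y i‖ ^ 2 := Finset.sum_nonneg fun _ _ => by positivity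
    linarith
  set t := ‖MvPolynomial.eval (M.pz y) M.h‖ with ht
  have ht0 : 0 < t := norm_pos_iff.2 (M.eval_h_ne y)
  have h1 : t ^ (j + 1) ≤ D * W ^ k := by
    have h2 := H y
    rw [M.apply_az'] at h2
    rw [pow_succ]
    exact h2
  have hLp : 0 ≤ Real.posLog t⁻¹ := Real.posLog_nonneg
  have hLW : 0 ≤ Real.log W := Real.log_nonneg hW1
  have h3 : g y ≤ l * (1 + Real.log W + Real.posLog t⁻¹) := by
    have h4 := hgr y
    have h5 : lg M y = Real.log W + Real.posLog t⁻¹ := rfl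
    rw [h5] at h4
    refine h4.trans ?_
    rw [← add_assoc]
    exact mul_le_mul_of_nonneg_right hl (by positivity)
  have h6 : Real.exp (g y) ≤ Real.exp l * W ^ l * (max 1 t⁻¹) ^ l := by
    have hp : Real.log (max 1 t⁻¹) = Real.posLog t⁻¹ := log_max_one (by positivity)
    have hmp : 0 < max 1 t⁻¹ := lt_max_of_lt_left one_pos
    rw [← Real.log_le_log_iff (Real.exp_pos _) (by positivity), Real.log_exp,
      Real.log_mul (by positivity) (by positivity),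
      Real.log_mul (by positivity) (by positivity), Real.log_exp, Real.log_pow, Real.log_pow, hp]
    linarith
  have h7 : (max 1 t⁻¹) ^ l * t ^ (l * (j + 1)) ≤ ((1 + D) * W ^ k) ^ l := by
    rw [mul_comm l (j + 1), pow_mul, ← mul_pow]
    refine pow_le_pow_left₀ (by positivity) ?_ l
    rcases le_total 1 t⁻¹ with h | h
    · rw [max_eq_right h]
      have ht1 : t ≤ 1 := by
        rw [one_le_inv₀ ht0] at h
        exact h
      have h8 : t⁻¹ * t ^ (j + 1) = t ^ j := by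
        rw [pow_succ]
        field_simp
      rw [h8]
      have h9 : t ^ j ≤ 1 := pow_le_one₀ ht0.le ht1
      have h10 : 1 ≤ (1 + D) * W ^ k :=
        one_le_mul_of_one_le_of_one_le (by linarith) (one_le_pow₀ hW1)
      linarith
    · rw [max_eq_left h, one_mul]
      have : 0 ≤ W ^ k := by positivity
      nlinarith
  calc Real.exp (g y) * t ^ (l * (j + 1)) ≤
        Real.exp l * W ^ l * (max 1 t⁻¹) ^ l * t ^ (l * (j + 1)) :=
        mul_le_mul_of_nonneg_right h6 (by positivity)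
    _ = Real.exp l * W ^ l * ((max 1 t⁻¹) ^ l * t ^ (l * (j + 1))) := by ring
    _ ≤ Real.exp l * W ^ l * ((1 + D) * W ^ k) ^ l :=
        mul_le_mul_of_nonneg_left h7 (by positivity)
    _ = _ := by rw [mul_pow, ← pow_mul, pow_add]; ring

/-- logarithmic upper growth from polynomial growth -/
theorem log_le_of_pgr {g : M.Pts → ℝ} (hpos : ∀ y, 0 < g y) (h : PGr M g) :
    ∃ C : ℝ, 0 ≤ C ∧ ∀ y, Real.log (g y) ≤ C * (1 + lg M y) := by
  obtain ⟨C, j, k, H⟩ := h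
  set A := max (Real.log (max C 1)) (max k j) with hA
  have hA0 : 0 ≤ A := (Nat.cast_nonneg k).trans ((le_max_left _ _).trans (le_max_right _ _))
  refine ⟨A, hA0, fun y => ?_⟩
  set W := 1 + ∑ i, ‖M.pz y i‖ ^ 2 with hW
  have hW1 : 1 ≤ W := by
    have h0 : 0 ≤ ∑ i, ‖M.pz y i‖ ^ 2 := Finset.sum_nonneg fun _ _ => by positivity
    linarith
  set t := ‖MvPolynomial.eval (M.pz y) M.h‖ with ht
  have ht0 : 0 < t := norm_pos_iff.2 (M.eval_h_ne y)
  have hm : 0 < max C 1 := lt_max_of_lt_right one_pos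
  have h1 : g y * t ^ j ≤ max C 1 * W ^ k :=
    (H y).trans (mul_le_mul_of_nonneg_right (le_max_left _ _) (by positivity))
  have h2 := Real.log_le_log (mul_pos (hpos y) (pow_pos ht0 j)) h1
  rw [Real.log_mul (hpos y).ne' (by positivity), Real.log_mul hm.ne' (by positivity),
    Real.log_pow, Real.log_pow] at h2
  have h3 : -Real.log t ≤ Real.posLog t⁻¹ := by
    rw [← Real.log_inv]
    exact le_max_right _ _
  have h4 : 0 ≤ Real.log W := Real.log_nonneg hW1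
  have h5 : 0 ≤ Real.posLog t⁻¹ := Real.posLog_nonneg
  have h6 : (k : ℝ) ≤ A := (le_max_left _ _).trans (le_max_right _ _)
  have h7 : (j : ℝ) ≤ A := (le_max_right _ _).trans (le_max_right _ _)
  have h8 : Real.log (max C 1) ≤ A := le_max_left _ _
  have h9 := mul_le_mul_of_nonneg_right h6 h4
  have h10 := mul_le_mul_of_nonneg_right h7 h5
  have h11 := mul_le_mul_of_nonneg_left h3 (Nat.cast_nonneg (α := ℝ) j)
  have h12 : lg M y = Real.log W + Real.posLog t⁻¹ := rfl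
  rw [h12]
  linarith

end one

section base

variable {T L : Type} [Field T] [Field L] [Algebra ℂ T] [Algebra ℂ L] [Algebra T L]
  [IsScalarTower ℂ T L] {ρ a : ℕ} {R : RMdl T L ρ a}

/-- the size of the points of the slice in terms of the base -/
theorem slice_lg {ξ : Cn a} {j : ℕ} (hdiv : specR ξ R.MK.h ∣ R.ML.h ^ j) :
    ∃ C : ℝ, 0 ≤ C ∧ ∀ s : R.MK.Pts, R.x s = ξ → 1 + lg R.MK s ≤ C * (1 + lg R.ML (R.q s)) := by
  obtain ⟨e, he⟩ := hdiv
  obtain ⟨c, hc⟩ := R.ML.h_unit.exists_right_inv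
  set b0 : R.ML.B := c ^ j * az R.ML.z e with hb0
  obtain ⟨C1, hC1, H1⟩ := LG.elt b0
  set X := Real.log (1 + ∑ i, ‖ξ i‖ ^ 2) with hX
  have hX0 : 0 ≤ X := Real.log_nonneg (by
    have : 0 ≤ ∑ i, ‖ξ i‖ ^ 2 := Finset.sum_nonneg fun _ _ => by positivity
    linarith)
  refine ⟨2 + X + C1, by positivity, fun s hx => ?_⟩
  set τ := R.q s with hτ
  have hlx := lg_nonneg R.ML τ
  have hpz : R.MK.pz s = Fin.append (R.ML.pz τ) ξ := by
    rw [← R.append_eq s, hx]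
  have h1 : Real.log (1 + ∑ i, ‖R.MK.pz s i‖ ^ 2) ≤
      Real.log (1 + ∑ i, ‖R.ML.pz τ i‖ ^ 2) + X := by
    have h2 : ∑ i, ‖R.MK.pz s i‖ ^ 2 = ∑ i, ‖R.ML.pz τ i‖ ^ 2 + ∑ i, ‖ξ i‖ ^ 2 := by
      rw [hpz, Fin.sum_univ_add]
      congr 1
      · exact Finset.sum_congr rfl fun i _ => by rw [Fin.append_left]
      · exact Finset.sum_congr rfl fun i _ => by rw [Fin.append_right]
    have h5 : 0 ≤ ∑ i, ‖R.ML.pz τ i‖ ^ 2 := Finset.sum_nonneg fun _ _ => by positivity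
    have h6 : 0 ≤ ∑ i, ‖ξ i‖ ^ 2 := Finset.sum_nonneg fun _ _ => by positivity
    rw [h2, hX, ← Real.log_mul (by linarith) (by linarith)]
    apply Real.log_le_log (by linarith)
    nlinarith
  have h2 : Real.posLog ‖MvPolynomial.eval (R.MK.pz s) R.MK.h‖⁻¹ ≤ C1 * (1 + lg R.ML τ) := by
    have hv : MvPolynomial.eval (R.MK.pz s) R.MK.h =
        MvPolynomial.eval (R.ML.pz τ) (specR ξ R.MK.h) := by
      rw [eval_specR, hpz]
    have h3 : τ b0 * MvPolynomial.eval (R.ML.pz τ) (specR ξ R.MK.h) = 1 := by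
      have h4 : τ c * MvPolynomial.eval (R.ML.pz τ) R.ML.h = 1 := by
        have := congrArg τ hc
        rw [map_mul, map_one, R.ML.apply_az'] at this
        rw [mul_comm]; exact this
      have h5 := congrArg (MvPolynomial.eval (R.ML.pz τ)) he
      rw [map_pow, map_mul] at h5
      rw [hb0, map_mul, map_pow, R.ML.apply_az']
      calc τ c ^ j * MvPolynomial.eval (R.ML.pz τ) e *
            MvPolynomial.eval (R.ML.pz τ) (specR ξ R.MK.h)
          = τ c ^ j * (MvPolynomial.eval (R.ML.pz τ) (specR ξ R.MK.h) *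
            MvPolynomial.eval (R.ML.pz τ) e) := by ring
        _ = τ c ^ j * MvPolynomial.eval (R.ML.pz τ) R.ML.h ^ j := by rw [h5]
        _ = 1 := by rw [← mul_pow, h4, one_pow]
    have h6 : ‖MvPolynomial.eval (R.MK.pz s) R.MK.h‖⁻¹ = ‖τ b0‖ := by
      rw [hv, ← norm_inv]
      congr 1
      exact (eq_inv_of_mul_eq_one_left h3).symm
    rw [h6]
    have h7 := (le_abs_self _).trans (H1 τ)
    refine le_trans ?_ h7
    rw [← log_max_one (norm_nonneg _)]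
    apply Real.log_le_log (lt_max_of_lt_left one_pos)
    refine max_le ?_ ?_
    · linarith [norm_nonneg (τ b0)]
    · linarith [norm_nonneg (τ b0)]
  have h4 : lg R.MK s = Real.log (1 + ∑ i, ‖R.MK.pz s i‖ ^ 2) +
    Real.posLog ‖MvPolynomial.eval (R.MK.pz s) R.MK.h‖⁻¹ := rfl
  have h5 : Real.log (1 + ∑ i, ‖R.ML.pz τ i‖ ^ 2) ≤ lg R.ML τ := by
    unfold lg
    linarith [Real.posLog_nonneg (x := ‖MvPolynomial.eval (R.ML.pz τ) R.ML.h‖⁻¹)]
  nlinarith

theorem exists_slice_pt {ξ : Cn a} {j : ℕ} (hdiv : specR ξ R.MK.h ∣ R.ML.h ^ j) (τ : R.ML.Pts) :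
    ∃ s : R.MK.Pts, R.q s = τ ∧ R.x s = ξ := by
  obtain ⟨y, hy⟩ := R.surjective_φU ⟨(τ, ξ), mem_UR R hdiv τ⟩
  exact ⟨y, congrArg (fun u : R.UR => u.1.1) hy, congrArg (fun u : R.UR => u.1.2) hy⟩

variable {N w : ℕ} {V : Ipc735.VHS (ρ + a) R.MK.Pts N w} {om : R.MK.Pts → Fin N → ℂ}
  {u : (R.MK.B)ˣ} {M0 : ℕ} {φ ψ : R.ML.Pts → ℝ}

/-- growth of `ψ` on the base -/
theorem lg_ψ (h : WD V om (fun x : R.MK.Pts => x (u : R.MK.B)) M0 (R.q : R.MK.Pts → R.ML.Pts)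
    (Fin.castAdd a) φ ψ) {ξ : Cn a} {j : ℕ} (hdiv : specR ξ R.MK.h ∣ R.ML.h ^ j)
    (hgr : LG R.MK (psi V om)) : LG R.ML ψ := by
  have h1 : LG R.MK (fun x => ψ (R.q x)) := by
    have h2 : (fun x => ψ (R.q x)) = fun x : R.MK.Pts => psi V om x -
        (1 / M0 * 2 : ℝ) * Real.log ‖x (u : R.MK.B)‖ := by
      funext x
      rw [h.hψ, Real.log_pow]
      push_cast
      ring
    rw [h2]
    exact hgr.sub ((LG.log_unit u).const_mul _)
  obtain ⟨C, hC, H⟩ := h1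
  obtain ⟨D, hD, H'⟩ := slice_lg hdiv
  refine ⟨C * D, by positivity, fun τ => ?_⟩
  obtain ⟨s, rfl, hs⟩ := exists_slice_pt hdiv τ
  calc |ψ (R.q s)| ≤ C * (1 + lg R.MK s) := H s
    _ ≤ C * (D * (1 + lg R.ML (R.q s))) := mul_le_mul_of_nonneg_left (H' s hs) hC
    _ = _ := by ring

/-- upper growth of `φ` on the base -/
theorem le_φ (h : WD V om (fun x : R.MK.Pts => x (u : R.MK.B)) M0 (R.q : R.MK.Pts → R.ML.Pts)
    (Fin.castAdd a) φ ψ) {ξ : Cn a} {j : ℕ} (hdiv : specR ξ R.MK.h ∣ R.ML.h ^ j) :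
    ∃ C : ℝ, 0 ≤ C ∧ ∀ τ, φ τ ≤ C * (1 + lg R.ML τ) := by
  have h1 : PGr R.MK (gdet V (Fin.castAdd a)) := by
    obtain ⟨C, k, l, -, H⟩ := Pd571.det_growth_sum R.MK V (Fin.castAdd a)
    refine ⟨C, l, k, fun y => ?_⟩
    rw [Pd571.gdet_eq]
    exact H y
  obtain ⟨C, hC, H⟩ := log_le_of_pgr h.pos h1
  obtain ⟨D, hD, H'⟩ := slice_lg hdiv
  refine ⟨C * D, by positivity, fun τ => ?_⟩
  obtain ⟨s, rfl, hs⟩ := exists_slice_pt hdiv τ
  calc φ (R.q s) = Real.log (gdet V (Fin.castAdd a) s) := h.hφ s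
    _ ≤ C * (1 + lg R.MK s) := H s
    _ ≤ C * (D * (1 + lg R.ML (R.q s))) := mul_le_mul_of_nonneg_left (H' s hs) hC
    _ = _ := by ring

/-- polynomial growth of `exp (c ψ)` -/
theorem pgr_ψ (h : WD V om (fun x : R.MK.Pts => x (u : R.MK.B)) M0 (R.q : R.MK.Pts → R.ML.Pts)
    (Fin.castAdd a) φ ψ) {ξ : Cn a} {j : ℕ} (hdiv : specR ξ R.MK.h ∣ R.ML.h ^ j)
    (hgr : LG R.MK (psi V om)) (c : ℝ) : PGr R.ML (fun τ => Real.exp (c * ψ τ)) := by
  obtain ⟨C, -, H⟩ := (lg_ψ h hdiv hgr).const_mul c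
  exact pgr_of_le fun τ => (le_abs_self _).trans (H τ)

/-- polynomial growth of `exp φ` -/
theorem pgr_φ (h : WD V om (fun x : R.MK.Pts => x (u : R.MK.B)) M0 (R.q : R.MK.Pts → R.ML.Pts)
    (Fin.castAdd a) φ ψ) {ξ : Cn a} {j : ℕ} (hdiv : specR ξ R.MK.h ∣ R.ML.h ^ j) :
    PGr R.ML (fun τ => Real.exp (φ τ)) := by
  obtain ⟨C, -, H⟩ := le_φ h hdiv
  exact pgr_of_le H

end base

end Crest.Agent.R276.Wd_450
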