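import Mathlib
import Crest.Agent.R276.LEv_220
import Crest.Agent.R276.LgD_870
import Crest.Agent.R276.WdD_450
import Crest.Agent.R276.AdF_327
import Crest.Agent.R276.NuF_327
import Crest.Agent.R276.C4Z_804
import Crest.Agent.R276.Cdt_231

/-!
# Row 276 (S0419), helper220: `Skel_220.LC4` from 735's `ExMem` and 563's `BdInt`

* `ev_wok` : the weights `φ`, `ψ` on `M_T` for every sufficiently small tower;
* `c4_of_wd` : (C4) on such a tower;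
* `lc4_of (hE : ExMem) (hB : BdInt) : LC4`.
-/

set_option autoImplicit false

open Set Filter Topology MeasureTheory
open scoped ENNReal

noncomputable section

namespace Crest.Agent.R276.LC4_220

open Crest.Agent.R271 Crest.Agent.R271.Defs710 Crest.Agent.R271.Rd692 Crest.Agent.R271.Ho51
open Crest.Agent.R276.Mod1_987 Crest.Agent.R276.FKDefs_779
open Crest.Agent.R276.SkelDefs_220 Crest.Agent.R276.SkelGeo_220
open Crest.Agent.R276.TowA_849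
open Crest.Agent.R276.VLevi_327 (CYL psi hn)
open Crest.Agent.R276.LftDefs_327 (WD)
open Crest.Agent.R276.Wd_450 (LG)
open Crest.Agent.R276.C4T_804 (ExMem BdInt)

variable {T L K : Type} [Field T] [Field L] [Field K] [Algebra ℂ T] [Algebra ℂ L] [Algebra ℂ K]
  [Algebra T L] [Algebra L K] [IsScalarTower ℂ T L] [IsScalarTower ℂ L K] {ρ a r : ℕ}

/-- the weights on `M_T` of a tower -/
structure WOK (W : Tow T L K ρ a r) (N : ℕ) {s : ℕ} (σ : Fin s → K) (X : GeoD W.LK N σ) where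
  hull : X.Hull
  lg : LG W.LK.ML (psi X.V X.om)
  ξ : Cn a
  j : ℕ
  dvd : specR ξ W.TL.MK.h ∣ W.TL.ML.h ^ j
  u : (W.TL.MK.B)ˣ
  M0 : ℕ
  φ : W.TL.ML.Pts → ℝ
  ψ : W.TL.ML.Pts → ℝ
  wd : WD X.V X.om (fun x : W.LK.ML.Pts => x (u : W.TL.MK.B)) M0
    (W.TL.q : W.TL.MK.Pts → W.TL.ML.Pts) (Fin.castAdd a) φ ψ

theorem ev_wok {W : Tow T L K ρ a r} {N d e₀ s e : ℕ} {σ : Fin s → K} {w : Fin (e + 1) → L}
    (h : TowOK W N d e₀ σ w) :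
    Ev W fun W' => TowOK W' N d e₀ σ w ∧ ∃ X : GeoD W'.LK N σ, Nonempty (WOK W' N σ X) := by
  have hsl : Ev W fun W' => ∃ ξ : Cn a, specR ξ W'.TL.MK.h ∣ W'.TL.ML.h ^ 2 := by
    refine ⟨1, one_ne_zero, fun s hs _ => ⟨1, one_ne_zero, fun p hp _ => ?_⟩⟩
    obtain ⟨ξ, c₀, hc₀, hc⟩ := Wd_450.exists_slice W.TL p hp
    exact ⟨c₀, hc₀, fun c hc' hd => ⟨ξ, hc c hc' hd⟩⟩
  refine ((LEv_220.lev T L K ρ a r W N d e e₀ s σ w h).and
    ((LgD_870.ev_psi h).and hsl)).mono ?_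
  rintro W' ⟨h1, h2, ξ, h3⟩
  refine ⟨h1, ?_⟩
  obtain ⟨X, hX, hXa⟩ := h1.geo
  have hconn : ∀ x : W'.TL.MK.Pts,
      IsPreconnected ((W'.TL.q : W'.TL.MK.Pts → W'.TL.ML.Pts) ⁻¹' {W'.TL.q x}) :=
    fun x => (h1.conn₁ (W'.TL.q x)).isPreconnected
  obtain ⟨u, M0, φ, ψ, hwd⟩ := Wd_450.exists_wd W'.TL X.V X.om X.cyl
    (AdF_327.adapt_fl hXa) hconn (AdF_327.adapt_pos hXa) h3 (h2 X)
  exact ⟨X, ⟨⟨hX, h2 X, ξ, 2, h3, u, M0, φ, ψ, hwd⟩⟩⟩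

/-- **(C4) on a tower with weights** -/
theorem c4_gen (hE : ExMem) (hB : BdInt) {MT : Mdl T ρ} {ML : Mdl L (ρ + a)}
    {MK : Mdl K (ρ + a + r)} (H₁ : Rel MT ML) (H₂ : Rel ML MK) {N w : ℕ}
    {V : Ipc735.VHS (ρ + a) ML.Pts N w} {om : ML.Pts → Fin N → ℂ} (hH : HulB_606.HulS V om)
    {u : ML.B} {M0 : ℕ} {φ ψ : MT.Pts → ℝ}
    (hw : WD V om (fun x : ML.Pts => x u) M0 H₁.f (Fin.castAdd a) φ ψ)
    (hg : LG ML (psi V om)) (hφ : PGr MT fun y => Real.exp (φ y))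
    (hψ : PGr MT fun y => Real.exp (ψ y)) {D : ML.Pts → ℝ} {c : ℝ} (hc : 0 < c)
    (hD : ∀ z, hn V z (om z) = c * D z) : C4 H₁ H₂ D := by
  have hu : ∀ z : ML.Pts, ‖z u‖ ^ 2 * D z ^ M0 =
      (c ^ M0)⁻¹ * Real.exp (-(M0 * ψ (H₁.f z))) := by
    intro z
    have h1 := Wd_450.norm_u hw z
    rw [hD, mul_pow] at h1
    rw [← h1]
    have h2 : c ^ M0 ≠ 0 := by positivity
    field_simp
  have hψS : Sm ψ := Wd_450.sm_ψ hw
  have hc' : 0 < (c ^ M0)⁻¹ := by positivity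
  rcases ρ with _ | d
  · exact C4Z_804.c4_zero hB hψS.continuous hw.hM hc' hu
  · refine C4T_804.c4T hE hB (Wd_450.sm_φ hw) hψS (Wd_450.psh_φ hw) (Wd_450.psh_ψ hw) hφ hψ
      hw.hM hc' hu fun S _ hSd hST => ?_
    obtain ⟨μ, hμ⟩ := Mdl.exists_leb (M := MT)
    obtain ⟨ν, hν, hgood⟩ := NuF_327.exists_nu hw
    have hp : 0 < BdNf3_651.eN N * 1 := by
      rw [mul_one]
      exact BdNf3_651.eN_pos N
    have hM := hw.hM
    exact ⟨BdNf3_651.eN N * 1, ν, μ, hp, hμ, hgood _ (by positivity), fun R hR =>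
      Cdt_231.cdt_of H₁ H₂ (hSd R hR) (hST R hR) hH hw hg hν 1 hμ⟩

theorem c4_of_wok (hE : ExMem) (hB : BdInt) {W : Tow T L K ρ a r} {N s : ℕ} {σ : Fin s → K}
    {X : GeoD W.LK N σ} (h : WOK W N σ X) (H₁ : Rel W.MT W.ML) (H₂ : Rel W.ML W.MK) :
    C4 H₁ H₂ (DR W.LK N (fr W.LK σ X.mem)) := by
  have h1 := Wd_450.pgr_φ h.wd h.dvd
  have h2 := Wd_450.pgr_ψ h.wd h.dvd h.lg 1
  simp only [one_mul] at h2
  exact c4_gen hE hB H₁ H₂ (V := X.V) (om := X.om) (u := Units.val h.u) h.hull h.wd h.lg h1 h2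
    X.c_pos X.nrm

theorem lc4_of (hE : ExMem) (hB : BdInt) : Skel_220.LC4 := by
  intro T L K _ _ _ _ _ _ _ _ _ _ ρ a r W N d e e₀ s σ w hOK
  refine (ev_wok hOK).mono ?_
  rintro W' ⟨h1, X, ⟨h2⟩⟩
  exact ⟨h1.H₁, h1.H₂, X.mem, h1.wmem, c4_of_wok hE hB h2 h1.H₁ h1.H₂⟩

end Crest.Agent.R276.LC4_220
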