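import Mathlib
import Crest.Agent.R276.LC4Skel_220
import Crest.Agent.R276.C4Mem_735
import Crest.Agent.R276.C4Triv_563

/-!
# Row 276 (S0419): `Skel_220.LC4`
-/

set_option autoImplicit false

open MeasureTheory Crest.Agent.R271.Ho51 Crest.Agent.R271.Defs710

noncomputable section

namespace Crest.Agent.R276.LC4Z_327

theorem exMem : C4T_804.ExMem := fun T _ _ d MT μ hμ φ ψ hφ hψ g1 g2 k t hk F hF =>
  C4Mem_735.exists_mem T d MT μ hμ φ ψ hφ hψ g1 g2 k t hk F hF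

theorem bdInt : C4T_804.BdInt := by
  intro T L K _ _ _ _ _ _ _ _ _ _ ρ a r MT ML MK H₁ H₂ R _ hT G hG hG0 κ hκ
  exact C4Triv_563.bdL_int H₁ H₂ R hT hG hG0 hκ

/-- **(LC4)** -/
theorem lc4 : Skel_220.LC4 := LC4_220.lc4_of exMem bdInt

end Crest.Agent.R276.LC4Z_327
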