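import Crest.Agent.R276.Skel_220
import Crest.Agent.R276.EndV_723

/-!
# Row 276, LComp (helper723): `Skel_220.LComp` and `S0419` from the eleven remaining Props.
-/

set_option autoImplicit false

noncomputable section

namespace Crest.Agent.R276.LComp_723

open Crest.Agent.R271 Crest.Agent.R276.Skel_220 Crest.Agent.R276.SkelGeo_220

/-- **(COMP)** -/
theorem lcomp : LComp := by
  intro T L K _ _ _ _ _ _ _ _ _ _ ρ a r N s e₀ d e MT ML MK H₁ H₂ u w D ε _ hN hs he₀ hε hCY
    _ _ hTC h1 h2 h3 h4 hF hJ hI _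
  exact EndC_723.kapGeF_comp H₁ H₂ hN hs he₀ hε (fun z => (hCY z).1) hTC h1 h2 h3 h4 hF hJ hI

end Crest.Agent.R276.LComp_723
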