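import Mathlib
import Crest.Agent.R276.Explc_932

/-!
# R276, A4 = Lemma F (helper126), part a: one variable analysis

* `polar`: a finite rank hermitian kernel `S(ω(ζ),ω(ζ))`, `ω` holomorphic near `0`, which depends only on
  `Re ζ`, satisfies `f ((u+c)/2) = S(ω(u),ω(c))` for small real `u, c`.
* `analyticAt_of_polar`: such an `f` is real analytic at `0`.
* `ode_of_polar`: a linear differential equation with constant coefficients near `0`.
* `finiteDimensional_tspan`: an analytic function on the line satisfying such an equation near one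
  point has finite dimensional space of translates.
* `ray`: positive, log-concave, of the above form near every point ==> `f c = f 0 * exp (a c)`.
-/

set_option autoImplicit false

namespace Crest.Agent.R276.LF_126

open Filter Topology Complex ComplexConjugate

/-! ### polarisation -/

theorem differentiableAt_conj_conj {g : ℂ → ℂ} {z : ℂ} (h : DifferentiableAt ℂ g (conj z)) :
    DifferentiableAt ℂ (fun v => conj (g (conj v))) z := by
  have := h.conj_conj
  simpa [Function.comp_def] using this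

/-- polarisation of a finite rank kernel which depends on the real part only -/
theorem polar {d : ℕ} {ω : ℂ → Fin d → ℂ} {S : Fin d → Fin d → ℂ} {f : ℝ → ℂ}
    (hω : ∀ j, AnalyticAt ℂ (fun ζ => ω ζ j) 0)
    (hf : ∀ᶠ ζ : ℂ in 𝓝 0, f ζ.re = ∑ j, ∑ k, S j k * ω ζ j * conj (ω ζ k)) :
    ∀ᶠ q : ℝ × ℝ in 𝓝 0,
      f ((q.1 + q.2) / 2) = ∑ j, ∑ k, S j k * ω q.1 j * conj (ω q.2 k) := by
  have h1 : ∀ᶠ ζ : ℂ in 𝓝 0, ∀ j, DifferentiableAt ℂ (fun ζ => ω ζ j) ζ := by
    rw [eventually_all]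
    intro j
    exact (hω j).eventually_analyticAt.mono fun z hz => hz.differentiableAt
  obtain ⟨r, hr, hball⟩ := Metric.eventually_nhds_iff_ball.1 (h1.and hf)
  have hq : ∀ᶠ q : ℝ × ℝ in 𝓝 0, |q.1| < r / 4 ∧ |q.2| < r / 4 := by
    have c1 : Tendsto (fun q : ℝ × ℝ => |q.1|) (𝓝 0) (𝓝 0) := by
      have : Continuous (fun q : ℝ × ℝ => |q.1|) := by fun_prop
      simpa using this.tendsto 0
    have c2 : Tendsto (fun q : ℝ × ℝ => |q.2|) (𝓝 0) (𝓝 0) := by
      have : Continuous (fun q : ℝ × ℝ => |q.2|) := by fun_prop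
      simpa using this.tendsto 0
    exact (c1.eventually_lt_const (by positivity)).and (c2.eventually_lt_const (by positivity))
  filter_upwards [hq] with q hq
  obtain ⟨hu, hc⟩ := hq
  set u := q.1
  set c := q.2
  set x : ℝ := (u + c) / 2 with hx
  have hxr : |x| < r / 4 := by
    rw [hx, abs_div, abs_two]
    have := abs_add_le u c
    linarith
  -- the holomorphic extension in the imaginary direction
  set g : ℂ → ℂ := fun y => ∑ j, ∑ k, S j k * ω (x + I * y) j * conj (ω (conj (x - I * y)) k)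
    with hg
  have hmem : ∀ y : ℂ, y ∈ Metric.ball (0 : ℂ) (r / 2) →
      (x + I * y) ∈ Metric.ball (0 : ℂ) r ∧ (x - I * y) ∈ Metric.ball (0 : ℂ) r := by
    intro y hy
    rw [mem_ball_zero_iff] at hy
    rw [mem_ball_zero_iff, mem_ball_zero_iff]
    constructor
    · refine lt_of_le_of_lt (norm_add_le _ _) ?_
      rw [norm_mul, norm_I, one_mul, Complex.norm_real, Real.norm_eq_abs]
      linarith
    · refine lt_of_le_of_lt (norm_sub_le _ _) ?_
      rw [norm_mul, norm_I, one_mul, Complex.norm_real, Real.norm_eq_abs]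
      linarith
  have hgd : DifferentiableOn ℂ g (Metric.ball 0 (r / 2)) := by
    intro y hy
    refine DifferentiableAt.differentiableWithinAt ?_
    obtain ⟨m1, m2⟩ := hmem y hy
    refine DifferentiableAt.fun_sum fun j _ => DifferentiableAt.fun_sum fun k _ => ?_
    refine ((differentiableAt_const _).mul ?_).mul ?_
    · have := (hball _ m1).1 j
      exact DifferentiableAt.comp (f := fun y : ℂ => (x : ℂ) + I * y) y this (by fun_prop)
    · have m2' : conj (x - I * y) ∈ Metric.ball (0 : ℂ) r := by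
        rw [mem_ball_zero_iff] at m2 ⊢
        rwa [Complex.norm_conj]
      have := differentiableAt_conj_conj ((hball _ m2').1 k)
      exact DifferentiableAt.comp (g := fun v => conj (ω (conj v) k))
        (f := fun y : ℂ => (x : ℂ) - I * y) y this (by fun_prop)
  have hga : AnalyticOnNhd ℂ g (Metric.ball 0 (r / 2)) := hgd.analyticOnNhd Metric.isOpen_ball
  have hreal : ∀ y : ℝ, (y : ℂ) ∈ Metric.ball (0 : ℂ) (r / 2) → g y = f x := by
    intro y hy
    obtain ⟨m1, m2⟩ := hmem y hy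
    have e := (hball _ m1).2
    have hre : (x + I * y : ℂ).re = x := by simp
    rw [hre] at e
    rw [e, hg]
    have hcc : conj ((x : ℂ) - I * y) = x + I * y := by simp
    simp only [hcc]
  have hfreq : ∃ᶠ z in 𝓝[≠] (0 : ℂ), g z = (fun _ => f x) z := by
    have ht : Tendsto (fun n : ℕ => (((1 : ℝ) / (n + 1) : ℝ) : ℂ)) atTop (𝓝[≠] (0 : ℂ)) := by
      refine tendsto_nhdsWithin_iff.2 ⟨?_, ?_⟩
      · have h0 := tendsto_one_div_add_atTop_nhds_zero_nat (𝕜 := ℝ)
        have := (Complex.continuous_ofReal.tendsto 0).comp h0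
        simpa [Function.comp_def] using this
      · refine Eventually.of_forall fun n => ?_
        simp only [Set.mem_compl_iff, Set.mem_singleton_iff, Complex.ofReal_eq_zero]
        positivity
    refine ht.frequently (Eventually.frequently ?_)
    have ht' : Tendsto (fun n : ℕ => (((1 : ℝ) / (n + 1) : ℝ) : ℂ)) atTop (𝓝 (0 : ℂ)) :=
      tendsto_nhdsWithin_iff.1 ht |>.1
    filter_upwards [ht'.eventually (Metric.ball_mem_nhds (0 : ℂ) (half_pos hr))] with n hn
    exact hreal _ hn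
  have hEq := hga.eqOn_of_preconnected_of_frequently_eq analyticOnNhd_const
    (convex_ball (0 : ℂ) (r / 2)).isPreconnected (Metric.mem_ball_self (half_pos hr)) hfreq
  have hy0 : (-I * ((u - c) / 2) : ℂ) ∈ Metric.ball (0 : ℂ) (r / 2) := by
    rw [mem_ball_zero_iff, norm_mul, norm_neg, norm_I, one_mul]
    have : ((u : ℂ) - c) / 2 = (((u - c) / 2 : ℝ) : ℂ) := by push_cast; ring
    rw [this, Complex.norm_real, Real.norm_eq_abs, abs_div, abs_two]
    have := abs_sub u c
    have h3 : |u - c| ≤ |u| + |c| := by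
      simpa [sub_eq_add_neg] using abs_add_le u (-c)
    linarith
  have hfin := hEq hy0
  simp only [hg] at hfin
  have e1 : (x : ℂ) + I * (-I * ((u - c) / 2)) = u := by
    have : I * (-I * (((u : ℂ) - c) / 2)) = (u - c) / 2 := by
      ring_nf; rw [I_sq]; ring
    rw [this, hx]; push_cast; ring
  have e2 : (x : ℂ) - I * (-I * ((u - c) / 2)) = c := by
    have : I * (-I * (((u : ℂ) - c) / 2)) = (u - c) / 2 := by
      ring_nf; rw [I_sq]; ring
    rw [this, hx]; push_cast; ring
  simp only [e1, e2, conj_ofReal] at hfin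
  exact hfin.symm

theorem anIter {f : ℝ → ℂ} {x : ℝ} (h : AnalyticAt ℝ f x) (m : ℕ) :
    AnalyticAt ℝ (iteratedDeriv m f) x := by
  rw [iteratedDeriv_eq_iterate]
  exact h.iterated_deriv m

theorem tendsto_two_mul : Tendsto (fun x : ℝ => ((2 * x, 0) : ℝ × ℝ)) (𝓝 0) (𝓝 0) := by
  have : Continuous (fun x : ℝ => ((2 * x, 0) : ℝ × ℝ)) := by fun_prop
  have h := this.tendsto 0
  rw [mul_zero] at h
  exact h

/-! ### analyticity -/

theorem analyticAt_of_polar {d : ℕ} {ω : ℂ → Fin d → ℂ} {S : Fin d → Fin d → ℂ} {f : ℝ → ℂ}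
    (hω : ∀ j, AnalyticAt ℂ (fun ζ => ω ζ j) 0)
    (hf : ∀ᶠ ζ : ℂ in 𝓝 0, f ζ.re = ∑ j, ∑ k, S j k * ω ζ j * conj (ω ζ k)) :
    AnalyticAt ℝ f 0 := by
  have h := polar hω hf
  have h2 := tendsto_two_mul.eventually h
  have h3 : (fun x : ℝ => ∑ j, ∑ k, S j k * ω ((2 * x : ℝ) : ℂ) j * conj (ω 0 k)) =ᶠ[𝓝 0] f := by
    filter_upwards [h2] with x hx
    simp only [add_zero, mul_div_cancel_left₀ x (two_ne_zero), Complex.ofReal_zero] at hx
    exact hx.symm
  refine AnalyticAt.congr ?_ h3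
  refine Finset.analyticAt_fun_sum _ fun j _ => Finset.analyticAt_fun_sum _ fun k _ => ?_
  refine (analyticAt_const.mul ?_).mul analyticAt_const
  have e1 : AnalyticAt ℝ (fun ζ => ω ζ j) ((2 * (0 : ℝ) : ℝ) : ℂ) := by
    simpa using (hω j).restrictScalars (𝕜 := ℝ)
  have e2 : AnalyticAt ℝ (fun x : ℝ => ((2 * x : ℝ) : ℂ)) 0 := by
    have : AnalyticAt ℝ (fun x : ℝ => Complex.ofRealCLM (2 * x)) 0 :=
      (Complex.ofRealCLM.analyticAt _).comp (analyticAt_const.mul analyticAt_id)
    exact this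
  exact AnalyticAt.fun_comp (f := fun x : ℝ => ((2 * x : ℝ) : ℂ)) (g := fun ζ => ω ζ j) e1 e2

/-! ### the differential equation -/

/-- derivatives of the kernel in the second variable -/
theorem kernel_deriv {d : ℕ} {Ω W : Fin d → ℝ → ℂ} {f : ℝ → ℂ} (hf : AnalyticOnNhd ℝ f Set.univ)
    (hW : ∀ k, AnalyticAt ℝ (W k) 0)
    (h : ∀ᶠ q : ℝ × ℝ in 𝓝 0, f ((q.1 + q.2) / 2) = ∑ k, Ω k q.1 * W k q.2) (m : ℕ) :
    ∀ᶠ q : ℝ × ℝ in 𝓝 0, iteratedDeriv m f ((q.1 + q.2) / 2) =
      2 ^ m * ∑ k, Ω k q.1 * iteratedDeriv m (W k) q.2 := by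
  induction m with
  | zero => simpa using h
  | succ m ih =>
    have hWa : ∀ᶠ q : ℝ × ℝ in 𝓝 0, ∀ k, AnalyticAt ℝ (W k) q.2 := by
      rw [eventually_all]
      intro k
      have c2 : Tendsto (fun q : ℝ × ℝ => q.2) (𝓝 0) (𝓝 0) := by
        have : Continuous (fun q : ℝ × ℝ => q.2) := by fun_prop
        simpa using this.tendsto 0
      exact c2.eventually (hW k).eventually_analyticAt
    filter_upwards [ih.eventually_nhds, hWa] with q hq hWq
    have hc : Tendsto (fun c : ℝ => ((q.1, c) : ℝ × ℝ)) (𝓝 q.2) (𝓝 q) := by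
      have : Continuous (fun c : ℝ => ((q.1, c) : ℝ × ℝ)) := by fun_prop
      exact this.tendsto q.2
    have h1 := hc.eventually hq
    have hL : HasDerivAt (fun c : ℝ => iteratedDeriv m f ((q.1 + c) / 2))
        ((1 / 2 : ℝ) • iteratedDeriv (m + 1) f ((q.1 + q.2) / 2)) q.2 := by
      have ha : HasDerivAt (iteratedDeriv m f) (iteratedDeriv (m + 1) f ((q.1 + q.2) / 2))
          ((q.1 + q.2) / 2) := by
        rw [iteratedDeriv_succ]
        exact (anIter (hf _ (Set.mem_univ _)) m).differentiableAt.hasDerivAt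
      have hb : HasDerivAt (fun c : ℝ => (q.1 + c) / 2) (1 / 2) q.2 :=
        ((hasDerivAt_id q.2).const_add q.1).div_const 2
      exact HasDerivAt.scomp q.2 ha hb
    have hR : HasDerivAt (fun c : ℝ => 2 ^ m * ∑ k, Ω k q.1 * iteratedDeriv m (W k) c)
        (2 ^ m * ∑ k, Ω k q.1 * iteratedDeriv (m + 1) (W k) q.2) q.2 := by
      refine HasDerivAt.const_mul _ (HasDerivAt.fun_sum fun k _ => HasDerivAt.const_mul _ ?_)
      rw [iteratedDeriv_succ]
      exact (anIter (hWq k) m).differentiableAt.hasDerivAt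
    have h2 := hL.unique (hR.congr_of_eventuallyEq h1)
    have h3 : iteratedDeriv (m + 1) f ((q.1 + q.2) / 2) =
        2 * ((1 / 2 : ℝ) • iteratedDeriv (m + 1) f ((q.1 + q.2) / 2)) := by
      rw [Complex.real_smul]; push_cast; ring
    rw [h3, h2]
    ring

/-- a linear differential equation with constant coefficients -/
theorem ode_of_kernel {d : ℕ} {Ω W : Fin d → ℝ → ℂ} {f : ℝ → ℂ}
    (hf : AnalyticOnNhd ℝ f Set.univ) (hW : ∀ k, AnalyticAt ℝ (W k) 0)
    (h : ∀ᶠ q : ℝ × ℝ in 𝓝 0, f ((q.1 + q.2) / 2) = ∑ k, Ω k q.1 * W k q.2) :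
    ∃ a : ℕ → ℂ, (∃ m ≤ d, a m ≠ 0) ∧
      ∀ x, ∑ m ∈ Finset.range (d + 1), a m * iteratedDeriv m f x = 0 := by
  -- linear dependence of `d+1` vectors
  have hdep : ¬ LinearIndependent ℂ (fun (m : Fin (d + 1)) (k : Fin d) => iteratedDeriv m (W k) 0) := by
    intro hli
    have := hli.fintype_card_le_finrank
    simp at this
  obtain ⟨b, hb, m0, hm0⟩ := Fintype.not_linearIndependent_iff.1 hdep
  set a : ℕ → ℂ := fun m => if hm : m < d + 1 then b ⟨m, hm⟩ / 2 ^ m else 0 with ha
  have ham : ∀ m : Fin (d + 1), a m = b m / 2 ^ (m : ℕ) := by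
    intro m
    have hm : (m : ℕ) < d + 1 := m.2
    simp only [ha, hm, dif_pos, Fin.eta]
  refine ⟨a, ⟨m0, Nat.lt_succ_iff.1 m0.2, ?_⟩, ?_⟩
  · rw [ham]
    exact div_ne_zero hm0 (pow_ne_zero _ two_ne_zero)
  have hev : ∀ᶠ x : ℝ in 𝓝 0, ∑ m ∈ Finset.range (d + 1), a m * iteratedDeriv m f x = 0 := by
    have hall : ∀ᶠ q : ℝ × ℝ in 𝓝 0, ∀ m : Fin (d + 1),
        iteratedDeriv m f ((q.1 + q.2) / 2) = 2 ^ (m : ℕ) * ∑ k, Ω k q.1 * iteratedDeriv m (W k) q.2 := by
      rw [eventually_all]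
      exact fun m => kernel_deriv hf hW h m
    filter_upwards [tendsto_two_mul.eventually hall] with x hx
    rw [Finset.sum_range]
    have e : ∀ m : Fin (d + 1), a m * iteratedDeriv m f x =
        ∑ k, Ω k (2 * x) * (b m * iteratedDeriv m (W k) 0) := by
      intro m
      have := hx m
      simp only [add_zero, mul_div_cancel_left₀ x (two_ne_zero)] at this
      rw [ham, this, div_mul_eq_mul_div, mul_left_comm, mul_div_assoc, mul_comm (2 ^ (m : ℕ)),
        div_mul_cancel₀ _ (pow_ne_zero _ two_ne_zero), Finset.mul_sum]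
      exact Finset.sum_congr rfl fun k _ => by ring
    rw [Finset.sum_congr rfl fun m _ => e m, Finset.sum_comm]
    refine Finset.sum_eq_zero fun k _ => ?_
    rw [← Finset.mul_sum]
    have hk := congrFun hb k
    simp only [Finset.sum_apply, Pi.smul_apply, smul_eq_mul, Pi.zero_apply] at hk
    rw [hk, mul_zero]
  have han : AnalyticOnNhd ℝ (fun x => ∑ m ∈ Finset.range (d + 1), a m * iteratedDeriv m f x)
      Set.univ := by
    intro x _
    refine Finset.analyticAt_fun_sum _ fun m _ => analyticAt_const.mul ?_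
    exact anIter (hf _ (Set.mem_univ _)) m
  intro x
  have := han.eq_of_eventuallyEq (g := fun _ => 0) analyticOnNhd_const (z₀ := 0) hev
  exact congrFun this x

/-! ### solutions of the equation -/

/-- analytic solutions of a constant coefficient equation -/
def Sol (d : ℕ) (a : ℕ → ℂ) : Submodule ℂ (ℝ → ℂ) where
  carrier := {h | AnalyticOnNhd ℝ h Set.univ ∧
    ∀ x, ∑ m ∈ Finset.range (d + 1), a m * iteratedDeriv m h x = 0}
  zero_mem' := by
    refine ⟨analyticOnNhd_const, fun x => Finset.sum_eq_zero fun m _ => ?_⟩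
    have : iteratedDeriv m (0 : ℝ → ℂ) x = 0 := by
      have h0 : (0 : ℝ → ℂ) = fun _ => (0 : ℂ) := rfl
      rw [h0, iteratedDeriv_const]
      simp
    rw [this, mul_zero]
  add_mem' := by
    rintro g h ⟨hg, hg2⟩ ⟨hh, hh2⟩
    refine ⟨fun x hx => (hg x hx).add (hh x hx), fun x => ?_⟩
    have e : ∀ m, iteratedDeriv m (g + h) x = iteratedDeriv m g x + iteratedDeriv m h x := fun m =>
      iteratedDeriv_add (hg x (Set.mem_univ _)).contDiffAt (hh x (Set.mem_univ _)).contDiffAt
    simp only [e, mul_add, Finset.sum_add_distrib, hg2 x, hh2 x, add_zero]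
  smul_mem' := by
    rintro c h ⟨hh, hh2⟩
    refine ⟨fun x hx => (hh x hx).const_smul (c := c), fun x => ?_⟩
    have e : ∀ m, iteratedDeriv m (c • h) x = c * iteratedDeriv m h x := fun m => by
      rw [iteratedDeriv_const_smul_field]
      rfl
    simp only [e]
    have := hh2 x
    calc ∑ m ∈ Finset.range (d + 1), a m * (c * iteratedDeriv m h x)
        = c * ∑ m ∈ Finset.range (d + 1), a m * iteratedDeriv m h x := by
          rw [Finset.mul_sum]; exact Finset.sum_congr rfl fun m _ => by ring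
      _ = 0 := by rw [this, mul_zero]

theorem mem_Sol {d : ℕ} {a : ℕ → ℂ} {h : ℝ → ℂ} : h ∈ Sol d a ↔
    (AnalyticOnNhd ℝ h Set.univ ∧
      ∀ x, ∑ m ∈ Finset.range (d + 1), a m * iteratedDeriv m h x = 0) := Iff.rfl

/-- all derivatives satisfy the equation too -/
theorem Sol_deriv {d : ℕ} {a : ℕ → ℂ} {h : ℝ → ℂ} (hh : h ∈ Sol d a) (n : ℕ) (x : ℝ) :
    ∑ m ∈ Finset.range (d + 1), a m * iteratedDeriv (m + n) h x = 0 := by
  induction n generalizing x with
  | zero => exact hh.2 x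
  | succ n ih =>
    have h1 : HasDerivAt (fun x => ∑ m ∈ Finset.range (d + 1), a m * iteratedDeriv (m + n) h x)
        (∑ m ∈ Finset.range (d + 1), a m * iteratedDeriv (m + (n + 1)) h x) x := by
      refine HasDerivAt.fun_sum fun m _ => HasDerivAt.const_mul _ ?_
      rw [← add_assoc, iteratedDeriv_succ]
      exact (anIter (hh.1 _ (Set.mem_univ _)) _).differentiableAt.hasDerivAt
    have h2 : HasDerivAt (fun x => ∑ m ∈ Finset.range (d + 1), a m * iteratedDeriv (m + n) h x)
        0 x := by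
      have : (fun x => ∑ m ∈ Finset.range (d + 1), a m * iteratedDeriv (m + n) h x) =
          fun _ => 0 := funext fun x => ih x
      rw [this]
      exact hasDerivAt_const x 0
    exact h1.unique h2

/-- a solution with vanishing derivatives below the top index vanishes -/
theorem Sol_eq_zero {d M : ℕ} {a : ℕ → ℂ} (hM : M ≤ d) (haM : a M ≠ 0)
    (hmax : ∀ m, M < m → m ≤ d → a m = 0) {h : ℝ → ℂ} (hh : h ∈ Sol d a)
    (h0 : ∀ i < M, iteratedDeriv i h 0 = 0) : h = 0 := by
  have hall : ∀ n, iteratedDeriv n h 0 = 0 := by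
    intro n
    induction n using Nat.strong_induction_on with
    | _ n ih =>
      rcases lt_or_ge n M with hn | hn
      · exact h0 n hn
      · obtain ⟨j, rfl⟩ := Nat.exists_eq_add_of_le hn
        have h1 := Sol_deriv hh j 0
        have h2 : ∑ m ∈ Finset.range (d + 1), a m * iteratedDeriv (m + j) h 0 =
            a M * iteratedDeriv (M + j) h 0 := by
          refine Finset.sum_eq_single_of_mem M (Finset.mem_range.2 (Nat.lt_succ_of_le hM)) ?_
          intro m hm hne
          rcases lt_or_gt_of_ne hne with hlt | hgt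
          · rw [ih (m + j) (by omega), mul_zero]
          · rw [hmax m hgt (Nat.lt_succ_iff.1 (Finset.mem_range.1 hm)), zero_mul]
        rw [h2] at h1
        exact (mul_eq_zero.1 h1).resolve_left haM
  have hord : analyticOrderAt h 0 = ⊤ := by
    rw [ENat.eq_top_iff_forall_ge]
    intro n
    exact (natCast_le_analyticOrderAt_iff_iteratedDeriv_eq_zero
      (hh.1 0 (Set.mem_univ _))).2 fun i _ => hall i
  have hev := analyticOrderAt_eq_top.1 hord
  exact hh.1.eq_of_eventuallyEq (g := fun _ => 0) analyticOnNhd_const (z₀ := 0) hev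

theorem finiteDimensional_Sol {d : ℕ} {a : ℕ → ℂ} (ha : ∃ m ≤ d, a m ≠ 0) :
    FiniteDimensional ℂ (Sol d a) := by
  classical
  -- the top index
  obtain ⟨m0, hm0, ham0⟩ := ha
  let T : Finset ℕ := (Finset.range (d + 1)).filter fun m => a m ≠ 0
  have hT : T.Nonempty := ⟨m0, by simp [T, ham0]; omega⟩
  set M := T.max' hT with hMdef
  have hMT : M ∈ T := T.max'_mem hT
  have hMd : M ≤ d := by
    have := (Finset.mem_filter.1 hMT).1
    exact Nat.lt_succ_iff.1 (Finset.mem_range.1 this)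
  have haM : a M ≠ 0 := (Finset.mem_filter.1 hMT).2
  have hmax : ∀ m, M < m → m ≤ d → a m = 0 := by
    intro m hlt hle
    by_contra hne
    have : m ∈ T := Finset.mem_filter.2 ⟨Finset.mem_range.2 (Nat.lt_succ_of_le hle), hne⟩
    exact absurd (T.le_max' m this) (not_le.2 hlt)
  let ev : Sol d a →ₗ[ℂ] (Fin M → ℂ) :=
    { toFun := fun h i => iteratedDeriv i (h : ℝ → ℂ) 0
      map_add' := fun g h => by
        funext i
        exact iteratedDeriv_add (g.2.1 0 (Set.mem_univ _)).contDiffAt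
          (h.2.1 0 (Set.mem_univ _)).contDiffAt
      map_smul' := fun c h => by
        funext i
        have := iteratedDeriv_const_smul_field (𝕜 := ℝ) (n := i) (x := 0) c (h : ℝ → ℂ)
        exact this }
  refine FiniteDimensional.of_injective ev ?_
  rw [injective_iff_map_eq_zero]
  intro h hh
  refine Subtype.ext (Sol_eq_zero hMd haM hmax h.2 fun i hi => ?_)
  exact congrFun hh ⟨i, hi⟩

/-- finite dimensional space of translates -/
theorem finiteDimensional_tspan {d : ℕ} {a : ℕ → ℂ} {f : ℝ → ℂ} (hf : f ∈ Sol d a)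
    (ha : ∃ m ≤ d, a m ≠ 0) : FiniteDimensional ℂ (Explc_932.tspan f) := by
  have := finiteDimensional_Sol ha
  refine Submodule.finiteDimensional_of_le (S₂ := Sol d a) ?_
  unfold Explc_932.tspan
  rw [Submodule.span_le]
  rintro _ ⟨s, rfl⟩
  refine ⟨?_, fun x => ?_⟩
  · intro x _
    have h1 : AnalyticAt ℝ f (x + s) := hf.1 _ (Set.mem_univ _)
    have h2 : AnalyticAt ℝ (fun c : ℝ => c + s) x := analyticAt_id.add analyticAt_const
    exact AnalyticAt.fun_comp (f := fun c : ℝ => c + s) (g := f) h1 h2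
  · have e : ∀ m, iteratedDeriv m (Explc_932.trans s f) x = iteratedDeriv m f (x + s) := fun m =>
      congrFun (iteratedDeriv_comp_add_const m f s) x
    simp only [e]
    exact hf.2 (x + s)

/-! ### the conclusion on one orbit -/

/-- the local input at a point `x₀`: near `x₀` the function `ζ ↦ f (x₀ + Re ζ)` is a finite rank
hermitian kernel with holomorphic `ω` -/
def FinRankAt (d : ℕ) (f : ℝ → ℝ) (x₀ : ℝ) : Prop :=
  ∃ (ω : ℂ → Fin d → ℂ) (S : Fin d → Fin d → ℂ), (∀ j, AnalyticAt ℂ (fun ζ => ω ζ j) 0) ∧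
    ∀ᶠ ζ : ℂ in 𝓝 0, (f (x₀ + ζ.re) : ℂ) = ∑ j, ∑ k, S j k * ω ζ j * conj (ω ζ k)

theorem FinRankAt.analyticAt {d : ℕ} {f : ℝ → ℝ} {x₀ : ℝ} (h : FinRankAt d f x₀) :
    AnalyticAt ℝ (fun x => (f x : ℂ)) x₀ := by
  obtain ⟨ω, S, hω, hf⟩ := h
  have h1 := analyticAt_of_polar (f := fun x => (f (x₀ + x) : ℂ)) hω hf
  have h2 : AnalyticAt ℝ (fun x : ℝ => x - x₀) x₀ := analyticAt_id.sub analyticAt_const
  have h1' : AnalyticAt ℝ (fun x => (f (x₀ + x) : ℂ)) (x₀ - x₀) := by simpa using h1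
  have h3 := AnalyticAt.fun_comp (f := fun x : ℝ => x - x₀) (g := fun x => (f (x₀ + x) : ℂ)) h1' h2
  simpa using h3

theorem FinRankAt.analyticAt_real {d : ℕ} {f : ℝ → ℝ} {x₀ : ℝ} (h : FinRankAt d f x₀) :
    AnalyticAt ℝ f x₀ := by
  have h1 := h.analyticAt
  exact AnalyticAt.fun_comp (f := fun x => (f x : ℂ)) (g := fun z : ℂ => Complex.reCLM z)
    (Complex.reCLM.analyticAt _) h1

/-- **the conclusion on one orbit**: positive + local finite rank + second derivative of the
logarithm `≤ 0` ==> exponential -/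
theorem ray {d : ℕ} {f : ℝ → ℝ} (hpos : ∀ x, 0 < f x) (hfin : ∀ x, FinRankAt d f x)
    (hconc : ∀ x, deriv (deriv fun u => Real.log (f u)) x ≤ 0) :
    ∃ a : ℝ, ∀ x, f x = f 0 * Real.exp (a * x) := by
  have hfa : AnalyticOnNhd ℝ f Set.univ := fun x _ => (hfin x).analyticAt_real
  have hfc : AnalyticOnNhd ℝ (fun x => (f x : ℂ)) Set.univ := fun x _ => (hfin x).analyticAt
  have hlog : ∀ x, AnalyticAt ℝ (fun u => Real.log (f u)) x := fun x =>
    (hfa x (Set.mem_univ _)).log (hpos x)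
  have hcon : ConcaveOn ℝ Set.univ (fun u => Real.log (f u)) := by
    refine concaveOn_univ_of_deriv2_nonpos (fun x => (hlog x).differentiableAt)
      (fun x => (hlog x).deriv.differentiableAt) fun x => ?_
    simpa using hconc x
  obtain ⟨ω, S, hω, h0⟩ := hfin 0
  have hpol := polar (f := fun x => (f (0 + x) : ℂ)) hω h0
  set Ω : Fin d → ℝ → ℂ := fun k u => ∑ j, S j k * ω u j with hΩ
  set W : Fin d → ℝ → ℂ := fun k c => conj (ω c k) with hWdef
  set F : ℝ → ℂ := fun x => (f x : ℂ) with hF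
  have hker : ∀ᶠ q : ℝ × ℝ in 𝓝 0, F ((q.1 + q.2) / 2) = ∑ k, Ω k q.1 * W k q.2 := by
    filter_upwards [hpol] with q hq
    rw [zero_add] at hq
    have e : F ((q.1 + q.2) / 2) = (f ((q.1 + q.2) / 2) : ℂ) := rfl
    rw [e, hq, Finset.sum_comm]
    exact Finset.sum_congr rfl fun k _ => by rw [hΩ, Finset.sum_mul]
  have hW : ∀ k : Fin d, AnalyticAt ℝ (W k) 0 := by
    intro k
    have e1 : AnalyticAt ℝ (fun ζ => ω ζ k) ((0 : ℝ) : ℂ) := by
      have := (hω k).restrictScalars (𝕜 := ℝ)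
      rwa [Complex.ofReal_zero]
    have e2 : AnalyticAt ℝ (fun x : ℝ => (x : ℂ)) 0 := Complex.ofRealCLM.analyticAt _
    have e3 := AnalyticAt.fun_comp (f := fun x : ℝ => (x : ℂ)) (g := fun ζ => ω ζ k) e1 e2
    exact AnalyticAt.fun_comp (f := fun x : ℝ => ω x k)
      (g := fun z : ℂ => (Complex.conjCLE : ℂ →L[ℝ] ℂ) z)
      ((Complex.conjCLE : ℂ →L[ℝ] ℂ).analyticAt _) e3
  obtain ⟨a, ha, hode⟩ := ode_of_kernel hfc hW hker
  have hfd := finiteDimensional_tspan (f := fun x => (f x : ℂ)) ⟨hfc, hode⟩ ha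
  obtain ⟨C, b, _, hC⟩ := Explc_932.explc hpos hcon hfd
  refine ⟨b, fun x => ?_⟩
  rw [hC x, hC 0]
  simp

end Crest.Agent.R276.LF_126
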