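import Mathlib
import Crest.Agent.R276.LFa_126

/-!
# R276, A4 = Lemma F (helper126), part b: the abstract lemma

`D b ζ y = (exp (ζ b_j) y_j)_j` acts on `ℂⁿ`, `b` real.  `ν` is a measure carried by `Y`, `ρ > 0` a
continuous density on `Y` such that `μ = ρ ν` is finite and invariant under `D b (iθ)`, `ν` is
multiplied by a constant under `D b x`, `ρ` is a finite rank kernel with `- log ρ` psh along the
orbits.  Then `b = 0` (if all coordinates have finite non zero `p`-norm).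
-/

set_option autoImplicit false

namespace Crest.Agent.R276.LF_126

open Filter Topology Complex ComplexConjugate MeasureTheory
open scoped ENNReal

variable {n : ℕ}

/-- the diagonal action -/
noncomputable def D (b : Fin n → ℝ) (ζ : ℂ) (y : Fin n → ℂ) : Fin n → ℂ :=
  fun j => Complex.exp (ζ * b j) * y j

@[simp] theorem D_zero (b : Fin n → ℝ) (y : Fin n → ℂ) : D b 0 y = y := by
  funext j; simp [D]

theorem D_add (b : Fin n → ℝ) (z w : ℂ) (y : Fin n → ℂ) : D b z (D b w y) = D b (z + w) y := by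
  funext j
  simp only [D]
  rw [← mul_assoc, ← Complex.exp_add, ← add_mul]

theorem continuous_D (b : Fin n → ℝ) : Continuous fun q : ℂ × (Fin n → ℂ) => D b q.1 q.2 := by
  refine continuous_pi fun j => ?_
  simp only [D]
  fun_prop

theorem measurable_D (b : Fin n → ℝ) (z : ℂ) : Measurable (D b z) := by
  refine Continuous.measurable ?_
  exact (continuous_D b).comp (Continuous.prodMk_right z)

/-- `D b z` as a homeomorphism -/
noncomputable def DH (b : Fin n → ℝ) (z : ℂ) : (Fin n → ℂ) ≃ₜ (Fin n → ℂ) where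
  toFun := D b z
  invFun := D b (-z)
  left_inv y := by rw [D_add, neg_add_cancel, D_zero]
  right_inv y := by rw [D_add, add_neg_cancel, D_zero]
  continuous_toFun := (continuous_D b).comp (Continuous.prodMk_right z)
  continuous_invFun := (continuous_D b).comp (Continuous.prodMk_right (-z))

/-- the hypotheses of the abstract Lemma F -/
structure Data (n : ℕ) (b : Fin n → ℝ) (p : ℝ) (Y : Set (Fin n → ℂ)) (ν : Measure (Fin n → ℂ))
    (ρ : (Fin n → ℂ) → ℝ) (κ : ℝ) (d : ℕ) : Prop where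
  /-- `ν` is carried by `Y` -/
  nullY : ν Yᶜ = 0
  measY : MeasurableSet Y
  measρ : Measurable ρ
  posρ : ∀ y ∈ Y, 0 < ρ y
  contρ : ContinuousOn ρ Y
  /-- `ν` is positive on neighbourhoods of points of `Y` -/
  suppν : ∀ y ∈ Y, ∀ U ∈ 𝓝 y, ν U ≠ 0
  sfin : SigmaFinite ν
  /-- `μ = ρ ν` is finite and not zero -/
  fin : ∫⁻ y, ENNReal.ofReal (ρ y) ∂ν ≠ ∞
  /-- transformation of `ν` under the real flow -/
  mapν : ∀ x : ℝ, ν.map (D b x) = ENNReal.ofReal (Real.exp (-(κ * x))) • ν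
  /-- invariance of `ν` under the imaginary flow -/
  invν : ∀ θ : ℝ, ν.map (D b (I * θ)) = ν
  /-- invariance of `μ` under the imaginary flow -/
  invμ : ∀ θ : ℝ, (ν.withDensity fun y => ENNReal.ofReal (ρ y)).map (D b (I * θ)) =
    ν.withDensity fun y => ENNReal.ofReal (ρ y)
  /-- openness along orbits -/
  openY : ∀ y ∈ Y, ∀ᶠ z : ℂ in 𝓝 0, D b z y ∈ Y
  /-- the bad set of an orbit is countable -/
  badY : ∀ y ∈ Y, {z : ℂ | D b z y ∉ Y}.Countable
  /-- finite rank along orbits -/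
  rank : ∀ y ∈ Y, ∃ (ω : ℂ → Fin d → ℂ) (S : Fin d → Fin d → ℂ),
    (∀ j, AnalyticAt ℂ (fun ζ => ω ζ j) 0) ∧
    ∀ᶠ ζ : ℂ in 𝓝 0, (ρ (D b ζ y) : ℂ) = ∑ j, ∑ k, S j k * ω ζ j * conj (ω ζ k)
  /-- the coordinates have finite non zero `p`-norm -/
  coord : ∀ j, ∫⁻ y, ENNReal.ofReal (‖y j‖ ^ p) * ENNReal.ofReal (ρ y) ∂ν ≠ 0 ∧
    ∫⁻ y, ENNReal.ofReal (‖y j‖ ^ p) * ENNReal.ofReal (ρ y) ∂ν ≠ ∞

/-- `- log ρ` is subharmonic along orbits (infinitesimal form, real direction; see `conc_of_circle`,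
`conc_of_laplacian` below) -/
def Conc (b : Fin n → ℝ) (Y : Set (Fin n → ℂ)) (ρ : (Fin n → ℂ) → ℝ) : Prop :=
  ∀ y ∈ Y, deriv (deriv fun u : ℝ => Real.log (ρ (D b u y))) 0 ≤ 0

variable {b : Fin n → ℝ} {p : ℝ} {Y : Set (Fin n → ℂ)} {ν : Measure (Fin n → ℂ)}
  {ρ : (Fin n → ℂ) → ℝ} {κ : ℝ} {d : ℕ}

/-- null sets of `ν` are preserved -/
theorem Data.ae_mem (h : Data n b p Y ν ρ κ d) (z : ℂ) : ∀ᵐ y ∂ν, D b z y ∈ Y := by
  have e1 : ∀ θ : ℝ, ∀ (A : Set (Fin n → ℂ)), MeasurableSet A → ν A = 0 →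
      ν (D b (I * θ) ⁻¹' A) = 0 := by
    intro θ A hA h0
    rw [← Measure.map_apply (measurable_D b _) hA, h.invν, h0]
  have e2 : ∀ x : ℝ, ∀ (A : Set (Fin n → ℂ)), MeasurableSet A → ν A = 0 →
      ν (D b x ⁻¹' A) = 0 := by
    intro x A hA h0
    rw [← Measure.map_apply (measurable_D b _) hA, h.mapν, Measure.smul_apply, h0, smul_zero]
  have h1 : ν (D b (I * z.im) ⁻¹' (D b z.re ⁻¹' Yᶜ)) = 0 := by
    refine e1 _ _ (measurable_D b _ h.measY.compl) ?_
    exact e2 _ _ h.measY.compl h.nullY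
  rw [ae_iff]
  convert h1 using 2
  ext y
  simp only [Set.mem_ofPred_eq, Set.mem_preimage, Set.mem_compl_iff, D_add]
  have : (z.re : ℂ) + I * z.im = z := by
    rw [mul_comm]; exact Complex.re_add_im z
  rw [this]

/-- the density is invariant under the imaginary flow -/
theorem Data.inv_dens (h : Data n b p Y ν ρ κ d) (θ : ℝ) {y : Fin n → ℂ} (hy : y ∈ Y)
    (hy2 : D b (I * θ) y ∈ Y) : ρ (D b (I * θ) y) = ρ y := by
  have := h.sfin
  -- almost everywhere
  have hm1 : Measurable fun y => ENNReal.ofReal (ρ y) := h.measρ.ennreal_ofReal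
  have hm2 : Measurable fun y => ENNReal.ofReal (ρ (D b (I * θ) y)) :=
    (h.measρ.comp (measurable_D b _)).ennreal_ofReal
  have hae : ∀ᵐ y ∂ν, ρ (D b (I * θ) y) = ρ y := by
    have key : ν.withDensity (fun y => ENNReal.ofReal (ρ (D b (I * θ) y))) =
        ν.withDensity (fun y => ENNReal.ofReal (ρ y)) := by
      -- apply the push forward by `D (iθ)`
      have hinj : Function.Injective (Measure.map (DH b (I * θ)) :
          Measure (Fin n → ℂ) → Measure (Fin n → ℂ)) := by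
        intro a c hac
        have e := congrArg (Measure.map (DH b (I * θ)).symm) hac
        have hmeas : Measurable (DH b (I * θ)) := (DH b (I * θ)).measurable
        have hmeas' : Measurable (DH b (I * θ)).symm := (DH b (I * θ)).symm.measurable
        rw [Measure.map_map hmeas' hmeas, Measure.map_map hmeas' hmeas] at e
        simpa using e
      apply hinj
      have e1 : Measure.map (DH b (I * θ)) (ν.withDensity (fun y => ENNReal.ofReal (ρ y))) =
          ν.withDensity (fun y => ENNReal.ofReal (ρ y)) := h.invμ θ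
      rw [e1]
      ext A hA
      rw [Measure.map_apply (DH b (I * θ)).measurable hA,
        withDensity_apply _ ((DH b (I * θ)).measurable hA), withDensity_apply _ hA]
      have e2 : ν.map (DH b (I * θ)) = ν := h.invν θ
      conv_rhs => rw [← e2]
      rw [setLIntegral_map hA hm1 (DH b (I * θ)).measurable]
      rfl
    have hfin2 : ∫⁻ y, ENNReal.ofReal (ρ (D b (I * θ) y)) ∂ν ≠ ∞ := by
      have := congrArg (fun m : Measure (Fin n → ℂ) => m Set.univ) key
      simp only [withDensity_apply _ MeasurableSet.univ, Measure.restrict_univ] at this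
      rw [this]; exact h.fin
    have h3 := (withDensity_eq_iff hm2.aemeasurable hm1.aemeasurable hfin2).1 key
    filter_upwards [h3, h.ae_mem 0, h.ae_mem (I * θ)] with z hz hz0 hz1
    rw [D_zero] at hz0
    have p1 := h.posρ z hz0
    have p2 := h.posρ _ hz1
    exact (ENNReal.ofReal_eq_ofReal_iff p2.le p1.le).1 hz
  -- continuity
  by_contra hne
  have hcont : ContinuousOn (fun y => ρ (D b (I * θ) y) - ρ y) (Y ∩ D b (I * θ) ⁻¹' Y) := by
    refine ContinuousOn.sub ?_ (h.contρ.mono Set.inter_subset_left)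
    refine h.contρ.comp ((DH b (I * θ)).continuous.continuousOn) ?_
    exact fun z hz => hz.2
  have hev : ∀ᶠ z in 𝓝[Y ∩ D b (I * θ) ⁻¹' Y] y, ρ (D b (I * θ) z) - ρ z ≠ 0 :=
    (hcont y ⟨hy, hy2⟩).eventually_ne (sub_ne_zero.2 hne)
  rw [eventually_nhdsWithin_iff] at hev
  have hU := h.suppν y hy _ hev
  apply hU
  have : ∀ᵐ z ∂ν, ¬ (z ∈ Y ∩ D b (I * θ) ⁻¹' Y → ρ (D b (I * θ) z) - ρ z ≠ 0) := by
    filter_upwards [hae, h.ae_mem 0, h.ae_mem (I * θ)] with z hz hz0 hz1 hcon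
    rw [D_zero] at hz0
    exact hcon ⟨hz0, hz1⟩ (sub_eq_zero.2 hz)
  rw [ae_iff] at this
  simpa using this

/-! ### the function on one orbit -/

theorem Data.exists_th (h : Data n b p Y ν ρ κ d) {y : Fin n → ℂ} (hy : y ∈ Y) (x : ℝ) :
    ∃ θ : ℝ, D b (x + I * θ) y ∈ Y := by
  by_contra hcon
  push Not at hcon
  have hinj : Function.Injective (fun θ : ℝ => (x : ℂ) + I * θ) := by
    intro s t hst
    have := congrArg Complex.im hst
    simpa using this
  have hc : (Set.univ : Set ℝ).Countable := by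
    refine Set.Countable.mono ?_ ((h.badY y hy).preimage_of_injOn (f := fun θ : ℝ => (x : ℂ) + I * θ)
      hinj.injOn)
    intro θ _
    exact hcon θ
  exact Cardinal.not_countable_real hc

/-- the choice of an imaginary shift -/
noncomputable def th (b : Fin n → ℝ) (Y : Set (Fin n → ℂ)) (y : Fin n → ℂ) (x : ℝ) : ℝ := by
  classical exact if h : ∃ θ : ℝ, D b (x + I * θ) y ∈ Y then h.choose else 0

theorem Data.th_spec (h : Data n b p Y ν ρ κ d) {y : Fin n → ℂ} (hy : y ∈ Y) (x : ℝ) :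
    D b (x + I * th b Y y x) y ∈ Y := by
  have hx := h.exists_th hy x
  unfold th
  rw [dif_pos hx]
  exact hx.choose_spec

/-- the density on the orbit, as a function on the line -/
noncomputable def fy (b : Fin n → ℝ) (Y : Set (Fin n → ℂ)) (ρ : (Fin n → ℂ) → ℝ) (y : Fin n → ℂ)
    (x : ℝ) : ℝ := ρ (D b (x + I * th b Y y x) y)

theorem Data.fy_eq (h : Data n b p Y ν ρ κ d) {y : Fin n → ℂ} (hy : y ∈ Y) {x θ : ℝ}
    (hθ : D b (x + I * θ) y ∈ Y) : ρ (D b (x + I * θ) y) = fy b Y ρ y x := by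
  have h1 := h.th_spec hy x
  have e : D b (I * ((θ - th b Y y x : ℝ) : ℂ)) (D b (x + I * th b Y y x) y) =
      D b (x + I * θ) y := by
    rw [D_add]
    congr 1
    push_cast; ring
  have := h.inv_dens (θ - th b Y y x) h1 (by rw [e]; exact hθ)
  rw [e] at this
  exact this

theorem Data.fy_local (h : Data n b p Y ν ρ κ d) {y : Fin n → ℂ} (hy : y ∈ Y) (x : ℝ) :
    ∃ y₁ ∈ Y, ∀ᶠ ζ : ℂ in 𝓝 0, fy b Y ρ y (x + ζ.re) = ρ (D b ζ y₁) := by
  refine ⟨D b (x + I * th b Y y x) y, h.th_spec hy x, ?_⟩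
  filter_upwards [h.openY _ (h.th_spec hy x)] with ζ hζ
  have e : D b ζ (D b (x + I * th b Y y x) y) =
      D b (((x + ζ.re : ℝ) : ℂ) + I * ((th b Y y x + ζ.im : ℝ) : ℂ)) y := by
    rw [D_add]
    congr 1
    push_cast
    conv_lhs => rw [← Complex.re_add_im ζ]
    ring
  rw [e] at hζ ⊢
  exact (h.fy_eq hy hζ).symm

theorem Data.orbit (h : Data n b p Y ν ρ κ d) (hc : Conc b Y ρ) {y : Fin n → ℂ} (hy : y ∈ Y) :
    ∃ a : ℝ, ∀ x : ℝ, D b x y ∈ Y → ρ (D b x y) = ρ y * Real.exp (a * x) := by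
  have hpos : ∀ x, 0 < fy b Y ρ y x := fun x => h.posρ _ (h.th_spec hy x)
  have hfin : ∀ x, FinRankAt d (fy b Y ρ y) x := by
    intro x
    obtain ⟨y₁, hy₁, hev⟩ := h.fy_local hy x
    obtain ⟨ω, S, hω, hS⟩ := h.rank y₁ hy₁
    refine ⟨ω, S, hω, ?_⟩
    filter_upwards [hev, hS] with ζ e1 e2
    rw [e1, e2]
  have hconc : ∀ x, deriv (deriv fun u => Real.log (fy b Y ρ y u)) x ≤ 0 := by
    intro x
    obtain ⟨y₁, hy₁, hev⟩ := h.fy_local hy x
    have h1 : Tendsto (fun u : ℝ => ((u - x : ℝ) : ℂ)) (𝓝 x) (𝓝 0) := by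
      have : Continuous (fun u : ℝ => ((u - x : ℝ) : ℂ)) := by fun_prop
      have := this.tendsto x
      simpa using this
    have h2 : (fun u => Real.log (fy b Y ρ y u)) =ᶠ[𝓝 x]
        fun u => (fun v : ℝ => Real.log (ρ (D b v y₁))) (u - x) := by
      filter_upwards [h1.eventually hev] with u hu
      rw [Complex.ofReal_re, add_sub_cancel] at hu
      rw [hu]
    rw [(h2.deriv).deriv_eq]
    have h3 : (deriv fun u => (fun v : ℝ => Real.log (ρ (D b v y₁))) (u - x)) =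
        fun u => (deriv fun v : ℝ => Real.log (ρ (D b v y₁))) (u - x) := by
      funext u
      exact deriv_comp_sub_const (f := fun v : ℝ => Real.log (ρ (D b v y₁))) x u
    rw [h3]
    have h4 := deriv_comp_sub_const (f := deriv fun v : ℝ => Real.log (ρ (D b v y₁))) x x
    rw [h4, sub_self]
    exact hc y₁ hy₁
  obtain ⟨a, ha⟩ := ray hpos hfin hconc
  have h0 : fy b Y ρ y 0 = ρ y := by
    have e : D b (((0 : ℝ) : ℂ) + I * ((0 : ℝ) : ℂ)) y = y := by simp
    have := h.fy_eq hy (x := 0) (θ := 0) (by rw [e]; exact hy)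
    rw [e] at this
    exact this.symm
  refine ⟨a, fun x hx => ?_⟩
  have e : D b ((x : ℂ) + I * ((0 : ℝ) : ℂ)) y = D b x y := by simp
  have := h.fy_eq hy (x := x) (θ := 0) (by rw [e]; exact hx)
  rw [e] at this
  rw [this, ha x, h0]

/-! ### criteria for `Conc` -/

/-- near a point of `Y` the logarithm of the density depends on the real part only -/
theorem Data.re_only (h : Data n b p Y ν ρ κ d) {y : Fin n → ℂ} (hy : y ∈ Y) :
    ∀ᶠ ζ : ℂ in 𝓝 0, ρ (D b ζ y) = ρ (D b (ζ.re : ℂ) y) := by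
  have h1 : Tendsto (fun ζ : ℂ => (ζ.re : ℂ)) (𝓝 0) (𝓝 0) := by
    have : Continuous (fun ζ : ℂ => (ζ.re : ℂ)) := by fun_prop
    simpa using this.tendsto 0
  filter_upwards [h.openY y hy, h1.eventually (h.openY y hy)] with ζ e1 e2
  have e : D b (I * (ζ.im : ℂ)) (D b (ζ.re : ℂ) y) = D b ζ y := by
    rw [D_add]
    congr 1
    conv_rhs => rw [← Complex.re_add_im ζ]
    ring
  have := h.inv_dens ζ.im e2 (by rw [e]; exact e1)
  rwa [e] at this

/-- Laplacian form -/
theorem Data.conc_of_laplacian (h : Data n b p Y ν ρ κ d)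
    (hl : ∀ y ∈ Y, deriv (deriv fun u : ℝ => Real.log (ρ (D b u y))) 0 +
      deriv (deriv fun u : ℝ => Real.log (ρ (D b (I * u) y))) 0 ≤ 0) : Conc b Y ρ := by
  intro y hy
  have h1 : Tendsto (fun u : ℝ => I * (u : ℂ)) (𝓝 0) (𝓝 0) := by
    have : Continuous (fun u : ℝ => I * (u : ℂ)) := by fun_prop
    simpa using this.tendsto 0
  have h2 : (fun u : ℝ => Real.log (ρ (D b (I * u) y))) =ᶠ[𝓝 0] fun _ => Real.log (ρ y) := by
    filter_upwards [h1.eventually (h.re_only hy)] with u hu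
    rw [hu]
    simp
  have h3 : deriv (deriv fun u : ℝ => Real.log (ρ (D b (I * u) y))) 0 = 0 := by
    rw [h2.deriv.deriv_eq]
    simp
  have := hl y hy
  rwa [h3, add_zero] at this

/-- the orbit function is analytic -/
theorem Data.analyticAt_orbit (h : Data n b p Y ν ρ κ d) {y : Fin n → ℂ} (hy : y ∈ Y) :
    AnalyticAt ℝ (fun u : ℝ => ρ (D b u y)) 0 := by
  obtain ⟨ω, S, hω, hS⟩ := h.rank y hy
  have : FinRankAt d (fun u : ℝ => ρ (D b u y)) 0 := by
    refine ⟨ω, S, hω, ?_⟩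
    filter_upwards [h.re_only hy, hS] with ζ e1 e2
    rw [zero_add, ← e1, e2]
  exact this.analyticAt_real

/-- a `C²` function with positive second derivative has large circle means -/
theorem circle_lt {g : ℝ → ℝ} (hg : AnalyticAt ℝ g 0) (hpos : 0 < deriv (deriv g) 0) :
    ∃ c > 0, ∀ᶠ x in 𝓝 (0 : ℝ), g 0 + deriv g 0 * x + c * x ^ 2 ≤ g x := by
  set c := deriv (deriv g) 0 / 4 with hc
  refine ⟨c, by positivity, ?_⟩
  -- the function `G x = g x - g 0 - g' 0 x - c x²` has a local minimum at `0`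
  set G : ℝ → ℝ := fun x => g x - (g 0 + deriv g 0 * x + c * x ^ 2) with hG
  have hga : ∀ᶠ x in 𝓝 (0 : ℝ), AnalyticAt ℝ g x := hg.eventually_analyticAt
  have hG1 : ∀ᶠ x in 𝓝 (0 : ℝ), deriv G x = deriv g x - (deriv g 0 + 2 * c * x) := by
    filter_upwards [hga] with x hx
    have h1 : HasDerivAt (fun x : ℝ => g 0 + deriv g 0 * x + c * x ^ 2)
        (deriv g 0 + 2 * c * x) x := by
      have a1 := ((hasDerivAt_id x).const_mul (deriv g 0)).const_add (g 0)
      have a2 := ((hasDerivAt_pow 2 x).const_mul c)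
      have := a1.add a2
      simp only [id_eq, mul_one, Nat.cast_ofNat, Nat.add_one_sub_one, pow_one] at this
      rw [show c * (2 * x) = 2 * c * x by ring] at this
      exact this
    exact (hx.differentiableAt.hasDerivAt.sub h1).deriv
  have hG0 : deriv G 0 = 0 := by
    have := hG1.self_of_nhds
    rw [this]; ring
  have hG2 : deriv (deriv G) 0 = deriv (deriv g) 0 - 2 * c := by
    have e : deriv G =ᶠ[𝓝 0] fun x => deriv g x - (deriv g 0 + 2 * c * x) := hG1
    rw [e.deriv_eq]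
    have a1 : HasDerivAt (fun x : ℝ => deriv g 0 + 2 * c * x) (2 * c) 0 := by
      have := ((hasDerivAt_id (0 : ℝ)).const_mul (2 * c)).const_add (deriv g 0)
      simpa using this
    exact (hg.deriv.differentiableAt.hasDerivAt.sub a1).deriv
  have hG2' : 0 < deriv (deriv G) 0 := by
    rw [hG2, hc]; linarith
  have hGc : ContinuousAt G 0 := by
    refine hg.continuousAt.sub ?_
    fun_prop
  have hmin : IsLocalMin G 0 := isLocalMin_of_deriv_deriv_pos hG2' hG0 hGc
  filter_upwards [hmin] with x hx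
  have e0 : G 0 = 0 := by simp [hG]
  rw [e0] at hx
  simp only [hG] at hx
  linarith

/-- circle mean form -/
theorem Data.conc_of_circle (h : Data n b p Y ν ρ κ d)
    (hl : ∀ y ∈ Y, ∃ᶠ r in 𝓝[>] (0 : ℝ),
      Real.circleAverage (fun ζ => Real.log (ρ (D b ζ y))) 0 r ≤ Real.log (ρ y)) :
    Conc b Y ρ := by
  intro y hy
  by_contra hcon
  push Not at hcon
  set g : ℝ → ℝ := fun u => Real.log (ρ (D b u y)) with hg
  have hρ0 : ρ (D b ((0 : ℝ) : ℂ) y) = ρ y := by simp
  have hga : AnalyticAt ℝ g 0 := (h.analyticAt_orbit hy).log (by rw [hρ0]; exact h.posρ y hy)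
  obtain ⟨c, hc, hlow⟩ := circle_lt hga hcon
  have hcont : ∀ᶠ x in 𝓝 (0 : ℝ), AnalyticAt ℝ g x := hga.eventually_analyticAt
  obtain ⟨ε, hε, hball⟩ := Metric.eventually_nhds_iff_ball.1 (hlow.and hcont)
  obtain ⟨ε', hε', hball'⟩ := Metric.eventually_nhds_iff_ball.1 (h.re_only hy)
  have hsmall : ∀ᶠ r in 𝓝[>] (0 : ℝ), r < min ε ε' ∧ 0 < r := by
    refine Eventually.and ?_ self_mem_nhdsWithin
    exact (eventually_lt_nhds (lt_min hε hε')).filter_mono nhdsWithin_le_nhds
  obtain ⟨r, hr, hrlt, hr0⟩ := ((hl y hy).and_eventually hsmall).exists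
  have hrε : r < ε := lt_of_lt_of_le hrlt (min_le_left _ _)
  have hrε' : r < ε' := lt_of_lt_of_le hrlt (min_le_right _ _)
  have hre : ∀ θ : ℝ, (circleMap 0 r θ).re = r * Real.cos θ := by
    intro θ
    simp [circleMap, Complex.exp_ofReal_mul_I_re]
  have hmem : ∀ θ : ℝ, r * Real.cos θ ∈ Metric.ball (0 : ℝ) ε := by
    intro θ
    rw [mem_ball_zero_iff, Real.norm_eq_abs, abs_mul, abs_of_pos hr0]
    calc r * |Real.cos θ| ≤ r * 1 := by gcongr; exact Real.abs_cos_le_one θ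
      _ < ε := by linarith
  have heq : ∀ θ : ℝ, Real.log (ρ (D b (circleMap 0 r θ) y)) = g (r * Real.cos θ) := by
    intro θ
    have : circleMap 0 r θ ∈ Metric.ball (0 : ℂ) ε' := by
      rw [mem_ball_zero_iff]
      simp [circleMap, abs_of_pos hr0, hrε']
    rw [hball' _ this, hre]
  have hlow' : ∀ θ : ℝ, g 0 + deriv g 0 * (r * Real.cos θ) + c * (r * Real.cos θ) ^ 2 ≤
      Real.log (ρ (D b (circleMap 0 r θ) y)) := fun θ => by
    rw [heq θ]
    exact (hball _ (hmem θ)).1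
  have hcontθ : Continuous fun θ : ℝ => Real.log (ρ (D b (circleMap 0 r θ) y)) := by
    have : (fun θ : ℝ => Real.log (ρ (D b (circleMap 0 r θ) y))) =
        fun θ => g (r * Real.cos θ) := funext heq
    rw [this, continuous_iff_continuousAt]
    intro θ
    exact ContinuousAt.comp (f := fun θ : ℝ => r * Real.cos θ) (g := g)
      (hball _ (hmem θ)).2.continuousAt (by fun_prop)
  have hπ : 0 < 2 * Real.pi := by positivity
  have hint := intervalIntegral.integral_mono_on (μ := volume) (a := 0) (b := 2 * Real.pi)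
    (f := fun θ => g 0 + deriv g 0 * (r * Real.cos θ) + c * (r * Real.cos θ) ^ 2)
    (g := fun θ => Real.log (ρ (D b (circleMap 0 r θ) y))) hπ.le
    (by apply Continuous.intervalIntegrable; fun_prop) (hcontθ.intervalIntegrable _ _)
    (fun θ _ => hlow' θ)
  have hleft : ∫ θ in (0 : ℝ)..(2 * Real.pi),
      (g 0 + deriv g 0 * (r * Real.cos θ) + c * (r * Real.cos θ) ^ 2) =
      2 * Real.pi * g 0 + c * r ^ 2 * Real.pi := by
    rw [intervalIntegral.integral_add (by apply Continuous.intervalIntegrable; fun_prop)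
      (by apply Continuous.intervalIntegrable; fun_prop),
      intervalIntegral.integral_add (by apply Continuous.intervalIntegrable; fun_prop)
      (by apply Continuous.intervalIntegrable; fun_prop)]
    have e1 : ∫ θ in (0 : ℝ)..(2 * Real.pi), deriv g 0 * (r * Real.cos θ) = 0 := by
      simp
    have e2 : ∫ θ in (0 : ℝ)..(2 * Real.pi), c * (r * Real.cos θ) ^ 2 = c * r ^ 2 * Real.pi := by
      have : ∀ θ : ℝ, c * (r * Real.cos θ) ^ 2 = (c * r ^ 2) * Real.cos θ ^ 2 := fun θ => by ring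
      simp only [this]
      rw [intervalIntegral.integral_const_mul, integral_cos_sq]
      simp
    rw [e1, e2]
    simp
  rw [hleft] at hint
  have havg : Real.circleAverage (fun ζ => Real.log (ρ (D b ζ y))) 0 r =
      (2 * Real.pi)⁻¹ * ∫ θ in (0 : ℝ)..(2 * Real.pi), Real.log (ρ (D b (circleMap 0 r θ) y)) := by
    simp [Real.circleAverage_def]
  rw [havg] at hr
  have hg0 : g 0 = Real.log (ρ y) := by simp only [hg]; rw [hρ0]
  have : (2 * Real.pi)⁻¹ * (2 * Real.pi * g 0 + c * r ^ 2 * Real.pi) ≤ Real.log (ρ y) :=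
    le_trans (by gcongr) hr
  rw [← hg0, mul_add, ← mul_assoc, inv_mul_cancel₀ hπ.ne', one_mul] at this
  have h3 : 0 < (2 * Real.pi)⁻¹ * (c * r ^ 2 * Real.pi) := by positivity
  linarith

/-! ### the end -/

/-- change of variables -/
theorem Data.cov (h : Data n b p Y ν ρ κ d) (x : ℝ) {G : (Fin n → ℂ) → ℝ≥0∞} (hG : Measurable G) :
    ∫⁻ y, G y ∂ν = ∫⁻ y, ENNReal.ofReal (Real.exp (κ * x)) * G (D b x y) ∂ν := by
  have hG' : Measurable fun y => G (D b x y) := hG.comp (measurable_D b _)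
  rw [lintegral_const_mul _ hG', ← lintegral_map hG (measurable_D b _), h.mapν, lintegral_smul_measure, smul_eq_mul, ← mul_assoc,
    ← ENNReal.ofReal_mul (Real.exp_pos _).le, ← Real.exp_add]
  simp

theorem Data.q_eq_one (h : Data n b p Y ν ρ κ d) (hc : Conc b Y ρ) :
    ∀ᵐ y ∂ν, ρ (D b (1 : ℝ) y) * Real.exp κ = ρ y := by
  have hr : Measurable fun y => ENNReal.ofReal (ρ y) := h.measρ.ennreal_ofReal
  have m1 : Measurable fun y => ENNReal.ofReal (ρ (D b (1 : ℝ) y)) :=
    (h.measρ.comp (measurable_D b _)).ennreal_ofReal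
  have m2 : Measurable fun y => ENNReal.ofReal (ρ (D b (-1 : ℝ) y)) :=
    (h.measρ.comp (measurable_D b _)).ennreal_ofReal
  have c1 := h.cov 1 hr
  have c2 := h.cov (-1) hr
  set A := ∫⁻ y, ENNReal.ofReal (ρ y) ∂ν with hA
  -- pointwise inequality
  have hle : ∀ᵐ y ∂ν, 2 * ENNReal.ofReal (ρ y) ≤
      ENNReal.ofReal (Real.exp (κ * 1)) * ENNReal.ofReal (ρ (D b (1 : ℝ) y)) +
      ENNReal.ofReal (Real.exp (κ * -1)) * ENNReal.ofReal (ρ (D b (-1 : ℝ) y)) := by
    filter_upwards [h.ae_mem 0, h.ae_mem (1 : ℝ), h.ae_mem (-1 : ℝ)] with y h0 h1 h2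
    rw [D_zero] at h0
    obtain ⟨a, ha⟩ := h.orbit hc h0
    rw [← ENNReal.ofReal_mul (Real.exp_pos _).le, ← ENNReal.ofReal_mul (Real.exp_pos _).le,
      ← ENNReal.ofReal_add (mul_nonneg (Real.exp_pos _).le (h.posρ _ h1).le)
        (mul_nonneg (Real.exp_pos _).le (h.posρ _ h2).le)]
    have e2 : (2 : ℝ≥0∞) = ENNReal.ofReal 2 := by simp
    rw [e2, ← ENNReal.ofReal_mul (by norm_num)]
    refine ENNReal.ofReal_le_ofReal ?_
    rw [ha 1 h1, ha (-1) h2]
    have hp := h.posρ y h0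
    set q := Real.exp (κ + a) with hq
    have hqp : 0 < q := Real.exp_pos _
    have e3 : Real.exp (κ * 1) * (ρ y * Real.exp (a * 1)) = ρ y * q := by
      rw [hq, mul_one, mul_one, Real.exp_add]; ring
    have e4 : Real.exp (κ * -1) * (ρ y * Real.exp (a * -1)) = ρ y * q⁻¹ := by
      rw [hq, ← Real.exp_neg, neg_add, Real.exp_add, mul_neg_one, mul_neg_one]; ring
    rw [e3, e4, ← mul_add]
    have : 2 ≤ q + q⁻¹ := by
      have h5 : q * q⁻¹ = 1 := mul_inv_cancel₀ hqp.ne'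
      nlinarith [sq_nonneg (q - 1), inv_pos.2 hqp]
    nlinarith
  have hint : ∫⁻ y, (ENNReal.ofReal (Real.exp (κ * 1)) * ENNReal.ofReal (ρ (D b (1 : ℝ) y)) +
      ENNReal.ofReal (Real.exp (κ * -1)) * ENNReal.ofReal (ρ (D b (-1 : ℝ) y))) ∂ν ≤
      ∫⁻ y, 2 * ENNReal.ofReal (ρ y) ∂ν := by
    rw [lintegral_add_left (m1.const_mul _), ← c1, ← c2, lintegral_const_mul _ hr, two_mul]
  have hfin : ∫⁻ y, 2 * ENNReal.ofReal (ρ y) ∂ν ≠ ∞ := by
    rw [lintegral_const_mul _ hr]
    exact ENNReal.mul_ne_top (by simp) h.fin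
  have heq := ae_eq_of_ae_le_of_lintegral_le hle hfin
    ((m1.const_mul _).add (m2.const_mul _)).aemeasurable hint
  filter_upwards [heq, h.ae_mem 0, h.ae_mem (1 : ℝ), h.ae_mem (-1 : ℝ)] with y hy h0 h1 h2
  rw [D_zero] at h0
  obtain ⟨a, ha⟩ := h.orbit hc h0
  rw [← ENNReal.ofReal_mul (Real.exp_pos _).le, ← ENNReal.ofReal_mul (Real.exp_pos _).le,
    ← ENNReal.ofReal_add (mul_nonneg (Real.exp_pos _).le (h.posρ _ h1).le)
      (mul_nonneg (Real.exp_pos _).le (h.posρ _ h2).le)] at hy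
  have e2 : (2 : ℝ≥0∞) = ENNReal.ofReal 2 := by simp
  rw [e2, ← ENNReal.ofReal_mul (by norm_num)] at hy
  have hp := h.posρ y h0
  have hy' := (ENNReal.ofReal_eq_ofReal_iff (by positivity)
    (add_nonneg (mul_nonneg (Real.exp_pos _).le (h.posρ _ h1).le)
      (mul_nonneg (Real.exp_pos _).le (h.posρ _ h2).le))).1 hy
  rw [ha 1 h1, ha (-1) h2] at hy'
  rw [ha 1 h1]
  set q := Real.exp (κ + a) with hq
  have hqp : 0 < q := Real.exp_pos _
  have e3 : Real.exp (κ * 1) * (ρ y * Real.exp (a * 1)) = ρ y * q := by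
    rw [hq, mul_one, mul_one, Real.exp_add]; ring
  have e4 : Real.exp (κ * -1) * (ρ y * Real.exp (a * -1)) = ρ y * q⁻¹ := by
    rw [hq, ← Real.exp_neg, neg_add, Real.exp_add, mul_neg_one, mul_neg_one]; ring
  rw [e3, e4, ← mul_add] at hy'
  have h6 : q + q⁻¹ = 2 := by
    have : ρ y * (q + q⁻¹) = ρ y * 2 := by linarith
    exact mul_left_cancel₀ hp.ne' this
  have h5 : q * q⁻¹ = 1 := mul_inv_cancel₀ hqp.ne'
  have h7 : q = 1 := by
    have h8 : (q - 1) ^ 2 = 0 := by
      have : q * (q + q⁻¹) = q * 2 := by rw [h6]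
      nlinarith
    have := pow_eq_zero_iff (two_ne_zero) |>.1 h8
    linarith
  have e5 : ρ y * Real.exp (a * 1) * Real.exp κ = ρ y * q := by
    rw [hq, mul_one, Real.exp_add]; ring
  rw [e5, h7, mul_one]

/-- **Lemma F, abstract form** -/
theorem Data.b_eq_zero (h : Data n b p Y ν ρ κ d) (hc : Conc b Y ρ) (hp : 0 < p) (j : Fin n) :
    b j = 0 := by
  have hG : Measurable fun y : Fin n → ℂ => ENNReal.ofReal (‖y j‖ ^ p) * ENNReal.ofReal (ρ y) := by
    refine Measurable.mul ?_ h.measρ.ennreal_ofReal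
    fun_prop
  have c := h.cov 1 hG
  have e : ∀ᵐ y ∂ν, ENNReal.ofReal (Real.exp (κ * 1)) *
      (ENNReal.ofReal (‖D b (1 : ℝ) y j‖ ^ p) * ENNReal.ofReal (ρ (D b (1 : ℝ) y))) =
      ENNReal.ofReal (Real.exp (b j * p)) *
        (ENNReal.ofReal (‖y j‖ ^ p) * ENNReal.ofReal (ρ y)) := by
    filter_upwards [h.q_eq_one hc, h.ae_mem 0, h.ae_mem (1 : ℝ)] with y hy h0 h1
    have e1 : ‖D b (1 : ℝ) y j‖ ^ p = Real.exp (b j * p) * ‖y j‖ ^ p := by
      simp only [D]
      rw [norm_mul, Complex.norm_exp, Real.mul_rpow (Real.exp_pos _).le (norm_nonneg _),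
        ← Real.exp_mul]
      simp
    rw [e1, ENNReal.ofReal_mul (Real.exp_pos _).le, mul_one]
    rw [show ENNReal.ofReal (ρ y) = ENNReal.ofReal (ρ (D b (1 : ℝ) y)) *
      ENNReal.ofReal (Real.exp κ) by rw [← ENNReal.ofReal_mul (h.posρ _ h1).le, hy]]
    ring
  rw [lintegral_congr_ae e, lintegral_const_mul _ hG] at c
  obtain ⟨hne, hfin⟩ := h.coord j
  have h1 : ENNReal.ofReal (Real.exp (b j * p)) = 1 := by
    have := c.symm
    conv_rhs at this => rw [← one_mul (∫⁻ y, ENNReal.ofReal (‖y j‖ ^ p) * ENNReal.ofReal (ρ y) ∂ν)]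
    exact (ENNReal.mul_left_inj hne hfin).1 this
  rw [ENNReal.ofReal_eq_one, Real.exp_eq_one_iff] at h1
  rcases mul_eq_zero.1 h1 with h2 | h2
  · exact h2
  · exact absurd h2 hp.ne'

end Crest.Agent.R276.LF_126
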