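import Mathlib
import Crest.Agent.R276.Fdc_999
import Crest.Agent.R276.DetB_606

/-!
# LEMMA N (helper999, row 276): the data

`M` the base (period fibre), `Y` the total space, `μ x` the measure of the fibre over `x`,
`σ_i : Y → ℂ` the global frame; `Phi x v = ∫ |∑ v_i σ_i|^(2/N) dμ_x`.
-/

set_option autoImplicit false

namespace Crest.Agent.R276.LN_999

open MeasureTheory Matrix
open scoped ComplexConjugate ENNReal

/-- the data of LEMMA N -/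
structure LN (M Y : Type*) [TopologicalSpace M] [MeasurableSpace Y] (s N : ℕ) where
  μ : M → Measure Y
  σ : Fin s → Y → ℂ
  sf : ∀ x, SigmaFinite (μ x)
  meas : ∀ i, Measurable (σ i)
  fin : ∀ x (v : Fin s → ℂ),
    ∫⁻ y, ENNReal.ofReal (‖∑ i, v i * σ i y‖ ^ (2 / N : ℝ)) ∂(μ x) ≠ ⊤
  pos : ∀ x (v : Fin s → ℂ), v ≠ 0 →
    ∫⁻ y, ENNReal.ofReal (‖∑ i, v i * σ i y‖ ^ (2 / N : ℝ)) ∂(μ x) ≠ 0
  cont : ∀ v : Fin s → ℂ,
    Continuous fun x => ∫ y, ‖∑ i, v i * σ i y‖ ^ (2 / N : ℝ) ∂(μ x)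

variable {M Y : Type*} [TopologicalSpace M] [MeasurableSpace Y] {s N : ℕ}

namespace LN

variable (L : LN M Y s N)

/-- the frame at a point of the total space -/
def sg (y : Y) : Fin s → ℂ := fun i => L.σ i y

/-- the norm function -/
noncomputable def Phi (x : M) (v : Fin s → ℂ) : ℝ :=
  ∫ y, ‖∑ i, v i * L.σ i y‖ ^ (2 / N : ℝ) ∂(L.μ x)

/-- the `N`-Bergman function, as a function on `ℂ^s` -/
noncomputable def B (x : M) (t : Fin s → ℂ) : ℝ :=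
  ⨆ v : {v : Fin s → ℂ // L.Phi x v ≤ 1}, ‖∑ i, (v : Fin s → ℂ) i * t i‖ ^ (2 / N : ℝ)

/-- the Narasimhan-Simha metric `H x`, `qf (H x) v = ∫ |v·σ|² B^{-(N-1)} dμ_x` -/
noncomputable def H (x : M) : Matrix (Fin s) (Fin s) ℂ :=
  Matrix.of fun i j => ∫ y, conj (L.σ i y) * L.σ j y *
    (((L.B x (L.sg y) ^ (N - 1))⁻¹ : ℝ) : ℂ) ∂(L.μ x)

/-- the `L²` metric with weight `(∑_l |w_l·σ|²)^{-(N-1)/N}` -/
noncomputable def G {m : ℕ} (x : M) (w : Fin m → Fin s → ℂ) : Matrix (Fin s) (Fin s) ℂ :=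
  Matrix.of fun i j => ∫ y, conj (L.σ i y) * L.σ j y *
    (((∑ l, ‖∑ i, w l i * L.σ i y‖ ^ 2) ^ (-(1 - 1 / N : ℝ)) : ℝ) : ℂ) ∂(L.μ x)

/-- the CY norm `∫_{Y^s} |det σ_i(y_j)|^{2/N}` -/
noncomputable def DD (x : M) : ℝ := (DetB_606.DD (L.μ x) (2 / N) L.σ).toReal

end LN

end Crest.Agent.R276.LN_999
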