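import Mathlib
import Crest.Agent.R276.LNDefs_999
import Crest.Agent.R276.Aue_999

/-!
# Row 276, LEMMA N (helper333), part b: the norm function and the `N`-Bergman function

For 999's data `L : LN M Y s N`, `2 ≤ N`: `Φ` is jointly continuous, the Bergman function
`B x t = sup {|v·t|^(2/N) : Φ x v ≤ 1}` is jointly continuous, positive for `t ≠ 0`, and
`c ‖t‖^(2/N) ≤ B x t ≤ C ‖t‖^(2/N)` locally uniformly in `x`.
-/

set_option autoImplicit false
set_option linter.unusedSectionVars false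
set_option linter.unusedVariables false

open MeasureTheory Matrix Set Filter Topology Metric
open scoped ComplexConjugate ENNReal

noncomputable section

namespace Crest.Agent.R276.LNb_333

open Crest.Agent.R276.LN_999

variable {M Y : Type*} [TopologicalSpace M] [MeasurableSpace Y] {s N : ℕ}

lemma p_pos (hN : 2 ≤ N) : (0 : ℝ) < 2 / N := by
  have : (0 : ℝ) < N := by exact_mod_cast (by omega : 0 < N)
  positivity

lemma p_le (hN : 2 ≤ N) : (2 / N : ℝ) ≤ 1 := by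
  have : (2 : ℝ) ≤ N := by exact_mod_cast hN
  rw [div_le_one (by linarith)]
  exact this

variable (L : LN M Y s N)

/-- evaluation of the frame -/
def ev (y : Y) : (Fin s → ℂ) →ₗ[ℂ] ℂ := ∑ i, (L.σ i y) • LinearMap.proj i

lemma ev_apply (y : Y) (v : Fin s → ℂ) : ev L y v = ∑ i, v i * L.σ i y := by
  simp [ev, mul_comm]

/-- the pairing `v · t` -/
def dt (v t : Fin s → ℂ) : ℂ := ∑ i, v i * t i

lemma dt_sg (v : Fin s → ℂ) (y : Y) : dt v (L.sg y) = ev L y v := (ev_apply L y v).symm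

lemma meas_ev (v : Fin s → ℂ) : Measurable fun y => ev L y v := by
  simp_rw [ev_apply]
  exact Finset.measurable_sum _ fun i _ => (L.meas i).const_mul _

lemma meas_sg : Measurable L.sg := measurable_pi_lambda _ fun i => L.meas i

theorem good (hN : 2 ≤ N) (x : M) : Aue_999.Good (L.μ x) (ev L) (2 / N : ℝ) where
  α_pos := p_pos hN
  α_le := p_le hN
  meas v := (meas_ev L v).aemeasurable
  fin v := by
    have := L.fin x v
    unfold Aue_999.pint
    simpa only [ev_apply] using this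
  inj v hv := by
    by_contra h
    refine L.pos x v h ?_
    unfold Aue_999.pint at hv
    simpa only [ev_apply] using hv

theorem Phi_eq (x : M) (v : Fin s → ℂ) :
    L.Phi x v = Aue_999.q (L.μ x) (ev L) (2 / N : ℝ) v := by
  unfold LN.Phi Aue_999.q Aue_999.pint
  rw [integral_eq_lintegral_of_nonneg_ae]
  · simp only [ev_apply]
  · exact Eventually.of_forall fun y => by positivity
  · have h1 : Measurable fun y => ∑ i, v i * L.σ i y := by
      simpa only [ev_apply] using meas_ev L v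
    exact (h1.norm.pow_const _).aestronglyMeasurable

theorem ofReal_Phi (hN : 2 ≤ N) (x : M) (v : Fin s → ℂ) :
    ENNReal.ofReal (L.Phi x v) = ∫⁻ y, ENNReal.ofReal (‖∑ i, v i * L.σ i y‖ ^ (2 / N : ℝ)) ∂(L.μ x) := by
  rw [Phi_eq, Aue_999.ofReal_q (good L hN x)]
  unfold Aue_999.pint
  simp only [ev_apply]

theorem Phi_nonneg (x : M) (v : Fin s → ℂ) : 0 ≤ L.Phi x v := by
  rw [Phi_eq]; exact Aue_999.q_nonneg v

theorem Phi_pos (hN : 2 ≤ N) (x : M) {v : Fin s → ℂ} (hv : v ≠ 0) : 0 < L.Phi x v := by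
  rw [Phi_eq]; exact Aue_999.q_pos (good L hN x) v hv

theorem Phi_smul (hN : 2 ≤ N) (x : M) (c : ℂ) (v : Fin s → ℂ) :
    L.Phi x (c • v) = ‖c‖ ^ (2 / N : ℝ) * L.Phi x v := by
  rw [Phi_eq, Phi_eq]; exact Aue_999.q_smul (good L hN x) c v

theorem Phi_zero (hN : 2 ≤ N) (x : M) : L.Phi x 0 = 0 := by
  have h := Phi_smul L hN x 0 0
  rw [zero_smul, norm_zero, Real.zero_rpow (p_pos hN).ne', zero_mul] at h
  exact h

theorem Phi_add_le (hN : 2 ≤ N) (x : M) (u v : Fin s → ℂ) :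
    L.Phi x (u + v) ≤ L.Phi x u + L.Phi x v := by
  simp only [Phi_eq]; exact Aue_999.q_add_le (good L hN x) u v

/-- `Φ(v) ≤ ∑ |v_i|^p Φ(e_i)` -/
theorem Phi_le_sum (hN : 2 ≤ N) (x : M) (v : Fin s → ℂ) :
    L.Phi x v ≤ ∑ i, ‖v i‖ ^ (2 / N : ℝ) * L.Phi x (Pi.single i 1) := by
  have h := Aue_999.q_sum_le (good L hN x) Finset.univ fun i => v i • (Pi.single i 1 : Fin s → ℂ)
  have h2 : ∑ i, v i • (Pi.single i 1 : Fin s → ℂ) = v := by
    funext j
    simp [Finset.sum_apply, Pi.single_apply]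
  rw [h2, ← Phi_eq] at h
  refine h.trans (le_of_eq (Finset.sum_congr rfl fun i _ => ?_))
  rw [← Phi_eq, Phi_smul L hN]

theorem Phi_sub_le (hN : 2 ≤ N) (x : M) (u v : Fin s → ℂ) :
    |L.Phi x u - L.Phi x v| ≤ L.Phi x (u - v) := by
  have h1 := Phi_add_le L hN x (u - v) v
  have h2 := Phi_add_le L hN x (v - u) u
  rw [sub_add_cancel] at h1 h2
  have h3 : L.Phi x (v - u) = L.Phi x (u - v) := by
    have := Phi_smul L hN x (-1) (u - v)
    rw [norm_neg, norm_one, Real.one_rpow, one_mul, neg_one_smul, neg_sub] at this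
    exact this
  rw [h3] at h2
  rw [abs_le]
  constructor <;> linarith

theorem Phi_cont_left (v : Fin s → ℂ) : Continuous fun x => L.Phi x v := L.cont v

/-- `Φ` is jointly continuous -/
theorem Phi_cont (hN : 2 ≤ N) : Continuous fun q : M × (Fin s → ℂ) => L.Phi q.1 q.2 := by
  rw [continuous_iff_continuousAt]
  rintro ⟨x₀, v₀⟩
  have hb : Tendsto (fun q : M × (Fin s → ℂ) =>
      ∑ i, ‖(q.2 - v₀) i‖ ^ (2 / N : ℝ) * L.Phi q.1 (Pi.single i 1)) (𝓝 (x₀, v₀)) (𝓝 0) := by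
    have hc : Continuous fun q : M × (Fin s → ℂ) =>
        ∑ i, ‖(q.2 - v₀) i‖ ^ (2 / N : ℝ) * L.Phi q.1 (Pi.single i 1) := by
      refine continuous_finsetSum _ fun i _ => ?_
      refine Continuous.mul ?_ ((Phi_cont_left L _).comp continuous_fst)
      exact (((continuous_apply i).comp (continuous_snd.sub continuous_const)).norm).rpow_const
        fun _ => Or.inr (p_pos hN).le
    have h0 := hc.tendsto (x₀, v₀)
    have h1 : ∑ i, ‖(((x₀, v₀) : M × (Fin s → ℂ)).2 - v₀) i‖ ^ (2 / N : ℝ) *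
        L.Phi ((x₀, v₀) : M × (Fin s → ℂ)).1 (Pi.single i 1) = 0 := by
      refine Finset.sum_eq_zero fun i _ => ?_
      simp [Real.zero_rpow (p_pos hN).ne']
    rw [h1] at h0
    exact h0
  have hd : Tendsto (fun q : M × (Fin s → ℂ) => L.Phi q.1 q.2 - L.Phi q.1 v₀) (𝓝 (x₀, v₀))
      (𝓝 0) := by
    refine squeeze_zero_norm (fun q => ?_) hb
    rw [Real.norm_eq_abs]
    exact (Phi_sub_le L hN _ _ _).trans (Phi_le_sum L hN _ _)
  have h2 : Tendsto (fun q : M × (Fin s → ℂ) => L.Phi q.1 v₀) (𝓝 (x₀, v₀)) (𝓝 (L.Phi x₀ v₀)) :=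
    ((Phi_cont_left L v₀).comp continuous_fst).tendsto _
  have h3 := hd.add h2
  rw [zero_add] at h3
  refine h3.congr fun q => ?_
  ring

/-! ### the Bergman function -/

/-- the quotient whose supremum is `B` -/
def bq (q : M × (Fin s → ℂ)) (v : sphere (0 : Fin s → ℂ) 1) : ℝ :=
  ‖dt v.1 q.2‖ ^ (2 / N : ℝ) / L.Phi q.1 v.1

lemma dt_cont : Continuous fun q : (Fin s → ℂ) × (Fin s → ℂ) => dt q.1 q.2 := by
  unfold dt
  fun_prop

lemma dt_smul_left (c : ℂ) (v t : Fin s → ℂ) : dt (c • v) t = c * dt v t := by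
  simp [dt, Finset.mul_sum, mul_assoc]

lemma dt_smul_right (c : ℂ) (v t : Fin s → ℂ) : dt v (c • t) = c * dt v t := by
  simp only [dt, Pi.smul_apply, smul_eq_mul, Finset.mul_sum]
  exact Finset.sum_congr rfl fun i _ => by ring

lemma sph_ne {v : Fin s → ℂ} (hv : v ∈ sphere (0 : Fin s → ℂ) 1) : v ≠ 0 := by
  rintro rfl
  simp at hv

lemma bq_cont (hN : 2 ≤ N) :
    Continuous fun q : (M × (Fin s → ℂ)) × sphere (0 : Fin s → ℂ) 1 => bq L q.1 q.2 := by
  unfold bq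
  refine Continuous.div ?_ ?_ fun q => (Phi_pos L hN _ (sph_ne q.2.2)).ne'
  · refine Continuous.rpow_const ?_ fun _ => Or.inr (p_pos hN).le
    exact (dt_cont.comp ((continuous_subtype_val.comp continuous_snd).prodMk
      (continuous_snd.comp continuous_fst))).norm
  · exact (Phi_cont L hN).comp ((continuous_fst.comp continuous_fst).prodMk
      (continuous_subtype_val.comp continuous_snd))

/-- every vector with `Φ ≤ 1` gives at most `B` -/
lemma le_bq (hN : 2 ≤ N) (x : M) (t v : Fin s → ℂ) (hv : v ≠ 0) :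
    ∃ u : sphere (0 : Fin s → ℂ) 1, ‖dt v t‖ ^ (2 / N : ℝ) = L.Phi x v * bq L (x, t) u := by
  have hn : ‖v‖ ≠ 0 := norm_ne_zero_iff.mpr hv
  have hmem : ((‖v‖⁻¹ : ℝ) : ℂ) • v ∈ sphere (0 : Fin s → ℂ) 1 := by
    rw [mem_sphere_zero_iff_norm, norm_smul, Complex.norm_real, norm_inv, norm_norm,
      inv_mul_cancel₀ hn]
  refine ⟨⟨_, hmem⟩, ?_⟩
  unfold bq
  simp only
  rw [dt_smul_left, norm_mul, Real.mul_rpow (norm_nonneg _) (norm_nonneg _), Phi_smul L hN]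
  have h1 : (0 : ℝ) < ‖((‖v‖⁻¹ : ℝ) : ℂ)‖ ^ (2 / N : ℝ) := by
    apply Real.rpow_pos_of_pos
    rw [Complex.norm_real, norm_inv, norm_norm]
    positivity
  have h2 := Phi_pos L hN x hv
  rw [mul_div_mul_left _ _ h1.ne', mul_div_cancel₀ _ h2.ne']

lemma bq_le (hN : 2 ≤ N) (x : M) : BddAbove (range (bq L (x, (0 : Fin s → ℂ)))) := by
  refine ⟨0, ?_⟩
  rintro _ ⟨u, rfl⟩
  unfold bq
  simp [dt, Real.zero_rpow (p_pos hN).ne']

lemma bddAbove_bq (hN : 2 ≤ N) (q : M × (Fin s → ℂ)) : BddAbove (range (bq L q)) := by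
  have hcs : CompactSpace (sphere (0 : Fin s → ℂ) 1) :=
    isCompact_iff_compactSpace.mp (isCompact_sphere _ _)
  have hc : Continuous (bq L q) := (bq_cont L hN).uncurry_left q
  exact (isCompact_range hc).bddAbove

theorem bddAbove_B (hN : 2 ≤ N) (x : M) (t : Fin s → ℂ) :
    BddAbove (range fun v : {v : Fin s → ℂ // L.Phi x v ≤ 1} => ‖dt (v : Fin s → ℂ) t‖ ^ (2 / N : ℝ)) := by
  obtain ⟨C, hC⟩ := bddAbove_bq L hN (x, t)
  refine ⟨max C 0, ?_⟩
  rintro _ ⟨⟨v, hv⟩, rfl⟩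
  by_cases h0 : v = 0
  · subst h0
    simp [dt, Real.zero_rpow (p_pos hN).ne']
  · obtain ⟨u, hu⟩ := le_bq L hN x t v h0
    simp only
    rw [hu]
    have h1 : bq L (x, t) u ≤ C := hC ⟨u, rfl⟩
    have h2 : bq L (x, t) u ≤ max C 0 := h1.trans (le_max_left _ _)
    calc L.Phi x v * bq L (x, t) u ≤ L.Phi x v * max C 0 :=
          mul_le_mul_of_nonneg_left h2 (Phi_nonneg L x v)
      _ ≤ 1 * max C 0 := mul_le_mul_of_nonneg_right hv (le_max_right _ _)
      _ = max C 0 := one_mul _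

lemma B_def (x : M) (t : Fin s → ℂ) : L.B x t =
    ⨆ v : {v : Fin s → ℂ // L.Phi x v ≤ 1}, ‖dt (v : Fin s → ℂ) t‖ ^ (2 / N : ℝ) := rfl

theorem B_nonneg (x : M) (t : Fin s → ℂ) : 0 ≤ L.B x t := by
  rw [B_def]
  exact Real.iSup_nonneg fun v => by positivity

/-- `|v·t|^p ≤ Φ(v) B(t)` -/
theorem le_B (hN : 2 ≤ N) (x : M) (t v : Fin s → ℂ) :
    ‖dt v t‖ ^ (2 / N : ℝ) ≤ L.Phi x v * L.B x t := by
  by_cases h0 : v = 0
  · subst h0
    rw [Phi_zero L hN, zero_mul]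
    simp [dt, Real.zero_rpow (p_pos hN).ne']
  have hP := Phi_pos L hN x h0
  -- normalise
  set c : ℝ := (L.Phi x v) ^ (-(2 / N : ℝ)⁻¹) with hc
  have hcpos : 0 < c := Real.rpow_pos_of_pos hP _
  have hcp : ‖(c : ℂ)‖ ^ (2 / N : ℝ) = (L.Phi x v)⁻¹ := by
    rw [Complex.norm_real, Real.norm_of_nonneg hcpos.le, hc, ← Real.rpow_mul hP.le, neg_mul,
      inv_mul_cancel₀ (p_pos hN).ne', Real.rpow_neg_one]
  have h1 : L.Phi x ((c : ℂ) • v) ≤ 1 := by
    rw [Phi_smul L hN, hcp, inv_mul_cancel₀ hP.ne']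
  have h2 := le_ciSup (bddAbove_B L hN x t) ⟨(c : ℂ) • v, h1⟩
  rw [← B_def] at h2
  simp only at h2
  rw [dt_smul_left, norm_mul, Real.mul_rpow (norm_nonneg _) (norm_nonneg _), hcp] at h2
  calc ‖dt v t‖ ^ (2 / N : ℝ) = L.Phi x v * ((L.Phi x v)⁻¹ * ‖dt v t‖ ^ (2 / N : ℝ)) := by
        rw [← mul_assoc, mul_inv_cancel₀ hP.ne', one_mul]
    _ ≤ _ := mul_le_mul_of_nonneg_left h2 hP.le

theorem B_le_of (x : M) (t : Fin s → ℂ) {C : ℝ} (hN : 2 ≤ N)
    (h : ∀ v, L.Phi x v ≤ 1 → ‖dt v t‖ ^ (2 / N : ℝ) ≤ C) : L.B x t ≤ C := by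
  rw [B_def]
  have : Nonempty {v : Fin s → ℂ // L.Phi x v ≤ 1} := ⟨⟨0, by rw [Phi_zero L hN]; exact zero_le_one⟩⟩
  exact ciSup_le fun v => h v.1 v.2

theorem B_eq (hN : 2 ≤ N) (hs : 0 < s) (q : M × (Fin s → ℂ)) :
    L.B q.1 q.2 = sSup (bq L q '' univ) := by
  have : Nonempty (Fin s) := ⟨⟨0, hs⟩⟩
  rw [image_univ]
  apply le_antisymm
  · refine B_le_of L _ _ hN fun v hv => ?_
    have h0 : 0 ≤ sSup (range (bq L q)) := by
      apply Real.sSup_nonneg
      rintro _ ⟨u, rfl⟩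
      exact div_nonneg (by positivity) (Phi_nonneg L _ _)
    by_cases hv0 : v = 0
    · subst hv0
      simpa [dt, Real.zero_rpow (p_pos hN).ne'] using h0
    obtain ⟨u, hu⟩ := le_bq L hN q.1 q.2 v hv0
    rw [hu]
    have h1 : bq L (q.1, q.2) u ≤ sSup (range (bq L q)) := le_csSup (bddAbove_bq L hN q) ⟨u, rfl⟩
    calc L.Phi q.1 v * bq L (q.1, q.2) u ≤ 1 * sSup (range (bq L q)) := by
          exact mul_le_mul hv h1 (div_nonneg (by positivity) (Phi_nonneg L _ _)) zero_le_one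
      _ = _ := one_mul _
  · have hne : (range (bq L q)).Nonempty := by
      have : (sphere (0 : Fin s → ℂ) 1).Nonempty := by
        rw [NormedSpace.sphere_nonempty]
        exact zero_le_one
      obtain ⟨u, hu⟩ := this
      exact ⟨_, ⟨u, hu⟩, rfl⟩
    refine csSup_le hne ?_
    rintro _ ⟨u, rfl⟩
    unfold bq
    rw [div_le_iff₀ (Phi_pos L hN _ (sph_ne u.2)), mul_comm]
    exact le_B L hN _ _ _

/-- the Bergman function is jointly continuous -/
theorem B_cont (hN : 2 ≤ N) (hs : 0 < s) :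
    Continuous fun q : M × (Fin s → ℂ) => L.B q.1 q.2 := by
  have h1 : (fun q : M × (Fin s → ℂ) => L.B q.1 q.2) = fun q => sSup (bq L q '' univ) :=
    funext fun q => B_eq L hN hs q
  rw [h1]
  have hcs : CompactSpace (sphere (0 : Fin s → ℂ) 1) :=
    isCompact_iff_compactSpace.mp (isCompact_sphere _ _)
  exact isCompact_univ.continuous_sSup (bq_cont L hN)

theorem B_smul (hN : 2 ≤ N) (x : M) (c : ℂ) (t : Fin s → ℂ) :
    L.B x (c • t) = ‖c‖ ^ (2 / N : ℝ) * L.B x t := by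
  rw [B_def, B_def, Real.mul_iSup_of_nonneg (by positivity)]
  refine iSup_congr fun v => ?_
  rw [dt_smul_right, norm_mul, Real.mul_rpow (norm_nonneg _) (norm_nonneg _)]

theorem B_pos (hN : 2 ≤ N) (x : M) {t : Fin s → ℂ} (ht : t ≠ 0) : 0 < L.B x t := by
  have h1 := le_B L hN x t (fun i => conj (t i))
  have h2 : dt (fun i => conj (t i)) t ≠ 0 := by
    have h3 : dt (fun i => conj (t i)) t = ((∑ i, ‖t i‖ ^ 2 : ℝ) : ℂ) := by
      unfold dt
      push_cast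
      refine Finset.sum_congr rfl fun i _ => ?_
      rw [Complex.conj_mul']
    rw [h3]
    obtain ⟨i, hi⟩ := Function.ne_iff.mp ht
    have h4 : 0 < ∑ i, ‖t i‖ ^ 2 := by
      refine Finset.sum_pos' (fun i _ => by positivity) ⟨i, Finset.mem_univ i, ?_⟩
      have : 0 < ‖t i‖ := norm_pos_iff.mpr hi
      positivity
    exact_mod_cast h4.ne'
  have h5 : 0 < ‖dt (fun i => conj (t i)) t‖ ^ (2 / N : ℝ) :=
    Real.rpow_pos_of_pos (norm_pos_iff.mpr h2) _
  by_contra hcon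
  have h6 : L.B x t = 0 := le_antisymm (not_lt.mp hcon) (B_nonneg L x t)
  rw [h6, mul_zero] at h1
  linarith

theorem B_zero (hN : 2 ≤ N) (x : M) : L.B x 0 = 0 := by
  have h := B_smul L hN x 0 0
  rw [zero_smul, norm_zero, Real.zero_rpow (p_pos hN).ne', zero_mul] at h
  exact h

/-- two sided bounds of `B`, locally uniform in `x` -/
theorem B_bounds (hN : 2 ≤ N) (hs : 0 < s) (x₀ : M) :
    ∃ c C : ℝ, 0 < c ∧ 0 < C ∧ ∀ᶠ x in 𝓝 x₀, ∀ t, c * ‖t‖ ^ (2 / N : ℝ) ≤ L.B x t ∧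
      L.B x t ≤ C * ‖t‖ ^ (2 / N : ℝ) := by
  have : Nonempty (Fin s) := ⟨⟨0, hs⟩⟩
  have hne : (sphere (0 : Fin s → ℂ) 1).Nonempty := by
    rw [NormedSpace.sphere_nonempty]
    exact zero_le_one
  have hK : IsCompact (sphere (0 : Fin s → ℂ) 1) := isCompact_sphere _ _
  have hBc := B_cont L hN hs
  have hc1 : Continuous fun t => L.B x₀ t := hBc.comp (Continuous.prodMk_right x₀)
  obtain ⟨t1, ht1, hmin⟩ := hK.exists_isMinOn hne hc1.continuousOn
  obtain ⟨t2, ht2, hmax⟩ := hK.exists_isMaxOn hne hc1.continuousOn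
  have hpos1 := B_pos L hN x₀ (sph_ne ht1)
  have hpos2 := B_pos L hN x₀ (sph_ne ht2)
  refine ⟨L.B x₀ t1 / 2, 2 * L.B x₀ t2, by positivity, by positivity, ?_⟩
  have hev : ∀ᶠ x in 𝓝 x₀, ∀ t ∈ sphere (0 : Fin s → ℂ) 1,
      L.B x₀ t1 / 2 < L.B x t ∧ L.B x t < 2 * L.B x₀ t2 := by
    refine hK.eventually_forall_of_forall_eventually
      (P := fun x t => L.B x₀ t1 / 2 < L.B x t ∧ L.B x t < 2 * L.B x₀ t2) fun t ht => ?_
    have h1 : L.B x₀ t1 ≤ L.B x₀ t := hmin ht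
    have h2 : L.B x₀ t ≤ L.B x₀ t2 := hmax ht
    have h3 : Tendsto (fun q : M × (Fin s → ℂ) => L.B q.1 q.2) (𝓝 (x₀, t)) (𝓝 (L.B x₀ t)) :=
      hBc.tendsto (x₀, t)
    exact (h3.eventually_const_lt (by linarith)).and (h3.eventually_lt_const (by linarith))
  filter_upwards [hev] with x hx t
  by_cases ht : t = 0
  · subst ht
    rw [B_zero L hN, norm_zero, Real.zero_rpow (p_pos hN).ne']
    simp
  have hn : 0 < ‖t‖ := norm_pos_iff.mpr ht
  have hmem : ((‖t‖⁻¹ : ℝ) : ℂ) • t ∈ sphere (0 : Fin s → ℂ) 1 := by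
    rw [mem_sphere_zero_iff_norm, norm_smul, Complex.norm_real, norm_inv, norm_norm,
      inv_mul_cancel₀ hn.ne']
  have h1 := hx _ hmem
  have h2 : L.B x (((‖t‖⁻¹ : ℝ) : ℂ) • t) = (‖t‖ ^ (2 / N : ℝ))⁻¹ * L.B x t := by
    rw [B_smul L hN, Complex.norm_real, norm_inv, norm_norm, Real.inv_rpow (norm_nonneg _)]
  have h3 : 0 < ‖t‖ ^ (2 / N : ℝ) := Real.rpow_pos_of_pos hn _
  rw [h2] at h1
  constructor
  · have := h1.1.le
    rw [inv_mul_eq_div, le_div_iff₀ h3] at this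
    exact this
  · have := h1.2.le
    rw [inv_mul_eq_div, div_le_iff₀ h3] at this
    exact this

end Crest.Agent.R276.LNb_333
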