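import Mathlib
import Crest.Agent.R276.LNb_333
import Crest.Agent.R276.HomC_201

/-!
# Row 276, LEMMA N (helper333), part c: the metrics `H` and `G`

`Qm μ σ ω = (∫ conj σ_i σ_j ω(σ) dμ)` for a weight `ω` on `ℂ^s`, homogeneous of degree `p - 2`:
quadratic form, positivity, continuity.  Instances: 999's `L.H` (Narasimhan-Simha metric) and `L.G`.
-/

set_option autoImplicit false
set_option linter.unusedSectionVars false
set_option linter.unusedVariables false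

open MeasureTheory Matrix Set Filter Topology Metric
open scoped ComplexConjugate ENNReal ComplexOrder

noncomputable section

namespace Crest.Agent.R276.LNc_333

open Crest.Agent.R276.LN_999 Crest.Agent.R276.LNb_333

variable {s N : ℕ} {p : ℝ}

/-- weights of degree `p - 2` -/
structure Wt (p : ℝ) (ω : (Fin s → ℂ) → ℝ) : Prop where
  pos : ∀ t, t ≠ 0 → 0 < ω t
  cont : ContinuousOn ω {t | t ≠ 0}
  hom : ∀ c : ℂ, c ≠ 0 → ∀ t, ω (c • t) = ‖c‖ ^ (p - 2) * ω t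

/-- the function `conj t_i t_j ω(t)` -/
def gij (ω : (Fin s → ℂ) → ℝ) (i j : Fin s) (t : Fin s → ℂ) : ℂ :=
  conj (t i) * t j * (ω t : ℂ)

lemma gij_hom (hp : 0 < p) {ω : (Fin s → ℂ) → ℝ}
    (hom : ∀ c : ℂ, c ≠ 0 → ∀ t, ω (c • t) = ‖c‖ ^ (p - 2) * ω t) (i j : Fin s) (c : ℂ)
    (t : Fin s → ℂ) : gij ω i j (c • t) = (‖c‖ ^ p : ℝ) * gij ω i j t := by
  by_cases hc : c = 0
  · subst hc
    simp [gij, Real.zero_rpow hp.ne']
  · have hn : 0 < ‖c‖ := norm_pos_iff.mpr hc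
    have h1 : (‖c‖ ^ p : ℝ) = ‖c‖ ^ 2 * ‖c‖ ^ (p - 2) := by
      rw [← Real.rpow_natCast, ← Real.rpow_add hn]
      congr 1
      push_cast
      ring
    unfold gij
    rw [hom c hc, h1]
    simp only [Pi.smul_apply, smul_eq_mul, map_mul]
    have h2 : conj c * c = ((‖c‖ ^ 2 : ℝ) : ℂ) := by
      rw [Complex.conj_mul']
      push_cast
      rfl
    push_cast
    push_cast at h2
    calc conj c * conj (t i) * (c * t j) * (((‖c‖ ^ (p - 2) : ℝ) : ℂ) * (ω t : ℂ))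
        = (conj c * c) * ((‖c‖ ^ (p - 2) : ℝ) : ℂ) * (conj (t i) * t j * (ω t : ℂ)) := by ring
      _ = _ := by rw [h2]

lemma gij_contOn {ω : (Fin s → ℂ) → ℝ} (h : ContinuousOn ω {t | t ≠ 0}) (i j : Fin s) :
    ContinuousOn (gij ω i j) {t | t ≠ 0} := by
  unfold gij
  refine ContinuousOn.mul ?_ (Complex.continuous_ofReal.comp_continuousOn h)
  fun_prop

lemma meas_gij {ω : (Fin s → ℂ) → ℝ} (h : ContinuousOn ω {t | t ≠ 0}) (i j : Fin s) :
    Measurable (gij ω i j) :=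
  measurable_of_continuousOn_compl_singleton 0 (gij_contOn h i j)

lemma meas_wt {ω : (Fin s → ℂ) → ℝ} (h : ContinuousOn ω {t | t ≠ 0}) : Measurable ω :=
  measurable_of_continuousOn_compl_singleton 0 h

/-- growth -/
lemma wt_bd (hp : 0 < p) {ω : (Fin s → ℂ) → ℝ} (h : Wt p ω) :
    ∃ C, 0 ≤ C ∧ ∀ t, ‖t‖ ^ 2 * |ω t| ≤ C * ‖t‖ ^ p := by
  obtain ⟨C, hC0, hC⟩ := HomC_201.hom_bd (p := p) hp (g := fun t => ‖t‖ ^ 2 * ω t)
    ((continuous_norm.pow 2).continuousOn.mul h.cont) (by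
      intro c t
      by_cases hc : c = 0
      · subst hc
        simp [Real.zero_rpow hp.ne']
      have hn : 0 < ‖c‖ := norm_pos_iff.mpr hc
      rw [h.hom c hc, norm_smul]
      have h1 : (‖c‖ ^ p : ℝ) = ‖c‖ ^ 2 * ‖c‖ ^ (p - 2) := by
        rw [← Real.rpow_natCast, ← Real.rpow_add hn]
        congr 1
        push_cast
        ring
      rw [h1]
      ring)
  refine ⟨C, hC0, fun t => ?_⟩
  have h1 := hC t
  rw [abs_mul, abs_of_nonneg (by positivity : (0 : ℝ) ≤ ‖t‖ ^ 2)] at h1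
  exact h1

lemma norm_gij_le {ω : (Fin s → ℂ) → ℝ} (i j : Fin s) (t : Fin s → ℂ) :
    ‖gij ω i j t‖ ≤ ‖t‖ ^ 2 * |ω t| := by
  unfold gij
  rw [norm_mul, norm_mul, RCLike.norm_conj, Complex.norm_real, Real.norm_eq_abs]
  have h1 := norm_le_pi_norm t i
  have h2 := norm_le_pi_norm t j
  have h3 : ‖t i‖ * ‖t j‖ ≤ ‖t‖ ^ 2 := by
    rw [sq]
    exact mul_le_mul h1 h2 (norm_nonneg _) (norm_nonneg _)
  exact mul_le_mul_of_nonneg_right h3 (abs_nonneg _)

variable {Y : Type*} [MeasurableSpace Y]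

/-- the Gram matrix with weight `ω` -/
def Qm (μ : Measure Y) (σ : Fin s → Y → ℂ) (ω : (Fin s → ℂ) → ℝ) : Matrix (Fin s) (Fin s) ℂ :=
  Matrix.of fun i j => ∫ y, gij ω i j (fun k => σ k y) ∂μ

/-- measurability and finiteness -/
structure Fam (p : ℝ) (μ : Measure Y) (σ : Fin s → Y → ℂ) : Prop where
  meas : ∀ i, Measurable (σ i)
  fin : ∀ v : Fin s → ℂ, ∫⁻ y, ENNReal.ofReal (‖∑ i, v i * σ i y‖ ^ p) ∂μ ≠ ∞

variable {μ : Measure Y} {σ : Fin s → Y → ℂ}

lemma integrable_gij (hp : 0 < p) (hF : Fam p μ σ) {ω : (Fin s → ℂ) → ℝ} (h : Wt p ω)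
    (i j : Fin s) : Integrable (fun y => gij ω i j (fun k => σ k y)) μ := by
  obtain ⟨C, hC0, hC⟩ := wt_bd hp h
  have h1 := (HomC_201.integrable_norm hp hF.meas hF.fin).const_mul C
  refine h1.mono' ?_ ?_
  · exact ((meas_gij h.cont i j).comp (HomC_201.meas_vec hF.meas)).aestronglyMeasurable
  · exact Eventually.of_forall fun y => (norm_gij_le i j _).trans (hC _)

lemma dt_norm_sq_le (v t : Fin s → ℂ) : ‖dt v t‖ ^ 2 ≤ (∑ i, ‖v i‖) ^ 2 * ‖t‖ ^ 2 := by
  rw [← mul_pow]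
  refine pow_le_pow_left₀ (norm_nonneg _) ?_ 2
  unfold dt
  refine (norm_sum_le _ _).trans ?_
  rw [Finset.sum_mul]
  refine Finset.sum_le_sum fun i _ => ?_
  rw [norm_mul]
  exact mul_le_mul_of_nonneg_left (norm_le_pi_norm t i) (norm_nonneg _)

lemma integrable_sq (hp : 0 < p) (hF : Fam p μ σ) {ω : (Fin s → ℂ) → ℝ} (h : Wt p ω)
    (v : Fin s → ℂ) : Integrable (fun y => ‖dt v (fun k => σ k y)‖ ^ 2 * ω (fun k => σ k y)) μ := by
  obtain ⟨C, hC0, hC⟩ := wt_bd hp h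
  have h1 := ((HomC_201.integrable_norm hp hF.meas hF.fin).const_mul C).const_mul
    ((∑ i, ‖v i‖) ^ 2)
  refine h1.mono' ?_ ?_
  · have h2 : Measurable fun t : Fin s → ℂ => ‖dt v t‖ ^ 2 * ω t := by
      have h3 : Continuous fun t : Fin s → ℂ => dt v t := dt_cont.comp (Continuous.prodMk_right v)
      exact (h3.norm.pow 2).measurable.mul (meas_wt h.cont)
    exact (h2.comp (HomC_201.meas_vec hF.meas)).aestronglyMeasurable
  · refine Eventually.of_forall fun y => ?_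
    rw [norm_mul, Real.norm_eq_abs, Real.norm_eq_abs, abs_of_nonneg (by positivity)]
    calc ‖dt v fun k => σ k y‖ ^ 2 * |ω fun k => σ k y|
        ≤ ((∑ i, ‖v i‖) ^ 2 * ‖fun k => σ k y‖ ^ 2) * |ω fun k => σ k y| :=
          mul_le_mul_of_nonneg_right (dt_norm_sq_le _ _) (abs_nonneg _)
      _ = (∑ i, ‖v i‖) ^ 2 * (‖fun k => σ k y‖ ^ 2 * |ω fun k => σ k y|) := by ring
      _ ≤ (∑ i, ‖v i‖) ^ 2 * (C * ‖HomC_201.vec σ y‖ ^ p) :=
          mul_le_mul_of_nonneg_left (hC _) (by positivity)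

/-- the quadratic form of the Gram matrix -/
theorem dot_Qm (hp : 0 < p) (hF : Fam p μ σ) {ω : (Fin s → ℂ) → ℝ} (h : Wt p ω)
    (v : Fin s → ℂ) : star v ⬝ᵥ (Qm μ σ ω *ᵥ v) =
      ((∫ y, ‖dt v (fun k => σ k y)‖ ^ 2 * ω (fun k => σ k y) ∂μ : ℝ) : ℂ) := by
  have hI := integrable_gij hp hF h
  rw [← integral_complex_ofReal]
  have h1 : star v ⬝ᵥ (Qm μ σ ω *ᵥ v) =
      ∑ i, ∑ j, ∫ y, conj (v i) * v j * gij ω i j (fun k => σ k y) ∂μ := by
    simp only [dotProduct, mulVec, Qm, Matrix.of_apply, Pi.star_apply, RCLike.star_def]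
    refine Finset.sum_congr rfl fun i _ => ?_
    rw [Finset.mul_sum]
    refine Finset.sum_congr rfl fun j _ => ?_
    rw [integral_const_mul]
    ring
  rw [h1]
  have h2 : ∀ i, ∑ j, ∫ y, conj (v i) * v j * gij ω i j (fun k => σ k y) ∂μ =
      ∫ y, ∑ j, conj (v i) * v j * gij ω i j (fun k => σ k y) ∂μ := fun i =>
    (integral_finsetSum _ fun j _ => (hI i j).const_mul _).symm
  simp_rw [h2]
  rw [← integral_finsetSum _ fun i _ => integrable_finsetSum _ fun j _ => (hI i j).const_mul _]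
  refine integral_congr_ae (Eventually.of_forall fun y => ?_)
  simp only [gij]
  have h3 : ((‖dt v (fun k => σ k y)‖ ^ 2 * ω (fun k => σ k y) : ℝ) : ℂ) =
      conj (dt v fun k => σ k y) * (dt v fun k => σ k y) * (ω (fun k => σ k y) : ℂ) := by
    rw [Complex.conj_mul']
    push_cast
    rfl
  rw [h3]
  unfold dt
  rw [map_sum, Finset.sum_mul_sum, Finset.sum_mul]
  refine Finset.sum_congr rfl fun i _ => ?_
  rw [Finset.sum_mul]
  refine Finset.sum_congr rfl fun j _ => ?_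
  rw [map_mul]
  ring

theorem qf_Qm (hp : 0 < p) (hF : Fam p μ σ) {ω : (Fin s → ℂ) → ℝ} (h : Wt p ω)
    (v : Fin s → ℂ) : Nc_999.qf (Qm μ σ ω) v =
      ∫ y, ‖dt v (fun k => σ k y)‖ ^ 2 * ω (fun k => σ k y) ∂μ := by
  unfold Nc_999.qf
  rw [dot_Qm hp hF h, Complex.ofReal_re]

/-- the integrand is nonnegative -/
lemma sq_nonneg' {ω : (Fin s → ℂ) → ℝ} (h : Wt p ω) (v t : Fin s → ℂ) :
    0 ≤ ‖dt v t‖ ^ 2 * ω t := by
  by_cases ht : t = 0
  · subst ht
    simp [dt]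
  · exact mul_nonneg (by positivity) (h.pos t ht).le

theorem Qm_isHermitian (μ : Measure Y) (σ : Fin s → Y → ℂ) (ω : (Fin s → ℂ) → ℝ) :
    (Qm μ σ ω).IsHermitian := by
  ext i j
  rw [conjTranspose_apply]
  simp only [Qm, Matrix.of_apply, RCLike.star_def]
  rw [← integral_conj]
  refine integral_congr_ae (Eventually.of_forall fun y => ?_)
  simp only [gij, map_mul, RCLike.conj_conj, Complex.conj_ofReal]
  ring

/-- positivity -/
theorem Qm_posDef (hp : 0 < p) (hF : Fam p μ σ)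
    (hpos : ∀ v : Fin s → ℂ, v ≠ 0 → ∫⁻ y, ENNReal.ofReal (‖∑ i, v i * σ i y‖ ^ p) ∂μ ≠ 0)
    {ω : (Fin s → ℂ) → ℝ} (h : Wt p ω) : (Qm μ σ ω).PosDef := by
  rw [posDef_iff_dotProduct_mulVec]
  refine ⟨Qm_isHermitian μ σ ω, fun v hv => ?_⟩
  rw [dot_Qm hp hF h]
  have h1 : 0 < ∫ y, ‖dt v (fun k => σ k y)‖ ^ 2 * ω (fun k => σ k y) ∂μ := by
    rw [integral_pos_iff_support_of_nonneg (fun y => sq_nonneg' h _ _) (integrable_sq hp hF h v)]
    rw [pos_iff_ne_zero]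
    intro h0
    refine hpos v hv ?_
    rw [lintegral_eq_zero_iff' (by
      have : Measurable fun y => ∑ i, v i * σ i y :=
        Finset.measurable_sum _ fun i _ => (hF.meas i).const_mul _
      exact ((this.norm.pow_const _).ennreal_ofReal).aemeasurable)]
    have h2 : {y | ¬ (‖dt v (fun k => σ k y)‖ ^ 2 * ω (fun k => σ k y) = 0)} ∈
        {A : Set Y | μ A = 0} := h0
    have h3 : ∀ᵐ y ∂μ, ‖dt v (fun k => σ k y)‖ ^ 2 * ω (fun k => σ k y) = 0 := h0
    filter_upwards [h3] with y hy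
    have h4 : dt v (fun k => σ k y) = 0 := by
      rcases mul_eq_zero.mp hy with h5 | h5
      · exact norm_eq_zero.mp (by simpa using h5)
      · by_contra hne
        have h6 : (fun k => σ k y) ≠ 0 := by
          intro h7
          apply hne
          rw [h7]
          simp [dt]
        exact (h.pos _ h6).ne' h5
    have h5 : ∑ i, v i * σ i y = 0 := h4
    rw [h5]
    simp [Real.zero_rpow hp.ne']
  exact_mod_cast h1

/-- continuity with parameters -/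
theorem Qm_cont {X : Type*} [TopologicalSpace X] {W : Type*} [TopologicalSpace W] (hp : 0 < p)
    (hp2 : p < 2) (μ : X → Measure Y) [∀ x, SFinite (μ x)] (σ : Fin s → Y → ℂ)
    (hF : ∀ x, Fam p (μ x) σ) (hσ : ∀ i, Measurable (σ i))
    (hc : ∀ v : Fin s → ℂ, Continuous fun x => ∫ y, ‖∑ i, v i * σ i y‖ ^ p ∂(μ x))
    (ω : W → (Fin s → ℂ) → ℝ) {T : Set W} (hT : IsOpen T)
    (hg : ContinuousOn (fun q : W × (Fin s → ℂ) => ω q.1 q.2) {q | q.1 ∈ T ∧ q.2 ≠ 0})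
    (hh : ∀ w ∈ T, ∀ c : ℂ, c ≠ 0 → ∀ t, ω w (c • t) = ‖c‖ ^ (p - 2) * ω w t) :
    ContinuousOn (fun q : X × W => Qm (μ q.1) σ (ω q.2)) {q | q.2 ∈ T} := by
  refine continuousOn_pi.mpr fun i => continuousOn_pi.mpr fun j => ?_
  refine HomC_201.homcont2C hp hp2 μ σ hσ (fun x v => (hF x).fin v) hc
    (fun w => gij (ω w) i j) hT ?_ ?_
  · unfold gij
    refine ContinuousOn.mul ?_ (Complex.continuous_ofReal.comp_continuousOn hg)
    fun_prop
  · intro w hw c v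
    exact gij_hom hp (hh w hw) i j c v

end Crest.Agent.R276.LNc_333
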