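import Mathlib
import Crest.Agent.R276.LNc_333

/-!
# Row 276, LEMMA N (helper333), part d: `L.H`, `L.G`: positivity, continuity, comparison

* `H_posDef`, `H_cont`, `qf_H`; `G_posDef`, `G_cont`, `qf_G`;
* `qf_H_le : qf (H x) v ≤ Φ^N`, `Phi_pow_le : Φ^N ≤ s^(N-1) qf (H x) v`;
* `qf_G_le`, `qf_G_ge`, `tendsto_G`: comparison of `G` with `Φ` and `H`.
-/

set_option autoImplicit false
set_option linter.unusedSectionVars false
set_option linter.unusedVariables false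

open MeasureTheory Matrix Set Filter Topology Metric
open scoped ComplexConjugate ENNReal ComplexOrder

noncomputable section

namespace Crest.Agent.R276.LNd_333

open Crest.Agent.R276.LN_999 Crest.Agent.R276.LNb_333 Crest.Agent.R276.LNc_333
open Crest.Agent.R276.Nc_999 (qf)

variable {M Y : Type*} [TopologicalSpace M] [MeasurableSpace Y] {s N : ℕ}
variable (L : LN M Y s N)

lemma fam (hN : 2 ≤ N) (x : M) : Fam (2 / N : ℝ) (L.μ x) L.σ where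
  meas := L.meas
  fin := L.fin x

lemma N_pos (hN : 2 ≤ N) : (0 : ℝ) < N := by exact_mod_cast (by omega : 0 < N)

lemma p_lt (hN : 2 ≤ N) : (2 / N : ℝ) < 2 := lt_of_le_of_lt (p_le hN) (by norm_num)

/-! ### the metric `H` -/

/-- the weight `B^{-(N-1)}` -/
def wH (x : M) (t : Fin s → ℂ) : ℝ := (L.B x t ^ (N - 1))⁻¹

lemma H_eq (x : M) : L.H x = Qm (L.μ x) L.σ (wH L x) := rfl

lemma wH_hom (hN : 2 ≤ N) (x : M) (c : ℂ) (hc : c ≠ 0) (t : Fin s → ℂ) :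
    wH L x (c • t) = ‖c‖ ^ ((2 / N : ℝ) - 2) * wH L x t := by
  unfold wH
  have hn : 0 < ‖c‖ := norm_pos_iff.mpr hc
  rw [B_smul L hN, mul_pow, mul_inv]
  congr 1
  rw [← Real.rpow_natCast (‖c‖ ^ (2 / N : ℝ)), ← Real.rpow_mul hn.le, ← Real.rpow_neg hn.le]
  congr 1
  have h1 : ((N - 1 : ℕ) : ℝ) = N - 1 := by
    rw [Nat.cast_sub (by omega)]
    simp
  rw [h1]
  have h2 := (N_pos hN).ne'
  field_simp
  ring

lemma wt_H (hN : 2 ≤ N) (hs : 0 < s) (x : M) : Wt (2 / N : ℝ) (wH L x) where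
  pos t ht := inv_pos.mpr (pow_pos (B_pos L hN x ht) _)
  cont := by
    unfold wH
    have h1 : Continuous fun t => L.B x t := (B_cont L hN hs).comp (Continuous.prodMk_right x)
    exact ((h1.pow _).continuousOn).inv₀ fun t ht => (pow_pos (B_pos L hN x ht) _).ne'
  hom := wH_hom L hN x

/-- (G1b) for `H` -/
theorem H_posDef (hN : 2 ≤ N) (hs : 0 < s) (x : M) : (L.H x).PosDef := by
  rw [H_eq]
  exact Qm_posDef (p_pos hN) (fam L hN x) (fun v hv => L.pos x v hv) (wt_H L hN hs x)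

theorem H_cont (hN : 2 ≤ N) (hs : 0 < s) : Continuous L.H := by
  have hsf : ∀ x, SFinite (L.μ x) := fun x => by
    have := L.sf x
    infer_instance
  have h1 := Qm_cont (p_pos hN) (p_lt hN) L.μ L.σ (fun x => fam L hN x) L.meas L.cont
    (fun x : M => wH L x) (T := univ) isOpen_univ (by
      unfold wH
      refine ContinuousOn.inv₀ (((B_cont L hN hs).pow _).continuousOn) ?_
      rintro ⟨x, t⟩ ⟨_, ht⟩
      exact (pow_pos (B_pos L hN x ht) _).ne') (fun x _ c hc t => wH_hom L hN x c hc t)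
  have h2 : Continuous fun q : M × M => Qm (L.μ q.1) L.σ (wH L q.2) := by
    rw [← continuousOn_univ]
    simpa using h1
  exact h2.comp (continuous_id.prodMk continuous_id)

theorem qf_H (hN : 2 ≤ N) (hs : 0 < s) (x : M) (v : Fin s → ℂ) :
    qf (L.H x) v = ∫ y, ‖dt v (L.sg y)‖ ^ 2 * (L.B x (L.sg y) ^ (N - 1))⁻¹ ∂(L.μ x) := by
  rw [H_eq, qf_Qm (p_pos hN) (fam L hN x) (wt_H L hN hs x)]
  rfl

/-! ### the metrics `G` -/

/-- the weight of `G` -/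
def wG (N : ℕ) {m : ℕ} (w : Fin m → Fin s → ℂ) (t : Fin s → ℂ) : ℝ :=
  (∑ l, ‖dt (w l) t‖ ^ 2) ^ (-(1 - 1 / N : ℝ))

/-- spanning families -/
def Spn {m : ℕ} (w : Fin m → Fin s → ℂ) : Prop := ∀ v : Fin s → ℂ, (∀ l, dt (w l) v = 0) → v = 0

lemma G_eq {m : ℕ} (x : M) (w : Fin m → Fin s → ℂ) : L.G x w = Qm (L.μ x) L.σ (wG N w) := rfl

lemma sum_pos_of_spn {m : ℕ} {w : Fin m → Fin s → ℂ} (hw : Spn w) {t : Fin s → ℂ} (ht : t ≠ 0) :
    0 < ∑ l, ‖dt (w l) t‖ ^ 2 := by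
  by_contra hcon
  have h1 : ∑ l, ‖dt (w l) t‖ ^ 2 = 0 :=
    le_antisymm (not_lt.mp hcon) (Finset.sum_nonneg fun _ _ => by positivity)
  rw [Finset.sum_eq_zero_iff_of_nonneg fun _ _ => by positivity] at h1
  refine ht (hw t fun l => ?_)
  have := h1 l (Finset.mem_univ l)
  simpa using this

lemma wG_hom (hN : 2 ≤ N) {m : ℕ} (w : Fin m → Fin s → ℂ) (c : ℂ) (hc : c ≠ 0)
    (t : Fin s → ℂ) : wG N w (c • t) = ‖c‖ ^ ((2 / N : ℝ) - 2) * wG N w t := by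
  unfold wG
  have hn : 0 < ‖c‖ := norm_pos_iff.mpr hc
  have h1 : ∑ l, ‖dt (w l) (c • t)‖ ^ 2 = ‖c‖ ^ 2 * ∑ l, ‖dt (w l) t‖ ^ 2 := by
    rw [Finset.mul_sum]
    refine Finset.sum_congr rfl fun l _ => ?_
    rw [dt_smul_right, norm_mul, mul_pow]
  rw [h1, Real.mul_rpow (by positivity) (Finset.sum_nonneg fun _ _ => by positivity)]
  congr 1
  rw [← Real.rpow_natCast, ← Real.rpow_mul hn.le]
  congr 1
  have h2 := (N_pos hN).ne'
  push_cast
  field_simp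
  ring

lemma sum_cont {m : ℕ} :
    Continuous fun q : (Fin m → Fin s → ℂ) × (Fin s → ℂ) => ∑ l, ‖dt (q.1 l) q.2‖ ^ 2 := by
  unfold dt
  fun_prop

lemma wG_cont {m : ℕ} :
    ContinuousOn (fun q : (Fin m → Fin s → ℂ) × (Fin s → ℂ) => wG N q.1 q.2)
      {q | q.1 ∈ {w : Fin m → Fin s → ℂ | Spn w} ∧ q.2 ≠ 0} := by
  unfold wG
  refine ContinuousOn.rpow_const sum_cont.continuousOn ?_
  rintro ⟨w, t⟩ ⟨hw, ht⟩
  exact Or.inl (sum_pos_of_spn hw ht).ne'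

lemma wG_cont_right {m : ℕ} {w : Fin m → Fin s → ℂ} (hw : Spn w) :
    ContinuousOn (wG N w) {t | t ≠ 0} := by
  unfold wG
  refine ContinuousOn.rpow_const ?_ fun t ht => Or.inl (sum_pos_of_spn hw ht).ne'
  have : Continuous fun t : Fin s → ℂ => ∑ l, ‖dt (w l) t‖ ^ 2 := by
    unfold dt
    fun_prop
  exact this.continuousOn

lemma wt_G (hN : 2 ≤ N) {m : ℕ} {w : Fin m → Fin s → ℂ} (hw : Spn w) :
    Wt (2 / N : ℝ) (wG N w) where
  pos t ht := Real.rpow_pos_of_pos (sum_pos_of_spn hw ht) _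
  cont := wG_cont_right hw
  hom := wG_hom hN w

theorem isOpen_spn {m : ℕ} : IsOpen {w : Fin m → Fin s → ℂ | Spn w} := by
  rw [isOpen_iff_eventually]
  intro w₀ hw₀
  have hK : IsCompact (sphere (0 : Fin s → ℂ) 1) := isCompact_sphere _ _
  have hev := hK.eventually_forall_of_forall_eventually (x₀ := w₀)
    (P := fun w t => 0 < ∑ l, ‖dt (w l) t‖ ^ 2) fun t ht =>
      (sum_cont.tendsto (w₀, t)).eventually_const_lt (sum_pos_of_spn hw₀ (sph_ne ht))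
  filter_upwards [hev] with w hw v hv
  by_contra hne
  have hn : ‖v‖ ≠ 0 := norm_ne_zero_iff.mpr hne
  have hmem : ((‖v‖⁻¹ : ℝ) : ℂ) • v ∈ sphere (0 : Fin s → ℂ) 1 := by
    rw [mem_sphere_zero_iff_norm, norm_smul, Complex.norm_real, norm_inv, norm_norm,
      inv_mul_cancel₀ hn]
  have h1 := hw _ hmem
  have h2 : ∑ l, ‖dt (w l) (((‖v‖⁻¹ : ℝ) : ℂ) • v)‖ ^ 2 = 0 := by
    refine Finset.sum_eq_zero fun l _ => ?_
    rw [dt_smul_right, hv l]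
    simp
  rw [h2] at h1
  exact lt_irrefl _ h1

/-- (G1b) for `G` -/
theorem G_posDef (hN : 2 ≤ N) {m : ℕ} (x : M) {w : Fin m → Fin s → ℂ} (hw : Spn w) :
    (L.G x w).PosDef := by
  rw [G_eq]
  exact Qm_posDef (p_pos hN) (fam L hN x) (fun v hv => L.pos x v hv) (wt_G hN hw)

theorem G_cont (hN : 2 ≤ N) {m : ℕ} :
    ContinuousOn (fun q : M × (Fin m → Fin s → ℂ) => L.G q.1 q.2) {q | Spn q.2} := by
  have hsf : ∀ x, SFinite (L.μ x) := fun x => by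
    have := L.sf x
    infer_instance
  exact Qm_cont (p_pos hN) (p_lt hN) L.μ L.σ (fun x => fam L hN x) L.meas L.cont
    (fun w : Fin m → Fin s → ℂ => wG N w) isOpen_spn wG_cont (fun w _ c hc t => wG_hom hN w c hc t)

theorem qf_G (hN : 2 ≤ N) {m : ℕ} (x : M) {w : Fin m → Fin s → ℂ} (hw : Spn w)
    (v : Fin s → ℂ) : qf (L.G x w) v =
      ∫ y, ‖dt v (L.sg y)‖ ^ 2 * (∑ l, ‖dt (w l) (L.sg y)‖ ^ 2) ^ (-(1 - 1 / N : ℝ)) ∂(L.μ x) := by
  rw [G_eq, qf_Qm (p_pos hN) (fam L hN x) (wt_G hN hw)]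
  rfl

/-! ### comparison -/

lemma ofReal_qf_H (hN : 2 ≤ N) (hs : 0 < s) (x : M) (v : Fin s → ℂ) :
    ENNReal.ofReal (qf (L.H x) v) = ∫⁻ y, ENNReal.ofReal (‖ev L y v‖ ^ 2) *
      ((ENNReal.ofReal (L.B x (L.sg y))) ^ (N - 1))⁻¹ ∂(L.μ x) := by
  have hI := integrable_sq (p_pos hN) (fam L hN x) (wt_H L hN hs x) v
  rw [qf_H L hN hs]
  refine (ofReal_integral_eq_lintegral_ofReal hI
    (Eventually.of_forall fun y => sq_nonneg' (wt_H L hN hs x) v _)).trans ?_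
  refine lintegral_congr fun y => ?_
  change ENNReal.ofReal (‖dt v (L.sg y)‖ ^ 2 * (L.B x (L.sg y) ^ (N - 1))⁻¹) = _
  rw [ENNReal.ofReal_mul (by positivity), dt_sg]
  by_cases h0 : L.sg y = 0
  · have h1 : ev L y v = 0 := by
      rw [← dt_sg, h0]
      simp [dt]
    rw [h1]
    simp
  · have hB := B_pos L hN x h0
    rw [ENNReal.ofReal_inv_of_pos (pow_pos hB _), ENNReal.ofReal_pow hB.le]

/-- (G1c) upper comparison -/
theorem qf_H_le (hN : 2 ≤ N) (hs : 0 < s) (x : M) (v : Fin s → ℂ) :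
    qf (L.H x) v ≤ L.Phi x v ^ N := by
  have h1 := Aue_999.ns_le (μ := L.μ x) (ev := ev L) (α := (2 / N : ℝ)) N (by omega) rfl
    (good L hN x) (fun y => ENNReal.ofReal (L.B x (L.sg y))) (by
      intro y v
      rw [← Aue_999.ofReal_q (good L hN x), ← Phi_eq, ← ENNReal.ofReal_mul (Phi_nonneg L x v)]
      apply ENNReal.ofReal_le_ofReal
      rw [← dt_sg]
      exact le_B L hN x _ v) v
  rw [← ofReal_qf_H L hN hs, ← Aue_999.ofReal_q (good L hN x), ← Phi_eq,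
    ← ENNReal.ofReal_pow (Phi_nonneg L x v)] at h1
  exact (ENNReal.ofReal_le_ofReal_iff (pow_nonneg (Phi_nonneg L x v) _)).mp h1

/-- (G1c) lower comparison -/
theorem Phi_pow_le (hN : 2 ≤ N) (hs : 0 < s) (x : M) (v : Fin s → ℂ) :
    L.Phi x v ^ N ≤ (s : ℝ) ^ (N - 1) * qf (L.H x) v := by
  have h1 := Aue_999.pint_pow_le (μ := L.μ x) (ev := ev L) (α := (2 / N : ℝ)) N (by omega) rfl
    (good L hN x) (fun y => ENNReal.ofReal (L.B x (L.sg y))) (by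
      have h2 : Measurable fun t => L.B x t :=
        ((B_cont L hN hs).comp (Continuous.prodMk_right x)).measurable
      exact ((h2.comp (meas_sg L)).ennreal_ofReal).aemeasurable) (by
      intro y v
      rw [← Aue_999.ofReal_q (good L hN x), ← Phi_eq, ← ENNReal.ofReal_mul (Phi_nonneg L x v)]
      apply ENNReal.ofReal_le_ofReal
      rw [← dt_sg]
      exact le_B L hN x _ v) (by
      intro y C hC
      apply ENNReal.ofReal_le_ofReal
      refine B_le_of L x _ hN fun v hv => ?_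
      rw [dt_sg]
      exact hC v (by rw [← Phi_eq]; exact hv)) v
  rw [← ofReal_qf_H L hN hs, ← Aue_999.ofReal_q (good L hN x), ← Phi_eq,
    ← ENNReal.ofReal_pow (Phi_nonneg L x v)] at h1
  have h2 : (Module.finrank ℂ (Fin s → ℂ) : ℝ≥0∞) ^ (N - 1) = ENNReal.ofReal ((s : ℝ) ^ (N - 1)) := by
    rw [ENNReal.ofReal_pow (by positivity), ENNReal.ofReal_natCast]
    simp
  rw [h2, ← ENNReal.ofReal_mul (by positivity)] at h1
  exact (ENNReal.ofReal_le_ofReal_iff (mul_nonneg (by positivity)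
    (Nc_999.qf_nonneg (H_posDef L hN hs x) v))).mp h1

/-- the family `w` controls the weight from above -/
lemma sum_le_B (hN : 2 ≤ N) (hs : 0 < s) {m : ℕ} (x : M) (w : Fin m → Fin s → ℂ)
    (t : Fin s → ℂ) : ∑ l, ‖dt (w l) t‖ ^ 2 ≤
      ((s : ℝ) ^ (N - 1) * ∑ l, qf (L.H x) (w l)) * L.B x t ^ N := by
  rw [Finset.mul_sum, Finset.sum_mul]
  refine Finset.sum_le_sum fun l _ => ?_
  have h1 := le_B L hN x t (w l)
  have h2 : ‖dt (w l) t‖ ^ 2 = (‖dt (w l) t‖ ^ (2 / N : ℝ)) ^ N := by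
    rw [← Real.rpow_natCast (‖dt (w l) t‖ ^ (2 / N : ℝ)), ← Real.rpow_mul (norm_nonneg _)]
    rw [div_mul_cancel₀ _ (N_pos hN).ne']
    norm_num
  rw [h2]
  calc (‖dt (w l) t‖ ^ (2 / N : ℝ)) ^ N ≤ (L.Phi x (w l) * L.B x t) ^ N :=
        pow_le_pow_left₀ (by positivity) h1 N
    _ = L.Phi x (w l) ^ N * L.B x t ^ N := mul_pow _ _ _
    _ ≤ ((s : ℝ) ^ (N - 1) * qf (L.H x) (w l)) * L.B x t ^ N :=
        mul_le_mul_of_nonneg_right (Phi_pow_le L hN hs x (w l)) (pow_nonneg (B_nonneg L x t) N)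

lemma one_sub_pos (hN : 2 ≤ N) : (0 : ℝ) < 1 - 1 / N := by
  have h1 : (2 : ℝ) ≤ N := by exact_mod_cast hN
  have h2 : (1 : ℝ) / N ≤ 1 / 2 := one_div_le_one_div_of_le (by norm_num) h1
  linarith

/-- lower bound of `G` by `H` -/
theorem qf_G_ge (hN : 2 ≤ N) (hs : 0 < s) {m : ℕ} (x : M) {w : Fin m → Fin s → ℂ} (hw : Spn w)
    {R : ℝ} (hR0 : 0 < R) (hR : ∑ l, qf (L.H x) (w l) ≤ R) (v : Fin s → ℂ) :
    ((s : ℝ) ^ (N - 1) * R) ^ (-(1 - 1 / N : ℝ)) * qf (L.H x) v ≤ qf (L.G x w) v := by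
  have hs' : (0 : ℝ) < s := by exact_mod_cast hs
  rw [qf_H L hN hs, qf_G L hN x hw, ← integral_const_mul]
  refine integral_mono ((integrable_sq (p_pos hN) (fam L hN x) (wt_H L hN hs x) v).const_mul _)
    (integrable_sq (p_pos hN) (fam L hN x) (wt_G hN hw) v) fun y => ?_
  change ((s : ℝ) ^ (N - 1) * R) ^ (-(1 - 1 / N : ℝ)) *
    (‖dt v (L.sg y)‖ ^ 2 * (L.B x (L.sg y) ^ (N - 1))⁻¹) ≤
      ‖dt v (L.sg y)‖ ^ 2 * wG N w (L.sg y)
  by_cases h0 : L.sg y = 0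
  · rw [h0]
    simp [dt]
  have hB := B_pos L hN x h0
  have h1 := sum_le_B L hN hs x w (L.sg y)
  have h2 : ∑ l, ‖dt (w l) (L.sg y)‖ ^ 2 ≤ ((s : ℝ) ^ (N - 1) * R) * L.B x (L.sg y) ^ N := by
    refine h1.trans ?_
    gcongr
  have h3 : (((s : ℝ) ^ (N - 1) * R) * L.B x (L.sg y) ^ N) ^ (-(1 - 1 / N : ℝ)) ≤
      wG N w (L.sg y) :=
    Real.rpow_le_rpow_of_nonpos (sum_pos_of_spn hw h0) h2 (by linarith [one_sub_pos hN])
  have h4 : (((s : ℝ) ^ (N - 1) * R) * L.B x (L.sg y) ^ N) ^ (-(1 - 1 / N : ℝ)) =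
      ((s : ℝ) ^ (N - 1) * R) ^ (-(1 - 1 / N : ℝ)) * (L.B x (L.sg y) ^ (N - 1))⁻¹ := by
    rw [Real.mul_rpow (by positivity) (by positivity)]
    congr 1
    rw [← Real.rpow_natCast (L.B x (L.sg y)) N, ← Real.rpow_mul hB.le,
      ← Real.rpow_natCast (L.B x (L.sg y)) (N - 1), ← Real.rpow_neg hB.le]
    congr 1
    have h5 : ((N - 1 : ℕ) : ℝ) = N - 1 := by
      rw [Nat.cast_sub (by omega)]
      simp
    rw [h5]
    have h6 := (N_pos hN).ne'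
    field_simp
  rw [h4] at h3
  calc ((s : ℝ) ^ (N - 1) * R) ^ (-(1 - 1 / N : ℝ)) *
        (‖dt v (L.sg y)‖ ^ 2 * (L.B x (L.sg y) ^ (N - 1))⁻¹)
      = ‖dt v (L.sg y)‖ ^ 2 * (((s : ℝ) ^ (N - 1) * R) ^ (-(1 - 1 / N : ℝ)) *
          (L.B x (L.sg y) ^ (N - 1))⁻¹) := by ring
    _ ≤ _ := mul_le_mul_of_nonneg_left h3 (by positivity)

lemma sq_mul_rpow (hN : 2 ≤ N) {a : ℝ} (ha : 0 < a) :
    a ^ 2 * (a ^ 2) ^ (-(1 - 1 / N : ℝ)) = a ^ (2 / N : ℝ) := by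
  rw [← Real.rpow_natCast, ← Real.rpow_mul ha.le, ← Real.rpow_add ha]
  congr 1
  push_cast
  ring

lemma pt_G_le (hN : 2 ≤ N) {m : ℕ} (w : Fin m → Fin s → ℂ) (l : Fin m)
    (t : Fin s → ℂ) : ‖dt (w l) t‖ ^ 2 * wG N w t ≤ ‖dt (w l) t‖ ^ (2 / N : ℝ) := by
  by_cases h0 : dt (w l) t = 0
  · rw [h0]
    simp [Real.zero_rpow (p_pos hN).ne']
  have hn : 0 < ‖dt (w l) t‖ := norm_pos_iff.mpr h0
  have h1 : ‖dt (w l) t‖ ^ 2 ≤ ∑ k, ‖dt (w k) t‖ ^ 2 :=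
    Finset.single_le_sum (f := fun k => ‖dt (w k) t‖ ^ 2) (fun k _ => by positivity)
      (Finset.mem_univ l)
  have h2 : wG N w t ≤ (‖dt (w l) t‖ ^ 2) ^ (-(1 - 1 / N : ℝ)) :=
    Real.rpow_le_rpow_of_nonpos (by positivity) h1 (by linarith [one_sub_pos hN])
  calc ‖dt (w l) t‖ ^ 2 * wG N w t
      ≤ ‖dt (w l) t‖ ^ 2 * (‖dt (w l) t‖ ^ 2) ^ (-(1 - 1 / N : ℝ)) :=
        mul_le_mul_of_nonneg_left h2 (by positivity)
    _ = _ := sq_mul_rpow hN hn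

lemma integrable_Phi (hN : 2 ≤ N) (x : M) (v : Fin s → ℂ) :
    Integrable (fun y => ‖dt v (L.sg y)‖ ^ (2 / N : ℝ)) (L.μ x) :=
  HomC_201.integrable_lin L.meas (L.fin x) v

/-- upper bound of `G` on the members of the family -/
theorem qf_G_le (hN : 2 ≤ N) {m : ℕ} (x : M) {w : Fin m → Fin s → ℂ} (hw : Spn w) (l : Fin m) :
    qf (L.G x w) (w l) ≤ L.Phi x (w l) := by
  rw [qf_G L hN x hw]
  exact integral_mono (integrable_sq (p_pos hN) (fam L hN x) (wt_G hN hw) (w l))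
    (integrable_Phi L hN x (w l)) fun y => pt_G_le hN w l (L.sg y)

end Crest.Agent.R276.LNd_333
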