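import Mathlib
import Crest.Agent.R276.LNd_333
import Crest.Agent.R276.Liou3_739

/-!
# Row 276, LEMMA N (helper333), part e: (G3), the determinant of the Narasimhan-Simha metric

* `detB_H` : `det H ≤ DD^N ≤ (s!)^N s^(N s) det H`;
* `det_const` : `|f|² = DD^k`, `log det H` supermean, Liouville ⟹ `(det H)^k = c |f|^(2N)`.
-/

set_option autoImplicit false
set_option linter.unusedSectionVars false
set_option linter.unusedVariables false

open MeasureTheory Matrix Set Filter Topology Metric
open scoped ComplexConjugate ENNReal ComplexOrder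
open Real (circleAverage)

noncomputable section

namespace Crest.Agent.R276.LNe_333

open Crest.Agent.R276.LN_999 Crest.Agent.R276.LNb_333 Crest.Agent.R276.LNc_333
open Crest.Agent.R276.LNd_333
open Crest.Agent.R276.Nc_999 (qf)

section det

variable {M Y : Type*} [TopologicalSpace M] [MeasurableSpace Y] {s N : ℕ}
variable (L : LN M Y s N)

/-- the sesquilinear form of a matrix -/
def ses (W : Matrix (Fin s) (Fin s) ℂ) : (Fin s → ℂ) →ₗ⋆[ℂ] (Fin s → ℂ) →ₗ[ℂ] ℂ :=
  LinearMap.mk₂'ₛₗ (starRingEnd ℂ) (RingHom.id ℂ) (fun v w => star v ⬝ᵥ (W *ᵥ w))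
    (fun v v' w => by rw [star_add, add_dotProduct])
    (fun c v w => by
      rw [star_smul, smul_dotProduct]
      rfl)
    (fun v w w' => by rw [mulVec_add, dotProduct_add])
    (fun c v w => by
      rw [mulVec_smul, dotProduct_smul]
      rfl)

lemma ses_apply (W : Matrix (Fin s) (Fin s) ℂ) (v w : Fin s → ℂ) :
    ses W v w = star v ⬝ᵥ (W *ᵥ w) := rfl

lemma ses_star {W : Matrix (Fin s) (Fin s) ℂ} (hW : W.IsHermitian) (v w : Fin s → ℂ) :
    star (ses W v w) = ses W w v := by
  rw [ses_apply, ses_apply, ← star_dotProduct_star, star_star, star_mulVec, hW.eq,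
    ← dotProduct_mulVec, dotProduct_comm]

lemma ses_single (W : Matrix (Fin s) (Fin s) ℂ) :
    (Matrix.of fun i j => ses W (Pi.single i 1) (Pi.single j 1)) = W := by
  ext i j
  rw [Matrix.of_apply, ses_apply]
  have h1 : star (Pi.single i (1 : ℂ) : Fin s → ℂ) = Pi.single i 1 := by
    funext k
    by_cases hk : k = i
    · subst hk; simp
    · simp [hk]
  rw [h1, single_dotProduct, mulVec_single_one, one_mul]
  rfl

lemma ev_single (i : Fin s) (y : Y) : ev L y (Pi.single i 1) = L.σ i y := by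
  rw [ev_apply]
  simp [Pi.single_apply]

/-- `det H ≤ DD^N ≤ C det H` -/
theorem detB_H (hN : 2 ≤ N) (hs : 0 < s) (x : M) :
    (L.H x).det.re ≤ L.DD x ^ N ∧
      L.DD x ^ N ≤ (s.factorial : ℝ) ^ N * (s : ℝ) ^ (N * s) * (L.H x).det.re := by
  have hsf := L.sf x
  have hq : ∀ v, ((ses (L.H x)) v v).re = qf (L.H x) v := fun v => rfl
  have h := DetB_606.detB (V := Fin s → ℂ) (n := s) (by simp) (ev L) (fun v => meas_ev L v)
    (μ := L.μ x) (N := N) hN (L.Phi x) (fun v => by
      rw [ofReal_Phi L hN]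
      refine lintegral_congr fun y => ?_
      rw [← ev_apply, ← ENNReal.ofReal_rpow_of_nonneg (norm_nonneg _) (p_pos hN).le,
        ofReal_norm])
    ((Phi_cont L hN).comp (Continuous.prodMk_right x)) (fun v hv => Phi_pos L hN x hv)
    (ses (L.H x)) (ses_star (H_posDef L hN hs x).isHermitian)
    (fun v => by rw [hq]; exact qf_H_le L hN hs x v)
    (fun v => by rw [hq]; exact Phi_pow_le L hN hs x v) (fun i => Pi.single i 1)
  rw [ses_single] at h
  have h2 : (fun i (y : Y) => ev L y (Pi.single i 1)) = L.σ := by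
    funext i y
    exact ev_single L i y
  simp only [h2] at h
  exact h.2

lemma det_re_pos (hN : 2 ≤ N) (hs : 0 < s) (x : M) : 0 < (L.H x).det.re := by
  have h := (H_posDef L hN hs x).det_pos
  exact (Complex.pos_iff.mp h).1

lemma DD_pos (hN : 2 ≤ N) (hs : 0 < s) (x : M) : 0 < L.DD x := by
  have h1 := lt_of_lt_of_le (det_re_pos L hN hs x) (detB_H L hN hs x).1
  have h2 : 0 ≤ L.DD x := ENNReal.toReal_nonneg
  rcases h2.lt_or_eq with h | h
  · exact h
  · rw [← h, zero_pow (by omega)] at h1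
    exact absurd h1 (lt_irrefl _)

end det

section main

open Crest.Agent.R271.Ho51 Crest.Agent.R276.Liou_739 Crest.Agent.R276.Liou2_739

variable {n : ℕ} {M Y : Type*} [TopologicalSpace M] [RDom n M] [MeasurableSpace Y] {s N : ℕ}
variable (L : LN M Y s N)

/-- a holomorphic function along the discs `ln x v` -/
lemma analyticAt_ln {f : M → ℂ} (hf : Hol f) (x : M) (v : Fin n → ℂ) :
    ∀ᶠ t in 𝓝 (0 : ℂ), AnalyticAt ℂ (fun t => f (ln x v t)) t := by
  obtain ⟨ρ, hρ, hln⟩ := exists_ball_ln x v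
  filter_upwards [ball_mem_nhds (0 : ℂ) hρ] with t ht
  have h1 : DifferentiableOn ℂ (fun t => f (ln x v t)) (ball 0 ρ) := by
    refine DifferentiableOn.comp (g := f ∘ (ch x).symm) (f := fun t : ℂ => cp x + t • v)
      (hf (ch x) (isCh_ch x)) ?_ hln
    fun_prop
  exact h1.analyticAt (isOpen_ball.mem_nhds ht)

/-- mean values of `log |f|` -/
lemma mean_log {f : M → ℂ} (hf : Hol f) (h0 : ∀ x, f x ≠ 0) (x : M) (v : Fin n → ℂ) :
    ∀ᶠ r in 𝓝[>] (0 : ℝ),
      circleAverage (fun t => Real.log ‖f (ln x v t)‖) 0 r = Real.log ‖f x‖ := by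
  obtain ⟨ρ, hρ, hb⟩ := Metric.eventually_nhds_iff_ball.mp (analyticAt_ln hf x v)
  filter_upwards [Ioo_mem_nhdsGT hρ] with r hr
  have h1 := InnerProductSpace.HarmonicOnNhd.circleAverage_eq
    (f := fun t => Real.log ‖f (ln x v t)‖) (c := 0) (R := r) (by
      intro t ht
      rw [abs_of_pos hr.1, mem_closedBall_zero_iff] at ht
      exact (hb t (mem_ball_zero_iff.mpr (ht.trans_lt hr.2))).harmonicAt_log_norm (h0 _))
  rw [h1, ln_zero]

lemma hol_cont {f : M → ℂ} (hf : Hol f) : Continuous f := by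
  rw [continuous_iff_continuousAt]
  intro x
  have h1 : ContinuousAt (f ∘ (ch x).symm) (cp x) :=
    ((hf (ch x) (isCh_ch x)).continuousOn).continuousAt
      ((ch x).open_target.mem_nhds ((isCh_ch x).cp_mem (mem_ch x)))
  have h2 : ContinuousAt (ch x) x := (ch x).continuousAt (mem_ch x)
  have h3 : (ch x) x = cp x := (isCh_ch x).apply x
  have h4 : ContinuousAt ((f ∘ (ch x).symm) ∘ (ch x)) x := by
    refine ContinuousAt.comp ?_ h2
    rw [h3]
    exact h1
  refine h4.congr ?_
  filter_upwards [(ch x).open_source.mem_nhds (mem_ch x)] with y hy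
  simp [(ch x).left_inv hy]

/-- **(G3)** -/
theorem det_const [PreconnectedSpace M] {h : MvPolynomial (Fin n) ℂ} (P : Prp h M) (hN : 2 ≤ N)
    (hs : 0 < s) {f : M → ℂ} (hf : Hol f) (hf0 : ∀ x, f x ≠ 0) {k : ℕ} (hk : 0 < k)
    (hfD : ∀ x, ‖f x‖ ^ 2 = L.DD x ^ k)
    (hPV : ∀ (x : M) (v : Fin n → ℂ), ∀ᶠ r in 𝓝[>] (0 : ℝ),
      circleAverage (fun t => Real.log (L.H (ln x v t)).det.re) 0 r ≤
        Real.log (L.H x).det.re) :
    ∃ c : ℝ, 0 < c ∧ ∀ x, (L.H x).det.re ^ k = c * ‖f x‖ ^ (2 * N) := by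
  classical
  rcases isEmpty_or_nonempty M with hM | ⟨⟨x₀⟩⟩
  · exact ⟨1, one_pos, fun x => (IsEmpty.false x).elim⟩
  have hk' : (0 : ℝ) < k := by exact_mod_cast hk
  set u : M → ℝ := fun x => (2 * N / k : ℝ) * Real.log ‖f x‖ - Real.log (L.H x).det.re with hu
  have hdc : Continuous fun x => Real.log (L.H x).det.re := by
    have h1 : Continuous fun x => (L.H x).det := (H_cont L hN hs).matrix_det
    exact (Complex.continuous_re.comp h1).log fun x => (det_re_pos L hN hs x).ne'
  have hfc : Continuous fun x => Real.log ‖f x‖ :=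
    (hol_cont hf).norm.log fun x => (norm_pos_iff.mpr (hf0 x)).ne'
  have huc : Continuous u := (continuous_const.mul hfc).sub hdc
  -- `N log DD`
  have hlog : ∀ x, (2 * N / k : ℝ) * Real.log ‖f x‖ = N * Real.log (L.DD x) := by
    intro x
    have h1 := congrArg Real.log (hfD x)
    rw [Real.log_pow, Real.log_pow] at h1
    push_cast at h1
    field_simp
    linarith
  have hmean : SMean u := by
    refine SMean.of_continuous huc fun x v => ?_
    filter_upwards [mean_log hf hf0 x v, hPV x v, circleIntegrable_ln hfc x v,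
      circleIntegrable_ln hdc x v] with r h1 h2 h3 h4
    have h5 : circleAverage (fun t => u (ln x v t)) 0 r =
        (2 * N / k : ℝ) * circleAverage (fun t => Real.log ‖f (ln x v t)‖) 0 r -
          circleAverage (fun t => Real.log (L.H (ln x v t)).det.re) 0 r := by
      have h6 : (fun t => u (ln x v t)) = ((2 * N / k : ℝ) • fun t => Real.log ‖f (ln x v t)‖) -
          fun t => Real.log (L.H (ln x v t)).det.re := by
        funext t
        simp [hu, smul_eq_mul]
      rw [h6, Real.circleAverage_sub (h3.const_smul) h4, Real.circleAverage_smul, smul_eq_mul]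
    rw [h5, h1]
    simp only [hu]
    linarith
  have hbd : ∀ x, u x ≤ Real.log ((s.factorial : ℝ) ^ N * (s : ℝ) ^ (N * s)) := by
    intro x
    have h1 := (detB_H L hN hs x).2
    have hd := det_re_pos L hN hs x
    have hD := DD_pos L hN hs x
    have hs' : (0 : ℝ) < s := by exact_mod_cast hs
    have hC : (0 : ℝ) < (s.factorial : ℝ) ^ N * (s : ℝ) ^ (N * s) := by positivity
    have h2 := Real.log_le_log (pow_pos hD N) h1
    rw [Real.log_pow, Real.log_mul hC.ne' hd.ne'] at h2
    simp only [hu]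
    rw [hlog]
    linarith
  have hconst : ∀ x, u x = u x₀ := fun x =>
    liouville P huc.upperSemicontinuous hmean isClopen_univ isPreconnected_univ
      (fun y _ => hbd y) (mem_univ x) (mem_univ x₀)
  refine ⟨Real.exp (-(k * u x₀)), Real.exp_pos _, fun x => ?_⟩
  have h1 : Real.log (L.H x).det.re = (2 * N / k : ℝ) * Real.log ‖f x‖ - u x₀ := by
    have := hconst x
    simp only [hu] at this ⊢
    linarith
  have hd := det_re_pos L hN hs x
  have hfp : 0 < ‖f x‖ := norm_pos_iff.mpr (hf0 x)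
  have h2 : Real.log ((L.H x).det.re ^ k) =
      Real.log (Real.exp (-(k * u x₀)) * ‖f x‖ ^ (2 * N)) := by
    rw [Real.log_pow, Real.log_mul (Real.exp_pos _).ne' (pow_pos hfp _).ne', Real.log_exp,
      Real.log_pow, h1]
    push_cast
    field_simp
    ring
  exact Real.log_injOn_pos (pow_pos hd k) (mul_pos (Real.exp_pos _) (pow_pos hfp _)) h2

end main


end Crest.Agent.R276.LNe_333
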