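import Mathlib
import Crest.Agent.R276.Nc_999
import Crest.Agent.R276.Fda_999

/-!
# The torsor of orthonormal coframes (helper999, row 276)

`UG s` = unitary group, compact; `Pset H = {(x, A) | Aᴴ A = H x}` is a torsor under `UG s`.
-/

set_option autoImplicit false
set_option linter.unusedSectionVars false

namespace Crest.Agent.R276.LNt_999

open MeasureTheory Metric Filter Topology Matrix
open scoped ComplexOrder
open Crest.Agent.R276.Avg_999 Crest.Agent.R276.Nc_999

variable {s : ℕ}

/-- the unitary group -/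
abbrev UG (s : ℕ) := Matrix.unitaryGroup (Fin s) ℂ

/-- square matrices -/
abbrev MM (s : ℕ) := Matrix (Fin s) (Fin s) ℂ

open scoped Matrix.Norms.L2Operator MatrixOrder in
theorem root_cont : ∃ S : MM s → MM s, ContinuousOn S {W | W.PosDef} ∧
    ∀ W : MM s, W.PosDef → (S W)ᴴ * S W = W := by
  refine ⟨CFC.sqrt, ?_, ?_⟩
  · exact (CFC.continuousOn_sqrt (A := MM s)).mono (fun W hW => hW.posSemidef.nonneg)
  · intro W hW
    have h1 : 0 ≤ W := hW.posSemidef.nonneg
    have h2 : IsSelfAdjoint (CFC.sqrt W) := (CFC.sqrt_nonneg W).isSelfAdjoint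
    have h3 : (CFC.sqrt W)ᴴ = CFC.sqrt W := h2
    rw [h3]
    exact CFC.sqrt_mul_sqrt_self W h1

instance sc_MM : SecondCountableTopology (MM s) :=
  inferInstanceAs (SecondCountableTopology (Fin s → Fin s → ℂ))

instance sc_UG : SecondCountableTopology (UG s) :=
  TopologicalSpace.Subtype.secondCountableTopology _

theorem isCompact_UG : IsCompact ((UG s : Submonoid (MM s)) : Set (MM s)) := by
  have h1 : IsClosed ((UG s : Submonoid (MM s)) : Set (MM s)) := by
    have : ((UG s : Submonoid (MM s)) : Set (MM s)) = {A | star A * A = 1} := by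
      ext A
      rw [SetLike.mem_coe, Matrix.mem_unitaryGroup_iff']
      rfl
    rw [this]
    exact isClosed_eq (continuous_star.mul continuous_id) continuous_const
  have h2 : IsCompact (Set.univ.pi fun _ : Fin s => Set.univ.pi fun _ : Fin s =>
      closedBall (0 : ℂ) 1) :=
    isCompact_univ_pi fun _ => isCompact_univ_pi fun _ => isCompact_closedBall _ _
  refine h2.of_isClosed_subset h1 ?_
  intro A hA i _ j _
  rw [mem_closedBall_zero_iff]
  exact entry_norm_bound_of_unitary hA i j

instance cs_UG : CompactSpace (UG s) := isCompact_iff_compactSpace.mp isCompact_UG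

/-- Haar probability measure on the unitary group -/
theorem exists_haar (s : ℕ) : ∃ μ : @Measure (UG s) (borel (UG s)),
    @IsProbabilityMeasure _ (borel (UG s)) μ ∧
    @Measure.IsMulLeftInvariant _ (borel (UG s)) _ μ ∧
    @Measure.IsOpenPosMeasure _ _ (borel (UG s)) μ := by
  letI : MeasurableSpace (UG s) := borel (UG s)
  haveI : BorelSpace (UG s) := ⟨rfl⟩
  refine ⟨Measure.haarMeasure ⊤, ⟨?_⟩, inferInstance, inferInstance⟩
  have := Measure.haarMeasure_self (K₀ := (⊤ : TopologicalSpace.PositiveCompacts (UG s)))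
  simpa using this

variable {X : Type*} [TopologicalSpace X]

/-- the torsor of coframes -/
def Pset (H : X → MM s) : Set (X × MM s) := {p | p.2ᴴ * p.2 = H p.1}

theorem smul_def' (g : UG s) (A : MM s) : g • A = (g : MM s) * A := rfl

theorem star_mul_self' (g : UG s) : (g : MM s)ᴴ * (g : MM s) = 1 :=
  Matrix.mem_unitaryGroup_iff'.mp g.2

theorem mul_star_self' (g : UG s) : (g : MM s) * (g : MM s)ᴴ = 1 :=
  Matrix.mem_unitaryGroup_iff.mp g.2

theorem isUnit_of_pos {W A : MM s} (hW : W.PosDef) (h : Aᴴ * A = W) : IsUnit A.det := by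
  have h1 : IsUnit W.det := (isUnit_iff_isUnit_det W).mp hW.isUnit
  rw [← h, det_mul] at h1
  exact isUnit_of_mul_isUnit_right h1

theorem tor {H : X → MM s} (hH : ∀ x, (H x).PosDef) : Tor (UG s) (Pset H) where
  act := by
    intro z R g hR
    change ((g : MM s) * R)ᴴ * ((g : MM s) * R) = H z
    have h : Rᴴ * R = H z := hR
    rw [conjTranspose_mul, Matrix.mul_assoc, ← Matrix.mul_assoc _ (g : MM s) R, star_mul_self',
      Matrix.one_mul, h]
  trans := by
    intro z R R' hR hR'
    have h : Rᴴ * R = H z := hR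
    have h' : R'ᴴ * R' = H z := hR'
    have hu := isUnit_of_pos (hH z) h
    have h1 : R * R⁻¹ = 1 := mul_nonsing_inv R hu
    have h2 : R⁻¹ * R = 1 := nonsing_inv_mul R hu
    have hg : (R' * R⁻¹) ∈ UG s := by
      rw [Matrix.mem_unitaryGroup_iff']
      change (R' * R⁻¹)ᴴ * (R' * R⁻¹) = 1
      calc (R' * R⁻¹)ᴴ * (R' * R⁻¹) = (R⁻¹)ᴴ * (R'ᴴ * R') * R⁻¹ := by
            rw [conjTranspose_mul]; simp only [Matrix.mul_assoc]
        _ = (R * R⁻¹)ᴴ * (R * R⁻¹) := by
            rw [h', ← h, conjTranspose_mul]; simp only [Matrix.mul_assoc]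
        _ = 1 := by rw [h1]; simp
    refine ⟨⟨R' * R⁻¹, hg⟩, ?_⟩
    change R' = R' * R⁻¹ * R
    rw [Matrix.mul_assoc, h2, Matrix.mul_one]

theorem loc {H : X → MM s} (hH : ∀ x, (H x).PosDef) (hHc : Continuous H) (x : X) :
    ∃ U ∈ 𝓝 x, ∃ S : X → MM s, ContinuousOn S U ∧ ∀ z ∈ U, (z, S z) ∈ Pset H := by
  obtain ⟨S, hS, hS2⟩ := root_cont (s := s)
  refine ⟨Set.univ, univ_mem, fun z => S (H z), ?_, fun z _ => hS2 _ (hH z)⟩
  exact hS.comp hHc.continuousOn (fun z _ => hH z)

end Crest.Agent.R276.LNt_999
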