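import Mathlib
import Crest.Agent.R276.LNt_999
import Crest.Agent.R276.LNDefs_999
import Crest.Agent.R276.Hol_999
import Crest.Agent.R276.Liou3_739
import Crest.Agent.R275.Cz1_632

/-!
# LEMMA N, main argument, part (a): frames along discs (helper999, row 276)
-/

set_option autoImplicit false
set_option linter.unusedSectionVars false

namespace Crest.Agent.R276.LNg_999

open MeasureTheory Metric Filter Topology Matrix
open scoped ComplexOrder
open Real (circleAverage)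
open Crest.Agent.R271.Ho51
open Crest.Agent.R276.Avg_999 Crest.Agent.R276.Nc_999 Crest.Agent.R276.LNt_999
open Crest.Agent.R276.Fda_999 Crest.Agent.R276.Fdc_999 Crest.Agent.R276.Fdd_999
open Crest.Agent.R276.Pvx_999 Crest.Agent.R276.Hol_999 Crest.Agent.R276.LN_999
open Crest.Agent.R276.Liou_739 (ln Prp ln_zero)

variable {n : ℕ} {M : Type*} [TopologicalSpace M] [RDom n M]
variable {Y : Type*} [MeasurableSpace Y] {s N : ℕ}

/-- open disc in a chart -/
def Dsc (x : M) (v : Fin n → ℂ) (R : ℝ) : Prop :=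
  ∀ t ∈ ball (0 : ℂ) R, cp x + t • v ∈ (ch x).target

theorem ln_scale (x : M) (v : Fin n → ℂ) (r : ℝ) (t : ℂ) :
    ln x v ((r : ℂ) * t) = ln x ((r : ℂ) • v) t := by
  unfold ln
  rw [smul_smul, mul_comm]

/-- an open disc in a chart `e` -/
structure Dk (e : OpenPartialHomeomorph M (Fin n → ℂ)) (z v : Fin n → ℂ) (R : ℝ) : Prop where
  isCh : IsCh e
  mem : ∀ t ∈ ball (0 : ℂ) R, z + t • v ∈ e.target

/-- the parametrisation of the disc -/
noncomputable def dk (e : OpenPartialHomeomorph M (Fin n → ℂ)) (z v : Fin n → ℂ) (t : ℂ) : M :=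
  e.symm (z + t • v)

variable {e : OpenPartialHomeomorph M (Fin n → ℂ)} {z v : Fin n → ℂ} {R : ℝ}

theorem Dsc.dk {x : M} {v : Fin n → ℂ} {R : ℝ} (h : Dsc x v R) : Dk (ch x) (cp x) v R :=
  ⟨isCh_ch x, h⟩

theorem ln_eq (x : M) (v : Fin n → ℂ) : ln x v = dk (ch x) (cp x) v := rfl

theorem Dk.mono {R' : ℝ} (h : Dk e z v R) (hR : R' ≤ R) : Dk e z v R' :=
  ⟨h.isCh, fun t ht => h.mem t (ball_subset_ball hR ht)⟩

theorem dk_scale (e : OpenPartialHomeomorph M (Fin n → ℂ)) (z v : Fin n → ℂ) (r : ℝ) (t : ℂ) :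
    dk e z v ((r : ℂ) * t) = dk e z ((r : ℂ) • v) t := by
  unfold dk
  rw [smul_smul, mul_comm]

theorem Dk.scale (h : Dk e z v R) {r : ℝ} (hr : 0 < r) : Dk e z ((r : ℂ) • v) (R / r) := by
  refine ⟨h.isCh, fun t ht => ?_⟩
  have h1 : (t * (r : ℂ)) ∈ ball (0 : ℂ) R := by
    rw [mem_ball_zero_iff] at ht ⊢
    rw [norm_mul, Complex.norm_real, Real.norm_of_nonneg hr.le]
    rwa [lt_div_iff₀ hr] at ht
  have := h.mem _ h1
  rwa [smul_smul]

theorem dk_cont (h : Dk e z v R) : ContinuousOn (dk e z v) (ball 0 R) := by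
  have h1 : ContinuousOn e.symm e.target := e.continuousOn_symm
  exact h1.comp (by fun_prop) h.mem

theorem dk_hol {f : M → ℂ} (hf : Hol f) (h : Dk e z v R) :
    DifferentiableOn ℂ (fun t => f (dk e z v t)) (ball 0 R) := by
  have h1 := hf e h.isCh
  have h2 : DifferentiableOn ℂ (fun t : ℂ => z + t • v) (ball 0 R) := by fun_prop
  exact h1.comp h2 h.mem

theorem exists_Dsc (x : M) (v : Fin n → ℂ) : ∃ R > 0, Dsc x v R := by
  have h : ∀ᶠ t in 𝓝 (0 : ℂ), cp x + t • v ∈ (ch x).target := by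
    have h1 := Liou_739.tendsto_line x v
    exact h1.eventually ((ch x).open_target.mem_nhds ((isCh_ch x).cp_mem (mem_ch x)))
  obtain ⟨R, hR, h2⟩ := Metric.eventually_nhds_iff_ball.mp h
  exact ⟨R, hR, h2⟩

/-- spanning families of vectors (as functionals on `ℂ^s`) -/
def Span {m : ℕ} (w : Fin m → Fin s → ℂ) : Prop :=
  ∀ v : Fin s → ℂ, (∀ l, ∑ i, w l i * v i = 0) → v = 0

/-- the inputs for the NS metric -/
structure InpH (L : LN M Y s N) (k : ℕ) (f : M → ℂ) : Prop where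
  Hpos : ∀ x, (L.H x).PosDef
  Hcont : Continuous L.H
  PVH : ∀ (e : OpenPartialHomeomorph M (Fin n → ℂ)) (z v : Fin n → ℂ) (R : ℝ), 1 < R →
    Dk e z v R → PV (fun t => L.H (dk e z v t))
  k0 : 0 < k
  hol : Hol f
  f0 : ∀ x, f x ≠ 0
  det : ∃ c > 0, ∀ x, (L.H x).det.re ^ k = c * ‖f x‖ ^ (2 * N)

variable {L : LN M Y s N} {k : ℕ} {f : M → ℂ}

theorem one_ball {R : ℝ} (hR : 1 < R) : closedBall (0 : ℂ) 1 ⊆ ball 0 R :=
  closedBall_subset_ball hR

/-- the determinant on a disc -/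
theorem InpH.exists_q (I : InpH L k f) (h : Dk e z v R) :
    ∃ q : ℂ → ℂ, DifferentiableOn ℂ q (ball 0 R) ∧ (∀ t ∈ ball (0 : ℂ) R, q t ≠ 0) ∧
      ∀ t ∈ ball (0 : ℂ) R, (L.H (dk e z v t)).det = ((‖q t‖ ^ 2 : ℝ) : ℂ) := by
  obtain ⟨c, hc, hdet⟩ := I.det
  obtain ⟨g, hg, hg2⟩ := R275.Cz1632.exists_log (convex_ball (0 : ℂ) R) isOpen_ball
    (dk_hol I.hol h) (fun t _ => I.f0 _)
  have hk : (k : ℝ) ≠ 0 := by exact_mod_cast I.k0.ne'
  have hkc : (k : ℂ) ≠ 0 := by exact_mod_cast I.k0.ne'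
  refine ⟨fun t => Complex.exp (((Real.log c / 2 : ℝ) : ℂ) / k + (N : ℂ) * g t / k), ?_,
    fun t _ => Complex.exp_ne_zero _, ?_⟩
  · apply DifferentiableOn.cexp
    exact (differentiableOn_const _).add (((differentiableOn_const _).mul hg).div_const _)
  · intro t ht
    have h1 : (L.H (dk e z v t)).det = (((L.H (dk e z v t)).det.re : ℝ) : ℂ) := by
      have := (Complex.pos_iff.mp (I.Hpos (dk e z v t)).det_pos).2
      apply Complex.ext <;> simp [← this]
    rw [h1]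
    congr 1
    have hpos : 0 < (L.H (dk e z v t)).det.re := (Complex.pos_iff.mp (I.Hpos _).det_pos).1
    rw [← pow_left_inj₀ hpos.le (by positivity) I.k0.ne', hdet, Complex.norm_exp, ← Real.exp_nat_mul,
      ← Real.exp_nat_mul]
    have h2 : ‖f (dk e z v t)‖ = Real.exp (g t).re := by
      rw [← hg2 t ht, Complex.norm_exp]
    rw [h2, ← Real.exp_nat_mul]
    have h3 : c = Real.exp (Real.log c) := (Real.exp_log hc).symm
    conv_lhs => rw [h3]
    rw [← Real.exp_add]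
    congr 1
    have h4 : (((Real.log c / 2 : ℝ) : ℂ) / k + (N : ℂ) * g t / k).re =
        (Real.log c / 2) / k + N * (g t).re / k := by
      rw [Complex.add_re]
      have e1 : (((Real.log c / 2 : ℝ) : ℂ) / (k : ℂ)) = (((Real.log c / 2) / k : ℝ) : ℂ) := by
        push_cast; rfl
      have e2 : (N : ℂ) * g t / (k : ℂ) = ((N / k : ℝ) : ℂ) * g t := by
        push_cast; field_simp
      rw [e1, e2, Complex.ofReal_re, Complex.re_ofReal_mul]
      ring
    rw [h4]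
    push_cast
    field_simp

/-- orthonormal frames on closed discs -/
theorem InpH.exists_frame (I : InpH L k f) (hR : 1 < R)
    (h : Dk e z v R) : ∃ T : ℂ → MM s, (∀ i j, DifferentiableOn ℂ (fun t => T t i j) (ball 0 1)) ∧
      ∀ t ∈ ball (0 : ℂ) 1, (T t)ᴴ * L.H (dk e z v t) * T t = 1 := by
  obtain ⟨q, hq, hq0, hdet⟩ := I.exists_q h
  have hHc : ContinuousOn (fun t => L.H (dk e z v t)) (closedBall 0 1) :=
    I.Hcont.comp_continuousOn ((dk_cont h).mono (one_ball hR))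
  have hHp : ∀ t ∈ closedBall (0 : ℂ) 1, (L.H (dk e z v t)).PosDef := fun t _ => I.Hpos _
  have hPV := I.PVH e z v R hR h
  have hqa : AnalyticOnNhd ℂ q (closedBall 0 1) :=
    (hq.analyticOnNhd isOpen_ball).mono (one_ball hR)
  exact flat_disc hHc hHp (ot_of_pv hHc hHp hPV) hPV hqa (fun t ht => hq0 t (one_ball hR ht))
    (fun t ht => hdet t (one_ball hR ht))

/-- orthonormal frames on slightly smaller discs -/
theorem InpH.exists_frame' (I : InpH L k f) {R' : ℝ} (hR' : 0 < R')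
    (hR : R' < R) (h : Dk e z v R) :
    ∃ T : ℂ → MM s, (∀ i j, DifferentiableOn ℂ (fun t => T t i j) (ball 0 R')) ∧
      ∀ t ∈ ball (0 : ℂ) R', (T t)ᴴ * L.H (dk e z v t) * T t = 1 := by
  have h1 : 1 < R / R' := by rwa [lt_div_iff₀ hR', one_mul]
  obtain ⟨T, hT, hT2⟩ := I.exists_frame h1 (h.scale hR')
  have hmaps : Set.MapsTo (fun t : ℂ => t / (R' : ℂ)) (ball 0 R') (ball 0 1) := by
    intro t ht
    rw [mem_ball_zero_iff] at ht ⊢
    rw [norm_div, Complex.norm_real, Real.norm_of_nonneg hR'.le, div_lt_one hR']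
    exact ht
  have hR'c : (R' : ℂ) ≠ 0 := by exact_mod_cast hR'.ne'
  refine ⟨fun t => T (t / (R' : ℂ)), fun i j => ?_, fun t ht => ?_⟩
  · exact (hT i j).comp (by fun_prop) hmaps
  · have h2 := hT2 _ (hmaps ht)
    rw [← dk_scale, mul_div_cancel₀ _ hR'c] at h2
    exact h2

/-- the set of lifted discs -/
def LD (H : M → MM s) : Set ((ℂ → M) × (ℂ → MM s)) :=
  {p | ∃ (e : OpenPartialHomeomorph M (Fin n → ℂ)) (z v : Fin n → ℂ) (R : ℝ) (T : ℂ → MM s),
    1 < R ∧ Dk e z v R ∧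
    (∀ i j, DifferentiableOn ℂ (fun t => T t i j) (ball 0 R)) ∧
    (∀ t ∈ ball (0 : ℂ) R, (T t)ᴴ * H (dk e z v t) * T t = 1) ∧
    p = (dk e z v, fun t => (T t)⁻¹)}

theorem unit_of_frame {W T : MM s} (h : Tᴴ * W * T = 1) : IsUnit T.det := by
  have h1 : (Tᴴ * W * T).det = 1 := by rw [h, det_one]
  rw [det_mul] at h1
  exact IsUnit.of_mul_eq_one_right _ h1

theorem inv_frame {W T : MM s} (h : Tᴴ * W * T = 1) : (T⁻¹)ᴴ * T⁻¹ = W := by
  have hu := unit_of_frame h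
  have h1 : T * T⁻¹ = 1 := mul_nonsing_inv T hu
  have h2 : (T⁻¹)ᴴ * Tᴴ = 1 := by rw [← conjTranspose_mul, h1, conjTranspose_one]
  calc (T⁻¹)ᴴ * T⁻¹ = (T⁻¹)ᴴ * (Tᴴ * W * T) * T⁻¹ := by rw [h, Matrix.mul_one]
    _ = ((T⁻¹)ᴴ * Tᴴ) * W * (T * T⁻¹) := by simp only [Matrix.mul_assoc]
    _ = W := by rw [h1, h2, Matrix.one_mul, Matrix.mul_one]

theorem cont_T {T : ℂ → MM s} {S : Set ℂ}
    (hT : ∀ i j, ContinuousOn (fun t => T t i j) S) : ContinuousOn T S :=
  continuousOn_pi.mpr fun i => continuousOn_pi.mpr fun j => hT i j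

theorem inv_cont {X : Type*} [TopologicalSpace X] {T : X → MM s} {S : Set X} (hT : ContinuousOn T S)
    (hu : ∀ t ∈ S, IsUnit (T t).det) : ContinuousOn (fun t => (T t)⁻¹) S := by
  have : ∀ t, (T t)⁻¹ = (T t).det⁻¹ • (T t).adjugate := by
    intro t; rw [Matrix.inv_def, Ring.inverse_eq_inv']
  simp only [this]
  have hdet : ContinuousOn (fun t => (T t).det⁻¹) S := by
    apply ContinuousOn.inv₀
    · exact (Continuous.matrix_det continuous_id).comp_continuousOn hT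
    · intro t ht; exact (hu t ht).ne_zero
  have hadj : ContinuousOn (fun t => (T t).adjugate) S :=
    (Continuous.matrix_adjugate continuous_id).comp_continuousOn hT
  exact hdet.smul hadj

theorem isLift {H : M → MM s} : ∀ p ∈ LD H, IsLift (Pset H) p.1 p.2 := by
  rintro _ ⟨e, z, v, R, T, hR, hD, hT, hTH, rfl⟩
  refine ⟨(dk_cont hD).mono (one_ball hR), ?_, ?_⟩
  · exact (inv_cont (cont_T fun i j => (hT i j).continuousOn)
      (fun t ht => unit_of_frame (hTH t ht))).mono (one_ball hR)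
  · intro t ht
    exact inv_frame (hTH t (one_ball hR ht))

theorem InpH.exists_lift (I : InpH L k f) (x : M) (v : Fin n → ℂ) :
    ∀ᶠ r : ℝ in 𝓝[>] 0, ∃ T : ℂ → MM s, ((fun t : ℂ => ln x v ((r : ℂ) * t)), T) ∈ LD L.H := by
  obtain ⟨R, hR, hD⟩ := exists_Dsc x v
  have h1 : ∀ᶠ r : ℝ in 𝓝[>] 0, r < R / 2 := by
    apply mem_nhdsWithin_of_mem_nhds
    exact gt_mem_nhds (by positivity)
  filter_upwards [h1, self_mem_nhdsWithin] with r hr1 hr0
  have hr0' : (0 : ℝ) < r := hr0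
  have hq : 2 < R / r := by rw [lt_div_iff₀ hr0']; linarith
  obtain ⟨T, hT, hT2⟩ := I.exists_frame' (R' := 2) (by norm_num) hq (hD.dk.scale hr0')
  refine ⟨fun t => (T t)⁻¹, ch x, cp x, (r : ℂ) • v, 2, T, by norm_num,
    (hD.dk.scale hr0').mono hq.le, hT, hT2, ?_⟩
  congr 1
  funext t
  exact ln_scale x v r t

end Crest.Agent.R276.LNg_999
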