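import Mathlib
import Crest.Agent.R276.LNg_999

/-!
# LEMMA N, main argument, part (b): constancy of `Φ` along discs (helper999, row 276)
-/

set_option autoImplicit false
set_option linter.unusedSectionVars false

namespace Crest.Agent.R276.LNh_999

open MeasureTheory Metric Filter Topology Matrix
open scoped ComplexOrder
open Real (circleAverage)
open Crest.Agent.R271.Ho51
open Crest.Agent.R276.Avg_999 Crest.Agent.R276.Nc_999 Crest.Agent.R276.LNt_999
open Crest.Agent.R276.Fda_999 Crest.Agent.R276.Fdc_999 Crest.Agent.R276.Fdd_999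
open Crest.Agent.R276.Pvx_999 Crest.Agent.R276.Hol_999 Crest.Agent.R276.LN_999
open Crest.Agent.R276.LNg_999
open Crest.Agent.R276.Liou_739 (ln Prp ln_zero)

variable {n : ℕ} {M : Type*} [TopologicalSpace M] [RDom n M]
variable {Y : Type*} [MeasurableSpace Y] {s N : ℕ}

/-- the weight vectors -/
noncomputable def wv (ε : ℝ) (a : Fin s → ℂ) (T : MM s) : Fin (s + 1) → Fin s → ℂ :=
  Fin.cons (T *ᵥ a) (fun k i => (Real.sqrt ε : ℂ) * T i k)

/-- the inputs for the `L²` metrics -/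
structure InpG (L : LN M Y s N) : Prop where
  Gpos : ∀ {m : ℕ} (x : M) (w : Fin m → Fin s → ℂ), Span w → (L.G x w).PosDef
  Gcont : ∀ m : ℕ, ContinuousOn (fun p : M × (Fin m → Fin s → ℂ) => L.G p.1 p.2) {p | Span p.2}
  PVG : ∀ (e : OpenPartialHomeomorph M (Fin n → ℂ)) (z v : Fin n → ℂ) (R : ℝ), 1 < R →
    Dk e z v R → ∀ {m : ℕ} (w : ℂ → Fin m → Fin s → ℂ),
    (∀ l i, DifferentiableOn ℂ (fun t => w t l i) (ball 0 R)) →
    (∀ t ∈ ball (0 : ℂ) R, Span (w t)) → PV (fun t => L.G (dk e z v t) (w t))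
  low : ∀ ε > 0, ∀ a : Fin s → ℂ, ∃ c > 0, ∀ (x : M) (T : MM s), Tᴴ * L.H x * T = 1 →
    ∀ b, c * ‖b‖ ^ 2 ≤ qf (Tᴴ * L.G x (wv ε a T) * T) b
  up : ∀ ε > 0, ∀ a : Fin s → ℂ, ∃ C, ∀ (x : M) (T : MM s), Tᴴ * L.H x * T = 1 →
    qf (Tᴴ * L.G x (wv ε a T) * T) a ≤ C
  lim : ∀ (a : Fin s → ℂ) (x : M) (T : MM s), Tᴴ * L.H x * T = 1 →
    Tendsto (fun ε => qf (L.G x (wv ε a T)) (T *ᵥ a)) (𝓝[>] 0) (𝓝 (L.Phi x (T *ᵥ a)))

variable {L : LN M Y s N} {k : ℕ} {f : M → ℂ}
variable {e : OpenPartialHomeomorph M (Fin n → ℂ)} {z v : Fin n → ℂ} {R : ℝ}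

theorem qf_congr (W A : MM s) (b : Fin s → ℂ) : qf (Aᴴ * W * A) b = qf W (A *ᵥ b) := by
  unfold qf
  congr 1
  rw [star_mulVec, ← dotProduct_mulVec, mulVec_mulVec, mulVec_mulVec, Matrix.mul_assoc]

theorem span_wv {ε : ℝ} (hε : 0 < ε) (a : Fin s → ℂ) {T : MM s} (hT : IsUnit T.det) :
    Span (wv ε a T) := by
  intro v hv
  have h1 : v ᵥ* T = 0 := by
    funext k
    have := hv k.succ
    simp only [wv, Fin.cons_succ] at this
    have h2 : (Real.sqrt ε : ℂ) * ∑ i, v i * T i k = 0 := by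
      rw [Finset.mul_sum, ← this]
      apply Finset.sum_congr rfl
      intro i _; ring
    have h3 : (Real.sqrt ε : ℂ) ≠ 0 := by
      exact_mod_cast (Real.sqrt_pos.mpr hε).ne'
    have h4 := (mul_eq_zero.mp h2).resolve_left h3
    simpa [vecMul, dotProduct] using h4
  have h2 : v ᵥ* (T * T⁻¹) = 0 := by rw [← vecMul_vecMul, h1, zero_vecMul]
  rwa [mul_nonsing_inv T hT, vecMul_one] at h2

theorem wv_cont {X : Type*} [TopologicalSpace X] (ε : ℝ) (a : Fin s → ℂ) {T : X → MM s} {S : Set X}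
    (hT : ContinuousOn T S) : ContinuousOn (fun x => wv ε a (T x)) S := by
  refine continuousOn_pi.mpr fun l => ?_
  refine Fin.cases ?_ (fun k => ?_) l
  · simp only [wv, Fin.cons_zero]
    exact Continuous.comp_continuousOn (g := fun A : MM s => A *ᵥ a)
      (continuous_id.matrix_mulVec continuous_const) hT
  · simp only [wv, Fin.cons_succ]
    refine continuousOn_pi.mpr fun i => ?_
    apply ContinuousOn.mul continuousOn_const
    exact Continuous.comp_continuousOn (g := fun A : MM s => A i k)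
      ((continuous_apply k).comp (continuous_apply i)) hT

theorem wv_diff {S : Set ℂ} (ε : ℝ) (a : Fin s → ℂ) {T : ℂ → MM s}
    (hT : ∀ i j, DifferentiableOn ℂ (fun t => T t i j) S) (l : Fin (s + 1)) (i : Fin s) :
    DifferentiableOn ℂ (fun t => wv ε a (T t) l i) S := by
  refine Fin.cases ?_ (fun k => ?_) l
  · simp only [wv, Fin.cons_zero, mulVec, dotProduct]
    apply DifferentiableOn.fun_sum
    intro j _
    exact (hT i j).mul_const _
  · simp only [wv, Fin.cons_succ]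
    exact (hT i k).const_mul _

theorem inv_entries_diff {S : Set ℂ} {T : ℂ → MM s}
    (hT : ∀ i j, DifferentiableOn ℂ (fun t => T t i j) S) (hu : ∀ t ∈ S, IsUnit (T t).det)
    (i j : Fin s) : DifferentiableOn ℂ (fun t => (T t)⁻¹ i j) S := by
  have hdet : ∀ (T : ℂ → MM s), (∀ i j, DifferentiableOn ℂ (fun t => T t i j) S) →
      DifferentiableOn ℂ (fun t => (T t).det) S := by
    intro T hT
    simp only [Matrix.det_apply]
    apply DifferentiableOn.fun_sum
    intro σ _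
    apply DifferentiableOn.const_smul
    apply DifferentiableOn.fun_finsetProd
    intro i _
    exact hT _ _
  have h1 : ∀ t, (T t)⁻¹ i j = (T t).det⁻¹ * (T t).adjugate i j := by
    intro t; rw [Matrix.inv_def, Ring.inverse_eq_inv']; rfl
  simp only [h1]
  apply DifferentiableOn.mul
  · exact (hdet T hT).inv (fun t ht => (hu t ht).ne_zero)
  · simp only [Matrix.adjugate_apply]
    apply hdet
    intro a b
    simp only [Matrix.updateRow_apply]
    split_ifs
    · exact differentiableOn_const _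
    · exact hT _ _

/-- the matrix of the `L²` metric in the frame `A⁻¹` -/
noncomputable def Mep (L : LN M Y s N) (ε : ℝ) (a : Fin s → ℂ) (p : M × MM s) : MM s :=
  (p.2⁻¹)ᴴ * L.G p.1 (wv ε a p.2⁻¹) * p.2⁻¹

theorem frame_of_mem (I : InpH (n := n) L k f) {p : M × MM s} (hp : p ∈ Pset L.H) :
    IsUnit p.2.det ∧ (p.2⁻¹)ᴴ * L.H p.1 * p.2⁻¹ = 1 := by
  have h : p.2ᴴ * p.2 = L.H p.1 := hp
  have hu := isUnit_of_pos (I.Hpos _) h
  refine ⟨hu, ?_⟩
  have h1 : p.2 * p.2⁻¹ = 1 := mul_nonsing_inv _ hu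
  rw [← h]
  calc (p.2⁻¹)ᴴ * (p.2ᴴ * p.2) * p.2⁻¹ = (p.2 * p.2⁻¹)ᴴ * (p.2 * p.2⁻¹) := by
        rw [conjTranspose_mul]; simp only [Matrix.mul_assoc]
    _ = 1 := by rw [h1]; simp

theorem unit_inv {A : MM s} (h : IsUnit A.det) : IsUnit (A⁻¹).det :=
  (isUnit_nonsing_inv_det_iff).mpr h

theorem posDef_congr {W A : MM s} (hW : W.PosDef) (hA : IsUnit A.det) : (Aᴴ * W * A).PosDef := by
  apply hW.conjTranspose_mul_mul_same
  have : IsUnit A := (isUnit_iff_isUnit_det A).mpr hA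
  exact Matrix.mulVec_injective_of_isUnit this

theorem Mep_pos (I : InpH (n := n) L k f) (J : InpG (n := n) L) {ε : ℝ} (hε : 0 < ε)
    (a : Fin s → ℂ) {p : M × MM s} (hp : p ∈ Pset L.H) : (Mep L ε a p).PosDef := by
  obtain ⟨hu, _⟩ := frame_of_mem I hp
  exact posDef_congr (J.Gpos _ _ (span_wv hε a (unit_inv hu))) (unit_inv hu)

theorem Mep_cont (I : InpH (n := n) L k f) (J : InpG (n := n) L) {ε : ℝ} (hε : 0 < ε)
    (a : Fin s → ℂ) : ContinuousOn (Mep L ε a) (Pset L.H) := by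
  have h1 : ContinuousOn (fun p : M × MM s => p.2⁻¹) (Pset L.H) :=
    inv_cont continuousOn_snd (fun p hp => (frame_of_mem I hp).1)
  have h2 : ContinuousOn (fun p : M × MM s => L.G p.1 (wv ε a p.2⁻¹)) (Pset L.H) := by
    refine (J.Gcont (s + 1)).comp (continuousOn_fst.prodMk (wv_cont ε a h1)) ?_
    intro p hp
    exact span_wv hε a (unit_inv (frame_of_mem I hp).1)
  unfold Mep
  exact (h1.star.mul h2).mul h1

/-- the inverse is bounded above -/
theorem inv_le {W : MM s} (hW : W.PosDef) {c : ℝ} (hc : 0 < c)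
    (h : ∀ b, c * ‖b‖ ^ 2 ≤ qf W b) (b : Fin s → ℂ) : qf W⁻¹ b ≤ (s ^ 2 / c) * ‖b‖ ^ 2 := by
  obtain ⟨e1, e2⟩ := cs_eq hW b
  set y := W⁻¹ *ᵥ b with hy
  set Q := qf W⁻¹ b with hQ
  have hQ0 : 0 ≤ Q := qf_nonneg hW.inv b
  have h1 : c * ‖y‖ ^ 2 ≤ Q := by rw [← e2]; exact h y
  have h2 : Q ≤ s * (‖y‖ * ‖b‖) := by
    have h3 : ‖star y ⬝ᵥ b‖ = Q := by
      rw [e1, Complex.norm_real, Real.norm_of_nonneg hQ0]
    rw [← h3]
    unfold dotProduct
    refine (norm_sum_le _ _).trans ?_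
    calc ∑ i, ‖star y i * b i‖ ≤ ∑ _i : Fin s, ‖y‖ * ‖b‖ := by
          apply Finset.sum_le_sum
          intro i _
          rw [norm_mul, Pi.star_apply, norm_star]
          exact mul_le_mul (norm_le_pi_norm y i) (norm_le_pi_norm b i) (norm_nonneg _)
            (norm_nonneg _)
      _ = _ := by simp
  rcases hQ0.eq_or_lt with h0 | h0
  · rw [← h0]; positivity
  · have h4 : Q ^ 2 ≤ s ^ 2 * (‖y‖ ^ 2 * ‖b‖ ^ 2) := by
      calc Q ^ 2 ≤ (s * (‖y‖ * ‖b‖)) ^ 2 := pow_le_pow_left₀ hQ0 h2 2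
        _ = _ := by ring
    have h5 : c * Q ^ 2 ≤ s ^ 2 * ‖b‖ ^ 2 * Q := by
      calc c * Q ^ 2 ≤ c * (s ^ 2 * (‖y‖ ^ 2 * ‖b‖ ^ 2)) := mul_le_mul_of_nonneg_left h4 hc.le
        _ = s ^ 2 * ‖b‖ ^ 2 * (c * ‖y‖ ^ 2) := by ring
        _ ≤ _ := mul_le_mul_of_nonneg_left h1 (by positivity)
    have h6 : c * Q ≤ s ^ 2 * ‖b‖ ^ 2 := by
      have : c * Q * Q ≤ s ^ 2 * ‖b‖ ^ 2 * Q := by rw [mul_assoc, ← sq]; exact h5
      exact le_of_mul_le_mul_right this h0
    rw [div_mul_eq_mul_div, le_div_iff₀ hc, mul_comm]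
    exact h6

/-- sub-mean value inequality along lifted discs -/
theorem sub_lift (J : InpG (n := n) L) {ε : ℝ} (hε : 0 < ε)
    (a : Fin s → ℂ) {T : ℂ → MM s} (hR : 1 < R) (hD : Dk e z v R)
    (hT : ∀ i j, DifferentiableOn ℂ (fun t => T t i j) (ball 0 R))
    (hTH : ∀ t ∈ ball (0 : ℂ) R, (T t)ᴴ * L.H (dk e z v t) * T t = 1) (b : Fin s → ℂ) (hb : b ≠ 0) :
    Real.log (qf (Mep L ε a (dk e z v 0, (T 0)⁻¹))⁻¹ b) ≤
      circleAverage (fun t => Real.log (qf (Mep L ε a (dk e z v t, (T t)⁻¹))⁻¹ b)) 0 1 := by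
  have hu : ∀ t ∈ ball (0 : ℂ) R, IsUnit (T t).det := fun t ht => unit_of_frame (hTH t ht)
  have hin := one_ball hR
  set G : ℂ → MM s := fun t => L.G (dk e z v t) (wv ε a (T t)) with hG
  have hGc : ContinuousOn G (closedBall 0 1) := by
    refine (J.Gcont (s + 1)).comp (((dk_cont hD).mono hin).prodMk
      (wv_cont ε a ((cont_T fun i j => (hT i j).continuousOn).mono hin))) ?_
    intro t ht
    exact span_wv hε a (hu t (hin ht))
  have hGp : ∀ t ∈ closedBall (0 : ℂ) 1, (G t).PosDef := fun t ht =>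
    J.Gpos _ _ (span_wv hε a (hu t (hin ht)))
  have hPV : PV G := J.PVG e z v R hR hD (fun t => wv ε a (T t)) (wv_diff ε a hT)
    (fun t ht => span_wv hε a (hu t ht))
  set ξ : ℂ → Fin s → ℂ := fun t => star b ᵥ* (T t)⁻¹ with hξ
  have hξd : ∀ i, DifferentiableOn ℂ (fun t => ξ t i) (ball 0 R) := by
    intro i
    simp only [hξ, vecMul, dotProduct]
    apply DifferentiableOn.fun_sum
    intro j _
    exact (inv_entries_diff hT hu j i).const_mul _
  have hξ0 : ∀ t ∈ closedBall (0 : ℂ) 1, ξ t ≠ 0 := by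
    intro t ht h0
    have h1 : star b ᵥ* ((T t)⁻¹ * T t) = 0 := by
      rw [← vecMul_vecMul]
      change ξ t ᵥ* T t = 0
      rw [h0, zero_vecMul]
    rw [nonsing_inv_mul _ (hu t (hin ht)), vecMul_one] at h1
    exact hb (by rw [← star_star b, h1, star_zero])
  have key := hol_le hGc hGp hPV hR hξd hξ0
  have hval : ∀ t ∈ closedBall (0 : ℂ) 1, qf (Mep L ε a (dk e z v t, (T t)⁻¹))⁻¹ b =
      dN (G t) (ξ t) := by
    intro t ht
    have hut := hu t (hin ht)
    have hi : ((T t)⁻¹)⁻¹ = T t := nonsing_inv_nonsing_inv _ hut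
    have h1 : (Mep L ε a (dk e z v t, (T t)⁻¹))⁻¹ = ((T t)⁻¹) * (G t)⁻¹ * ((T t)⁻¹)ᴴ := by
      unfold Mep
      simp only [hi]
      rw [Matrix.mul_inv_rev, Matrix.mul_inv_rev, ← Matrix.mul_assoc, conjTranspose_nonsing_inv]
    have h2 : qf (((T t)⁻¹) * (G t)⁻¹ * ((T t)⁻¹)ᴴ) b = qf (G t)⁻¹ (((T t)⁻¹)ᴴ *ᵥ b) := by
      have := qf_congr (G t)⁻¹ ((T t)⁻¹)ᴴ b
      rwa [conjTranspose_conjTranspose] at this
    rw [h1, h2]
    unfold dN
    congr 1
    rw [hξ, star_vecMul, star_star]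
  rw [hval 0 (by simp)]
  refine key.trans (le_of_eq ?_)
  apply Real.circleAverage_congr_sphere
  intro t ht
  rw [abs_one] at ht
  have := hval t (sphere_subset_closedBall ht)
  simp only [this]

/-- **Constancy of `Φ` on circles.** -/
theorem circle_const {h : MvPolynomial (Fin n) ℂ} (P : Prp h M) [PreconnectedSpace M]
    [FirstCountableTopology M] [LocallyCompactSpace M] (hN : 2 ≤ N)
    (I : InpH (n := n) L k f) (J : InpG (n := n) L)
    {T : ℂ → MM s} (hR : 1 < R) (hD : Dk e z v R)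
    (hT : ∀ i j, DifferentiableOn ℂ (fun t => T t i j) (ball 0 R))
    (hTH : ∀ t ∈ ball (0 : ℂ) R, (T t)ᴴ * L.H (dk e z v t) * T t = 1) (a : Fin s → ℂ) (θ : ℝ) :
    L.Phi (dk e z v (circleMap 0 1 θ)) (T (circleMap 0 1 θ) *ᵥ a) = L.Phi (dk e z v 0) (T 0 *ᵥ a) := by
  classical
  by_cases ha : a = 0
  · have hp : (2 / N : ℝ) ≠ 0 := by
      have : (N : ℝ) ≠ 0 := by
        have : N ≠ 0 := by omega
        exact_mod_cast this
      positivity
    subst ha
    simp [LN.Phi, Real.zero_rpow hp]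
  obtain ⟨μ, hμ1, hμ2, hμ3⟩ := exists_haar s
  let _ : MeasurableSpace (UG s) := borel (UG s)
  have _ : BorelSpace (UG s) := ⟨rfl⟩
  have hmain : ∀ ε > 0, qf (Mep L ε a (dk e z v (circleMap 0 1 θ), (T (circleMap 0 1 θ))⁻¹)) a =
      qf (Mep L ε a (dk e z v 0, (T 0)⁻¹)) a := by
    intro ε hε
    obtain ⟨c, hc, hlow⟩ := J.low ε hε a
    obtain ⟨C, hup⟩ := J.up ε hε a
    have hinv : ∀ p ∈ Pset L.H, ((Mep L ε a p)⁻¹)⁻¹ = Mep L ε a p := fun p hp =>
      nonsing_inv_nonsing_inv _ ((isUnit_iff_isUnit_det _).mp (Mep_pos I J hε a hp).isUnit)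
    have key := norm_const μ (tor (H := L.H) I.Hpos) (fun p => (Mep L ε a p)⁻¹)
      (fun p hp => (Mep_pos I J hε a hp).inv)
      (inv_cont (Mep_cont I J hε a) (fun p hp =>
        (isUnit_iff_isUnit_det _).mp (Mep_pos I J hε a hp).isUnit)) a ha
      (s ^ 2 / c) (fun p hp b => by
        refine inv_le (Mep_pos I J hε a hp) hc (fun b => ?_) b
        exact hlow p.1 p.2⁻¹ (frame_of_mem I hp).2 b)
      C (fun p hp => by
        rw [hinv p hp]
        exact hup p.1 p.2⁻¹ (frame_of_mem I hp).2)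
      (LD L.H) isLift ?_ (Liou3_739.hL P (fun x v => I.exists_lift x v))
      (fun x => loc I.Hpos I.Hcont x)
      (dk e z v, fun t => (T t)⁻¹) ⟨e, z, v, R, T, hR, hD, hT, hTH, rfl⟩ 1 θ
    · simp only [one_smul] at key
      have hmem : ∀ t ∈ closedBall (0 : ℂ) 1, ((dk e z v t, (T t)⁻¹) : M × MM s) ∈ Pset L.H :=
        fun t ht => inv_frame (hTH t (one_ball hR ht))
      rw [hinv _ (hmem _ (circleMap_mem θ)), hinv _ (hmem 0 (by simp))] at key
      exact key
    · rintro _ ⟨e', z', v', R', T', hR', hD', hT', hTH', rfl⟩ g b hb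
      have hg1 : (g : MM s)ᴴ * (g : MM s) = 1 := star_mul_self' g
      have hg2 : (g : MM s) * (g : MM s)ᴴ = 1 := mul_star_self' g
      have h1 : ∀ t ∈ ball (0 : ℂ) R', g • (T' t)⁻¹ = (T' t * (g : MM s)ᴴ)⁻¹ := by
        intro t _
        rw [Matrix.mul_inv_rev, inv_eq_right_inv hg1]
        rfl
      have h2 := sub_lift J hε a (T := fun t => T' t * (g : MM s)ᴴ) hR' hD' (fun i j => by
        simp only [Matrix.mul_apply]
        apply DifferentiableOn.fun_sum
        intro l _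
        exact (hT' i l).mul_const _) (fun t ht => by
        rw [conjTranspose_mul, conjTranspose_conjTranspose]
        calc (g : MM s) * (T' t)ᴴ * L.H (dk e' z' v' t) * (T' t * (g : MM s)ᴴ) =
              (g : MM s) * ((T' t)ᴴ * L.H (dk e' z' v' t) * T' t) * (g : MM s)ᴴ := by
                simp only [Matrix.mul_assoc]
          _ = 1 := by rw [hTH' t ht, Matrix.mul_one, hg2]) b hb
      simp only
      rw [h1 0 (mem_ball_self (by linarith))]
      refine h2.trans (le_of_eq ?_)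
      apply Real.circleAverage_congr_sphere
      intro t ht
      rw [abs_one] at ht
      have := h1 t (one_ball hR' (sphere_subset_closedBall ht))
      simp only [this]
  -- the limit ε → 0
  have hval : ∀ t ∈ closedBall (0 : ℂ) 1, ∀ ε, qf (Mep L ε a (dk e z v t, (T t)⁻¹)) a =
      qf (L.G (dk e z v t) (wv ε a (T t))) (T t *ᵥ a) := by
    intro t ht ε
    have hi : ((T t)⁻¹)⁻¹ = T t := nonsing_inv_nonsing_inv _ (unit_of_frame (hTH t (one_ball hR ht)))
    unfold Mep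
    simp only [hi]
    exact qf_congr _ _ _
  have hc := circleMap_mem θ
  have l1 := J.lim a (dk e z v (circleMap 0 1 θ)) (T (circleMap 0 1 θ)) (hTH _ (one_ball hR hc))
  have l2 := J.lim a (dk e z v 0) (T 0) (hTH 0 (mem_ball_self (by linarith)))
  refine tendsto_nhds_unique l1 (l2.congr' ?_)
  filter_upwards [self_mem_nhdsWithin] with ε hε
  rw [← hval 0 (by simp) ε, ← hval _ hc ε]
  exact (hmain ε hε).symm

end Crest.Agent.R276.LNh_999
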