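import Mathlib
import Crest.Agent.R276.LNh_999
import Crest.Agent.R276.LNd_333
import Crest.Agent.R273.RegC_844

/-!
# LEMMA N: transports along discs (helper999, row 276)

`InpG` from 333's comparison; output `exists_transport` : holomorphic `T` along every disc with
`Φ (x_t) (T t a)` constant.
-/

set_option autoImplicit false
set_option linter.unusedSectionVars false

namespace Crest.Agent.R276.LNi_999

open MeasureTheory Metric Filter Topology Matrix
open scoped ComplexOrder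
open Crest.Agent.R271.Ho51
open Crest.Agent.R276.Nc_999 Crest.Agent.R276.LNt_999
open Crest.Agent.R276.Fdc_999 Crest.Agent.R276.LN_999
open Crest.Agent.R276.LNg_999 Crest.Agent.R276.LNh_999 Crest.Agent.R276.LNd_333
open Crest.Agent.R276.LNb_333
open Crest.Agent.R276.Liou_739 (ln Prp ln_zero)

variable {n : ℕ} {M : Type*} [TopologicalSpace M] [RDom n M]
variable {Y : Type*} [MeasurableSpace Y] {s N : ℕ}
variable {L : LN M Y s N} {k : ℕ} {f : M → ℂ}

/-- the squared euclidean norm -/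
noncomputable def nsq (b : Fin s → ℂ) : ℝ := ∑ i, ‖b i‖ ^ 2

theorem nsq_nonneg (b : Fin s → ℂ) : 0 ≤ nsq b := Finset.sum_nonneg fun _ _ => by positivity

theorem le_nsq (b : Fin s → ℂ) : ‖b‖ ^ 2 ≤ nsq b := by
  rcases isEmpty_or_nonempty (Fin s) with h | h
  · have : b = 0 := Subsingleton.elim _ _
    subst this
    simp [nsq]
  · obtain ⟨i, hi⟩ : ∃ i, ‖b‖ = ‖b i‖ := by
      obtain ⟨i, _, hi⟩ := Finset.exists_max_image Finset.univ (fun i => ‖b i‖) Finset.univ_nonempty
      refine ⟨i, le_antisymm ?_ (norm_le_pi_norm b i)⟩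
      rw [pi_norm_le_iff_of_nonneg (norm_nonneg _)]
      intro j
      exact hi j (Finset.mem_univ j)
    rw [hi]
    exact Finset.single_le_sum (f := fun i => ‖b i‖ ^ 2) (fun _ _ => by positivity)
      (Finset.mem_univ i)

theorem qf_one (b : Fin s → ℂ) : qf (1 : MM s) b = nsq b := by
  unfold qf nsq
  rw [one_mulVec, dotProduct, Complex.re_sum]
  apply Finset.sum_congr rfl
  intro i _
  rw [Pi.star_apply, Complex.star_def, mul_comm, Complex.mul_conj, Complex.ofReal_re,
    Complex.normSq_eq_norm_sq]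

theorem qf_frame {W T : MM s} (h : Tᴴ * W * T = 1) (b : Fin s → ℂ) : qf W (T *ᵥ b) = nsq b := by
  rw [← qf_congr, h, qf_one]

theorem qf_smul' (W : MM s) (c : ℂ) (v : Fin s → ℂ) :
    qf W (fun i => c * v i) = ‖c‖ ^ 2 * qf W v := by
  have := Fda_999.qf_smul W c v
  exact this

theorem sum_wv {W T : MM s} (h : Tᴴ * W * T = 1) {ε : ℝ} (hε : 0 < ε) (a : Fin s → ℂ) :
    ∑ l, qf W (wv ε a T l) = nsq a + ε * s := by
  rw [Fin.sum_univ_succ]
  simp only [wv, Fin.cons_zero, Fin.cons_succ]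
  rw [qf_frame h]
  congr 1
  have h1 : ∀ k : Fin s, qf W (fun i => (Real.sqrt ε : ℂ) * T i k) = ε := by
    intro k
    rw [qf_smul', Complex.norm_real, Real.norm_of_nonneg (Real.sqrt_nonneg _),
      Real.sq_sqrt hε.le]
    have h2 : (fun i => T i k) = T *ᵥ (Pi.single k 1) := by
      ext i; simp
    rw [h2, qf_frame h]
    unfold nsq
    rw [Finset.sum_eq_single k]
    · simp
    · intro j _ hj; simp [hj]
    · simp
  simp only [h1]
  simp [mul_comm]

theorem inpG (hN : 2 ≤ N) (hs : 0 < s)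
    (PVG : ∀ (e : OpenPartialHomeomorph M (Fin n → ℂ)) (z v : Fin n → ℂ) (R : ℝ), 1 < R →
      Dk e z v R → ∀ {m : ℕ} (w : ℂ → Fin m → Fin s → ℂ),
      (∀ l i, DifferentiableOn ℂ (fun t => w t l i) (ball 0 R)) →
      (∀ t ∈ ball (0 : ℂ) R, Span (w t)) → PV (fun t => L.G (dk e z v t) (w t)))
    (lim : ∀ (a : Fin s → ℂ) (x : M) (T : MM s), Tᴴ * L.H x * T = 1 →
      Tendsto (fun ε => qf (L.G x (wv ε a T)) (T *ᵥ a)) (𝓝[>] 0) (𝓝 (L.Phi x (T *ᵥ a)))) :
    InpG (n := n) L where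
  Gpos x w hw := G_posDef L hN x hw
  Gcont m := G_cont L hN
  PVG := PVG
  low ε hε a := by
    have hs' : (0 : ℝ) < s := by exact_mod_cast hs
    have hR : 0 < nsq a + ε * s := by
      have := nsq_nonneg a
      positivity
    refine ⟨((s : ℝ) ^ (N - 1) * (nsq a + ε * s)) ^ (-(1 - 1 / N : ℝ)),
      Real.rpow_pos_of_pos (by positivity) _, fun x T hT b => ?_⟩
    have hu := unit_of_frame hT
    have h1 := qf_G_ge L hN hs x (w := wv ε a T) (span_wv hε a hu) hR (sum_wv hT hε a).le (T *ᵥ b)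
    rw [qf_frame hT] at h1
    rw [qf_congr]
    refine le_trans ?_ h1
    apply mul_le_mul_of_nonneg_left (le_nsq b)
    exact (Real.rpow_pos_of_pos (by positivity) _).le
  up ε hε a := by
    refine ⟨max 1 ((s : ℝ) ^ (N - 1) * nsq a), fun x T hT => ?_⟩
    have hu := unit_of_frame hT
    have h1 := qf_G_le L hN x (w := wv ε a T) (span_wv hε a hu) 0
    simp only [wv, Fin.cons_zero] at h1
    rw [qf_congr]
    refine h1.trans ?_
    have h2 := Phi_pow_le L hN hs x (T *ᵥ a)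
    rw [qf_frame hT] at h2
    rcases le_or_gt (L.Phi x (T *ᵥ a)) 1 with h3 | h3
    · exact h3.trans (le_max_left _ _)
    · refine le_trans ?_ (le_max_right _ _)
      refine le_trans ?_ h2
      calc L.Phi x (T *ᵥ a) = L.Phi x (T *ᵥ a) ^ 1 := (pow_one _).symm
        _ ≤ L.Phi x (T *ᵥ a) ^ N := pow_le_pow_right₀ h3.le (by omega)
  lim := lim

theorem firstCountable_rdom (n : ℕ) (M : Type*) [TopologicalSpace M] [RDom n M] :
    FirstCountableTopology M := by
  refine ⟨fun x => ?_⟩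
  rw [(ch x).nhds_eq_comap_inf_principal (mem_ch x)]
  infer_instance

/-- **Transport along discs.** -/
theorem exists_transport {h : MvPolynomial (Fin n) ℂ} (P : Prp h M) [PreconnectedSpace M]
    (hN : 2 ≤ N) (I : InpH (n := n) L k f) (J : InpG (n := n) L)
    {e : OpenPartialHomeomorph M (Fin n → ℂ)} {z v : Fin n → ℂ}
    {R R' : ℝ} (hR' : 0 < R') (hR : R' < R) (hD : Dk e z v R) :
    ∃ T : ℂ → MM s, (∀ i j, DifferentiableOn ℂ (fun t => T t i j) (ball 0 R')) ∧
      (∀ t ∈ ball (0 : ℂ) R', (T t)ᴴ * L.H (dk e z v t) * T t = 1) ∧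
      ∀ t ∈ ball (0 : ℂ) R', ∀ a, L.Phi (dk e z v t) (T t *ᵥ a) = L.Phi (e.symm z) (T 0 *ᵥ a) := by
  have hfc := firstCountable_rdom n M
  have hlc := R273.Reg_844.locallyCompact_rdom n M
  obtain ⟨T, hT, hTH⟩ := I.exists_frame' hR' hR hD
  refine ⟨T, hT, hTH, fun t ht a => ?_⟩
  by_cases ht0 : t = 0
  · subst ht0; simp [dk]
  have hr : 0 < ‖t‖ := norm_pos_iff.mpr ht0
  have htR : ‖t‖ < R' := by simpa using ht
  have hD' : Dk e z ((‖t‖ : ℂ) • v) (R' / ‖t‖) := (hD.mono hR.le).scale hr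
  have h1 : 1 < R' / ‖t‖ := by rwa [lt_div_iff₀ hr, one_mul]
  have hmaps : Set.MapsTo (fun τ : ℂ => (‖t‖ : ℂ) * τ) (ball 0 (R' / ‖t‖)) (ball 0 R') := by
    intro τ hτ
    rw [mem_ball_zero_iff] at hτ ⊢
    rw [norm_mul, Complex.norm_real, norm_norm, mul_comm]
    rwa [lt_div_iff₀ hr] at hτ
  have key := circle_const P hN I J (T := fun τ => T ((‖t‖ : ℂ) * τ)) h1 hD'
    (fun i j => (hT i j).comp (by fun_prop) hmaps) (fun τ hτ => by
      have := hTH _ (hmaps hτ)
      rwa [dk_scale] at this) a (Complex.arg t)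
  have h2 : (‖t‖ : ℂ) * circleMap 0 1 (Complex.arg t) = t := by
    have : circleMap 0 1 (Complex.arg t) = Complex.exp (Complex.arg t * Complex.I) := by
      simp [circleMap]
    rw [this, Complex.norm_mul_exp_arg_mul_I]
  rw [← dk_scale, h2, mul_zero] at key
  rw [key]
  simp [dk]

end Crest.Agent.R276.LNi_999
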