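import Mathlib
import Crest.Agent.R276.LNi_999
import Crest.Agent.R276.GlobR_739

/-!
# LEMMA N: (PV) hypotheses are local; the output `LineT` (helper999, row 276)
-/

set_option autoImplicit false
set_option linter.unusedSectionVars false

namespace Crest.Agent.R276.LNj_999

open MeasureTheory Metric Filter Topology Matrix Polynomial
open scoped ComplexOrder
open Real (circleAverage)
open Crest.Agent.R271.Ho51
open Crest.Agent.R276.Nc_999 Crest.Agent.R276.LNt_999 Crest.Agent.R276.Poi_999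
open Crest.Agent.R276.Fda_999
open Crest.Agent.R276.Fdc_999 Crest.Agent.R276.LN_999
open Crest.Agent.R276.LNg_999 Crest.Agent.R276.LNh_999 Crest.Agent.R276.LNi_999
open Crest.Agent.R276.Liou_739 (ln Prp ln_zero)

variable {n : ℕ} {M : Type*} [TopologicalSpace M] [RDom n M]
variable {Y : Type*} [MeasurableSpace Y] {s N : ℕ}
variable {L : LN M Y s N} {k : ℕ} {f : M → ℂ}

theorem circleAverage_scale (g : ℂ → ℝ) (c : ℂ) (ρ r : ℝ) :
    circleAverage (fun τ => g (c + (ρ : ℂ) * τ)) 0 r = circleAverage g c (ρ * r) := by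
  simp only [circleAverage]
  congr 2
  ext θ
  congr 1
  simp only [circleMap]
  push_cast
  ring

/-- (PV) is a local property -/
theorem pv_local {A : ℂ → MM s} (h : ∀ c ∈ ball (0 : ℂ) 1, ∃ ρ : ℝ, 0 < ρ ∧ ∃ A' : ℂ → MM s,
    (∀ τ ∈ ball (0 : ℂ) 1, A (c + (ρ : ℂ) * τ) = A' τ) ∧ PV A') : PV A := by
  intro ξ δ hδ c hc
  obtain ⟨ρ, hρ, A', hA, hPV⟩ := h c hc
  set ξ' : Fin s → ℂ[X] := fun i => (ξ i).comp (C c + C (ρ : ℂ) * X) with hξ'
  have hev : ∀ τ, ev ξ' τ = ev ξ (c + (ρ : ℂ) * τ) := by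
    intro τ
    ext i
    simp [ev, hξ']
  obtain ⟨r0, hr0, hr⟩ := hPV ξ' δ hδ 0 (by simp)
  refine ⟨ρ * min r0 1, by positivity, fun r hr1 hr2 => ?_⟩
  have h1 : r / ρ < min r0 1 := by
    rw [div_lt_iff₀ hρ, mul_comm]; exact hr2
  have h2 := hr (r / ρ) (by positivity) (h1.trans_le (min_le_left _ _))
  have e1 : dN (A c) (ev ξ c) = dN (A' 0) (ev ξ' 0) := by
    have := hA 0 (by simp)
    rw [mul_zero, add_zero] at this
    rw [this, hev, mul_zero, add_zero]
  have e2 : circleAverage (fun z => Real.log (dN (A z) (ev ξ z) + δ)) c r =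
      circleAverage (fun z => Real.log (dN (A' z) (ev ξ' z) + δ)) 0 (r / ρ) := by
    have h3 : ρ * (r / ρ) = r := by field_simp
    rw [← h3, ← circleAverage_scale, h3]
    apply Real.circleAverage_congr_sphere
    intro τ hτ
    rw [abs_of_pos (by positivity)] at hτ
    have hτ1 : τ ∈ ball (0 : ℂ) 1 := by
      rw [mem_ball_zero_iff]
      rw [mem_sphere_zero_iff_norm] at hτ
      rw [hτ]
      exact h1.trans_le (min_le_right _ _)
    simp only [hA τ hτ1, hev]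
  change Real.log (dN (A c) (ev ξ c) + δ) ≤
    circleAverage (fun z => Real.log (dN (A z) (ev ξ z) + δ)) c r
  rw [e1, e2]
  exact h2

/-- recentring of discs -/
theorem recentre {e : OpenPartialHomeomorph M (Fin n → ℂ)} {z v : Fin n → ℂ} {R : ℝ}
    (hD : Dk e z v R) {c : ℂ} (hc : c ∈ ball (0 : ℂ) R) :
    ∃ ρ : ℝ, 0 < ρ ∧ ‖c‖ + 2 * ρ < R ∧ Dsc (dk e z v c) ((ρ : ℂ) • v) 2 ∧
      ∀ τ ∈ ball (0 : ℂ) 2, dk e z v (c + (ρ : ℂ) * τ) = ln (dk e z v c) ((ρ : ℂ) • v) τ := by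
  set x := dk e z v c with hx
  have hzc := hD.mem c hc
  have hxs : x ∈ e.source := e.map_target hzc
  have hcpx : cp x = z + c • v := hD.isCh.cp_symm hzc
  have hgerm := hD.isCh.germ (isCh_ch x) hxs (mem_ch x)
  have htar : ∀ᶠ w in 𝓝 (cp x), w ∈ (ch x).target :=
    (ch x).open_target.mem_nhds ((isCh_ch x).cp_mem (mem_ch x))
  have hlim : Tendsto (fun τ : ℂ => cp x + τ • v) (𝓝 0) (𝓝 (cp x)) := by
    have : Continuous fun τ : ℂ => cp x + τ • v := by fun_prop
    have h := this.tendsto 0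
    simpa using h
  obtain ⟨r, hr, hball⟩ := Metric.eventually_nhds_iff_ball.mp (hlim.eventually (hgerm.and htar))
  have hcR : ‖c‖ < R := by simpa using hc
  refine ⟨min (r / 2) ((R - ‖c‖) / 4), lt_min (by positivity) (by linarith), ?_, ?_, ?_⟩
  · have := min_le_right (r / 2) ((R - ‖c‖) / 4)
    linarith
  all_goals
    set ρ := min (r / 2) ((R - ‖c‖) / 4) with hρ
    have hρ0 : 0 < ρ := lt_min (by positivity) (by linarith)
    have hρ1 : ρ ≤ r / 2 := min_le_left _ _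
    have hin : ∀ τ ∈ ball (0 : ℂ) 2, τ * (ρ : ℂ) ∈ ball (0 : ℂ) r := by
      intro τ hτ
      rw [mem_ball_zero_iff] at hτ ⊢
      rw [norm_mul, Complex.norm_real, Real.norm_of_nonneg hρ0.le]
      calc ‖τ‖ * ρ < 2 * ρ := by nlinarith
        _ ≤ r := by linarith
  · intro τ hτ
    have := (hball _ (hin τ hτ)).2
    rwa [smul_smul]
  · intro τ hτ
    have := (hball _ (hin τ hτ)).1
    unfold dk ln
    rw [smul_smul, ← this, hcpx]
    congr 1
    rw [add_smul, ← add_assoc, mul_comm (ρ : ℂ) τ]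

/-- (PVH) in charts from (PVH) for the standard charts -/
theorem pvh_of_ch (h : ∀ (x : M) (v : Fin n → ℂ) (R : ℝ), 1 < R → Dsc x v R →
      PV (fun t => L.H (ln x v t)))
    (e : OpenPartialHomeomorph M (Fin n → ℂ)) (z v : Fin n → ℂ) (R : ℝ) (hR : 1 < R)
    (hD : Dk e z v R) : PV (fun t => L.H (dk e z v t)) := by
  apply pv_local
  intro c hc
  obtain ⟨ρ, hρ, _, h2, h3⟩ := recentre hD (ball_subset_ball hR.le hc)
  refine ⟨ρ, hρ, fun τ => L.H (ln (dk e z v c) ((ρ : ℂ) • v) τ), fun τ hτ => ?_,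
    h _ _ 2 (by norm_num) h2⟩
  simp only
  rw [h3 τ (ball_subset_ball (by norm_num) hτ)]

/-- (PVG) in charts from (PVG) for the standard charts -/
theorem pvg_of_ch (h : ∀ (x : M) (v : Fin n → ℂ) (R : ℝ), 1 < R → Dsc x v R → ∀ {m : ℕ}
      (w : ℂ → Fin m → Fin s → ℂ), (∀ l i, DifferentiableOn ℂ (fun t => w t l i) (ball 0 R)) →
      (∀ t ∈ ball (0 : ℂ) R, Span (w t)) → PV (fun t => L.G (ln x v t) (w t)))
    (e : OpenPartialHomeomorph M (Fin n → ℂ)) (z v : Fin n → ℂ) (R : ℝ) (hR : 1 < R)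
    (hD : Dk e z v R) {m : ℕ} (w : ℂ → Fin m → Fin s → ℂ)
    (hw : ∀ l i, DifferentiableOn ℂ (fun t => w t l i) (ball 0 R))
    (hs : ∀ t ∈ ball (0 : ℂ) R, Span (w t)) : PV (fun t => L.G (dk e z v t) (w t)) := by
  apply pv_local
  intro c hc
  obtain ⟨ρ, hρ, h1, h2, h3⟩ := recentre hD (ball_subset_ball hR.le hc)
  have hmaps : Set.MapsTo (fun τ : ℂ => c + (ρ : ℂ) * τ) (ball 0 2) (ball 0 R) := by
    intro τ hτ
    rw [mem_ball_zero_iff] at hτ ⊢
    calc ‖c + (ρ : ℂ) * τ‖ ≤ ‖c‖ + ‖(ρ : ℂ) * τ‖ := norm_add_le _ _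
      _ = ‖c‖ + ρ * ‖τ‖ := by rw [norm_mul, Complex.norm_real, Real.norm_of_nonneg hρ.le]
      _ < R := by nlinarith
  refine ⟨ρ, hρ, fun τ => L.G (ln (dk e z v c) ((ρ : ℂ) • v) τ) (w (c + (ρ : ℂ) * τ)),
    fun τ hτ => ?_, h _ _ 2 (by norm_num) h2 (fun τ => w (c + (ρ : ℂ) * τ)) (fun l i => ?_)
      (fun τ hτ => hs _ (hmaps hτ))⟩
  · simp only
    rw [h3 τ (ball_subset_ball (by norm_num) hτ)]
  · exact (hw l i).comp (by fun_prop) hmaps

/-- closed discs in open sets are contained in larger open discs -/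
theorem exists_larger {e : OpenPartialHomeomorph M (Fin n → ℂ)} (he : IsCh e) {z v : Fin n → ℂ}
    (h : ∀ t ∈ closedBall (0 : ℂ) 1, z + t • v ∈ e.target) : ∃ R > 1, Dk e z v R := by
  have hopen : IsOpen {t : ℂ | z + t • v ∈ e.target} :=
    e.open_target.preimage (by fun_prop)
  obtain ⟨δ, hδ, hsub⟩ := (isCompact_closedBall (0 : ℂ) 1).exists_thickening_subset_open hopen h
  refine ⟨1 + δ, by linarith, he, fun t ht => ?_⟩
  apply hsub
  rw [thickening_closedBall hδ zero_le_one]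
  rwa [add_comm]

/-- **LEMMA N**, output on discs in the form consumed by 739 (`GlobR_739.LineT`). -/
theorem lineT {h : MvPolynomial (Fin n) ℂ} (P : Prp h M) [PreconnectedSpace M]
    (hN : 2 ≤ N) (I : InpH (n := n) L k f) (J : InpG (n := n) L) : GlobR_739.LineT L.Phi := by
  intro e he z v hz
  obtain ⟨R, hR, hD⟩ := exists_larger he hz
  obtain ⟨T, h1, h2, h3⟩ := exists_transport P hN I J one_pos hR hD
  refine ⟨T, h1, ?_, h3⟩
  exact (unit_of_frame (h2 0 (by simp))).ne_zero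

end Crest.Agent.R276.LNj_999
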