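import Mathlib
import Crest.Agent.R276.LNe_333
import Crest.Agent.R276.LNj_999

/-!
# Row 276, LEMMA N (helper333), part j: the limit `ε → 0`, and `InpH`

* `lim` : field `lim` of `LNh_999.InpG`;
* `inpH` : `LNg_999.InpH` from `|f|² = DD^k` and (PVH).
-/

set_option autoImplicit false
set_option linter.unusedSectionVars false
set_option linter.unusedVariables false

open MeasureTheory Matrix Set Filter Topology Metric
open scoped ComplexConjugate ENNReal ComplexOrder
open Real (circleAverage)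

noncomputable section

namespace Crest.Agent.R276.LNj_333

open Crest.Agent.R276.LN_999 Crest.Agent.R276.LNb_333 Crest.Agent.R276.LNc_333
open Crest.Agent.R276.LNd_333 Crest.Agent.R276.LNe_333
open Crest.Agent.R276.Nc_999 (qf)
open Crest.Agent.R276.LNh_999 (wv span_wv)
open Crest.Agent.R276.LNg_999 (Span unit_of_frame)

section lim

variable {M Y : Type*} [TopologicalSpace M] [MeasurableSpace Y] {s N : ℕ}
variable (L : LN M Y s N)

lemma spn_of_span {m : ℕ} {w : Fin m → Fin s → ℂ} (h : Span w) : Spn w := h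

/-- the limit `ε → 0` -/
theorem lim (hN : 2 ≤ N) (a : Fin s → ℂ) (x : M) (T : Matrix (Fin s) (Fin s) ℂ)
    (hT : IsUnit T.det) :
    Tendsto (fun ε => qf (L.G x (wv ε a T)) (T *ᵥ a)) (𝓝[>] 0) (𝓝 (L.Phi x (T *ᵥ a))) := by
  set v : Fin s → ℂ := T *ᵥ a with hv
  have hPhi : L.Phi x v = ∫ y, ‖dt v (L.sg y)‖ ^ (2 / N : ℝ) ∂(L.μ x) := rfl
  rw [hPhi]
  have hev : ∀ᶠ ε : ℝ in 𝓝[>] 0, qf (L.G x (wv ε a T)) v =
      ∫ y, ‖dt v (L.sg y)‖ ^ 2 * wG N (wv ε a T) (L.sg y) ∂(L.μ x) := by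
    filter_upwards [self_mem_nhdsWithin] with ε hε
    exact qf_G L hN x (spn_of_span (span_wv (a := a) hε hT)) v
  refine Tendsto.congr' (EventuallyEq.symm hev) ?_
  refine tendsto_integral_filter_of_dominated_convergence
    (fun y => ‖dt v (L.sg y)‖ ^ (2 / N : ℝ)) ?_ ?_ (integrable_Phi L hN x v) ?_
  · filter_upwards [self_mem_nhdsWithin] with ε hε
    exact (integrable_sq (p_pos hN) (fam L hN x)
      (wt_G hN (spn_of_span (span_wv (a := a) hε hT))) v).aestronglyMeasurable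
  · filter_upwards [self_mem_nhdsWithin] with ε hε
    refine Eventually.of_forall fun y => ?_
    have h1 := sq_nonneg' (wt_G hN (spn_of_span (span_wv (a := a) hε hT))) v (L.sg y)
    rw [Real.norm_of_nonneg h1]
    exact pt_G_le hN (wv ε a T) 0 (L.sg y)
  · refine Eventually.of_forall fun y => ?_
    set t := L.sg y with ht
    by_cases h0 : dt v t = 0
    · simp only [h0, norm_zero]
      rw [Real.zero_rpow (p_pos hN).ne']
      simp
    have hn : 0 < ‖dt v t‖ := norm_pos_iff.mpr h0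
    set S : ℝ := ∑ k, ‖∑ i, T i k * t i‖ ^ 2 with hS
    have hw : ∀ ε : ℝ, 0 < ε → ∑ l, ‖dt (wv ε a T l) t‖ ^ 2 = ‖dt v t‖ ^ 2 + ε * S := by
      intro ε hε
      rw [Fin.sum_univ_succ]
      congr 1
      rw [hS, Finset.mul_sum]
      refine Finset.sum_congr rfl fun k _ => ?_
      have h1 : dt (wv ε a T k.succ) t = (Real.sqrt ε : ℂ) * ∑ i, T i k * t i := by
        unfold dt wv
        rw [Fin.cons_succ, Finset.mul_sum]
        exact Finset.sum_congr rfl fun i _ => by ring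
      rw [h1, norm_mul, mul_pow, Complex.norm_real, Real.norm_eq_abs, sq_abs, Real.sq_sqrt hε.le]
    have hlim : Tendsto (fun ε : ℝ => ‖dt v t‖ ^ 2 * (‖dt v t‖ ^ 2 + ε * S) ^ (-(1 - 1 / N : ℝ)))
        (𝓝[>] 0) (𝓝 (‖dt v t‖ ^ (2 / N : ℝ))) := by
      rw [← sq_mul_rpow hN hn]
      refine Tendsto.const_mul _ ?_
      have h1 : Tendsto (fun ε : ℝ => ‖dt v t‖ ^ 2 + ε * S) (𝓝[>] 0) (𝓝 (‖dt v t‖ ^ 2)) := by
        have h2 : Continuous fun ε : ℝ => ‖dt v t‖ ^ 2 + ε * S := by fun_prop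
        have h3 := (h2.tendsto 0).mono_left (nhdsWithin_le_nhds (s := Ioi (0 : ℝ)))
        simpa using h3
      exact h1.rpow_const (Or.inl (by positivity))
    refine Tendsto.congr' ?_ hlim
    filter_upwards [self_mem_nhdsWithin] with ε hε
    unfold wG
    rw [hw ε hε]

end lim

section inp

open Crest.Agent.R271.Ho51 Crest.Agent.R276.Liou_739 Crest.Agent.R276.Liou2_739
open Crest.Agent.R276.Fdc_999 (PV)
open Crest.Agent.R276.LNg_999 (Dsc Dk dk dk_cont dk_scale InpH exists_Dsc ln_scale one_ball)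

variable {n : ℕ} {M Y : Type*} [TopologicalSpace M] [RDom n M] [MeasurableSpace Y] {s N : ℕ}
variable (L : LN M Y s N)

/-- **`InpH`** -/
theorem inpH [PreconnectedSpace M] {h : MvPolynomial (Fin n) ℂ} (P : Prp h M) (hN : 2 ≤ N)
    (hs : 0 < s) {f : M → ℂ} (hf : Hol f) (hf0 : ∀ x, f x ≠ 0) {k : ℕ} (hk : 0 < k)
    (hfD : ∀ x, ‖f x‖ ^ 2 = L.DD x ^ k)
    (PVH : ∀ (x : M) (v : Fin n → ℂ) (R : ℝ), 1 < R → Dsc x v R → PV (fun t => L.H (ln x v t))) :
    InpH L k f where
  Hpos := H_posDef L hN hs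
  Hcont := H_cont L hN hs
  PVH := LNj_999.pvh_of_ch PVH
  k0 := hk
  hol := hf
  f0 := hf0
  det := by
    obtain ⟨c, hc, h1⟩ := det_const L P hN hs hf hf0 hk hfD fun x v => by
      obtain ⟨R, hR, hD⟩ := exists_Dsc x v
      filter_upwards [Ioo_mem_nhdsGT hR] with r hr
      have hD' : Dk (ch x) (cp x) ((r : ℂ) • v) (R / r) := hD.dk.scale hr.1
      have hR' : 1 < R / r := by
        rw [lt_div_iff₀ hr.1, one_mul]
        exact hr.2
      have hPV : PV (fun t => L.H (ln x ((r : ℂ) • v) t)) :=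
        PVH x ((r : ℂ) • v) (R / r) hR' hD'.mem
      have hHc : ContinuousOn (fun t => L.H (ln x ((r : ℂ) • v) t)) (closedBall 0 1) :=
        (H_cont L hN hs).comp_continuousOn ((dk_cont hD').mono (one_ball hR'))
      have hHp : ∀ t ∈ closedBall (0 : ℂ) 1, (L.H (ln x ((r : ℂ) • v) t)).PosDef :=
        fun t _ => H_posDef L hN hs _
      have h2 := Pvx_999.det_supermean hHc hHp (Pvx_999.ot_of_pv hHc hHp hPV)
      rw [ln_zero] at h2
      have h3 : circleAverage (fun t => Real.log (L.H (ln x v t)).det.re) 0 r =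
          circleAverage (fun z => Real.log (L.H (ln x ((r : ℂ) • v) z)).det.re) 0 1 := by
        rw [Real.circleAverage_eq_circleAverage_zero_one]
        congr 1
        funext z
        rw [← ln_scale]
        simp
      rw [h3]
      exact h2
    exact ⟨c, hc, h1⟩

end inp

end Crest.Agent.R276.LNj_333
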