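import Mathlib
import Crest.Agent.R276.LNf_333
import Crest.Agent.R276.LNj_333
import Crest.Agent.R276.PrpM_739

/-!
# Row 276, LEMMA N (helper333), part z: LEMMA N for flat families, from (PV)

* `PVH`, `PVG` : the two plurisubharmonicity inputs, for a saturated family;
* `lineT` : `FlatFam R N u f M → PVH → PVG → LineT (Phi N u)`.
-/

set_option autoImplicit false
set_option linter.unusedSectionVars false

open Set Filter Topology MeasureTheory Metric
open scoped ENNReal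

noncomputable section

namespace Crest.Agent.R276.LNz_333

open Crest.Agent.R271 Crest.Agent.R271.Ho51 Crest.Agent.R271.Rd692
open Crest.Agent.R276.Mod1_987 Crest.Agent.R276.FlatM_464
open Crest.Agent.R276.FlatDefs_236
open Crest.Agent.R276.LN_999 Crest.Agent.R276.LNb_333 Crest.Agent.R276.LNf_333
open Crest.Agent.R276.Fdc_999 (PV)
open Crest.Agent.R276.LNg_999 (Dsc Span unit_of_frame)
open Crest.Agent.R276.Liou_739 (ln Prp)

variable {L K : Type} [Field L] [Field K] [Algebra ℂ L] [Algebra ℂ K] [Algebra L K]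
  [IsScalarTower ℂ L K] {m r : ℕ} {R : RMdl L K m r} {N s : ℕ} {u : Fin s → R.MK.B}
  {f : R.ML.Pts → ℂ} {M : ℕ}

/-- (PV) for the Narasimhan-Simha metric -/
def PVH (S : SatFam R N u) : Prop :=
  ∀ (x : R.ML.Pts) (v : Fin m → ℂ) (ρ : ℝ), 1 < ρ → Dsc x v ρ →
    PV (fun t => (lnF S).H (ln x v t))

/-- (PV) for the auxiliary metrics -/
def PVG (S : SatFam R N u) : Prop :=
  ∀ (x : R.ML.Pts) (v : Fin m → ℂ) (ρ : ℝ), 1 < ρ → Dsc x v ρ → ∀ {k : ℕ}
    (w : ℂ → Fin k → Fin s → ℂ), (∀ l i, DifferentiableOn ℂ (fun t => w t l i) (ball 0 ρ)) →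
    (∀ t ∈ ball (0 : ℂ) ρ, Span (w t)) → PV (fun t => (lnF S).G (ln x v t) (w t))

/-- **LEMMA N**, for flat families, from (PV) -/
theorem lineT (F : FlatFam R N u f M) (hH : PVH F.toSatFam) (hG : PVG F.toSatFam) :
    GlobR_739.LineT (Phi N u) := by
  have hN := two_le F.toSatFam
  have P := PrpM_739.prp R.ML
  have I : LNg_999.InpH (n := m) (lnF F.toSatFam) M f :=
    LNj_333.inpH (lnF F.toSatFam) P hN F.s_pos F.hol F.ne F.M_pos
      (fun x => by rw [F.eq x, lnF_DD]) hH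
  have J : LNh_999.InpG (n := m) (lnF F.toSatFam) :=
    LNi_999.inpG hN F.s_pos (fun e z v ρ h1 h2 {k} w h3 h4 =>
      LNj_999.pvg_of_ch (fun x v ρ h1 h2 {k} w h3 h4 => hG x v ρ h1 h2 w h3 h4) e z v ρ h1 h2 w h3 h4)
      (fun a x T hT => LNj_333.lim (lnF F.toSatFam) hN a x T (unit_of_frame hT))
  have key := LNj_999.lineT P hN I J
  intro e he z v hz
  obtain ⟨T, h1, h2, h3⟩ := key e he z v hz
  refine ⟨T, h1, h2, fun t ht a => ?_⟩
  have h4 := h3 t ht a
  rw [← ofReal_lnF_Phi F.toSatFam, ← ofReal_lnF_Phi F.toSatFam, h4]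

end Crest.Agent.R276.LNz_333
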