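import Crest.Agent.R276.TopHolC_735
import Crest.Agent.R276.Nat10_591

/-!
# Row 276, IPC-TOPHOL (helper735), part D: the fields `hol` and `hol'` of 454's `TopPieces`

In 975's completion model, with 591's trivialisation `TV D` and 175's `emb`.
* `uT D f z` : the element `f dx` moved to the fixed Hilbert space; `rep_uT` : its representative;
* `inner_be` : the pairing formula; `hol_field`; `hol'_field`.
-/

set_option autoImplicit false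
set_option linter.unusedSectionVars false

noncomputable section

open Set Filter Topology MeasureTheory Matrix Metric UniformSpace
open scoped ContDiff ComplexConjugate ENNReal

namespace Crest.Agent.R276.TopHolD_735

open Crest.Agent.R271.Ho51 Crest.Agent.R276.Ipc735 Crest.Agent.R276.Top3_279
open IpcG1_975 Psi_563 FamA_563 HsB_817 PvO_175 Nat_591 TopE_175

variable {m : ℕ} {S : Type*} [TopologicalSpace S] [RDom m S] {k N w : ℕ} {Q : Punc S k}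
  {V : Ipc735.VHS (m + 1) (Tot Q) N w} {s₀ : S}

/-- the element represented by `f dx` moved to the fixed Hilbert space -/
def uT (D : LD V s₀) (f : S → ℂ → Fin N → ℂ) (z : Fin m → ℂ) : (pvOf (V.res s₀)).L :=
  TV D z (emb (pvOf (V.res (D.σ z))) (f (D.σ z)))

/-- the form `f dx` moved to the fixed fibre -/
def fF (D : LD V s₀) (f : S → ℂ → Fin N → ℂ) (z : Fin m → ℂ) (x : ℂ) :
    (Fin N → ℂ) × (Fin N → ℂ) :=
  (D.Bm.P (D.b z) x • D.fT f z x, D.Bm.Q (D.b z) x • D.fT f z x)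

lemma fF_eq (D : LD V s₀) (f : S → ℂ → Fin N → ℂ) (z : Fin m → ℂ) :
    pb (Kf (D.Ψ z) (Kv D z)) (D.Ψ z) (fx (f (D.σ z))) = fF D f z := by
  funext x
  have h1 : Kv D z x 0 = 0 := map_zero _
  have h2 : Kv D z x (f (D.σ z) (D.Ψ z x)) = D.fT f z x := rfl
  show Kf (D.Ψ z) (Kv D z) x (f (D.σ z) (D.Ψ z x), 0) = _
  rw [Kf_apply, h1, h2]
  simp only [Psi_563.pull, smul_zero, add_zero]
  rfl

variable {D : LD V s₀}

theorem rep_uT {f : S → ℂ → Fin N → ℂ} {z : Fin m → ℂ} (hz : z ∈ hU D)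
    (hf : (V.res (D.σ z)).Top (f (D.σ z))) :
    RepC_201.Rep (pvOf (V.res s₀)).mb.dbl (uT D f z) (fF D f z) := by
  have h1 : RepC_201.Rep (pvOf (V.res (D.σ z))).mb.dbl (emb (pvOf (V.res (D.σ z))) (f (D.σ z)))
      (fx (f (D.σ z))) := (Top.topS hf).rep
  have h2 := RepC_201.Rep.T (psiV D hz).psiM.mmor h1
  have h3 : (psiV D hz).psiM.mmor.T (emb (pvOf (V.res (D.σ z))) (f (D.σ z))) = uT D f z :=
    (TV_of hz _).symm
  rw [h3] at h2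
  have h4 : pb (Kf (D.Bm.psi (D.b z)) (Kv D z)) (D.Bm.psi (D.b z)) (fx (f (D.σ z))) = fF D f z :=
    fF_eq D f z
  rw [← h4]
  exact h2

/-- **the pairing formula** -/
theorem inner_be {u : (pvOf (V.res s₀)).L} {φ : ℂ → (Fin N → ℂ) × (Fin N → ℂ)}
    (h : RepC_201.Rep (pvOf (V.res s₀)).mb.dbl u φ) (ζ : (pvOf (V.res s₀)).mb.dbl.H0) :
    inner ℂ ((pvOf (V.res s₀)).be (ζ : (pvOf (V.res s₀)).L)) u =
      ∫ x, (star (ζ.f x).2 ⬝ᵥ (V.res s₀).S x *ᵥ (φ x).2 -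
        star (ζ.f x).1 ⬝ᵥ (V.res s₀).S x *ᵥ (φ x).1) := by
  have h1 : (pvOf (V.res s₀)).be (ζ : (pvOf (V.res s₀)).L) =
      (((pvOf (V.res s₀)).mb.dbl.s0 (fun z => (pvOf (V.res s₀)).bt z (ζ.f z))
        (FB.app_mem_A0 (pvOf (V.res s₀)).ok_bt.1 ζ.mem) : (pvOf (V.res s₀)).mb.dbl.H0) :
        (pvOf (V.res s₀)).L) := (pvOf (V.res s₀)).mb.dbl.op_coe (pvOf (V.res s₀)).ok_bt ζ
  rw [h1, h.2]
  refine integral_congr_ae (Eventually.of_forall fun x => ?_)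
  simp only [MB.s0_f]
  by_cases hx : x ∈ ((Q.A s₀ : Set ℂ)ᶜ)
  · rw [PsiP.G_bt _ hx]
    rw [pvOf_S, pvOf_S]
  · have h0 : ζ.f x = 0 := (pvOf (V.res s₀)).mb.dbl.f_eq_zero ζ hx
    rw [h0]
    simp


/-- a property near `s₀` in the coordinates -/
lemma ev_σ {p : S → Prop} (D : LD V s₀) (h : ∀ᶠ s in 𝓝 s₀, p s) :
    ∀ᶠ z in 𝓝 (cp s₀ : Fin m → ℂ), p (D.σ z) := (ch_symm_tendsto s₀).eventually h

/-- the integrals of the pairing formula -/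
theorem hol_int {f : S → ℂ → Fin N → ℂ} (hf : ∀ᶠ s in 𝓝 s₀, HolFib V f s) {a : ℂ → Fin N → ℂ}
    (ha : (V.res s₀).Sm a) {K : Set ℂ} (hK : IsCompact K) (hKA : ∀ x ∈ K, x ∉ Q.A s₀)
    (h0 : ∀ x ∉ K, a x = 0) {g : (Fin m → ℂ) → ℂ → ℂ}
    (hg : ContinuousOn (fun p : (Fin m → ℂ) × ℂ => g p.1 p.2) (D.U ×ˢ univ))
    (hgd : ∀ x, DifferentiableOn ℂ (fun z => g z x) D.U) :
    AnalyticAt ℂ (fun z => ∫ x, star (a x) ⬝ᵥ (V.res s₀).S x *ᵥ (g z x • D.fT f z x))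
      (cp s₀) := by
  have h1 : ∀ᶠ z in 𝓝 (cp s₀ : Fin m → ℂ), HolFib V f (D.σ z) ∧ z ∈ D.U :=
    (ev_σ D hf).and (D.isOpen_U.mem_nhds D.center_mem)
  obtain ⟨U', hU', hop, hc⟩ := _root_.eventually_nhds_iff.1 h1
  have h2 := LD.hol_pair (D := D) (f := f) hop (fun z hz => (hU' z hz).2)
    (fun z hz => (hU' z hz).1) hK hKA
    (LD.cov_S (V := V) (a := a) fun x₁ hx₁ => (ha x₁ hx₁).continuousAt)
    (g := g) (hg.mono (prod_mono (fun z hz => (hU' z hz).2) (subset_univ _)))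
    (fun x _ => (hgd x).mono fun z hz => (hU' z hz).2)
  refine (h2 _ hc).congr (Eventually.of_forall fun z => ?_)
  show (∫ x in K, g z x * (star (a x) ᵥ* (V.res s₀).S x ⬝ᵥ D.fT f z x)) = _
  rw [setIntegral_eq_integral_of_forall_compl_eq_zero]
  · refine integral_congr_ae (Eventually.of_forall fun x => ?_)
    simp only [Matrix.mulVec_smul, dotProduct_smul, smul_eq_mul, Matrix.dotProduct_mulVec]
  · intro x hx
    rw [h0 x hx]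
    simp

lemma contOn_b (D : LD V s₀) :
    ContinuousOn (fun p : (Fin m → ℂ) × ℂ => ((D.b p.1, p.2) : (Fin k → ℂ) × ℂ))
      (D.U ×ˢ univ) := by
  have h0 : ContinuousOn D.b D.U := fun z hz => (LD.contDiffAt_b hz).continuousAt.continuousWithinAt
  exact ContinuousOn.prodMk (h0.comp continuousOn_fst fun p hp => hp.1) continuousOn_snd

lemma contOn_P (D : LD V s₀) :
    ContinuousOn (fun p : (Fin m → ℂ) × ℂ => D.Bm.P (D.b p.1) p.2) (D.U ×ˢ univ) := by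
  have hP : Continuous (fun z : (Fin k → ℂ) × ℂ => D.Bm.P z.1 z.2) := D.Bm.contDiff_P.continuous
  have := hP.comp_continuousOn (contOn_b D)
  exact this

lemma contOn_Q (D : LD V s₀) :
    ContinuousOn (fun p : (Fin m → ℂ) × ℂ => D.Bm.Q (D.b p.1) p.2) (D.U ×ˢ univ) := by
  have hQ : Continuous (fun z : (Fin k → ℂ) × ℂ => D.Bm.Q z.1 z.2) := D.Bm.contDiff_Q.continuous
  have := hQ.comp_continuousOn (contOn_b D)
  exact this

lemma diffOn_PQ (D : LD V s₀) (x : ℂ) : DifferentiableOn ℂ (fun z => D.Bm.P (D.b z) x) D.U ∧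
    DifferentiableOn ℂ (fun z => D.Bm.Q (D.b z) x) D.U := by
  have h2 : ∀ z ∈ D.U, ∀ i, DifferentiableAt ℂ (fun z => D.b z i) z := fun z hz i =>
    (differentiableAt_pi.1 (LD.diffAt_b hz)) i
  constructor
  · intro z hz
    simp only [Bumps.P_eq]
    exact ((differentiableAt_const _).add
      (DifferentiableAt.fun_sum fun i _ => (h2 z hz i).mul_const _)).differentiableWithinAt
  · intro z hz
    simp only [Bumps.Q_eq]
    exact (DifferentiableAt.fun_sum fun i _ => (h2 z hz i).mul_const _).differentiableWithinAt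

/-- **the field `hol`** -/
theorem hol_field (D : LD V s₀) {f : S → ℂ → Fin N → ℂ} (hf : ∀ᶠ s in 𝓝 s₀, (V.res s).Top (f s))
    (hh : ∀ᶠ s in 𝓝 s₀, HolFib V f s) (ζ : (pvOf (V.res s₀)).mb.dbl.H0) :
    AnalyticAt ℂ (fun z => inner ℂ ((pvOf (V.res s₀)).be (ζ : (pvOf (V.res s₀)).L)) (uT D f z))
      (cp s₀) := by
  obtain ⟨K, hKX, hK, h0⟩ := ζ.mem.2
  have hs := FB.sm_dbl.1 ζ.mem.1
  have hKA : ∀ x ∈ K, x ∉ Q.A s₀ := fun x hx h => hKX hx h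
  have h1 : AnalyticAt ℂ (fun z => (∫ x, star (ζ.f x).2 ⬝ᵥ (V.res s₀).S x *ᵥ
      (D.Bm.Q (D.b z) x • D.fT f z x)) - ∫ x, star (ζ.f x).1 ⬝ᵥ (V.res s₀).S x *ᵥ
      (D.Bm.P (D.b z) x • D.fT f z x)) (cp s₀) :=
    (hol_int (D := D) hh (a := fun x => (ζ.f x).2) ((sm_iff _ _).1 hs.2) hK hKA
      (fun x hx => by rw [h0 x hx]; rfl) (contOn_Q D) fun x => (diffOn_PQ D x).2).sub
    (hol_int (D := D) hh (a := fun x => (ζ.f x).1) ((sm_iff _ _).1 hs.1) hK hKA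
      (fun x hx => by rw [h0 x hx]; rfl) (contOn_P D) fun x => (diffOn_PQ D x).1)
  refine h1.congr ?_
  filter_upwards [(isOpen_hU D).mem_nhds (mem_hU D), ev_σ D hf] with z hz hfz
  have h2 := rep_uT hz hfz
  rw [inner_be h2]
  have hs2 := FB.sm_dbl.1 h2.1
  have hi : ∀ {a b : ℂ → Fin N → ℂ}, (pvOf (V.res s₀)).Sm a → (pvOf (V.res s₀)).Sm b →
      (∀ x ∉ K, a x = 0) → Integrable (fun x => star (a x) ⬝ᵥ (V.res s₀).S x *ᵥ b x) := by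
    intro a b ha hb ha0
    have h3 : CS ((Q.A s₀ : Set ℂ)ᶜ) (fun x => (pvOf (V.res s₀)).S x (a x) (b x)) :=
      ⟨fun z hz => (pvOf (V.res s₀)).sm_S ha hb hz, K, hKX, hK, fun x hx => by
        rw [ha0 x hx]; simp⟩
    refine h3.integrable.congr (Eventually.of_forall fun x => ?_)
    exact pvOf_S _ _ _ _
  have h4 := integral_sub (hi hs.2 hs2.2 (fun x hx => by rw [h0 x hx]; rfl))
    (hi hs.1 hs2.1 (fun x hx => by rw [h0 x hx]; rfl))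
  exact h4.symm


/-! ### the field `hol'` -/

open scoped ComplexOrder in
/-- the flat form is nondegenerate -/
lemma isUnit_S {N w : ℕ} {S E : Matrix (Fin N) (Fin N) ℂ} (h : IsHS w S E) : IsUnit S.det := by
  have h1 : IsUnit (hodge w S E).det := (Matrix.isUnit_iff_isUnit_det _).1 h.hodge_posDef.isUnit
  have h2 : (hodge w S E).det = S.det * (weil w E).det := by
    unfold hodge; rw [Matrix.det_mul]
  rw [h2] at h1
  exact isUnit_of_mul_isUnit_left h1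

lemma psi_eq_nhds (B : Bumps k) (b : Fin k → ℂ) {x : ℂ} (hx : x ∉ B.K) :
    B.psi b =ᶠ[𝓝 x] fun y => y := by
  filter_upwards [B.isCompact_K.isClosed.isOpen_compl.mem_nhds hx] with y hy
  exact B.psi_eq_off hy b

lemma P_eq_one (B : Bumps k) (b : Fin k → ℂ) {x : ℂ} (hx : x ∉ B.K) : B.P b x = 1 := by
  have h1 : B.P b x = VCalc_442.dW (fun y : ℂ => y) 1 x :=
    VCalc_442.dW_congr (psi_eq_nhds B b hx) 1
  rw [h1, dW_id_one]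

/-- near a point outside the bumps the trivialisation is the identity -/
lemma tk_eq (D : LD V s₀) {x₁ : ℂ} (hx₁ : x₁ ∉ Q.A s₀) {z : Fin m → ℂ} {x : ℂ} (hz : z ∈ D.U)
    (hx : x ∉ Q.A s₀) (hK : x ∉ D.Bm.K) :
    tk Q (Tot.mk Q s₀ x₁ hx₁) (z, x) = (D.pt z x hz hx).1 := by
  have h1 : D.Ψ z x = x := D.Bm.psi_eq_off hK _
  have h2 : x ∉ Q.A (D.σ z) := by
    have := LD.Ψ_notMem hz hx
    rwa [h1] at this
  have h3 : ((z, x) : (Fin m → ℂ) × ℂ).2 ∉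
      Q.A ((ch (Tot.mk Q s₀ x₁ hx₁).1.1).symm ((z, x) : (Fin m → ℂ) × ℂ).1) := h2
  rw [tk_of h3]
  exact Tot.ext' rfl h1.symm

/-- the section in the frame at `(s₀, x₁)` -/
def Fz (V : Ipc735.VHS (m + 1) (Tot Q) N w) (f : S → ℂ → Fin N → ℂ) (q₁ : Tot Q)
    (z : Fin m → ℂ) (x : ℂ) : Fin N → ℂ := lV V.P (sec f) q₁ (tk Q q₁ (z, x))

/-- good neighbourhoods for `hol'` -/
structure Gd (D : LD V s₀) (f : S → ℂ → Fin N → ℂ) {x₁ : ℂ} (hx₁ : x₁ ∉ Q.A s₀)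
    (U₁ : Set (Fin m → ℂ)) (D₁ : Set ℂ) (C : ℝ) : Prop where
  opU : IsOpen U₁
  opD : IsOpen D₁
  cU : cp s₀ ∈ U₁
  cD : x₁ ∈ D₁
  hu : U₁ ⊆ hU D
  df : ∀ z ∈ U₁, DifferentiableAt ℂ (uT D f) z
  top : ∀ z ∈ U₁, (V.res (D.σ z)).Top (f (D.σ z))
  nA : ∀ x ∈ D₁, x ∉ Q.A s₀
  nK : ∀ x ∈ D₁, x ∉ D.Bm.K
  eq : ∀ z ∈ U₁, ∀ x ∈ D₁,
    Fz V f (Tot.mk Q s₀ x₁ hx₁) z x = cm (rP Q V.P s₀ x₁ x) *ᵥ D.fT f z x
  hol : ∀ z ∈ U₁, ∀ x ∈ D₁, DifferentiableAt ℂ (Fz V f (Tot.mk Q s₀ x₁ hx₁) z) x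
  ndc : ∀ x ∈ D₁, ∀ y ∈ D₁, (V.res s₀).P x₁ x * (V.res s₀).P x y = (V.res s₀).P x₁ y
  flS : ∀ x ∈ D₁, (V.res s₀).S x = (cm ((V.res s₀).P x₁ x))ᴴ * (V.res s₀).S x₁ *
    cm ((V.res s₀).P x₁ x)
  C0 : 0 < C
  bd : ∀ x ∈ D₁, ∀ u : Fin N → ℂ, ‖cm (rP Q V.P s₀ x₁ x) *ᵥ u‖ ^ 2 ≤
    C * ((pvOf (V.res s₀)).Gf x u u).re

theorem exists_Gd (D : LD V s₀) {x₁ : ℂ} (hx₁ : x₁ ∉ Q.A s₀) (hK : x₁ ∉ D.Bm.K)
    {f : S → ℂ → Fin N → ℂ} (hf : ∀ᶠ s in 𝓝 s₀, (V.res s).Top (f s))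
    (hd : ∀ᶠ z in 𝓝 (cp s₀), DifferentiableAt ℂ (uT D f) z) :
    ∃ U₁ D₁ C, Gd D f hx₁ U₁ D₁ C := by
  set q₁ : Tot Q := Tot.mk Q s₀ x₁ hx₁ with hq₁
  have hxX : x₁ ∈ ((Q.A s₀ : Set ℂ)ᶜ) := hx₁
  obtain ⟨W, hW, hPW⟩ := V.ndc q₁
  obtain ⟨Wf, hWf, hfr⟩ := LD.frame_nhds (D := D) D.center_mem hx₁
  obtain ⟨C, hC, hbd⟩ := (pvOf (V.res s₀)).bd hxX
  obtain ⟨Wn, hWn, hPn⟩ := (V.res s₀).ndc x₁ hxX
  have e1 : ∀ᶠ z in 𝓝 (cp s₀ : Fin m → ℂ), z ∈ hU D ∧ DifferentiableAt ℂ (uT D f) z ∧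
      (V.res (D.σ z)).Top (f (D.σ z)) := by
    filter_upwards [(isOpen_hU D).mem_nhds (mem_hU D), hd, ev_σ D hf] with z h1 h2 h3
    exact ⟨h1, h2, h3⟩
  have e2 : ∀ᶠ x in 𝓝 x₁, (x ∉ Q.A s₀ ∧ x ∉ D.Bm.K) ∧ x ∈ Wn ∧
      (V.res s₀).S x = (cm ((V.res s₀).P x₁ x))ᴴ * (V.res s₀).S x₁ * cm ((V.res s₀).P x₁ x) ∧
      ∀ u : Fin N → ℂ, ‖(pvOf (V.res s₀)).P x₁ x u‖ ^ 2 ≤
        C * ((pvOf (V.res s₀)).Gf x u u).re := by
    filter_upwards [eventually_notMem _ hx₁, D.Bm.isCompact_K.isClosed.isOpen_compl.mem_nhds hK,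
      hWn, (V.res s₀).flatS x₁ hx₁, hbd] with x h1 h2 h3 h4 h5
    exact ⟨⟨h1, h2⟩, h3, h4, fun u => (h5 u).1⟩
  have e3 : ∀ᶠ p in 𝓝 ((cp s₀, x₁) : (Fin m → ℂ) × ℂ), tk Q q₁ p ∈ W ∧ p ∈ Wf :=
    ((tk_tendsto Q q₁).eventually_mem hW).and hWf
  have e4 : ∀ᶠ p in 𝓝 ((cp s₀, x₁) : (Fin m → ℂ) × ℂ), (p.1 ∈ hU D ∧
      DifferentiableAt ℂ (uT D f) p.1 ∧ (V.res (D.σ p.1)).Top (f (D.σ p.1))) ∧
      ((p.2 ∉ Q.A s₀ ∧ p.2 ∉ D.Bm.K) ∧ p.2 ∈ Wn ∧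
      (V.res s₀).S p.2 = (cm ((V.res s₀).P x₁ p.2))ᴴ * (V.res s₀).S x₁ *
        cm ((V.res s₀).P x₁ p.2) ∧
      ∀ u : Fin N → ℂ, ‖(pvOf (V.res s₀)).P x₁ p.2 u‖ ^ 2 ≤
        C * ((pvOf (V.res s₀)).Gf p.2 u u).re) ∧ (tk Q q₁ p ∈ W ∧ p ∈ Wf) :=
    ((continuous_fst.tendsto ((cp s₀, x₁) : (Fin m → ℂ) × ℂ)).eventually e1).and
      (((continuous_snd.tendsto ((cp s₀, x₁) : (Fin m → ℂ) × ℂ)).eventually e2).and e3)
  rw [nhds_prod_eq] at e4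
  obtain ⟨pU, hpU, pD, hpD, hall⟩ := eventually_prod_iff.1 e4
  obtain ⟨U₁, hU₁, hopU, hcU⟩ := _root_.eventually_nhds_iff.1 hpU
  obtain ⟨D₁, hD₁, hopD, hcD⟩ := _root_.eventually_nhds_iff.1 hpD
  have key : ∀ z ∈ U₁, ∀ x ∈ D₁, _ := fun z hz x hx => hall (hU₁ z hz) (hD₁ x hx)
  have hnA : ∀ x ∈ D₁, x ∉ Q.A s₀ := fun x hx => (key _ hcU x hx).2.1.1.1
  have hnK : ∀ x ∈ D₁, x ∉ D.Bm.K := fun x hx => (key _ hcU x hx).2.1.1.2
  have hUU : ∀ z ∈ U₁, z ∈ hU D := fun z hz => (key z hz _ hcD).1.1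
  have hUD : ∀ z ∈ U₁, z ∈ D.U := fun z hz => half_sub D (hUU z hz)
  refine ⟨U₁, D₁, C, hopU, hopD, hcU, hcD, hUU, fun z hz => (key z hz _ hcD).1.2.1,
    fun z hz => (key z hz _ hcD).1.2.2, hnA, hnK, ?_, ?_, ?_, ?_, hC, ?_⟩
  · -- the formula in terms of `fT`
    intro z hz x hx
    have h1 := hfr (cp s₀, x₁) (mem_of_mem_nhds hWf) (z, x) (key z hz x hx).2.2.2
      D.center_mem hx₁ (hUD z hz) (hnA x hx)
    simp only at h1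
    have h2 : (D.pt (cp s₀) x₁ D.center_mem hx₁).1 = q₁ := by
      rw [D.pt_center hx₁]; rfl
    rw [h2, D.G_center, one_mul] at h1
    unfold Fz
    rw [tk_eq D hx₁ (hUD z hz) (hnA x hx) (hnK x hx), lV, h1, cm_mul]
    show _ = cm (rP Q V.P s₀ x₁ x) *ᵥ D.fT f z x
    rw [← Matrix.mulVec_mulVec]
    rfl
  · -- holomorphy in the fibre
    intro z hz x hx
    have hxz : x ∉ Q.A (D.σ z) := by
      have h3 := LD.Ψ_notMem (hUD z hz) (hnA x hx)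
      have h4 : D.Ψ z x = x := D.Bm.psi_eq_off (hnK x hx) _
      rwa [h4] at h3
    have h5 := (key z hz x hx).1.2.2.hol x hxz
    have h6 : Fz V f q₁ z =ᶠ[𝓝 x] fun y =>
        cm (V.P q₁ (tk Q q₁ (z, x))) *ᵥ lV (V.res (D.σ z)).P (f (D.σ z)) x y := by
      filter_upwards [hopD.mem_nhds hx, eventually_notMem _ hxz] with y hy hyz
      have h7 := hPW q₁ (mem_of_mem_nhds hW) _ (key z hz x hx).2.2.1 _ (key z hz y hy).2.2.1
      have t1 : ((z, x) : (Fin m → ℂ) × ℂ).2 ∉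
        Q.A ((ch q₁.1.1).symm ((z, x) : (Fin m → ℂ) × ℂ).1) := hxz
      have t2 : ((z, y) : (Fin m → ℂ) × ℂ).2 ∉
        Q.A ((ch q₁.1.1).symm ((z, y) : (Fin m → ℂ) × ℂ).1) := hyz
      have t3 : tk Q q₁ (z, x) = Tot.mk Q (D.σ z) x hxz := tk_of t1
      have t4 : tk Q q₁ (z, y) = Tot.mk Q (D.σ z) y hyz := tk_of t2
      unfold Fz lV
      rw [← h7, cm_mul, (V.isRes (D.σ z)).P, rP_of V.P hxz hyz, t3, t4, Matrix.mulVec_mulVec]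
      rfl
    refine DifferentiableAt.congr_of_eventuallyEq ?_ h6
    exact ((Matrix.mulVecLin (cm (V.P q₁ (tk Q q₁ (z, x))))).toContinuousLinearMap).differentiableAt.comp
      x h5.differentiableAt
  · intro x hx y hy
    exact hPn x₁ (mem_of_mem_nhds hWn) x (key _ hcU x hx).2.1.2.1 y (key _ hcU y hy).2.1.2.1
  · intro x hx
    exact (key _ hcU x hx).2.1.2.2.1
  · intro x hx u
    have h1 := (key _ hcU x hx).2.1.2.2.2 u
    rw [pvOf_P, (V.isRes s₀).P] at h1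
    exact h1


section test

variable {A : Finset ℂ} (R : PVHS A N w)

/-- the test section -/
def tst (x₁ : ℂ) (v₀ : Fin N → ℂ) (ζ : ℂ → ℂ) (x : ℂ) : Fin N → ℂ :=
  conj (ζ x) • (cm (R.P x₁ x)⁻¹ *ᵥ v₀)

theorem sm_tst {x₁ : ℂ} {D₁ : Set ℂ} (hD₁ : IsOpen D₁)
    (hP : ∀ x ∈ D₁, ∀ y ∈ D₁, R.P x₁ x * R.P x y = R.P x₁ y) (v₀ : Fin N → ℂ) {ζ : ℂ → ℂ}
    (hζ : ContDiff ℝ ∞ ζ) (hs : tsupport ζ ⊆ D₁) : R.Sm (tst R x₁ v₀ ζ) := by
  intro z hz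
  by_cases hzs : z ∈ tsupport ζ
  · have hzD := hs hzs
    have h1 : lV R.P (tst R x₁ v₀ ζ) z =ᶠ[𝓝 z] fun y => conj (ζ y) • (cm (R.P x₁ z)⁻¹ *ᵥ v₀) := by
      filter_upwards [hD₁.mem_nhds hzD] with y hy
      unfold lV tst
      rw [Matrix.mulVec_smul, Matrix.mulVec_mulVec, ← cm_mul, ← hP z hzD y hy]
      congr 4
      group
    refine ContDiffAt.congr_of_eventuallyEq ?_ h1
    exact ((Complex.conjCLE.contDiff.comp hζ).contDiffAt).smul contDiffAt_const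
  · have h1 : lV R.P (tst R x₁ v₀ ζ) z =ᶠ[𝓝 z] fun _ => 0 := by
      filter_upwards [(isClosed_tsupport ζ).isOpen_compl.mem_nhds hzs] with y hy
      have h2 : ζ y = 0 := image_eq_zero_of_notMem_tsupport hy
      unfold lV tst
      rw [h2]; simp
    exact contDiffAt_const.congr_of_eventuallyEq h1

theorem tst_pair {x₁ x : ℂ} (hS : R.S x = (cm (R.P x₁ x))ᴴ * R.S x₁ * cm (R.P x₁ x))
    (v₀ v : Fin N → ℂ) (ζ : ℂ → ℂ) :
    star (tst R x₁ v₀ ζ x) ⬝ᵥ R.S x *ᵥ v =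
      ζ x * (star v₀ ⬝ᵥ R.S x₁ *ᵥ (cm (R.P x₁ x) *ᵥ v)) := by
  unfold tst
  rw [hS, star_smul, smul_dotProduct, ← cm_star_dot, Matrix.mulVec_mulVec, cm_mul_cm_inv,
    Matrix.one_mulVec]
  simp

theorem coord_of_S {x₁ : ℂ} (hx₁ : x₁ ∉ A) (i : Fin N) (u : Fin N → ℂ) :
    star ((R.S x₁)⁻¹ *ᵥ Pi.single i 1) ⬝ᵥ R.S x₁ *ᵥ u = u i := by
  have h1 := isUnit_S (R.hs x₁ hx₁)
  have h2 := (R.hs x₁ hx₁).herm
  rw [Matrix.star_mulVec, ← Matrix.dotProduct_mulVec, Matrix.mulVec_mulVec,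
    Matrix.conjTranspose_nonsing_inv, h2.eq, Matrix.nonsing_inv_mul _ h1, Matrix.one_mulVec]
  have h3 : star (Pi.single i 1 : Fin N → ℂ) = Pi.single i 1 := by
    rw [Pi.star_single]; simp
  rw [h3, single_dotProduct, one_mul]

end test

variable {f : S → ℂ → Fin N → ℂ} {x₁ : ℂ} {hx₁ : x₁ ∉ Q.A s₀} {U₁ : Set (Fin m → ℂ)}
  {D₁ : Set ℂ} {C : ℝ}

/-- weak holomorphy in the base -/
theorem Gd.weak (g : Gd D f hx₁ U₁ D₁ C) {ζ : ℂ → ℂ} (hζ : ContDiff ℝ ∞ ζ)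
    (hc : HasCompactSupport ζ) (hs : tsupport ζ ⊆ D₁) (i : Fin N) :
    DifferentiableOn ℂ (fun c => ∫ x, ζ x * Fz V f (Tot.mk Q s₀ x₁ hx₁) c x i) U₁ := by
  set R := V.res s₀ with hR
  set v₀ : Fin N → ℂ := (R.S x₁)⁻¹ *ᵥ Pi.single i 1 with hv₀
  have hsm : R.Sm (tst R x₁ v₀ ζ) := sm_tst R g.opD g.ndc v₀ hζ hs
  have h0 : ∀ x ∉ tsupport ζ, tst R x₁ v₀ ζ x = 0 := by
    intro x hx
    have h2 : ζ x = 0 := image_eq_zero_of_notMem_tsupport hx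
    unfold tst
    rw [h2]; simp
  have hmem : (fun x => ((tst R x₁ v₀ ζ x, 0) : (Fin N → ℂ) × (Fin N → ℂ))) ∈
      (pvOf R).mb.dbl.A0 := by
    refine ⟨FB.sm_dbl.2 ⟨(sm_iff R _).2 hsm, sm_zero _⟩, tsupport ζ, ?_, hc, fun x hx => ?_⟩
    · intro x hx
      exact fun h => g.nA x (hs hx) h
    · show (tst R x₁ v₀ ζ x, (0 : Fin N → ℂ)) = 0
      rw [h0 x hx]; rfl
  set η : (pvOf R).mb.dbl.H0 := (pvOf R).mb.dbl.s0 _ hmem with hη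
  have key : ∀ c ∈ U₁, (∫ x, ζ x * Fz V f (Tot.mk Q s₀ x₁ hx₁) c x i) =
      - inner ℂ ((pvOf R).be (η : (pvOf R).L)) (uT D f c) := by
    intro c hcU
    rw [inner_be (rep_uT (g.hu hcU) (g.top c hcU)) η, ← integral_neg]
    refine integral_congr_ae (Eventually.of_forall fun x => ?_)
    have e1 : η.f x = (tst R x₁ v₀ ζ x, 0) := rfl
    simp only [e1]
    by_cases hx : x ∈ D₁
    · have e2 : (fF D f c x).1 = D.fT f c x := by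
        show D.Bm.P (D.b c) x • D.fT f c x = _
        rw [P_eq_one _ _ (g.nK x hx), one_smul]
      rw [e2, tst_pair R (g.flS x hx), hv₀, coord_of_S R hx₁ i, g.eq c hcU x hx,
        (V.isRes s₀).P]
      simp
    · have h2 : ζ x = 0 := image_eq_zero_of_notMem_tsupport fun h => hx (hs h)
      rw [h0 x fun h => hx (hs h), h2]
      simp
  have hdiff : DifferentiableOn ℂ
      (fun c => - inner ℂ ((pvOf R).be (η : (pvOf R).L)) (uT D f c)) U₁ := by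
    intro c hcU
    have h3 : DifferentiableAt ℂ
        (fun c => (innerSL ℂ ((pvOf R).be (η : (pvOf R).L))) (uT D f c)) c :=
      (innerSL ℂ ((pvOf R).be (η : (pvOf R).L))).differentiableAt.comp c (g.df c hcU)
    exact h3.neg.differentiableWithinAt
  exact hdiff.congr key

/-- local `L²` bound -/
theorem Gd.bound (g : Gd D f hx₁ U₁ D₁ C) {c₀ : Fin m → ℂ} (hc₀ : c₀ ∈ U₁) {K : Set ℂ}
    (hKD : K ⊆ D₁) (hK : IsCompact K) (i : Fin N) :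
    ∃ C' : ℝ≥0∞, C' < ⊤ ∧ ∀ᶠ c in 𝓝 c₀, ∫⁻ x in K, ‖Fz V f (Tot.mk Q s₀ x₁ hx₁) c x i‖ₑ ^ 2 ≤ C' := by
  have key : ∀ c ∈ U₁, ∫⁻ x in K, ‖Fz V f (Tot.mk Q s₀ x₁ hx₁) c x i‖ₑ ^ 2 ≤
      ENNReal.ofReal (C * ‖uT D f c‖ ^ 2) := by
    intro c hcU
    have hrep := rep_uT (g.hu hcU) (g.top c hcU)
    have hint := hrep.integrableOn
    have hX : IsOpen ((Q.A s₀ : Set ℂ)ᶜ) := (pvOf (V.res s₀)).op
    have hpt : ∀ x ∈ K, ‖Fz V f (Tot.mk Q s₀ x₁ hx₁) c x i‖ₑ ^ 2 ≤ ENNReal.ofReal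
        (C * ((pvOf (V.res s₀)).mb.dbl.G x (fF D f c x) (fF D f c x)).re) := by
      intro x hx
      have hxD := hKD hx
      have hxX : x ∈ ((Q.A s₀ : Set ℂ)ᶜ) := g.nA x hxD
      have h1 : ‖Fz V f (Tot.mk Q s₀ x₁ hx₁) c x i‖ ≤ ‖Fz V f (Tot.mk Q s₀ x₁ hx₁) c x‖ := norm_le_pi_norm _ i
      have h2 := g.bd x hxD (D.fT f c x)
      rw [← g.eq c hcU x hxD] at h2
      have h3 : ((pvOf (V.res s₀)).Gf x (D.fT f c x) (D.fT f c x)).re ≤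
          ((pvOf (V.res s₀)).mb.dbl.G x (fF D f c x) (fF D f c x)).re := by
        have e2 : (fF D f c x).1 = D.fT f c x := by
          show D.Bm.P (D.b c) x • D.fT f c x = _
          rw [P_eq_one _ _ (g.nK x hxD), one_smul]
        have e3 : (pvOf (V.res s₀)).mb.dbl.G x (fF D f c x) (fF D f c x) =
            (pvOf (V.res s₀)).Gf x (D.fT f c x) (D.fT f c x) +
            (pvOf (V.res s₀)).Gf x (fF D f c x).2 (fF D f c x).2 := by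
          rw [← e2]
          rfl
        rw [e3, Complex.add_re]
        have h4 : 0 ≤ ((pvOf (V.res s₀)).Gf x (fF D f c x).2 (fF D f c x).2).re :=
          (pvOf (V.res s₀)).mb.G_nonneg hxX _
        linarith
      have h5 : ‖Fz V f (Tot.mk Q s₀ x₁ hx₁) c x i‖ ^ 2 ≤
          C * ((pvOf (V.res s₀)).mb.dbl.G x (fF D f c x) (fF D f c x)).re := by
        calc ‖Fz V f (Tot.mk Q s₀ x₁ hx₁) c x i‖ ^ 2 ≤ ‖Fz V f (Tot.mk Q s₀ x₁ hx₁) c x‖ ^ 2 :=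
              pow_le_pow_left₀ (norm_nonneg _) h1 2
          _ ≤ C * ((pvOf (V.res s₀)).Gf x (D.fT f c x) (D.fT f c x)).re := h2
          _ ≤ _ := mul_le_mul_of_nonneg_left h3 g.C0.le
      rw [← ofReal_norm, ← ENNReal.ofReal_pow (norm_nonneg _)]
      exact ENNReal.ofReal_le_ofReal h5
    calc ∫⁻ x in K, ‖Fz V f (Tot.mk Q s₀ x₁ hx₁) c x i‖ₑ ^ 2
        ≤ ∫⁻ x in K, ENNReal.ofReal
          (C * ((pvOf (V.res s₀)).mb.dbl.G x (fF D f c x) (fF D f c x)).re) :=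
          setLIntegral_mono' hK.measurableSet hpt
      _ ≤ ∫⁻ x in ((Q.A s₀ : Set ℂ)ᶜ), ENNReal.ofReal
          (C * ((pvOf (V.res s₀)).mb.dbl.G x (fF D f c x) (fF D f c x)).re) :=
          lintegral_mono_set fun x hx => g.nA x (hKD hx)
      _ = ENNReal.ofReal (∫ x in ((Q.A s₀ : Set ℂ)ᶜ),
          C * ((pvOf (V.res s₀)).mb.dbl.G x (fF D f c x) (fF D f c x)).re) := by
          rw [ofReal_integral_eq_lintegral_ofReal (hint.const_mul C)]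
          refine (ae_restrict_iff' hX.measurableSet).2 (Eventually.of_forall fun x hx => ?_)
          exact mul_nonneg g.C0.le ((pvOf (V.res s₀)).mb.dbl.G_nonneg hx _)
      _ = ENNReal.ofReal (C * ‖uT D f c‖ ^ 2) := by
          rw [integral_const_mul, hrep.norm_sq]
  refine ⟨ENNReal.ofReal (C * (‖uT D f c₀‖ + 1) ^ 2), ENNReal.ofReal_lt_top, ?_⟩
  have h1 : ContinuousAt (uT D f) c₀ := (g.df c₀ hc₀).continuousAt
  have h2 : ∀ᶠ c in 𝓝 c₀, ‖uT D f c‖ < ‖uT D f c₀‖ + 1 :=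
    h1.norm.eventually_lt continuousAt_const (by simp)
  filter_upwards [h2, g.opU.mem_nhds hc₀] with c hc hcU
  refine (key c hcU).trans (ENNReal.ofReal_le_ofReal ?_)
  exact mul_le_mul_of_nonneg_left (pow_le_pow_left₀ (norm_nonneg _) hc.le 2) g.C0.le

/-- **the field `hol'`** -/
theorem hol'_field (D : LD V s₀) {x₁ : ℂ} (hx₁ : x₁ ∉ Q.A s₀) (hK : x₁ ∉ D.Bm.K)
    {f : S → ℂ → Fin N → ℂ} (hf : ∀ᶠ s in 𝓝 s₀, (V.res s).Top (f s))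
    (hd : ∀ᶠ z in 𝓝 (cp s₀), DifferentiableAt ℂ (uT D f) z) :
    HolAt (lV V.P (sec f) (Tot.mk Q s₀ x₁ hx₁)) (Tot.mk Q s₀ x₁ hx₁) := by
  obtain ⟨U₁, D₁, C, g⟩ := exists_Gd D hx₁ hK hf hd
  refine holAt_of_weak V.P f (Tot.mk Q s₀ x₁ hx₁) g.opU g.cU g.opD g.cD ?_ ?_ ?_
  · intro c hc i x hx
    exact (differentiableAt_pi.1 (g.hol c hc x hx) i).differentiableWithinAt
  · intro ζ h1 h2 h3 i
    exact g.weak h1 h2 h3 i
  · intro c₀ hc₀ K hKD hKc i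
    exact g.bound hc₀ hKD hKc i

end Crest.Agent.R276.TopHolD_735
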