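import Crest.Agent.R276.LocF_454
import Crest.Agent.R276.TopHolD_735

/-!
# R276, IPC-STEP (helper454): `loc : Loc` and `oneStep : OneStep`

The theorem of the fixed part of a relative intersection cohomology: for a polarised variation over
a family of punctured planes the parabolic cohomology of the fibres is a polarised variation, with
the `L²` top pieces.
-/

set_option autoImplicit false

noncomputable section

open Set Filter Topology MeasureTheory Matrix Metric
open scoped ContDiff ComplexConjugate

namespace Crest.Agent.R276.Step_454

open Crest.Agent.R271.Ho51 Crest.Agent.R276.Ipc735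

theorem holB {m k N w : ℕ} {S : Type} [TopologicalSpace S] [RDom m S] {Q : Punc S k}
    (V : Ipc735.VHS (m + 1) (Tot Q) N w) : HolB V :=
  fun _ D _ _ hx hK hf hd => TopHolD_735.hol'_field D hx hK hf hd

/-- **LOC** -/
theorem loc : Loc := loc_of fun _ _ _ _ _ _ _ _ _ _ V => holB V

/-- **the one dimensional step** -/
theorem oneStep : OneStep := oneStep_of_loc loc

end Crest.Agent.R276.Step_454
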