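import Mathlib
import Crest.Agent.R276.Skel_220
import Crest.Agent.R276.FlatTop_793
import Crest.Agent.R276.IpcRz_840
import Crest.Agent.R276.LocH_454
import Crest.Agent.R276.Mono_574
import Crest.Agent.R276.LNz_333

/-!
# Row 276 (S0419), helper793: `Skel_220.LFlat`

* `monoAll`, `lemN_of` : the inputs of `FlatTop_793`;
* `lflat_of` : `LemN → Skel_220.LFlat`;
* `lflat` : `Skel_220.LFlat` from (PV) (`PVAll` : 159's `PVH`, `PVG` for every saturated family).
-/

set_option autoImplicit false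
set_option linter.unusedSectionVars false

open Topology Filter MeasureTheory Matrix
open scoped ENNReal

noncomputable section

namespace Crest.Agent.R276.LFlat_793

open Crest.Agent.R271 Crest.Agent.R271.Ho51
open Crest.Agent.R271.Rd692 hiding evs
open Crest.Agent.R271.Defs710 hiding glue
open Crest.Agent.R276.Mod1_987 Crest.Agent.R276.FlatDefs_236 Crest.Agent.R276.FlatM_464
open Crest.Agent.R276.Ipc735 Crest.Agent.R276.Iter_840 Crest.Agent.R276.TowA_849
open Crest.Agent.R276.SkelDefs_220 Crest.Agent.R276.CInd_870 Crest.Agent.R276.SkelGeo_220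
open Crest.Agent.R276.FlatTop_793

/-! ### the inputs -/

theorem monoAll : MonoAll := fun M _ _ _ x => Mono_574.mono (PrpM_739.prp M) x

/-- (PV) for the metrics of LEMMA N (159), for every saturated family -/
def PVAll : Prop :=
  ∀ {L K : Type} [Field L] [Field K] [Algebra ℂ L] [Algebra ℂ K] [Algebra L K]
    [IsScalarTower ℂ L K] {m r : ℕ} (R : RMdl L K m r) (N s : ℕ) (u : Fin s → R.MK.B)
    (S : SatFam R N u), LNz_333.PVH S ∧ LNz_333.PVG S

theorem lemN_of (h : PVAll) : LemN := fun R N s u _ _ F =>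
  LNz_333.lineT F (h R N s u F.toSatFam).1 (h R N s u F.toSatFam).2

/-! ### the two forms of the CY line -/

section cyl

variable {L K : Type} [Field L] [Field K] [Algebra ℂ L] [Algebra ℂ K] [Algebra L K]
  [IsScalarTower ℂ L K] {m r : ℕ} {R : RMdl L K m r} {N s : ℕ}

lemma lV_smul {X : Type*} {n : ℕ} (P : X → X → GL (Fin n) ℤ) (φ : X → Fin n → ℂ) (c : ℂ)
    (z y : X) : lV P (fun z => c • φ z) z y = c • lV P φ z y := by
  unfold lV
  rw [Matrix.mulVec_smul]

/-- 236's `CYL` from 327's, after rescaling -/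
theorem cyl_of {u : Fin s → R.MK.B} (HS : SatFam R N u) {n wt : ℕ} {V : VHS m R.ML.Pts n wt}
    {om : R.ML.Pts → Fin n → ℂ} (h : VLevi_327.CYL V om) {c : ℝ} (hc : 0 < c)
    (hnrm : ∀ z, VLevi_327.hn V z (om z) = c * DR R N u z) :
    Restr_236.CYL R N u V (fun z => ((Real.sqrt (N / c) : ℝ) : ℂ) • om z) := by
  have hN : (0 : ℝ) < N := by
    have := HS.N_ge
    exact_mod_cast (by omega : 0 < N)
  set κ : ℝ := Real.sqrt (N / c) with hκ
  have hκ0 : 0 < κ := Real.sqrt_pos.2 (by positivity)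
  have hlv : ∀ z, lV V.P (fun z => (κ : ℂ) • om z) z = fun y => (κ : ℂ) • lV V.P om z y :=
    fun z => funext fun y => lV_smul _ _ _ _ _
  have hol' : ∀ z, HolAt (lV V.P (fun z => (κ : ℂ) • om z) z) z := by
    intro z
    rw [hlv]
    have h2 : AnalyticAt ℂ (lV V.P om z ∘ (ch z).symm) (cp z) := h.hol z
    exact (analyticAt_const (v := (κ : ℂ))).smul h2
  refine { top := fun z => ?_, hol := fun z => ?_, nrm := fun z => ?_, par := fun z j => ?_ }
  · show V.E z *ᵥ ((κ : ℂ) • om z) = (wt : ℂ) • ((κ : ℂ) • om z)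
    rw [Matrix.mulVec_smul, h.eig z, smul_comm]
  · exact hol' z
  · have h1 : Top8_815.hnsq V z ((κ : ℂ) • om z) = κ ^ 2 * VLevi_327.hn V z (om z) := by
      have h2 : Top8_815.hnsq V z ((κ : ℂ) • om z) = VLevi_327.hn V z ((κ : ℂ) • om z) := rfl
      rw [h2]
      unfold VLevi_327.hn
      rw [Desc_327.qf_smul, Complex.norm_real, Real.norm_of_nonneg hκ0.le]
    show ENNReal.ofReal (Top8_815.hnsq V z ((κ : ℂ) • om z)) = _
    rw [h1, hnrm, hκ, Real.sq_sqrt (by positivity)]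
    have h3 : (N : ℝ) / c * (c * DR R N u z) = N * DR R N u z := by field_simp
    rw [h3, ENNReal.ofReal_mul hN.le, ENNReal.ofReal_natCast]
    unfold DR
    rw [ENNReal.ofReal_toReal (HS.D_fin z)]
  · obtain ⟨b, hb⟩ := h.par z j
    refine ⟨b, ?_⟩
    have h1 : Par_425.Dv V.P (fun z => (κ : ℂ) • om z) j z = (κ : ℂ) • Par_425.Dv V.P om j z := by
      rw [Par_425.Dv_eq (hol' z), Par_425.Dv_eq (h.hol z), hlv]
      have h2 : AnalyticAt ℂ (lV V.P om z ∘ (ch z).symm) (cp z) := h.hol z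
      have h3 : (fun y => (κ : ℂ) • lV V.P om z y) ∘ (ch z).symm =
          (κ : ℂ) • (lV V.P om z ∘ (ch z).symm) := rfl
      rw [h3, fderiv_const_smul h2.differentiableAt]
      rfl
    rw [h1]
    have h2 : Par_425.Dv V.P om j z = dM V.P V.E j z *ᵥ om z + b • om z := hb
    rw [h2, smul_add, Matrix.mulVec_smul, smul_comm b]

end cyl

/-! ### `LFlat` -/

/-- **`LFlat`** from LEMMA N -/
theorem lflat_of (hN : LemN) : Skel_220.LFlat := by
  intro T L K _ _ _ _ _ _ _ _ _ _ ρ a r W N d e e₀ s σ w hOK ε hε hsko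
  obtain ⟨-, H₂, hσ, hw, hsko⟩ := hsko
  obtain ⟨X, -, hX⟩ := hOK.geo
  have HS : SatFam (rm H₂) N (fr W.LK σ hσ) := X.sat
  refine ⟨hOK.H₁, H₂, hσ, hw, ?_⟩
  have HC : Restr_236.CYL (rm H₂) N (fr W.LK σ hσ) X.V
      (fun z => ((Real.sqrt (N / X.c) : ℝ) : ℂ) • X.om z) := cyl_of X.sat X.cyl X.c_pos X.nrm
  have hθ : ∀ (z : W.ML.Pts) (k : Fin a), dM X.V.P X.V.E (Fin.natAdd ρ k) z *ᵥ
      (((Real.sqrt (N / X.c) : ℝ) : ℂ) • X.om z) = 0 := by
    intro z k
    have h1 := (hX z (Pi.single (Fin.natAdd ρ k) 1)).1 (fun i => by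
      rw [Pi.single_eq_of_ne]
      intro h
      have := congrArg Fin.val h
      simp only [Fin.val_castAdd, Fin.val_natAdd] at this
      have := i.2
      omega)
    have h2 : dM X.V.P X.V.E (Fin.natAdd ρ k) z = 0 := by
      unfold VLevi_327.thV at h1
      rw [Finset.sum_eq_single (Fin.natAdd ρ k)] at h1
      · simpa using h1
      · intro b _ hb
        rw [Pi.single_eq_of_ne hb, zero_smul]
      · simp
    rw [h2, Matrix.zero_mulVec]
  obtain ⟨f, hf0, hf, hfi⟩ := hOK.ind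
  obtain ⟨i0, ι, -, hι⟩ := FlatC_464.exists_ratio σ f hf0 hf hfi
  have hCY : IsCY H₂ N (fr W.LK σ hσ) (DR W.LK N (fr W.LK σ hσ)) := by
    intro z
    have hD := HS.D_pos z
    have hD' := HS.D_fin z
    exact ⟨ENNReal.toReal_pos hD.ne' hD',
      (FlatC_464.fintS_dl H₂ (fr W.LK σ hσ) z (by positivity)).trans
        (ENNReal.ofReal_toReal hD').symm⟩
  exact flat_top hOK.conn₁ hOK.conn₂ monoAll hN Step_454.oneStep stepRz_holds stepRzAct_holds HS HC
    hθ hε.le hCY ⟨i0, ι, hι⟩ hsko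

/-- **`LFlat`** from (PV) -/
theorem lflat_pv (h : PVAll) : Skel_220.LFlat := lflat_of (lemN_of h)

end Crest.Agent.R276.LFlat_793
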