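import Crest.Agent.R276.PshA_29

/-!
# Row 276 (helper29): plurisubharmonicity from AREA means

`circle_of_area` : an upper semicontinuous function of one complex variable below its area means
is below its circle means; `psh_of_area`; conversely `area_le`.
-/

set_option autoImplicit false
set_option linter.unusedSectionVars false

open MeasureTheory Set Metric Filter Topology
open scoped ENNReal ContDiff

noncomputable section

namespace Crest.Agent.R276.PshC_29

open Crest.Agent.R275.FL606 Crest.Agent.R271.Ho51 Crest.Agent.R273.Reg_844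
  Crest.Agent.R276.PshA_29

/-- area mean over the unit disc -/
def ar (F : ℂ → ℝ) : ℝ := Real.pi⁻¹ * ∫ w in ball (0 : ℂ) 1, F w

lemma volume_ball_real (z : ℂ) {r : ℝ} (hr : 0 ≤ r) : volume.real (ball z r) = Real.pi * r ^ 2 := by
  rw [Measure.real, Complex.volume_ball, ENNReal.toReal_mul, ENNReal.toReal_pow,
    ENNReal.toReal_ofReal hr]
  simp [mul_comm]

lemma ar_const (c : ℝ) : ar (fun _ => c) = c := by
  unfold ar
  rw [setIntegral_const, volume_ball_real 0 zero_le_one, smul_eq_mul, one_pow, mul_one,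
    ← mul_assoc, inv_mul_cancel₀ Real.pi_ne_zero, one_mul]

lemma integrableOn_ball {F : ℂ → ℝ} (hF : Measurable F) {K : ℝ} (hK : ∀ w, |F w| ≤ K) (r : ℝ) :
    IntegrableOn F (ball (0 : ℂ) r) := by
  refine Measure.integrableOn_of_bounded (M := K) measure_ball_lt_top.ne
    hF.aestronglyMeasurable ?_
  exact Eventually.of_forall fun w => by rw [Real.norm_eq_abs]; exact hK w

lemma ar_scale (F : ℂ → ℝ) {r : ℝ} (hr : 0 < r) :
    ar (fun w => F (r • w)) = (Real.pi * r ^ 2)⁻¹ * ∫ w in ball (0 : ℂ) r, F w := by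
  unfold ar
  rw [Measure.setIntegral_comp_smul (volume : Measure ℂ) F (ball (0 : ℂ) 1) hr.ne', smul_unitBall hr.ne', Complex.finrank_real_complex,
    abs_of_pos (by positivity), smul_eq_mul, Real.norm_eq_abs, abs_of_pos hr, mul_inv]
  ring

/-- smooth radially decreasing kernel -/
theorem exists_ker_dec : ∃ κ : ℂ → ℝ, Ker volume κ ∧ ContDiff ℝ ∞ κ ∧
    ∀ v w : ℂ, ‖v‖ ≤ ‖w‖ → κ w ≤ κ v := by
  set k0 : ℂ → ℝ := fun v => Real.smoothTransition (1 - ‖v‖ ^ 2) with hk0
  have hs0 : ContDiff ℝ ∞ k0 :=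
    Real.smoothTransition.contDiff.comp (contDiff_const.sub (contDiff_norm_sq ℝ))
  have hsupp0 : ∀ v : ℂ, 1 ≤ ‖v‖ → k0 v = 0 := by
    intro v hv
    apply Real.smoothTransition.zero_of_nonpos
    nlinarith
  have hcs0 : HasCompactSupport k0 := by
    refine HasCompactSupport.of_support_subset_isCompact (isCompact_closedBall (0 : ℂ) 1) ?_
    intro v hv
    rw [mem_closedBall, dist_zero_right]
    by_contra h
    exact hv (hsupp0 v (not_le.1 h).le)
  have hnn0 : ∀ v, 0 ≤ k0 v := fun v => Real.smoothTransition.nonneg _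
  have hpos : 0 < ∫ v, k0 v := by
    refine hs0.continuous.integral_pos_of_hasCompactSupport_nonneg_nonzero hcs0 hnn0 (x := 0) ?_
    have : 0 < k0 0 := Real.smoothTransition.pos_of_pos (by simp)
    exact this.ne'
  set c : ℝ := (∫ v, k0 v)⁻¹ with hc
  have hc0 : 0 < c := inv_pos.2 hpos
  refine ⟨fun v => c * k0 v, ⟨fun v => mul_nonneg hc0.le (hnn0 v),
    (contDiff_const.mul hs0).continuous, fun v hv => ?_, fun w v hw => ?_, ?_⟩,
    contDiff_const.mul hs0, fun v w hvw => ?_⟩
  · simp only [hsupp0 v hv, mul_zero]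
  · simp only [hk0, smul_eq_mul, norm_mul, hw, one_mul]
  · rw [integral_const_mul, hc, inv_mul_cancel₀ hpos.ne']
  · refine mul_le_mul_of_nonneg_left (Real.smoothTransition.monotone ?_) hc0.le
    have := norm_nonneg v
    nlinarith

/-- radially decreasing open sets are balls -/
lemma eq_ball {A : Set ℂ} (hA : IsOpen A) (hne : A.Nonempty)
    (hdec : ∀ v w : ℂ, ‖v‖ ≤ ‖w‖ → w ∈ A → v ∈ A) (hb : ∀ v ∈ A, ‖v‖ < 1) :
    ∃ ρ : ℝ, 0 < ρ ∧ ρ ≤ 1 ∧ A = ball 0 ρ := by
  have hbdd : BddAbove (norm '' A) := ⟨1, by rintro _ ⟨v, hv, rfl⟩; exact (hb v hv).le⟩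
  have hne' : (norm '' A).Nonempty := hne.image _
  have hkey : ∀ v ∈ A, ∃ v' ∈ A, ‖v‖ < ‖v'‖ := by
    intro v hv
    obtain ⟨ε, hε, hball⟩ := Metric.isOpen_iff.1 hA v hv
    rcases eq_or_ne v 0 with h0 | h0
    · refine ⟨((ε / 2 : ℝ) : ℂ), hball ?_, ?_⟩
      · rw [mem_ball, h0, dist_zero_right, Complex.norm_real, Real.norm_eq_abs,
          abs_of_pos (by positivity)]
        linarith
      · rw [h0, norm_zero, Complex.norm_real, Real.norm_eq_abs, abs_of_pos (by positivity)]
        positivity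
    · have hv0 : 0 < ‖v‖ := norm_pos_iff.2 h0
      refine ⟨v + ((ε / (2 * ‖v‖) : ℝ) : ℂ) * v, hball ?_, ?_⟩
      · rw [mem_ball, dist_eq_norm, add_sub_cancel_left, norm_mul, Complex.norm_real,
          Real.norm_eq_abs, abs_of_pos (by positivity)]
        have : ε / (2 * ‖v‖) * ‖v‖ = ε / 2 := by field_simp
        rw [this]; linarith
      · have h1 : v + ((ε / (2 * ‖v‖) : ℝ) : ℂ) * v = ((1 + ε / (2 * ‖v‖) : ℝ) : ℂ) * v := by
          push_cast; ring
        rw [h1, norm_mul, Complex.norm_real, Real.norm_eq_abs, abs_of_pos (by positivity)]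
        have : 0 < ε / (2 * ‖v‖) * ‖v‖ := by positivity
        linarith
  refine ⟨sSup (norm '' A), ?_, csSup_le hne' (by rintro _ ⟨v, hv, rfl⟩; exact (hb v hv).le), ?_⟩
  · obtain ⟨v, hv⟩ := hne
    obtain ⟨v', hv', hlt⟩ := hkey v hv
    exact lt_of_lt_of_le (lt_of_le_of_lt (norm_nonneg _) hlt)
      (le_csSup hbdd (mem_image_of_mem _ hv'))
  · ext v
    rw [mem_ball, dist_zero_right]
    constructor
    · intro hv
      obtain ⟨v', hv', hlt⟩ := hkey v hv
      exact hlt.trans_le (le_csSup hbdd (mem_image_of_mem _ hv'))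
    · intro hv
      obtain ⟨_, ⟨v', hv', rfl⟩, hlt⟩ := exists_lt_of_lt_csSup hne' hv
      exact hdec v v' hlt.le hv'

/-- mean value inequality for a radially decreasing kernel -/
lemma le_ker_of_area {κ : ℂ → ℝ} (hκ : Ker volume κ)
    (hdec : ∀ v w : ℂ, ‖v‖ ≤ ‖w‖ → κ w ≤ κ v) {h : ℂ → ℝ} (hh : Measurable h) {K : ℝ}
    (hK : ∀ w, |h w| ≤ K)
    (harea : ∀ r : ℝ, 0 < r → r ≤ 1 → h 0 ≤ ar (fun w => h (r • w))) :
    h 0 ≤ ∫ v, κ v * h v := by
  set H : ℂ → ℝ := fun v => h v - h 0 with hH
  have hHm : Measurable H := hh.sub measurable_const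
  have hHK : ∀ w, |H w| ≤ K + K := fun w => by
    simp only [hH]
    exact (abs_sub _ _).trans (add_le_add (hK w) (hK 0))
  obtain ⟨B, hB0, hB⟩ := hκ.exists_bound volume
  -- every superlevel set gives a nonnegative integral
  have hlev : ∀ s : ℝ, 0 ≤ s → 0 ≤ ∫ v in {v | s < κ v}, H v := by
    intro s hs
    rcases ({v | s < κ v} : Set ℂ).eq_empty_or_nonempty with he | hne
    · rw [he]; simp
    obtain ⟨ρ, hρ, hρ1, heq⟩ := eq_ball (isOpen_lt continuous_const hκ.cont) hne
      (fun v w hvw hw => lt_of_lt_of_le (show s < κ w from hw) (hdec v w hvw))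
      (fun v hv => by
        by_contra hcon
        have : s < κ v := hv
        rw [hκ.supp v (not_lt.1 hcon)] at this
        linarith)
    rw [heq]
    have h1 := harea ρ hρ hρ1
    rw [ar_scale h hρ] at h1
    simp only [hH]
    rw [integral_sub (integrableOn_ball hh hK ρ) (integrableOn_ball measurable_const
      (K := |h 0|) (fun _ => le_rfl) ρ), setIntegral_const,
      volume_ball_real 0 hρ.le, smul_eq_mul]
    have h2 : 0 < Real.pi * ρ ^ 2 := by have := Real.pi_pos; positivity
    have h3 := mul_le_mul_of_nonneg_left h1 h2.le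
    rw [← mul_assoc, mul_inv_cancel₀ h2.ne', one_mul] at h3
    linarith
  -- layer cake
  have hcake : ∀ v, κ v * H v = ∫ s in Ioc 0 B, (if s < κ v then H v else 0) := by
    intro v
    have h1 : ∫ s in Ioc 0 B, (if s < κ v then H v else 0) =
        ∫ s in Ioc 0 B, (Ioo 0 (κ v)).indicator (fun _ => H v) s := by
      refine setIntegral_congr_fun measurableSet_Ioc fun s hs => ?_
      by_cases h2 : s < κ v
      · simp only [if_pos h2]
        rw [indicator_of_mem (show s ∈ Ioo 0 (κ v) from ⟨hs.1, h2⟩)]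
      · simp only [if_neg h2]
        rw [indicator_of_notMem (fun h3 => h2 h3.2)]
    rw [h1, setIntegral_indicator measurableSet_Ioo]
    have h2 : Ioc 0 B ∩ Ioo 0 (κ v) = Ioo 0 (κ v) := by
      apply inter_eq_self_of_subset_right
      intro s hs
      exact ⟨hs.1, hs.2.le.trans (hB v)⟩
    rw [h2, setIntegral_const, Measure.real, Real.volume_Ioo, sub_zero,
      ENNReal.toReal_ofReal (hκ.nonneg v), smul_eq_mul]
  have hFm : Measurable (fun q : ℂ × ℝ => if q.2 < κ q.1 then H q.1 else 0) :=
    Measurable.ite (measurableSet_lt measurable_snd (hκ.cont.measurable.comp measurable_fst))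
      (hHm.comp measurable_fst) measurable_const
  have hFi : Integrable (fun q : ℂ × ℝ => if q.2 < κ q.1 then H q.1 else 0)
      ((volume.restrict (ball (0 : ℂ) 1)).prod (volume.restrict (Ioc 0 B))) := by
    have hfin : IsFiniteMeasure ((volume : Measure ℂ).restrict (ball (0 : ℂ) 1)) :=
      ⟨by rw [Measure.restrict_apply_univ]; exact measure_ball_lt_top⟩
    refine Integrable.of_bound hFm.aestronglyMeasurable (K + K) (Eventually.of_forall fun q => ?_)
    rw [Real.norm_eq_abs]
    split_ifs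
    · exact hHK _
    · rw [abs_zero]; exact (abs_nonneg _).trans (hHK 0)
  have hmain : 0 ≤ ∫ v, κ v * H v := by
    have h1 : ∫ v, κ v * H v = ∫ v in ball (0 : ℂ) 1, κ v * H v := by
      refine (setIntegral_eq_integral_of_forall_compl_eq_zero fun v hv => ?_).symm
      rw [mem_ball, dist_zero_right, not_lt] at hv
      rw [hκ.supp v hv, zero_mul]
    rw [h1]
    simp only [hcake]
    rw [integral_integral_swap (f := fun v s => if s < κ v then H v else 0) hFi]
    refine setIntegral_nonneg measurableSet_Ioc fun s hs => ?_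
    have h2 : ∫ v in ball (0 : ℂ) 1, (if s < κ v then H v else 0) = ∫ v in {v | s < κ v}, H v := by
      have hms : MeasurableSet {v | s < κ v} := (isOpen_lt continuous_const hκ.cont).measurableSet
      have h3 : (fun v => if s < κ v then H v else 0) = {v | s < κ v}.indicator H := by
        funext v
        simp [indicator]
      rw [h3, setIntegral_indicator hms]
      congr 2
      apply inter_eq_self_of_subset_right
      intro v hv
      rw [mem_ball, dist_zero_right]
      by_contra hcon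
      have : s < κ v := hv
      rw [hκ.supp v (not_lt.1 hcon)] at this
      linarith [hs.1]
    rw [h2]
    exact hlev s hs.1.le
  have hi : Integrable (fun v => κ v * h v) := by
    refine Integrable.mono' ((hκ.integrable volume).mul_const K)
      (hκ.cont.measurable.mul hh).aestronglyMeasurable (Eventually.of_forall fun v => ?_)
    rw [Real.norm_eq_abs, abs_mul, abs_of_nonneg (hκ.nonneg v)]
    exact mul_le_mul_of_nonneg_left (hK v) (hκ.nonneg v)
  have h4 : ∫ v, κ v * H v = (∫ v, κ v * h v) - h 0 := by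
    have h5 : (fun v => κ v * H v) = fun v => κ v * h v - κ v * h 0 := by
      funext v; simp only [hH]; ring
    rw [h5, integral_sub hi ((hκ.integrable volume).mul_const _), integral_mul_const, hκ.int,
      one_mul]
  linarith

/-- the Laplacian is nonnegative if the circle means are large on a sequence of circles -/
lemma lap_nonneg_freq {f : ℂ → ℝ} {z : ℂ} (hf : ContDiffAt ℝ 2 f z)
    (hav : ∃ᶠ r : ℝ in 𝓝[>] 0, f z ≤ av f z (r • (1 : ℂ))) :
    0 ≤ fderiv ℝ (fderiv ℝ f) z 1 1 + fderiv ℝ (fderiv ℝ f) z Complex.I Complex.I := by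
  set Λ : ℂ → ℝ := fun z =>
    fderiv ℝ (fderiv ℝ f) z 1 1 + fderiv ℝ (fderiv ℝ f) z Complex.I Complex.I with hΛ
  have hΛc : ContinuousAt Λ z := by
    have h1 : ContinuousAt (fderiv ℝ (fderiv ℝ f)) z := by
      have h2 : ContDiffAt ℝ 1 (fderiv ℝ f) z := hf.fderiv_right (m := 1) (by norm_num)
      exact (h2.fderiv_right (m := 0) (by norm_num)).continuousAt
    exact ((h1.clm_apply continuousAt_const).clm_apply continuousAt_const).add
      ((h1.clm_apply continuousAt_const).clm_apply continuousAt_const)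
  by_contra hne
  have hneg : Λ z < 0 := not_le.1 hne
  have hnear : ∀ᶠ x in 𝓝 z, ContDiffAt ℝ 2 f x ∧ Λ x < Λ z / 2 :=
    (hf.eventually (by simp)).and (hΛc.eventually (gt_mem_nhds (by linarith)))
  obtain ⟨ρ, hρ, hρb⟩ := Metric.eventually_nhds_iff_ball.1 hnear
  have hr1 : ∀ᶠ r : ℝ in 𝓝[>] 0, r < ρ := nhdsWithin_le_nhds (gt_mem_nhds hρ)
  obtain ⟨r, hr, hrle, hr0⟩ := (hav.and_eventually (hr1.and self_mem_nhdsWithin)).exists
  have hr0 : 0 < r := hr0
  have hin : ∀ w : ℂ, ‖w‖ ≤ 1 → z + w • (r • (1 : ℂ)) ∈ ball z ρ := by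
    intro w hw
    rw [Metric.mem_ball, dist_eq_norm, add_sub_cancel_left, norm_smul, norm_smul,
      Real.norm_eq_abs, abs_of_pos hr0, norm_one, mul_one]
    nlinarith [norm_nonneg w]
  set ψ : ℂ → ℝ := fun w => (fun x => - f x) (z + w • (r • (1 : ℂ))) with hψ
  have hψs : ∀ w ∈ closedBall (0 : ℂ) 1, ContDiffAt ℝ 2 ψ w := by
    intro w hw
    rw [mem_closedBall, dist_zero_right] at hw
    have h1 : ContDiff ℝ 2 (fun w : ℂ => z + w • (r • (1 : ℂ))) := by fun_prop
    have h2 : ContDiffAt ℝ 2 (fun x => - f x) (z + w • (r • (1 : ℂ))) := (hρb _ (hin w hw)).1.neg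
    exact ContDiffAt.comp (g := fun x => - f x) w h2 h1.contDiffAt
  have hfd : ∀ x ∈ ball z ρ, fderiv ℝ (fderiv ℝ (fun x => - f x)) x =
      - fderiv ℝ (fderiv ℝ f) x := by
    intro x _
    have e1 : fderiv ℝ (fun x => - f x) = fun x => - fderiv ℝ f x := by
      funext x
      exact fderiv_neg
    rw [e1]
    exact fderiv_neg
  have hL : ∀ w ∈ closedBall (0:ℂ) 1, -(4 * (r ^ 2 * Λ z / 8)) ≤
      fderiv ℝ (fderiv ℝ ψ) w 1 1 + fderiv ℝ (fderiv ℝ ψ) w Complex.I Complex.I := by
    intro w hw
    rw [mem_closedBall, dist_zero_right] at hw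
    have h1 := (hρb _ (hin w hw)).2
    have h2 : ContDiffAt ℝ 2 (fun x => - f x) (z + w • (r • (1 : ℂ))) := (hρb _ (hin w hw)).1.neg
    rw [hψ, snd_line_at h2, snd_line_at h2, hfd _ (hin w hw)]
    have e1 : (1:ℂ) • (r • (1 : ℂ)) = r • (1 : ℂ) := one_smul _ _
    have e2 : Complex.I • (r • (1 : ℂ)) = r • Complex.I := by
      rw [smul_comm, smul_eq_mul, mul_one]
    rw [e1, e2]
    simp only [_root_.neg_apply, map_smul, smul_eq_mul, _root_.smul_apply]
    have e3 : (r * (r * -(((fderiv ℝ (fderiv ℝ f) (z + w * r • 1)) 1) 1))) +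
        (r * (r * -(((fderiv ℝ (fderiv ℝ f) (z + w * r • 1)) Complex.I) Complex.I)))
        = - (r ^ 2 * Λ (z + w * r • 1)) := by
      simp only [hΛ]; ring
    rw [e3]
    have hr2 : 0 < r ^ 2 := by positivity
    simp only [smul_eq_mul] at h1
    nlinarith
  have hmain := Crest.Agent.R275.FL884.le_circleAverage_of_contDiffAt hψs hL
  rw [av_eq_circleAverage] at hr
  have e4 : Real.circleAverage ψ 0 1 =
      - Real.circleAverage (fun w : ℂ => f (z + w • (r • (1 : ℂ)))) 0 1 := by
    have h5 := Real.circleAverage_fun_smul (a := (-1 : ℝ))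
      (f := fun w : ℂ => f (z + w • (r • (1 : ℂ)))) (c := 0) (R := 1)
    simp only [smul_eq_mul, neg_mul, one_mul] at h5
    simpa [hψ] using h5
  have e5 : ψ 0 = - f z := by simp [hψ]
  rw [e4, e5] at hmain
  have : 0 < r ^ 2 := by positivity
  nlinarith

/-- rotation invariance of circle means -/
lemma av_rot (f : ℂ → ℝ) (z w : ℂ) : av f z w = av f z (((‖w‖ : ℝ)) • (1 : ℂ)) := by
  rw [av_eq_circleAverage, av_eq_circleAverage]
  rcases eq_or_ne w 0 with h0 | h0
  · simp [h0]
  rw [Real.circleAverage_eq_integral_add (f := fun u : ℂ => f (z + u • (‖w‖ • (1 : ℂ)))) w.arg,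
    Real.circleAverage_def]
  congr 1
  refine intervalIntegral.integral_congr fun θ _ => ?_
  simp only [circleMap_zero, Complex.ofReal_one, one_mul, smul_eq_mul]
  congr 2
  have h1 := Complex.norm_mul_exp_arg_mul_I w
  have h2 : Complex.exp (((θ + w.arg : ℝ) : ℂ) * Complex.I) =
      Complex.exp (θ * Complex.I) * Complex.exp (w.arg * Complex.I) := by
    rw [← Complex.exp_add]; push_cast; ring_nf
  rw [h2]
  have h3 : (‖w‖ • (1 : ℂ)) = (‖w‖ : ℂ) := by simp
  rw [h3, mul_assoc, mul_comm (Complex.exp (w.arg * Complex.I)), h1]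

/-- the area mean is the mean of the circle means -/
lemma ar_eq_av {f : ℂ → ℝ} (hf : Measurable f) {K : ℝ} (hK : ∀ w, |f w| ≤ K) (z : ℂ) (s : ℝ) :
    ar (fun w => f (z + s • w)) = ar (fun w => av f z (s • w)) := by
  unfold ar
  congr 1
  have hfin : IsFiniteMeasure ((volume : Measure ℂ).restrict (ball (0 : ℂ) 1)) :=
    ⟨by rw [Measure.restrict_apply_univ]; exact measure_ball_lt_top⟩
  have hm : Measurable (fun q : ℂ × ℝ => f (z + ang q.2 • (s • q.1))) := by
    refine hf.comp ?_
    have := continuous_ang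
    exact (by fun_prop : Continuous (fun q : ℂ × ℝ => z + ang q.2 • (s • q.1))).measurable
  have hFi : Integrable (fun q : ℂ × ℝ => f (z + ang q.2 • (s • q.1)))
      ((volume.restrict (ball (0 : ℂ) 1)).prod circ) :=
    Integrable.of_bound hm.aestronglyMeasurable K (Eventually.of_forall fun q => by
      rw [Real.norm_eq_abs]; exact hK _)
  unfold av
  rw [integral_integral_swap (f := fun w θ => f (z + ang θ • (s • w))) hFi]
  have e2 : ∀ θ : ℝ, ∫ w in ball (0 : ℂ) 1, f (z + ang θ • (s • w)) =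
      ∫ w in ball (0 : ℂ) 1, f (z + s • w) := by
    intro θ
    have hmp := Crest.Agent.R275.FL884.measurePreserving_rot (volume : Measure ℂ) (ang θ) (norm_ang θ)
    have hemb : MeasurableEmbedding (fun v : ℂ => ang θ • v) := by
      have : Function.Injective (fun v : ℂ => ang θ • v) := smul_right_injective ℂ (ang_ne θ)
      exact (continuous_const_smul (ang θ)).measurable.measurableEmbedding this
    have h1 := hmp.setIntegral_preimage_emb hemb (fun w => f (z + s • w)) (ball (0 : ℂ) 1)
    have h2 : (fun v : ℂ => ang θ • v) ⁻¹' ball (0 : ℂ) 1 = ball (0 : ℂ) 1 := by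
      ext v
      simp [mem_ball, dist_zero_right, norm_ang]
    rw [h2] at h1
    rw [← h1]
    refine setIntegral_congr_fun measurableSet_ball fun w _ => ?_
    simp only [smul_comm (ang θ) s w]
  simp only [e2]
  simp

lemma exists_abs_bound {X : Type*} [TopologicalSpace X] {f : X → ℝ} {C : Set X} (hC : IsCompact C)
    (husc : ∀ z ∈ C, ∀ c, f z < c → ∀ᶠ y in 𝓝 z, f y < c)
    (hbdd : ∀ z ∈ C, ∃ c : ℝ, ∀ᶠ y in 𝓝 z, c ≤ f y) : ∃ K, ∀ y ∈ C, |f y| ≤ K := by
  refine hC.induction_on (p := fun S => ∃ K : ℝ, ∀ y ∈ S, |f y| ≤ K) ⟨1, by simp⟩ ?_ ?_ ?_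
  · rintro s t hst ⟨r, h⟩
    exact ⟨r, fun x hx => h x (hst hx)⟩
  · rintro s t ⟨r, h⟩ ⟨r', h'⟩
    refine ⟨max r r', fun x hx => ?_⟩
    rcases hx with hx | hx
    · exact (h x hx).trans (le_max_left _ _)
    · exact (h' x hx).trans (le_max_right _ _)
  · intro x hx
    obtain ⟨c, hc⟩ := hbdd x hx
    have h1 := husc x hx (f x + 1) (by linarith)
    refine ⟨{y | c ≤ f y ∧ f y < f x + 1}, mem_nhdsWithin_of_mem_nhds (hc.and h1),
      max |c| |f x + 1|, ?_⟩
    rintro y ⟨hy1, hy2⟩
    rw [abs_le]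
    constructor
    · have := neg_abs_le c
      have := le_max_left |c| |f x + 1|
      linarith
    · have := le_abs_self (f x + 1)
      have := le_max_right |c| |f x + 1|
      linarith

lemma exists_ge_ar {F : ℂ → ℝ} (hF : Measurable F) {K : ℝ} (hK : ∀ w, |F w| ≤ K) :
    ∃ w : ℂ, ‖w‖ < 1 ∧ w ≠ 0 ∧ ar F ≤ F w := by
  have h0 : (volume : Measure ℂ).restrict (ball (0 : ℂ) 1) ≠ 0 := by
    intro h
    have h1 : (volume : Measure ℂ).restrict (ball (0 : ℂ) 1) univ = 0 := by rw [h]; rfl
    rw [Measure.restrict_apply_univ] at h1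
    exact (measure_ball_pos volume (0 : ℂ) one_pos).ne' h1
  have hfin : IsFiniteMeasure ((volume : Measure ℂ).restrict (ball (0 : ℂ) 1)) :=
    ⟨by rw [Measure.restrict_apply_univ]; exact measure_ball_lt_top⟩
  have hN : (volume : Measure ℂ).restrict (ball (0 : ℂ) 1) ({0} ∪ (ball (0 : ℂ) 1)ᶜ) = 0 := by
    rw [measure_union_null_iff]
    constructor
    · exact le_antisymm ((Measure.restrict_apply_le _ _).trans (by simp)) zero_le
    · rw [Measure.restrict_apply measurableSet_ball.compl, compl_inter_self, measure_empty]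
  obtain ⟨w, hw, hle⟩ := exists_notMem_null_average_le h0
    (integrableOn_ball hF hK 1) hN
  rw [mem_union, not_or, mem_compl_iff, not_not, mem_ball, dist_zero_right] at hw
  refine ⟨w, hw.2, hw.1, le_trans (le_of_eq ?_) hle⟩
  unfold ar
  rw [average_eq, smul_eq_mul, Measure.real, Measure.restrict_apply_univ]
  have h1 := volume_ball_real 0 zero_le_one
  rw [one_pow, mul_one, Measure.real] at h1
  rw [h1]

/-- **area means ⇒ circle means** (one complex variable) -/
theorem circle_of_area {U : ℂ → ℝ} {O : Set ℂ} (hO : IsOpen O) (hsub : closedBall (0 : ℂ) 1 ⊆ O)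
    (husc : ∀ z ∈ O, ∀ c, U z < c → ∀ᶠ y in 𝓝 z, U y < c)
    (hbdd : ∀ z ∈ O, ∃ c : ℝ, ∀ᶠ y in 𝓝 z, c ≤ U y)
    (harea : ∀ (z : ℂ) (r : ℝ), 0 < r → closedBall z r ⊆ O → U z ≤ ar (fun w => U (z + r • w))) :
    U 0 ≤ Real.circleAverage U 0 1 := by
  obtain ⟨δ₀, hδ₀, hthick⟩ := (isCompact_closedBall (0 : ℂ) 1).exists_thickening_subset_open hO hsub
  have hball : ball (0 : ℂ) (1 + δ₀) ⊆ O := by
    refine Subset.trans ?_ hthick
    intro z hz
    rw [mem_ball, dist_zero_right] at hz
    rcases le_or_gt ‖z‖ 1 with h | h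
    · exact self_subset_thickening hδ₀ _ (by rwa [mem_closedBall, dist_zero_right])
    · rw [mem_thickening_iff]
      have hz0 : 0 < ‖z‖ := by linarith
      refine ⟨((‖z‖⁻¹ : ℝ) : ℂ) * z, ?_, ?_⟩
      · rw [mem_closedBall, dist_zero_right, norm_mul, Complex.norm_real, Real.norm_eq_abs,
          abs_of_pos (by positivity), inv_mul_cancel₀ hz0.ne']
      · rw [dist_eq_norm]
        have h2 : z - ((‖z‖⁻¹ : ℝ) : ℂ) * z = (((1 - ‖z‖⁻¹ : ℝ)) : ℂ) * z := by push_cast; ring
        rw [h2, norm_mul, Complex.norm_real, Real.norm_eq_abs, abs_of_nonneg (by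
          have : ‖z‖⁻¹ ≤ 1 := inv_le_one_of_one_le₀ h.le
          linarith), sub_mul, inv_mul_cancel₀ hz0.ne']
        linarith
  set δ : ℝ := δ₀ / 4 with hδ
  have hδ0 : 0 < δ := by positivity
  set N : Set ℂ := ball 0 (1 + 3 * δ) with hN
  have hNO : closedBall (0 : ℂ) (1 + 3 * δ) ⊆ O :=
    (closedBall_subset_ball (by rw [hδ]; linarith)).trans hball
  obtain ⟨K₀, hK₀⟩ := exists_abs_bound (isCompact_closedBall (0 : ℂ) (1 + 3 * δ))
    (fun z hz => husc z (hNO hz)) (fun z hz => hbdd z (hNO hz))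
  set K := max K₀ 0 with hK
  set g : ℂ → ℝ := N.indicator U with hg
  have hgf : ∀ y ∈ N, g y = U y := fun y hy => indicator_of_mem hy _
  have hgK : ∀ y, |g y| ≤ K := by
    intro y
    by_cases hy : y ∈ N
    · rw [hgf y hy]
      exact (hK₀ y (ball_subset_closedBall hy)).trans (le_max_left _ _)
    · simp only [hg, indicator_of_notMem hy, abs_zero]; exact le_max_right _ _
  have hgm : Measurable g := by
    apply measurable_of_Iio
    intro c
    have h1 : IsOpen {y | y ∈ N ∧ U y < c} := by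
      rw [isOpen_iff_mem_nhds]
      rintro y ⟨hy1, hy2⟩
      exact (isOpen_ball.eventually_mem hy1).and (husc y (hNO (ball_subset_closedBall hy1)) c hy2)
    have h2 : g ⁻¹' Iio c = {y | y ∈ N ∧ U y < c} ∪ (Nᶜ ∩ {_y | (0 : ℝ) < c}) := by
      ext y
      by_cases hy : y ∈ N
      · simp [hg, hy]
      · simp [hg, hy]
    rw [h2]
    exact h1.measurableSet.union (measurableSet_ball.compl.inter (MeasurableSet.const _))
  -- area means of `g`
  have hgA : ∀ (z : ℂ) (r : ℝ), ‖z‖ ≤ 1 + 2 * δ → 0 < r → r < δ →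
      g z ≤ ar (fun w => g (z + r • w)) := by
    intro z r hz hr hrδ
    have hcl : closedBall z r ⊆ N := by
      intro y hy
      rw [mem_closedBall, dist_eq_norm] at hy
      rw [hN, mem_ball, dist_zero_right]
      calc ‖y‖ = ‖(y - z) + z‖ := by rw [sub_add_cancel]
        _ ≤ ‖y - z‖ + ‖z‖ := norm_add_le _ _
        _ < _ := by linarith
    rw [hgf z (hcl (mem_closedBall_self hr.le))]
    refine (harea z r hr (hcl.trans (ball_subset_closedBall.trans hNO))).trans (le_of_eq ?_)
    unfold ar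
    congr 1
    refine setIntegral_congr_fun measurableSet_ball fun w hw => ?_
    rw [mem_ball, dist_zero_right] at hw
    refine (hgf _ (hcl ?_)).symm
    rw [mem_closedBall, dist_eq_norm, add_sub_cancel_left, norm_smul, Real.norm_eq_abs,
      abs_of_pos hr]
    nlinarith
  obtain ⟨κ, hκ, hs, hdec⟩ := exists_ker_dec
  have hsm : ∀ {ε : ℝ}, 0 < ε → ∀ y, ContDiffAt ℝ ∞ (regF volume κ ε g) y := fun hε y =>
    contDiffAt_regF volume hκ hs hgm hε one_pos (fun x _ => hgK x)
  have hcontV : ∀ {ε : ℝ}, 0 < ε → Continuous (regF volume κ ε g) := fun hε =>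
    continuous_iff_continuousAt.2 fun y => (hsm hε y).continuousAt
  have hintV : ∀ (ε : ℝ) (z : ℂ), Integrable (fun v => κ v * g (z + (ε : ℂ) • v)) := by
    intro ε z
    refine Integrable.mono' ((hκ.integrable volume).mul_const K)
      (hκ.cont.measurable.mul (hgm.comp ((measurable_const_add z).comp
        (measurable_const_smul _)))).aestronglyMeasurable (Eventually.of_forall fun v => ?_)
    rw [Real.norm_eq_abs, abs_mul, abs_of_nonneg (hκ.nonneg v)]
    exact mul_le_mul_of_nonneg_left (hgK _) (hκ.nonneg v)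
  have hVK : ∀ (ε : ℝ) (z : ℂ), |regF volume κ ε g z| ≤ K := by
    intro ε z
    unfold regF
    refine (norm_integral_le_integral_norm (μ := volume)
      (fun v => κ v * g (z + (ε : ℂ) • v))).trans ?_
    calc ∫ v, ‖κ v * g (z + (ε : ℂ) • v)‖ ≤ ∫ v, κ v * K := by
          refine integral_mono (hintV ε z).norm ((hκ.integrable volume).mul_const K) fun v => ?_
          show ‖κ v * g (z + (ε : ℂ) • v)‖ ≤ κ v * K
          rw [Real.norm_eq_abs, abs_mul, abs_of_nonneg (hκ.nonneg v)]
          exact mul_le_mul_of_nonneg_left (hgK _) (hκ.nonneg v)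
      _ = K := by rw [integral_mul_const, hκ.int, one_mul]
  -- (i)
  have hle : ∀ {ε : ℝ}, 0 < ε → ε < δ → ∀ z : ℂ, ‖z‖ ≤ 1 + 2 * δ → g z ≤ regF volume κ ε g z := by
    intro ε hε hεδ z hz
    have h1 := le_ker_of_area hκ hdec (h := fun v => g (z + (ε : ℂ) • v))
      (hgm.comp ((measurable_const_add z).comp (measurable_const_smul _))) (fun w => hgK _)
      (fun r hr hr1 => by
        have h2 := hgA z (ε * r) hz (by positivity) (by nlinarith)
        simp only [smul_zero, add_zero]
        refine h2.trans (le_of_eq ?_)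
        congr 1; funext w
        congr 2
        simp only [Complex.real_smul, smul_eq_mul]
        push_cast; ring)
    unfold regF
    simpa only [smul_zero, add_zero] using h1
  -- (ii)
  have hVA : ∀ {ε : ℝ}, 0 < ε → ε < δ → ∀ z : ℂ, ‖z‖ ≤ 1 → ∀ s : ℝ, 0 < s → s < δ →
      regF volume κ ε g z ≤ ar (fun w => regF volume κ ε g (z + s • w)) := by
    intro ε hε hεδ z hz s hs0 hsδ
    have hfin : IsFiniteMeasure ((volume : Measure ℂ).restrict (ball (0 : ℂ) 1)) :=
      ⟨by rw [Measure.restrict_apply_univ]; exact measure_ball_lt_top⟩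
    have hm : Measurable (fun q : ℂ × ℂ => κ q.1 * g (z + s • q.2 + (ε : ℂ) • q.1)) :=
      (hκ.cont.measurable.comp measurable_fst).mul (hgm.comp
        (by fun_prop : Continuous (fun q : ℂ × ℂ => z + s • q.2 + (ε : ℂ) • q.1)).measurable)
    have hFi : Integrable (fun q : ℂ × ℂ => κ q.1 * g (z + s • q.2 + (ε : ℂ) • q.1))
        ((volume : Measure ℂ).prod (volume.restrict (ball (0 : ℂ) 1))) := by
      have h1 : Integrable (fun q : ℂ × ℂ => κ q.1 * K)
          ((volume : Measure ℂ).prod (volume.restrict (ball (0 : ℂ) 1))) := by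
        have := ((hκ.integrable volume).mul_const K).mul_prod (ν := volume.restrict (ball (0 : ℂ) 1))
          (integrable_const (1 : ℝ))
        simpa using this
      refine h1.mono' hm.aestronglyMeasurable (Eventually.of_forall fun q => ?_)
      rw [Real.norm_eq_abs, abs_mul, abs_of_nonneg (hκ.nonneg _)]
      exact mul_le_mul_of_nonneg_left (hgK _) (hκ.nonneg _)
    have h1 : ar (fun w => regF volume κ ε g (z + s • w)) =
        ∫ v, κ v * ar (fun w => g (z + (ε : ℂ) • v + s • w)) := by
      unfold ar regF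
      rw [← integral_integral_swap (f := fun v w => κ v * g (z + s • w + (ε : ℂ) • v)) hFi,
        ← integral_const_mul]
      congr 1; funext v
      rw [integral_const_mul, ← mul_assoc, mul_comm (Real.pi⁻¹), mul_assoc]
      congr 2
      refine setIntegral_congr_fun measurableSet_ball fun w _ => ?_
      show g (z + s • w + (ε : ℂ) • v) = g (z + (ε : ℂ) • v + s • w)
      congr 1; ring
    rw [h1]
    unfold regF
    have hI : Integrable (fun v => κ v * ar (fun w => g (z + (ε : ℂ) • v + s • w))) := by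
      have h2 := hFi.integral_prod_left
      refine (h2.const_mul Real.pi⁻¹).congr (Eventually.of_forall fun v => ?_)
      unfold ar
      simp only
      rw [integral_const_mul, ← mul_assoc, mul_comm (Real.pi⁻¹), mul_assoc]
      congr 2
      refine setIntegral_congr_fun measurableSet_ball fun w _ => ?_
      show g (z + s • w + (ε : ℂ) • v) = g (z + (ε : ℂ) • v + s • w)
      congr 1; ring
    refine integral_mono (hintV ε z) hI fun v => ?_
    show κ v * g (z + (ε : ℂ) • v) ≤ κ v * ar (fun w => g (z + (ε : ℂ) • v + s • w))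
    by_cases hv : κ v = 0
    · simp [hv]
    refine mul_le_mul_of_nonneg_left (hgA _ s ?_ hs0 hsδ) (hκ.nonneg v)
    have h3 : ‖v‖ < 1 := Ker.supp_lt hκ hv
    calc ‖z + (ε : ℂ) • v‖ ≤ ‖z‖ + ‖(ε : ℂ) • v‖ := norm_add_le _ _
      _ ≤ 1 + 2 * δ := by
          rw [norm_smul, Complex.norm_real, Real.norm_eq_abs, abs_of_pos hε]
          nlinarith
  -- (iii), (iv)
  have hstep : ∀ {ε : ℝ}, 0 < ε → ε < δ →
      regF volume κ ε g 0 ≤ Real.circleAverage (regF volume κ ε g) 0 1 := by
    intro ε hε hεδ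
    have h2 : ∀ y, ContDiffAt ℝ 2 (regF volume κ ε g) y := fun y =>
      (hsm hε y).of_le (by norm_cast)
    have h1 := Crest.Agent.R275.FL884.le_circleAverage_of_contDiffAt
      (ψ := regF volume κ ε g) (c := 0) (fun w _ => h2 w)
      (fun z hz => by
        rw [mem_closedBall, dist_zero_right] at hz
        rw [mul_zero, neg_zero]
        apply lap_nonneg_freq (h2 z)
        rw [(nhdsGT_basis (0 : ℝ)).frequently_iff]
        intro s₀ hs₀
        set s := min s₀ (δ / 2) with hs'
        have hs0 : 0 < s := lt_min hs₀ (by positivity)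
        have hsδ : s < δ := (min_le_right _ _).trans_lt (by linarith)
        have h3 := hVA hε hεδ z hz s hs0 hsδ
        rw [ar_eq_av (hcontV hε).measurable (hVK ε) z s] at h3
        have hmeas : Measurable (fun w : ℂ => av (regF volume κ ε g) z (s • w)) := by
          unfold av
          have h4 : StronglyMeasurable (fun q : ℂ × ℝ =>
              regF volume κ ε g (z + ang q.2 • (s • q.1))) := by
            have := continuous_ang
            exact ((hcontV hε).comp (by fun_prop : Continuous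
              (fun q : ℂ × ℝ => z + ang q.2 • (s • q.1)))).stronglyMeasurable
          exact h4.integral_prod_right.measurable
        have hbound : ∀ w : ℂ, |av (regF volume κ ε g) z (s • w)| ≤ K := by
          intro w
          unfold av
          have h5 := norm_integral_le_of_norm_le_const (μ := circ) (C := K)
            (f := fun θ => regF volume κ ε g (z + ang θ • (s • w)))
            (Eventually.of_forall fun θ => by rw [Real.norm_eq_abs]; exact hVK ε _)
          rwa [probReal_univ, mul_one, Real.norm_eq_abs] at h5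
        obtain ⟨w, hw1, hw0, hw⟩ := exists_ge_ar hmeas hbound
        refine ⟨‖s • w‖, ⟨?_, ?_⟩, ?_⟩
        · exact norm_pos_iff.2 (smul_ne_zero hs0.ne' hw0)
        · rw [norm_smul, Real.norm_eq_abs, abs_of_pos hs0]
          have : s ≤ s₀ := min_le_left _ _
          nlinarith [norm_nonneg w]
        · rw [← av_rot]
          exact h3.trans hw)
    simpa using h1
  -- (v) the limit
  set ε : ℕ → ℝ := fun k => δ / 2 * (1 / ((k : ℝ) + 1)) with hε
  have hε0 : ∀ k, 0 < ε k := fun k => by simp only [hε]; positivity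
  have hεr : ∀ k, ε k < δ := by
    intro k
    have h1 : 1 / ((k : ℝ) + 1) ≤ 1 := by
      rw [div_le_one (by positivity)]
      have : (0 : ℝ) ≤ k := by positivity
      linarith
    simp only [hε]
    nlinarith
  have hεt : Tendsto ε atTop (𝓝 0) := by
    have := tendsto_one_div_add_atTop_nhds_zero_nat.const_mul (δ / 2)
    simpa only [mul_zero] using this
  have hmemN : ∀ y : ℂ, ‖y‖ ≤ 1 → y ∈ N := fun y hy => by
    rw [hN, mem_ball, dist_zero_right]; linarith
  have hlim : ∀ y : ℂ, ‖y‖ ≤ 1 → Tendsto (fun k => regF volume κ (ε k) g y) atTop (𝓝 (g y)) := by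
    intro y hy
    have hyN : y ∈ N := hmemN y hy
    rw [tendsto_order]
    constructor
    · intro a ha
      exact Eventually.of_forall fun k => ha.trans_le (hle (hε0 k) (hεr k) y (by linarith))
    · intro a ha
      obtain ⟨c, hc1, hc2⟩ := exists_between ha
      rw [hgf y hyN] at hc1
      have h1 : ∀ᶠ x in 𝓝 y, g x < c := by
        filter_upwards [isOpen_ball.mem_nhds hyN,
          husc y (hNO (ball_subset_closedBall hyN)) c hc1] with x hx1 hx2
        rwa [hgf x hx1]
      obtain ⟨δ', hδ', hb⟩ := Metric.eventually_nhds_iff_ball.1 h1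
      filter_upwards [hεt.eventually (gt_mem_nhds hδ')] with k hk
      refine lt_of_le_of_lt ?_ hc2
      exact regF_le volume hκ hgm (B := univ) (fun x _ => hgK x) (hε0 k) (subset_univ _)
        fun x hx => (hb x (ball_subset_ball hk.le hx)).le
  have hav : Tendsto (fun k => Real.circleAverage (regF volume κ (ε k) g) 0 1) atTop
      (𝓝 (Real.circleAverage g 0 1)) := by
    have e : ∀ F : ℂ → ℝ, Real.circleAverage F 0 1 = ∫ θ, F (ang θ) ∂circ := by
      intro F
      have h1 := av_eq_circleAverage (E := ℂ) F 0 1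
      simp only [smul_eq_mul, mul_one, zero_add] at h1
      rw [← h1]
      simp [av]
    have e' : (fun k => Real.circleAverage (regF volume κ (ε k) g) 0 1) =
        fun k => ∫ θ, regF volume κ (ε k) g (ang θ) ∂circ := funext fun k => e _
    rw [e', e g]
    refine tendsto_integral_of_dominated_convergence (fun _ => K) (fun k => ?_)
      (integrable_const K) (fun k => ?_) ?_
    · exact ((hcontV (hε0 k)).comp continuous_ang).aestronglyMeasurable
    · exact Eventually.of_forall fun θ => by rw [Real.norm_eq_abs]; exact hVK _ _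
    · exact Eventually.of_forall fun θ => hlim _ (norm_ang θ).le
  have hfin : g 0 ≤ Real.circleAverage g 0 1 := by
    refine ge_of_tendsto' hav fun k => ?_
    exact (hle (hε0 k) (hεr k) 0 (by simp; positivity)).trans (hstep (hε0 k) (hεr k))
  rw [hgf 0 (hmemN 0 (by simp))] at hfin
  refine hfin.trans (le_of_eq ?_)
  apply Real.circleAverage_congr_sphere
  intro w hw
  rw [abs_one, mem_sphere, dist_zero_right] at hw
  exact hgf w (hmemN w hw.le)

section mani

variable {n : ℕ} {M : Type*} [TopologicalSpace M] [RDom n M]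

lemma SM_of_area {f : (Fin n → ℂ) → ℝ} {B : Set (Fin n → ℂ)} (hB : IsOpen B)
    (husc : ∀ z ∈ B, ∀ c, f z < c → ∀ᶠ y in 𝓝 z, f y < c)
    (hbdd : ∀ z ∈ B, ∃ c : ℝ, ∀ᶠ y in 𝓝 z, c ≤ f y)
    (harea : ∀ z v : Fin n → ℂ, (∀ w : ℂ, ‖w‖ ≤ 1 → z + w • v ∈ B) →
      f z ≤ ar (fun w => f (z + w • v))) : SM 0 f B := by
  intro z v hd
  have hline : Continuous (fun w : ℂ => z + w • v) := by fun_prop
  have h1 := circle_of_area (U := fun w : ℂ => f (z + w • v)) (O := {w : ℂ | z + w • v ∈ B})
    (hB.preimage hline) (fun w hw => by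
      rw [mem_closedBall, dist_zero_right] at hw
      exact hd w hw)
    (fun w hw c hc => hline.continuousAt.eventually (husc _ hw c hc))
    (fun w hw => by
      obtain ⟨c, hc⟩ := hbdd _ hw
      exact ⟨c, hline.continuousAt.eventually hc⟩)
    (fun w0 r hr hsub => by
      have key : ∀ w : ℂ, z + (w0 + r • w) • v = (z + w0 • v) + w • ((r : ℂ) • v) := by
        intro w
        rw [add_smul, smul_smul, add_assoc]
        congr 3
        simp [mul_comm]
      have h2 := harea (z + w0 • v) ((r : ℂ) • v) (fun w hw => by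
        rw [← key]
        apply hsub
        rw [mem_closedBall, dist_eq_norm, add_sub_cancel_left, norm_smul, Real.norm_eq_abs,
          abs_of_pos hr]
        nlinarith)
      simp only [key]
      exact h2)
  simpa using h1

/-- **psh from area means** (all discs in charts) -/
theorem psh_of_area {ψ : M → ℝ} (husc : UpperSemicontinuous ψ)
    (hbdd : ∀ x, ∃ c : ℝ, ∀ᶠ y in 𝓝 x, c ≤ ψ y)
    (harea : ∀ e : OpenPartialHomeomorph M (Fin n → ℂ), IsCh e → ∀ z v : Fin n → ℂ,
      (∀ w : ℂ, ‖w‖ ≤ 1 → z + w • v ∈ e.target) →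
        ψ (e.symm z) ≤ ar (fun w => ψ (e.symm (z + w • v)))) : PSH ψ := by
  refine ⟨husc, hbdd, fun e he => SM_of_area e.open_target (fun z hz c hc => ?_)
    (fun z hz => ?_) (harea e he)⟩
  · have h1 : Tendsto e.symm (𝓝 z) (𝓝 (e.symm z)) := e.symm.continuousAt (by simpa using hz)
    exact h1.eventually (husc (e.symm z) c hc)
  · obtain ⟨c, hc⟩ := hbdd (e.symm z)
    have h1 : Tendsto e.symm (𝓝 z) (𝓝 (e.symm z)) := e.symm.continuousAt (by simpa using hz)
    exact ⟨c, h1.eventually hc⟩

/-- **psh from area means** (small discs) -/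
theorem psh_of_area_local {ψ : M → ℝ} (husc : UpperSemicontinuous ψ)
    (hbdd : ∀ x, ∃ c : ℝ, ∀ᶠ y in 𝓝 x, c ≤ ψ y)
    (harea : ∀ x : M, ∃ r : ℝ, 0 < r ∧ ball (cp x) r ⊆ (ch x).target ∧ ∀ z v : Fin n → ℂ,
      (∀ w : ℂ, ‖w‖ ≤ 1 → z + w • v ∈ ball (cp x) r) →
        ψ ((ch x).symm z) ≤ ar (fun w => ψ ((ch x).symm (z + w • v)))) : PSH ψ := by
  refine psh_of_local husc hbdd fun x => ?_
  obtain ⟨r, hr, hsub, h⟩ := harea x
  refine ⟨r, hr, SM_of_area isOpen_ball (fun z hz c hc => ?_) (fun z hz => ?_) h⟩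
  · have h1 : Tendsto (ch x).symm (𝓝 z) (𝓝 ((ch x).symm z)) :=
      (ch x).symm.continuousAt (by simpa using hsub hz)
    exact h1.eventually (husc _ c hc)
  · obtain ⟨c, hc⟩ := hbdd ((ch x).symm z)
    have h1 : Tendsto (ch x).symm (𝓝 z) (𝓝 ((ch x).symm z)) :=
      (ch x).symm.continuousAt (by simpa using hsub hz)
    exact ⟨c, h1.eventually hc⟩

lemma ar_mono {F G : ℂ → ℝ} (hF : IntegrableOn F (ball (0 : ℂ) 1))
    (hG : IntegrableOn G (ball (0 : ℂ) 1)) (h : ∀ w : ℂ, ‖w‖ < 1 → F w ≤ G w) : ar F ≤ ar G := by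
  unfold ar
  refine mul_le_mul_of_nonneg_left ?_ (inv_nonneg.2 Real.pi_pos.le)
  exact setIntegral_mono_on hF hG measurableSet_ball fun w hw => h w (by simpa using hw)

/-- psh functions are below their area means -/
theorem psh_area_le {ψ : M → ℝ} (h : PSH ψ) {e : OpenPartialHomeomorph M (Fin n → ℂ)} (he : IsCh e)
    {z v : Fin n → ℂ} (hd : ∀ w : ℂ, ‖w‖ ≤ 1 → z + w • v ∈ e.target) :
    ψ (e.symm z) ≤ ar (fun w => ψ (e.symm (z + w • v))) := by
  have hline : Continuous (fun w : ℂ => z + w • v) := by fun_prop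
  set O : Set ℂ := (fun w : ℂ => z + w • v) ⁻¹' e.target with hO
  have hOo : IsOpen O := e.open_target.preimage hline
  set F : ℂ → ℝ := fun w => ψ (e.symm (z + w • v)) with hF
  set G : ℂ → ℝ := (ball (0 : ℂ) 1).indicator F with hG
  have hsub : ball (0 : ℂ) 1 ⊆ O := fun w hw => by
    rw [mem_ball, dist_zero_right] at hw
    exact hd w hw.le
  obtain ⟨K, hK⟩ := h.exists_bound (isCompact_disc_chart hd)
  have hGF : ∀ w : ℂ, ‖w‖ < 1 → G w = F w := fun w hw =>
    indicator_of_mem (by rwa [mem_ball, dist_zero_right]) _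
  have hGK : ∀ w, |G w| ≤ max K 0 := by
    intro w
    by_cases hw : w ∈ ball (0 : ℂ) 1
    · have hw' : ‖w‖ < 1 := by rwa [mem_ball, dist_zero_right] at hw
      rw [hGF w hw']
      exact (hK _ ⟨w, by rw [mem_closedBall, dist_zero_right]; exact hw'.le, rfl⟩).trans
        (le_max_left _ _)
    · simp only [hG, indicator_of_notMem hw, abs_zero]; exact le_max_right _ _
  have hGm : Measurable G := by
    apply measurable_of_Iio
    intro c
    have hcont : ContinuousOn (fun w : ℂ => e.symm (z + w • v)) O :=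
      e.symm.continuousOn.comp hline.continuousOn fun w hw => hw
    have h1 : IsOpen (ball (0 : ℂ) 1 ∩ (fun w : ℂ => e.symm (z + w • v)) ⁻¹' {x | ψ x < c}) :=
      (hcont.mono hsub).isOpen_inter_preimage isOpen_ball (h.usc.isOpen_preimage c)
    have h2 : G ⁻¹' Iio c = (ball (0 : ℂ) 1 ∩ (fun w : ℂ => e.symm (z + w • v)) ⁻¹'
        {x | ψ x < c}) ∪ ((ball (0 : ℂ) 1)ᶜ ∩ {_y | (0 : ℝ) < c}) := by
      ext y
      by_cases hy : y ∈ ball (0 : ℂ) 1
      · simp only [hG, mem_preimage, indicator_of_mem hy, mem_union, mem_inter_iff, hy, true_and,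
          mem_compl_iff, not_true, false_and, or_false]
        rfl
      · simp only [hG, mem_preimage, indicator_of_notMem hy, mem_union, mem_inter_iff, hy,
          mem_compl_iff, not_false_iff, true_and, false_and, false_or]
        rfl
    rw [h2]
    exact h1.measurableSet.union (measurableSet_ball.compl.inter (MeasurableSet.const _))
  have hFG : ar F = ar G := by
    unfold ar
    congr 1
    refine setIntegral_congr_fun measurableSet_ball fun w hw => ?_
    rw [mem_ball, dist_zero_right] at hw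
    exact (hGF w hw).symm
  have h1 := ar_eq_av hGm hGK 0 1
  simp only [one_smul, zero_add] at h1
  rw [hFG, h1]
  have hmeas : Measurable (fun w : ℂ => av G 0 w) := by
    unfold av
    have h4 : StronglyMeasurable (fun q : ℂ × ℝ => G (0 + ang q.2 • q.1)) := by
      have := continuous_ang
      exact (hGm.comp (by fun_prop : Continuous
        (fun q : ℂ × ℝ => 0 + ang q.2 • q.1)).measurable).stronglyMeasurable
    exact h4.integral_prod_right.measurable
  have hbound : ∀ w : ℂ, |av G 0 w| ≤ max K 0 := by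
    intro w
    unfold av
    have h5 := norm_integral_le_of_norm_le_const (μ := circ) (C := max K 0)
      (f := fun θ => G (0 + ang θ • w))
      (Eventually.of_forall fun θ => by rw [Real.norm_eq_abs]; exact hGK _)
    rwa [probReal_univ, mul_one, Real.norm_eq_abs] at h5
  have h6 : ψ (e.symm z) = ar (fun _ => F 0) := by
    rw [ar_const]; simp [hF]
  rw [h6]
  refine ar_mono (integrableOn_ball measurable_const (K := |F 0|) (fun _ => le_rfl) 1)
    (integrableOn_ball hmeas hbound 1) fun w hw => ?_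
  have hd' : ∀ t : ℂ, ‖t‖ ≤ 1 → z + t • (w • v) ∈ e.target := by
    intro t ht
    rw [smul_smul]
    apply hd
    rw [norm_mul]
    nlinarith [norm_nonneg t, norm_nonneg w]
  have h7 := h.le_av he hd'
  have h8 : F 0 = ψ (e.symm z) := by simp [hF]
  rw [h8]
  refine h7.trans (le_of_eq ?_)
  unfold av
  congr 1; funext θ
  rw [hGF _ (by rw [zero_add, smul_eq_mul, norm_mul, norm_ang, one_mul]; exact hw)]
  simp only [hF, Function.comp_apply, zero_add, smul_smul, smul_eq_mul]

end mani

end Crest.Agent.R276.PshC_29
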