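import Crest.Agent.R276.LPsh_29
import Crest.Agent.R276.PshC_29

/-!
# Row 276 (helper29): `LPsh` from area means
-/

set_option autoImplicit false
set_option linter.unusedSectionVars false

open MeasureTheory Set Metric Filter Topology
open scoped ENNReal ContDiff

noncomputable section

namespace Crest.Agent.R276.EngU_29

open Crest.Agent.R275.FL606 Crest.Agent.R271.Ho51 Crest.Agent.R273.Reg_844
  Crest.Agent.R276.PshA_29 Crest.Agent.R276.PshC_29

variable {n : ℕ} {M : Type*} [TopologicalSpace M] [RDom n M]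

lemma usc_log {b : M → ℝ} (h0 : ∀ x, 0 ≤ b x) (husc : UpperSemicontinuous b) {δ : ℝ}
    (hδ : 0 < δ) : UpperSemicontinuous (fun x => Real.log (b x + δ)) := by
  intro x c hc
  have h1 : b x < Real.exp c - δ := by
    have := (Real.log_lt_iff_lt_exp (by have := h0 x; positivity)).1 hc
    linarith
  filter_upwards [husc x _ h1] with y hy
  rw [Real.log_lt_iff_lt_exp (by have := h0 y; positivity)]
  linarith

lemma bdd_log {b : M → ℝ} (h0 : ∀ x, 0 ≤ b x) {δ : ℝ} (hδ : 0 < δ) (x : M) :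
    ∃ c : ℝ, ∀ᶠ y in 𝓝 x, c ≤ Real.log (b y + δ) :=
  ⟨Real.log δ, Eventually.of_forall fun y => Real.log_le_log hδ (by linarith [h0 y])⟩

/-- `LPsh` from area means over all discs in charts -/
theorem LPsh.of_area {b : M → ℝ} (h0 : ∀ x, 0 ≤ b x) (husc : UpperSemicontinuous b)
    (harea : ∀ δ : ℝ, 0 < δ → ∀ e : OpenPartialHomeomorph M (Fin n → ℂ), IsCh e →
      ∀ z v : Fin n → ℂ, (∀ w : ℂ, ‖w‖ ≤ 1 → z + w • v ∈ e.target) →
        Real.log (b (e.symm z) + δ) ≤ ar (fun w => Real.log (b (e.symm (z + w • v)) + δ))) :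
    LPsh b :=
  ⟨h0, fun δ hδ => psh_of_area (usc_log h0 husc hδ) (bdd_log h0 hδ) (harea δ hδ)⟩

/-- `LPsh` from area means over small discs -/
theorem LPsh.of_area_local {b : M → ℝ} (h0 : ∀ x, 0 ≤ b x) (husc : UpperSemicontinuous b)
    (harea : ∀ δ : ℝ, 0 < δ → ∀ x : M, ∃ r : ℝ, 0 < r ∧ ball (cp x) r ⊆ (ch x).target ∧
      ∀ z v : Fin n → ℂ, (∀ w : ℂ, ‖w‖ ≤ 1 → z + w • v ∈ ball (cp x) r) →
        Real.log (b ((ch x).symm z) + δ) ≤
          ar (fun w => Real.log (b ((ch x).symm (z + w • v)) + δ))) :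
    LPsh b :=
  ⟨h0, fun δ hδ => psh_of_area_local (usc_log h0 husc hδ) (bdd_log h0 hδ) (harea δ hδ)⟩

/-- circle means over all discs in charts -/
theorem LPsh.of_circle {b : M → ℝ} (h0 : ∀ x, 0 ≤ b x) (husc : UpperSemicontinuous b)
    (h : ∀ δ : ℝ, 0 < δ → ∀ e : OpenPartialHomeomorph M (Fin n → ℂ), IsCh e →
      ∀ z v : Fin n → ℂ, (∀ w : ℂ, ‖w‖ ≤ 1 → z + w • v ∈ e.target) →
        Real.log (b (e.symm z) + δ) ≤ Real.circleAverage
          (fun w => Real.log (b (e.symm (z + w • v)) + δ)) 0 1) : LPsh b :=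
  ⟨h0, fun δ hδ => PSH.mk' (usc_log h0 husc hδ) (bdd_log h0 hδ) fun e he z v hd => by
    rw [av_eq_circleAverage]
    exact h δ hδ e he z v hd⟩

theorem LPsh.area_le {b : M → ℝ} (h : LPsh b) {δ : ℝ} (hδ : 0 < δ)
    {e : OpenPartialHomeomorph M (Fin n → ℂ)} (he : IsCh e)
    {z v : Fin n → ℂ} (hd : ∀ w : ℂ, ‖w‖ ≤ 1 → z + w • v ∈ e.target) :
    Real.log (b (e.symm z) + δ) ≤ ar (fun w => Real.log (b (e.symm (z + w • v)) + δ)) :=
  psh_area_le (h.psh δ hδ) he hd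

theorem LPsh.circle_le {b : M → ℝ} (h : LPsh b) {δ : ℝ} (hδ : 0 < δ)
    {e : OpenPartialHomeomorph M (Fin n → ℂ)} (he : IsCh e)
    {z v : Fin n → ℂ} (hd : ∀ w : ℂ, ‖w‖ ≤ 1 → z + w • v ∈ e.target) :
    Real.log (b (e.symm z) + δ) ≤ Real.circleAverage
      (fun w => Real.log (b (e.symm (z + w • v)) + δ)) 0 1 := by
  have h1 := (h.psh δ hδ).le_av he hd
  rwa [av_eq_circleAverage] at h1

end Crest.Agent.R276.EngU_29
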