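import Crest.Agent.R271.W_792
import Crest.Agent.R271.H3_51

/-!
# Row 276, part D1 (helper159): morphisms of Riemann domains

`Mor A L π`: a continuous map `π : Q → P` of Riemann domains which is given in the coordinates by the
affine map `z ↦ A z` with linear part `L`.  All first and second order calculus is functorial.
-/

set_option autoImplicit false
set_option linter.unusedSectionVars false

noncomputable section

open Set Filter Topology Complex

namespace Crest.Agent.R276.PV_159

open Crest.Agent.R271 Crest.Agent.R271.Ho51 Crest.Agent.R271.W792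

variable {n m : ℕ} {P Q : Type*} [TopologicalSpace P] [TopologicalSpace Q] [RDom n P] [RDom m Q]

/-- morphisms of Riemann domains, affine in the coordinates -/
structure Mor (c : Fin n → ℂ) (L : (Fin m → ℂ) →L[ℂ] (Fin n → ℂ)) (π : Q → P) : Prop where
  cont : Continuous π
  eq : ∀ q, cp (π q) = c + L (cp q)

variable {c : Fin n → ℂ} {L : (Fin m → ℂ) →L[ℂ] (Fin n → ℂ)} {π : Q → P}

lemma Mor.germ (h : Mor c L π) {e : OpenPartialHomeomorph P (Fin n → ℂ)} (he : IsCh e)
    {d : OpenPartialHomeomorph Q (Fin m → ℂ)} (hd : IsCh d) {q : Q} (hq : q ∈ d.source)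
    (hp : π q ∈ e.source) :
    (π ∘ d.symm) =ᶠ[𝓝 (cp q)] (fun z => e.symm (c + L z)) := by
  have h1 : ContinuousAt (π ∘ d.symm) (cp q) := by
    refine ContinuousAt.comp h.cont.continuousAt ?_
    exact d.symm.continuousAt (by simpa using hd.cp_mem hq)
  have h2 : ∀ᶠ z in 𝓝 (cp q), (π ∘ d.symm) z ∈ e.source := by
    apply h1.eventually_mem
    simp only [Function.comp_apply]
    rw [hd.symm_cp hq]
    exact e.open_source.mem_nhds hp
  have h3 : ∀ᶠ z in 𝓝 (cp q), z ∈ d.target := d.open_target.mem_nhds (hd.cp_mem hq)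
  filter_upwards [h2, h3] with z hz1 hz2
  simp only [Function.comp_apply] at hz1 ⊢
  have h4 := he.symm_cp hz1
  rw [h.eq, hd.cp_symm hz2] at h4
  exact h4.symm

variable {G : Type*} [NormedAddCommGroup G] [NormedSpace ℝ G]

lemma Mor.comp_germ (h : Mor c L π) (f : P → G) (q : Q) :
    ((fun q => f (π q)) ∘ (ch q).symm) =ᶠ[𝓝 (cp q)] (fun z => (f ∘ (ch (π q)).symm) (c + L z)) := by
  filter_upwards [h.germ (isCh_ch (π q)) (isCh_ch q) (mem_ch q) (mem_ch (π q))] with z hz
  simp only [Function.comp_apply] at hz ⊢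
  rw [hz]

lemma Mor.sm (h : Mor c L π) {f : P → G} (hf : Sm f) : Sm (fun q => f (π q)) := by
  intro q
  refine ContDiffAt.congr_of_eventuallyEq ?_ (h.comp_germ f q)
  have h1 : ContDiffAt ℝ (⊤ : ℕ∞) (fun z => c + L z) (cp q) :=
    contDiffAt_const.add ((L.restrictScalars ℝ).contDiff.contDiffAt)
  refine ContDiffAt.comp (g := f ∘ (ch (π q)).symm) (cp q) ?_ h1
  rw [← h.eq]
  exact hf (π q)

lemma Mor.D_eq (h : Mor c L π) {f : P → G} (hf : Sm f) (q : Q) (w : Fin m → ℂ) :
    D (fun q => f (π q)) q w = D f (π q) (L w) := by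
  have h0 : D (fun q => f (π q)) q =
      fderiv ℝ (fun z => (f ∘ (ch (π q)).symm) (c + L z)) (cp q) :=
    (h.comp_germ f q).fderiv_eq
  have h1 : HasFDerivAt (fun z => c + L z) (L.restrictScalars ℝ) (cp q) := by
    have := (L.restrictScalars ℝ).hasFDerivAt (x := cp q)
    exact this.const_add c
  have h2 : HasFDerivAt (f ∘ (ch (π q)).symm) (D f (π q)) (c + L (cp q)) := by
    have := (hf.differentiableAt (π q)).hasFDerivAt
    rw [h.eq] at this
    unfold Ho51.D
    rw [h.eq]
    exact this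
  have h3 := h2.comp (cp q) h1
  have h4 : fderiv ℝ (fun z => (f ∘ (ch (π q)).symm) (c + L z)) (cp q) =
      (D f (π q)).comp (L.restrictScalars ℝ) := h3.fderiv
  rw [h0, h4]
  rfl

lemma Mor.hol (h : Mor c L π) {f : P → ℂ} (hf : W792.Hol f) : W792.Hol (fun q => f (π q)) where
  sm := h.sm hf.sm
  cl q w := by
    rw [h.D_eq hf.sm, h.D_eq hf.sm, map_smul, hf.cl]

lemma Mor.lev_eq (h : Mor c L π) {φ : P → ℝ} (hφ : Sm φ) (q : Q) (w : Fin m → ℂ) :
    lev (fun q => φ (π q)) q w = lev φ (π q) (L w) := by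
  have key : ∀ v : Fin m → ℂ, Ho51.D (fun y => Ho51.D (fun q => φ (π q)) y v) q v =
      Ho51.D (fun y => Ho51.D φ y (L v)) (π q) (L v) := by
    intro v
    have h1 : (fun y => Ho51.D (fun q => φ (π q)) y v) = fun y => (fun p => Ho51.D φ p (L v)) (π y) := by
      funext y
      exact h.D_eq hφ y v
    rw [h1]
    exact h.D_eq (hφ.D.apply (L v)) q v
  unfold W792.lev
  rw [key, key, map_smul]

end Crest.Agent.R276.PV_159
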