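import Crest.Agent.R276.ExtA_723
import Crest.Agent.R276.LPshB_29
import Crest.Agent.R276.PVa_159

/-!
# Row 276 (helper29): psh weights restricted to slices; holomorphic maps of Riemann domains

`restrLPsh : Ext_723.RestrLPsh`.
-/

set_option autoImplicit false
set_option linter.unusedSectionVars false

open MeasureTheory Set Metric Filter Topology
open scoped ENNReal ContDiff

noncomputable section

namespace Crest.Agent.R276.Restr_29

open Crest.Agent.R271.Ho51 Crest.Agent.R273.Dir73 Crest.Agent.R276.PshB_29
  Crest.Agent.R276.EngU_29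

section

variable {n n' n'' : ℕ} {M : Type*} [TopologicalSpace M] [RDom n M]
  {M' : Type*} [TopologicalSpace M'] [RDom n' M'] {M'' : Type*} [TopologicalSpace M'']
  [RDom n'' M'']

/-- holomorphic functions of the coordinates -/
lemma hol_of_cp {g : (Fin n → ℂ) → ℂ} (hg : Differentiable ℂ g) : Hol (fun x : M => g (cp x)) := by
  intro e he
  refine hg.differentiableOn.congr fun z hz => ?_
  simp only [Function.comp_apply]
  rw [he.cp_symm hz]

/-- a continuous map which is holomorphic in the coordinates -/
lemma HolMap.of_cp {f : M' → M} (hf : Continuous f) {g : (Fin n' → ℂ) → (Fin n → ℂ)}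
    (hg : Differentiable ℂ g) (h : ∀ x, cp (f x) = g (cp x)) : HolMap f :=
  ⟨hf, fun j => by
    simp only [h]
    exact hol_of_cp (g := fun z => g z j) (differentiable_pi.1 hg j)⟩

/-- pull back of holomorphic functions -/
lemma HolMap.comp_hol {f : M' → M} (hf : HolMap f) {F : M → ℂ} (hF : Hol F) :
    Hol (fun x => F (f x)) := by
  intro e' he' z hz
  set x : M' := e'.symm z with hx
  have hcp : cp x = z := he'.cp_symm hz
  have hcont : ContinuousAt (fun z => f (e'.symm z)) z :=
    hf.cont.continuousAt.comp (e'.symm.continuousAt (by simpa using hz))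
  have hsrc : ∀ᶠ y in 𝓝 z, f (e'.symm y) ∈ (ch (f x)).source :=
    hcont.eventually_mem ((ch (f x)).open_source.mem_nhds (mem_ch (f x)))
  have hG : DifferentiableAt ℂ (fun y => cp (f (e'.symm y))) z := by
    rw [differentiableAt_pi]
    intro j
    exact (hf.hol j e' he').differentiableAt (e'.open_target.mem_nhds hz)
  have hF' : DifferentiableAt ℂ (F ∘ (ch (f x)).symm) (cp (f x)) :=
    (hF (ch (f x)) (isCh_ch (f x))).differentiableAt
      ((ch (f x)).open_target.mem_nhds ((isCh_ch (f x)).cp_mem (mem_ch (f x))))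
  have h1 : DifferentiableAt ℂ ((F ∘ (ch (f x)).symm) ∘ fun y => cp (f (e'.symm y))) z :=
    DifferentiableAt.comp z hF' hG
  refine (h1.congr_of_eventuallyEq ?_).differentiableWithinAt
  filter_upwards [hsrc] with y hy
  simp only [Function.comp_apply]
  rw [(isCh_ch (f x)).symm_cp hy]

lemma HolMap.comp {f : M' → M} (hf : HolMap f) {g : M'' → M'} (hg : HolMap g) :
    HolMap (fun x => f (g x)) :=
  ⟨hf.cont.comp hg.cont, fun j => HolMap.comp_hol hg (hf.hol j)⟩

/-- affine morphisms (helper159) -/
lemma HolMap.of_mor {c : Fin n → ℂ} {L : (Fin n' → ℂ) →L[ℂ] (Fin n → ℂ)} {π : M' → M}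
    (h : PV_159.Mor c L π) : HolMap π :=
  HolMap.of_cp h.cont (g := fun z => c + L z) (L.differentiable.const_add c) h.eq

end

section slices

variable {n : ℕ} {M : Type*} [TopologicalSpace M] [RDom (n + 1) M] {a : Fin (n + 1) → ℂ}

lemma holMap_ι : HolMap (ι : Hs M a → M) := by
  refine HolMap.of_cp continuous_ι (g := gam a) ?_ fun x => (gam_cp x).symm
  have h : gam a = fun z => gamL a z + Fin.cons (-(a 0)) 0 := funext fun z => gam_eq a z
  rw [h]
  exact (gamL a).differentiable.add_const _

/-- psh weights restricted to slices -/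
theorem LPsh.restr [T2Space M] {b : M → ℝ} (h : LPsh b) : LPsh (fun y : Hs M a => b (ι y)) :=
  LPsh.comp_hol holMap_ι h

end slices

theorem restrLPsh : Crest.Agent.R276.Ext_723.RestrLPsh := by
  intro n M _ _ _ a b hb
  exact LPsh.restr hb

end Crest.Agent.R276.Restr_29
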