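import Crest.Agent.R276.PVv_159
import Crest.Agent.R276.Rs_185
import Crest.Agent.R276.StU_748

/-!
# Row 276, part D1 (helper159): slices of relative models; PVH and PVG
-/

set_option autoImplicit false
set_option linter.unusedSectionVars false

noncomputable section

open Set Filter Topology Complex MeasureTheory Metric
open scoped ENNReal ComplexConjugate Matrix ComplexOrder

namespace Crest.Agent.R276.PV_159

open Crest.Agent.R271 Crest.Agent.R271.Ho51
open Crest.Agent.R276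
open Crest.Agent.R276.EngU_29 (LPsh)
open Crest.Agent.R276.LN_999 (LN)
open Crest.Agent.R276.PshB_29 (HolMap)
open Crest.Agent.R276.FlatDefs_236 (SatFam)
open Crest.Agent.R276.LNf_333 (lnF)
open Crest.Agent.R276.Mod1_987
open Crest.Agent.R276.Sl_748 (bt fx gl)
open Crest.Agent.R276.Rs_185 (Prj Lft HF rsl)

variable {L K : Type} [Field L] [Field K] [Algebra ℂ L] [Algebra ℂ K] [Algebra L K]
  [IsScalarTower ℂ L K] {m r : ℕ} {R : RMdl L K m r} {N s : ℕ} {u : Fin s → R.MK.B}

/-- the splitting of the coordinates -/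
def spR (m r : ℕ) : Fin m ⊕ Fin r ≃ Fin (m + r) := finSumFinEquiv

variable (R) in
lemma fx_R (y : R.MK.Pts) : fx (spR m r) (cp y) = R.x y := by
  funext j
  show (cp y : Fin (m + r) → ℂ) (finSumFinEquiv (Sum.inr j)) = _
  rw [finSumFinEquiv_apply_right]
  rfl

variable (R) in
/-- `MK → ML` is a projection of Riemann domains -/
lemma prj : Prj (spR m r) R.q where
  cont := R.continuous_q
  cp_eq y := by
    funext i
    show R.ML.pz (R.q y) i = (cp y : Fin (m + r) → ℂ) (finSumFinEquiv (Sum.inl i))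
    rw [finSumFinEquiv_apply_left, R.pz_q]
    rfl

/-- holomorphic functions on the fibres of relative models -/
lemma hol_fib {w : R.ML.Pts} {G : R.MK.Pts → ℂ} (h : HF (spR m r) R.q w G) :
    Ho51.Hol (fun y : R.Fib w => G (RMdl.Fib.val R y)) := by
  refine Crest.Agent.R273.Dir73.hol_of_local fun y => ⟨ch y, isCh_ch y, mem_ch y, ?_⟩
  have h1 := h (RMdl.Fib.val R y) (RMdl.Fib.q_eq y)
  rw [fx_R] at h1
  refine h1.differentiableAt.congr_of_eventuallyEq ?_
  have hcp : (cp y : Fin r → ℂ) = R.x (RMdl.Fib.val R y) := rfl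
  have h2 : ContinuousAt (fun x : Fin r → ℂ => (RMdl.Fib.val R ((ch y).symm x : R.Fib w))) (cp y) := by
    refine (RMdl.Fib.continuous_val w).continuousAt.comp ?_
    exact (ch y).continuousAt_symm ((isCh_ch y).cp_mem (mem_ch y))
  have h3 : ∀ᶠ x in 𝓝 (cp y : Fin r → ℂ), (RMdl.Fib.val R ((ch y).symm x : R.Fib w)) ∈ (ch (RMdl.Fib.val R y)).source := by
    refine h2 ((ch (RMdl.Fib.val R y)).open_source.mem_nhds ?_)
    show (RMdl.Fib.val R ((ch y).symm (cp y) : R.Fib w)) ∈ _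
    rw [(isCh_ch y).symm_cp (mem_ch y)]
    exact mem_ch _
  have h4 : ∀ᶠ x in 𝓝 (cp y : Fin r → ℂ), x ∈ (ch y).target :=
    (ch y).open_target.mem_nhds ((isCh_ch y).cp_mem (mem_ch y))
  filter_upwards [h3, h4] with x h5 h6
  show G (RMdl.Fib.val R ((ch y).symm x : R.Fib w)) = _
  congr 1
  have h7 := (isCh_ch (RMdl.Fib.val R y)).symm_cp h5
  rw [← h7]
  congr 1
  have h8 : (cp ((ch y).symm x) : Fin r → ℂ) = x := (isCh_ch y).cp_symm h6
  have h9 := (Sl_748.gl_bt_fx (spR m r) (cp (RMdl.Fib.val R ((ch y).symm x : R.Fib w)))).symm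
  rw [h9, fx_R, ← (prj R).cp_eq, RMdl.Fib.q_eq]
  congr 1

/-- fibre integrals of the slice -/
lemma fi_fint {ρ : ℝ} {S : Sl_748.SD (m + r) R.MK.Pts} {X : Lft R.ML.Pts ρ} {l : ℂ} (hl : ‖l‖ < ρ)
    {g : (rsl S (prj R) X).P → ℝ≥0∞} {G : R.MK.Pts → ℝ≥0∞}
    (h : ∀ q, tc q = l → g q = G (Rs_185.pr q)) : fi g l = R.fint (X.c l) G := by
  rw [Rs_185.fi_rsl hl h]
  unfold RMdl.fint RMdl.fsumR
  refine lintegral_congr fun x => ?_
  let e : {y : R.MK.Pts // R.q y = X.c l ∧ fx (spR m r) (cp y) = x} ≃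
      {y : R.MK.Pts // R.q y = X.c l ∧ R.x y = x} :=
    Equiv.subtypeEquivRight fun y => by rw [fx_R]
  exact e.tsum_eq (fun y : {y : R.MK.Pts // R.q y = X.c l ∧ R.x y = x} => G y.1)

/-- **slices over lifted discs exist** -/
theorem slc (S : SatFam R N u) : Slc S := by
  intro c z0 v ρ hρ hc hcc
  have hN := LNf_333.two_le S
  have hN0 : 0 < N := by omega
  have h0ρ : ‖(0 : ℂ)‖ < ρ := by rwa [norm_zero]
  set X : Lft R.ML.Pts ρ := ⟨c, z0, v, hc, hcc⟩ with hX
  set SD := StU_748.stU R.MK u N hN0 with hSD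
  have hev : ∀ i, Ho51.Hol (M := R.MK.Pts) (fun y => (y : R.MK.B →ₐ[ℂ] ℂ) (u i)) := fun i =>
    Mdl.hol51_ev R.MK (u i)
  let Y : Dsc (lnF S) ρ :=
    { D := rsl SD (prj R) X
      x := c
      xc := hc
      u := fun i q => (Rs_185.pr q : R.MK.B →ₐ[ℂ] ℂ) (u i)
      hol := fun i => Rs_185.hol_pr (hev i)
      wt := fun q => by
        rw [Rs_185.rsl_wt]
        exact StU_748.stU_wt R.MK u N hN0 (Rs_185.pr q)
      ind := fun t ht a ha => by
        refine LNx_333.indF S (c t) a fun y hy => ?_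
        have h1 := ha (Rs_185.mk y t ht hy) rfl
        exact h1
      clos := fun t ht g hg hfin => by
        have h1 : HF (spR m r) R.q (c t) (Rs_185.low g t) := Rs_185.FHol.low ht hg
        have h2 := hol_fib h1
        have h3 : (rsl SD (prj R) X).nrm g t = R.fint (c t) (fun y =>
            ENNReal.ofReal (‖Rs_185.low g t y‖ ^ 2) *
            (ENNReal.ofReal ((∑ i, ‖(y : R.MK.B →ₐ[ℂ] ℂ) (u i)‖ ^ 2) ^ (1 - 1 / (N : ℝ))))⁻¹) := by
          unfold Dom.nrm
          refine fi_fint ht fun q hq => ?_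
          unfold Dom.dens
          rw [Rs_185.low_pr g hq, Rs_185.rsl_wt]
          congr 1
          exact StU_748.stU_wt R.MK u N hN0 (Rs_185.pr q)
        rw [h3] at hfin
        obtain ⟨a, ha⟩ := LNx_333.closF S (c t) (Rs_185.low g t) h2 hfin
        refine ⟨a, fun q hq => ?_⟩
        rw [← Rs_185.low_pr g hq]
        refine ha (Rs_185.pr q) ?_
        rw [Rs_185.f_pr q, hq]
      lk := fun t ht h hh => by
        rw [LNx_333.lkF S (c t) h hh]
        exact (fi_fint (R := R) (S := SD) (X := X) ht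
          (g := fun q => h (fun i => (Rs_185.pr q : R.MK.B →ₐ[ℂ] ℂ) (u i)))
          (G := fun y => h (fun i => (y : R.MK.B →ₐ[ℂ] ℂ) (u i))) fun q _ => rfl).symm }
  refine ⟨Y, rfl, Rs_185.pr, Rs_185.holMap_pr, fun p => Rs_185.f_pr p, fun i p => rfl, ?_⟩
  intro g hgc hgq hgd
  classical
  set σ : ℂ → (rsl SD (prj R) X).P := fun l =>
    if hl : ‖l‖ < ρ then Rs_185.mk (g l) l hl (hgq l hl) else Rs_185.mk (g 0) 0 h0ρ (hgq 0 h0ρ)
    with hσ
  have hpr : ∀ l, ‖l‖ < ρ → Rs_185.pr (σ l) = g l := by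
    intro l hl
    simp only [hσ, dif_pos hl]
    rfl
  have htc : ∀ l, ‖l‖ < ρ → tc (σ l) = l := by
    intro l hl
    simp only [hσ, dif_pos hl]
    rfl
  refine ⟨{ x := σ, cont := ?_, hol := ?_, sec := ?_ }, fun l hl => hpr l hl⟩
  · rw [Rs_185.continuousOn_iff]
    exact ⟨hgc.congr fun l hl => hpr l (by rwa [mem_ball_zero_iff] at hl),
      continuousOn_id.congr fun l hl => htc l (by rwa [mem_ball_zero_iff] at hl)⟩
  · have h1 : DifferentiableOn ℂ (fun l : ℂ => (Fin.cons l (fx (spR m r) (cp (g l))) :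
        Fin (r + 1) → ℂ)) (ball 0 ρ) := by
      rw [differentiableOn_pi]
      intro i
      refine Fin.cases ?_ (fun j => ?_) i
      · exact differentiableOn_id
      · exact (differentiableOn_pi.1 hgd) _
    refine h1.congr fun l hl => ?_
    rw [mem_ball_zero_iff] at hl
    show (cp (σ l) : Fin (r + 1) → ℂ) = _
    rw [Rs_185.cp_eq, htc l hl, hpr l hl]
  · intro l hl
    rw [mem_ball_zero_iff] at hl
    exact htc l hl

/-- **PVH** -/
theorem pvH (S : SatFam R N u) : LNz_333.PVH S := pvh (slc S)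

/-- **PVG** -/
theorem pvG (S : SatFam R N u) : LNz_333.PVG S := pvg (slc S)

end Crest.Agent.R276.PV_159
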