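import Mathlib
import Crest.Agent.R276.LFlat_793
import Crest.Agent.R276.PVw_159

/-!
# Row 276 (S0419), helper793: `Skel_220.LFlat`, unconditionally
-/

set_option autoImplicit false

namespace Crest.Agent.R276.LFlat_793

open Crest.Agent.R276.FlatTop_793

/-- (PV), by helper159 -/
theorem pvAll : PVAll := fun _ _ _ _ S => ⟨PV_159.pvH S, PV_159.pvG S⟩

/-- **LEMMA N** -/
theorem lemN : LemN := lemN_of pvAll

/-- **`Skel_220.LFlat`** -/
theorem lflat : Skel_220.LFlat := lflat_of lemN

end Crest.Agent.R276.LFlat_793
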