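import Crest.Agent.R276.LGeo_519
import Crest.Agent.R276.LocH_454

/-!
# Row 276 (S0419), GEO (helper519): `LGeo`, unconditionally
-/

namespace Crest.Agent.R276.LGeo_519

/-- **(GEO)** -/
theorem lgeo : SkelGeo_220.LGeo := lgeo_of Step_454.oneStep

end Crest.Agent.R276.LGeo_519
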