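import Crest.Agent.R276.Geo6_519
import Crest.Agent.R276.SkelGeo_220

/-!
# Row 276 (S0419), GEO (helper519), part 7: 220's `LGeo`

* `toV` : 236's `CYL R N u V om` gives 327's `CYL V om`;
* `hn_eq` : `|om|² = N D`;
* `geoD` : 220's structure `GeoD`;
* `lgeo_of` : `LGeo` from `OneStep`.
-/

set_option autoImplicit false
set_option linter.unusedSectionVars false

noncomputable section

open Set Filter Topology MeasureTheory Matrix
open Crest.Agent.R271.Ho51 Crest.Agent.R276.Ipc735 Crest.Agent.R276.Top8_815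
open Crest.Agent.R276.Iter_840 Crest.Agent.R276.Mod1_987
open Crest.Agent.R276.FlatDefs_236 Crest.Agent.R276.Restr_236
open Crest.Agent.R276.CmpR_652 Crest.Agent.R276.SkelGeo_220 Crest.Agent.R276.Geo6_519
open scoped ENNReal

namespace Crest.Agent.R276.LGeo_519

variable {L K : Type} [Field L] [Field K] [Algebra ℂ L] [Algebra ℂ K] [Algebra L K]
  [IsScalarTower ℂ L K] {m r : ℕ}

section bridge

variable {R : RMdl L K m r} {s N N₀ w₀ : ℕ} {u : Fin s → R.MK.B} {V : VHS m R.ML.Pts N₀ w₀}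
  {om : R.ML.Pts → Fin N₀ → ℂ}

/-- the line of 236 is a line in the sense of 327 -/
theorem toV (H : Restr_236.CYL R N u V om) (HS : SatFam R N u) : VLevi_327.CYL V om where
  hol := H.hol
  eig := H.top
  ne := H.ne HS
  par := H.par

theorem hn_eq (H : Restr_236.CYL R N u V om) (z : R.ML.Pts) :
    VLevi_327.hn V z (om z) = N * DR R N u z := H.hnsq_eq z

end bridge

/-- 220's structure `GeoD` -/
def geoD {R : RMdl L K m r} {s N N₀ w₀ : ℕ} {σ : Fin s → K} (h : ∀ i, σ i ∈ R.MK.B)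
    {V : VHS m R.ML.Pts N₀ w₀} {om : R.ML.Pts → Fin N₀ → ℂ}
    (HS : SatFam R N (fr R σ h)) (H : Restr_236.CYL R N (fr R σ h) V om) : GeoD R N σ where
  mem := h
  sat := HS
  n := N₀
  wt := w₀
  V := V
  om := om
  cyl := toV H HS
  c := N
  c_pos := by
    have := HS.N_ge
    exact_mod_cast (by omega : 0 < N)
  nrm := hn_eq H

/-- **(GEO)** -/
theorem lgeo_of (hO : OneStep) : LGeo := by
  intro L K _ _ _ _ _ _ m r _ _ _ R N s σ h HS _
  obtain ⟨p₀, hp₀, hg⟩ := geo hO R HS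
  obtain ⟨p₁, hp₁, h1⟩ := R.exists_surj 1 one_ne_zero
  have hp : p₀ * p₁ ≠ 0 := mul_ne_zero hp₀ hp₁
  have hc : Cmp R (R.shrink (p₀ * p₁) hp 1 one_ne_zero) := cmp_shrink R hp one_ne_zero
  have hs : ∀ w, Nonempty ((R.shrink (p₀ * p₁) hp 1 one_ne_zero).Fib w) := by
    intro w
    obtain ⟨y, hy⟩ := h1 (p₀ * p₁) hp (dvd_mul_left _ _) w
    exact ⟨⟨y, hy⟩⟩
  refine ⟨_, hc, ?_⟩
  obtain ⟨N₀, V, om, H⟩ := hg _ hc (pz_cmp_shrink R hp one_ne_zero)
    (eval_shrink_ne R hp one_ne_zero (dvd_mul_right _ _)) hs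
  exact ⟨geoD (σ := σ) (fun i => hc.leK (h i)) (HS.cmp hc hs) H⟩

end Crest.Agent.R276.LGeo_519
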