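import Crest.Agent.R276.HullV_720
import Crest.Agent.R276.SkelGeo_220
import Crest.Agent.R276.PrpM_739

/-!
# R276 (helper720): `LHull` of SKEL level 3
-/

set_option autoImplicit false

noncomputable section

open Set Filter Topology

namespace Crest.Agent.R276.LHull_720

open Crest.Agent.R276.SkelGeo_220 Crest.Agent.R276.HullV_720

/-- the hull of a `GeoD` -/
theorem lhull : LHull := by
  intro L K _ _ _ _ _ _ m r R N s σ _ ⟨X⟩
  obtain ⟨n', B, C, V', om', hs, hom, -, M, hM0, hM⟩ :=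
    exists_hull (PrpM_739.prp R.ML) X.V X.cyl.hol
  refine ⟨⟨X.mem, X.sat, n', X.wt, V', om', cyl_sub hs hom X.cyl, X.c, X.c_pos, fun z => ?_⟩,
    M, hM0, fun x g hg ζ hζ => hM x g hg ζ hζ⟩
  rw [hn_sub hs hom]
  exact X.nrm z

end Crest.Agent.R276.LHull_720
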