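import Crest.Agent.R276.LM1_976

/-!
# R276, leaf LM (helper976): local Morse inequalities, part 2

`lev`      : `D²u(v,v) + D²u(iv,iv)` (four times the Levi form; same formula as `R273.Defs_333.lev`).
`taylor2`  : second order Taylor formula, uniform on compacts, for `C²` functions.
`quadHol`  : the holomorphic quadratic part.
`lm2`      : uniform local Morse inequality.
-/

set_option autoImplicit false

open MeasureTheory Set Metric Topology Filter
open scoped ENNReal Real ContDiff Pointwise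

namespace Crest.Agent.R276.LM2_976

open Crest.Agent.R276.LM1_976

noncomputable section

variable {E : Type*} [NormedAddCommGroup E] [NormedSpace ℂ E]

/-- `D²u(z)(v,v) + D²u(z)(iv,iv)`: four times the Levi form -/
def lev (u : E → ℝ) (z v : E) : ℝ :=
  iteratedFDeriv ℝ 2 u z ![v, v] + iteratedFDeriv ℝ 2 u z ![Complex.I • v, Complex.I • v]

theorem lev_eq (u : E → ℝ) (z v : E) :
    lev u z v = fderiv ℝ (fderiv ℝ u) z v v +
      fderiv ℝ (fderiv ℝ u) z (Complex.I • v) (Complex.I • v) := by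
  simp [lev, iteratedFDeriv_two_apply]

theorem smul_decomp (c : ℂ) (v : E) : c • v = (c.re : ℝ) • v + (c.im : ℝ) • (Complex.I • v) := by
  have h1 : ∀ (r : ℝ) (x : E), r • x = (r : ℂ) • x := fun r x => (Complex.coe_smul r x).symm
  rw [h1, h1, smul_smul, ← add_smul, Complex.re_add_im]

theorem I_smul_decomp (c : ℂ) (v : E) :
    Complex.I • (c • v) = (c.re : ℝ) • (Complex.I • v) - (c.im : ℝ) • v := by
  rw [smul_decomp c v, smul_add, smul_comm Complex.I (c.re : ℝ) v,
    smul_comm Complex.I (c.im : ℝ) (Complex.I • v), smul_smul Complex.I Complex.I v,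
    Complex.I_mul_I, neg_one_smul, smul_neg, sub_eq_add_neg]

/-- the complex bilinear form attached to a real one -/
def qfun (B : E →L[ℝ] E →L[ℝ] ℝ) (v w : E) : ℂ :=
  ⟨(B v w - B (Complex.I • v) (Complex.I • w)) / 2,
    -(B v (Complex.I • w) + B (Complex.I • v) w) / 2⟩

def qlin (B : E →L[ℝ] E →L[ℝ] ℝ) : E →ₗ[ℂ] E →ₗ[ℂ] ℂ :=
  LinearMap.mk₂ ℂ (qfun B)
    (by
      intro v v' w
      apply Complex.ext <;> simp [qfun, smul_add] <;> ring)
    (by
      intro c v w
      apply Complex.ext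
      · simp only [qfun, I_smul_decomp c v, Complex.mul_re, smul_eq_mul]
        rw [smul_decomp c v]
        simp only [map_add, map_sub, map_smul, add_apply,
          sub_apply, smul_apply, smul_eq_mul]
        ring
      · simp only [qfun, I_smul_decomp c v, Complex.mul_im, smul_eq_mul]
        rw [smul_decomp c v]
        simp only [map_add, map_sub, map_smul, add_apply,
          sub_apply, smul_apply, smul_eq_mul]
        ring)
    (by
      intro v w w'
      apply Complex.ext <;> simp [qfun, smul_add] <;> ring)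
    (by
      intro c v w
      apply Complex.ext
      · simp only [qfun, I_smul_decomp c w, Complex.mul_re, smul_eq_mul]
        rw [smul_decomp c w]
        simp only [map_add, map_sub, map_smul, smul_eq_mul]
        ring
      · simp only [qfun, I_smul_decomp c w, Complex.mul_im, smul_eq_mul]
        rw [smul_decomp c w]
        simp only [map_add, map_sub, map_smul, smul_eq_mul]
        ring)

theorem norm_qfun_le (B : E →L[ℝ] E →L[ℝ] ℝ) (v w : E) : ‖qfun B v w‖ ≤ (2 * ‖B‖) * ‖v‖ * ‖w‖ := by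
  have hb : ∀ a b : E, |B a b| ≤ ‖B‖ * ‖a‖ * ‖b‖ := fun a b => B.le_opNorm₂ a b
  have hI : ∀ a : E, ‖Complex.I • a‖ = ‖a‖ := fun a => by rw [norm_smul, Complex.norm_I, one_mul]
  have h1 := hb v w
  have h2 := hb (Complex.I • v) (Complex.I • w)
  have h3 := hb v (Complex.I • w)
  have h4 := hb (Complex.I • v) w
  rw [hI, hI] at h2
  rw [hI] at h3 h4
  have h0 := Complex.norm_le_abs_re_add_abs_im (qfun B v w)
  have hre : |(qfun B v w).re| ≤ ‖B‖ * ‖v‖ * ‖w‖ := by
    simp only [qfun]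
    rw [abs_div, abs_two, div_le_iff₀ two_pos]
    calc _ ≤ |B v w| + |B (Complex.I • v) (Complex.I • w)| := abs_sub _ _
      _ ≤ _ := by linarith
  have him : |(qfun B v w).im| ≤ ‖B‖ * ‖v‖ * ‖w‖ := by
    simp only [qfun]
    rw [abs_div, abs_two, div_le_iff₀ two_pos, abs_neg]
    calc _ ≤ |B v (Complex.I • w)| + |B (Complex.I • v) w| := abs_add_le _ _
      _ ≤ _ := by linarith
  linarith

/-- the continuous complex bilinear form attached to a real one -/
def qcont (B : E →L[ℝ] E →L[ℝ] ℝ) : E →L[ℂ] E →L[ℂ] ℂ :=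
  (qlin B).mkContinuous₂ (2 * ‖B‖) (fun v w => norm_qfun_le B v w)

theorem qcont_apply (B : E →L[ℝ] E →L[ℝ] ℝ) (v w : E) : qcont B v w = qfun B v w := rfl

/-- the complex linear form attached to a real one -/
def lfun (l : E →L[ℝ] ℝ) (w : E) : ℂ := ⟨l w, -l (Complex.I • w)⟩

def llin (l : E →L[ℝ] ℝ) : E →ₗ[ℂ] ℂ where
  toFun := lfun l
  map_add' := by
    intro v w
    apply Complex.ext <;> simp [lfun, smul_add]
    ring
  map_smul' := by
    intro c w
    apply Complex.ext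
    · simp only [lfun, RingHom.id_apply, smul_eq_mul, Complex.mul_re]
      rw [smul_decomp c w]
      simp only [map_add, map_smul, smul_eq_mul]
      ring
    · simp only [lfun, RingHom.id_apply, smul_eq_mul, Complex.mul_im, I_smul_decomp c w]
      simp only [map_sub, map_smul, smul_eq_mul]
      ring

def lcont (l : E →L[ℝ] ℝ) : E →L[ℂ] ℂ :=
  (llin l).mkContinuous (2 * ‖l‖) (by
    intro w
    have h0 := Complex.norm_le_abs_re_add_abs_im (lfun l w)
    have h1 : |(lfun l w).re| ≤ ‖l‖ * ‖w‖ := l.le_opNorm w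
    have h2 : |(lfun l w).im| ≤ ‖l‖ * ‖w‖ := by
      have := l.le_opNorm (Complex.I • w)
      rw [norm_smul, Complex.norm_I, one_mul] at this
      simpa [lfun] using this
    change ‖lfun l w‖ ≤ _
    linarith)

theorem lcont_apply (l : E →L[ℝ] ℝ) (w : E) : lcont l w = lfun l w := rfl

/-- the holomorphic part of the second order Taylor polynomial -/
def hpart (l : E →L[ℝ] ℝ) (B : E →L[ℝ] E →L[ℝ] ℝ) (w : E) : ℂ :=
  lcont l w + (1 / 2 : ℂ) * qcont B w w

theorem hpart_zero (l : E →L[ℝ] ℝ) (B : E →L[ℝ] E →L[ℝ] ℝ) : hpart l B 0 = 0 := by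
  simp [hpart]

theorem hpart_differentiable (l : E →L[ℝ] ℝ) (B : E →L[ℝ] E →L[ℝ] ℝ) :
    Differentiable ℂ (hpart l B) := by
  have h1 : Differentiable ℂ (fun w => qcont B w w) :=
    (qcont B).differentiable.clm_apply differentiable_id
  exact (lcont l).differentiable.add (h1.const_mul _)

theorem hpart_re (l : E →L[ℝ] ℝ) (B : E →L[ℝ] E →L[ℝ] ℝ) (w : E) :
    l w + (1 / 2) * B w w =
      (hpart l B w).re + (1 / 4) * (B w w + B (Complex.I • w) (Complex.I • w)) := by
  have : (hpart l B w).re = l w + (1 / 4) * (B w w - B (Complex.I • w) (Complex.I • w)) := by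
    simp only [hpart, lcont_apply, qcont_apply, Complex.add_re, lfun]
    have : ((1 / 2 : ℂ) * qfun B w w).re = (1 / 2) * (qfun B w w).re := by
      have h : (1 / 2 : ℂ) = ((1 / 2 : ℝ) : ℂ) := by push_cast; rfl
      rw [h, Complex.re_ofReal_mul]
    rw [this]
    simp only [qfun]
    ring
  rw [this]; ring

/-- second order Taylor formula, uniform on compacts -/
theorem taylor2 [FiniteDimensional ℂ E] {U K : Set E} (hU : IsOpen U) (hK : IsCompact K)
    (hKU : K ⊆ U) {ψ : E → ℝ} (hψ : ContDiffOn ℝ 2 ψ U) {ε : ℝ} (hε : 0 < ε) :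
    ∃ r > 0, ∀ z ∈ K, ∀ w : E, ‖w‖ < r → z + w ∈ U ∧
      |ψ (z + w) - ψ z - fderiv ℝ ψ z w - (1 / 2) * fderiv ℝ (fderiv ℝ ψ) z w w| ≤ ε * ‖w‖ ^ 2 := by
  have hfd : FiniteDimensional ℝ E := FiniteDimensional.complexToReal E
  have hproper : ProperSpace E := FiniteDimensional.proper ℝ E
  obtain ⟨d, hd, hdU⟩ := hK.exists_cthickening_subset_open hU hKU
  have hK' : IsCompact (cthickening d K) := hK.cthickening
  have hD1 : ContDiffOn ℝ 1 (fderiv ℝ ψ) U := hψ.fderiv_of_isOpen hU (by norm_num)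
  have hD2 : ContinuousOn (fderiv ℝ (fderiv ℝ ψ)) U :=
    hD1.continuousOn_fderiv_of_isOpen hU le_rfl
  have huc := (Metric.uniformContinuousOn_iff (f := fderiv ℝ (fderiv ℝ ψ))
    (s := cthickening d K)).1 (by exact hK'.uniformContinuousOn_of_continuous (hD2.mono hdU))
  obtain ⟨r1, hr1, hr1'⟩ := huc (ε / 2) (by positivity)
  refine ⟨min r1 d, lt_min hr1 hd, ?_⟩
  intro z hz w hw
  have hmem : ∀ v : E, ‖v‖ ≤ ‖w‖ → z + v ∈ cthickening d K := by
    intro v hv
    apply closedBall_subset_cthickening hz d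
    rw [mem_closedBall, dist_eq_norm, add_sub_cancel_left]
    exact hv.trans (hw.le.trans (min_le_right _ _))
  have hzU : ∀ v : E, ‖v‖ ≤ ‖w‖ → z + v ∈ U := fun v hv => hdU (hmem v hv)
  refine ⟨hzU w le_rfl, ?_⟩
  have hzK : z ∈ cthickening d K := by simpa using hmem 0 (by simp)
  have hsmall : ∀ v : E, ‖v‖ ≤ ‖w‖ →
      ‖fderiv ℝ (fderiv ℝ ψ) (z + v) - fderiv ℝ (fderiv ℝ ψ) z‖ ≤ ε / 2 := by
    intro v hv
    have := hr1' (z + v) (hmem v hv) z hzK (by
      rw [dist_eq_norm, add_sub_cancel_left]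
      exact hv.trans_lt (hw.trans_le (min_le_left _ _)))
    have e := dist_eq_norm (fderiv ℝ (fderiv ℝ ψ) (z + v)) (fderiv ℝ (fderiv ℝ ψ) z)
    have h2 := e.symm.le.trans this.le
    exact h2
  set D2 := fderiv ℝ (fderiv ℝ ψ) z with hD2def
  have hzU0 : z ∈ U := hdU hzK
  have hsymm : ∀ a b : E, D2 a b = D2 b a := by
    intro a b
    have h1 : ContDiffAt ℝ 2 ψ z := hψ.contDiffAt (hU.mem_nhds hzU0)
    exact (h1.isSymmSndFDerivAt (by simp [minSmoothness_of_isRCLikeNormedField])).eq a b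
  -- first step
  have hconv : Convex ℝ (closedBall (0 : E) ‖w‖) := convex_closedBall 0 ‖w‖
  have step1 : ∀ v ∈ closedBall (0 : E) ‖w‖,
      ‖fderiv ℝ ψ (z + v) - fderiv ℝ ψ z - D2 v‖ ≤ ε * ‖w‖ := by
    intro v hv
    have hv' : ‖v‖ ≤ ‖w‖ := by simpa using hv
    have hder : ∀ x ∈ closedBall (0 : E) ‖w‖,
        HasFDerivWithinAt (fun x => fderiv ℝ ψ (z + x) - D2 x)
          (fderiv ℝ (fderiv ℝ ψ) (z + x) - D2) (closedBall (0 : E) ‖w‖) x := by
      intro x hx
      have hx' : ‖x‖ ≤ ‖w‖ := by simpa using hx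
      have h1 : HasFDerivAt (fderiv ℝ ψ) (fderiv ℝ (fderiv ℝ ψ) (z + x)) (z + x) :=
        ((hD1.contDiffAt (hU.mem_nhds (hzU x hx'))).differentiableAt (by norm_num)).hasFDerivAt
      have h2 : HasFDerivAt (fun x => fderiv ℝ ψ (z + x)) (fderiv ℝ (fderiv ℝ ψ) (z + x)) x :=
        (hasFDerivAt_comp_add_left z).2 h1
      exact (h2.sub D2.hasFDerivAt).hasFDerivWithinAt
    have hbd := hconv.norm_image_sub_le_of_norm_hasFDerivWithin_le hder (C := ε / 2)
      (fun x hx => hsmall x (by simpa using hx)) (mem_closedBall_self (norm_nonneg w)) hv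
    simp only [map_zero, sub_zero, add_zero] at hbd
    have e1 : fderiv ℝ ψ (z + v) - fderiv ℝ ψ z - D2 v =
        fderiv ℝ ψ (z + v) - D2 v - fderiv ℝ ψ z := by abel
    rw [e1]
    refine hbd.trans ?_
    nlinarith [norm_nonneg v, norm_nonneg w]
  -- second step
  have hder2 : ∀ x ∈ closedBall (0 : E) ‖w‖,
      HasFDerivWithinAt (fun x => ψ (z + x) - fderiv ℝ ψ z x - (1 / 2) * D2 x x)
        (fderiv ℝ ψ (z + x) - fderiv ℝ ψ z - D2 x) (closedBall (0 : E) ‖w‖) x := by
    intro x hx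
    have hx' : ‖x‖ ≤ ‖w‖ := by simpa using hx
    have h1 : HasFDerivAt ψ (fderiv ℝ ψ (z + x)) (z + x) :=
      ((hψ.contDiffAt (hU.mem_nhds (hzU x hx'))).differentiableAt (by norm_num)).hasFDerivAt
    have h2 : HasFDerivAt (fun x => ψ (z + x)) (fderiv ℝ ψ (z + x)) x :=
      (hasFDerivAt_comp_add_left z).2 h1
    have h3 : HasFDerivAt (fun x => (1 / 2 : ℝ) * D2 x x) (D2 x) x := by
      have h4 : HasFDerivAt (fun x => D2 x x) (D2.flip x + D2 x) x := by
        have h5 := D2.hasFDerivAt (x := x) |>.clm_apply (hasFDerivAt_id x)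
        refine h5.congr_fderiv ?_
        ext y
        simp [add_comm]
      refine (h4.const_mul (1 / 2)).congr_fderiv ?_
      ext y
      simp only [smul_apply, add_apply,
        ContinuousLinearMap.flip_apply, smul_eq_mul]
      rw [hsymm y x]; ring
    exact ((h2.sub (fderiv ℝ ψ z).hasFDerivAt).sub h3).hasFDerivWithinAt
  have hbd2 := hconv.norm_image_sub_le_of_norm_hasFDerivWithin_le hder2 (C := ε * ‖w‖)
    step1 (mem_closedBall_self (norm_nonneg w)) (by simp : w ∈ closedBall (0 : E) ‖w‖)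
  simp only [map_zero, sub_zero, add_zero, mul_zero, Real.norm_eq_abs] at hbd2
  have e2 : ψ (z + w) - ψ z - fderiv ℝ ψ z w - (1 / 2) * D2 w w =
      ψ (z + w) - fderiv ℝ ψ z w - (1 / 2) * D2 w w - ψ z := by ring
  rw [e2]
  calc _ ≤ ε * ‖w‖ * ‖w‖ := hbd2
    _ = _ := by ring

variable [MeasurableSpace E] [BorelSpace E]

theorem setLIntegral_translate_le (μ : Measure E) [μ.IsAddHaarMeasure]
    [FiniteDimensional ℂ E] {S T : Set E} (hS : MeasurableSet S) (hT : MeasurableSet T) {z : E}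
    (hST : ∀ w ∈ S, z + w ∈ T) (f : E → ℝ≥0∞) :
    ∫⁻ w in S, f (z + w) ∂μ ≤ ∫⁻ x in T, f x ∂μ := by
  rw [← lintegral_indicator hS, ← lintegral_indicator hT,
    ← lintegral_add_left_eq_self (T.indicator f) z]
  refine lintegral_mono fun w => ?_
  by_cases hw : w ∈ S
  · rw [indicator_of_mem hw, indicator_of_mem (hST w hw)]
  · rw [indicator_of_notMem hw]; exact zero_le

/-- **LM2.** Uniform local Morse inequality.  `q` is any Hermitian majorant of the Levi form. -/
theorem lm2 [FiniteDimensional ℂ E] (μ : Measure E) [μ.IsAddHaarMeasure] {U K : Set E}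
    (hU : IsOpen U) (hK : IsCompact K) (hKU : K ⊆ U) {ψ : E → ℝ} (hψ : ContDiffOn ℝ 2 ψ U)
    {δ ρ : ℝ} (hδ : 0 < δ) (hρ : 0 < ρ) :
    ∃ k0 : ℝ, 0 < k0 ∧ ∀ k : ℝ, k0 ≤ k → ∀ z ∈ K, ∀ q : E → ℝ, Continuous q →
      (∀ (c : ℂ) (w : E), q (c • w) = ‖c‖ ^ 2 * q w) → (∀ w, δ * ‖w‖ ^ 2 ≤ q w) →
      (∀ w, lev ψ z w ≤ 4 * q w) → ∀ u : E → ℂ, DifferentiableOn ℂ u (ball z ρ) →
      ENNReal.ofReal (‖u z‖ ^ 2 * Real.exp (-(k * ψ z))) * μ {w | q w < 1} ≤
        ENNReal.ofReal (9 * k ^ Module.finrank ℂ E) *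
          ∫⁻ x in ball z ρ, ENNReal.ofReal (‖u x‖ ^ 2 * Real.exp (-(k * ψ x))) ∂μ := by
  have hfd : FiniteDimensional ℝ E := FiniteDimensional.complexToReal E
  obtain ⟨r, hr, hT⟩ := taylor2 hU hK hKU hψ hδ
  set r' := min r ρ with hr'
  have hr'0 : 0 < r' := lt_min hr hρ
  refine ⟨1 / (δ * r' ^ 2), by positivity, ?_⟩
  intro k hk z hz q hqc hqs hqd hlev u hu
  have hk0 : 0 < k := lt_of_lt_of_le (by positivity) hk
  set S : Set E := {w | q w < 1 / k} with hS
  have hSo : IsOpen S := isOpen_lt hqc continuous_const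
  have hSb : Balanced ℂ S := by
    rw [balanced_iff_smul_mem]
    intro c hc w hw
    have hw' : q w < 1 / k := hw
    change q (c • w) < 1 / k
    rw [hqs]
    have hq0 : 0 ≤ q w := le_trans (by positivity) (hqd w)
    have : ‖c‖ ^ 2 ≤ 1 := by
      have := norm_nonneg c
      nlinarith
    nlinarith
  have hSsmall : ∀ w ∈ S, ‖w‖ < r' ∧ k * (δ * ‖w‖ ^ 2) < 1 := by
    intro w hw
    have hw' : q w < 1 / k := hw
    have h1 : δ * ‖w‖ ^ 2 < 1 / k := (hqd w).trans_lt hw'
    have h2 : 1 / k ≤ δ * r' ^ 2 := by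
      rw [div_le_iff₀ hk0]
      rw [div_le_iff₀ (by positivity)] at hk
      linarith
    constructor
    · have h3 : δ * ‖w‖ ^ 2 < δ * r' ^ 2 := h1.trans_le h2
      have h4 : ‖w‖ ^ 2 < r' ^ 2 := lt_of_mul_lt_mul_left h3 hδ.le
      exact lt_of_pow_lt_pow_left₀ 2 hr'0.le h4
    · rw [lt_div_iff₀ hk0] at h1
      linarith
  have hmeas : μ S = ENNReal.ofReal ((k ^ Module.finrank ℂ E)⁻¹) * μ {w | q w < 1} := by
    have h1 : S = ((Real.sqrt k)⁻¹ : ℝ) • {w : E | q w < 1} := by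
      have hs : Real.sqrt k ≠ 0 := (Real.sqrt_pos.2 hk0).ne'
      ext w
      rw [mem_inv_smul_set_iff₀ hs]
      change q w < 1 / k ↔ q (Real.sqrt k • w) < 1
      rw [← Complex.coe_smul, hqs, Complex.norm_real, Real.norm_eq_abs, sq_abs,
        Real.sq_sqrt hk0.le, lt_div_iff₀ hk0, mul_comm]
    rw [h1, Measure.addHaar_smul, finrank_real_of_complex]
    congr 2
    rw [pow_mul, inv_pow, Real.sq_sqrt hk0.le, inv_pow, abs_of_nonneg (by positivity)]
  have hball : ∀ w ∈ S, z + w ∈ ball z ρ := by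
    intro w hw
    rw [mem_ball, dist_eq_norm, add_sub_cancel_left]
    exact (hSsmall w hw).1.trans_le (min_le_right _ _)
  set h : E → ℂ := fun w => (k : ℂ) * hpart (fderiv ℝ ψ z) (fderiv ℝ (fderiv ℝ ψ) z) w with hh
  have hhd : DifferentiableOn ℂ h S :=
    ((hpart_differentiable _ _).const_mul _).differentiableOn
  have hud : DifferentiableOn ℂ (fun w => u (z + w)) S := by
    refine hu.comp (t := ball z ρ) ?_ hball
    exact ((differentiable_const z).add differentiable_id).differentiableOn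
  have hpsi : ∀ w ∈ S, k * ψ (z + w) ≤ k * ψ z + (h w).re + 2 := by
    intro w hw
    obtain ⟨hw1, hw2⟩ := hSsmall w hw
    obtain ⟨-, ht⟩ := hT z hz w (hw1.trans_le (min_le_left _ _))
    have ht' := (abs_le.1 ht).2
    have hp := hpart_re (fderiv ℝ ψ z) (fderiv ℝ (fderiv ℝ ψ) z) w
    have hl := hlev w
    rw [lev_eq] at hl
    have hre : (h w).re = k * (hpart (fderiv ℝ ψ z) (fderiv ℝ (fderiv ℝ ψ) z) w).re := by
      simp only [hh, Complex.re_ofReal_mul]
    rw [hre]
    have hqk : k * q w < 1 := by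
      have : q w < 1 / k := hw
      rw [lt_div_iff₀ hk0] at this
      linarith
    have key : ψ (z + w) ≤ ψ z + (hpart (fderiv ℝ ψ z) (fderiv ℝ (fderiv ℝ ψ) z) w).re +
        q w + δ * ‖w‖ ^ 2 := by linarith
    have := mul_le_mul_of_nonneg_left key hk0.le
    nlinarith
  have hmain := lm1 μ hSo hSb (u := u) (h := h) (ψ := fun x => k * ψ x) (z := z) (c := 2) hud hhd
    (by simp [hh, hpart_zero]) (by intro w hw; exact hpsi w hw)
  have hle := setLIntegral_translate_le μ hSo.measurableSet (isOpen_ball (x := z) (ε := ρ)).measurableSet hball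
    (fun x => ENNReal.ofReal (‖u x‖ ^ 2 * Real.exp (-(k * ψ x))))
  have h2 := hmain.trans (mul_le_mul_right hle _)
  rw [hmeas] at h2
  have hkpow : (0 : ℝ) < k ^ Module.finrank ℂ E := by positivity
  have h9 : ENNReal.ofReal (Real.exp 2) ≤ ENNReal.ofReal 9 := by
    refine ENNReal.ofReal_le_ofReal ?_
    have := Real.exp_one_lt_d9
    have h3 : Real.exp 2 = Real.exp 1 ^ 2 := by rw [← Real.exp_nat_mul]; norm_num
    rw [h3]
    nlinarith [Real.exp_pos 1]
  set A := ENNReal.ofReal (‖u z‖ ^ 2 * Real.exp (-(k * ψ z))) with hA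
  set J := ∫⁻ x in ball z ρ, ENNReal.ofReal (‖u x‖ ^ 2 * Real.exp (-(k * ψ x))) ∂μ with hJ
  have h4 : A * μ {w | q w < 1} = ENNReal.ofReal (k ^ Module.finrank ℂ E) *
      (A * (ENNReal.ofReal ((k ^ Module.finrank ℂ E)⁻¹) * μ {w | q w < 1})) := by
    have h5 : ENNReal.ofReal (k ^ Module.finrank ℂ E) *
        ENNReal.ofReal ((k ^ Module.finrank ℂ E)⁻¹) = 1 := by
      rw [← ENNReal.ofReal_mul hkpow.le, mul_inv_cancel₀ hkpow.ne', ENNReal.ofReal_one]
    calc A * μ {w | q w < 1} = (ENNReal.ofReal (k ^ Module.finrank ℂ E) *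
        ENNReal.ofReal ((k ^ Module.finrank ℂ E)⁻¹)) * (A * μ {w | q w < 1}) := by
          rw [h5, one_mul]
      _ = _ := by ring
  rw [h4]
  calc _ ≤ ENNReal.ofReal (k ^ Module.finrank ℂ E) * (ENNReal.ofReal (Real.exp 2) * J) := by
        gcongr
    _ ≤ ENNReal.ofReal (k ^ Module.finrank ℂ E) * (ENNReal.ofReal 9 * J) := by gcongr
    _ = _ := by
        rw [ENNReal.ofReal_mul (by norm_num : (0 : ℝ) ≤ 9)]
        ring

end

end Crest.Agent.R276.LM2_976
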