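import Mathlib
import Crest.Agent.R276.Mod7_987
import Crest.Agent.R271.Null_956

/-!
# Row 276, LEMMA N glue (helper333), part a: continuity of fibre integrals

* `pratt_seq`, `pratt` : generalised dominated convergence.
* `tendsto_fsumR` : the fibre sum of a relative model is continuous off `{h_K = 0}`.
* `tendsto_fint` : generalised dominated convergence for the fibre integrals `RMdl.fint`.
-/

set_option autoImplicit false

open Topology Filter MeasureTheory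
open scoped ENNReal

noncomputable section

namespace Crest.Agent.R276.LNa_333

open Crest.Agent.R271.Defs710 Crest.Agent.R271.Rd692
open Crest.Agent.R271.Ho51 Crest.Agent.R271
open Crest.Agent.R276.Mod1_987

/-! ## Pratt's lemma -/

section pratt

variable {Ω : Type*} [MeasurableSpace Ω] {μ : Measure Ω}

/-- generalised dominated convergence, sequences -/
theorem pratt_seq {F G : ℕ → Ω → ℝ≥0∞} {f g : Ω → ℝ≥0∞} (hF : ∀ n, AEMeasurable (F n) μ)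
    (hG : ∀ n, AEMeasurable (G n) μ) (hle : ∀ n, ∀ᵐ x ∂μ, F n x ≤ G n x)
    (hf : ∀ᵐ x ∂μ, Tendsto (fun n => F n x) atTop (𝓝 (f x)))
    (hg : ∀ᵐ x ∂μ, Tendsto (fun n => G n x) atTop (𝓝 (g x)))
    (hi : Tendsto (fun n => ∫⁻ x, G n x ∂μ) atTop (𝓝 (∫⁻ x, g x ∂μ)))
    (hfin : ∫⁻ x, g x ∂μ ≠ ∞) :
    Tendsto (fun n => ∫⁻ x, F n x ∂μ) atTop (𝓝 (∫⁻ x, f x ∂μ)) := by
  have hfm : AEMeasurable f μ := aemeasurable_of_tendsto_metrizable_ae' hF hf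
  have hgm : AEMeasurable g μ := aemeasurable_of_tendsto_metrizable_ae' hG hg
  have hall : ∀ᵐ x ∂μ, ∀ n, F n x ≤ G n x := ae_all_iff.mpr hle
  have hfg : ∀ᵐ x ∂μ, f x ≤ g x := by
    filter_upwards [hall, hf, hg] with x h1 h2 h3
    exact le_of_tendsto_of_tendsto' h2 h3 h1
  have hgfin : ∀ᵐ x ∂μ, g x < ∞ := ae_lt_top' hgm hfin
  have hsum : ∀ n, ∫⁻ x, F n x ∂μ + ∫⁻ x, (G n x - F n x) ∂μ = ∫⁻ x, G n x ∂μ := by
    intro n
    rw [← lintegral_add_left' (hF n)]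
    refine lintegral_congr_ae ?_
    filter_upwards [hle n] with x hx
    exact add_tsub_cancel_of_le hx
  have hsum0 : ∫⁻ x, f x ∂μ + ∫⁻ x, (g x - f x) ∂μ = ∫⁻ x, g x ∂μ := by
    rw [← lintegral_add_left' hfm]
    refine lintegral_congr_ae ?_
    filter_upwards [hfg] with x hx
    exact add_tsub_cancel_of_le hx
  have hfatou1 : ∫⁻ x, f x ∂μ ≤ liminf (fun n => ∫⁻ x, F n x ∂μ) atTop := by
    refine le_trans (le_of_eq ?_) (lintegral_liminf_le' hF)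
    refine lintegral_congr_ae ?_
    filter_upwards [hf] with x hx
    exact hx.liminf_eq.symm
  have hfatou2 : ∫⁻ x, (g x - f x) ∂μ ≤ liminf (fun n => ∫⁻ x, (G n x - F n x) ∂μ) atTop := by
    refine le_trans (le_of_eq ?_) (lintegral_liminf_le' fun n => (hG n).sub (hF n))
    refine lintegral_congr_ae ?_
    filter_upwards [hf, hg, hgfin] with x h1 h2 h3
    exact (ENNReal.Tendsto.sub h2 h1 (Or.inl h3.ne)).liminf_eq.symm
  refine tendsto_of_le_liminf_of_limsup_le hfatou1 ?_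
  set a := ∫⁻ x, f x ∂μ with ha
  set c := ∫⁻ x, (g x - f x) ∂μ with hc
  set b := ∫⁻ x, g x ∂μ with hb
  have hcfin : c ≠ ∞ := ne_top_of_le_ne_top hfin (hsum0 ▸ le_add_self)
  refine ENNReal.le_of_forall_pos_le_add fun ε hε _ => ?_
  have hε2 : (0 : ℝ≥0∞) < (ε : ℝ≥0∞) / 2 := by
    apply ENNReal.half_pos
    exact_mod_cast hε.ne'
  have hev1 : ∀ᶠ n in atTop, c ≤ ∫⁻ x, (G n x - F n x) ∂μ + (ε : ℝ≥0∞) / 2 := by
    rcases eq_or_ne c 0 with h0 | h0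
    · rw [h0]
      exact Eventually.of_forall fun _ => zero_le
    · have h1 : c - (ε : ℝ≥0∞) / 2 < c := ENNReal.sub_lt_self hcfin h0 hε2.ne'
      have h2 := eventually_lt_of_lt_liminf (lt_of_lt_of_le h1 hfatou2)
      filter_upwards [h2] with n hn
      exact tsub_le_iff_right.mp hn.le
  have hev2 : ∀ᶠ n in atTop, ∫⁻ x, G n x ∂μ ≤ b + (ε : ℝ≥0∞) / 2 := by
    have h1 : b < b + (ε : ℝ≥0∞) / 2 := ENNReal.lt_add_right hfin hε2.ne'
    exact (hi.eventually (gt_mem_nhds h1)).mono fun n hn => hn.le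
  refine limsup_le_of_le (by isBoundedDefault) ?_
  filter_upwards [hev1, hev2] with n h1 h2
  have h3 : ∫⁻ x, F n x ∂μ + c ≤ a + ε + c := by
    calc ∫⁻ x, F n x ∂μ + c
        ≤ ∫⁻ x, F n x ∂μ + (∫⁻ x, (G n x - F n x) ∂μ + (ε : ℝ≥0∞) / 2) := by gcongr
      _ = ∫⁻ x, G n x ∂μ + (ε : ℝ≥0∞) / 2 := by rw [← add_assoc, hsum n]
      _ ≤ b + (ε : ℝ≥0∞) / 2 + (ε : ℝ≥0∞) / 2 := by gcongr
      _ = a + ε + c := by
        rw [add_assoc, ENNReal.add_halves, ← hsum0]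
        ring
  exact (ENNReal.add_le_add_iff_right hcfin).mp h3

/-- generalised dominated convergence -/
theorem pratt {ι : Type*} {l : Filter ι} [l.IsCountablyGenerated] {F G : ι → Ω → ℝ≥0∞}
    {f g : Ω → ℝ≥0∞} (hF : ∀ᶠ i in l, AEMeasurable (F i) μ) (hG : ∀ᶠ i in l, AEMeasurable (G i) μ)
    (hle : ∀ᶠ i in l, ∀ᵐ x ∂μ, F i x ≤ G i x)
    (hf : ∀ᵐ x ∂μ, Tendsto (fun i => F i x) l (𝓝 (f x)))
    (hg : ∀ᵐ x ∂μ, Tendsto (fun i => G i x) l (𝓝 (g x)))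
    (hi : Tendsto (fun i => ∫⁻ x, G i x ∂μ) l (𝓝 (∫⁻ x, g x ∂μ)))
    (hfin : ∫⁻ x, g x ∂μ ≠ ∞) :
    Tendsto (fun i => ∫⁻ x, F i x ∂μ) l (𝓝 (∫⁻ x, f x ∂μ)) := by
  refine tendsto_of_seq_tendsto fun u hu => ?_
  obtain ⟨n₀, hn₀⟩ := eventually_atTop.mp (hu.eventually (hF.and (hG.and hle)))
  refine (tendsto_add_atTop_iff_nat n₀).mp ?_
  have hu' : Tendsto (fun n => u (n + n₀)) atTop l :=
    hu.comp (tendsto_add_atTop_nat n₀)
  refine pratt_seq (F := fun n => F (u (n + n₀))) (G := fun n => G (u (n + n₀)))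
    (fun n => (hn₀ _ (Nat.le_add_left _ _)).1) (fun n => (hn₀ _ (Nat.le_add_left _ _)).2.1)
    (fun n => (hn₀ _ (Nat.le_add_left _ _)).2.2) ?_ ?_ (hi.comp hu') hfin
  · filter_upwards [hf] with x hx using hx.comp hu'
  · filter_upwards [hg] with x hx using hx.comp hu'

end pratt

/-! ## Fibre sums -/

variable {L K : Type} [Field L] [Field K] [Algebra ℂ L] [Algebra ℂ K] [Algebra L K]
  [IsScalarTower ℂ L K] {m r : ℕ} (R : RMdl L K m r)

lemma φU_eq_iff {y : R.MK.Pts} {u : R.UR} : R.φU y = u ↔ R.q y = u.1.1 ∧ R.x y = u.1.2 := by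
  rw [Subtype.ext_iff, Prod.ext_iff]
  rfl

/-- fibre sums are finite sums over the sheets -/
lemma fsumR_sheets {N : ℕ} {u : R.UR} {s : Fin N → R.MK.Pts} (hs : ∀ i, R.φU (s i) = u)
    (hinj : Function.Injective s) (hsurj : ∀ y, R.φU y = u → ∃ i, s i = y)
    (g : R.MK.Pts → ℝ≥0∞) : R.fsumR g u.1.1 u.1.2 = ∑ i, g (s i) := by
  let e : Fin N ≃ {y : R.MK.Pts // R.q y = u.1.1 ∧ R.x y = u.1.2} :=
    Equiv.ofBijective (fun i => ⟨s i, (φU_eq_iff R).mp (hs i)⟩)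
      ⟨fun i j h => hinj (congrArg Subtype.val h), fun y => by
        obtain ⟨i, hi⟩ := hsurj y.1 ((φU_eq_iff R).mpr y.2)
        exact ⟨i, Subtype.ext hi⟩⟩
  unfold RMdl.fsumR
  rw [← e.tsum_eq (fun y : {y : R.MK.Pts // R.q y = u.1.1 ∧ R.x y = u.1.2} => g y.1), tsum_fintype]
  rfl

/-- the fibre sum is continuous off `{h_K = 0}` -/
theorem tendsto_fsumR {ι : Type*} {l : Filter ι} {wi : ι → R.ML.Pts} {w₀ : R.ML.Pts}
    (hw : Tendsto wi l (𝓝 w₀)) {f : ι → R.MK.Pts → ℝ≥0∞} {f₀ : R.MK.Pts → ℝ≥0∞}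
    (hf : ∀ y₀, R.q y₀ = w₀ →
      Tendsto (fun p : ι × R.MK.Pts => f p.1 p.2) (l ×ˢ 𝓝 y₀) (𝓝 (f₀ y₀)))
    {ξ : Cn r} (hξ : (w₀, ξ) ∈ R.UR) :
    Tendsto (fun i => R.fsumR (f i) (wi i) ξ) l (𝓝 (R.fsumR f₀ w₀ ξ)) := by
  classical
  obtain ⟨N, _, _, hsh⟩ := R.exists_sheets
  obtain ⟨U, σ, hU, hwU, hσc, hσ, hinj, hsurj⟩ := hsh ⟨(w₀, ξ), hξ⟩
  set u₀ : R.UR := ⟨(w₀, ξ), hξ⟩ with hu₀
  let τ : Fin N → R.ML.Pts × Cn r → R.MK.Pts := fun k p =>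
    if h : p ∈ R.UR then σ k ⟨p, h⟩ else σ k u₀
  have hτ : ∀ k (u : R.UR), τ k u.1 = σ k u := fun k u => dif_pos u.2
  have hoe : IsOpenEmbedding (Subtype.val : R.UR → R.ML.Pts × Cn r) :=
    R.isOpen_UR.isOpenEmbedding_subtypeVal
  have hτc : ∀ k, ContinuousAt (τ k) (w₀, ξ) := by
    intro k
    have h1 : ContinuousAt (τ k ∘ (Subtype.val : R.UR → R.ML.Pts × Cn r)) u₀ := by
      have h2 : τ k ∘ (Subtype.val : R.UR → R.ML.Pts × Cn r) = σ k := funext fun u => hτ k u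
      rw [h2]
      exact (hσc k).continuousAt (hU.mem_nhds hwU)
    exact hoe.continuousAt_iff.mp h1
  have hlim : Tendsto (fun i => (wi i, ξ)) l (𝓝 (w₀, ξ)) := hw.prodMk_nhds tendsto_const_nhds
  have hUo : (Subtype.val '' U : Set (R.ML.Pts × Cn r)) ∈ 𝓝 (w₀, ξ) :=
    (hoe.isOpenMap U hU).mem_nhds ⟨u₀, hwU, rfl⟩
  have hev : ∀ᶠ i in l, R.fsumR (f i) (wi i) ξ = ∑ k, f i (τ k (wi i, ξ)) := by
    filter_upwards [hlim.eventually hUo] with i hi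
    obtain ⟨u, huU, hu⟩ := hi
    have h1 := fsumR_sheets R (u := u) (s := fun k => σ k u) (fun k => hσ k u huU) (hinj u huU)
      (hsurj u huU) (f i)
    rw [hu] at h1
    rw [h1]
    refine Finset.sum_congr rfl fun k _ => ?_
    rw [← hu, hτ]
  have h0 : R.fsumR f₀ w₀ ξ = ∑ k, f₀ (σ k u₀) :=
    fsumR_sheets R (u := u₀) (s := fun k => σ k u₀) (fun k => hσ k u₀ hwU) (hinj u₀ hwU)
      (hsurj u₀ hwU) f₀
  rw [h0]
  refine Tendsto.congr' (EventuallyEq.symm hev) ?_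
  refine tendsto_finsetSum _ fun k _ => ?_
  have h1 : Tendsto (fun i => τ k (wi i, ξ)) l (𝓝 (σ k u₀)) := by
    have h2 := (hτc k).tendsto.comp hlim
    rw [show τ k (w₀, ξ) = σ k u₀ from hτ k u₀] at h2
    exact h2
  have h2 : R.q (σ k u₀) = w₀ := ((φU_eq_iff R).mp (hσ k u₀ hwU)).1
  exact (hf _ h2).comp (tendsto_id.prodMk h1)

lemma fsumR_of_empty {w : R.ML.Pts} (hw : ∀ y, R.q y ≠ w) (g : R.MK.Pts → ℝ≥0∞) (ξ : Cn r) :
    R.fsumR g w ξ = 0 := by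
  unfold RMdl.fsumR
  rw [ENNReal.tsum_eq_zero]
  rintro ⟨y, hy⟩
  exact absurd hy.1 (hw y)

lemma fint_of_empty {w : R.ML.Pts} (hw : ∀ y, R.q y ≠ w) (g : R.MK.Pts → ℝ≥0∞) :
    R.fint w g = 0 := by
  unfold RMdl.fint
  simp [fsumR_of_empty R hw g]

lemma ae_mem_UR {w : R.ML.Pts} (hw : ∃ y, R.q y = w) : ∀ᵐ ξ : Cn r, (w, ξ) ∈ R.UR := by
  obtain ⟨y, hy⟩ := hw
  have h1 : MvPolynomial.eval (R.x y) (specL (R.ML.pz w) R.MK.h) ≠ 0 := by
    rw [eval_specL, ← hy, R.append_eq]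
    exact R.MK.eval_h_ne y
  have h2 : specL (r := r) (R.ML.pz w) R.MK.h ≠ 0 := by
    intro h
    rw [h] at h1
    simp at h1
  filter_upwards [Null956.ae_eval_ne h2] with ξ hξ
  rw [eval_specL] at hξ
  exact hξ

lemma fsumR_mono {f g : R.MK.Pts → ℝ≥0∞} {w : R.ML.Pts} (h : ∀ y, R.q y = w → f y ≤ g y)
    (ξ : Cn r) : R.fsumR f w ξ ≤ R.fsumR g w ξ :=
  ENNReal.tsum_le_tsum fun y => h y.1 y.2.1

lemma fint_mono {f g : R.MK.Pts → ℝ≥0∞} {w : R.ML.Pts} (h : ∀ y, R.q y = w → f y ≤ g y) :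
    R.fint w f ≤ R.fint w g :=
  lintegral_mono fun ξ => fsumR_mono R h ξ

/-- **generalised dominated convergence for fibre integrals** -/
theorem tendsto_fint {ι : Type*} {l : Filter ι} [l.IsCountablyGenerated] {wi : ι → R.ML.Pts}
    {w₀ : R.ML.Pts} (hw : Tendsto wi l (𝓝 w₀)) {f g : ι → R.MK.Pts → ℝ≥0∞}
    {f₀ g₀ : R.MK.Pts → ℝ≥0∞} (hfm : ∀ᶠ i in l, Measurable (f i)) (hgm : ∀ᶠ i in l, Measurable (g i))
    (hf : ∀ y₀, R.q y₀ = w₀ →
      Tendsto (fun p : ι × R.MK.Pts => f p.1 p.2) (l ×ˢ 𝓝 y₀) (𝓝 (f₀ y₀)))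
    (hg : ∀ y₀, R.q y₀ = w₀ →
      Tendsto (fun p : ι × R.MK.Pts => g p.1 p.2) (l ×ˢ 𝓝 y₀) (𝓝 (g₀ y₀)))
    (hle : ∀ᶠ i in l, ∀ y, R.q y = wi i → f i y ≤ g i y)
    (hi : Tendsto (fun i => R.fint (wi i) (g i)) l (𝓝 (R.fint w₀ g₀)))
    (hfin : R.fint w₀ g₀ ≠ ∞) :
    Tendsto (fun i => R.fint (wi i) (f i)) l (𝓝 (R.fint w₀ f₀)) := by
  by_cases hne : ∃ y, R.q y = w₀
  · have hae := ae_mem_UR R hne
    refine pratt (F := fun i ξ => R.fsumR (f i) (wi i) ξ) (G := fun i ξ => R.fsumR (g i) (wi i) ξ)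
      ?_ ?_ ?_ ?_ ?_ hi hfin
    · filter_upwards [hfm] with i h using (R.measurable_fsumR h _).aemeasurable
    · filter_upwards [hgm] with i h using (R.measurable_fsumR h _).aemeasurable
    · filter_upwards [hle] with i h
      exact Eventually.of_forall fun ξ => fsumR_mono R h ξ
    · filter_upwards [hae] with ξ hξ using tendsto_fsumR R hw hf hξ
    · filter_upwards [hae] with ξ hξ using tendsto_fsumR R hw hg hξ
  · push Not at hne
    rw [fint_of_empty R hne] at hi ⊢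
    refine tendsto_of_tendsto_of_tendsto_of_le_of_le' tendsto_const_nhds hi
      (Eventually.of_forall fun _ => zero_le) ?_
    filter_upwards [hle] with i h using fint_mono R h

end Crest.Agent.R276.LNa_333
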