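import Mathlib
import Crest.Agent.R276.LNf_333
import Crest.Agent.R276.LNe_333

/-!
# Row 276, LEMMA N (helper333), part x: the fibre data of a saturated family, as functions on the
total space

`lkF`, `closF`, `indF`, `bdF` : inputs of 159's `PV_159.Dsc` for `lnF S`.
-/

set_option autoImplicit false
set_option linter.unusedSectionVars false

open Set Filter Topology MeasureTheory Metric
open scoped ENNReal

noncomputable section

namespace Crest.Agent.R276.LNx_333

open Crest.Agent.R271 Crest.Agent.R271.Ho51 Crest.Agent.R271.Rd692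
open Crest.Agent.R276.Mod1_987 Crest.Agent.R276.FlatM_464
open Crest.Agent.R276.FlatDefs_236
open Crest.Agent.R276.LN_999 Crest.Agent.R276.LNb_333 Crest.Agent.R276.LNf_333
open Crest.Agent.R276.Sat_210 (IK)

variable {L K : Type} [Field L] [Field K] [Algebra ℂ L] [Algebra ℂ K] [Algebra L K]
  [IsScalarTower ℂ L K] {m r : ℕ} {R : RMdl L K m r} {N s : ℕ} {u : Fin s → R.MK.B}

variable (S : SatFam R N u)

/-- the fibre integrals of functions of the frame -/
theorem lkF (w : R.ML.Pts) (h : (Fin s → ℂ) → ℝ≥0∞) (hh : Measurable h) :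
    ∫⁻ y, h ((lnF S).sg y) ∂((lnF S).μ w) =
      R.fint w (fun y => h (fun i => (y : R.MK.B →ₐ[ℂ] ℂ) (u i))) := by
  rw [lnF_mu]
  exact lintegral_fmu' R w (hh.comp (measurable_pi_lambda _ fun i => measurable_ev (u i)))

/-- the fibre integral only needs measurability on the fibre -/
theorem fint_fib {w : R.ML.Pts} {g : R.MK.Pts → ℝ≥0∞}
    (hg : Measurable fun y : R.Fib w => g y.val) : R.fint w g = ∫⁻ y, g y.val ∂(nu R w) := by
  have h1 := lintegral_eq_fibre (nu_leb R w) (g := fun y : R.Fib w => g y.val) hg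
  rw [h1]
  unfold RMdl.fint
  exact lintegral_congr fun ξ => R.fsumR_eq g w ξ

include S in
/-- independence on the fibre -/
theorem indF (w : R.ML.Pts) (a : Fin s → ℂ)
    (h : ∀ y : R.MK.Pts, R.q y = w → ∑ i, a i * (y : R.MK.B →ₐ[ℂ] ℂ) (u i) = 0) : a = 0 :=
  S.indep w a fun y => h y.val (RMdl.Fib.q_eq y)

include S in
/-- closedness on the fibre -/
theorem closF (w : R.ML.Pts) (g : R.MK.Pts → ℂ) (hg : Hol (fun y : R.Fib w => g y.val))
    (hfin : R.fint w (fun y => ENNReal.ofReal (‖g y‖ ^ 2) *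
      (ENNReal.ofReal ((∑ i, ‖(y : R.MK.B →ₐ[ℂ] ℂ) (u i)‖ ^ 2) ^ (1 - 1 / (N : ℝ))))⁻¹) < ∞) :
    ∃ a : Fin s → ℂ, ∀ y : R.MK.Pts, R.q y = w → g y = ∑ i, a i * (y : R.MK.B →ₐ[ℂ] ℂ) (u i) := by
  have hN := two_le S
  have hgc : Continuous fun y : R.Fib w => g y.val := LNe_333.hol_cont hg
  have hsc : ∀ i, Continuous fun y : R.Fib w => sg u w y i := fun i =>
    (continuous_ev (u i)).comp (RMdl.Fib.continuous_val w)
  have hN0 : (0 : ℝ) < N := by
    have : 0 < N := by omega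
    exact_mod_cast this
  have hα : (0 : ℝ) ≤ 1 - 1 / (N : ℝ) := by
    rw [sub_nonneg, div_le_one hN0]
    have : 1 ≤ N := by omega
    exact_mod_cast this
  have heq : IK (nu R w) (((N : ℝ) - 1) / N) (fun y : R.Fib w => g y.val)
      (fun i y => sg u w y i) = R.fint w (fun y => ENNReal.ofReal (‖g y‖ ^ 2) *
      (ENNReal.ofReal ((∑ i, ‖(y : R.MK.B →ₐ[ℂ] ℂ) (u i)‖ ^ 2) ^ (1 - 1 / (N : ℝ))))⁻¹) := by
    rw [fint_fib]
    · unfold IK Sat_210.KK
      refine lintegral_congr fun y => ?_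
      have h1 : ((N : ℝ) - 1) / N = 1 - 1 / (N : ℝ) := by field_simp
      rw [h1, ENNReal.rpow_neg]
      have h2 : ∑ i, ‖sg u w y i‖ₑ ^ (2 : ℝ) =
          ENNReal.ofReal (∑ i, ‖(y.val : R.MK.B →ₐ[ℂ] ℂ) (u i)‖ ^ 2) := by
        rw [ENNReal.ofReal_sum_of_nonneg fun i _ => by positivity]
        refine Finset.sum_congr rfl fun i _ => ?_
        rw [← ofReal_norm, ENNReal.ofReal_rpow_of_nonneg (norm_nonneg _) (by norm_num),
          Real.rpow_two]
        rfl
      rw [h2, ENNReal.ofReal_rpow_of_nonneg (Finset.sum_nonneg fun i _ => by positivity) hα]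
      congr 1
      rw [← ofReal_norm, ENNReal.ofReal_rpow_of_nonneg (norm_nonneg _) (by norm_num),
        Real.rpow_two]
    · have h1 : Measurable fun y : R.Fib w =>
          (∑ i, ‖(y.val : R.MK.B →ₐ[ℂ] ℂ) (u i)‖ ^ 2) := by
        refine Continuous.measurable ?_
        exact continuous_finsetSum _ fun i _ => (hsc i).norm.pow 2
      exact ((hgc.norm.pow 2).measurable.ennreal_ofReal).mul
        ((h1.pow_const _).ennreal_ofReal.inv)
  obtain ⟨b, hb⟩ := S.clos w _ hg (by rw [heq]; exact hfin.ne)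
  refine ⟨b, fun y hy => ?_⟩
  have := hb ⟨y, hy⟩
  exact this

/-- `Φ` is bounded along discs -/
theorem bdF {c : ℂ → R.ML.Pts} {R₁ ρ : ℝ} (hc : ContinuousOn c (ball 0 R₁)) (hρ : ρ < R₁) :
    ∃ C : ℝ, ∀ t : ℂ, ‖t‖ < ρ → ∀ i, (lnF S).Phi (c t) (Pi.single i 1) ≤ C := by
  have hK : IsCompact (closedBall (0 : ℂ) ρ) := isCompact_closedBall _ _
  have hsub : closedBall (0 : ℂ) ρ ⊆ ball 0 R₁ := closedBall_subset_ball hρ
  have h1 : ∀ i : Fin s, ∃ C : ℝ, ∀ t ∈ closedBall (0 : ℂ) ρ,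
      (lnF S).Phi (c t) (Pi.single i 1) ≤ C := by
    intro i
    have hcont : ContinuousOn (fun t => (lnF S).Phi (c t) (Pi.single i 1)) (closedBall 0 ρ) :=
      (Phi_cont_left (lnF S) (Pi.single i 1)).comp_continuousOn (hc.mono hsub)
    obtain ⟨C, hC⟩ := hK.bddAbove_image hcont
    exact ⟨C, fun t ht => hC (mem_image_of_mem _ ht)⟩
  choose C hC using h1
  refine ⟨∑ i, |C i|, fun t ht i => ?_⟩
  have h2 := hC i t (by rw [mem_closedBall_zero_iff]; exact ht.le)
  exact h2.trans ((le_abs_self _).trans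
    (Finset.single_le_sum (f := fun i => |C i|) (fun _ _ => abs_nonneg _) (Finset.mem_univ i)))

end Crest.Agent.R276.LNx_333
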