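import Crest.Agent.R276.RestrB_236
import Crest.Agent.R276.HomC_201

/-!
# Row 276 (S0419), leaf RESTR-D (helper652): derived facts for saturated families

`ν z` measures on `X z`, `σ z : X z → ℂˢ`, `0 < p < 2`, with `PHI ν σ p z a = ∫ |a·σ|^p` finite and
continuous in `z` for every `a`:

* `multi` : integrals over `(X z)^r` of continuous functions of `σ(x₁), …, σ(x_r)`, homogeneous of
  degree `p` in every variable, are finite and continuous in `z` (and parameters);
* `DD_cont`, `DD_ne_top` : `D(z) = ∫ |det|^p` is finite and continuous;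
* `DD_pos` : positive if the `σ_i` are continuous and linearly independent;
* `SatFam.mk'` : constructor of 236's `SatFam` without the `D_*` fields and with continuity of `Phi`
  only for every fixed `a`.
-/

set_option autoImplicit false
set_option linter.unusedSectionVars false

open Set Filter Topology MeasureTheory
open scoped ENNReal

noncomputable section

namespace Crest.Agent.R276.RestrD_652

open Crest.Agent.R271 Crest.Agent.R271.Ho51 Crest.Agent.R276.AB2_590
open Crest.Agent.R276.Mod1_987 Crest.Agent.R276.FlatM_464 Crest.Agent.R276.FlatDefs_236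
open Crest.Agent.R276.Restr_236
open Crest.Agent.R276.Sat_210 (IK IW)

/-! ### one variable -/

section abs

variable {G : Type} [TopologicalSpace G] {X : G → Type} [∀ z, MeasurableSpace (X z)]
  {ν : ∀ z, Measure (X z)} {s : ℕ} {σ : ∀ z, X z → Fin s → ℂ} {p : ℝ}

theorem one {W : Type} [TopologicalSpace W] [∀ z, SFinite (ν z)] (hp : 0 < p) (hp2 : p < 2)
    (hσ : ∀ z, Measurable (σ z)) (hfin : ∀ z a, PHI ν σ p z a ≠ ∞)
    (hc : ∀ a, Continuous fun z => PHI ν σ p z a)
    (g : W → (Fin s → ℂ) → ℝ) (hg : Continuous fun q : W × (Fin s → ℂ) => g q.1 q.2)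
    (h0 : ∀ w v, 0 ≤ g w v) (hh : ∀ w (c : ℂ) v, g w (c • v) = ‖c‖ ^ p * g w v) :
    (Continuous fun q : G × W => (∫⁻ x, ENNReal.ofReal (g q.2 (σ q.1 x)) ∂(ν q.1)).toReal) ∧
      ∀ (z : G) (w : W), ∫⁻ x, ENNReal.ofReal (g w (σ z x)) ∂(ν z) ≠ ∞ := by
  have hgw : ∀ w, Continuous (g w) := fun w => hg.comp (by fun_prop : Continuous fun v => (w, v))
  have hmap : ∀ z (F : (Fin s → ℂ) → ℝ≥0∞), Measurable F →
      ∫⁻ v, F v ∂((ν z).map (σ z)) = ∫⁻ x, F (σ z x) ∂(ν z) := fun z F hF =>
    lintegral_map hF (hσ z)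
  have hfin' : ∀ z (a : Fin s → ℂ),
      ∫⁻ v, ENNReal.ofReal (‖∑ i, a i * v i‖ ^ p) ∂((ν z).map (σ z)) ≠ ∞ := by
    intro z a
    rw [hmap z (fun v => ENNReal.ofReal (‖∑ i, a i * v i‖ ^ p))]
    · exact hfin z a
    · refine ENNReal.measurable_ofReal.comp (Measurable.pow_const ?_ _)
      exact (by fun_prop : Continuous fun v : Fin s → ℂ => ∑ i, a i * v i).measurable.norm
  have hm : ∀ i, Measurable fun v : Fin s → ℂ => v i := fun i => measurable_pi_apply i
  have hPHI : ∀ z (a : Fin s → ℂ),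
      ∫ v, ‖∑ i, a i * v i‖ ^ p ∂((ν z).map (σ z)) = (PHI ν σ p z a).toReal := by
    intro z a
    rw [integral_eq_lintegral_of_nonneg_ae
      (Eventually.of_forall fun v => Real.rpow_nonneg (norm_nonneg _) _)
      (HomC_201.integrable_lin hm (hfin' z) a).aestronglyMeasurable,
      hmap z (fun v => ENNReal.ofReal (‖∑ i, a i * v i‖ ^ p))]
    · rfl
    · refine ENNReal.measurable_ofReal.comp (Measurable.pow_const ?_ _)
      exact (by fun_prop : Continuous fun v : Fin s → ℂ => ∑ i, a i * v i).measurable.norm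
  have hc' : ∀ a : Fin s → ℂ,
      Continuous fun z => ∫ v, ‖∑ i, a i * v i‖ ^ p ∂((ν z).map (σ z)) := by
    intro a
    simp only [hPHI]
    rw [continuous_iff_continuousAt]
    intro z
    exact (ENNReal.tendsto_toReal (hfin z a)).comp (hc a).continuousAt.tendsto
  -- integrability
  have hint : ∀ z w, Integrable (fun v => g w v) ((ν z).map (σ z)) := by
    intro z w
    obtain ⟨C, hC0, hC⟩ := HomC_201.hom_bd hp (hgw w).continuousOn (hh w)
    refine ((HomC_201.integrable_norm hp hm (hfin' z)).const_mul C).mono'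
      (hgw w).aestronglyMeasurable (Eventually.of_forall fun v => ?_)
    rw [Real.norm_eq_abs]
    exact hC v
  have hlint : ∀ z w, ∫⁻ x, ENNReal.ofReal (g w (σ z x)) ∂(ν z) =
      ENNReal.ofReal (∫ v, g w v ∂((ν z).map (σ z))) := by
    intro z w
    rw [ofReal_integral_eq_lintegral_ofReal (hint z w) (Eventually.of_forall (h0 w)),
      hmap z (fun v => ENNReal.ofReal (g w v)) (ENNReal.measurable_ofReal.comp (hgw w).measurable)]
  refine ⟨?_, fun z w => by rw [hlint]; exact ENNReal.ofReal_ne_top⟩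
  have h1 := HomC_201.homcont2 (X := G) hp hp2 (fun z => (ν z).map (σ z))
    (fun i (v : Fin s → ℂ) => v i) hm hfin' hc' g isOpen_univ
    (hg.continuousOn) (fun w _ => hh w)
  have h2 : Continuous fun q : G × W => ∫ v, g q.2 v ∂((ν q.1).map (σ q.1)) := by
    rw [← continuousOn_univ]
    refine h1.mono fun q _ => mem_univ _
  refine h2.congr fun q => ?_
  show _ = (∫⁻ x, ENNReal.ofReal (g q.2 (σ q.1 x)) ∂(ν q.1)).toReal
  rw [hlint q.1 q.2, ENNReal.toReal_ofReal (integral_nonneg (h0 q.2))]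

/-! ### several variables -/

theorem multi [∀ z, SigmaFinite (ν z)] (hp : 0 < p) (hp2 : p < 2)
    (hσ : ∀ z, Measurable (σ z)) (hfin : ∀ z a, PHI ν σ p z a ≠ ∞)
    (hc : ∀ a, Continuous fun z => PHI ν σ p z a) (r : ℕ) :
    ∀ {W : Type} [TopologicalSpace W] (g : W → (Fin r → Fin s → ℂ) → ℝ),
      (Continuous fun q : W × (Fin r → Fin s → ℂ) => g q.1 q.2) → (∀ w v, 0 ≤ g w v) →
      (∀ w (j : Fin r) (c : ℂ) v, g w (Function.update v j (c • v j)) = ‖c‖ ^ p * g w v) →
      (Continuous fun q : G × W => ∫⁻ x, ENNReal.ofReal (g q.2 (fun j => σ q.1 (x j)))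
        ∂(Measure.pi fun _ : Fin r => ν q.1)) ∧
      ∀ (z : G) (w : W), ∫⁻ x, ENNReal.ofReal (g w (fun j => σ z (x j)))
        ∂(Measure.pi fun _ : Fin r => ν z) ≠ ∞ := by
  induction r with
  | zero =>
    intro W _ g hg h0 hh
    have e : ∀ (z : G) (w : W), ∫⁻ x, ENNReal.ofReal (g w (fun j => σ z (x j)))
        ∂(Measure.pi fun _ : Fin 0 => ν z) = ENNReal.ofReal (g w Fin.elim0) := by
      intro z w
      rw [Measure.pi_of_empty _ (Fin.elim0 : Fin 0 → X z), lintegral_dirac]
      congr 2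
      ext j
      exact Fin.elim0 j
    refine ⟨?_, fun z w => by rw [e]; exact ENNReal.ofReal_ne_top⟩
    simp only [e]
    have h5 : Continuous fun q : G × W => (q.2, (Fin.elim0 : Fin 0 → Fin s → ℂ)) := by fun_prop
    exact ENNReal.continuous_ofReal.comp (hg.comp h5)
  | succ r ih =>
    intro W _ g hg h0 hh
    -- the inner integral
    have hcons : Continuous fun q : (W × (Fin r → Fin s → ℂ)) × (Fin s → ℂ) =>
        g q.1.1 (Fin.cons q.2 q.1.2) := by
      have h6 : Continuous fun q : (W × (Fin r → Fin s → ℂ)) × (Fin s → ℂ) =>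
          (Fin.cons q.2 q.1.2 : Fin (r + 1) → Fin s → ℂ) := by
        refine continuous_pi fun j => ?_
        refine Fin.cases ?_ (fun j => ?_) j
        · simpa using continuous_snd
        · simp only [Fin.cons_succ]
          fun_prop
      exact hg.comp ((continuous_fst.comp continuous_fst).prodMk h6)
    have h1 := one (ν := ν) (σ := σ) (W := W × (Fin r → Fin s → ℂ)) hp hp2 hσ hfin hc
      (fun q v => g q.1 (Fin.cons v q.2)) hcons (fun q v => h0 _ _) (by
        intro q c v
        have := hh q.1 0 c (Fin.cons v q.2)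
        rw [Fin.cons_zero, Fin.update_cons_zero] at this
        exact this)
    set I : G × W → (Fin r → Fin s → ℂ) → ℝ := fun q v =>
      (∫⁻ x, ENNReal.ofReal (g q.2 (Fin.cons (σ q.1 x) v)) ∂(ν q.1)).toReal with hI
    have hIc : Continuous fun q : (G × W) × (Fin r → Fin s → ℂ) => I q.1 q.2 := by
      have := h1.1.comp (by fun_prop : Continuous fun q : (G × W) × (Fin r → Fin s → ℂ) =>
        (q.1.1, (q.1.2, q.2)))
      exact this
    have hIh : ∀ (q : G × W) (j : Fin r) (c : ℂ) v,
        I q (Function.update v j (c • v j)) = ‖c‖ ^ p * I q v := by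
      intro q j c v
      simp only [hI]
      have : ∀ x, ENNReal.ofReal (g q.2 (Fin.cons (σ q.1 x) (Function.update v j (c • v j)))) =
          ENNReal.ofReal (‖c‖ ^ p) * ENNReal.ofReal (g q.2 (Fin.cons (σ q.1 x) v)) := by
        intro x
        have h2 := hh q.2 j.succ c (Fin.cons (σ q.1 x) v)
        rw [Fin.cons_succ, ← Fin.cons_update] at h2
        rw [h2, ENNReal.ofReal_mul (Real.rpow_nonneg (norm_nonneg _) _)]
      simp only [this]
      rw [lintegral_const_mul' _ _ ENNReal.ofReal_ne_top, ENNReal.toReal_mul,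
        ENNReal.toReal_ofReal (Real.rpow_nonneg (norm_nonneg _) _)]
    obtain ⟨h3, h4⟩ := ih (W := G × W) I hIc (fun q v => ENNReal.toReal_nonneg) hIh
    have e : ∀ (z : G) (w : W), ∫⁻ x, ENNReal.ofReal (g w (fun j => σ z (x j)))
        ∂(Measure.pi fun _ : Fin (r + 1) => ν z) =
        ∫⁻ x, ENNReal.ofReal (I (z, w) (fun j => σ z (x j)))
        ∂(Measure.pi fun _ : Fin r => ν z) := by
      intro z w
      have hgw : Continuous (g w) := hg.comp (by fun_prop : Continuous fun v => (w, v))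
      rw [lintegral_succ (ν z) (H := fun x => ENNReal.ofReal (g w (fun j => σ z (x j))))]
      · refine lintegral_congr fun y => ?_
        simp only [hI]
        rw [ENNReal.ofReal_toReal (h1.2 z (w, fun j => σ z (y j)))]
        refine lintegral_congr fun a => ?_
        congr 2
        funext j
        refine Fin.cases ?_ (fun j => ?_) j <;> simp
      · refine ENNReal.measurable_ofReal.comp (hgw.measurable.comp ?_)
        exact measurable_pi_lambda _ fun j => (hσ z).comp (measurable_pi_apply j)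
    refine ⟨?_, fun z w => by rw [e]; exact h4 z (z, w)⟩
    simp only [e]
    exact h3.comp (by fun_prop : Continuous fun q : G × W => (q.1, q))

/-! ### the determinant -/

theorem hdet_cont (hp : 0 < p) :
    Continuous fun x : Fin s → Fin s → ℂ => ‖(Matrix.of x).det‖ ^ p := by
  refine Continuous.rpow_const ?_ fun _ => Or.inr hp.le
  exact (Continuous.matrix_det (by
    exact continuous_id : Continuous fun x : Fin s → Fin s → ℂ => Matrix.of x)).norm

theorem hdet_hom (j : Fin s) (c : ℂ) (v : Fin s → Fin s → ℂ) :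
    ‖(Matrix.of (Function.update v j (c • v j))).det‖ ^ p = ‖c‖ ^ p * ‖(Matrix.of v).det‖ ^ p := by
  have := det_update v j c
  have e : (fun i => c * v j i) = c • v j := by
    funext i
    rfl
  rw [e] at this
  rw [this, norm_mul, Real.mul_rpow (norm_nonneg _) (norm_nonneg _)]

theorem DD_cont [∀ z, SigmaFinite (ν z)] (hp : 0 < p) (hp2 : p < 2)
    (hσ : ∀ z, Measurable (σ z)) (hfin : ∀ z a, PHI ν σ p z a ≠ ∞)
    (hc : ∀ a, Continuous fun z => PHI ν σ p z a) : Continuous fun z => DD ν σ p z := by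
  have h := (multi hp hp2 hσ hfin hc s (W := Unit) (fun _ x => ‖(Matrix.of x).det‖ ^ p)
    ((hdet_cont hp).comp continuous_snd) (fun _ _ => Real.rpow_nonneg (norm_nonneg _) _)
    (fun _ j c v => hdet_hom j c v)).1
  exact h.comp (by fun_prop : Continuous fun z : G => (z, ()))

theorem DD_ne_top [∀ z, SigmaFinite (ν z)] (hp : 0 < p) (hp2 : p < 2)
    (hσ : ∀ z, Measurable (σ z)) (hfin : ∀ z a, PHI ν σ p z a ≠ ∞)
    (hc : ∀ a, Continuous fun z => PHI ν σ p z a) (z : G) : DD ν σ p z ≠ ∞ :=
  (multi hp hp2 hσ hfin hc s (W := Unit) (fun _ x => ‖(Matrix.of x).det‖ ^ p)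
    ((hdet_cont hp).comp continuous_snd) (fun _ _ => Real.rpow_nonneg (norm_nonneg _) _)
    (fun _ j c v => hdet_hom j c v)).2 z ()

/-- joint continuity -/
theorem PHI_cont [∀ z, SFinite (ν z)] (hp : 0 < p) (hp2 : p < 2)
    (hσ : ∀ z, Measurable (σ z)) (hfin : ∀ z a, PHI ν σ p z a ≠ ∞)
    (hc : ∀ a, Continuous fun z => PHI ν σ p z a) :
    Continuous fun q : G × (Fin s → ℂ) => PHI ν σ p q.1 q.2 := by
  have h := one (ν := ν) (σ := σ) (W := Fin s → ℂ) hp hp2 hσ hfin hc
    (fun a v => ‖∑ i, a i * v i‖ ^ p)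
    (Continuous.rpow_const (by fun_prop) fun _ => Or.inr hp.le)
    (fun _ _ => Real.rpow_nonneg (norm_nonneg _) _) (fun a c v => by
      have : ∑ i, a i * (c • v) i = c * ∑ i, a i * v i := by
        rw [Finset.mul_sum]
        exact Finset.sum_congr rfl fun i _ => by rw [Pi.smul_apply, smul_eq_mul]; ring
      rw [this, norm_mul, Real.mul_rpow (norm_nonneg _) (norm_nonneg _)])
  refine (ENNReal.continuous_ofReal.comp h.1).congr fun q => ?_
  exact ENNReal.ofReal_toReal (h.2 q.1 q.2)

end abs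

/-- independent functions: some determinant is nonzero -/
theorem exists_tuple {Y : Type*} {s : ℕ} (v : Y → Fin s → ℂ)
    (h : ∀ a : Fin s → ℂ, (∀ y, ∑ i, a i * v y i = 0) → a = 0) :
    ∃ y : Fin s → Y, (Matrix.of fun j => v (y j)).det ≠ 0 := by
  have hspan : Submodule.span ℂ (range v) = ⊤ := by
    by_contra hne
    obtain ⟨f, hf0, hf⟩ := Submodule.exists_le_ker_of_lt_top _ (lt_top_iff_ne_top.2 hne)
    refine hf0 ?_
    have h1 : (fun i => f (Pi.single i 1)) = (0 : Fin s → ℂ) := by
      refine h _ fun y => ?_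
      have h2 : f (v y) = 0 := hf (Submodule.subset_span ⟨y, rfl⟩)
      rw [← h2]
      conv_rhs => rw [← Finset.univ_sum_single (v y), map_sum]
      refine Finset.sum_congr rfl fun i _ => ?_
      have h3 : (Pi.single i (v y i) : Fin s → ℂ) = v y i • Pi.single i 1 := by
        rw [← Pi.single_smul, smul_eq_mul, mul_one]
      rw [h3, map_smul, smul_eq_mul, mul_comm]
    refine LinearMap.pi_ext' fun i => LinearMap.ext_ring ?_
    exact congrFun h1 i
  obtain ⟨b, hb, hbs, hli⟩ := exists_linearIndependent ℂ (range v)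
  rw [hspan] at hbs
  have hfin : b.Finite := hli.setFinite
  have := hfin.fintype
  have hcard : Fintype.card b = s := by
    have h1 := Module.finrank_eq_card_basis (Module.Basis.mk hli (by rw [Subtype.range_coe]; exact hbs.ge))
    rw [Module.finrank_fin_fun] at h1
    exact h1.symm
  set e : Fin s ≃ b := (Fintype.equivFinOfCardEq hcard).symm
  choose y hy using fun j : Fin s => hb (e j).2
  refine ⟨y, ?_⟩
  have h4 : LinearIndependent ℂ (Matrix.of fun j => v (y j)).row := by
    have h5 : (Matrix.of fun j => v (y j)).row = (Subtype.val : b → Fin s → ℂ) ∘ e := by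
      funext j
      exact hy j
    rw [h5]
    exact hli.comp e e.injective
  rw [Matrix.linearIndependent_rows_iff_isUnit, Matrix.isUnit_iff_isUnit_det] at h4
  exact h4.ne_zero

/-! ### positivity -/

section pos

variable {n : ℕ} {M : Type*} [TopologicalSpace M] [RDom n M] [MeasurableSpace M] [BorelSpace M]

/-- the Lebesgue measure of a Riemann domain is positive on open sets -/
theorem isOpenPos {μ : Measure M} (hμ : IsLeb μ) : μ.IsOpenPosMeasure := by
  refine ⟨fun U hU hne hzero => ?_⟩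
  obtain ⟨x, hx⟩ := hne
  have h1 := hμ (ch x) (isCh_ch x)
  have h2 : (μ.restrict (ch x).source) U = 0 := by
    rw [Measure.restrict_apply hU.measurableSet]
    exact measure_mono_null inter_subset_left hzero
  have hae : AEMeasurable (ch x).symm ((volume : Measure (Fin n → ℂ)).restrict (ch x).target) :=
    (ch x).continuousOn_symm.aemeasurable (ch x).open_target.measurableSet
  rw [h1, Measure.map_apply_of_aemeasurable hae hU.measurableSet] at h2
  have h3 : volume ((ch x).target ∩ (ch x).symm ⁻¹' U) = 0 := by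
    refine le_antisymm (le_trans ?_ h2.le) bot_le
    refine (Measure.le_restrict_apply _ _).trans' (le_of_eq ?_)
    rw [inter_comm]
  have h4 : IsOpen ((ch x).target ∩ (ch x).symm ⁻¹' U) :=
    (ch x).continuousOn_symm.isOpen_inter_preimage (ch x).open_target hU
  have h5 : ((ch x).target ∩ (ch x).symm ⁻¹' U).Nonempty := by
    refine ⟨ch x x, (ch x).map_source (mem_ch x), ?_⟩
    show (ch x).symm (ch x x) ∈ U
    rwa [(ch x).left_inv (mem_ch x)]
  exact (h4.measure_pos volume h5).ne' h3

end pos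

theorem DD_pos {G : Type} {X : G → Type} [∀ z, TopologicalSpace (X z)]
    [∀ z, SecondCountableTopology (X z)] [∀ z, MeasurableSpace (X z)] [∀ z, BorelSpace (X z)]
    {ν : ∀ z, Measure (X z)} [∀ z, SigmaFinite (ν z)] [∀ z, (ν z).IsOpenPosMeasure] {s : ℕ}
    {σ : ∀ z, X z → Fin s → ℂ} {p : ℝ} (hp : 0 < p) (z : G) (hσ : Continuous (σ z))
    (hi : ∀ a : Fin s → ℂ, (∀ y, ∑ i, a i * σ z y i = 0) → a = 0) : 0 < DD ν σ p z := by
  obtain ⟨y, hy⟩ := exists_tuple (σ z) hi
  have hc : Continuous fun x : Fin s → X z => ‖(Matrix.of fun j : Fin s => σ z (x j)).det‖ ^ p :=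
    (hdet_cont hp).comp (continuous_pi fun j => hσ.comp (continuous_apply j))
  have hU : IsOpen {x : Fin s → X z | 0 < ‖(Matrix.of fun j : Fin s => σ z (x j)).det‖ ^ p} :=
    isOpen_lt continuous_const hc
  have hne : {x : Fin s → X z | 0 < ‖(Matrix.of fun j : Fin s => σ z (x j)).det‖ ^ p}.Nonempty :=
    ⟨y, Real.rpow_pos_of_pos (norm_pos_iff.2 hy) _⟩
  rw [pos_iff_ne_zero]
  intro hcon
  unfold DD at hcon
  have hcm : Measurable fun x : Fin s → X z =>
      ENNReal.ofReal (‖(Matrix.of fun j : Fin s => σ z (x j)).det‖ ^ p) :=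
    ENNReal.measurable_ofReal.comp hc.measurable
  rw [lintegral_eq_zero_iff hcm] at hcon
  have h1 := hU.measure_pos (Measure.pi fun _ : Fin s => ν z) hne
  refine h1.ne' (measure_mono_null ?_ hcon)
  intro x hx h2
  have h3 : ENNReal.ofReal (‖(Matrix.of fun j : Fin s => σ z (x j)).det‖ ^ p) = 0 := h2
  rw [ENNReal.ofReal_eq_zero] at h3
  exact absurd hx (not_lt.2 h3)

/-! ### saturated families -/

section sat

variable {L K : Type} [Field L] [Field K] [Algebra ℂ L] [Algebra ℂ K] [Algebra L K]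
  [IsScalarTower ℂ L K] {m r : ℕ}

instance (R : RMdl L K m r) (w : R.ML.Pts) : (nu R w).IsOpenPosMeasure := isOpenPos (nu_leb R w)

variable {R : RMdl L K m r} {N s : ℕ} {u : Fin s → R.MK.B}

theorem DN_cont (hN : 2 ≤ N) (hfin : ∀ w a, Phi N u w a ≠ ∞)
    (hc : ∀ a, Continuous fun w => Phi N u w a) : Continuous fun w => DN N u w := by
  have hN0 : (0 : ℝ) < N := by exact_mod_cast (by omega : 0 < N)
  have hN2 : (2 : ℝ) ≤ N := by exact_mod_cast hN
  refine DD_cont (div_pos two_pos hN0) ?_ (fun w => meas_sg u w) hfin hc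
  exact lt_of_le_of_lt ((div_le_one hN0).2 hN2) one_lt_two

theorem DN_fin (hN : 2 ≤ N) (hfin : ∀ w a, Phi N u w a ≠ ∞)
    (hc : ∀ a, Continuous fun w => Phi N u w a) (w : R.ML.Pts) : DN N u w ≠ ∞ := by
  have hN0 : (0 : ℝ) < N := by exact_mod_cast (by omega : 0 < N)
  have hN2 : (2 : ℝ) ≤ N := by exact_mod_cast hN
  refine DD_ne_top (div_pos two_pos hN0) ?_ (fun w => meas_sg u w) hfin hc w
  exact lt_of_le_of_lt ((div_le_one hN0).2 hN2) one_lt_two

theorem Phi_cont (hN : 2 ≤ N) (hfin : ∀ w a, Phi N u w a ≠ ∞)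
    (hc : ∀ a, Continuous fun w => Phi N u w a) :
    Continuous fun q : R.ML.Pts × (Fin s → ℂ) => Phi N u q.1 q.2 := by
  have hN0 : (0 : ℝ) < N := by exact_mod_cast (by omega : 0 < N)
  have hN2 : (2 : ℝ) ≤ N := by exact_mod_cast hN
  refine PHI_cont (div_pos two_pos hN0) ?_ (fun w => meas_sg u w) hfin hc
  exact lt_of_le_of_lt ((div_le_one hN0).2 hN2) one_lt_two

theorem DN_pos (hN : 0 < N) (w : R.ML.Pts)
    (hi : ∀ a : Fin s → ℂ, (∀ y : R.Fib w, ∑ i, a i * sg u w y i = 0) → a = 0) :
    0 < DN N u w :=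
  DD_pos (div_pos two_pos (by exact_mod_cast hN)) w (cont_sg u w) hi

/-- **constructor** of saturated families: no hypothesis on `DN`, continuity of `Phi` only for
fixed `a` -/
theorem satFam_mk (N_even : Even N) (N_ge : 4 ≤ N) (s_pos : 0 < s)
    (conn : ∀ w : R.ML.Pts, ConnectedSpace (R.Fib w))
    (indep : ∀ (w : R.ML.Pts) (a : Fin s → ℂ),
      (∀ y : R.Fib w, ∑ i, a i * sg u w y i = 0) → a = 0)
    (fin : ∀ (w : R.ML.Pts) (a : Fin s → ℂ), Phi N u w a ≠ ∞)
    (cont : ∀ a, Continuous fun w : R.ML.Pts => Phi N u w a)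
    (clos : ∀ (w : R.ML.Pts) (f : R.Fib w → ℂ), Hol f →
      IK (nu R w) (((N : ℝ) - 1) / N) f (fun i y => sg u w y i) ≠ ∞ →
      ∃ b : Fin s → ℂ, ∀ y : R.Fib w, f y = ∑ i, b i * sg u w y i) : SatFam R N u where
  N_even := N_even
  N_ge := N_ge
  s_pos := s_pos
  conn := conn
  indep := indep
  fin := fin
  cont := Phi_cont (by omega) fin cont
  clos := clos
  D_pos w := DN_pos (by omega) w (indep w)
  D_fin := DN_fin (by omega) fin cont
  D_cont := DN_cont (by omega) fin cont

end sat

end Crest.Agent.R276.RestrD_652
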