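import Crest.Agent.R276.SatF_210
import Crest.Agent.R276.SatC2_886
import Crest.Agent.R276.RestrC_236
import Crest.Agent.R276.RestrD_652
import Crest.Agent.R276.Geo3_519
import Crest.Agent.R276.Mod10_987
import Crest.Agent.R276.IpcRz_840

/-!
# Row 276 (S0419), leaf SAT (helper210), part G: THE SATURATED FAMILY

`sat` : `R : RMdl L K m r` a relative model, `L` algebraically closed in `K`, `N ≥ 4` even,
`u_1, …, u_s ∈ B_K` linearly independent over `L` in the class `W_N`, with (B2) ("`b` regular on a shrinking,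
`∫ |b|² (∑|u_i|²)^{-(N-1)/N} < ∞` (weighted) implies `b ∈ span_L u`").  Then after shrinking `SatFam` holds.
-/

set_option autoImplicit false
set_option linter.unusedSectionVars false

noncomputable section

open Set Filter Topology MeasureTheory
open Crest.Agent.R271.Ho51 Crest.Agent.R276.Ipc735 Crest.Agent.R276.Top8_815
open Crest.Agent.R276.Mod1_987 Crest.Agent.R271.Rd692 Crest.Agent.R276.IpcRMdl_244
open Crest.Agent.R276.Rc_348 Crest.Agent.R276.GeoY_519 Crest.Agent.R276.SatF_210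
open Crest.Agent.R276.SatB_210 Crest.Agent.R276.SatC_210 Crest.Agent.R276.Iter_840
open Crest.Agent.R276.IpcModel_244 Crest.Agent.R276.IpcRel_244 Crest.Agent.R276.FlatDefs_236
open Crest.Agent.R271.Defs710 Crest.Agent.R276.AB2_590
open Crest.Agent.R276.Sat_210 (IK IW KK)
open scoped ENNReal

namespace Crest.Agent.R276.SatG_210

variable {L K : Type} [Field L] [Field K] [Algebra ℂ L] [Algebra ℂ K] [Algebra L K]
  [IsScalarTower ℂ L K] {m r : ℕ} {R : RMdl L K m r} {s : ℕ}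

lemma KK_eq (u : Fin s → R.MK.B) (y : R.MK.Pts) :
    KK (fun i (y : R.MK.Pts) => y (u i)) y = ENNReal.ofReal (kk u y) := by
  unfold Sat_210.KK kk
  rw [ENNReal.ofReal_sum_of_nonneg fun i _ => by positivity]
  refine Finset.sum_congr rfl fun i _ => ?_
  rw [enorm_rpow_eq _ (by norm_num)]
  norm_cast

/-- **averaging on the total space** -/
theorem exists_c {N : ℕ} (hN : 2 ≤ N) (hs : 0 < s) {u : Fin s → R.MK.B}
    (hu : ∀ i, InW R N fun y => y (u i)) :
    ∃ c : Fin s → ℂ, c ≠ 0 ∧ ∀ k, InE R fun y => ‖y (u k)‖ₑ ^ (2 : ℝ) *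
      ‖∑ i, c i * y (u i)‖ₑ ^ (-2 * (((N : ℝ) - 1) / N)) := by
  have hN2 : (2 : ℝ) ≤ N := by exact_mod_cast hN
  have hN0 : (0 : ℝ) < N := by linarith
  have ha0 : 0 < ((N : ℝ) - 1) / N := div_pos (by linarith) hN0
  have ha1 : ((N : ℝ) - 1) / N < 1 := by rw [div_lt_one hN0]; linarith
  have h1a : 1 - ((N : ℝ) - 1) / N = 1 / N := by field_simp; ring
  obtain ⟨p, a, hp, hi⟩ := inE_kk (by omega : 0 < N) hu
  obtain ⟨μ, hμ⟩ := R.MK.exists_leb
  have hlf : IsLocallyFiniteMeasure μ := hμ.locallyFinite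
  have hwm : Measurable fun y : R.MK.Pts => ENNReal.ofReal (wL R p a (R.q y)) :=
    ((continuous_wL R p a).comp R.continuous_q).measurable.ennreal_ofReal
  have hum : ∀ i, Measurable fun y : R.MK.Pts => y (u i) := fun i => (continuous_ev (u i)).measurable
  have hkm : Measurable fun y : R.MK.Pts => ENNReal.ofReal (kk u y) :=
    (continuous_kk u).measurable.ennreal_ofReal
  rw [R.MK.lintM_eq hμ (show Measurable fun y : R.MK.Pts => ENNReal.ofReal (kk u y) ^ (1 / N : ℝ) *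
    ENNReal.ofReal (wL R p a (R.q y)) from (hkm.pow_const _).mul hwm)] at hi
  set μ' : Measure R.MK.Pts := μ.withDensity fun y => ENNReal.ofReal (wL R p a (R.q y)) with hμ'
  have hIK : ∀ k, IK μ' (((N : ℝ) - 1) / N) (fun y : R.MK.Pts => y (u k))
      (fun i (y : R.MK.Pts) => y (u i)) ≠ ∞ := by
    intro k
    refine ne_of_lt (lt_of_le_of_lt (Sat_210.IK_self_le (α := ((N : ℝ) - 1) / N)
      (μ := μ') (u := fun i (y : R.MK.Pts) => y (u i)) k) ?_)
    rw [h1a]
    simp only [KK_eq]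
    rw [hμ', lintegral_withDensity_eq_lintegral_mul _ hwm (hkm.pow_const _)]
    refine lt_of_eq_of_lt (lintegral_congr fun y => ?_) hi
    simp only [Pi.mul_apply]
    rw [mul_comm]
  have hU : volume ({c : Fin s → ℂ | c ≠ 0}ᶜ) = 0 := by
    have hne : Nonempty (Fin s) := ⟨⟨0, hs⟩⟩
    have h1 : ({c : Fin s → ℂ | c ≠ 0}ᶜ) = {0} := by
      ext c
      simp
    rw [h1]
    exact measure_singleton 0
  obtain ⟨c, hc, hI⟩ := Sat_210.exists_good (μ := μ') ha0 ha1 hum hum hIK hU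
  refine ⟨c, hc, fun k => ⟨p, a, hp, ?_⟩⟩
  have hm : Measurable fun y : R.MK.Pts => ‖y (u k)‖ₑ ^ (2 : ℝ) *
      ‖∑ i, c i * y (u i)‖ₑ ^ (-2 * (((N : ℝ) - 1) / N)) := by
    have h1 : Measurable fun y : R.MK.Pts => ∑ i, c i * y (u i) :=
      Finset.measurable_fun_sum _ fun i _ => (hum i).const_mul _
    exact ((hum k).enorm.pow_const _).mul (h1.enorm.pow_const _)
  rw [R.MK.lintM_eq hμ (show Measurable fun y : R.MK.Pts => (‖y (u k)‖ₑ ^ (2 : ℝ) *
      ‖∑ i, c i * y (u i)‖ₑ ^ (-2 * (((N : ℝ) - 1) / N))) * ENNReal.ofReal (wL R p a (R.q y))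
      from hm.mul hwm)]
  have h2 := hI k
  unfold Sat_210.IW at h2
  rw [hμ', lintegral_withDensity_eq_lintegral_mul _ hwm hm] at h2
  refine lt_of_eq_of_lt (lintegral_congr fun y => ?_) (lt_top_iff_ne_top.2 h2)
  simp only [Pi.mul_apply]
  rw [mul_comm]

/-! ### restriction to smaller models -/

section res

variable {R' : RMdl L K m r} (hL : R.ML.B ≤ R'.ML.B) (hK : R.MK.B ≤ R'.MK.B)
  (hzL : R.ML.zK = R'.ML.zK) (hzK : R.MK.zK = R'.MK.zK)

include hzK in
lemma lintM_res_le (g : R.MK.Pts → ℝ≥0∞) :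
    lintM R'.MK.z (fun y => g (Mdl.resB hK y)) ≤ lintM R.MK.z g := by
  unfold lintM
  refine lintegral_mono fun ζ => ?_
  have h1 : ∀ (y : R'.MK.Pts) i, (Mdl.resB hK y) (R.MK.z i) = y (R'.MK.z i) := by
    intro y i
    change y ⟨(R.MK.z i : K), _⟩ = _
    congr 1
    exact Subtype.ext (congrFun hzK i)
  let j : {y : R'.MK.Pts // ∀ i, y (R'.MK.z i) = ζ i} → {y : R.MK.Pts // ∀ i, y (R.MK.z i) = ζ i} :=
    fun y => ⟨Mdl.resB hK y.1, fun i => (h1 y.1 i).trans (y.2 i)⟩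
  have hj : Function.Injective j := by
    intro y y' h
    exact Subtype.ext (Mdl.resB_injective hzK hK (congrArg Subtype.val h))
  exact ENNReal.tsum_comp_le_tsum_of_injective hj (fun y => g y.1)

include hL hzL hzK in
lemma InE.res {F : R.MK.Pts → ℝ≥0∞} (h : InE R F) :
    InE R' fun y => F (Mdl.resB hK y) := by
  obtain ⟨p, a, hp, hi⟩ := h
  have h0 : ∀ y : R'.MK.Pts, wL R p a (R.q (Mdl.resB hK y)) = wL R' p a (R'.q y) := by
    intro y
    have h1 : R.ML.pz (R.q (Mdl.resB hK y)) = R'.ML.pz (R'.q y) := by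
      rw [RMdl.q_resB hL hK]
      exact Mdl.pz_resB hzL hL _
    unfold SatB_210.wL
    rw [h1]
  have h2 := lt_of_le_of_lt (lintM_res_le hK hzK
    (fun y => F y * ENNReal.ofReal (wL R p a (R.q y)))) hi
  refine ⟨p, a, hp, ?_⟩
  simp only [h0] at h2
  exact h2

end res

/-! ### shrinking the base only does not change the fibres -/

section shr

variable (R) (p : MvPolynomial (Fin m) ℂ) (hp : p ≠ 0) (g : MvPolynomial (Fin (m + r)) ℂ)
  (hg : g ≠ 0)

/-- the comparison of `R.shrink p g` with `R.shK g` -/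
def shrMap : Restr_236.FMap (R.shrink p hp g hg) (R.shK g hg) where
  ι := Mdl.resB (R.ML.le_loc p hp)
  cont := Mdl.continuous_resB (R.ML.le_loc p hp)
  j w := R.shrinkFib p hp g hg w
  emb w := Restr_236.REmb.of_homeo _ fun y =>
    RMdl.cp_resF (R := R.shK g hg) (R' := R.shrink p hp g hg) (R.ML.le_loc p hp)
      (R.shK_le_shrink p hp g hg) rfl w y

/-- sections of `R` on the shrinkings -/
def resK {s : ℕ} (u : Fin s → R.MK.B) : Fin s → (R.shK g hg).MK.B :=
  fun i => ⟨u i, R.MK.le_loc g hg (u i).2⟩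

/-- sections of `R` on the shrinkings -/
def resS {s : ℕ} (u : Fin s → R.MK.B) : Fin s → (R.shrink p hp g hg).MK.B :=
  fun i => ⟨u i, (R.shK_le_shrink p hp g hg) (R.MK.le_loc g hg (u i).2)⟩

lemma cp_shr {s : ℕ} (u : Fin s → R.MK.B) :
    (shrMap R p hp g hg).Cp (resS R p hp g hg u) (resK R g hg u) := fun _ _ _ => rfl

variable {R}

lemma loc_ne (w : (R.ML.loc p hp).Pts) {p₀ : MvPolynomial (Fin m) ℂ} (hd : p₀ ∣ p) :
    MvPolynomial.eval ((R.ML.loc p hp).pz w) p₀ ≠ 0 := by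
  have h1 : MvPolynomial.eval ((R.ML.loc p hp).pz w) p ≠ 0 := TowA_849.loc_unit _ _ _ _
  obtain ⟨c, hc⟩ := hd
  intro h0
  apply h1
  refine (congrArg (MvPolynomial.eval ((R.ML.loc p hp).pz w)) hc).trans ?_
  rw [map_mul, h0, zero_mul]

lemma res_ne (w : (R.ML.loc p hp).Pts) {p₀ : MvPolynomial (Fin m) ℂ} (hd : p₀ ∣ p) :
    MvPolynomial.eval (R.ML.pz (Mdl.resB (R.ML.le_loc p hp) w)) p₀ ≠ 0 := by
  have h4 := Mdl.pz_resB (M := R.ML) (M' := R.ML.loc p hp) rfl (R.ML.le_loc p hp) w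
  rw [h4]
  exact loc_ne p hp w hd

/-- transfer of `clos` at a point -/
theorem clos_shr {N s : ℕ} {u : Fin s → R.MK.B} (w : (R.shrink p hp g hg).ML.Pts)
    (H : ∀ f : (R.shK g hg).Fib (Mdl.resB (R.ML.le_loc p hp) w) → ℂ, Hol f →
      IK (nu (R.shK g hg) (Mdl.resB (R.ML.le_loc p hp) w)) (((N : ℝ) - 1) / N) f
        (fun i y => sg (resK R g hg u) _ y i) ≠ ∞ →
      ∃ b : Fin s → ℂ, ∀ y, f y = ∑ i, b i * sg (resK R g hg u) _ y i)
    (f : (R.shrink p hp g hg).Fib w → ℂ) (hf : Hol f)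
    (hI : IK (nu (R.shrink p hp g hg) w) (((N : ℝ) - 1) / N) f
        (fun i y => sg (resS R p hp g hg u) w y i) ≠ ∞) :
    ∃ b : Fin s → ℂ, ∀ y, f y = ∑ i, b i * sg (resS R p hp g hg u) w y i := by
  set e := R.shrinkFib p hp g hg w with he
  have hj := (shrMap R p hp g hg).emb w
  have hfe : ∀ y, (f ∘ e.symm) ((shrMap R p hp g hg).j w y) = f y := fun y =>
    congrArg f (e.symm_apply_apply y)
  have hF : Hol (f ∘ e.symm) := by
    rw [AB2_590.hol51_iff]
    intro x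
    obtain ⟨y, rfl⟩ := e.surjective x
    exact hj.anal (AB2_590.hol51_iff.1 hf) hfe y
  obtain ⟨b, hb⟩ := H (f ∘ e.symm) hF (by
    have h1 := (cp_shr R p hp g hg u).ik (((N : ℝ) - 1) / N) w f (f ∘ e.symm) hfe
    rw [h1] at hI
    exact hI)
  exact ⟨b, fun y => (hfe y).symm.trans (hb _)⟩

/-- transfer of `indep` at a point -/
theorem indep_shr {s : ℕ} {u : Fin s → R.MK.B} (w : (R.shrink p hp g hg).ML.Pts)
    (H : ∀ a : Fin s → ℂ, (∀ y : (R.shK g hg).Fib (Mdl.resB (R.ML.le_loc p hp) w),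
      ∑ i, a i * sg (resK R g hg u) _ y i = 0) → a = 0)
    (a : Fin s → ℂ) (ha : ∀ y : (R.shrink p hp g hg).Fib w,
      ∑ i, a i * sg (resS R p hp g hg u) w y i = 0) : a = 0 := by
  refine H a fun x => ?_
  obtain ⟨y, rfl⟩ := (R.shrinkFib p hp g hg w).surjective x
  exact ha y

end shr

/-- the fibre integral of `FlatDefs_236` -/
lemma phi_eq {N : ℕ} (u : Fin s → R.MK.B) (w : R.ML.Pts) (a : Fin s → ℂ) :
    Phi N u w a = (fF R).fint w (fun y => ENNReal.ofReal (‖cmb u a y‖ ^ (2 / (N : ℝ)))) := by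
  have hc : Continuous fun y : R.MK.Pts => cmb u a y :=
    (continuous_cmb u).comp (Continuous.prodMk_left a)
  have hm : Measurable fun y : R.MK.Pts => ENNReal.ofReal (‖cmb u a y‖ ^ (2 / (N : ℝ))) :=
    (hc.norm.measurable.pow_const _).ennreal_ofReal
  have h1 := R.fint_eq (nu_leb R w) hm
  exact h1.symm

/-- **THE SATURATED FAMILY.**  Only `OneStep` and (B2) are hypotheses. -/
theorem sat (hO : OneStep) (R : RMdl L K m r) (hac : BN1_143.AC L K) {N : ℕ} (hNe : Even N)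
    (hN4 : 4 ≤ N) {s : ℕ} (hs : 0 < s) (u : Fin s → R.MK.B)
    (hu : LinearIndependent L fun i => (u i : K)) (hW : ∀ i, InW R N fun y => y (u i))
    (hB : ∀ (g : MvPolynomial (Fin (m + r)) ℂ) (hg : g ≠ 0) (b : (R.shK g hg).MK.B),
      InE (R.shK g hg) (fun y => ‖(y : (R.shK g hg).MK.B →ₐ[ℂ] ℂ) b‖ₑ ^ 2 *
        kw N (resK R g hg u) y) → (b : K) ∈ Submodule.span L (range fun i => (u i : K))) :
    ∃ (p : MvPolynomial (Fin m) ℂ) (hp : p ≠ 0) (g : MvPolynomial (Fin (m + r)) ℂ) (hg : g ≠ 0),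
      SatFam (R.shrink p hp g hg) N (resS R p hp g hg u) := by
  classical
  have hN0 : N ≠ 0 := by omega
  obtain ⟨c, hc0, hcE⟩ := exists_c (by omega) hs hW
  -- the section of the root cover
  set δ : R.MK.B := ∑ i, c i • u i with hδ
  have hδy : ∀ y : R.MK.Pts, y δ = ∑ i, c i * y (u i) := by
    intro y
    rw [hδ, map_sum]
    exact Finset.sum_congr rfl fun i _ => by rw [map_smul, smul_eq_mul]
  have hδ0 : δ ≠ 0 := by
    intro h0
    apply hc0
    have h1 : (δ : K) = 0 := congrArg Subtype.val h0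
    rw [hδ] at h1
    push_cast at h1
    have h2 := (Fintype.linearIndependent_iff.1 hu) (fun i => algebraMap ℂ L (c i)) (by
      rw [← h1]
      refine Finset.sum_congr rfl fun i _ => ?_
      rw [algebraMap_smul])
    funext i
    exact (map_eq_zero_iff _ (algebraMap ℂ L).injective).1 (h2 i)
  obtain ⟨t, ht, htδ⟩ := RMdl.exists_dvd_poly R.MK hδ0
  obtain ⟨c₀, g, hc₀, hg, hhg, -, hgeo⟩ := geo_cov hO stepRz_holds stepRzAct_holds m r
    (R.MK.h * t) (mul_ne_zero R.MK.h_ne ht)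
  obtain ⟨P₁, hP₁, h1⟩ := SatC_886.sat_clos (R := R.shK g hg) (by omega) (u := resK R g hg u) hu
    (hB g hg)
  obtain ⟨P₂, hP₂, h2⟩ := (R.shK g hg).exists_conn hac
  set p : MvPolynomial (Fin m) ℂ := c₀ * (P₁ * P₂) with hpd
  have hp : p ≠ 0 := mul_ne_zero hc₀ (mul_ne_zero hP₁ hP₂)
  have hd0 : c₀ ∣ p := dvd_mul_right _ _
  have hd1 : P₁ ∣ p := (dvd_mul_right _ _).trans (dvd_mul_left _ _)
  have hd2 : P₂ ∣ p := (dvd_mul_left _ _).trans (dvd_mul_left _ _)
  clear_value p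
  refine ⟨p, hp, g, hg, ?_⟩
  set R' : RMdl L K m r := R.shrink p hp g hg with hR'
  set u' : Fin s → R'.MK.B := resS R p hp g hg u with hu'
  have hLB : R.ML.B ≤ R'.ML.B := R.ML.le_loc p hp
  have hKB : R.MK.B ≤ R'.MK.B :=
    (R.MK.le_loc g hg).trans (R.shK_le_shrink p hp g hg)
  -- `δ` has no zeros
  set δ' : R'.MK.B := ⟨δ, hKB δ.2⟩ with hδ'
  have hgt : t ∣ g := (dvd_mul_left t _).trans hhg
  have hhn : ∀ y : R'.MK.Pts, MvPolynomial.eval (R'.MK.pz y) g ≠ 0 := by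
    intro y h0
    apply R'.MK.eval_h_ne y
    change MvPolynomial.eval (R'.MK.pz y) (R.MK.h * (MvPolynomial.rename (Fin.castAdd r) p * g)) = 0
    rw [map_mul, map_mul, h0, mul_zero, mul_zero]
  have hδne : ∀ y : R'.MK.Pts, y δ' ≠ 0 := by
    intro y
    have h3 : y δ' = (Mdl.resB hKB y) δ := rfl
    rw [h3]
    apply htδ
    rw [Mdl.pz_resB (M := R.MK) (M' := R'.MK) rfl hKB y]
    intro h0
    obtain ⟨e, he⟩ := hgt
    apply hhn y
    rw [he, map_mul, h0, zero_mul]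
  have hδc : ∀ y : R'.MK.Pts, y δ' = cmb u' c y := fun y => hδy (Mdl.resB hKB y)
  -- the variation of the root cover
  have hbase : ∀ w : R'.ML.Pts, MvPolynomial.eval (cp w) c₀ ≠ 0 := fun w => loc_ne p hp w hd0
  have happ : ∀ y : R'.MK.Pts, (Fin.append (cp ((fF R').q y)) ((fF R').t y) :
      Fin (m + r) → ℂ) = R'.MK.pz y := fun y => R'.append_eq y
  have hk : R'.MK.h ∣ (g * MvPolynomial.rename (Fin.castAdd r) R'.ML.h) ^ 2 := by
    rw [hR', shrink_MK_h, shrink_ML_h]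
    have h3 : R.MK.h ∣ g := (dvd_mul_right _ _).trans hhg
    obtain ⟨e, he⟩ := h3
    refine ⟨e * MvPolynomial.rename (Fin.castAdd r) R.ML.h ^ 2 *
      MvPolynomial.rename (Fin.castAdd r) p, ?_⟩
    rw [map_mul]
    calc (g * (MvPolynomial.rename (Fin.castAdd r) R.ML.h *
          MvPolynomial.rename (Fin.castAdd r) p)) ^ 2
        = (g * g) * (MvPolynomial.rename (Fin.castAdd r) R.ML.h *
          MvPolynomial.rename (Fin.castAdd r) p) ^ 2 := by ring
      _ = ((R.MK.h * e) * g) * (MvPolynomial.rename (Fin.castAdd r) R.ML.h *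
          MvPolynomial.rename (Fin.castAdd r) p) ^ 2 := by rw [← he]
      _ = _ := by ring
  obtain ⟨N', W, -, ι, hRz, -⟩ := hgeo R'.ML.Pts hbase (YR δ' N) (FR hδne hN0)
    (fun y => by
      have h3 : (Fin.append (cp ((FR hδne hN0).q y)) ((FR hδne hN0).t y) :
          Fin (m + r) → ℂ) = R'.MK.pz y.pr := happ y.pr
      rw [h3]
      exact hhn y.pr)
    (fun C hC hCg => rf_compact (fF R') hN0 (continuous_ev δ') hC
      (rel_compact R'.ML R'.MK R'.continuous_q R'.pz_q hk C hC hCg))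
    PUnit (1 : PUnit →* Equiv.Perm (YR δ' N)) (fun _ => continuous_id)
    (fun _ _ => rfl) (fun _ _ => rfl)
  -- finiteness almost everywhere
  have hwtE : ∀ k, InE R' fun y => ENNReal.ofReal (SatF_210.wt N δ' (u' k) y) := by
    intro k
    have h3 := InE.res (R := R) (R' := R') hLB hKB rfl rfl (hcE k)
    have h4 : (fun y : R'.MK.Pts => ENNReal.ofReal (SatF_210.wt N δ' (u' k) y)) =
        fun y : R'.MK.Pts => ‖(Mdl.resB hKB y) (u k)‖ₑ ^ (2 : ℝ) *
          ‖∑ i, c i * (Mdl.resB hKB y) (u i)‖ₑ ^ (-2 * (((N : ℝ) - 1) / N)) := by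
      funext y
      have h5 : ∑ i, c i * (Mdl.resB hKB y) (u i) = y δ' := (hδc y).symm
      have h6 : (Mdl.resB hKB y) (u k) = y (u' k) := rfl
      have h7 : 0 < ‖y δ'‖ := norm_pos_iff.2 (hδne y)
      rw [h5, h6, SatF_210.wt, ENNReal.ofReal_mul (by positivity), enorm_rpow_eq _ (by norm_num),
        ← ofReal_norm (y δ'), ENNReal.ofReal_rpow_of_pos h7]
      congr 2
      · norm_cast
      · congr 1
        ring
    rw [h4]
    exact h3
  have hwtm : ∀ k, Measurable fun y : R'.MK.Pts => ENNReal.ofReal (SatF_210.wt N δ' (u' k) y) := fun k =>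
    (continuous_wt hδne (u' k)).measurable.ennreal_ofReal
  have hae : ∀ᵐ ζ : Fin m → ℂ, ∀ k, ∀ w : R'.ML.Pts, R'.ML.pz w = ζ →
      R'.fint w (fun y => ENNReal.ofReal (SatF_210.wt N δ' (u' k) y)) < ∞ :=
    ae_all_iff.2 fun k => SatC_886.ae_fint_of_inE (hwtm k) (hwtE k)
  have hdense : Dense {w : R'.ML.Pts | ∀ k,
      R'.fint w (fun y => ENNReal.ofReal (SatF_210.wt N δ' (u' k) y)) < ∞} := by
    have h3 := (Measure.dense_of_ae hae).preimage (cp_lh (M := R'.ML.Pts)).isOpenMap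
    refine h3.mono fun w hw k => ?_
    exact hw k w rfl
  have hfc := fun k => fin_cont_w hδne hN0 hRz (u' k) hdense fun w hw => (hw k).ne
  obtain ⟨hfin, hcont⟩ := fin_cont_phi u' hδne hN0 c hδc (fun k => (hfc k).1)
    (fun k => (hfc k).2)
  refine RestrD_652.satFam_mk hNe hN4 hs ?_ ?_ ?_ ?_ ?_
  · intro w
    have h3 := h2 (Mdl.resB (R.ML.le_loc p hp) w) (res_ne p hp w hd2)
    exact (R.shrinkFib p hp g hg w).symm.surjective.connectedSpace
      (R.shrinkFib p hp g hg w).symm.continuous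
  · intro w a ha
    exact indep_shr p hp g hg w (h1 _ (res_ne p hp w hd1)).1 a ha
  · intro w a
    rw [phi_eq]
    exact hfin w a
  · intro a
    simp only [phi_eq]
    exact hcont.comp (Continuous.prodMk_left a)
  · intro w f hf hI
    exact clos_shr p hp g hg w (h1 _ (res_ne p hp w hd1)).2 f hf hI

end Crest.Agent.R276.SatG_210
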