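import Crest.Agent.R276.SatI_152
import Crest.Agent.R276.SatG_210
import Crest.Agent.R276.IntH_448
import Crest.Agent.R276.ModPack_849
import Crest.Agent.R276.SkelGeo_220
import Crest.Agent.R276.LocH_454

/-!
# Row 276 (S0419), SAT (helper152): `LSat`

`lsat : SkelGeo_220.LSat` : the saturated frame with prescribed coordinates, from
* 210's `SatG_210.sat` and 454's `Step_454.oneStep`;
* (B2) (`pluri_of_inE`), 337's finite dimensionality (`exists_fam'`);
* 448's `hon` (`inW_of_pluriS`), 849's `exists_R0`.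
-/

set_option autoImplicit false

noncomputable section

open Set Filter Topology Metric MeasureTheory
open scoped ENNReal

namespace Crest.Agent.R276.SatG_152

open Crest.Agent.R271 Crest.Agent.R271.Defs710 Crest.Agent.R271.Alg255 Crest.Agent.R271.Rd692
open Crest.Agent.R276.Mod1_987 Crest.Agent.R276.FKDefs_779 Crest.Agent.R276.FlatDefs_236
open Crest.Agent.R276.SatB_210 Crest.Agent.R276.SatC_210 Crest.Agent.R276.SkelGeo_220
open Crest.Agent.R276.FKB0_143 (kbasis)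

variable {L K : Type} [Field L] [Field K] [Algebra ℂ L] [Algebra ℂ K] [Algebra L K]
  [IsScalarTower ℂ L K] {m r : ℕ}

/-- honest forms are in `W_N` -/
theorem inW_of_pluriS (R : RMdl L K m r) {N : ℕ} (hN : 0 < N)
    (bK : Module.Basis (Fin r) K (Ω[K⁄L]))
    (hbK : ∀ j, bK j = KaehlerDifferential.D L K (R.MK.zK (Fin.natAdd m j)))
    (v : R.MK.B) (hv : PluriS L bK N (v : K)) : InW R N fun y => y v := by
  obtain ⟨p, hp, κ, α, h⟩ := IntG_448.hon R.ML.zK (Cmp_595.isTranscendenceBasis R.ML) R.MK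
    (fun i => R.z_eq i) bK hbK hN v hv
  refine ⟨p ^ κ, 2 * α, pow_ne_zero _ hp, ?_⟩
  refine lt_of_le_of_lt (lintM_mono _ (g := fun y => ENNReal.ofReal ((m + 1 : ℝ) ^ α) *
    IntG_448.wint (fun i => R.MK.z (Fin.castAdd r i)) v (2 / (N : ℝ)) p κ α y) fun y => ?_) ?_
  · unfold IntG_448.wint
    rw [← ENNReal.ofReal_mul (by positivity)]
    apply ENNReal.ofReal_le_ofReal
    have e1 : (fun i => y (R.MK.z (Fin.castAdd r i))) = R.ML.pz (R.q y) :=
      funext fun i => (R.pz_q y i).symm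
    have e2 : oz (fun i => R.MK.z (Fin.castAdd r i)) y = 1 + ∑ i, ‖R.ML.pz (R.q y) i‖ ^ 2 := by
      unfold oz
      congr 1
      exact Finset.sum_congr rfl fun i _ => by rw [← e1]
    rw [e1, e2]
    unfold wL
    set ζ := R.ML.pz (R.q y) with hζ
    have h1 : 1 + ∑ i, ‖ζ i‖ ^ 2 ≤ (m + 1 : ℝ) * (1 + ‖ζ‖) ^ 2 := AlgC956.one_add_sum_le ζ
    have h0 : 0 < 1 + ∑ i, ‖ζ i‖ ^ 2 := by
      have : 0 ≤ ∑ i, ‖ζ i‖ ^ 2 := Finset.sum_nonneg fun _ _ => by positivity
      linarith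
    have h2 : (1 + ∑ i, ‖ζ i‖ ^ 2) ^ α ≤ (m + 1 : ℝ) ^ α * (1 + ‖ζ‖) ^ (2 * α) := by
      rw [pow_mul, ← mul_pow]
      exact pow_le_pow_left₀ h0.le h1 α
    have h3 : 0 < (1 + ‖ζ‖) ^ (2 * α) := by positivity
    have h4 : ‖MvPolynomial.eval ζ (p ^ κ)‖ / (1 + ‖ζ‖) ^ (2 * α) ≤
        (m + 1 : ℝ) ^ α * (‖MvPolynomial.eval ζ p‖ ^ κ / (1 + ∑ i, ‖ζ i‖ ^ 2) ^ α) := by
      rw [map_pow, norm_pow, mul_div_assoc', div_le_div_iff₀ h3 (pow_pos h0 _)]
      calc ‖MvPolynomial.eval ζ p‖ ^ κ * (1 + ∑ i, ‖ζ i‖ ^ 2) ^ α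
          ≤ ‖MvPolynomial.eval ζ p‖ ^ κ * ((m + 1 : ℝ) ^ α * (1 + ‖ζ‖) ^ (2 * α)) :=
            mul_le_mul_of_nonneg_left h2 (by positivity)
        _ = _ := by ring
    calc ‖y v‖ ^ (2 / N : ℝ) * (‖MvPolynomial.eval ζ (p ^ κ)‖ / (1 + ‖ζ‖) ^ (2 * α))
        ≤ ‖y v‖ ^ (2 / N : ℝ) * ((m + 1 : ℝ) ^ α *
            (‖MvPolynomial.eval ζ p‖ ^ κ / (1 + ∑ i, ‖ζ i‖ ^ 2) ^ α)) :=
          mul_le_mul_of_nonneg_left h4 (by positivity)
      _ = _ := by ring
  · rw [lintM_const_mul _ _ ENNReal.ofReal_ne_top]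
    exact ENNReal.mul_lt_top ENNReal.ofReal_lt_top h

/-- a basis over `L` of the space of regular relative `N`-forms -/
theorem exists_fam' [Algebra.EssFiniteType ℂ K] (bK : Module.Basis (Fin r) K (Ω[K⁄L])) (N : ℕ) :
    ∃ (s : ℕ) (u : Fin s → K), LinearIndependent L u ∧ (∀ i, Pluri L bK N (u i)) ∧
      ∀ v, Pluri L bK N v → v ∈ Submodule.span L (Set.range u) := by
  have hcL : CharZero L := charZero_of_injective_algebraMap (algebraMap ℂ L).injective
  have h0 : Algebra.EssFiniteType L K := Algebra.EssFiniteType.of_comp ℂ L K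
  have hfin := PFin_337.pluriSp_finite (IntermediateField.fg_top_iff.mpr h0 : FGF L K) bK N
  let e := Module.finBasis L (PFin_337.PluriSp L bK N)
  refine ⟨_, fun i => (e i : K), ?_, fun i => PFin_337.mem_PluriSp.1 (e i).2, fun v hv => ?_⟩
  · exact e.linearIndependent.map' (Submodule.subtype _) (Submodule.ker_subtype _)
  · have h1 : (⟨v, PFin_337.mem_PluriSp.2 hv⟩ : PFin_337.PluriSp L bK N) ∈
        Submodule.span L (Set.range e) := by rw [e.span_eq]; trivial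
    have h2 := Submodule.mem_map_of_mem (f := Submodule.subtype _) h1
    rw [Submodule.map_span, ← Set.range_comp] at h2
    exact h2

/-- **SAT** (LSat of SkelGeo_220) -/
theorem lsat : LSat := by
  intro L K _ _ _ _ _ _ _ m r hS hm hr z x hz hx N hNe hN4 hg0
  classical
  obtain ⟨g0, hg0, hPg0⟩ := hg0
  have hess : Algebra.EssFiniteType ℂ K := End0_508.essFiniteType_of_fgf hS.fg
  obtain ⟨s, σ, hli, hσ, hspan⟩ := exists_fam' (L := L) (kbasis hx) N
  have hs : 0 < s := by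
    rcases Nat.eq_zero_or_pos s with h | h
    · exfalso
      subst h
      have h1 := hspan g0 hPg0
      rw [Set.range_eq_empty, Submodule.span_empty, Submodule.mem_bot] at h1
      exact hg0 h1
    · exact h
  have hac : BN1_143.AC L K := fun a ha => by
    obtain ⟨c, hc⟩ := hS.ac a ha
    exact ⟨c, hc⟩
  obtain ⟨R, hRz, hRx, -, -, -, hSK⟩ := ModPack_849.exists_R0 hac hz hx ∅ (Finset.univ.image σ)
  have hmem : ∀ i, σ i ∈ R.MK.B := fun i =>
    (hSK _ (Finset.mem_image_of_mem _ (Finset.mem_univ i))).1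
  have hbx : ∀ (R' : RMdl L K m r), (∀ j, R'.MK.zK (Fin.natAdd m j) = x j) →
      ∀ j, (kbasis hx) j = KaehlerDifferential.D L K (R'.MK.zK (Fin.natAdd m j)) := by
    intro R' h j
    rw [h, FKB0_143.kbasis_apply]
  have hN0 : 0 < N := by omega
  obtain ⟨p, hp, g, hg, hsat⟩ := SatG_210.sat Step_454.oneStep R hac hNe hN4 hs
    (fun i => ⟨σ i, hmem i⟩) hli
    (fun i => inW_of_pluriS R hN0 (kbasis hx) (hbx R hRx) _ (hS.uhon.honest r (kbasis hx) N _ (hσ i)))
    (fun g hg b hb => hspan _ (pluri_of_inE hN0 (kbasis hx) (hbx (R.shK g hg) hRx)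
      (SatG_210.resK R g hg fun i => ⟨σ i, hmem i⟩) (fun i => hσ i) b hb))
  refine ⟨R.shrink p hp g hg, s, σ, fun i =>
    (R.shK_le_shrink p hp g hg) (R.MK.le_loc g hg (hmem i)), hRz, hRx, hsat, ?_⟩
  intro b hb v
  have hbb : b = kbasis hx := by
    refine Module.Basis.eq_of_apply_eq fun j => ?_
    rw [hb, hbx (R.shrink p hp g hg) hRx]
  subst hbb
  refine ⟨hspan v, fun hv => ?_⟩
  have h1 : Submodule.span L (Set.range σ) ≤ PFin_337.PluriSp L (kbasis hx) N := by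
    rw [Submodule.span_le]
    rintro _ ⟨i, rfl⟩
    exact PFin_337.mem_PluriSp.2 (hσ i)
  exact PFin_337.mem_PluriSp.1 (h1 hv)

end Crest.Agent.R276.SatG_152
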