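import Crest.Agent.R276.Lat_348

/-!
R276, leaf IPC-LAT, complement (helper348): the form asked for by helper937 (post 1112).

* `exists_int_basis` : `W`, `B` rational subspaces ⟹ there are finitely many integral vectors
  `w j ∈ W` whose classes are a `ℂ`-basis of `W / B`, and the coordinates of `x ∈ W` are integral iff
  `x` is congruent modulo `B` to an integral vector of `W`.
* `exists_int_basis_cond` : the same for `W = {c | ∃ u, A c = P u}` and `B = range D`, for integral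
  maps `A`, `P`, `D` (for example integer matrices acting on `I → ℂ` with `stdLat I`, see
  `mulVec_mem`).
-/

set_option autoImplicit false

namespace Crest.Agent.R276.Lat2_348

open Submodule Crest.Agent.R276.Lat_348

variable {E : Type*} [AddCommGroup E] [Module ℂ E] {L : AddSubgroup E}

theorem exists_int_basis (hL : IsCLat L) {W B : Submodule ℂ E} (hW : RatSub L W)
    (hB : RatSub L B) :
    ∃ (n : ℕ) (w : Fin n → E), (∀ j, w j ∈ W) ∧ (∀ j, w j ∈ L) ∧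
      (∀ x ∈ W, ∃! c : Fin n → ℂ, x - ∑ j, c j • w j ∈ B) ∧
      (∀ x ∈ W, ∀ c : Fin n → ℂ, x - ∑ j, c j • w j ∈ B →
        ((∃ l ∈ W, l ∈ L ∧ x - l ∈ B) ↔ ∀ j, ∃ m : ℤ, c j = m)) := by
  classical
  let B' : Submodule ℂ W := B.comap W.subtype
  have hlat := hL.quot hW hB B'.mkQ B'.mkQ_surjective (fun x => by
    rw [mkQ_apply, Quotient.mk_eq_zero]; rfl)
  obtain ⟨n, b, hb⟩ := hlat
  have hmem : ∀ y : W ⧸ B', (∃ l : W, (l : E) ∈ L ∧ B'.mkQ l = y) ↔ ∀ j, ∃ m : ℤ, b.repr y j = m := by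
    intro y
    rw [← mem_span_int_iff, ← Submodule.mem_toAddSubgroup, ← hb]
    constructor
    · rintro ⟨l, hl, rfl⟩; exact ⟨l, hl, rfl⟩
    · rintro ⟨l, hl, rfl⟩; exact ⟨l, hl, rfl⟩
  have hbj : ∀ j, ∃ l : W, (l : E) ∈ L ∧ B'.mkQ l = b j := by
    intro j
    rw [hmem]
    intro i
    rw [b.repr_self, Finsupp.single_apply]
    by_cases h : j = i
    · exact ⟨1, by simp [h]⟩
    · exact ⟨0, by simp [h]⟩
  choose w hwL hwb using hbj
  have hkey : ∀ (x : W) (c : Fin n → ℂ),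
      (x : E) - ∑ j, c j • (w j : E) ∈ B ↔ ∀ j, b.repr (B'.mkQ x) j = c j := by
    intro x c
    have h1 : (x : E) - ∑ j, c j • (w j : E) ∈ B ↔ B'.mkQ (x - ∑ j, c j • w j) = 0 := by
      rw [mkQ_apply, Quotient.mk_eq_zero]
      show _ ↔ W.subtype (x - ∑ j, c j • w j) ∈ B
      simp
    rw [h1, map_sub, map_sum, sub_eq_zero]
    have h2 : ∑ j, B'.mkQ (c j • w j) = ∑ j, c j • b j :=
      Finset.sum_congr rfl fun j _ => by rw [map_smul, hwb]
    rw [h2]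
    constructor
    · intro h j
      rw [h, b.repr_sum_self]
    · intro h
      rw [← b.sum_repr (B'.mkQ x)]
      exact Finset.sum_congr rfl fun j _ => by rw [h]
  refine ⟨n, fun j => (w j : E), fun j => (w j).2, hwL, ?_, ?_⟩
  · intro x hx
    refine ⟨fun j => b.repr (B'.mkQ ⟨x, hx⟩) j, (hkey ⟨x, hx⟩ _).2 fun j => rfl, ?_⟩
    intro c hc
    funext j
    exact ((hkey ⟨x, hx⟩ c).1 hc j).symm
  · intro x hx c hc
    have h1 := (hkey ⟨x, hx⟩ c).1 hc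
    have h2 := hmem (B'.mkQ ⟨x, hx⟩)
    simp only [h1] at h2
    rw [← h2]
    constructor
    · rintro ⟨l, hlW, hlL, hxl⟩
      refine ⟨⟨l, hlW⟩, hlL, ?_⟩
      rw [eq_comm, ← sub_eq_zero, ← map_sub, mkQ_apply, Quotient.mk_eq_zero]
      exact hxl
    · rintro ⟨l, hlL, hle⟩
      refine ⟨l, l.2, hlL, ?_⟩
      rw [eq_comm, ← sub_eq_zero, ← map_sub, mkQ_apply, Quotient.mk_eq_zero] at hle
      exact hle

/-- Integer matrices act integrally. -/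
theorem mulVec_mem {I J : Type*} [Fintype I] [Fintype J] (A : Matrix J I ℤ) {x : I → ℂ}
    (hx : x ∈ stdLat I) : Matrix.mulVec (A.map (Int.cast : ℤ → ℂ)) x ∈ stdLat J := by
  rw [mem_stdLat] at hx ⊢
  choose m hm using hx
  intro j
  refine ⟨∑ i, A j i * m i, ?_⟩
  simp [Matrix.mulVec, dotProduct, hm]

section One

variable {F : Type*} [AddCommGroup F] [Module ℂ F] {LF : AddSubgroup F}
  {G : Type*} [AddCommGroup G] [Module ℂ G] {LG : AddSubgroup G}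

/-- `{c | A c ∈ range P}`. -/
def cond1 (A : E →ₗ[ℂ] F) (P : G →ₗ[ℂ] F) : Submodule ℂ E := (LinearMap.range P).comap A

theorem mem_cond1 {A : E →ₗ[ℂ] F} {P : G →ₗ[ℂ] F} {c : E} : c ∈ cond1 A P ↔ ∃ u, P u = A c := by
  simp [cond1]

theorem ratSub_cond1 (hL : IsCLat L) (hF : IsCLat LF) (hG : IsCLat LG) {A : E →ₗ[ℂ] F}
    {P : G →ₗ[ℂ] F} (hA : ∀ l ∈ L, A l ∈ LF) (hP : ∀ l ∈ LG, P l ∈ LF) :
    RatSub L (cond1 A P) :=
  hL.ratSub_comap hF A hA (hG.ratSub_range P hP)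

/-- Existence of an integral basis of `{c | ∃ u, A c = P u} / range D`. -/
theorem exists_int_basis_cond {E₀ : Type*} [AddCommGroup E₀] [Module ℂ E₀] {L₀ : AddSubgroup E₀}
    (hL : IsCLat L) (hF : IsCLat LF) (hG : IsCLat LG) (hL₀ : IsCLat L₀) {A : E →ₗ[ℂ] F}
    {P : G →ₗ[ℂ] F} {D : E₀ →ₗ[ℂ] E} (hA : ∀ l ∈ L, A l ∈ LF) (hP : ∀ l ∈ LG, P l ∈ LF)
    (hD : ∀ l ∈ L₀, D l ∈ L) :
    ∃ (n : ℕ) (w : Fin n → E), (∀ j, ∃ u, P u = A (w j)) ∧ (∀ j, w j ∈ L) ∧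
      (∀ x, (∃ u, P u = A x) → ∃! c : Fin n → ℂ, ∃ v, x = ∑ j, c j • w j + D v) ∧
      (∀ x, (∃ u, P u = A x) → ∀ (c : Fin n → ℂ) (v : E₀), x = ∑ j, c j • w j + D v →
        ((∃ l ∈ L, (∃ u, P u = A l) ∧ ∃ v', x = l + D v') ↔ ∀ j, ∃ m : ℤ, c j = m)) := by
  obtain ⟨n, w, h1, h2, h3, h4⟩ := exists_int_basis hL (ratSub_cond1 hL hF hG hA hP)
    (hL₀.ratSub_range D hD)
  have hiff : ∀ (x y : E), x - y ∈ LinearMap.range D ↔ ∃ v, x = y + D v := by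
    intro x y
    constructor
    · rintro ⟨v, hv⟩; exact ⟨v, by rw [hv]; abel⟩
    · rintro ⟨v, hv⟩; exact ⟨v, by rw [hv]; abel⟩
  refine ⟨n, w, fun j => mem_cond1.1 (h1 j), h2, ?_, ?_⟩
  · intro x hx
    obtain ⟨c, hc, hc'⟩ := h3 x (mem_cond1.2 hx)
    exact ⟨c, (hiff _ _).1 hc, fun c' hc'' => hc' c' ((hiff _ _).2 hc'')⟩
  · intro x hx c v hxv
    have h5 := h4 x (mem_cond1.2 hx) c ((hiff _ _).2 ⟨v, hxv⟩)
    rw [← h5]
    constructor
    · rintro ⟨l, hl, hu, hv⟩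
      exact ⟨l, mem_cond1.2 hu, hl, (hiff _ _).2 hv⟩
    · rintro ⟨l, hl, hl', hv⟩
      exact ⟨l, hl', mem_cond1.1 hl, (hiff _ _).1 hv⟩

end One

end Crest.Agent.R276.Lat2_348
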