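import Mathlib

/-!
R276, leaf IPC-LAT (helper348).  Integral structures on complex vector spaces.

* `IsCLat L` : the additive subgroup `L` of the complex vector space `E` is the `ℤ`-span of a finite
  `ℂ`-basis of `E` (an integral structure).  `RatSub L W` : the subspace `W` is spanned over `ℂ` by
  `W ∩ L`.
* `IsCLat.ratSub_iff` : functional criterion with `ℚ`-linear functionals `ℂ → ℚ`; stability of
  `RatSub` under `⊥ ⊤ ⊓ ⊔ ⨅ ⨆ map comap ker range` of integral maps.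
* `IsCLat.quot` : `f : W → V` onto with kernel `B`, `W`, `B` rational ⟹ the image of `W ∩ L` is an
  integral structure on `V`.  `IsCLat.sub`, `IsCLat.mkQ`, `IsCLat.map_equiv`, `IsCLat.comap_equiv`,
  `isCLat_std`, `isCLat_pi`, `IsCLat.pi`, `IsCLat.prod`, `IsCLat.of_le` (commensurable sublattices).
* `exists_int_matrix`, `exists_GL_int` : matrices of integral maps / lattice isomorphisms in lattice
  bases; `IsCLat.exists_basis`.
* `isCLat_cond`, `isCLat_cond'` : lattices in `{c : ∀ i, A i c ∈ range (B i)} / range δ`.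
* `Zpar T`, `cob T`, `ZparLat L T`, `Hpar T`, `HparLat L T` : parabolic cocycles of a free group on
  `k` generators acting through `T : Fin k → End E`; `isCLat_par`, `isCLat_par'`,
  `isCLat_HparLat`; functoriality `map_mem_Zpar`, `map_mem_ZparLat`, `map_cob`.
-/

set_option autoImplicit false

namespace Crest.Agent.R276.Lat_348

open Submodule

section Basic

variable {E : Type*} [AddCommGroup E] [Module ℂ E]
variable {E' : Type*} [AddCommGroup E'] [Module ℂ E']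

/-- `L` is an integral structure on `E`: the `ℤ`-span of a finite `ℂ`-basis. -/
def IsCLat (L : AddSubgroup E) : Prop :=
  ∃ (N : ℕ) (b : Module.Basis (Fin N) ℂ E), L = (span ℤ (Set.range b)).toAddSubgroup

/-- `W` is spanned over `ℂ` by its vectors in `L`. -/
def RatSub (L : AddSubgroup E) (W : Submodule ℂ E) : Prop :=
  W ≤ span ℂ ((W : Set E) ∩ (L : Set E))

/-- The map `Φ` attached to a functional `φ : ℂ → ℚ` and a basis `b`. -/
noncomputable def phi {N : ℕ} (b : Module.Basis (Fin N) ℂ E) (φ : Module.Dual ℚ ℂ) : E →+ E where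
  toFun x := ∑ j, ((φ (b.repr x j) : ℚ) : ℂ) • b j
  map_zero' := by simp
  map_add' x y := by
    simp only [map_add, Finsupp.add_apply, Rat.cast_add, add_smul, Finset.sum_add_distrib]

theorem mem_span_int {N : ℕ} (b : Module.Basis (Fin N) ℂ E) {x : E}
    (hx : x ∈ span ℤ (Set.range b)) : ∃ z : Fin N → ℤ, x = ∑ j, (z j : ℂ) • b j := by
  rw [mem_span_range_iff_exists_fun] at hx
  obtain ⟨c, hc⟩ := hx
  refine ⟨c, ?_⟩
  rw [← hc]
  refine Finset.sum_congr rfl fun j _ => ?_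
  rw [Int.cast_smul_eq_zsmul]

theorem sum_mem_span_int {N : ℕ} (b : Module.Basis (Fin N) ℂ E) (z : Fin N → ℤ) :
    ∑ j, (z j : ℂ) • b j ∈ span ℤ (Set.range b) := by
  refine Submodule.sum_mem _ fun j _ => ?_
  rw [Int.cast_smul_eq_zsmul]
  exact Submodule.smul_mem _ _ (subset_span ⟨j, rfl⟩)

theorem phi_smul {N : ℕ} (b : Module.Basis (Fin N) ℂ E) (φ : Module.Dual ℚ ℂ) (c : ℂ) {l : E}
    (hl : l ∈ span ℤ (Set.range b)) : phi b φ (c • l) = ((φ c : ℚ) : ℂ) • l := by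
  obtain ⟨z, rfl⟩ := mem_span_int b hl
  have h1 : ∀ j, b.repr (c • ∑ i, (z i : ℂ) • b i) j = c * (z j : ℂ) := by
    intro j
    rw [map_smul, Finsupp.smul_apply, b.repr_sum_self, smul_eq_mul]
  show ∑ j, ((φ (b.repr (c • ∑ i, (z i : ℂ) • b i) j) : ℚ) : ℂ) • b j = _
  simp only [h1]
  rw [Finset.smul_sum]
  refine Finset.sum_congr rfl fun j _ => ?_
  have h2 : φ (c * (z j : ℂ)) = φ c * (z j : ℚ) := by
    have : c * (z j : ℂ) = (z j : ℚ) • c := by
      rw [mul_comm, Rat.smul_def]; push_cast; rfl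
    rw [this, map_smul, smul_eq_mul, mul_comm]
  rw [h2, smul_smul]
  push_cast
  rfl

/-- The span of the lattice is everything. -/
theorem IsCLat.span_eq_top {L : AddSubgroup E} (hL : IsCLat L) : span ℂ (L : Set E) = ⊤ := by
  obtain ⟨N, b, rfl⟩ := hL
  rw [eq_top_iff, ← b.span_eq]
  exact span_mono fun x hx => subset_span hx

theorem IsCLat.finiteDimensional {L : AddSubgroup E} (hL : IsCLat L) :
    FiniteDimensional ℂ E := by
  obtain ⟨N, b, rfl⟩ := hL
  exact Module.Finite.of_basis b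

/-- Existence of the `ℚ`-linear operators `Φ_φ`: the only property used is `Φ (c l) = φ(c) l`. -/
theorem IsCLat.exists_phi {L : AddSubgroup E} (hL : IsCLat L) (φ : Module.Dual ℚ ℂ) :
    ∃ P : E →+ E, ∀ (c : ℂ), ∀ l ∈ L, P (c • l) = ((φ c : ℚ) : ℂ) • l := by
  obtain ⟨N, b, rfl⟩ := hL
  exact ⟨phi b φ, fun c l hl => phi_smul b φ c hl⟩

/-- The chosen operator. -/
noncomputable def IsCLat.op {L : AddSubgroup E} (hL : IsCLat L) (φ : Module.Dual ℚ ℂ) : E →+ E :=
  (hL.exists_phi φ).choose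

theorem IsCLat.op_smul {L : AddSubgroup E} (hL : IsCLat L) (φ : Module.Dual ℚ ℂ) (c : ℂ) {l : E}
    (hl : l ∈ L) : hL.op φ (c • l) = ((φ c : ℚ) : ℂ) • l :=
  (hL.exists_phi φ).choose_spec c l hl

/-- Every vector is a finite combination of lattice vectors. -/
theorem IsCLat.exists_sum {L : AddSubgroup E} (hL : IsCLat L) (x : E) :
    ∃ (N : ℕ) (c : Fin N → ℂ) (l : Fin N → E), (∀ j, l j ∈ L) ∧ x = ∑ j, c j • l j := by
  obtain ⟨N, b, rfl⟩ := hL
  refine ⟨N, fun j => b.repr x j, fun j => b j, fun j => ?_, (b.sum_repr x).symm⟩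
  exact subset_span ⟨j, rfl⟩

/-- Integral maps commute with the operators `Φ_φ`. -/
theorem IsCLat.op_map {L : AddSubgroup E} (hL : IsCLat L) {L' : AddSubgroup E'} (hL' : IsCLat L')
    (f : E →ₗ[ℂ] E') (hf : ∀ l ∈ L, f l ∈ L') (φ : Module.Dual ℚ ℂ) (x : E) :
    f (hL.op φ x) = hL'.op φ (f x) := by
  obtain ⟨N, c, l, hl, rfl⟩ := hL.exists_sum x
  simp only [map_sum, map_smul]
  refine Finset.sum_congr rfl fun j _ => ?_
  rw [hL.op_smul φ _ (hl j), hL'.op_smul φ _ (hf _ (hl j)), map_smul]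

/-- Over a finite set of coefficients, a vector is recovered from its images under the `Φ_φ`. -/
theorem IsCLat.mem_span_op {L : AddSubgroup E} (hL : IsCLat L) (x : E) :
    x ∈ span ℂ {y | ∃ φ : Module.Dual ℚ ℂ, y = hL.op φ x} := by
  classical
  obtain ⟨N, c, l, hl, hx⟩ := hL.exists_sum x
  -- finite dimensional ℚ-subspace spanned by the coefficients
  let S : Submodule ℚ ℂ := span ℚ (Set.range c)
  have : FiniteDimensional ℚ S := FiniteDimensional.span_of_finite ℚ (Set.finite_range c)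
  let e := Module.finBasis ℚ S
  -- extend the coordinate functionals
  have hex : ∀ i, ∃ φ : Module.Dual ℚ ℂ, ∀ s : S, φ s = e.repr s i := by
    intro i
    obtain ⟨φ, hφ⟩ := LinearMap.exists_extend (e.coord i)
    refine ⟨φ, fun s => ?_⟩
    have := LinearMap.congr_fun hφ s
    simpa using this
  choose ψ hψ using hex
  have hc : ∀ j, c j = ∑ i, ((ψ i (c j) : ℚ) : ℂ) * (e i : ℂ) := by
    intro j
    have hj : c j ∈ S := subset_span ⟨j, rfl⟩
    have h1 := e.sum_repr ⟨c j, hj⟩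
    have h2 := congrArg (Submodule.subtype S) h1
    rw [map_sum] at h2
    simp only [map_smul, Submodule.subtype_apply] at h2
    rw [← h2]
    refine Finset.sum_congr rfl fun i _ => ?_
    have h3 : ψ i (∑ x, e.repr ⟨c j, hj⟩ x • (e x : ℂ)) = e.repr ⟨c j, hj⟩ i := by
      rw [h2]; exact hψ i ⟨c j, hj⟩
    rw [h3, Rat.smul_def]
  have hx2 : x = ∑ i, (e i : ℂ) • hL.op (ψ i) x := by
    have h4 : ∀ i, hL.op (ψ i) x = ∑ j, ((ψ i (c j) : ℚ) : ℂ) • l j := by
      intro i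
      conv_lhs => rw [hx]
      rw [map_sum]
      exact Finset.sum_congr rfl fun j _ => hL.op_smul _ _ (hl j)
    conv_lhs => rw [hx]
    simp only [h4, Finset.smul_sum]
    rw [Finset.sum_comm]
    refine Finset.sum_congr rfl fun j _ => ?_
    conv_lhs => rw [hc j]
    rw [Finset.sum_smul]
    refine Finset.sum_congr rfl fun i _ => ?_
    rw [smul_smul, mul_comm]
  have hmem : (∑ i, (e i : ℂ) • hL.op (ψ i) x) ∈
      span ℂ {y | ∃ φ : Module.Dual ℚ ℂ, y = hL.op φ x} :=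
    Submodule.sum_mem _ fun i _ => Submodule.smul_mem _ _ (subset_span ⟨ψ i, rfl⟩)
  rw [← hx2] at hmem
  exact hmem

/-- `Φ_φ x` is a rational combination of lattice vectors: some positive multiple is in `L`. -/
theorem IsCLat.exists_nat_smul_op_mem {L : AddSubgroup E} (hL : IsCLat L) (φ : Module.Dual ℚ ℂ)
    (x : E) : ∃ d : ℕ, 0 < d ∧ (d : ℂ) • hL.op φ x ∈ L := by
  classical
  obtain ⟨N, c, l, hl, hx⟩ := hL.exists_sum x
  have h4 : hL.op φ x = ∑ j, ((φ (c j) : ℚ) : ℂ) • l j := by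
    conv_lhs => rw [hx]
    rw [map_sum]
    exact Finset.sum_congr rfl fun j _ => hL.op_smul _ _ (hl j)
  refine ⟨∏ j, (φ (c j)).den, Finset.prod_pos fun j _ => (φ (c j)).den_pos, ?_⟩
  rw [h4, Finset.smul_sum]
  refine AddSubgroup.sum_mem _ fun j _ => ?_
  rw [smul_smul]
  have h5 : ((∏ i, (φ (c i)).den : ℕ) : ℂ) * ((φ (c j) : ℚ) : ℂ)
      = (((∏ i ∈ Finset.univ.erase j, ((φ (c i)).den : ℤ)) * (φ (c j)).num : ℤ) : ℂ) := by
    rw [← Finset.mul_prod_erase _ _ (Finset.mem_univ j)]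
    have h6 : (((φ (c j)).den : ℚ) * (φ (c j))) = (φ (c j)).num := Rat.den_mul_eq_num _
    have h7 : (((φ (c j)).den : ℂ) * ((φ (c j) : ℚ) : ℂ)) = ((φ (c j)).num : ℂ) := by
      exact_mod_cast congrArg (fun q : ℚ => (q : ℂ)) h6
    push_cast
    rw [mul_right_comm, h7, mul_comm]
  rw [h5, Int.cast_smul_eq_zsmul]
  exact AddSubgroup.zsmul_mem _ (hl j) _

/-- Functional criterion for rational subspaces. -/
theorem IsCLat.ratSub_iff {L : AddSubgroup E} (hL : IsCLat L) (W : Submodule ℂ E) :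
    RatSub L W ↔ ∀ φ : Module.Dual ℚ ℂ, ∀ x ∈ W, hL.op φ x ∈ W := by
  constructor
  · intro hW φ x hx
    have hx' := hW hx
    rw [← Set.image_id ((W : Set E) ∩ (L : Set E)), Finsupp.mem_span_image_iff_linearCombination] at hx'
    obtain ⟨c, hc, rfl⟩ := hx'
    rw [Finsupp.linearCombination_apply, Finsupp.sum, map_sum]
    refine Submodule.sum_mem _ fun v hv => ?_
    have hv' : v ∈ (W : Set E) ∩ (L : Set E) := by
      have := (Finsupp.mem_supported ℂ c).1 hc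
      exact this hv
    rw [id, hL.op_smul φ _ hv'.2]
    exact Submodule.smul_mem _ _ hv'.1
  · intro h x hx
    have h1 := hL.mem_span_op x
    refine (span_le.2 ?_) h1
    rintro y ⟨φ, rfl⟩
    obtain ⟨d, hd, hdL⟩ := hL.exists_nat_smul_op_mem φ x
    have h2 : hL.op φ x = ((d : ℂ)⁻¹) • ((d : ℂ) • hL.op φ x) := by
      rw [smul_smul, inv_mul_cancel₀ (by exact_mod_cast hd.ne'), one_smul]
    rw [h2]
    exact Submodule.smul_mem _ _
      (subset_span ⟨Submodule.smul_mem _ _ (h φ x hx), hdL⟩)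

end Basic

section Stab

variable {E : Type*} [AddCommGroup E] [Module ℂ E]
variable {E' : Type*} [AddCommGroup E'] [Module ℂ E']
variable {L : AddSubgroup E} {L' : AddSubgroup E'}

theorem RatSub.bot : RatSub L (⊥ : Submodule ℂ E) := bot_le

theorem RatSub.span_of_subset {S : Set E} (hS : S ⊆ L) : RatSub L (span ℂ S) :=
  span_mono fun _ hx => ⟨subset_span hx, hS hx⟩

theorem IsCLat.ratSub_top (hL : IsCLat L) : RatSub L (⊤ : Submodule ℂ E) := by
  rw [hL.ratSub_iff]; intro φ x _; trivial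

theorem IsCLat.ratSub_inf (hL : IsCLat L) {W₁ W₂ : Submodule ℂ E} (h₁ : RatSub L W₁)
    (h₂ : RatSub L W₂) : RatSub L (W₁ ⊓ W₂) := by
  rw [hL.ratSub_iff] at *
  exact fun φ x hx => ⟨h₁ φ x hx.1, h₂ φ x hx.2⟩

theorem IsCLat.ratSub_iInf (hL : IsCLat L) {ι : Sort*} {W : ι → Submodule ℂ E}
    (h : ∀ i, RatSub L (W i)) : RatSub L (⨅ i, W i) := by
  rw [hL.ratSub_iff]
  intro φ x hx
  rw [mem_iInf] at hx ⊢
  exact fun i => (hL.ratSub_iff _).1 (h i) φ x (hx i)

theorem RatSub.sup {W₁ W₂ : Submodule ℂ E} (h₁ : RatSub L W₁) (h₂ : RatSub L W₂) :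
    RatSub L (W₁ ⊔ W₂) :=
  sup_le (h₁.trans (span_mono fun _ hx => ⟨le_sup_left (a := W₁) hx.1, hx.2⟩))
    (h₂.trans (span_mono fun _ hx => ⟨le_sup_right (b := W₂) hx.1, hx.2⟩))

theorem RatSub.iSup {ι : Sort*} {W : ι → Submodule ℂ E}
    (h : ∀ i, RatSub L (W i)) : RatSub L (⨆ i, W i) :=
  iSup_le fun i => (h i).trans (span_mono fun _ hx => ⟨le_iSup W i hx.1, hx.2⟩)

/-- Images of rational subspaces under integral maps are rational. -/
theorem RatSub.map {W : Submodule ℂ E} (h : RatSub L W) (f : E →ₗ[ℂ] E')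
    (hf : ∀ l ∈ L, f l ∈ L') : RatSub L' (W.map f) := by
  intro y hy
  obtain ⟨x, hx, rfl⟩ := hy
  have h1 := h hx
  have h2 : f x ∈ (span ℂ ((W : Set E) ∩ (L : Set E))).map f := ⟨x, h1, rfl⟩
  rw [map_span] at h2
  refine span_mono ?_ h2
  rintro _ ⟨z, hz, rfl⟩
  exact ⟨⟨z, hz.1, rfl⟩, hf z hz.2⟩

theorem IsCLat.ratSub_range (hL : IsCLat L) (f : E →ₗ[ℂ] E')
    (hf : ∀ l ∈ L, f l ∈ L') : RatSub L' (LinearMap.range f) := by
  rw [LinearMap.range_eq_map]
  exact hL.ratSub_top.map f hf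

/-- Preimages of rational subspaces under integral maps are rational. -/
theorem IsCLat.ratSub_comap (hL : IsCLat L) (hL' : IsCLat L') (f : E →ₗ[ℂ] E')
    (hf : ∀ l ∈ L, f l ∈ L') {W : Submodule ℂ E'} (h : RatSub L' W) : RatSub L (W.comap f) := by
  rw [hL.ratSub_iff]
  intro φ x hx
  rw [mem_comap] at hx ⊢
  rw [hL.op_map hL' f hf]
  exact (hL'.ratSub_iff _).1 h φ _ hx

theorem IsCLat.ratSub_ker (hL : IsCLat L) (hL' : IsCLat L') (f : E →ₗ[ℂ] E')
    (hf : ∀ l ∈ L, f l ∈ L') : RatSub L (LinearMap.ker f) := by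
  rw [← Submodule.comap_bot]
  exact hL.ratSub_comap hL' f hf RatSub.bot

/-- Lattice vectors which are `ℤ`-independent modulo a rational subspace are `ℂ`-independent
modulo it. -/
theorem IsCLat.indep_mod (hL : IsCLat L) {B : Submodule ℂ E} (hB : RatSub L B) {ι : Type*}
    [Fintype ι] (v : ι → E) (hv : ∀ i, v i ∈ L)
    (hind : ∀ m : ι → ℤ, ∑ i, (m i : ℂ) • v i ∈ B → m = 0)
    (c : ι → ℂ) (hc : ∑ i, c i • v i ∈ B) : c = 0 := by
  classical
  have key : ∀ φ : Module.Dual ℚ ℂ, ∀ i, φ (c i) = 0 := by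
    intro φ
    have h1 := (hL.ratSub_iff _).1 hB φ _ hc
    rw [map_sum] at h1
    have h2 : ∀ i, hL.op φ (c i • v i) = ((φ (c i) : ℚ) : ℂ) • v i :=
      fun i => hL.op_smul _ _ (hv i)
    simp only [h2] at h1
    -- clear denominators
    let D : ℕ := ∏ i, (φ (c i)).den
    have hD : 0 < D := Finset.prod_pos fun j _ => (φ (c j)).den_pos
    let m : ι → ℤ := fun j => (∏ i ∈ Finset.univ.erase j, ((φ (c i)).den : ℤ)) * (φ (c j)).num
    have hm : ∀ j, ((D : ℕ) : ℂ) * ((φ (c j) : ℚ) : ℂ) = ((m j : ℤ) : ℂ) := by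
      intro j
      show ((∏ i, (φ (c i)).den : ℕ) : ℂ) * ((φ (c j) : ℚ) : ℂ) = _
      rw [← Finset.mul_prod_erase _ _ (Finset.mem_univ j)]
      have h6 : (((φ (c j)).den : ℚ) * (φ (c j))) = (φ (c j)).num := Rat.den_mul_eq_num _
      have h7 : (((φ (c j)).den : ℂ) * ((φ (c j) : ℚ) : ℂ)) = ((φ (c j)).num : ℂ) := by
        exact_mod_cast congrArg (fun q : ℚ => (q : ℂ)) h6
      show _ = (((∏ i ∈ Finset.univ.erase j, ((φ (c i)).den : ℤ)) * (φ (c j)).num : ℤ) : ℂ)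
      push_cast
      rw [mul_right_comm, h7, mul_comm]
    have h3 : ∑ i, ((m i : ℤ) : ℂ) • v i ∈ B := by
      have h4 := B.smul_mem ((D : ℕ) : ℂ) h1
      rw [Finset.smul_sum] at h4
      convert h4 using 2 with i _
      rw [smul_smul, hm]
    have h5 := hind m h3
    intro i
    have h6 := hm i
    rw [h5] at h6
    simp only [Pi.zero_apply, Int.cast_zero, mul_eq_zero, Nat.cast_eq_zero, Rat.cast_eq_zero] at h6
    rcases h6 with h6 | h6
    · exact absurd h6 hD.ne'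
    · exact h6
  funext i
  rw [Pi.zero_apply, ← Module.forall_dual_apply_eq_zero_iff ℚ (c i)]
  exact fun φ => key φ i

/-- A complex vector space is torsion free over `ℤ`. -/
theorem isTorsionFree_int (V : Type*) [AddCommGroup V] [Module ℂ V] : Module.IsTorsionFree ℤ V := by
  refine Module.IsTorsionFree.of_smul_eq_zero fun r m h => ?_
  rw [← Int.cast_smul_eq_zsmul ℂ] at h
  rcases smul_eq_zero.1 h with h | h
  · left; exact_mod_cast h
  · right; exact h

theorem IsCLat.fg (hL : IsCLat L) : (AddSubgroup.toIntSubmodule L).FG := by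
  obtain ⟨N, b, rfl⟩ := hL
  exact ⟨(Set.finite_range b).toFinset, by simp⟩

/-- Criterion: a finitely generated subgroup which spans and whose `ℤ`-independent families are
`ℂ`-independent is an integral structure. -/
theorem isCLat_of {V : Type*} [AddCommGroup V] [Module ℂ V] (M : Submodule ℤ V) (hfg : M.FG)
    (hspan : span ℂ (M : Set V) = ⊤)
    (hind : ∀ (N : ℕ) (v : Fin N → V), (∀ i, v i ∈ M) → LinearIndependent ℤ v →
      LinearIndependent ℂ v) : IsCLat M.toAddSubgroup := by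
  classical
  have hfin : Module.Finite ℤ M := Module.Finite.iff_fg.2 hfg
  have htf0 := isTorsionFree_int V
  have htf : Module.IsTorsionFree ℤ M := inferInstance
  let b := Module.finBasis ℤ M
  let v : Fin (Module.finrank ℤ M) → V := fun i => (b i : V)
  have hv : ∀ i, v i ∈ M := fun i => (b i).2
  have hvZ : LinearIndependent ℤ v := by
    have := b.linearIndependent.map' M.subtype (by simp)
    exact this
  have hvC := hind _ v hv hvZ
  have hMspan : M = span ℤ (Set.range v) := by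
    have h1 := b.span_eq
    have h2 := congrArg (Submodule.map M.subtype) h1
    rw [map_span, Submodule.map_top, range_subtype] at h2
    refine h2.symm.trans ?_
    congr 1
    ext y
    simp [v]
  have hsp : ⊤ ≤ span ℂ (Set.range v) := by
    rw [← hspan]
    refine span_le.2 fun x hx => ?_
    have hx' : x ∈ span ℤ (Set.range v) := hMspan ▸ hx
    rw [mem_span_range_iff_exists_fun] at hx'
    obtain ⟨c, rfl⟩ := hx'
    refine Submodule.sum_mem _ fun j _ => ?_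
    rw [← Int.cast_smul_eq_zsmul ℂ]
    exact Submodule.smul_mem _ _ (subset_span ⟨j, rfl⟩)
  refine ⟨_, Module.Basis.mk hvC hsp, ?_⟩
  rw [Module.Basis.coe_mk]
  exact congrArg Submodule.toAddSubgroup hMspan

/-- **Quotient lattice.** -/
theorem IsCLat.quot (hL : IsCLat L) {W B : Submodule ℂ E} (hW : RatSub L W) (hB : RatSub L B)
    {V : Type*} [AddCommGroup V] [Module ℂ V] (f : W →ₗ[ℂ] V) (hf : Function.Surjective f)
    (hker : ∀ x : W, f x = 0 ↔ (x : E) ∈ B) :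
    IsCLat ((L.comap W.subtype.toAddMonoidHom).map f.toAddMonoidHom) := by
  classical
  let T : Submodule ℤ W := AddSubgroup.toIntSubmodule (L.comap W.subtype.toAddMonoidHom)
  let g : W →ₗ[ℤ] E := W.subtype.restrictScalars ℤ
  let f' : W →ₗ[ℤ] V := f.restrictScalars ℤ
  have hT : T.FG := by
    have h1 : (T.map g).FG := by
      refine Submodule.FG.of_le hL.fg ?_
      rintro _ ⟨x, hx, rfl⟩
      exact hx
    exact Submodule.fg_of_fg_map_injective g (fun x y h => Subtype.ext h) h1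
  have hmain : IsCLat (T.map f').toAddSubgroup := by
    apply isCLat_of
    · exact hT.map f'
    · -- spans
      rw [eq_top_iff]
      intro y _
      obtain ⟨x, rfl⟩ := hf y
      have hx := hW x.2
      have h1 : (x : E) ∈ (span ℂ (W.subtype ⁻¹' (L : Set E))).map W.subtype := by
        rw [map_span]
        refine span_mono ?_ hx
        rintro z ⟨hz1, hz2⟩
        exact ⟨⟨z, hz1⟩, hz2, rfl⟩
      obtain ⟨x', hx', hxx⟩ := h1
      have hxe : x' = x := Subtype.ext hxx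
      rw [hxe] at hx'
      have h2 : f x ∈ (span ℂ (W.subtype ⁻¹' (L : Set E))).map f := ⟨x, hx', rfl⟩
      rw [map_span] at h2
      refine span_mono ?_ h2
      rintro _ ⟨z, hz, rfl⟩
      exact ⟨z, hz, rfl⟩
    · intro N v hv hvZ
      choose w hw hwv using hv
      rw [Fintype.linearIndependent_iff] at hvZ ⊢
      intro c hc
      have h1 : ∑ i, c i • ((w i : W) : E) ∈ B := by
        have h2 : f (∑ i, c i • w i) = 0 := by
          rw [map_sum, ← hc]
          refine Finset.sum_congr rfl fun i _ => ?_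
          rw [map_smul, ← hwv i]; rfl
        have h3 := (hker _).1 h2
        simpa using h3
      have h4 := hL.indep_mod hB (fun i => ((w i : W) : E)) (fun i => hw i) ?_ c h1
      · intro i; exact congrFun h4 i
      · intro m hm
        have h5 : f (∑ i, (m i : ℂ) • w i) = 0 := by
          rw [hker]; simpa using hm
        funext i
        refine hvZ m ?_ i
        rw [← h5, map_sum]
        refine Finset.sum_congr rfl fun i _ => ?_
        rw [map_smul, ← hwv i, Int.cast_smul_eq_zsmul]; rfl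
  exact hmain

/-- The lattice induced on a rational subspace. -/
theorem IsCLat.sub (hL : IsCLat L) {W : Submodule ℂ E} (hW : RatSub L W) :
    IsCLat (L.comap W.subtype.toAddMonoidHom) := by
  have h := hL.quot hW RatSub.bot (LinearMap.id : W →ₗ[ℂ] W) Function.surjective_id
    (fun x => by simp)
  convert h using 1
  ext x
  constructor
  · intro hx; exact ⟨x, hx, rfl⟩
  · rintro ⟨y, hy, rfl⟩; exact hy

/-- The lattice induced on the quotient by a rational subspace. -/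
theorem IsCLat.mkQ (hL : IsCLat L) {B : Submodule ℂ E} (hB : RatSub L B) :
    IsCLat (L.map B.mkQ.toAddMonoidHom) := by
  have h := hL.quot hL.ratSub_top hB (B.mkQ ∘ₗ (⊤ : Submodule ℂ E).subtype)
    (fun y => by obtain ⟨x, rfl⟩ := B.mkQ_surjective y; exact ⟨⟨x, trivial⟩, rfl⟩)
    (fun x => by simp)
  convert h using 1
  ext y
  constructor
  · rintro ⟨x, hx, rfl⟩; exact ⟨⟨x, trivial⟩, hx, rfl⟩
  · rintro ⟨x, hx, rfl⟩; exact ⟨x.1, hx, rfl⟩

/-- Image of a lattice under a linear equivalence. -/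
theorem IsCLat.map_equiv (hL : IsCLat L) (e : E ≃ₗ[ℂ] E') :
    IsCLat (L.map e.toLinearMap.toAddMonoidHom) := by
  obtain ⟨N, b, rfl⟩ := hL
  refine ⟨N, b.map e, ?_⟩
  ext y
  constructor
  · rintro ⟨x, hx, rfl⟩
    have hx' : x ∈ span ℤ (Set.range b) := hx
    have h1 : (e.toLinearMap.restrictScalars ℤ) x ∈
        (span ℤ (Set.range b)).map (e.toLinearMap.restrictScalars ℤ) := ⟨x, hx', rfl⟩
    rw [map_span] at h1
    refine span_mono ?_ h1
    rintro _ ⟨_, ⟨j, rfl⟩, rfl⟩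
    exact ⟨j, by simp⟩
  · intro hy
    have hy' : y ∈ span ℤ (Set.range (b.map e)) := hy
    have h2 : Set.range (b.map e) = (e.toLinearMap.restrictScalars ℤ) '' Set.range b := by
      ext z; constructor
      · rintro ⟨j, rfl⟩; exact ⟨b j, ⟨j, rfl⟩, by simp⟩
      · rintro ⟨_, ⟨j, rfl⟩, rfl⟩; exact ⟨j, by simp⟩
    rw [h2, ← map_span] at hy'
    obtain ⟨x, hx, rfl⟩ := hy'
    exact ⟨x, hx, rfl⟩

/-- Pull-back of a lattice under a linear equivalence. -/
theorem IsCLat.comap_equiv (hL : IsCLat L) (e : E' ≃ₗ[ℂ] E) :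
    IsCLat (L.comap e.toLinearMap.toAddMonoidHom) := by
  convert hL.map_equiv e.symm using 1
  ext y
  constructor
  · intro hy; exact ⟨e y, hy, by simp⟩
  · rintro ⟨x, hx, rfl⟩
    show e (e.symm x) ∈ L
    rw [e.apply_symm_apply]; exact hx

/-- Membership in the `ℤ`-span of a basis: integral coordinates. -/
theorem mem_span_int_iff {κ : Type*} [Finite κ] (b : Module.Basis κ ℂ E) (x : E) :
    x ∈ span ℤ (Set.range b) ↔ ∀ j, ∃ m : ℤ, b.repr x j = m := by
  classical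
  have := Fintype.ofFinite κ
  constructor
  · intro hx j
    rw [mem_span_range_iff_exists_fun] at hx
    obtain ⟨c, rfl⟩ := hx
    refine ⟨c j, ?_⟩
    have h1 : ∑ i, c i • b i = ∑ i, (c i : ℂ) • b i :=
      Finset.sum_congr rfl fun i _ => by rw [Int.cast_smul_eq_zsmul]
    rw [h1, b.repr_sum_self]
  · intro h
    choose m hm using h
    rw [← b.sum_repr x]
    refine Submodule.sum_mem _ fun j _ => ?_
    rw [hm, Int.cast_smul_eq_zsmul]
    exact Submodule.smul_mem _ _ (subset_span ⟨j, rfl⟩)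

theorem isCLat_of_basis {κ : Type*} [Finite κ] (b : Module.Basis κ ℂ E)
    (h : ∀ x, x ∈ L ↔ ∀ j, ∃ m : ℤ, b.repr x j = m) : IsCLat L := by
  classical
  have := Fintype.ofFinite κ
  let e := Fintype.equivFin κ
  refine ⟨Fintype.card κ, b.reindex e, ?_⟩
  ext x
  rw [h, Submodule.mem_toAddSubgroup, mem_span_int_iff]
  constructor
  · intro hx j
    obtain ⟨m, hm⟩ := hx (e.symm j)
    exact ⟨m, by rw [← hm]; simp⟩
  · intro hx j
    obtain ⟨m, hm⟩ := hx (e j)
    exact ⟨m, by rw [← hm]; simp⟩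

theorem isCLat_span {κ : Type*} [Finite κ] (b : Module.Basis κ ℂ E) :
    IsCLat (span ℤ (Set.range b)).toAddSubgroup :=
  isCLat_of_basis b fun x => by rw [Submodule.mem_toAddSubgroup, mem_span_int_iff]

/-- The standard lattice `ℤ^ι ⊂ ℂ^ι`. -/
def stdLat (ι : Type*) : AddSubgroup (ι → ℂ) where
  carrier := {x | ∀ i, ∃ m : ℤ, x i = m}
  zero_mem' := fun i => ⟨0, by simp⟩
  add_mem' := fun {x y} hx hy i => by
    obtain ⟨m, hm⟩ := hx i
    obtain ⟨n, hn⟩ := hy i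
    exact ⟨m + n, by simp [hm, hn]⟩
  neg_mem' := fun {x} hx i => by
    obtain ⟨m, hm⟩ := hx i
    exact ⟨-m, by simp [hm]⟩

theorem mem_stdLat {ι : Type*} {x : ι → ℂ} : x ∈ stdLat ι ↔ ∀ i, ∃ m : ℤ, x i = m := Iff.rfl

theorem isCLat_std (ι : Type*) [Finite ι] : IsCLat (stdLat ι) :=
  isCLat_of_basis (Pi.basisFun ℂ ι) fun x => by simp [mem_stdLat]

/-- Finite products of lattices. -/
theorem isCLat_pi {ι : Type*} [Finite ι] {F : ι → Type*} [∀ i, AddCommGroup (F i)]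
    [∀ i, Module ℂ (F i)] {M : ∀ i, AddSubgroup (F i)} (hM : ∀ i, IsCLat (M i)) :
    IsCLat (AddSubgroup.pi Set.univ M) := by
  classical
  have := Fintype.ofFinite ι
  choose N b hb using hM
  refine isCLat_of_basis (Pi.basis b) fun x => ?_
  rw [AddSubgroup.mem_pi]
  constructor
  · rintro h ⟨i, j⟩
    have h1 := h i trivial
    rw [hb i, Submodule.mem_toAddSubgroup, mem_span_int_iff] at h1
    obtain ⟨m, hm⟩ := h1 j
    exact ⟨m, by rw [← hm]; simp⟩
  · intro h i _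
    rw [hb i, Submodule.mem_toAddSubgroup, mem_span_int_iff]
    intro j
    obtain ⟨m, hm⟩ := h ⟨i, j⟩
    exact ⟨m, by rw [← hm]; simp⟩

/-- The lattice `L^ι ⊂ E^ι`. -/
def piLat (ι : Type*) (L : AddSubgroup E) : AddSubgroup (ι → E) :=
  AddSubgroup.pi Set.univ fun _ => L

omit [Module ℂ E] in
theorem mem_piLat {ι : Type*} {c : ι → E} : c ∈ piLat ι L ↔ ∀ i, c i ∈ L := by
  simp [piLat, AddSubgroup.mem_pi]

theorem IsCLat.pi (hL : IsCLat L) (ι : Type*) [Finite ι] : IsCLat (piLat ι L) :=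
  isCLat_pi fun _ => hL

/-- Products. -/
theorem IsCLat.prod (hL : IsCLat L) (hL' : IsCLat L') : IsCLat (L.prod L') := by
  classical
  obtain ⟨N, b, hb⟩ := hL
  obtain ⟨N', b', hb'⟩ := hL'
  refine isCLat_of_basis (b.prod b') fun x => ?_
  rw [AddSubgroup.mem_prod, hb, hb', Submodule.mem_toAddSubgroup, Submodule.mem_toAddSubgroup,
    mem_span_int_iff, mem_span_int_iff]
  constructor
  · rintro ⟨h1, h2⟩ (j | j)
    · obtain ⟨m, hm⟩ := h1 j
      exact ⟨m, by rw [← hm]; simp⟩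
    · obtain ⟨m, hm⟩ := h2 j
      exact ⟨m, by rw [← hm]; simp⟩
  · intro h
    refine ⟨fun j => ?_, fun j => ?_⟩
    · obtain ⟨m, hm⟩ := h (Sum.inl j)
      exact ⟨m, by rw [← hm]; simp⟩
    · obtain ⟨m, hm⟩ := h (Sum.inr j)
      exact ⟨m, by rw [← hm]; simp⟩

/-- `ℤ`-independent lattice vectors are `ℂ`-independent. -/
theorem IsCLat.linearIndependent (hL : IsCLat L) {N : ℕ} (v : Fin N → E) (hv : ∀ i, v i ∈ L)
    (h : LinearIndependent ℤ v) : LinearIndependent ℂ v := by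
  rw [Fintype.linearIndependent_iff] at h ⊢
  intro c hc i
  refine congrFun (hL.indep_mod RatSub.bot v hv ?_ c (by rw [hc]; exact Submodule.zero_mem _)) i
  intro m hm
  funext j
  refine h m ?_ j
  rw [Submodule.mem_bot] at hm
  rw [← hm]
  exact Finset.sum_congr rfl fun i _ => by rw [Int.cast_smul_eq_zsmul]

/-- Commensurable sublattices. -/
theorem IsCLat.of_le (hL : IsCLat L) {M : AddSubgroup E} (hle : M ≤ L)
    (hdiv : ∀ l ∈ L, ∃ d : ℕ, 0 < d ∧ (d : ℂ) • l ∈ M) : IsCLat M := by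
  have h : IsCLat (AddSubgroup.toIntSubmodule M).toAddSubgroup := by
    apply isCLat_of
    · exact Submodule.FG.of_le hL.fg (by exact hle)
    · rw [eq_top_iff, ← hL.span_eq_top, span_le]
      intro l hl
      obtain ⟨d, hd, hdl⟩ := hdiv l hl
      have h2 : l = ((d : ℂ)⁻¹) • ((d : ℂ) • l) := by
        rw [smul_smul, inv_mul_cancel₀ (by exact_mod_cast hd.ne'), one_smul]
      rw [h2]
      exact Submodule.smul_mem _ _ (subset_span hdl)
    · intro N v hv hvZ
      exact hL.linearIndependent v (fun i => hle (hv i)) hvZ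
  exact h

theorem exists_dual_one : ∃ φ : Module.Dual ℚ ℂ, φ 1 = 1 := by
  by_contra h
  push Not at h
  have h1 : ∀ φ : Module.Dual ℚ ℂ, φ 1 = 0 := by
    intro φ
    by_contra h0
    refine h ((φ 1)⁻¹ • φ) ?_
    rw [LinearMap.smul_apply, smul_eq_mul, inv_mul_cancel₀ h0]
  exact one_ne_zero ((Module.forall_dual_apply_eq_zero_iff ℚ (1 : ℂ)).1 h1)

/-- Lattice points in the image of an integral map are, up to a multiple, images of lattice
points. -/
theorem IsCLat.exists_nat_smul_mem_map (hL : IsCLat L) (hL' : IsCLat L') (f : E →ₗ[ℂ] E')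
    (hf : ∀ l ∈ L, f l ∈ L') {y : E'} (hy : y ∈ L') (hyr : y ∈ LinearMap.range f) :
    ∃ d : ℕ, 0 < d ∧ ∃ l ∈ L, f l = (d : ℂ) • y := by
  obtain ⟨x, rfl⟩ := hyr
  obtain ⟨φ, hφ⟩ : ∃ φ : Module.Dual ℚ ℂ, φ 1 = 1 := exists_dual_one
  have h1 : hL'.op φ (f x) = f x := by
    have := hL'.op_smul φ 1 hy
    rw [one_smul, hφ] at this
    simpa using this
  obtain ⟨d, hd, hdl⟩ := hL.exists_nat_smul_op_mem φ x
  refine ⟨d, hd, _, hdl, ?_⟩
  rw [map_smul, hL.op_map hL' f hf, h1]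

/-- Matrix of an integral map in lattice bases. -/
theorem exists_int_matrix {N N' : ℕ} (b : Module.Basis (Fin N) ℂ E)
    (b' : Module.Basis (Fin N') ℂ E') (f : E →ₗ[ℂ] E')
    (hf : ∀ l ∈ span ℤ (Set.range b), f l ∈ span ℤ (Set.range b')) :
    ∃ A : Matrix (Fin N') (Fin N) ℤ, LinearMap.toMatrix b b' f = A.map (Int.cast : ℤ → ℂ) := by
  have h : ∀ i j, ∃ m : ℤ, b'.repr (f (b j)) i = m := fun i j =>
    (mem_span_int_iff b' _).1 (hf _ (subset_span ⟨j, rfl⟩)) i
  choose A hA using h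
  refine ⟨Matrix.of A, ?_⟩
  ext i j
  rw [LinearMap.toMatrix_apply, hA]; rfl

/-- Matrix of a lattice isomorphism in lattice bases. -/
theorem exists_GL_int {N : ℕ} (b : Module.Basis (Fin N) ℂ E)
    (b' : Module.Basis (Fin N) ℂ E') (e : E ≃ₗ[ℂ] E')
    (he : ∀ l, l ∈ span ℤ (Set.range b) ↔ e l ∈ span ℤ (Set.range b')) :
    ∃ A : Matrix.GeneralLinearGroup (Fin N) ℤ,
      LinearMap.toMatrix b b' e.toLinearMap = (A : Matrix (Fin N) (Fin N) ℤ).map (Int.cast : ℤ → ℂ) ∧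
      LinearMap.toMatrix b' b e.symm.toLinearMap =
        ((A⁻¹ : Matrix.GeneralLinearGroup (Fin N) ℤ) : Matrix (Fin N) (Fin N) ℤ).map
          (Int.cast : ℤ → ℂ) := by
  obtain ⟨A, hA⟩ := exists_int_matrix b b' e.toLinearMap fun l hl => (he l).1 hl
  obtain ⟨B, hB⟩ := exists_int_matrix b' b e.symm.toLinearMap fun l hl => by
    rw [he]; simpa using hl
  have hinj : Function.Injective (fun M : Matrix (Fin N) (Fin N) ℤ => M.map (Int.cast : ℤ → ℂ)) := by
    intro M M' h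
    ext i j
    have := congrFun (congrFun h i) j
    simpa using this
  have h1 : A * B = 1 := by
    apply hinj
    show (A * B).map (Int.cast : ℤ → ℂ) = (1 : Matrix (Fin N) (Fin N) ℤ).map (Int.cast : ℤ → ℂ)
    have h2 : (A * B).map (Int.cast : ℤ → ℂ)
        = A.map (Int.cast : ℤ → ℂ) * B.map (Int.cast : ℤ → ℂ) := by
      ext i j; simp [Matrix.mul_apply]
    rw [h2, ← hA, ← hB, ← LinearMap.toMatrix_comp]
    simp
  have h3 : B * A = 1 := by
    apply hinj
    show (B * A).map (Int.cast : ℤ → ℂ) = (1 : Matrix (Fin N) (Fin N) ℤ).map (Int.cast : ℤ → ℂ)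
    have h2 : (B * A).map (Int.cast : ℤ → ℂ)
        = B.map (Int.cast : ℤ → ℂ) * A.map (Int.cast : ℤ → ℂ) := by
      ext i j; simp [Matrix.mul_apply]
    rw [h2, ← hA, ← hB, ← LinearMap.toMatrix_comp]
    simp
  exact ⟨⟨A, B, h1, h3⟩, hA, hB⟩

/-- Two lattices in isomorphic spaces have bases of the same length. -/
theorem IsCLat.exists_basis (hL : IsCLat L) :
    ∃ b : Module.Basis (Fin (Module.finrank ℂ E)) ℂ E, L = (span ℤ (Set.range b)).toAddSubgroup := by
  obtain ⟨N, b, hb⟩ := hL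
  have h : Module.finrank ℂ E = N := by
    rw [Module.finrank_eq_card_basis b, Fintype.card_fin]
  subst h
  exact ⟨b, hb⟩

end Stab

section Cond

/-! ### Parabolic conditions, abstractly

`Z = {c : ∀ i, A i c ∈ range (B i)}`, `Bd = range δ`, all maps integral. -/

variable {E : Type*} [AddCommGroup E] [Module ℂ E] {L : AddSubgroup E}
variable {E₀ : Type*} [AddCommGroup E₀] [Module ℂ E₀] {L₀ : AddSubgroup E₀}
variable {ι : Type*} {F G : ι → Type*} [∀ i, AddCommGroup (F i)] [∀ i, Module ℂ (F i)]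
  [∀ i, AddCommGroup (G i)] [∀ i, Module ℂ (G i)]
  {LF : ∀ i, AddSubgroup (F i)} {LG : ∀ i, AddSubgroup (G i)}

/-- The subspace of the `c` with `A i c ∈ range (B i)` for all `i`. -/
def condSub (A : ∀ i, E →ₗ[ℂ] F i) (B : ∀ i, G i →ₗ[ℂ] F i) : Submodule ℂ E :=
  ⨅ i, (LinearMap.range (B i)).comap (A i)

theorem mem_condSub {A : ∀ i, E →ₗ[ℂ] F i} {B : ∀ i, G i →ₗ[ℂ] F i} {c : E} :
    c ∈ condSub A B ↔ ∀ i, ∃ v, B i v = A i c := by
  simp [condSub]

/-- The integral vectors with integral solutions of the conditions. -/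
def condLat (L : AddSubgroup E) (LG : ∀ i, AddSubgroup (G i)) (A : ∀ i, E →ₗ[ℂ] F i)
    (B : ∀ i, G i →ₗ[ℂ] F i) : AddSubgroup E where
  carrier := {c | c ∈ L ∧ ∀ i, ∃ v ∈ LG i, B i v = A i c}
  zero_mem' := ⟨L.zero_mem, fun i => ⟨0, (LG i).zero_mem, by simp⟩⟩
  add_mem' := fun {x y} hx hy => ⟨L.add_mem hx.1 hy.1, fun i => by
    obtain ⟨v, hv, hv'⟩ := hx.2 i
    obtain ⟨w, hw, hw'⟩ := hy.2 i
    exact ⟨v + w, (LG i).add_mem hv hw, by rw [map_add, map_add, hv', hw']⟩⟩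
  neg_mem' := fun {x} hx => ⟨L.neg_mem hx.1, fun i => by
    obtain ⟨v, hv, hv'⟩ := hx.2 i
    exact ⟨-v, (LG i).neg_mem hv, by rw [map_neg, map_neg, hv']⟩⟩

theorem mem_condLat {A : ∀ i, E →ₗ[ℂ] F i} {B : ∀ i, G i →ₗ[ℂ] F i} {c : E} :
    c ∈ condLat L LG A B ↔ c ∈ L ∧ ∀ i, ∃ v ∈ LG i, B i v = A i c := Iff.rfl

theorem ratSub_condSub (hL : IsCLat L) (hF : ∀ i, IsCLat (LF i)) (hG : ∀ i, IsCLat (LG i))
    {A : ∀ i, E →ₗ[ℂ] F i} {B : ∀ i, G i →ₗ[ℂ] F i} (hA : ∀ i, ∀ l ∈ L, A i l ∈ LF i)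
    (hB : ∀ i, ∀ l ∈ LG i, B i l ∈ LF i) : RatSub L (condSub A B) :=
  hL.ratSub_iInf fun i => hL.ratSub_comap (hF i) (A i) (hA i) ((hG i).ratSub_range (B i) (hB i))

theorem condLat_le {A : ∀ i, E →ₗ[ℂ] F i} {B : ∀ i, G i →ₗ[ℂ] F i} :
    condLat L LG A B ≤ L := fun _ hc => hc.1

theorem condLat_sub {A : ∀ i, E →ₗ[ℂ] F i} {B : ∀ i, G i →ₗ[ℂ] F i} {c : E}
    (hc : c ∈ condLat L LG A B) : c ∈ condSub A B :=
  mem_condSub.2 fun i => by obtain ⟨v, _, hv⟩ := hc.2 i; exact ⟨v, hv⟩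

/-- Finitely many conditions: a multiple of an integral vector of `condSub` is in `condLat`. -/
theorem exists_smul_mem_condLat [Finite ι] (hF : ∀ i, IsCLat (LF i))
    (hG : ∀ i, IsCLat (LG i)) {A : ∀ i, E →ₗ[ℂ] F i} {B : ∀ i, G i →ₗ[ℂ] F i}
    (hA : ∀ i, ∀ l ∈ L, A i l ∈ LF i) (hB : ∀ i, ∀ l ∈ LG i, B i l ∈ LF i)
    {c : E} (hc : c ∈ L) (hcs : c ∈ condSub A B) :
    ∃ d : ℕ, 0 < d ∧ (d : ℂ) • c ∈ condLat L LG A B := by
  classical
  have := Fintype.ofFinite ι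
  have h1 : ∀ i, ∃ d : ℕ, 0 < d ∧ ∃ l ∈ LG i, B i l = (d : ℂ) • A i c := by
    intro i
    obtain ⟨v, hv⟩ := mem_condSub.1 hcs i
    exact (hG i).exists_nat_smul_mem_map (hF i) (B i) (hB i) (hA i c hc) ⟨v, hv⟩
  choose d hd l hl hBl using h1
  refine ⟨∏ i, d i, Finset.prod_pos fun i _ => hd i, ?_, ?_⟩
  · rw [Nat.cast_smul_eq_nsmul]; exact L.nsmul_mem hc _
  · intro i
    refine ⟨((∏ j ∈ Finset.univ.erase i, d j : ℕ) : ℂ) • l i, ?_, ?_⟩
    · rw [Nat.cast_smul_eq_nsmul]; exact (LG i).nsmul_mem (hl i) _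
    · rw [map_smul, hBl, map_smul, smul_smul, ← Finset.mul_prod_erase _ _ (Finset.mem_univ i)]
      push_cast
      rw [mul_comm]

/-- **Parabolic lattice**, all integral vectors of `Z`. -/
theorem isCLat_cond (hL : IsCLat L) (hL₀ : IsCLat L₀) (hF : ∀ i, IsCLat (LF i))
    (hG : ∀ i, IsCLat (LG i)) {A : ∀ i, E →ₗ[ℂ] F i} {B : ∀ i, G i →ₗ[ℂ] F i}
    (hA : ∀ i, ∀ l ∈ L, A i l ∈ LF i) (hB : ∀ i, ∀ l ∈ LG i, B i l ∈ LF i)
    {δ : E₀ →ₗ[ℂ] E} (hδ : ∀ l ∈ L₀, δ l ∈ L)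
    {V : Type*} [AddCommGroup V] [Module ℂ V] (f : condSub A B →ₗ[ℂ] V)
    (hf : Function.Surjective f)
    (hker : ∀ x : condSub A B, f x = 0 ↔ (x : E) ∈ LinearMap.range δ) :
    IsCLat ((L.comap (condSub A B).subtype.toAddMonoidHom).map f.toAddMonoidHom) :=
  hL.quot (ratSub_condSub hL hF hG hA hB) (hL₀.ratSub_range δ hδ) f hf hker

/-- **Parabolic lattice**, the integral vectors which satisfy the conditions over `ℤ`. -/
theorem isCLat_cond' [Finite ι] (hL : IsCLat L) (hL₀ : IsCLat L₀) (hF : ∀ i, IsCLat (LF i))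
    (hG : ∀ i, IsCLat (LG i)) {A : ∀ i, E →ₗ[ℂ] F i} {B : ∀ i, G i →ₗ[ℂ] F i}
    (hA : ∀ i, ∀ l ∈ L, A i l ∈ LF i) (hB : ∀ i, ∀ l ∈ LG i, B i l ∈ LF i)
    {δ : E₀ →ₗ[ℂ] E} (hδ : ∀ l ∈ L₀, δ l ∈ L)
    {V : Type*} [AddCommGroup V] [Module ℂ V] (f : condSub A B →ₗ[ℂ] V)
    (hf : Function.Surjective f)
    (hker : ∀ x : condSub A B, f x = 0 ↔ (x : E) ∈ LinearMap.range δ) :
    IsCLat (((condLat L LG A B).comap (condSub A B).subtype.toAddMonoidHom).map
      f.toAddMonoidHom) := by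
  refine (isCLat_cond hL hL₀ hF hG hA hB hδ f hf hker).of_le ?_ ?_
  · rintro _ ⟨x, hx, rfl⟩
    exact ⟨x, hx.1, rfl⟩
  · rintro _ ⟨x, hx, rfl⟩
    obtain ⟨d, hd, hdx⟩ := exists_smul_mem_condLat hF hG hA hB (c := (x : E)) hx x.2
    exact ⟨d, hd, (d : ℂ) • x, hdx, map_smul f _ _⟩

end Cond

section Par

/-! ### Normal form for a punctured plane: `k` generators of a free group -/

variable {E : Type*} [AddCommGroup E] [Module ℂ E] {L : AddSubgroup E}
variable {E' : Type*} [AddCommGroup E'] [Module ℂ E'] {L' : AddSubgroup E'}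

/-- `T 0 ∘ T 1 ∘ ⋯ ∘ T (k-1)`. -/
noncomputable def prodT : (k : ℕ) → (Fin k → E →ₗ[ℂ] E) → (E →ₗ[ℂ] E)
  | 0, _ => LinearMap.id
  | k + 1, T => (T 0) ∘ₗ prodT k (fun i => T i.succ)

/-- `c₀ + T₀ c₁ + T₀ T₁ c₂ + ⋯`: the value on the product of the generators. -/
noncomputable def cinf : (k : ℕ) → (Fin k → E →ₗ[ℂ] E) → ((Fin k → E) →ₗ[ℂ] E)
  | 0, _ => 0
  | k + 1, T => LinearMap.proj 0 + (T 0) ∘ₗ (cinf k fun i => T i.succ) ∘ₗ
      LinearMap.funLeft ℂ E Fin.succ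

/-- The coboundary `v ↦ (T i v - v)_i`. -/
def cob {k : ℕ} (T : Fin k → E →ₗ[ℂ] E) : E →ₗ[ℂ] (Fin k → E) :=
  LinearMap.pi fun i => T i - LinearMap.id

@[simp] theorem cob_apply {k : ℕ} (T : Fin k → E →ₗ[ℂ] E) (v : E) (i : Fin k) :
    cob T v i = T i v - v := rfl

theorem cinf_succ {k : ℕ} (T : Fin (k + 1) → E →ₗ[ℂ] E) (c : Fin (k + 1) → E) :
    cinf (k + 1) T c = c 0 + T 0 (cinf k (fun i => T i.succ) fun i => c i.succ) := rfl

theorem prodT_succ {k : ℕ} (T : Fin (k + 1) → E →ₗ[ℂ] E) (v : E) :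
    prodT (k + 1) T v = T 0 (prodT k (fun i => T i.succ) v) := rfl

theorem cinf_cob {k : ℕ} (T : Fin k → E →ₗ[ℂ] E) (v : E) :
    cinf k T (cob T v) = prodT k T v - v := by
  induction k with
  | zero => simp [cinf, prodT]
  | succ k ih =>
    rw [cinf_succ, prodT_succ]
    have := ih (fun i => T i.succ)
    have h2 : (fun i => cob T v (Fin.succ i)) = cob (fun i => T i.succ) v := rfl
    rw [h2, this, cob_apply, map_sub]
    abel

theorem prodT_mem {k : ℕ} {T : Fin k → E →ₗ[ℂ] E} (hT : ∀ i, ∀ l ∈ L, T i l ∈ L) {l : E}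
    (hl : l ∈ L) : prodT k T l ∈ L := by
  induction k with
  | zero => exact hl
  | succ k ih => rw [prodT_succ]; exact hT 0 _ (ih fun i => hT i.succ)

theorem cinf_mem {k : ℕ} {T : Fin k → E →ₗ[ℂ] E} (hT : ∀ i, ∀ l ∈ L, T i l ∈ L) {c : Fin k → E}
    (hc : ∀ i, c i ∈ L) : cinf k T c ∈ L := by
  induction k with
  | zero => exact L.zero_mem
  | succ k ih =>
    rw [cinf_succ]
    exact L.add_mem (hc 0) (hT 0 _ (ih (fun i => hT i.succ) fun i => hc i.succ))

/-- The evaluations of a cocycle at the `k` generators and at their product. -/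
noncomputable def parA {k : ℕ} (T : Fin k → E →ₗ[ℂ] E) : Option (Fin k) → ((Fin k → E) →ₗ[ℂ] E)
  | none => cinf k T
  | some i => LinearMap.proj i

/-- `T - 1` for the `k` generators and for their product. -/
noncomputable def parB {k : ℕ} (T : Fin k → E →ₗ[ℂ] E) : Option (Fin k) → (E →ₗ[ℂ] E)
  | none => prodT k T - LinearMap.id
  | some i => T i - LinearMap.id

/-- Parabolic cocycles. -/
noncomputable def Zpar {k : ℕ} (T : Fin k → E →ₗ[ℂ] E) : Submodule ℂ (Fin k → E) :=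
  condSub (parA T) (parB T)

theorem mem_Zpar {k : ℕ} {T : Fin k → E →ₗ[ℂ] E} {c : Fin k → E} :
    c ∈ Zpar T ↔ (∀ i, ∃ v, T i v - v = c i) ∧ ∃ v, prodT k T v - v = cinf k T c := by
  unfold Zpar
  rw [mem_condSub]
  constructor
  · intro h
    exact ⟨fun i => h (some i), h none⟩
  · rintro ⟨h1, h2⟩ (_ | i)
    · exact h2
    · exact h1 i

theorem cob_mem_Zpar {k : ℕ} (T : Fin k → E →ₗ[ℂ] E) (v : E) : cob T v ∈ Zpar T :=
  mem_Zpar.2 ⟨fun i => ⟨v, rfl⟩, ⟨v, (cinf_cob T v).symm⟩⟩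

/-- Parabolic cocycles over `ℤ`. -/
noncomputable def ZparLat (L : AddSubgroup E) {k : ℕ} (T : Fin k → E →ₗ[ℂ] E) :
    AddSubgroup (Fin k → E) :=
  condLat (piLat (Fin k) L) (fun _ => L) (parA T) (parB T)

theorem mem_ZparLat {k : ℕ} {T : Fin k → E →ₗ[ℂ] E} {c : Fin k → E} :
    c ∈ ZparLat L T ↔ (∀ i, c i ∈ L) ∧ (∀ i, ∃ v ∈ L, T i v - v = c i) ∧
      ∃ v ∈ L, prodT k T v - v = cinf k T c := by
  unfold ZparLat
  rw [mem_condLat, mem_piLat]
  constructor
  · rintro ⟨h0, h⟩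
    exact ⟨h0, fun i => h (some i), h none⟩
  · rintro ⟨h0, h1, h2⟩
    refine ⟨h0, ?_⟩
    rintro (_ | i)
    · exact h2
    · exact h1 i

section
variable {k : ℕ} {T : Fin k → E →ₗ[ℂ] E} (hT : ∀ i, ∀ l ∈ L, T i l ∈ L)
include hT

theorem parA_mem (i : Option (Fin k)) : ∀ c ∈ piLat (Fin k) L, parA T i c ∈ L := by
  intro c hc
  rw [mem_piLat] at hc
  rcases i with _ | i
  · exact cinf_mem hT hc
  · exact hc i

theorem parB_mem (i : Option (Fin k)) : ∀ l ∈ L, parB T i l ∈ L := by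
  intro l hl
  rcases i with _ | i
  · exact L.sub_mem (prodT_mem hT hl) hl
  · exact L.sub_mem (hT i l hl) hl

theorem cob_mem {v : E} (hv : v ∈ L) : cob T v ∈ piLat (Fin k) L :=
  mem_piLat.2 fun i => L.sub_mem (hT i v hv) hv

theorem ratSub_Zpar (hL : IsCLat L) : RatSub (piLat (Fin k) L) (Zpar T) :=
  ratSub_condSub (LF := fun _ => L) (LG := fun _ => L) (hL.pi _) (fun _ => hL) (fun _ => hL)
    (fun i => parA_mem hT i) (fun i => parB_mem hT i)

theorem ratSub_cob (hL : IsCLat L) : RatSub (piLat (Fin k) L) (LinearMap.range (cob T)) :=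
  hL.ratSub_range _ fun _ hl => cob_mem hT hl

/-- **Lattice in the parabolic cohomology of a punctured plane**: images of the parabolic cocycles
with values in `L`. -/
theorem isCLat_par (hL : IsCLat L) {V : Type*} [AddCommGroup V] [Module ℂ V]
    (f : Zpar T →ₗ[ℂ] V) (hf : Function.Surjective f)
    (hker : ∀ x : Zpar T, f x = 0 ↔ (x : Fin k → E) ∈ LinearMap.range (cob T)) :
    IsCLat (((piLat (Fin k) L).comap (Zpar T).subtype.toAddMonoidHom).map f.toAddMonoidHom) :=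
  (hL.pi _).quot (ratSub_Zpar hT hL) (ratSub_cob hT hL) f hf hker

/-- **Lattice in the parabolic cohomology of a punctured plane**: images of the cocycles with
values in `L` which are parabolic over `ℤ`. -/
theorem isCLat_par' (hL : IsCLat L) {V : Type*} [AddCommGroup V] [Module ℂ V]
    (f : Zpar T →ₗ[ℂ] V) (hf : Function.Surjective f)
    (hker : ∀ x : Zpar T, f x = 0 ↔ (x : Fin k → E) ∈ LinearMap.range (cob T)) :
    IsCLat (((ZparLat L T).comap (Zpar T).subtype.toAddMonoidHom).map f.toAddMonoidHom) :=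
  isCLat_cond' (L₀ := L) (LF := fun _ => L) (LG := fun _ => L) (hL.pi _) hL (fun _ => hL)
    (fun _ => hL) (fun i => parA_mem hT i) (fun i => parB_mem hT i)
    (fun _ hl => cob_mem hT hl) f hf hker

end

/-- The standard model `H¹_par = Zpar / range cob`. -/
abbrev Hpar {k : ℕ} (T : Fin k → E →ₗ[ℂ] E) : Type _ :=
  Zpar T ⧸ (LinearMap.range (cob T)).comap (Zpar T).subtype

/-- The lattice in the standard model. -/
noncomputable def HparLat (L : AddSubgroup E) {k : ℕ} (T : Fin k → E →ₗ[ℂ] E) :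
    AddSubgroup (Hpar T) :=
  ((ZparLat L T).comap (Zpar T).subtype.toAddMonoidHom).map
    ((LinearMap.range (cob T)).comap (Zpar T).subtype).mkQ.toAddMonoidHom

theorem isCLat_HparLat {k : ℕ} {T : Fin k → E →ₗ[ℂ] E} (hL : IsCLat L)
    (hT : ∀ i, ∀ l ∈ L, T i l ∈ L) : IsCLat (HparLat L T) :=
  isCLat_par' hT hL _ (Submodule.mkQ_surjective _) fun x => by
    rw [Submodule.mkQ_apply, Submodule.Quotient.mk_eq_zero]; rfl

/-! Functoriality. -/

theorem prodT_comm {k : ℕ} {T : Fin k → E →ₗ[ℂ] E} {T' : Fin k → E' →ₗ[ℂ] E'} {a : E →ₗ[ℂ] E'}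
    (ha : ∀ i v, a (T i v) = T' i (a v)) (v : E) : a (prodT k T v) = prodT k T' (a v) := by
  induction k with
  | zero => rfl
  | succ k ih => rw [prodT_succ, prodT_succ, ha, ih fun i => ha i.succ]

theorem cinf_comm {k : ℕ} {T : Fin k → E →ₗ[ℂ] E} {T' : Fin k → E' →ₗ[ℂ] E'} {a : E →ₗ[ℂ] E'}
    (ha : ∀ i v, a (T i v) = T' i (a v)) (c : Fin k → E) :
    a (cinf k T c) = cinf k T' (fun i => a (c i)) := by
  induction k with
  | zero => simp [cinf]
  | succ k ih => rw [cinf_succ, cinf_succ, map_add, ha, ih fun i => ha i.succ]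

theorem map_mem_Zpar {k : ℕ} {T : Fin k → E →ₗ[ℂ] E} {T' : Fin k → E' →ₗ[ℂ] E'}
    {a : E →ₗ[ℂ] E'} (ha : ∀ i v, a (T i v) = T' i (a v)) {c : Fin k → E} (hc : c ∈ Zpar T) :
    (fun i => a (c i)) ∈ Zpar T' := by
  rw [mem_Zpar] at hc ⊢
  refine ⟨fun i => ?_, ?_⟩
  · obtain ⟨v, hv⟩ := hc.1 i
    exact ⟨a v, by rw [← ha, ← map_sub, hv]⟩
  · obtain ⟨v, hv⟩ := hc.2
    exact ⟨a v, by rw [← prodT_comm ha, ← map_sub, hv, cinf_comm ha]⟩

theorem map_mem_ZparLat {k : ℕ} {T : Fin k → E →ₗ[ℂ] E} {T' : Fin k → E' →ₗ[ℂ] E'}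
    {a : E →ₗ[ℂ] E'} (ha : ∀ i v, a (T i v) = T' i (a v)) (haL : ∀ l ∈ L, a l ∈ L')
    {c : Fin k → E} (hc : c ∈ ZparLat L T) : (fun i => a (c i)) ∈ ZparLat L' T' := by
  rw [mem_ZparLat] at hc ⊢
  refine ⟨fun i => haL _ (hc.1 i), fun i => ?_, ?_⟩
  · obtain ⟨v, hvL, hv⟩ := hc.2.1 i
    exact ⟨a v, haL _ hvL, by rw [← ha, ← map_sub, hv]⟩
  · obtain ⟨v, hvL, hv⟩ := hc.2.2
    exact ⟨a v, haL _ hvL, by rw [← prodT_comm ha, ← map_sub, hv, cinf_comm ha]⟩

theorem map_cob {k : ℕ} {T : Fin k → E →ₗ[ℂ] E} {T' : Fin k → E' →ₗ[ℂ] E'}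
    {a : E →ₗ[ℂ] E'} (ha : ∀ i v, a (T i v) = T' i (a v)) (v : E) :
    (fun i => a (cob T v i)) = cob T' (a v) := by
  funext i; simp [ha]

end Par

end Crest.Agent.R276.Lat_348
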