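import Crest.Agent.R276.Latt_937

/-!
# R276 (helper937): the lattice theorem for near-diagonal cocycles, part 2

`ParU` : cobounding near each puncture and near infinity; `parU_iff_compact`;
**`latt`** : integral basis of the parabolic cohomology of the punctured plane.
-/

set_option autoImplicit false
set_option linter.unusedSectionVars false
set_option linter.unusedVariables false

open Set Filter Topology MeasureTheory Matrix
open scoped ContDiff Manifold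

namespace Crest.Agent.R276.Latt_937

open Ipc735 Lat_348 Top2_937

noncomputable section

variable {N : ℕ}

/-- parabolic: a coboundary near each puncture and near infinity -/
def ParU (P : ℂ → ℂ → GL (Fin N) ℤ) (A : Finset ℂ) (u : ℂ → ℂ → Fin N → ℂ) : Prop :=
  (∀ p ∈ A, ∃ U ∈ 𝓝 p, CobOn (U ∩ (A : Set ℂ)ᶜ) P u) ∧
    ∃ R : ℝ, CobOn ({z | R < ‖z‖} ∩ (A : Set ℂ)ᶜ) P u

theorem parU_iff {P : ℂ → ℂ → GL (Fin N) ℤ} {A : Finset ℂ} {u : ℂ → ℂ → Fin N → ℂ} :
    ParU P A u ↔ ∀ e : Option A, ∃ n, CobOn (EE (endOf A e) n ∩ (A : Set ℂ)ᶜ) P u := by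
  constructor
  · rintro ⟨h1, R, hR⟩ (_ | p)
    · obtain ⟨n, hn⟩ := exists_nat_ge R
      refine ⟨n, CobOn.mono hR (inter_subset_inter ?_ le_rfl)⟩
      intro z hz
      obtain ⟨m, hm⟩ := mem_iUnion.1 hz
      have hm' : (n : ℝ) < lf m z := hm
      exact lt_of_le_of_lt hn (lt_of_lt_of_le hm' (lf_le m z))
    · obtain ⟨U, hU, hex⟩ := h1 p p.2
      obtain ⟨r, hr, hrU⟩ := Metric.mem_nhds_iff.1 hU
      obtain ⟨n, hn⟩ := exists_nat_one_div_lt hr
      refine ⟨n, CobOn.mono hex (inter_subset_inter ?_ le_rfl)⟩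
      show EE (some (p : ℂ)) n ⊆ U
      rw [EE_some]
      exact (Metric.ball_subset_ball hn.le).trans hrU
  · intro h
    constructor
    · intro p hp
      obtain ⟨n, hn⟩ := h (some ⟨p, hp⟩)
      refine ⟨Metric.ball p (1 / ((n : ℝ) + 1)), Metric.ball_mem_nhds _ (by positivity), ?_⟩
      have h2 : EE (endOf A (some ⟨p, hp⟩)) n = Metric.ball p (1 / ((n : ℝ) + 1)) := EE_some p n
      rwa [h2] at hn
    · obtain ⟨n, hn⟩ := h none
      refine ⟨2 * n, CobOn.mono hn (inter_subset_inter ?_ le_rfl)⟩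
      intro z hz
      obtain ⟨m, hm⟩ := exists_lf_gt hz
      exact mem_iUnion.2 ⟨m, hm⟩

/-- uniform radii for a monotone property of open sets -/
theorem radii {A : Finset ℂ} (Q : Set ℂ → Prop) (hmono : ∀ s t, s ⊆ t → Q t → Q s)
    (h1 : ∀ p ∈ A, ∃ U ∈ 𝓝 p, Q (U ∩ (A : Set ℂ)ᶜ))
    (h2 : ∃ R : ℝ, Q ({z | R < ‖z‖} ∩ (A : Set ℂ)ᶜ)) : ∃ r R : ℝ, 0 < r ∧ 0 < R ∧
      (∀ p ∈ A, ∀ q ∈ A, p ≠ q → 2 * r ≤ dist p q) ∧ (∀ p ∈ A, ‖p‖ + r ≤ R) ∧
      (∀ p ∈ A, Q (Metric.ball p r ∩ (A : Set ℂ)ᶜ)) ∧ Q ({z | R < ‖z‖} ∩ (A : Set ℂ)ᶜ) := by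
  obtain ⟨R0, hR0⟩ := h2
  have e1 : ∀ᶠ r in 𝓝[>] (0 : ℝ), ∀ p ∈ A, Q (Metric.ball p r ∩ (A : Set ℂ)ᶜ) := by
    rw [Filter.eventually_all_finset]
    intro p hp
    obtain ⟨U, hU, hex⟩ := h1 p hp
    obtain ⟨ρ, hρ, hρU⟩ := Metric.mem_nhds_iff.1 hU
    filter_upwards [Ioo_mem_nhdsGT hρ] with r hr
    exact hmono _ _ (inter_subset_inter ((Metric.ball_subset_ball hr.2.le).trans hρU) le_rfl) hex
  have e2 : ∀ᶠ r in 𝓝[>] (0 : ℝ), ∀ p ∈ A, ∀ q ∈ A, p ≠ q → 2 * r ≤ dist p q := by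
    rw [Filter.eventually_all_finset]
    intro p hp
    rw [Filter.eventually_all_finset]
    intro q hq
    by_cases hpq : p = q
    · exact Eventually.of_forall fun r h => absurd hpq h
    · have hd : 0 < dist p q / 2 := by
        have := dist_pos.2 hpq
        linarith
      filter_upwards [Ioo_mem_nhdsGT hd] with r hr _
      have := hr.2
      linarith
  obtain ⟨r, ⟨hr1, hr2⟩, hr3⟩ := ((e1.and e2).and self_mem_nhdsWithin).exists
  have e3 : ∀ᶠ R in atTop, ∀ p ∈ A, ‖p‖ + r ≤ R := by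
    rw [Filter.eventually_all_finset]
    intro p hp
    exact eventually_ge_atTop _
  obtain ⟨R, ⟨hR1, hR2⟩, hR3⟩ := ((e3.and (eventually_ge_atTop R0)).and
    (eventually_gt_atTop 0)).exists
  exact ⟨r, R, hr3, hR3, hr2, hR1, hr1, hmono _ _ (inter_subset_inter
    (fun z (hz : R < ‖z‖) => lt_of_le_of_lt hR2 hz) le_rfl) hR0⟩

theorem parU_iff_compact {P : ℂ → ℂ → GL (Fin N) ℤ} {A : Finset ℂ} {u : ℂ → ℂ → Fin N → ℂ} :
    ParU P A u ↔ ∃ K : Set ℂ, IsCompact K ∧ K ⊆ (A : Set ℂ)ᶜ ∧ CobOn ((A : Set ℂ)ᶜ \ K) P u := by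
  classical
  constructor
  · rintro ⟨h1, h2⟩
    obtain ⟨r, R, hr, hR, hsep, hnorm, hex, hi⟩ := radii (fun s => CobOn s P u)
      (fun s t hst h => CobOn.mono h hst) h1 h2
    have hO : IsOpen (A : Set ℂ)ᶜ := A.finite_toSet.isClosed.isOpen_compl
    have hfin : ∀ s : Finset ℂ, s ⊆ A →
        CobOn (⋃ p ∈ s, Metric.ball p r ∩ (A : Set ℂ)ᶜ) P u := by
      intro s
      induction s using Finset.induction_on with
      | empty =>
        intro _
        refine ⟨0, fun z hz => ?_⟩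
        simp at hz
      | insert p s hp ih =>
        intro hs
        have h3 := ih ((Finset.subset_insert p s).trans hs)
        have h4 := hex p (hs (Finset.mem_insert_self p s))
        have h5 := CobOn.union (Metric.isOpen_ball.inter hO)
          (isOpen_biUnion fun q (_ : q ∈ s) => Metric.isOpen_ball.inter hO) (by
            rw [Set.disjoint_left]
            rintro z ⟨hz1, -⟩ hz2
            obtain ⟨q, hq, hzq, -⟩ := mem_iUnion₂.1 hz2
            have hpq : p ≠ q := fun h => hp (h ▸ hq)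
            have h6 := hsep p (hs (Finset.mem_insert_self p s)) q
              (hs (Finset.mem_insert_of_mem hq)) hpq
            have h7 : dist z p < r := hz1
            have h8 : dist z q < r := hzq
            have h9 := dist_triangle_left p q z
            linarith) h4 h3
        refine CobOn.mono h5 ?_
        rw [Finset.set_biUnion_insert]
        exact subset_rfl
    have hall := CobOn.union
      (isOpen_biUnion fun q (_ : q ∈ A) => Metric.isOpen_ball.inter hO)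
      ((isOpen_lt continuous_const continuous_norm).inter hO) (by
        rw [Set.disjoint_left]
        rintro z hz ⟨hz1, -⟩
        obtain ⟨q, hq, hzq, -⟩ := mem_iUnion₂.1 hz
        have h3 := hnorm q hq
        have h4 : dist z q < r := hzq
        rw [dist_eq_norm] at h4
        have h5 : ‖z‖ ≤ ‖z - q‖ + ‖q‖ := by
          have := norm_add_le (z - q) q
          rwa [sub_add_cancel] at this
        have h6 : R < ‖z‖ := hz1
        linarith) (hfin A le_rfl) hi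
    refine ⟨Metric.closedBall 0 R ∩ ⋂ p ∈ A, {z | r ≤ dist z p}, ?_, ?_, CobOn.mono hall ?_⟩
    · refine (isCompact_closedBall (0 : ℂ) R).inter_right ?_
      exact isClosed_biInter fun p _ =>
        isClosed_le continuous_const (continuous_id.dist continuous_const)
    · rintro z ⟨-, hz⟩ hzA
      have h3 : r ≤ dist z z := mem_iInter₂.1 hz z hzA
      rw [dist_self] at h3
      linarith
    · rintro z ⟨hz, hzK⟩
      by_cases h3 : R < ‖z‖
      · exact Or.inr ⟨h3, hz⟩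
      · left
        by_contra hcon
        apply hzK
        refine ⟨?_, mem_iInter₂.2 fun p hp => ?_⟩
        · rw [Metric.mem_closedBall, dist_zero_right]
          exact not_lt.1 h3
        · by_contra h4
          have h5 : dist z p < r := not_le.1 h4
          exact hcon (mem_iUnion₂.2 ⟨p, hp, h5, hz⟩)
  · rintro ⟨K, hK, hKA, h⟩
    constructor
    · intro p hp
      refine ⟨Kᶜ, hK.isClosed.isOpen_compl.mem_nhds fun h1 => hKA h1 hp, CobOn.mono h ?_⟩
      rintro z ⟨h1, h2⟩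
      exact ⟨h2, h1⟩
    · obtain ⟨R, hR⟩ := hK.isBounded.subset_closedBall 0
      refine ⟨R, CobOn.mono h ?_⟩
      rintro z ⟨h1, h2⟩
      refine ⟨h2, fun h3 => ?_⟩
      have h4 := hR h3
      rw [Metric.mem_closedBall, dist_zero_right] at h4
      exact absurd (show R < ‖z‖ from h1) (not_lt.2 h4)

theorem ParU.add {P : ℂ → ℂ → GL (Fin N) ℤ} {A : Finset ℂ} {u v : ℂ → ℂ → Fin N → ℂ}
    (h : ParU P A u) (h' : ParU P A v) : ParU P A (u + v) := by
  rw [parU_iff] at *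
  intro e
  obtain ⟨n, hn⟩ := h e
  obtain ⟨k, hk⟩ := h' e
  have hm : ∀ j l, j ≤ l → EE (endOf A e) l ∩ (A : Set ℂ)ᶜ ⊆ EE (endOf A e) j ∩ (A : Set ℂ)ᶜ :=
    fun j l hjl => inter_subset_inter
      (iUnion_mono fun m => antitone_EB (endOf A e) m hjl) le_rfl
  exact ⟨max n k, CobOn.add (CobOn.mono hn (hm _ _ (le_max_left _ _)))
    (CobOn.mono hk (hm _ _ (le_max_right _ _)))⟩

theorem ParU.smul {P : ℂ → ℂ → GL (Fin N) ℤ} {A : Finset ℂ} {u : ℂ → ℂ → Fin N → ℂ}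
    (h : ParU P A u) (c : ℂ) : ParU P A (c • u) := by
  rw [parU_iff] at *
  intro e
  obtain ⟨n, hn⟩ := h e
  exact ⟨n, CobOn.smul hn c⟩

theorem ParU.sub {P : ℂ → ℂ → GL (Fin N) ℤ} {A : Finset ℂ} {u v : ℂ → ℂ → Fin N → ℂ}
    (h : ParU P A u) (h' : ParU P A v) : ParU P A (u - v) := by
  have h1 := h.add (h'.smul (-1))
  simpa [sub_eq_add_neg] using h1

theorem CobOn.parU {P : ℂ → ℂ → GL (Fin N) ℤ} {A : Finset ℂ} {u : ℂ → ℂ → Fin N → ℂ}
    (h : CobOn (A : Set ℂ)ᶜ P u) : ParU P A u := by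
  rw [parU_iff]
  exact fun e => ⟨0, CobOn.mono h inter_subset_right⟩

/-- **LATT.** Integral basis of the parabolic cohomology of the punctured plane, in terms of
near-diagonal cocycles. -/
theorem latt {A : Finset ℂ} {P : ℂ → ℂ → GL (Fin N) ℤ} (hP : NDCOn (A : Set ℂ)ᶜ P) :
    ∃ (n : ℕ) (w : Fin n → ℂ → ℂ → Fin N → ℂ),
      (∀ k, CocOn (A : Set ℂ)ᶜ P (w k) ∧ (∀ x y, w k x y ∈ stdLat (Fin N)) ∧ ParU P A (w k)) ∧
      ∀ u, CocOn (A : Set ℂ)ᶜ P u → ParU P A u →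
        (∃! c : Fin n → ℂ, CobOn (A : Set ℂ)ᶜ P (u - ∑ k, c k • w k)) ∧
        ∀ c : Fin n → ℂ, CobOn (A : Set ℂ)ᶜ P (u - ∑ k, c k • w k) →
          ((∃ h, CocOn (A : Set ℂ)ᶜ P h ∧ (∀ x y, h x y ∈ stdLat (Fin N)) ∧
            CobOn (A : Set ℂ)ᶜ P (u - h)) ↔ ∀ k, ∃ m : ℤ, c k = m) := by
  classical
  let D : Fam P (A → Fin 4) := mainFam hP
  have hU : (⋃ i, D.W i) = (A : Set ℂ)ᶜ := iUnion_main hP
  let R2 : (A → Fin 4) → (A → Fin 4) → Prop := fun i j => (D.W i ∩ D.W j).Nonempty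
  let R3 : (A → Fin 4) → (A → Fin 4) → (A → Fin 4) → Prop :=
    fun i j l => (D.W i ∩ D.W j ∩ D.W l).Nonempty
  let mt : Option A → ((A → Fin 4) × Fin 4) → ((A → Fin 4) × Fin 4) → Prop :=
    fun e => D.meet (EB (endOf A e))
  have hG : ∀ i j l, R3 i j l → D.G i j * D.G j l = D.G i l := by
    rintro i j l ⟨x, ⟨hi, hj⟩, hl⟩
    rw [D.G_eq ⟨hi, hj⟩, D.G_eq ⟨hj, hl⟩, D.G_eq ⟨hi, hl⟩]
    group
  have h23 : ∀ i j l, R3 i j l → R2 i j ∧ R2 j l ∧ R2 i l := by
    rintro i j l ⟨x, ⟨hi, hj⟩, hl⟩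
    exact ⟨⟨x, hi, hj⟩, ⟨x, hj, hl⟩, ⟨x, hi, hl⟩⟩
  have hm2 : ∀ e i j, mt e i j → R2 i.1 j.1 := by
    intro e i j h
    obtain ⟨x, hx1, hx2⟩ := h 0
    exact ⟨x, hx1.1, hx2.1⟩
  have hend : ∀ {u : ℂ → ℂ → Fin N → ℂ} {ψ : (A → Fin 4) → ℂ → Fin N → ℂ}
      {c : Co N (A → Fin 4)}, HasU D u ψ c →
      (ParU P A u ↔ ∀ e, ∃ v : ((A → Fin 4) × Fin 4) → Fin N → ℂ,
        ∀ i j, mt e i j → c i.1 j.1 = act (D.G i.1 j.1) (v j) - v i) := by
    intro u ψ c h
    rw [parU_iff]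
    refine forall_congr' fun e => ?_
    rw [← h.end_iff (isOpen_EB (endOf A e)) (convex_EB (endOf A e)) (antitone_EB (endOf A e))]
    refine exists_congr fun n => ?_
    rw [iUnion_piece hP]
  obtain ⟨n, w, hw1, hw2, hw3, hw4⟩ := exists_basis_co D.G R2 R3
    (fun i : (A → Fin 4) × Fin 4 => i.1) mt
  have hmem : ∀ {u : ℂ → ℂ → Fin N → ℂ} {ψ : (A → Fin 4) → ℂ → Fin N → ℂ}
      {c : Co N (A → Fin 4)}, HasU D u ψ c → ParU P A u → (∀ i j, ¬ R2 i j → c i j = 0) →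
      c ∈ parZ D.G R2 R3 (fun i : (A → Fin 4) × Fin 4 => i.1) mt := by
    intro u ψ c h hp h0
    rw [mem_parZ]
    exact ⟨h0, fun i j l h1 => h.cocycle h1, (hend h).1 hp⟩
  have hnorm : ∀ {u : ℂ → ℂ → Fin N → ℂ}, CocOn (⋃ i, D.W i) P u →
      ∃ (ψ : (A → Fin 4) → ℂ → Fin N → ℂ) (c : Co N (A → Fin 4)), HasU D u ψ c ∧
        ∀ i j, ¬ R2 i j → c i j = 0 := by
    intro u hu
    obtain ⟨ψ, c₀, h⟩ := exists_hasU hu
    exact ⟨ψ, fun i j => if R2 i j then c₀ i j else 0, h.congr fun i j hij => if_pos hij,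
      fun i j hij => if_neg hij⟩
  have hreal : ∀ k, ∃ (u : ℂ → ℂ → Fin N → ℂ) (ψ : (A → Fin 4) → ℂ → Fin N → ℂ),
      HasU D u ψ (w k) ∧ CocOn (⋃ i, D.W i) P u ∧ (∀ x y, u x y ∈ stdLat (Fin N)) ∧
      ParU P A u := by
    intro k
    have hk := (mem_parZ D.G R2 R3 (fun i : (A → Fin 4) × Fin 4 => i.1) mt).1 (hw1 k)
    obtain ⟨u, ψ, h1, h2, h3⟩ := realiseU (w k) hk.2.1
    exact ⟨u, ψ, h1, h2, h3 (hw2 k), (hend h1).2 hk.2.2⟩
  choose W Ψ hW1 hW2 hW3 hW4 using hreal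
  have hcomb : ∀ {u : ℂ → ℂ → Fin N → ℂ} {ψ : (A → Fin 4) → ℂ → Fin N → ℂ}
      {c : Co N (A → Fin 4)}, HasU D u ψ c → ∀ l : Fin n → ℂ,
      (CobOn (⋃ i, D.W i) P (u - ∑ k, l k • W k) ↔ ∃ v : (A → Fin 4) → Fin N → ℂ,
        ∀ i j, R2 i j → c i j - ∑ k, l k • w k i j = act (D.G i j) (v j) - v i) := by
    intro u ψ c h l
    have h1 := h.sub (HasU.sum Finset.univ fun k _ => (hW1 k).smul (l k))
    rw [h1.cob_iff']
    refine exists_congr fun v => forall_congr' fun i => forall_congr' fun j =>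
      forall_congr' fun hij => ?_
    rw [Pi.sub_apply, Pi.sub_apply, Finset.sum_apply, Finset.sum_apply]
    rfl
  refine ⟨n, W, fun k => ?_, ?_⟩
  · rw [← hU]
    exact ⟨hW2 k, hW3 k, hW4 k⟩
  · intro u hu hpar
    rw [← hU] at hu ⊢
    obtain ⟨ψ, c, hc, hc0⟩ := hnorm hu
    have hcz := hmem hc hpar hc0
    have h1 := hcomb hc
    refine ⟨?_, fun l hl => ?_⟩
    · simp only [h1]
      exact hw3 c hcz
    · have hl' := (h1 l).1 hl
      rw [← hw4 c hcz l hl']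
      constructor
      · rintro ⟨h, hh1, hh2, hh3⟩
        obtain ⟨ψ', c', hc', hc0'⟩ := hnorm hh1
        have hpar' : ParU P A h := by
          have h2 : ParU P A (u - h) := CobOn.parU (by rw [← hU]; exact hh3)
          have h3 := hpar.sub h2
          rwa [sub_sub_cancel] at h3
        have hcz' := hmem hc' hpar' hc0'
        obtain ⟨v, hv⟩ := hc'.int fun z hz => ⟨univ, univ_mem, fun x _ y _ => hh2 x y⟩
        obtain ⟨v', hv'⟩ := (hc.sub hc').cob_iff'.1 hh3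
        refine ⟨c' - Df D.G R2 v, Submodule.sub_mem _ hcz'
          (Df_mem_parZ D.G R2 R3 _ mt hG h23 hm2 v), fun i j => ?_, v' + v, fun i j hij => ?_⟩
        · rw [Pi.sub_apply, Pi.sub_apply]
          by_cases hij : R2 i j
          · rw [Df_pos D.G R2 hij]
            exact hv i j hij
          · rw [Df_neg D.G R2 hij, hc0' i j hij, sub_zero]
            exact zero_mem _
        · have h2 := hv' i j hij
          rw [Pi.sub_apply, Pi.sub_apply] at h2 ⊢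
          rw [Df_pos D.G R2 hij, Pi.add_apply, Pi.add_apply, map_add]
          have h3 : c i j = c' i j + (act (D.G i j) (v' j) - v' i) := by rw [← h2]; abel
          rw [h3]; abel
      · rintro ⟨m, hm, hm2, v, hv⟩
        have hk := (mem_parZ D.G R2 R3 (fun i : (A → Fin 4) × Fin 4 => i.1) mt).1 hm
        obtain ⟨h, ψ', h2, h3, h4⟩ := realiseU m hk.2.1
        refine ⟨h, h3, h4 hm2, (hc.sub h2).cob_iff'.2 ⟨v, fun i j hij => ?_⟩⟩
        rw [Pi.sub_apply, Pi.sub_apply]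
        exact hv i j hij

end

end Crest.Agent.R276.Latt_937
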