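import Crest.Agent.R276.Top2h_937
import Crest.Agent.R276.DR_175

/-!
# R276 (helper937): the lattice theorem for near-diagonal cocycles (LATT of post 1851)

`CocOn`, `CobOn` of `DR_175`.  For a finite family of convex pieces `D : Fam P ι`:
`Fam.HasU` (Čech cochain of a near-diagonal cocycle), `exists_hasU`, `HasU.cob_iff`, `HasU.end_iff`,
`Fam.realiseU` (an integral Čech cocycle comes from an integral near-diagonal cocycle).
`latt` : integral basis of the parabolic cohomology.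
-/

set_option autoImplicit false
set_option linter.unusedSectionVars false
set_option linter.unusedVariables false

open Set Filter Topology MeasureTheory Matrix
open scoped ContDiff Manifold

namespace Crest.Agent.R276.Latt_937

open Ipc735 Lat_348 Top2_937

noncomputable section

variable {N : ℕ}

abbrev CocOn (O : Set ℂ) (P : ℂ → ℂ → GL (Fin N) ℤ) (u : ℂ → ℂ → Fin N → ℂ) : Prop :=
  DR_175.CocOn O P u

abbrev CobOn (O : Set ℂ) (P : ℂ → ℂ → GL (Fin N) ℤ) (u : ℂ → ℂ → Fin N → ℂ) : Prop :=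
  DR_175.CobOn O P u

section basic

variable {P : ℂ → ℂ → GL (Fin N) ℤ} {O O' : Set ℂ} {u u' : ℂ → ℂ → Fin N → ℂ}

theorem cocOn_iff : CocOn O P u ↔ ∀ z ∈ O, ∃ U ∈ 𝓝 z, ∀ x ∈ U, ∀ y ∈ U, ∀ t ∈ U,
    u x y + act (P x y) (u y t) = u x t := Iff.rfl

theorem cobOn_iff : CobOn O P u ↔ ∃ f : ℂ → Fin N → ℂ, ∀ z ∈ O, ∃ U ∈ 𝓝 z, ∀ x ∈ U, ∀ y ∈ U,
    u x y = f x - act (P x y) (f y) := Iff.rfl

theorem CocOn.mono (h : CocOn O P u) (hO : O' ⊆ O) : CocOn O' P u := fun z hz => h z (hO hz)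

theorem CobOn.mono (h : CobOn O P u) (hO : O' ⊆ O) : CobOn O' P u := by
  obtain ⟨f, hf⟩ := h
  exact ⟨f, fun z hz => hf z (hO hz)⟩

theorem CocOn.add (h : CocOn O P u) (h' : CocOn O P u') : CocOn O P (u + u') := by
  rw [cocOn_iff] at *
  intro z hz
  obtain ⟨U, hU, h1⟩ := h z hz
  obtain ⟨U', hU', h2⟩ := h' z hz
  refine ⟨U ∩ U', inter_mem hU hU', fun x hx y hy t ht => ?_⟩
  simp only [Pi.add_apply, map_add]
  rw [← h1 x hx.1 y hy.1 t ht.1, ← h2 x hx.2 y hy.2 t ht.2]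
  abel

theorem CocOn.smul (h : CocOn O P u) (c : ℂ) : CocOn O P (c • u) := by
  rw [cocOn_iff] at *
  intro z hz
  obtain ⟨U, hU, h1⟩ := h z hz
  refine ⟨U, hU, fun x hx y hy t ht => ?_⟩
  simp only [Pi.smul_apply]
  rw [act_smul, ← h1 x hx y hy t ht, smul_add]

theorem CocOn.sub (h : CocOn O P u) (h' : CocOn O P u') : CocOn O P (u - u') := by
  have h1 := h.add (h'.smul (-1))
  simpa [sub_eq_add_neg] using h1

theorem CocOn.zero : CocOn O P (0 : ℂ → ℂ → Fin N → ℂ) := fun z hz =>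
  ⟨univ, univ_mem, fun x _ y _ t _ => by simp⟩

theorem CocOn.sum {κ : Type} (s : Finset κ) {F : κ → ℂ → ℂ → Fin N → ℂ}
    (h : ∀ k ∈ s, CocOn O P (F k)) : CocOn O P (∑ k ∈ s, F k) := by
  classical
  induction s using Finset.induction_on with
  | empty => rw [Finset.sum_empty]; exact CocOn.zero
  | insert k s hk ih =>
    rw [Finset.sum_insert hk]
    exact (h k (Finset.mem_insert_self _ _)).add
      (ih fun j hj => h j (Finset.mem_insert_of_mem hj))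

theorem CobOn.add (h : CobOn O P u) (h' : CobOn O P u') : CobOn O P (u + u') := by
  rw [cobOn_iff] at *
  obtain ⟨f, h⟩ := h
  obtain ⟨f', h'⟩ := h'
  refine ⟨f + f', fun z hz => ?_⟩
  obtain ⟨U, hU, h1⟩ := h z hz
  obtain ⟨U', hU', h2⟩ := h' z hz
  refine ⟨U ∩ U', inter_mem hU hU', fun x hx y hy => ?_⟩
  simp only [Pi.add_apply, map_add]
  rw [h1 x hx.1 y hy.1, h2 x hx.2 y hy.2]
  abel

theorem CobOn.smul (h : CobOn O P u) (c : ℂ) : CobOn O P (c • u) := by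
  rw [cobOn_iff] at *
  obtain ⟨f, h⟩ := h
  refine ⟨c • f, fun z hz => ?_⟩
  obtain ⟨U, hU, h1⟩ := h z hz
  refine ⟨U, hU, fun x hx y hy => ?_⟩
  simp only [Pi.smul_apply]
  rw [h1 x hx y hy, act_smul, smul_sub]

theorem CobOn.neg (h : CobOn O P u) : CobOn O P (-u) := by
  have h1 := h.smul (-1)
  simpa using h1

theorem CobOn.sub (h : CobOn O P u) (h' : CobOn O P u') : CobOn O P (u - u') := by
  have h1 := h.add h'.neg
  simpa [sub_eq_add_neg] using h1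

theorem CobOn.zero : CobOn O P (0 : ℂ → ℂ → Fin N → ℂ) :=
  ⟨0, fun z hz => ⟨univ, univ_mem, fun x _ y _ => by simp⟩⟩

theorem CobOn.sum {κ : Type} (s : Finset κ) {F : κ → ℂ → ℂ → Fin N → ℂ}
    (h : ∀ k ∈ s, CobOn O P (F k)) : CobOn O P (∑ k ∈ s, F k) := by
  classical
  induction s using Finset.induction_on with
  | empty => rw [Finset.sum_empty]; exact CobOn.zero
  | insert k s hk ih =>
    rw [Finset.sum_insert hk]
    exact (h k (Finset.mem_insert_self _ _)).add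
      (ih fun j hj => h j (Finset.mem_insert_of_mem hj))

/-- gluing over disjoint open sets -/
theorem CobOn.union (hO : IsOpen O) (hO' : IsOpen O') (hd : Disjoint O O') (h : CobOn O P u)
    (h' : CobOn O' P u) : CobOn (O ∪ O') P u := by
  classical
  obtain ⟨f, hf⟩ := h
  obtain ⟨f', hf'⟩ := h'
  refine ⟨fun x => if x ∈ O then f x else f' x, ?_⟩
  rintro z (hz | hz)
  · obtain ⟨U, hU, h1⟩ := hf z hz
    refine ⟨U ∩ O, inter_mem hU (hO.mem_nhds hz), fun x hx y hy => ?_⟩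
    beta_reduce
    rw [if_pos hx.2, if_pos hy.2]
    exact h1 x hx.1 y hy.1
  · obtain ⟨U, hU, h1⟩ := hf' z hz
    refine ⟨U ∩ O', inter_mem hU (hO'.mem_nhds hz), fun x hx y hy => ?_⟩
    beta_reduce
    rw [if_neg (fun h => Set.disjoint_left.1 hd h hx.2),
      if_neg (fun h => Set.disjoint_left.1 hd h hy.2)]
    exact h1 x hx.1 y hy.1

end basic

/-- a locally constant function on a convex open set is constant -/
theorem const_of_loc {V : Type*} {W : Set ℂ} (hW : IsOpen W) (hc : Convex ℝ W) {f : ℂ → V}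
    (hf : ∀ z ∈ W, ∃ U ∈ 𝓝 z, ∀ y ∈ U, f y = f z) {x y : ℂ}
    (hx : x ∈ W) (hy : y ∈ W) : f y = f x := by
  by_contra hne
  let A : Set ℂ := {w | w ∈ W ∧ f w = f x}
  let B : Set ℂ := {w | w ∈ W ∧ f w ≠ f x}
  have hA : IsOpen A := by
    rw [isOpen_iff_mem_nhds]
    rintro w ⟨hw, hw'⟩
    obtain ⟨U, hU, h⟩ := hf w hw
    filter_upwards [hU, hW.mem_nhds hw] with u hu hu'
    exact ⟨hu', (h u hu).trans hw'⟩
  have hB : IsOpen B := by
    rw [isOpen_iff_mem_nhds]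
    rintro w ⟨hw, hw'⟩
    obtain ⟨U, hU, h⟩ := hf w hw
    filter_upwards [hU, hW.mem_nhds hw] with u hu hu'
    exact ⟨hu', by rw [h u hu]; exact hw'⟩
  obtain ⟨w, -, hwA, hwB⟩ := hc.isPreconnected A B hA hB (fun w hw => by
    by_cases h : f w = f x
    · exact Or.inl ⟨hw, h⟩
    · exact Or.inr ⟨hw, h⟩) ⟨x, hx, hx, rfl⟩ ⟨y, hy, hy, hne⟩
  exact hwB.2 hwA.2

section fam

variable {P : ℂ → ℂ → GL (Fin N) ℤ} {ι : Type} {D : Fam P ι}

/-- Čech cochain of a near-diagonal cocycle -/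
structure HasU (D : Fam P ι) (u : ℂ → ℂ → Fin N → ℂ) (ψ : ι → ℂ → Fin N → ℂ)
    (c : Co N ι) : Prop where
  loc : ∀ i, ∀ z ∈ D.W i, ∃ U ∈ 𝓝 z, ∀ x ∈ U, ∀ y ∈ U, u x y = act (D.T i x) (ψ i y - ψ i x)
  rel : ∀ i j, ∀ x ∈ D.W i ∩ D.W j, ψ i x = act (D.G i j) (ψ j x) + c i j

/-- a near-diagonal cocycle is a coboundary on each piece -/
theorem exists_loc {u : ℂ → ℂ → Fin N → ℂ} (hu : CocOn (⋃ i, D.W i) P u) (i : ι) :
    ∃ ψ : ℂ → Fin N → ℂ, ∀ z ∈ D.W i, ∃ U ∈ 𝓝 z, ∀ x ∈ U, ∀ y ∈ U,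
      u x y = act (D.T i x) (ψ y - ψ x) := by
  let c : ℂ → ℂ → Multiplicative (Fin N → ℂ) := fun x y =>
    Multiplicative.ofAdd (act (D.T i x)⁻¹ (u x y))
  have hc : Top1_816.NDCOn c (D.W i) := by
    intro z hz
    obtain ⟨U, hU, h⟩ := hu z (mem_iUnion.2 ⟨i, hz⟩)
    obtain ⟨U', hU', hT⟩ := D.tri i z hz
    refine ⟨U ∩ U', mem_nhdsWithin_of_mem_nhds (inter_mem hU hU'), fun x hx y hy t ht => ?_⟩
    have h1 : u x y + act (P x y) (u y t) = u x t := h x hx.1 y hy.1 t ht.1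
    rw [hT x hx.2 y hy.2, act_mul_apply] at h1
    have h2 : act (D.T i x)⁻¹ (u x y) + act (D.T i y)⁻¹ (u y t) = act (D.T i x)⁻¹ (u x t) := by
      rw [← h1, map_add, act_inv_act]
    exact congrArg Multiplicative.ofAdd h2
  obtain ⟨B, hB⟩ := Top1_816.NDCOn.exists_trivByOn_convex (D.convex i) hc
  refine ⟨fun x => - Multiplicative.toAdd (B x), fun z hz => ?_⟩
  obtain ⟨U, hU, h⟩ := hB z hz
  rw [(D.isOpen i).nhdsWithin_eq hz] at hU
  refine ⟨U, hU, fun x hx y hy => ?_⟩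
  have h1 := congrArg Multiplicative.toAdd (h x hx y hy)
  rw [toAdd_mul, toAdd_inv] at h1
  have h2 : act (D.T i x)⁻¹ (u x y) = Multiplicative.toAdd (B x) + -Multiplicative.toAdd (B y) := h1
  have h3 := congrArg (act (D.T i x)) h2
  rw [act_act_inv] at h3
  rw [h3]
  congr 1
  rw [sub_neg_eq_add, add_comm]

theorem exists_hasU {u : ℂ → ℂ → Fin N → ℂ} (hu : CocOn (⋃ i, D.W i) P u) :
    ∃ ψ c, HasU D u ψ c := by
  classical
  choose ψ hψ using exists_loc hu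
  have hconst : ∀ i j, ∀ x ∈ D.W i ∩ D.W j, ∀ y ∈ D.W i ∩ D.W j,
      ψ i y - act (D.G i j) (ψ j y) = ψ i x - act (D.G i j) (ψ j x) := by
    intro i j x hx y hy
    refine const_of_loc (f := fun w => ψ i w - act (D.G i j) (ψ j w))
      ((D.isOpen i).inter (D.isOpen j)) ((D.convex i).inter (D.convex j)) (fun z hz => ?_) hx hy
    obtain ⟨U, hU, h⟩ := hψ i z hz.1
    obtain ⟨U', hU', h'⟩ := hψ j z hz.2
    refine ⟨U ∩ U', inter_mem hU hU', fun w hw => ?_⟩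
    have h1 := h z (mem_of_mem_nhds hU) w hw.1
    have h2 := h' z (mem_of_mem_nhds hU') w hw.2
    rw [h1] at h2
    have h3 := congrArg (act (D.T i z)⁻¹) h2
    rw [act_inv_act, ← act_mul_apply, ← D.G_eq hz, map_sub] at h3
    show ψ i w - act (D.G i j) (ψ j w) = ψ i z - act (D.G i j) (ψ j z)
    have h4 : ψ i w = ψ i z + (act (D.G i j) (ψ j w) - act (D.G i j) (ψ j z)) := by
      rw [← h3]; abel
    rw [h4]; abel
  let c : Co N ι := fun i j => if h : (D.W i ∩ D.W j).Nonempty then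
    ψ i h.some - act (D.G i j) (ψ j h.some) else 0
  refine ⟨ψ, c, hψ, fun i j x hx => ?_⟩
  have h : (D.W i ∩ D.W j).Nonempty := ⟨x, hx⟩
  simp only [c]
  rw [dif_pos h, hconst i j x hx _ h.some_mem]
  abel

variable {u u' : ℂ → ℂ → Fin N → ℂ} {ψ ψ' : ι → ℂ → Fin N → ℂ} {c c' : Co N ι}

theorem HasU.congr (h : HasU D u ψ c) (hc : ∀ i j, (D.W i ∩ D.W j).Nonempty →
    c' i j = c i j) : HasU D u ψ c' where
  loc := h.loc
  rel i j x hx := by rw [hc i j ⟨x, hx⟩]; exact h.rel i j x hx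

theorem HasU.cocycle (h : HasU D u ψ c) {i j l : ι}
    (hx : (D.W i ∩ D.W j ∩ D.W l).Nonempty) : c i j + act (D.G i j) (c j l) = c i l := by
  obtain ⟨x, ⟨hi, hj⟩, hl⟩ := hx
  have h1 := h.rel i j x ⟨hi, hj⟩
  have h2 := h.rel j l x ⟨hj, hl⟩
  have h3 := h.rel i l x ⟨hi, hl⟩
  rw [h2, map_add] at h1
  have h4 : act (D.G i j) (act (D.G j l) (ψ l x)) = act (D.G i l) (ψ l x) := by
    rw [← act_mul_apply]
    congr 2
    rw [D.G_eq ⟨hi, hj⟩, D.G_eq ⟨hj, hl⟩, D.G_eq ⟨hi, hl⟩]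
    group
  rw [h4] at h1
  rw [h1] at h3
  have h5 : act (D.G i l) (ψ l x) + (c i j + act (D.G i j) (c j l)) =
      act (D.G i l) (ψ l x) + c i l := by
    rw [← h3]; abel
  exact add_left_cancel h5

theorem HasU.add (h : HasU D u ψ c) (h' : HasU D u' ψ' c') :
    HasU D (u + u') (fun i => ψ i + ψ' i) (c + c') where
  loc i z hz := by
    obtain ⟨U, hU, h1⟩ := h.loc i z hz
    obtain ⟨U', hU', h2⟩ := h'.loc i z hz
    refine ⟨U ∩ U', inter_mem hU hU', fun x hx y hy => ?_⟩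
    rw [Pi.add_apply, Pi.add_apply, h1 x hx.1 y hy.1, h2 x hx.2 y hy.2, ← map_add]
    congr 1
    simp only [Pi.add_apply]; abel
  rel i j x hx := by
    simp only [Pi.add_apply, h.rel i j x hx, h'.rel i j x hx, map_add]
    abel

theorem HasU.smul (h : HasU D u ψ c) (l : ℂ) : HasU D (l • u) (fun i => l • ψ i) (l • c) where
  loc i z hz := by
    obtain ⟨U, hU, h1⟩ := h.loc i z hz
    refine ⟨U, hU, fun x hx y hy => ?_⟩
    rw [Pi.smul_apply, Pi.smul_apply, h1 x hx y hy, ← act_smul]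
    congr 1
    simp only [Pi.smul_apply, smul_sub]
  rel i j x hx := by
    simp only [Pi.smul_apply, h.rel i j x hx, smul_add, act_smul]

theorem HasU.sub (h : HasU D u ψ c) (h' : HasU D u' ψ' c') :
    HasU D (u - u') (fun i => ψ i + (-1 : ℂ) • ψ' i) (c - c') := by
  have h1 := h.add (h'.smul (-1))
  simpa [sub_eq_add_neg] using h1

theorem HasU.zero : HasU D (0 : ℂ → ℂ → Fin N → ℂ) (fun i => 0) 0 where
  loc i z hz := ⟨univ, univ_mem, fun x _ y _ => by simp⟩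
  rel i j x hx := by simp

theorem HasU.sum {κ : Type} (s : Finset κ) {F : κ → ℂ → ℂ → Fin N → ℂ}
    {Ψ : κ → ι → ℂ → Fin N → ℂ} {C : κ → Co N ι} (h : ∀ k ∈ s, HasU D (F k) (Ψ k) (C k)) :
    HasU D (∑ k ∈ s, F k) (fun i => ∑ k ∈ s, Ψ k i) (∑ k ∈ s, C k) := by
  classical
  induction s using Finset.induction_on with
  | empty => simp only [Finset.sum_empty]; exact HasU.zero
  | insert k s hk ih =>
    simp only [Finset.sum_insert hk]
    exact (h k (Finset.mem_insert_self _ _)).add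
      (ih fun j hj => h j (Finset.mem_insert_of_mem hj))

/-- coboundaries over smaller pieces -/
theorem HasU.cob_iff (h : HasU D u ψ c) {ι' : Type} (r : ι' → ι) (W' : ι' → Set ℂ)
    (ho : ∀ j, IsOpen (W' j)) (hc : ∀ j, Convex ℝ (W' j)) (hs : ∀ j, W' j ⊆ D.W (r j)) :
    CobOn (⋃ j, W' j) P u ↔ ∃ v : ι' → Fin N → ℂ, ∀ i j, (W' i ∩ W' j).Nonempty →
      c (r i) (r j) = act (D.G (r i) (r j)) (v j) - v i := by
  classical
  rw [cobOn_iff]
  constructor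
  · rintro ⟨f, hf⟩
    have hconst : ∀ k, ∀ x ∈ W' k, ∀ y ∈ W' k, ψ (r k) y + tl (D.T (r k)) f y =
        ψ (r k) x + tl (D.T (r k)) f x := by
      intro k x hx y hy
      refine const_of_loc (f := fun w => ψ (r k) w + tl (D.T (r k)) f w) (ho k) (hc k)
        (fun z hz => ?_) hx hy
      obtain ⟨U, hU, h1⟩ := hf z (mem_iUnion.2 ⟨k, hz⟩)
      obtain ⟨U', hU', h2⟩ := h.loc (r k) z (hs k hz)
      obtain ⟨U'', hU'', h3⟩ := D.tri (r k) z (hs k hz)
      refine ⟨U ∩ U' ∩ U'', inter_mem (inter_mem hU hU') hU'', fun w hw => ?_⟩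
      have h4 := h1 z (mem_of_mem_nhds hU) w hw.1.1
      rw [h2 z (mem_of_mem_nhds hU') w hw.1.2, h3 z (mem_of_mem_nhds hU'') w hw.2,
        act_mul_apply] at h4
      have h5 := congrArg (act (D.T (r k) z)⁻¹) h4
      rw [act_inv_act, map_sub, act_inv_act] at h5
      -- ψ w - ψ z = tl f z - tl f w
      have h6 : ψ (r k) w - ψ (r k) z = tl (D.T (r k)) f z - tl (D.T (r k)) f w := h5
      show ψ (r k) w + tl (D.T (r k)) f w = ψ (r k) z + tl (D.T (r k)) f z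
      have h7 : ψ (r k) w = ψ (r k) z + (tl (D.T (r k)) f z - tl (D.T (r k)) f w) := by
        rw [← h6]; abel
      rw [h7]; abel
    refine ⟨fun k => if hk : (W' k).Nonempty then
      -(ψ (r k) hk.some + tl (D.T (r k)) f hk.some) else 0, fun i j hij => ?_⟩
    obtain ⟨x, hx⟩ := hij
    have hi : (W' i).Nonempty := ⟨x, hx.1⟩
    have hj : (W' j).Nonempty := ⟨x, hx.2⟩
    simp only
    rw [dif_pos hi, dif_pos hj, ← hconst i _ hi.some_mem x hx.1, ← hconst j _ hj.some_mem x hx.2,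
      h.rel (r i) (r j) x ⟨hs i hx.1, hs j hx.2⟩, D.tl_change ⟨hs i hx.1, hs j hx.2⟩, map_neg,
      map_add]
    abel
  · rintro ⟨v, hv⟩
    have hκ : ∀ x, ∃ i : Option ι', x ∈ (⋃ i, W' i) → ∃ j, i = some j ∧ x ∈ W' j := by
      intro x
      by_cases hx : x ∈ ⋃ i, W' i
      · obtain ⟨j, hj⟩ := mem_iUnion.1 hx
        exact ⟨some j, fun _ => ⟨j, rfl, hj⟩⟩
      · exact ⟨none, fun h => absurd h hx⟩
    choose κ hκ using hκ
    let f : ℂ → Fin N → ℂ := fun x => match κ x with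
      | none => 0
      | some j => -act (D.T (r j) x) (ψ (r j) x + v j)
    have hf : ∀ k, ∀ x ∈ W' k, f x = -act (D.T (r k) x) (ψ (r k) x + v k) := by
      intro k x hx
      obtain ⟨j, hj, hxj⟩ := hκ x (mem_iUnion.2 ⟨k, hx⟩)
      have h1 : f x = -act (D.T (r j) x) (ψ (r j) x + v j) := by simp only [f, hj]
      have h2 := hv k j ⟨x, hx, hxj⟩
      have h3 := h.rel (r k) (r j) x ⟨hs k hx, hs j hxj⟩
      have h4 : ψ (r k) x + v k = act (D.G (r k) (r j)) (ψ (r j) x + v j) := by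
        rw [h3, h2, map_add]; abel
      rw [h1, h4, ← act_mul_apply, D.G_eq ⟨hs k hx, hs j hxj⟩, mul_inv_cancel_left]
    refine ⟨f, fun z hz => ?_⟩
    obtain ⟨k, hk⟩ := mem_iUnion.1 hz
    obtain ⟨U', hU', h2⟩ := h.loc (r k) z (hs k hk)
    obtain ⟨U'', hU'', h3⟩ := D.tri (r k) z (hs k hk)
    refine ⟨U' ∩ U'' ∩ W' k, inter_mem (inter_mem hU' hU'') ((ho k).mem_nhds hk),
      fun x hx y hy => ?_⟩
    rw [h2 x hx.1.1 y hy.1.1, hf k x hx.2, hf k y hy.2, h3 x hx.1.2 y hy.1.2, act_mul_apply,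
      map_neg, act_inv_act, map_neg, map_sub, map_add, map_add]
    abel

theorem HasU.cob_iff' (h : HasU D u ψ c) : CobOn (⋃ i, D.W i) P u ↔
    ∃ v : ι → Fin N → ℂ, ∀ i j, (D.W i ∩ D.W j).Nonempty →
      c i j = act (D.G i j) (v j) - v i :=
  h.cob_iff (fun i => i) D.W D.isOpen D.convex fun i => le_rfl

theorem HasU.end_iff [Finite ι] {M : Type} [Finite M] {B : ℕ → M → Set ℂ}
    (ho : ∀ n m, IsOpen (B n m)) (hc : ∀ n m, Convex ℝ (B n m))
    (hB : ∀ m, Antitone fun n => B n m) (h : HasU D u ψ c) :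
    (∃ n, CobOn (⋃ i, D.piece B n i) P u) ↔ ∃ v : ι × M → Fin N → ℂ, ∀ i j, D.meet B i j →
      c i.1 j.1 = act (D.G i.1 j.1) (v j) - v i := by
  obtain ⟨n₀, hn₀⟩ := D.exists_stable B hB
  have key : ∀ n, CobOn (⋃ i, D.piece B n i) P u ↔ ∃ v : ι × M → Fin N → ℂ, ∀ i j,
      (D.piece B n i ∩ D.piece B n j).Nonempty →
        c i.1 j.1 = act (D.G i.1 j.1) (v j) - v i := fun n =>
    h.cob_iff (fun i : ι × M => i.1) (D.piece B n)
      (fun i => (D.isOpen i.1).inter (ho n i.2)) (fun i => (D.convex i.1).inter (hc n i.2))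
      (fun i => inter_subset_left)
  constructor
  · rintro ⟨n, hn⟩
    have h1 : CobOn (⋃ i, D.piece B (max n n₀) i) P u := CobOn.mono hn (by
      refine iUnion_mono fun i => inter_subset_inter le_rfl (hB i.2 (le_max_left _ _)))
    obtain ⟨v, hv⟩ := (key _).1 h1
    exact ⟨v, fun i j hij => hv i j ((hn₀ _ (le_max_right _ _) i j).2 hij)⟩
  · rintro ⟨v, hv⟩
    exact ⟨n₀, (key n₀).2 ⟨v, fun i j hij => hv i j ((hn₀ _ le_rfl i j).1 hij)⟩⟩

/-- the cochain of an integral cocycle is integral up to a coboundary -/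
theorem HasU.int (h : HasU D u ψ c) (hu : ∀ z ∈ ⋃ i, D.W i, ∃ U ∈ 𝓝 z, ∀ x ∈ U, ∀ y ∈ U,
    u x y ∈ stdLat (Fin N)) : ∃ v : ι → Fin N → ℂ, ∀ i j, (D.W i ∩ D.W j).Nonempty →
      c i j - (act (D.G i j) (v j) - v i) ∈ stdLat (Fin N) := by
  classical
  have hf1 : ∀ i, ∀ x ∈ D.W i, ∀ y ∈ D.W i, ψ i y - ψ i x ∈ stdLat (Fin N) := by
    intro i x hx y hy
    refine int_incr (D.isOpen i) (D.convex i) (fun z hz => ?_) hx hy
    obtain ⟨U, hU, h1⟩ := hu z (mem_iUnion.2 ⟨i, hz⟩)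
    obtain ⟨U', hU', h2⟩ := h.loc i z hz
    refine ⟨U ∩ U', inter_mem hU hU', fun x hx y hy => ?_⟩
    have h3 : ψ i y - ψ i x = act (D.T i x)⁻¹ (u x y) := by
      rw [h2 x hx.2 y hy.2, act_inv_act]
    rw [h3]
    exact act_mem_std _ (h1 x hx.1 y hy.1)
  refine ⟨fun i => if hi : (D.W i).Nonempty then - ψ i hi.some else 0, fun i j hij => ?_⟩
  obtain ⟨x, hx⟩ := hij
  have hi : (D.W i).Nonempty := ⟨x, hx.1⟩
  have hj : (D.W j).Nonempty := ⟨x, hx.2⟩
  simp only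
  rw [dif_pos hi, dif_pos hj]
  have h2 : c i j - (act (D.G i j) (-ψ j hj.some) - -ψ i hi.some) =
      (ψ i x - ψ i hi.some) - act (D.G i j) (ψ j x - ψ j hj.some) := by
    rw [h.rel i j x hx, map_sub, map_neg]; abel
  rw [h2]
  exact sub_mem (hf1 i _ hi.some_mem _ hx.1) (act_mem_std _ (hf1 j _ hj.some_mem _ hx.2))

/-- every Čech cocycle comes from a near-diagonal cocycle, integral if the Čech cocycle is -/
theorem realiseU (c : Co N ι) (hc : ∀ i j l,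
    (D.W i ∩ D.W j ∩ D.W l).Nonempty → c i j + act (D.G i j) (c j l) = c i l) :
    ∃ u ψ, HasU D u ψ c ∧ CocOn (⋃ i, D.W i) P u ∧
      ((∀ i j, c i j ∈ stdLat (Fin N)) → ∀ x y, u x y ∈ stdLat (Fin N)) := by
  classical
  have hκ : ∀ x, ∃ i : Option ι, x ∈ (⋃ i, D.W i) → ∃ j, i = some j ∧ x ∈ D.W j := by
    intro x
    by_cases hx : x ∈ ⋃ i, D.W i
    · obtain ⟨j, hj⟩ := mem_iUnion.1 hx
      exact ⟨some j, fun _ => ⟨j, rfl, hj⟩⟩
    · exact ⟨none, fun h => absurd h hx⟩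
  choose κ hκ using hκ
  let ψ : ι → ℂ → Fin N → ℂ := fun i x => match κ x with
    | none => 0
    | some j => c i j
  have hψ : ∀ i j, ∀ x ∈ D.W i ∩ D.W j, ψ i x = act (D.G i j) (ψ j x) + c i j := by
    intro i j x hx
    obtain ⟨l, hl, hxl⟩ := hκ x (mem_iUnion.2 ⟨i, hx.1⟩)
    have h1 : ψ i x = c i l := by simp only [ψ, hl]
    have h2 : ψ j x = c j l := by simp only [ψ, hl]
    rw [h1, h2, ← hc i j l ⟨x, hx, hxl⟩]
    abel
  have hloc : ∀ i, ∀ z ∈ D.W i, ∃ U ∈ 𝓝 z, ∀ x ∈ U, ∀ y ∈ U,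
      D.nd ψ x y = act (D.T i x) (ψ i y - ψ i x) := fun i z hz =>
    ⟨D.W i, (D.isOpen i).mem_nhds hz, fun x hx y hy => Fam.nd_eq hψ hx hy⟩
  refine ⟨D.nd ψ, ψ, ⟨hloc, hψ⟩, fun z hz => ?_, fun hint x y => ?_⟩
  · obtain ⟨i, hi⟩ := mem_iUnion.1 hz
    obtain ⟨U, hU, hT⟩ := D.tri i z hi
    refine ⟨U ∩ D.W i, inter_mem hU ((D.isOpen i).mem_nhds hi), fun x hx y hy t ht => ?_⟩
    show D.nd ψ x y + act (P x y) (D.nd ψ y t) = D.nd ψ x t
    rw [Fam.nd_eq hψ hx.2 hy.2, Fam.nd_eq hψ hy.2 ht.2, Fam.nd_eq hψ hx.2 ht.2,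
      hT x hx.1 y hy.1, act_mul_apply, act_inv_act, ← map_add]
    congr 1
    abel
  · have hint' : ∀ i x, ψ i x ∈ stdLat (Fin N) := by
      intro i x
      simp only [ψ]
      cases κ x with
      | none => exact zero_mem _
      | some j => exact hint i j
    by_cases hxy : ∃ i, x ∈ D.W i ∧ y ∈ D.W i
    · obtain ⟨i, hx, hy⟩ := hxy
      rw [Fam.nd_eq hψ hx hy]
      exact act_mem_std _ (sub_mem (hint' i y) (hint' i x))
    · rw [Fam.nd, dif_neg hxy]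
      exact zero_mem _

end fam

end

end Crest.Agent.R276.Latt_937
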