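import Crest.Agent.R276.Skel_220
import Crest.Agent.R276.W2c_748
import Crest.Agent.R276.W2bd_505

/-!
# Row 276 (S0419), helper748: `LC2` of `Skel_220`
-/

set_option autoImplicit false

noncomputable section

namespace Crest.Agent.R276.Lc2_748

open Crest.Agent.R276.SkelDefs_220 Crest.Agent.R276.SkelGeo_220 Crest.Agent.R276.Skel_220
open Crest.Agent.R276.TowA_849 Crest.Agent.R276.Mod1_987

section one

variable {T L K : Type} [Field T] [Field L] [Field K] [Algebra ℂ T] [Algebra ℂ L] [Algebra ℂ K]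
  [Algebra T L] [Algebra L K] [IsScalarTower ℂ T L] [IsScalarTower ℂ L K] {ρ a r : ℕ}

/-- (C2) on a tower with `TowOK` -/
theorem stm_c2 {W : Tow T L K ρ a r} {N d e₀ s e : ℕ} {σ : Fin s → K} {w : Fin (e + 1) → L}
    (h : TowOK W N d e₀ σ w) :
    Stm W N σ w fun H₁ H₂ _ w _ => ∃ b₂, C2 H₁ H₂ w e₀ b₂ := by
  obtain ⟨X, -⟩ := h.geo
  obtain ⟨b, hb⟩ := W2bd_505.exists_basis_mdl W.ML
  exact ⟨h.H₁, h.H₂, X.mem, h.wmem, _, W2_748.c2 h.H₁ h.H₂ (fun j => ⟨w j, h.wmem j⟩) h.e₀_pos b hb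
    (h.wreg b hb)⟩

end one

/-- **LC2** -/
theorem lc2 (hEv : LEv) : LC2 := by
  intro T L K _ _ _ _ _ _ _ _ _ _ ρ a r W N d e e₀ s σ w h
  exact (hEv T L K ρ a r W N d e e₀ s σ w h).mono fun _ h' => stm_c2 h'

end Crest.Agent.R276.Lc2_748
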