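import Mathlib
import Crest.Agent.R276.LdA_828

/-!
# R276, leaf DESC-LD (helper828): lifting of points

* `exists_lift` : a point of `A` off the zero set of some `a₀` lifts along `φ : A → B`, if `B` is of
  finite type and algebraic over `A`;
* `LB.lift_pt` : the general points of the divisor of `V.DL` lift to the divisor of the
  multisection.
-/

set_option autoImplicit false

noncomputable section

open Set Filter Topology Metric

namespace Crest.Agent.R276.Ld_828

open Crest.Agent.R271.Defs710 Crest.Agent.R271.Rd692 Crest.Agent.R271.Alg255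
open Crest.Agent.R271.Bd741 Crest.Agent.R271.Ho51
open Crest.Agent.R276.BC_986 Crest.Agent.R276.Mod1_987 Crest.Agent.R276.CntDefs_857
open Crest.Agent.R276.BR_590 (VData)
open Crest.Agent.R276.Bcq_828

/-- lifting along an integral extension -/
theorem lift_integral {A B : Type} [CommRing A] [CommRing B] [Algebra ℂ A] [Algebra ℂ B]
    [Algebra A B] [IsScalarTower ℂ A B] [Algebra.IsIntegral A B] (p : A →ₐ[ℂ] ℂ)
    (hp : ∀ a : A, algebraMap A B a = 0 → p a = 0) :
    ∃ q : B →ₐ[ℂ] ℂ, ∀ a : A, q (algebraMap A B a) = p a := by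
  have hsurj : Function.Surjective (p : A →+* ℂ) := fun c => ⟨algebraMap ℂ A c, by
    change p (algebraMap ℂ A c) = c
    rw [p.commutes]; rfl⟩
  have hmax : (RingHom.ker (p : A →+* ℂ)).IsMaximal := RingHom.ker_isMaximal_of_surjective _ hsurj
  obtain ⟨Q, hQ, hQm⟩ := Ideal.exists_ideal_over_maximal_of_isIntegral (S := B)
    (RingHom.ker (p : A →+* ℂ)) (fun a ha => by
      rw [RingHom.mem_ker] at ha ⊢
      exact hp a ha)
  let _ : Field (B ⧸ Q) := Ideal.Quotient.field Q
  -- compatibility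
  have hcomp : ((Ideal.Quotient.mk Q).comp (algebraMap A B) : A →+* B ⧸ Q) =
      (algebraMap ℂ (B ⧸ Q)).comp (p : A →+* ℂ) := by
    ext a
    have h1 : a - algebraMap ℂ A (p a) ∈ RingHom.ker (p : A →+* ℂ) := by
      rw [RingHom.mem_ker]
      change p (a - algebraMap ℂ A (p a)) = 0
      rw [map_sub, p.commutes]
      exact sub_self _
    rw [← hQm, Ideal.mem_comap, map_sub, ← Ideal.Quotient.eq_zero_iff_mem, map_sub,
      sub_eq_zero] at h1
    change Ideal.Quotient.mk Q (algebraMap A B a) = algebraMap ℂ (B ⧸ Q) (p a)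
    rw [h1, ← IsScalarTower.algebraMap_apply]
    rfl
  have hint : Algebra.IsIntegral ℂ (B ⧸ Q) := by
    refine ⟨fun x => ?_⟩
    obtain ⟨b, rfl⟩ := Ideal.Quotient.mk_surjective x
    obtain ⟨P, hPm, hP⟩ := Algebra.IsIntegral.isIntegral (R := A) b
    refine ⟨P.map (p : A →+* ℂ), hPm.map _, ?_⟩
    rw [Polynomial.eval₂_map, ← hcomp, ← Polynomial.hom_eval₂, hP, map_zero]
  have hbij := IsAlgClosed.algebraMap_bijective_of_isIntegral (k := ℂ) (K := B ⧸ Q)
  let e : ℂ ≃ₐ[ℂ] B ⧸ Q := AlgEquiv.ofBijective (Algebra.ofId ℂ (B ⧸ Q)) hbij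
  refine ⟨(e.symm : (B ⧸ Q) →ₐ[ℂ] ℂ).comp (Ideal.Quotient.mkₐ ℂ Q), fun a => ?_⟩
  change e.symm (Ideal.Quotient.mk Q (algebraMap A B a)) = p a
  have h1 := congrArg (fun f : A →+* B ⧸ Q => f a) hcomp
  simp only [RingHom.comp_apply] at h1
  rw [h1]
  rw [AlgEquiv.symm_apply_eq]
  rfl

/-- lifting of general points along an algebraic extension of finite type -/
theorem exists_lift_inj {A B : Type} [CommRing A] [CommRing B] [IsDomain A] [IsDomain B]
    [Algebra ℂ A] [Algebra ℂ B] [Algebra A B] [IsScalarTower ℂ A B] [Algebra.IsAlgebraic A B]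
    (hB : Algebra.FiniteType ℂ B) (hinj : Function.Injective (algebraMap A B)) :
    ∃ a₀ : A, a₀ ≠ 0 ∧ ∀ p : A →ₐ[ℂ] ℂ, p a₀ ≠ 0 →
      ∃ q : B →ₐ[ℂ] ℂ, ∀ a : A, q (algebraMap A B a) = p a := by
  classical
  obtain ⟨S, hS⟩ := hB.out
  choose v hv0 hv using fun b : B =>
    (Algebra.IsAlgebraic.isAlgebraic (R := A) b).exists_integral_multiple
  set y := ∏ b ∈ S, v b with hy
  have hy0 : y ≠ 0 := Finset.prod_ne_zero_iff.2 fun b _ => hv0 b
  let C := integralClosure A B
  have hmem : ∀ b : B, ∃ n : ℕ, (algebraMap A B y) ^ n * b ∈ C := by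
    intro b
    have hb : b ∈ Algebra.adjoin ℂ (S : Set B) := by rw [hS]; trivial
    induction hb using Algebra.adjoin_induction with
    | mem x hx =>
      refine ⟨1, ?_⟩
      rw [pow_one, hy, ← Finset.mul_prod_erase S v hx, map_mul]
      have h1 : algebraMap A B (v x) * x ∈ C := by
        rw [← Algebra.smul_def]; exact hv x
      have h2 : algebraMap A B (∏ x ∈ S.erase x, v x) ∈ C := C.algebraMap_mem _
      have h3 := C.mul_mem h2 h1
      convert h3 using 1
      ring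
    | algebraMap r =>
      refine ⟨0, ?_⟩
      rw [pow_zero, one_mul, IsScalarTower.algebraMap_apply ℂ A B]
      exact C.algebraMap_mem _
    | add x z _ _ hx hz =>
      obtain ⟨n, hn⟩ := hx
      obtain ⟨m, hm⟩ := hz
      refine ⟨n + m, ?_⟩
      have hyC : ∀ k : ℕ, (algebraMap A B y) ^ k ∈ C := fun k => C.pow_mem (C.algebraMap_mem _) k
      have h1 := C.add_mem (C.mul_mem (hyC m) hn) (C.mul_mem (hyC n) hm)
      convert h1 using 1
      rw [pow_add]
      ring
    | mul x z _ _ hx hz =>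
      obtain ⟨n, hn⟩ := hx
      obtain ⟨m, hm⟩ := hz
      refine ⟨n + m, ?_⟩
      have h1 := C.mul_mem hn hm
      convert h1 using 1
      rw [pow_add]
      ring
  refine ⟨y, hy0, fun p hp => ?_⟩
  let _ : Algebra ℂ C := ((algebraMap A C).comp (algebraMap ℂ A)).toAlgebra
  have _ : IsScalarTower ℂ A C := IsScalarTower.of_algebraMap_eq fun _ => rfl
  obtain ⟨q, hq⟩ := lift_integral (A := A) (B := C) p (fun a ha => by
    have h1 : algebraMap A B a = 0 := by
      have := congrArg (fun c : C => (c : B)) ha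
      exact this
    have h2 : a = 0 := hinj (h1.trans (map_zero _).symm)
    rw [h2, map_zero])
  let K := FractionRing B
  have hBK : Function.Injective (algebraMap B K) := IsFractionRing.injective B K
  have _ : IsScalarTower ℂ C K := IsScalarTower.of_algebraMap_eq fun c => by
    rw [IsScalarTower.algebraMap_apply ℂ B K, IsScalarTower.algebraMap_apply ℂ A B]
    rfl
  obtain ⟨q', hq'⟩ := Crest.Agent.R271.Bd741.exists_pt (A := C) (B := B) (K := K)
    (fun a b h => Subtype.ext (hBK h)) (algebraMap A C y) (fun b => by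
      obtain ⟨n, hn⟩ := hmem b
      refine ⟨n, ⟨_, hn⟩, ?_⟩
      have h1 : algebraMap C K (algebraMap A C y) = algebraMap B K (algebraMap A B y) := rfl
      have h2 : algebraMap C K ⟨_, hn⟩ = algebraMap B K ((algebraMap A B y) ^ n * b) := rfl
      rw [h1, h2, map_mul, map_pow, mul_comm]) q (by rw [hq]; exact hp)
  refine ⟨q', fun a => ?_⟩
  have h1 := hq' (algebraMap A B a) (algebraMap A C a) 1 (by
    rw [map_one, mul_one]
    rfl)
  rw [map_one, mul_one, hq] at h1
  exact h1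

/-- lifting of general points along a homomorphism -/
theorem exists_lift {A B : Type} [CommRing A] [CommRing B] [IsDomain B]
    [Algebra ℂ A] [Algebra ℂ B] (φ : A →ₐ[ℂ] B) (hB : Algebra.FiniteType ℂ B)
    [Algebra.IsAlgebraic φ.range B] :
    ∃ a₀ : A, φ a₀ ≠ 0 ∧ ∀ p : A →ₐ[ℂ] ℂ, (∀ a, φ a = 0 → p a = 0) → p a₀ ≠ 0 →
      ∃ q : B →ₐ[ℂ] ℂ, q.comp φ = p := by
  obtain ⟨⟨_, a₀, rfl⟩, h0, h⟩ := exists_lift_inj (A := φ.range) (B := B) hB
    Subtype.val_injective
  refine ⟨a₀, fun h1 => h0 (Subtype.ext h1), fun p hp hpa => ?_⟩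
  have hker : RingHom.ker φ.rangeRestrict.toRingHom ≤ RingHom.ker p.toRingHom := by
    intro a ha
    rw [RingHom.mem_ker] at ha ⊢
    exact hp a (congrArg Subtype.val ha)
  let p' : φ.range →ₐ[ℂ] ℂ := AlgHom.liftOfSurjective φ.rangeRestrict
    φ.rangeRestrict_surjective p hker
  have hp' : ∀ a : A, p' (φ.rangeRestrict a) = p a := fun a =>
    AlgHom.liftOfSurjective_apply _ _ _ _ _
  obtain ⟨q, hq⟩ := h p' (by
    change p' (φ.rangeRestrict a₀) ≠ 0
    rw [hp']
    exact hpa)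
  refine ⟨q, ?_⟩
  ext a
  change q (algebraMap φ.range B (φ.rangeRestrict a)) = p a
  rw [hq, hp']

/-! ### the divisor -/

/-- the coordinates of the divisor are a transcendence basis of its coordinate ring -/
theorem isTranscendenceBasis_mk {d : ℕ} {K : Type} [Field K] [Algebra ℂ K]
    (D : DivModel (d + 1) K) (h0 : D.i₀ = 0) :
    IsTranscendenceBasis ℂ (fun j : Fin d => Ideal.Quotient.mk (dI D) (D.w j.succ)) := by
  obtain ⟨j₀, h1, h2⟩ := FKB1_594.trdeg_quotient D.w D.etale (dI D) (dI_height D)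
  have hj₀ : j₀ = 0 := by
    by_contra hne
    have h3 := h1.ne_zero ⟨0, fun h => hne h.symm⟩
    apply h3
    change Ideal.Quotient.mk (dI D) (D.w 0) = 0
    rw [← h0, Ideal.Quotient.eq_zero_iff_mem]
    exact Ideal.mem_span_singleton_self _
  subst hj₀
  have h3 : AlgebraicIndependent ℂ (fun j : Fin d => Ideal.Quotient.mk (dI D) (D.w j.succ)) :=
    h1.comp (fun j : Fin d => (⟨j.succ, Fin.succ_ne_zero j⟩ : {i : Fin (d + 1) // i ≠ 0}))
      (fun i j h => Fin.succ_injective _ (congrArg Subtype.val h))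
  have h4 : Algebra.trdeg ℂ (D.A ⧸ dI D) = d := by
    have h5 : Algebra.trdeg ℂ (D.A ⧸ dI D) + 1 = (d : Cardinal) + 1 := by
      rw [h2]; push_cast; rfl
    exact (Cardinal.add_one_inj).1 h5
  refine h3.isTranscendenceBasis_of_trdeg_le_of_finite ?_
  rw [h4, Cardinal.mk_fin]

/-- every element which is not divisible by `t` divides, modulo `t`, a nonzero polynomial in the
coordinates of the divisor -/
theorem exists_poly_dvd {d : ℕ} {K : Type} [Field K] [Algebra ℂ K] (D : DivModel (d + 1) K)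
    (h0 : D.i₀ = 0) {x : D.A} (hx : ¬ D.t ∣ x) : ∃ (p : MvPolynomial (Fin d) ℂ) (y : D.A), p ≠ 0 ∧
      D.t ∣ MvPolynomial.aeval (fun j : Fin d => D.w j.succ) p - x * y := by
  have htb := isTranscendenceBasis_mk D h0
  have halg := htb.isAlgebraic
  have hx0 : Ideal.Quotient.mk (dI D) x ≠ 0 := by
    rw [Ne, Ideal.Quotient.eq_zero_iff_mem]
    intro h
    exact hx (Ideal.mem_span_singleton.1 h)
  obtain ⟨⟨r, hr⟩, hr0, q, hq⟩ := (halg.isAlgebraic (Ideal.Quotient.mk (dI D) x)).exists_nonzero_dvd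
    (mem_nonZeroDivisors_of_ne_zero hx0)
  obtain ⟨y, rfl⟩ := Ideal.Quotient.mk_surjective q
  rw [Algebra.adjoin_range_eq_range_aeval] at hr
  obtain ⟨p, hp⟩ := hr
  refine ⟨p, y, fun hp0 => hr0 (Subtype.ext ?_), ?_⟩
  · have hp' : MvPolynomial.aeval (fun j : Fin d => Ideal.Quotient.mk (dI D) (D.w j.succ)) p = r :=
      hp
    rw [hp0, map_zero] at hp'
    exact hp'.symm
  · have h1 : Ideal.Quotient.mk (dI D)
        (MvPolynomial.aeval (fun j : Fin d => D.w j.succ) p - x * y) = 0 := by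
      rw [map_sub, map_mul]
      have h2 : Ideal.Quotient.mk (dI D)
          (MvPolynomial.aeval (fun j : Fin d => D.w j.succ) p) = r := by
        have h3 := MvPolynomial.comp_aeval_apply (fun j : Fin d => D.w j.succ)
          (Ideal.Quotient.mkₐ ℂ (dI D)) p
        exact h3.trans hp
      rw [h2, sub_eq_zero]
      exact hq
    rw [Ideal.Quotient.eq_zero_iff_mem] at h1
    exact Ideal.mem_span_singleton.1 h1

namespace LB

variable {d a : ℕ} {T L : Type} [Field T] [Field L] [Algebra ℂ T] [Algebra ℂ L] [Algebra T L]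
  [IsScalarTower ℂ T L] {R : RMdl T L (d + 1) a} {V : VData (d + 1) a T L} {Lc : Type}
  [Field Lc] [Algebra ℂ Lc] [Algebra T Lc] {D : DivModel (d + 1) Lc} {j : V.D.A →ₐ[ℂ] D.A}
  {F : Finset Lc} {FL : Finset L} (P : LB R V D j F FL) {c : Fin a → ℂ} (hM : MS V D j c)

/-- the map of the coordinate rings of the divisors -/
def φ : V.DL.A →ₐ[ℂ] P.bd.X.M.B := P.bd.X.ι.comp (j.comp V.ι)

include hM in
lemma φ_t : P.φ V.DL.t = 0 := by
  change P.bd.X.ι (j (V.ι V.DL.t)) = 0
  rw [V.ram, map_mul, map_pow, ← hM.t_eq, P.bd.X.ι_eq_zero_iff]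
  exact (dvd_pow_self _ V.e_ne).mul_right _

include hM in
lemma φ_w (i : Fin d) : P.φ (V.DL.w (Equiv.swap 0 V.DL.i₀ i.succ)) = P.bd.X.M.z i := by
  have hne : Equiv.swap 0 V.DL.i₀ i.succ ≠ V.DL.i₀ := by
    intro h
    have h1 := congrArg (Equiv.swap 0 V.DL.i₀) h
    rw [Equiv.swap_apply_self, Equiv.swap_apply_right] at h1
    exact Fin.succ_ne_zero i h1
  change P.bd.X.ι (j (V.ι _)) = _
  rw [← V.base _ hne, ← hM.w_eq, P.bd.X.ι_w]

include hM in
/-- the kernel is the ideal of the divisor -/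
theorem φ_eq_zero_iff (x : V.DL.A) : P.φ x = 0 ↔ V.DL.t ∣ x := by
  constructor
  · intro hx
    by_contra hnd
    have hnd' : ¬ (normD V.DL).t ∣ x := by rw [normD_t]; exact hnd
    obtain ⟨p, y, hp0, q, hq⟩ : ∃ (p : MvPolynomial (Fin d) ℂ) (y : V.DL.A), p ≠ 0 ∧ V.DL.t ∣
        MvPolynomial.aeval (fun i : Fin d => V.DL.w (Equiv.swap 0 V.DL.i₀ i.succ)) p - x * y := by
      obtain ⟨p, y, h1, h2⟩ := exists_poly_dvd (normD V.DL) rfl hnd'
      rw [normD_t] at h2
      exact ⟨p, y, h1, h2⟩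
    have h1 := congrArg P.φ hq
    rw [map_sub, map_mul, hx, zero_mul, sub_zero, map_mul, P.φ_t hM, zero_mul] at h1
    have h2 := MvPolynomial.comp_aeval_apply
      (fun i : Fin d => V.DL.w (Equiv.swap 0 V.DL.i₀ i.succ)) P.φ p
    rw [h1] at h2
    have h3 : (fun i : Fin d => P.φ (V.DL.w (Equiv.swap 0 V.DL.i₀ i.succ))) = P.bd.X.M.z := by
      funext i
      exact P.φ_w hM i
    rw [h3] at h2
    apply hp0
    apply P.bd.X.M.az_injective
    rw [map_zero]
    exact h2.symm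
  · rintro ⟨y, rfl⟩
    rw [map_mul, P.φ_t hM, zero_mul]

include hM in
lemma isAlgebraic_φ : Algebra.IsAlgebraic P.φ.range P.bd.X.M.B := by
  let Pw := MvPolynomial (Fin d) ℂ
  let i1 : Algebra Pw P.bd.X.M.B := (az P.bd.X.M.z).toAlgebra
  have i2 : Algebra.Etale Pw P.bd.X.M.B := P.bd.X.M.het
  have halg := MsecB_231.isAlgebraic_of_etale Pw P.bd.X.M.B
  have hmem : ∀ p : Pw, az P.bd.X.M.z p ∈ P.φ.range := by
    intro p
    have h1 := MvPolynomial.comp_aeval_apply
      (fun i : Fin d => V.DL.w (Equiv.swap 0 V.DL.i₀ i.succ)) P.φ p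
    have h3 : (fun i : Fin d => P.φ (V.DL.w (Equiv.swap 0 V.DL.i₀ i.succ))) = P.bd.X.M.z := by
      funext i
      exact P.φ_w hM i
    rw [h3] at h1
    exact ⟨_, h1⟩
  refine ⟨fun x => ?_⟩
  have h1 := halg.isAlgebraic x
  exact h1.ringHom_of_comp_eq ((az P.bd.X.M.z : Pw →+* P.bd.X.M.B).codRestrict P.φ.range hmem)
    (RingHom.id _) (fun p q h => P.bd.X.M.az_injective (congrArg Subtype.val h)) rfl

include hM in
/-- **the general points of the divisor of `V.DL` lift** to the divisor of the multisection -/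
theorem lift_pt : ∃ g₀ : V.DL.A, ¬ V.DL.t ∣ g₀ ∧ ∀ p : V.DL.A →ₐ[ℂ] ℂ, p V.DL.t = 0 → p g₀ ≠ 0 →
    ∃ y : P.bd.E, ((P.bd.X.pA y).comp j).comp V.ι = p := by
  have := P.isAlgebraic_φ hM
  obtain ⟨g₀, h0, h⟩ := exists_lift P.φ P.bd.X.M.ft
  refine ⟨g₀, fun hd => h0 ((P.φ_eq_zero_iff hM _).2 hd), fun p hp hpg => ?_⟩
  obtain ⟨y, hy⟩ := h p (fun x hx => by
    obtain ⟨q, rfl⟩ := (P.φ_eq_zero_iff hM x).1 hx
    rw [map_mul, hp, zero_mul]) hpg
  exact ⟨y, hy⟩

end LB

end Crest.Agent.R276.Ld_828
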