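import Crest.Agent.R276.PackB_454
import Crest.Agent.R276.HsC_817
import Crest.Agent.R266.Osgood

/-!
# R276, IPC-STEP (helper454): LOC, part A

`Pieces` : for every `s` a Hilbert space `Lh s` with the data of 817's `HsB` (`Fix`, `Types`), a class
space `W s` with lattice and near-diagonal transports `τ`, and near every `z` trivialisations
`T x : Lh (σ x) → Lh z` under which the types become a `HsC.Family`.
`Pieces.hfam : HFam m S n`.
-/

set_option autoImplicit false

noncomputable section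

open Set Filter Topology MeasureTheory Matrix
open scoped ContDiff
open Crest.Agent.R271.Ho51
open Crest.Agent.R276.Ipc735 Crest.Agent.R276.Lat_348 Crest.Agent.R276.Flag_454
open Crest.Agent.R276.HsB_817 Crest.Agent.R276.HsC_817

namespace Crest.Agent.R276.Step_454

local notation "⟪" x ", " y "⟫" => inner ℂ x y

/-- families of Hilbert spaces with class spaces -/
structure Pieces (m : ℕ) (S : Type) [TopologicalSpace S] [RDom m S] (n : ℕ) where
  /-- class space (`H¹` parabolic of the fibre) -/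
  W : S → Type
  [wn : ∀ s, NormedAddCommGroup (W s)]
  [ws : ∀ s, NormedSpace ℂ (W s)]
  /-- `L²` forms on the fibre -/
  Lh : S → Type
  [ln : ∀ s, NormedAddCommGroup (Lh s)]
  [li : ∀ s, InnerProductSpace ℂ (Lh s)]
  [lc : ∀ s, CompleteSpace (Lh s)]
  D : ∀ s, Fix (Lh s) (W s)
  π : ∀ s, ℕ → Lh s →L[ℂ] Lh s
  ty : ∀ s, ∃ c, Types (D s) n (π s) c
  /-- the lattice -/
  L : ∀ s, AddSubgroup (W s)
  lat : ∀ s, IsCLat (L s)
  /-- transports -/
  τ : ∀ s s', W s' →ₗ[ℂ] W s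
  idt : ∀ s v, τ s s v = v
  coc : ∀ z, ∃ U ∈ 𝓝 z, ∀ s ∈ U, ∀ s' ∈ U, ∀ s'' ∈ U, ∀ v, τ s s' (τ s' s'' v) = τ s s'' v
  int : ∀ z, ∃ U ∈ 𝓝 z, ∀ s ∈ U, ∀ s' ∈ U, ∀ v ∈ L s', τ s s' v ∈ L s

attribute [instance] Pieces.wn Pieces.ws Pieces.ln Pieces.li Pieces.lc

namespace Pieces

variable {m n : ℕ} {S : Type} [TopologicalSpace S] [RDom m S] (A : Pieces m S n)

/-- local trivialisation at `z` (everything in the chart `σ = (ch z).symm`) -/
structure Triv (z : S) where
  U : Set (Fin m → ℂ)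
  op : IsOpen U
  mem : cp z ∈ U
  /-- the trivialisation -/
  T : ∀ x : Fin m → ℂ, A.Lh ((ch z).symm x) →L[ℂ] A.Lh z
  bij : ∀ x ∈ U, Function.Bijective (T x)
  form : ∀ x ∈ U, ∀ u v, ⟪(A.D z).β (T x u), T x v⟫ = ⟪(A.D ((ch z).symm x)).β u, v⟫
  zc : ∀ x ∈ U, ∀ u, T x u ∈ (A.D z).Zc ↔ u ∈ (A.D ((ch z).symm x)).Zc
  cl : ∀ x ∈ U, ∀ u ∈ (A.D ((ch z).symm x)).Zc,
    (A.D z).clL (T x u) = A.τ z ((ch z).symm x) ((A.D ((ch z).symm x)).clL u)
  /-- the types on the fixed space `Lh z` -/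
  π' : (Fin m → ℂ) → ℕ → A.Lh z →L[ℂ] A.Lh z
  inter : ∀ x ∈ U, ∀ P ≤ n, ∀ u, π' x P (T x u) = T x (A.π ((ch z).symm x) P u)
  fam : Family (A.D z) n π' U

instance (s : S) : FiniteDimensional ℂ (A.W s) := (A.lat s).finiteDimensional

/-- the flat form -/
def B (s : S) : A.W s →ₗ⋆[ℂ] A.W s →ₗ[ℂ] ℂ :=
  LinearMap.mk₂'ₛₗ (starRingEnd ℂ) (RingHom.id ℂ) (fun u v => (A.D s).SW u v)
    (fun a b w => (A.D s).SW_add_left w a b)
    (fun r a w => by simp [Fix.SW, mul_comm])
    (fun w a b => (A.D s).SW_add_right w a b)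
    (fun r w a => (A.D s).SW_smul_right w a r)

@[simp] lemma B_apply (s : S) (u v : A.W s) : A.B s u v = (A.D s).SW u v := rfl

/-- the filtration -/
def F (s : S) (p : ℕ) : Submodule ℂ (A.W s) := HsB_817.F (A.D s) n (A.π s) p

variable {A}

namespace Triv

variable {z : S} (t : A.Triv z)

lemma qop_T {x : Fin m → ℂ} (hx : x ∈ t.U) (P : ℕ) (u : A.Lh ((ch z).symm x)) :
    qop n (t.π' x) P (t.T x u) = t.T x (qop n (A.π ((ch z).symm x)) P u) := by
  rw [qop_apply, qop_apply, map_sum]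
  refine Finset.sum_congr rfl fun Q hQ => t.inter x hx Q ?_ u
  have := (Finset.mem_Ico.1 hQ).2
  omega

/-- transport of the filtration -/
lemma F_eq {x : Fin m → ℂ} (hx : x ∈ t.U) (P : ℕ) :
    HsB_817.F (A.D z) n (t.π' x) P = (A.F ((ch z).symm x) P).map (A.τ z ((ch z).symm x)) := by
  ext w
  rw [mem_F, Submodule.mem_map]
  constructor
  · rintro ⟨v, hv, hq, rfl⟩
    obtain ⟨u, rfl⟩ := (t.bij x hx).2 v
    have hu := (t.zc x hx u).1 hv
    rw [t.qop_T hx] at hq
    have hq' := (t.bij x hx).1 hq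
    exact ⟨(A.D _).clL u, mem_F.2 ⟨u, hu, hq', rfl⟩, (t.cl x hx u hu).symm⟩
  · rintro ⟨w, hw, rfl⟩
    obtain ⟨u, hu, hq, rfl⟩ := mem_F.1 hw
    exact ⟨t.T x u, (t.zc x hx u).2 hu, by rw [t.qop_T hx, hq], t.cl x hx u hu⟩

lemma clL_surj (s : S) (w : A.W s) : ∃ u ∈ (A.D s).Zc, (A.D s).clL u = w :=
  ⟨(A.D s).xL w, (A.D s).xL_mem w, (A.D s).clL_xL w⟩

/-- the form is preserved by `τ z s` -/
lemma form_τ {x : Fin m → ℂ} (hx : x ∈ t.U) (a b : A.W ((ch z).symm x)) :
    (A.D z).SW (A.τ z ((ch z).symm x) a) (A.τ z ((ch z).symm x) b) =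
      (A.D ((ch z).symm x)).SW a b := by
  obtain ⟨u, hu, rfl⟩ := clL_surj _ a
  obtain ⟨v, hv, rfl⟩ := clL_surj _ b
  rw [← t.cl x hx u hu, ← t.cl x hx v hv, (A.D z).SW_clL ((t.zc x hx u).2 hu) ((t.zc x hx v).2 hv),
    t.form x hx, (A.D _).SW_clL hu hv]

lemma ev_U : ∀ᶠ x in 𝓝 (cp z), x ∈ t.U := t.op.mem_nhds t.mem

lemma ev_U' : ∀ᶠ s in 𝓝 z, cp s ∈ t.U ∧ (ch z).symm (cp s) = s :=
  ((cp_cont.continuousAt (x := z)).eventually t.ev_U).and (eventually_symm_cp z)

end Triv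

/-- `c` is complex differentiable if all its linear functionals are analytic -/
lemma analytic_of_functionals {W : Type*} [NormedAddCommGroup W] [NormedSpace ℂ W]
    [FiniteDimensional ℂ W] {c : (Fin m → ℂ) → W} {x : Fin m → ℂ}
    (h : ∀ l : W →ₗ[ℂ] ℂ, AnalyticAt ℂ (fun y => l (c y)) x) : AnalyticAt ℂ c x := by
  let b := Module.finBasis ℂ W
  have h1 : c = fun y => ∑ i, (b.coord i (c y)) • b i := by
    funext y
    exact (b.sum_repr (c y)).symm
  rw [h1]
  refine Finset.analyticAt_fun_sum _ fun i _ => ?_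
  exact (h (b.coord i)).smul analyticAt_const

/-- **the Hodge family** -/
def hfam (A : Pieces m S n) (tr : ∀ z, Nonempty (A.Triv z)) : HFam m S n where
  W := A.W
  L := A.L
  lat := A.lat
  τ := A.τ
  idt := A.idt
  coc := A.coc
  int := A.int
  B := A.B
  herm s u v := by
    rw [B_apply, B_apply, ← starRingEnd_apply, (A.D s).SW_symm]
  flat z := by
    obtain ⟨t⟩ := tr z
    obtain ⟨U₁, hU₁, h₁⟩ := A.coc z
    have h2 : ∀ᶠ s in 𝓝 z, ∀ u v, (A.D z).SW (A.τ z s u) (A.τ z s v) = (A.D s).SW u v := by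
      filter_upwards [t.ev_U'] with s hs u v
      have := t.form_τ (x := cp s) hs.1
      rw [hs.2] at this
      exact this u v
    refine ⟨U₁ ∩ {s | ∀ u v, (A.D z).SW (A.τ z s u) (A.τ z s v) = (A.D s).SW u v},
      inter_mem hU₁ h2, fun s hs s' hs' u v => ?_⟩
    rw [B_apply, B_apply]
    have hz := mem_of_mem_nhds hU₁
    rw [← hs.2 (A.τ s s' u) (A.τ s s' v), h₁ z hz s hs.1 s' hs'.1, h₁ z hz s hs.1 s' hs'.1]
    exact hs'.2 u v
  F := A.F
  top s := by
    obtain ⟨c, hc⟩ := A.ty s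
    exact hc.F_zero
  bot s := by
    obtain ⟨c, hc⟩ := A.ty s
    exact hc.F_last (Nat.lt_succ_self n)
  anti s p := by
    obtain ⟨c, hc⟩ := A.ty s
    exact hc.F_anti (Nat.le_succ p)
  pos s p v hv h0 hne := by
    obtain ⟨c, hc⟩ := A.ty s
    rcases Nat.lt_or_ge n p with hp | hp
    · exfalso
      have : A.F s p = ⊥ := hc.F_last hp
      rw [this] at hv
      exact hne ((Submodule.mem_bot ℂ).1 hv)
    · exact hc.flag_pos hp hv h0 hne
  hol z p := by
    obtain ⟨t⟩ := tr z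
    obtain ⟨V, f, hVo, hzV, hVU, hf, hspan⟩ := t.fam.frames t.mem p
    refine ⟨_, fun i s => f i (cp s), ?_, ?_⟩
    · intro i l
      have h1 : AnalyticAt ℂ (fun x => l (f i x)) (cp z) := by
        refine Crest.Agent.R266.SCV.analyticOnNhd_of_differentiableOn hVo (fun x hx => ?_) _ hzV
        exact ((LinearMap.toContinuousLinearMap l).differentiableAt.comp x
          ((hf i x hx).differentiableAt (hVo.mem_nhds hx))).differentiableWithinAt
      refine AnalyticAt.congr h1 ?_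
      filter_upwards [eventually_cp_symm z] with x hx
      simp only [Function.comp_apply, hx]
    · have hV : ∀ᶠ s in 𝓝 z, cp s ∈ V :=
        (cp_cont.continuousAt (x := z)).eventually (hVo.mem_nhds hzV)
      filter_upwards [t.ev_U', hV] with s hs hsV
      obtain ⟨h1, h2⟩ := hspan (cp s) hsV
      refine ⟨h1, ?_⟩
      have h3 := t.F_eq hs.1 p
      rw [hs.2] at h3
      rw [← h3, ← h2]
  trans z p c hc hmem j l hl := by
    obtain ⟨t⟩ := tr z
    have hcA : AnalyticAt ℂ (fun x => c ((ch z).symm x)) (cp z) :=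
      analytic_of_functionals fun l => hc l
    have hmem' : ∀ᶠ x in 𝓝 (cp z), c ((ch z).symm x) ∈ HsB_817.F (A.D z) n (t.π' x) (p + 1) := by
      filter_upwards [eventually_symm hmem, t.ev_U] with x hx hxU
      rw [t.F_eq hxU]
      exact hx
    have key : ∀ v, fderiv ℂ (fun x => c ((ch z).symm x)) (cp z) v ∈
        HsB_817.F (A.D z) n (t.π' (cp z)) p := fun v =>
      t.fam.deriv_mem t.mem p hmem' hcA.differentiableAt v
    have hF0 : HsB_817.F (A.D z) n (t.π' (cp z)) p = A.F z p := by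
      rw [t.F_eq t.mem, symm_cp']
      have : A.τ z z = LinearMap.id := LinearMap.ext (A.idt z)
      rw [this, Submodule.map_id]
    rw [dz, D_eq (isCh_ch z) (mem_ch z)]
    have h1 : DifferentiableAt ℂ ((fun s => l (c s)) ∘ (ch z).symm) (cp z) :=
      AnalyticAt.differentiableAt (hc l)
    rw [wz_of_complex h1]
    have h2 : HasFDerivAt ((fun s => l (c s)) ∘ (ch z).symm)
        ((LinearMap.toContinuousLinearMap l).comp (fderiv ℂ (fun x => c ((ch z).symm x)) (cp z)))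
        (cp z) :=
      (LinearMap.toContinuousLinearMap l).hasFDerivAt.comp (cp z)
        hcA.differentiableAt.hasFDerivAt
    rw [h2.fderiv]
    have h3 := key (Pi.single j 1)
    rw [hF0] at h3
    exact hl _ h3

end Pieces

end Crest.Agent.R276.Step_454
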