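import Crest.Agent.R276.LocA_454
import Crest.Agent.R276.HsD_817

/-!
# R276, IPC-STEP (helper454): LOC, part B

`TopPieces` : the top piece in terms of `L²` elements.  `TopPieces.topData : TopData Q V (A.hfam tr)`.
`ActPieces` : the action of the automorphisms; `TopPieces.locStep : LocStep Q V`.
-/

set_option autoImplicit false

noncomputable section

open Set Filter Topology MeasureTheory Matrix
open scoped ContDiff
open Crest.Agent.R271.Ho51
open Crest.Agent.R276.Ipc735 Crest.Agent.R276.Lat_348 Crest.Agent.R276.Flag_454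
open Crest.Agent.R276.HsB_817 Crest.Agent.R276.HsC_817 Crest.Agent.R276.HsD_817

namespace Crest.Agent.R276.Step_454

local notation "⟪" x ", " y "⟫" => inner ℂ x y

/-- linear forms on `W` are given by the flat form -/
lemma exists_SW {L W : Type*} [NormedAddCommGroup L] [InnerProductSpace ℂ L]
    [NormedAddCommGroup W] [NormedSpace ℂ W] [CompleteSpace L] [FiniteDimensional ℂ W]
    {D : Fix L W} {n : ℕ} {π : ℕ → L →L[ℂ] L} {c : ℝ} (T : Types D n π c) (l : W →ₗ[ℂ] ℂ) :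
    ∃ w, ∀ v, l v = D.SW w v := by
  let B : W →ₗ⋆[ℂ] (W →ₗ[ℂ] ℂ) :=
    LinearMap.mk₂'ₛₗ (starRingEnd ℂ) (RingHom.id ℂ) (fun u v => D.SW u v)
      (fun a b w => D.SW_add_left w a b)
      (fun r a w => by simp [Fix.SW, mul_comm])
      (fun w a b => D.SW_add_right w a b)
      (fun r w a => D.SW_smul_right w a r)
  have hB : ∀ u v, B u v = D.SW u v := fun _ _ => rfl
  -- the range of B is a subspace of the dual with zero annihilator
  let R : Submodule ℂ (Module.Dual ℂ W) :=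
    { carrier := Set.range B
      add_mem' := by
        rintro _ _ ⟨a, rfl⟩ ⟨b, rfl⟩
        exact ⟨a + b, map_add B a b⟩
      zero_mem' := ⟨0, map_zero B⟩
      smul_mem' := by
        rintro c _ ⟨a, rfl⟩
        exact ⟨(starRingEnd ℂ) c • a, by rw [map_smulₛₗ, Complex.conj_conj]⟩ }
  have hR : R = ⊤ := by
    have h1 : R.dualCoannihilator = ⊥ := by
      rw [eq_bot_iff]
      intro v hv
      rw [Submodule.mem_dualCoannihilator] at hv
      rw [Submodule.mem_bot]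
      exact T.SW_nondeg fun w' => hv (B w') ⟨w', rfl⟩
    have h2 := Subspace.dualCoannihilator_dualAnnihilator_eq (W := R)
    rw [h1, Submodule.dualAnnihilator_bot] at h2
    exact h2.symm
  have hl : l ∈ R := by rw [hR]; exact Submodule.mem_top
  obtain ⟨w, hw⟩ := hl
  exact ⟨w, fun v => by rw [← hB, hw]⟩

variable {m k N w : ℕ} {S : Type} [TopologicalSpace S] [RDom m S]

/-- the top piece -/
structure TopPieces (A : Pieces m S (w + 1)) (Q : Punc S k) (V : VHS (m + 1) (Tot Q) N w) where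
  /-- the element of `L²` represented by `f dx` -/
  emb : ∀ s, (ℂ → Fin N → ℂ) → A.Lh s
  add : ∀ s f g, (V.res s).Top f → (V.res s).Top g → emb s (f + g) = emb s f + emb s g
  smul : ∀ s (c : ℂ) f, (V.res s).Top f → emb s (c • f) = c • emb s f
  zc : ∀ s f, (V.res s).Top f → emb s f ∈ (A.D s).Zc
  ty : ∀ s f, (V.res s).Top f → A.π s (w + 1) (emb s f) = emb s f
  surj : ∀ s, ∀ u ∈ (A.D s).Zc, A.π s (w + 1) u = u → ∃ f, (V.res s).Top f ∧ emb s f = u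
  norm : ∀ s f, (V.res s).Top f → (-1 : ℝ) ^ (w + 1) * (⟪(A.D s).β (emb s f), emb s f⟫).re =
    ∫ z in ((Q.A s : Set ℂ)ᶜ), (V.res s).nsq f z
  hol : ∀ z, ∃ t : A.Triv z, ∀ f : S → ℂ → Fin N → ℂ, (∀ᶠ s in 𝓝 z, (V.res s).Top (f s)) →
    (∀ᶠ s in 𝓝 z, HolFib V f s) → ∀ v : A.W z, ∃ ζ ∈ (A.D z).Zc, (A.D z).clL ζ = v ∧
      AnalyticAt ℂ (fun x => ⟪(A.D z).β ζ, t.T x (emb ((ch z).symm x) (f ((ch z).symm x)))⟫) (cp z)
  hol' : ∀ z x₁ (hx : x₁ ∉ Q.A z), ∃ t : A.Triv z, ∀ f : S → ℂ → Fin N → ℂ,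
    (∀ᶠ s in 𝓝 z, (V.res s).Top (f s)) →
    (∀ᶠ x in 𝓝 (cp z), DifferentiableAt ℂ
      (fun x => t.T x (emb ((ch z).symm x) (f ((ch z).symm x)))) x) →
    HolAt (lV V.P (sec f) (Tot.mk Q z x₁ hx)) (Tot.mk Q z x₁ hx)

namespace TopPieces

variable {A : Pieces m S (w + 1)} {Q : Punc S k} {V : VHS (m + 1) (Tot Q) N w}
  (T : TopPieces A Q V)

/-- the class of `f dx` -/
def tc (s : S) (f : ℂ → Fin N → ℂ) : A.W s := (A.D s).clL (T.emb s f)

lemma tc_def (s : S) (f : ℂ → Fin N → ℂ) : T.tc s f = (A.D s).clL (T.emb s f) := rfl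

lemma surj_aux (s : S) (v : A.W s) (hv : v ∈ HsB_817.F (A.D s) (w + 1) (A.π s) (w + 1)) :
    ∃ f, (V.res s).Top f ∧ T.tc s f = v := by
  rw [mem_F_top] at hv
  obtain ⟨u, hu, hty, rfl⟩ := hv
  obtain ⟨f, hf, rfl⟩ := T.surj s u hu hty
  exact ⟨f, hf, rfl⟩

lemma hol_aux (s₀ : S) (f : S → ℂ → Fin N → ℂ) (hf : ∀ᶠ s in 𝓝 s₀, (V.res s).Top (f s))
    (hh : ∀ᶠ s in 𝓝 s₀, HolFib V f s) (l : A.W s₀ →ₗ[ℂ] ℂ) :
    HolAt (fun s => l (A.τ s₀ s (T.tc s (f s)))) s₀ := by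
  obtain ⟨t, ht⟩ := T.hol s₀
  obtain ⟨c, hc⟩ := A.ty s₀
  obtain ⟨v, hv⟩ := exists_SW hc l
  obtain ⟨ζ, hζ, hcl, han⟩ := ht f hf hh v
  refine AnalyticAt.congr han ?_
  filter_upwards [t.ev_U, eventually_symm hf] with x hx hfx
  have h1 := t.cl x hx _ (T.zc _ _ hfx)
  have h2 := (t.zc x hx _).2 (T.zc _ _ hfx)
  show _ = l (A.τ s₀ ((ch s₀).symm x) (T.tc ((ch s₀).symm x) (f ((ch s₀).symm x))))
  rw [hv, T.tc_def, ← h1, ← hcl, (A.D s₀).SW_clL hζ h2]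

lemma hol'_aux (s₀ : S) (f : S → ℂ → Fin N → ℂ) (hf : ∀ᶠ s in 𝓝 s₀, (V.res s).Top (f s))
    (hh : ∀ l : A.W s₀ →ₗ[ℂ] ℂ, HolAt (fun s => l (A.τ s₀ s (T.tc s (f s)))) s₀) :
    ∀ᶠ s in 𝓝 s₀, HolFib V f s := by
  -- the class in the fixed space `W s₀`, in the chart at `s₀`
  set c : S → A.W s₀ := fun s => A.τ s₀ s (T.tc s (f s)) with hc
  have hcA : AnalyticAt ℂ (fun x => c ((ch s₀).symm x)) (cp s₀) :=
    Pieces.analytic_of_functionals fun l => hh l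
  have hcE : ∀ᶠ s in 𝓝 s₀, AnalyticAt ℂ (fun x => c ((ch s₀).symm x)) (cp s) :=
    (cp_cont.continuousAt (x := s₀)).eventually hcA.eventually_analyticAt
  obtain ⟨U₀, hU₀, hcoc⟩ := A.coc s₀
  have hU₀' : ∀ᶠ s in 𝓝 s₀, U₀ ∈ 𝓝 s := eventually_mem_nhds_iff.2 hU₀
  have hsrc : ∀ᶠ s in 𝓝 s₀, s ∈ (ch s₀).source := (ch s₀).open_source.mem_nhds (mem_ch s₀)
  filter_upwards [hcE, hf.eventually_nhds, hU₀', hsrc] with z hz hfz hUz hsz
  intro q hq
  obtain ⟨⟨q1, x₁⟩, hx₁⟩ := q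
  obtain rfl : q1 = z := hq
  obtain ⟨t, ht⟩ := T.hol' q1 x₁ hx₁
  refine ht f hfz ?_
  -- the class seen at `q1`
  have hs₀ : s₀ ∈ U₀ := mem_of_mem_nhds hU₀
  have hq1 : q1 ∈ U₀ := mem_of_mem_nhds hUz
  have h1 : ∀ᶠ s in 𝓝 q1, A.τ q1 s (T.tc s (f s)) = A.τ q1 s₀ (c s) := by
    filter_upwards [hUz] with s hs
    exact (hcoc q1 hq1 s₀ hs₀ s hs _).symm
  -- change of chart
  have h2 : (fun x => c ((ch q1).symm x)) =ᶠ[𝓝 (cp q1)] fun x => c ((ch s₀).symm x) := by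
    have h3 : ∀ᶠ s in 𝓝 q1, (ch s₀).symm (cp s) = s := by
      filter_upwards [(ch s₀).open_source.mem_nhds hsz] with s hs
      have := (isCh_ch s₀).symm_cp hs
      exact this
    filter_upwards [eventually_symm h3, eventually_cp_symm q1] with x hx hx'
    rw [hx'] at hx
    rw [hx]
  have h4 : AnalyticAt ℂ (fun x => c ((ch q1).symm x)) (cp q1) := hz.congr h2.symm
  have h5 : AnalyticAt ℂ (fun x => A.τ q1 s₀ (c ((ch q1).symm x))) (cp q1) :=
    ((LinearMap.toContinuousLinearMap (A.τ q1 s₀)).analyticAt _).comp h4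
  have h6 : ∀ᶠ x in 𝓝 (cp q1), AnalyticAt ℂ
      (fun x => A.τ q1 ((ch q1).symm x) (T.tc ((ch q1).symm x) (f ((ch q1).symm x)))) x := by
    have h7 := h5.congr ((eventually_symm h1).mono fun x hx => hx.symm)
    exact h7.eventually_analyticAt
  have hfx := (eventually_symm hfz).eventually_nhds
  have hU := (t.ev_U).eventually_nhds
  filter_upwards [h6, hfx, hU] with x hx hfx hUx
  have hxU : x ∈ t.U := hUx.self_of_nhds
  refine top_differentiableAt t.fam hxU ?_ ?_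
  · filter_upwards [hfx, hUx] with y hy hyU
    refine ⟨(t.zc y hyU _).2 (T.zc _ _ hy), ?_⟩
    rw [t.inter y hyU (w + 1) le_rfl, T.ty _ _ hy]
  · refine hx.differentiableAt.congr_of_eventuallyEq ?_
    filter_upwards [hfx, hUx] with y hy hyU
    rw [t.cl y hyU _ (T.zc _ _ hy)]
    rfl

/-- `TopData` from the pieces -/
def topData (tr : ∀ z, Nonempty (A.Triv z)) : TopData Q V (A.hfam tr) where
  tc := T.tc
  add s f g hf hg := by
    show (A.D s).clL (T.emb s (f + g)) = _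
    rw [T.add s f g hf hg, map_add]
    rfl
  smul s c f hf := by
    show (A.D s).clL (T.emb s (c • f)) = _
    rw [T.smul s c f hf, map_smul]
    rfl
  mem s f hf := by
    show T.tc s f ∈ HsB_817.F (A.D s) (w + 1) (A.π s) (w + 1)
    rw [mem_F_top]
    exact ⟨T.emb s f, T.zc s f hf, T.ty s f hf, rfl⟩
  surj s v hv := T.surj_aux s v hv
  norm s f hf := by
    show (-1 : ℝ) ^ (w + 1) * ((A.D s).SW (T.tc s f) (T.tc s f)).re = _
    rw [T.tc_def, (A.D s).SW_clL (T.zc s f hf) (T.zc s f hf)]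
    exact T.norm s f hf
  hol s₀ f hf hh l := T.hol_aux s₀ f hf hh l
  hol' s₀ f hf hh := T.hol'_aux s₀ f hf hh

end TopPieces

/-- the action of the automorphisms -/
structure ActPieces {A : Pieces m S (w + 1)} {Q : Punc S k} {V : VHS (m + 1) (Tot Q) N w}
    (T : TopPieces A Q V) (Γ : Type) [Group Γ] (ρ : Act V Γ) where
  u : Γ → ∀ s, A.W s →ₗ[ℂ] A.W s
  one : ∀ s v, u 1 s v = v
  mul : ∀ g h s v, u (g * h) s v = u g s (u h s v)
  int : ∀ g s, ∀ v ∈ A.L s, u g s v ∈ A.L s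
  flat : ∀ g z, ∃ U ∈ 𝓝 z, ∀ s ∈ U, ∀ s' ∈ U, ∀ v, A.τ s s' (u g s' v) = u g s (A.τ s s' v)
  U : Γ → ∀ s, A.Lh s →L[ℂ] A.Lh s
  form : ∀ g s a b, ⟪(A.D s).β (U g s a), U g s b⟫ = ⟪(A.D s).β a, b⟫
  zc : ∀ g s, ∀ a ∈ (A.D s).Zc, U g s a ∈ (A.D s).Zc
  cl : ∀ g s, ∀ a ∈ (A.D s).Zc, (A.D s).clL (U g s a) = u g s ((A.D s).clL a)
  ty : ∀ g s, ∀ P ≤ w + 1, ∀ a, A.π s P (U g s a) = U g s (A.π s P a)
  emb : ∀ g s f, (V.res s).Top f →
    T.emb s (fun x => rM Q (fun q => cm (ρ.ρ g q)) s x *ᵥ f x) = U g s (T.emb s f)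

namespace ActPieces

variable {A : Pieces m S (w + 1)} {Q : Punc S k} {V : VHS (m + 1) (Tot Q) N w}
  {T : TopPieces A Q V} {Γ : Type} [Group Γ] {ρ : Act V Γ} (G : ActPieces T Γ ρ)

lemma presB_aux (g : Γ) (s : S) (a b : A.W s) :
    (A.D s).SW (G.u g s a) (G.u g s b) = (A.D s).SW a b := by
  obtain ⟨x, hx, rfl⟩ := Pieces.Triv.clL_surj (A := A) s a
  obtain ⟨y, hy, rfl⟩ := Pieces.Triv.clL_surj (A := A) s b
  rw [← G.cl g s x hx, ← G.cl g s y hy, (A.D s).SW_clL (G.zc g s x hx) (G.zc g s y hy),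
    G.form, (A.D s).SW_clL hx hy]

lemma presF_aux (g : Γ) (s : S) (p : ℕ) (v : A.W s)
    (hv : v ∈ HsB_817.F (A.D s) (w + 1) (A.π s) p) :
    G.u g s v ∈ HsB_817.F (A.D s) (w + 1) (A.π s) p := by
  rw [mem_F] at hv ⊢
  obtain ⟨x, hx, hq, rfl⟩ := hv
  refine ⟨G.U g s x, G.zc g s x hx, ?_, G.cl g s x hx⟩
  conv_rhs => rw [← hq]
  rw [qop_apply, qop_apply, map_sum]
  refine Finset.sum_congr rfl fun P hP => G.ty g s P ?_ x
  have := (Finset.mem_Ico.1 hP).2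
  omega

/-- the action on the Hodge family -/
def gact (tr : ∀ z, Nonempty (A.Triv z)) : (A.hfam tr).GAct Γ where
  u := G.u
  one := G.one
  mul := G.mul
  int := G.int
  flat := G.flat
  presB g s a b := G.presB_aux g s a b
  presF g s p v hv := G.presF_aux g s p v hv

end ActPieces

/-- **LOC from the pieces** -/
def locStep {A : Pieces m S (w + 1)} {Q : Punc S k} {V : VHS (m + 1) (Tot Q) N w}
    (T : TopPieces A Q V) (tr : ∀ z, Nonempty (A.Triv z))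
    (act : ∀ (Γ : Type) [Group Γ] (ρ : Act V Γ), Nonempty (ActPieces T Γ ρ)) : LocStep Q V where
  H := A.hfam tr
  T := T.topData tr
  act Γ _ ρ := by
    obtain ⟨G⟩ := act Γ ρ
    refine ⟨G.gact tr, fun s g f hf => ?_⟩
    show (A.D s).clL (T.emb s _) = G.u g s ((A.D s).clL (T.emb s f))
    rw [G.emb g s f hf, G.cl g s _ (T.zc s f hf)]

end Crest.Agent.R276.Step_454
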