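import Crest.Agent.R276.LocD_454
import Crest.Agent.R276.FamD_563

/-!
# R276, IPC-STEP (helper454): LOC, part E: the top piece

`TH V` : what the holomorphy part (735 / 175) has to give; `topV V h : TopPieces (locPieces V) Q V`.
-/

set_option autoImplicit false
set_option linter.unusedSectionVars false

noncomputable section

open Set Filter Topology MeasureTheory Matrix Metric UniformSpace
open scoped ContDiff ComplexConjugate

namespace Crest.Agent.R276.Step_454

open Crest.Agent.R271.Ho51 Crest.Agent.R276.Ipc735 Crest.Agent.R276.Top3_279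
open IpcG1_975 Psi_563 FamA_563 FamB_563 HsB_817 HsC_817 HsE_817 K4b_817 Wcl_175 DR_175 PvO_175
open Nat_591 FamD_563

local notation "⟪" x ", " y "⟫" => inner ℂ x y

variable {m k N w : ℕ} {S : Type} [TopologicalSpace S] [RDom m S] {Q : Punc S k}

/-- the element of `L²` of `f dx` -/
abbrev embV (V : Ipc735.VHS (m + 1) (Tot Q) N w) (s : S) (f : ℂ → Fin N → ℂ) :
    (pvOf (V.res s)).L := TopE_175.emb (pvOf (V.res s)) f

/-- holomorphic sections have holomorphic classes -/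
def HolA (V : Ipc735.VHS (m + 1) (Tot Q) N w) : Prop :=
  ∀ (z : S) (D : LD V z) (f : S → ℂ → Fin N → ℂ), (∀ᶠ s in 𝓝 z, (V.res s).Top (f s)) →
    (∀ᶠ s in 𝓝 z, HolFib V f s) → ∀ ζ : (pvOf (V.res z)).ZS,
      AnalyticAt ℂ (fun x => ⟪(pvOf (V.res z)).be
        ((ζ : (pvOf (V.res z)).mb.dbl.H0) : (pvOf (V.res z)).L),
        TV D x (embV V (D.σ x) (f (D.σ x)))⟫) (cp z)

/-- families which are holomorphic in `L²` are holomorphic outside of the support of the bumps -/
def HolB (V : Ipc735.VHS (m + 1) (Tot Q) N w) : Prop :=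
  ∀ (z : S) (D : LD V z) (f : S → ℂ → Fin N → ℂ) (x₁ : ℂ) (hx : x₁ ∉ Q.A z), x₁ ∉ D.Bm.K →
    (∀ᶠ s in 𝓝 z, (V.res s).Top (f s)) →
    (∀ᶠ x in 𝓝 (cp z), DifferentiableAt ℂ (fun x => TV D x (embV V (D.σ x) (f (D.σ x)))) x) →
    HolAt (lV V.P (sec f) (Tot.mk Q z x₁ hx)) (Tot.mk Q z x₁ hx)

variable [T2Space S] (V : Ipc735.VHS (m + 1) (Tot Q) N w)

/-- **the top piece** -/
def topV (h3 : ∀ (z : S) (D : LD V z), N3 D) (hA : HolA V) (hB : HolB V) :
    TopPieces (locPieces V) Q V where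
  emb := embV V
  add s f g hf hg := emb_add' hf hg
  smul s c f hf := TopE_175.emb_smul c (Top.topS hf)
  zc s f hf := TopE_175.emb_zc (Top.topS hf)
  ty s f hf := TopE_175.emb_ty (Top.topS hf)
  surj s u hu ht := emb_surj' hu ht
  norm s f hf := emb_norm' hf
  hol z := by
    obtain ⟨D, -⟩ := exists_LD V z univ_mem
    refine ⟨trivOf D (h3 z D), fun f hf hh v => ?_⟩
    obtain ⟨ζ, hζ⟩ := cW_surj V z v
    refine ⟨((ζ : (pvOf (V.res z)).mb.dbl.H0) : (pvOf (V.res z)).L),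
      (pvOf (V.res z)).ZS_mem_Zc ζ.2, ?_, hA z D f hf hh ζ⟩
    show (fixV V z).clL _ = v
    rw [(fixV V z).clL_eq ((pvOf (V.res z)).ZS_mem_Zc ζ.2), ← hζ]
    exact clV_ZS V z ζ
  hol' z x₁ hx := by
    obtain ⟨D, -, hD⟩ := exists_LD' V z univ_mem hx
    exact ⟨trivOf D (h3 z D), fun f hf hd => hB z D f x₁ hx hD hf hd⟩

end Crest.Agent.R276.Step_454
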