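import Crest.Agent.R276.PackB_454
import Crest.Agent.R276.Grp6_591

/-!
# R276, IPC-STEP (helper454): `Loc → OneStep`
-/

set_option autoImplicit false

noncomputable section

open Set Filter Topology MeasureTheory Matrix
open scoped ContDiff
open Crest.Agent.R271.Ho51
open Crest.Agent.R276.Ipc735 Crest.Agent.R276.Lat_348 Crest.Agent.R276.Flag_454

namespace Crest.Agent.R276.Step_454

namespace Bas

variable {m n : ℕ} {S : Type} [TopologicalSpace S] [RDom m S] {H : HFam m S n} (D : Bas H)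

/-- the action on the packed variation -/
theorem exists_act {Γ : Type} [Group Γ] (G : H.GAct Γ) :
    ∃ ρ : Act D.vhs Γ, ∀ g s v, cm (ρ.ρ g s) *ᵥ D.e s v = D.e s (G.u g s v) := by
  set U : Γ → S → ((Fin D.N → ℂ) →ₗ[ℂ] (Fin D.N → ℂ)) := fun g s =>
    (D.e s).toLinearMap ∘ₗ G.u g s ∘ₗ (D.e s).symm.toLinearMap with hU
  have hUe : ∀ g s v, U g s (D.e s v) = D.e s (G.u g s v) := by
    intro g s v
    simp [hU]
  -- `u g s` is invertible
  have hinv : ∀ g s v, G.u g s (G.u g⁻¹ s v) = v := by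
    intro g s v
    rw [← G.mul, mul_inv_cancel, G.one]
  have hF : ∀ g s p v, G.u g s v ∈ H.F s p ↔ v ∈ H.F s p := by
    intro g s p v
    refine ⟨fun h => ?_, G.presF g s p v⟩
    have h1 := G.presF g⁻¹ s p _ h
    have h2 := hinv g⁻¹ s v
    rw [inv_inv] at h2
    rwa [h2] at h1
  suffices h : ∃ ρ : Act D.vhs Γ, ∀ g s v, cm (ρ.ρ g s) *ᵥ v = U g s v by
    obtain ⟨ρ, hρ⟩ := h
    exact ⟨ρ, fun g s v => by rw [hρ, hUe]⟩
  refine Grp_591.act_of_maps D.vhs Γ U ?_ ?_ ?_ ?_ ?_ ?_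
  · intro s v
    obtain ⟨v, rfl⟩ := (D.e s).surjective v
    rw [hUe, G.one]
  · intro g h s v
    obtain ⟨v, rfl⟩ := (D.e s).surjective v
    rw [hUe, hUe, hUe, G.mul]
  · intro g s a
    obtain ⟨v, hv⟩ := (D.e s).surjective (fun i => (a i : ℂ))
    rw [← hv, hUe]
    exact (D.mem_L_int _).1 (G.int g s v ((D.mem_L_int v).2 ⟨a, hv⟩))
  · intro g z
    obtain ⟨A, hA, hA'⟩ := D.e_τ_near z
    obtain ⟨B, hB, hB'⟩ := G.flat g z
    filter_upwards [inter_mem hA hB] with y hy v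
    obtain ⟨v, rfl⟩ := (D.e y).surjective v
    rw [hUe, vhs_P, ← hA' z (mem_of_mem_nhds hA) y hy.1, ← hA' z (mem_of_mem_nhds hA) y hy.1, hUe,
      hB' z (mem_of_mem_nhds hB) y hy.2]
  · intro g s p v hp hv
    obtain ⟨v, rfl⟩ := (D.e s).surjective v
    rw [hUe, vhs_E, D.Em_iff hp] at *
    refine ⟨G.presF g s p _ hv.1, fun u hu => ?_⟩
    have h1 : u = G.u g s (G.u g⁻¹ s u) := (hinv g s u).symm
    rw [h1, G.presB]
    refine hv.2 _ (G.presF g⁻¹ s _ _ hu)
  · intro g s v u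
    obtain ⟨v, rfl⟩ := (D.e s).surjective v
    obtain ⟨u, rfl⟩ := (D.e s).surjective u
    rw [hUe, hUe, vhs_S]
    have h1 := D.sf_e s (G.u g s v) (G.u g s u)
    have h2 := D.sf_e s v u
    rw [G.presB, ← h2] at h1
    exact h1

/-- Hodge norm of a vector of the top piece -/
lemma hodge_top {s : S} {v : H.W s} (hv : v ∈ H.F s n) :
    (star (D.e s v) ⬝ᵥ hodge n (D.Sm s) (D.Em s) *ᵥ D.e s v).re =
      (-1 : ℝ) ^ n * (H.B s v v).re := by
  have hs : IsHS n (D.Sm s) (D.Em s) := D.vhs.hs s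
  have h1 : D.Em s *ᵥ D.e s v = (n : ℂ) • D.e s v := (D.Em_top_iff v).2 hv
  rw [hs.hodge_mulVec_of_eig le_rfl h1, dotProduct_smul]
  have h2 : star (D.e s v) ⬝ᵥ D.Sm s *ᵥ D.e s v = H.B s v v := D.sf_e s v v
  rw [h2, smul_eq_mul]
  have h3 : ((-1 : ℂ) ^ n) = (((-1 : ℝ) ^ n : ℝ) : ℂ) := by push_cast; rfl
  rw [h3, Complex.re_ofReal_mul]

/-- holomorphy in the frame at `z` -/
lemma holAt_iff (z : S) (c : ∀ s, H.W s) :
    HolAt (lV D.vhs.P (fun s => D.e s (c s)) z) z ↔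
      ∀ l : H.W z →ₗ[ℂ] ℂ, HolAt (fun s => l (H.τ z s (c s))) z := by
  obtain ⟨A, hA, hA'⟩ := D.e_τ_near z
  have hev : (lV D.vhs.P (fun s => D.e s (c s)) z) =ᶠ[𝓝 z] fun s => D.e z (H.τ z s (c s)) := by
    filter_upwards [hA] with s hs
    show cm (D.P z s) *ᵥ D.e s (c s) = _
    rw [hA' z (mem_of_mem_nhds hA) s hs]
  have hev' : (lV D.vhs.P (fun s => D.e s (c s)) z) ∘ (ch z).symm =ᶠ[𝓝 (cp z)]
      (fun s => D.e z (H.τ z s (c s))) ∘ (ch z).symm := by
    filter_upwards [eventually_symm hev] with x hx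
    exact hx
  constructor
  · intro h l
    have h1 : AnalyticAt ℂ ((fun s => D.e z (H.τ z s (c s))) ∘ (ch z).symm) (cp z) :=
      AnalyticAt.congr h hev'
    have h2 := ((LinearMap.toContinuousLinearMap
      (l ∘ₗ (D.e z).symm.toLinearMap)).analyticAt _).comp h1
    refine h2.congr (Filter.Eventually.of_forall fun x => ?_)
    simp
  · intro h
    refine AnalyticAt.congr ?_ hev'.symm
    have h1 : AnalyticAt ℂ (fun x => D.e z (H.τ z ((ch z).symm x) (c ((ch z).symm x)))) (cp z) := by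
      rw [analyticAt_pi_iff]
      intro i
      exact h (LinearMap.proj i ∘ₗ (D.e z).toLinearMap)
    exact h1

end Bas

/-- **STEP**: `Loc` implies the one-step theorem -/
theorem oneStep_of_loc (hloc : Loc) : OneStep := by
  intro m k N w S _ _ _ _ Q V Γ _ ρ R hR
  obtain ⟨⟨H, T, act⟩⟩ := hloc m k N w S Q V
  obtain ⟨D⟩ := H.exists_bas
  obtain ⟨G, hG⟩ := act Γ ρ
  obtain ⟨ρ', hρ'⟩ := D.exists_act G
  -- `R = V.res`
  have hRV : R = fun s => V.res s := by
    funext s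
    have h1 := hR s
    have h2 := V.isRes s
    cases hRs : R s with
    | mk P S' E a b c d e =>
      cases hVs : V.res s with
      | mk P₂ S₂ E₂ a₂ b₂ c₂ d₂ e₂ =>
        rw [hRs] at h1
        rw [hVs] at h2
        obtain ⟨p1, p2, p3⟩ := h1
        obtain ⟨q1, q2, q3⟩ := h2
        simp only at p1 p2 p3 q1 q2 q3
        subst p1 p2 p3 q1 q2 q3
        rfl
  subst hRV
  refine ⟨D.N, D.vhs, ρ', fun s f => D.e s (T.tc s f), ?_, ?_, ?_, ?_, ?_, ?_, ?_, ?_⟩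
  · intro s f g hf hg
    beta_reduce
    rw [T.add s f g hf hg, map_add]
  · intro s c f hf
    beta_reduce
    rw [T.smul s c f hf, map_smul]
  · intro s f hf
    exact (D.Em_top_iff _).2 (T.mem s f hf)
  · intro s v hv
    obtain ⟨v, rfl⟩ := (D.e s).surjective v
    obtain ⟨f, hf, hfv⟩ := T.surj s v ((D.Em_top_iff v).1 hv)
    exact ⟨f, hf, by beta_reduce; rw [hfv]⟩
  · intro s f hf
    exact (D.hodge_top (T.mem s f hf)).trans (T.norm s f hf)
  · intro s g f hf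
    beta_reduce
    rw [hρ', ← hG s g f hf]
  · intro s₀ f hf hhol
    rw [D.holAt_iff]
    exact T.hol s₀ f hf hhol
  · intro s₀ v f hv hE hf
    have h1 : ∀ᶠ s in 𝓝 s₀, (V.res s).Top (f s) := hf.mono fun s hs => hs.1
    refine T.hol' s₀ f h1 ?_
    rw [← D.holAt_iff]
    refine AnalyticAt.congr hv ?_
    filter_upwards [eventually_symm hf] with x hx
    show cm (D.P s₀ ((ch s₀).symm x)) *ᵥ v ((ch s₀).symm x) =
      cm (D.P s₀ ((ch s₀).symm x)) *ᵥ D.e _ (T.tc _ (f _))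
    rw [← hx.2]

end Crest.Agent.R276.Step_454
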