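import Mathlib
import Crest.Agent.R266.Osgood
import Crest.Agent.R271.Weyl_399

/-!
# Row 276, IPC-TOPHOL (helper735), part A: analytic cores

* `analyticOnNhd_cur`, `analyticOnNhd_integral` : holomorphic dependence on parameters (TH1);
* `mean_one` : mean value property with a smooth radial weight on `ℂ`;
* `joint` : a family `f s` of holomorphic functions of `x ∈ D`, weakly holomorphic in `s` and locally
  bounded in `L²`, is jointly holomorphic (TH0).
-/

set_option autoImplicit false
set_option linter.unusedSectionVars false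

noncomputable section

open Set Filter Topology MeasureTheory Metric
open scoped ContDiff ENNReal

namespace Crest.Agent.R276.TopHol_735

open Crest.Agent.R266.SCV

section th1

variable {E : Type*} [NormedAddCommGroup E] [NormedSpace ℂ E]
variable {F : Type*} [NormedAddCommGroup F] [NormedSpace ℂ F] [CompleteSpace F]
variable {K : Type*} [TopologicalSpace K] [CompactSpace K]

/-- the family `f` as a map to `C(K, F)` -/
def cur (f : E → K → F) (s : E) : C(K, F) := ContinuousMap.mkD (f s) 0

lemma cur_apply {f : E → K → F} {U : Set E}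
    (hc : ContinuousOn (fun p : E × K => f p.1 p.2) (U ×ˢ univ)) {s : E} (hs : s ∈ U) (x : K) :
    cur f s x = f s x := by
  rw [cur, ContinuousMap.mkD_apply_of_continuous]
  refine hc.comp_continuous (f := fun x : K => (s, x)) (by fun_prop) fun y => ⟨hs, mem_univ y⟩

lemma continuousOn_cur {f : E → K → F} {U : Set E}
    (hc : ContinuousOn (fun p : E × K => f p.1 p.2) (U ×ˢ univ)) : ContinuousOn (cur f) U := by
  rw [continuousOn_iff_continuous_domRestrict]
  have h1 : Continuous (fun p : U × K => f p.1 p.2) := by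
    refine hc.comp_continuous (f := fun p : U × K => ((p.1 : E), p.2)) (by fun_prop) ?_
    rintro ⟨s, x⟩
    exact ⟨s.2, mem_univ x⟩
  have h2 := (ContinuousMap.curry ⟨_, h1⟩).continuous
  refine h2.congr fun s => ?_
  ext x
  exact (cur_apply hc s.2 x).symm

theorem analyticOnNhd_cur [FiniteDimensional ℂ E] {f : E → K → F} {U : Set E} (hU : IsOpen U)
    (hc : ContinuousOn (fun p : E × K => f p.1 p.2) (U ×ˢ univ))
    (hd : ∀ x : K, DifferentiableOn ℂ (fun s => f s x) U) : AnalyticOnNhd ℂ (cur f) U := by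
  refine analyticOnNhd_of_gateaux hU (continuousOn_cur hc) fun s hs v => ?_
  have hcont : Continuous fun z : ℂ => s + z • v := by fun_prop
  have hopen : IsOpen ((fun z : ℂ => s + z • v) ⁻¹' U) := hU.preimage hcont
  have h0 : (0 : ℂ) ∈ (fun z : ℂ => s + z • v) ⁻¹' U := by simpa using hs
  obtain ⟨r, hr, hrs⟩ := Metric.nhds_basis_closedBall.mem_iff.1 (hopen.mem_nhds h0)
  have h1 : DifferentiableOn ℂ (fun z : ℂ => cur f (s + z • v)) (ball 0 r) := by
    refine differentiableOn_of_separating (ι := K) (fun x => ContinuousMap.evalCLM ℂ x)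
      (fun x y h => ContinuousMap.ext h) ?_ fun x z hz => ?_
    · exact (continuousOn_cur hc).comp hcont.continuousOn hrs
    · have hzU : s + z • v ∈ U := hrs (ball_subset_closedBall hz)
      have h2 : DifferentiableAt ℂ (fun t : ℂ => f (s + t • v) x) z := by
        have h3 : DifferentiableAt ℂ (fun s => f s x) (s + z • v) :=
          (hd x).differentiableAt (hU.mem_nhds hzU)
        exact DifferentiableAt.comp (f := fun t : ℂ => s + t • v) z h3 (by fun_prop)
      refine h2.congr_of_eventuallyEq ?_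
      filter_upwards [hopen.mem_nhds hzU] with t ht
      exact cur_apply hc ht x
  exact h1.differentiableAt (isOpen_ball.mem_nhds (mem_ball_self hr))

end th1

section integral

variable {E : Type*} [NormedAddCommGroup E] [NormedSpace ℂ E] [FiniteDimensional ℂ E]
variable {F : Type*} [NormedAddCommGroup F] [NormedSpace ℂ F] [CompleteSpace F]
variable {X : Type*} [TopologicalSpace X] [MeasurableSpace X] [BorelSpace X] [T2Space X]

/-- the integral over a compact set as a functional on `C(K, F)` -/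
def intK (K : Set X) [CompactSpace K] (μ : Measure X) [IsFiniteMeasureOnCompacts μ] :
    C(K, F) →L[ℂ] F :=
  haveI : IsFiniteMeasure (Measure.comap (Subtype.val : K → X) μ) := by
    refine ⟨?_⟩
    have hK : IsCompact K := isCompact_iff_compactSpace.mpr inferInstance
    rw [Measure.comap_apply _ Subtype.val_injective (fun s hs =>
      hK.measurableSet.subtype_image hs) _ MeasurableSet.univ]
    simpa using hK.measure_lt_top
  LinearMap.mkContinuous
    { toFun := fun φ => ∫ x, φ x ∂(Measure.comap (Subtype.val : K → X) μ)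
      map_add' := fun φ ψ => by
        have h1 : Integrable (fun x => φ x) (Measure.comap (Subtype.val : K → X) μ) :=
          φ.continuous.integrable_of_hasCompactSupport (HasCompactSupport.of_compactSpace _)
        have h2 : Integrable (fun x => ψ x) (Measure.comap (Subtype.val : K → X) μ) :=
          ψ.continuous.integrable_of_hasCompactSupport (HasCompactSupport.of_compactSpace _)
        simp only [ContinuousMap.add_apply]
        exact integral_add h1 h2
      map_smul' := fun c φ => by
        simp only [ContinuousMap.smul_apply, RingHom.id_apply]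
        exact integral_smul c _ }
    ((Measure.comap (Subtype.val : K → X) μ).real univ)
    (fun φ => by
      have h1 : ‖∫ x, φ x ∂(Measure.comap (Subtype.val : K → X) μ)‖ ≤
          ‖φ‖ * (Measure.comap (Subtype.val : K → X) μ).real univ :=
        norm_integral_le_of_norm_le_const (Eventually.of_forall fun x => φ.norm_coe_le_norm x)
      rw [mul_comm]
      exact h1)

lemma intK_apply (K : Set X) [CompactSpace K] (μ : Measure X) [IsFiniteMeasureOnCompacts μ]
    (φ : C(K, F)) : intK K μ φ = ∫ x, φ x ∂(Measure.comap (Subtype.val : K → X) μ) := rfl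

/-- holomorphic dependence on a parameter of an integral over a compact set -/
theorem analyticOnNhd_integral {K : Set X} (hK : IsCompact K) (μ : Measure X)
    [IsFiniteMeasureOnCompacts μ] {f : E → X → F} {U : Set E} (hU : IsOpen U)
    (hc : ContinuousOn (fun p : E × X => f p.1 p.2) (U ×ˢ K))
    (hd : ∀ x ∈ K, DifferentiableOn ℂ (fun s => f s x) U) :
    AnalyticOnNhd ℂ (fun s => ∫ x in K, f s x ∂μ) U := by
  have hKc : CompactSpace K := isCompact_iff_compactSpace.mp hK
  have hc' : ContinuousOn (fun p : E × K => f p.1 p.2) (U ×ˢ univ) := by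
    refine hc.comp (f := fun p : E × K => (p.1, (p.2 : X))) (by fun_prop) ?_
    rintro ⟨s, x⟩ ⟨hs, _⟩
    exact ⟨hs, x.2⟩
  have h1 := analyticOnNhd_cur (f := fun s (x : K) => f s x) hU hc' fun x => hd x x.2
  intro s hs
  have h2 : AnalyticAt ℂ (fun s => intK K μ (cur (fun s (x : K) => f s x) s)) s :=
    ((intK (F := F) K μ).analyticAt _).comp (h1 s hs)
  refine h2.congr ?_
  filter_upwards [hU.mem_nhds hs] with t ht
  rw [intK_apply, ← integral_subtype_comap hK.measurableSet]
  refine integral_congr_ae (Eventually.of_forall fun x => ?_)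
  exact cur_apply hc' ht x

end integral

/-! ### mean value with a radial weight -/

section mean

open Crest.Agent.R271

/-- radial weight on `ℂ` -/
def wt (ε : ℝ) (z : ℂ) : ℝ := Weyl399.rho (n := 1) ε (fun _ => z)

lemma contDiff_wt (ε : ℝ) : ContDiff ℝ ∞ (wt ε) := by
  unfold wt
  exact (Weyl399.contDiff_rho (n := 1) ε).comp (contDiff_pi.mpr fun _ => contDiff_id)

lemma wt_eq_zero {ε : ℝ} (hε : 0 < ε) {z : ℂ} (h : ε ≤ ‖z‖) : wt ε z = 0 := by
  unfold wt
  refine Weyl399.rho_eq_zero hε ?_
  rw [Pi.norm_def]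
  simpa using h

lemma wt_nonneg {ε : ℝ} (hε : 0 < ε) (z : ℂ) : 0 ≤ wt ε z := Weyl399.rho_nonneg hε _

/-- mean value property with a smooth radial weight -/
theorem mean_one {ε : ℝ} (hε : 0 < ε) {f : ℂ → ℂ} {x : ℂ}
    (hf : ∀ y ∈ closedBall x ε, DifferentiableAt ℂ f y) :
    ∫ y, (wt ε (x - y) : ℂ) * f y = f x := by
  have h1 := Weyl399.mean_value (n := 1) hε (f := fun v => f (v 0)) (x := fun _ => x) (by
    intro y hy
    have hy' : y 0 ∈ closedBall x ε := by
      rw [mem_closedBall, dist_pi_le_iff hε.le] at hy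
      exact hy 0
    have h2 : DifferentiableAt ℂ (fun v : Fin 1 → ℂ => v 0) y := by fun_prop
    exact (hf (y 0) hy').comp y h2)
  have h2 : ∫ w : Fin 1 → ℂ, Weyl399.rho ε w • f (x - w 0) = f x := h1
  have h3 : ∫ w : Fin 1 → ℂ, Weyl399.rho ε w • f (x - w 0) =
      ∫ z : ℂ, wt ε z • f (x - z) := by
    rw [← (volume_preserving_funUnique (Fin 1) ℂ).integral_comp'
      (g := fun z : ℂ => wt ε z • f (x - z))]
    refine integral_congr_ae (Eventually.of_forall fun w => ?_)
    have hw : (fun _ => w 0 : Fin 1 → ℂ) = w := by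
      funext i
      rw [Subsingleton.elim i 0]
    simp only [MeasurableEquiv.funUnique_apply, Fin.default_eq_zero, wt, hw]
  rw [h3] at h2
  rw [← h2, ← integral_sub_left_eq_self (fun z : ℂ => wt ε z • f (x - z)) volume x]
  refine integral_congr_ae (Eventually.of_forall fun y => ?_)
  simp only [sub_sub_cancel, Complex.real_smul]

end mean

/-! ### joint holomorphy -/

section joint

variable {E : Type*} [NormedAddCommGroup E] [NormedSpace ℂ E] [FiniteDimensional ℂ E]

/-- scalar version: `f s` holomorphic on `D`, `s ↦ f s x` holomorphic for each `x`, locally bounded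
⟹ jointly holomorphic -/
theorem joint_of_bounded {U : Set E} (hU : IsOpen U) {D : Set ℂ} (hD : IsOpen D) {f : E → ℂ → ℂ}
    (hx : ∀ s ∈ U, DifferentiableOn ℂ (f s) D)
    (hs : ∀ x ∈ D, DifferentiableOn ℂ (fun s => f s x) U)
    (hb : ∀ s₀ ∈ U, ∀ x₀ ∈ D, ∃ C : ℝ, ∃ r > 0, ∀ᶠ s in 𝓝 s₀, ∀ x ∈ closedBall x₀ r, ‖f s x‖ ≤ C) :
    AnalyticOnNhd ℂ (fun p : E × ℂ => f p.1 p.2) (U ×ˢ D) := by
  refine analyticOnNhd_of_separately (hU.prod hD) ?_ (fun p hp => ?_) (fun p hp => ?_)
  · rintro ⟨s₀, x₀⟩ ⟨hs₀, hx₀⟩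
    refine ContinuousAt.continuousWithinAt ?_
    obtain ⟨C, r, hr, hC⟩ := hb s₀ hs₀ x₀ hx₀
    obtain ⟨r₁, hr₁, hr₁D⟩ := Metric.nhds_basis_closedBall.mem_iff.1 (hD.mem_nhds hx₀)
    set ρ := min r r₁ / 2 with hρ
    have hρ0 : 0 < ρ := by
      have : 0 < min r r₁ := lt_min hr hr₁
      rw [hρ]; positivity
    have hρr : 2 * ρ ≤ r := by rw [hρ]; linarith [min_le_left r r₁]
    have hρr1 : 2 * ρ ≤ r₁ := by rw [hρ]; linarith [min_le_right r r₁]
    -- derivative bound
    have hder : ∀ᶠ s in 𝓝 s₀, ∀ x ∈ ball x₀ ρ, ‖deriv (f s) x‖ ≤ C / ρ := by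
      filter_upwards [hC, hU.mem_nhds hs₀] with s hsC hsU x hxb
      have hsub : closedBall x ρ ⊆ closedBall x₀ (2 * ρ) := by
        refine closedBall_subset_closedBall' ?_
        have := mem_ball.mp hxb
        linarith
      refine Complex.norm_deriv_le_of_forall_mem_sphere_norm_le hρ0 ?_ fun y hy => ?_
      · refine ⟨(hx s hsU).mono ?_, (hx s hsU).continuousOn.mono ?_⟩
        · exact ball_subset_closedBall.trans (hsub.trans
            ((closedBall_subset_closedBall hρr1).trans hr₁D))
        · rw [closure_ball x hρ0.ne']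
          exact hsub.trans ((closedBall_subset_closedBall hρr1).trans hr₁D)
      · exact hsC y (closedBall_subset_closedBall hρr (hsub (sphere_subset_closedBall hy)))
    have hlip : ∀ᶠ s in 𝓝 s₀, ∀ x ∈ ball x₀ ρ, ‖f s x - f s x₀‖ ≤ C / ρ * ‖x - x₀‖ := by
      filter_upwards [hder, hU.mem_nhds hs₀] with s hsd hsU x hxb
      refine Convex.norm_image_sub_le_of_norm_deriv_le (fun y hy => ?_) hsd (convex_ball x₀ ρ)
        (mem_ball_self hρ0) hxb
      have hyD : y ∈ D := hr₁D (closedBall_subset_closedBall (by linarith)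
        (ball_subset_closedBall hy))
      exact (hx s hsU).differentiableAt (hD.mem_nhds hyD)
    have hcs : ContinuousAt (fun s => f s x₀) s₀ :=
      ((hs x₀ hx₀).differentiableAt (hU.mem_nhds hs₀)).continuousAt
    rw [Metric.continuousAt_iff'] at hcs ⊢
    intro ε hε
    have hCρ : ∀ᶠ p : E × ℂ in 𝓝 (s₀, x₀), C / ρ * ‖p.2 - x₀‖ < ε / 2 := by
      have h1 : Tendsto (fun p : E × ℂ => C / ρ * ‖p.2 - x₀‖) (𝓝 (s₀, x₀)) (𝓝 (C / ρ * ‖x₀ - x₀‖)) := by
        have : Continuous fun p : E × ℂ => C / ρ * ‖p.2 - x₀‖ := by fun_prop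
        exact this.tendsto _
      rw [sub_self, norm_zero, mul_zero] at h1
      exact h1.eventually_lt_const (by positivity)
    have h2 : ∀ᶠ p : E × ℂ in 𝓝 (s₀, x₀), ∀ x ∈ ball x₀ ρ, ‖f p.1 x - f p.1 x₀‖ ≤
        C / ρ * ‖x - x₀‖ := (continuousAt_fst (p := (s₀, x₀))).eventually hlip
    have h3 : ∀ᶠ p : E × ℂ in 𝓝 (s₀, x₀), dist (f p.1 x₀) (f s₀ x₀) < ε / 2 :=
      (continuousAt_fst (p := (s₀, x₀))).eventually (hcs (ε / 2) (by positivity))
    have h4 : ∀ᶠ p : E × ℂ in 𝓝 (s₀, x₀), p.2 ∈ ball x₀ ρ :=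
      (continuousAt_snd (p := (s₀, x₀))).eventually (ball_mem_nhds x₀ hρ0)
    filter_upwards [hCρ, h2, h3, h4] with p hp1 hp2 hp3 hp4
    calc dist (f p.1 p.2) (f s₀ x₀) ≤ dist (f p.1 p.2) (f p.1 x₀) + dist (f p.1 x₀) (f s₀ x₀) :=
          dist_triangle _ _ _
      _ < ε / 2 + ε / 2 := by
          refine add_lt_add ?_ hp3
          rw [dist_eq_norm]
          exact (hp2 p.2 hp4).trans_lt hp1
      _ = ε := by ring
  · exact (hs p.2 hp.2).differentiableAt (hU.mem_nhds hp.1)
  · exact (hx p.1 hp.1).differentiableAt (hD.mem_nhds hp.2)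

/-- **(TH0)**, scalar version -/
theorem joint {U : Set E} (hU : IsOpen U) {D : Set ℂ} (hD : IsOpen D) {f : E → ℂ → ℂ}
    (hx : ∀ s ∈ U, DifferentiableOn ℂ (f s) D)
    (hs : ∀ g : ℂ → ℂ, ContDiff ℝ ∞ g → HasCompactSupport g → tsupport g ⊆ D →
      DifferentiableOn ℂ (fun s => ∫ x, g x * f s x) U)
    (hb : ∀ s₀ ∈ U, ∀ K ⊆ D, IsCompact K →
      ∃ C : ℝ≥0∞, C < ⊤ ∧ ∀ᶠ s in 𝓝 s₀, ∫⁻ x in K, ‖f s x‖ₑ ^ 2 ≤ C) :
    AnalyticOnNhd ℂ (fun p : E × ℂ => f p.1 p.2) (U ×ˢ D) := by
  -- the representation of the values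
  have hrep : ∀ x ∈ D, ∃ ε > 0, closedBall x ε ⊆ D ∧ ∀ s ∈ U,
      ∫ y, (wt ε (x - y) : ℂ) * f s y = f s x := by
    intro x hxD
    obtain ⟨ε, hε, hεD⟩ := Metric.nhds_basis_closedBall.mem_iff.1 (hD.mem_nhds hxD)
    exact ⟨ε, hε, hεD, fun s hsU => mean_one hε fun y hy =>
      (hx s hsU).differentiableAt (hD.mem_nhds (hεD hy))⟩
  have hsmooth : ∀ (ε : ℝ) (x : ℂ), ContDiff ℝ ∞ (fun y => (wt ε (x - y) : ℂ)) := by
    intro ε x
    exact Complex.ofRealCLM.contDiff.comp ((contDiff_wt ε).comp (contDiff_const.sub contDiff_id))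
  have hsupp : ∀ {ε : ℝ} (_ : 0 < ε) (x : ℂ),
      Function.support (fun y => (wt ε (x - y) : ℂ)) ⊆ closedBall x ε := by
    intro ε hε x y hy
    by_contra hcon
    apply hy
    have h1 : ε ≤ ‖x - y‖ := by
      rw [mem_closedBall, dist_comm, dist_eq_norm, not_le] at hcon
      exact hcon.le
    simp only [wt_eq_zero hε h1, Complex.ofReal_zero]
  refine joint_of_bounded hU hD hx (fun x hxD => ?_) fun s₀ hs₀ x₀ hx₀ => ?_
  · obtain ⟨ε, hε, hεD, hr⟩ := hrep x hxD
    have h1 := hs (fun y => (wt ε (x - y) : ℂ)) (hsmooth ε x)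
      (HasCompactSupport.of_support_subset_isCompact (isCompact_closedBall x ε) (hsupp hε x))
      ((closure_minimal (hsupp hε x) isClosed_closedBall).trans hεD)
    exact h1.congr fun s hsU => (hr s hsU).symm
  · -- local bound from the sub mean value inequality
    obtain ⟨r, hr, hrD⟩ := Metric.nhds_basis_closedBall.mem_iff.1 (hD.mem_nhds hx₀)
    obtain ⟨C, hC, hev⟩ := hb s₀ hs₀ (closedBall x₀ r) hrD (isCompact_closedBall x₀ r)
    -- sup of the weight
    set ε := r / 2 with hε
    have hε0 : 0 < ε := by rw [hε]; positivity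
    obtain ⟨M, hM⟩ : ∃ M : ℝ, ∀ z, wt ε z ≤ M := by
      have h1 : HasCompactSupport (wt ε) :=
        HasCompactSupport.of_support_subset_isCompact (isCompact_closedBall 0 ε) (by
          intro z hz
          by_contra hcon
          apply hz
          exact wt_eq_zero hε0 (by simpa using (not_le.mp (by simpa using hcon : ¬ ‖z‖ ≤ ε)).le))
      obtain ⟨M, hM⟩ := (contDiff_wt ε).continuous.bounded_above_of_compact_support h1
      exact ⟨M, fun z => (le_abs_self _).trans (hM z)⟩
    have hM0 : 0 ≤ M := (wt_nonneg hε0 0).trans (hM 0)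
    refine ⟨M * ((volume.real (closedBall x₀ r)) + C.toReal), ε, hε0, ?_⟩
    filter_upwards [hev, hU.mem_nhds hs₀] with s hsC hsU x hxb
    have hsub : closedBall x ε ⊆ closedBall x₀ r := by
      refine closedBall_subset_closedBall' ?_
      have := mem_closedBall.mp hxb
      rw [hε] at this ⊢
      linarith
    have hval : ∫ y, (wt ε (x - y) : ℂ) * f s y = f s x := mean_one hε0 fun y hy =>
      (hx s hsU).differentiableAt (hD.mem_nhds (hrD (hsub hy)))
    have hcont : ContinuousOn (f s) (closedBall x₀ r) := (hx s hsU).continuousOn.mono hrD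
    have hint2 : IntegrableOn (fun y => ‖f s y‖ ^ 2) (closedBall x₀ r) :=
      (hcont.norm.pow 2).integrableOn_compact (isCompact_closedBall x₀ r)
    have hint1 : IntegrableOn (fun y => 1 + ‖f s y‖ ^ 2) (closedBall x₀ r) :=
      (continuousOn_const.add (hcont.norm.pow 2)).integrableOn_compact (isCompact_closedBall x₀ r)
    have h1 : ‖f s x‖ ≤ ∫ y in closedBall x₀ r, M * (1 + ‖f s y‖ ^ 2) := by
      rw [← hval]
      have h2 : ∫ y, (wt ε (x - y) : ℂ) * f s y =
          ∫ y in closedBall x₀ r, (wt ε (x - y) : ℂ) * f s y := by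
        rw [← integral_indicator measurableSet_closedBall]
        refine integral_congr_ae (Eventually.of_forall fun y => ?_)
        by_cases hy : y ∈ closedBall x₀ r
        · simp only [Set.indicator_of_mem hy]
        · simp only [Set.indicator_of_notMem hy]
          have h3 : (wt ε (x - y) : ℂ) = 0 := by
            by_contra hcon
            exact hy (hsub (hsupp hε0 x hcon))
          rw [h3, zero_mul]
      rw [h2]
      refine norm_integral_le_of_norm_le (hint1.const_mul M) ?_
      refine (ae_restrict_mem measurableSet_closedBall).mono fun y _ => ?_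
      rw [norm_mul, Complex.norm_real, Real.norm_of_nonneg (wt_nonneg hε0 _)]
      have h3 : ‖f s y‖ ≤ 1 + ‖f s y‖ ^ 2 := by nlinarith [sq_nonneg (‖f s y‖ - 1), norm_nonneg (f s y)]
      exact mul_le_mul (hM _) h3 (norm_nonneg _) hM0
    refine h1.trans ?_
    rw [integral_const_mul]
    refine mul_le_mul_of_nonneg_left ?_ hM0
    have hone : IntegrableOn (fun _ : ℂ => (1 : ℝ)) (closedBall x₀ r) :=
      continuousOn_const.integrableOn_compact (isCompact_closedBall x₀ r)
    rw [integral_add hone hint2]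
    refine add_le_add (by simp) ?_
    have h4 : ∫ y in closedBall x₀ r, ‖f s y‖ ^ 2 = (∫⁻ y in closedBall x₀ r, ‖f s y‖ₑ ^ 2).toReal := by
      rw [integral_eq_lintegral_of_nonneg_ae (Eventually.of_forall fun y => by positivity)
        hint2.aestronglyMeasurable]
      congr 1
      refine lintegral_congr fun y => ?_
      rw [← ofReal_norm, ENNReal.ofReal_pow (norm_nonneg _)]
    rw [h4]
    exact ENNReal.toReal_mono hC.ne hsC

end joint

end Crest.Agent.R276.TopHol_735
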