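import Mathlib
import Crest.Agent.R276.TopHolA_735
import Crest.Agent.R276.Res_735
import Crest.Agent.R276.IpcLoc_735

/-!
# Row 276, IPC-TOPHOL (helper735), part B: charts on the total space

* `tk Q q₁ (c, x)` : the point of `Tot Q` with base coordinates `c` and fibre coordinate `x` near `q₁`;
* `holAt_tot_iff` : holomorphy at `q₁` in the coordinates `(c, x)`;
* `holAt_of_weak` : (TH0) for sections of a `VHS` over the total space.
-/

set_option autoImplicit false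
set_option linter.unusedSectionVars false

noncomputable section

open Set Filter Topology MeasureTheory Matrix
open Crest.Agent.R271.Ho51
open scoped ContDiff ENNReal

namespace Crest.Agent.R276.Ipc735

/-- a local section of the coordinates is the inverse of the chart -/
lemma ch_symm_eq {n : ℕ} {M : Type*} [TopologicalSpace M] [RDom n M] {x : M}
    {τ : (Fin n → ℂ) → M} (hτ : Tendsto τ (𝓝 (cp x)) (𝓝 x))
    (h : ∀ᶠ c in 𝓝 (cp x), cp (τ c) = c) : ∀ᶠ c in 𝓝 (cp x), (ch x).symm c = τ c := by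
  filter_upwards [h, hτ.eventually ((ch x).open_source.mem_nhds (mem_ch x))] with c hc1 hc2
  have h1 := (isCh_ch x).symm_cp hc2
  rwa [hc1] at h1

lemma ch_symm_tendsto {n : ℕ} {M : Type*} [TopologicalSpace M] [RDom n M] (x : M) :
    Tendsto (ch x).symm (𝓝 (cp x)) (𝓝 x) := by
  have := (ch x).symm.continuousAt (x := cp x) (by simpa using (isCh_ch x).cp_mem (mem_ch x))
  rwa [ContinuousAt, (isCh_ch x).symm_cp (mem_ch x)] at this

section tot

variable {m : ℕ} {S : Type*} [TopologicalSpace S] [RDom m S] {k : ℕ}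

open Classical in
/-- the point with base coordinates `p.1` and fibre coordinate `p.2` near `q₁` -/
def tk (Q : Punc S k) (q₁ : Tot Q) (p : (Fin m → ℂ) × ℂ) : Tot Q :=
  if h : p.2 ∉ Q.A ((ch q₁.1.1).symm p.1) then Tot.mk Q ((ch q₁.1.1).symm p.1) p.2 h else q₁

lemma tk_of {Q : Punc S k} {q₁ : Tot Q} {p : (Fin m → ℂ) × ℂ}
    (h : p.2 ∉ Q.A ((ch q₁.1.1).symm p.1)) :
    tk Q q₁ p = Tot.mk Q ((ch q₁.1.1).symm p.1) p.2 h := by
  unfold tk; rw [dif_pos h]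

/-- centre of the coordinates -/
def tc0 {Q : Punc S k} (q₁ : Tot Q) : (Fin m → ℂ) × ℂ := (cp q₁.1.1, q₁.1.2)

lemma tk_self (Q : Punc S k) (q₁ : Tot Q) : tk Q q₁ (tc0 q₁) = q₁ := by
  have h1 : (ch q₁.1.1).symm (cp q₁.1.1) = q₁.1.1 := symm_cp q₁.1.1
  have h2 : (tc0 q₁).2 ∉ Q.A ((ch q₁.1.1).symm (tc0 q₁).1) := by
    show q₁.1.2 ∉ Q.A ((ch q₁.1.1).symm (cp q₁.1.1))
    rw [h1]; exact q₁.2
  rw [tk_of h2]
  exact Tot.ext' h1 rfl

lemma tk_base_tendsto {Q : Punc S k} (q₁ : Tot Q) :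
    Tendsto (fun p : (Fin m → ℂ) × ℂ => ((ch q₁.1.1).symm p.1, p.2)) (𝓝 (tc0 q₁)) (𝓝 q₁.1) := by
  have h1 : Tendsto (fun p : (Fin m → ℂ) × ℂ => (ch q₁.1.1).symm p.1) (𝓝 (tc0 q₁)) (𝓝 q₁.1.1) :=
    (ch_symm_tendsto q₁.1.1).comp (continuous_fst.tendsto (tc0 q₁))
  have h2 : Tendsto (fun p : (Fin m → ℂ) × ℂ => p.2) (𝓝 (tc0 q₁)) (𝓝 q₁.1.2) :=
    continuous_snd.tendsto (tc0 q₁)
  exact h1.prodMk_nhds h2

lemma eventually_tk {Q : Punc S k} (q₁ : Tot Q) :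
    ∀ᶠ p in 𝓝 (tc0 q₁), p.2 ∉ Q.A ((ch q₁.1.1).symm p.1) :=
  (tk_base_tendsto q₁).eventually ((isOpen_tot Q).mem_nhds q₁.2)

lemma tk_tendsto (Q : Punc S k) (q₁ : Tot Q) : Tendsto (tk Q q₁) (𝓝 (tc0 q₁)) (𝓝 q₁) := by
  have h4 : Topology.IsInducing (Subtype.val : {q : S × ℂ // q.2 ∉ Q.A q.1} → S × ℂ) :=
    Topology.IsInducing.subtypeVal
  refine h4.tendsto_nhds_iff.mpr ?_
  refine (tk_base_tendsto q₁).congr' ?_
  filter_upwards [eventually_tk q₁] with p hp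
  show _ = (tk Q q₁ p).1
  rw [tk_of hp]; rfl

/-- `(c, x) ↦ Fin.cons x c` as a continuous linear equivalence -/
def consL (m : ℕ) : ((Fin m → ℂ) × ℂ) ≃L[ℂ] (Fin (m + 1) → ℂ) :=
  (ContinuousLinearEquiv.prodComm ℂ _ _).trans (Fin.consEquivL ℂ (fun _ : Fin (m + 1) => ℂ))

lemma consL_apply (p : (Fin m → ℂ) × ℂ) : consL m p = Fin.cons p.2 p.1 := rfl

lemma consL_symm (c : Fin (m + 1) → ℂ) : (consL m).symm c = (Fin.tail c, c 0) := by
  rw [ContinuousLinearEquiv.symm_apply_eq, consL_apply]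
  exact (Fin.cons_self_tail c).symm

lemma cp_eq_consL {Q : Punc S k} (q₁ : Tot Q) : cp q₁ = consL m (tc0 q₁) := rfl

/-- the inverse chart in the coordinates `(c, x)` -/
lemma ch_symm_tk (Q : Punc S k) (q₁ : Tot Q) :
    ∀ᶠ p in 𝓝 (tc0 q₁), (ch q₁).symm (consL m p) = tk Q q₁ p := by
  have hcs : Tendsto (consL m) (𝓝 (tc0 q₁)) (𝓝 (cp q₁)) := by
    rw [cp_eq_consL]; exact (consL m).continuous.tendsto _
  have hcs' : Tendsto (consL m).symm (𝓝 (cp q₁)) (𝓝 (tc0 q₁)) := by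
    have := (consL m).symm.continuous.tendsto (cp q₁)
    rwa [cp_eq_consL, ContinuousLinearEquiv.symm_apply_apply] at this
  have h1 : ∀ᶠ c in 𝓝 (cp q₁), (ch q₁).symm c = tk Q q₁ ((consL m).symm c) := by
    refine ch_symm_eq ((tk_tendsto Q q₁).comp hcs') ?_
    have h2 : ∀ᶠ p in 𝓝 (tc0 q₁), cp (tk Q q₁ p) = consL m p := by
      have h3 : ∀ᶠ p : (Fin m → ℂ) × ℂ in 𝓝 (tc0 q₁), p.1 ∈ (ch q₁.1.1).target :=
        (continuous_fst.tendsto (tc0 q₁)).eventually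
          ((ch q₁.1.1).open_target.mem_nhds ((isCh_ch _).cp_mem (mem_ch _)))
      filter_upwards [eventually_tk q₁, h3] with p hp hp3
      rw [tk_of hp, cp_tot, consL_apply]
      have h4 : cp ((ch q₁.1.1).symm p.1) = p.1 := (isCh_ch _).cp_symm hp3
      have h5 : (Tot.mk Q ((ch q₁.1.1).symm p.1) p.2 hp).1 = ((ch q₁.1.1).symm p.1, p.2) := rfl
      rw [h5]
      simp only [h4]
    filter_upwards [hcs'.eventually h2] with c hc
    rw [hc, ContinuousLinearEquiv.apply_symm_apply]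
  filter_upwards [hcs.eventually h1] with p hp
  rw [hp, ContinuousLinearEquiv.symm_apply_apply]

/-- holomorphy at a point of the total space in the coordinates `(c, x)` -/
theorem holAt_tot_iff {G : Type*} [NormedAddCommGroup G] [NormedSpace ℂ G] {Q : Punc S k}
    (F : Tot Q → G) (q₁ : Tot Q) :
    HolAt F q₁ ↔ AnalyticAt ℂ (fun p => F (tk Q q₁ p)) (tc0 q₁) := by
  have hev : (fun p => (F ∘ (ch q₁).symm) (consL m p)) =ᶠ[𝓝 (tc0 q₁)]
      fun p => F (tk Q q₁ p) := by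
    filter_upwards [ch_symm_tk Q q₁] with p hp
    simp only [Function.comp_apply, hp]
  constructor
  · intro h
    have h1 : AnalyticAt ℂ (F ∘ (ch q₁).symm) (consL m (tc0 q₁)) := h
    have h2 : AnalyticAt ℂ (fun p => (F ∘ (ch q₁).symm) (consL m p)) (tc0 q₁) :=
      h1.comp ((consL m).toContinuousLinearMap.analyticAt _)
    exact h2.congr hev
  · intro h
    have h2 : AnalyticAt ℂ (fun p => (F ∘ (ch q₁).symm) (consL m p)) (tc0 q₁) := h.congr hev.symm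
    have h3 : AnalyticAt ℂ (fun p => (F ∘ (ch q₁).symm) (consL m p))
        ((consL m).symm (cp q₁)) := by
      rw [cp_eq_consL, ContinuousLinearEquiv.symm_apply_apply]; exact h2
    have h4 : AnalyticAt ℂ ((fun p => (F ∘ (ch q₁).symm) (consL m p)) ∘ (consL m).symm) (cp q₁) :=
      h3.comp ((consL m).symm.toContinuousLinearMap.analyticAt _)
    have h5 : ((fun p => (F ∘ (ch q₁).symm) (consL m p)) ∘ (consL m).symm) =
        F ∘ (ch q₁).symm := by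
      funext c
      simp
    rw [h5] at h4
    exact h4

/-- componentwise version -/
theorem holAt_tot_iff_pi {N : ℕ} {Q : Punc S k} (F : Tot Q → Fin N → ℂ) (q₁ : Tot Q) :
    HolAt F q₁ ↔ ∀ i, AnalyticAt ℂ (fun p => F (tk Q q₁ p) i) (tc0 q₁) := by
  rw [holAt_tot_iff, analyticAt_pi_iff]

/-- **(TH0)+(TH2)** a family of sections of a flat bundle over the total space which is holomorphic in
the fibre coordinate, weakly holomorphic in the base coordinates and locally bounded in `L²` is a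
holomorphic section. Everything is seen in the frame at `q₁`. -/
theorem holAt_of_weak {N : ℕ} {Q : Punc S k} (P : Tot Q → Tot Q → GL (Fin N) ℤ)
    (f : S → ℂ → Fin N → ℂ) (q₁ : Tot Q) {U : Set (Fin m → ℂ)} (hU : IsOpen U)
    (hs1 : cp q₁.1.1 ∈ U) {D : Set ℂ} (hD : IsOpen D) (hx1 : q₁.1.2 ∈ D)
    (hx : ∀ c ∈ U, ∀ i, DifferentiableOn ℂ (fun x => lV P (sec f) q₁ (tk Q q₁ (c, x)) i) D)
    (hs : ∀ ζ : ℂ → ℂ, ContDiff ℝ ∞ ζ → HasCompactSupport ζ → tsupport ζ ⊆ D → ∀ i,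
      DifferentiableOn ℂ (fun c => ∫ x, ζ x * lV P (sec f) q₁ (tk Q q₁ (c, x)) i) U)
    (hb : ∀ c₀ ∈ U, ∀ K ⊆ D, IsCompact K → ∀ i, ∃ C : ℝ≥0∞, C < ⊤ ∧
      ∀ᶠ c in 𝓝 c₀, ∫⁻ x in K, ‖lV P (sec f) q₁ (tk Q q₁ (c, x)) i‖ₑ ^ 2 ≤ C) :
    HolAt (lV P (sec f) q₁) q₁ := by
  rw [holAt_tot_iff_pi]
  intro i
  have h1 := TopHol_735.joint hU hD (f := fun c x => lV P (sec f) q₁ (tk Q q₁ (c, x)) i)
    (fun c hc => hx c hc i) (fun ζ h1 h2 h3 => hs ζ h1 h2 h3 i)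
    (fun c₀ hc₀ K hK hKc => hb c₀ hc₀ K hK hKc i)
  exact h1 (tc0 q₁) ⟨hs1, hx1⟩

end tot

end Crest.Agent.R276.Ipc735
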