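import Crest.Agent.R276.FamA_563
import Crest.Agent.R276.TopHolB_735

/-!
# Row 276, IPC-TOPHOL (helper735), part C: holomorphic sections in a trivialisation of the family

`D : LD V s₀` (helper563), `f : S → ℂ → Fin N → ℂ`.
* `D.fT f z x = G(z,x)⁻¹ f(σ z)(Ψ_z x)` : the coefficient of `f dx` moved to the fibre over `s₀`.
* `fT_local` : local formula; `fT_diff`, `fT_cont`.
* `hol_pair`, `hol_S`, `hol_H` : holomorphy of integrals of `fT` against compactly supported sections.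
-/

set_option autoImplicit false
set_option linter.unusedSectionVars false

noncomputable section

open Set Filter Topology MeasureTheory Matrix Metric
open scoped ContDiff ENNReal

namespace Crest.Agent.R276.FamA_563

open Crest.Agent.R271.Ho51 Crest.Agent.R276.Ipc735 Crest.Agent.R276.Top3_279
open Crest.Agent.R276.Psi_563

variable {m : ℕ} {S : Type*} [TopologicalSpace S] [RDom m S] {k N w : ℕ} {Q : Punc S k}

namespace LD

variable {V : Ipc735.VHS (m + 1) (Tot Q) N w} {s₀ : S} (D : LD V s₀)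

/-- the coefficient of `f dx` moved to the fibre over `s₀` -/
def fT (D : LD V s₀) (f : S → ℂ → Fin N → ℂ) (z : Fin m → ℂ) (x : ℂ) : Fin N → ℂ :=
  cm (D.G z x)⁻¹ *ᵥ f (D.σ z) (D.Ψ z x)

variable {D} in
/-- local formula -/
theorem fT_local (f : S → ℂ → Fin N → ℂ) {z₁ : Fin m → ℂ} {x₁ : ℂ} (hz₁ : z₁ ∈ D.U)
    (hx₁ : x₁ ∉ Q.A s₀) :
    ∀ᶠ p in 𝓝 ((z₁, x₁) : (Fin m → ℂ) × ℂ), cm (rP Q V.P s₀ x₁ p.2) *ᵥ D.fT f p.1 p.2 =
      cm (D.G z₁ x₁)⁻¹ *ᵥ lV V.P (sec f) (D.pt z₁ x₁ hz₁ hx₁).1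
        ((ch (D.pt z₁ x₁ hz₁ hx₁).1).symm (D.γ p)) := by
  obtain ⟨W, hW, hfr⟩ := frame_nhds hz₁ hx₁
  set q₁ : Tot Q := (D.pt z₁ x₁ hz₁ hx₁).1 with hq₁
  have h1 : ∀ᶠ q : Over Q (bB s₀ D.r) in 𝓝 (D.pt z₁ x₁ hz₁ hx₁), q.1 ∈ (ch q₁).source :=
    (continuous_subtype_val.continuousAt (x := D.pt z₁ x₁ hz₁ hx₁)).eventually
      ((ch q₁).open_source.mem_nhds (mem_ch q₁))
  filter_upwards [ev_pt hz₁ hx₁ h1, hW, D.ev_U x₁ hz₁, ev_A z₁ hx₁]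
    with p hsrc hpW hz hx
  have e1 := hfr (z₁, x₁) (mem_of_mem_nhds hW) p hpW hz₁ hx₁ hz hx
  simp only at e1
  have e2 : (ch q₁).symm (D.γ p) = (D.pt p.1 p.2 hz hx).1 := by
    have e3 := (isCh_ch q₁).symm_cp (hsrc hz hx)
    rw [cp_pt hz hx] at e3
    exact e3
  have e4 : sec f (D.pt p.1 p.2 hz hx).1 = f (D.σ p.1) (D.Ψ p.1 p.2) := rfl
  rw [e2, lV, hq₁, e1, e4, cm_mul, cm_mul, fT]
  rw [Matrix.mulVec_mulVec, Matrix.mulVec_mulVec, ← Matrix.mul_assoc, ← Matrix.mul_assoc,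
    cm_inv_mul_cm, Matrix.one_mul]

variable {D} in
/-- `fT` is holomorphic in `z` -/
theorem fT_diff {f : S → ℂ → Fin N → ℂ} {z₁ : Fin m → ℂ} {x₁ : ℂ} (hz₁ : z₁ ∈ D.U)
    (hx₁ : x₁ ∉ Q.A s₀) (hf : HolFib V f (D.σ z₁)) :
    DifferentiableAt ℂ (fun z => D.fT f z x₁) z₁ := by
  set q₁ : Tot Q := (D.pt z₁ x₁ hz₁ hx₁).1 with hq₁
  have h1 : AnalyticAt ℂ (lV V.P (sec f) q₁ ∘ (ch q₁).symm) (cp q₁) := hf q₁ rfl
  have h2 : (fun z => D.fT f z x₁) =ᶠ[𝓝 z₁] fun z =>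
      cm (D.G z₁ x₁)⁻¹ *ᵥ (lV V.P (sec f) q₁ ∘ (ch q₁).symm) (D.γ (z, x₁)) := by
    filter_upwards [ev_fst (fT_local f hz₁ hx₁)] with z hz
    simp only [rP_diag hx₁] at hz
    simpa using hz
  refine DifferentiableAt.congr_of_eventuallyEq ?_ h2
  have h3 : DifferentiableAt ℂ (fun z => (lV V.P (sec f) q₁ ∘ (ch q₁).symm) (D.γ (z, x₁))) z₁ := by
    have h4 : DifferentiableAt ℂ (lV V.P (sec f) q₁ ∘ (ch q₁).symm) (D.γ (z₁, x₁)) := by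
      rw [← cp_pt hz₁ hx₁]
      exact h1.differentiableAt
    exact DifferentiableAt.comp (g := lV V.P (sec f) q₁ ∘ (ch q₁).symm)
      (f := fun z => D.γ (z, x₁)) z₁ h4 (diffAt_γ hz₁ x₁)
  exact ((Matrix.mulVecLin (cm (D.G z₁ x₁)⁻¹)).toContinuousLinearMap).differentiableAt.comp z₁ h3

variable {D} in
/-- `fT` is continuous in local frames -/
theorem fT_cont {f : S → ℂ → Fin N → ℂ} {z₁ : Fin m → ℂ} {x₁ : ℂ} (hz₁ : z₁ ∈ D.U)
    (hx₁ : x₁ ∉ Q.A s₀) (hf : HolFib V f (D.σ z₁)) :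
    ContinuousAt (fun p : (Fin m → ℂ) × ℂ => cm (rP Q V.P s₀ x₁ p.2) *ᵥ D.fT f p.1 p.2)
      (z₁, x₁) := by
  set q₁ : Tot Q := (D.pt z₁ x₁ hz₁ hx₁).1 with hq₁
  have h1 : AnalyticAt ℂ (lV V.P (sec f) q₁ ∘ (ch q₁).symm) (cp q₁) := hf q₁ rfl
  have h2 : (fun p : (Fin m → ℂ) × ℂ => cm (rP Q V.P s₀ x₁ p.2) *ᵥ D.fT f p.1 p.2)
      =ᶠ[𝓝 (z₁, x₁)] fun p =>
      cm (D.G z₁ x₁)⁻¹ *ᵥ (lV V.P (sec f) q₁ ∘ (ch q₁).symm) (D.γ p) := fT_local f hz₁ hx₁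
  refine ContinuousAt.congr ?_ h2.symm
  have h3 : ContinuousAt (fun p => (lV V.P (sec f) q₁ ∘ (ch q₁).symm) (D.γ p)) (z₁, x₁) := by
    have h4 : ContinuousAt (lV V.P (sec f) q₁ ∘ (ch q₁).symm) (D.γ (z₁, x₁)) := by
      rw [← cp_pt hz₁ hx₁]
      exact h1.continuousAt
    exact ContinuousAt.comp (g := lV V.P (sec f) q₁ ∘ (ch q₁).symm)
      (f := D.γ) (x := (z₁, x₁)) h4 (contDiffAt_γ (p := (z₁, x₁)) hz₁).continuousAt
  exact ((Matrix.mulVecLin (cm (D.G z₁ x₁)⁻¹)).toContinuousLinearMap).continuous.continuousAt.comp h3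

/-- a continuous field of covectors -/
def Cov (V : Ipc735.VHS (m + 1) (Tot Q) N w) (s₀ : S) (c : ℂ → Fin N → ℂ) : Prop :=
  ∀ x₁ ∉ Q.A s₀, ContinuousAt (fun x => c x ᵥ* cm (rP Q V.P s₀ x x₁)) x₁

/-- the covector field `S(a, .)` is continuous -/
theorem cov_S {a : ℂ → Fin N → ℂ}
    (ha : ∀ x₁ ∉ Q.A s₀, ContinuousAt (lV (V.res s₀).P a x₁) x₁) :
    Cov V s₀ (fun x => star (a x) ᵥ* (V.res s₀).S x) := by
  intro x₁ hx₁
  rw [← (V.isRes s₀).P]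
  set R := V.res s₀ with hR
  obtain ⟨U, hU, hP⟩ := R.ndc x₁ (by simpa using hx₁)
  have hd : R.P x₁ x₁ = 1 := R.ndc.diag (by simpa using hx₁)
  have h1 : (fun x => star (lV R.P a x₁ x) ᵥ* R.S x₁) =ᶠ[𝓝 x₁]
      fun x => star (a x) ᵥ* R.S x ᵥ* cm (R.P x x₁) := by
    filter_upwards [hU, R.flatS x₁ hx₁] with x hx hS
    have h2 := hP x₁ (mem_of_mem_nhds hU) x hx x₁ (mem_of_mem_nhds hU)
    rw [hd] at h2
    have h3 : cm (R.P x₁ x) * cm (R.P x x₁) = 1 := by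
      rw [← cm_mul, h2]; simp
    rw [hS, lV, Matrix.star_mulVec, Matrix.vecMul_vecMul, Matrix.vecMul_vecMul,
      Matrix.mul_assoc, Matrix.mul_assoc, h3, Matrix.mul_one]
  refine ContinuousAt.congr ?_ h1
  have h4 := ha x₁ hx₁
  have h5 : ContinuousAt (fun x => star (lV R.P a x₁ x)) x₁ := h4.star
  exact (Continuous.matrix_vecMul continuous_id continuous_const).continuousAt.comp h5

variable {D} in
/-- **pairing with a compactly supported continuous field of covectors** -/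
theorem hol_pair {U' : Set (Fin m → ℂ)} (hU' : IsOpen U') (hUU : U' ⊆ D.U)
    {f : S → ℂ → Fin N → ℂ} (hf : ∀ z ∈ U', HolFib V f (D.σ z)) {K : Set ℂ} (hK : IsCompact K)
    (hKA : ∀ x ∈ K, x ∉ Q.A s₀) {c : ℂ → Fin N → ℂ} (hc : Cov V s₀ c)
    {g : (Fin m → ℂ) → ℂ → ℂ} (hg : ContinuousOn (fun p : (Fin m → ℂ) × ℂ => g p.1 p.2) (U' ×ˢ K))
    (hgd : ∀ x ∈ K, DifferentiableOn ℂ (fun z => g z x) U') :
    AnalyticOnNhd ℂ (fun z => ∫ x in K, g z x * (c x ⬝ᵥ D.fT f z x)) U' := by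
  refine TopHol_735.analyticOnNhd_integral hK volume hU'
    (f := fun z x => g z x * (c x ⬝ᵥ D.fT f z x)) ?_ ?_
  · refine hg.mul ?_
    rintro ⟨z₁, x₁⟩ ⟨hz₁, hx₁⟩
    refine ContinuousAt.continuousWithinAt ?_
    have hxA : x₁ ∉ Q.A s₀ := hKA x₁ hx₁
    have h1 := fT_cont (hUU hz₁) hxA (hf z₁ hz₁)
    have h2 : ContinuousAt (fun p : (Fin m → ℂ) × ℂ => c p.2 ᵥ* cm (rP Q V.P s₀ p.2 x₁))
        (z₁, x₁) :=
      ContinuousAt.comp (g := fun x => c x ᵥ* cm (rP Q V.P s₀ x x₁))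
        (f := fun p : (Fin m → ℂ) × ℂ => p.2) (x := (z₁, x₁)) (hc x₁ hxA) continuousAt_snd
    have h3 : ContinuousAt (fun p : (Fin m → ℂ) × ℂ =>
        (c p.2 ᵥ* cm (rP Q V.P s₀ p.2 x₁)) ⬝ᵥ (cm (rP Q V.P s₀ x₁ p.2) *ᵥ D.fT f p.1 p.2))
        (z₁, x₁) := by
      simp only [dotProduct]
      refine tendsto_finsetSum _ fun i _ => ?_
      exact Tendsto.mul ((continuous_apply i).continuousAt.comp h2)
        ((continuous_apply i).continuousAt.comp h1)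
    refine h3.congr ?_
    obtain ⟨U, hU, hP⟩ := (V.res s₀).ndc x₁ (by simpa using hxA)
    rw [(V.isRes s₀).P] at hP
    have hev : ∀ᶠ p : (Fin m → ℂ) × ℂ in 𝓝 (z₁, x₁), p.2 ∈ U ∧ p.2 ∉ Q.A s₀ :=
      (continuousAt_snd (p := ((z₁, x₁) : (Fin m → ℂ) × ℂ))).eventually
        ((show ∀ᶠ x in 𝓝 x₁, x ∈ U from hU).and (eventually_notMem _ hxA))
    filter_upwards [hev] with p hp
    have h4 := hP p.2 hp.1 x₁ (mem_of_mem_nhds hU) p.2 hp.1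
    rw [rP_diag hp.2] at h4
    rw [Matrix.dotProduct_mulVec, Matrix.vecMul_vecMul, ← cm_mul, h4]
    simp
  · intro x hx
    refine (hgd x hx).mul ?_
    intro z hz
    refine DifferentiableAt.differentiableWithinAt ?_
    have h1 := fT_diff (hUU hz) (hKA x hx) (hf z hz)
    simp only [dotProduct]
    exact DifferentiableAt.fun_sum fun i _ => (differentiableAt_pi.1 h1 i).const_mul _

end LD

end Crest.Agent.R276.FamA_563
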