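import Crest.Agent.R276.Nat10_591
import Crest.Agent.R276.FamB_563
import Crest.Agent.R276.TopHolC_735
import Crest.Agent.R276.TopE_175
import Crest.Agent.R276.PvT_175

/-!
# R276, IPC-LOC (helper175): the class of a holomorphic family of top forms is holomorphic

`hol_top` : for `f` holomorphic with `f s` in the top piece, every class `v` has a representative `ζ` (a
compactly supported smooth closed form) whose pairing with the transported element of `f dx` is holomorphic.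
-/

set_option autoImplicit false
set_option linter.unusedSectionVars false

noncomputable section

open Set Filter Topology MeasureTheory Matrix Metric UniformSpace
open scoped ContDiff ComplexConjugate

namespace Crest.Agent.R276.TopHolT_175

open Crest.Agent.R271.Ho51 Crest.Agent.R276.Ipc735 Crest.Agent.R276.Top3_279
open IpcG1_975 Psi_563 FamA_563 HsB_817 Wcl_175 DR_175 PvO_175 Nat_591 TopE_175

variable {m : ℕ} {S : Type*} [TopologicalSpace S] [RDom m S] {k N w : ℕ} {Q : Punc S k}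
variable {V : Ipc735.VHS (m + 1) (Tot Q) N w} {s₀ : S}

/-- the pairing of a continuous field of covectors with `fT` is continuous -/
theorem cont_pair {D : LD V s₀} {U' : Set (Fin m → ℂ)} (hUU : U' ⊆ D.U)
    {f : S → ℂ → Fin N → ℂ} (hf : ∀ z ∈ U', HolFib V f (D.σ z))
    {c : ℂ → Fin N → ℂ} (hc : LD.Cov V s₀ c) {z₁ : Fin m → ℂ} (hz₁ : z₁ ∈ U') {x₁ : ℂ}
    (hxA : x₁ ∉ Q.A s₀) :
    ContinuousAt (fun p : (Fin m → ℂ) × ℂ => c p.2 ⬝ᵥ D.fT f p.1 p.2) (z₁, x₁) := by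
  have h1 := LD.fT_cont (hUU hz₁) hxA (hf z₁ hz₁)
  have h2 : ContinuousAt (fun p : (Fin m → ℂ) × ℂ => c p.2 ᵥ* cm (rP Q V.P s₀ p.2 x₁))
      (z₁, x₁) :=
    ContinuousAt.comp (g := fun x => c x ᵥ* cm (rP Q V.P s₀ x x₁))
      (f := fun p : (Fin m → ℂ) × ℂ => p.2) (x := (z₁, x₁)) (hc x₁ hxA) continuousAt_snd
  have h3 : ContinuousAt (fun p : (Fin m → ℂ) × ℂ =>
      (c p.2 ᵥ* cm (rP Q V.P s₀ p.2 x₁)) ⬝ᵥ (cm (rP Q V.P s₀ x₁ p.2) *ᵥ D.fT f p.1 p.2))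
      (z₁, x₁) := by
    simp only [dotProduct]
    refine tendsto_finsetSum _ fun i _ => ?_
    exact Tendsto.mul ((continuous_apply i).continuousAt.comp h2)
      ((continuous_apply i).continuousAt.comp h1)
  refine h3.congr ?_
  obtain ⟨U, hU, hP⟩ := (V.res s₀).ndc x₁ (by simpa using hxA)
  rw [(V.isRes s₀).P] at hP
  have hev : ∀ᶠ p : (Fin m → ℂ) × ℂ in 𝓝 (z₁, x₁), p.2 ∈ U ∧ p.2 ∉ Q.A s₀ :=
    (continuousAt_snd (p := ((z₁, x₁) : (Fin m → ℂ) × ℂ))).eventually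
      ((show ∀ᶠ x in 𝓝 x₁, x ∈ U from hU).and (eventually_notMem _ hxA))
  filter_upwards [hev] with p hp
  have h4 := hP p.2 hp.1 x₁ (mem_of_mem_nhds hU) p.2 hp.1
  rw [LD.rP_diag hp.2] at h4
  rw [Matrix.dotProduct_mulVec, Matrix.vecMul_vecMul, ← Ipc735.cm_mul, h4]
  simp

theorem diff_pair {D : LD V s₀} {U' : Set (Fin m → ℂ)} (hUU : U' ⊆ D.U)
    {f : S → ℂ → Fin N → ℂ} (hf : ∀ z ∈ U', HolFib V f (D.σ z))
    (c : Fin N → ℂ) {z₁ : Fin m → ℂ} (hz₁ : z₁ ∈ U') {x₁ : ℂ}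
    (hxA : x₁ ∉ Q.A s₀) :
    DifferentiableAt ℂ (fun z => c ⬝ᵥ D.fT f z x₁) z₁ := by
  have h1 := LD.fT_diff (hUU hz₁) hxA (hf z₁ hz₁)
  simp only [dotProduct]
  exact DifferentiableAt.fun_sum fun i _ => (differentiableAt_pi.1 h1 i).const_mul _

/-- **pairing of `f dx`, pulled back, with a compactly supported form** -/
theorem hol_int {D : LD V s₀} {U' : Set (Fin m → ℂ)} (hU' : IsOpen U') (hUU : U' ⊆ D.U)
    {f : S → ℂ → Fin N → ℂ} (hf : ∀ z ∈ U', HolFib V f (D.σ z)) {K : Set ℂ} (hK : IsCompact K)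
    (hKA : ∀ x ∈ K, x ∉ Q.A s₀) {c₁ c₂ : ℂ → Fin N → ℂ} (h₁ : LD.Cov V s₀ c₁)
    (h₂ : LD.Cov V s₀ c₂) :
    AnalyticOnNhd ℂ (fun z => ∫ x in K, (D.Bm.Q (D.b z) x * (c₂ x ⬝ᵥ D.fT f z x) -
      D.Bm.P (D.b z) x * (c₁ x ⬝ᵥ D.fT f z x))) U' := by
  refine TopHol_735.analyticOnNhd_integral hK volume hU'
    (f := fun z x => D.Bm.Q (D.b z) x * (c₂ x ⬝ᵥ D.fT f z x) -
      D.Bm.P (D.b z) x * (c₁ x ⬝ᵥ D.fT f z x)) ?_ ?_
  · rintro ⟨z₁, x₁⟩ ⟨hz₁, hx₁⟩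
    refine ContinuousAt.continuousWithinAt ?_
    have hz := hUU hz₁
    have hP := (FamB_563.contDiffAt_Pz (D := D) (p := (z₁, x₁)) hz).continuousAt
    have hQ := (FamB_563.contDiffAt_Qz (D := D) (p := (z₁, x₁)) hz).continuousAt
    exact (hQ.mul (cont_pair hUU hf h₂ hz₁ (hKA x₁ hx₁))).sub
      (hP.mul (cont_pair hUU hf h₁ hz₁ (hKA x₁ hx₁)))
  · intro x hx z hz
    refine DifferentiableAt.differentiableWithinAt ?_
    have h1 : ∀ i, DifferentiableAt ℂ (fun z => D.b z i) z := fun i =>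
      (differentiableAt_pi.1 (LD.diffAt_b (hUU hz))) i
    have hP : DifferentiableAt ℂ (fun z => D.Bm.P (D.b z) x) z := by
      simp only [Bumps.P_eq]
      exact (differentiableAt_const _).add
        (DifferentiableAt.fun_sum fun i _ => (h1 i).mul_const _)
    have hQ : DifferentiableAt ℂ (fun z => D.Bm.Q (D.b z) x) z := by
      simp only [Bumps.Q_eq]
      exact DifferentiableAt.fun_sum fun i _ => (h1 i).mul_const _
    exact (hQ.mul (diff_pair hUU hf (c₂ x) hz (hKA x hx))).sub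
      (hP.mul (diff_pair hUU hf (c₁ x) hz (hKA x hx)))

/-- the transported element of `f dx` is represented by the pulled back form -/
theorem rep_TV {D : LD V s₀} {z : Fin m → ℂ} (hz : z ∈ hU D)
    {u : (pvOf (V.res (D.σ z))).L} {α : ℂ → (Fin N → ℂ) × (Fin N → ℂ)}
    (h : (pvOf (V.res (D.σ z))).Rep u α) :
    (pvOf (V.res s₀)).Rep (TV D z u) (pb (Kf (D.Ψ z) (Kv D z)) (D.Ψ z) α) := by
  have h1 : TV D z u = (psiV D hz).psiM.mmor.T u := TV_of hz u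
  rw [h1]
  exact RepC_201.Rep.T (psiV D hz).psiM.mmor h

/-- covectors from a smooth form -/
theorem cov_of_sm {a : ℂ → Fin N → ℂ} (ha : (pvOf (V.res s₀)).Sm a) :
    LD.Cov V s₀ (fun x => star (a x) ᵥ* (V.res s₀).S x) := by
  refine LD.cov_S fun x₁ hx₁ => ?_
  exact (((sm_iff _ _).1 ha) x₁ hx₁).continuousAt

/-- pairing of a compactly supported form with a represented element -/
theorem inner_be (ζ : (pvOf (V.res s₀)).mb.dbl.H0) {u : (pvOf (V.res s₀)).L}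
    {φ : ℂ → (Fin N → ℂ) × (Fin N → ℂ)} (h : (pvOf (V.res s₀)).Rep u φ) :
    inner ℂ ((pvOf (V.res s₀)).be (ζ : (pvOf (V.res s₀)).L)) u =
    ∫ x, ((star (ζ.f x).2 ᵥ* (V.res s₀).S x) ⬝ᵥ (φ x).2 -
      (star (ζ.f x).1 ᵥ* (V.res s₀).S x) ⬝ᵥ (φ x).1) := by
  have h1 : (pvOf (V.res s₀)).be (ζ : (pvOf (V.res s₀)).L) =
      ((pvOf (V.res s₀)).mb.dbl.s0 (fun x => (pvOf (V.res s₀)).bt x (ζ.f x))
        (FB.app_mem_A0 (pvOf (V.res s₀)).ok_bt.1 ζ.mem) : (pvOf (V.res s₀)).mb.dbl.H0) :=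
    (pvOf (V.res s₀)).mb.dbl.op_coe (pvOf (V.res s₀)).ok_bt ζ
  rw [h1, h.2]
  refine integral_congr_ae (Eventually.of_forall fun x => ?_)
  simp only [MB.s0_f]
  by_cases hx : x ∈ ((Q.A s₀ : Set ℂ)ᶜ)
  · rw [PsiP.G_bt _ hx, pvOf_S, pvOf_S, dotProduct_mulVec, dotProduct_mulVec]
  · have h2 : ζ.f x = 0 := (pvOf (V.res s₀)).mb.dbl.f_eq_zero ζ hx
    rw [h2]
    simp

/-- pairing of a compactly supported form with a transported `f dx` -/
theorem inner_TV {D : LD V s₀} {z : Fin m → ℂ} (hz : z ∈ hU D) (ζ : (pvOf (V.res s₀)).mb.dbl.H0)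
    {f : S → ℂ → Fin N → ℂ} (hf : TopS (pvOf (V.res (D.σ z))) (f (D.σ z))) :
    inner ℂ ((pvOf (V.res s₀)).be (ζ : (pvOf (V.res s₀)).L))
      (TV D z (emb (pvOf (V.res (D.σ z))) (f (D.σ z)))) =
    ∫ x, (D.Bm.Q (D.b z) x * ((star (ζ.f x).2 ᵥ* (V.res s₀).S x) ⬝ᵥ D.fT f z x) -
      D.Bm.P (D.b z) x * ((star (ζ.f x).1 ᵥ* (V.res s₀).S x) ⬝ᵥ D.fT f z x)) := by
  rw [inner_be ζ (rep_TV hz hf.rep)]
  refine integral_congr_ae (Eventually.of_forall fun x => ?_)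
  have h1 : pb (Kf (D.Ψ z) (Kv D z)) (D.Ψ z) (fx (f (D.σ z))) x =
      (D.Bm.P (D.b z) x • D.fT f z x, D.Bm.Q (D.b z) x • D.fT f z x) := by
    show Kf (D.Ψ z) (Kv D z) x (f (D.σ z) (D.Ψ z x), 0) = _
    rw [Kf_apply]
    have h2 : Kv D z x (f (D.σ z) (D.Ψ z x)) = D.fT f z x := rfl
    simp only [h2, map_zero]
    unfold Psi_563.pull
    simp only [smul_zero, add_zero]
    rfl
  simp only [h1, dotProduct_smul, smul_eq_mul]

/-- **`HolA`** : the pairing of the transported element of `f dx` with any smooth closed form with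
compact support is holomorphic -/
theorem holA (D : LD V s₀) (f : S → ℂ → Fin N → ℂ) (hf : ∀ᶠ s in 𝓝 s₀, (V.res s).Top (f s))
    (hh : ∀ᶠ s in 𝓝 s₀, HolFib V f s) (ζ : (pvOf (V.res s₀)).mb.dbl.H0) :
    AnalyticAt ℂ (fun x => inner ℂ ((pvOf (V.res s₀)).be (ζ : (pvOf (V.res s₀)).L))
      (TV D x (emb (pvOf (V.res (D.σ x))) (f (D.σ x))))) (cp s₀) := by
  -- the neighbourhood
  have hσ : ContinuousAt D.σ (cp s₀) := LD.continuousAt_σ D.center_mem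
  have hσ' : Tendsto D.σ (𝓝 (cp s₀)) (𝓝 s₀) := by
    have := hσ.tendsto
    rwa [D.σ_center] at this
  have hev : ∀ᶠ x in 𝓝 (cp s₀), x ∈ hU D ∧ (V.res (D.σ x)).Top (f (D.σ x)) ∧
      HolFib V f (D.σ x) :=
    (show ∀ᶠ x in 𝓝 (cp s₀), x ∈ hU D from (isOpen_hU D).mem_nhds (mem_hU D)).and
      ((hσ'.eventually hf).and (hσ'.eventually hh))
  obtain ⟨U', hU'sub, hU'o, hU'm⟩ := _root_.mem_nhds_iff.1 hev
  have hUU : U' ⊆ D.U := fun x hx => half_sub D (hU'sub hx).1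
  obtain ⟨K, hK, hKc, h0⟩ := ζ.mem.2
  have hKA : ∀ x ∈ K, x ∉ Q.A s₀ := fun x hx hA => hK hx (by exact_mod_cast hA)
  have hsm := FB.sm_dbl.1 ζ.mem.1
  have han := hol_int (D := D) hU'o hUU (fun z hz => (hU'sub hz).2.2) hKc hKA
    (cov_of_sm hsm.1) (cov_of_sm hsm.2)
  refine (han _ hU'm).congr ?_
  filter_upwards [hU'o.mem_nhds hU'm] with x hx
  have h1 := hU'sub hx
  have h2 := inner_TV h1.1 ζ (f := f) (PvO_175.Top.topS h1.2.1)
  refine Eq.trans ?_ h2.symm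
  refine setIntegral_eq_integral_of_forall_compl_eq_zero fun y hy => ?_
  rw [h0 y hy]
  simp

/-- **the field `hol`** -/
theorem hol_top [T2Space S] (D : LD V s₀) {F₀ : HsB_817.Fix (pvOf (V.res s₀)).L (Wf V s₀)}
    (h₀ : IsFixV V s₀ F₀) {f : S → ℂ → Fin N → ℂ} (hf : ∀ᶠ s in 𝓝 s₀, (V.res s).Top (f s))
    (hh : ∀ᶠ s in 𝓝 s₀, HolFib V f s) (v : Wf V s₀) :
    ∃ ζ ∈ F₀.Zc, F₀.clL ζ = v ∧ AnalyticAt ℂ (fun x => inner ℂ (F₀.β ζ)
      (TV D x (emb (pvOf (V.res ((ch s₀).symm x))) (f ((ch s₀).symm x))))) (cp s₀) := by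
  obtain ⟨ζ, rfl⟩ := cW_surj V s₀ v
  have hZ : ((ζ : (pvOf (V.res s₀)).mb.dbl.H0) : (pvOf (V.res s₀)).L) ∈ F₀.Zc := by
    rw [h₀.zc]
    exact (pvOf (V.res s₀)).ZS_mem_Zc ζ.2
  refine ⟨_, hZ, ?_, ?_⟩
  · rw [F₀.clL_eq hZ]
    exact h₀.zs ζ hZ
  have e : F₀.β = (pvOf (V.res s₀)).be := h₀.be
  rw [e]
  exact holA D f hf hh (ζ : (pvOf (V.res s₀)).mb.dbl.H0)

end Crest.Agent.R276.TopHolT_175
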