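import Crest.Agent.R276.LocG_454
import Crest.Agent.R276.ActU_591
import Crest.Agent.R276.TopHolT_175
import Crest.Agent.R276.FamE_563
import Crest.Agent.R276.Step_454

/-!
# R276, IPC-STEP (helper454): LOC, part F: the end

`loc_of : (∀ V, HolB V) → Loc`, `oneStep_of : (∀ V, HolB V) → OneStep`.
-/

set_option autoImplicit false
set_option linter.unusedSectionVars false

noncomputable section

open Set Filter Topology MeasureTheory Matrix Metric UniformSpace
open scoped ContDiff ComplexConjugate

namespace Crest.Agent.R276.Step_454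

open Crest.Agent.R271.Ho51 Crest.Agent.R276.Ipc735 Crest.Agent.R276.Top3_279
open IpcG1_975 Psi_563 FamA_563 FamB_563 HsB_817 HsC_817 HsE_817 K4b_817 Wcl_175 DR_175 PvO_175
open Nat_591 FamD_563

section

variable {m k N w : ℕ} {S : Type} [TopologicalSpace S] [RDom m S] {Q : Punc S k}
  (V : Ipc735.VHS (m + 1) (Tot Q) N w)

theorem holA : HolA V := fun _ D f hf hh ζ => TopHolT_175.holA D f hf hh _

/-- the action on `L²` of helper591 -/
def auV {V : Ipc735.VHS (m + 1) (Tot Q) N w} {Γ : Type} [Group Γ] [T2Space S] (ρ : Act V Γ) :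
    AU ρ where
  U := actU ρ
  form := actU_form ρ
  ex g s u hu := (actU_ex ρ g s u).2 hu
  zc g s u hu := (actU_zc ρ g s u).2 hu
  ty g s P _ u := actU_ty ρ g s P u
  rep g s u α hu := actU_rep ρ g s hu

/-- LOC for one variation -/
def locStepV [T2Space S] (hB : HolB V) : LocStep Q V :=
  locStep (topV V (fun _ D => FamE_563.n3 D) (holA V) hB)
    (fun z => FamE_563.exists_triv V z) (fun _ _ ρ => ⟨(auV ρ).actV _ _ _⟩)

end

/-- **LOC from the last holomorphy statement** -/
theorem loc_of (hB : ∀ (m k N w : ℕ) (S : Type) [TopologicalSpace S] [T2Space S]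
    [PreconnectedSpace S] [RDom m S] (Q : Punc S k) (V : VHS (m + 1) (Tot Q) N w), HolB V) : Loc :=
  fun m k N w S _ _ _ _ Q V => ⟨locStepV V (hB m k N w S Q V)⟩

theorem oneStep_of (hB : ∀ (m k N w : ℕ) (S : Type) [TopologicalSpace S] [T2Space S]
    [PreconnectedSpace S] [RDom m S] (Q : Punc S k) (V : VHS (m + 1) (Tot Q) N w), HolB V) :
    OneStep := oneStep_of_loc (loc_of hB)

end Crest.Agent.R276.Step_454
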