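import Crest.Agent.R276.WclT_175

/-!
# Row 276, IPC-TOP3 (helper279), part 12: the automorphisms on smooth closed forms

`ρ : Act V Γ`, `g : Γ`, `s : S`: the class of `(ρ_g a, ρ_g b)` is `uW ρ g s` of the class of `(a, b)`
(input of helper454's `ActPieces.cl`).
-/

set_option autoImplicit false
set_option linter.unusedSectionVars false

noncomputable section

open Set Filter Topology Matrix
open Crest.Agent.R271.Ho51
open Crest.Agent.R276.Ipc735 Crest.Agent.R276.DR_175 Crest.Agent.R276.Wcl_175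

namespace Crest.Agent.R276.Top3_279

variable {N w : ℕ} {m : ℕ} {S : Type*} [TopologicalSpace S] [T2Space S] [RDom m S] {k : ℕ} {Q : Punc S k}
  {V : VHS (m + 1) (Tot Q) N w} {Γ : Type} [Group Γ] (ρ : Act V Γ)

open Classical in
/-- the automorphism on the fibre over `s` as a function on the plane -/
def aG (g : Γ) (s : S) (x : ℂ) : GL (Fin N) ℤ :=
  if hx : x ∉ Q.A s then ρ.ρ g (Tot.mk Q s x hx) else 1

lemma aG_of (g : Γ) {s : S} {x : ℂ} (hx : x ∉ Q.A s) : aG ρ g s x = ρ.ρ g (Tot.mk Q s x hx) := by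
  unfold aG; rw [dif_pos hx]

lemma cm_aG (g : Γ) {s : S} {x : ℂ} (hx : x ∉ Q.A s) :
    cm (aG ρ g s x) = rM Q (fun q => cm (ρ.ρ g q)) s x := by
  unfold rM; rw [dif_pos hx, aG_of ρ g hx]

/-- `(id, aG)` is an automorphism of the flat bundle of the fibre -/
theorem plFrame_act (g : Γ) (s : S) :
    PlFrame ((Q.A s : Set ℂ)ᶜ) ((Q.A s : Set ℂ)ᶜ) (rP Q V.P s) (rP Q V.P s) (fun x => x)
      (aG ρ g s) where
  smooth := fun _ _ => contDiffAt_id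
  maps := fun _ hz => hz
  fr := by
    intro z hz
    obtain ⟨U, hU, h⟩ := frame_fP (act_frame ρ g) s ⟨z, hz⟩
    obtain ⟨W, hW, h2⟩ := exists_nhds _ hU
    refine ⟨W, hW, fun x hx y hy => ?_⟩
    obtain ⟨hx', hx2⟩ := h2 x hx
    obtain ⟨hy', hy2⟩ := h2 y hy
    have h3 := h _ hx2 _ hy2
    have e1 : rP Q V.P s x y = fP V.P s ⟨x, hx'⟩ ⟨y, hy'⟩ := rP_eq V s ⟨x, hx'⟩ ⟨y, hy'⟩
    rw [e1, aG_of ρ g hx', aG_of ρ g hy']
    exact h3

lemma wz_id' (z : ℂ) : Ipc735.wz (fun x : ℂ => x) z = 1 := by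
  refine wz_of_hasFDerivAt (q := 0) ?_
  have h := hasFDerivAt_id (𝕜 := ℝ) z
  refine h.congr_fderiv ?_
  ext; simp [wir_apply]

lemma wb_id' (z : ℂ) : Ipc735.wb (fun x : ℂ => x) z = 0 := by
  refine wb_of_hasFDerivAt (p := 1) ?_
  have h := hasFDerivAt_id (𝕜 := ℝ) z
  refine h.congr_fderiv ?_
  ext; simp [wir_apply]

/-- the form `ρ_g a` -/
def aF (g : Γ) (s : S) (a : ℂ → Fin N → ℂ) (x : ℂ) : Fin N → ℂ :=
  rM Q (fun q => cm (ρ.ρ g q)) s x *ᵥ a x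

lemma aF_eq (g : Γ) {s : S} (a : ℂ → Fin N → ℂ) {x : ℂ} (hx : x ∉ Q.A s) :
    aF ρ g s a x = DR_175.act (aG ρ g s x) (a x) := by
  unfold aF
  rw [← cm_aG ρ g hx, act_apply]

lemma aF_of (g : Γ) {s : S} (a : ℂ → Fin N → ℂ) {x : ℂ} (hx : x ∉ Q.A s) :
    aF ρ g s a x = cm (ρ.ρ g (Tot.mk Q s x hx)) *ᵥ a x := by
  unfold aF rM
  rw [dif_pos hx]

lemma aF_plA (g : Γ) {s : S} (a b : ℂ → Fin N → ℂ) {x : ℂ} (hx : x ∉ Q.A s) :
    aF ρ g s a x = plA (fun x => x) (aG ρ g s) a b x := by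
  unfold plA plS
  rw [wz_id', wb_id', map_zero, zero_smul, one_smul, add_zero, aF_eq ρ g a hx]

lemma aF_plB (g : Γ) {s : S} (a b : ℂ → Fin N → ℂ) {x : ℂ} (hx : x ∉ Q.A s) :
    aF ρ g s b x = plB (fun x => x) (aG ρ g s) a b x := by
  unfold plB plS
  rw [wz_id', wb_id', map_one, zero_smul, one_smul, zero_add, aF_eq ρ g b hx]

/-- class of `(ρ_g a, ρ_g b)` -/
theorem clH_act (g : Γ) {s : S} {a b : ℂ → Fin N → ℂ} (h : SC (V.res s) a b) :
    SC (V.res s) (aF ρ g s a) (aF ρ g s b) ∧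
      clH V s (aF ρ g s a) (aF ρ g s b) = isoF (rC N) (act_frame ρ g) s (clH V s a b) := by
  obtain ⟨u, hu, hr⟩ := h.exists_rep
  have H := plFrame_act ρ g s
  have hu' := H.cocOn hu
  have hr' : DR_175.Rep ((Q.A s : Set ℂ)ᶜ) (rP Q V.P s) (plU (fun x => x) (aG ρ g s) u)
      (aF ρ g s a) (aF ρ g s b) :=
    Wcl_175.Rep.congr (Rep.pull H hr) (fun z hz => aF_plA ρ g a b hz)
      (fun z hz => aF_plB ρ g a b hz)
  refine ⟨sc_of_rep hu' hr', ?_⟩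
  rw [clH_eq hu hr, clH_eq hu' hr']
  unfold Top3_279.cl
  rw [isoF_cls]
  congr 1
  funext x y
  show DR_175.act (aG ρ g s x.1) (u x.1 y.1) = _
  rw [aG_of ρ g x.2]
  rfl

/-- **`ActPieces.cl` on smooth parabolic forms** -/
theorem wcl_act (g : Γ) {s : S} {a b : ℂ → Fin N → ℂ} (h : SC (V.res s) a b)
    (hp : (V.res s).Par a b) :
    SC (V.res s) (aF ρ g s a) (aF ρ g s b) ∧ (V.res s).Par (aF ρ g s a) (aF ρ g s b) ∧
      wcl V s (aF ρ g s a) (aF ρ g s b) = uW ρ g s (wcl V s a b) := by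
  obtain ⟨h1, h2⟩ := clH_act ρ g h
  have hp' : (V.res s).Par (aF ρ g s a) (aF ρ g s b) := by
    rw [← clH_mem_par_iff h1, h2]
    exact isoF_par (rC N) (act_frame ρ g) s ((clH_mem_par_iff h).2 hp)
  refine ⟨h1, hp', ?_⟩
  apply Subtype.ext
  rw [wcl_val h1 hp', h2, uW_val, wcl_val h hp]

/-- compact supports are preserved -/
theorem cf_act (g : Γ) {s : S} {a b : ℂ → Fin N → ℂ} (h : CF (V.res s) a b) :
    CF (V.res s) (aF ρ g s a) (aF ρ g s b) := by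
  obtain ⟨K, hK, hKA, h0⟩ := h.cpt
  refine ⟨(clH_act ρ g h.toSC).1, K, hK, hKA, fun x hx => ?_⟩
  obtain ⟨ha, hb⟩ := h0 x hx
  unfold aF
  rw [ha, hb, Matrix.mulVec_zero]
  exact ⟨rfl, rfl⟩

end Crest.Agent.R276.Top3_279
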