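import Crest.Agent.R276.LocE_454
import Crest.Agent.R276.Top3l_279

/-!
# R276, IPC-STEP (helper454): LOC, part G: the action

`AU ρ` : the action on `L²` (helper591's `actU`), `actV : ActPieces (topV V ..) Γ ρ`.
-/

set_option autoImplicit false
set_option linter.unusedSectionVars false

noncomputable section

open Set Filter Topology MeasureTheory Matrix Metric UniformSpace
open scoped ContDiff ComplexConjugate

namespace Crest.Agent.R276.Step_454

open Crest.Agent.R271.Ho51 Crest.Agent.R276.Ipc735 Crest.Agent.R276.Top3_279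
open IpcG1_975 Psi_563 FamA_563 FamB_563 HsB_817 HsC_817 HsE_817 K4b_817 Wcl_175 DR_175 PvO_175
open Nat_591 FamD_563

local notation "⟪" x ", " y "⟫" => inner ℂ x y

variable {m k N w : ℕ} {S : Type} [TopologicalSpace S] [T2Space S] [RDom m S] {Q : Punc S k}
  {V : Ipc735.VHS (m + 1) (Tot Q) N w} {Γ : Type} [Group Γ]

/-- the action on `L²` -/
structure AU (ρ : Act V Γ) where
  U : Γ → ∀ s, (pvOf (V.res s)).L →L[ℂ] (pvOf (V.res s)).L
  form : ∀ g s u v, ⟪(pvOf (V.res s)).be (U g s u), U g s v⟫ = ⟪(pvOf (V.res s)).be u, v⟫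
  ex : ∀ g s, ∀ u ∈ (pvOf (V.res s)).Ex, U g s u ∈ (pvOf (V.res s)).Ex
  zc : ∀ g s, ∀ u ∈ (pvOf (V.res s)).Zc, U g s u ∈ (pvOf (V.res s)).Zc
  ty : ∀ g s, ∀ P ≤ w + 1, ∀ u, (pvOf (V.res s)).Ty P (U g s u) = U g s ((pvOf (V.res s)).Ty P u)
  rep : ∀ g s (u : (pvOf (V.res s)).L) (α : ℂ → (Fin N → ℂ) × (Fin N → ℂ)),
    (pvOf (V.res s)).Rep u α → (pvOf (V.res s)).Rep (U g s u)
      (fun x => (aF ρ g s (fun x => (α x).1) x, aF ρ g s (fun x => (α x).2) x))

variable {ρ : Act V Γ} (A : AU ρ)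

theorem AU.cl (g : Γ) (s : S) (a : (pvOf (V.res s)).L) (ha : a ∈ (pvOf (V.res s)).Zc) :
    (fixV V s).clL (A.U g s a) = uW ρ g s ((fixV V s).clL a) := by
  obtain ⟨ζ, hζ, hex⟩ := (inpOf (V.res s)).exists_smooth ha
  have hζz := (pvOf (V.res s)).ZS_mem_Zc hζ
  have e1 : (fixV V s).clL a = (fixV V s).clL (ζ : (pvOf (V.res s)).L) :=
    ((fixV V s).clL_eq_iff ha hζz).2 hex
  have e2 : (fixV V s).clL (A.U g s a) = (fixV V s).clL (A.U g s (ζ : (pvOf (V.res s)).L)) := by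
    refine ((fixV V s).clL_eq_iff (A.zc g s a ha) (A.zc g s _ hζz)).2 ?_
    rw [← map_sub]
    exact A.ex g s _ hex
  have hrep := (pvOf (V.res s)).rep_coe ζ
  obtain ⟨h1, h2⟩ := par_of_rep hζz hrep
  rw [e1, e2, clL_rep hζz hrep, clL_rep (A.zc g s _ hζz) (A.rep g s _ _ hrep),
    ← (wcl_act ρ g h1 h2).2.2]

variable (h3 : ∀ (z : S) (D : LD V z), N3 D) (hA : HolA V) (hB : HolB V)

/-- **the action** -/
def AU.actV : ActPieces (topV V h3 hA hB) Γ ρ where
  u g s := uW ρ g s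
  one s v := uW_one ρ s v
  mul g h s v := uW_mul ρ g h s v
  int g s v hv := uW_int ρ g s v hv
  flat g z := uW_flat ρ g z
  U := A.U
  form := A.form
  zc := A.zc
  cl g s a ha := A.cl g s a ha
  ty := A.ty
  emb g s f hf := by
    have h1 := (Top.topS hf).rep
    have h2 := A.rep g s _ _ h1
    refine TopE_175.emb_eq ?_
    refine RepC_201.Rep.congr (M := (pvOf (V.res s)).mb.dbl) h2 fun z hz => ?_
    refine Prod.ext rfl ?_
    show aF ρ g s (fun _ => 0) z = (0 : Fin N → ℂ)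
    unfold aF
    rw [mulVec_zero]

end Crest.Agent.R276.Step_454
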