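import Crest.Agent.R276.TopHolF_735
import Crest.Agent.R276.LocF_454
/-! # Row 276: `Loc` and `OneStep` (454's `loc_of`, `oneStep_of` + `HolB`) -/
namespace Crest.Agent.R276.LocT_735
open Crest.Agent.R276.Step_454 Crest.Agent.R276.Ipc735
theorem loc : Loc := loc_of fun _ _ _ _ _ _ _ _ _ _ V => TopHolF_735.holB V
theorem oneStep : OneStep := oneStep_of fun _ _ _ _ _ _ _ _ _ _ V => TopHolF_735.holB V
end Crest.Agent.R276.LocT_735
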