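import Mathlib
import Crest.Agent.R271.H3_51
import Crest.Agent.R276.IpcDefs_735

/-!
# Row 276 (S0419): local structure of the period fibres, frozen interface (helper450)

Leaves (LS) and (SARD) of the blueprint B-PF (helper409).

`Inv i₀ V G` : a family of local smooth maps `F z : M → V` on a Riemann domain `M` over `ℂ^m`, well defined
up to a group `G` acting linearly on `V` and properly discontinuously on the values, together with a
holomorphic vector field `X` with `X z_{i₀} = 1` along which the maps `F z` are constant.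

`Inv.S p` : the equivalence class of `p` (a curve), `Inv.Mst` : the set of points where `F` is immersive on
`{dz_{i₀} = 0}`.
-/

set_option autoImplicit false
set_option linter.unusedSectionVars false

noncomputable section

open Set Filter Topology MeasureTheory
open Crest.Agent.R271.Ho51
open Crest.Agent.R276.Ipc735 (SmAt HolAt)

namespace Crest.Agent.R276.LsDefs_450

/-- local invariants modulo a group, with a transversal vector field -/
structure Inv {m : ℕ} (M : Type*) [TopologicalSpace M] [RDom m M] (i₀ : Fin m)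
    (V : Type*) [NormedAddCommGroup V] [NormedSpace ℝ V] (G : Type*) [Group G] where
  /-- the action of the group -/
  ρ : G →* (V →L[ℝ] V)
  /-- the invariant (not continuous) -/
  e : M → V
  /-- the invariant in the frame at `z` -/
  F : M → M → V
  /-- the vector field -/
  X : M → Fin m → ℂ
  Fz : ∀ z, F z z = e z
  orb : ∀ z y, ∃ γ, F z y = ρ γ (e y)
  sm : ∀ z, SmAt (F z) z
  ndc : ∀ z, ∀ᶠ x in 𝓝 z, ∃ γ, ∀ᶠ y in 𝓝 x, F z y = ρ γ (F x y)
  pd : ∀ p q, ∃ U ∈ 𝓝 p, ∃ W ∈ 𝓝 q, {γ | ∃ x ∈ U, ∃ y ∈ W, ρ γ (F p x) = F q y}.Finite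
  X1 : ∀ z, X z i₀ = 1
  holX : ∀ j, Hol (fun y => X y j)
  tan : ∀ (z : M) (c : ℂ), D (F z) z (c • X z) = 0

namespace Inv

variable {m : ℕ} {M : Type*} [TopologicalSpace M] [RDom m M] {i₀ : Fin m}
  {V : Type*} [NormedAddCommGroup V] [NormedSpace ℝ V] {G : Type*} [Group G] (I : Inv M i₀ V G)

/-- the class of `p` -/
def S (p : M) : Set M := {q | ∃ γ, I.e q = I.ρ γ (I.e p)}

/-- the set where the invariant is immersive on `{dz_{i₀} = 0}` -/
def Mst : Set M := {x | ∀ v : Fin m → ℂ, v i₀ = 0 → D (I.F x) x v = 0 → v = 0}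

end Inv

/-- (SARD) almost all classes meeting `M*` are contained in `M*` -/
def SARD : Prop := ∀ (m : ℕ) (M : Type) [TopologicalSpace M] [RDom m M] [SecondCountableTopology M]
  [MeasurableSpace M] [BorelSpace M] (i₀ : Fin m) (V : Type) [NormedAddCommGroup V] [NormedSpace ℝ V]
  [FiniteDimensional ℝ V] (G : Type) [Group G] [Countable G] (I : Inv M i₀ V G) (μ : Measure M),
  IsLeb μ → μ {p | p ∈ I.Mst ∧ ¬ I.S p ⊆ I.Mst} = 0

/-- (LS) the classes contained in `M*` are closed curves -/
def LS : Prop := ∀ (m : ℕ) (M : Type) [TopologicalSpace M] [RDom m M] [T2Space M] (i₀ : Fin m) (V : Type)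
  [NormedAddCommGroup V] [NormedSpace ℝ V] [FiniteDimensional ℝ V] (G : Type) [Group G]
  (I : Inv M i₀ V G) (p : M), IsClosed (I.S p) ∧ (I.S p ⊆ I.Mst →
  ∃ r : RDom 1 (I.S p), (∀ q : I.S p, r.p q = fun _ => cp (q : M) i₀) ∧
    letI := r
    (∀ f : M → ℂ, Hol f → Hol (fun q : I.S p => f q)) ∧
    (∀ f : M → ℝ, Sm f → Sm (fun q : I.S p => f q)) ∧
    (∀ f : M → ℂ, Sm f → Sm (fun q : I.S p => f q) ∧ ∀ q : I.S p,
      dz 0 (fun q : I.S p => f q) q = ∑ j, I.X q j * dz j f q ∧
      db 0 (fun q : I.S p => f q) q = ∑ j, (starRingEnd ℂ) (I.X q j) * db j f q) ∧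
    (∀ f : M → ℝ, Sm f → ∀ (q : I.S p) (w : Fin 1 → ℂ),
      Levi (fun q : I.S p => f q) q w = Levi f q (w 0 • I.X q)))

end Crest.Agent.R276.LsDefs_450
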