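import Crest.Agent.R276.LComp_723
import Crest.Agent.R276.GoalU_845

/-!
# Row 276, MainSkel (helper723): the statement of S0419 from the eleven Props of `Skel_220`
(`LComp` is a theorem, `LComp_723.lcomp`).
-/

set_option autoImplicit false

open AlgebraicGeometry CategoryTheory Crest.AlgGeometry.Divisors
open Crest Crest.AlgGeometry Crest.AlgGeometry.Divisors

namespace Crest.Agent.R276.LComp_723

open Crest.Agent.R276.Skel_220 Crest.Agent.R276.SkelGeo_220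

/-- **the geometric core** from the eleven Props -/
theorem core_of_skel (hSat : LSat) (hGeo : LGeo) (hHull : LHull) (hPT : LPerTow) (hEv : LEv)
    (hCY : LCY) (hC1 : LC1) (hC2 : LC2) (hC4 : LC4) (hTCh : LTCh) (hFlat : LFlat) :
    GoalU_845.CoreBetaPosU :=
  coreBetaPosU hSat hGeo hHull hPT hEv hCY hC1 hC2 hC4 hTCh hFlat lcomp

/-- **S0419 from the eleven Props** -/
theorem main_of_skel (hSat : LSat) (hGeo : LGeo) (hHull : LHull) (hPT : LPerTow) (hEv : LEv)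
    (hCY : LCY) (hC1 : LC1) (hC2 : LC2) (hC4 : LC4) (hTCh : LTCh) (hFlat : LFlat)
    (X Z : Scheme.{0}) [Algebra ℂ Γ(X, ⊤)] [Algebra ℂ Γ(Z, ⊤)]
    [IsIntegral X] [IsLocallyNoetherian X] [IsIntegral Z] [IsLocallyNoetherian Z] (n m : ℕ)
    (hX : IsSmoothProperVariety ℂ X n) (hZ : IsSmoothProperVariety ℂ Z m)
    (hXp : ∃ A : WeilDiv X, IsAmple A) (hZp : ∃ A : WeilDiv Z, IsAmple A)
    (f : X ⟶ Z) (hf : f ≫ structureMorphism ℂ Z = structureMorphism ℂ X)
    (hsurj : Function.Surjective f.base)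
    (hconn : ∀ z : Spec (CommRingCat.of ℂ) ⟶ Z, z ≫ structureMorphism ℂ Z = 𝟙 _ →
      PreconnectedSpace ↥(Limits.pullback f z))
    (KX : WeilDiv X) (hKX : IsCanonicalDivisor ℂ X n KX)
    (KZ : WeilDiv Z) (hKZ : IsCanonicalDivisor ℂ Z m KZ) :
    ∃ C : ℕ → Set Z, (∀ i, IsClosed (C i) ∧ C i ≠ Set.univ) ∧
      ∀ z : Spec (CommRingCat.of ℂ) ⟶ Z, z ≫ structureMorphism ℂ Z = 𝟙 _ →
        (∀ i, z.base (IsLocalRing.closedPoint ℂ) ∉ C i) →
        ∀ d e : ℕ, FibreKodairaDimGe ℂ f z (n - m) d → KodairaDimGe ℂ Z KZ e →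
          KodairaDimGe ℂ X KX (d + e) :=
  GoalU_845.goalU (core_of_skel hSat hGeo hHull hPT hEv hCY hC1 hC2 hC4 hTCh hFlat)
    X Z n m hX hZ hXp hZp f hf hsurj hconn KX hKX KZ hKZ

end Crest.Agent.R276.LComp_723
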