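import Crest.Agent.R271.Engine_51

/-!
# Row 276, ALG-MASS (1): Piola identity, `det Levi` is a null Lagrangian (helper870)

`integral_det_sub`: for smooth real functions `u, v` on a Riemann domain whose difference has
compact support, `∫ (det Lv u - det Lv v) = 0`.
-/

set_option autoImplicit false
set_option linter.unusedSectionVars false

open Set Filter Topology MeasureTheory

namespace Crest.Agent.R276.Mass1_870

/-! ## Algebra: derivative of a determinant, Piola identity -/

section alg

variable {R : Type*} [CommRing R] {ι : Type*} [Fintype ι] [DecidableEq ι]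

/-- product rule -/
lemma deriv_prod (d : Derivation ℤ R R) (s : Finset ι) (f : ι → R) :
    d (∏ i ∈ s, f i) = ∑ i ∈ s, (∏ j ∈ s.erase i, f j) * d (f i) := by
  classical
  induction s using Finset.induction_on with
  | empty => simp
  | insert a s ha ih =>
    rw [Finset.prod_insert ha, Derivation.leibniz, ih, Finset.sum_insert ha,
      Finset.erase_insert ha]
    simp only [smul_eq_mul]
    rw [add_comm, Finset.mul_sum]
    congr 1
    refine Finset.sum_congr rfl fun i hi => ?_
    have hia : i ≠ a := fun h => ha (h ▸ hi)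
    rw [Finset.erase_insert_of_ne hia.symm, Finset.prod_insert (by simp [ha])]
    ring

/-- derivative of a determinant, row by row -/
lemma deriv_det (d : Derivation ℤ R R) (A : Matrix ι ι R) :
    d A.det = ∑ i, (A.updateRow i (fun l => d (A i l))).det := by
  classical
  simp only [Matrix.det_apply]
  rw [map_sum]
  have h1 : ∀ σ : Equiv.Perm ι, d (Equiv.Perm.sign σ • ∏ i, A (σ i) i) =
      ∑ i, Equiv.Perm.sign σ • ∏ j, (A.updateRow i (fun l => d (A i l))) (σ j) j := by
    intro σ
    have h2 : d (Equiv.Perm.sign σ • ∏ i, A (σ i) i) =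
        Equiv.Perm.sign σ • d (∏ i, A (σ i) i) := by
      rcases Int.units_eq_one_or (Equiv.Perm.sign σ) with h | h <;> simp [h]
    rw [h2, deriv_prod]
    rw [← Equiv.sum_comp σ.symm]
    rw [Finset.smul_sum]
    refine Finset.sum_congr rfl fun i _ => ?_
    congr 1
    have h3 : ∏ j, (A.updateRow i (fun l => d (A i l))) (σ j) j =
        (∏ j ∈ Finset.univ.erase (σ.symm i), A (σ j) j) * d (A i (σ.symm i)) := by
      rw [← Finset.mul_prod_erase Finset.univ _ (Finset.mem_univ (σ.symm i)), mul_comm]
      congr 1
      · refine Finset.prod_congr rfl fun j hj => ?_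
        have : σ j ≠ i := fun h => (Finset.ne_of_mem_erase hj) (by rw [← h]; simp)
        rw [Matrix.updateRow_ne this]
      · simp
    rw [h3]
    simp
  rw [Finset.sum_congr rfl fun σ _ => h1 σ, Finset.sum_comm]

/-- the determinant as a linear map of row `i` -/
def rowLin (A : Matrix ι ι R) (i : ι) : (ι → R) →ₗ[R] R where
  toFun v := (A.updateRow i v).det
  map_add' u v := Matrix.det_updateRow_add A i u v
  map_smul' c v := Matrix.det_updateRow_smul A i c v

lemma det_updateRow_sum_smul (A : Matrix ι ι R) (i : ι) (c : ι → R) (v : ι → ι → R) :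
    (A.updateRow i (∑ l, c l • v l)).det = ∑ l, c l * (A.updateRow i (v l)).det := by
  have h : ∀ v, (A.updateRow i v).det = rowLin A i v := fun _ => rfl
  rw [h, map_sum]
  refine Finset.sum_congr rfl fun l _ => ?_
  rw [map_smul, smul_eq_mul, h]

/-- **Piola identity** -/
theorem piola (d : ι → Derivation ℤ R R) (hd : ∀ k l f, d k (d l f) = d l (d k f)) (F : ι → R)
    (r : ι) :
    ∑ k, d k (((Matrix.of fun j k => d k (F j)).updateRow r (Pi.single k 1)).det) = 0 := by
  classical
  set J : Matrix ι ι R := Matrix.of fun j k => d k (F j) with hJ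
  have h1 : ∀ k, d k ((J.updateRow r (Pi.single k 1)).det) =
      ∑ i ∈ Finset.univ.erase r, ∑ l, d k (d l (F i)) *
        ((J.updateRow r (Pi.single k 1)).updateRow i (Pi.single l 1)).det := by
    intro k
    rw [deriv_det, ← Finset.add_sum_erase Finset.univ _ (Finset.mem_univ r)]
    have h2 : ((J.updateRow r (Pi.single k 1)).updateRow r
        (fun l => d k ((J.updateRow r (Pi.single k 1)) r l))).det = 0 := by
      apply Matrix.det_eq_zero_of_row_eq_zero r
      intro j
      simp only [Matrix.updateRow_self]
      by_cases h : j = k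
      · subst h; simp
      · simp [Pi.single_eq_of_ne h]
    rw [h2, zero_add]
    refine Finset.sum_congr rfl fun i hi => ?_
    have hir : i ≠ r := Finset.ne_of_mem_erase hi
    have h3 : (fun l => d k ((J.updateRow r (Pi.single k 1)) i l)) =
        ∑ l, d k (d l (F i)) • (Pi.single l (1 : R) : ι → R) := by
      funext l
      rw [Matrix.updateRow_ne hir]
      simp [hJ, Finset.sum_apply, Pi.single_apply]
    rw [h3]
    exact det_updateRow_sum_smul _ i _ _
  rw [Finset.sum_congr rfl fun k _ => h1 k, Finset.sum_comm]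
  refine Finset.sum_eq_zero fun i hi => ?_
  have hir : i ≠ r := Finset.ne_of_mem_erase hi
  -- symmetric times alternating
  set a : ι → ι → R := fun k l =>
    ((J.updateRow r (Pi.single k 1)).updateRow i (Pi.single l 1)).det with ha
  have hskew : ∀ k l, a k l = - a l k := by
    intro k l
    have h5 : (J.updateRow r (Pi.single k 1)).updateRow i (Pi.single l 1) =
        ((J.updateRow r (Pi.single l 1)).updateRow i (Pi.single k 1)).submatrix
          (Equiv.swap r i) id := by
      ext p q
      by_cases hp : p = r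
      · subst hp
        simp [Matrix.updateRow_apply, hir.symm]
      · by_cases hp2 : p = i
        · subst hp2
          simp [Matrix.updateRow_apply, hir.symm]
        · simp [Matrix.updateRow_apply, hp, hp2, Equiv.swap_apply_of_ne_of_ne]
    simp only [ha]
    rw [h5, Matrix.det_permute]
    simp [Equiv.Perm.sign_swap hir.symm]
  have hdiag : ∀ k, a k k = 0 := by
    intro k
    apply Matrix.det_zero_of_row_eq hir.symm
    ext j
    simp [Matrix.updateRow_apply, hir.symm]
  have h6 : ∑ k, ∑ l, d k (d l (F i)) * a k l = - ∑ k, ∑ l, d k (d l (F i)) * a k l := by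
    conv_lhs => rw [Finset.sum_comm]
    rw [← Finset.sum_neg_distrib]
    refine Finset.sum_congr rfl fun k _ => ?_
    rw [← Finset.sum_neg_distrib]
    refine Finset.sum_congr rfl fun l _ => ?_
    rw [hd l k, hskew l k]; ring
  -- avoid division by two: pair up terms
  have h7 : ∑ p : ι × ι, d p.1 (d p.2 (F i)) * a p.1 p.2 = 0 := by
    refine Finset.sum_involution (fun p _ => (p.2, p.1)) ?_ ?_ ?_ ?_
    · intro p _
      show d p.1 (d p.2 (F i)) * a p.1 p.2 + d p.2 (d p.1 (F i)) * a p.2 p.1 = 0
      rw [hd p.2 p.1, hskew p.2 p.1]; ring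
    · intro p _ hp h
      apply hp
      have : p.1 = p.2 := (Prod.ext_iff.1 h).2
      rw [this, hdiag, mul_zero]
    · intro p _; simp
    · intro p _; rfl
  rw [← Finset.univ_product_univ, Finset.sum_product] at h7
  exact h7

end alg

/-! ## The ring of smooth functions on a Riemann domain -/

section ring

open Crest.Agent.R271.Ho51

variable {n : ℕ} {M : Type*} [TopologicalSpace M] [RDom n M]

/-- smooth complex functions -/
def SR (M : Type*) [TopologicalSpace M] [RDom n M] : Subring (M → ℂ) where
  carrier := {f | Sm f}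
  mul_mem' := fun hf hg => Sm.mul hf hg
  one_mem' := Sm.const _
  add_mem' := fun hf hg => Sm.add hf hg
  zero_mem' := Sm.const _
  neg_mem' := fun hf => Sm.neg hf

/-- `∂̄_k` as a derivation -/
noncomputable def dbD (k : Fin n) : Derivation ℤ (SR M) (SR M) :=
  Derivation.mk' (AddMonoidHom.toIntLinearMap
    { toFun := fun f => (⟨db k f.1, Sm.db f.2 k⟩ : SR M)
      map_zero' := by
        ext x; exact db_const 0 k x
      map_add' := fun f g => by
        ext x; exact db_add f.2 g.2 k x }) (fun f g => by
      ext x
      show db k (f.1 * g.1) x = f.1 x * db k g.1 x + g.1 x * db k f.1 x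
      have := db_mul f.2 g.2 k x
      rw [show f.1 * g.1 = fun x => f.1 x * g.1 x from rfl, this]; ring)

lemma dbD_apply (k : Fin n) (f : SR M) (x : M) : (dbD k f).1 x = db k f.1 x := rfl

lemma dbD_comm (k l : Fin n) (f : SR M) : dbD k (dbD l f) = dbD l (dbD k f) := by
  ext x
  exact db_db_comm f.2 k l x

/-- evaluation -/
def evx (x : M) : SR M →+* ℂ where
  toFun f := f.1 x
  map_one' := rfl
  map_mul' _ _ := rfl
  map_zero' := rfl
  map_add' _ _ := rfl

lemma evx_det (x : M) (A : Matrix (Fin n) (Fin n) (SR M)) :
    A.det.1 x = (Matrix.of fun i j => (A i j).1 x).det := by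
  have := RingHom.map_det (evx x) A
  exact this

/-- the Levi matrix -/
noncomputable def LM (φ : M → ℝ) (x : M) : Matrix (Fin n) (Fin n) ℂ := Matrix.of fun j k => Lv φ x j k

/-- the `∂̄`-Jacobian of a tuple of smooth functions is a sum of `∂̄`-derivatives -/
lemma jac_eq_div (F : Fin n → SR M) (r : Fin n) :
    (Matrix.of fun j k => dbD k (F j)).det =
      ∑ k, dbD k (F r * ((Matrix.of fun j k => dbD k (F j)).updateRow r (Pi.single k 1)).det) := by
  have h := piola (fun k => dbD (M := M) k) dbD_comm F r
  set J : Matrix (Fin n) (Fin n) (SR M) := Matrix.of fun j k => dbD k (F j) with hJ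
  have h1 : ∑ k, dbD k (F r * (J.updateRow r (Pi.single k 1)).det) =
      ∑ k, dbD k (F r) * (J.updateRow r (Pi.single k 1)).det := by
    simp only [Derivation.leibniz, smul_eq_mul]
    rw [Finset.sum_add_distrib, ← Finset.mul_sum, h, mul_zero, zero_add]
    refine Finset.sum_congr rfl fun k _ => by ring
  rw [h1, ← det_updateRow_sum_smul]
  congr 1
  have h2 : (∑ l, dbD l (F r) • (Pi.single l (1 : SR M) : Fin n → SR M)) = J r := by
    funext l
    simp [hJ, Finset.sum_apply, Pi.single_apply]
  rw [h2, Matrix.updateRow_eq_self]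

end ring

section integral

open Crest.Agent.R271.Ho51

variable {n : ℕ} {M : Type*} [TopologicalSpace M] [T2Space M] [SecondCountableTopology M]
  [RDom n M] [MeasurableSpace M] [BorelSpace M] {μ : Measure M}

/-- one step: if `F r` has compact support, the `∂̄`-Jacobian integrates to zero -/
lemma integral_jac_eq_zero (hμ : IsLeb μ) (F : Fin n → SR M) (r : Fin n)
    (hc : HasCompactSupport (F r).1) :
    ∫ x, ((Matrix.of fun j k => dbD k (F j)).det : SR M).1 x ∂μ = 0 := by
  rw [jac_eq_div F r]
  have h1 : ∀ x, (∑ k, dbD k (F r * ((Matrix.of fun j k => dbD k (F j)).updateRow r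
      (Pi.single k 1)).det) : SR M).1 x = ∑ k, db k (F r * ((Matrix.of fun j k =>
        dbD k (F j)).updateRow r (Pi.single k 1)).det : SR M).1 x := by
    intro x
    have := map_sum (evx x) (fun k => dbD k (F r * ((Matrix.of fun j k =>
      dbD k (F j)).updateRow r (Pi.single k 1)).det)) Finset.univ
    exact this
  simp only [h1]
  have hcs : ∀ k : Fin n, HasCompactSupport (F r * ((Matrix.of fun j k =>
        dbD k (F j)).updateRow r (Pi.single k 1)).det : SR M).1 := fun k =>
    HasCompactSupport.mul_right hc
  rw [integral_finsetSum]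
  · refine Finset.sum_eq_zero fun k _ => ?_
    exact integral_db_eq_zero hμ (F r * ((Matrix.of fun j k =>
        dbD k (F j)).updateRow r (Pi.single k 1)).det : SR M).2 (hcs k) k
  · intro k _
    refine ((F r * ((Matrix.of fun j k =>
        dbD k (F j)).updateRow r (Pi.single k 1)).det : SR M).2.db k).integrable hμ ?_
    have h3 := hasCompactSupport_D (hcs k)
    refine h3.comp_left (g := fun A : (Fin n → ℂ) →L[ℝ] ℂ => wb k A) ?_
    simp [wb]

/-- `∂_j φ` as a smooth function -/
noncomputable def gz (φ : M → ℝ) (hφ : Sm φ) (j : Fin n) : SR M := ⟨dz j (fun y => (φ y : ℂ)), hφ.ofReal.dz j⟩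

lemma dbD_gz {φ : M → ℝ} (hφ : Sm φ) (j k : Fin n) (x : M) :
    (dbD k (gz φ hφ j)).1 x = Lv φ x j k := by
  show db k (dz j (fun y => (φ y : ℂ))) x = dz j (db k (fun y => (φ y : ℂ))) x
  exact (dz_db_comm hφ.ofReal j k x).symm

/-- difference of two determinants which differ in one row -/
lemma jac_update_sub (H : Fin n → SR M) (r : Fin n) (a b : SR M) :
    ((Matrix.of fun j k => dbD k (Function.update H r a j)).det : SR M) -
      (Matrix.of fun j k => dbD k (Function.update H r b j)).det =
      (Matrix.of fun j k => dbD k (Function.update H r (a - b) j)).det := by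
  have h1 : ∀ c : SR M, (Matrix.of fun j k => dbD k (Function.update H r c j)) =
      (Matrix.of fun j k => dbD k (H j)).updateRow r (fun k => dbD k c) := by
    intro c
    ext j k : 2
    by_cases hj : j = r
    · subst hj; simp
    · simp [Matrix.updateRow_ne hj, Function.update_of_ne hj]
  rw [h1, h1, h1, sub_eq_iff_eq_add, ← Matrix.det_updateRow_add]
  congr 2
  funext k
  simp

lemma SR_integrable (hμ : IsLeb μ) (f : SR M) (hc : HasCompactSupport f.1) :
    Integrable f.1 μ := f.2.integrable hμ hc

/-- the `∂̄`-Jacobian of a tuple one of whose members has compact support, has compact support -/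
lemma jac_compact (F : Fin n → SR M) (r : Fin n) (hc : HasCompactSupport (F r).1) :
    HasCompactSupport ((Matrix.of fun j k => dbD k (F j)).det : SR M).1 := by
  refine HasCompactSupport.mono' hc ?_
  refine Function.support_subset_iff'.2 fun x hx => ?_
  rw [evx_det]
  refine Matrix.det_eq_zero_of_row_eq_zero r fun k => ?_
  show db k (F r).1 x = 0
  have h1 : (F r).1 =ᶠ[𝓝 x] fun _ => 0 := by
    have h2 := (isClosed_tsupport (F r).1).isOpen_compl.mem_nhds hx
    filter_upwards [h2] with y hy
    exact image_eq_zero_of_notMem_tsupport hy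
  rw [db_congr h1, db_const]

/-- **`det Levi` is a null Lagrangian** (complex form) -/
theorem integral_det_sub (hμ : IsLeb μ) {u v : M → ℝ} (hu : Sm u) (hv : Sm v)
    (hc : HasCompactSupport (fun x => u x - v x)) :
    Integrable (fun x => (LM u x).det - (LM v x).det) μ ∧
    ∫ x, ((LM u x).det - (LM v x).det) ∂μ = 0 := by
  set H : ℕ → Fin n → SR M := fun m j => if (j : ℕ) < m then gz u hu j else gz v hv j with hH
  set dt : ℕ → SR M := fun m => (Matrix.of fun j k => dbD k (H m j)).det with hdt
  have hsup : ∀ r : Fin n, HasCompactSupport (gz u hu r - gz v hv r : SR M).1 := by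
    intro r
    refine HasCompactSupport.mono' hc ?_
    refine Function.support_subset_iff'.2 fun x hx => ?_
    show dz r (fun y => (u y : ℂ)) x - dz r (fun y => (v y : ℂ)) x = 0
    rw [sub_eq_zero]
    apply dz_congr
    have h2 := (isClosed_tsupport (fun x => u x - v x)).isOpen_compl.mem_nhds hx
    filter_upwards [h2] with y hy
    have := image_eq_zero_of_notMem_tsupport hy
    have h3 : u y = v y := by linarith
    rw [h3]
  have hstep : ∀ m : ℕ, ∀ hm : m < n, dt (m + 1) - dt m =
      (Matrix.of fun j k => dbD k (Function.update (H m) ⟨m, hm⟩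
        (gz u hu ⟨m, hm⟩ - gz v hv ⟨m, hm⟩) j)).det := by
    intro m hm
    rw [← jac_update_sub (H m) ⟨m, hm⟩]
    have e1 : Function.update (H m) ⟨m, hm⟩ (gz u hu ⟨m, hm⟩) = H (m + 1) := by
      funext j
      by_cases hj : j = ⟨m, hm⟩
      · subst hj; simp [hH]
      · have hj' : (j : ℕ) ≠ m := fun h => hj (Fin.ext h)
        have hiff : ((j : ℕ) < m + 1) ↔ ((j : ℕ) < m) := by omega
        simp [hH, Function.update_of_ne hj, hiff]
    have e2 : Function.update (H m) ⟨m, hm⟩ (gz v hv ⟨m, hm⟩) = H m := by
      funext j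
      by_cases hj : j = ⟨m, hm⟩
      · subst hj; simp [hH]
      · simp [Function.update_of_ne hj]
    rw [e1, e2]
  have hup : ∀ m : ℕ, ∀ hm : m < n, (Function.update (H m) ⟨m, hm⟩
        (gz u hu ⟨m, hm⟩ - gz v hv ⟨m, hm⟩)) ⟨m, hm⟩ = gz u hu ⟨m, hm⟩ - gz v hv ⟨m, hm⟩ := by
    intro m hm; simp
  have hcomp : ∀ m < n, HasCompactSupport (dt (m + 1) - dt m : SR M).1 := by
    intro m hm
    rw [hstep m hm]
    exact jac_compact _ ⟨m, hm⟩ (by rw [hup m hm]; exact hsup _)
  have hint : ∀ m < n, Integrable (dt (m + 1) - dt m : SR M).1 μ := fun m hm =>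
    SR_integrable hμ _ (hcomp m hm)
  have hzero : ∀ m < n, ∫ x, (dt (m + 1) - dt m : SR M).1 x ∂μ = 0 := by
    intro m hm
    rw [hstep m hm]
    exact integral_jac_eq_zero hμ _ ⟨m, hm⟩ (by rw [hup m hm]; exact hsup _)
  have htel : ∀ x, (dt n).1 x - (dt 0).1 x = ∑ m ∈ Finset.range n, (dt (m + 1) - dt m : SR M).1 x := by
    intro x
    have := Finset.sum_range_sub (fun m => (dt m).1 x) n
    rw [← this]
    rfl
  have hn : ∀ x, (dt n).1 x = (LM u x).det := by
    intro x
    rw [hdt]
    simp only
    rw [evx_det]
    congr 1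
    ext j k
    simp only [LM, Matrix.of_apply, hH, j.2, if_true]
    exact dbD_gz hu j k x
  have h0 : ∀ x, (dt 0).1 x = (LM v x).det := by
    intro x
    rw [hdt]
    simp only
    rw [evx_det]
    congr 1
    ext j k
    simp only [LM, Matrix.of_apply, hH, Nat.not_lt_zero, if_false]
    exact dbD_gz hv j k x
  have heq : (fun x => (LM u x).det - (LM v x).det) =
      fun x => ∑ m ∈ Finset.range n, (dt (m + 1) - dt m : SR M).1 x := by
    funext x
    rw [← hn, ← h0, htel]
  rw [heq]
  constructor
  · exact integrable_finsetSum _ fun m hm => hint m (Finset.mem_range.1 hm)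
  · rw [integral_finsetSum _ fun m hm => hint m (Finset.mem_range.1 hm)]
    exact Finset.sum_eq_zero fun m hm => hzero m (Finset.mem_range.1 hm)

end integral

end Crest.Agent.R276.Mass1_870
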