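import Mathlib
import Crest.Agent.R276.MaxP_25

/-!
# R276, leaf MAXP, part 2 (helper25): polydiscs with snc boundary, compact spaces, constancy,
strict positivity of the curvature at a maximum point
-/

set_option autoImplicit false

open Set Filter Topology Metric InnerProductSpace Laplacian
open scoped ContDiff

namespace Crest.Agent.R276.MaxQ_25

open Crest.Agent.R276.Ahl_25 Crest.Agent.R276.MaxP_25

/-! ### polydiscs -/

theorem update_add_eq {n : ℕ} (z : Fin n → ℂ) (i : Fin n) (a t : ℂ) :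
    Function.update z i (a + t) = Function.update z i a + t • (Pi.single i (1 : ℂ) : Fin n → ℂ) := by
  ext j
  rcases eq_or_ne j i with rfl | hj
  · simp
  · simp [hj]

/-- **psh functions on a polydisc minus a normal crossing divisor**: `u` is `C²` psh near the points of the
closed polydisc `|z_i - a_i| ≤ r` with `z_i ≠ a_i` for `i ∈ S`, with growth `o(log 1/|z_i - a_i|)` along the
coordinate discs; then `u` is bounded by its maximum on the torus `|z_i - a_i| = r`. -/
theorem polydisc_exists {n : ℕ} {a : Fin n → ℂ} {r : ℝ} (hr : 0 < r) {S : Set (Fin n)}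
    {u : (Fin n → ℂ) → ℝ}
    (hC : ∀ z : Fin n → ℂ, (∀ i, ‖z i - a i‖ ≤ r) → (∀ i ∈ S, z i ≠ a i) →
      ContDiffAt ℝ 2 u z ∧ ∀ v, 0 ≤ lev u z v)
    (hg : ∀ z : Fin n → ℂ, (∀ i, ‖z i - a i‖ ≤ r) → (∀ i ∈ S, z i ≠ a i) → ∀ i ∈ S, ∀ ε : ℝ, 0 < ε →
      ∀ᶠ t in 𝓝[≠] (a i), u (Function.update z i t) ≤ ε * Real.log (1 / ‖t - a i‖))
    {z : Fin n → ℂ} (hz : ∀ i, ‖z i - a i‖ ≤ r) (hzS : ∀ i ∈ S, z i ≠ a i) :
    ∃ y : Fin n → ℂ, (∀ i, ‖y i - a i‖ = r) ∧ u z ≤ u y := by
  classical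
  have key : ∀ I : Finset (Fin n), ∃ y : Fin n → ℂ, (∀ i, ‖y i - a i‖ ≤ r) ∧
      (∀ i ∈ S, y i ≠ a i) ∧ (∀ i ∈ I, ‖y i - a i‖ = r) ∧ u z ≤ u y := by
    intro I
    induction I using Finset.induction_on with
    | empty => exact ⟨z, hz, hzS, by simp, le_rfl⟩
    | insert i I hi ih =>
      obtain ⟨y, hy1, hy2, hy3, hy4⟩ := ih
      set v : Fin n → ℂ := Pi.single i (1 : ℂ) with hv
      set p : Fin n → ℂ := Function.update y i (a i) with hp
      set F : Finset ℂ := if i ∈ S then {0} else ∅ with hF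
      have hup : ∀ t : ℂ, p + t • v = Function.update y i (a i + t) := fun t =>
        (update_add_eq y i (a i) t).symm
      have hmem0 : ∀ t : ℂ, ‖t‖ ≤ r → ∀ j, ‖Function.update y i (a i + t) j - a j‖ ≤ r := by
        intro t ht j
        rcases eq_or_ne j i with rfl | hj
        · simpa using ht
        · rw [Function.update_of_ne hj]; exact hy1 j
      have hmem1 : ∀ t : ℂ, t ∉ F → ∀ j ∈ S, Function.update y i (a i + t) j ≠ a j := by
        intro t ht j hjS
        rcases eq_or_ne j i with rfl | hj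
        · have : t ≠ 0 := by
            rw [hF, if_pos hjS] at ht
            simpa using ht
          simpa using this
        · rw [Function.update_of_ne hj]; exact hy2 j hjS
      obtain ⟨c, hc1, hc2⟩ := disc_exists (u := u) (p := p) (v := v) (F := F) hr
        (by
          intro f hf
          rw [hF] at hf
          split_ifs at hf
          · rw [Finset.mem_singleton] at hf; rw [hf, norm_zero]; exact hr
          · simp at hf)
        (fun t ht htF => by
          rw [hup]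
          have h1 := hC _ (hmem0 t ht) (hmem1 t htF)
          exact ⟨h1.1, h1.2 v⟩)
        (fun f hf ε hε => by
          have hiS : i ∈ S := by
            by_contra h
            rw [hF, if_neg h] at hf
            simp at hf
          have hf0 : f = 0 := by
            rw [hF, if_pos hiS] at hf
            simpa using hf
          subst hf0
          have h1 := hg y hy1 hy2 i hiS ε hε
          have h2 : Tendsto (fun t : ℂ => a i + t) (𝓝[≠] 0) (𝓝[≠] (a i)) := by
            rw [tendsto_nhdsWithin_iff]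
            constructor
            · have : Continuous (fun t : ℂ => a i + t) := by fun_prop
              have h3 := this.tendsto 0
              simp only [add_zero] at h3
              exact h3.mono_left nhdsWithin_le_nhds
            · filter_upwards [self_mem_nhdsWithin] with t ht
              simpa using ht
          filter_upwards [h2.eventually h1] with t ht
          rw [hup, sub_zero]
          simpa using ht)
      have hr0 : c ∉ F := by
        intro h
        rw [hF] at h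
        split_ifs at h
        · rw [Finset.mem_singleton] at h
          rw [h, norm_zero] at hc1
          exact hr.ne hc1
        · simp at h
      refine ⟨Function.update y i (a i + c), hmem0 c hc1.le, hmem1 c hr0, ?_, ?_⟩
      · intro j hj
        rcases eq_or_ne j i with rfl | hji
        · simpa using hc1
        · rw [Function.update_of_ne hji]
          exact hy3 j (Finset.mem_of_mem_insert_of_ne hj hji)
      · have h5 : p + (y i - a i) • v = y := by
          rw [hup]; simp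
        have h6 := hc2 (y i - a i) (hy1 i) (by
          intro h
          rw [hF] at h
          split_ifs at h with hiS
          · rw [Finset.mem_singleton] at h
            exact hy2 i hiS (sub_eq_zero.1 h)
          · simp at h)
        rw [h5, hup] at h6
        exact hy4.trans h6
  obtain ⟨y, -, -, hy3, hy4⟩ := key Finset.univ
  exact ⟨y, fun i => hy3 i (Finset.mem_univ i), hy4⟩

/-! ### compact spaces -/

/-- a function which is locally bounded by its values on compact subsets of `U` attains its maximum -/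
theorem exists_max {Z : Type*} [TopologicalSpace Z] [CompactSpace Z] {U : Set Z} (hne : U.Nonempty)
    {u : Z → ℝ} (hu : ContinuousOn u U)
    (hloc : ∀ p : Z, ∃ N ∈ 𝓝 p, ∃ K : Set Z, IsCompact K ∧ K ⊆ U ∧
      ∀ x ∈ N ∩ U, ∃ y ∈ K, u x ≤ u y) :
    ∃ p ∈ U, ∀ x ∈ U, u x ≤ u p := by
  choose N hN K hK hKU hle using hloc
  obtain ⟨t, ht⟩ := CompactSpace.elim_nhds_subcover N hN
  have hcK : IsCompact (⋃ p ∈ t, K p) := t.isCompact_biUnion fun p _ => hK p
  have hKU' : (⋃ p ∈ t, K p) ⊆ U := by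
    intro x hx
    simp only [mem_iUnion] at hx
    obtain ⟨p, _, hx⟩ := hx
    exact hKU p hx
  have hall : ∀ x ∈ U, ∃ y ∈ ⋃ p ∈ t, K p, u x ≤ u y := by
    intro x hx
    have : x ∈ ⋃ p ∈ t, N p := by rw [ht]; trivial
    simp only [mem_iUnion] at this
    obtain ⟨p, hp, hxp⟩ := this
    obtain ⟨y, hy, hxy⟩ := hle p x ⟨hxp, hx⟩
    exact ⟨y, by simp only [mem_iUnion]; exact ⟨p, hp, hy⟩, hxy⟩
  obtain ⟨x0, hx0⟩ := hne
  obtain ⟨y0, hy0, -⟩ := hall x0 hx0
  obtain ⟨p, hp, hmax⟩ := hcK.exists_isMaxOn ⟨y0, hy0⟩ (hu.mono hKU')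
  refine ⟨p, hKU' hp, fun x hx => ?_⟩
  obtain ⟨y, hy, hxy⟩ := hall x hx
  exact hxy.trans (hmax hy)

/-- **constancy** -/
theorem const_of_local {Z : Type*} [TopologicalSpace Z] [CompactSpace Z] {U : Set Z}
    (hU : IsOpen U) (hconn : IsPreconnected U) (hne : U.Nonempty)
    {u : Z → ℝ} (hu : ContinuousOn u U)
    (hloc : ∀ p : Z, ∃ N ∈ 𝓝 p, ∃ K : Set Z, IsCompact K ∧ K ⊆ U ∧
      ∀ x ∈ N ∩ U, ∃ y ∈ K, u x ≤ u y)
    (hstrong : ∀ p ∈ U, (∀ x ∈ U, u x ≤ u p) → ∀ᶠ x in 𝓝 p, u x = u p) :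
    ∃ c : ℝ, ∀ x ∈ U, u x = c := by
  obtain ⟨p, hp, hmax⟩ := exists_max hne hu hloc
  refine ⟨u p, ?_⟩
  by_contra hcon
  push Not at hcon
  obtain ⟨q, hq, hqne⟩ := hcon
  have hU1 : IsOpen {z | z ∈ U ∧ u z = u p} := by
    rw [isOpen_iff_mem_nhds]
    intro z hz
    have h1 := hstrong z hz.1 (fun x hx => by rw [hz.2]; exact hmax x hx)
    filter_upwards [hU.mem_nhds hz.1, h1] with w hw1 hw2
    exact ⟨hw1, hw2.trans hz.2⟩
  have hU2 : IsOpen {z | z ∈ U ∧ u z ≠ u p} := by
    rw [isOpen_iff_mem_nhds]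
    intro z hz
    filter_upwards [hU.mem_nhds hz.1,
      (hu.continuousAt (hU.mem_nhds hz.1)).eventually_ne hz.2] with w hw1 hw2
    exact ⟨hw1, hw2⟩
  obtain ⟨x, hx, hx1, hx2⟩ := hconn _ _ hU1 hU2
    (fun z hz => by
      by_cases h : u z = u p
      · exact Or.inl ⟨hz, h⟩
      · exact Or.inr ⟨hz, h⟩)
    ⟨p, hp, hp, rfl⟩ ⟨q, hq, hq, hqne⟩
  exact hx2.2 hx1.2

/-- points of an open set in a locally compact space satisfy `hloc` -/
theorem loc_of_mem {Z : Type*} [TopologicalSpace Z] [LocallyCompactSpace Z] {U : Set Z}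
    (hU : IsOpen U) {u : Z → ℝ} {p : Z} (hp : p ∈ U) :
    ∃ N ∈ 𝓝 p, ∃ K : Set Z, IsCompact K ∧ K ⊆ U ∧ ∀ x ∈ N ∩ U, ∃ y ∈ K, u x ≤ u y := by
  obtain ⟨K, hKc, hpK, hKU⟩ := exists_compact_subset hU hp
  exact ⟨K, mem_interior_iff_mem_nhds.1 hpK, K, hKc, hKU, fun x hx => ⟨x, hx.1, le_rfl⟩⟩

/-- the polydisc theorem transported by a chart `e : Z → ℂⁿ` -/
theorem loc_of_polydisc {Z : Type*} [TopologicalSpace Z] {n : ℕ} {U : Set Z} {u : Z → ℝ}
    (e : OpenPartialHomeomorph Z (Fin n → ℂ)) {p : Z} (hp : p ∈ e.source) {r : ℝ} (hr : 0 < r)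
    {S : Set (Fin n)}
    (hpoly : ∀ z : Fin n → ℂ, (∀ i, ‖z i - e p i‖ ≤ r) → z ∈ e.target)
    (hUS : ∀ z : Fin n → ℂ, (∀ i, ‖z i - e p i‖ ≤ r) →
      (e.symm z ∈ U ↔ ∀ i ∈ S, z i ≠ e p i))
    (hC : ∀ z : Fin n → ℂ, (∀ i, ‖z i - e p i‖ ≤ r) → (∀ i ∈ S, z i ≠ e p i) →
      ContDiffAt ℝ 2 (fun w => u (e.symm w)) z ∧ ∀ v, 0 ≤ lev (fun w => u (e.symm w)) z v)
    (hg : ∀ z : Fin n → ℂ, (∀ i, ‖z i - e p i‖ ≤ r) → (∀ i ∈ S, z i ≠ e p i) → ∀ i ∈ S,
      ∀ ε : ℝ, 0 < ε → ∀ᶠ t in 𝓝[≠] (e p i),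
        u (e.symm (Function.update z i t)) ≤ ε * Real.log (1 / ‖t - e p i‖)) :
    ∃ N ∈ 𝓝 p, ∃ K : Set Z, IsCompact K ∧ K ⊆ U ∧ ∀ x ∈ N ∩ U, ∃ y ∈ K, u x ≤ u y := by
  set T : Set (Fin n → ℂ) := {z | ∀ i, ‖z i - e p i‖ = r} with hT
  have hTc : IsCompact T := by
    have h1 : T = Set.pi univ (fun i => sphere (e p i) r) := by
      ext z
      simp [hT, mem_sphere_iff_norm]
    rw [h1]
    exact isCompact_univ_pi fun i => isCompact_sphere _ _
  have hTt : T ⊆ e.target := fun z hz => hpoly z (fun i => (hz i).le)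
  refine ⟨e.source ∩ e ⁻¹' {z | ∀ i, ‖z i - e p i‖ < r}, ?_, e.symm '' T,
    hTc.image_of_continuousOn (e.continuousOn_symm.mono hTt), ?_, ?_⟩
  · refine Filter.inter_mem (e.open_source.mem_nhds hp) ?_
    refine (e.continuousAt hp).preimage_mem_nhds ?_
    have : {z : Fin n → ℂ | ∀ i, ‖z i - e p i‖ < r} = Set.pi univ (fun i => ball (e p i) r) := by
      ext z
      simp [dist_eq_norm]
    rw [this]
    exact (isOpen_set_pi finite_univ fun i _ => isOpen_ball).mem_nhds
      (fun i _ => mem_ball_self hr)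
  · rintro _ ⟨z, hz, rfl⟩
    rw [hUS z (fun i => (hz i).le)]
    intro i _ h
    have := hz i
    rw [h, sub_self, norm_zero] at this
    exact hr.ne this
  · rintro x ⟨⟨hx1, hx2⟩, hxU⟩
    have hx2' : ∀ i, ‖e x i - e p i‖ ≤ r := fun i => (hx2 i).le
    have hxS : ∀ i ∈ S, e x i ≠ e p i := by
      rw [← hUS _ hx2', e.left_inv hx1]
      exact hxU
    obtain ⟨y, hy1, hy2⟩ := polydisc_exists (u := fun w => u (e.symm w)) hr hC hg hx2' hxS
    refine ⟨e.symm y, ⟨y, hy1, rfl⟩, ?_⟩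
    simpa [e.left_inv hx1] using hy2

/-- strong maximum principle transported by a chart -/
theorem strong_chart {Z : Type*} [TopologicalSpace Z] {E : Type*} [NormedAddCommGroup E]
    [NormedSpace ℝ E] [NormedSpace ℂ E] [IsScalarTower ℝ ℂ E] {U : Set Z} (hU : IsOpen U) {u : Z → ℝ}
    (e : OpenPartialHomeomorph Z E) {p : Z} (hp : p ∈ e.source) (hpU : p ∈ U)
    (hC : ∀ z ∈ e.target, e.symm z ∈ U →
      ContDiffAt ℝ 2 (fun w => u (e.symm w)) z ∧ ∀ v, 0 ≤ lev (fun w => u (e.symm w)) z v)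
    (hmax : ∀ x ∈ U, u x ≤ u p) : ∀ᶠ x in 𝓝 p, u x = u p := by
  have hV : {z | z ∈ e.target ∧ e.symm z ∈ U} ∈ 𝓝 (e p) := by
    refine Filter.inter_mem (e.open_target.mem_nhds (e.map_source hp)) ?_
    have h1 : ContinuousAt e.symm (e p) := e.continuousAt_symm (e.map_source hp)
    refine h1.preimage_mem_nhds (hU.mem_nhds ?_)
    rw [e.left_inv hp]; exact hpU
  have h2 := strong_psh (u := fun w => u (e.symm w)) (p := e p) hV (fun z hz => hC z hz.1 hz.2)
    (fun z hz => by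
      show u (e.symm z) ≤ u (e.symm (e p))
      rw [e.left_inv hp]; exact hmax _ hz.2)
  have h3 := (e.continuousAt hp).eventually h2
  filter_upwards [h3, e.open_source.mem_nhds hp] with x hx hxs
  rw [e.left_inv hxs, e.left_inv hp] at hx
  exact hx

/-- **767 (D)**: `u = ψ - φ` on the open set `U` of a space with charts, tending to `-∞` at the boundary
(superlevel sets compact): at the maximum point the Levi form of `φ` dominates that of `ψ`. -/
theorem exists_lev_le {Z : Type*} [TopologicalSpace Z] {E : Type*} [NormedAddCommGroup E]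
    [NormedSpace ℝ E] [NormedSpace ℂ E] [IsScalarTower ℝ ℂ E] {U : Set Z} (hU : IsOpen U)
    (hne : U.Nonempty) {u : Z → ℝ} (hu : ContinuousOn u U)
    (hsup : ∀ c : ℝ, IsCompact {x | x ∈ U ∧ c ≤ u x}) :
    ∃ p ∈ U, (∀ x ∈ U, u x ≤ u p) ∧
      ∀ (e : OpenPartialHomeomorph Z E) (ψ φ : E → ℝ), p ∈ e.source →
        ContDiffAt ℝ 2 ψ (e p) → ContDiffAt ℝ 2 φ (e p) →
        (∀ᶠ z in 𝓝 (e p), u (e.symm z) = ψ z - φ z) → ∀ v, lev ψ (e p) v ≤ lev φ (e p) v := by
  obtain ⟨x0, hx0⟩ := hne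
  have hc := hsup (u x0)
  obtain ⟨p, hp, hmax⟩ := hc.exists_isMaxOn ⟨x0, hx0, le_rfl⟩
    (hu.mono fun x hx => hx.1)
  have hmax' : ∀ x ∈ U, u x ≤ u p := by
    intro x hx
    by_cases h : u x0 ≤ u x
    · exact hmax ⟨hx, h⟩
    · exact (le_of_lt (not_le.1 h)).trans hp.2
  refine ⟨p, hp.1, hmax', ?_⟩
  intro e ψ φ hpe hψ hφ hev v
  refine lev_le_of_isLocalMax hψ hφ ?_ v
  have h1 : ContinuousAt e.symm (e p) := e.continuousAt_symm (e.map_source hpe)
  have h2 : ∀ᶠ z in 𝓝 (e p), e.symm z ∈ U :=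
    h1.eventually (by rw [e.left_inv hpe]; exact hU.mem_nhds hp.1)
  filter_upwards [hev, h2] with z hz1 hz2
  rw [← hz1, ← hev.self_of_nhds, e.left_inv hpe]
  exact hmax' _ hz2

end Crest.Agent.R276.MaxQ_25
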