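import Mathlib

/-!
# R276 / IPC-MUL: multiplication operators on `L² (X, F)` by bounded measurable fields of operators

`BM μ T` : `T : X → F →L[ℂ] F` is measurable and essentially bounded.
`mulOp μ T : Lp F 2 μ →L[ℂ] Lp F 2 μ` : the multiplication operator (junk value `0`).
-/

set_option autoImplicit false
set_option linter.unusedSectionVars false

open Set Filter Topology MeasureTheory
open scoped InnerProductSpace ENNReal

namespace Crest.Agent.R276.Mul_817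

variable {X : Type*} [MeasurableSpace X] {μ : Measure X}
variable {F : Type*} [NormedAddCommGroup F] [InnerProductSpace ℂ F] [FiniteDimensional ℂ F]

local notation "⟪" x ", " y "⟫" => inner ℂ x y

/-- bounded measurable field of operators -/
structure BM (μ : Measure X) (T : X → F →L[ℂ] F) : Prop where
  meas : AEStronglyMeasurable T μ
  bdd : ∃ C : ℝ, ∀ᵐ x ∂μ, ‖T x‖ ≤ C

lemma BM.const (T : F →L[ℂ] F) : BM μ (fun _ : X => T) :=
  ⟨aestronglyMeasurable_const, ‖T‖, Eventually.of_forall fun _ => le_rfl⟩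

lemma BM.add {T R : X → F →L[ℂ] F} (hT : BM μ T) (hR : BM μ R) : BM μ (fun x => T x + R x) := by
  obtain ⟨C, hC⟩ := hT.bdd
  obtain ⟨C', hC'⟩ := hR.bdd
  refine ⟨hT.meas.add hR.meas, C + C', ?_⟩
  filter_upwards [hC, hC'] with x h1 h2
  exact (norm_add_le _ _).trans (add_le_add h1 h2)

lemma BM.smul {T : X → F →L[ℂ] F} (hT : BM μ T) (c : ℂ) : BM μ (fun x => c • T x) := by
  obtain ⟨C, hC⟩ := hT.bdd
  refine ⟨hT.meas.const_smul c, ‖c‖ * C, ?_⟩
  filter_upwards [hC] with x h1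
  rw [norm_smul]
  exact mul_le_mul_of_nonneg_left h1 (norm_nonneg _)

lemma BM.sub {T R : X → F →L[ℂ] F} (hT : BM μ T) (hR : BM μ R) : BM μ (fun x => T x - R x) := by
  obtain ⟨C, hC⟩ := hT.bdd
  obtain ⟨C', hC'⟩ := hR.bdd
  refine ⟨hT.meas.sub hR.meas, C + C', ?_⟩
  filter_upwards [hC, hC'] with x h1 h2
  exact (norm_sub_le _ _).trans (add_le_add h1 h2)

lemma BM.mul {T R : X → F →L[ℂ] F} (hT : BM μ T) (hR : BM μ R) :
    BM μ (fun x => (T x).comp (R x)) := by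
  obtain ⟨C, hC⟩ := hT.bdd
  obtain ⟨C', hC'⟩ := hR.bdd
  refine ⟨?_, |C| * |C'|, ?_⟩
  · exact hT.meas.mul hR.meas
  · filter_upwards [hC, hC'] with x h1 h2
    exact (ContinuousLinearMap.opNorm_comp_le _ _).trans
      (mul_le_mul (h1.trans (le_abs_self _)) (h2.trans (le_abs_self _)) (norm_nonneg _)
        (abs_nonneg _))

lemma BM.sum {ι : Type*} (s : Finset ι) {T : ι → X → F →L[ℂ] F} (h : ∀ i ∈ s, BM μ (T i)) :
    BM μ (fun x => ∑ i ∈ s, T i x) := by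
  classical
  induction s using Finset.induction_on with
  | empty => simpa using BM.const (μ := μ) (X := X) (0 : F →L[ℂ] F)
  | insert a s ha ih =>
    simp only [Finset.sum_insert ha]
    exact (h a (Finset.mem_insert_self _ _)).add (ih fun i hi => h i (Finset.mem_insert_of_mem hi))

lemma BM.congr {T R : X → F →L[ℂ] F} (hT : BM μ T) (h : T =ᵐ[μ] R) : BM μ R := by
  obtain ⟨C, hC⟩ := hT.bdd
  refine ⟨hT.meas.congr h, C, ?_⟩
  filter_upwards [hC, h] with x h1 h2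
  rwa [← h2]

lemma BM.memLp {T : X → F →L[ℂ] F} (hT : BM μ T) {u : X → F} (hu : MemLp u 2 μ) :
    MemLp (fun x => T x (u x)) 2 μ := by
  obtain ⟨C, hC⟩ := hT.bdd
  refine MemLp.of_le_mul (c := C) hu ?_ ?_
  · exact (ContinuousLinearMap.id ℂ (F →L[ℂ] F)).aestronglyMeasurable_comp₂ hT.meas
      hu.aestronglyMeasurable
  · filter_upwards [hC] with x h1
    exact ((T x).le_opNorm _).trans (mul_le_mul_of_nonneg_right h1 (norm_nonneg _))

lemma norm_sq_eq (u : Lp F 2 μ) : ‖u‖ ^ 2 = ∫ x, ‖u x‖ ^ 2 ∂μ := by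
  have h1 : ‖u‖ ^ 2 = (⟪u, u⟫).re := by
    rw [← @inner_self_eq_norm_sq ℂ]
    rfl
  have h2 : (∫ x, ⟪u x, u x⟫ ∂μ).re = ∫ x, (⟪u x, u x⟫).re ∂μ :=
    (integral_re (L2.integrable_inner (𝕜 := ℂ) u u)).symm
  rw [h1, L2.inner_def, h2]
  refine integral_congr_ae (Eventually.of_forall fun x => ?_)
  exact inner_self_eq_norm_sq (𝕜 := ℂ) (u x)

lemma integrable_sq (u : Lp F 2 μ) : Integrable (fun x => ‖u x‖ ^ 2) μ :=
  (memLp_two_iff_integrable_sq_norm (Lp.memLp u).aestronglyMeasurable).mp (Lp.memLp u)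

lemma norm_le_of_ae {u v : Lp F 2 μ} {C : ℝ} (hC : 0 ≤ C) (h : ∀ᵐ x ∂μ, ‖u x‖ ≤ C * ‖v x‖) :
    ‖u‖ ≤ C * ‖v‖ := by
  refine (pow_le_pow_iff_left₀ (norm_nonneg _) (by positivity) two_ne_zero).mp ?_
  rw [mul_pow, norm_sq_eq, norm_sq_eq, ← integral_const_mul]
  refine integral_mono_ae (integrable_sq u) ((integrable_sq v).const_mul _) ?_
  filter_upwards [h] with x hx
  show ‖u x‖ ^ 2 ≤ C ^ 2 * ‖v x‖ ^ 2
  rw [← mul_pow]
  exact pow_le_pow_left₀ (norm_nonneg _) hx 2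

/-- auxiliary linear map -/
noncomputable def mulLin {T : X → F →L[ℂ] F} (hT : BM μ T) : Lp F 2 μ →ₗ[ℂ] Lp F 2 μ where
  toFun u := (hT.memLp (Lp.memLp u)).toLp _
  map_add' u v := by
    refine Lp.ext ?_
    filter_upwards [MemLp.coeFn_toLp (hT.memLp (Lp.memLp (u + v))),
      MemLp.coeFn_toLp (hT.memLp (Lp.memLp u)), MemLp.coeFn_toLp (hT.memLp (Lp.memLp v)),
      Lp.coeFn_add u v,
      Lp.coeFn_add ((hT.memLp (Lp.memLp u)).toLp _) ((hT.memLp (Lp.memLp v)).toLp _)]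
      with x h1 h2 h3 h4 h5
    rw [h1, h5, Pi.add_apply, h2, h3, h4, Pi.add_apply, map_add]
  map_smul' c u := by
    refine Lp.ext ?_
    filter_upwards [MemLp.coeFn_toLp (hT.memLp (Lp.memLp (c • u))),
      MemLp.coeFn_toLp (hT.memLp (Lp.memLp u)),
      Lp.coeFn_smul c u,
      Lp.coeFn_smul c ((hT.memLp (Lp.memLp u)).toLp _)]
      with x h1 h2 h4 h5
    rw [h1, RingHom.id_apply, h5, Pi.smul_apply, h2, h4, Pi.smul_apply, map_smul]

lemma mulLin_ae {T : X → F →L[ℂ] F} (hT : BM μ T) (u : Lp F 2 μ) :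
    mulLin hT u =ᵐ[μ] fun x => T x (u x) := MemLp.coeFn_toLp (hT.memLp (Lp.memLp u))

open Classical in
/-- multiplication operator -/
noncomputable def mulOp (μ : Measure X) (T : X → F →L[ℂ] F) : Lp F 2 μ →L[ℂ] Lp F 2 μ :=
  if hT : BM μ T then
    (mulLin hT).mkContinuous |hT.bdd.choose| (by
      intro u
      refine norm_le_of_ae (abs_nonneg _) ?_
      filter_upwards [mulLin_ae hT u, hT.bdd.choose_spec] with x h1 h2
      rw [h1]
      exact ((T x).le_opNorm _).trans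
        (mul_le_mul_of_nonneg_right (h2.trans (le_abs_self _)) (norm_nonneg _)))
  else 0

lemma mulOp_ae {T : X → F →L[ℂ] F} (hT : BM μ T) (u : Lp F 2 μ) :
    mulOp μ T u =ᵐ[μ] fun x => T x (u x) := by
  unfold mulOp
  rw [dif_pos hT]
  exact mulLin_ae hT u

lemma norm_mulOp_le {T : X → F →L[ℂ] F} (hT : AEStronglyMeasurable T μ) {C : ℝ} (hC0 : 0 ≤ C)
    (hC : ∀ᵐ x ∂μ, ‖T x‖ ≤ C) : ‖mulOp μ T‖ ≤ C := by
  have hB : BM μ T := ⟨hT, C, hC⟩
  refine ContinuousLinearMap.opNorm_le_bound _ hC0 fun u => norm_le_of_ae hC0 ?_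
  filter_upwards [mulOp_ae hB u, hC] with x h1 h2
  rw [h1]
  exact ((T x).le_opNorm _).trans (mul_le_mul_of_nonneg_right h2 (norm_nonneg _))

lemma mulOp_congr {T R : X → F →L[ℂ] F} (h : T =ᵐ[μ] R) : mulOp μ T = mulOp μ R := by
  by_cases hT : BM μ T
  · have hR := hT.congr h
    refine ContinuousLinearMap.ext fun u => Lp.ext ?_
    filter_upwards [mulOp_ae hT u, mulOp_ae hR u, h] with x h1 h2 h3
    rw [h1, h2, h3]
  · have hR : ¬ BM μ R := fun hR => hT (hR.congr h.symm)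
    unfold mulOp
    rw [dif_neg hT, dif_neg hR]

lemma mulOp_add {T R : X → F →L[ℂ] F} (hT : BM μ T) (hR : BM μ R) :
    mulOp μ (fun x => T x + R x) = mulOp μ T + mulOp μ R := by
  refine ContinuousLinearMap.ext fun u => Lp.ext ?_
  filter_upwards [mulOp_ae hT u, mulOp_ae hR u, mulOp_ae (hT.add hR) u,
    Lp.coeFn_add (mulOp μ T u) (mulOp μ R u)] with x h1 h2 h3 h4
  rw [add_apply, h4, Pi.add_apply, h3, h1, h2]
  rfl

lemma mulOp_sub {T R : X → F →L[ℂ] F} (hT : BM μ T) (hR : BM μ R) :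
    mulOp μ (fun x => T x - R x) = mulOp μ T - mulOp μ R := by
  refine ContinuousLinearMap.ext fun u => Lp.ext ?_
  filter_upwards [mulOp_ae hT u, mulOp_ae hR u, mulOp_ae (hT.sub hR) u,
    Lp.coeFn_sub (mulOp μ T u) (mulOp μ R u)] with x h1 h2 h3 h4
  rw [sub_apply, h4, Pi.sub_apply, h3, h1, h2]
  rfl

lemma mulOp_smul {T : X → F →L[ℂ] F} (hT : BM μ T) (c : ℂ) :
    mulOp μ (fun x => c • T x) = c • mulOp μ T := by
  refine ContinuousLinearMap.ext fun u => Lp.ext ?_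
  filter_upwards [mulOp_ae hT u, mulOp_ae (hT.smul c) u,
    Lp.coeFn_smul c (mulOp μ T u)] with x h1 h2 h3
  rw [smul_apply, h3, Pi.smul_apply, h2, h1]
  rfl

lemma mulOp_comp {T R : X → F →L[ℂ] F} (hT : BM μ T) (hR : BM μ R) :
    mulOp μ (fun x => (T x).comp (R x)) = (mulOp μ T).comp (mulOp μ R) := by
  refine ContinuousLinearMap.ext fun u => Lp.ext ?_
  filter_upwards [mulOp_ae hT (mulOp μ R u), mulOp_ae hR u, mulOp_ae (hT.mul hR) u]
    with x h1 h2 h3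
  rw [h3, ContinuousLinearMap.comp_apply, ← h2]
  exact h1.symm

lemma mulOp_one : mulOp μ (fun _ : X => ContinuousLinearMap.id ℂ F) =
    ContinuousLinearMap.id ℂ (Lp F 2 μ) := by
  refine ContinuousLinearMap.ext fun u => Lp.ext ?_
  filter_upwards [mulOp_ae (BM.const (ContinuousLinearMap.id ℂ F)) u] with x h1
  rw [h1]
  rfl

lemma mulOp_zero : mulOp μ (fun _ : X => (0 : F →L[ℂ] F)) = 0 := by
  refine ContinuousLinearMap.ext fun u => Lp.ext ?_
  filter_upwards [mulOp_ae (BM.const (0 : F →L[ℂ] F)) u, Lp.coeFn_zero F 2 μ] with x h1 h2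
  rw [h1, zero_apply]
  exact h2.symm

lemma mulOp_sum {ι : Type*} (s : Finset ι) {T : ι → X → F →L[ℂ] F} (h : ∀ i ∈ s, BM μ (T i)) :
    mulOp μ (fun x => ∑ i ∈ s, T i x) = ∑ i ∈ s, mulOp μ (T i) := by
  classical
  induction s using Finset.induction_on with
  | empty => simpa using mulOp_zero (μ := μ) (F := F)
  | insert a s ha ih =>
    simp only [Finset.sum_insert ha]
    rw [mulOp_add (h a (Finset.mem_insert_self _ _))
      (BM.sum s fun i hi => h i (Finset.mem_insert_of_mem hi)),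
      ih fun i hi => h i (Finset.mem_insert_of_mem hi)]

lemma inner_mulOp {T : X → F →L[ℂ] F} (hT : BM μ T) (u v : Lp F 2 μ) :
    ⟪mulOp μ T u, v⟫ = ∫ x, ⟪T x (u x), v x⟫ ∂μ := by
  rw [L2.inner_def]
  refine integral_congr_ae ?_
  filter_upwards [mulOp_ae hT u] with x h1
  rw [h1]

lemma inner_mulOp_right {T : X → F →L[ℂ] F} (hT : BM μ T) (u v : Lp F 2 μ) :
    ⟪u, mulOp μ T v⟫ = ∫ x, ⟪u x, T x (v x)⟫ ∂μ := by
  rw [L2.inner_def]
  refine integral_congr_ae ?_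
  filter_upwards [mulOp_ae hT v] with x h1
  rw [h1]

lemma integrable_inner_mulOp {T : X → F →L[ℂ] F} (hT : BM μ T) (u v : Lp F 2 μ) :
    Integrable (fun x => ⟪T x (u x), v x⟫) μ := by
  refine (L2.integrable_inner (𝕜 := ℂ) (mulOp μ T u) v).congr ?_
  filter_upwards [mulOp_ae hT u] with x h1
  rw [h1]

lemma mulOp_symm {T : X → F →L[ℂ] F} (hT : BM μ T)
    (h : ∀ᵐ x ∂μ, ∀ v w, ⟪T x v, w⟫ = ⟪v, T x w⟫) (u v : Lp F 2 μ) :
    ⟪mulOp μ T u, v⟫ = ⟪u, mulOp μ T v⟫ := by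
  rw [inner_mulOp hT, inner_mulOp_right hT]
  refine integral_congr_ae ?_
  filter_upwards [h] with x h1
  exact h1 _ _

lemma mulOp_coer {T : X → F →L[ℂ] F} (hT : BM μ T) {c : ℝ}
    (h : ∀ᵐ x ∂μ, ∀ v, c * ‖v‖ ^ 2 ≤ (⟪T x v, v⟫).re) (u : Lp F 2 μ) :
    c * ‖u‖ ^ 2 ≤ (⟪mulOp μ T u, u⟫).re := by
  rw [inner_mulOp hT, norm_sq_eq, ← integral_const_mul]
  have h2 : (∫ x, ⟪T x (u x), u x⟫ ∂μ).re = ∫ x, (⟪T x (u x), u x⟫).re ∂μ :=
    (integral_re (integrable_inner_mulOp hT u u)).symm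
  rw [h2]
  refine integral_mono_ae ((integrable_sq u).const_mul _)
    (integrable_inner_mulOp hT u u).re ?_
  filter_upwards [h] with x h1
  exact h1 _

lemma mulOp_eq_zero {T : X → F →L[ℂ] F} (h : ∀ᵐ x ∂μ, T x = 0) : mulOp μ T = 0 := by
  rw [mulOp_congr (R := fun _ => 0) h, mulOp_zero]

lemma inner_mulOp_eq_zero {T R S : X → F →L[ℂ] F} (hT : BM μ T) (hR : BM μ R) (hS : BM μ S)
    (h : ∀ᵐ x ∂μ, ∀ v w, ⟪S x (T x v), R x w⟫ = 0) (u v : Lp F 2 μ) :
    ⟪mulOp μ S (mulOp μ T u), mulOp μ R v⟫ = 0 := by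
  rw [L2.inner_def]
  have : (fun x => ⟪mulOp μ S (mulOp μ T u) x, mulOp μ R v x⟫) =ᵐ[μ] fun _ => 0 := by
    filter_upwards [mulOp_ae hS (mulOp μ T u), mulOp_ae hT u, mulOp_ae hR v, h] with x h1 h2 h3 h4
    rw [h1, h2, h3, h4]
  rw [integral_congr_ae this, integral_zero]

end Crest.Agent.R276.Mul_817
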