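import Mathlib
import Crest.Agent.R276.Mul_817
import Crest.Agent.R276.HsC_817

/-!
# R276 / IPC-MUL, part 2: differentiable families of multiplication operators; from pointwise data to
the structures `Types` and `Family` of `HsB_817`, `HsC_817`.
-/

set_option autoImplicit false
set_option linter.unusedSectionVars false

open Set Filter Topology MeasureTheory
open scoped InnerProductSpace ENNReal
open Crest.Agent.R276.Mul_817 Crest.Agent.R276.HsA_817 Crest.Agent.R276.HsB_817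
  Crest.Agent.R276.HsC_817

namespace Crest.Agent.R276.Mul2_817

variable {X : Type*} [MeasurableSpace X] {μ : Measure X}
variable {F : Type*} [NormedAddCommGroup F] [InnerProductSpace ℂ F] [FiniteDimensional ℂ F]
variable {E : Type*} [NormedAddCommGroup E] [NormedSpace ℂ E] [FiniteDimensional ℂ E]

local notation "⟪" x ", " y "⟫" => inner ℂ x y

/-- pointwise differentiable field of operators at `z0`, with uniform Lipschitz bound -/
structure DF (μ : Measure X) (T : E → X → F →L[ℂ] F) (z0 : E) : Prop where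
  bm : ∀ᶠ z in 𝓝 z0, BM μ (T z)
  lip : ∃ C : ℝ, ∀ᶠ z in 𝓝 z0, ∀ᵐ x ∂μ, ‖T z x - T z0 x‖ ≤ C * ‖z - z0‖
  diff : ∀ᵐ x ∂μ, DifferentiableAt ℝ (fun z => T z x) z0

/-- the pointwise derivative -/
noncomputable def dT (T : E → X → F →L[ℂ] F) (z0 t : E) (x : X) : F →L[ℂ] F :=
  fderiv ℝ (fun z => T z x) z0 t

lemma DF.slope {T : E → X → F →L[ℂ] F} {z0 : E} (h : DF μ T z0) (t : E) :
    ∀ᵐ x ∂μ, Tendsto (fun k : ℕ => ((k : ℝ) + 1) • (T (z0 + ((k : ℝ) + 1)⁻¹ • t) x - T z0 x)) atTop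
      (𝓝 (dT T z0 t x)) := by
  filter_upwards [h.diff] with x hx
  have h1 := hx.hasFDerivAt.hasLineDerivAt t
  have h2 := h1.tendsto_slope_zero
  have h3 : Tendsto (fun k : ℕ => ((k : ℝ) + 1)⁻¹) atTop (𝓝[≠] 0) := by
    rw [tendsto_nhdsWithin_iff]
    refine ⟨?_, Eventually.of_forall fun k => ?_⟩
    · have := tendsto_one_div_add_atTop_nhds_zero_nat (𝕜 := ℝ)
      simpa [one_div] using this
    · have : (0 : ℝ) < ((k : ℝ) + 1)⁻¹ := by positivity
      exact this.ne'
  have h4 := h2.comp h3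
  refine h4.congr fun k => ?_
  simp only [Function.comp_apply, inv_inv]

lemma DF.bm_d {T : E → X → F →L[ℂ] F} {z0 : E} (h : DF μ T z0) {C : ℝ}
    (hC : ∀ᶠ z in 𝓝 z0, ∀ᵐ x ∂μ, ‖T z x - T z0 x‖ ≤ C * ‖z - z0‖) (t : E) :
    BM μ (dT T z0 t) ∧ ∀ᵐ x ∂μ, ‖dT T z0 t x‖ ≤ C * ‖t‖ := by
  have h3 : Tendsto (fun k : ℕ => z0 + ((k : ℝ) + 1)⁻¹ • t) atTop (𝓝 z0) := by
    have h4 : Tendsto (fun k : ℕ => ((k : ℝ) + 1)⁻¹) atTop (𝓝 0) := by
      have := tendsto_one_div_add_atTop_nhds_zero_nat (𝕜 := ℝ)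
      simpa [one_div] using this
    have h5 := (h4.smul_const t).const_add z0
    simpa using h5
  obtain ⟨K, hK⟩ := eventually_atTop.mp (h3.eventually (h.bm.and hC))
  have hz0 : BM μ (T z0) := h.bm.self_of_nhds
  have hslope := h.slope t
  have hmeas : AEStronglyMeasurable (dT T z0 t) μ := by
    refine aestronglyMeasurable_of_tendsto_ae (u := atTop)
      (f := fun k : ℕ => fun x => (((k + K : ℕ) : ℝ) + 1) •
        (T (z0 + (((k + K : ℕ) : ℝ) + 1)⁻¹ • t) x - T z0 x)) ?_ ?_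
    · intro k
      have := (hK (k + K) (Nat.le_add_left _ _)).1
      exact (this.meas.sub hz0.meas).const_smul (((k + K : ℕ) : ℝ) + 1)
    · filter_upwards [hslope] with x hx
      exact hx.comp (tendsto_add_atTop_nat K)
  have hbd : ∀ᵐ x ∂μ, ‖dT T z0 t x‖ ≤ C * ‖t‖ := by
    have h4 : ∀ᵐ x ∂μ, ∀ k : ℕ, K ≤ k → ‖T (z0 + ((k : ℝ) + 1)⁻¹ • t) x - T z0 x‖ ≤
        C * ‖(z0 + ((k : ℝ) + 1)⁻¹ • t) - z0‖ := by
      rw [ae_all_iff]
      intro k
      by_cases hk : K ≤ k
      · filter_upwards [(hK k hk).2] with x hx _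
        exact hx
      · exact Eventually.of_forall fun x h => absurd h hk
    filter_upwards [hslope, h4] with x hx h5
    refine le_of_tendsto hx.norm ?_
    filter_upwards [eventually_ge_atTop K] with k hk
    have hpos : (0 : ℝ) < (k : ℝ) + 1 := by positivity
    rw [norm_smul, Real.norm_of_nonneg hpos.le]
    have h6 := h5 k hk
    rw [add_sub_cancel_left, norm_smul, Real.norm_of_nonneg (inv_pos.mpr hpos).le] at h6
    calc ((k : ℝ) + 1) * ‖T (z0 + ((k : ℝ) + 1)⁻¹ • t) x - T z0 x‖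
        ≤ ((k : ℝ) + 1) * (C * (((k : ℝ) + 1)⁻¹ * ‖t‖)) :=
          mul_le_mul_of_nonneg_left h6 hpos.le
      _ = C * ‖t‖ := by field_simp
  exact ⟨⟨hmeas, _, hbd⟩, hbd⟩

/-- the derivative as a continuous linear map -/
noncomputable def DL (μ : Measure X) (T : E → X → F →L[ℂ] F) (z0 : E) (h : DF μ T z0)
    (u : Lp F 2 μ) : E →L[ℝ] Lp F 2 μ :=
  LinearMap.toContinuousLinearMap
    { toFun := fun t => mulOp μ (dT T z0 t) u
      map_add' := by
        intro a b
        obtain ⟨C, hC⟩ := h.lip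
        have ha := (h.bm_d hC a).1
        have hb := (h.bm_d hC b).1
        have h1 : dT T z0 (a + b) = fun x => dT T z0 a x + dT T z0 b x := by
          funext x
          exact map_add _ _ _
        rw [h1, mulOp_add ha hb]
        rfl
      map_smul' := by
        intro r a
        obtain ⟨C, hC⟩ := h.lip
        have ha := (h.bm_d hC a).1
        have h1 : dT T z0 (r • a) = fun x => (r : ℂ) • dT T z0 a x := by
          funext x
          have := (fderiv ℝ (fun z => T z x) z0).map_smul r a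
          exact this
        rw [h1, mulOp_smul ha]
        rfl }

lemma DL_apply {T : E → X → F →L[ℂ] F} {z0 : E} (h : DF μ T z0) (u : Lp F 2 μ) (t : E) :
    DL μ T z0 h u t = mulOp μ (dT T z0 t) u := rfl

/-- Differentiability of `z ↦ mulOp (T z) u` by dominated convergence. -/
theorem DF.hasFDerivAt {T : E → X → F →L[ℂ] F} {z0 : E} (h : DF μ T z0) (u : Lp F 2 μ) :
    HasFDerivAt (fun z => mulOp μ (T z) u) (DL μ T z0 h u) z0 := by
  obtain ⟨C, hC⟩ := h.lip
  have hz0 : BM μ (T z0) := h.bm.self_of_nhds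
  rw [hasFDerivAt_iff_tendsto]
  -- the field of the difference
  let R : E → X → F →L[ℂ] F := fun z x => (T z x - T z0 x) - dT T z0 (z - z0) x
  have hR : ∀ᶠ z in 𝓝 z0, BM μ (R z) ∧
      mulOp μ (T z) u - mulOp μ (T z0) u - DL μ T z0 h u (z - z0) = mulOp μ (R z) u := by
    filter_upwards [h.bm] with z hz
    have h1 := hz.sub hz0
    have h2 := (h.bm_d hC (z - z0)).1
    refine ⟨h1.sub h2, ?_⟩
    rw [DL_apply, mulOp_sub h1 h2, mulOp_sub hz hz0]
    rfl
  have key : Tendsto (fun z => ∫ x, (‖z - z0‖⁻¹ * ‖R z x (u x)‖) ^ 2 ∂μ) (𝓝 z0)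
      (𝓝 (∫ _x : X, (0 : ℝ) ∂μ)) := by
    refine tendsto_integral_filter_of_dominated_convergence
      (fun x => (2 * |C|) ^ 2 * ‖u x‖ ^ 2) ?_ ?_ ((integrable_sq u).const_mul _) ?_
    · filter_upwards [hR] with z hz
      have h1 := (hz.1.memLp (Lp.memLp u)).aestronglyMeasurable
      exact ((h1.norm).const_mul _).pow 2
    · filter_upwards [hC] with z hz
      filter_upwards [hz, (h.bm_d hC (z - z0)).2] with x h1 h2
      have h3 : ‖R z x‖ ≤ 2 * |C| * ‖z - z0‖ := by
        refine (norm_sub_le _ _).trans ?_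
        have h4 : C * ‖z - z0‖ ≤ |C| * ‖z - z0‖ :=
          mul_le_mul_of_nonneg_right (le_abs_self _) (norm_nonneg _)
        linarith
      have h4 : ‖z - z0‖⁻¹ * ‖R z x (u x)‖ ≤ 2 * |C| * ‖u x‖ := by
        by_cases h0 : z - z0 = 0
        · rw [h0, norm_zero, inv_zero, zero_mul]
          positivity
        · have h5 : 0 < ‖z - z0‖ := norm_pos_iff.mpr h0
          have h6 : ‖R z x (u x)‖ ≤ 2 * |C| * ‖z - z0‖ * ‖u x‖ :=
            ((R z x).le_opNorm _).trans (mul_le_mul_of_nonneg_right h3 (norm_nonneg _))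
          rw [inv_mul_le_iff₀ h5]
          linarith
      rw [Real.norm_of_nonneg (by positivity), ← mul_pow]
      exact pow_le_pow_left₀ (by positivity) h4 2
    · filter_upwards [h.diff] with x hx
      have h1 := hasFDerivAt_iff_tendsto.mp hx.hasFDerivAt
      have h2 : Tendsto (fun z => ‖z - z0‖⁻¹ * ‖R z x‖ * ‖u x‖) (𝓝 z0) (𝓝 0) := by
        have h3 := h1.mul_const ‖u x‖
        rw [zero_mul] at h3
        exact h3
      have h3 : Tendsto (fun z => ‖z - z0‖⁻¹ * ‖R z x (u x)‖) (𝓝 z0) (𝓝 0) := by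
        refine squeeze_zero (fun z => by positivity) (fun z => ?_) h2
        rw [mul_assoc]
        exact mul_le_mul_of_nonneg_left ((R z x).le_opNorm _) (by positivity)
      simpa using h3.pow 2
  rw [integral_zero] at key
  have key2 : Tendsto (fun z => Real.sqrt (∫ x, (‖z - z0‖⁻¹ * ‖R z x (u x)‖) ^ 2 ∂μ)) (𝓝 z0)
      (𝓝 0) := by
    have := key.sqrt
    simpa using this
  refine key2.congr' ?_
  filter_upwards [hR] with z hz
  rw [hz.2]
  have h1 : ∫ x, (‖z - z0‖⁻¹ * ‖R z x (u x)‖) ^ 2 ∂μ = (‖z - z0‖⁻¹ * ‖mulOp μ (R z) u‖) ^ 2 := by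
    rw [mul_pow, norm_sq_eq, ← integral_const_mul]
    refine integral_congr_ae ?_
    filter_upwards [mulOp_ae hz.1 u] with x hx
    show (‖z - z0‖⁻¹ * ‖R z x (u x)‖) ^ 2 = ‖z - z0‖⁻¹ ^ 2 * ‖mulOp μ (R z) u x‖ ^ 2
    rw [hx, mul_pow]
  rw [h1, Real.sqrt_sq (by positivity)]

end Crest.Agent.R276.Mul2_817
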