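import Crest.Agent.R271.H3_51

/-!
# R276, leaf ALG-NL (helper137), part 1: null-Lagrangian identity for `det (∂_j g_k)` on a Riemann domain

* `integral_det_eq_zero` : `g : Fin n → M → ℂ` smooth, one `g k₀` compactly supported, then
  `∫ det (∂_j g_k) dμ = 0` (and the integrand is integrable);
* `integral_det_sub` : `φ - χ` compactly supported, then `∫ (det Lv φ - det Lv χ) dμ = 0`.
-/

set_option autoImplicit false
set_option linter.unusedSectionVars false

noncomputable section

open Set Filter Topology MeasureTheory ComplexConjugate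

namespace Crest.Agent.R276.NL_137

open Crest.Agent.R271.Ho51

variable {n : ℕ} {M : Type*} [TopologicalSpace M] [RDom n M]

lemma Sm_prod {ι : Type*} (s : Finset ι) {f : ι → M → ℂ} (hf : ∀ i ∈ s, Sm (f i)) :
    Sm (fun x => ∏ i ∈ s, f i x) := by
  classical
  induction s using Finset.induction_on with
  | empty => simpa using Sm.const (M := M) (1 : ℂ)
  | insert a s ha ih =>
    simp only [Finset.prod_insert ha]
    exact (hf a (by simp)).mul (ih fun i hi => hf i (by simp [hi]))

lemma dz_prod {ι : Type*} [DecidableEq ι] (s : Finset ι) {f : ι → M → ℂ}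
    (hf : ∀ i ∈ s, Sm (f i)) (j : Fin n) (x : M) :
    dz j (fun x => ∏ i ∈ s, f i x) x = ∑ m ∈ s, dz j (f m) x * ∏ i ∈ s.erase m, f i x := by
  induction s using Finset.induction_on with
  | empty => simp [dz_const]
  | insert a s ha ih =>
    have hs : ∀ i ∈ s, Sm (f i) := fun i hi => hf i (by simp [hi])
    simp only [Finset.prod_insert ha]
    rw [dz_mul (hf a (by simp)) (Sm_prod s hs), ih hs, Finset.sum_insert ha,
      Finset.erase_insert ha, Finset.mul_sum]
    congr 1
    refine Finset.sum_congr rfl fun m hm => ?_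
    have hma : m ≠ a := fun h => ha (h ▸ hm)
    rw [Finset.erase_insert_of_ne hma.symm, Finset.prod_insert (fun h => ha (Finset.mem_of_mem_erase h))]
    ring

/-- the matrix `(∂_j g_k)_{jk}` -/
def Jm (g : Fin n → M → ℂ) (x : M) : Matrix (Fin n) (Fin n) ℂ :=
  Matrix.of fun j k => dz j (g k) x

lemma det_Jm (g : Fin n → M → ℂ) (x : M) : (Jm g x).det =
    ∑ σ : Equiv.Perm (Fin n), ((Equiv.Perm.sign σ : ℤ) : ℂ) * ∏ i, dz (σ i) (g i) x := by
  rw [Matrix.det_apply']
  rfl

lemma Sm_det {g : Fin n → M → ℂ} (hg : ∀ k, Sm (g k)) : Sm (fun x => (Jm g x).det) := by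
  simp only [det_Jm]
  exact Sm.sum fun σ _ => (Sm.const _).mul (Sm_prod _ fun i _ => (hg i).dz _)

/-- **Piola identity** -/
theorem piola {g : Fin n → M → ℂ} (hg : ∀ k, Sm (g k)) (k₀ : Fin n) (x : M) :
    ∑ σ : Equiv.Perm (Fin n), ((Equiv.Perm.sign σ : ℤ) : ℂ) *
      dz (σ k₀) (fun y => ∏ i ∈ Finset.univ.erase k₀, dz (σ i) (g i) y) x = 0 := by
  have h1 : ∀ σ : Equiv.Perm (Fin n),
      dz (σ k₀) (fun y => ∏ i ∈ Finset.univ.erase k₀, dz (σ i) (g i) y) x =
      ∑ m ∈ Finset.univ.erase k₀, dz (σ k₀) (dz (σ m) (g m)) x *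
        ∏ i ∈ (Finset.univ.erase k₀).erase m, dz (σ i) (g i) x := fun σ =>
    dz_prod _ (fun i _ => (hg i).dz _) _ x
  simp only [h1, Finset.mul_sum]
  rw [Finset.sum_comm]
  refine Finset.sum_eq_zero fun m hm => ?_
  have hmk : m ≠ k₀ := Finset.ne_of_mem_erase hm
  set F : Equiv.Perm (Fin n) → ℂ := fun σ => ((Equiv.Perm.sign σ : ℤ) : ℂ) *
    (dz (σ k₀) (dz (σ m) (g m)) x * ∏ i ∈ (Finset.univ.erase k₀).erase m, dz (σ i) (g i) x) with hF
  have h2 : ∀ σ, F (σ * Equiv.swap k₀ m) = - F σ := by
    intro σ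
    simp only [hF]
    have e1 : (σ * Equiv.swap k₀ m) k₀ = σ m := by simp
    have e2 : (σ * Equiv.swap k₀ m) m = σ k₀ := by simp
    have e3 : ∏ i ∈ (Finset.univ.erase k₀).erase m, dz ((σ * Equiv.swap k₀ m) i) (g i) x =
        ∏ i ∈ (Finset.univ.erase k₀).erase m, dz (σ i) (g i) x := by
      refine Finset.prod_congr rfl fun i hi => ?_
      have hi1 : i ≠ m := Finset.ne_of_mem_erase hi
      have hi2 : i ≠ k₀ := Finset.ne_of_mem_erase (Finset.mem_of_mem_erase hi)
      rw [Equiv.Perm.mul_apply, Equiv.swap_apply_of_ne_of_ne hi2 hi1]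
    rw [e1, e2, e3, Equiv.Perm.sign_mul, Equiv.Perm.sign_swap hmk.symm, dz_dz_comm (hg m)]
    push_cast
    ring
  have h3 : ∑ σ, F (σ * Equiv.swap k₀ m) = ∑ σ, F σ :=
    Equiv.sum_comp (Equiv.mulRight (Equiv.swap k₀ m)) F
  have h4 : ∑ σ, F σ = - ∑ σ, F σ := by
    conv_lhs => rw [← h3]
    simp only [h2, Finset.sum_neg_distrib]
  have h5 : (2 : ℂ) * ∑ σ, F σ = 0 := by linear_combination h4
  exact (mul_eq_zero.1 h5).resolve_left two_ne_zero

variable [T2Space M] [MeasurableSpace M] [BorelSpace M] {μ : Measure M}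

theorem integral_det_eq_zero (hμ : IsLeb μ) {g : Fin n → M → ℂ} (hg : ∀ k, Sm (g k))
    (k₀ : Fin n) (hc : HasCompactSupport (g k₀)) :
    Integrable (fun x => (Jm g x).det) μ ∧ ∫ x, (Jm g x).det ∂μ = 0 := by
  set P : Equiv.Perm (Fin n) → M → ℂ := fun σ x =>
    ∏ i ∈ Finset.univ.erase k₀, dz (σ i) (g i) x with hP
  have hPs : ∀ σ, Sm (P σ) := fun σ => Sm_prod _ fun i _ => (hg i).dz _
  have h1 : ∀ x, (Jm g x).det = ∑ σ : Equiv.Perm (Fin n), ((Equiv.Perm.sign σ : ℤ) : ℂ) *
      dz (σ k₀) (fun y => g k₀ y * P σ y) x := by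
    intro x
    have h2 : ∀ σ : Equiv.Perm (Fin n), dz (σ k₀) (fun y => g k₀ y * P σ y) x =
        dz (σ k₀) (g k₀) x * P σ x + g k₀ x * dz (σ k₀) (P σ) x := fun σ =>
      dz_mul (hg k₀) (hPs σ) _ x
    simp only [h2, mul_add, Finset.sum_add_distrib]
    have h3 : ∑ σ : Equiv.Perm (Fin n), ((Equiv.Perm.sign σ : ℤ) : ℂ) *
        (g k₀ x * dz (σ k₀) (P σ) x) = 0 := by
      have := piola hg k₀ x
      have h4 : ∑ σ : Equiv.Perm (Fin n), ((Equiv.Perm.sign σ : ℤ) : ℂ) *
        (g k₀ x * dz (σ k₀) (P σ) x) = g k₀ x * ∑ σ : Equiv.Perm (Fin n),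
          ((Equiv.Perm.sign σ : ℤ) : ℂ) * dz (σ k₀) (P σ) x := by
        rw [Finset.mul_sum]
        exact Finset.sum_congr rfl fun σ _ => by ring
      rw [h4, this, mul_zero]
    rw [h3, add_zero, det_Jm]
    refine Finset.sum_congr rfl fun σ _ => ?_
    congr 1
    exact (Finset.mul_prod_erase Finset.univ (fun i => dz (σ i) (g i) x)
      (Finset.mem_univ k₀)).symm
  have hS : ∀ σ, Sm (fun y => g k₀ y * P σ y) := fun σ => (hg k₀).mul (hPs σ)
  have hC : ∀ σ, HasCompactSupport (fun y => g k₀ y * P σ y) := fun σ => hc.mul_right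
  have hdC : ∀ σ : Equiv.Perm (Fin n), HasCompactSupport (dz (σ k₀) (fun y => g k₀ y * P σ y)) :=
    fun σ => (hasCompactSupport_D (hC σ)).comp_left (g := wz (σ k₀)) (by simp [wz])
  have hI : ∀ σ : Equiv.Perm (Fin n), Integrable (fun x => ((Equiv.Perm.sign σ : ℤ) : ℂ) *
      dz (σ k₀) (fun y => g k₀ y * P σ y) x) μ := fun σ =>
    (((hS σ).dz (σ k₀)).integrable hμ (hdC σ)).const_mul _
  have hfun : (fun x => (Jm g x).det) = fun x => ∑ σ : Equiv.Perm (Fin n),
      ((Equiv.Perm.sign σ : ℤ) : ℂ) * dz (σ k₀) (fun y => g k₀ y * P σ y) x := funext h1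
  rw [hfun]
  refine ⟨integrable_finsetSum _ fun σ _ => hI σ, ?_⟩
  rw [integral_finsetSum _ fun σ _ => hI σ]
  refine Finset.sum_eq_zero fun σ _ => ?_
  rw [integral_const_mul, integral_dz_eq_zero hμ (hS σ) (hC σ), mul_zero]

/-- two families which agree outside a compact set -/
theorem integral_det_sub' (hμ : IsLeb μ) {g h : Fin n → M → ℂ} (hg : ∀ k, Sm (g k))
    (hh : ∀ k, Sm (h k)) (hc : ∀ k, HasCompactSupport (fun x => g k x - h k x)) :
    Integrable (fun x => (Jm g x).det - (Jm h x).det) μ ∧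
      ∫ x, ((Jm g x).det - (Jm h x).det) ∂μ = 0 := by
  classical
  have key : ∀ s : Finset (Fin n),
      Integrable (fun x => (Jm (s.piecewise g h) x).det - (Jm h x).det) μ ∧
      ∫ x, ((Jm (s.piecewise g h) x).det - (Jm h x).det) ∂μ = 0 := by
    intro s
    induction s using Finset.induction_on with
    | empty => simp
    | insert a s ha ih =>
      set F : Fin n → M → ℂ := s.piecewise g h with hF
      have hFs : ∀ k, Sm (F k) := by
        intro k
        by_cases hk : k ∈ s
        · simpa [hF, hk] using hg k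
        · simpa [hF, hk] using hh k
      set E : Fin n → M → ℂ := Function.update F a (fun x => g a x - h a x) with hE
      have hEs : ∀ k, Sm (E k) := by
        intro k
        by_cases hk : k = a
        · subst hk; simpa [hE] using (hg k).sub (hh k)
        · simpa [hE, hk] using hFs k
      have hEa : HasCompactSupport (E a) := by simpa [hE] using hc a
      have h1 := integral_det_eq_zero hμ hEs a hEa
      have h2 : ∀ x, (Jm ((insert a s).piecewise g h) x).det - (Jm h x).det =
          ((Jm F x).det - (Jm h x).det) + (Jm E x).det := by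
        intro x
        have e1 : (insert a s).piecewise g h = Function.update F a (g a) := by
          rw [Finset.piecewise_insert]
        have c1 : Jm (Function.update F a (g a)) x =
            (Jm F x).updateCol a (fun j => dz j (g a) x) := by
          ext j k
          by_cases hk : k = a
          · subst hk; simp [Jm]
          · simp [Jm, hk]
        have c2 : Jm E x = (Jm F x).updateCol a (fun j => dz j (g a) x - dz j (h a) x) := by
          ext j k
          by_cases hk : k = a
          · subst hk; simp [Jm, hE, dz_sub (hg k) (hh k)]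
          · simp [Jm, hE, hk]
        have c3 : Jm F x = (Jm F x).updateCol a (fun j => dz j (h a) x) := by
          ext j k
          by_cases hk : k = a
          · subst hk; simp [Jm, hF, ha]
          · simp [hk]
        have c4 : (fun j => dz j (g a) x) = (fun j => dz j (h a) x) +
            fun j => dz j (g a) x - dz j (h a) x := by
          funext j; simp
        rw [e1, c1, c4, Matrix.det_updateCol_add, ← c3, ← c2]
        ring
      refine ⟨?_, ?_⟩
      · refine (ih.1.add h1.1).congr (Eventually.of_forall fun x => ?_)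
        exact (h2 x).symm
      · simp only [h2]
        rw [integral_add ih.1 h1.1, ih.2, h1.2, add_zero]
  simpa using key Finset.univ

/-- the Levi matrix -/
def LvM (φ : M → ℝ) (x : M) : Matrix (Fin n) (Fin n) ℂ := Matrix.of (Lv φ x)

theorem Sm_detLv {φ : M → ℝ} (hφ : Sm φ) : Sm (fun x => (LvM φ x).det) :=
  Sm_det (g := fun k => db k (fun y => (φ y : ℂ))) fun k => hφ.ofReal.db k

/-- **null-Lagrangian identity** for the determinant of the Levi matrix -/
theorem integral_det_sub (hμ : IsLeb μ) {φ χ : M → ℝ} (hφ : Sm φ) (hχ : Sm χ)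
    (hc : HasCompactSupport (fun x => φ x - χ x)) :
    Integrable (fun x => (LvM φ x).det - (LvM χ x).det) μ ∧
      ∫ x, ((LvM φ x).det - (LvM χ x).det) ∂μ = 0 := by
  refine integral_det_sub' hμ (g := fun k => db k (fun y => (φ y : ℂ)))
    (h := fun k => db k (fun y => (χ y : ℂ))) (fun k => hφ.ofReal.db k)
    (fun k => hχ.ofReal.db k) fun k => ?_
  have h1 : (fun x => db k (fun y => (φ y : ℂ)) x - db k (fun y => (χ y : ℂ)) x) =
      db k (fun y => ((φ y - χ y : ℝ) : ℂ)) := by
    funext x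
    rw [← db_sub hφ.ofReal hχ.ofReal]
    apply db_congr
    exact Eventually.of_forall fun y => by simp
  rw [h1]
  have h2 : HasCompactSupport (fun y => ((φ y - χ y : ℝ) : ℂ)) :=
    hc.comp_left (g := fun r : ℝ => (r : ℂ)) (by simp)
  exact (hasCompactSupport_D h2).comp_left (g := wb k) (by simp [wb])

end Crest.Agent.R276.NL_137
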