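import Mathlib

/-!
# R276, leaf IPC-NAT (helper591), part 1: weighted composition operators between `L²` spaces

`IsTr μ ν Ψ M C` : `Ψ : X → Y` quasi measure preserving, `M x : F →L F'` measurable,
`∫ ‖M x‖² f (Ψ x) dμ ≤ C ∫ f dν`.  `tr h : Lp F 2 ν →L[ℂ] Lp F' 2 μ`, `(tr h v) x = M x (v (Ψ x))`.
-/

set_option autoImplicit false
set_option linter.unusedSectionVars false

noncomputable section

open MeasureTheory Filter Topology Set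
open scoped ENNReal NNReal

namespace Crest.Agent.R276.Nat_591

variable {X Y : Type*} [MeasurableSpace X] [MeasurableSpace Y] {μ : Measure X} {ν : Measure Y}
variable {F F' F'' : Type*} [NormedAddCommGroup F] [NormedSpace ℂ F] [NormedAddCommGroup F']
  [NormedSpace ℂ F'] [NormedAddCommGroup F''] [NormedSpace ℂ F'']

/-- data of a weighted composition operator -/
structure IsTr (μ : Measure X) (ν : Measure Y) (Ψ : X → Y) (M : X → F →L[ℂ] F') (C : ℝ≥0) :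
    Prop where
  qmp : Measure.QuasiMeasurePreserving Ψ μ ν
  meas : AEStronglyMeasurable M μ
  bd : ∀ f : Y → ℝ≥0∞, AEMeasurable f ν → ∫⁻ x, ‖M x‖ₑ ^ 2 * f (Ψ x) ∂μ ≤ C * ∫⁻ y, f y ∂ν

variable {Ψ : X → Y} {M : X → F →L[ℂ] F'} {C : ℝ≥0}

theorem eLpNorm_sq {Z : Type*} [MeasurableSpace Z] {ρ : Measure Z} {G : Type*}
    [NormedAddCommGroup G] (g : Z → G) : eLpNorm g 2 ρ ^ 2 = ∫⁻ z, ‖g z‖ₑ ^ 2 ∂ρ := by
  rw [eLpNorm_eq_lintegral_rpow_enorm_toReal (by norm_num) (by norm_num)]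
  simp only [ENNReal.toReal_ofNat, ENNReal.rpow_ofNat, one_div]
  rw [← ENNReal.rpow_ofNat, ← ENNReal.rpow_mul]
  norm_num

theorem IsTr.aesm (h : IsTr μ ν Ψ M C) {v : Y → F} (hv : AEStronglyMeasurable v ν) :
    AEStronglyMeasurable (fun x => M x (v (Ψ x))) μ := by
  have h1 : AEStronglyMeasurable (fun x => v (Ψ x)) μ := hv.comp_quasiMeasurePreserving h.qmp
  exact (ContinuousLinearMap.aestronglyMeasurable_comp₂ (ContinuousLinearMap.id ℂ (F →L[ℂ] F'))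
    h.meas h1)

theorem IsTr.lint_le (h : IsTr μ ν Ψ M C) {v : Y → F} (hv : AEStronglyMeasurable v ν) :
    ∫⁻ x, ‖M x (v (Ψ x))‖ₑ ^ 2 ∂μ ≤ C * ∫⁻ y, ‖v y‖ₑ ^ 2 ∂ν := by
  refine le_trans ?_ (h.bd (fun y => ‖v y‖ₑ ^ 2) (hv.enorm.pow_const 2))
  refine lintegral_mono (fun x => ?_)
  rw [← mul_pow]
  gcongr
  exact ContinuousLinearMap.le_opENorm _ _

theorem IsTr.eLp_le (h : IsTr μ ν Ψ M C) {v : Y → F} (hv : AEStronglyMeasurable v ν) :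
    eLpNorm (fun x => M x (v (Ψ x))) 2 μ ≤ (NNReal.sqrt C : ℝ≥0∞) * eLpNorm v 2 ν := by
  have h1 := h.lint_le hv
  rw [← eLpNorm_sq, ← eLpNorm_sq] at h1
  have h2 : (C : ℝ≥0∞) = (NNReal.sqrt C : ℝ≥0∞) ^ 2 := by
    rw [← ENNReal.coe_pow, NNReal.sq_sqrt]
  rw [h2, ← mul_pow] at h1
  exact (ENNReal.pow_le_pow_left_iff (by norm_num)).1 h1

theorem IsTr.memLp (h : IsTr μ ν Ψ M C) {v : Y → F} (hv : MemLp v 2 ν) :
    MemLp (fun x => M x (v (Ψ x))) 2 μ :=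
  ⟨h.aesm hv.1, (h.eLp_le hv.1).trans_lt (ENNReal.mul_lt_top ENNReal.coe_lt_top hv.2)⟩

/-- the weighted composition operator as a linear map -/
def trL (h : IsTr μ ν Ψ M C) : Lp F 2 ν →ₗ[ℂ] Lp F' 2 μ where
  toFun v := (h.memLp (Lp.memLp v)).toLp
  map_add' u v := by
    rw [← MemLp.toLp_add]
    refine MemLp.toLp_congr _ _ ?_
    have h1 := h.qmp.ae (Lp.coeFn_add u v)
    filter_upwards [h1] with x hx
    rw [hx]
    simp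
  map_smul' c v := by
    rw [RingHom.id_apply, ← MemLp.toLp_const_smul]
    refine MemLp.toLp_congr _ _ ?_
    have h1 := h.qmp.ae (Lp.coeFn_smul c v)
    filter_upwards [h1] with x hx
    rw [hx]
    simp

/-- **the weighted composition operator** -/
def tr (h : IsTr μ ν Ψ M C) : Lp F 2 ν →L[ℂ] Lp F' 2 μ :=
  (trL h).mkContinuous (NNReal.sqrt C) (by
    intro v
    have h1 := h.eLp_le (Lp.aestronglyMeasurable v)
    have h2 : ‖trL h v‖ = (eLpNorm (fun x => M x (v (Ψ x))) 2 μ).toReal := by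
      show ‖(h.memLp (Lp.memLp v)).toLp‖ = _
      rw [Lp.norm_toLp]
    rw [h2, Lp.norm_def, ← ENNReal.coe_toReal, ← ENNReal.toReal_mul]
    exact ENNReal.toReal_mono (ENNReal.mul_ne_top ENNReal.coe_ne_top (Lp.eLpNorm_ne_top v)) h1)

theorem coeFn_tr (h : IsTr μ ν Ψ M C) (v : Lp F 2 ν) :
    (tr h v : X → F') =ᵐ[μ] fun x => M x (v (Ψ x)) :=
  MemLp.coeFn_toLp (h.memLp (Lp.memLp v))

theorem coeFn_tr_toLp (h : IsTr μ ν Ψ M C) {v : Y → F} (hv : MemLp v 2 ν) :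
    (tr h hv.toLp : X → F') =ᵐ[μ] fun x => M x (v (Ψ x)) := by
  filter_upwards [coeFn_tr h hv.toLp, h.qmp.ae hv.coeFn_toLp] with x h1 h2
  rw [h1, h2]

theorem tr_toLp (h : IsTr μ ν Ψ M C) {v : Y → F} (hv : MemLp v 2 ν) :
    tr h hv.toLp = (h.memLp hv).toLp := by
  apply Lp.ext
  filter_upwards [coeFn_tr_toLp h hv, (h.memLp hv).coeFn_toLp] with x h1 h2
  rw [h1, h2]

/-- composition with the inverse map -/
theorem tr_tr {Φ : Y → X} {M' : Y → F' →L[ℂ] F} {C' : ℝ≥0} (h : IsTr μ ν Ψ M C)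
    (h' : IsTr ν μ Φ M' C') (hΨ : ∀ᵐ y ∂ν, Ψ (Φ y) = y)
    (hM : ∀ᵐ y ∂ν, ∀ v, M' y (M (Φ y) v) = v) (v : Lp F 2 ν) : tr h' (tr h v) = v := by
  apply Lp.ext
  filter_upwards [coeFn_tr h' (tr h v), h'.qmp.ae (coeFn_tr h v), hΨ, hM] with y h1 h2 h3 h4
  rw [h1, h2, h4, h3]

/-- the isomorphism -/
def trE {Φ : Y → X} {M' : Y → F' →L[ℂ] F} {C' : ℝ≥0} (h : IsTr μ ν Ψ M C)
    (h' : IsTr ν μ Φ M' C') (hΨ : ∀ᵐ y ∂ν, Ψ (Φ y) = y) (hΦ : ∀ᵐ x ∂μ, Φ (Ψ x) = x)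
    (hM : ∀ᵐ y ∂ν, ∀ v, M' y (M (Φ y) v) = v) (hM' : ∀ᵐ x ∂μ, ∀ v, M x (M' (Ψ x) v) = v) :
    Lp F 2 ν ≃L[ℂ] Lp F' 2 μ :=
  ContinuousLinearEquiv.equivOfInverse (tr h) (tr h') (tr_tr h h' hΨ hM) (tr_tr h' h hΦ hM')

theorem trE_apply {Φ : Y → X} {M' : Y → F' →L[ℂ] F} {C' : ℝ≥0} (h : IsTr μ ν Ψ M C)
    (h' : IsTr ν μ Φ M' C') (hΨ : ∀ᵐ y ∂ν, Ψ (Φ y) = y) (hΦ : ∀ᵐ x ∂μ, Φ (Ψ x) = x)
    (hM : ∀ᵐ y ∂ν, ∀ v, M' y (M (Φ y) v) = v) (hM' : ∀ᵐ x ∂μ, ∀ v, M x (M' (Ψ x) v) = v)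
    (v : Lp F 2 ν) : trE h h' hΨ hΦ hM hM' v = tr h v := rfl

/-- intertwining of fields of operators -/
theorem tr_comm (h : IsTr μ ν Ψ M C) {S₁ : Lp F 2 ν →L[ℂ] Lp F 2 ν}
    {S₀ : Lp F' 2 μ →L[ℂ] Lp F' 2 μ} {π₁ : Y → F → F} {π₀ : X → F' → F'}
    (h₁ : ∀ v : Lp F 2 ν, (S₁ v : Y → F) =ᵐ[ν] fun y => π₁ y (v y))
    (h₀ : ∀ v : Lp F' 2 μ, (S₀ v : X → F') =ᵐ[μ] fun x => π₀ x (v x))
    (hπ : ∀ᵐ x ∂μ, ∀ v, M x (π₁ (Ψ x) v) = π₀ x (M x v)) (v : Lp F 2 ν) :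
    tr h (S₁ v) = S₀ (tr h v) := by
  apply Lp.ext
  filter_upwards [coeFn_tr h (S₁ v), h.qmp.ae (h₁ v), h₀ (tr h v), coeFn_tr h v, hπ]
    with x e1 e2 e3 e4 e5
  rw [e1, e2, e5, e3, e4]

/-- sesquilinear forms given by fields: change of variables -/
theorem tr_form (h : IsTr μ ν Ψ M C) {J : X → ℝ} {b₁ : Y → F → F → ℂ} {b₀ : X → F' → F' → ℂ}
    (hb : ∀ᵐ x ∂μ, ∀ u v, b₀ x (M x u) (M x v) = (J x : ℂ) * b₁ (Ψ x) u v)
    (hcov : ∀ g : Y → ℂ, ∫ x, J x • g (Ψ x) ∂μ = ∫ y, g y ∂ν) (u v : Lp F 2 ν) :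
    ∫ x, b₀ x (tr h u x) (tr h v x) ∂μ = ∫ y, b₁ y (u y) (v y) ∂ν := by
  rw [← hcov]
  refine integral_congr_ae ?_
  filter_upwards [coeFn_tr h u, coeFn_tr h v, hb] with x e1 e2 e3
  rw [e1, e2, e3, Complex.real_smul]

/-- closures of submodules -/
theorem map_closure (e : Lp F 2 ν ≃L[ℂ] Lp F' 2 μ) (D₁ : Submodule ℂ (Lp F 2 ν))
    (D₀ : Submodule ℂ (Lp F' 2 μ))
    (hD : D₁.map (e : Lp F 2 ν →ₗ[ℂ] Lp F' 2 μ) = D₀) :
    D₁.topologicalClosure.map (e : Lp F 2 ν →ₗ[ℂ] Lp F' 2 μ) = D₀.topologicalClosure := by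
  apply SetLike.coe_injective
  rw [Submodule.map_coe, Submodule.topologicalClosure_coe, Submodule.topologicalClosure_coe, ← hD,
    Submodule.map_coe]
  exact e.toHomeomorph.image_closure _

/-- the standard way to check `IsTr` : a density `J` with `‖M x‖² ≤ C J x` -/
theorem isTr_of_density {J : X → ℝ≥0∞} (qmp : Measure.QuasiMeasurePreserving Ψ μ ν)
    (meas : AEStronglyMeasurable M μ) (hM : ∀ᵐ x ∂μ, ‖M x‖ₑ ^ 2 ≤ C * J x)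
    (hcov : ∀ f : Y → ℝ≥0∞, ∫⁻ y, f y ∂ν = ∫⁻ x, J x * f (Ψ x) ∂μ) : IsTr μ ν Ψ M C where
  qmp := qmp
  meas := meas
  bd := by
    intro f hf
    rw [hcov, ← lintegral_const_mul' _ _ ENNReal.coe_ne_top]
    refine lintegral_mono_ae ?_
    filter_upwards [hM] with x hx
    rw [← mul_assoc]
    gcongr

end Crest.Agent.R276.Nat_591
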