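import Crest.Agent.R276.Nat2_591
import Crest.Agent.R276.Psi_563

/-!
# R276, leaf IPC-NAT (helper591), part 3: flat bundle maps over a diffeomorphism and one-forms

`FlatOver F F' Ψ K` : `K x : V_{Ψ x} → V'_x` flat (near the diagonal).  `Kf Ψ K x` : the induced map of
one-forms `a dx + b dx̄ ↦ Ψ^*(a dx + b dx̄)`.
-/

set_option autoImplicit false

open Set Filter Topology MeasureTheory UniformSpace
open scoped ContDiff ComplexConjugate

namespace Crest.Agent.R276.Nat_591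

open VCalc_442 IpcGr_975 IpcG1_975 Psi_563

variable {V V' : Type*} [NormedAddCommGroup V] [NormedSpace ℂ V] [NormedAddCommGroup V']
  [NormedSpace ℂ V'] {X X' : Set ℂ}

/-- flat bundle map over `Ψ` -/
structure FlatOver (F : FB V X) (F' : FB V' X') (Ψ : ℂ → ℂ) (K : ℂ → (V →L[ℂ] V')) : Prop where
  maps : ∀ x ∈ X', Ψ x ∈ X
  off : ∀ x ∉ X', Ψ x ∉ X
  smΨ : ∀ x ∈ X', ContDiffAt ℝ ∞ Ψ x
  flat : ∀ z ∈ X', ∀ᶠ y in 𝓝 z, (F'.P z y).comp (K y) = (K z).comp (F.P (Ψ z) (Ψ y))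
  prop : ∀ K₀ ⊆ X, IsCompact K₀ → ∃ K₁ ⊆ X', IsCompact K₁ ∧ ∀ x ∉ K₁, Ψ x ∉ K₀

/-- the map of one-forms -/
noncomputable def Kf (Ψ : ℂ → ℂ) (K : ℂ → (V →L[ℂ] V')) (x : ℂ) : (V × V) →L[ℂ] (V' × V') :=
  ((dW Ψ 1 x • ((K x).comp (ContinuousLinearMap.fst ℂ V V)) +
      conj (dB Ψ 1 x) • ((K x).comp (ContinuousLinearMap.snd ℂ V V)))).prod
    (dB Ψ 1 x • ((K x).comp (ContinuousLinearMap.fst ℂ V V)) +
      conj (dW Ψ 1 x) • ((K x).comp (ContinuousLinearMap.snd ℂ V V)))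

theorem Kf_apply (Ψ : ℂ → ℂ) (K : ℂ → (V →L[ℂ] V')) (x : ℂ) (u : V × V) :
    Kf Ψ K x u = pull (dW Ψ 1 x) (dB Ψ 1 x) (K x u.1, K x u.2) := rfl

/-- `F2` is the bundle of one-forms with values in `F` -/
def IsForm (F : FB V X) (F2 : FB (V × V) X) : Prop :=
  ∀ x y u, F2.P x y u = (F.P x y u.1, F.P x y u.2)

theorem IsForm.tr {F : FB V X} {F2 : FB (V × V) X} (h : IsForm F F2) (z : ℂ) (η : ℂ → V × V)
    (y : ℂ) : F2.tr z η y = (F.tr z (fun x => (η x).1) y, F.tr z (fun x => (η x).2) y) := h _ _ _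

theorem IsForm.sm_iff {F : FB V X} {F2 : FB (V × V) X} (h : IsForm F F2) (η : ℂ → V × V) :
    F2.Sm η ↔ F.Sm (fun x => (η x).1) ∧ F.Sm (fun x => (η x).2) := by
  have e : ∀ z, F2.tr z η = fun y =>
      (F.tr z (fun x => (η x).1) y, F.tr z (fun x => (η x).2) y) := fun z => funext (h.tr z η)
  constructor
  · intro hs
    refine ⟨fun z hz => ?_, fun z hz => ?_⟩
    · have := hs z hz
      rw [e] at this
      exact this.fst
    · have := hs z hz
      rw [e] at this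
      exact this.snd
  · rintro ⟨h1, h2⟩ z hz
    rw [e]
    exact (h1 z hz).prodMk (h2 z hz)

namespace FlatOver

variable {F : FB V X} {F' : FB V' X'} {Ψ : ℂ → ℂ} {K : ℂ → (V →L[ℂ] V')}

theorem tr_pb (h : FlatOver F F' Ψ K) {z : ℂ} (hz : z ∈ X') (φ : ℂ → V) :
    F'.tr z (pb K Ψ φ) =ᶠ[𝓝 z] fun y => K z (F.tr (Ψ z) φ (Ψ y)) := by
  filter_upwards [h.flat z hz] with y hy
  have := congrArg (fun T : V →L[ℂ] V' => T (φ (Ψ y))) hy
  exact this

theorem smK (h : FlatOver F F' Ψ K) {z : ℂ} (hz : z ∈ X') :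
    (fun y => (F'.P z y).comp ((K y).comp (F.P (Ψ y) (Ψ z)))) =ᶠ[𝓝 z] fun _ => K z := by
  obtain ⟨U, hU⟩ := F.exists_nb (h.maps z hz)
  have hc : ∀ᶠ y in 𝓝 z, Ψ y ∈ U :=
    (h.smΨ z hz).continuousAt.eventually (hU.op.mem_nhds hU.mem)
  filter_upwards [h.flat z hz, hc] with y hy hyU
  rw [← ContinuousLinearMap.comp_assoc, hy, ContinuousLinearMap.comp_assoc]
  have : (F.P (Ψ z) (Ψ y)).comp (F.P (Ψ y) (Ψ z)) = 1 := hU.inv hU.mem hyU
  rw [this]
  rfl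

theorem mor (h : FlatOver F F' Ψ K) : Mor F F' Ψ K where
  maps := h.maps
  smΨ := h.smΨ
  smK := fun z hz => contDiffAt_const.congr_of_eventuallyEq (h.smK hz)
  prop := h.prop

/-- derivative of the pull-back of a section = pull-back of the derivative -/
theorem d_pb (h : FlatOver F F' Ψ K) {φ : ℂ → V} (hφ : F.Sm φ) {z : ℂ} (hz : z ∈ X') :
    (F'.d1 (pb K Ψ φ) z, F'.d2 (pb K Ψ φ) z) = Kf Ψ K z (F.d1 φ (Ψ z), F.d2 φ (Ψ z)) := by
  have hd : DifferentiableAt ℝ (F.tr (Ψ z) φ) (Ψ z) :=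
    (hφ (Ψ z) (h.maps z hz)).differentiableAt (by simp)
  have hΨ : DifferentiableAt ℝ Ψ z := (h.smΨ z hz).differentiableAt (by simp)
  have hcomp : DifferentiableAt ℝ (F.tr (Ψ z) φ ∘ Ψ) z := hd.comp z hΨ
  have e1 : F'.d1 (pb K Ψ φ) z = K z (dW (F.tr (Ψ z) φ ∘ Ψ) 1 z) := by
    unfold FB.d1
    rw [dW_congr (h.tr_pb hz φ)]
    exact dW_clm (K z) hcomp 1
  have e2 : F'.d2 (pb K Ψ φ) z = K z (dB (F.tr (Ψ z) φ ∘ Ψ) 1 z) := by
    unfold FB.d2
    rw [dB_congr (h.tr_pb hz φ)]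
    exact dB_clm (K z) hcomp 1
  have hp := pull_chain hd hΨ
  rw [Prod.mk.injEq] at hp
  rw [e1, e2, hp.1, hp.2, Kf_apply]
  simp only [pull, map_add, map_smul]
  rfl

/-- the map of one-forms is a bundle map -/
theorem morForm (h : FlatOver F F' Ψ K) {F2 : FB (V × V) X} {F2' : FB (V' × V') X'}
    (h2 : IsForm F F2) (h2' : IsForm F' F2') : Mor F2 F2' Ψ (Kf Ψ K) where
  maps := h.maps
  smΨ := h.smΨ
  smK := by
    intro z hz
    have e : (fun y => (F2'.P z y).comp ((Kf Ψ K y).comp (F2.P (Ψ y) (Ψ z)))) =ᶠ[𝓝 z]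
        fun y => Kf Ψ (fun _ => K z) y := by
      filter_upwards [h.smK hz] with y hy
      have hy' : ∀ v, F'.P z y (K y (F.P (Ψ y) (Ψ z) v)) = K z v := fun v =>
        congrArg (fun T : V →L[ℂ] V' => T v) hy
      refine ContinuousLinearMap.ext fun u => ?_
      simp only [ContinuousLinearMap.comp_apply]
      rw [Kf_apply, h2', h2, Kf_apply]
      simp only [pull, map_add, map_smul, hy']
    refine ContDiffAt.congr_of_eventuallyEq ?_ e
    have hop := F'.op.mem_nhds hz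
    have hsm : ContDiffOn ℝ ∞ Ψ X' := fun x hx => (h.smΨ x hx).contDiffWithinAt
    have hW : ContDiffAt ℝ ∞ (dW Ψ 1) z :=
      (contDiffOn_dW F'.op hsm 1).contDiffAt hop
    have hB : ContDiffAt ℝ ∞ (dB Ψ 1) z :=
      (contDiffOn_dB F'.op hsm 1).contDiffAt hop
    have hcj : ContDiff ℝ ∞ (fun c : ℂ => conj c) := Complex.conjCLE.contDiff
    have hWc : ContDiffAt ℝ ∞ (fun y => conj (dW Ψ 1 y)) z := hcj.contDiffAt.comp z hW
    have hBc : ContDiffAt ℝ ∞ (fun y => conj (dB Ψ 1 y)) z := hcj.contDiffAt.comp z hB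
    have e3 : (fun y => Kf Ψ (fun _ => K z) y) = fun y =>
        dW Ψ 1 y • (((K z).comp (ContinuousLinearMap.fst ℂ V V)).prod 0) +
        conj (dB Ψ 1 y) • (((K z).comp (ContinuousLinearMap.snd ℂ V V)).prod 0) +
        (dB Ψ 1 y • ((0 : (V × V) →L[ℂ] V').prod ((K z).comp (ContinuousLinearMap.fst ℂ V V))) +
        conj (dW Ψ 1 y) • ((0 : (V × V) →L[ℂ] V').prod
          ((K z).comp (ContinuousLinearMap.snd ℂ V V)))) := by
      funext y
      refine ContinuousLinearMap.ext fun u => ?_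
      rw [Kf_apply]
      simp [pull]
    rw [e3]
    exact ((hW.smul contDiffAt_const).add (hBc.smul contDiffAt_const)).add
      ((hB.smul contDiffAt_const).add (hWc.smul contDiffAt_const))
  prop := h.prop

/-- the pull-back of `D φ` is `D` of the pull-back, for compactly supported `φ` (equality everywhere) -/
theorem pb_D (h : FlatOver F F' Ψ K) {φ : ℂ → V} (hφ : φ ∈ F.A0) :
    pb (Kf Ψ K) Ψ (fun x => (F.d1 φ x, F.d2 φ x)) =
      fun x => (F'.d1 (pb K Ψ φ) x, F'.d2 (pb K Ψ φ) x) := by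
  funext x
  by_cases hx : x ∈ X'
  · exact (h.d_pb hφ.1 hx).symm
  · have h1 := h.mor.mem_A0 hφ
    obtain ⟨L, hL, hLc, h0⟩ := h1.2
    have hxL : x ∉ L := fun hh => hx (hL hh)
    rw [FB.d1_zero_of hLc h0 hxL, FB.d2_zero_of hLc h0 hxL]
    obtain ⟨L', hL', hLc', h0'⟩ := hφ.2
    have hxL' : Ψ x ∉ L' := fun hh => h.off x hx (hL' hh)
    show Kf Ψ K x (F.d1 φ (Ψ x), F.d2 φ (Ψ x)) = _
    rw [FB.d1_zero_of hLc' h0' hxL', FB.d2_zero_of hLc' h0' hxL']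
    exact map_zero _

end FlatOver

end Crest.Agent.R276.Nat_591
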