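import Mathlib
import Crest.Agent.R276.HsB_817

/-!
# R276, leaf IPC-NAT (helper591), part 4: transport of helper817's Hilbert space packages

`IsNat D D' T τ`: the packages `D : Fix L W`, `D' : Fix L' W'` correspond to each other under a bounded
isomorphism `T : L ≃L L'` and a linear isomorphism `τ : W ≃ W'`.  Then the weakly closed vectors, the
form of the classes, the type decomposition (transported projectors `cj T π`), the harmonic
representatives and the Hodge filtration correspond to each other.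
-/

set_option autoImplicit false
set_option linter.unusedSectionVars false

open Set Filter Topology
open scoped InnerProductSpace

namespace Crest.Agent.R276.Nat_591

open HsB_817

variable {L W L' W' : Type*} [NormedAddCommGroup L] [InnerProductSpace ℂ L]
  [NormedAddCommGroup W] [NormedSpace ℂ W] [NormedAddCommGroup L'] [InnerProductSpace ℂ L']
  [NormedAddCommGroup W'] [NormedSpace ℂ W']

/-- the packages correspond -/
structure IsNat (D : Fix L W) (D' : Fix L' W') (T : L ≃L[ℂ] L') (τ : W ≃ₗ[ℂ] W') : Prop where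
  form : ∀ u v, inner ℂ (D'.β (T u)) (T v) = inner ℂ (D.β u) v
  ex : ∀ u, T u ∈ D'.Ex ↔ u ∈ D.Ex
  cls : ∀ (u : D.Zc) (u' : D'.Zc), (u' : L') = T u → D'.cl u' = τ (D.cl u)

/-- conjugated operators -/
noncomputable def cj (T : L ≃L[ℂ] L') (π : ℕ → L →L[ℂ] L) (P : ℕ) : L' →L[ℂ] L' :=
  (T : L →L[ℂ] L').comp ((π P).comp (T.symm : L' →L[ℂ] L))

theorem cj_apply (T : L ≃L[ℂ] L') (π : ℕ → L →L[ℂ] L) (P : ℕ) (u : L') :
    cj T π P u = T (π P (T.symm u)) := rfl

theorem cj_T (T : L ≃L[ℂ] L') (π : ℕ → L →L[ℂ] L) (P : ℕ) (u : L) :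
    cj T π P (T u) = T (π P u) := by
  rw [cj_apply, T.symm_apply_apply]

/-- recognise conjugated operators -/
theorem eq_cj {T : L ≃L[ℂ] L'} {π : ℕ → L →L[ℂ] L} {P : ℕ} {A : L' →L[ℂ] L'}
    (h : ∀ u, A (T u) = T (π P u)) : cj T π P = A := by
  ext u
  obtain ⟨v, rfl⟩ := T.surjective u
  rw [cj_T, h]

theorem Jop_T (n : ℕ) (T : L ≃L[ℂ] L') (π : ℕ → L →L[ℂ] L) (u : L) :
    Jop n (cj T π) (T u) = T (Jop n π u) := by
  rw [Jop_apply, Jop_apply, map_sum]
  refine Finset.sum_congr rfl fun P _ => ?_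
  rw [cj_T, map_smul]

theorem qop_T (n : ℕ) (T : L ≃L[ℂ] L') (π : ℕ → L →L[ℂ] L) (P : ℕ) (u : L) :
    qop n (cj T π) P (T u) = T (qop n π P u) := by
  rw [qop_apply, qop_apply, map_sum]
  exact Finset.sum_congr rfl fun Q _ => cj_T T π Q u

namespace IsNat

variable {D : Fix L W} {D' : Fix L' W'} {T : L ≃L[ℂ] L'} {τ : W ≃ₗ[ℂ] W'}

/-- weakly closed vectors correspond -/
theorem zc (h : IsNat D D' T τ) (u : L) : T u ∈ D'.Zc ↔ u ∈ D.Zc := by
  rw [D.memZc, D'.memZc]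
  constructor
  · intro hu e he
    rw [← h.form]
    exact hu _ ((h.ex e).2 he)
  · intro hu e he
    obtain ⟨e, rfl⟩ := T.surjective e
    rw [h.form]
    exact hu _ ((h.ex e).1 he)

theorem symm (h : IsNat D D' T τ) : IsNat D' D T.symm τ.symm where
  form u v := by
    rw [← h.form, T.apply_symm_apply, T.apply_symm_apply]
  ex u := by
    rw [← h.ex, T.apply_symm_apply]
  cls u' u hu := by
    rw [LinearEquiv.eq_symm_apply]
    refine (h.cls u u' ?_).symm
    rw [hu, T.apply_symm_apply]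

/-- `form` and `ex` and the correspondence of the classes for a set of elements which generates `Zc`
modulo `Ex` -/
theorem of_gen (form : ∀ u v, inner ℂ (D'.β (T u)) (T v) = inner ℂ (D.β u) v)
    (ex : ∀ u, T u ∈ D'.Ex ↔ u ∈ D.Ex) (G : Set D.Zc)
    (hG : ∀ u : D.Zc, ∃ g ∈ G, (u : L) - g ∈ D.Ex)
    (hcl : ∀ g ∈ G, ∀ u' : D'.Zc, (u' : L') = T g → D'.cl u' = τ (D.cl g)) :
    IsNat D D' T τ where
  form := form
  ex := ex
  cls u u' hu := by
    obtain ⟨g, hg, hge⟩ := hG u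
    have h1 : D.cl u = D.cl g := by
      rw [← sub_eq_zero, ← map_sub]
      exact (D.clKer (u - g)).2 hge
    have hTg : T (g : L) ∈ D'.Zc := by
      rw [D'.memZc]
      intro e he
      obtain ⟨e, rfl⟩ := T.surjective e
      rw [form]
      exact (D.memZc _).1 g.2 e ((ex e).1 he)
    have h2 : D'.cl u' = D'.cl ⟨T g, hTg⟩ := by
      rw [← sub_eq_zero, ← map_sub]
      refine (D'.clKer _).2 ?_
      show (u' : L') - T g ∈ D'.Ex
      rw [hu, ← map_sub]
      exact (ex _).2 hge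
    rw [h1, h2]
    exact hcl g hg _ rfl

/-- transport of the type decomposition -/
theorem types (h : IsNat D D' T τ) {n : ℕ} {π : ℕ → L →L[ℂ] L} {c c' : ℝ} (t : Types D n π c)
    (hc' : 0 < c') (hcc : ∀ u, c' * ‖T u‖ ^ 2 ≤ c * ‖u‖ ^ 2) : Types D' n (cj T π) c' where
  cpos := hc'
  sum u := by
    obtain ⟨u, rfl⟩ := T.surjective u
    simp only [cj_T]
    rw [← map_sum, t.sum]
  idem P hP u := by
    obtain ⟨u, rfl⟩ := T.surjective u
    rw [cj_T, cj_T, t.idem P hP]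
  mul0 P hP Q hQ hne u := by
    obtain ⟨u, rfl⟩ := T.surjective u
    rw [cj_T, cj_T, t.mul0 P hP Q hQ hne, map_zero]
  orth P hP Q hQ hne u v := by
    obtain ⟨u, rfl⟩ := T.surjective u
    obtain ⟨v, rfl⟩ := T.surjective v
    rw [cj_T, cj_T, h.form]
    exact t.orth P hP Q hQ hne u v
  coer u := by
    obtain ⟨u, rfl⟩ := T.surjective u
    rw [Jop_T, h.form]
    exact (hcc u).trans (t.coer u)
  stab u hu hJ P hP := by
    obtain ⟨u, rfl⟩ := T.surjective u
    rw [h.zc] at hu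
    rw [Jop_T, h.zc] at hJ
    rw [cj_T, h.zc]
    exact t.stab u hu hJ P hP

/-- transport of the type decomposition, explicit constant -/
theorem types' (h : IsNat D D' T τ) {n : ℕ} {π : ℕ → L →L[ℂ] L} {c C : ℝ} (t : Types D n π c)
    (hC : 0 < C) (hT : ∀ u, ‖T u‖ ≤ C * ‖u‖) : Types D' n (cj T π) (c / C ^ 2) := by
  refine h.types t (div_pos t.cpos (pow_pos hC 2)) fun u => ?_
  have h1 : ‖T u‖ ^ 2 ≤ C ^ 2 * ‖u‖ ^ 2 := by
    rw [← mul_pow]
    exact pow_le_pow_left₀ (norm_nonneg _) (hT u) 2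
  calc c / C ^ 2 * ‖T u‖ ^ 2 ≤ c / C ^ 2 * (C ^ 2 * ‖u‖ ^ 2) :=
        mul_le_mul_of_nonneg_left h1 (div_nonneg t.cpos.le (pow_nonneg hC.le 2))
    _ = c * ‖u‖ ^ 2 := by
        field_simp

section fd

variable [CompleteSpace L] [CompleteSpace L'] [FiniteDimensional ℂ W] [FiniteDimensional ℂ W']

theorem clL (h : IsNat D D' T τ) {u : L} (hu : u ∈ D.Zc) : D'.clL (T u) = τ (D.clL u) := by
  have hu' : T u ∈ D'.Zc := (h.zc u).2 hu
  rw [D.clL_eq hu, D'.clL_eq hu']
  exact h.cls ⟨u, hu⟩ ⟨T u, hu'⟩ rfl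

/-- the forms on the classes correspond -/
theorem SW (h : IsNat D D' T τ) (a b : W) : D'.SW (τ a) (τ b) = D.SW a b := by
  have ha := D.xL_mem a
  have hb := D.xL_mem b
  have e1 : τ a = D'.clL (T (D.xL a)) := by rw [h.clL ha, D.clL_xL]
  have e2 : τ b = D'.clL (T (D.xL b)) := by rw [h.clL hb, D.clL_xL]
  rw [e1, e2, D'.SW_clL ((h.zc _).2 ha) ((h.zc _).2 hb), h.form]
  rfl

/-- **the Hodge filtrations correspond** -/
theorem mem_F (h : IsNat D D' T τ) (n : ℕ) (π : ℕ → L →L[ℂ] L) (P : ℕ) (w : W) :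
    τ w ∈ F D' n (cj T π) P ↔ w ∈ F D n π P := by
  rw [HsB_817.mem_F, HsB_817.mem_F]
  constructor
  · rintro ⟨v, hv, hq, hcl⟩
    obtain ⟨v, rfl⟩ := T.surjective v
    rw [h.zc] at hv
    rw [qop_T] at hq
    rw [h.clL hv] at hcl
    exact ⟨v, hv, T.injective hq, τ.injective hcl⟩
  · rintro ⟨v, hv, hq, hcl⟩
    refine ⟨T v, (h.zc v).2 hv, ?_, ?_⟩
    · rw [qop_T, hq]
    · rw [h.clL hv, hcl]

theorem F_eq (h : IsNat D D' T τ) (n : ℕ) (π : ℕ → L →L[ℂ] L) (P : ℕ) :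
    F D' n (cj T π) P = (F D n π P).map τ.toLinearMap := by
  ext w
  obtain ⟨w, rfl⟩ := τ.surjective w
  rw [h.mem_F]
  constructor
  · intro hw
    exact ⟨w, hw, rfl⟩
  · rintro ⟨w', hw', he⟩
    have : w' = w := τ.injective he
    rwa [← this]

/-- the harmonic representatives correspond -/
theorem hr (h : IsNat D D' T τ) {n : ℕ} {π : ℕ → L →L[ℂ] L} {c : ℝ} (t : Types D n π c) (w : W) :
    HsB_817.hr D' n (cj T π) (τ w) = T (HsB_817.hr D n π w) := by
  have h1 : HsB_817.hr D n π w ∈ D.Zc := hr_mem w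
  have h2 := t.J_hr_mem w
  obtain ⟨C, hC, hT⟩ := (T : L →L[ℂ] L').bound
  have t' := h.types' t hC hT
  have e := t'.hr_clL (h := T (HsB_817.hr D n π w)) ((h.zc _).2 h1) (by rw [Jop_T, h.zc]; exact h2)
  rw [h.clL h1, clL_hr] at e
  exact e

end fd

end IsNat

end Crest.Agent.R276.Nat_591
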