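import Crest.Agent.R276.Nat3_591
import Crest.Agent.R276.Nat4_591

/-!
# R276, leaf IPC-NAT (helper591), part 5: inverse maps, exact forms, the diffeomorphisms `B.psi b`
-/

set_option autoImplicit false

open Set Filter Topology MeasureTheory UniformSpace
open scoped ContDiff ComplexConjugate

namespace Crest.Agent.R276.Nat_591

open VCalc_442 IpcGr_975 IpcG1_975 Psi_563

variable {V V' : Type*} [NormedAddCommGroup V] [NormedSpace ℂ V] [NormedAddCommGroup V']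
  [NormedSpace ℂ V'] {X X' : Set ℂ}

/-! ### inverse maps -/

theorem dW_id_one (y : ℂ) : dW (fun x : ℂ => x) 1 y = 1 := by
  unfold dW
  rw [fderiv_fun_id]
  simp
  norm_num

theorem dB_id_one (y : ℂ) : dB (fun x : ℂ => x) 1 y = 0 := by
  unfold dB
  rw [fderiv_fun_id]
  simp

/-- the maps of one-forms of inverse maps are inverse to each other -/
theorem Kf_Kf {Ψ Φ : ℂ → ℂ} {K : ℂ → (V →L[ℂ] V')} {K' : ℂ → (V' →L[ℂ] V)} {y : ℂ}
    (hΨ : DifferentiableAt ℝ Ψ (Φ y)) (hΦ : DifferentiableAt ℝ Φ y)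
    (hΨΦ : ∀ᶠ t in 𝓝 y, Ψ (Φ t) = t) (hK : ∀ v, K' y (K (Φ y) v) = v) (u : V × V) :
    Kf Φ K' y (Kf Ψ K (Φ y) u) = u := by
  have h1 := pull_chain hΨ hΦ
  have h2 : dW (Ψ ∘ Φ) 1 y = 1 := (dW_congr hΨΦ 1).trans (dW_id_one y)
  have h3 : dB (Ψ ∘ Φ) 1 y = 0 := (dB_congr hΨΦ 1).trans (dB_id_one y)
  rw [h2, h3, Prod.mk.injEq] at h1
  obtain ⟨h4, h5⟩ := h1
  simp only [pull, smul_eq_mul] at h4 h5
  set p := dW Φ 1 y with hp
  set q := dB Φ 1 y with hq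
  set α := dW Ψ 1 (Φ y) with hα
  set β := dB Ψ 1 (Φ y) with hβ
  have h4' : conj p * conj α + q * conj β = 1 := by
    have := congrArg conj h4
    simpa using this.symm
  have h5' : conj q * conj α + p * conj β = 0 := by
    have := congrArg conj h5
    simpa using this.symm
  have e1 : Kf Φ K' y (Kf Ψ K (Φ y) u) = pull p q (pull α β u) := by
    rw [Kf_apply, Kf_apply]
    simp only [pull, map_add, map_smul, hK]
    rfl
  rw [e1, pull_pull]
  have h6 : α * p + β * conj q = 1 := by linear_combination -h4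
  have h7 : α * q + β * conj p = 0 := by linear_combination -h5
  rw [h6, h7, pull_one_zero]

namespace FlatOver

variable {F : FB V X} {F' : FB V' X'} {Ψ : ℂ → ℂ} {K : ℂ → (V →L[ℂ] V')}

/-- the inverse of a flat bundle map over a diffeomorphism -/
theorem inv (h : FlatOver F F' Ψ K) {Φ : ℂ → ℂ} {K' : ℂ → (V' →L[ℂ] V)}
    (hΨΦ : ∀ y, Ψ (Φ y) = y) (smΦ : ∀ y ∈ X, ContDiffAt ℝ ∞ Φ y)
    (hK : ∀ y ∈ X, ∀ v, K' y (K (Φ y) v) = v) (hK' : ∀ x ∈ X', ∀ v, K x (K' (Ψ x) v) = v) :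
    FlatOver F' F Φ K' where
  maps := by
    intro y hy
    by_contra hc
    exact h.off _ hc (by rwa [hΨΦ])
  off := by
    intro y hy hc
    exact hy (by simpa [hΨΦ] using h.maps _ hc)
  smΨ := smΦ
  flat := by
    intro z hz
    have hz' : Φ z ∈ X' := by
      by_contra hc
      exact h.off _ hc (by rwa [hΨΦ])
    have hc : ContinuousAt Φ z := (smΦ z hz).continuousAt
    have h1 := hc.eventually (h.flat (Φ z) hz')
    have h2 : ∀ᶠ y in 𝓝 z, Φ y ∈ X' := hc.eventually (F'.op.mem_nhds hz')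
    filter_upwards [h1, h2] with y hy hy2
    rw [hΨΦ, hΨΦ] at hy
    refine ContinuousLinearMap.ext fun v => ?_
    have h3 := congrArg (fun T : V →L[ℂ] V' => T (K' y v)) hy
    simp only [ContinuousLinearMap.comp_apply] at h3 ⊢
    have h4 : K (Φ y) (K' y v) = v := by
      have := hK' (Φ y) hy2 v
      rwa [hΨΦ] at this
    rw [h4] at h3
    rw [h3, hK z hz]
  prop := by
    intro K₀ hK₀ hc
    refine ⟨Ψ '' K₀, ?_, ?_, ?_⟩
    · rintro _ ⟨x, hx, rfl⟩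
      exact h.maps x (hK₀ hx)
    · exact hc.image_of_continuousOn fun x hx =>
        (h.smΨ x (hK₀ hx)).continuousAt.continuousWithinAt
    · intro y hy hc
      exact hy ⟨Φ y, hc, hΨΦ y⟩

end FlatOver

/-! ### exact forms -/

/-- the classes of the `D φ`, `φ` smooth with compact support -/
def exG (F : FB V X) (M : MB (V × V) X) : Set M.L2 :=
  {u | ∃ φ ∈ F.A0, ∃ h : (fun x => (F.d1 φ x, F.d2 φ x)) ∈ M.A0,
    u = ((M.s0 (fun x => (F.d1 φ x, F.d2 φ x)) h : M.H0) : M.L2)}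

section TE

variable {F : FB V X} {F' : FB V' X'} {Ψ Φ : ℂ → ℂ} {K : ℂ → (V →L[ℂ] V')}
  {K' : ℂ → (V' →L[ℂ] V)} {M : MB (V × V) X} {M' : MB (V' × V') X'} {J J' : ℂ → ℝ} {C C' : ℝ}

theorem D_mem {F : FB V X} {M : MB (V × V) X} (h2 : IsForm F M.toFB) {φ : ℂ → V}
    (hφ : φ ∈ F.A0) : (fun x => (F.d1 φ x, F.d2 φ x)) ∈ M.A0 := by
  refine ⟨(h2.sm_iff _).2 ⟨hφ.1.d1, hφ.1.d2⟩, ?_⟩
  obtain ⟨L, hL, hLc, h0⟩ := hφ.2
  refine ⟨L, hL, hLc, fun x hx => ?_⟩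
  show (F.d1 φ x, F.d2 φ x) = 0
  rw [FB.d1_zero_of hLc h0 hx, FB.d2_zero_of hLc h0 hx]
  rfl

/-- `T` maps the `D φ` to the `D φ'` -/
theorem T_exG (h : FlatOver F F' Ψ K) (h2' : IsForm F' M'.toFB)
    (m : MMor M M' Ψ (Kf Ψ K) J C) {u : M.L2} (hu : u ∈ exG F M) : m.T u ∈ exG F' M' := by
  obtain ⟨φ, hφ, hm, rfl⟩ := hu
  refine ⟨pb K Ψ φ, h.mor.mem_A0 hφ, D_mem h2' (h.mor.mem_A0 hφ), ?_⟩
  rw [m.T_coe]
  congr 1
  refine MB.H0.ext ?_
  exact h.pb_D hφ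

/-- **`T` maps the closure of the exact forms onto the closure of the exact forms** -/
theorem T_mem_closure_iff (h : FlatOver F F' Ψ K) (h' : FlatOver F' F Φ K')
    (h2 : IsForm F M.toFB) (h2' : IsForm F' M'.toFB)
    (m : MMor M M' Ψ (Kf Ψ K) J C) (m' : MMor M' M Φ (Kf Φ K') J' C')
    (hTT : ∀ u, m'.T (m.T u) = u) (u : M.L2) :
    m.T u ∈ closure (exG F' M') ↔ u ∈ closure (exG F M) := by
  constructor
  · intro hu
    have h1 : m'.T (m.T u) ∈ closure (m'.T '' exG F' M') :=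
      image_closure_subset_closure_image m'.T.continuous ⟨_, hu, rfl⟩
    rw [hTT] at h1
    refine closure_mono ?_ h1
    rintro _ ⟨v, hv, rfl⟩
    exact T_exG h' h2 m' hv
  · intro hu
    have h1 : m.T u ∈ closure (m.T '' exG F M) :=
      image_closure_subset_closure_image m.T.continuous ⟨_, hu, rfl⟩
    refine closure_mono ?_ h1
    rintro _ ⟨v, hv, rfl⟩
    exact T_exG h h2' m hv

end TE

/-! ### conjugated fields of operators -/

section ok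

variable {Ψ Φ : ℂ → ℂ} {M : MB V X} {M' : MB V' X'} {K : ℂ → (V →L[ℂ] V')}
  {K' : ℂ → (V' →L[ℂ] V)} {J J' : ℂ → ℝ} {C C' : ℝ}

/-- variant of `T_inner` -/
theorem MMor.T_inner_one (h : MMor M M' Ψ K J C) {A : ℂ → (V →L[ℂ] V)} {A' : ℂ → (V' →L[ℂ] V')}
    (hA : M.Ok A) (hA' : M'.Ok A')
    (hG : ∀ x ∈ X', ∀ u v, M'.G x (A' x (K x u)) (K x v) =
      (J x : ℂ) * M.G (Ψ x) (A (Ψ x) u) v) (u v : M.L2) :
    inner ℂ (M'.opL A' (h.T u)) (h.T v) = inner ℂ (M.opL A u) v := by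
  refine Completion.induction_on₂ u v (isClosed_eq (by fun_prop) (by fun_prop)) fun φ ψ => ?_
  rw [h.T_coe, h.T_coe, M.op_coe hA, M'.op_coe hA',
    Completion.inner_coe, Completion.inner_coe, MB.inner_H0, MB.inner_H0]
  show ∫ x, M'.G x (A' x (K x (φ.f (Ψ x)))) (K x (ψ.f (Ψ x))) =
    ∫ x, M.G x (A x (φ.f x)) (ψ.f x)
  rw [h.cov (fun x => M.G x (A x (φ.f x)) (ψ.f x))]
  refine integral_congr_ae (Eventually.of_forall fun x => ?_)
  show M'.G x (A' x (K x (φ.f (Ψ x)))) (K x (ψ.f (Ψ x))) =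
    J x • M.G (Ψ x) (A (Ψ x) (φ.f (Ψ x))) (ψ.f (Ψ x))
  by_cases hx : x ∈ X'
  · rw [hG x hx, Complex.real_smul]
  · obtain ⟨L, hL, -, h0⟩ := (h.toMor.mem_A0 φ.mem).2
    have e1 : K x (φ.f (Ψ x)) = 0 := h0 x (fun hh => hx (hL hh))
    obtain ⟨L', hL', -, h0'⟩ := φ.mem.2
    have e2 : φ.f (Ψ x) = 0 := h0' _ (fun hh => h.off x hx (hL' hh))
    rw [e1, e2]
    simp

/-- composition of smooth families of complex linear maps -/
theorem clm_comp' {V₁ V₂ V₃ : Type*} [NormedAddCommGroup V₁] [NormedSpace ℂ V₁]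
    [NormedAddCommGroup V₂] [NormedSpace ℂ V₂] [NormedAddCommGroup V₃] [NormedSpace ℂ V₃]
    {f : ℂ → (V₂ →L[ℂ] V₃)} {g : ℂ → (V₁ →L[ℂ] V₂)} {z : ℂ} (hf : ContDiffAt ℝ ∞ f z)
    (hg : ContDiffAt ℝ ∞ g z) : ContDiffAt ℝ ∞ (fun y => (f y).comp (g y)) z := by
  have h1 : ContDiff ℂ ∞ (fun p : (V₂ →L[ℂ] V₃) × (V₁ →L[ℂ] V₂) => p.1.comp p.2) :=
    isBoundedBilinearMap_comp.contDiff
  exact (h1.restrict_scalars ℝ).contDiffAt.comp z (hf.prodMk hg)

/-- conjugated field of operators, `K' x` inverse of `K x` -/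
def cf (Ψ : ℂ → ℂ) (K : ℂ → (V →L[ℂ] V')) (K' : ℂ → (V' →L[ℂ] V)) (A : ℂ → (V →L[ℂ] V))
    (x : ℂ) : V' →L[ℂ] V' := (K x).comp ((A (Ψ x)).comp (K' (Ψ x)))

theorem ok_cf (h : MMor M M' Ψ K J C) (h' : MMor M' M Φ K' J' C') (hΦΨ : ∀ x, Φ (Ψ x) = x)
    (hJ : ∀ x ∈ X', J x * J' (Ψ x) ≤ 1) {A : ℂ → (V →L[ℂ] V)} (hA : M.Ok A) :
    M'.Ok (cf Ψ K K' A) := by
  obtain ⟨hAs, c, hc0, hc⟩ := hA
  refine ⟨?_, C * C' * c, by have := h.C0; have := h'.C0; positivity, ?_⟩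
  · intro z hz
    obtain ⟨U, hU⟩ := M.exists_nb (h.maps z hz)
    have hcU : ∀ᶠ y in 𝓝 z, Ψ y ∈ U :=
      (h.smΨ z hz).continuousAt.eventually (hU.op.mem_nhds hU.mem)
    have e1 := h.smK z hz
    have e2 : ContDiffAt ℝ ∞ (fun y => M.trO (Ψ z) A (Ψ y)) z :=
      (hAs (Ψ z) (h.maps z hz)).comp z (h.smΨ z hz)
    have e3 : ContDiffAt ℝ ∞ (fun y => (M.P (Ψ z) (Ψ y)).comp
        ((K' (Ψ y)).comp (M'.P (Φ (Ψ y)) (Φ (Ψ z))))) z :=
      (h'.smK (Ψ z) (h.maps z hz)).comp z (h.smΨ z hz)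
    have e4 := clm_comp' e1 (clm_comp' e2 e3)
    refine e4.congr_of_eventuallyEq ?_
    filter_upwards [hcU] with y hy
    refine ContinuousLinearMap.ext fun v => ?_
    show M'.P z y (K y (A (Ψ y) (K' (Ψ y) (M'.P y z v)))) =
      M'.P z y (K y (M.P (Ψ y) (Ψ z) (M.P (Ψ z) (Ψ y) (A (Ψ y) (M.P (Ψ y) (Ψ z)
        (M.P (Ψ z) (Ψ y) (K' (Ψ y) (M'.P (Φ (Ψ y)) (Φ (Ψ z)) v))))))))
    rw [hU.inv_apply hy hU.mem, hU.inv_apply hy hU.mem, hΦΨ, hΦΨ]
  · intro x hx u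
    have hy := h.maps x hx
    have h1 := h.bd x hx (A (Ψ x) (K' (Ψ x) u))
    have h2 := hc (Ψ x) hy (K' (Ψ x) u)
    have h3 := h'.bd (Ψ x) hy u
    rw [hΦΨ] at h3
    have hu : 0 ≤ (M'.G x u u).re := M'.G_nonneg hx u
    have hJx := hJ x hx
    have hJ0 := h.J0 x
    show (M'.G x (K x (A (Ψ x) (K' (Ψ x) u))) (K x (A (Ψ x) (K' (Ψ x) u)))).re ≤ _
    calc _ ≤ C ^ 2 * (J x * (c ^ 2 * (C' ^ 2 * (J' (Ψ x) * (M'.G x u u).re)))) := by
          refine h1.trans ?_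
          gcongr
          exact h2.trans (by gcongr)
      _ = (C * C' * c) ^ 2 * ((J x * J' (Ψ x)) * (M'.G x u u).re) := by ring
      _ ≤ (C * C' * c) ^ 2 * (1 * (M'.G x u u).re) := by gcongr
      _ = _ := by ring

theorem T_cf (h : MMor M M' Ψ K J C) (h' : MMor M' M Φ K' J' C') (hΦΨ : ∀ x, Φ (Ψ x) = x)
    (hJ : ∀ x ∈ X', J x * J' (Ψ x) ≤ 1) (hK : ∀ x ∈ X', ∀ v, K' (Ψ x) (K x v) = v)
    {A : ℂ → (V →L[ℂ] V)} (hA : M.Ok A) (u : M.L2) :
    h.T (M.opL A u) = M'.opL (cf Ψ K K' A) (h.T u) := by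
  refine h.T_op hA (ok_cf h h' hΦΨ hJ hA) (fun x hx v => ?_) u
  show K x (A (Ψ x) v) = K x (A (Ψ x) (K' (Ψ x) (K x v)))
  rw [hK x hx]

end ok

/-! ### the metric on one-forms -/

section met

theorem re_le_of_form {g : V →L⋆[ℂ] V →L[ℂ] ℂ} (herm : ∀ u v, (starRingEnd ℂ) (g u v) = g v u)
    (pos : ∀ v, 0 ≤ (g v v).re) (c : ℂ) (a b : V) :
    2 * (c * g a b).re ≤ ‖c‖ * ((g a a).re + (g b b).re) := by
  have key : ∀ θ : ℂ, ‖θ‖ = 1 → 2 * (θ * g a b).re ≤ (g a a).re + (g b b).re := by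
    intro θ hθ
    have h1 := pos (a - θ • b)
    have h2 : g (a - θ • b) (a - θ • b) = g a a - θ * g a b - conj θ * g b a +
        (conj θ * θ) * g b b := by
      simp only [map_sub, map_smul, map_smulₛₗ, sub_apply,
        smul_apply, smul_eq_mul]
      ring
    have h3 : conj θ * θ = 1 := by
      rw [mul_comm, Complex.mul_conj', hθ]
      norm_num
    rw [h2, h3, ← herm a b, ← map_mul] at h1
    have h4 : ((starRingEnd ℂ) (θ * (g a) b)).re = (θ * g a b).re := Complex.conj_re _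
    simp only [Complex.add_re, Complex.sub_re, one_mul, h4] at h1
    linarith
  by_cases hc : c = 0
  · subst hc
    simp
  · have h0 : 0 < ‖c‖ := norm_pos_iff.2 hc
    have h1 := key (c / ‖c‖) (by
      rw [norm_div, Complex.norm_real, norm_norm, div_self h0.ne'])
    have h2 : (c * g a b) = (‖c‖ : ℂ) * ((c / ‖c‖) * g a b) := by
      have h3 : (‖c‖ : ℂ) ≠ 0 := by exact_mod_cast h0.ne'
      field_simp
    rw [h2, Complex.re_ofReal_mul]
    nlinarith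

theorem form_pull_le {g : V →L⋆[ℂ] V →L[ℂ] ℂ} (herm : ∀ u v, (starRingEnd ℂ) (g u v) = g v u)
    (pos : ∀ v, 0 ≤ (g v v).re) (p q : ℂ) (η : V × V) :
    (g (pull p q η).1 (pull p q η).1).re + (g (pull p q η).2 (pull p q η).2).re ≤
      (‖p‖ + ‖q‖) ^ 2 * ((g η.1 η.1).re + (g η.2 η.2).re) := by
  obtain ⟨a, b⟩ := η
  have e1 : g (p • a + conj q • b) (p • a + conj q • b) = (conj p * p) * g a a +
      conj (p * q) * g a b + (p * q) * g b a + (q * conj q) * g b b := by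
    simp only [map_add, map_smul, map_smulₛₗ, add_apply,
      smul_apply, smul_eq_mul, Complex.conj_conj, map_mul]
    ring
  have e2 : g (q • a + conj p • b) (q • a + conj p • b) = (conj q * q) * g a a +
      conj (p * q) * g a b + (p * q) * g b a + (p * conj p) * g b b := by
    simp only [map_add, map_smul, map_smulₛₗ, add_apply,
      smul_apply, smul_eq_mul, Complex.conj_conj, map_mul]
    ring
  have hp : conj p * p = ((‖p‖ ^ 2 : ℝ) : ℂ) := by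
    rw [mul_comm, Complex.mul_conj']; push_cast; rfl
  have hp' : p * conj p = ((‖p‖ ^ 2 : ℝ) : ℂ) := by
    rw [Complex.mul_conj']; push_cast; rfl
  have hq : conj q * q = ((‖q‖ ^ 2 : ℝ) : ℂ) := by
    rw [mul_comm, Complex.mul_conj']; push_cast; rfl
  have hq' : q * conj q = ((‖q‖ ^ 2 : ℝ) : ℂ) := by
    rw [Complex.mul_conj']; push_cast; rfl
  have h4 : ((p * q) * g b a).re = (conj (p * q) * g a b).re := by
    rw [← Complex.conj_re, map_mul, herm]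
  have h5 := re_le_of_form herm pos (conj (p * q)) a b
  rw [Complex.norm_conj, norm_mul] at h5
  show (g (p • a + conj q • b) (p • a + conj q • b)).re +
    (g (q • a + conj p • b) (q • a + conj p • b)).re ≤
      (‖p‖ + ‖q‖) ^ 2 * ((g a a).re + (g b b).re)
  rw [e1, e2, hp, hp', hq, hq']
  simp only [Complex.add_re, Complex.re_ofReal_mul, h4]
  nlinarith

end met

end Crest.Agent.R276.Nat_591
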