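import Crest.Agent.R276.Nat5_591
import Crest.Agent.R276.K4b_817

/-!
# R276, leaf IPC-NAT (helper591), part 6: the transport along `B.psi b` (helper563)

`PsiM` : the data at one parameter value: the diffeomorphism `Ψ = B.psi b : X' → X`, the flat gauge
`K x : V_{Ψ x} → V'_x` with inverse `K' x`, the metrics `g`, `g'` comparable with constant `c`.
Output: `TE : M.L2 ≃L[ℂ] M'.L2` between the `L²` spaces of one-forms, and all its properties.
-/

set_option autoImplicit false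

open Set Filter Topology MeasureTheory UniformSpace
open scoped ContDiff ComplexConjugate

namespace Crest.Agent.R276.Nat_591

open VCalc_442 IpcGr_975 IpcG1_975 Psi_563 HsB_817

variable {V V' : Type*} [NormedAddCommGroup V] [NormedSpace ℂ V] [NormedAddCommGroup V']
  [NormedSpace ℂ V'] {X X' : Set ℂ}

/-- transport data -/
structure PsiM {k : ℕ} (B : Bumps k) (b : Fin k → ℂ) (F : FB V X) (F' : FB V' X')
    (M : MB (V × V) X) (M' : MB (V' × V') X') (g : ℂ → (V →L⋆[ℂ] V →L[ℂ] ℂ))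
    (g' : ℂ → (V' →L⋆[ℂ] V' →L[ℂ] ℂ)) (K : ℂ → (V →L[ℂ] V')) (K' : ℂ → (V' →L[ℂ] V))
    (c : ℝ) : Prop where
  hb : ‖b‖ < B.δ
  mem : ∀ x, B.psi b x ∈ X ↔ x ∈ X'
  flat : ∀ z ∈ X', ∀ᶠ y in 𝓝 z, (F'.P z y).comp (K y) = (K z).comp (F.P (B.psi b z) (B.psi b y))
  left : ∀ x ∈ X', ∀ v, K' x (K x v) = v
  right : ∀ x ∈ X', ∀ v, K x (K' x v) = v
  form : IsForm F M.toFB
  form' : IsForm F' M'.toFB
  met : ∀ x ∈ X, ∀ u v, M.G x u v = g x u.1 v.1 + g x u.2 v.2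
  met' : ∀ x ∈ X', ∀ u v, M'.G x u v = g' x u.1 v.1 + g' x u.2 v.2
  c0 : 0 < c
  le : ∀ x ∈ X', ∀ v, (g' x (K x v) (K x v)).re ≤ c ^ 2 * (g (B.psi b x) v v).re
  ge : ∀ x ∈ X', ∀ v, (g (B.psi b x) v v).re ≤ c ^ 2 * (g' x (K x v) (K x v)).re

/-- bounds for the pull-back of one-forms by `K` and `pull p q` -/
theorem form_Kf_le {g : V →L⋆[ℂ] V →L[ℂ] ℂ} {g' : V' →L⋆[ℂ] V' →L[ℂ] ℂ}
    (herm' : ∀ u v, (starRingEnd ℂ) (g' u v) = g' v u) (pos' : ∀ v, 0 ≤ (g' v v).re)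
    {L : V →L[ℂ] V'} {c : ℝ} (hL : ∀ v, (g' (L v) (L v)).re ≤ c ^ 2 * (g v v).re) {p q : ℂ}
    {J : ℝ} (pos : ∀ v, 0 ≤ (g v v).re) (hpq : (‖p‖ + ‖q‖) ^ 2 ≤ 3 * J) (hJ : 0 ≤ J) (u : V × V) :
    (g' (pull p q (L u.1, L u.2)).1 (pull p q (L u.1, L u.2)).1).re +
      (g' (pull p q (L u.1, L u.2)).2 (pull p q (L u.1, L u.2)).2).re ≤
      (2 * c) ^ 2 * (J * ((g u.1 u.1).re + (g u.2 u.2).re)) := by
  have h1 := form_pull_le herm' pos' p q (L u.1, L u.2)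
  have h2 := hL u.1
  have h3 := hL u.2
  have h4 := pos' (L u.1)
  have h5 := pos' (L u.2)
  have h6 := pos u.1
  have h7 := pos u.2
  refine h1.trans ?_
  calc (‖p‖ + ‖q‖) ^ 2 * ((g' (L u.1) (L u.1)).re + (g' (L u.2) (L u.2)).re)
      ≤ (3 * J) * (c ^ 2 * (g u.1 u.1).re + c ^ 2 * (g u.2 u.2).re) := by
        refine mul_le_mul hpq (add_le_add h2 h3) (by positivity) (by positivity)
    _ ≤ (2 * c) ^ 2 * (J * ((g u.1 u.1).re + (g u.2 u.2).re)) := by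
        have h8 : 0 ≤ c ^ 2 * (J * ((g u.1 u.1).re + (g u.2 u.2).re)) := by positivity
        nlinarith

/-- the wedge form and pull-back -/
theorem wedge_pull (S : V →L⋆[ℂ] V →L[ℂ] ℂ) (p q : ℂ) (η ζ : V × V) :
    S (pull p q η).2 (pull p q ζ).2 - S (pull p q η).1 (pull p q ζ).1 =
      ((‖p‖ ^ 2 - ‖q‖ ^ 2 : ℝ) : ℂ) * (S η.2 ζ.2 - S η.1 ζ.1) := by
  have hDD : ((‖p‖ ^ 2 - ‖q‖ ^ 2 : ℝ) : ℂ) = p * conj p - q * conj q := by
    rw [Complex.mul_conj', Complex.mul_conj']; push_cast; ring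
  rw [hDD]
  obtain ⟨a, b⟩ := η
  obtain ⟨a', b'⟩ := ζ
  simp only [pull, map_add, map_smul, map_smulₛₗ, add_apply, smul_apply, smul_eq_mul,
    Complex.conj_conj]
  ring

namespace PsiM

variable {k : ℕ} {B : Bumps k} {b : Fin k → ℂ} {F : FB V X} {F' : FB V' X'}
    {M : MB (V × V) X} {M' : MB (V' × V') X'} {g : ℂ → (V →L⋆[ℂ] V →L[ℂ] ℂ)}
    {g' : ℂ → (V' →L⋆[ℂ] V' →L[ℂ] ℂ)} {K : ℂ → (V →L[ℂ] V')} {K' : ℂ → (V' →L[ℂ] V)}
    {c : ℝ}

theorem g_nonneg (h : PsiM B b F F' M M' g g' K K' c) {x : ℂ} (hx : x ∈ X) (v : V) :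
    0 ≤ (g x v v).re := by
  have h1 := M.G_nonneg hx (v, 0)
  rw [h.met x hx] at h1
  simpa using h1

theorem g_nonneg' (h : PsiM B b F F' M M' g g' K K' c) {x : ℂ} (hx : x ∈ X') (v : V') :
    0 ≤ (g' x v v).re := by
  have h1 := M'.G_nonneg hx (v, 0)
  rw [h.met' x hx] at h1
  simpa using h1

theorem g_herm (h : PsiM B b F F' M M' g g' K K' c) {x : ℂ} (hx : x ∈ X) (u v : V) :
    (starRingEnd ℂ) (g x u v) = g x v u := by
  have h1 := M.herm x hx (u, 0) (v, 0)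
  rw [h.met x hx, h.met x hx] at h1
  simpa using h1

theorem g_herm' (h : PsiM B b F F' M M' g g' K K' c) {x : ℂ} (hx : x ∈ X') (u v : V') :
    (starRingEnd ℂ) (g' x u v) = g' x v u := by
  have h1 := M'.herm x hx (u, 0) (v, 0)
  rw [h.met' x hx, h.met' x hx] at h1
  simpa using h1

theorem flatOver (h : PsiM B b F F' M M' g g' K K' c) : FlatOver F F' (B.psi b) K where
  maps x hx := (h.mem x).2 hx
  off x hx hc := hx ((h.mem x).1 hc)
  smΨ x _ := (B.contDiff_psi_right b).contDiffAt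
  flat := h.flat
  prop K₀ hK₀ hc := ⟨B.psi b ⁻¹' K₀, fun x hx => (h.mem x).1 (hK₀ hx),
    B.isCompact_preimage h.hb hc, fun _ hx hh => hx hh⟩

/-- inverse gauge -/
noncomputable def Ki (_h : PsiM B b F F' M M' g g' K K' c) (y : ℂ) : V' →L[ℂ] V := K' (B.inv b y)

theorem flatOver' (h : PsiM B b F F' M M' g g' K K' c) : FlatOver F' F (B.inv b) h.Ki := by
  refine h.flatOver.inv (fun y => B.psi_inv h.hb y) (fun y _ =>
    (B.contDiff_inv_right h.hb).contDiffAt) (fun y hy v => ?_) (fun x hx v => ?_)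
  · have hy' : B.inv b y ∈ X' := by
      rw [← h.mem, B.psi_inv h.hb]
      exact hy
    exact h.left _ hy' v
  · show K x (K' (B.inv b (B.psi b x)) v) = v
    rw [B.inv_psi h.hb]
    exact h.right x hx v

theorem dW_psi (x : ℂ) : dW (B.psi b) 1 x = B.P b x := rfl
theorem dB_psi (x : ℂ) : dB (B.psi b) 1 x = B.Q b x := rfl

theorem mmor (h : PsiM B b F F' M M' g g' K K' c) :
    MMor M M' (B.psi b) (Kf (B.psi b) K) (B.J b) (2 * c) where
  toMor := h.flatOver.morForm h.form h.form'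
  off := h.flatOver.off
  C0 := by have := h.c0; positivity
  J0 x := (B.J_pos h.hb x).le
  cov f := B.integral_comp h.hb f
  cov' f hf := by
    have h1 := B.integrableOn_image h.hb MeasurableSet.univ f
    rw [image_univ, (B.surjective h.hb).range_eq, integrableOn_univ, integrableOn_univ] at h1
    exact h1.1 hf
  bd x hx u := by
    have hy := (h.mem x).2 hx
    rw [h.met' x hx, h.met _ hy, Complex.add_re, Complex.add_re, Kf_apply]
    exact form_Kf_le (fun u v => h.g_herm' hx u v) (fun v => h.g_nonneg' hx v) (h.le x hx)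
      (fun v => h.g_nonneg hy v) (B.dilatation_le h.hb x) (B.J_pos h.hb x).le u

/-- `Kf` followed by the inverse `Kf` -/
theorem kf_left (h : PsiM B b F F' M M' g g' K K' c) {y : ℂ} (hy : y ∈ X) (u : V × V) :
    Kf (B.inv b) h.Ki y (Kf (B.psi b) K (B.inv b y) u) = u := by
  have hy' : B.inv b y ∈ X' := by
    rw [← h.mem, B.psi_inv h.hb]
    exact hy
  exact Kf_Kf (B.differentiable_psi b _)
    ((B.contDiff_inv_right h.hb).differentiable (by simp) y)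
    (Eventually.of_forall fun t => B.psi_inv h.hb t) (fun v => h.left _ hy' v) u

theorem kf_right (h : PsiM B b F F' M M' g g' K K' c) {x : ℂ} (hx : x ∈ X') (u : V' × V') :
    Kf (B.psi b) K x (Kf (B.inv b) h.Ki (B.psi b x) u) = u := by
  refine Kf_Kf (Ψ := B.inv b) (Φ := B.psi b) (K := h.Ki) (K' := K)
    ((B.contDiff_inv_right h.hb).differentiable (by simp) _) (B.differentiable_psi b _)
    (Eventually.of_forall fun t => B.inv_psi h.hb t) (fun v => ?_) u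
  show K x (K' (B.inv b (B.psi b x)) v) = v
  rw [B.inv_psi h.hb]
  exact h.right x hx v

theorem kf_left' (h : PsiM B b F F' M M' g g' K K' c) {x : ℂ} (hx : x ∈ X') (u : V × V) :
    Kf (B.inv b) h.Ki (B.psi b x) (Kf (B.psi b) K x u) = u := by
  have := h.kf_left ((h.mem x).2 hx) u
  rwa [B.inv_psi h.hb] at this

/-- explicit formula for the inverse -/
theorem kf_inv_eq (h : PsiM B b F F' M M' g g' K K' c) {x : ℂ} (hx : x ∈ X') (u : V' × V') :
    Kf (B.inv b) h.Ki (B.psi b x) u =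
      pull (conj (B.P b x) / (B.J b x : ℝ)) (- B.Q b x / (B.J b x : ℝ)) (K' x u.1, K' x u.2) := by
  set v := Kf (B.inv b) h.Ki (B.psi b x) u with hv
  have h1 : Kf (B.psi b) K x v = u := h.kf_right hx u
  rw [Kf_apply] at h1
  rw [← h1]
  have h2 : ((K' x) (pull (dW (B.psi b) 1 x) (dB (B.psi b) 1 x) ((K x) v.1, (K x) v.2)).1,
      (K' x) (pull (dW (B.psi b) 1 x) (dB (B.psi b) 1 x) ((K x) v.1, (K x) v.2)).2) =
      pull (B.P b x) (B.Q b x) v := by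
    simp only [pull, map_add, map_smul, h.left x hx]
    rfl
  rw [h2]
  exact (pull_inv (B.norm_Q_lt_norm_P h.hb x) v).symm

theorem mmor' (h : PsiM B b F F' M M' g g' K K' c) :
    MMor M' M (B.inv b) (Kf (B.inv b) h.Ki) (fun y => (B.J b (B.inv b y))⁻¹) (2 * c) where
  toMor := h.flatOver'.morForm h.form' h.form
  off := h.flatOver'.off
  C0 := by have := h.c0; positivity
  J0 x := (inv_pos.2 (B.J_pos h.hb _)).le
  cov f := by
    rw [B.integral_comp h.hb (fun y => (B.J b (B.inv b y))⁻¹ • f (B.inv b y))]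
    refine integral_congr_ae (Eventually.of_forall fun x => ?_)
    show f x = B.J b x • (B.J b (B.inv b (B.psi b x)))⁻¹ • f (B.inv b (B.psi b x))
    rw [B.inv_psi h.hb, smul_smul, mul_inv_cancel₀ (B.J_pos h.hb x).ne', one_smul]
  cov' f hf := by
    have h1 := B.integrableOn_image h.hb MeasurableSet.univ
      (fun y => (B.J b (B.inv b y))⁻¹ • f (B.inv b y))
    rw [image_univ, (B.surjective h.hb).range_eq, integrableOn_univ, integrableOn_univ] at h1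
    refine h1.2 (hf.congr (Eventually.of_forall fun x => ?_))
    show f x = B.J b x • (B.J b (B.inv b (B.psi b x)))⁻¹ • f (B.inv b (B.psi b x))
    rw [B.inv_psi h.hb, smul_smul, mul_inv_cancel₀ (B.J_pos h.hb x).ne', one_smul]
  bd y hy u := by
    obtain ⟨x, rfl⟩ := B.surjective h.hb y
    have hx : x ∈ X' := (h.mem x).1 hy
    rw [h.kf_inv_eq hx, B.inv_psi h.hb, h.met' x hx, h.met _ hy, Complex.add_re, Complex.add_re]
    refine form_Kf_le (fun u v => h.g_herm hy u v) (fun v => h.g_nonneg hy v) (fun v => ?_)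
      (fun v => h.g_nonneg' hx v) (B.dilatation_inv_le h.hb x) (inv_pos.2 (B.J_pos h.hb x)).le u
    have := h.ge x hx (K' x v)
    rwa [h.right x hx] at this

/-- **the isomorphism of the `L²` spaces of one-forms** -/
noncomputable def TE (h : PsiM B b F F' M M' g g' K K' c) : M.L2 ≃L[ℂ] M'.L2 :=
  MMor.TE h.mmor h.mmor' (fun y => B.psi_inv h.hb y) (fun x => B.inv_psi h.hb x)
    (fun _ hy u => h.kf_left hy u) (fun _ hx u => h.kf_right hx u)

theorem TE_apply (h : PsiM B b F F' M M' g g' K K' c) (u : M.L2) : h.TE u = h.mmor.T u := rfl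

theorem TE_symm_apply (h : PsiM B b F F' M M' g g' K K' c) (u : M'.L2) :
    h.TE.symm u = h.mmor'.T u := rfl

theorem norm_TE_le (h : PsiM B b F F' M M' g g' K K' c) (u : M.L2) : ‖h.TE u‖ ≤ 2 * c * ‖u‖ :=
  h.mmor.norm_T_le u

theorem norm_TE_symm_le (h : PsiM B b F F' M M' g g' K K' c) (u : M'.L2) :
    ‖h.TE.symm u‖ ≤ 2 * c * ‖u‖ := h.mmor'.norm_T_le u

theorem TE_coe (h : PsiM B b F F' M M' g g' K K' c) (φ : M.H0) :
    h.TE (φ : M.L2) =
      (M'.s0 (pb (Kf (B.psi b) K) (B.psi b) φ.f) (h.mmor.toMor.mem_A0 φ.mem) : M'.H0) :=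
  h.mmor.T_coe φ

/-- exact forms -/
theorem TE_ex (h : PsiM B b F F' M M' g g' K K' c) (u : M.L2) :
    h.TE u ∈ closure (exG F' M') ↔ u ∈ closure (exG F M) :=
  T_mem_closure_iff h.flatOver h.flatOver' h.form h.form' h.mmor h.mmor'
    (fun u => h.TE.symm_apply_apply u) u

/-- conjugated field of operators -/
noncomputable def fld (h : PsiM B b F F' M M' g g' K K' c) (A : ℂ → ((V × V) →L[ℂ] (V × V))) :
    ℂ → ((V' × V') →L[ℂ] (V' × V')) :=
  cf (B.psi b) (Kf (B.psi b) K) (Kf (B.inv b) h.Ki) A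

theorem fld_Kf (h : PsiM B b F F' M M' g g' K K' c) (A : ℂ → ((V × V) →L[ℂ] (V × V))) {x : ℂ}
    (hx : x ∈ X') (v : V × V) :
    h.fld A x (Kf (B.psi b) K x v) = Kf (B.psi b) K x (A (B.psi b x) v) := by
  show Kf (B.psi b) K x (A (B.psi b x) (Kf (B.inv b) h.Ki (B.psi b x) (Kf (B.psi b) K x v))) = _
  rw [h.kf_left' hx]

theorem J_mul (h : PsiM B b F F' M M' g g' K K' c) (x : ℂ) :
    B.J b x * (B.J b (B.inv b (B.psi b x)))⁻¹ ≤ 1 := by
  rw [B.inv_psi h.hb, mul_inv_cancel₀ (B.J_pos h.hb x).ne']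

theorem ok_fld (h : PsiM B b F F' M M' g g' K K' c) {A : ℂ → ((V × V) →L[ℂ] (V × V))}
    (hA : M.Ok A) : M'.Ok (h.fld A) :=
  ok_cf h.mmor h.mmor' (fun x => B.inv_psi h.hb x) (fun x _ => h.J_mul x) hA

theorem TE_opL (h : PsiM B b F F' M M' g g' K K' c) {A : ℂ → ((V × V) →L[ℂ] (V × V))}
    (hA : M.Ok A) (u : M.L2) : h.TE (M.opL A u) = M'.opL (h.fld A) (h.TE u) :=
  T_cf h.mmor h.mmor' (fun x => B.inv_psi h.hb x) (fun x _ => h.J_mul x)
    (fun _ hx v => h.kf_left' hx v) hA u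

/-- version with a given field on the target -/
theorem TE_opL' (h : PsiM B b F F' M M' g g' K K' c) {A : ℂ → ((V × V) →L[ℂ] (V × V))}
    {A' : ℂ → ((V' × V') →L[ℂ] (V' × V'))} (hA : M.Ok A) (hA' : M'.Ok A')
    (hAA : ∀ x ∈ X', ∀ v, A' x (Kf (B.psi b) K x v) = Kf (B.psi b) K x (A (B.psi b x) v))
    (u : M.L2) : h.TE (M.opL A u) = M'.opL A' (h.TE u) :=
  h.mmor.T_op hA hA' (fun x hx v => (hAA x hx v).symm) u

/-- conjugated projectors -/
theorem cj_eq (h : PsiM B b F F' M M' g g' K K' c) {p : ℕ → ℂ → ((V × V) →L[ℂ] (V × V))}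
    {p' : ℕ → ℂ → ((V' × V') →L[ℂ] (V' × V'))} {P : ℕ} (hA : M.Ok (p P)) (hA' : M'.Ok (p' P))
    (hAA : ∀ x ∈ X', ∀ v, p' P x (Kf (B.psi b) K x v) = Kf (B.psi b) K x (p P (B.psi b x) v)) :
    cj h.TE (fun P => M.opL (p P)) P = M'.opL (p' P) :=
  eq_cj fun u => (h.TE_opL' hA hA' hAA u).symm

/-- **the wedge form is preserved** -/
theorem TE_form (h : PsiM B b F F' M M' g g' K K' c) {β : ℂ → ((V × V) →L[ℂ] (V × V))}
    {β' : ℂ → ((V' × V') →L[ℂ] (V' × V'))} (hβ : M.Ok β) (hβ' : M'.Ok β')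
    (S : ℂ → (V →L⋆[ℂ] V →L[ℂ] ℂ)) (S' : ℂ → (V' →L⋆[ℂ] V' →L[ℂ] ℂ))
    (hS : ∀ x ∈ X, ∀ u v, M.G x (β x u) v = S x u.2 v.2 - S x u.1 v.1)
    (hS' : ∀ x ∈ X', ∀ u v, M'.G x (β' x u) v = S' x u.2 v.2 - S' x u.1 v.1)
    (hSS : ∀ x ∈ X', ∀ u v, S' x (K x u) (K x v) = S (B.psi b x) u v) (u v : M.L2) :
    inner ℂ (M'.opL β' (h.TE u)) (h.TE v) = inner ℂ (M.opL β u) v := by
  refine h.mmor.T_inner_one hβ hβ' (fun x hx u v => ?_) u v
  rw [hS' x hx, hS _ ((h.mem x).2 hx), Kf_apply, Kf_apply, wedge_pull]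
  simp only [hSS x hx]
  rfl

/-- **NAT**: the Hilbert space packages of helper817 correspond -/
theorem isNat (h : PsiM B b F F' M M' g g' K K' c) {W W' : Type*} [NormedAddCommGroup W]
    [NormedSpace ℂ W] [NormedAddCommGroup W'] [NormedSpace ℂ W'] {D : Fix M.L2 W}
    {D' : Fix M'.L2 W'} {τ : W ≃ₗ[ℂ] W'} {β : ℂ → ((V × V) →L[ℂ] (V × V))}
    {β' : ℂ → ((V' × V') →L[ℂ] (V' × V'))} (hβ : M.Ok β) (hβ' : M'.Ok β')
    (hDβ : D.β = M.opL β) (hDβ' : D'.β = M'.opL β')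
    (S : ℂ → (V →L⋆[ℂ] V →L[ℂ] ℂ)) (S' : ℂ → (V' →L⋆[ℂ] V' →L[ℂ] ℂ))
    (hS : ∀ x ∈ X, ∀ u v, M.G x (β x u) v = S x u.2 v.2 - S x u.1 v.1)
    (hS' : ∀ x ∈ X', ∀ u v, M'.G x (β' x u) v = S' x u.2 v.2 - S' x u.1 v.1)
    (hSS : ∀ x ∈ X', ∀ u v, S' x (K x u) (K x v) = S (B.psi b x) u v)
    (hEx : (D.Ex : Set M.L2) = closure (exG F M))
    (hEx' : (D'.Ex : Set M'.L2) = closure (exG F' M'))
    (G : Set D.Zc) (hG : ∀ u : D.Zc, ∃ z ∈ G, (u : M.L2) - z ∈ D.Ex)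
    (hcl : ∀ z ∈ G, ∀ u' : D'.Zc, (u' : M'.L2) = h.TE z → D'.cl u' = τ (D.cl z)) :
    IsNat D D' h.TE τ := by
  refine IsNat.of_gen (fun u v => ?_) (fun u => ?_) G hG hcl
  · rw [hDβ, hDβ']
    exact h.TE_form hβ hβ' S S' hS hS' hSS u v
  · have h1 := h.TE_ex u
    rw [← hEx, ← hEx'] at h1
    exact h1

end PsiM

end Crest.Agent.R276.Nat_591
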