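import Crest.Agent.R276.Nat6_591
import Crest.Agent.R276.FamA_563

/-!
# R276, leaf IPC-NAT (helper591), part 7: the transport data of a variation near a point of the base

`D : LD V s₀` (helper563).  For `z` in the half ball the restrictions of `V` to the fibres over `D.σ z`
and `s₀` are related by `PsiM` (diffeomorphism `D.Ψ z`, gauge `cm (D.G z x)⁻¹`), with a constant which
only depends on the rank.
-/

set_option autoImplicit false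

noncomputable section

open Set Filter Topology MeasureTheory Matrix Metric
open scoped ContDiff ComplexConjugate

namespace Crest.Agent.R276.Nat_591

open Crest.Agent.R271.Ho51 Crest.Agent.R276.Ipc735 Crest.Agent.R276.Top3_279
open IpcG1_975 Psi_563 FamA_563 HsB_817

/-! ### matrices as operators and forms -/

section mat

variable {N : ℕ}

/-- the operator of a matrix -/
def mc (A : Matrix (Fin N) (Fin N) ℂ) : (Fin N → ℂ) →L[ℂ] (Fin N → ℂ) :=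
  LinearMap.toContinuousLinearMap A.mulVecLin

@[simp] theorem mc_apply (A : Matrix (Fin N) (Fin N) ℂ) (v : Fin N → ℂ) : mc A v = A *ᵥ v := rfl

/-- antilinear coordinate -/
def cst (i : Fin N) : (Fin N → ℂ) →L⋆[ℂ] ℂ :=
  ((starL ℂ : ℂ ≃L⋆[ℂ] ℂ) : ℂ →L⋆[ℂ] ℂ).comp
    (ContinuousLinearMap.proj i : (Fin N → ℂ) →L[ℂ] ℂ)

/-- the sesquilinear form of a matrix -/
def mg (H : Matrix (Fin N) (Fin N) ℂ) : (Fin N → ℂ) →L⋆[ℂ] (Fin N → ℂ) →L[ℂ] ℂ :=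
  ∑ i, (ContinuousLinearMap.toSpanSingleton ℂ
    (((ContinuousLinearMap.proj i : (Fin N → ℂ) →L[ℂ] ℂ)).comp (mc H))).comp (cst i)

theorem mg_apply (H : Matrix (Fin N) (Fin N) ℂ) (u v : Fin N → ℂ) :
    mg H u v = star u ⬝ᵥ H *ᵥ v := by
  unfold mg
  rw [_root_.sum_apply, _root_.sum_apply]
  rfl

end mat

/-! ### the instance -/

section inst

variable {A : Finset ℂ} {N w : ℕ}

/-- `F` is the flat bundle of `R` -/
def IsFB (R : PVHS A N w) (F : FB (Fin N → ℂ) ((A : Set ℂ)ᶜ)) : Prop :=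
  ∀ x ∉ A, ∀ y ∉ A, ∀ v, F.P x y v = cm (R.P x y) *ᵥ v

/-- `M` is the bundle of one-forms with values in `R`, with the Hodge metric -/
structure IsMB (R : PVHS A N w) (F : FB (Fin N → ℂ) ((A : Set ℂ)ᶜ))
    (M : MB ((Fin N → ℂ) × (Fin N → ℂ)) ((A : Set ℂ)ᶜ)) : Prop where
  fb : IsFB R F
  form : IsForm F M.toFB
  met : ∀ x ∉ A, ∀ u v, M.G x u v = star u.1 ⬝ᵥ R.H x *ᵥ v.1 + star u.2 ⬝ᵥ R.H x *ᵥ v.2

variable {m : ℕ} {S : Type*} [TopologicalSpace S] [RDom m S] {k : ℕ} {Q : Punc S k}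
  {V : Ipc735.VHS (m + 1) (Tot Q) N w} {s₀ : S} (D : LD V s₀)

theorem psi_mem {z : Fin m → ℂ} (hz : z ∈ D.U) (x : ℂ) :
    D.Bm.psi (D.b z) x ∈ ((Q.A (D.σ z) : Set ℂ)ᶜ) ↔ x ∈ ((Q.A s₀ : Set ℂ)ᶜ) := by
  have h1 := D.Bm.psi_mem_iff (LD.norm_b hz) (x := x)
  have e1 : ∀ y : ℂ, y ∈ D.Bm.C (D.b z) ↔ y ∉ Q.A (D.σ z) := by
    intro y
    rw [D.hA _ (LD.σ_mem hz)]
    constructor
    · intro hy hc
      obtain ⟨i, -, hi⟩ := Finset.mem_image.1 hc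
      refine hy i ?_
      rw [← hi]
      show D.α (D.σ z) i = D.Bm.a i + (D.α (D.σ z) - D.Bm.a) i
      rw [Pi.sub_apply]
      ring
    · intro hy i hc
      refine hy (Finset.mem_image.2 ⟨i, Finset.mem_univ _, ?_⟩)
      rw [hc]
      show D.α (D.σ z) i = D.Bm.a i + (D.α (D.σ z) - D.Bm.a) i
      rw [Pi.sub_apply]
      ring
  have e2 : ∀ y : ℂ, y ∈ D.Bm.C 0 ↔ y ∉ Q.A s₀ := by
    intro y
    rw [D.hA _ D.mem, D.h0]
    constructor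
    · intro hy hc
      obtain ⟨i, -, hi⟩ := Finset.mem_image.1 hc
      refine hy i ?_
      rw [← hi]
      simp
    · intro hy i hc
      refine hy (Finset.mem_image.2 ⟨i, Finset.mem_univ _, ?_⟩)
      rw [hc]
      simp
  rw [e1, e2] at h1
  simpa using h1

variable {R : ∀ s : S, PVHS (Q.A s) N w}

theorem H_res {V : Ipc735.VHS (m + 1) (Tot Q) N w} {s : S} {R : PVHS (Q.A s) N w}
    (hR : IsRes V s R) {x : ℂ} (hx : x ∉ Q.A s) :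
    R.H x = hodge w (V.S (Tot.mk Q s x hx)) (V.E (Tot.mk Q s x hx)) := by
  unfold PVHS.H
  rw [hR.S, hR.E, rM_of _ hx, rM_of _ hx]

/-- the metric at `D.Ψ z x` in the frame at `(s₀, x)` -/
theorem H_conj {z : Fin m → ℂ} (hz : z ∈ D.U) {x : ℂ} (hx : x ∉ Q.A s₀) :
    (cm (D.G z x))ᴴ * hodge w (V.S (D.pt z x hz hx).1) (V.E (D.pt z x hz hx).1) * cm (D.G z x) =
      hodge w (V.S (Tot.mk Q s₀ x hx)) (D.E z x) := by
  rw [← LD.S_const hz hx, LD.E_of hz hx, ← hodge_conj (g := cm (D.G z x)⁻¹) (cm_inv_mul_cm _)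
    (cm_mul_cm_inv _)]

theorem hm_eq {z : Fin m → ℂ} {x : ℂ} (hx : x ∉ Q.A s₀) :
    VCalc_442.hm w (V.S (Tot.mk Q s₀ x hx)) (fun p z => hq w (D.E z x) p) z =
      hodge w (V.S (Tot.mk Q s₀ x hx)) (D.E z x) := by
  unfold VCalc_442.hm hodge
  rw [sgOp_hq]

/-- the constant -/
def cN (N : ℕ) : ℝ := Real.exp (BndA_563.C0 (Fin N))

theorem cN_pos (N : ℕ) : 0 < cN N := Real.exp_pos _

theorem one_le_cN (N : ℕ) : 1 ≤ cN N := Real.one_le_exp (BndA_563.C0_nonneg _)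

theorem cN_le (N : ℕ) : cN N ≤ cN N ^ 2 := by
  have := one_le_cN N
  nlinarith

/-- Hodge norms at `(z, x)`, `(z', x)` are comparable -/
theorem cmp {z z' : Fin m → ℂ} (hz : z ∈ ball (cp s₀ : Fin m → ℂ) (D.r / 2))
    (hz' : z' ∈ ball (cp s₀ : Fin m → ℂ) (D.r / 2)) {x : ℂ} (hx : x ∉ Q.A s₀) (v : Fin N → ℂ) :
    (star v ⬝ᵥ hodge w (V.S (Tot.mk Q s₀ x hx)) (D.E z x) *ᵥ v).re ≤
      cN N * (star v ⬝ᵥ hodge w (V.S (Tot.mk Q s₀ x hx)) (D.E z' x) *ᵥ v).re := by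
  have h1 := BndA_563.hn_le (LD.vhs_E (D := D) hx) D.r_pos (subset_refl _) v hz hz'
  rw [hm_eq, hm_eq] at h1
  exact h1

theorem half_sub {z : Fin m → ℂ} (hz : z ∈ ball (cp s₀ : Fin m → ℂ) (D.r / 2)) : z ∈ D.U :=
  ball_subset_ball (by linarith [D.r_pos]) hz

theorem conj_apply {g H : Matrix (Fin N) (Fin N) ℂ} {u v : Fin N → ℂ} :
    star (g *ᵥ u) ⬝ᵥ H *ᵥ (g *ᵥ v) = star u ⬝ᵥ (gᴴ * H * g) *ᵥ v := by
  rw [← Matrix.mulVec_mulVec, ← Matrix.mulVec_mulVec, Matrix.dotProduct_mulVec (star u),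
    Matrix.star_mulVec]

/-- **the transport data** -/
theorem psiM {z : Fin m → ℂ} (hz : z ∈ ball (cp s₀ : Fin m → ℂ) (D.r / 2))
    {R : PVHS (Q.A (D.σ z)) N w} (hR : IsRes V (D.σ z) R) {R₀ : PVHS (Q.A s₀) N w}
    (hR₀ : IsRes V s₀ R₀) {F : FB (Fin N → ℂ) ((Q.A (D.σ z) : Set ℂ)ᶜ)}
    {F₀ : FB (Fin N → ℂ) ((Q.A s₀ : Set ℂ)ᶜ)}
    {M : MB ((Fin N → ℂ) × (Fin N → ℂ)) ((Q.A (D.σ z) : Set ℂ)ᶜ)}
    {M₀ : MB ((Fin N → ℂ) × (Fin N → ℂ)) ((Q.A s₀ : Set ℂ)ᶜ)}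
    (hM : IsMB R F M) (hM₀ : IsMB R₀ F₀ M₀) :
    PsiM D.Bm (D.b z) F F₀ M M₀ (fun x => mg (R.H x)) (fun x => mg (R₀.H x))
      (fun x => mc (cm (D.G z x)⁻¹)) (fun x => mc (cm (D.G z x))) (cN N) where
  hb := LD.norm_b (half_sub D hz)
  mem := psi_mem D (half_sub D hz)
  flat := by
    intro x₁ hx₁
    have hx₁' : x₁ ∉ Q.A s₀ := by simpa using hx₁
    have hzU := half_sub D hz
    obtain ⟨W, hW, hfr⟩ := LD.frame_nhds (D := D) hzU hx₁'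
    filter_upwards [LD.ev_snd (p := fun q => q ∈ W) hW, eventually_notMem _ hx₁'] with y hy hyA
    have h1 := hfr (z, x₁) (mem_of_mem_nhds hW) (z, y) hy hzU hx₁' hzU hyA
    simp only at h1
    have hΨ1 : D.Ψ z x₁ ∉ Q.A (D.σ z) := LD.Ψ_notMem hzU hx₁'
    have hΨ2 : D.Ψ z y ∉ Q.A (D.σ z) := LD.Ψ_notMem hzU hyA
    have h2 : rP Q V.P (D.σ z) (D.Ψ z x₁) (D.Ψ z y) =
        D.G z x₁ * rP Q V.P s₀ x₁ y * (D.G z y)⁻¹ := by
      rw [rP_of V.P hΨ1 hΨ2]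
      exact h1
    refine ContinuousLinearMap.ext fun v => ?_
    show F₀.P x₁ y (cm (D.G z y)⁻¹ *ᵥ v) = cm (D.G z x₁)⁻¹ *ᵥ
      (F.P (D.Ψ z x₁) (D.Ψ z y) v)
    rw [hM₀.fb _ hx₁' _ hyA, hM.fb _ hΨ1 _ hΨ2, hR.P, hR₀.P, h2, Matrix.mulVec_mulVec,
      Matrix.mulVec_mulVec, ← cm_mul, ← cm_mul]
    congr 2
    group
  left := by
    intro x _ v
    show cm (D.G z x) *ᵥ (cm (D.G z x)⁻¹ *ᵥ v) = v
    rw [Matrix.mulVec_mulVec, cm_mul_cm_inv, Matrix.one_mulVec]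
  right := by
    intro x _ v
    show cm (D.G z x)⁻¹ *ᵥ (cm (D.G z x) *ᵥ v) = v
    rw [Matrix.mulVec_mulVec, cm_inv_mul_cm, Matrix.one_mulVec]
  form := hM.form
  form' := hM₀.form
  met := fun x hx u v => by
    rw [hM.met x (by simpa using hx), mg_apply, mg_apply]
  met' := fun x hx u v => by
    rw [hM₀.met x (by simpa using hx), mg_apply, mg_apply]
  c0 := cN_pos N
  le := by
    intro x hx v
    have hx' : x ∉ Q.A s₀ := by simpa using hx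
    have hzU := half_sub D hz
    have hΨ : D.Ψ z x ∉ Q.A (D.σ z) := LD.Ψ_notMem hzU hx'
    have e : cm (D.G z x) *ᵥ (cm (D.G z x)⁻¹ *ᵥ v) = v := by
      rw [Matrix.mulVec_mulVec, cm_mul_cm_inv, Matrix.one_mulVec]
    have h1 := cmp D (mem_ball_self (half_pos D.r_pos)) hz hx' (cm (D.G z x)⁻¹ *ᵥ v)
    rw [D.E_center hx', ← H_conj D hzU hx', ← conj_apply, e] at h1
    show (mg (R₀.H x) (cm (D.G z x)⁻¹ *ᵥ v) (cm (D.G z x)⁻¹ *ᵥ v)).re ≤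
      cN N ^ 2 * (mg (R.H (D.Ψ z x)) v v).re
    rw [mg_apply, mg_apply, H_res hR₀ hx', H_res hR hΨ]
    refine h1.trans ?_
    refine mul_le_mul_of_nonneg_right (cN_le N) ?_
    exact (V.hs _).hodge_nonneg v
  ge := by
    intro x hx v
    have hx' : x ∉ Q.A s₀ := by simpa using hx
    have hzU := half_sub D hz
    have hΨ : D.Ψ z x ∉ Q.A (D.σ z) := LD.Ψ_notMem hzU hx'
    have e : cm (D.G z x) *ᵥ (cm (D.G z x)⁻¹ *ᵥ v) = v := by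
      rw [Matrix.mulVec_mulVec, cm_mul_cm_inv, Matrix.one_mulVec]
    have h1 := cmp D hz (mem_ball_self (half_pos D.r_pos)) hx' (cm (D.G z x)⁻¹ *ᵥ v)
    rw [D.E_center hx', ← H_conj D hzU hx', ← conj_apply, e] at h1
    show (mg (R.H (D.Ψ z x)) v v).re ≤
      cN N ^ 2 * (mg (R₀.H x) (cm (D.G z x)⁻¹ *ᵥ v) (cm (D.G z x)⁻¹ *ᵥ v)).re
    rw [mg_apply, mg_apply, H_res hR₀ hx', H_res hR hΨ]
    refine h1.trans ?_
    refine mul_le_mul_of_nonneg_right (cN_le N) ?_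
    exact (V.hs _).hodge_nonneg _

/-- the gauge is isometric for the flat form -/
theorem S_iso {z : Fin m → ℂ} (hz : z ∈ D.U) {R : PVHS (Q.A (D.σ z)) N w}
    (hR : IsRes V (D.σ z) R) {R₀ : PVHS (Q.A s₀) N w} (hR₀ : IsRes V s₀ R₀) {x : ℂ}
    (hx : x ∉ Q.A s₀) (u v : Fin N → ℂ) :
    star (cm (D.G z x)⁻¹ *ᵥ u) ⬝ᵥ R₀.S x *ᵥ (cm (D.G z x)⁻¹ *ᵥ v) =
      star u ⬝ᵥ R.S (D.Ψ z x) *ᵥ v := by
  have hΨ : D.Ψ z x ∉ Q.A (D.σ z) := LD.Ψ_notMem hz hx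
  have e : ∀ u : Fin N → ℂ, cm (D.G z x) *ᵥ (cm (D.G z x)⁻¹ *ᵥ u) = u := fun u => by
    rw [Matrix.mulVec_mulVec, cm_mul_cm_inv, Matrix.one_mulVec]
  rw [hR₀.S, hR.S, rM_of _ hx, rM_of _ hΨ, ← LD.S_const hz hx, ← conj_apply, e, e]
  rfl

end inst

end Crest.Agent.R276.Nat_591
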