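import Crest.Agent.R276.Nat7_591
import Crest.Agent.R276.IpcSt_975
import Crest.Agent.R276.HsE_817

/-!
# R276, leaf IPC-NAT (helper591), part 8: transport between polarised variations (helper975's `PV`)

`PsiP B b M M' K K' c` : diffeomorphism `Ψ = B.psi b : X' → X`, flat isometric gauge `K x`, comparable
Hodge metrics.  `TE : M.L ≃L[ℂ] M'.L` preserves `be`-form, `Ex`, `Zc`.
-/

set_option autoImplicit false

open Set Filter Topology MeasureTheory UniformSpace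
open scoped ContDiff ComplexConjugate

namespace Crest.Agent.R276.Nat_591

open VCalc_442 IpcGr_975 IpcG1_975 Psi_563 HsB_817

variable {V V' : Type*} [NormedAddCommGroup V] [NormedSpace ℂ V] [NormedAddCommGroup V']
  [NormedSpace ℂ V'] {X X' : Set ℂ} {w w' : ℕ}

/-- transport data -/
structure PsiP {k : ℕ} (B : Bumps k) (b : Fin k → ℂ) (M : PV V X w) (M' : PV V' X' w')
    (K : ℂ → (V →L[ℂ] V')) (K' : ℂ → (V' →L[ℂ] V)) (c : ℝ) : Prop where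
  hb : ‖b‖ < B.δ
  mem : ∀ x, B.psi b x ∈ X ↔ x ∈ X'
  flat : ∀ z ∈ X', ∀ᶠ y in 𝓝 z, (M'.P z y).comp (K y) = (K z).comp (M.P (B.psi b z) (B.psi b y))
  left : ∀ x ∈ X', ∀ v, K' x (K x v) = v
  right : ∀ x ∈ X', ∀ v, K x (K' x v) = v
  iso : ∀ x ∈ X', ∀ u v, M'.S x (K x u) (K x v) = M.S (B.psi b x) u v
  c0 : 0 < c
  le : ∀ x ∈ X', ∀ v, (M'.Gf x (K x v) (K x v)).re ≤ c ^ 2 * (M.Gf (B.psi b x) v v).re
  ge : ∀ x ∈ X', ∀ v, (M.Gf (B.psi b x) v v).re ≤ c ^ 2 * (M'.Gf x (K x v) (K x v)).re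

namespace PsiP

variable [FiniteDimensional ℂ V] [FiniteDimensional ℂ V'] {k : ℕ} {B : Bumps k} {b : Fin k → ℂ}
  {M : PV V X w} {M' : PV V' X' w'} {K : ℂ → (V →L[ℂ] V')} {K' : ℂ → (V' →L[ℂ] V)} {c : ℝ}

theorem isForm (M : PV V X w) : IsForm M.toFB M.mb.dbl.toFB := fun _ _ _ => rfl

theorem psiM (h : PsiP B b M M' K K' c) :
    PsiM B b M.toFB M'.toFB M.mb.dbl M'.mb.dbl M.Gf M'.Gf K K' c where
  hb := h.hb
  mem := h.mem
  flat := h.flat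
  left := h.left
  right := h.right
  form := isForm M
  form' := isForm M'
  met := fun _ _ _ _ => rfl
  met' := fun _ _ _ _ => rfl
  c0 := h.c0
  le := h.le
  ge := h.ge

/-- **the isomorphism** -/
noncomputable def TE (h : PsiP B b M M' K K' c) : M.L ≃L[ℂ] M'.L := h.psiM.TE

theorem norm_TE_le (h : PsiP B b M M' K K' c) (u : M.L) : ‖h.TE u‖ ≤ 2 * c * ‖u‖ :=
  h.psiM.norm_TE_le u

theorem norm_TE_symm_le (h : PsiP B b M M' K K' c) (u : M'.L) : ‖h.TE.symm u‖ ≤ 2 * c * ‖u‖ :=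
  h.psiM.norm_TE_symm_le u

theorem TE_coe (h : PsiP B b M M' K K' c) (φ : M.mb.dbl.H0) :
    h.TE (φ : M.L) = (M'.mb.dbl.s0 (pb (Kf (B.psi b) K) (B.psi b) φ.f)
      (h.psiM.mmor.toMor.mem_A0 φ.mem) : M'.mb.dbl.H0) := h.psiM.TE_coe φ

/-- `be` in terms of the flat form -/
theorem G_bt (M : PV V X w) {x : ℂ} (hx : x ∈ X) (u v : V × V) :
    M.mb.dbl.G x (M.bt x u) v = M.S x u.2 v.2 - M.S x u.1 v.1 := by
  show M.Gf x (- M.Jf x u.1) v.1 + M.Gf x (M.Jf x u.2) v.2 = _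
  rw [map_neg, neg_apply, M.G_J hx, M.G_J hx]
  ring

/-- the form is preserved -/
theorem form (h : PsiP B b M M' K K' c) (u v : M.L) :
    inner ℂ (M'.be (h.TE u)) (h.TE v) = inner ℂ (M.be u) v :=
  h.psiM.TE_form M.ok_bt M'.ok_bt M.S M'.S (fun _ hx u v => G_bt M hx u v)
    (fun _ hx u v => G_bt M' hx u v) h.iso u v

theorem ex_eq (M : PV V X w) : (M.Ex : Set M.L) = closure (exG M.toFB M.mb.dbl) := by
  show (((LinearMap.range M.DL).topologicalClosure : Submodule ℂ M.L) : Set M.L) = _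
  rw [Submodule.topologicalClosure_coe]
  congr 1
  ext u
  constructor
  · rintro ⟨φ, rfl⟩
    exact ⟨φ.1, φ.2, FB.Df_mem φ.2, rfl⟩
  · rintro ⟨φ, hφ, hm, rfl⟩
    exact ⟨⟨φ, hφ⟩, rfl⟩

/-- exact forms correspond -/
theorem ex (h : PsiP B b M M' K K' c) (u : M.L) : h.TE u ∈ M'.Ex ↔ u ∈ M.Ex := by
  have h1 := h.psiM.TE_ex u
  rw [← ex_eq, ← ex_eq] at h1
  exact h1

/-- weakly closed forms correspond -/
theorem zc (h : PsiP B b M M' K K' c) (u : M.L) : h.TE u ∈ M'.Zc ↔ u ∈ M.Zc := by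
  rw [M.mem_Zc, M'.mem_Zc]
  constructor
  · intro hu e he
    rw [← h.form]
    exact hu _ ((h.ex e).2 he)
  · intro hu e he
    obtain ⟨e, rfl⟩ := h.TE.surjective e
    rw [h.form]
    exact hu _ ((h.ex e).1 he)

/-- the conjugated total type fields -/
noncomputable def pf (h : PsiP B b M M' K K' c) (P : ℕ) : ℂ → (V' × V' →L[ℂ] V' × V') :=
  h.psiM.fld (M.ty P)

theorem ok_pf (h : PsiP B b M M' K K' c) (P : ℕ) : M'.mb.dbl.Ok (h.pf P) :=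
  h.psiM.ok_fld (M.ok_ty P)

theorem pf_Kf (h : PsiP B b M M' K K' c) (P : ℕ) {x : ℂ} (hx : x ∈ X') (v : V × V) :
    h.pf P x (Kf (B.psi b) K x v) = Kf (B.psi b) K x (M.ty P (B.psi b x) v) :=
  h.psiM.fld_Kf _ hx v

theorem TE_Ty (h : PsiP B b M M' K K' c) (P : ℕ) (u : M.L) :
    h.TE (M.Ty P u) = M'.mb.dbl.opL (h.pf P) (h.TE u) := h.psiM.TE_opL (M.ok_ty P) u

/-- with given fields -/
theorem TE_Ty' (h : PsiP B b M M' K K' c) {P : ℕ} {q : ℂ → (V' × V' →L[ℂ] V' × V')}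
    (hq : M'.mb.dbl.Ok q)
    (hqq : ∀ x ∈ X', ∀ v, q x (Kf (B.psi b) K x v) = Kf (B.psi b) K x (M.ty P (B.psi b x) v))
    (u : M.L) : h.TE (M.Ty P u) = M'.mb.dbl.opL q (h.TE u) :=
  h.psiM.TE_opL' (M.ok_ty P) hq hqq u

/-- the fields agree on `X'` -/
theorem eq_pf (h : PsiP B b M M' K K' c) {P : ℕ} {q : ℂ → (V' × V' →L[ℂ] V' × V')} {x : ℂ}
    (hx : x ∈ X')
    (hqq : ∀ v, q x (Kf (B.psi b) K x v) = Kf (B.psi b) K x (M.ty P (B.psi b x) v)) :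
    q x = h.pf P x := by
  refine ContinuousLinearMap.ext fun u => ?_
  have h1 := h.psiM.kf_right hx u
  rw [← h1, hqq, h.pf_Kf P hx]

section fix

variable {W W' : Type*} [NormedAddCommGroup W] [NormedSpace ℂ W] [NormedAddCommGroup W']
  [NormedSpace ℂ W']

/-- **NAT for helper975's packages** -/
theorem isNat (h : PsiP B b M M' K K' c) {cl : M.Zc →L[ℂ] W} {hs : Function.Surjective cl}
    {hk : ∀ u : M.Zc, cl u = 0 ↔ (u : M.L) ∈ M.Ex} {cl' : M'.Zc →L[ℂ] W'}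
    {hs' : Function.Surjective cl'} {hk' : ∀ u : M'.Zc, cl' u = 0 ↔ (u : M'.L) ∈ M'.Ex}
    {τ : W ≃ₗ[ℂ] W'} (G : Set M.Zc) (hG : ∀ u : M.Zc, ∃ z ∈ G, (u : M.L) - z ∈ M.Ex)
    (hcl : ∀ z ∈ G, ∀ u' : M'.Zc, (u' : M'.L) = h.TE z → cl' u' = τ (cl z)) :
    IsNat (M.fix cl hs hk) (M'.fix cl' hs' hk') h.TE τ :=
  IsNat.of_gen h.form h.ex G hG hcl

/-- in the shape of helper817 -/
theorem natD (h : PsiP B b M M' K K' c) {cl : M.Zc →L[ℂ] W} {hs : Function.Surjective cl}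
    {hk : ∀ u : M.Zc, cl u = 0 ↔ (u : M.L) ∈ M.Ex} {cl' : M'.Zc →L[ℂ] W'}
    {hs' : Function.Surjective cl'} {hk' : ∀ u : M'.Zc, cl' u = 0 ↔ (u : M'.L) ∈ M'.Ex} :
    HsE_817.NatD (M'.fix cl' hs' hk') (M.fix cl hs hk) h.TE where
  form := h.form
  ex := h.ex

end fix

end PsiP

end Crest.Agent.R276.Nat_591
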