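import Mathlib
import Crest.Agent.R276.Wcl_175

/-!
# Row 276, IPC (helper175): the class map and the transports

`L : Loc Q s₀ B` a trivialisation over `B`, `G : Gau V.P L hs₀` a gauge (helper279), `s ∈ B` with
`L.Ψ s` smooth.  `Bx L G hs` : the frame change on the plane.
* `plFrame` : `(L.Ψ s, Bx)` carries the flat bundle of the fibre over `s` to the one over `s₀`.
* `clH_tau`, `wcl_tau` : class of the pulled back form = transport of the class.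
* `CF.pull` : compact supports are preserved.
-/

set_option autoImplicit false
set_option linter.unusedSectionVars false

noncomputable section

open Set Filter Topology MeasureTheory Matrix
open Crest.Agent.R271.Ho51
open Crest.Agent.R276.Ipc735 Crest.Agent.R276.DR_175 Crest.Agent.R276.Top3_279

namespace Crest.Agent.R276.Wcl_175

variable {N w : ℕ} {m : ℕ} {S : Type*} [TopologicalSpace S] [RDom m S] {k : ℕ} {Q : Punc S k}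
  (V : VHS (m + 1) (Tot Q) N w)

variable {V}

open Classical in
/-- the frame change of a gauge, on the plane -/
def Bx {s₀ : S} {B : Set S} {L : Loc Q s₀ B} {hs₀ : s₀ ∈ B} (G : Gau V.P L hs₀) {s : S}
    (hs : s ∈ B) (x : ℂ) : GL (Fin N) ℤ :=
  if hx : x ∉ Q.A s₀ then (G.A (Top3_279.inc Q hs (L.psi hs ⟨x, hx⟩)))⁻¹ else 1

lemma Bx_of {s₀ : S} {B : Set S} {L : Loc Q s₀ B} {hs₀ : s₀ ∈ B} (G : Gau V.P L hs₀) {s : S}
    (hs : s ∈ B) {x : ℂ} (hx : x ∉ Q.A s₀) :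
    Bx G hs x = (G.A (Top3_279.inc Q hs (L.psi hs ⟨x, hx⟩)))⁻¹ := by
  unfold Bx; rw [dif_pos hx]

section tau

variable [T2Space S]

/-- `(L.Ψ s, Bx)` carries the flat bundle of the fibre over `s` to that of the fibre over `s₀` -/
theorem plFrame {s₀ : S} {B : Set S} {L : Loc Q s₀ B} {hs₀ : s₀ ∈ B} (G : Gau V.P L hs₀) {s : S}
    (hs : s ∈ B) (hsm : ∀ z ∉ Q.A s₀, ContDiffAt ℝ (⊤ : ℕ∞) (L.Ψ s) z) :
    PlFrame ((Q.A s₀ : Set ℂ)ᶜ) ((Q.A s : Set ℂ)ᶜ) (rP Q V.P s₀) (rP Q V.P s) (L.Ψ s)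
      (Bx G hs) where
  smooth := fun z hz => hsm z hz
  maps := fun z hz => L.Ψ_notMem hs hz
  fr := by
    intro z hz
    obtain ⟨U, hU, h⟩ := (G.frame_psi hs) ⟨z, hz⟩
    obtain ⟨W, hW, h2⟩ := exists_nhds _ hU
    refine ⟨W, hW, fun x hx y hy => ?_⟩
    obtain ⟨hx', hx2⟩ := h2 x hx
    obtain ⟨hy', hy2⟩ := h2 y hy
    have h3 := h _ hx2 _ hy2
    have e1 := rP_eq V s₀ ⟨x, hx'⟩ ⟨y, hy'⟩
    have e2 := rP_eq V s (L.psi hs ⟨x, hx'⟩) (L.psi hs ⟨y, hy'⟩)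
    rw [Bx_of G hs hx', Bx_of G hs hy']
    have e1' : rP Q V.P s₀ x y = fP V.P s₀ ⟨x, hx'⟩ ⟨y, hy'⟩ := e1
    have e2' : rP Q V.P s (L.Ψ s x) (L.Ψ s y) = fP V.P s (L.psi hs ⟨x, hx'⟩) (L.psi hs ⟨y, hy'⟩) := e2
    rw [e1', e2']
    exact h3

/-- class of the pulled back form -/
theorem clH_tau {s₀ : S} {B : Set S} {L : Loc Q s₀ B} {hs₀ : s₀ ∈ B} (hB : Sheet B)
    (G : Gau V.P L hs₀) {s : S} (hs : s ∈ B) (hsm : ∀ z ∉ Q.A s₀, ContDiffAt ℝ (⊤ : ℕ∞) (L.Ψ s) z)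
    {a b : ℂ → Fin N → ℂ} (h : SC (V.res s) a b) :
    SC (V.res s₀) (plA (L.Ψ s) (Bx G hs) a b) (plB (L.Ψ s) (Bx G hs) a b) ∧
    clH V s₀ (plA (L.Ψ s) (Bx G hs) a b) (plB (L.Ψ s) (Bx G hs) a b) =
      Top3_279.tau (rC N) (vndc V) s₀ s (clH V s a b) := by
  obtain ⟨u, hu, hr⟩ := h.exists_rep
  have H := plFrame G hs hsm
  have hu' := H.cocOn hu
  have hr' := Rep.pull H hr
  refine ⟨sc_of_rep hu' hr', ?_⟩
  rw [clH_eq hu hr, clH_eq hu' hr']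
  unfold Top3_279.cl
  rw [tau_gauge_cls' (rC N) (vndc V) L hB hs₀ G hs]
  congr 1
  funext x y
  show act (Bx G hs x.1) (u (L.Ψ s x.1) (L.Ψ s y.1)) = _
  rw [Bx_of G hs x.2]
  rfl

theorem wcl_tau {s₀ : S} {B : Set S} {L : Loc Q s₀ B} {hs₀ : s₀ ∈ B} (hB : Sheet B)
    (G : Gau V.P L hs₀) {s : S} (hs : s ∈ B) (hsm : ∀ z ∉ Q.A s₀, ContDiffAt ℝ (⊤ : ℕ∞) (L.Ψ s) z)
    {a b : ℂ → Fin N → ℂ} (h : SC (V.res s) a b) (hp : (V.res s).Par a b) :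
    SC (V.res s₀) (plA (L.Ψ s) (Bx G hs) a b) (plB (L.Ψ s) (Bx G hs) a b) ∧
    (V.res s₀).Par (plA (L.Ψ s) (Bx G hs) a b) (plB (L.Ψ s) (Bx G hs) a b) ∧
    wcl V s₀ (plA (L.Ψ s) (Bx G hs) a b) (plB (L.Ψ s) (Bx G hs) a b) =
      tW V s₀ s (wcl V s a b) := by
  obtain ⟨h1, h2⟩ := clH_tau hB G hs hsm h
  have hp' : (V.res s₀).Par (plA (L.Ψ s) (Bx G hs) a b) (plB (L.Ψ s) (Bx G hs) a b) := by
    rw [← clH_mem_par_iff h1, h2]
    exact tau_par' V ((clH_mem_par_iff h).2 hp)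
  refine ⟨h1, hp', ?_⟩
  apply Subtype.ext
  rw [wcl_val h1 hp', h2, tW_val, wcl_val h hp]

/-- compact supports are preserved -/
theorem CF.pull {s₀ : S} {B : Set S} {L : Loc Q s₀ B} {hs₀ : s₀ ∈ B} (hB : Sheet B)
    (G : Gau V.P L hs₀) {s : S} (hs : s ∈ B) (hsm : ∀ z ∉ Q.A s₀, ContDiffAt ℝ (⊤ : ℕ∞) (L.Ψ s) z)
    {a b : ℂ → Fin N → ℂ} (h : CF (V.res s) a b) :
    CF (V.res s₀) (plA (L.Ψ s) (Bx G hs) a b) (plB (L.Ψ s) (Bx G hs) a b) := by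
  obtain ⟨K, hK, hKA, h0⟩ := h.cpt
  refine ⟨(clH_tau hB G hs hsm h.toSC).1, L.Φ s '' K, hK.image (L.continuous_Φ hs), ?_, ?_⟩
  · rintro _ ⟨x, hx, rfl⟩
    exact L.Φ_notMem hs (hKA hx)
  · intro x hx
    have hx' : L.Ψ s x ∉ K := fun hk => hx ⟨_, hk, L.ΦΨ s hs x⟩
    obtain ⟨ha, hb⟩ := h0 _ hx'
    unfold plA plB plS
    rw [ha, hb]
    simp

end tau

end Crest.Agent.R276.Wcl_175
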