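import Crest.Agent.R276.Nat8_591
import Crest.Agent.R276.WclT_175
import Crest.Agent.R276.Top3k_279
import Crest.Agent.R276.IpcAs_975

/-!
# R276, leaf IPC-NAT (helper591), part 9: NAT for the fibres of a variation near a point of the base

`D : LD V s₀` (helper563), `M` the `PV` of the fibre over `D.σ z`, `M₀` the `PV` of the fibre over `s₀`.
* `psiP` : the transport data;
* `cl_tau` : the class of the transported form is the transport of the class.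
-/

set_option autoImplicit false
set_option linter.unusedSectionVars false

noncomputable section

open Set Filter Topology MeasureTheory Matrix Metric
open scoped ContDiff ComplexConjugate

namespace Crest.Agent.R276.Nat_591

open Crest.Agent.R271.Ho51 Crest.Agent.R276.Ipc735 Crest.Agent.R276.Top3_279
open IpcG1_975 Psi_563 FamA_563 HsB_817 Wcl_175 DR_175

section inst

variable {A : Finset ℂ} {N w : ℕ}

/-- `M` is the `PV` of `R` -/
structure IsPVo (R : PVHS A N w) (M : PV (Fin N → ℂ) ((A : Set ℂ)ᶜ) w) : Prop where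
  P : ∀ x y, M.P x y = mc (cm (R.P x y))
  S : ∀ x, M.S x = mg (R.S x)
  G : ∀ x ∉ A, ∀ u v, M.Gf x u v = star u ⬝ᵥ R.H x *ᵥ v

theorem IsPVo.isMB {R : PVHS A N w} {M : PV (Fin N → ℂ) ((A : Set ℂ)ᶜ) w} (h : IsPVo R M) :
    IsMB R M.toFB M.mb.dbl where
  fb := fun x _ y _ v => by rw [h.P, mc_apply]
  form := PsiP.isForm M
  met := fun x hx u v => by
    show M.Gf x u.1 v.1 + M.Gf x u.2 v.2 = _
    rw [h.G x hx, h.G x hx]

variable {m : ℕ} {S : Type*} [TopologicalSpace S] [RDom m S] {k : ℕ} {Q : Punc S k}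
  {V : Ipc735.VHS (m + 1) (Tot Q) N w} {s₀ : S} (D : LD V s₀)

/-- **the transport data** -/
theorem psiP {z : Fin m → ℂ} (hz : z ∈ ball (cp s₀ : Fin m → ℂ) (D.r / 2))
    {R : PVHS (Q.A (D.σ z)) N w} (hR : IsRes V (D.σ z) R) {R₀ : PVHS (Q.A s₀) N w}
    (hR₀ : IsRes V s₀ R₀) {M : PV (Fin N → ℂ) ((Q.A (D.σ z) : Set ℂ)ᶜ) w}
    {M₀ : PV (Fin N → ℂ) ((Q.A s₀ : Set ℂ)ᶜ) w} (hM : IsPVo R M) (hM₀ : IsPVo R₀ M₀) :
    PsiP D.Bm (D.b z) M M₀ (fun x => mc (cm (D.G z x)⁻¹)) (fun x => mc (cm (D.G z x))) (cN N) := by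
  have h := psiM D hz hR hR₀ hM.isMB hM₀.isMB
  have hX : ∀ x, x ∈ ((Q.A s₀ : Set ℂ)ᶜ) → x ∉ Q.A s₀ := fun x hx => by simpa using hx
  have hΨ : ∀ x, x ∈ ((Q.A s₀ : Set ℂ)ᶜ) → D.Bm.psi (D.b z) x ∉ Q.A (D.σ z) := fun x hx => by
    simpa using (psi_mem D (half_sub D hz) x).2 hx
  have g1 : ∀ x ∈ ((Q.A s₀ : Set ℂ)ᶜ), ∀ u v, M₀.Gf x u v = mg (R₀.H x) u v := fun x hx u v => by
    rw [hM₀.G x (hX x hx), mg_apply]
  have g2 : ∀ x ∈ ((Q.A s₀ : Set ℂ)ᶜ), ∀ u v,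
      M.Gf (D.Bm.psi (D.b z) x) u v = mg (R.H (D.Bm.psi (D.b z) x)) u v := fun x hx u v => by
    rw [hM.G _ (hΨ x hx), mg_apply]
  exact
    { hb := h.hb
      mem := h.mem
      flat := h.flat
      left := h.left
      right := h.right
      iso := fun x hx u v => by
        rw [hM.S, hM₀.S, mg_apply, mg_apply, mc_apply, mc_apply]
        exact S_iso D (half_sub D hz) hR hR₀ (hX x hx) u v
      c0 := h.c0
      le := fun x hx v => by
        rw [g1 x hx, g2 x hx]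
        exact h.le x hx v
      ge := fun x hx v => by
        rw [g1 x hx, g2 x hx]
        exact h.ge x hx v }

/-- 175's frame change is the inverse gauge -/
theorem Bx_eq {z : Fin m → ℂ} (hz : z ∈ D.U) {x : ℂ} (hx : x ∉ Q.A s₀) :
    Bx D.gau (LD.σ_mem hz) x = (D.G z x)⁻¹ := by
  rw [Bx_of D.gau (LD.σ_mem hz) hx, LD.G_of hz hx]
  rfl

theorem wz_psi (B : Bumps k) (b : Fin k → ℂ) (x : ℂ) : wz (B.psi b) x = VCalc_442.dW (B.psi b) 1 x :=
  (dW_one _ _).symm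

theorem wb_psi (B : Bumps k) (b : Fin k → ℂ) (x : ℂ) :
    wb (B.psi b) x = VCalc_442.dB (B.psi b) 1 x := by
  unfold VCalc_442.dB Ipc735.wb
  simp

/-- the pull-back of a compactly supported form is 175's pull-back -/
theorem pb_eq_pl {z : Fin m → ℂ} (hz : z ∈ D.U) {ζ : ℂ → (Fin N → ℂ) × (Fin N → ℂ)}
    (h0 : ∀ x ∈ Q.A (D.σ z), ζ x = 0) (x : ℂ) :
    pb (Kf (D.Bm.psi (D.b z)) (fun x => mc (cm (D.G z x)⁻¹))) (D.Bm.psi (D.b z)) ζ x =
      (plA (D.L.Ψ (D.σ z)) (Bx D.gau (LD.σ_mem hz)) (fun x => (ζ x).1) (fun x => (ζ x).2) x,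
        plB (D.L.Ψ (D.σ z)) (Bx D.gau (LD.σ_mem hz)) (fun x => (ζ x).1) (fun x => (ζ x).2) x) := by
  have e : D.L.Ψ (D.σ z) = D.Bm.psi (D.b z) := rfl
  rw [e]
  by_cases hx : x ∈ Q.A s₀
  · have hΨ : D.Bm.psi (D.b z) x ∈ Q.A (D.σ z) := by
      by_contra hc
      have := (psi_mem D hz x).1 (by simpa using hc)
      exact this (by simpa using hx)
    have h1 := h0 _ hΨ
    have h2 : (ζ (D.Bm.psi (D.b z) x)).1 = 0 := by rw [h1]; rfl
    have h3 : (ζ (D.Bm.psi (D.b z) x)).2 = 0 := by rw [h1]; rfl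
    unfold pb plA plB plS
    rw [h1, map_zero]
    refine Prod.ext ?_ ?_
    · simp only [h2, h3, map_zero, smul_zero, add_zero]
      rfl
    · simp only [h2, h3, map_zero, smul_zero, add_zero]
      rfl
  · show Kf (D.Bm.psi (D.b z)) (fun x => mc (cm (D.G z x)⁻¹)) x (ζ (D.Bm.psi (D.b z) x)) = _
    rw [Kf_apply]
    unfold plA plB plS
    rw [Bx_eq D hz hx, wz_psi, wb_psi]
    rfl

variable [T2Space S]

/-- **class of the transported form** (smooth closed compactly supported forms) -/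
theorem cl_tau {z : Fin m → ℂ} (hz : z ∈ D.U) {ζ : ℂ → (Fin N → ℂ) × (Fin N → ℂ)}
    (h0 : ∀ x ∈ Q.A (D.σ z), ζ x = 0)
    (hs : SC (V.res (D.σ z)) (fun x => (ζ x).1) (fun x => (ζ x).2))
    (hp : (V.res (D.σ z)).Par (fun x => (ζ x).1) (fun x => (ζ x).2))
    {ξ : ℂ → (Fin N → ℂ) × (Fin N → ℂ)}
    (hξ : ξ = pb (Kf (D.Bm.psi (D.b z)) (fun x => mc (cm (D.G z x)⁻¹))) (D.Bm.psi (D.b z)) ζ) :
    SC (V.res s₀) (fun x => (ξ x).1) (fun x => (ξ x).2) ∧
    (V.res s₀).Par (fun x => (ξ x).1) (fun x => (ξ x).2) ∧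
    wcl V s₀ (fun x => (ξ x).1) (fun x => (ξ x).2) =
      tW V s₀ (D.σ z) (wcl V (D.σ z) (fun x => (ζ x).1) (fun x => (ζ x).2)) := by
  have h1 := wcl_tau (sheet_bB D.sub) D.gau (LD.σ_mem hz)
    (fun x _ => (D.Bm.contDiff_psi_right (D.b z)).contDiffAt) hs hp
  have e1 : (fun x => (ξ x).1) =
      plA (D.L.Ψ (D.σ z)) (Bx D.gau (LD.σ_mem hz)) (fun x => (ζ x).1) (fun x => (ζ x).2) := by
    funext x
    rw [hξ, pb_eq_pl D hz h0]
  have e2 : (fun x => (ξ x).2) =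
      plB (D.L.Ψ (D.σ z)) (Bx D.gau (LD.σ_mem hz)) (fun x => (ζ x).1) (fun x => (ζ x).2) := by
    funext x
    rw [hξ, pb_eq_pl D hz h0]
  rw [e1, e2]
  exact h1

end inst

end Crest.Agent.R276.Nat_591
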