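import Crest.Agent.R276.OTG_189
import Crest.Agent.R276.PVg_159

/-!
# Row 276, leaf OT (helper189): Ohsawa–Takegoshi with the fibre integrals `fi` of helper159
-/

set_option autoImplicit false
set_option linter.unusedSectionVars false
set_option maxHeartbeats 800000

noncomputable section

open Set Filter Topology MeasureTheory Metric
open scoped ENNReal

namespace Crest.Agent.R276.OTB_189

open Crest.Agent.R271 Crest.Agent.R271.Ho51 Crest.Agent.R273.Dir73
  Crest.Agent.R276.EngU_29 Crest.Agent.R276.OTF_189 Crest.Agent.R276.PV_159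
  Crest.Agent.R273.OTD_34 Crest.Agent.R273.Reg_844
open Crest.Agent.R271.W792 (Levi_eq_lev lev)

variable {n : ℕ} {M : Type} [TopologicalSpace M] [RDom (n + 1) M]

/-- the hyperplane `z 0 = t` -/
def hyp (t : ℂ) : Fin (n + 1) → ℂ := Fin.cons (-t) 0

lemma ell_hyp (t : ℂ) (z : Fin (n + 1) → ℂ) : ell (hyp t) z = z 0 - t := by
  unfold ell hyp
  simp only [Fin.cons_zero, Fin.cons_succ, Pi.zero_apply, zero_mul, Finset.sum_const_zero]
  ring

lemma gam_hyp (t : ℂ) (u : Fin n → ℂ) : gam (hyp t) u = Fin.cons t u := by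
  funext i
  refine Fin.cases ?_ (fun j => ?_) i
  · rw [gam_zero, Fin.cons_zero]
    unfold hyp
    simp only [Fin.cons_zero, Fin.cons_succ, Pi.zero_apply, zero_mul, Finset.sum_const_zero]
    ring
  · rw [gam_succ, Fin.cons_succ]

lemma tc_ι (t : ℂ) (y : Hs M (hyp t)) : tc (ι y) = t := by
  have h := ell_ι y
  rw [ell_hyp] at h
  exact sub_eq_zero.1 h

/-- functions holomorphic on the fibre are holomorphic functions on the slice -/
lemma hol_of_FHol {t : ℂ} {f : M → ℂ} (hf : FHol t f) : Hol (fun y : Hs M (hyp t) => f (ι y)) := by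
  refine hol_of_local fun y => ⟨chD (isCh_ch (ι y)) y, isCh_chD _ _, mem_ch (ι y), ?_⟩
  have he := isCh_ch (ι y)
  refine DifferentiableAt.congr_of_eventuallyEq ?_ (comp_symm_germ f he y (mem_ch (ι y)))
  have h1 : ((f ∘ (ch (ι y)).symm) ∘ gam (hyp t)) =
      fun u : Fin n → ℂ => f ((ch (ι y)).symm (Fin.cons t u)) := by
    funext u
    simp only [Function.comp_apply]
    rw [gam_hyp]
  rw [h1]
  have hopen : IsOpen {u : Fin n → ℂ | (Fin.cons t u : Fin (n + 1) → ℂ) ∈ (ch (ι y)).target} := by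
    have h2 : {u : Fin n → ℂ | (Fin.cons t u : Fin (n + 1) → ℂ) ∈ (ch (ι y)).target} =
        gam (hyp t) ⁻¹' (ch (ι y)).target := by
      ext u
      rw [mem_preimage, gam_hyp]
      rfl
    rw [h2]
    exact (ch (ι y)).open_target.preimage (continuous_gam _)
  refine (hf _ he).differentiableAt (hopen.mem_nhds ?_)
  show (Fin.cons t (cp y) : Fin (n + 1) → ℂ) ∈ (ch (ι y)).target
  rw [← gam_hyp, gam_cp]
  exact he.cp_mem (mem_ch (ι y))

variable [T2Space M] [SecondCountableTopology M]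

/-- the integral over the slice is the fibre integral -/
lemma lintegral_Hs_eq_fi {t : ℂ} [MeasurableSpace (Hs M (hyp (n := n) t))]
    [BorelSpace (Hs M (hyp (n := n) t))]
    {μD : Measure (Hs M (hyp (n := n) t))} (hμD : IsLeb μD) {g : M → ℝ≥0∞}
    (hg : Measurable fun y : Hs M (hyp t) => g (ι y)) :
    ∫⁻ y : Hs M (hyp t), g (ι y) ∂μD = fi g t := by
  rw [Rd692.lintegral_eq_fibre hμD hg]
  unfold fi fsum
  refine lintegral_congr fun u => ?_
  let E : {y : Hs M (hyp t) // cp y = u} ≃ {m : M // cp m = (Fin.cons t u : Fin (n + 1) → ℂ)} :=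
    { toFun := fun y => ⟨ι y.1, by rw [← gam_cp y.1, y.2, gam_hyp]⟩
      invFun := fun m => ⟨mkHs m.1 (by rw [m.2, ← gam_hyp, ell_gam]), by
        rw [cp_Hs, ι_mkHs, m.2]; rfl⟩
      left_inv := fun y => rfl
      right_inv := fun m => rfl }
  exact E.tsum_eq (fun m : {m : M // cp m = (Fin.cons t u : Fin (n + 1) → ℂ)} => g m.1)

/-- **Ohsawa–Takegoshi for the fibre over `t0`**, bounded `tc - t0` -/
theorem ot_fi {ρ : M → ℝ} (hρ : Sm ρ) (hcpt : ∀ t : ℝ, IsCompact {x | ρ x ≤ t})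
    (hL : ∀ x w, nsq w ≤ Levi ρ x w) {t0 : ℂ} {R : ℝ} (hR : 0 < R)
    (hs : ∀ x : M, ‖tc x - t0‖ ≤ R) {b : M → ℝ} (hb : LPsh b) {f : M → ℂ} (hf : FHol t0 f) :
    ∃ F : M → ℂ, Hol F ∧ (∀ x, tc x = t0 → F x = f x) ∧
      ∫⁻ t, fi (fun x => ENNReal.ofReal (‖F x‖ ^ 2) / ENNReal.ofReal (b x)) t ≤
        ENNReal.ofReal (Cot 1 * Real.pi * R ^ 2) *
          fi (fun x => ENNReal.ofReal (‖f x‖ ^ 2) / ENNReal.ofReal (b x)) t0 := by
  letI : MeasurableSpace M := borel M
  haveI : BorelSpace M := ⟨rfl⟩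
  letI : MeasurableSpace (Hs M (hyp (n := n) t0)) := borel _
  haveI : BorelSpace (Hs M (hyp (n := n) t0)) := ⟨rfl⟩
  obtain ⟨μ, hμ⟩ := exists_leb (M := M)
  obtain ⟨μD, hμD⟩ := exists_leb (M := Hs M (hyp (n := n) t0))
  have hfD := hol_of_FHol hf
  have hbm : Measurable b := by
    have h1 : Measurable (fun x => Real.exp (Real.log (b x + 1)) - 1) :=
      (Real.measurable_exp.comp (hb.psh 1 one_pos).usc.measurable).sub_const 1
    have h2 : (fun x => Real.exp (Real.log (b x + 1)) - 1) = b := by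
      funext x
      have := hb.nonneg x
      rw [Real.exp_log (by positivity)]
      ring
    rwa [h2] at h1
  obtain ⟨F, hF, hFf, hFb⟩ := ot_disc hμ hμD hρ hcpt hL hR (a := hyp t0)
    (fun x => by rw [ell_hyp]; exact hs x) hb hfD
  refine ⟨F, hF, fun x hx => ?_, ?_⟩
  · have h1 : ell (hyp t0) (cp x) = 0 := by rw [ell_hyp]; exact sub_eq_zero.2 hx
    exact hFf (mkHs x h1)
  · have hFc : Continuous F := T7a297.Hol.continuous hF
    have hfc : Continuous (fun y : Hs M (hyp t0) => f (ι y)) := T7a297.Hol.continuous hfD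
    have h1 : Measurable (fun x => ENNReal.ofReal (‖F x‖ ^ 2) / ENNReal.ofReal (b x)) :=
      (hFc.norm.pow 2).measurable.ennreal_ofReal.div hbm.ennreal_ofReal
    have h2 : Measurable (fun y : Hs M (hyp t0) =>
        ENNReal.ofReal (‖f (ι y)‖ ^ 2) / ENNReal.ofReal (b (ι y))) :=
      (hfc.norm.pow 2).measurable.ennreal_ofReal.div
        (hbm.comp continuous_ι.measurable).ennreal_ofReal
    rw [← lintegral_eq_fi hμ h1,
      ← lintegral_Hs_eq_fi hμD (g := fun x => ENNReal.ofReal (‖f x‖ ^ 2) / ENNReal.ofReal (b x)) h2]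
    exact hFb

/-- **Ohsawa–Takegoshi for the fibre over `t0`**, `tc` unbounded -/
theorem ot_fi_line {ρ : M → ℝ} (hρ : Sm ρ) (hcpt : ∀ t : ℝ, IsCompact {x | ρ x ≤ t})
    (hL : ∀ x w, nsq w ≤ Levi ρ x w) {t0 : ℂ} {b : M → ℝ} (hb : LPsh b) {f : M → ℂ}
    (hf : FHol t0 f) :
    ∃ F : M → ℂ, Hol F ∧ (∀ x, tc x = t0 → F x = f x) ∧
      ∫⁻ t, fi (fun x => ENNReal.ofReal (‖F x‖ ^ 2 / (1 + ‖tc x - t0‖ ^ 2) ^ 2) /
          ENNReal.ofReal (b x)) t ≤
        ENNReal.ofReal (Cot 1 * Real.pi) *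
          fi (fun x => ENNReal.ofReal (‖f x‖ ^ 2) / ENNReal.ofReal (b x)) t0 := by
  letI : MeasurableSpace M := borel M
  haveI : BorelSpace M := ⟨rfl⟩
  letI : MeasurableSpace (Hs M (hyp (n := n) t0)) := borel _
  haveI : BorelSpace (Hs M (hyp (n := n) t0)) := ⟨rfl⟩
  obtain ⟨μ, hμ⟩ := exists_leb (M := M)
  obtain ⟨μD, hμD⟩ := exists_leb (M := Hs M (hyp (n := n) t0))
  have hfD := hol_of_FHol hf
  have hbm : Measurable b := by
    have h1 : Measurable (fun x => Real.exp (Real.log (b x + 1)) - 1) :=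
      (Real.measurable_exp.comp (hb.psh 1 one_pos).usc.measurable).sub_const 1
    have h2 : (fun x => Real.exp (Real.log (b x + 1)) - 1) = b := by
      funext x
      have := hb.nonneg x
      rw [Real.exp_log (by positivity)]
      ring
    rwa [h2] at h1
  obtain ⟨F, hF, hFf, hFb⟩ := ot_line hμ hμD hρ hcpt hL (a := hyp t0) hb hfD
  simp only [ell_hyp] at hFb
  refine ⟨F, hF, fun x hx => ?_, ?_⟩
  · have h1 : ell (hyp t0) (cp x) = 0 := by rw [ell_hyp]; exact sub_eq_zero.2 hx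
    exact hFf (mkHs x h1)
  · have hFc : Continuous F := T7a297.Hol.continuous hF
    have hfc : Continuous (fun y : Hs M (hyp t0) => f (ι y)) := T7a297.Hol.continuous hfD
    have htc : Continuous (fun x : M => tc x) := cont_tc
    have h1 : Measurable (fun x => ENNReal.ofReal (‖F x‖ ^ 2 / (1 + ‖tc x - t0‖ ^ 2) ^ 2) /
        ENNReal.ofReal (b x)) := by
      refine Measurable.div (Continuous.measurable ?_).ennreal_ofReal hbm.ennreal_ofReal
      exact (hFc.norm.pow 2).div₀ ((continuous_const.add ((htc.sub continuous_const).norm.pow 2)).pow 2)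
        fun x => by positivity
    have h2 : Measurable (fun y : Hs M (hyp t0) =>
        ENNReal.ofReal (‖f (ι y)‖ ^ 2) / ENNReal.ofReal (b (ι y))) :=
      (hfc.norm.pow 2).measurable.ennreal_ofReal.div
        (hbm.comp continuous_ι.measurable).ennreal_ofReal
    rw [← lintegral_eq_fi hμ h1,
      ← lintegral_Hs_eq_fi hμD (g := fun x => ENNReal.ofReal (‖f x‖ ^ 2) / ENNReal.ofReal (b x)) h2]
    exact hFb

/-- helper185's black box -/
def OTB (R : ℝ) : Prop := ∃ C : ℝ≥0∞, C ≠ ⊤ ∧ ∀ (D : Dom R) (b : D.P → ℝ), LPsh b →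
  ∀ f : D.P → ℂ, FHol 0 f → ∃ F : D.P → ℂ, Hol F ∧ (∀ x, tc x = 0 → F x = f x) ∧
    ∫⁻ t, fi (fun x => ENNReal.ofReal (‖F x‖ ^ 2) / ENNReal.ofReal (b x)) t ≤
      C * fi (fun x => ENNReal.ofReal (‖f x‖ ^ 2) / ENNReal.ofReal (b x)) 0

theorem otb_dom {R : ℝ} (hR : 0 < R) : OTB R := by
  refine ⟨ENNReal.ofReal (Cot 1 * Real.pi * R ^ 2), ENNReal.ofReal_ne_top, fun D b hb f hf => ?_⟩
  refine ot_fi D.ρ_sm D.ρ_cpt (fun x w => ?_) hR (fun x => ?_) hb hf
  · rw [Levi_eq_lev D.ρ_sm]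
    exact D.ρ_lev x w
  · rw [sub_zero]
    exact (D.tR x).le

end Crest.Agent.R276.OTB_189
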