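import Crest.Agent.R276.NbB_185
import Crest.Agent.R276.PVl_159
import Crest.Agent.R276.OTB_189
import Crest.Agent.R276.Restr_29

/-!
# Row 276, task W1 (helper185): products of functions over the factors of `D.pw j`
-/

set_option autoImplicit false
set_option linter.unusedSectionVars false
set_option linter.unusedVariables false

noncomputable section

open Set Filter Topology Complex MeasureTheory Metric
open scoped ENNReal ComplexConjugate

namespace Crest.Agent.R276.NbC_185

open Crest.Agent.R271 Crest.Agent.R271.Ho51 Crest.Agent.R276.PV_159 Crest.Agent.R276.NbB_185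
  Crest.Agent.R276.NbA_185 Crest.Agent.R276.EngU_29 Crest.Agent.R276.OTB_189

variable {R : ℝ}

/-- the Borel structure on fibre products -/
local instance instMFP {a b : ℕ} {M N : Type} [TopologicalSpace M] [TopologicalSpace N]
    [RDom (a + 1) M] [RDom (b + 1) N] : MeasurableSpace (FP M N) := borel _
local instance instBFP {a b : ℕ} {M N : Type} [TopologicalSpace M] [TopologicalSpace N]
    [RDom (a + 1) M] [RDom (b + 1) N] : BorelSpace (FP M N) := ⟨rfl⟩

/-! ### Fubini for products -/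

/-- fibre integral of a product -/
lemma fi_prod (Q E : Dom R) {g : Q.P → ℝ≥0∞} {h : E.P → ℝ≥0∞} {t : ℂ}
    (hg : Measurable ({x : Q.P | tc x = t}.indicator g))
    (hh : Measurable ({x : E.P | tc x = t}.indicator h)) :
    fi (fun p : (Q.mul E).P => g (FP.fst (M := Q.P) (N := E.P) p) *
      h (FP.snd (M := Q.P) (N := E.P) p)) t = fi g t * fi h t := by
  set g' : Q.P → ℝ≥0∞ := {x : Q.P | tc x = t}.indicator g with hg'
  set h' : E.P → ℝ≥0∞ := {x : E.P | tc x = t}.indicator h with hh'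
  have eg : ∀ x : Q.P, tc x = t → g x = g' x := fun x hx =>
    (indicator_of_mem (s := {x : Q.P | tc x = t}) hx g).symm
  have eh : ∀ x : E.P, tc x = t → h x = h' x := fun x hx =>
    (indicator_of_mem (s := {x : E.P | tc x = t}) hx h).symm
  have h1 : fi (fun p : (Q.mul E).P => g (FP.fst (M := Q.P) (N := E.P) p) *
      h (FP.snd (M := Q.P) (N := E.P) p)) t =
      fi (fun p : (Q.mul E).P => g' (FP.fst (M := Q.P) (N := E.P) p) *
      h' (FP.snd (M := Q.P) (N := E.P) p)) t := by
    refine fi_congr fun p hp => ?_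
    have h2 : tc (FP.snd (M := Q.P) (N := E.P) p) = t := by
      have := FP.cond (M := Q.P) (N := E.P) p
      show (cp (FP.snd (M := Q.P) (N := E.P) p) : Fin (E.a + 1) → ℂ) 0 = t
      rw [← this]
      exact hp
    rw [eg _ hp, eh _ h2]
  have h3 : fi g t = fi g' t := fi_congr fun x hx => eg x hx
  have h4 : fi h t = fi h' t := fi_congr fun x hx => eh x hx
  rw [h1, h3, h4]
  have hm : Measurable (fun p : (Q.mul E).P => g' (FP.fst (M := Q.P) (N := E.P) p) *
      h' (FP.snd (M := Q.P) (N := E.P) p)) :=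
    (hg.comp (FP.cont_fst (M := Q.P) (N := E.P)).measurable).mul
      (hh.comp (FP.cont_snd (M := Q.P) (N := E.P)).measurable)
  have hfub := fi_FP (M := Q.P) (N := E.P) hm t
  refine hfub.trans ?_
  have h5 : ∀ m : Q.P, tc m = t → fi (fun n : E.P =>
      ext2 (M := Q.P) (N := E.P) (fun p : (Q.mul E).P => g' (FP.fst (M := Q.P) (N := E.P) p) *
      h' (FP.snd (M := Q.P) (N := E.P) p)) m n) t = g' m * fi h' t := by
    intro m hm'
    rw [← fi_const_mul_meas hh]
    refine fi_congr fun n hn => ?_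
    have h : (cp m : Fin (Q.a + 1) → ℂ) 0 = (cp n : Fin (E.a + 1) → ℂ) 0 := by
      rw [hn]; exact hm'
    rw [ext2_of (M := Q.P) (N := E.P) _ h]
    rfl
  calc _ = fi (fun m => fi h' t * g' m) t := fi_congr fun m hm' => by
        rw [h5 m hm', mul_comm]
    _ = fi h' t * fi g' t := fi_const_mul_meas hg t _
    _ = _ := mul_comm _ _

/-! ### products over the factors -/

section tp

variable {D : Dom R}

lemma tp_zero {E : Type*} [Mul E] (g : D.P → E) (x : (D.pw 0).P) : tp D g 0 x = g x := rfl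

lemma tp_succ {E : Type*} [Mul E] (g : D.P → E) (j : ℕ) (x : (D.pw (j + 1)).P) :
    tp D g (j + 1) x = tp D g j (FP.fst (M := (D.pw j).P) (N := D.P) x) *
      g (FP.snd (M := (D.pw j).P) (N := D.P) x) := rfl

lemma tc_fst (j : ℕ) (x : (D.pw (j + 1)).P) : tc (FP.fst (M := (D.pw j).P) (N := D.P) x) = tc x :=
  rfl

lemma tc_snd (j : ℕ) (x : (D.pw (j + 1)).P) : tc (FP.snd (M := (D.pw j).P) (N := D.P) x) = tc x :=
  (FP.cond (M := (D.pw j).P) (N := D.P) x).symm

/-- multiplicative maps commute with `tp` -/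
lemma tp_map {E E' : Type*} [Mul E] [Mul E'] {g : D.P → E} {g' : D.P → E'} {φ : E → E'}
    (hφ : ∀ j (x : (D.pw j).P) y, φ (tp D g j x * g y) = φ (tp D g j x) * φ (g y))
    (hg : ∀ x, φ (g x) = g' x) :
    ∀ (j : ℕ) (x : (D.pw j).P), φ (tp D g j x) = tp D g' j x
  | 0, _ => hg _
  | j + 1, x => by
    rw [tp_succ, tp_succ, hφ, tp_map hφ hg j, hg]

lemma tp_mul {E : Type*} [CommMonoid E] (g h : D.P → E) :
    ∀ (j : ℕ) (x : (D.pw j).P), tp D (fun y => g y * h y) j x = tp D g j x * tp D h j x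
  | 0, _ => rfl
  | j + 1, x => by
    rw [tp_succ, tp_succ, tp_succ, tp_mul g h j]
    exact mul_mul_mul_comm _ _ _ _

lemma tp_const {E : Type*} [Monoid E] (c : E) :
    ∀ (j : ℕ) (x : (D.pw j).P), tp D (fun _ => c) j x = c ^ (j + 1)
  | 0, _ => by rw [tp_zero, zero_add, pow_one]
  | j + 1, x => by rw [tp_succ, tp_const c j, pow_succ c (j + 1)]

/-- congruence on a fibre -/
lemma tp_congr {E : Type*} [Mul E] {g g' : D.P → E} {t : ℂ} (h : ∀ x, tc x = t → g x = g' x) :
    ∀ (j : ℕ) (x : (D.pw j).P), tc x = t → tp D g j x = tp D g' j x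
  | 0, x, hx => h x hx
  | j + 1, x, hx => by
    rw [tp_succ, tp_succ, tp_congr h j _ hx, h _ ((tc_snd j x).trans hx)]

lemma tp_nonneg {g : D.P → ℝ} (h : ∀ x, 0 ≤ g x) : ∀ (j : ℕ) (x : (D.pw j).P), 0 ≤ tp D g j x
  | 0, x => h x
  | j + 1, x => mul_nonneg (tp_nonneg h j _) (h _)

lemma tp_measurable {g : D.P → ℝ≥0∞} (hg : Measurable g) : ∀ j : ℕ, Measurable (tp D g j)
  | 0 => hg
  | j + 1 => ((tp_measurable hg j).comp (FP.cont_fst (M := (D.pw j).P) (N := D.P)).measurable).mul
      (hg.comp (FP.cont_snd (M := (D.pw j).P) (N := D.P)).measurable)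

lemma tp_ind {t : ℂ} (g : D.P → ℝ≥0∞) :
    ∀ j : ℕ, {x : (D.pw j).P | tc x = t}.indicator (tp D g j) =
      tp D ({x : D.P | tc x = t}.indicator g) j
  | 0 => rfl
  | j + 1 => by
    funext x
    by_cases hx : tc x = t
    · rw [indicator_of_mem (show x ∈ {x : (D.pw (j + 1)).P | tc x = t} from hx), tp_succ, tp_succ,
        ← tp_ind g j, indicator_of_mem (show FP.fst (M := (D.pw j).P) (N := D.P) x ∈
          {x : (D.pw j).P | tc x = t} from hx),
        indicator_of_mem (show FP.snd (M := (D.pw j).P) (N := D.P) x ∈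
          {x : D.P | tc x = t} from (tc_snd j x).trans hx)]
    · rw [indicator_of_notMem (show x ∉ {x : (D.pw (j + 1)).P | tc x = t} from hx), tp_succ,
        ← tp_ind g j, indicator_of_notMem (show FP.fst (M := (D.pw j).P) (N := D.P) x ∉
          {x : (D.pw j).P | tc x = t} from hx), zero_mul]

/-- Fubini for `tp` -/
lemma fi_tp {t : ℂ} {g : D.P → ℝ≥0∞} (hg : Measurable ({x : D.P | tc x = t}.indicator g)) :
    ∀ j : ℕ, fi (tp D g j) t = fi g t ^ (j + 1)
  | 0 => by rw [zero_add, pow_one]; rfl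
  | j + 1 => by
    have h1 : Measurable ({x : (D.pw j).P | tc x = t}.indicator (tp D g j)) := by
      rw [tp_ind]
      exact tp_measurable hg j
    have h2 := fi_prod (D.pw j) D h1 hg
    rw [fi_tp hg j] at h2
    rw [pow_succ (fi g t) (j + 1)]
    exact h2

lemma upw_eq (U : D.P → ℂ) : ∀ (j : ℕ) (x : (D.pw j).P), D.upw U j x = tp D U j x
  | 0, _ => rfl
  | j + 1, x => by
    rw [tp_succ, ← upw_eq U j]
    rfl

lemma wpw_eq (w : D.P → ℝ≥0∞) : ∀ (j : ℕ) (x : (D.pw j).P), wpw w j x = tp D w j x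
  | 0, _ => rfl
  | j + 1, x => by
    rw [tp_succ, ← wpw_eq w j]
    rfl

lemma wt_eq : ∀ (j : ℕ) (x : (D.pw j).P), (D.pw j).wt x = tp D D.wt j x
  | 0, _ => rfl
  | j + 1, x => by
    rw [tp_succ, ← wt_eq j]
    exact Dom.wt_mul (D.pw j) D x

lemma tp_lpsh {b : D.P → ℝ} (hb : LPsh b) : ∀ j : ℕ, LPsh (tp D b j)
  | 0 => hb
  | j + 1 => by
    have h1 : LPsh (fun x : (D.pw (j + 1)).P => tp D b j (FP.fst (M := (D.pw j).P) (N := D.P) x)) :=
      LPsh.comp_hol (Restr_29.HolMap.of_mor FP.mor_fst) (tp_lpsh hb j)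
    have h2 : LPsh (fun x : (D.pw (j + 1)).P => b (FP.snd (M := (D.pw j).P) (N := D.P) x)) :=
      LPsh.comp_hol (Restr_29.HolMap.of_mor FP.mor_snd) hb
    exact h1.mul h2

lemma fhol_mul {a : ℕ} {M : Type} [TopologicalSpace M] [RDom (a + 1) M] {t : ℂ} {f g : M → ℂ}
    (hf : FHol t f) (hg : FHol t g) : FHol t (fun x => f x * g x) :=
  fun e he => (hf e he).mul (hg e he)

/-- pull back of fibre-holomorphic functions under affine morphisms over the first coordinate -/
lemma fhol_fst {a b : ℕ} {M N : Type} [TopologicalSpace M] [TopologicalSpace N]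
    [RDom (a + 1) M] [RDom (b + 1) N] {t : ℂ} {f : M → ℂ} (hf : FHol t f) :
    FHol t (fun p : FP M N => f p.fst) := by
  intro e he u hu
  have hu' : (Fin.cons t u : Fin (a + b + 1) → ℂ) ∈ e.target := hu
  set p := e.symm (Fin.cons t u) with hp
  have hcp : cp p = (Fin.cons t u : Fin (a + b + 1) → ℂ) := he.cp_symm hu'
  set d := ch p.fst with hd
  have hdch : IsCh d := isCh_ch p.fst
  have hL : ∀ v : Fin (a + b) → ℂ, L1 a b (Fin.cons t v) = Fin.cons t (fun i => v (Fin.castAdd b i)) := by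
    intro v
    funext i
    refine Fin.cases rfl (fun j => ?_) i
    simp
  have hgerm := FP.mor_fst (M := M) (N := N) |>.germ hdch he (e.map_target hu') (mem_ch p.fst)
  rw [hcp] at hgerm
  have hcont : Continuous fun v : Fin (a + b) → ℂ => (Fin.cons t v : Fin (a + b + 1) → ℂ) :=
    (differentiable_cons t).continuous
  have h1 : (fun v : Fin (a + b) → ℂ => f ((e.symm (Fin.cons t v)).fst)) =ᶠ[𝓝 u]
      fun v => f (d.symm (Fin.cons t (fun i => v (Fin.castAdd b i)))) := by
    filter_upwards [hcont.continuousAt.eventually hgerm] with v hv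
    have hv' : (e.symm (Fin.cons t v)).fst = d.symm (0 + L1 a b (Fin.cons t v)) := hv
    rw [zero_add, hL] at hv'
    rw [hv']
  have h2 : (Fin.cons t (fun i => u (Fin.castAdd b i)) : Fin (a + 1) → ℂ) ∈ d.target := by
    rw [← hL, ← hcp]
    have : L1 a b (cp p) = cp p.fst := FP.L1_crd p
    rw [this]
    exact hdch.cp_mem (mem_ch p.fst)
  have hopen : IsOpen {u : Fin a → ℂ | (Fin.cons t u : Fin (a + 1) → ℂ) ∈ d.target} :=
    d.open_target.preimage (differentiable_cons t).continuous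
  have h3 : DifferentiableAt ℂ (fun w : Fin a → ℂ => f (d.symm (Fin.cons t w)))
      (fun i => u (Fin.castAdd b i)) :=
    ((hf d hdch) _ h2).differentiableAt (hopen.mem_nhds h2)
  have h4 : DifferentiableAt ℂ (fun v : Fin (a + b) → ℂ => (fun i => v (Fin.castAdd b i) : Fin a → ℂ))
      u := by fun_prop
  exact ((DifferentiableAt.comp u h3 h4).congr_of_eventuallyEq h1).differentiableWithinAt

lemma fhol_snd {a b : ℕ} {M N : Type} [TopologicalSpace M] [TopologicalSpace N]
    [RDom (a + 1) M] [RDom (b + 1) N] {t : ℂ} {f : N → ℂ} (hf : FHol t f) :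
    FHol t (fun p : FP M N => f p.snd) := by
  intro e he u hu
  have hu' : (Fin.cons t u : Fin (a + b + 1) → ℂ) ∈ e.target := hu
  set p := e.symm (Fin.cons t u) with hp
  have hcp : cp p = (Fin.cons t u : Fin (a + b + 1) → ℂ) := he.cp_symm hu'
  set d := ch p.snd with hd
  have hdch : IsCh d := isCh_ch p.snd
  have hL : ∀ v : Fin (a + b) → ℂ, L2 a b (Fin.cons t v) = Fin.cons t (fun i => v (Fin.natAdd a i)) := by
    intro v
    funext i
    refine Fin.cases rfl (fun j => ?_) i
    simp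
  have hgerm := FP.mor_snd (M := M) (N := N) |>.germ hdch he (e.map_target hu') (mem_ch p.snd)
  rw [hcp] at hgerm
  have hcont : Continuous fun v : Fin (a + b) → ℂ => (Fin.cons t v : Fin (a + b + 1) → ℂ) :=
    (differentiable_cons t).continuous
  have h1 : (fun v : Fin (a + b) → ℂ => f ((e.symm (Fin.cons t v)).snd)) =ᶠ[𝓝 u]
      fun v => f (d.symm (Fin.cons t (fun i => v (Fin.natAdd a i)))) := by
    filter_upwards [hcont.continuousAt.eventually hgerm] with v hv
    have hv' : (e.symm (Fin.cons t v)).snd = d.symm (0 + L2 a b (Fin.cons t v)) := hv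
    rw [zero_add, hL] at hv'
    rw [hv']
  have h2 : (Fin.cons t (fun i => u (Fin.natAdd a i)) : Fin (b + 1) → ℂ) ∈ d.target := by
    rw [← hL, ← hcp]
    have : L2 a b (cp p) = cp p.snd := FP.L2_crd p
    rw [this]
    exact hdch.cp_mem (mem_ch p.snd)
  have hopen : IsOpen {u : Fin b → ℂ | (Fin.cons t u : Fin (b + 1) → ℂ) ∈ d.target} :=
    d.open_target.preimage (differentiable_cons t).continuous
  have h3 : DifferentiableAt ℂ (fun w : Fin b → ℂ => f (d.symm (Fin.cons t w)))
      (fun i => u (Fin.natAdd a i)) :=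
    ((hf d hdch) _ h2).differentiableAt (hopen.mem_nhds h2)
  have h4 : DifferentiableAt ℂ (fun v : Fin (a + b) → ℂ => (fun i => v (Fin.natAdd a i) : Fin b → ℂ))
      u := by fun_prop
  exact ((DifferentiableAt.comp u h3 h4).congr_of_eventuallyEq h1).differentiableWithinAt

/-- `U ⊗ ... ⊗ U` is fibre-holomorphic -/
lemma fhol_upw {t : ℂ} {U : D.P → ℂ} (hU : FHol t U) : ∀ j : ℕ, FHol t (D.upw U j)
  | 0 => hU
  | j + 1 => fhol_mul (M := FP (D.pw j).P D.P) (fhol_fst (M := (D.pw j).P) (N := D.P) (fhol_upw hU j))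
      (fhol_snd (M := (D.pw j).P) (N := D.P) hU)

end tp

end Crest.Agent.R276.NbC_185
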