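import Mathlib
import Crest.Agent.R276.BndB_25
import Crest.Agent.R276.Log_25
import Crest.Agent.R276.NfA_25

/-!
# R276 (helper25): boundary normal form, part B: the twisted single valued section

`σ` holomorphic on `HB c ρ`, `σ (z + τ) = T σ z`, `T ^ e = exp L`, `L` nilpotent commuting with `T`.
`GG z = exp (- z₀ L / 2πi) σ (e z₀, z')` is invariant under `z₀ ↦ z₀ + 2πi`, hence descends to the
punctured polydisc; with moderate growth it is `u^a` times a holomorphic function `f` with `f (0, ·) ≢ 0`.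
-/

set_option autoImplicit false

open Set Filter Topology Metric Matrix MeasureTheory
open scoped ContDiff ComplexOrder

namespace Crest.Agent.R276.NfB_25

open Crest.Agent.R276.NfA_25
open Crest.Agent.R276.Bnd1_25 (exists_div eq_zero_of_ne)
open Crest.Agent.R276.Bnd2_25 (mv mv_apply)
open Crest.Agent.R276.BndB_25 (exp_bound)

variable {d N : ℕ}

/-! ### extension and normalisation -/

theorem ext_bdd {p : Fin (d + 1) → ℂ} {r C : ℝ} {h : (Fin (d + 1) → ℂ) → Fin N → ℂ}
    (hh : DifferentiableOn ℂ h (ball p r ∩ {z | z 0 ≠ 0}))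
    (hC : ∀ z ∈ ball p r, z 0 ≠ 0 → ‖h z‖ ≤ C) :
    ∃ g : (Fin (d + 1) → ℂ) → Fin N → ℂ, DifferentiableOn ℂ g (ball p r) ∧
      ∀ z ∈ ball p r, z 0 ≠ 0 → g z = h z := by
  have key : ∀ i : Fin N, ∃ g : (Fin (d + 1) → ℂ) → ℂ, DifferentiableOn ℂ g (ball p r) ∧
      ∀ z ∈ ball p r, z 0 ≠ 0 → g z = h z i := by
    intro i
    refine Crest.Agent.R271.RExt747.riemann_ext (f := fun z => h z i)
      (D := fun z : Fin (d + 1) → ℂ => z 0) (U := ball p r) isOpen_ball ?_ ?_ ?_ ?_
    · intro z _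
      exact (ContinuousLinearMap.proj (R := ℂ) (φ := fun _ : Fin (d + 1) => ℂ) 0).analyticAt z
    · intro a _ hev
      have h1 : Tendsto (fun t : ℂ => Function.update a 0 (a 0 + t)) (𝓝[≠] 0) (𝓝 a) := by
        have h2 : Continuous (fun t : ℂ => Function.update a 0 (a 0 + t)) :=
          continuous_const.update 0 (by fun_prop)
        have h3 := h2.tendsto 0
        rw [add_zero, Function.update_eq_self] at h3
        exact h3.mono_left nhdsWithin_le_nhds
      have h2 := h1.eventually hev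
      have h3 : ∀ᶠ t in 𝓝[≠] (0 : ℂ), t = - a 0 := by
        filter_upwards [h2] with t ht
        simp only [Function.update_self] at ht
        linear_combination ht
      have h4 : ∀ᶠ t in 𝓝[≠] (0 : ℂ), False := by
        rcases eq_or_ne (a 0) 0 with h | h
        · filter_upwards [h3, self_mem_nhdsWithin] with t ht1 ht2
          rw [h, neg_zero] at ht1
          exact ht2 ht1
        · have h5 : ∀ᶠ t in 𝓝[≠] (0 : ℂ), t ≠ - a 0 :=
            nhdsWithin_le_nhds (isOpen_ne.mem_nhds (by simpa using h))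
          filter_upwards [h3, h5] with t ht1 ht2
          exact ht2 ht1
      exact (h4.exists).elim fun _ h => h
    · exact (differentiableOn_pi.1 hh) i
    · intro a ha
      refine ⟨ball p r, isOpen_ball.mem_nhds ha, ?_⟩
      calc ∫⁻ z in ball p r ∩ {z | z 0 ≠ 0}, ‖h z i‖ₑ ^ 2
          ≤ ∫⁻ z in ball p r ∩ {z | z 0 ≠ 0}, ENNReal.ofReal (C ^ 2) := by
            refine setLIntegral_mono' ?_ ?_
            · refine measurableSet_ball.inter ?_
              have : Measurable (fun z : Fin (d + 1) → ℂ => z 0) := measurable_pi_apply 0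
              exact (this (measurableSet_singleton (0 : ℂ))).compl
            · intro z hz
              have h3 : ‖h z i‖ ≤ C := (norm_le_pi_norm (h z) i).trans (hC z hz.1 hz.2)
              rw [← ofReal_norm, ← ENNReal.ofReal_pow (norm_nonneg _)]
              exact ENNReal.ofReal_le_ofReal (pow_le_pow_left₀ (norm_nonneg _) h3 2)
        _ = ENNReal.ofReal (C ^ 2) * volume (ball p r ∩ {z | z 0 ≠ 0}) := by
            rw [setLIntegral_const]
        _ < ⊤ := by
            refine ENNReal.mul_lt_top ENNReal.ofReal_lt_top ?_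
            exact (measure_mono inter_subset_left).trans_lt measure_ball_lt_top
  choose g hg hg' using key
  exact ⟨fun z i => g i z, differentiableOn_pi.2 hg, fun z hz hz0 => funext fun i => hg' i z hz hz0⟩

/-- vector valued division by `z 0` -/
theorem exists_div_vec {p : Fin (d + 1) → ℂ} (hp : p 0 = 0) {r : ℝ}
    {ψ : (Fin (d + 1) → ℂ) → Fin N → ℂ} (hψ : DifferentiableOn ℂ ψ (ball p r))
    (h0 : ∀ z ∈ ball p r, z 0 = 0 → ψ z = 0) :
    ∃ χ : (Fin (d + 1) → ℂ) → Fin N → ℂ, DifferentiableOn ℂ χ (ball p r) ∧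
      ∀ z ∈ ball p r, ψ z = z 0 • χ z := by
  have key : ∀ i : Fin N, ∃ χ : (Fin (d + 1) → ℂ) → ℂ, DifferentiableOn ℂ χ (ball p r) ∧
      ∀ z ∈ ball p r, ψ z i = z 0 * χ z := fun i =>
    exists_div hp ((differentiableOn_pi.1 hψ) i) (fun z hz hz0 => by rw [h0 z hz hz0]; rfl)
  choose χ hχ hχ' using key
  exact ⟨fun z i => χ i z, differentiableOn_pi.2 hχ, fun z hz => funext fun i => by
    simpa using hχ' i z hz⟩

/-- normalisation: divide by the maximal power of `z 0` -/
theorem exists_normal {p : Fin (d + 1) → ℂ} (hp : p 0 = 0) {r : ℝ} (hr : 0 < r)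
    {F : (Fin (d + 1) → ℂ) → Fin N → ℂ} (hF : DifferentiableOn ℂ F (ball p r))
    (hne : ∀ z ∈ ball p r, z 0 ≠ 0 → F z ≠ 0) :
    ∃ (k : ℕ) (f : (Fin (d + 1) → ℂ) → Fin N → ℂ), DifferentiableOn ℂ f (ball p r) ∧
      (∀ z ∈ ball p r, F z = z 0 ^ k • f z) ∧ ∃ p₁ ∈ ball p r, p₁ 0 = 0 ∧ f p₁ ≠ 0 := by
  classical
  set Q : ℕ → Prop := fun k => ∃ f : (Fin (d + 1) → ℂ) → Fin N → ℂ,
    DifferentiableOn ℂ f (ball p r) ∧ ∀ z ∈ ball p r, F z = z 0 ^ k • f z with hQ
  have hQ0 : Q 0 := ⟨F, hF, fun z _ => by simp⟩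
  have hex : ∃ k, ¬ Q k := by
    by_contra hno
    push Not at hno
    -- the line through `p`
    set ℓ : ℂ → (Fin (d + 1) → ℂ) := fun t => Function.update p 0 t with hℓ
    have hℓc : Differentiable ℂ ℓ := by
      intro t
      refine differentiableAt_pi.2 fun i => ?_
      rcases eq_or_ne i 0 with rfl | hi
      · simp only [hℓ, Function.update_self]; exact differentiableAt_id
      · simp only [hℓ, Function.update_of_ne hi]; exact differentiableAt_const _
    have hmem : ∀ t : ℂ, ‖t‖ < r → ℓ t ∈ ball p r := fun t ht =>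
      Bnd1_25.update_mem hp (mem_ball_self hr) ht
    have hφ : DifferentiableOn ℂ (fun t => F (ℓ t)) (ball 0 r) :=
      hF.comp hℓc.differentiableOn fun t ht => hmem t (by simpa using ht)
    have hA : AnalyticAt ℂ (fun t => F (ℓ t)) 0 :=
      hφ.analyticAt (isOpen_ball.mem_nhds (mem_ball_self hr))
    have hnz : ¬ ∀ᶠ t in 𝓝 (0 : ℂ), F (ℓ t) = 0 := by
      intro hev
      have h1 : ∀ᶠ t in 𝓝[≠] (0 : ℂ), False := by
        filter_upwards [nhdsWithin_le_nhds hev, self_mem_nhdsWithin,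
          nhdsWithin_le_nhds (ball_mem_nhds (0 : ℂ) hr)] with t ht1 ht2 ht3
        refine hne (ℓ t) (hmem t (by simpa using ht3)) ?_ ht1
        simpa [hℓ] using ht2
      exact (h1.exists).elim fun _ h => h
    obtain ⟨k, g, hg, hg0, hgev⟩ := hA.exists_eventuallyEq_pow_smul_nonzero_iff.2 hnz
    obtain ⟨f, hf, hfF⟩ := hno (k + 1)
    have h1 : ∀ᶠ t in 𝓝[≠] (0 : ℂ), g t = t • f (ℓ t) := by
      filter_upwards [nhdsWithin_le_nhds hgev, self_mem_nhdsWithin,
        nhdsWithin_le_nhds (ball_mem_nhds (0 : ℂ) hr)] with t ht1 ht2 ht3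
      have h2 := hfF (ℓ t) (hmem t (by simpa using ht3))
      rw [ht1, sub_zero] at h2
      have h3 : (ℓ t) 0 = t := by simp [hℓ]
      rw [h3, pow_succ, mul_smul] at h2
      exact smul_right_injective _ (pow_ne_zero k ht2) h2
    have h2 : Tendsto g (𝓝[≠] 0) (𝓝 (g 0)) := hg.continuousAt.tendsto.mono_left nhdsWithin_le_nhds
    have h3 : Tendsto (fun t : ℂ => t • f (ℓ t)) (𝓝[≠] 0) (𝓝 ((0 : ℂ) • f (ℓ 0))) := by
      have h4 : ContinuousAt (fun t => f (ℓ t)) 0 := by
        have h5 : ContinuousAt f (ℓ 0) :=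
          (hf.differentiableAt (isOpen_ball.mem_nhds (hmem 0 (by simpa using hr)))).continuousAt
        exact ContinuousAt.comp (g := f) h5 hℓc.continuous.continuousAt
      exact (tendsto_id.mono_left nhdsWithin_le_nhds).smul
        (h4.tendsto.mono_left nhdsWithin_le_nhds)
    have h4 : g 0 = (0 : ℂ) • f (ℓ 0) :=
      tendsto_nhds_unique h2 (h3.congr' (h1.mono fun t ht => ht.symm))
    exact hg0 (by rw [h4, zero_smul])
  have hfind := Nat.find_spec hex
  have hpos : Nat.find hex ≠ 0 := by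
    intro h0
    rw [h0] at hfind
    exact hfind hQ0
  obtain ⟨k, hk⟩ := Nat.exists_eq_succ_of_ne_zero hpos
  have hQk : Q k := by
    by_contra hno
    have := Nat.find_min' hex hno
    omega
  obtain ⟨f, hf, hfF⟩ := hQk
  refine ⟨k, f, hf, hfF, ?_⟩
  by_contra hno
  push Not at hno
  obtain ⟨χ, hχ, hχf⟩ := exists_div_vec hp hf hno
  apply hfind
  rw [hk]
  refine ⟨χ, hχ, fun z hz => ?_⟩
  rw [hfF z hz, hχf z hz, smul_smul, pow_succ]

/-! ### the twist -/

/-- the twisted section on the half plane -/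
noncomputable def GG (e : ℕ) (L : Matrix (Fin N) (Fin N) ℂ) (σ : (Fin (d + 1) → ℂ) → Fin N → ℂ)
    (z : Fin (d + 1) → ℂ) : Fin N → ℂ :=
  IsNilpotent.exp ((-(z 0) / (2 * Real.pi * Complex.I)) • L) *ᵥ
    σ (Fin.cons ((e : ℂ) * z 0) (Fin.tail z))

/-- data of the twist -/
structure Tw (n e : ℕ) (T L : Matrix (Fin N) (Fin N) ℂ) (σ : (Fin (d + 1) → ℂ) → Fin N → ℂ)
    (c : Fin d → ℂ) (ρ : ℝ) : Prop where
  he : 0 < e
  hol : DifferentiableOn ℂ σ (HB c ρ)
  nil : L ^ n = 0
  exp : IsNilpotent.exp L = T ^ e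
  comm : Commute T L
  eqv : ∀ z ∈ HB c ρ, σ (z + tau d) = T *ᵥ σ z

section tw

variable {n e : ℕ} {T L : Matrix (Fin N) (Fin N) ℂ} {σ : (Fin (d + 1) → ℂ) → Fin N → ℂ}
  {c : Fin d → ℂ} {ρ : ℝ}

theorem sc_mem (he : 0 < e) {z : Fin (d + 1) → ℂ} (hz : z ∈ HB c ρ) :
    (Fin.cons ((e : ℂ) * z 0) (Fin.tail z) : Fin (d + 1) → ℂ) ∈ HB c ρ := by
  refine cons_mem (fun j => hz.2 j) ?_
  have h1 : ((e : ℂ) * z 0).re = e * (z 0).re := by simp
  rw [h1]
  have h2 : (0 : ℝ) < e := by exact_mod_cast he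
  exact mul_neg_of_pos_of_neg h2 hz.1

theorem add_nat_tau_mem {z : Fin (d + 1) → ℂ} (hz : z ∈ HB c ρ) (k : ℕ) :
    z + (k : ℂ) • tau d ∈ HB c ρ := by
  refine ⟨?_, fun j => ?_⟩
  · have h1 : ((z + (k : ℂ) • tau d) 0).re = (z 0).re := by simp [tau]
    rw [h1]; exact hz.1
  · have h1 : (z + (k : ℂ) • tau d) j.succ = z j.succ := by simp [tau]
    rw [h1]; exact hz.2 j

theorem Tw.eqv_nat (h : Tw n e T L σ c ρ) {z : Fin (d + 1) → ℂ} (hz : z ∈ HB c ρ) (k : ℕ) :
    σ (z + (k : ℂ) • tau d) = T ^ k *ᵥ σ z := by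
  induction k with
  | zero => simp
  | succ k ih =>
    have h1 : z + ((k + 1 : ℕ) : ℂ) • tau d = (z + (k : ℂ) • tau d) + tau d := by
      push_cast
      rw [add_smul, one_smul, add_assoc]
    rw [h1, h.eqv _ (add_nat_tau_mem hz k), ih, mulVec_mulVec, pow_succ']

theorem Tw.nil' (h : Tw n e T L σ c ρ) (a : ℂ) : (a • L) ^ n = 0 := by
  rw [smul_pow, h.nil, smul_zero]

theorem Tw.exp_add (h : Tw n e T L σ c ρ) (a b : ℂ) :
    IsNilpotent.exp ((a + b) • L) = IsNilpotent.exp (a • L) * IsNilpotent.exp (b • L) := by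
  rw [add_smul]
  exact IsNilpotent.exp_add_of_commute (((Commute.refl L).smul_left a).smul_right b)
    ⟨n, h.nil' a⟩ ⟨n, h.nil' b⟩

theorem Tw.GG_tau (h : Tw n e T L σ c ρ) {z : Fin (d + 1) → ℂ} (hz : z ∈ HB c ρ) :
    GG e L σ (z + tau d) = GG e L σ z := by
  have hpi : (Real.pi : ℂ) ≠ 0 := by exact_mod_cast Real.pi_ne_zero
  unfold GG
  have h1 : (Fin.cons ((e : ℂ) * (z + tau d) 0) (Fin.tail (z + tau d)) : Fin (d + 1) → ℂ) =
      Fin.cons ((e : ℂ) * z 0) (Fin.tail z) + (e : ℂ) • tau d := by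
    funext i
    refine Fin.cases ?_ (fun j => ?_) i
    · simp [tau, mul_add]
    · simp [tau, Fin.tail]
  rw [h1, h.eqv_nat (sc_mem h.he hz) e, add_tau_zero, ← h.exp, mulVec_mulVec]
  have h2 : (-(z 0 + 2 * Real.pi * Complex.I) / (2 * Real.pi * Complex.I)) =
      (-(z 0) / (2 * Real.pi * Complex.I)) + (-1) := by
    field_simp
    ring
  have h3 : IsNilpotent.exp L = IsNilpotent.exp ((1 : ℂ) • L) := by rw [one_smul]
  rw [h2, h3, ← h.exp_add]
  congr 3
  ring

theorem Tw.GG_nat (h : Tw n e T L σ c ρ) {z : Fin (d + 1) → ℂ} (hz : z ∈ HB c ρ) (k : ℕ) :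
    GG e L σ (z + (k : ℂ) • tau d) = GG e L σ z := by
  induction k with
  | zero => simp
  | succ k ih =>
    have h1 : z + ((k + 1 : ℕ) : ℂ) • tau d = (z + (k : ℂ) • tau d) + tau d := by
      push_cast
      rw [add_smul, one_smul, add_assoc]
    rw [h1, h.GG_tau (add_nat_tau_mem hz k), ih]

/-- independence of the logarithm -/
theorem Tw.GG_indep (h : Tw n e T L σ c ρ) {y : Fin d → ℂ} (hy : ∀ j, ‖y j - c j‖ < ρ) {a b : ℂ}
    (ha : a.re < 0) (hab : Complex.exp a = Complex.exp b) :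
    GG e L σ (Fin.cons a y) = GG e L σ (Fin.cons b y) := by
  obtain ⟨k, hk⟩ := Complex.exp_eq_exp_iff_exists_int.1 hab
  have hb : b.re < 0 := by
    have h1 : a.re = b.re := by
      rw [hk]; simp
    rw [← h1]; exact ha
  have key : ∀ (a b : ℂ), a.re < 0 → b.re < 0 → ∀ k : ℕ, a = b + k * (2 * Real.pi * Complex.I) →
      GG e L σ (Fin.cons a y) = GG e L σ (Fin.cons b y) := by
    intro a b _ hb k hk
    have h1 : (Fin.cons a y : Fin (d + 1) → ℂ) = Fin.cons b y + (k : ℂ) • tau d := by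
      funext i
      refine Fin.cases ?_ (fun j => ?_) i
      · simp [tau, hk]
      · simp [tau]
    rw [h1]
    exact h.GG_nat (cons_mem hy hb) k
  rcases Int.eq_nat_or_neg k with ⟨m, rfl | rfl⟩
  · exact key a b ha hb m (by rw [hk]; push_cast; ring)
  · exact (key b a hb ha m (by rw [hk]; push_cast; ring)).symm

theorem exp_diff {L : Matrix (Fin N) (Fin N) ℂ} (hL : L ^ n = 0) {E : Type*} [NormedAddCommGroup E]
    [NormedSpace ℂ E] {g : E → ℂ} {u : E → Fin N → ℂ} {s : Set E} (hg : DifferentiableOn ℂ g s)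
    (hu : DifferentiableOn ℂ u s) :
    DifferentiableOn ℂ (fun x => IsNilpotent.exp (g x • L) *ᵥ u x) s := by
  have h1 : (fun x => IsNilpotent.exp (g x • L) *ᵥ u x) = fun x => ∑ j ∈ Finset.range n,
      (((j.factorial : ℝ)⁻¹ : ℝ) : ℂ) • (g x ^ j • (L ^ j *ᵥ u x)) := by
    funext x
    have hcL : (g x • L) ^ n = 0 := by rw [smul_pow, hL, smul_zero]
    rw [IsNilpotent.exp_eq_sum hcL, sum_mulVec]
    refine Finset.sum_congr rfl fun j _ => ?_
    have h1 : ∀ (q : ℚ) (M : Matrix (Fin N) (Fin N) ℂ), q • M = ((q : ℝ) : ℂ) • M := by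
      intro q M
      ext i k
      simp [Rat.smul_def]
    rw [h1, smul_pow, smul_mulVec, smul_mulVec]
    push_cast
    rfl
  rw [h1]
  refine DifferentiableOn.fun_sum fun j _ => ?_
  have h2 : DifferentiableOn ℂ (fun x => g x ^ j • (L ^ j *ᵥ u x)) s :=
    (hg.pow j).smul ((mv (L ^ j)).differentiable.comp_differentiableOn hu)
  have h3 := DifferentiableOn.const_smul h2 ((((j.factorial : ℝ)⁻¹ : ℝ)) : ℂ)
  exact h3

theorem Tw.GG_diff (h : Tw n e T L σ c ρ) : DifferentiableOn ℂ (GG e L σ) (HB c ρ) := by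
  unfold GG
  refine exp_diff h.nil ?_ ?_
  · have h1 : Differentiable ℂ (fun z : Fin (d + 1) → ℂ => -(z 0) / (2 * Real.pi * Complex.I)) := by
      intro z
      have h2 : DifferentiableAt ℂ (fun z : Fin (d + 1) → ℂ => z 0) z := differentiableAt_apply 0 z
      simp only [div_eq_mul_inv]
      exact h2.neg.mul_const _
    exact h1.differentiableOn
  · refine h.hol.comp ?_ fun z hz => sc_mem h.he hz
    have h1 : Differentiable ℂ (fun z : Fin (d + 1) → ℂ =>
        (Fin.cons ((e : ℂ) * z 0) (Fin.tail z) : Fin (d + 1) → ℂ)) := by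
      intro z
      refine differentiableAt_pi.2 fun i => ?_
      refine Fin.cases ?_ (fun j => ?_) i
      · simp only [Fin.cons_zero]
        exact (differentiableAt_apply 0 z).const_mul _
      · simp only [Fin.cons_succ]
        exact differentiableAt_apply (j.succ) z
    exact h1.differentiableOn

/-- the single valued function on the punctured polydisc -/
noncomputable def f0 (e : ℕ) (L : Matrix (Fin N) (Fin N) ℂ) (σ : (Fin (d + 1) → ℂ) → Fin N → ℂ)
    (z : Fin (d + 1) → ℂ) : Fin N → ℂ := GG e L σ (Fin.cons (Complex.log (z 0)) (Fin.tail z))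

theorem Tw.f0_eq (h : Tw n e T L σ c ρ) {z : Fin (d + 1) → ℂ} (hz0 : z 0 ≠ 0) (hz1 : ‖z 0‖ < 1)
    (hy : ∀ j : Fin d, ‖z j.succ - c j‖ < ρ) {b : ℂ} (hb : Complex.exp b = z 0) :
    f0 e L σ z = GG e L σ (Fin.cons b (Fin.tail z)) := by
  refine h.GG_indep (fun j => hy j) ?_ (by rw [Complex.exp_log hz0, hb])
  rw [Complex.log_re]
  exact Real.log_neg (norm_pos_iff.2 hz0) hz1

theorem Tw.f0_diff (h : Tw n e T L σ c ρ) {p : Fin (d + 1) → ℂ} {r : ℝ} (hp : p = Fin.cons 0 c)
    (hr1 : r ≤ 1) (hrρ : r ≤ ρ) :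
    DifferentiableOn ℂ (f0 e L σ) (ball p r ∩ {z | z 0 ≠ 0}) := by
  have hcoord : ∀ z ∈ ball p r, ‖z 0‖ < 1 ∧ ∀ j : Fin d, ‖z j.succ - c j‖ < ρ := by
    intro z hz
    rw [mem_ball] at hz
    refine ⟨?_, fun j => ?_⟩
    · have h1 := (dist_le_pi_dist z p 0).trans_lt hz
      rw [hp, Fin.cons_zero, dist_zero_right] at h1
      linarith
    · have h1 := (dist_le_pi_dist z p j.succ).trans_lt hz
      rw [hp, Fin.cons_succ, dist_eq_norm] at h1
      linarith
  rintro z ⟨hz, hz0⟩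
  have hz0' : z 0 ≠ 0 := hz0
  obtain ⟨hz1, hzy⟩ := hcoord z hz
  -- local branch of the logarithm
  set lb : (Fin (d + 1) → ℂ) → ℂ := fun w => Complex.log (w 0 / z 0) + Complex.log (z 0) with hlb
  have hlbexp : ∀ w : Fin (d + 1) → ℂ, w 0 ≠ 0 → Complex.exp (lb w) = w 0 := by
    intro w hw
    simp only [hlb]
    rw [Complex.exp_add, Complex.exp_log (div_ne_zero hw hz0'), Complex.exp_log hz0',
      div_mul_cancel₀ _ hz0']
  have hslit : z 0 / z 0 ∈ Complex.slitPlane := by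
    rw [div_self hz0']; exact Complex.one_mem_slitPlane
  have hlbd : DifferentiableAt ℂ lb z := by
    have h1 : DifferentiableAt ℂ (fun w : Fin (d + 1) → ℂ => w 0 / z 0) z := by
      have h2 : DifferentiableAt ℂ (fun w : Fin (d + 1) → ℂ => w 0) z := differentiableAt_apply 0 z
      simp only [div_eq_mul_inv]
      exact h2.mul_const _
    exact (h1.clog hslit).add_const _
  have hmap : DifferentiableAt ℂ (fun w : Fin (d + 1) → ℂ =>
      (Fin.cons (lb w) (Fin.tail w) : Fin (d + 1) → ℂ)) z := by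
    refine differentiableAt_pi.2 fun i => ?_
    refine Fin.cases ?_ (fun j => ?_) i
    · simp only [Fin.cons_zero]; exact hlbd
    · simp only [Fin.cons_succ]; exact differentiableAt_apply (j.succ) z
  have hzHB : (Fin.cons (lb z) (Fin.tail z) : Fin (d + 1) → ℂ) ∈ HB c ρ := by
    refine cons_mem hzy ?_
    simp only [hlb]
    rw [div_self hz0', Complex.log_one, zero_add, Complex.log_re]
    exact Real.log_neg (norm_pos_iff.2 hz0') hz1
  have hG : DifferentiableAt ℂ (fun w => GG e L σ (Fin.cons (lb w) (Fin.tail w))) z :=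
    DifferentiableAt.comp (g := GG e L σ) z
      (h.GG_diff.differentiableAt ((isOpen_HB c ρ).mem_nhds hzHB)) hmap
  have hev : f0 e L σ =ᶠ[𝓝 z] fun w => GG e L σ (Fin.cons (lb w) (Fin.tail w)) := by
    have h1 : ∀ᶠ w in 𝓝 z, w ∈ ball p r := isOpen_ball.mem_nhds hz
    have h2 : ∀ᶠ w : Fin (d + 1) → ℂ in 𝓝 z, w 0 ≠ 0 :=
      (continuous_apply 0).continuousAt.eventually_ne hz0'
    filter_upwards [h1, h2] with w hw1 hw2
    obtain ⟨hw3, hw4⟩ := hcoord w hw1
    exact h.f0_eq hw2 hw3 hw4 (hlbexp w hw2)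
  exact (hG.congr_of_eventuallyEq hev).differentiableWithinAt

end tw

end Crest.Agent.R276.NfB_25
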