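import Mathlib
import Crest.Agent.R276.NfB_25

/-!
# R276 (helper25): boundary normal form, part C: from a 442-VHS on the half plane to `BD`, `MG`, `RK`
-/

set_option autoImplicit false

open Set Filter Topology Metric Matrix MeasureTheory
open scoped ContDiff ComplexOrder

namespace Crest.Agent.R276.NfC_25

open Crest.Agent.R276.VCalc_442 (VHS Bot bn dW dB hn gden cx th thb grOp hm)
open Crest.Agent.R276.NfA_25 Crest.Agent.R276.NfB_25 Crest.Agent.R276.Log_25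
open Crest.Agent.R276.Bnd1_25 (pd)
open Crest.Agent.R276.Bnd2_25 (mv mv_apply sf)
open Crest.Agent.R276.BndA_25 (HS cf BD MG Dv IsOrd lev sf_exp)
open Crest.Agent.R276.BndB_25 (exp_bound RK mg_of_exp)

variable {d N : ℕ}

/-! ### derivative of the exponential -/

theorem exp_eq' {n : ℕ} {L : Matrix (Fin N) (Fin N) ℂ} (hL : L ^ n = 0) (t : ℂ) (u : Fin N → ℂ) :
    IsNilpotent.exp (t • L) *ᵥ u = ∑ j ∈ Finset.range n,
      ((j.factorial : ℂ)⁻¹ * t ^ j) • (L ^ j *ᵥ u) := by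
  have hcL : (t • L) ^ n = 0 := by rw [smul_pow, hL, smul_zero]
  rw [IsNilpotent.exp_eq_sum hcL, sum_mulVec]
  refine Finset.sum_congr rfl fun j _ => ?_
  have h1 : ∀ (q : ℚ) (M : Matrix (Fin N) (Fin N) ℂ), q • M = ((q : ℝ) : ℂ) • M := by
    intro q M
    ext i k
    simp [Rat.smul_def]
  rw [h1, smul_pow, smul_mulVec, smul_mulVec, smul_smul]
  push_cast
  rfl

theorem hasDerivAt_exp {n : ℕ} {L : Matrix (Fin N) (Fin N) ℂ} (hL : L ^ n = 0) {g : ℂ → ℂ}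
    {u : ℂ → Fin N → ℂ} {g' : ℂ} {u' : Fin N → ℂ} {t : ℂ} (hg : HasDerivAt g g' t)
    (hu : HasDerivAt u u' t) :
    HasDerivAt (fun x => IsNilpotent.exp (g x • L) *ᵥ u x)
      (g' • (L *ᵥ (IsNilpotent.exp (g t • L) *ᵥ u t)) + IsNilpotent.exp (g t • L) *ᵥ u') t := by
  have hL' : L ^ (n + 1) = 0 := by rw [pow_succ, hL, zero_mul]
  have h1 : (fun x => IsNilpotent.exp (g x • L) *ᵥ u x) = fun x => ∑ j ∈ Finset.range (n + 1),
      ((j.factorial : ℂ)⁻¹ * g x ^ j) • (L ^ j *ᵥ u x) := by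
    funext x; exact exp_eq' hL' _ _
  have h2 : ∀ j : ℕ, HasDerivAt (fun x => ((j.factorial : ℂ)⁻¹ * g x ^ j) • (L ^ j *ᵥ u x))
      (((j.factorial : ℂ)⁻¹ * g t ^ j) • (L ^ j *ᵥ u') +
        ((j.factorial : ℂ)⁻¹ * ((j : ℂ) * g t ^ (j - 1) * g')) • (L ^ j *ᵥ u t)) t := by
    intro j
    have h3 : HasDerivAt (fun x => L ^ j *ᵥ u x) (L ^ j *ᵥ u') t := (mv (L ^ j)).hasFDerivAt.comp_hasDerivAt t hu
    have h4 := (hg.pow j).const_mul ((j.factorial : ℂ)⁻¹)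
    exact h4.smul h3
  rw [h1]
  refine (HasDerivAt.fun_sum fun j _ => h2 j).congr_deriv ?_
  rw [Finset.sum_add_distrib, add_comm, exp_eq' hL' (g t) u']
  congr 1
  rw [exp_eq' hL (g t) (u t), Finset.sum_range_succ', mulVec_sum, Finset.smul_sum]
  simp only [Nat.cast_zero, zero_mul, mul_zero, zero_smul, add_zero]
  refine Finset.sum_congr rfl fun j _ => ?_
  rw [mulVec_smul, mulVec_mulVec, ← pow_succ', smul_smul, Nat.add_sub_cancel]
  congr 1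
  rw [Nat.factorial_succ]
  have h5 : ((j + 1 : ℕ) : ℂ) ≠ 0 := by exact_mod_cast Nat.succ_ne_zero j
  have h6 : ((j.factorial : ℕ) : ℂ) ≠ 0 := by exact_mod_cast Nat.factorial_ne_zero j
  push_cast at h5 ⊢
  field_simp

/-- boundary data in Hodge theoretic form: a polarised VHS on `HB c ρ` with deck transformation `T` and an
equivariant holomorphic section `σ` of the bottom (= top) piece -/
structure BV (w ν : ℕ) (S T : Matrix (Fin N) (Fin N) ℂ)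
    (P : ℕ → (Fin (d + 1) → ℂ) → Matrix (Fin N) (Fin N) ℂ) (σ : (Fin (d + 1) → ℂ) → Fin N → ℂ)
    (c : Fin d → ℂ) (ρ : ℝ) : Prop where
  hρ : 0 < ρ
  vhs : VHS w (HB c ρ) S P
  TS : Tᴴ * S * T = S
  per : ∀ z ∈ HB c ρ, ∀ p, P p (z + tau d) * T = T * P p z
  int : ∃ A : Matrix (Fin N) (Fin N) ℤ, T = A.map (Int.castRingHom ℂ)
  bot : Bot w (HB c ρ) P σ
  ne : ∀ z ∈ HB c ρ, σ z ≠ 0
  eqv : ∀ z ∈ HB c ρ, σ (z + tau d) = T *ᵥ σ z
  line : ∀ z ∈ HB c ρ, ∀ v, ∃ l : ℂ, P w z *ᵥ dW σ v z = l • σ z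
  rk : ∀ z ∈ HB c ρ, Module.finrank ℂ (Submodule.span ℂ
    (insert (σ z) (range fun i : Fin (d + 1) => fderiv ℂ σ z (Pi.single i 1)))) ≤ ν + 1
  gr : ∃ C M : ℝ, ∀ z ∈ HB c ρ, (z 0).re ≤ -1 → bn w S σ z ≤ C * Real.exp (- M * (z 0).re)

section BV

variable {w ν : ℕ} {S T : Matrix (Fin N) (Fin N) ℂ}
  {P : ℕ → (Fin (d + 1) → ℂ) → Matrix (Fin N) (Fin N) ℂ} {σ : (Fin (d + 1) → ℂ) → Fin N → ℂ}
  {c : Fin d → ℂ} {ρ : ℝ}

/-- the logarithm of the monodromy -/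
theorem BV.exists_tw (h : BV w ν S T P σ c ρ) : ∃ (n e : ℕ) (L : Matrix (Fin N) (Fin N) ℂ),
    Tw n e T L σ c ρ ∧ Lᴴ * S = - (S * L) := by
  obtain ⟨A, hA⟩ := h.int
  obtain ⟨e, he, n, hn⟩ := quasi_unip h.vhs h.hρ h.TS h.per A hA
  refine ⟨n, e, lg n (T ^ e - 1), ⟨he, h.bot.hol, lg_pow hn, ?_, ?_, h.eqv⟩, ?_⟩
  · rw [exp_lg hn]; abel
  · exact commute_lg (((Commute.refl T).pow_right e).sub_right (Commute.one_right _)) n
  · refine lg_skew hn ?_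
    have key : ∀ k : ℕ, (T ^ k)ᴴ * S * T ^ k = S := by
      intro k
      induction k with
      | zero => simp
      | succ k ih =>
        calc (T ^ (k + 1))ᴴ * S * T ^ (k + 1) = (T ^ k)ᴴ * (Tᴴ * S * T) * T ^ k := by
              rw [pow_succ' T k, conjTranspose_mul]
              simp only [Matrix.mul_assoc]
          _ = S := by rw [h.TS, ih]
    exact key e

/-- growth of the section -/
theorem BV.growth (h : BV w ν S T P σ c ρ) (M₀ : ℝ) : ∃ (C : ℝ) (m : ℕ), 0 < C ∧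
    ∀ z : Fin (d + 1) → ℂ, (z 0).re ≤ -1 → |(z 0).im| ≤ M₀ → (∀ j : Fin d, ‖z j.succ - c j‖ ≤ ρ / 2) →
      ‖σ z‖ ^ 2 ≤ C * (- (z 0).re) ^ m * bn w S σ z := by
  obtain ⟨C, m, hC, hg⟩ := hn_growth h.vhs (ρ' := ρ / 2) (by linarith [h.hρ]) M₀
  refine ⟨C, m, hC, fun z h1 h2 h3 => ?_⟩
  have hz : z ∈ HB c ρ := ⟨by linarith, fun j => (h3 j).trans_lt (by linarith [h.hρ])⟩
  have h4 := (hg z h1 h2 h3 (σ z)).2
  rw [h.vhs.bn_eq h.bot hz]
  exact h4

/-- the twisted section has a pole along the divisor -/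
theorem BV.f0_bound (h : BV w ν S T P σ c ρ) {n e : ℕ} {L : Matrix (Fin N) (Fin N) ℂ}
    (ht : Tw n e T L σ c ρ) {p : Fin (d + 1) → ℂ} {r : ℝ} (hp : p = Fin.cons 0 c)
    (hr1 : r ≤ Real.exp (-1)) (hrρ : r ≤ ρ / 2) :
    ∃ (M' : ℕ) (K : ℝ), ∀ z ∈ ball p r, z 0 ≠ 0 → ‖z 0‖ ^ M' * ‖f0 e L σ z‖ ≤ K := by
  obtain ⟨C₁, m, hC₁, hg⟩ := h.growth (Real.pi * e)
  obtain ⟨C₂', M₂, hg2'⟩ := h.gr
  obtain ⟨D, hD0, hD⟩ := exp_bound ht.nil
  set C₂ : ℝ := max C₂' 0 with hC₂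
  have hC₂0 : 0 ≤ C₂ := le_max_right _ _
  set M : ℝ := max M₂ 0 with hM
  have hM0 : 0 ≤ M := le_max_right _ _
  have hg2 : ∀ z ∈ HB c ρ, (z 0).re ≤ -1 → bn w S σ z ≤ C₂ * Real.exp (- M * (z 0).re) := by
    intro z hz hz1
    refine (hg2' z hz hz1).trans ?_
    have h1 : C₂' * Real.exp (- M₂ * (z 0).re) ≤ C₂ * Real.exp (- M₂ * (z 0).re) :=
      mul_le_mul_of_nonneg_right (le_max_left _ _) (Real.exp_pos _).le
    refine h1.trans (mul_le_mul_of_nonneg_left (Real.exp_le_exp.2 ?_) hC₂0)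
    have : M₂ ≤ M := le_max_left _ _
    nlinarith
  have he1 : (1 : ℝ) ≤ e := by exact_mod_cast ht.he
  set q : ℕ := 2 * n + m with hq
  set K₀ : ℝ := D ^ 2 * 2 ^ (2 * n) * (C₁ * (e : ℝ) ^ m * C₂) * q.factorial with hK₀
  have hK₀0 : 0 ≤ K₀ := by positivity
  set M' : ℕ := ⌈M * e + 1⌉₊ with hM'
  refine ⟨M', Real.sqrt K₀, ?_⟩
  intro z hz hz0
  have hcoord : ‖z 0‖ < r ∧ ∀ j : Fin d, ‖z j.succ - c j‖ < r := by
    rw [mem_ball] at hz
    refine ⟨?_, fun j => ?_⟩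
    · have h1 := (dist_le_pi_dist z p 0).trans_lt hz
      rwa [hp, Fin.cons_zero, dist_zero_right] at h1
    · have h1 := (dist_le_pi_dist z p j.succ).trans_lt hz
      rwa [hp, Fin.cons_succ, dist_eq_norm] at h1
  obtain ⟨hz1, hzy⟩ := hcoord
  have hnpos : 0 < ‖z 0‖ := norm_pos_iff.2 hz0
  set b : ℂ := Complex.log (z 0) with hb
  set s : ℝ := - b.re with hs
  have hbre : b.re = Real.log ‖z 0‖ := Complex.log_re _
  have hs1 : 1 ≤ s := by
    have h1 : Real.log ‖z 0‖ ≤ -1 := by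
      have h2 := Real.log_le_log hnpos (hz1.le.trans hr1)
      rwa [Real.log_exp] at h2
    rw [hs, hbre]; linarith
  have hns : ‖z 0‖ = Real.exp (-s) := by
    rw [hs, neg_neg, hbre, Real.exp_log hnpos]
  have hbim : |b.im| ≤ Real.pi := by rw [hb, Complex.log_im]; exact Complex.abs_arg_le_pi _
  -- the point over z
  set z' : Fin (d + 1) → ℂ := Fin.cons ((e : ℂ) * b) (Fin.tail z) with hz'
  have hz'0 : (z' 0) = (e : ℂ) * b := by rw [hz', Fin.cons_zero]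
  have hz're : (z' 0).re = - (e * s) := by rw [hz'0, hs]; simp
  have hz'im : |(z' 0).im| ≤ Real.pi * e := by
    rw [hz'0]
    have : ((e : ℂ) * b).im = e * b.im := by simp
    rw [this, abs_mul, Nat.abs_cast, mul_comm]
    gcongr
  have hz'y : ∀ j : Fin d, ‖z' j.succ - c j‖ ≤ ρ / 2 := by
    intro j
    rw [hz', Fin.cons_succ]
    exact (hzy j).le.trans hrρ
  have hes : 1 ≤ e * s := by nlinarith
  have hz'm : z' ∈ HB c ρ := ⟨by rw [hz're]; linarith, fun j => (hz'y j).trans_lt (by linarith [h.hρ])⟩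
  have hσ := hg z' (by rw [hz're]; linarith) hz'im hz'y
  have hbn := hg2 z' hz'm (by rw [hz're]; linarith)
  rw [hz're, neg_neg] at hσ
  rw [hz're] at hbn
  have hσ2 : ‖σ z'‖ ^ 2 ≤ C₁ * (e * s) ^ m * (C₂ * Real.exp (M * (e * s))) := by
    refine hσ.trans ?_
    have h1 : - M * -(e * s) = M * (e * s) := by ring
    rw [h1] at hbn
    gcongr
  -- the exponential factor
  set a : ℂ := -b / (2 * Real.pi * Complex.I) with ha
  have hna : 1 + ‖a‖ ≤ 2 * s := by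
    have h1 : ‖a‖ = ‖b‖ / (2 * Real.pi) := by
      rw [ha, norm_div, norm_neg]
      congr 1
      simp [abs_of_pos Real.pi_pos]
    have h2 : ‖b‖ ≤ s + Real.pi := by
      refine (Complex.norm_le_abs_re_add_abs_im b).trans ?_
      have h3 : |b.re| = s := by
        rw [hs, abs_of_nonpos (by linarith)]
      rw [h3]; linarith
    have hpi := Real.pi_gt_three
    rw [h1]
    have h3 : ‖b‖ / (2 * Real.pi) ≤ (s + Real.pi) / (2 * Real.pi) := by gcongr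
    have h4 : (s + Real.pi) / (2 * Real.pi) ≤ s / 6 + 1 / 2 := by
      rw [div_le_iff₀ (by positivity)]
      nlinarith
    linarith
  have hf0 : f0 e L σ z = IsNilpotent.exp (a • L) *ᵥ σ z' := by
    unfold f0 GG
    simp only [Fin.cons_zero, Fin.tail_cons]
    rfl
  have h1 := hD a (σ z')
  rw [← hf0] at h1
  have h2 : ‖f0 e L σ z‖ ≤ D * (2 * s) ^ n * ‖σ z'‖ :=
    h1.trans (by gcongr)
  have h3 : ‖f0 e L σ z‖ ^ 2 ≤ D ^ 2 * (2 * s) ^ (2 * n) * (C₁ * (e * s) ^ m * (C₂ * Real.exp (M * (e * s)))) := by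
    calc ‖f0 e L σ z‖ ^ 2 ≤ (D * (2 * s) ^ n * ‖σ z'‖) ^ 2 := by gcongr
      _ = D ^ 2 * (2 * s) ^ (2 * n) * ‖σ z'‖ ^ 2 := by ring
      _ ≤ _ := mul_le_mul_of_nonneg_left hσ2 (by positivity)
  have h4 : D ^ 2 * (2 * s) ^ (2 * n) * (C₁ * (e * s) ^ m * (C₂ * Real.exp (M * (e * s)))) =
      D ^ 2 * 2 ^ (2 * n) * (C₁ * (e : ℝ) ^ m * C₂) * s ^ q * Real.exp (M * e * s) := by
    rw [hq, pow_add, mul_pow, mul_pow, mul_assoc M]
    ring
  have h5 : s ^ q ≤ q.factorial * Real.exp s := by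
    have h6 := Real.pow_div_factorial_le_exp s (by linarith) q
    rwa [div_le_iff₀ (by positivity), mul_comm] at h6
  have h6 : ‖f0 e L σ z‖ ^ 2 ≤ K₀ * Real.exp ((M * e + 1) * s) := by
    rw [h4] at h3
    refine h3.trans ?_
    calc D ^ 2 * 2 ^ (2 * n) * (C₁ * (e : ℝ) ^ m * C₂) * s ^ q * Real.exp (M * e * s) ≤
        D ^ 2 * 2 ^ (2 * n) * (C₁ * (e : ℝ) ^ m * C₂) * (q.factorial * Real.exp s) *
          Real.exp (M * e * s) := by gcongr
      _ = K₀ * (Real.exp (M * e * s) * Real.exp s) := by rw [hK₀]; ring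
      _ = K₀ * Real.exp ((M * e + 1) * s) := by rw [← Real.exp_add]; congr 2; ring
  have h7 : (‖z 0‖ ^ M' * ‖f0 e L σ z‖) ^ 2 ≤ K₀ := by
    rw [mul_pow, hns, ← pow_mul, ← Real.exp_nat_mul]
    calc Real.exp (((M' * 2 : ℕ) : ℝ) * -s) * ‖f0 e L σ z‖ ^ 2 ≤
        Real.exp (((M' * 2 : ℕ) : ℝ) * -s) * (K₀ * Real.exp ((M * e + 1) * s)) := by gcongr
      _ = K₀ * Real.exp ((M * e + 1 - 2 * M') * s) := by
          rw [mul_left_comm, ← Real.exp_add]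
          congr 2
          push_cast
          ring
      _ ≤ K₀ * 1 := by
          refine mul_le_mul_of_nonneg_left (Real.exp_le_one_iff.2 ?_) hK₀0
          have h8 : M * e + 1 ≤ M' := Nat.le_ceil _
          have h9 : 0 ≤ M * e := by positivity
          nlinarith
      _ = K₀ := mul_one _
  exact Real.le_sqrt_of_sq_le h7

end BV

end Crest.Agent.R276.NfC_25
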