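import Mathlib
import Crest.Agent.R276.NfC_25

/-!
# R276 (helper25): boundary normal form, part D: the output `BD`, `MG`, `RK`, deck transformation, and the
scalar monodromy theorem in terms of the section `σ` on the half plane.
-/

set_option autoImplicit false

open Set Filter Topology Metric Matrix MeasureTheory
open scoped ContDiff ComplexOrder

namespace Crest.Agent.R276.NfD_25

open Crest.Agent.R276.VCalc_442 (VHS Bot bn dW dB hn gden cx th thb grOp hm)
open Crest.Agent.R276.NfA_25 Crest.Agent.R276.NfB_25 Crest.Agent.R276.Log_25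
open Crest.Agent.R276.NfC_25
open Crest.Agent.R276.Bnd1_25 (pd)
open Crest.Agent.R276.Bnd2_25 (mv mv_apply sf sf_smul_left sf_smul_right)
open Crest.Agent.R276.BndA_25 (HS cf BD MG Dv IsOrd lev sf_exp sh sh_mem sh_zero)
open Crest.Agent.R276.BndB_25 (exp_bound RK mg_of_exp)

variable {d N : ℕ}

/-- the point over `z` determined by a logarithm `b` of `z 0` -/
def up (e : ℕ) (b : ℂ) (z : Fin (d + 1) → ℂ) : Fin (d + 1) → ℂ := Fin.cons ((e : ℂ) * b) (Fin.tail z)

/-- `f` is the normalised single valued section: `f (z) = z₀^a exp (- b L / 2πi) σ (e b, z')`, `exp b = z₀`,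
holomorphic across the divisor -/
structure NF (e : ℕ) (a : ℤ) (L : Matrix (Fin N) (Fin N) ℂ) (σ : (Fin (d + 1) → ℂ) → Fin N → ℂ)
    (f : (Fin (d + 1) → ℂ) → Fin N → ℂ) (p : Fin (d + 1) → ℂ) (r : ℝ) : Prop where
  hf : DifferentiableOn ℂ f (ball p r)
  eq : ∀ z ∈ ball p r, ∀ b : ℂ, z 0 ≠ 0 → Complex.exp b = z 0 →
    f z = z 0 ^ a • (IsNilpotent.exp ((-b / (2 * Real.pi * Complex.I)) • L) *ᵥ σ (up e b z))
  ne : ∃ p₁ ∈ ball p r, p₁ 0 = 0 ∧ f p₁ ≠ 0

section BV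

variable {w ν : ℕ} {S T : Matrix (Fin N) (Fin N) ℂ}
  {P : ℕ → (Fin (d + 1) → ℂ) → Matrix (Fin N) (Fin N) ℂ} {σ : (Fin (d + 1) → ℂ) → Fin N → ℂ}
  {c : Fin d → ℂ} {ρ : ℝ}

theorem coord {p : Fin (d + 1) → ℂ} {r : ℝ} (hp : p = Fin.cons 0 c) {z : Fin (d + 1) → ℂ}
    (hz : z ∈ ball p r) : ‖z 0‖ < r ∧ ∀ j : Fin d, ‖z j.succ - c j‖ < r := by
  rw [mem_ball] at hz
  refine ⟨?_, fun j => ?_⟩
  · have h1 := (dist_le_pi_dist z p 0).trans_lt hz
    rwa [hp, Fin.cons_zero, dist_zero_right] at h1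
  · have h1 := (dist_le_pi_dist z p j.succ).trans_lt hz
    rwa [hp, Fin.cons_succ, dist_eq_norm] at h1

theorem re_log {z₀ b : ℂ} (hb : Complex.exp b = z₀) : b.re = Real.log ‖z₀‖ := by
  rw [← hb, Complex.norm_exp, Real.log_exp]

theorem up_mem {e : ℕ} (he : 0 < e) {z : Fin (d + 1) → ℂ} {b : ℂ} (hb : b.re < 0)
    (hy : ∀ j : Fin d, ‖z j.succ - c j‖ < ρ) : up e b z ∈ HB c ρ := by
  refine cons_mem (fun j => hy j) ?_
  have h1 : ((e : ℂ) * b).re = e * b.re := by simp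
  rw [h1]
  have h2 : (0 : ℝ) < e := by exact_mod_cast he
  exact mul_neg_of_pos_of_neg h2 hb

/-- **existence of the normal form** -/
theorem BV.exists_nf (h : BV w ν S T P σ c ρ) {n e : ℕ} {L : Matrix (Fin N) (Fin N) ℂ}
    (ht : Tw n e T L σ c ρ) {p : Fin (d + 1) → ℂ} {r : ℝ} (hp : p = Fin.cons 0 c) (hr : 0 < r)
    (hr1 : r ≤ Real.exp (-1)) (hrρ : r ≤ ρ / 2) :
    ∃ (a : ℤ) (f : (Fin (d + 1) → ℂ) → Fin N → ℂ), NF e a L σ f p r := by
  have hexp1 : Real.exp (-1) < 1 := by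
    rw [Real.exp_lt_one_iff]; norm_num
  have hr1' : r ≤ 1 := hr1.trans hexp1.le
  have hrρ' : r ≤ ρ := hrρ.trans (by linarith [h.hρ])
  have hp0 : p 0 = 0 := by rw [hp, Fin.cons_zero]
  obtain ⟨M', K, hK⟩ := h.f0_bound ht hp hr1 hrρ
  have hd0 := ht.f0_diff hp hr1' hrρ'
  have hd1 : DifferentiableOn ℂ (fun z : Fin (d + 1) → ℂ => z 0 ^ M' • f0 e L σ z)
      (ball p r ∩ {z | z 0 ≠ 0}) := by
    have h1 : Differentiable ℂ (fun z : Fin (d + 1) → ℂ => z 0 ^ M') :=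
      (ContinuousLinearMap.proj (R := ℂ) (φ := fun _ : Fin (d + 1) => ℂ) 0).differentiable.pow M'
    have h2 : DifferentiableOn ℂ (fun z : Fin (d + 1) → ℂ => z 0 ^ M')
      (ball p r ∩ {z | z 0 ≠ 0}) := h1.differentiableOn
    exact h2.smul hd0
  obtain ⟨F, hF, hFeq⟩ := ext_bdd hd1 (C := K) (by
    intro z hz hz0
    rw [norm_smul, norm_pow]
    exact hK z hz hz0)
  have hFne : ∀ z ∈ ball p r, z 0 ≠ 0 → F z ≠ 0 := by
    intro z hz hz0 h0
    rw [hFeq z hz hz0] at h0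
    have h1 := (smul_eq_zero.1 h0).resolve_left (pow_ne_zero _ hz0)
    obtain ⟨hz1, hzy⟩ := coord hp hz
    have hlre : (Complex.log (z 0)).re < 0 := by
      rw [Complex.log_re]
      exact Real.log_neg (norm_pos_iff.2 hz0) (by linarith)
    have hup : up e (Complex.log (z 0)) z ∈ HB c ρ :=
      up_mem ht.he hlre (fun j => (hzy j).trans_le hrρ')
    apply h.ne _ hup
    have h2 : f0 e L σ z = IsNilpotent.exp ((-(Complex.log (z 0)) / (2 * Real.pi * Complex.I)) • L) *ᵥ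
        σ (up e (Complex.log (z 0)) z) := by
      unfold f0 GG up
      simp only [Fin.cons_zero, Fin.tail_cons]
    rw [h2] at h1
    have h3 := congrArg (fun v => IsNilpotent.exp (-((-(Complex.log (z 0)) /
      (2 * Real.pi * Complex.I)) • L)) *ᵥ v) h1
    simp only [mulVec_mulVec, mulVec_zero] at h3
    rwa [IsNilpotent.exp_neg_mul_exp_self ⟨n, ht.nil' _⟩, one_mulVec] at h3
  obtain ⟨k, f, hf, hfF, hne⟩ := exists_normal hp0 hr hF hFne
  refine ⟨(M' : ℤ) - k, f, hf, ?_, hne⟩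
  intro z hz b hz0 hb
  obtain ⟨hz1, hzy⟩ := coord hp hz
  have h1 := hfF z hz
  rw [hFeq z hz hz0, ht.f0_eq hz0 (by linarith) (fun j => (hzy j).trans_le hrρ') hb] at h1
  have h2 : f z = (z 0 ^ k)⁻¹ • (z 0 ^ M' • GG e L σ (Fin.cons b (Fin.tail z))) := by
    rw [h1, smul_smul, inv_mul_cancel₀ (pow_ne_zero _ hz0), one_smul]
  rw [h2, smul_smul, zpow_sub₀ hz0, zpow_natCast, zpow_natCast, mul_comm, ← div_eq_mul_inv]
  congr 1

/-! ### derivatives of the normal form -/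

/-- derivative along the divisor -/
theorem pd_succ {n e : ℕ} {a : ℤ} {L : Matrix (Fin N) (Fin N) ℂ} (ht : Tw n e T L σ c ρ)
    {f : (Fin (d + 1) → ℂ) → Fin N → ℂ} {p : Fin (d + 1) → ℂ} {r : ℝ} (hp : p = Fin.cons 0 c)
    (hr1 : r ≤ 1) (hrρ : r ≤ ρ) (hn : NF e a L σ f p r) {z : Fin (d + 1) → ℂ} (hz : z ∈ ball p r)
    (hz0 : z 0 ≠ 0) {b : ℂ} (hb : Complex.exp b = z 0) (j : Fin d) :
    pd j.succ f z = z 0 ^ a • (IsNilpotent.exp ((-b / (2 * Real.pi * Complex.I)) • L) *ᵥ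
      fderiv ℂ σ (up e b z) (Pi.single j.succ 1)) := by
  obtain ⟨hz1, hzy⟩ := coord hp hz
  have hbre : b.re < 0 := by
    rw [re_log hb]; exact Real.log_neg (norm_pos_iff.2 hz0) (by linarith)
  have hup : up e b z ∈ HB c ρ := up_mem ht.he hbre (fun j => (hzy j).trans_le hrρ)
  have hσ : DifferentiableAt ℂ σ (up e b z) :=
    ht.hol.differentiableAt ((isOpen_HB c ρ).mem_nhds hup)
  have hfd : DifferentiableAt ℂ f z := hn.hf.differentiableAt (isOpen_ball.mem_nhds hz)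
  -- along the line
  have hline : HasDerivAt (fun t : ℂ => z + t • (Pi.single j.succ 1 : Fin (d + 1) → ℂ))
      (Pi.single j.succ 1) 0 := by
    simpa using ((hasDerivAt_id (0 : ℂ)).smul_const (Pi.single j.succ 1 : Fin (d + 1) → ℂ)).const_add z
  have h1 : HasDerivAt (fun t : ℂ => f (z + t • (Pi.single j.succ 1 : Fin (d + 1) → ℂ)))
      (pd j.succ f z) 0 := by
    have h2 : HasFDerivAt f (fderiv ℂ f z) (z + (0 : ℂ) • (Pi.single j.succ 1 : Fin (d + 1) → ℂ)) := by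
      simpa using hfd.hasFDerivAt
    exact h2.comp_hasDerivAt (0 : ℂ) hline
  have hline2 : HasDerivAt (fun t : ℂ => up e b z + t • (Pi.single j.succ 1 : Fin (d + 1) → ℂ))
      (Pi.single j.succ 1) 0 := by
    simpa using ((hasDerivAt_id (0 : ℂ)).smul_const
      (Pi.single j.succ 1 : Fin (d + 1) → ℂ)).const_add (up e b z)
  have h3 : HasDerivAt (fun t : ℂ => σ (up e b z + t • (Pi.single j.succ 1 : Fin (d + 1) → ℂ)))
      (fderiv ℂ σ (up e b z) (Pi.single j.succ 1)) 0 := by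
    have h2 : HasFDerivAt σ (fderiv ℂ σ (up e b z))
        (up e b z + (0 : ℂ) • (Pi.single j.succ 1 : Fin (d + 1) → ℂ)) := by
      simpa using hσ.hasFDerivAt
    exact h2.comp_hasDerivAt (0 : ℂ) hline2
  have h4 := (((mv (IsNilpotent.exp ((-b / (2 * Real.pi * Complex.I)) • L))).hasFDerivAt).comp_hasDerivAt
    (0 : ℂ) h3).const_smul (z 0 ^ a)
  have hev : (fun t : ℂ => f (z + t • (Pi.single j.succ 1 : Fin (d + 1) → ℂ))) =ᶠ[𝓝 0]
      fun t => z 0 ^ a • (IsNilpotent.exp ((-b / (2 * Real.pi * Complex.I)) • L) *ᵥ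
        σ (up e b z + t • (Pi.single j.succ 1 : Fin (d + 1) → ℂ))) := by
    have h5 : ∀ᶠ t : ℂ in 𝓝 0, z + t • (Pi.single j.succ 1 : Fin (d + 1) → ℂ) ∈ ball p r := by
      have h6 := hline.continuousAt.tendsto
      simp only [zero_smul, add_zero] at h6
      exact h6.eventually (isOpen_ball.mem_nhds hz)
    filter_upwards [h5] with t ht'
    have h6 : (z + t • (Pi.single j.succ 1 : Fin (d + 1) → ℂ)) 0 = z 0 := by
      simp
    have h7 := hn.eq _ ht' b (by rw [h6]; exact hz0) (by rw [h6]; exact hb)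
    rw [h7, h6]
    congr 3
    funext i
    refine Fin.cases ?_ (fun i => ?_) i
    · simp [up]
    · simp [up, Fin.tail]
  exact h1.unique (h4.congr_of_eventuallyEq hev)

/-- `(1/2πi) L f + z₀ ∂₀ f` -/
theorem pd_zero {n e : ℕ} {a : ℤ} {L : Matrix (Fin N) (Fin N) ℂ} (ht : Tw n e T L σ c ρ)
    {f : (Fin (d + 1) → ℂ) → Fin N → ℂ} {p : Fin (d + 1) → ℂ} {r : ℝ} (hp : p = Fin.cons 0 c)
    (hr1 : r ≤ 1) (hrρ : r ≤ ρ) (hn : NF e a L σ f p r) {z : Fin (d + 1) → ℂ} (hz : z ∈ ball p r)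
    (hz0 : z 0 ≠ 0) {b : ℂ} (hb : Complex.exp b = z 0) :
    (1 / (2 * Real.pi * Complex.I)) • (L *ᵥ f z) + z 0 • pd 0 f z =
      (a : ℂ) • f z + z 0 ^ a • (IsNilpotent.exp ((-b / (2 * Real.pi * Complex.I)) • L) *ᵥ
      ((e : ℂ) • fderiv ℂ σ (up e b z) (Pi.single 0 1))) := by
  obtain ⟨hz1, hzy⟩ := coord hp hz
  have hbre : b.re < 0 := by
    rw [re_log hb]; exact Real.log_neg (norm_pos_iff.2 hz0) (by linarith)
  have hup : up e b z ∈ HB c ρ := up_mem ht.he hbre (fun j => (hzy j).trans_le hrρ)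
  have hσ : DifferentiableAt ℂ σ (up e b z) :=
    ht.hol.differentiableAt ((isOpen_HB c ρ).mem_nhds hup)
  have hfd : DifferentiableAt ℂ f z := hn.hf.differentiableAt (isOpen_ball.mem_nhds hz)
  have hpi : (2 * Real.pi * Complex.I : ℂ) ≠ 0 := by
    have : (Real.pi : ℂ) ≠ 0 := by exact_mod_cast Real.pi_ne_zero
    simp [this]
  -- along the line `z + t e₀`
  have hline : HasDerivAt (fun t : ℂ => z + t • (Pi.single 0 1 : Fin (d + 1) → ℂ))
      (Pi.single 0 1) 0 := by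
    simpa using ((hasDerivAt_id (0 : ℂ)).smul_const (Pi.single 0 1 : Fin (d + 1) → ℂ)).const_add z
  have h1 : HasDerivAt (fun t : ℂ => f (z + t • (Pi.single 0 1 : Fin (d + 1) → ℂ)))
      (pd 0 f z) 0 := by
    have h2 : HasFDerivAt f (fderiv ℂ f z) (z + (0 : ℂ) • (Pi.single 0 1 : Fin (d + 1) → ℂ)) := by
      simpa using hfd.hasFDerivAt
    exact h2.comp_hasDerivAt (0 : ℂ) hline
  -- the branch of the logarithm
  set β : ℂ → ℂ := fun t => Complex.log ((z 0 + t) / z 0) + b with hβ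
  have hβ0 : β 0 = b := by simp [hβ, div_self hz0]
  have hβd : HasDerivAt β (1 / z 0) 0 := by
    have h2 : HasDerivAt (fun t : ℂ => (z 0 + t) / z 0) (1 / z 0) 0 := by
      have h3 := ((hasDerivAt_id (0 : ℂ)).const_add (z 0)).div_const (z 0)
      simpa using h3
    have h4 : (z 0 + 0) / z 0 = 1 := by rw [add_zero, div_self hz0]
    have h5 := h2.clog (by rw [h4]; exact Complex.one_mem_slitPlane)
    rw [h4, div_one] at h5
    exact h5.add_const b
  have hβe : ∀ t : ℂ, z 0 + t ≠ 0 → Complex.exp (β t) = z 0 + t := by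
    intro t ht'
    simp only [hβ]
    rw [Complex.exp_add, Complex.exp_log (div_ne_zero ht' hz0), hb, div_mul_cancel₀ _ hz0]
  -- σ along the lifted line
  have hlift : HasDerivAt (fun t : ℂ => up e (β t) z) ((e : ℂ) • ((1 / z 0) •
      (Pi.single 0 1 : Fin (d + 1) → ℂ))) 0 := by
    refine hasDerivAt_pi.2 fun i => ?_
    refine Fin.cases ?_ (fun i => ?_) i
    · simp only [up, Fin.cons_zero, Pi.smul_apply, Pi.single_eq_same, smul_eq_mul, mul_one]
      exact hβd.const_mul _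
    · simp only [up, Fin.cons_succ, Pi.smul_apply, smul_eq_mul]
      have h5 : (Pi.single 0 1 : Fin (d + 1) → ℂ) i.succ = 0 := by simp
      rw [h5, mul_zero, mul_zero]
      exact hasDerivAt_const _ _
  have hσl : HasDerivAt (fun t : ℂ => σ (up e (β t) z))
      ((e : ℂ) • ((1 / z 0) • fderiv ℂ σ (up e b z) (Pi.single 0 1))) 0 := by
    have h2 : HasFDerivAt σ (fderiv ℂ σ (up e b z)) (up e (β 0) z) := by
      rw [hβ0]; exact hσ.hasFDerivAt
    have h3 := h2.comp_hasDerivAt (0 : ℂ) hlift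
    rw [map_smul, map_smul] at h3
    exact h3
  have hg : HasDerivAt (fun t : ℂ => -β t / (2 * Real.pi * Complex.I))
      (-(1 / z 0) / (2 * Real.pi * Complex.I)) 0 := hβd.neg.div_const _
  have hE := hasDerivAt_exp ht.nil hg hσl
  rw [hβ0] at hE
  have hzp : HasDerivAt (fun t : ℂ => (z 0 + t) ^ a) (a * (z 0) ^ (a - 1)) 0 := by
    have h2 : HasDerivAt (fun t : ℂ => z 0 + t) 1 0 := by
      simpa using (hasDerivAt_id (0 : ℂ)).const_add (z 0)
    have h3 := (hasDerivAt_zpow a (z 0 + 0) (Or.inl (by rw [add_zero]; exact hz0))).comp (0 : ℂ) h2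
    rw [mul_one, add_zero] at h3
    exact h3
  have hprod := hzp.smul hE
  have hev : (fun t : ℂ => f (z + t • (Pi.single 0 1 : Fin (d + 1) → ℂ))) =ᶠ[𝓝 0]
      fun t => (z 0 + t) ^ a • (IsNilpotent.exp ((-β t / (2 * Real.pi * Complex.I)) • L) *ᵥ
        σ (up e (β t) z)) := by
    have h5 : ∀ᶠ t : ℂ in 𝓝 0, z + t • (Pi.single 0 1 : Fin (d + 1) → ℂ) ∈ ball p r := by
      have h6 := hline.continuousAt.tendsto
      simp only [zero_smul, add_zero] at h6
      exact h6.eventually (isOpen_ball.mem_nhds hz)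
    have h6 : ∀ᶠ t : ℂ in 𝓝 0, z 0 + t ≠ 0 := by
      have h7 : ContinuousAt (fun t : ℂ => z 0 + t) 0 := by fun_prop
      refine h7.eventually_ne ?_
      rw [add_zero]; exact hz0
    filter_upwards [h5, h6] with t ht1 ht2
    have h7 : (z + t • (Pi.single 0 1 : Fin (d + 1) → ℂ)) 0 = z 0 + t := by simp
    have h8 := hn.eq _ ht1 (β t) (by rw [h7]; exact ht2) (by rw [h7]; exact hβe t ht2)
    rw [h8, h7]
    congr 3
    funext i
    refine Fin.cases ?_ (fun i => ?_) i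
    · simp [up]
    · simp [up, Fin.tail]
  have hder := h1.unique (hprod.congr_of_eventuallyEq hev)
  have hfz := hn.eq z hz b hz0 hb
  rw [hder]
  rw [add_zero] at *
  simp only [hβ0]
  rw [hfz]
  set X := IsNilpotent.exp ((-b / (2 * Real.pi * Complex.I)) • L) *ᵥ σ (up e b z) with hX
  set Y := fderiv ℂ σ (up e b z) (Pi.single 0 1) with hY
  rw [mulVec_smul, mulVec_smul, mulVec_smul, mulVec_smul]
  set EY := IsNilpotent.exp ((-b / (2 * Real.pi * Complex.I)) • L) *ᵥ Y with hEY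
  have hza : z 0 * (a * z 0 ^ (a - 1)) = a * z 0 ^ a := by
    rw [zpow_sub_one₀ hz0]
    field_simp
  simp only [smul_add, smul_smul]
  rw [hza]
  have e1 : z 0 * (z 0 ^ a * (-(1 / z 0) / (2 * Real.pi * Complex.I))) =
      - ((1 / (2 * Real.pi * Complex.I)) * z 0 ^ a) := by
    field_simp
  have e2 : z 0 * (z 0 ^ a * (e * (1 / z 0))) = z 0 ^ a * e := by
    field_simp
  rw [e1, e2, neg_smul]
  abel

end BV

end Crest.Agent.R276.NfD_25
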