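import Mathlib
import Crest.Agent.R276.NfD_25

/-!
# R276 (helper25): boundary normal form, part E: `BD`, `RK`, `MG`, deck transformation, rank drop
-/

set_option autoImplicit false

open Set Filter Topology Metric Matrix MeasureTheory
open scoped ContDiff ComplexOrder

namespace Crest.Agent.R276.NfE_25

open Crest.Agent.R276.VCalc_442 (VHS Bot bn dW dB hn gden cx th thb grOp hm)
open Crest.Agent.R276.NfA_25 Crest.Agent.R276.NfB_25 Crest.Agent.R276.Log_25
open Crest.Agent.R276.NfC_25 Crest.Agent.R276.NfD_25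
open Crest.Agent.R276.Bnd1_25 (pd)
open Crest.Agent.R276.Bnd2_25 (mv mv_apply sf sf_smul_left sf_smul_right)
open Crest.Agent.R276.BndA_25 (HS cf BD MG Dv IsOrd lev sf_exp sh sh_mem sh_zero)
open Crest.Agent.R276.BndB_25 (exp_bound RK mg_of_exp)

variable {d N : ℕ}

/-- the sign corrected form -/
def sS (w : ℕ) (S : Matrix (Fin N) (Fin N) ℂ) : Matrix (Fin N) (Fin N) ℂ := ((-1 : ℂ) ^ w) • S

/-- `A = (i/π) L` -/
noncomputable def lA (L : Matrix (Fin N) (Fin N) ℂ) : Matrix (Fin N) (Fin N) ℂ :=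
  ((Complex.I / Real.pi : ℂ)) • L

theorem sf_sS (w : ℕ) (S : Matrix (Fin N) (Fin N) ℂ) (u v : Fin N → ℂ) :
    sf (sS w S) u v = (-1 : ℂ) ^ w * sf S u v := by
  unfold sS sf
  rw [smul_mulVec, dotProduct_smul, smul_eq_mul]

theorem star_neg_one_pow (w : ℕ) : star ((-1 : ℂ) ^ w) = (-1 : ℂ) ^ w := by simp

section nm

attribute [local instance] Matrix.linftyOpNormedRing Matrix.linftyOpNormedAlgebra

theorem curv_le {w : ℕ} {S : Matrix (Fin N) (Fin N) ℂ} {U : Set (Fin (d + 1) → ℂ)}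
    {P : ℕ → (Fin (d + 1) → ℂ) → Matrix (Fin N) (Fin N) ℂ} {σ : (Fin (d + 1) → ℂ) → Fin N → ℂ}
    (h : VHS w U S P) (hb : Bot w U P σ) {z : Fin (d + 1) → ℂ} (hz : z ∈ U) (v : Fin (d + 1) → ℂ)
    {l : ℂ} (hl : P w z *ᵥ dW σ v z = l • σ z) :
    bn w S σ z * (dB (dW (cx (bn w S σ)) v) v z).re ≤ ‖dW (cx (bn w S σ)) v z‖ ^ 2 := by
  have hc := h.curv_bot hb hz v hl
  have h5 : 0 ≤ bn w S σ z * (VCalc_442.sf (hm w S P z) (dW (grOp w P) v z *ᵥ σ z)
        (dW (grOp w P) v z *ᵥ σ z)).re :=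
      mul_nonneg (h.bn_nonneg hb hz) (VCalc_442.sf_self_nonneg (h.hmPos hz) _)
  linarith

end nm

section BV

variable {w ν : ℕ} {S T : Matrix (Fin N) (Fin N) ℂ}
  {P : ℕ → (Fin (d + 1) → ℂ) → Matrix (Fin N) (Fin N) ℂ} {σ : (Fin (d + 1) → ℂ) → Fin N → ℂ}
  {c : Fin d → ℂ} {ρ : ℝ} {n e : ℕ} {L : Matrix (Fin N) (Fin N) ℂ}

theorem skew_sS (hS : Lᴴ * S = - (S * L)) : Lᴴ * sS w S = - (sS w S * L) := by
  unfold sS
  rw [Matrix.mul_smul, hS, Matrix.smul_mul, smul_neg]

/-- the form `S (ω, ω)` in the frame `f` -/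
theorem HS_rel (ht : Tw n e T L σ c ρ) (hS : Lᴴ * S = - (S * L)) {z₀ b : ℂ}
    (hb : Complex.exp b = z₀) (a : ℤ) (v₁ v₂ : Fin N → ℂ) :
    HS n (sS w S) (lA L) (- Real.log ‖z₀‖)
      (z₀ ^ a • (IsNilpotent.exp ((-b / (2 * Real.pi * Complex.I)) • L) *ᵥ v₁))
      (z₀ ^ a • (IsNilpotent.exp ((-b / (2 * Real.pi * Complex.I)) • L) *ᵥ v₂)) =
      ((‖z₀ ^ a‖ ^ 2 : ℝ) : ℂ) * sf (sS w S) v₁ v₂ := by
  have h1 := sf_exp (S := sS w S) ht.nil (skew_sS (w := w) hS) b
    (z₀ ^ a • (IsNilpotent.exp ((-b / (2 * Real.pi * Complex.I)) • L) *ᵥ v₁))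
    (z₀ ^ a • (IsNilpotent.exp ((-b / (2 * Real.pi * Complex.I)) • L) *ᵥ v₂))
  have h2 : ∀ v : Fin N → ℂ, IsNilpotent.exp ((b / (2 * Real.pi * Complex.I)) • L) *ᵥ
      (z₀ ^ a • (IsNilpotent.exp ((-b / (2 * Real.pi * Complex.I)) • L) *ᵥ v)) = z₀ ^ a • v := by
    intro v
    rw [mulVec_smul, mulVec_mulVec, ← ht.exp_add]
    have h3 : b / (2 * Real.pi * Complex.I) + -b / (2 * Real.pi * Complex.I) = 0 := by ring
    rw [h3, zero_smul, IsNilpotent.exp_zero, one_mulVec]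
  rw [h2, h2, re_log hb] at h1
  rw [lA, ← h1, sf_smul_left, sf_smul_right, ← mul_assoc, Complex.star_def, Complex.conj_mul']
  push_cast
  rfl

variable {a : ℤ} {f : (Fin (d + 1) → ℂ) → Fin N → ℂ} {p : Fin (d + 1) → ℂ} {r : ℝ}

/-- **`BD`** -/
theorem BV.bd (h : BV w ν S T P σ c ρ) (ht : Tw n e T L σ c ρ) (hS : Lᴴ * S = - (S * L))
    (hp : p = Fin.cons 0 c) (hr1 : r ≤ 1) (hrρ : r ≤ ρ) (hn : NF e a L σ f p r) :
    BD n (sS w S) (lA L) f p r where
  hf := hn.hf
  herm := by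
    show (sS w S)ᴴ = sS w S
    unfold sS
    rw [conjTranspose_smul, star_neg_one_pow, h.vhs.herm]
  adj := by
    unfold lA
    rw [conjTranspose_smul, Matrix.smul_mul, skew_sS (w := w) hS, Matrix.mul_smul, smul_neg,
      ← neg_smul]
    congr 1
    simp [Complex.conj_ofReal, neg_div]
  nil := by
    unfold lA
    exact ht.nil' _
  pos := by
    intro z hz hz0
    obtain ⟨hz1, hzy⟩ := coord hp hz
    have hb : Complex.exp (Complex.log (z 0)) = z 0 := Complex.exp_log hz0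
    have hbre : (Complex.log (z 0)).re < 0 := by
      rw [Complex.log_re]; exact Real.log_neg (norm_pos_iff.2 hz0) (by linarith)
    have hup : up e (Complex.log (z 0)) z ∈ HB c ρ :=
      up_mem ht.he hbre (fun j => (hzy j).trans_le hrρ)
    rw [hn.eq z hz _ hz0 hb, HS_rel ht hS hb, Complex.re_ofReal_mul, sf_sS]
    have h1 : 0 < bn w S σ (up e (Complex.log (z 0)) z) := h.vhs.bn_pos h.bot hup (h.ne _ hup)
    have h2 : 0 < ‖z 0 ^ a‖ := norm_pos_iff.2 (zpow_ne_zero _ hz0)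
    exact mul_pos (by positivity) h1
  neg := by
    intro z hz hz0 v
    obtain ⟨hz1, hzy⟩ := coord hp hz
    have hb : Complex.exp (Complex.log (z 0)) = z 0 := Complex.exp_log hz0
    have hbre : (Complex.log (z 0)).re < 0 := by
      rw [Complex.log_re]; exact Real.log_neg (norm_pos_iff.2 hz0) (by linarith)
    have hup : up e (Complex.log (z 0)) z ∈ HB c ρ :=
      up_mem ht.he hbre (fun j => (hzy j).trans_le hrρ)
    set z' := up e (Complex.log (z 0)) z with hz'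
    set v' : Fin (d + 1) → ℂ := Fin.cons 0 v with hv'
    have hσ : DifferentiableAt ℂ σ z' := ht.hol.differentiableAt ((isOpen_HB c ρ).mem_nhds hup)
    have hD : Dv f v z = z 0 ^ a • (IsNilpotent.exp ((-(Complex.log (z 0)) /
        (2 * Real.pi * Complex.I)) • L) *ᵥ dW σ v' z') := by
      unfold Dv
      have h1 : ∀ j : Fin d, v j • pd j.succ f z = z 0 ^ a • (IsNilpotent.exp
          ((-(Complex.log (z 0)) / (2 * Real.pi * Complex.I)) • L) *ᵥ
          (v j • fderiv ℂ σ z' (Pi.single j.succ 1))) := by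
        intro j
        rw [pd_succ ht hp hr1 hrρ hn hz hz0 hb j, mulVec_smul, smul_comm]
      simp only [h1]
      rw [← Finset.smul_sum, ← mulVec_sum]
      congr 2
      rw [VCalc_442.dW_of_diff hσ]
      have h2 : v' = ∑ j : Fin d, v j • (Pi.single j.succ 1 : Fin (d + 1) → ℂ) := by
        funext i
        rw [Finset.sum_apply]
        refine Fin.cases ?_ (fun k => ?_) i
        · simp [hv']
        · simp only [hv', Fin.cons_succ, Pi.smul_apply, smul_eq_mul]
          rw [Finset.sum_eq_single k]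
          · simp
          · intro j _ hj
            have : (Pi.single j.succ 1 : Fin (d + 1) → ℂ) k.succ = 0 := by
              rw [Pi.single_eq_of_ne]
              exact fun h => hj (Fin.succ_injective _ h).symm
            rw [this, mul_zero]
          · simp
      rw [h2, map_sum]
      refine Finset.sum_congr rfl fun j _ => ?_
      rw [map_smul]
    rw [hD, hn.eq z hz _ hz0 hb, ← hz', HS_rel ht hS hb, HS_rel ht hS hb, HS_rel ht hS hb,
      Complex.re_ofReal_mul, Complex.re_ofReal_mul, norm_mul, Complex.norm_real, Real.norm_eq_abs,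
      abs_of_nonneg (by positivity)]
    have e1 : (sf (sS w S) (σ z') (σ z')).re = bn w S σ z' := by rw [sf_sS]; rfl
    have e2 : (sf (sS w S) (dW σ v' z') (dW σ v' z')).re = (dB (dW (cx (bn w S σ)) v') v' z').re := by
      rw [sf_sS, h.vhs.dB_dW_bn h.bot hup]; rfl
    have e3 : sf (sS w S) (σ z') (dW σ v' z') = dW (cx (bn w S σ)) v' z' := by
      rw [sf_sS, h.vhs.dW_bn h.bot hup]; rfl
    rw [e1, e2, e3]
    obtain ⟨l, hl⟩ := h.line z' hup v'
    have h6 := curv_le h.vhs h.bot hup v' hl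
    have h7 : 0 ≤ ‖z 0 ^ a‖ ^ 2 := by positivity
    calc ‖z 0 ^ a‖ ^ 2 * bn w S σ z' * (‖z 0 ^ a‖ ^ 2 * (dB (dW (cx (bn w S σ)) v') v' z').re) =
        (‖z 0 ^ a‖ ^ 2) ^ 2 * (bn w S σ z' * (dB (dW (cx (bn w S σ)) v') v' z').re) := by ring
      _ ≤ (‖z 0 ^ a‖ ^ 2) ^ 2 * ‖dW (cx (bn w S σ)) v' z'‖ ^ 2 := by gcongr
      _ = _ := by ring

theorem half_lA (u : Fin N → ℂ) :
    (-1 / 2 : ℂ) • (lA L *ᵥ u) = (1 / (2 * Real.pi * Complex.I)) • (L *ᵥ u) := by
  unfold lA
  rw [smul_mulVec, smul_smul]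
  congr 1
  have hpi : (Real.pi : ℂ) ≠ 0 := by exact_mod_cast Real.pi_ne_zero
  field_simp
  rw [Complex.I_sq]
  norm_num

/-- **`RK`** -/
theorem BV.rk' (h : BV w ν S T P σ c ρ) (ht : Tw n e T L σ c ρ)
    (hp : p = Fin.cons 0 c) (hr1 : r ≤ 1) (hrρ : r ≤ ρ) (hn : NF e a L σ f p r) :
    RK (lA L) f p r ν := by
  intro z hz hz0
  obtain ⟨hz1, hzy⟩ := coord hp hz
  have hb : Complex.exp (Complex.log (z 0)) = z 0 := Complex.exp_log hz0
  have hbre : (Complex.log (z 0)).re < 0 := by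
    rw [Complex.log_re]; exact Real.log_neg (norm_pos_iff.2 hz0) (by linarith)
  have hup : up e (Complex.log (z 0)) z ∈ HB c ρ :=
    up_mem ht.he hbre (fun j => (hzy j).trans_le hrρ)
  have hrk := h.rk _ hup
  set z' := up e (Complex.log (z 0)) z with hz'
  set W : Submodule ℂ (Fin N → ℂ) := Submodule.span ℂ
    (insert (σ z') (range fun i : Fin (d + 1) => fderiv ℂ σ z' (Pi.single i 1))) with hW
  set M : (Fin N → ℂ) →ₗ[ℂ] (Fin N → ℂ) := (z 0 ^ a) • (IsNilpotent.exp ((-(Complex.log (z 0)) /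
    (2 * Real.pi * Complex.I)) • L)).mulVecLin with hM
  have hMa : ∀ u, M u = z 0 ^ a • (IsNilpotent.exp ((-(Complex.log (z 0)) /
    (2 * Real.pi * Complex.I)) • L) *ᵥ u) := fun u => rfl
  have hσW : σ z' ∈ W := Submodule.subset_span (mem_insert _ _)
  have hdW : ∀ i : Fin (d + 1), fderiv ℂ σ z' (Pi.single i 1) ∈ W := fun i =>
    Submodule.subset_span (mem_insert_of_mem _ ⟨i, rfl⟩)
  have hfz : f z = M (σ z') := by rw [hMa, hn.eq z hz _ hz0 hb]
  have hle : Submodule.span ℂ (insert ((-1 / 2 : ℂ) • (lA L *ᵥ f z) + z 0 • pd 0 f z)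
      (insert (f z) (range fun j : Fin d => pd j.succ f z))) ≤ W.map M := by
    refine Submodule.span_le.2 ?_
    rintro x (rfl | rfl | ⟨j, rfl⟩)
    · rw [half_lA, pd_zero ht hp hr1 hrρ hn hz hz0 hb]
      refine Submodule.add_mem _ (Submodule.smul_mem _ _ ?_) ?_
      · rw [hfz]; exact Submodule.mem_map_of_mem hσW
      · exact Submodule.mem_map_of_mem (Submodule.smul_mem _ _ (hdW 0))
    · rw [hfz]; exact Submodule.mem_map_of_mem hσW
    · show pd j.succ f z ∈ _
      rw [pd_succ ht hp hr1 hrρ hn hz hz0 hb j]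
      exact Submodule.mem_map_of_mem (hdW _)
  exact (Submodule.finrank_mono hle).trans ((Submodule.finrank_map_le M W).trans hrk)

/-- **`MG`** -/
theorem BV.mg (h : BV w ν S T P σ c ρ) (ht : Tw n e T L σ c ρ) (hS : Lᴴ * S = - (S * L))
    (hp : p = Fin.cons 0 c) (hrρ : r ≤ ρ / 2) (hn : NF e a L σ f p r)
    {p₁ : Fin (d + 1) → ℂ} (hp₁ : p₁ ∈ ball p r) (hp₁0 : p₁ 0 = 0) (hf0 : f p₁ ≠ 0) :
    MG n (sS w S) (lA L) f p₁ := by
  obtain ⟨C, m, hC, hg⟩ := h.growth 0
  refine mg_of_exp ht.nil hf0 (C := C * (e : ℝ) ^ m) (m := m) ?_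
  have hs : Tendsto (fun t : ℝ => - Real.log t) (𝓝[>] 0) atTop :=
    tendsto_neg_atBot_atTop.comp Real.tendsto_log_nhdsGT_zero
  have he1 : (1 : ℝ) ≤ e := by exact_mod_cast ht.he
  filter_upwards [sh_mem hp₁ hp₁0, hs.eventually_ge_atTop 1, self_mem_nhdsWithin]
    with t ht1 hst ht0
  have ht0' : (0 : ℝ) < t := ht0
  obtain ⟨hmem, hne, -⟩ := ht1
  have hz0 : sh p₁ t 0 = (t : ℂ) := by rw [sh_zero, hp₁0, zero_add]
  obtain ⟨hz1, hzy⟩ := coord hp hmem
  set b : ℂ := (Real.log t : ℂ) with hb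
  have hbe : Complex.exp b = sh p₁ t 0 := by
    rw [hb, hz0, ← Complex.ofReal_exp, Real.exp_log ht0']
  set z' := up e b (sh p₁ t) with hz'
  have hz're : (z' 0).re = e * Real.log t := by
    rw [hz', up, Fin.cons_zero, hb]; simp
  have hz'im : |(z' 0).im| ≤ 0 := by
    rw [hz', up, Fin.cons_zero, hb]; simp
  have hσ := hg z' (by rw [hz're]; nlinarith) hz'im (fun j => by
    rw [hz', up, Fin.cons_succ]
    exact (hzy j).le.trans hrρ)
  rw [hz're] at hσ
  have hfz := hn.eq _ hmem b hne hbe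
  have h1 : IsNilpotent.exp (((Real.log t : ℂ) / (2 * Real.pi * Complex.I)) • L) *ᵥ f (sh p₁ t) =
      sh p₁ t 0 ^ a • σ z' := by
    rw [hfz, mulVec_smul, mulVec_mulVec, ← hb, ← ht.exp_add]
    have h3 : b / (2 * Real.pi * Complex.I) + -b / (2 * Real.pi * Complex.I) = 0 := by ring
    rw [h3, zero_smul, IsNilpotent.exp_zero, one_mulVec]
  have h2 : (HS n (sS w S) (lA L) (- Real.log t) (f (sh p₁ t)) (f (sh p₁ t))).re =
      ‖sh p₁ t 0 ^ a‖ ^ 2 * bn w S σ z' := by
    have h3 : - Real.log t = - Real.log ‖sh p₁ t 0‖ := by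
      rw [hz0, Complex.norm_real, Real.norm_eq_abs, abs_of_pos ht0']
    rw [hfz, h3, HS_rel ht hS hbe, Complex.re_ofReal_mul, sf_sS]
    rfl
  rw [h1, norm_smul, mul_pow]
  have h4 : (HS n (sS w S) ((Complex.I / Real.pi) • L) (- Real.log t) (f (sh p₁ t))
      (f (sh p₁ t))).re = ‖sh p₁ t 0 ^ a‖ ^ 2 * bn w S σ z' := h2
  rw [h4]
  calc ‖sh p₁ t 0 ^ a‖ ^ 2 * ‖σ z'‖ ^ 2 ≤
      ‖sh p₁ t 0 ^ a‖ ^ 2 * (C * (-(e * Real.log t)) ^ m * bn w S σ z') := by gcongr
    _ = C * (e : ℝ) ^ m * (- Real.log t) ^ m * (‖sh p₁ t 0 ^ a‖ ^ 2 * bn w S σ z') := by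
        rw [← mul_neg, mul_pow]; ring

/-- the rotation -/
noncomputable def xi (e : ℕ) : ℂ := Complex.exp (2 * Real.pi * Complex.I / e)

theorem norm_xi (e : ℕ) : ‖xi e‖ = 1 := by
  unfold xi
  have : (2 * Real.pi * Complex.I / e : ℂ) = ((2 * Real.pi / e : ℝ) : ℂ) * Complex.I := by
    push_cast; ring
  rw [this, Complex.norm_exp_ofReal_mul_I]

/-- the normalised monodromy -/
noncomputable def tq (e : ℕ) (a : ℤ) (T L : Matrix (Fin N) (Fin N) ℂ) : Matrix (Fin N) (Fin N) ℂ :=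
  xi e ^ a • (IsNilpotent.exp ((-1 / (e : ℂ)) • L) * T)

theorem upd_mem {r : ℝ} {z : Fin (d + 1) → ℂ} (hp0 : p 0 = 0) (hz : z ∈ ball p r) (hξ : ‖xi e‖ = 1) :
    Function.update z 0 (xi e * z 0) ∈ ball p r := by
  refine Bnd1_25.update_mem hp0 hz ?_
  rw [norm_mul, hξ, one_mul]
  exact Bnd1_25.norm_coord_lt hp0 hz

/-- **the deck transformation** -/
theorem deck (ht : Tw n e T L σ c ρ) (hp : p = Fin.cons 0 c) (hr1 : r ≤ 1) (hrρ : r ≤ ρ)
    (hn : NF e a L σ f p r) : ∀ z ∈ ball p r,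
      f (Function.update z 0 (xi e * z 0)) = tq e a T L *ᵥ f z := by
  have hp0 : p 0 = 0 := by rw [hp, Fin.cons_zero]
  have hxi0 : xi e ≠ 0 := by
    intro h0
    have := norm_xi e
    rw [h0, norm_zero] at this
    exact zero_ne_one this
  have hce : (e : ℂ) ≠ 0 := by exact_mod_cast ht.he.ne'
  have hcont : ContinuousOn (fun z : Fin (d + 1) → ℂ => f (Function.update z 0 (xi e * z 0)) -
      tq e a T L *ᵥ f z) (ball p r) := by
    refine ContinuousOn.sub ?_ ?_
    · refine hn.hf.continuousOn.comp ?_ (fun z hz => upd_mem hp0 hz (norm_xi e))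
      have h1 : Continuous (fun z : Fin (d + 1) → ℂ => Function.update z 0 (xi e * z 0)) :=
        continuous_id.update 0 (continuous_const.mul (continuous_apply 0))
      exact h1.continuousOn
    · exact (mv (tq e a T L)).continuous.comp_continuousOn hn.hf.continuousOn
  intro z hz
  refine sub_eq_zero.1 (Bnd1_25.eq_zero_of_ne isOpen_ball hcont ?_ z hz)
  intro z hz hz0
  rw [sub_eq_zero]
  obtain ⟨hz1, hzy⟩ := coord hp hz
  have hb : Complex.exp (Complex.log (z 0)) = z 0 := Complex.exp_log hz0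
  set b := Complex.log (z 0) with hbdef
  have hbre : b.re < 0 := by
    rw [re_log hb]; exact Real.log_neg (norm_pos_iff.2 hz0) (by linarith)
  have hup : up e b z ∈ HB c ρ := up_mem ht.he hbre (fun j => (hzy j).trans_le hrρ)
  have hb' : Complex.exp (b + 2 * Real.pi * Complex.I / e) = xi e * z 0 := by
    rw [Complex.exp_add, hb, mul_comm]; rfl
  have h1 := hn.eq _ (upd_mem hp0 hz (norm_xi e)) (b + 2 * Real.pi * Complex.I / e)
    (by rw [Function.update_self]; exact mul_ne_zero hxi0 hz0)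
    (by rw [Function.update_self]; exact hb')
  rw [Function.update_self] at h1
  have h2 : up e (b + 2 * Real.pi * Complex.I / e) (Function.update z 0 (xi e * z 0)) =
      up e b z + tau d := by
    funext i
    refine Fin.cases ?_ (fun j => ?_) i
    · simp only [up, Fin.cons_zero, Pi.add_apply, tau, Pi.single_eq_same]
      field_simp
    · simp [up, Fin.tail, tau]
  rw [h1, h2, ht.eqv _ hup, hn.eq z hz b hz0 hb]
  have hpi : (Real.pi : ℂ) ≠ 0 := by exact_mod_cast Real.pi_ne_zero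
  have h3 : -(b + 2 * Real.pi * Complex.I / e) / (2 * Real.pi * Complex.I) =
      (-1 / (e : ℂ)) + -b / (2 * Real.pi * Complex.I) := by
    field_simp
    ring
  have hcomm : ∀ t : ℂ, Commute T (IsNilpotent.exp (t • L)) := by
    intro t
    obtain ⟨k, hk⟩ : ∃ k : ℕ, (t • L) ^ k = 0 := ⟨n, ht.nil' t⟩
    rw [IsNilpotent.exp_eq_sum hk]
    refine Commute.sum_right _ _ _ fun j _ => ?_
    exact ((ht.comm.smul_right t).pow_right j).smul_right _
  rw [h3, ht.exp_add, tq, smul_mulVec, mulVec_smul, mulVec_mulVec, mulVec_mulVec, smul_smul,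
    mul_zpow]
  congr 2
  rw [Matrix.mul_assoc, ← (hcomm _).eq, Matrix.mul_assoc]

/-- convexity of the half plane × polydisc -/
theorem convex_HB (c : Fin d → ℂ) (ρ : ℝ) : Convex ℝ (HB c ρ) := by
  intro x hx y hy s t hs ht' hst
  refine ⟨?_, fun j => ?_⟩
  · have h1 : ((s • x + t • y) 0).re = s * (x 0).re + t * (y 0).re := by simp
    rw [h1]
    rcases hs.eq_or_lt with rfl | hs'
    · have : t = 1 := by linarith
      subst this
      simpa using hy.1
    · have h2 := hx.1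
      have h3 := hy.1
      nlinarith
  · have h1 : (s • x + t • y) j.succ - c j = s • (x j.succ - c j) + t • (y j.succ - c j) := by
      have h2 : (c j) = (s + t) • c j := by rw [hst, one_smul]
      simp only [Pi.add_apply, Pi.smul_apply]
      rw [smul_sub, smul_sub]
      conv_lhs => rw [h2, add_smul]
      abel
    rw [h1]
    refine (norm_add_le _ _).trans_lt ?_
    rw [norm_smul, norm_smul, Real.norm_eq_abs, Real.norm_eq_abs, abs_of_nonneg hs,
      abs_of_nonneg ht']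
    have h2 := hx.2 j
    have h3 := hy.2 j
    rcases hs.eq_or_lt with rfl | hs'
    · have : t = 1 := by linarith
      subst this
      simpa using h3
    · nlinarith [norm_nonneg (x j.succ - c j), norm_nonneg (y j.succ - c j)]

/-- **RANK DROP for a variation of Hodge structure**: if the monodromy `T` does not act by a scalar on the
values of `σ`, the Levi form of `- log g`, `g` the limit metric, has rank `< ν` wherever `g ≠ 0`. -/
theorem BV.rank_lt (h : BV w ν S T P σ c ρ) (ht : Tw n e T L σ c ρ) (hS : Lᴴ * S = - (S * L))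
    (hp : p = Fin.cons 0 c) (hr : 0 < r) (hr1 : r ≤ 1) (hrρ : r ≤ ρ) (hn : NF e a L σ f p r) {k : ℕ}
    (hkn : k < n) (hk : IsOrd (sS w S) (lA L) f p r k)
    (hT : ¬ ∃ ζ : ℂ, ∀ z ∈ HB c ρ, T *ᵥ σ z = ζ • σ z)
    {q : Fin (d + 1) → ℂ} (hq : q ∈ ball p r) (hq0 : q 0 = 0)
    (hg : cf (sS w S) (lA L) k (f q) (f q) ≠ 0) : (lev (sS w S) (lA L) k f q).rank < ν := by
  by_contra hν
  obtain ⟨hA, hτ⟩ := BndB_25.BD.rank_drop (BV.bd h ht hS hp hr1 hrρ hn) hkn hk
    (BV.rk' h ht hp hr1 hrρ hn) hq hq0 hg (not_lt.1 hν)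
  have hdeck := hτ (tq e a T L) (xi e) (deck ht hp hr1 hrρ hn)
  apply hT
  have hxi0 : xi e ≠ 0 := by
    intro h0
    have := norm_xi e
    rw [h0, norm_zero] at this
    exact zero_ne_one this
  have hpi : (Real.pi : ℂ) ≠ 0 := by exact_mod_cast Real.pi_ne_zero
  have hLf : ∀ z ∈ ball p r, L *ᵥ f z = 0 := by
    intro z hz
    have h1 := hA z hz
    unfold lA at h1
    rw [smul_mulVec] at h1
    exact (smul_eq_zero.1 h1).resolve_left (div_ne_zero Complex.I_ne_zero hpi)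
  have hexpf : ∀ (t : ℂ) (u : Fin N → ℂ), L *ᵥ u = 0 → IsNilpotent.exp (t • L) *ᵥ u = u := by
    intro t u hu
    have hn1 : L ^ (n + 1) = 0 := by rw [pow_succ, ht.nil, zero_mul]
    rw [exp_eq' hn1, Finset.sum_range_succ', Finset.sum_eq_zero]
    · simp
    · intro j _
      have h5 : L ^ (j + 1) *ᵥ u = 0 := by rw [pow_succ, ← mulVec_mulVec, hu, mulVec_zero]
      rw [h5, smul_zero]
  have hTf : ∀ z ∈ ball p r, T *ᵥ f z = (xi e ^ a)⁻¹ • f z := by
    intro z hz
    have h1 := hdeck z hz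
    have hLT : L *ᵥ (T *ᵥ f z) = 0 := by
      rw [mulVec_mulVec, ← ht.comm.eq, ← mulVec_mulVec, hLf z hz, mulVec_zero]
    rw [tq, smul_mulVec, ← mulVec_mulVec, hexpf _ _ hLT] at h1
    calc T *ᵥ f z = (xi e ^ a)⁻¹ • (xi e ^ a • (T *ᵥ f z)) := by
          rw [smul_smul, inv_mul_cancel₀ (zpow_ne_zero _ hxi0), one_smul]
      _ = _ := by rw [h1]
  refine ⟨(xi e ^ a)⁻¹, ?_⟩
  -- the identity on the image of the punctured ball
  have hup : ∀ z ∈ ball p r, ∀ b : ℂ, z 0 ≠ 0 → Complex.exp b = z 0 →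
      T *ᵥ σ (up e b z) = (xi e ^ a)⁻¹ • σ (up e b z) := by
    intro z hz b hz0 hb
    have h1 := hTf z hz
    rw [hn.eq z hz b hz0 hb] at h1
    have hcomm : Commute T (IsNilpotent.exp ((-b / (2 * Real.pi * Complex.I)) • L)) := by
      obtain ⟨k, hk⟩ : ∃ k : ℕ, ((-b / (2 * Real.pi * Complex.I)) • L) ^ k = 0 := ⟨n, ht.nil' _⟩
      rw [IsNilpotent.exp_eq_sum hk]
      refine Commute.sum_right _ _ _ fun j _ => ?_
      exact ((ht.comm.smul_right _).pow_right j).smul_right _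
    have h1' : z 0 ^ a • (IsNilpotent.exp ((-b / (2 * Real.pi * Complex.I)) • L) *ᵥ
        (T *ᵥ σ (up e b z))) = z 0 ^ a • (IsNilpotent.exp ((-b / (2 * Real.pi * Complex.I)) • L) *ᵥ
        ((xi e ^ a)⁻¹ • σ (up e b z))) := by
      calc _ = T *ᵥ (z 0 ^ a • (IsNilpotent.exp ((-b / (2 * Real.pi * Complex.I)) • L) *ᵥ
            σ (up e b z))) := by rw [mulVec_smul, mulVec_mulVec, mulVec_mulVec, hcomm.eq]
        _ = _ := h1
        _ = _ := by rw [mulVec_smul, smul_comm]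
    have h2 := smul_right_injective (Fin N → ℂ) (zpow_ne_zero a hz0) h1'
    have h3 := congrArg (fun v => IsNilpotent.exp (-((-b / (2 * Real.pi * Complex.I)) • L)) *ᵥ v) h2
    simp only [mulVec_mulVec] at h3
    rw [← Matrix.mul_assoc, IsNilpotent.exp_neg_mul_exp_self ⟨n, ht.nil' _⟩, Matrix.one_mul,
      one_mulVec] at h3
    exact h3
  -- identity theorem
  have hD : DifferentiableOn ℂ (fun z => T *ᵥ σ z - (xi e ^ a)⁻¹ • σ z) (HB c ρ) := by
    refine ((mv T).differentiable.comp_differentiableOn ht.hol).sub ?_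
    exact ht.hol.const_smul ((xi e ^ a)⁻¹)
  have hAn := Crest.Agent.R266.SCV.analyticOnNhd_of_differentiableOn (isOpen_HB c ρ) hD
  have hce : (0 : ℝ) < e := by exact_mod_cast ht.he
  -- a base point deep in the half plane
  set x₀ : ℝ := min (-1) (Real.log r - 1) with hx₀
  have hx₀1 : x₀ < 0 := lt_of_le_of_lt (min_le_left _ _) (by norm_num)
  have hx₀2 : x₀ < Real.log r := lt_of_le_of_lt (min_le_right _ _) (by linarith)
  have hρ0 : 0 < ρ := h.hρ
  set q₀ : Fin (d + 1) → ℂ := Fin.cons ((e * x₀ : ℝ) : ℂ) c with hq₀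
  have hq₀m : q₀ ∈ HB c ρ := cons_mem (fun j => by simpa using hρ0) (by
    rw [Complex.ofReal_re]; exact mul_neg_of_pos_of_neg hce hx₀1)
  have hev : (fun z => T *ᵥ σ z - (xi e ^ a)⁻¹ • σ z) =ᶠ[𝓝 q₀] 0 := by
    have h1 : ∀ᶠ z : Fin (d + 1) → ℂ in 𝓝 q₀, (z 0).re < e * Real.log r := by
      have h2 : ContinuousAt (fun z : Fin (d + 1) → ℂ => (z 0).re) q₀ :=
        (Complex.continuous_re.comp (continuous_apply 0)).continuousAt
      refine h2.eventually_lt_const ?_
      simp only [hq₀, Fin.cons_zero, Complex.ofReal_re]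
      exact mul_lt_mul_of_pos_left hx₀2 hce
    have h2 : ∀ᶠ z : Fin (d + 1) → ℂ in 𝓝 q₀, ∀ j : Fin d, ‖z j.succ - c j‖ < r := by
      rw [Filter.eventually_all]
      intro j
      have h2 : ContinuousAt (fun z : Fin (d + 1) → ℂ => ‖z j.succ - c j‖) q₀ :=
        ((continuous_apply j.succ).sub continuous_const).norm.continuousAt
      refine h2.eventually_lt_const ?_
      simp only [hq₀, Fin.cons_succ, sub_self, norm_zero]
      exact hr
    filter_upwards [h1, h2] with z hz1 hz2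
    -- `z = up e b z₁`
    set b : ℂ := z 0 / e with hb
    set z₁ : Fin (d + 1) → ℂ := Fin.cons (Complex.exp b) (Fin.tail z) with hz₁
    have hbre : b.re < Real.log r := by
      have h3 : b.re = (z 0).re / e := by
        rw [hb, ← Complex.ofReal_natCast, Complex.div_ofReal_re]
      rw [h3, div_lt_iff₀ hce, mul_comm]; exact hz1
    have hz₁m : z₁ ∈ ball p r := by
      rw [mem_ball, dist_pi_lt_iff hr]
      intro i
      refine Fin.cases ?_ (fun j => ?_) i
      · rw [hz₁, hp, Fin.cons_zero, Fin.cons_zero, dist_zero_right, Complex.norm_exp]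
        rwa [← Real.lt_log_iff_exp_lt hr]
      · rw [hz₁, hp, Fin.cons_succ, Fin.cons_succ, dist_eq_norm]
        exact hz2 j
    have h3 := hup z₁ hz₁m b (by rw [hz₁, Fin.cons_zero]; exact Complex.exp_ne_zero _)
      (by rw [hz₁, Fin.cons_zero])
    have h4 : up e b z₁ = z := by
      have hce' : (e : ℂ) ≠ 0 := by exact_mod_cast ht.he.ne'
      funext i
      refine Fin.cases ?_ (fun j => ?_) i
      · rw [up, Fin.cons_zero, hb, mul_div_cancel₀ _ hce']
      · rw [up, Fin.cons_succ, hz₁, Fin.tail_cons]; rfl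
    rw [h4] at h3
    simp only [Pi.zero_apply]
    rw [h3, sub_self]
  have hEq := hAn.eqOn_zero_of_preconnected_of_eventuallyEq_zero
    (convex_HB c ρ).isPreconnected hq₀m hev
  intro z hz
  exact sub_eq_zero.1 (hEq hz)

end BV

end Crest.Agent.R276.NfE_25
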