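import Crest.Agent.R276.PVn_159

/-!
# Row 276, leaf NPV (helper696), part A: functionals on fibres, general weights

`FW D w`: a holomorphic family of functionals on the fibres of `D`, bounded for the norm `∫ |g|² w`
with a general measurable weight `w`; `FW.pv`: plurisubharmonic variation.
-/

set_option autoImplicit false
set_option linter.unusedSectionVars false

noncomputable section

open Set Filter Topology Complex MeasureTheory Metric
open scoped ENNReal ComplexConjugate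

namespace Crest.Agent.R276.Npv_696

open Crest.Agent.R271 Crest.Agent.R271.Ho51 Crest.Agent.R271.W792
open Crest.Agent.R276.PV_159

local instance instMFP3 {a b : ℕ} {M N : Type} [TopologicalSpace M] [TopologicalSpace N]
    [RDom (a + 1) M] [RDom (b + 1) N] : MeasurableSpace (FP M N) := borel _
local instance instBFP3 {a b : ℕ} {M N : Type} [TopologicalSpace M] [TopologicalSpace N]
    [RDom (a + 1) M] [RDom (b + 1) N] : BorelSpace (FP M N) := ⟨rfl⟩

variable {R : ℝ}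

/-- slices of functions with finite norm have finite norm -/
lemma ae_slice_fin (Q D : Dom R) {wQ : Q.P → ℝ≥0∞} {w : D.P → ℝ≥0∞} (hwQ : Measurable wQ)
    (hw : Measurable w) (hwQ0 : ∀ q, wQ q ≠ 0) {F : (Q.mul D).P → ℂ} (hF : Continuous F) {t : ℂ}
    (h : pn 2 (wmul (D := Q) (E := D) wQ w) F t < ∞) :
    ∀ᵐ x : Fin Q.a → ℂ, ∀ q : Q.P, cp q = (Fin.cons t x : Fin (Q.a + 1) → ℂ) →
      pn 2 w (fun x : D.P => ext2 (M := Q.P) (N := D.P) F q x) t < ∞ := by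
  have hm : Measurable (fun x : (Q.mul D).P => ENNReal.ofReal (‖F x‖ ^ (2 : ℝ)) *
      wmul (D := Q) (E := D) wQ w x) := measurable_pden (by norm_num) (measurable_wmul hwQ hw) hF
  filter_upwards [ae_fin (M := Q.P) (N := D.P) hm h] with x hx q hq
  have h1 := hx q hq
  have h2 : wQ q * pn 2 w (fun x : D.P => ext2 (M := Q.P) (N := D.P) F q x) t ≤
      fi (fun n : D.P => ext2 (M := Q.P) (N := D.P) (fun x : (Q.mul D).P =>
        ENNReal.ofReal (‖F x‖ ^ (2 : ℝ)) * wmul (D := Q) (E := D) wQ w x) q n) t := by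
    refine (fi_const_mul_le _ t _).trans ?_
    refine fi_mono fun x' hx' => ?_
    have hqt : (cp q : Fin (Q.a + 1) → ℂ) 0 = t := by rw [hq]; rfl
    have hc : (cp q : Fin (Q.a + 1) → ℂ) 0 = (cp x' : Fin (D.a + 1) → ℂ) 0 := by rw [hqt, hx']
    beta_reduce
    rw [ext2_of (M := Q.P) (N := D.P) _ hc, ext2_of (M := Q.P) (N := D.P) _ hc]
    unfold wmul
    show wQ q * (ENNReal.ofReal (‖F (FP.mk' q x' hc)‖ ^ (2 : ℝ)) * w x') ≤
      ENNReal.ofReal (‖F (FP.mk' q x' hc)‖ ^ (2 : ℝ)) * (wQ q * w x')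
    exact le_of_eq (by ring)
  have h3 : wQ q * pn 2 w (fun x : D.P => ext2 (M := Q.P) (N := D.P) F q x) t < ∞ :=
    lt_of_le_of_lt h2 h1
  by_contra h5
  rw [not_lt, top_le_iff] at h5
  rw [h5, ENNReal.mul_top (hwQ0 q)] at h3
  exact absurd h3 (lt_irrefl _)

/-- a holomorphic family of functionals on the fibres, bounded for a general weight -/
structure FW (D : Dom R) (w : D.P → ℝ≥0∞) where
  /-- the functional -/
  ξ : ℂ → (D.P → ℂ) → ℂ
  /-- the bound -/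
  κ : ℂ → ℝ
  κ_pos : ∀ t, 0 < κ t
  loc : ∀ t g g', (∀ x, tc x = t → g x = g' x) → ξ t g = ξ t g'
  hom : ∀ t c g, ξ t (fun x => c * g x) = c * ξ t g
  bd : ∀ᵐ t, ‖t‖ < R → ∀ g, FHol t g →
    ENNReal.ofReal (‖ξ t g‖ ^ (2 : ℝ)) ≤ ENNReal.ofReal (κ t) * pn 2 w g t
  hol0 : ∀ G : D.P → ℂ, Ho51.Hol G → (∀ᵐ t, pn 2 w G t < ∞) →
    DifferentiableOn ℂ (fun t => ξ t G) (ball 0 R)
  hol1 : ∀ (Q : Dom R) (wQ : Q.P → ℝ≥0∞), Measurable wQ → (∀ q, wQ q ≠ 0) →
    ∀ F : (Q.mul D).P → ℂ, Ho51.Hol F →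
    (∀ᵐ t, pn 2 (wmul (D := Q) (E := D) wQ w) F t < ∞) →
    Ho51.Hol (fun q : Q.P => ξ (tc q) (fun x : D.P => ext2 (M := Q.P) (N := D.P) F q x))

variable {D : Dom R} {w : D.P → ℝ≥0∞}

/-- apply the functional to the last factor -/
def FW.E (X : FW D w) (Q : Dom R) (F : (Q.mul D).P → ℂ) (q : Q.P) : ℂ :=
  X.ξ (tc q) (fun x : D.P => ext2 (M := Q.P) (N := D.P) F q x)

/-- Bergman inequality in one variable -/
lemma FW.pn_E (X : FW D w) (Q : Dom R) {wQ : Q.P → ℝ≥0∞} (hwQ : Measurable wQ)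
    (hw : Measurable w) {F : (Q.mul D).P → ℂ} (hF : Ho51.Hol F) {t : ℂ}
    (hbd : ∀ g, FHol t g →
      ENNReal.ofReal (‖X.ξ t g‖ ^ (2 : ℝ)) ≤ ENNReal.ofReal (X.κ t) * pn 2 w g t) :
    pn 2 wQ (X.E Q F) t ≤ ENNReal.ofReal (X.κ t) * pn 2 (wmul (D := Q) (E := D) wQ w) F t := by
  refine le_trans ?_ (mul_le_mul_right
    (pn_mul_ge Q D two_pos hwQ hw (T7a297.Hol.continuous hF) t) _)
  rw [← fi_const_mul ENNReal.ofReal_ne_top]
  refine fi_mono fun q hq => ?_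
  have hq' : tc q = t := hq
  have h0 := FHol.slice (M := Q.P) (N := D.P) hF q
  rw [hq'] at h0
  have h1 := hbd _ h0
  unfold FW.E
  rw [hq']
  calc _ ≤ (ENNReal.ofReal (X.κ t) * pn 2 w (fun x => ext2 (M := Q.P) (N := D.P) F q x) t) * wQ q :=
        mul_le_mul_left h1 _
    _ = _ := by ring

/-- apply the functional to all factors but the first one -/
def FW.down (X : FW D w) : ∀ j : ℕ, ((D.pw j).P → ℂ) → (D.P → ℂ)
  | 0, F => F
  | j + 1, F => X.down j (X.E (D.pw j) F)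

lemma wpw_ne_zero (hw0 : ∀ q, w q ≠ 0) : ∀ (j : ℕ) (q : (D.pw j).P), wpw w j q ≠ 0
  | 0, _ => hw0 _
  | j + 1, _ => mul_ne_zero (wpw_ne_zero hw0 j _) (hw0 _)

lemma FW.down_spec (X : FW D w) (hw : Measurable w) (hw0 : ∀ q, w q ≠ 0) : ∀ (j : ℕ)
    (F : (D.pw j).P → ℂ), Ho51.Hol F → (∀ᵐ t, pn 2 (wpw w j) F t < ∞) →
      Ho51.Hol (X.down j F) ∧ (∀ᵐ t, ‖t‖ < R → pn 2 w (X.down j F) t ≤
        ENNReal.ofReal (X.κ t) ^ j * pn 2 (wpw w j) F t)
  | 0, F, hF, hfin => ⟨hF, Eventually.of_forall fun t _ => by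
      rw [pow_zero, one_mul]; exact le_rfl⟩
  | j + 1, F, hF, hfin => by
    have h1 : Ho51.Hol (X.E (D.pw j) F) :=
      X.hol1 (D.pw j) (wpw w j) (measurable_wpw hw j) (wpw_ne_zero hw0 j) F hF hfin
    have h2 : ∀ᵐ t, ‖t‖ < R → pn 2 (wpw w j) (X.E (D.pw j) F) t ≤
        ENNReal.ofReal (X.κ t) * pn 2 (wpw w (j + 1)) F t := by
      filter_upwards [X.bd] with t hbd ht
      exact X.pn_E (D.pw j) (measurable_wpw hw j) hw hF (hbd ht)
    have h2f : ∀ᵐ t, pn 2 (wpw w j) (X.E (D.pw j) F) t < ∞ := by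
      filter_upwards [h2, hfin] with t h2 hfin
      by_cases ht : ‖t‖ < R
      · exact lt_of_le_of_lt (h2 ht) (ENNReal.mul_lt_top ENNReal.ofReal_lt_top hfin)
      · have h3 : pn 2 (wpw w j) (X.E (D.pw j) F) t = 0 := by
          unfold pn
          refine fi_out _ fun x hx => ?_
          exact ht (by rw [← hx]; exact (D.pw j).tR x)
        rw [h3]
        exact ENNReal.zero_lt_top
    obtain ⟨h3, h5⟩ := X.down_spec hw hw0 j (X.E (D.pw j) F) h1 h2f
    refine ⟨h3, ?_⟩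
    filter_upwards [h5, h2] with t h5 h2 ht
    refine (h5 ht).trans ?_
    rw [pow_succ, mul_assoc]
    exact mul_le_mul_right (h2 ht) _

lemma FW.down_zero (X : FW D w) (U : D.P → ℂ) : ∀ (j : ℕ) (c : ℂ) (F : (D.pw j).P → ℂ),
    (∀ q, tc q = 0 → F q = c * D.upw U j q) →
      ∀ x, tc x = 0 → X.down j F x = c * X.ξ 0 U ^ j * U x
  | 0, c, F, hF => fun x hx => by
    rw [pow_zero, mul_one]
    exact hF x hx
  | j + 1, c, F, hF => fun x hx => by
    have h1 : ∀ q : (D.pw j).P, tc q = 0 → X.E (D.pw j) F q = (c * X.ξ 0 U) * D.upw U j q := by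
      intro q hq
      unfold FW.E
      rw [hq]
      have h1 : X.ξ 0 (fun x : D.P => ext2 (M := (D.pw j).P) (N := D.P) F q x) =
          X.ξ 0 (fun x => (c * D.upw U j q) * U x) := by
        apply X.loc
        intro x hx
        have hc : (cp q : Fin ((D.pw j).a + 1) → ℂ) 0 = (cp x : Fin (D.a + 1) → ℂ) 0 := by
          have h2 : (cp q : Fin ((D.pw j).a + 1) → ℂ) 0 = 0 := hq
          have h3 : (cp x : Fin (D.a + 1) → ℂ) 0 = 0 := hx
          rw [h2, h3]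
        rw [ext2_of (M := (D.pw j).P) (N := D.P) F hc]
        have := hF (FP.mk' q x hc) hq
        rw [this]
        show c * (D.upw U j q * U x) = _
        ring
      rw [h1, X.hom]
      ring
    have h3 := X.down_zero U j (c * X.ξ 0 U) (X.E (D.pw j) F) h1 x hx
    show X.down j (X.E (D.pw j) F) x = _
    rw [h3, pow_succ]
    ring

/-- **plurisubharmonic variation**, general weight -/
theorem FW.pv (X : FW D w) (hw : Measurable w) (hw0 : ∀ q, w q ≠ 0) {U : D.P → ℂ}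
    {C S : ℝ≥0∞} (hC : C ≠ ∞) (hS : S ≠ ∞)
    (hext : ∀ j, ∃ F : (D.pw j).P → ℂ, Ho51.Hol F ∧ (∀ x, tc x = 0 → F x = D.upw U j x) ∧
      (∀ᵐ t, pn 2 (wpw w j) F t < ∞) ∧ ∫⁻ t, pn 2 (wpw w j) F t ≤ C * S ^ (j + 1))
    {r1 r2 : ℝ} (hr1 : 0 ≤ r1) (hr : r1 < r2) (hrR : r2 < R)
    (hκ : IntegrableOn (fun t => Real.log (X.κ t)) (Ann r1 r2))
    {c0 : ℝ} (hc0 : ∀ t ∈ Ann r1 r2, c0 ≤ Real.log (X.κ t)) :
    ‖X.ξ 0 U‖ ^ 2 ≤ Real.exp (⨍ t in Ann r1 r2, Real.log (X.κ t)) * S.toReal := by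
  set b : ℝ := Real.exp (⨍ t in Ann r1 r2, Real.log (X.κ t)) * S.toReal with hb
  have hb0 : 0 ≤ b := by positivity
  refine le_of_pow_le (c := C.toReal / volume.real (Ann r1 r2)) (by positivity) hb0 fun j => ?_
  obtain ⟨F, hF, hF0, hfin, hFb⟩ := hext j
  have hBfin : C * S ^ (j + 1) ≠ ∞ := ENNReal.mul_ne_top hC (ENNReal.pow_ne_top hS)
  obtain ⟨h1, h3⟩ := X.down_spec hw hw0 j F hF hfin
  have h2 : ∀ᵐ t, pn 2 w (X.down j F) t < ∞ := by
    filter_upwards [h3, hfin] with t h3 hfin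
    by_cases ht : ‖t‖ < R
    · exact lt_of_le_of_lt (h3 ht)
        (ENNReal.mul_lt_top (ENNReal.pow_lt_top ENNReal.ofReal_lt_top) hfin)
    · have h3 : pn 2 w (X.down j F) t = 0 := by
        unfold pn
        refine fi_out _ fun x hx => ?_
        exact ht (by rw [← hx]; exact D.tR x)
      rw [h3]
      exact ENNReal.zero_lt_top
  have hh := X.hol0 (X.down j F) h1 h2
  have hzero : X.ξ 0 (X.down j F) = X.ξ 0 U ^ (j + 1) := by
    have h4 := X.down_zero U j 1 F (fun q hq => by rw [one_mul]; exact hF0 q hq)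
    have h5 : X.ξ 0 (X.down j F) = X.ξ 0 (fun x => (1 * X.ξ 0 U ^ j) * U x) :=
      X.loc 0 _ _ h4
    rw [h5, X.hom]
    ring
  have hle : ∀ᵐ t, t ∈ Ann r1 r2 → ENNReal.ofReal (‖X.ξ t (X.down j F)‖ ^ (2 : ℝ)) ≤
      ENNReal.ofReal (Real.exp (((j + 1 : ℕ) : ℝ) * Real.log (X.κ t))) * pn 2 (wpw w j) F t := by
    filter_upwards [h3, X.bd] with t h3 hbd ht
    have htR : ‖t‖ < R := ht.2.trans hrR
    refine (hbd htR _ (Hol.fhol h1 t)).trans ?_
    refine (mul_le_mul_right (h3 htR) _).trans ?_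
    rw [← mul_assoc, ← pow_succ', ← Real.log_pow, Real.exp_log (pow_pos (X.κ_pos t) _),
      ENNReal.ofReal_pow (X.κ_pos t).le]
  have hwm := weighted_mean_p two_pos le_rfl hr1 hr hrR hh
    (u := fun t => ((j + 1 : ℕ) : ℝ) * Real.log (X.κ t))
    (hκ.const_mul _) (c0 := ((j + 1 : ℕ) : ℝ) * c0)
    (fun t ht => mul_le_mul_of_nonneg_left (hc0 t ht) (by positivity)) hBfin hFb hle
  rw [hzero, norm_pow, Real.rpow_two, ← pow_mul, mul_comm (j + 1) 2, pow_mul] at hwm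
  refine hwm.trans_eq ?_
  have h6 : ⨍ t in Ann r1 r2, ((j + 1 : ℕ) : ℝ) * Real.log (X.κ t) =
      ((j + 1 : ℕ) : ℝ) * ⨍ t in Ann r1 r2, Real.log (X.κ t) := by
    rw [setAverage_eq, setAverage_eq, integral_const_mul, smul_eq_mul, smul_eq_mul]
    ring
  rw [h6, Real.exp_nat_mul, ENNReal.toReal_mul, ENNReal.toReal_pow, hb, mul_pow]
  ring

end Crest.Agent.R276.Npv_696
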