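import Crest.Agent.R276.NpvA_696

/-!
# Row 276, leaf NPV (helper696), part B: frames and covectors, general weights
-/

set_option autoImplicit false
set_option linter.unusedSectionVars false

noncomputable section

open Set Filter Topology Complex MeasureTheory Metric
open scoped ENNReal ComplexConjugate Matrix

namespace Crest.Agent.R276.Npv_696

open Crest.Agent.R271 Crest.Agent.R271.Ho51 Crest.Agent.R271.W792
open Crest.Agent.R276.PV_159

variable {R : ℝ} {D : Dom R} {w : D.P → ℝ≥0∞} {s : ℕ}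

lemma sm_cst {n : ℕ} {P : Type} [TopologicalSpace P] [RDom n P] (c : ℝ) : Sm (fun _ : P => c) :=
  Sm.const c

/-- the same domain with constant weights `c k` -/
def cstDom (D : Dom R) (c : ℕ → ℝ) (hc : Antitone c) : Dom R where
  P := D.P
  a := D.a
  ρ := D.ρ
  ρ_sm := D.ρ_sm
  ρ_cpt := D.ρ_cpt
  ρ_lev := D.ρ_lev
  φ := fun k _ => c k
  φ_sm := fun k => Sm.const (c k)
  φ_anti := fun _ => hc
  φ_lev := fun k x w => by rw [lev_const]
  tR := D.tR

/-- functions with finite norm for the weight `∞` vanish -/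
lemma zero_of_fin (D : Dom R) {t : ℂ} {g : D.P → ℂ} (hg : FHol t g)
    (h : (cstDom D (fun k => -(k : ℝ)) (fun a b h => by
      have : (a : ℝ) ≤ b := by exact_mod_cast h
      simp only; linarith)).nrm g t < ∞) (x : D.P) (hx : tc x = t) : g x = 0 := by
  set D0 : Dom R := cstDom D (fun _ => 0) antitone_const with hD0
  set D1 : Dom R := cstDom D (fun k => -(k : ℝ)) (fun a b h => by
      have : (a : ℝ) ≤ b := by exact_mod_cast h
      simp only; linarith) with hD1
  have h1 : ∀ N : ℕ, (N : ℝ≥0∞) * D0.nrm g t ≤ D1.nrm g t := by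
    intro N
    have h2 : (N : ℝ≥0∞) * D0.nrm g t = fi (fun x => (N : ℝ≥0∞) * D0.dens g x) t :=
      (fi_const_mul (ENNReal.natCast_ne_top N)).symm
    rw [h2]
    refine fi_mono fun x _ => ?_
    unfold Dom.dens
    have h3 : (N : ℝ≥0∞) ≤ D1.wt x := by
      refine le_trans ?_ (le_iSup (fun k => ENNReal.ofReal (Real.exp (-D1.φ k x))) N)
      have h4 : (N : ℝ) ≤ Real.exp (-D1.φ N x) := by
        show (N : ℝ) ≤ Real.exp (-(-(N : ℝ)))
        rw [neg_neg]
        have := Real.add_one_le_exp (N : ℝ)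
        linarith
      calc (N : ℝ≥0∞) = ENNReal.ofReal (N : ℝ) := (ENNReal.ofReal_natCast N).symm
        _ ≤ _ := ENNReal.ofReal_le_ofReal h4
    have h5 : D0.wt x = 1 := by
      show (⨆ _ : ℕ, ENNReal.ofReal (Real.exp (-(0 : ℝ)))) = 1
      simp
    rw [h5, mul_one, mul_comm]
    exact mul_le_mul_right h3 _
  have h2 : D0.nrm g t = 0 := by
    by_contra h0
    obtain ⟨N, hN⟩ := ENNReal.exists_nat_mul_gt h0 h.ne
    exact absurd (h1 N) (not_le.2 hN)
  obtain ⟨C, hC, hb⟩ := D0.ev_bd x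
  have h3 := hb g (by
    show FHol (tc x) g
    rw [hx]; exact hg)
  have h4 : D0.nrm g (tc (P := D0.P) x) = 0 := by
    have : tc (P := D0.P) x = t := hx
    rw [this]; exact h2
  rw [h4, mul_zero] at h3
  have h5 : ‖g x‖ ^ 2 ≤ 0 := ENNReal.ofReal_eq_zero.1 (le_antisymm h3 bot_le)
  have h6 : ‖g x‖ = 0 := by
    have := norm_nonneg (g x)
    nlinarith
  exact norm_eq_zero.1 h6

/-- holomorphic frames of the spaces of holomorphic functions with finite `w`-norm -/
structure Fr (D : Dom R) (w : D.P → ℝ≥0∞) (s : ℕ) where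
  /-- the frame -/
  u : Fin s → D.P → ℂ
  hol : ∀ i, Ho51.Hol (u i)
  ind : ∀ t, ‖t‖ < R → ∀ c : Fin s → ℂ, (∀ x, tc x = t → ∑ i, c i * u i x = 0) → c = 0
  sat : ∀ᵐ t, ‖t‖ < R → ∀ g, FHol t g → pn 2 w g t < ∞ →
    ∃ c : Fin s → ℂ, ∀ x, tc x = t → g x = ∑ i, c i * u i x

/-- the frame of helper159 for the weight `∞` -/
def Fr.B0 (B : Fr D w s) : Frame (cstDom D (fun k => -(k : ℝ)) (fun a b h => by
      have : (a : ℝ) ≤ b := by exact_mod_cast h
      simp only; linarith)) s where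
  u := B.u
  hol := B.hol
  ind := B.ind
  sat := Eventually.of_forall fun t _ g hg hfin => ⟨0, fun x hx => by
    rw [zero_of_fin D hg hfin x hx]
    simp⟩

/-- `g` is a combination of the frame on the fibre over `t` -/
def Fr.In (B : Fr D w s) (t : ℂ) (g : D.P → ℂ) : Prop :=
  ∃ c : Fin s → ℂ, ∀ x, tc x = t → g x = ∑ i, c i * B.u i x

/-- the covector `ξ` as a functional -/
def Fr.fn (B : Fr D w s) (ξ : ℂ → Fin s → ℂ) (t : ℂ) (g : D.P → ℂ) : ℂ := B.B0.fn ξ t g

lemma Fr.fn_eq (B : Fr D w s) (ξ : ℂ → Fin s → ℂ) {t : ℂ} (ht : ‖t‖ < R) {g : D.P → ℂ}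
    {c : Fin s → ℂ} (h : ∀ x, tc x = t → g x = ∑ i, c i * B.u i x) :
    B.fn ξ t g = ∑ i, ξ t i * c i := B.B0.fn_eq ξ ht h

lemma Fr.fn_zero (B : Fr D w s) (ξ : ℂ → Fin s → ℂ) {t : ℂ} {g : D.P → ℂ}
    (h : ¬ (‖t‖ < R ∧ B.In t g)) : B.fn ξ t g = 0 := B.B0.fn_zero ξ h

/-- **key lemma**: holomorphic dependence of the coordinates -/
theorem Fr.hol_fn (B : Fr D w s) {ξ : ℂ → Fin s → ℂ}
    (hξ : ∀ i, DifferentiableOn ℂ (fun t => ξ t i) (ball 0 R))
    {E : Type*} [NormedAddCommGroup E] [NormedSpace ℂ E] {W : Set E} (hW : IsOpen W) {τ : E → ℂ}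
    (hτ : DifferentiableOn ℂ τ W) (hτR : ∀ z ∈ W, ‖τ z‖ < R) (Φ : E → D.P → ℂ)
    (hΦ : ∀ x : D.P, DifferentiableOn ℂ (fun z => Φ z (lsec x (τ z))) (W ∩ τ ⁻¹' ldom x))
    (hd : W ⊆ closure {z | z ∈ W ∧ B.In (τ z) (Φ z)}) :
    DifferentiableOn ℂ (fun z => B.fn ξ (τ z) (Φ z)) W :=
  B.B0.hol_fn hξ hW hτ hτR Φ hΦ hd

/-- holomorphy of the value of a covector on a holomorphic function -/
lemma Fr.hol0 (B : Fr D w s) {ξ : ℂ → Fin s → ℂ}
    (hξ : ∀ i, DifferentiableOn ℂ (fun t => ξ t i) (ball 0 R)) (G : D.P → ℂ) (hG : Ho51.Hol G)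
    (hfin : ∀ᵐ t, pn 2 w G t < ∞) : DifferentiableOn ℂ (fun t => B.fn ξ t G) (ball 0 R) := by
  have h := B.hol_fn hξ (W := ball (0 : ℂ) R) isOpen_ball (τ := fun t => t) differentiableOn_id
    (fun z hz => by rwa [mem_ball_zero_iff] at hz) (fun _ => G)
    (fun x => (hol_lsec hG x).mono inter_subset_right) (by
      have h1 : ∀ᵐ t, ‖t‖ < R → B.In t G := by
        filter_upwards [hfin, B.sat] with t h1 h2 ht
        exact h2 ht G (Hol.fhol hG t) h1
      have h2 := (dense_of_ae h1 (ball (0 : ℂ) R)).resolve_right (fun h => h isOpen_ball)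
      refine h2.trans (closure_mono ?_)
      rintro t ⟨ht, ht2⟩
      exact ⟨ht, ht2 (by rwa [mem_ball_zero_iff] at ht)⟩)
  exact h

/-- holomorphy in the other variables -/
lemma Fr.hol1 (B : Fr D w s) (hw : Measurable w) {ξ : ℂ → Fin s → ℂ}
    (hξ : ∀ i, DifferentiableOn ℂ (fun t => ξ t i) (ball 0 R)) (Q : Dom R) (wQ : Q.P → ℝ≥0∞)
    (hwQ : Measurable wQ) (hwQ0 : ∀ q, wQ q ≠ 0) (F : (Q.mul D).P → ℂ)
    (hF : Ho51.Hol F) (hfin : ∀ᵐ t, pn 2 (wmul (D := Q) (E := D) wQ w) F t < ∞) :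
    Ho51.Hol (fun q : Q.P => B.fn ξ (tc q) (fun x : D.P => ext2 (M := Q.P) (N := D.P) F q x)) := by
  intro e he
  have htc : ∀ z ∈ e.target, tc (e.symm z) = z 0 := by
    intro z hz
    unfold tc
    rw [he.cp_symm hz]
  have h0 : DifferentiableOn ℂ (fun z : Fin (Q.a + 1) → ℂ => z 0) e.target :=
    (differentiable_apply (𝕜 := ℂ) (0 : Fin (Q.a + 1))).differentiableOn
  have h := B.hol_fn hξ (W := e.target) e.open_target (τ := fun z => z 0) h0
    (fun z hz => by rw [← htc z hz]; exact Q.tR _)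
    (fun z x => ext2 (M := Q.P) (N := D.P) F (e.symm z) x) (by
      intro x
      have hVo : IsOpen (e.target ∩ (fun z : Fin (Q.a + 1) → ℂ => z 0) ⁻¹' ldom x) :=
        e.open_target.inter ((isOpen_ldom x).preimage (continuous_apply 0))
      refine ext2_hol (M := Q.P) (N := D.P) hF hVo (e.continuousOn_symm.mono inter_subset_left)
        ((cont_lsec x).comp (continuous_apply 0).continuousOn fun z hz => hz.2) ?_ ?_ ?_
      · exact (differentiableOn_id.congr fun z hz => he.cp_symm hz).mono inter_subset_left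
      · exact (diff_lsec x).comp (h0.mono inter_subset_left) fun z hz => hz.2
      · intro z hz
        have h5 := tc_lsec hz.2
        have h6 := htc z hz.1
        unfold tc at h5 h6
        rw [h5, h6]) (by
      -- density
      intro z hz
      rw [mem_closure_iff_nhds]
      intro V hV
      obtain ⟨r, hr, hrV⟩ := Metric.mem_nhds_iff.1 (inter_mem hV (e.open_target.mem_nhds hz))
      have h1 : ∀ᵐ t : ℂ, pn 2 (wmul (D := Q) (E := D) wQ w) F t < ∞ ∧
          (‖t‖ < R → ∀ g, FHol t g → pn 2 w g t < ∞ →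
          ∃ c : Fin s → ℂ, ∀ x, tc x = t → g x = ∑ i, c i * B.u i x) := by
        filter_upwards [hfin, B.sat] with t h1 h2
        exact ⟨h1, h2⟩
      have h2 := (dense_of_ae h1 (ball (z 0) r)).resolve_right (fun h => h isOpen_ball)
      obtain ⟨t, ht, ht1, ht2, ht3⟩ := mem_closure_iff_nhds.1 (h2 (mem_ball_self hr)) (ball (z 0) r)
        (isOpen_ball.mem_nhds (mem_ball_self hr))
      have h3 := ae_slice_fin Q D hwQ hw hwQ0 (T7a297.Hol.continuous hF) ht2
      set y0 : Fin Q.a → ℂ := fun i => z i.succ with hy0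
      have h4 : 0 < volume (ball y0 r) := isOpen_ball.measure_pos volume ⟨y0, mem_ball_self hr⟩
      have h5 : ∃ y ∈ ball y0 r, ∀ q : Q.P, cp q = (Fin.cons t y : Fin (Q.a + 1) → ℂ) →
          pn 2 w (fun x : D.P => ext2 (M := Q.P) (N := D.P) F q x) t < ∞ := by
        by_contra hcon
        push Not at hcon
        have h6 : ball y0 r ⊆ {y | ¬ ∀ q : Q.P, cp q = (Fin.cons t y : Fin (Q.a + 1) → ℂ) →
          pn 2 w (fun x : D.P => ext2 (M := Q.P) (N := D.P) F q x) t < ∞} := by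
          intro y hy
          obtain ⟨q, hq1, hq2⟩ := hcon y hy
          intro hall
          exact absurd (hall q hq1) (not_lt.2 hq2)
        have h7 := measure_mono (μ := volume) h6
        rw [ae_iff] at h3
        rw [h3] at h7
        exact absurd (le_antisymm h7 bot_le) h4.ne'
      obtain ⟨y, hy, hyq⟩ := h5
      set z' : Fin (Q.a + 1) → ℂ := Fin.cons t y with hz'
      have hz'b : z' ∈ ball z r := by
        rw [mem_ball, dist_pi_lt_iff hr]
        intro i
        refine Fin.cases ?_ (fun j => ?_) i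
        · exact mem_ball.1 ht
        · exact (dist_pi_lt_iff hr).1 (mem_ball.1 hy) j
      have hz't : z' ∈ e.target := (hrV hz'b).2
      refine ⟨z', (hrV hz'b).1, hz't, ?_⟩
      have htc' : tc (e.symm z') = t := htc z' hz't
      have htR : ‖t‖ < R := by rw [← htc']; exact Q.tR _
      have hsl := FHol.slice (M := Q.P) (N := D.P) hF (e.symm z')
      rw [htc'] at hsl
      exact ht3 htR _ hsl (hyq (e.symm z') (he.cp_symm hz't)))
  refine h.congr fun z hz => ?_
  show B.fn ξ (tc (e.symm z)) (fun x => ext2 (M := Q.P) (N := D.P) F (e.symm z) x) = _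
  rw [htc z hz]

/-- combinations of the frame -/
def Fr.cmb (B : Fr D w s) (c : Fin s → ℂ) (x : D.P) : ℂ := ∑ i, c i * B.u i x

lemma Fr.cmb_hol (B : Fr D w s) (c : Fin s → ℂ) : Ho51.Hol (B.cmb c) := B.B0.cmb_hol c

/-- covectors of a frame, as a family of functionals -/
def Fr.fw (B : Fr D w s) (hw : Measurable w) (ξ : ℂ → Fin s → ℂ)
    (hξ : ∀ i, DifferentiableOn ℂ (fun t => ξ t i) (ball 0 R))
    (κ : ℂ → ℝ) (hκ : ∀ t, 0 < κ t)
    (hbd : ∀ᵐ t, ‖t‖ < R → ∀ c : Fin s → ℂ,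
      ENNReal.ofReal (‖∑ i, ξ t i * c i‖ ^ (2 : ℝ)) ≤ ENNReal.ofReal (κ t) * pn 2 w (B.cmb c) t) :
    FW D w where
  ξ := B.fn ξ
  κ := κ
  κ_pos := hκ
  loc t g g' h := by
    by_cases hin : ‖t‖ < R ∧ B.In t g
    · obtain ⟨ht, c, hc⟩ := hin
      rw [B.fn_eq ξ ht hc, B.fn_eq ξ ht (c := c) fun x hx => by rw [← h x hx]; exact hc x hx]
    · rw [B.fn_zero ξ hin, B.fn_zero ξ fun h' => hin ⟨h'.1, by
        obtain ⟨c, hc⟩ := h'.2
        exact ⟨c, fun x hx => by rw [h x hx]; exact hc x hx⟩⟩]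
  hom t a g := by
    by_cases hin : ‖t‖ < R ∧ B.In t g
    · obtain ⟨ht, c, hc⟩ := hin
      rw [B.fn_eq ξ ht hc, B.fn_eq ξ ht (c := fun i => a * c i) fun x hx => by
        rw [hc x hx, Finset.mul_sum]
        exact Finset.sum_congr rfl fun i _ => by ring]
      rw [Finset.mul_sum]
      exact Finset.sum_congr rfl fun i _ => by ring
    · rw [B.fn_zero ξ hin, mul_zero]
      by_cases ha : a = 0
      · rw [ha]
        by_cases ht : ‖t‖ < R
        · rw [B.fn_eq ξ ht (c := 0) fun x hx => by simp]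
          simp
        · rw [B.fn_zero ξ fun h => ht h.1]
      · refine B.fn_zero ξ fun h' => hin ⟨h'.1, ?_⟩
        obtain ⟨c, hc⟩ := h'.2
        refine ⟨fun i => a⁻¹ * c i, fun x hx => ?_⟩
        have h2 : a * g x = ∑ i, c i * B.u i x := hc x hx
        have h3 : g x = a⁻¹ * (a * g x) := by
          rw [← mul_assoc, inv_mul_cancel₀ ha, one_mul]
        rw [h3, h2, Finset.mul_sum]
        exact Finset.sum_congr rfl fun i _ => by ring
  bd := by
    filter_upwards [hbd] with t hb ht g _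
    by_cases hin : B.In t g
    · obtain ⟨c, hc⟩ := hin
      have h1 : ∀ x, tc x = t → g x = B.cmb c x := hc
      rw [B.fn_eq ξ ht hc]
      refine (hb ht c).trans (mul_le_mul_right ?_ _)
      unfold pn
      refine fi_mono fun y hy => ?_
      rw [h1 y hy]
    · rw [B.fn_zero ξ (fun h => hin h.2)]
      rw [norm_zero, Real.zero_rpow two_ne_zero, ENNReal.ofReal_zero]
      exact bot_le
  hol0 G hG hfin := B.hol0 hξ G hG hfin
  hol1 Q wQ hwQ hwQ0 F hF hfin := B.hol1 hw hξ Q wQ hwQ hwQ0 F hF hfin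

end Crest.Agent.R276.Npv_696
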