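import Crest.Agent.R276.NpvB_696
import Crest.Agent.R276.OTB_189
import Crest.Agent.R276.LPsh_29
import Crest.Agent.R276.Restr_29

/-!
# Row 276, leaf NPV (helper696), part C: tensor powers of a weight `1/b`, `b` log-psh, and the
variation theorem over annuli
-/

set_option autoImplicit false
set_option linter.unusedSectionVars false

noncomputable section

open Set Filter Topology Complex MeasureTheory Metric
open scoped ENNReal ComplexConjugate Matrix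

namespace Crest.Agent.R276.Npv_696

open Crest.Agent.R271 Crest.Agent.R271.Ho51 Crest.Agent.R271.W792
open Crest.Agent.R276.PV_159
open Crest.Agent.R276.EngU_29 (LPsh)
open Crest.Agent.R276.OTB_189 (OTB otb_dom)

variable {R : ℝ} {D : Dom R}

/-- the weight `1/b` -/
def winv {P : Type} (b : P → ℝ) (x : P) : ℝ≥0∞ := (ENNReal.ofReal (b x))⁻¹

lemma winv_ne_zero {P : Type} (b : P → ℝ) (x : P) : winv b x ≠ 0 :=
  ENNReal.inv_ne_zero.2 ENNReal.ofReal_ne_top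

lemma winv_meas {b : D.P → ℝ} (hb : LPsh b) : Measurable (winv b) :=
  (EngU_29.LPsh.measurable hb).ennreal_ofReal.inv

/-- product of `b` over the factors -/
def tpb (b : D.P → ℝ) : ∀ j : ℕ, (D.pw j).P → ℝ
  | 0 => b
  | j + 1 => fun p => tpb b j (FP.fst (M := (D.pw j).P) (N := D.P) p) *
      b (FP.snd (M := (D.pw j).P) (N := D.P) p)

lemma tpb_nonneg {b : D.P → ℝ} (hb : ∀ x, 0 ≤ b x) : ∀ (j : ℕ) (p : (D.pw j).P), 0 ≤ tpb b j p
  | 0, p => hb p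
  | j + 1, _ => mul_nonneg (tpb_nonneg hb j _) (hb _)

lemma tpb_lpsh {b : D.P → ℝ} (hb : LPsh b) : ∀ j : ℕ, LPsh (tpb b j : (D.pw j).P → ℝ)
  | 0 => hb
  | j + 1 => EngU_29.LPsh.mul
      (EngU_29.LPsh.comp_hol (Restr_29.HolMap.of_mor
        (FP.mor_fst (M := (D.pw j).P) (N := D.P))) (tpb_lpsh hb j))
      (EngU_29.LPsh.comp_hol (Restr_29.HolMap.of_mor
        (FP.mor_snd (M := (D.pw j).P) (N := D.P))) hb)

lemma wpw_winv {b : D.P → ℝ} (hb : ∀ x, 0 ≤ b x) : ∀ (j : ℕ) (p : (D.pw j).P),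
    wpw (winv b) j p = winv (tpb b j) p
  | 0, _ => rfl
  | j + 1, p => by
    show wpw (winv b) j (FP.fst (M := (D.pw j).P) (N := D.P) p) *
      winv b (FP.snd (M := (D.pw j).P) (N := D.P) p) = _
    rw [wpw_winv hb j]
    unfold winv
    rw [← ENNReal.mul_inv (Or.inr ENNReal.ofReal_ne_top) (Or.inl ENNReal.ofReal_ne_top),
      ← ENNReal.ofReal_mul (tpb_nonneg hb j _)]
    rfl

local instance instMFP4 {a b : ℕ} {M N : Type} [TopologicalSpace M] [TopologicalSpace N]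
    [RDom (a + 1) M] [RDom (b + 1) N] : MeasurableSpace (FP M N) := borel _
local instance instBFP4 {a b : ℕ} {M N : Type} [TopologicalSpace M] [TopologicalSpace N]
    [RDom (a + 1) M] [RDom (b + 1) N] : BorelSpace (FP M N) := ⟨rfl⟩

/-- norms of tensors -/
lemma pn_tensor (Q E : Dom R) {wQ : Q.P → ℝ≥0∞} {w : E.P → ℝ≥0∞} (hwQ : Measurable wQ)
    (hw : Measurable w) (V : Q.P → ℂ) (U : E.P → ℂ) (hV : Continuous V)
    (hU : Continuous U) (t : ℂ) :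
    pn 2 (wmul (D := Q) (E := E) wQ w) (fun p : (Q.mul E).P =>
      V (FP.fst (M := Q.P) (N := E.P) p) * U (FP.snd (M := Q.P) (N := E.P) p)) t
      = pn 2 wQ V t * pn 2 w U t := by
  set F : (Q.mul E).P → ℂ := fun p => V (FP.fst (M := Q.P) (N := E.P) p) *
    U (FP.snd (M := Q.P) (N := E.P) p) with hF
  have hFc : Continuous F := (hV.comp FP.cont_fst).mul (hU.comp FP.cont_snd)
  have hm : Measurable (fun x : (Q.mul E).P => ENNReal.ofReal (‖F x‖ ^ (2 : ℝ)) *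
      wmul (D := Q) (E := E) wQ w x) := measurable_pden (by norm_num) (measurable_wmul hwQ hw) hFc
  have hmU : Measurable (fun x : E.P => ENNReal.ofReal (‖U x‖ ^ (2 : ℝ)) * w x) :=
    measurable_pden (by norm_num) hw hU
  have hmV : Measurable (fun x : Q.P => ENNReal.ofReal (‖V x‖ ^ (2 : ℝ)) * wQ x) :=
    measurable_pden (by norm_num) hwQ hV
  have hfub : pn 2 (wmul (D := Q) (E := E) wQ w) F t = fi (fun m : Q.P => fi (fun n : E.P =>
      ext2 (M := Q.P) (N := E.P) (fun x : (Q.mul E).P => ENNReal.ofReal (‖F x‖ ^ (2 : ℝ)) *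
      wmul (D := Q) (E := E) wQ w x) m n) t) t :=
    fi_FP (M := Q.P) (N := E.P) hm t
  have h1 : ∀ m : Q.P, tc m = t → fi (fun n : E.P =>
      ext2 (M := Q.P) (N := E.P) (fun x : (Q.mul E).P => ENNReal.ofReal (‖F x‖ ^ (2 : ℝ)) *
      wmul (D := Q) (E := E) wQ w x) m n) t =
        ENNReal.ofReal (‖V m‖ ^ (2 : ℝ)) * wQ m * pn 2 w U t := by
    intro m hm'
    unfold pn
    rw [← fi_const_mul_meas hmU]
    refine fi_congr fun n hn => ?_
    have h : (cp m : Fin (Q.a + 1) → ℂ) 0 = (cp n : Fin (E.a + 1) → ℂ) 0 := by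
      rw [hn]; exact hm'
    rw [ext2_of (M := Q.P) (N := E.P) _ h]
    unfold wmul
    show ENNReal.ofReal (‖V m * U n‖ ^ (2 : ℝ)) * (wQ m * w n) = _
    rw [norm_mul, Real.mul_rpow (norm_nonneg _) (norm_nonneg _),
      ENNReal.ofReal_mul (by positivity)]
    ring
  rw [hfub]
  calc fi (fun m : Q.P => fi (fun n : E.P =>
      ext2 (M := Q.P) (N := E.P) (fun x : (Q.mul E).P => ENNReal.ofReal (‖F x‖ ^ (2 : ℝ)) *
      wmul (D := Q) (E := E) wQ w x) m n) t) t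
      = fi (fun m => pn 2 w U t * (ENNReal.ofReal (‖V m‖ ^ (2 : ℝ)) * wQ m)) t :=
        fi_congr fun m hm' => by rw [h1 m hm', mul_comm]
    _ = pn 2 w U t * pn 2 wQ V t := fi_const_mul_meas hmV t _
    _ = _ := mul_comm _ _

lemma pn_upw {w : D.P → ℝ≥0∞} (hw : Measurable w) {U : D.P → ℂ} (hU : W792.Hol U) (t : ℂ) :
    ∀ j, pn 2 (wpw w j) (D.upw U j) t = pn 2 w U t ^ (j + 1)
  | 0 => by rw [zero_add, pow_one]; rfl
  | j + 1 => by
    have h1 := pn_tensor (D.pw j) D (measurable_wpw hw j) hw (D.upw U j) U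
      (Dom.upw_cont hU j) hU.sm.continuous t
    have h2 := pn_upw hw hU t j
    rw [h2] at h1
    rw [pow_succ (pn 2 w U t) (j + 1)]
    exact h1

/-- extension of the tensor powers -/
theorem ext_upw (hOT : OTB R) {b : D.P → ℝ} (hb : LPsh b) {U : D.P → ℂ} (hU : W792.Hol U)
    (hfin : pn 2 (winv b) U 0 ≠ ∞) : ∃ C : ℝ≥0∞, C ≠ ∞ ∧
    ∀ j, ∃ F : (D.pw j).P → ℂ, Ho51.Hol F ∧ (∀ x, tc x = 0 → F x = D.upw U j x) ∧
      (∀ᵐ t, pn 2 (wpw (winv b) j) F t < ∞) ∧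
      ∫⁻ t, pn 2 (wpw (winv b) j) F t ≤ C * pn 2 (winv b) U 0 ^ (j + 1) := by
  obtain ⟨C, hC, h⟩ := hOT
  refine ⟨C, hC, fun j => ?_⟩
  have hUj := Dom.upw_hol (D := D) hU j
  obtain ⟨F, hF, hF0, hFb⟩ := h (D.pw j) (tpb b j) (tpb_lpsh hb j) (D.upw U j)
    (Hol.fhol (hol_to _ hUj) 0)
  have hconv : ∀ (G : (D.pw j).P → ℂ) (t : ℂ),
      fi (fun x => ENNReal.ofReal (‖G x‖ ^ 2) / ENNReal.ofReal (tpb b j x)) t =
        pn 2 (wpw (winv b) j) G t := by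
    intro G t
    unfold pn
    refine fi_congr fun x _ => ?_
    rw [wpw_winv hb.nonneg, Real.rpow_two, div_eq_mul_inv]
    rfl
  simp only [hconv] at hFb
  rw [pn_upw (winv_meas hb) hU 0 j] at hFb
  refine ⟨F, hF, hF0, ?_, hFb⟩
  have hm : Measurable fun t => pn 2 (wpw (winv b) j) F t := by
    unfold pn
    exact measurable_fi (measurable_pden (by norm_num) (measurable_wpw (winv_meas hb) j)
      (T7a297.Hol.continuous hF))
  exact ae_lt_top hm (ne_top_of_le_ne_top (ENNReal.mul_ne_top hC (ENNReal.pow_ne_top hfin)) hFb)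

variable {s : ℕ}

/-- **variation of covectors over annuli** -/
theorem pv_ann (hR : 0 < R) {b : D.P → ℝ} (hb : LPsh b) (B : Fr D (winv b) s) (ξ : ℂ → Fin s → ℂ)
    (hξ : ∀ i, DifferentiableOn ℂ (fun t => ξ t i) (ball 0 R))
    (κ : ℂ → ℝ) (hκ : ∀ t, 0 < κ t)
    (hbd : ∀ᵐ t, ‖t‖ < R → ∀ c : Fin s → ℂ,
      ENNReal.ofReal (‖∑ i, ξ t i * c i‖ ^ (2 : ℝ)) ≤
        ENNReal.ofReal (κ t) * pn 2 (winv b) (B.cmb c) t)
    {r1 r2 : ℝ} (hr1 : 0 ≤ r1) (hr : r1 < r2) (hrR : r2 < R)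
    (hκi : IntegrableOn (fun t => Real.log (κ t)) (Ann r1 r2))
    {c0 : ℝ} (hc0 : ∀ t ∈ Ann r1 r2, c0 ≤ Real.log (κ t)) (c : Fin s → ℂ)
    (hc : pn 2 (winv b) (B.cmb c) 0 ≠ ∞) :
    ‖∑ i, ξ 0 i * c i‖ ^ 2 ≤
      Real.exp (⨍ t in Ann r1 r2, Real.log (κ t)) * (pn 2 (winv b) (B.cmb c) 0).toReal := by
  have hm := winv_meas hb
  obtain ⟨C, hC, h⟩ := ext_upw (otb_dom hR) hb (hol_of _ (B.cmb_hol c)) hc
  have h1 := (B.fw hm ξ hξ κ hκ hbd).pv hm (winv_ne_zero b) (U := B.cmb c) hC hc h hr1 hr hrR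
    hκi hc0
  have h2 : (B.fw hm ξ hξ κ hκ hbd).ξ 0 (B.cmb c) = ∑ i, ξ 0 i * c i :=
    B.fn_eq ξ (by rwa [norm_zero]) fun x _ => rfl
  rw [h2] at h1
  exact h1

end Crest.Agent.R276.Npv_696
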