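import Crest.Agent.R276.NpvC_696
import Crest.Agent.R276.Ann_696
import Crest.Agent.R276.NBcore_696
import Crest.Agent.R276.Fdc_999

/-!
# Row 276, leaf NPV (helper696), part D: Gram matrices; from annuli to circles
-/

set_option autoImplicit false
set_option linter.unusedSectionVars false

noncomputable section

open Set Filter Topology Complex MeasureTheory Metric
open scoped ENNReal ComplexConjugate Matrix ComplexOrder

namespace Crest.Agent.R276.Npv_696

open Crest.Agent.R271 Crest.Agent.R271.Ho51 Crest.Agent.R271.W792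
open Crest.Agent.R276.PV_159
open Crest.Agent.R276.EngU_29 (LPsh)
open Crest.Agent.R276.OTB_189 (OTB otb_dom)
open Crest.Agent.R276.Nc_999 (qf)
open Crest.Agent.R276.Fdc_999 (dN)
open Real (circleAverage)

/-! ### annuli to circles -/

/-- annulus averages of a function, continuous near the circle of radius `r`, converge to the
circle average -/
theorem le_circle_of_Ann {f : ℂ → ℝ} {R r c : ℝ} (hr : 0 < r) (hrR : r < R)
    (hf : ContinuousOn f (ball 0 R))
    (h : ∀ r2, r < r2 → r2 < R → c ≤ ⨍ t in Ann r r2, f t) : c ≤ circleAverage f 0 r := by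
  by_contra hcon
  rw [not_le] at hcon
  set ε : ℝ := (c - circleAverage f 0 r) / 2 with hε
  have hεp : 0 < ε := by rw [hε]; linarith
  set R' : ℝ := (r + R) / 2 with hR'
  have hrR' : r < R' := by rw [hR']; linarith
  have hR'R : R' < R := by rw [hR']; linarith
  have hK : IsCompact (closedBall (0 : ℂ) R') := isCompact_closedBall 0 R'
  have hsub : closedBall (0 : ℂ) R' ⊆ ball 0 R := closedBall_subset_ball hR'R
  have hfK : ContinuousOn f (closedBall 0 R') := hf.mono hsub
  obtain ⟨K, hKb⟩ := hK.exists_bound_of_continuousOn hfK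
  have huc : UniformContinuousOn f (closedBall 0 R') := hK.uniformContinuousOn_of_continuous hfK
  obtain ⟨δ, hδ, hδ'⟩ := Metric.uniformContinuousOn_iff.1 huc ε hεp
  set r2 : ℝ := min (r + δ) R' with hr2
  have hr2r : r < r2 := lt_min (by linarith) hrR'
  have hr2R' : r2 ≤ R' := min_le_right _ _
  set g : ℂ → ℝ := (closedBall (0 : ℂ) R').indicator f with hg
  have hgm : Measurable g := by
    classical
    have h0 := hfK.measurable_piecewise (g := fun _ => (0 : ℝ)) continuousOn_const
      isClosed_closedBall.measurableSet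
    have h1 : (closedBall (0 : ℂ) R').piecewise f (fun _ => (0 : ℝ)) =
        (closedBall (0 : ℂ) R').indicator f := by
      funext x
      by_cases hx : x ∈ closedBall (0 : ℂ) R'
      · rw [piecewise_eq_of_mem _ _ _ hx, indicator_of_mem hx]
      · rw [piecewise_eq_of_notMem _ _ _ hx, indicator_of_notMem hx]
    rwa [h1] at h0
  have hK0 : 0 ≤ K := (norm_nonneg _).trans (hKb 0 (mem_closedBall_self (by linarith)))
  have hgb : ∀ t, |g t| ≤ K := by
    intro t
    by_cases ht : t ∈ closedBall (0 : ℂ) R'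
    · rw [hg, indicator_of_mem ht]
      exact hKb t ht
    · rw [hg, indicator_of_notMem ht, abs_zero]
      exact hK0
  have hmemρ : ∀ {ρ θ : ℝ}, 0 < ρ → ρ ≤ R' → circleMap 0 ρ θ ∈ closedBall (0 : ℂ) R' := by
    intro ρ θ h0 h1
    rw [mem_closedBall_zero_iff, norm_circleMap_zero, abs_of_pos h0]
    exact h1
  have hgf : ∀ ρ, 0 < ρ → ρ ≤ R' → circleAverage g 0 ρ = circleAverage f 0 ρ := by
    intro ρ h0 h1
    rw [Real.circleAverage_def, Real.circleAverage_def]
    congr 1
    refine intervalIntegral.integral_congr fun θ _ => ?_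
    simp only [hg]
    rw [indicator_of_mem (hmemρ h0 h1)]
  have hcont : ∀ ρ, 0 < ρ → ρ ≤ R' → Continuous fun θ : ℝ => f (circleMap 0 ρ θ) := by
    intro ρ h0 h1
    rw [← continuousOn_univ]
    exact hfK.comp (continuous_circleMap 0 ρ).continuousOn fun θ _ => hmemρ h0 h1
  have hmean : ∀ ρ, r < ρ → ρ < r2 → circleAverage f 0 ρ ≤ circleAverage f 0 r + ε := by
    intro ρ h0 h1
    have hρ0 : 0 < ρ := hr.trans h0
    have hρR : ρ ≤ R' := (h1.le).trans hr2R'
    have h2 : circleAverage (fun z => f z + ε) 0 r = circleAverage f 0 r + ε := by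
      rw [Real.circleAverage_def, Real.circleAverage_def]
      rw [intervalIntegral.integral_add ((hcont r hr hrR'.le).intervalIntegrable _ _)
        intervalIntegrable_const, intervalIntegral.integral_const]
      simp only [smul_eq_mul, sub_zero]
      have := Real.pi_pos
      field_simp
    rw [← h2, Real.circleAverage_def, Real.circleAverage_def]
    simp only [smul_eq_mul]
    refine mul_le_mul_of_nonneg_left ?_ (by positivity)
    refine intervalIntegral.integral_mono_on (by positivity)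
      ((hcont ρ hρ0 hρR).intervalIntegrable _ _)
      (((hcont r hr hrR'.le).add continuous_const).intervalIntegrable _ _) fun θ _ => ?_
    have h3 : dist (circleMap 0 ρ θ) (circleMap 0 r θ) < δ := by
      rw [dist_eq_norm, circleMap_zero, circleMap_zero, ← sub_mul, norm_mul,
        Complex.norm_exp_ofReal_mul_I, mul_one, ← Complex.ofReal_sub, Complex.norm_real,
        Real.norm_eq_abs, abs_of_pos (by linarith)]
      have : ρ < r + δ := lt_of_lt_of_le h1 (min_le_left _ _)
      linarith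
    have h4 := hδ' _ (hmemρ hρ0 hρR) _ (hmemρ (θ := θ) hr hrR'.le) h3
    rw [Real.dist_eq] at h4
    have := (abs_lt.1 h4).2
    linarith
  have havg : ⨍ t in Ann r r2, g t ≤ circleAverage f 0 r + ε := by
    refine Ann_696.avg_Ann_le hgm hgb hr.le hr2r fun t ht => ?_
    have ht0 : 0 < ‖t‖ := hr.trans ht.1
    have h5 : ∫ θ, g (Crest.Agent.R275.FL606.ang θ * t) ∂Crest.Agent.R275.FL606.circ =
        circleAverage g 0 ‖t‖ := by
      have h3 := Crest.Agent.R275.FL606.av_eq_circleAverage g 0 t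
      rw [Crest.Agent.R275.FL606.av] at h3
      simp only [zero_add, smul_eq_mul] at h3
      rw [h3]
      rw [Real.circleAverage_def, Real.circleAverage_eq_integral_add (Complex.arg t)]
      congr 2
      funext θ
      congr 1
      rw [circleMap_zero, circleMap_zero]
      push_cast
      rw [add_mul, Complex.exp_add]
      conv_lhs => rw [← Complex.norm_mul_exp_arg_mul_I t]
      simp only [one_mul]
      ring
    rw [h5, hgf _ ht0 (ht.2.le.trans hr2R')]
    exact hmean _ ht.1 ht.2
  have heq : ⨍ t in Ann r r2, g t = ⨍ t in Ann r r2, f t := by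
    rw [setAverage_eq, setAverage_eq]
    congr 1
    refine setIntegral_congr_fun (measurableSet_Ann r r2) fun t ht => ?_
    simp only [hg]
    rw [indicator_of_mem]
    rw [mem_closedBall_zero_iff]
    exact ht.2.le.trans hr2R'
  have h6 := h r2 hr2r (lt_of_le_of_lt hr2R' hR'R)
  rw [← heq] at h6
  have : c ≤ circleAverage f 0 r + ε := h6.trans havg
  rw [hε] at this
  linarith

/-! ### Gram matrices -/

variable {s : ℕ}

lemma pair_le {W : Matrix (Fin s) (Fin s) ℂ} (hW : W.PosDef) (ξ c : Fin s → ℂ) :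
    ‖∑ i, ξ i * c i‖ ^ 2 ≤ dN W ξ * qf W c := by
  have h := Nc_999.cs hW (star ξ) c
  rw [Matrix.star_dotProduct_star, norm_star, mul_comm] at h
  exact h

lemma pair_eq {W : Matrix (Fin s) (Fin s) ℂ} (hW : W.PosDef) (ξ : Fin s → ℂ) :
    ‖∑ i, ξ i * (W⁻¹ *ᵥ star ξ) i‖ = dN W ξ ∧ qf W (W⁻¹ *ᵥ star ξ) = dN W ξ := by
  obtain ⟨h1, h2⟩ := Nc_999.cs_eq hW (star ξ)
  refine ⟨?_, h2⟩
  rw [Matrix.star_dotProduct_star] at h1
  have h3 : ‖star (ξ ⬝ᵥ (W⁻¹ *ᵥ star ξ))‖ = ‖((qf W⁻¹ (star ξ) : ℝ) : ℂ)‖ := by rw [h1]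
  rw [norm_star, Complex.norm_real, Real.norm_eq_abs,
    abs_of_nonneg (Nc_999.qf_nonneg hW.inv _)] at h3
  exact h3

variable {R : ℝ} {D : Dom R}

/-- **variation of Gram matrices over annuli** -/
theorem npv_ann (hR : 0 < R) {b : D.P → ℝ} (hb : LPsh b) (B : Fr D (winv b) s)
    {G : ℂ → Matrix (Fin s) (Fin s) ℂ} (hGc : ContinuousOn G (ball 0 R))
    (hGp : ∀ t ∈ ball (0 : ℂ) R, (G t).PosDef)
    (hG : ∀ t, ‖t‖ < R → ∀ c, pn 2 (winv b) (B.cmb c) t = ENNReal.ofReal (qf (G t) c))
    {ξ : ℂ → Fin s → ℂ} (hξ : ∀ i, DifferentiableOn ℂ (fun t => ξ t i) (ball 0 R)) {η : ℝ}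
    (hη : 0 < η) {r1 r2 : ℝ} (hr1 : 0 ≤ r1) (hr : r1 < r2) (hrR : r2 < R) :
    dN (G 0) (ξ 0) ≤
      Real.exp (⨍ t in Ann r1 r2, Real.log (max (dN (G t) (ξ t)) 0 + η)) := by
  have hξc : ContinuousOn ξ (ball 0 R) := continuousOn_pi.2 fun i => (hξ i).continuousOn
  have hκc : ContinuousOn (fun t => max (dN (G t) (ξ t)) 0 + η) (ball 0 R) :=
    ((Fdc_999.dN_contOn hGc hGp hξc).sup continuousOn_const).add continuousOn_const
  have hpos : ∀ t, 0 < max (dN (G t) (ξ t)) 0 + η := fun t => by
    have := le_max_right (dN (G t) (ξ t)) 0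
    linarith
  have hlc : ContinuousOn (fun t => Real.log (max (dN (G t) (ξ t)) 0 + η)) (ball 0 R) :=
    hκc.log fun t _ => (hpos t).ne'
  have hsub : closedBall (0 : ℂ) r2 ⊆ ball 0 R := closedBall_subset_ball hrR
  have hint : IntegrableOn (fun t => Real.log (max (dN (G t) (ξ t)) 0 + η)) (Ann r1 r2) :=
    ((hlc.mono hsub).integrableOn_compact (isCompact_closedBall 0 r2)).mono_set (Ann_sub r1 r2)
  have h0 : (0 : ℂ) ∈ ball (0 : ℂ) R := mem_ball_self hR
  set c := (G 0)⁻¹ *ᵥ star (ξ 0) with hc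
  obtain ⟨e1, e2⟩ := pair_eq (hGp 0 h0) (ξ 0)
  have hn : pn 2 (winv b) (B.cmb c) 0 = ENNReal.ofReal (dN (G 0) (ξ 0)) := by
    rw [hG 0 (by rwa [norm_zero]) c, hc, e2]
  have hdn := Fdc_999.dN_nonneg (hGp 0 h0) (ξ 0)
  have key := pv_ann hR hb B ξ hξ (fun t => max (dN (G t) (ξ t)) 0 + η) hpos
    (Eventually.of_forall fun t ht c => by
      have h1 := pair_le (hGp t (mem_ball_zero_iff.2 ht)) (ξ t) c
      have h2 := Nc_999.qf_nonneg (hGp t (mem_ball_zero_iff.2 ht)) c
      rw [hG t ht c, ← ENNReal.ofReal_mul (hpos t).le, Real.rpow_two]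
      refine ENNReal.ofReal_le_ofReal (h1.trans ?_)
      refine mul_le_mul_of_nonneg_right ?_ h2
      have := le_max_left (dN (G t) (ξ t)) 0
      linarith)
    hr1 hr hrR hint (c0 := Real.log η) (fun t _ => by
      refine Real.log_le_log hη ?_
      have := le_max_right (dN (G t) (ξ t)) 0
      linarith) c (by rw [hn]; exact ENNReal.ofReal_ne_top)
  rw [hn, ENNReal.toReal_ofReal hdn, hc, e1] at key
  rcases eq_or_lt_of_le hdn with h | h
  · rw [← h]; exact (Real.exp_pos _).le
  · rw [sq] at key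
    exact le_of_mul_le_mul_right key h

/-- **variation of Gram matrices**: circle form, centre `0` -/
theorem npv_circle {b : D.P → ℝ} (hb : LPsh b) (B : Fr D (winv b) s)
    {G : ℂ → Matrix (Fin s) (Fin s) ℂ} (hGc : ContinuousOn G (ball 0 R))
    (hGp : ∀ t ∈ ball (0 : ℂ) R, (G t).PosDef)
    (hG : ∀ t, ‖t‖ < R → ∀ c, pn 2 (winv b) (B.cmb c) t = ENNReal.ofReal (qf (G t) c))
    {ξ : ℂ → Fin s → ℂ} (hξ : ∀ i, DifferentiableOn ℂ (fun t => ξ t i) (ball 0 R)) {δ : ℝ}
    (hδ : 0 < δ) {r : ℝ} (hr : 0 < r) (hrR : r < R) :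
    Real.log (dN (G 0) (ξ 0) + δ) ≤
      circleAverage (fun t => Real.log (dN (G t) (ξ t) + δ)) 0 r := by
  have hR : 0 < R := hr.trans hrR
  have h0 : (0 : ℂ) ∈ ball (0 : ℂ) R := mem_ball_self hR
  have hξc : ContinuousOn ξ (ball 0 R) := continuousOn_pi.2 fun i => (hξ i).continuousOn
  have hdc : ContinuousOn (fun t => dN (G t) (ξ t)) (ball 0 R) := Fdc_999.dN_contOn hGc hGp hξc
  have hsph : sphere (0 : ℂ) r ⊆ ball 0 R := by
    intro t ht
    rw [mem_sphere_zero_iff_norm] at ht
    rw [mem_ball_zero_iff, ht]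
    exact hrR
  have hnn : ∀ t ∈ ball (0 : ℂ) R, 0 ≤ dN (G t) (ξ t) := fun t ht =>
    Fdc_999.dN_nonneg (hGp t ht) (ξ t)
  have hd0 := hnn 0 h0
  -- circle inequality with `η` on the right only
  have step : ∀ η, 0 < η → dN (G 0) (ξ 0) ≤
      Real.exp (circleAverage (fun t => Real.log (dN (G t) (ξ t) + η)) 0 r) := by
    intro η hη
    rcases eq_or_lt_of_le hd0 with h | h
    · rw [← h]; exact (Real.exp_pos _).le
    · rw [← Real.log_le_iff_le_exp h]
      have hκc : ContinuousOn (fun t => max (dN (G t) (ξ t)) 0 + η) (ball 0 R) :=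
        (hdc.sup continuousOn_const).add continuousOn_const
      have h1 := le_circle_of_Ann (f := fun t => Real.log (max (dN (G t) (ξ t)) 0 + η)) hr hrR
        (hκc.log fun t _ => by
          have := le_max_right (dN (G t) (ξ t)) 0
          linarith) (c := Real.log (dN (G 0) (ξ 0))) (fun r2 h1 h2 => by
            rw [Real.log_le_iff_le_exp h]
            exact npv_ann hR hb B hGc hGp hG hξ hη hr.le h1 h2)
      refine h1.trans (le_of_eq ?_)
      rw [Real.circleAverage_def, Real.circleAverage_def]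
      congr 1
      refine intervalIntegral.integral_congr fun θ _ => ?_
      have hm : circleMap 0 r θ ∈ ball (0 : ℂ) R := hsph (by
        rw [mem_sphere_zero_iff_norm, norm_circleMap_zero, abs_of_pos hr])
      rw [max_eq_left (hnn _ hm)]
  -- superadditivity
  have step2 : ∀ η, 0 < η → η < δ → dN (G 0) (ξ 0) + (δ - η) ≤
      Real.exp (circleAverage (fun t => Real.log (dN (G t) (ξ t) + δ)) 0 r) := by
    intro η hη hηδ
    have h1 := NBcore_696.geom_superadd hr (hdc.mono hsph) (fun t ht => hnn t (hsph ht)) hη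
      (c := δ - η) (by linarith)
    have h2 : η + (δ - η) = δ := by ring
    rw [h2] at h1
    have := step η hη
    linarith
  have h3 : dN (G 0) (ξ 0) + δ ≤
      Real.exp (circleAverage (fun t => Real.log (dN (G t) (ξ t) + δ)) 0 r) := by
    refine le_of_forall_pos_le_add fun ε hε => ?_
    have h4 := step2 (min ε (δ / 2)) (lt_min hε (by linarith))
      (lt_of_le_of_lt (min_le_right _ _) (by linarith))
    have h5 : min ε (δ / 2) ≤ ε := min_le_left _ _
    linarith
  rwa [Real.log_le_iff_le_exp (by linarith)]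

end Crest.Agent.R276.Npv_696
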