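import Crest.Agent.R276.NpvD_696

/-!
# Row 276, leaf NPV (helper696), part E: other centres

`shift D c h : Dom R'` : the part of `D` over the disc of centre `c` and radius `R'`, with centre `c`
moved to `0`.  Main theorem: `npv`.
-/

set_option autoImplicit false
set_option linter.unusedSectionVars false

noncomputable section

open Set Filter Topology Complex MeasureTheory Metric
open scoped ENNReal ComplexConjugate Matrix ComplexOrder

namespace Crest.Agent.R276.Npv_696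

open Crest.Agent.R271 Crest.Agent.R271.Ho51 Crest.Agent.R271.W792
open Crest.Agent.R276.PV_159
open Crest.Agent.R276.EngU_29 (LPsh)
open Crest.Agent.R276.Nc_999 (qf)
open Crest.Agent.R276.Fdc_999 (dN)
open Real (circleAverage)

variable {R : ℝ}

/-- the points over the disc of centre `c` and radius `R'` -/
def ShP (D : Dom R) (c : ℂ) (R' : ℝ) : Type := {x : D.P // ‖tc x - c‖ < R'}

instance (D : Dom R) (c : ℂ) (R' : ℝ) : TopologicalSpace (ShP D c R') :=
  inferInstanceAs (TopologicalSpace {x : D.P // ‖tc x - c‖ < R'})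
instance (D : Dom R) (c : ℂ) (R' : ℝ) : T2Space (ShP D c R') :=
  inferInstanceAs (T2Space {x : D.P // ‖tc x - c‖ < R'})
instance (D : Dom R) (c : ℂ) (R' : ℝ) : SecondCountableTopology (ShP D c R') :=
  TopologicalSpace.Subtype.secondCountableTopology {x : D.P | ‖tc x - c‖ < R'}

/-- the underlying point -/
def ShP.v {D : Dom R} {c : ℂ} {R' : ℝ} (y : ShP D c R') : D.P := y.1

lemma ShP.cont_v {D : Dom R} {c : ℂ} {R' : ℝ} : Continuous (ShP.v : ShP D c R' → D.P) :=
  continuous_subtype_val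

lemma isOpen_ShP (D : Dom R) (c : ℂ) (R' : ℝ) : IsOpen {x : D.P | ‖tc x - c‖ < R'} :=
  isOpen_lt ((cont_tc.sub continuous_const).norm) continuous_const

/-- translation vector -/
def cv {a : ℕ} (c : ℂ) : Fin (a + 1) → ℂ := Fin.cons c 0

instance (D : Dom R) (c : ℂ) (R' : ℝ) : RDom (D.a + 1) (ShP D c R') where
  p y := cp y.v - cv c
  hp := by
    have h1 : IsLocalHomeomorph (fun z : Fin (D.a + 1) → ℂ => z - cv c) :=
      (Homeomorph.subRight (cv c)).isLocalHomeomorph
    have h2 : IsLocalHomeomorph (ShP.v : ShP D c R' → D.P) :=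
      (isOpen_ShP D c R').isOpenEmbedding_subtypeVal.isLocalHomeomorph
    exact h1.comp (cp_lh.comp h2)

variable {D : Dom R} {c : ℂ} {R' : ℝ}

lemma cp_ShP (y : ShP D c R') : (cp y : Fin (D.a + 1) → ℂ) = cp y.v - cv c := rfl

lemma mor_v : Mor (cv c) (ContinuousLinearMap.id ℂ (Fin (D.a + 1) → ℂ))
    (ShP.v : ShP D c R' → D.P) where
  cont := ShP.cont_v
  eq y := by
    rw [cp_ShP]
    simp

lemma tc_ShP (y : ShP D c R') : tc y = tc y.v - c := by
  unfold tc
  rw [cp_ShP]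
  rfl

lemma norm_tc_ShP (y : ShP D c R') : ‖tc y‖ < R' := by
  rw [tc_ShP]
  exact y.2

/-- the auxiliary exhaustion `(R'² - |t|²)⁻¹` -/
def xi (D : Dom R) (c : ℂ) (R' : ℝ) (k : ℕ) (y : ShP D c R') : ℝ := ((R' ^ 2 - ‖tc y‖ ^ 2) ^ k)⁻¹

lemma gap_pos (y : ShP D c R') : 0 < R' ^ 2 - ‖tc y‖ ^ 2 := by
  have h1 := norm_tc_ShP y
  have h2 := norm_nonneg (tc y)
  nlinarith

lemma sm_ntc : Sm (fun y : ShP D c R' => ‖tc y‖ ^ 2) := Hol.sm_normSq (hol_tc (P := ShP D c R')).sm

lemma sm_xi (k : ℕ) : Sm (xi D c R' k) := by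
  intro y
  have h0 := sm_ntc (D := D) (c := c) (R' := R') y
  have h1 : (R' ^ 2 - ((fun y : ShP D c R' => ‖tc y‖ ^ 2) ∘ (ch y).symm) (cp y)) ^ k ≠ 0 := by
    have : ((fun y : ShP D c R' => ‖tc y‖ ^ 2) ∘ (ch y).symm) (cp y) = ‖tc y‖ ^ 2 := by
      simp only [Function.comp_apply]
      rw [symm_cp]
    rw [this]
    exact pow_ne_zero _ (gap_pos y).ne'
  exact (((contDiffAt_const.sub h0).pow k).inv h1)

lemma lev_xi (y : ShP D c R') (w : Fin (D.a + 1) → ℂ) : 0 ≤ lev (xi D c R' 1) y w := by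
  set σ : ShP D c R' → ℝ := fun y => ‖tc y‖ ^ 2 with hσ
  have hs1 : Sm σ := sm_ntc
  have hpos := gap_pos y
  set A : ℝ := R' ^ 2 with hA
  have hlt : σ y < A := by
    have : 0 < A - σ y := hpos
    linarith
  have e : xi D c R' 1 = fun y => (fun t => (A - t)⁻¹) (σ y) := by
    funext y
    simp [xi, hA, hσ]
  rw [e]
  have hd0 : ∀ t : ℝ, HasDerivAt (fun t : ℝ => A - t) (-1) t := fun t => by
    simpa using (hasDerivAt_id t).const_sub A
  have hd1 : ∀ t : ℝ, t < A → HasDerivAt (fun t => (A - t)⁻¹) (((A - t) ^ 2)⁻¹) t := by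
    intro t ht
    have h5 := (hd0 t).fun_inv (by linarith [ht] : A - t ≠ 0)
    exact h5.congr_deriv (by rw [neg_neg, one_div])
  have hd2 : HasDerivAt (fun t => ((A - t) ^ 2)⁻¹) (2 * ((A - σ y) ^ 3)⁻¹) (σ y) := by
    have hne : A - σ y ≠ 0 := hpos.ne'
    have h5 := ((hd0 (σ y)).fun_pow 2).fun_inv (pow_ne_zero 2 hne)
    refine h5.congr_deriv ?_
    field_simp
    ring
  have h2 := sm_xi (D := D) (c := c) (R' := R') 2
  rw [lev_comp hs1 (g := fun t => (A - t)⁻¹) (g' := fun t => ((A - t) ^ 2)⁻¹)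
    (g'' := 2 * ((A - σ y) ^ 3)⁻¹) y
    ((eventually_lt_nhds hlt).mono fun t ht => hd1 t ht) hd2 w h2]
  have h6 : 0 ≤ lev σ y w := by
    rw [hσ, lev_normSq hol_tc]
    positivity
  have h7 := dsq_nonneg σ y w
  have h8 : 0 < A - σ y := hpos
  positivity

/-- **the part of `D` over the disc of centre `c` and radius `R'`** -/
def shift (D : Dom R) (c : ℂ) {R' : ℝ} (hR' : 0 < R') : Dom R' where
  P := ShP D c R'
  a := D.a
  ρ y := D.ρ y.v + xi D c R' 1 y
  ρ_sm := (mor_v.sm D.ρ_sm).add (sm_xi 1)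
  ρ_cpt C := by
    have hρc := D.ρ_sm.continuous
    have himg : (Subtype.val '' {y : {x : D.P // ‖tc x - c‖ < R'} |
        D.ρ (ShP.v (D := D) (c := c) (R' := R') y) + xi D c R' 1 y ≤ C}) =
        {x : D.P | D.ρ x ≤ C} ∩ {x | 1 ≤ (C - D.ρ x) * (R' ^ 2 - ‖tc x - c‖ ^ 2)} := by
      ext x
      constructor
      · rintro ⟨y, hy, rfl⟩
        have hg := gap_pos (D := D) (c := c) (R' := R') y
        have hy' : D.ρ y.1 + ((R' ^ 2 - ‖tc (P := ShP D c R') y‖ ^ 2) ^ 1)⁻¹ ≤ C := hy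
        have ht : tc (P := ShP D c R') y = tc y.1 - c := tc_ShP y
        rw [pow_one] at hy'
        rw [ht] at hy' hg
        have hi : 0 < (R' ^ 2 - ‖tc y.1 - c‖ ^ 2)⁻¹ := inv_pos.2 hg
        refine ⟨?_, ?_⟩
        · show D.ρ y.1 ≤ C
          linarith
        · show 1 ≤ (C - D.ρ y.1) * (R' ^ 2 - ‖tc y.1 - c‖ ^ 2)
          have h3 : (R' ^ 2 - ‖tc y.1 - c‖ ^ 2)⁻¹ ≤ C - D.ρ y.1 := by linarith
          have := mul_le_mul_of_nonneg_right h3 hg.le
          rwa [inv_mul_cancel₀ hg.ne'] at this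
      · rintro ⟨hx1, hx2⟩
        have hx1' : D.ρ x ≤ C := hx1
        have hx2' : 1 ≤ (C - D.ρ x) * (R' ^ 2 - ‖tc x - c‖ ^ 2) := hx2
        have hg : 0 < R' ^ 2 - ‖tc x - c‖ ^ 2 := by
          by_contra hcon
          rw [not_lt] at hcon
          have := mul_nonpos_of_nonneg_of_nonpos (sub_nonneg.2 hx1') hcon
          linarith
        have hlt : ‖tc x - c‖ < R' := by
          have h0 := norm_nonneg (tc x - c)
          nlinarith
        refine ⟨⟨x, hlt⟩, ?_, rfl⟩
        show D.ρ x + ((R' ^ 2 - ‖tc (P := ShP D c R') ⟨x, hlt⟩‖ ^ 2) ^ 1)⁻¹ ≤ C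
        have ht : tc (P := ShP D c R') ⟨x, hlt⟩ = tc x - c := tc_ShP _
        rw [ht, pow_one]
        have h3 : (R' ^ 2 - ‖tc x - c‖ ^ 2)⁻¹ ≤ C - D.ρ x := by
          rw [inv_le_iff_one_le_mul₀ hg]
          linarith
        linarith
    have h1 : IsCompact {y : {x : D.P // ‖tc x - c‖ < R'} |
        D.ρ (ShP.v (D := D) (c := c) (R' := R') y) + xi D c R' 1 y ≤ C} := by
      rw [Subtype.isCompact_iff, himg]
      apply (D.ρ_cpt C).inter_right
      exact isClosed_le continuous_const ((continuous_const.sub hρc).mul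
        (continuous_const.sub ((cont_tc.sub continuous_const).norm.pow 2)))
    exact h1
  ρ_lev y w := by
    rw [lev_add (mor_v.sm D.ρ_sm) (sm_xi 1), mor_v.lev_eq D.ρ_sm]
    have h1 := D.ρ_lev y.v w
    have h2 := lev_xi y w
    simp only [ContinuousLinearMap.coe_id', id_eq]
    linarith
  φ k y := D.φ k y.v
  φ_sm k := mor_v.sm (D.φ_sm k)
  φ_anti y := D.φ_anti y.v
  φ_lev k y w := by
    rw [mor_v.lev_eq (D.φ_sm k)]
    exact D.φ_lev k y.v _
  tR y := norm_tc_ShP y

/-! ### fibre integrals of the shift -/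

lemma tc_of_cons {a : ℕ} {P : Type} [TopologicalSpace P] [RDom (a + 1) P] {y : P} {t : ℂ}
    {x : Fin a → ℂ} (h : cp y = (Fin.cons t x : Fin (a + 1) → ℂ)) : tc y = t := by
  unfold tc
  rw [h]
  exact Fin.cons_zero _ _

/-- points of the shift -/
def mkS (D : Dom R) (c : ℂ) {R' : ℝ} (x : D.P) (h : ‖tc x - c‖ < R') : ShP D c R' := ⟨x, h⟩

lemma cp_mkS (x : D.P) (h : ‖tc x - c‖ < R') :
    (cp (mkS D c x h) : Fin (D.a + 1) → ℂ) = cp x - cv c := rfl

lemma fi_shift (D : Dom R) (c : ℂ) {R' : ℝ} {t : ℂ} (ht : ‖t‖ < R') (g : D.P → ℝ≥0∞) :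
    fi (fun y : ShP D c R' => g y.v) t = fi g (t + c) := by
  unfold fi
  refine lintegral_congr fun x => ?_
  unfold fsum
  have hcons : (Fin.cons t x : Fin (D.a + 1) → ℂ) + cv c = Fin.cons (t + c) x := by
    funext i
    refine Fin.cases ?_ (fun j => ?_) i
    · simp [cv]
    · simp [cv]
  let E : {y : ShP D c R' // cp y = (Fin.cons t x : Fin (D.a + 1) → ℂ)} ≃
      {y : D.P // cp y = (Fin.cons (t + c) x : Fin (D.a + 1) → ℂ)} :=
    { toFun := fun y => ⟨y.1.v, by
        have h := y.2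
        rw [cp_ShP] at h
        exact (sub_eq_iff_eq_add.1 h).trans hcons⟩
      invFun := fun y => ⟨mkS D c y.1 (by
        rw [tc_of_cons y.2, add_sub_cancel_right]; exact ht), by
        rw [cp_mkS, y.2, ← hcons, add_sub_cancel_right]⟩
      left_inv := fun y => rfl
      right_inv := fun y => rfl }
  exact E.tsum_eq (fun y : {y : D.P // cp y = (Fin.cons (t + c) x : Fin (D.a + 1) → ℂ)} => g y.1)

/-! ### functions on fibres of the shift -/

open Classical in
/-- extension of a function on the shift by zero -/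
def exS (D : Dom R) (c : ℂ) {R' : ℝ} (g : ShP D c R' → ℂ) (x : D.P) : ℂ :=
  if h : ‖tc x - c‖ < R' then g (mkS D c x h) else 0

lemma exS_of {g : ShP D c R' → ℂ} {x : D.P} (h : ‖tc x - c‖ < R') :
    exS D c g x = g (mkS D c x h) := dif_pos h

lemma exS_v (g : ShP D c R' → ℂ) (y : ShP D c R') : exS D c g y.v = g y := by
  have h : ‖tc y.v - c‖ < R' := by rw [← tc_ShP]; exact norm_tc_ShP y
  rw [exS_of h]
  rfl

lemma fhol_exS {g : ShP D c R' → ℂ} {t : ℂ} (ht : ‖t‖ < R') (hg : FHol t g) :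
    FHol (t + c) (exS D c g) := by
  intro e he u0 hu0
  have hu0' : (Fin.cons (t + c) u0 : Fin (D.a + 1) → ℂ) ∈ e.target := hu0
  set x0 : D.P := e.symm (Fin.cons (t + c) u0) with hx0
  have hcx0 : (cp x0 : Fin (D.a + 1) → ℂ) = Fin.cons (t + c) u0 := he.cp_symm hu0'
  have htx0 : tc x0 = t + c := tc_of_cons hcx0
  have hlt : ‖tc x0 - c‖ < R' := by rw [htx0, add_sub_cancel_right]; exact ht
  set y0 : ShP D c R' := mkS D c x0 hlt with hy0
  have hcons : ∀ u : Fin D.a → ℂ, cv c + (Fin.cons t u : Fin (D.a + 1) → ℂ) =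
      Fin.cons (t + c) u := by
    intro u
    funext i
    refine Fin.cases ?_ (fun j => ?_) i
    · simp [cv, add_comm]
    · simp [cv]
  have hcy0 : (cp y0 : Fin (D.a + 1) → ℂ) = Fin.cons t u0 := by
    rw [hy0, cp_mkS, hcx0, ← hcons, add_sub_cancel_left]
  have hd := isCh_ch y0
  have hx0s : y0.v ∈ e.source := e.map_target hu0'
  have hgerm := (mor_v (D := D) (c := c) (R' := R')).germ he hd (mem_ch y0) hx0s
  have hdt : (cp y0 : Fin (D.a + 1) → ℂ) ∈ (ch y0).target := hd.cp_mem (mem_ch y0)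
  rw [hcy0] at hgerm hdt
  have hopen : IsOpen {u : Fin D.a → ℂ | (Fin.cons t u : Fin (D.a + 1) → ℂ) ∈ (ch y0).target} :=
    (ch y0).open_target.preimage (differentiable_cons t).continuous
  have h1 : DifferentiableAt ℂ (fun u : Fin D.a → ℂ => g ((ch y0).symm (Fin.cons t u))) u0 :=
    (hg _ hd).differentiableAt (hopen.mem_nhds hdt)
  have h2 : ∀ᶠ u in 𝓝 u0, exS D c g (e.symm (Fin.cons (t + c) u)) =
      g ((ch y0).symm (Fin.cons t u)) := by
    have hcont : Tendsto (fun u : Fin D.a → ℂ => (Fin.cons t u : Fin (D.a + 1) → ℂ)) (𝓝 u0)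
        (𝓝 (Fin.cons t u0)) := (differentiable_cons t).continuous.continuousAt
    filter_upwards [hcont.eventually hgerm] with u hu
    simp only [Function.comp_apply, ContinuousLinearMap.coe_id', id_eq] at hu
    rw [hcons] at hu
    rw [← hu, exS_v]
  exact (h1.congr_of_eventuallyEq h2).differentiableWithinAt

variable {s : ℕ} {w : D.P → ℝ≥0∞}

lemma sat_shift {t : ℂ} (ht : ‖t‖ < R') {u : Fin s → D.P → ℂ}
    (h1 : ∀ g, FHol (t + c) g → pn 2 w g (t + c) < ∞ →
      ∃ a : Fin s → ℂ, ∀ x, tc x = t + c → g x = ∑ i, a i * u i x)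
    (g : ShP D c R' → ℂ) (hg : FHol t g) (hfin : pn 2 (fun y : ShP D c R' => w y.v) g t < ∞) :
    ∃ a : Fin s → ℂ, ∀ y : ShP D c R', tc y = t → g y = ∑ i, a i * u i y.v := by
  have hfin' : pn 2 w (exS D c g) (t + c) < ∞ := by
    have h2 : pn 2 w (exS D c g) (t + c) =
        pn 2 (fun y : ShP D c R' => w y.v) g t := by
      unfold pn
      rw [← fi_shift D c ht]
      refine fi_congr fun y _ => ?_
      rw [exS_v]
    rw [h2]
    exact hfin
  obtain ⟨a, ha⟩ := h1 (exS D c g) (fhol_exS ht hg) hfin'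
  refine ⟨a, fun y hy => ?_⟩
  have h3 : tc (ShP.v y) = t + c := by
    have h4 := tc_ShP (D := D) (c := c) (R' := R') y
    rw [hy] at h4
    rw [h4]; ring
  have h6 := ha (ShP.v y) h3
  rw [exS_v] at h6
  exact h6

/-- the frame on the shift -/
def Fr.shift (B : Fr D w s) (c : ℂ) {R' : ℝ} (hR' : 0 < R') (hcR : ‖c‖ + R' ≤ R) :
    Fr (shift D c hR') (fun y : ShP D c R' => w y.v) s where
  u i := fun y : ShP D c R' => B.u i y.v
  hol i := hol_to _ (mor_v.hol (hol_of _ (B.hol i)))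
  ind t ht a ha := by
    refine B.ind (t + c) ?_ a fun x hx => ?_
    · calc ‖t + c‖ ≤ ‖t‖ + ‖c‖ := norm_add_le _ _
        _ < R := by linarith
    · have hlt : ‖tc x - c‖ < R' := by rw [hx, add_sub_cancel_right]; exact ht
      have h2 := ha (mkS D c x hlt) (by
        have h3 := tc_ShP (mkS D c x hlt)
        have h4 : tc (mkS D c x hlt).v = t + c := hx
        rw [h4, add_sub_cancel_right] at h3
        exact h3)
      exact h2
  sat := by
    have h1 := (measurePreserving_add_right (volume : Measure ℂ) c).quasiMeasurePreserving.ae B.sat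
    filter_upwards [h1] with t h1 ht g hg hfin
    exact sat_shift ht (h1 (lt_of_le_of_lt (norm_add_le _ _) (by linarith))) g hg hfin

/-- **variation of Gram matrices**, any centre -/
theorem npv_center {b : D.P → ℝ} (hb : LPsh b) (B : Fr D (winv b) s)
    {G : ℂ → Matrix (Fin s) (Fin s) ℂ} (hGc : ContinuousOn G (ball 0 R))
    (hGp : ∀ t ∈ ball (0 : ℂ) R, (G t).PosDef)
    (hG : ∀ t, ‖t‖ < R → ∀ a, pn 2 (winv b) (B.cmb a) t = ENNReal.ofReal (qf (G t) a))
    {ξ : ℂ → Fin s → ℂ} (hξ : ∀ i, DifferentiableOn ℂ (fun t => ξ t i) (ball 0 R)) {δ : ℝ}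
    (hδ : 0 < δ) {c : ℂ} {r : ℝ} (hr : 0 < r) (hcr : ‖c‖ + r < R) :
    Real.log (dN (G c) (ξ c) + δ) ≤
      circleAverage (fun t => Real.log (dN (G t) (ξ t) + δ)) c r := by
  set R' : ℝ := R - ‖c‖ with hR'd
  have hR' : 0 < R' := by linarith
  have hcR : ‖c‖ + R' ≤ R := by linarith
  have hmap : MapsTo (fun t : ℂ => t + c) (ball 0 R') (ball 0 R) := by
    intro t ht
    rw [mem_ball_zero_iff] at ht ⊢
    exact lt_of_le_of_lt (norm_add_le _ _) (by linarith)
  have hb' : LPsh (fun y : ShP D c R' => b y.v) :=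
    EngU_29.LPsh.comp_hol (Restr_29.HolMap.of_mor mor_v) hb
  set B' : Fr (shift D c hR') (winv (fun y : ShP D c R' => b y.v)) s := B.shift c hR' hcR with hB'
  have h := npv_circle (D := shift D c hR') (b := fun y : ShP D c R' => b y.v) hb' B'
    (G := fun t => G (t + c))
    (hGc.comp (continuous_add_const c).continuousOn hmap)
    (fun t ht => hGp _ (hmap ht))
    (fun t ht a => by
      have h1 := hG (t + c) (mem_ball_zero_iff.1 (hmap (mem_ball_zero_iff.2 ht))) a
      rw [← h1]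
      unfold pn
      rw [← fi_shift D c ht]
      rfl)
    (ξ := fun t => ξ (t + c))
    (fun i => (hξ i).comp (differentiable_id.add_const c).differentiableOn hmap) hδ hr
    (by linarith)
  have h2 : circleAverage (fun t => Real.log (dN (G (t + c)) (ξ (t + c)) + δ)) 0 r =
      circleAverage (fun t => Real.log (dN (G t) (ξ t) + δ)) c r :=
    Real.circleAverage_map_add_const (f := fun t => Real.log (dN (G t) (ξ t) + δ)) (c := c) (R := r)
  rw [h2] at h
  simp only [zero_add] at h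
  exact h

/-- **LEAF NPV**: the Gram matrix of a holomorphic frame of the spaces of holomorphic functions
with `∫ |g|²/b < ∞` on the fibres has property (PV). -/
theorem npv (hR : 1 ≤ R) {b : D.P → ℝ} (hb : LPsh b) (B : Fr D (winv b) s)
    {G : ℂ → Matrix (Fin s) (Fin s) ℂ} (hGc : ContinuousOn G (ball 0 R))
    (hGp : ∀ t ∈ ball (0 : ℂ) R, (G t).PosDef)
    (hG : ∀ t, ‖t‖ < R → ∀ a, pn 2 (winv b) (B.cmb a) t = ENNReal.ofReal (qf (G t) a)) :
    Fdc_999.PV G := by
  intro ξ δ hδ c hc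
  have hc1 : ‖c‖ < 1 := mem_ball_zero_iff.1 hc
  refine ⟨1 - ‖c‖, by linarith, fun r hr hr1 => ?_⟩
  exact npv_center hb B hGc hGp hG (ξ := fun t => Fda_999.ev ξ t)
    (fun i => (ξ i).differentiable.differentiableOn) hδ hr (by linarith)

end Crest.Agent.R276.Npv_696
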