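import Crest.Agent.R276.OT1_189

/-!
# Row 276, leaf OT (helper189), part 2: Hörmander's theorem with constant `1 + τ`, one weight;
the limit argument with more conclusions
-/

set_option autoImplicit false
set_option linter.unusedSectionVars false
set_option maxHeartbeats 800000

noncomputable section

open Set Filter Topology MeasureTheory ComplexConjugate Metric
open scoped ENNReal

namespace Crest.Agent.R276.OT2_189

open Crest.Agent.R271.Ho51 Crest.Agent.R271.H361 Crest.Agent.R271.H88 Crest.Agent.R271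
  Crest.Agent.R271.T7a297 OT1_189

variable {n : ℕ} {M : Type*} [TopologicalSpace M] [RDom n M] [T2Space M]
  [SecondCountableTopology M] [MeasurableSpace M] [BorelSpace M] {μ : Measure M}

lemma Levi_const_mul {χ : M → ℝ} (hχ : Sm χ) (c : ℝ) (x : M) (w : Fin n → ℂ) :
    Levi (fun y => c * χ y) x w = c * Levi χ x w := by
  have h := Levi_comp (X := fun t => c * t) hχ (contDiff_const.mul contDiff_id) x w
  have h1 : deriv (fun t : ℝ => c * t) = fun _ => c := by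
    funext t
    simpa using ((hasDerivAt_id t).const_mul c).deriv
  rw [h, h1]
  simp

/-- one weight, one sublevel set, constant `1 + τ` -/
theorem stepT (hμ : IsLeb μ) {τ : ℝ} (hτ : 0 < τ) {ρ : M → ℝ} (hρ : Sm ρ)
    (hcpt : ∀ t : ℝ, IsCompact {x | ρ x ≤ t}) (hL : ∀ x w, nsq w ≤ Levi ρ x w) (a : ℝ)
    {Φ : M → ℝ} (hΦ : Sm Φ) (hpos : ∀ x w, 0 ≤ Levi Φ x w) {G : M → ℂ} (hG : Sm G)
    {κ : M → ℝ} (hκ0 : ∀ x, 0 ≤ κ x) (hκm : Measurable κ)
    (hk : ∀ x (w : Fin n → ℂ), ‖∑ j, db j G x * conj (w j)‖ ^ 2 ≤ κ x * Levi Φ x w)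
    {K0 : ℝ} (hK0 : 0 ≤ K0)
    (hKint : ∫⁻ x, ENNReal.ofReal (κ x * Real.exp (-Φ x)) ∂μ ≤ ENNReal.ofReal K0) :
    ∃ F : M → ℂ, Hol F ∧ ∫⁻ x in {x | ρ x ≤ a},
      ENNReal.ofReal (‖F x - G x‖ ^ 2 * Real.exp (-Φ x)) ∂μ ≤ ENNReal.ofReal ((1 + τ) * K0) := by
  have hΦc := hΦ.continuous
  have hαc : Continuous (fun x => (fun j => db j G x : Fin n → ℂ)) :=
    continuous_pi fun j => (hG.db j).continuous
  have hnα : Continuous (fun x => nsq (fun j => db j G x)) := continuous_nsq.comp hαc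
  have hhc : Continuous (fun x => nsq (fun j => db j G x) * Real.exp (-Φ x)) := by fun_prop
  obtain ⟨ψ, χ0, hψ, hχ0, hψ0, hsub0, h20, hLχ0, hint0, η, hη, hη1⟩ :=
    H868.exists_weights hμ ρ hρ hcpt hL a _ hhc
  set c : ℝ := 1 + 1 / τ with hc
  have hc1 : 1 ≤ c := by
    have : 0 < 1 / τ := by positivity
    linarith
  have hχ00 : ∀ x, 0 ≤ χ0 x := fun x => by have := h20 x; have := hψ0 x; linarith
  set χ : M → ℝ := fun x => c * χ0 x with hχdef
  have hχ : Sm χ := (Sm.const c).mulR hχ0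
  have hsub : ∀ x, ρ x ≤ a → ψ x = 0 ∧ χ x = 0 := fun x hx => by
    obtain ⟨h1, h2⟩ := hsub0 x hx
    exact ⟨h1, by simp only [hχdef, h2, mul_zero]⟩
  have hχle : ∀ x, χ0 x ≤ χ x := fun x => by
    simp only [hχdef]
    nlinarith [hχ00 x]
  have h2 : ∀ x, 2 * ψ x ≤ χ x := fun x => (h20 x).trans (hχle x)
  have hLχ : ∀ x w, (1 + 1 / τ) * nsq (fun j => dz j (fun y => (ψ y : ℂ)) x) * nsq w ≤
      Levi χ x w := by
    intro x w
    rw [show Levi χ x w = c * Levi χ0 x w from Levi_const_mul hχ0 c x w]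
    have h3 := hLχ0 x w
    have h4 : 0 ≤ nsq (fun j => dz j (fun y => (ψ y : ℂ)) x) * nsq w :=
      mul_nonneg (nsq_nonneg _) (nsq_nonneg _)
    rw [← hc]
    nlinarith
  have hψc := hψ.continuous
  have hχc := hχ.continuous
  have hαi : Integrable (fun x => nsq (fun j => db j G x) *
      Real.exp (-(Φ x + χ x - ψ x))) μ := by
    refine ⟨(by fun_prop : Continuous _).aestronglyMeasurable, ?_⟩
    rw [hasFiniteIntegral_iff_ofReal (Eventually.of_forall fun x => by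
      have := nsq_nonneg (fun j => db j G x); positivity)]
    refine lt_of_le_of_lt (lintegral_mono fun x => ?_) hint0
    refine ENNReal.ofReal_le_ofReal ?_
    have h0 : 0 ≤ nsq (fun j => db j G x) * Real.exp (-Φ x) := by
      have := nsq_nonneg (fun j => db j G x); positivity
    rw [abs_of_nonneg h0, mul_assoc, ← Real.exp_add]
    refine mul_le_mul_of_nonneg_left (Real.exp_le_exp.2 ?_) (nsq_nonneg _)
    have := hχle x
    linarith
  have hpair : PairC μ Φ χ ψ (fun x j => db j G x) ((1 + τ) / 2 * K0) := by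
    intro v d s K hv hd hs hK hvK hdK hsK hw
    refine pair_limit hμ hΦ hχ hψ hαc (fun f hf hfc => ?_) hv hd hs hK hvK hdK hsK hw
    exact pairing_testT hμ hτ hΦ hχ hψ hpos hLχ h2 hκ0 hκm hk hK0 hKint hf hfc
  have hK0' : 0 ≤ (1 + τ) / 2 * K0 := by positivity
  obtain ⟨U, hUm, hUi, hUb, hUw⟩ := solve hμ wpmul hΦ hχ hψ hG hK0' hpair hαi η hη hη1
  have hUb' : ∫ x, ‖U x‖ ^ 2 * Real.exp (-(Φ x + χ x - 2 * ψ x)) ∂μ ≤ (1 + τ) * K0 :=
    hUb.trans (le_of_eq (by ring))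
  have hUloc : LocallyIntegrable U μ := by
    refine locallyIntegrable_of_bound hμ hUm hUi
      (C := fun x => Real.exp (Φ x + χ x - 2 * ψ x)) (by fun_prop) (fun x => by positivity)
      fun x => ?_
    have h1 : Real.exp (Φ x + χ x - 2 * ψ x) * Real.exp (-(Φ x + χ x - 2 * ψ x)) = 1 := by
      rw [← Real.exp_add]; simp
    calc ‖U x‖ ^ 2 = ‖U x‖ ^ 2 *
          (Real.exp (Φ x + χ x - 2 * ψ x) * Real.exp (-(Φ x + χ x - 2 * ψ x))) := by
          rw [h1, mul_one]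
      _ = _ := by ring
      _ ≤ _ := le_rfl
  obtain ⟨F, hF, hFae⟩ := WeylM399.weylM hμ hUloc hG hUw
  refine ⟨F, hF, ?_⟩
  have hmeas : MeasurableSet {x | ρ x ≤ a} :=
    (isClosed_le hρ.continuous continuous_const).measurableSet
  have h1 : ∫⁻ x in {x | ρ x ≤ a}, ENNReal.ofReal (‖F x - G x‖ ^ 2 * Real.exp (-Φ x)) ∂μ =
      ∫⁻ x in {x | ρ x ≤ a},
        ENNReal.ofReal (‖U x‖ ^ 2 * Real.exp (-(Φ x + χ x - 2 * ψ x))) ∂μ := by
    refine lintegral_congr_ae ?_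
    filter_upwards [ae_restrict_of_ae hFae, ae_restrict_mem hmeas] with x hx hxa
    obtain ⟨hp, hc⟩ := hsub x hxa
    have hx' : F x - G x = - U x := by
      have : G x - U x = F x := hx
      rw [← this]; ring
    rw [hx', norm_neg, hp, hc]
    congr 3; ring
  rw [h1]
  calc _ ≤ ∫⁻ x, ENNReal.ofReal (‖U x‖ ^ 2 * Real.exp (-(Φ x + χ x - 2 * ψ x))) ∂μ :=
        setLIntegral_le_lintegral _ _
    _ = ENNReal.ofReal (∫ x, ‖U x‖ ^ 2 * Real.exp (-(Φ x + χ x - 2 * ψ x)) ∂μ) :=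
        (ofReal_integral_eq_lintegral_ofReal hUi
          (Eventually.of_forall fun x => by positivity)).symm
    _ ≤ ENNReal.ofReal ((1 + τ) * K0) := ENNReal.ofReal_le_ofReal hUb'

section lim

variable {ρ : M → ℝ} {φ : ℕ → M → ℝ} {G : M → ℂ} {F : ℕ → M → ℂ} {K : ℝ≥0∞}

/-- the limit argument (copy of `T7a297.engine_limit`) with a sequence of bounds, and with the
convergence of `F k` exported -/
theorem engine_limit' (hμ : IsLeb μ) (ρ : M → ℝ) (hρ : Continuous ρ)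
    (hcpt : ∀ t, IsCompact {x | ρ x ≤ t})
    (φ : ℕ → M → ℝ) (hφ : ∀ k, Continuous (φ k)) (hmono : ∀ k x, φ (k + 1) x ≤ φ k x)
    (G : M → ℂ) (hG : Continuous G) (F : ℕ → M → ℂ) (hF : ∀ k, Hol (F k))
    (Kk : ℕ → ℝ≥0∞) (K : ℝ≥0∞) (hK : K ≠ ⊤) (hKk : ∀ k, Kk k ≤ K)
    (hbk : ∀ k : ℕ, ∫⁻ x in {x | ρ x ≤ k},
      ENNReal.ofReal (‖F k x - G x‖ ^ 2 * Real.exp (-φ k x)) ∂μ ≤ Kk k) :
    ∃ F0 : M → ℂ, Hol F0 ∧ (∀ x, Tendsto (fun j => F j x) (hyperfilter ℕ : Filter ℕ) (𝓝 (F0 x))) ∧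
      ∀ K' : ℝ≥0∞, (∀ᶠ k in atTop, Kk k ≤ K') →
      ∫⁻ x, ENNReal.ofReal (‖F0 x - G x‖ ^ 2) * (⨆ k, ENNReal.ofReal (Real.exp (-φ k x))) ∂μ
        ≤ K' := by
  have hb : ∀ k : ℕ, ∫⁻ x in {x | ρ x ≤ k},
      ENNReal.ofReal (‖F k x - G x‖ ^ 2 * Real.exp (-φ k x)) ∂μ ≤ K := fun k =>
    (hbk k).trans (hKk k)
  have hloc := fun {e : OpenPartialHomeomorph M (Fin n → ℂ)} (he : IsCh e) {z : Fin n → ℂ}
    (hz : z ∈ e.target) => local_montel hμ hρ hφ hmono hG hF hK hb he hz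
  set l : Filter ℕ := (hyperfilter ℕ : Filter ℕ) with hl
  -- pointwise limits
  set F0 : M → ℂ := fun x => limUnder l (fun j => F j x) with hF0
  have hlim : ∀ x, Tendsto (fun j => F j x) l (𝓝 (F0 x)) := by
    intro x
    obtain ⟨r, hr, -, f0, -, hf0⟩ := hloc (isCh_ch x) ((isCh_ch x).cp_mem (mem_ch x))
    have h1 := hf0.tendsto_at (mem_ball_self hr)
    have h2 : Tendsto (fun j => F j x) l (𝓝 (f0 (cp x))) := by
      simpa [symm_cp] using h1
    exact tendsto_nhds_limUnder ⟨_, h2⟩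
  have hagree : ∀ {e : OpenPartialHomeomorph M (Fin n → ℂ)} {z : Fin n → ℂ} {r : ℝ}
      {f0 : (Fin n → ℂ) → ℂ}, TendstoLocallyUniformlyOn (fun j => F j ∘ e.symm) f0 l (ball z r) →
      ∀ y ∈ ball z r, f0 y = F0 (e.symm y) := by
    intro e z r f0 hf0 y hy
    exact tendsto_nhds_unique (hf0.tendsto_at hy) (hlim (e.symm y))
  have hHol : Hol F0 := by
    intro e he z hz
    obtain ⟨r, hr, hsub, f0, hd, hf0⟩ := hloc he hz
    have h1 : DifferentiableAt ℂ f0 z := hd.differentiableAt (isOpen_ball.mem_nhds (mem_ball_self hr))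
    refine (h1.congr_of_eventuallyEq ?_).differentiableWithinAt
    filter_upwards [isOpen_ball.mem_nhds (mem_ball_self hr)] with y hy
    exact (hagree hf0 y hy).symm
  have hF0c : Continuous F0 := Hol.continuous hHol
  have hLU : TendstoLocallyUniformly F F0 l := by
    intro u hu x
    obtain ⟨r, hr, hsub, f0, hd, hf0⟩ := hloc (isCh_ch x) ((isCh_ch x).cp_mem (mem_ch x))
    obtain ⟨t, ht, hev⟩ := hf0 u hu (cp x) (mem_ball_self hr)
    rw [isOpen_ball.nhdsWithin_eq (mem_ball_self hr)] at ht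
    refine ⟨(ch x).source ∩ cp ⁻¹' (t ∩ ball (cp x) r), inter_mem
      ((ch x).open_source.mem_nhds (mem_ch x)) (cp_cont.continuousAt.preimage_mem_nhds
        (inter_mem ht (isOpen_ball.mem_nhds (mem_ball_self hr)))), ?_⟩
    filter_upwards [hev] with j hj y hy
    have h1 := hj (cp y) hy.2.1
    rw [hagree hf0 _ hy.2.2] at h1
    simpa [(isCh_ch x).symm_cp hy.1] using h1
  have hle : l ≤ atTop := by
    rw [← Nat.cofinite_eq_atTop]
    exact hyperfilter_le_cofinite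
  -- a subsequence converging uniformly on the sublevel sets
  have hsub : ∀ m : ℕ, ∃ j : ℕ, m ≤ j ∧ ∀ x, ρ x ≤ m → dist (F0 x) (F j x) < 1 / ((m : ℝ) + 1) := by
    intro m
    have h1 : TendstoUniformlyOn F F0 l {x | ρ x ≤ (m : ℝ)} :=
      (tendstoLocallyUniformlyOn_iff_tendstoUniformlyOn_of_compact (hcpt m)).1
        hLU.tendstoLocallyUniformlyOn
    have h2 := (Metric.tendstoUniformlyOn_iff.1 h1) (1 / ((m : ℝ) + 1)) (by positivity)
    have h3 : ∀ᶠ j in l, m ≤ j := hle (eventually_ge_atTop m)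
    obtain ⟨j, hj1, hj2⟩ := (h3.and h2).exists
    exact ⟨j, hj1, fun x hx => hj2 x hx⟩
  choose J hJ1 hJ2 using hsub
  have hJlim : ∀ x, Tendsto (fun m => F (J m) x) atTop (𝓝 (F0 x)) := by
    intro x
    rw [tendsto_iff_dist_tendsto_zero]
    refine squeeze_zero' (Eventually.of_forall fun _ => dist_nonneg) ?_
      tendsto_one_div_add_atTop_nhds_zero_nat
    obtain ⟨m0, hm0⟩ := exists_nat_ge (ρ x)
    filter_upwards [eventually_ge_atTop m0] with m hm
    rw [dist_comm]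
    exact (hJ2 m x (hm0.trans (by exact_mod_cast hm))).le
  have hFc : ∀ j, Continuous (F j) := fun j => Hol.continuous (hF j)
  have hmeasS : ∀ k : ℕ, MeasurableSet {x | ρ x ≤ (k : ℝ)} := fun k =>
    (isClosed_le hρ continuous_const).measurableSet
  refine ⟨F0, hHol, hlim, fun K' hK' => ?_⟩
  -- Fatou
  have hfatou : ∀ k : ℕ, ∫⁻ x in {x | ρ x ≤ (k : ℝ)},
      ENNReal.ofReal (‖F0 x - G x‖ ^ 2) * ENNReal.ofReal (Real.exp (-φ k x)) ∂μ ≤ K' := by
    intro k
    have h1 : ∀ x, ENNReal.ofReal (‖F0 x - G x‖ ^ 2) * ENNReal.ofReal (Real.exp (-φ k x)) =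
        liminf (fun m => ENNReal.ofReal (‖F (J m) x - G x‖ ^ 2 * Real.exp (-φ k x))) atTop := by
      intro x
      have h2 : Tendsto (fun m => ENNReal.ofReal (‖F (J m) x - G x‖ ^ 2 * Real.exp (-φ k x)))
          atTop (𝓝 (ENNReal.ofReal (‖F0 x - G x‖ ^ 2 * Real.exp (-φ k x)))) :=
        (ENNReal.continuous_ofReal.tendsto _).comp
          (((((hJlim x).sub_const (G x)).norm).pow 2).mul_const _)
      rw [h2.liminf_eq, ENNReal.ofReal_mul (by positivity)]
    simp only [h1]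
    refine (lintegral_liminf_le fun m => ?_).trans ?_
    · exact (((((hFc (J m)).sub hG).norm.pow 2).mul
        (Real.continuous_exp.comp (hφ k).neg))).measurable.ennreal_ofReal
    · refine liminf_le_of_frequently_le' (Eventually.frequently ?_)
      obtain ⟨m1, hm1⟩ := eventually_atTop.1 hK'
      filter_upwards [eventually_ge_atTop k, eventually_ge_atTop m1] with m hm hm'
      have hkJ : k ≤ J m := hm.trans (hJ1 m)
      refine le_trans ?_ ((hbk (J m)).trans (hm1 _ (hm'.trans (hJ1 m))))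
      refine (setLIntegral_mono' (hmeasS k) (g := fun x =>
        ENNReal.ofReal (‖F (J m) x - G x‖ ^ 2 * Real.exp (-φ (J m) x))) fun x _ => ?_).trans
        (lintegral_mono_set fun x hx => ?_)
      · refine ENNReal.ofReal_le_ofReal (mul_le_mul_of_nonneg_left ?_ (by positivity))
        exact Real.exp_le_exp.2 (neg_le_neg (anti_aux hmono hkJ x))
      · exact le_trans (show ρ x ≤ (k : ℝ) from hx) (by exact_mod_cast hkJ)
  -- monotone convergence
  set g : ℕ → M → ℝ≥0∞ := fun k => {x | ρ x ≤ (k : ℝ)}.indicator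
    (fun x => ENNReal.ofReal (‖F0 x - G x‖ ^ 2) * ENNReal.ofReal (Real.exp (-φ k x))) with hg
  have hgm : ∀ k, Measurable (g k) := fun k =>
    ((((hF0c.sub hG).norm.pow 2).measurable.ennreal_ofReal).mul
      (Real.continuous_exp.comp (hφ k).neg).measurable.ennreal_ofReal).indicator (hmeasS k)
  have hexp : ∀ x {k k' : ℕ}, k ≤ k' → ENNReal.ofReal (Real.exp (-φ k x)) ≤
      ENNReal.ofReal (Real.exp (-φ k' x)) := fun x k k' h =>
    ENNReal.ofReal_le_ofReal (Real.exp_le_exp.2 (neg_le_neg (anti_aux hmono h x)))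
  have hgmono : Monotone g := by
    intro k k' hkk' x
    by_cases hx : ρ x ≤ (k : ℝ)
    · have hx' : ρ x ≤ (k' : ℝ) := hx.trans (by exact_mod_cast hkk')
      simp only [hg, indicator_of_mem (show x ∈ {x | ρ x ≤ (k : ℝ)} from hx),
        indicator_of_mem (show x ∈ {x | ρ x ≤ (k' : ℝ)} from hx')]
      exact mul_le_mul_right (hexp x hkk') _
    · simp only [hg, indicator_of_notMem (show x ∉ {x | ρ x ≤ (k : ℝ)} from hx)]
      exact zero_le
  have hsup : ∀ x, ENNReal.ofReal (‖F0 x - G x‖ ^ 2) *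
      (⨆ k, ENNReal.ofReal (Real.exp (-φ k x))) = ⨆ k, g k x := by
    intro x
    rw [ENNReal.mul_iSup]
    apply le_antisymm
    · refine iSup_le fun k => ?_
      obtain ⟨m0, hm0⟩ := exists_nat_ge (ρ x)
      have hx : ρ x ≤ ((max k m0 : ℕ) : ℝ) := hm0.trans (by exact_mod_cast le_max_right _ _)
      refine le_trans ?_ (le_iSup (fun k => g k x) (max k m0))
      simp only [hg, indicator_of_mem (show x ∈ {x | ρ x ≤ ((max k m0 : ℕ) : ℝ)} from hx)]
      exact mul_le_mul_right (hexp x (le_max_left _ _)) _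
    · refine iSup_mono fun k => ?_
      exact indicator_le_self _ _ _
  simp only [hsup]
  rw [lintegral_iSup hgm hgmono]
  refine iSup_le fun k => ?_
  simp only [hg]
  rw [lintegral_indicator (hmeasS k)]
  exact hfatou k

end lim

/-- **Hörmander's theorem**, one smooth weight, constant `1 + τ`. -/
theorem hormT (hμ : IsLeb μ) {ρ : M → ℝ} (hρ : Sm ρ)
    (hcpt : ∀ t : ℝ, IsCompact {x | ρ x ≤ t}) (hL : ∀ x w, nsq w ≤ Levi ρ x w)
    {Φ : M → ℝ} (hΦ : Sm Φ) (hpos : ∀ x w, 0 ≤ Levi Φ x w) {G : M → ℂ} (hG : Sm G)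
    {κ : M → ℝ} (hκ0 : ∀ x, 0 ≤ κ x) (hκm : Measurable κ)
    (hk : ∀ x (w : Fin n → ℂ), ‖∑ j, db j G x * conj (w j)‖ ^ 2 ≤ κ x * Levi Φ x w)
    {K0 : ℝ} (hK0 : 0 ≤ K0)
    (hKint : ∫⁻ x, ENNReal.ofReal (κ x * Real.exp (-Φ x)) ∂μ ≤ ENNReal.ofReal K0)
    {τ : ℝ} (hτ : 0 < τ) :
    ∃ F : M → ℂ, Hol F ∧
      ∫⁻ x, ENNReal.ofReal (‖F x - G x‖ ^ 2 * Real.exp (-Φ x)) ∂μ ≤
        ENNReal.ofReal ((1 + τ) * K0) := by
  choose F hF hFb using fun k : ℕ => stepT hμ hτ hρ hcpt hL (k : ℝ) hΦ hpos hG hκ0 hκm hk hK0 hKint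
  obtain ⟨F0, hF0, -, h1⟩ := engine_limit' hμ ρ hρ.continuous hcpt (fun _ => Φ)
    (fun _ => hΦ.continuous) (fun _ _ => le_rfl) G hG.continuous F hF
    (fun _ => ENNReal.ofReal ((1 + τ) * K0)) (ENNReal.ofReal ((1 + τ) * K0))
    ENNReal.ofReal_ne_top (fun _ => le_rfl) hFb
  refine ⟨F0, hF0, ?_⟩
  have h2 := h1 (ENNReal.ofReal ((1 + τ) * K0)) (Eventually.of_forall fun _ => le_rfl)
  refine le_trans (le_of_eq ?_) h2
  refine lintegral_congr fun x => ?_
  rw [ciSup_const, ENNReal.ofReal_mul (by positivity)]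

end Crest.Agent.R276.OT2_189
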