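import Crest.Agent.R276.OT2_189
import Crest.Agent.R271.W_792
import Crest.Agent.R266.SCV

/-!
# Row 276, leaf OT (helper189), part 3: minimal solutions and the twisted estimate
(Donnelly--Fefferman / Berndtsson / Chen trick)
-/

set_option autoImplicit false
set_option linter.unusedSectionVars false
set_option maxHeartbeats 800000

noncomputable section

open Set Filter Topology MeasureTheory ComplexConjugate Metric
open scoped ENNReal

namespace Crest.Agent.R276.OT3_189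

open Crest.Agent.R271.Ho51 Crest.Agent.R271.H361 Crest.Agent.R271.H88 Crest.Agent.R271
  Crest.Agent.R271.T7a297 OT1_189 OT2_189

variable {n : ℕ} {M : Type*} [TopologicalSpace M] [RDom n M]

/-- holomorphic functions are smooth with `ℂ`-linear derivative -/
lemma hol_w {F : M → ℂ} (hF : Hol F) : W792.Hol F where
  sm := fun x => by
    have h1 : AnalyticAt ℂ (F ∘ (ch x).symm) (cp x) :=
      Crest.Agent.R266.SCV.analyticOnNhd_of_differentiableOn (ch x).open_target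
        (hF (ch x) (isCh_ch x)) (cp x) ((isCh_ch x).cp_mem (mem_ch x))
    exact h1.restrictScalars.contDiffAt
  cl := fun x w => by
    have h1 : DifferentiableAt ℂ (F ∘ (ch x).symm) (cp x) :=
      (hF (ch x) (isCh_ch x)).differentiableAt
        ((ch x).open_target.mem_nhds ((isCh_ch x).cp_mem (mem_ch x)))
    have h2 := Crest.Agent.R266.SCV.fderiv_real_smul_I h1 w
    simpa [D, smul_eq_mul] using h2

lemma hol_sm {F : M → ℂ} (hF : Hol F) : Sm F := (hol_w hF).sm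

lemma hol_db {F : M → ℂ} (hF : Hol F) (j : Fin n) (x : M) : db j F x = 0 := by
  rw [db_eq]
  have h1 : (Pi.single j Complex.I : Fin n → ℂ) = Complex.I • (Pi.single j 1 : Fin n → ℂ) := by
    ext k
    by_cases hk : k = j
    · subst hk; simp
    · simp [hk]
  rw [h1, (hol_w hF).cl]
  linear_combination (1 / 2 * D F x (Pi.single j 1)) * Complex.I_mul_I

lemma hol_add {F G : M → ℂ} (hF : Hol F) (hG : Hol G) : Hol (fun x => F x + G x) :=
  fun e he => (hF e he).add (hG e he)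

lemma hol_smul {F : M → ℂ} (hF : Hol F) (c : ℂ) : Hol (fun x => c * F x) :=
  fun e he => (hF e he).const_mul c

variable [T2Space M] [SecondCountableTopology M] [MeasurableSpace M] [BorelSpace M]
  {μ : Measure M}

/-- the weighted `L²` norm, squared -/
def I2 (μ : Measure M) (Φ : M → ℝ) (u : M → ℂ) : ℝ≥0∞ :=
  ∫⁻ x, ENNReal.ofReal (‖u x‖ ^ 2 * Real.exp (-Φ x)) ∂μ

lemma integrable_of_I2 {Φ : M → ℝ} (hΦ : Continuous Φ) {u : M → ℂ} (hu : Continuous u)
    (h : I2 μ Φ u ≠ ⊤) : Integrable (fun x => ‖u x‖ ^ 2 * Real.exp (-Φ x)) μ := by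
  refine ⟨(by fun_prop : Continuous _).aestronglyMeasurable, ?_⟩
  rw [hasFiniteIntegral_iff_ofReal (Eventually.of_forall fun x => by positivity)]
  exact lt_top_iff_ne_top.2 h

lemma I2_eq {Φ : M → ℝ} {u : M → ℂ}
    (h : Integrable (fun x => ‖u x‖ ^ 2 * Real.exp (-Φ x)) μ) :
    I2 μ Φ u = ENNReal.ofReal (∫ x, ‖u x‖ ^ 2 * Real.exp (-Φ x) ∂μ) :=
  (ofReal_integral_eq_lintegral_ofReal h (Eventually.of_forall fun x => by positivity)).symm

/-- existence of a minimal solution -/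
theorem exists_min (hμ : IsLeb μ) {ρ : M → ℝ} (hρ : Continuous ρ)
    (hcpt : ∀ t : ℝ, IsCompact {x | ρ x ≤ t}) {Φ : M → ℝ} (hΦ : Continuous Φ) {G : M → ℂ}
    (hG : Continuous G) {F0 : M → ℂ} (hF0 : Hol F0)
    (h0 : I2 μ Φ (fun x => F0 x - G x) ≠ ⊤) :
    ∃ F : M → ℂ, Hol F ∧ ∀ F' : M → ℂ, Hol F' →
      I2 μ Φ (fun x => F x - G x) ≤ I2 μ Φ (fun x => F' x - G x) := by
  set m : ℝ≥0∞ := ⨅ F' : {F' : M → ℂ // Hol F'}, I2 μ Φ (fun x => F'.1 x - G x) with hm
  have hm0 : m ≤ I2 μ Φ (fun x => F0 x - G x) := iInf_le _ (⟨F0, hF0⟩ : {F' : M → ℂ // Hol F'})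
  have hmt : m ≠ ⊤ := ne_top_of_le_ne_top h0 hm0
  have hk : ∀ k : ℕ, ∃ F : M → ℂ, Hol F ∧
      I2 μ Φ (fun x => F x - G x) ≤ m + ((k : ℝ≥0∞) + 1)⁻¹ := by
    intro k
    have h1 : m < m + ((k : ℝ≥0∞) + 1)⁻¹ :=
      ENNReal.lt_add_right hmt (by simp)
    obtain ⟨F, hF⟩ := iInf_lt_iff.1 h1
    exact ⟨F.1, F.2, hF.le⟩
  choose F hF hFb using hk
  have hle1 : ∀ k : ℕ, ((k : ℝ≥0∞) + 1)⁻¹ ≤ 1 := fun k => by
    rw [ENNReal.inv_le_one]; exact le_add_self
  obtain ⟨F1, hF1, -, h1⟩ := engine_limit' hμ ρ hρ hcpt (fun _ => Φ) (fun _ => hΦ)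
    (fun _ _ => le_rfl) G hG F hF (fun k => m + ((k : ℝ≥0∞) + 1)⁻¹) (m + 1)
    (by simp [hmt]) (fun k => by gcongr; exact hle1 k)
    (fun k => (setLIntegral_le_lintegral _ _).trans (hFb k))
  refine ⟨F1, hF1, fun F' hF' => ?_⟩
  have h2 : I2 μ Φ (fun x => F1 x - G x) ≤ m := by
    refine ENNReal.le_of_forall_pos_le_add fun ε hε _ => ?_
    have h3 : ∀ᶠ k : ℕ in atTop, m + ((k : ℝ≥0∞) + 1)⁻¹ ≤ m + ε := by
      have h4 : Tendsto (fun k : ℕ => ((k : ℝ≥0∞) + 1)⁻¹) atTop (𝓝 0) := by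
        have h1 := ENNReal.tendsto_inv_nat_nhds_zero
        have h3 := (tendsto_add_atTop_iff_nat (f := fun k : ℕ => ((k : ℝ≥0∞))⁻¹) 1).2 h1
        simpa using h3
      have h5 : ∀ᶠ k : ℕ in atTop, ((k : ℝ≥0∞) + 1)⁻¹ < ε :=
        h4.eventually (gt_mem_nhds (by exact_mod_cast hε))
      filter_upwards [h5] with k hk
      gcongr
    have h6 := h1 (m + ε) h3
    refine le_trans (le_of_eq ?_) h6
    refine lintegral_congr fun x => ?_
    rw [ciSup_const, ENNReal.ofReal_mul (by positivity)]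
  exact h2.trans (iInf_le _ (⟨F', hF'⟩ : {F' : M → ℂ // Hol F'}))

lemma expand_sq (a b : ℂ) (t : ℝ) :
    ‖a + (t : ℂ) * b‖ ^ 2 = ‖a‖ ^ 2 + 2 * t * (a * conj b).re + t ^ 2 * ‖b‖ ^ 2 := by
  rw [← Complex.normSq_eq_norm_sq, ← Complex.normSq_eq_norm_sq, ← Complex.normSq_eq_norm_sq]
  simp only [Complex.normSq_apply, Complex.add_re, Complex.add_im, Complex.mul_re, Complex.mul_im,
    Complex.ofReal_re, Complex.ofReal_im, Complex.conj_re, Complex.conj_im]
  ring

lemma cross_integrable {Φ : M → ℝ} (hΦ : Continuous Φ) {a b : M → ℂ} (ha : Continuous a)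
    (hb : Continuous b) (hai : Integrable (fun x => ‖a x‖ ^ 2 * Real.exp (-Φ x)) μ)
    (hbi : Integrable (fun x => ‖b x‖ ^ 2 * Real.exp (-Φ x)) μ) :
    Integrable (fun x => (a x * conj (b x)).re * Real.exp (-Φ x)) μ := by
  refine (hai.add hbi).mono' ?_ (Eventually.of_forall fun x => ?_)
  · exact (((Complex.continuous_re.comp (ha.mul (Complex.continuous_conj.comp hb))).mul
      (Real.continuous_exp.comp hΦ.neg))).aestronglyMeasurable
  · rw [norm_mul, Real.norm_of_nonneg (Real.exp_pos _).le, Real.norm_eq_abs]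
    show |(a x * conj (b x)).re| * Real.exp (-Φ x) ≤
      ‖a x‖ ^ 2 * Real.exp (-Φ x) + ‖b x‖ ^ 2 * Real.exp (-Φ x)
    have h1 : |(a x * conj (b x)).re| ≤ ‖a x‖ * ‖b x‖ := by
      refine (Complex.abs_re_le_norm _).trans ?_
      rw [norm_mul, Complex.norm_conj]
    have h2 : |(a x * conj (b x)).re| ≤ ‖a x‖ ^ 2 + ‖b x‖ ^ 2 := by
      nlinarith [sq_nonneg (‖a x‖ - ‖b x‖), sq_nonneg (‖a x‖), sq_nonneg (‖b x‖)]
    calc _ ≤ (‖a x‖ ^ 2 + ‖b x‖ ^ 2) * Real.exp (-Φ x) :=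
          mul_le_mul_of_nonneg_right h2 (Real.exp_pos _).le
      _ = _ := by ring

/-- the minimal solution is orthogonal to holomorphic functions (real parts) -/
theorem min_orth {Φ : M → ℝ} (hΦ : Continuous Φ) {G : M → ℂ} (hG : Continuous G) {F : M → ℂ}
    (hF : Hol F) (hfin : I2 μ Φ (fun x => F x - G x) ≠ ⊤)
    (hmin : ∀ F' : M → ℂ, Hol F' →
      I2 μ Φ (fun x => F x - G x) ≤ I2 μ Φ (fun x => F' x - G x))
    {g : M → ℂ} (hg : Hol g) (hgi : I2 μ Φ g ≠ ⊤) :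
    ∫ x, ((F x - G x) * conj (g x)).re * Real.exp (-Φ x) ∂μ = 0 := by
  have hFc : Continuous F := Hol.continuous hF
  have hgc : Continuous g := Hol.continuous hg
  have hac : Continuous (fun x => F x - G x) := hFc.sub hG
  have ia := integrable_of_I2 hΦ hac hfin
  have ib := integrable_of_I2 hΦ hgc hgi
  have ic := cross_integrable hΦ hac hgc ia ib
  set R := ∫ x, ((F x - G x) * conj (g x)).re * Real.exp (-Φ x) ∂μ with hR
  set Q := ∫ x, ‖g x‖ ^ 2 * Real.exp (-Φ x) ∂μ with hQ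
  set P := ∫ x, ‖F x - G x‖ ^ 2 * Real.exp (-Φ x) ∂μ with hP
  have hQ0 : 0 ≤ Q := integral_nonneg fun x => by positivity
  have key : ∀ t : ℝ, 0 ≤ 2 * t * R + t ^ 2 * Q := by
    intro t
    have hF' : Hol (fun x => F x + (t : ℂ) * g x) := hol_add hF (hol_smul hg _)
    have e1 : ∀ x, ‖(F x + (t : ℂ) * g x) - G x‖ ^ 2 * Real.exp (-Φ x) =
        (‖F x - G x‖ ^ 2 * Real.exp (-Φ x) +
          (2 * t) * (((F x - G x) * conj (g x)).re * Real.exp (-Φ x))) +
          t ^ 2 * (‖g x‖ ^ 2 * Real.exp (-Φ x)) := by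
      intro x
      have : (F x + (t : ℂ) * g x) - G x = (F x - G x) + (t : ℂ) * g x := by ring
      rw [this, expand_sq]; ring
    have i1 : Integrable (fun x => ‖(F x + (t : ℂ) * g x) - G x‖ ^ 2 * Real.exp (-Φ x)) μ := by
      simp only [e1]
      exact (ia.add (ic.const_mul _)).add (ib.const_mul _)
    have h1 := hmin _ hF'
    rw [I2_eq ia, I2_eq i1] at h1
    have h2 : ∫ x, ‖(F x + (t : ℂ) * g x) - G x‖ ^ 2 * Real.exp (-Φ x) ∂μ =
        P + 2 * t * R + t ^ 2 * Q := by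
      have i2 : Integrable (fun x => ‖F x - G x‖ ^ 2 * Real.exp (-Φ x) +
          (2 * t) * (((F x - G x) * conj (g x)).re * Real.exp (-Φ x))) μ := ia.add (ic.const_mul _)
      simp only [e1]
      rw [integral_add i2 (ib.const_mul _), integral_add ia (ic.const_mul _), integral_const_mul,
        integral_const_mul]
    rw [h2] at h1
    have h3 : 0 ≤ P + 2 * t * R + t ^ 2 * Q := by
      rw [← h2]; exact integral_nonneg fun x => by positivity
    have h4 := (ENNReal.ofReal_le_ofReal_iff h3).1 h1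
    linarith
  by_contra hne
  rcases lt_or_gt_of_ne hne with h | h
  · have h1 := key (-R / (Q + 1))
    have h2 : 0 < Q + 1 := by linarith
    have h3 : 2 * (-R / (Q + 1)) * R + (-R / (Q + 1)) ^ 2 * Q =
        - (R ^ 2 * (Q + 2)) / (Q + 1) ^ 2 := by
      field_simp; ring
    rw [h3] at h1
    have h4 : - (R ^ 2 * (Q + 2)) / (Q + 1) ^ 2 < 0 := by
      apply div_neg_of_neg_of_pos _ (by positivity)
      have : 0 < R ^ 2 := by positivity
      nlinarith
    linarith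
  · have h1 := key (-R / (Q + 1))
    have h2 : 0 < Q + 1 := by linarith
    have h3 : 2 * (-R / (Q + 1)) * R + (-R / (Q + 1)) ^ 2 * Q =
        - (R ^ 2 * (Q + 2)) / (Q + 1) ^ 2 := by
      field_simp; ring
    rw [h3] at h1
    have h4 : - (R ^ 2 * (Q + 2)) / (Q + 1) ^ 2 < 0 := by
      apply div_neg_of_neg_of_pos _ (by positivity)
      have : 0 < R ^ 2 := by positivity
      nlinarith
    linarith

/-- the twisted minimal solution is minimal -/
theorem twist_min {Φ ψ : M → ℝ} (hΦ : Continuous Φ) (hψ : Continuous ψ) {B : ℝ}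
    (hB : ∀ x, |ψ x| ≤ B) {G : M → ℂ} (hG : Continuous G) {F : M → ℂ}
    (hF : Hol F) (hfin : I2 μ Φ (fun x => F x - G x) ≠ ⊤)
    (hmin : ∀ F' : M → ℂ, Hol F' →
      I2 μ Φ (fun x => F x - G x) ≤ I2 μ Φ (fun x => F' x - G x))
    {F' : M → ℂ} (hF' : Hol F') :
    ∫⁻ x, ENNReal.ofReal (‖F x - G x‖ ^ 2 * Real.exp (ψ x - Φ x)) ∂μ ≤
      I2 μ (fun x => Φ x + ψ x) (fun x => F' x - (Real.exp (ψ x) : ℂ) * (G x - F x)) := by
  by_cases hcase : I2 μ (fun x => Φ x + ψ x)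
      (fun x => F' x - (Real.exp (ψ x) : ℂ) * (G x - F x)) = ⊤
  · rw [hcase]; exact le_top
  have hFc : Continuous F := Hol.continuous hF
  have hF'c : Continuous F' := Hol.continuous hF'
  have hac : Continuous (fun x => F x - G x) := hFc.sub hG
  have hΦψ : Continuous (fun x => Φ x + ψ x) := hΦ.add hψ
  have hec : Continuous (fun x => ((Real.exp (ψ x) : ℝ) : ℂ)) :=
    Complex.continuous_ofReal.comp (Real.continuous_exp.comp hψ)
  have hdc : Continuous (fun x => F' x - (Real.exp (ψ x) : ℂ) * (G x - F x)) :=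
    hF'c.sub (hec.mul (hG.sub hFc))
  have ia := integrable_of_I2 hΦ hac hfin
  have id' := integrable_of_I2 hΦψ hdc hcase
  have hBx : ∀ x, ψ x ≤ B ∧ -B ≤ ψ x := fun x => ⟨(abs_le.1 (hB x)).2, (abs_le.1 (hB x)).1⟩
  -- `e^ψ a` in `L²(Φ+ψ)`
  have e1 : ∀ x, ‖F x - G x‖ ^ 2 * Real.exp (ψ x - Φ x) =
      Real.exp (ψ x) * (‖F x - G x‖ ^ 2 * Real.exp (-Φ x)) := fun x => by
    rw [show ψ x - Φ x = ψ x + -Φ x by ring, Real.exp_add]; ring
  have ie : Integrable (fun x => ‖F x - G x‖ ^ 2 * Real.exp (ψ x - Φ x)) μ := by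
    refine (ia.const_mul (Real.exp B)).mono' (by fun_prop : Continuous _).aestronglyMeasurable
      (Eventually.of_forall fun x => ?_)
    rw [Real.norm_of_nonneg (by positivity), e1]
    exact mul_le_mul_of_nonneg_right (Real.exp_le_exp.2 (hBx x).1) (by positivity)
  -- `F'` in `L²(Φ+ψ)` and in `L²(Φ)`
  have ig : Integrable (fun x => ‖F' x‖ ^ 2 * Real.exp (-(Φ x + ψ x))) μ := by
    refine ((id'.const_mul 2).add (ie.const_mul 2)).mono'
      (by fun_prop : Continuous _).aestronglyMeasurable (Eventually.of_forall fun x => ?_)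
    rw [Real.norm_of_nonneg (by positivity)]
    have h1 := norm_add_sq_le (F' x - (Real.exp (ψ x) : ℂ) * (G x - F x))
      ((Real.exp (ψ x) : ℂ) * (G x - F x))
    rw [sub_add_cancel] at h1
    have h2 : ‖(Real.exp (ψ x) : ℂ) * (G x - F x)‖ ^ 2 * Real.exp (-(Φ x + ψ x)) =
        ‖F x - G x‖ ^ 2 * Real.exp (ψ x - Φ x) := by
      rw [norm_mul, mul_pow, Complex.norm_real, Real.norm_of_nonneg (Real.exp_pos _).le,
        norm_sub_rev (G x), sq (Real.exp (ψ x)), ← Real.exp_add]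
      calc _ = ‖F x - G x‖ ^ 2 * (Real.exp (ψ x + ψ x) * Real.exp (-(Φ x + ψ x))) := by ring
        _ = _ := by rw [← Real.exp_add]; congr 2; ring
    have h3 := mul_le_mul_of_nonneg_right h1 (Real.exp_pos (-(Φ x + ψ x))).le
    simp only [Pi.add_apply]
    rw [← h2]
    refine h3.trans (le_of_eq ?_)
    ring
  have ig' : Integrable (fun x => ‖F' x‖ ^ 2 * Real.exp (-Φ x)) μ := by
    refine (ig.const_mul (Real.exp B)).mono'
      (by fun_prop : Continuous _).aestronglyMeasurable (Eventually.of_forall fun x => ?_)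
    rw [Real.norm_of_nonneg (by positivity)]
    have h1 : Real.exp (-Φ x) ≤ Real.exp B * Real.exp (-(Φ x + ψ x)) := by
      rw [← Real.exp_add]; apply Real.exp_le_exp.2; linarith [(hBx x).1]
    calc ‖F' x‖ ^ 2 * Real.exp (-Φ x) ≤ ‖F' x‖ ^ 2 * (Real.exp B * Real.exp (-(Φ x + ψ x))) :=
          mul_le_mul_of_nonneg_left h1 (by positivity)
      _ = _ := by ring
  have hg2 : I2 μ Φ F' ≠ ⊤ := by
    rw [I2_eq ig']; exact ENNReal.ofReal_ne_top
  have ho := min_orth hΦ hG hF hfin hmin hF' hg2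
  have ic := cross_integrable hΦ hac hF'c ia ig'
  -- the expansion
  have e2 : ∀ x, ‖F' x - (Real.exp (ψ x) : ℂ) * (G x - F x)‖ ^ 2 * Real.exp (-(Φ x + ψ x)) =
      (‖F' x‖ ^ 2 * Real.exp (-(Φ x + ψ x)) +
        2 * (((F x - G x) * conj (F' x)).re * Real.exp (-Φ x))) +
        ‖F x - G x‖ ^ 2 * Real.exp (ψ x - Φ x) := by
    intro x
    have h1 : F' x - (Real.exp (ψ x) : ℂ) * (G x - F x) =
        F' x + ((Real.exp (ψ x) : ℝ) : ℂ) * (F x - G x) := by ring
    rw [h1, expand_sq]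
    have h2 : (F' x * conj (F x - G x)).re = ((F x - G x) * conj (F' x)).re := by
      simp only [Complex.mul_re, Complex.conj_re, Complex.conj_im]; ring
    have h3 : Real.exp (ψ x) * Real.exp (-(Φ x + ψ x)) = Real.exp (-Φ x) := by
      rw [← Real.exp_add]; congr 1; ring
    have h4 : Real.exp (ψ x) ^ 2 * Real.exp (-(Φ x + ψ x)) = Real.exp (ψ x - Φ x) := by
      rw [sq, ← Real.exp_add, ← Real.exp_add]; congr 1; ring
    rw [h2, ← h3, ← h4]; ring
  rw [← ofReal_integral_eq_lintegral_ofReal ie (Eventually.of_forall fun x => by positivity),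
    I2_eq id']
  apply ENNReal.ofReal_le_ofReal
  simp only [e2]
  have i2 : Integrable (fun x => ‖F' x‖ ^ 2 * Real.exp (-(Φ x + ψ x)) +
        2 * (((F x - G x) * conj (F' x)).re * Real.exp (-Φ x))) μ := ig.add (ic.const_mul 2)
  rw [integral_add i2 ie, integral_add ig (ic.const_mul 2), integral_const_mul, ho]
  have : 0 ≤ ∫ x, ‖F' x‖ ^ 2 * Real.exp (-(Φ x + ψ x)) ∂μ :=
    integral_nonneg fun x => by positivity
  linarith

/-- **the twisted estimate** for the minimal solution -/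
theorem twist_est (hμ : IsLeb μ) {ρ : M → ℝ} (hρ : Sm ρ)
    (hcpt : ∀ t : ℝ, IsCompact {x | ρ x ≤ t}) (hL : ∀ x w, nsq w ≤ Levi ρ x w)
    {Φ ψ : M → ℝ} (hΦ : Sm Φ) (hψ : Sm ψ) {B : ℝ} (hB : ∀ x, |ψ x| ≤ B)
    (hpos : ∀ x w, 0 ≤ Levi (fun y => Φ y + ψ y) x w) {G : M → ℂ} (hG : Sm G) {F : M → ℂ}
    (hF : Hol F) (hfin : I2 μ Φ (fun x => F x - G x) ≠ ⊤)
    (hmin : ∀ F' : M → ℂ, Hol F' →
      I2 μ Φ (fun x => F x - G x) ≤ I2 μ Φ (fun x => F' x - G x))
    {κ θ : M → ℝ} (hκm : Measurable κ) (hκ0 : ∀ x, 0 ≤ κ x)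
    (hθm : Measurable θ) (hθ0 : ∀ x, 0 ≤ θ x) (hθ1 : ∀ x, θ x ≤ 1)
    (hk : ∀ x (w : Fin n → ℂ), ‖∑ j, db j G x * conj (w j)‖ ^ 2 ≤
      κ x * Levi (fun y => Φ y + ψ y) x w)
    (hth : ∀ x (w : Fin n → ℂ), ‖∑ j, db j (fun y => (ψ y : ℂ)) x * conj (w j)‖ ^ 2 ≤
      θ x * Levi (fun y => Φ y + ψ y) x w)
    (hth2 : ∀ x, κ x ≠ 0 → ∀ (w : Fin n → ℂ),
      2 * ‖∑ j, db j (fun y => (ψ y : ℂ)) x * conj (w j)‖ ^ 2 ≤
      θ x * Levi (fun y => Φ y + ψ y) x w) :
    ∫⁻ x, ENNReal.ofReal ((1 - θ x) * (‖F x - G x‖ ^ 2 * Real.exp (ψ x - Φ x))) ∂μ ≤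
      2 * ∫⁻ x, ENNReal.ofReal (κ x * Real.exp (ψ x - Φ x)) ∂μ := by
  by_cases hKt : ∫⁻ x, ENNReal.ofReal (κ x * Real.exp (ψ x - Φ x)) ∂μ = ⊤
  · rw [hKt]; simp
  have hFc : Continuous F := Hol.continuous hF
  have hac : Continuous (fun x => F x - G x) := hFc.sub hG.continuous
  have hΦc := hΦ.continuous
  have hψc := hψ.continuous
  have hGc := hG.continuous
  have ia := integrable_of_I2 hΦc hac hfin
  set E : M → ℝ := fun x => Real.exp (ψ x - Φ x) with hE
  have hEc : Continuous E := by simp only [hE]; fun_prop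
  have hBx : ∀ x, ψ x ≤ B ∧ -B ≤ ψ x := fun x => ⟨(abs_le.1 (hB x)).2, (abs_le.1 (hB x)).1⟩
  have e1 : ∀ x, ‖F x - G x‖ ^ 2 * E x =
      Real.exp (ψ x) * (‖F x - G x‖ ^ 2 * Real.exp (-Φ x)) := fun x => by
    simp only [hE]
    rw [show ψ x - Φ x = ψ x + -Φ x by ring, Real.exp_add]; ring
  have ie : Integrable (fun x => ‖F x - G x‖ ^ 2 * E x) μ := by
    refine (ia.const_mul (Real.exp B)).mono' ((hac.norm.pow 2).mul hEc).aestronglyMeasurable
      (Eventually.of_forall fun x => ?_)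
    rw [e1, Real.norm_of_nonneg (by positivity)]
    exact mul_le_mul_of_nonneg_right (Real.exp_le_exp.2 (hBx x).1) (by positivity)
  -- the right-hand side
  set κ' : M → ℝ := fun x => Real.exp (ψ x) ^ 2 * (2 * κ x + θ x * ‖F x - G x‖ ^ 2) with hκ'
  have hκ'0 : ∀ x, 0 ≤ κ' x := fun x => by
    have := hκ0 x
    have := hθ0 x
    simp only [hκ']; positivity
  have hκ'm : Measurable κ' := by
    simp only [hκ']
    exact ((Real.continuous_exp.comp hψc).pow 2).measurable.mul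
      ((hκm.const_mul 2).add (hθm.mul (hac.norm.pow 2).measurable))
  have hG'S : Sm (fun x => ((Real.exp (ψ x) : ℝ) : ℂ) * (G x - F x)) :=
    (expC_sm hψ).mul (hG.sub (hol_sm hF))
  have hdb : ∀ j x, db j (fun x => ((Real.exp (ψ x) : ℝ) : ℂ) * (G x - F x)) x =
      ((Real.exp (ψ x) : ℝ) : ℂ) * ((G x - F x) * db j (fun y => (ψ y : ℂ)) x + db j G x) := by
    intro j x
    have hd : HasDerivAt Real.exp (Real.exp (ψ x)) (ψ x) := Real.hasDerivAt_exp _
    have hexpS : Sm (fun y => Real.exp (ψ y)) := Sm.comp (Real.contDiff_exp.of_le le_top) hψ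
    rw [db_mul (expC_sm hψ) (hG.sub (hol_sm hF)), db_comp_real hψ hexpS x hd,
      db_sub hG (hol_sm hF), hol_db hF]
    ring
  have hk' : ∀ x (w : Fin n → ℂ),
      ‖∑ j, db j (fun x => ((Real.exp (ψ x) : ℝ) : ℂ) * (G x - F x)) x * conj (w j)‖ ^ 2 ≤
      κ' x * Levi (fun y => Φ y + ψ y) x w := by
    intro x w
    have h1 : ∑ j, db j (fun x => ((Real.exp (ψ x) : ℝ) : ℂ) * (G x - F x)) x * conj (w j) =
        ((Real.exp (ψ x) : ℝ) : ℂ) * ((G x - F x) *
          (∑ j, db j (fun y => (ψ y : ℂ)) x * conj (w j)) + ∑ j, db j G x * conj (w j)) := by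
      rw [Finset.mul_sum, ← Finset.sum_add_distrib, Finset.mul_sum]
      refine Finset.sum_congr rfl fun j _ => ?_
      rw [hdb]; ring
    rw [h1, norm_mul, mul_pow, Complex.norm_real, Real.norm_of_nonneg (Real.exp_pos _).le]
    simp only [hκ']
    rw [mul_assoc]
    refine mul_le_mul_of_nonneg_left ?_ (by positivity)
    have hLp := hpos x w
    by_cases hκx : κ x = 0
    · have h2 : ∑ j, db j G x * conj (w j) = 0 := by
        have h3 := hk x w
        rw [hκx, zero_mul] at h3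
        have h4 : ‖∑ j, db j G x * conj (w j)‖ = 0 := by
          have := norm_nonneg (∑ j, db j G x * conj (w j))
          nlinarith
        exact norm_eq_zero.1 h4
      rw [h2, add_zero, hκx, mul_zero, zero_add, norm_mul, mul_pow, norm_sub_rev (G x)]
      calc ‖F x - G x‖ ^ 2 * ‖∑ j, db j (fun y => (ψ y : ℂ)) x * conj (w j)‖ ^ 2
          ≤ ‖F x - G x‖ ^ 2 * (θ x * Levi (fun y => Φ y + ψ y) x w) :=
            mul_le_mul_of_nonneg_left (hth x w) (by positivity)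
        _ = _ := by ring
    · have h3 := hth2 x hκx w
      have h4 := norm_add_sq_le ((G x - F x) *
          (∑ j, db j (fun y => (ψ y : ℂ)) x * conj (w j))) (∑ j, db j G x * conj (w j))
      refine h4.trans ?_
      rw [norm_mul, mul_pow, norm_sub_rev (G x)]
      have h5 := hk x w
      have h6 := mul_le_mul_of_nonneg_left h3 (sq_nonneg ‖F x - G x‖)
      nlinarith
  have hle : ∀ x, κ' x * Real.exp (-(Φ x + ψ x)) =
      2 * (κ x * E x) + θ x * (‖F x - G x‖ ^ 2 * E x) := by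
    intro x
    have h4 : Real.exp (ψ x) ^ 2 * Real.exp (-(Φ x + ψ x)) = E x := by
      simp only [hE]
      rw [sq, ← Real.exp_add, ← Real.exp_add]; congr 1; ring
    simp only [hκ']
    rw [← h4]; ring
  set T : ℝ≥0∞ := ∫⁻ x, ENNReal.ofReal (θ x * (‖F x - G x‖ ^ 2 * E x)) ∂μ with hT
  set Kc : ℝ≥0∞ := ∫⁻ x, ENNReal.ofReal (κ x * E x) ∂μ with hKc
  have hTt : T ≠ ⊤ := by
    have h1 : T ≤ ∫⁻ x, ENNReal.ofReal (‖F x - G x‖ ^ 2 * E x) ∂μ := by
      refine lintegral_mono fun x => ENNReal.ofReal_le_ofReal ?_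
      have h2 : 0 ≤ ‖F x - G x‖ ^ 2 * E x := by
        have := (Real.exp_pos (ψ x - Φ x)).le
        simp only [hE]; positivity
      have := hθ1 x
      nlinarith
    refine ne_top_of_le_ne_top ?_ h1
    rw [← ofReal_integral_eq_lintegral_ofReal ie (Eventually.of_forall fun x => by
      have := (Real.exp_pos (ψ x - Φ x)).le
      simp only [hE]; positivity)]
    exact ENNReal.ofReal_ne_top
  have hEp : ∀ x, 0 < E x := fun x => Real.exp_pos _
  have m1 : Measurable (fun x => ENNReal.ofReal (κ x * E x)) :=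
    (hκm.mul hEc.measurable).ennreal_ofReal
  have m2 : Measurable (fun x => ENNReal.ofReal (θ x * (‖F x - G x‖ ^ 2 * E x))) :=
    (hθm.mul ((hac.norm.pow 2).mul hEc).measurable).ennreal_ofReal
  have hKint : ∫⁻ x, ENNReal.ofReal (κ' x * Real.exp (-(Φ x + ψ x))) ∂μ = 2 * Kc + T := by
    rw [hKc, hT, ← lintegral_const_mul _ m1, ← lintegral_add_left (m1.const_mul 2)]
    refine lintegral_congr fun x => ?_
    have h1 := hκ0 x
    have h2 := hθ0 x
    have h3 := hEp x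
    rw [hle, ENNReal.ofReal_add (by positivity) (by positivity), ENNReal.ofReal_mul (by norm_num)]
    simp
  have hsum : (2 * Kc + T) ≠ ⊤ := by
    refine ENNReal.add_ne_top.2 ⟨ENNReal.mul_ne_top (by simp) hKt, hTt⟩
  -- Hörmander + minimality
  have hmain : ∫⁻ x, ENNReal.ofReal (‖F x - G x‖ ^ 2 * E x) ∂μ ≤ 2 * Kc + T := by
    set K0 : ℝ := (2 * Kc + T).toReal with hK0
    have hK0' : ENNReal.ofReal K0 = 2 * Kc + T := ENNReal.ofReal_toReal hsum
    have hK00 : 0 ≤ K0 := ENNReal.toReal_nonneg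
    rw [← hK0']
    have h1 : ∀ τ : ℝ, 0 < τ → ∫⁻ x, ENNReal.ofReal (‖F x - G x‖ ^ 2 * E x) ∂μ ≤
        ENNReal.ofReal ((1 + τ) * K0) := by
      intro τ hτ
      obtain ⟨F', hF', hF'b⟩ := hormT hμ hρ hcpt hL (hΦ.add hψ) hpos hG'S hκ'0 hκ'm hk' hK00
        (by rw [hKint, hK0']) hτ
      exact (twist_min hΦc hψc hB hGc hF hfin hmin hF').trans hF'b
    have h2 : Tendsto (fun τ : ℝ => ENNReal.ofReal ((1 + τ) * K0)) (𝓝[>] 0)
        (𝓝 (ENNReal.ofReal ((1 + 0) * K0))) := by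
      refine (ENNReal.continuous_ofReal.tendsto _).comp ?_
      have : Continuous fun τ : ℝ => (1 + τ) * K0 := by fun_prop
      exact (this.tendsto 0).mono_left nhdsWithin_le_nhds
    rw [add_zero, one_mul] at h2
    exact ge_of_tendsto h2 (by filter_upwards [self_mem_nhdsWithin] with τ hτ using h1 τ hτ)
  have hsplit : ∫⁻ x, ENNReal.ofReal (‖F x - G x‖ ^ 2 * E x) ∂μ =
      ∫⁻ x, ENNReal.ofReal ((1 - θ x) * (‖F x - G x‖ ^ 2 * E x)) ∂μ + T := by
    rw [hT, ← lintegral_add_right _ m2]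
    refine lintegral_congr fun x => ?_
    have h1 := hθ0 x
    have h2 := hθ1 x
    have h3 := hEp x
    rw [← ENNReal.ofReal_add (mul_nonneg (by linarith) (by positivity)) (by positivity)]
    congr 1; ring
  rw [hsplit] at hmain
  exact (ENNReal.add_le_add_iff_right hTt).1 hmain

end Crest.Agent.R276.OT3_189
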