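import Crest.Agent.R276.OT3_189

/-!
# Row 276, leaf OT (helper189), part 4: calculus of functions of `|h|²`
-/

set_option autoImplicit false
set_option linter.unusedSectionVars false
set_option maxHeartbeats 800000

noncomputable section

open Set Filter Topology MeasureTheory ComplexConjugate Metric
open scoped ENNReal

namespace Crest.Agent.R276.OT4_189

open Crest.Agent.R271.Ho51 Crest.Agent.R271.W792 Crest.Agent.R271
  OT1_189 OT2_189 OT3_189

/-! ### real functions -/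

/-- `-log (q + c)` -/
def Tc (c q : ℝ) : ℝ := -Real.log (q + c)
/-- `T + log T` -/
def Nc (c q : ℝ) : ℝ := Tc c q + Real.log (Tc c q)
/-- the twisting function `-log N` -/
def Pc (c q : ℝ) : ℝ := -Real.log (Nc c q)
/-- first derivative of `Pc` -/
def P1 (c q : ℝ) : ℝ := (1 + 1 / Tc c q) / ((q + c) * Nc c q)
/-- second derivative of `Pc` -/
def P2 (c q : ℝ) : ℝ :=
  (1 / (Tc c q ^ 2 * Nc c q) - (1 + 1 / Tc c q) / Nc c q + (1 + 1 / Tc c q) ^ 2 / Nc c q ^ 2) /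
    (q + c) ^ 2

lemma hasDerivAt_Tc {c q : ℝ} (h : 0 < q + c) : HasDerivAt (Tc c) (-(1 / (q + c))) q := by
  have h1 : HasDerivAt (fun q : ℝ => q + c) 1 q := (hasDerivAt_id q).add_const c
  have h2 := (h1.log h.ne').neg
  exact h2

lemma hasDerivAt_Nc {c q : ℝ} (h : 0 < q + c) (hT : 0 < Tc c q) :
    HasDerivAt (Nc c) (-(1 + 1 / Tc c q) / (q + c)) q := by
  have h1 := hasDerivAt_Tc h
  have h2 := h1.add (h1.log hT.ne')
  refine h2.congr_deriv ?_
  field_simp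
  ring

lemma hasDerivAt_Pc {c q : ℝ} (h : 0 < q + c) (hT : 0 < Tc c q) (hN : 0 < Nc c q) :
    HasDerivAt (Pc c) (P1 c q) q := by
  have h1 := ((hasDerivAt_Nc h hT).log hN.ne').neg
  refine h1.congr_deriv ?_
  unfold P1
  field_simp

lemma hasDerivAt_P1 {c q : ℝ} (h : 0 < q + c) (hT : 0 < Tc c q) (hN : 0 < Nc c q) :
    HasDerivAt (P1 c) (P2 c q) q := by
  have h0 : HasDerivAt (fun q : ℝ => q + c) 1 q := (hasDerivAt_id q).add_const c
  have h1 := hasDerivAt_Tc h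
  have h2 := hasDerivAt_Nc h hT
  have h3 : HasDerivAt (fun q => 1 + 1 / Tc c q) (1 / ((q + c) * Tc c q ^ 2)) q := by
    have h4 := (h1.inv hT.ne').const_add 1
    have h5 : (fun q => 1 + 1 / Tc c q) = fun q => 1 + (Tc c)⁻¹ q := by
      funext q; simp
    rw [h5]
    refine h4.congr_deriv ?_
    field_simp
  have h4 : HasDerivAt (fun q => (q + c) * Nc c q)
      (1 * Nc c q + (q + c) * (-(1 + 1 / Tc c q) / (q + c))) q := h0.mul h2
  have h5 := h3.div h4 (by positivity)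
  refine h5.congr_deriv ?_
  unfold P2
  field_simp
  ring

lemma continuousAt_Tc {c q : ℝ} (h : 0 < q + c) : ContinuousAt (Tc c) q :=
  (hasDerivAt_Tc h).continuousAt

lemma ev_pos {c q : ℝ} (h : 0 < q + c) (hT : 0 < Tc c q) (hN : 0 < Nc c q) :
    ∀ᶠ t in 𝓝 q, 0 < t + c ∧ 0 < Tc c t ∧ 0 < Nc c t := by
  have h1 : ∀ᶠ t in 𝓝 q, 0 < t + c :=
    (continuous_id.add continuous_const).continuousAt.eventually (lt_mem_nhds h)
  have h2 : ∀ᶠ t in 𝓝 q, 0 < Tc c t := (hasDerivAt_Tc h).continuousAt.eventually (lt_mem_nhds hT)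
  have h3 : ∀ᶠ t in 𝓝 q, 0 < Nc c t :=
    (hasDerivAt_Nc h hT).continuousAt.eventually (lt_mem_nhds hN)
  exact h1.and (h2.and h3)

lemma contDiffAt_Tc {c q : ℝ} (h : 0 < q + c) : ContDiffAt ℝ (⊤ : ℕ∞) (Tc c) q := by
  unfold Tc
  exact ((contDiffAt_id.add contDiffAt_const).log h.ne').neg

lemma contDiffAt_Nc {c q : ℝ} (h : 0 < q + c) (hT : 0 < Tc c q) :
    ContDiffAt ℝ (⊤ : ℕ∞) (Nc c) q := by
  unfold Nc
  exact (contDiffAt_Tc h).add ((contDiffAt_Tc h).log hT.ne')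

lemma contDiffAt_Pc {c q : ℝ} (h : 0 < q + c) (hT : 0 < Tc c q) (hN : 0 < Nc c q) :
    ContDiffAt ℝ (⊤ : ℕ∞) (Pc c) q := by
  unfold Pc
  exact ((contDiffAt_Nc h hT).log hN.ne').neg

lemma contDiffAt_P1 {c q : ℝ} (h : 0 < q + c) (hT : 0 < Tc c q) (hN : 0 < Nc c q) :
    ContDiffAt ℝ (⊤ : ℕ∞) (P1 c) q := by
  unfold P1
  refine ContDiffAt.div ?_ ((contDiffAt_id.add contDiffAt_const).mul (contDiffAt_Nc h hT))
    (by positivity)
  exact contDiffAt_const.add (contDiffAt_const.div (contDiffAt_Tc h) hT.ne')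

/-- the key identity `g' + q g''` -/
lemma P_key {c q : ℝ} (h : 0 < q + c) (hT : 0 < Tc c q) (hN : 0 < Nc c q) :
    P1 c q + q * P2 c q = (c * (1 + 1 / Tc c q) / Nc c q + q / (Tc c q ^ 2 * Nc c q) +
      q * (1 + 1 / Tc c q) ^ 2 / Nc c q ^ 2) / (q + c) ^ 2 := by
  unfold P1 P2
  field_simp
  ring

section
variable {c q : ℝ}

lemma Tc_ge (hc : 0 < c) (hq : 0 ≤ q) (h : q + c ≤ Real.exp (-1)) : 1 ≤ Tc c q := by
  unfold Tc
  have h1 : Real.log (q + c) ≤ -1 := by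
    rw [← Real.log_exp (-1)]
    exact Real.log_le_log (by linarith) h
  linarith

lemma Nc_ge (hT : 1 ≤ Tc c q) : Tc c q ≤ Nc c q := by
  unfold Nc
  have := Real.log_nonneg hT
  linarith

lemma Nc_le (hT : 1 ≤ Tc c q) : Nc c q ≤ (Tc c q + 1) ^ 2 := by
  unfold Nc
  have h1 : Real.log (Tc c q) ≤ Tc c q - 1 := Real.log_le_sub_one_of_pos (by linarith)
  nlinarith

end

/-- the function `θ` of the twisted estimate -/
def thc (c q : ℝ) : ℝ := 1 - Nc c q / (2 * (Tc c q + 1) ^ 2)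

lemma thc_bounds {c q : ℝ} (hT : 1 ≤ Tc c q) : 1 / 2 ≤ thc c q ∧ thc c q ≤ 1 := by
  have h1 := Nc_le hT
  have h2 := Nc_ge hT
  have h3 : 0 < 2 * (Tc c q + 1) ^ 2 := by positivity
  unfold thc
  constructor
  · have : Nc c q / (2 * (Tc c q + 1) ^ 2) ≤ 1 / 2 := by
      rw [div_le_iff₀ h3]; linarith
    linarith
  · have : 0 ≤ Nc c q / (2 * (Tc c q + 1) ^ 2) := div_nonneg (by linarith) h3.le
    linarith

/-- `|∂ψ|² ≤ θ Levi ψ` -/
lemma th_ineq {c q : ℝ} (hc : 0 < c) (hq : 0 ≤ q) (hT : 1 ≤ Tc c q) :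
    P1 c q ^ 2 * q ≤ thc c q * (P1 c q + q * P2 c q) := by
  have hT0 : 0 < Tc c q := by linarith
  have hN0 : 0 < Nc c q := by linarith [Nc_ge hT]
  have h : 0 < q + c := by linarith
  rw [P_key h hT0 hN0]
  have hle := Nc_le hT
  set T := Tc c q with hTdef
  set N := Nc c q with hNdef
  have e1 : P1 c q ^ 2 * q = (q * (1 + 1 / T) ^ 2 / N ^ 2) / (q + c) ^ 2 := by
    unfold P1
    rw [← hTdef, ← hNdef]
    field_simp
  rw [e1, ← mul_div_assoc]
  refine div_le_div_of_nonneg_right ?_ (by positivity)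
  have hθ := (thc_bounds hT).1
  set s : ℝ := N / (T + 1) ^ 2 with hs
  have hs1 : s ≤ 1 := by rw [hs, div_le_one (by positivity)]; exact hle
  have hs0 : 0 ≤ s := by positivity
  have e2 : thc c q = 1 - s / 2 := by
    unfold thc
    rw [← hTdef, ← hNdef, hs]
    field_simp
  have e3 : q / (T ^ 2 * N) = s * (q * (1 + 1 / T) ^ 2 / N ^ 2) := by
    rw [hs]
    field_simp
  have h4 : 0 ≤ c * (1 + 1 / T) / N := by positivity
  have h5 : 0 ≤ q * (1 + 1 / T) ^ 2 / N ^ 2 := by positivity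
  rw [e3, e2]
  set X := q * (1 + 1 / T) ^ 2 / N ^ 2 with hX
  have h6 : X ≤ (1 - s / 2) * (s * X + X) := by
    have : (1 - s / 2) * (s * X + X) - X = X * (s * (1 - s) / 2) := by ring
    have h7 : 0 ≤ X * (s * (1 - s) / 2) := by
      have : 0 ≤ 1 - s := by linarith
      positivity
    linarith
  have h8 : 0 ≤ (1 - s / 2) * (c * (1 + 1 / T) / N) := by
    have : 0 ≤ 1 - s / 2 := by linarith
    positivity
  nlinarith

/-- `2 |∂ψ|² ≤ θ Levi ψ` on `q ≤ c` -/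
lemma th_ineq2 {c q : ℝ} (hc : 0 < c) (hq : 0 ≤ q) (hqc : q ≤ c) (hT : 5 ≤ Tc c q) :
    2 * (P1 c q ^ 2 * q) ≤ thc c q * (P1 c q + q * P2 c q) := by
  have hT0 : 0 < Tc c q := by linarith
  have hT1 : 1 ≤ Tc c q := by linarith
  have hN0 : 0 < Nc c q := by linarith [Nc_ge hT1]
  have h : 0 < q + c := by linarith
  rw [P_key h hT0 hN0]
  have hNT := Nc_ge hT1
  have hθ := (thc_bounds hT1).1
  set T := Tc c q with hTdef
  set N := Nc c q with hNdef
  set θ := thc c q with hθdef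
  have e1 : P1 c q ^ 2 * q = (q * (1 + 1 / T) ^ 2 / N ^ 2) / (q + c) ^ 2 := by
    unfold P1
    rw [← hTdef, ← hNdef]
    field_simp
  rw [e1]
  have hqc2 : 0 < (q + c) ^ 2 := by positivity
  rw [← mul_div_assoc (2 : ℝ) (q * (1 + 1 / T) ^ 2 / N ^ 2), ← mul_div_assoc θ,
    div_le_div_iff_of_pos_right hqc2]
  have h1T : 1 / T ≤ 1 / 5 := one_div_le_one_div_of_le (by norm_num) hT
  have h1T0 : 0 < 1 / T := by positivity
  have hN5 : 5 ≤ N := by linarith
  have h1N : 1 / N ≤ 1 / 5 := one_div_le_one_div_of_le (by norm_num) hN5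
  have h1N0 : 0 < 1 / N := by positivity
  have e2 : q * (1 + 1 / T) ^ 2 / N ^ 2 = (q * (1 + 1 / T) / N) * ((1 + 1 / T) * (1 / N)) := by
    field_simp
  have h2 : (1 + 1 / T) * (1 / N) ≤ 1 / 4 := by nlinarith
  have h3 : 0 ≤ q * (1 + 1 / T) / N := by positivity
  have h4 : q * (1 + 1 / T) / N ≤ c * (1 + 1 / T) / N := by gcongr
  have h5 : 0 ≤ q / (T ^ 2 * N) := by positivity
  have h6 : 0 ≤ q * (1 + 1 / T) ^ 2 / N ^ 2 := by positivity
  have h7 : q * (1 + 1 / T) ^ 2 / N ^ 2 ≤ (c * (1 + 1 / T) / N) * (1 / 4) := by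
    rw [e2]
    calc (q * (1 + 1 / T) / N) * ((1 + 1 / T) * (1 / N)) ≤ (q * (1 + 1 / T) / N) * (1 / 4) :=
          mul_le_mul_of_nonneg_left h2 h3
      _ ≤ (c * (1 + 1 / T) / N) * (1 / 4) :=
          mul_le_mul_of_nonneg_right h4 (by norm_num : (0 : ℝ) ≤ 1 / 4)
  have h8 : 0 ≤ c * (1 + 1 / T) / N := by positivity
  have h9 : 1 / 2 * (c * (1 + 1 / T) / N) ≤
      θ * (c * (1 + 1 / T) / N + q / (T ^ 2 * N) + q * (1 + 1 / T) ^ 2 / N ^ 2) := by
    have h10 : 0 ≤ θ := by linarith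
    calc 1 / 2 * (c * (1 + 1 / T) / N) ≤ θ * (c * (1 + 1 / T) / N) :=
          mul_le_mul_of_nonneg_right hθ h8
      _ ≤ _ := mul_le_mul_of_nonneg_left (by linarith) h10
  linarith

/-- lower bound of the Levi form of `ψ` -/
lemma P_lower {c q : ℝ} (hc : 0 < c) (hq : 0 ≤ q) (hT : 1 ≤ Tc c q) :
    c / (Nc c q * (q + c) ^ 2) ≤ P1 c q + q * P2 c q := by
  have hT0 : 0 < Tc c q := by linarith
  have hN0 : 0 < Nc c q := by linarith [Nc_ge hT]
  have h : 0 < q + c := by linarith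
  rw [P_key h hT0 hN0, ← div_div]
  refine div_le_div_of_nonneg_right ?_ (by positivity)
  set T := Tc c q with hTdef
  set N := Nc c q with hNdef
  have h5 : 0 ≤ q / (T ^ 2 * N) := by positivity
  have h6 : 0 ≤ q * (1 + 1 / T) ^ 2 / N ^ 2 := by positivity
  have h7 : c / N ≤ c * (1 + 1 / T) / N := by
    gcongr
    have : 0 < 1 / T := by positivity
    nlinarith
  linarith

/-! ### calculus on `M` -/

variable {n : ℕ} {M : Type*} [TopologicalSpace M] [RDom n M]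

/-- `Σ ∂̄_j u \bar w_j` in terms of `D` -/
lemma dbar_eq (u : M → ℂ) (x : M) (w : Fin n → ℂ) :
    ∑ j, db j u x * conj (w j) = (1 / 2) * (D u x w + Complex.I * D u x (Complex.I • w)) := by
  rw [D_wirtinger u x w, D_wirtinger u x (Complex.I • w), Finset.mul_sum,
    ← Finset.sum_add_distrib, Finset.mul_sum]
  refine Finset.sum_congr rfl fun j _ => ?_
  simp only [Pi.smul_apply, smul_eq_mul, map_mul, Complex.conj_I]
  linear_combination (-(1 / 2) * dz j u x * w j + 1 / 2 * db j u x * conj (w j)) *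
    Complex.I_mul_I

lemma dbar_real {ψ : M → ℝ} (hψ : Sm ψ) (x : M) (w : Fin n → ℂ) :
    ‖∑ j, db j (fun y => (ψ y : ℂ)) x * conj (w j)‖ ^ 2 = dsq ψ x w := by
  rw [dbar_eq, D_ofReal hψ, D_ofReal hψ, norm_mul, mul_pow]
  unfold dsq
  have h1 : ‖((D ψ x w : ℝ) : ℂ) + Complex.I * ((D ψ x (Complex.I • w) : ℝ) : ℂ)‖ ^ 2 =
      (D ψ x w) ^ 2 + (D ψ x (Complex.I • w)) ^ 2 := by
    rw [← Complex.normSq_eq_norm_sq, mul_comm, Complex.normSq_add_mul_I]
  rw [h1]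
  norm_num

lemma dbar_mul_hol {u f : M → ℂ} (hu : Sm u) (hf : Ho51.Hol f) (x : M) (w : Fin n → ℂ) :
    ∑ j, db j (fun y => u y * f y) x * conj (w j) =
      f x * ∑ j, db j u x * conj (w j) := by
  rw [Finset.mul_sum]
  refine Finset.sum_congr rfl fun j _ => ?_
  rw [db_mul hu (hol_sm hf), hol_db hf]
  ring

lemma D_mulR {f g : M → ℝ} (hf : Sm f) (hg : Sm g) (x : M) (v : Fin n → ℂ) :
    D (fun y => f y * g y) x v = D f x v * g x + f x * D g x v := by
  have := D_smul hf hg x v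
  simpa [smul_eq_mul] using this

variable {h : M → ℂ} {b : M → ℝ}

/-- `Q = |h|² e^{-b}` -/
def Qf (h : M → ℂ) (b : M → ℝ) (x : M) : ℝ := ‖h x‖ ^ 2 * Real.exp (-b x)

/-- `∂b(w)` -/
def bet (b : M → ℝ) (x : M) (w : Fin n → ℂ) : ℂ :=
  (1 / 2 : ℂ) * ((D b x w : ℂ) - Complex.I * (D b x (Complex.I • w) : ℂ))

/-- `P = e^{-b} |∂h(w) - h ∂b(w)|²` -/
def Pn (h : M → ℂ) (b : M → ℝ) (x : M) (w : Fin n → ℂ) : ℝ :=
  Real.exp (-b x) * ‖D h x w - h x * bet b x w‖ ^ 2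

lemma Pn_nonneg (h : M → ℂ) (b : M → ℝ) (x : M) (w : Fin n → ℂ) : 0 ≤ Pn h b x w := by
  unfold Pn; positivity

lemma Qf_nonneg (h : M → ℂ) (b : M → ℝ) (x : M) : 0 ≤ Qf h b x := by
  unfold Qf; positivity

lemma sm_q (hh : Ho51.Hol h) : Sm (fun x => ‖h x‖ ^ 2) := Hol.sm_normSq (hol_sm hh)

lemma sm_Q (hh : Ho51.Hol h) (hb : Sm b) : Sm (Qf h b) := (sm_q hh).mulR (H361.sm_Er hb)

lemma D_E (hb : Sm b) (x : M) (v : Fin n → ℂ) :
    D (fun x => Real.exp (-b x)) x v = -Real.exp (-b x) * D b x v :=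
  D_comp_real hb x (H361.hasDerivAt_expneg (b x)) v

lemma D_Q (hh : Ho51.Hol h) (hb : Sm b) (x : M) (v : Fin n → ℂ) :
    D (Qf h b) x v = Real.exp (-b x) * (D (fun x => ‖h x‖ ^ 2) x v - ‖h x‖ ^ 2 * D b x v) := by
  have h1 : D (Qf h b) x v = D (fun x => ‖h x‖ ^ 2 * Real.exp (-b x)) x v := rfl
  rw [h1, D_mulR (sm_q hh) (H361.sm_Er hb), D_E hb]
  ring

lemma bet_re (b : M → ℝ) (x : M) (w : Fin n → ℂ) : (bet b x w).re = D b x w / 2 := by
  unfold bet
  simp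
  ring

lemma bet_im (b : M → ℝ) (x : M) (w : Fin n → ℂ) :
    (bet b x w).im = -(D b x (Complex.I • w)) / 2 := by
  unfold bet
  simp
  ring

lemma D_q (hh : Ho51.Hol h) (x : M) (w : Fin n → ℂ) :
    D (fun x => ‖h x‖ ^ 2) x w = 2 * ((D h x w).re * (h x).re + (D h x w).im * (h x).im) := by
  rw [D_normSq (hol_sm hh)]
  simp only [Complex.mul_re, Complex.conj_re, Complex.conj_im]
  ring

lemma D_q_I (hh : Ho51.Hol h) (x : M) (w : Fin n → ℂ) :
    D (fun x => ‖h x‖ ^ 2) x (Complex.I • w) =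
      2 * ((D h x w).re * (h x).im - (D h x w).im * (h x).re) := by
  rw [D_normSq (hol_sm hh), (hol_w hh).cl]
  simp only [Complex.mul_re, Complex.mul_im, Complex.conj_re, Complex.conj_im, Complex.I_re,
    Complex.I_im]
  ring

lemma nsqC (z : ℂ) : ‖z‖ ^ 2 = z.re ^ 2 + z.im ^ 2 := by
  rw [← Complex.normSq_eq_norm_sq, Complex.normSq_apply]; ring

lemma dsq_Q (hh : Ho51.Hol h) (hb : Sm b) (x : M) (w : Fin n → ℂ) :
    dsq (Qf h b) x w = Qf h b x * Pn h b x w := by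
  unfold dsq Pn
  rw [D_Q hh hb, D_Q hh hb, D_q hh, D_q_I hh]
  have e1 : D b x w = 2 * (bet b x w).re := by rw [bet_re]; ring
  have e2 : D b x (Complex.I • w) = -2 * (bet b x w).im := by rw [bet_im]; ring
  rw [e1, e2]
  unfold Qf
  rw [nsqC (h x), nsqC (D h x w - h x * bet b x w)]
  simp only [Complex.sub_re, Complex.sub_im, Complex.mul_re, Complex.mul_im]
  ring

lemma lev_Q (hh : Ho51.Hol h) (hb : Sm b) (x : M) (w : Fin n → ℂ) :
    lev (Qf h b) x w = Pn h b x w - Qf h b x * lev b x w := by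
  have hq := sm_q hh
  have hE : Sm (fun x => Real.exp (-b x)) := H361.sm_Er hb
  have h2 : ∀ v : Fin n → ℂ, D (fun y => D (Qf h b) y v) x v =
      Real.exp (-b x) * (D (fun y => D (fun x => ‖h x‖ ^ 2) y v) x v -
        ‖h x‖ ^ 2 * D (fun y => D b y v) x v - 2 * (D (fun x => ‖h x‖ ^ 2) x v * D b x v) +
        ‖h x‖ ^ 2 * (D b x v) ^ 2) := by
    intro v
    have h3 : (fun y => D (Qf h b) y v) = fun y => Real.exp (-b y) *
        (D (fun x => ‖h x‖ ^ 2) y v - ‖h y‖ ^ 2 * D b y v) := by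
      funext y; exact D_Q hh hb y v
    have s1 : Sm (fun y => ‖h y‖ ^ 2 * D b y v) := hq.mulR (hb.D.apply v)
    have s2 : Sm (fun y => D (fun x => ‖h x‖ ^ 2) y v) := hq.D.apply v
    rw [h3, D_mulR hE (s2.sub s1), D_E hb, D_sub s2 s1, _root_.sub_apply,
      D_mulR hq (hb.D.apply v)]
    ring
  have h4 := lev_normSq (hol_w hh) x w
  unfold lev at h4 ⊢
  rw [h2, h2]
  have e1 : D b x w = 2 * (bet b x w).re := by rw [bet_re]; ring
  have e2 : D b x (Complex.I • w) = -2 * (bet b x w).im := by rw [bet_im]; ring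
  rw [D_q hh, D_q_I hh, e1, e2]
  unfold Pn Qf
  rw [nsqC (D h x w - h x * bet b x w)]
  rw [nsqC (D h x w)] at h4
  simp only [Complex.sub_re, Complex.sub_im, Complex.mul_re, Complex.mul_im]
  rw [nsqC (h x)]
  linear_combination Real.exp (-b x) * h4

lemma dsq_comp {φ : M → ℝ} (hφ : Sm φ) {g : ℝ → ℝ} {g' : ℝ} (x : M)
    (hg : HasDerivAt g g' (φ x)) (w : Fin n → ℂ) :
    dsq (fun y => g (φ y)) x w = g' ^ 2 * dsq φ x w := by
  unfold dsq
  rw [D_comp_real hφ x hg, D_comp_real hφ x hg]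
  ring

/-- Levi form of `g(Q)` -/
lemma Levi_Q (hh : Ho51.Hol h) (hb : Sm b) {g g' : ℝ → ℝ} {g'' : ℝ} (x : M)
    (hgs : Sm (fun y => g (Qf h b y)))
    (hg' : ∀ᶠ t in 𝓝 (Qf h b x), HasDerivAt g (g' t) t) (hg'' : HasDerivAt g' g'' (Qf h b x))
    (hg's : Sm (fun y => g' (Qf h b y))) (w : Fin n → ℂ) :
    Levi (fun y => g (Qf h b y)) x w = (g' (Qf h b x) + Qf h b x * g'') * Pn h b x w -
      Qf h b x * g' (Qf h b x) * Levi b x w := by
  rw [Levi_eq_lev hgs, lev_comp (φ := Qf h b) (sm_Q hh hb) x hg' hg'' w hg's, dsq_Q hh hb,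
    lev_Q hh hb, Levi_eq_lev hb]
  ring

/-! ### the weight `log (Q + d)` -/

lemma sm_logd (hh : Ho51.Hol h) (hb : Sm b) {d : ℝ} (hd : 0 < d) :
    Sm (fun x => Real.log (Qf h b x + d)) := by
  refine Sm.comp_at (g := fun t : ℝ => Real.log (t + d)) (sm_Q hh hb) fun x => ?_
  have hp : 0 < Qf h b x + d := by have := Qf_nonneg h b x; linarith
  exact (contDiffAt_id.add contDiffAt_const).log hp.ne'

lemma Levi_logd (hh : Ho51.Hol h) (hb : Sm b) {d : ℝ} (hd : 0 < d) (x : M) (w : Fin n → ℂ) :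
    Levi (fun x => Real.log (Qf h b x + d)) x w =
      d / (Qf h b x + d) ^ 2 * Pn h b x w - Qf h b x / (Qf h b x + d) * Levi b x w := by
  have hq0 := Qf_nonneg h b x
  have hp : 0 < Qf h b x + d := by linarith
  have hev : ∀ᶠ t in 𝓝 (Qf h b x), HasDerivAt (fun t : ℝ => Real.log (t + d)) (t + d)⁻¹ t := by
    have h1 : ∀ᶠ t in 𝓝 (Qf h b x), 0 < t + d :=
      (continuous_id.add continuous_const).continuousAt.eventually (lt_mem_nhds hp)
    filter_upwards [h1] with t ht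
    have := ((hasDerivAt_id t).add_const d).log ht.ne'
    simpa using this
  have h2 : HasDerivAt (fun t : ℝ => (t + d)⁻¹) (-(1 / (Qf h b x + d) ^ 2)) (Qf h b x) := by
    have := ((hasDerivAt_id (Qf h b x)).add_const d).inv hp.ne'
    refine this.congr_deriv ?_
    simp [neg_div]
  have hs : Sm (fun y => (Qf h b y + d)⁻¹) := by
    refine Sm.comp_at (g := fun t : ℝ => (t + d)⁻¹) (sm_Q hh hb) fun x => ?_
    have hp : 0 < Qf h b x + d := by have := Qf_nonneg h b x; linarith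
    exact (contDiffAt_id.add contDiffAt_const).inv hp.ne'
  rw [Levi_Q hh hb (g := fun t => Real.log (t + d)) (g' := fun t => (t + d)⁻¹) x
    (sm_logd hh hb hd) hev h2 hs]
  have e1 : (Qf h b x + d)⁻¹ + Qf h b x * -(1 / (Qf h b x + d) ^ 2) =
      d / (Qf h b x + d) ^ 2 := by
    field_simp
    ring
  rw [e1]
  congr 1

/-! ### the twisting weight `ψ = Pc(Q)` -/

section psi

variable {c : ℝ} (hh : Ho51.Hol h) (hb : Sm b) (hc : 0 < c)
  (hbd : ∀ x, Qf h b x + c ≤ Real.exp (-1))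

include hc hbd in
lemma T_ge (x : M) : 1 ≤ Tc c (Qf h b x) := Tc_ge hc (Qf_nonneg h b x) (hbd x)

include hc hbd in
lemma N_pos (x : M) : 0 < Nc c (Qf h b x) := by
  have := T_ge hc hbd x
  have := Nc_ge this
  linarith

include hc in
lemma Qc_pos (x : M) : 0 < Qf h b x + c := by
  have := Qf_nonneg h b x; linarith

include hh hb hc hbd

omit hbd in
lemma sm_T : Sm (fun x => Tc c (Qf h b x)) := by
  refine Sm.comp_at (g := Tc c) (sm_Q hh hb) fun x => ?_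
  exact contDiffAt_Tc (Qc_pos hc x)

lemma sm_N : Sm (fun x => Nc c (Qf h b x)) := by
  refine Sm.comp_at (g := Nc c) (sm_Q hh hb) fun x => ?_
  exact contDiffAt_Nc (Qc_pos hc x) (by linarith [T_ge hc hbd x])

lemma sm_psi : Sm (fun x => Pc c (Qf h b x)) := by
  refine Sm.comp_at (g := Pc c) (sm_Q hh hb) fun x => ?_
  exact contDiffAt_Pc (Qc_pos hc x) (by linarith [T_ge hc hbd x]) (N_pos hc hbd x)

lemma Levi_psi (x : M) (w : Fin n → ℂ) :
    Levi (fun x => Pc c (Qf h b x)) x w =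
      (P1 c (Qf h b x) + Qf h b x * P2 c (Qf h b x)) * Pn h b x w -
        Qf h b x * P1 c (Qf h b x) * Levi b x w := by
  have h0 : 0 < Qf h b x + c := Qc_pos hc x
  have hT : 0 < Tc c (Qf h b x) := by linarith [T_ge hc hbd x]
  have hN := N_pos hc hbd x
  refine Levi_Q hh hb (g := Pc c) (g' := P1 c) x (sm_psi hh hb hc hbd) ?_
    (hasDerivAt_P1 h0 hT hN) ?_ w
  · filter_upwards [ev_pos h0 hT hN] with t ht
    exact hasDerivAt_Pc ht.1 ht.2.1 ht.2.2
  · refine Sm.comp_at (g := P1 c) (sm_Q hh hb) fun x => ?_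
    exact contDiffAt_P1 (Qc_pos hc x) (by linarith [T_ge hc hbd x]) (N_pos hc hbd x)

/-- the loss is at most `(2/T) Levi b` -/
lemma loss_le (x : M) : Qf h b x * P1 c (Qf h b x) ≤ 2 / Tc c (Qf h b x) := by
  have h0 : 0 < Qf h b x + c := Qc_pos hc x
  have hT1 := T_ge hc hbd x
  have hT : 0 < Tc c (Qf h b x) := by linarith
  have hN := N_pos hc hbd x
  have hNT := Nc_ge hT1
  have hq := Qf_nonneg h b x
  unfold P1
  have h1 : 1 / Tc c (Qf h b x) ≤ 1 := by rw [div_le_one hT]; exact hT1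
  have h2 : Qf h b x / (Qf h b x + c) ≤ 1 := by rw [div_le_one h0]; linarith
  have h3 : 1 / Nc c (Qf h b x) ≤ 1 / Tc c (Qf h b x) := one_div_le_one_div_of_le hT hNT
  have h4 : 0 ≤ Qf h b x / (Qf h b x + c) := by positivity
  have h5 : 0 < 1 / Nc c (Qf h b x) := by positivity
  have h6 : 0 < 1 / Tc c (Qf h b x) := by positivity
  have e1 : Qf h b x * ((1 + 1 / Tc c (Qf h b x)) / ((Qf h b x + c) * Nc c (Qf h b x))) =
      (Qf h b x / (Qf h b x + c)) * ((1 + 1 / Tc c (Qf h b x)) * (1 / Nc c (Qf h b x))) := by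
    field_simp
  rw [e1]
  calc (Qf h b x / (Qf h b x + c)) * ((1 + 1 / Tc c (Qf h b x)) * (1 / Nc c (Qf h b x)))
      ≤ 1 * ((1 + 1) * (1 / Tc c (Qf h b x))) := by gcongr
    _ = 2 / Tc c (Qf h b x) := by ring

lemma dbar_psi (x : M) (w : Fin n → ℂ) :
    ‖∑ j, db j (fun y => ((Pc c (Qf h b y) : ℝ) : ℂ)) x * conj (w j)‖ ^ 2 =
      (P1 c (Qf h b x) ^ 2 * Qf h b x) * Pn h b x w := by
  have h0 : 0 < Qf h b x + c := Qc_pos hc x
  have hT : 0 < Tc c (Qf h b x) := by linarith [T_ge hc hbd x]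
  have hN := N_pos hc hbd x
  rw [dbar_real (sm_psi hh hb hc hbd), dsq_comp (φ := Qf h b) (sm_Q hh hb) x
    (hasDerivAt_Pc h0 hT hN) w, dsq_Q hh hb]
  ring

omit hh hb in
lemma psi_bounded : ∃ B : ℝ, ∀ x, |Pc c (Qf h b x)| ≤ B := by
  refine ⟨Real.log ((Tc c 0 + 1) ^ 2), fun x => ?_⟩
  have hT := T_ge hc hbd x
  have hN1 := Nc_ge hT
  have hN2 := Nc_le hT
  have hq := Qf_nonneg h b x
  have hTT : Tc c (Qf h b x) ≤ Tc c 0 := by
    unfold Tc
    apply neg_le_neg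
    apply Real.log_le_log (by linarith)
    linarith
  have h1 : 1 ≤ Nc c (Qf h b x) := hT.trans hN1
  have h2 : 0 ≤ Real.log (Nc c (Qf h b x)) := Real.log_nonneg h1
  unfold Pc
  rw [abs_neg, abs_of_nonneg h2]
  apply Real.log_le_log (by linarith)
  refine hN2.trans ?_
  gcongr

end psi

/-! ### the cut-off -/

/-- the cut-off function -/
def zt (t : ℝ) : ℝ := Real.smoothTransition (3 - 4 * t)

lemma zt_contDiff : ContDiff ℝ (⊤ : ℕ∞) zt :=
  Real.smoothTransition.contDiff.comp (contDiff_const.sub (contDiff_const.mul contDiff_id))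

lemma zt_one {t : ℝ} (ht : t ≤ 1 / 2) : zt t = 1 :=
  Real.smoothTransition.one_of_one_le (by linarith)

lemma zt_zero {t : ℝ} (ht : 3 / 4 ≤ t) : zt t = 0 :=
  Real.smoothTransition.zero_of_nonpos (by linarith)

lemma zt_nonneg (t : ℝ) : 0 ≤ zt t := Real.smoothTransition.nonneg _

lemma zt_le_one (t : ℝ) : zt t ≤ 1 := Real.smoothTransition.le_one _

lemma zt_deriv (t : ℝ) : deriv zt t = -4 * deriv Real.smoothTransition (3 - 4 * t) := by
  have h1 : HasDerivAt (fun t : ℝ => 3 - 4 * t) (-4) t := by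
    simpa using ((hasDerivAt_id t).const_mul 4).const_sub 3
  have h2 : DifferentiableAt ℝ Real.smoothTransition (3 - 4 * t) :=
    (Real.smoothTransition.contDiff (n := 1)).differentiable (by simp) _
  have := h2.hasDerivAt.comp t h1
  rw [mul_comm]
  exact this.deriv

lemma exists_zt_bound : ∃ C : ℝ, 0 < C ∧ (∀ t, (deriv zt t) ^ 2 ≤ C) ∧
    ∀ t, deriv zt t ≠ 0 → t ≤ 3 / 4 := by
  obtain ⟨C, hC0, hC, hn⟩ := H868.exists_deriv_st_bound
  refine ⟨16 * C + 1, by positivity, fun t => ?_, fun t ht => ?_⟩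
  · rw [zt_deriv, mul_pow]
    have := hC (3 - 4 * t)
    linarith
  · by_contra hcon
    push Not at hcon
    apply ht
    rw [zt_deriv, hn _ (by linarith), mul_zero]

/-- the absolute constant -/
def Cz : ℝ := exists_zt_bound.choose

lemma Cz_pos : 0 < Cz := exists_zt_bound.choose_spec.1

lemma Cz_bound (t : ℝ) : (deriv zt t) ^ 2 ≤ Cz := exists_zt_bound.choose_spec.2.1 t

lemma Cz_supp (t : ℝ) (ht : deriv zt t ≠ 0) : t ≤ 3 / 4 := exists_zt_bound.choose_spec.2.2 t ht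

/-- the smooth extension `ζ(Q/c) f` -/
def Gc (c : ℝ) (h : M → ℂ) (b : M → ℝ) (f : M → ℂ) (x : M) : ℂ :=
  ((zt (Qf h b x / c) : ℝ) : ℂ) * f x

lemma sm_zt (hh : Ho51.Hol h) (hb : Sm b) (c : ℝ) : Sm (fun x => zt (Qf h b x / c)) :=
  Sm.comp (g := fun t : ℝ => zt (t / c)) (zt_contDiff.comp (contDiff_id.div_const c)) (sm_Q hh hb)

lemma sm_Gc (hh : Ho51.Hol h) (hb : Sm b) {f : M → ℂ} (hf : Ho51.Hol f) (c : ℝ) :
    Sm (Gc c h b f) :=
  (sm_zt hh hb c).ofReal.mul (hol_sm hf)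

lemma dbar_Gc (hh : Ho51.Hol h) (hb : Sm b) {f : M → ℂ} (hf : Ho51.Hol f) (c : ℝ) (x : M)
    (w : Fin n → ℂ) :
    ‖∑ j, db j (Gc c h b f) x * conj (w j)‖ ^ 2 =
      ‖f x‖ ^ 2 * ((deriv zt (Qf h b x / c) / c) ^ 2 * (Qf h b x * Pn h b x w)) := by
  have h1 : HasDerivAt (fun t : ℝ => zt (t / c)) (deriv zt (Qf h b x / c) / c)
      (Qf h b x) := by
    have h2 : HasDerivAt (fun t : ℝ => t / c) (1 / c) (Qf h b x) :=
      (hasDerivAt_id _).div_const c
    have h3 : HasDerivAt zt (deriv zt (Qf h b x / c)) (Qf h b x / c) :=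
      (zt_contDiff.differentiable (by simp) _).hasDerivAt
    have h4 := HasDerivAt.comp (Qf h b x) h3 h2
    refine h4.congr_deriv ?_
    ring
  have h2 := dbar_mul_hol (sm_zt hh hb c).ofReal hf x w
  have h3 : ∑ j, db j (Gc c h b f) x * conj (w j) = f x * ∑ j, db j (fun y =>
      ((zt (Qf h b y / c) : ℝ) : ℂ)) x * conj (w j) := h2
  rw [h3, norm_mul, mul_pow, dbar_real (sm_zt hh hb c), dsq_comp (φ := Qf h b)
    (g := fun t => zt (t / c)) (sm_Q hh hb) x h1 w, dsq_Q hh hb]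

end Crest.Agent.R276.OT4_189
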