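import Crest.Agent.R276.OT4_189

/-!
# Row 276, leaf OT (helper189), part 5: the extension estimate with a smooth weight
-/

set_option autoImplicit false
set_option linter.unusedSectionVars false
set_option maxHeartbeats 800000

noncomputable section

open Set Filter Topology MeasureTheory ComplexConjugate Metric
open scoped ENNReal

namespace Crest.Agent.R276.OT5_189

open Crest.Agent.R271.Ho51 Crest.Agent.R271
  OT1_189 OT2_189 OT3_189 OT4_189

variable {n : ℕ} {M : Type*} [TopologicalSpace M] [RDom n M] [T2Space M]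
  [SecondCountableTopology M] [MeasurableSpace M] [BorelSpace M] {μ : Measure M}

lemma zt_off {c : ℝ} (hc : 0 < c) {q : ℝ} (hq : c ≤ q) : deriv zt (q / c) = 0 := by
  by_contra h
  have h1 := Cz_supp _ h
  have h2 : 1 ≤ q / c := by rw [one_le_div hc]; exact hq
  linarith

/-- integrals of functions supported in `{Q < c}` -/
lemma lint_le_indicator {Q : M → ℝ} (hQ : Continuous Q) {c : ℝ} {g g' : M → ℝ} {K : ℝ}
    (hK : 0 ≤ K) (hg'm : Measurable g')
    (hg : ∀ x, Q x < c → g x ≤ K * g' x) (hg0 : ∀ x, c ≤ Q x → g x = 0) :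
    ∫⁻ x, ENNReal.ofReal (g x) ∂μ ≤
      ENNReal.ofReal K * ∫⁻ x in {x | Q x < c}, ENNReal.ofReal (g' x) ∂μ := by
  have hm : MeasurableSet {x | Q x < c} := (isOpen_lt hQ continuous_const).measurableSet
  rw [← lintegral_const_mul _ hg'm.ennreal_ofReal, ← lintegral_indicator hm]
  refine lintegral_mono fun x => ?_
  by_cases hx : Q x < c
  · rw [indicator_of_mem (show x ∈ {x | Q x < c} from hx), ← ENNReal.ofReal_mul hK]
    exact ENNReal.ofReal_le_ofReal (hg x hx)
  · rw [hg0 x (not_lt.1 hx), ENNReal.ofReal_zero]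
    exact zero_le

/-- the basic estimate: fixed smooth psh weight, fixed `c = ε²`, `d = δ²`;
`Q = |h|² e^{-b}`, `b` psh, `Levi Φ ≥ a Levi b`, total weight `Φ + b`. -/
theorem ot_delta (hμ : IsLeb μ) {ρ : M → ℝ} (hρ : Sm ρ)
    (hcpt : ∀ t : ℝ, IsCompact {x | ρ x ≤ t}) (hL : ∀ x w, nsq w ≤ Levi ρ x w)
    {b : M → ℝ} (hb : Sm b) (hbp : ∀ x w, 0 ≤ Levi b x w) {a : ℝ} (ha : 0 < a)
    {Φ0 : M → ℝ} (hΦ0 : Sm Φ0) (hΦ0p : ∀ x w, a * Levi b x w ≤ Levi Φ0 x w)
    {h f : M → ℂ} (hh : Hol h)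
    (hf : Hol f) {c : ℝ} (hc : 0 < c) (hbd : ∀ x, Qf h b x + c ≤ Real.exp (-1))
    (hbda : ∀ x, Qf h b x + c ≤ Real.exp (-(2 / a)))
    (hc5 : 2 * c ≤ Real.exp (-5)) {d : ℝ} (hd : 0 < d)
    (hS : ∫⁻ x in {x | Qf h b x < c},
      ENNReal.ofReal (‖f x‖ ^ 2 * Real.exp (-(Φ0 x + b x))) ∂μ ≠ ⊤) :
    ∃ F : M → ℂ, Hol F ∧
      ∫⁻ x, ENNReal.ofReal (‖F x - Gc c h b f x‖ ^ 2 * Real.exp (-(Φ0 x + b x +
        Real.log (Qf h b x + d) + 2 * Real.log (Tc c (Qf h b x) + 1)))) ∂μ ≤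
      ENNReal.ofReal (16 * Cz / c) *
        ∫⁻ x in {x | Qf h b x < c},
          ENNReal.ofReal (‖f x‖ ^ 2 * Real.exp (-(Φ0 x + b x))) ∂μ := by
  have hhc : Continuous h := T7a297.Hol.continuous hh
  have hfc : Continuous f := T7a297.Hol.continuous hf
  have hΦ0c := hΦ0.continuous
  have hbc := hb.continuous
  have hQc : Continuous (Qf h b) := (sm_Q hh hb).continuous
  have hCz := Cz_pos
  set φ : M → ℝ := fun x => Φ0 x + b x with hφdef
  have hφ : Sm φ := hΦ0.add hb
  have hφc := hφ.continuous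
  set S := ∫⁻ x in {x | Qf h b x < c}, ENNReal.ofReal (‖f x‖ ^ 2 * Real.exp (-(Φ0 x + b x))) ∂μ
    with hSdef
  have hS' : ∫⁻ x in {x | Qf h b x < c}, ENNReal.ofReal (‖f x‖ ^ 2 * Real.exp (-φ x)) ∂μ = S := rfl
  have hq0 : ∀ x, 0 ≤ Qf h b x := fun x => Qf_nonneg h b x
  have hztc : Continuous (deriv zt) := zt_contDiff.continuous_deriv (by simp)
  have hzc : Continuous (fun x => deriv zt (Qf h b x / c)) := hztc.comp (hQc.div_const c)
  have hf2m : Measurable (fun x => ‖f x‖ ^ 2 * Real.exp (-φ x)) :=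
    (by fun_prop : Continuous _).measurable
  -- the weight
  set Φ : M → ℝ := fun x => φ x + Real.log (Qf h b x + d) with hΦdef
  have hlogd := sm_logd hh hb hd
  have hΦ : Sm Φ := hφ.add hlogd
  have hΦL : ∀ x w, d / (Qf h b x + d) ^ 2 * Pn h b x w + Levi Φ0 x w ≤ Levi Φ x w := by
    intro x w
    rw [show Levi Φ x w = Levi φ x w + Levi (fun x => Real.log (Qf h b x + d)) x w from
      Levi_add hφ hlogd x w, show Levi φ x w = Levi Φ0 x w + Levi b x w from
      Levi_add hΦ0 hb x w, Levi_logd hh hb hd]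
    have h1 := hbp x w
    have hp : 0 < Qf h b x + d := by linarith [hq0 x]
    have h2 : Qf h b x / (Qf h b x + d) ≤ 1 := by rw [div_le_one hp]; linarith
    nlinarith
  have hΦ0n : ∀ x w, 0 ≤ Levi Φ0 x w := fun x w =>
    le_trans (mul_nonneg ha.le (hbp x w)) (hΦ0p x w)
  have hΦL' : ∀ x w, d / (Qf h b x + d) ^ 2 * Pn h b x w ≤ Levi Φ x w := fun x w => by
    have := hΦL x w
    have := hΦ0n x w
    linarith
  have hΦp : ∀ x w, 0 ≤ Levi Φ x w := fun x w => by
    have h1 := Pn_nonneg h b x w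
    exact le_trans (by positivity) (hΦL' x w)
  have hΦe : ∀ x, Real.exp (-Φ x) = Real.exp (-φ x) / (Qf h b x + d) := by
    intro x
    have hp : 0 < Qf h b x + d := by linarith [hq0 x]
    simp only [hΦdef]
    rw [neg_add, Real.exp_add, Real.exp_neg (Real.log _), Real.exp_log hp]
    rfl
  have hG : Sm (Gc c h b f) := sm_Gc hh hb hf c
  -- a first solution
  set κ0 : M → ℝ := fun x => ‖f x‖ ^ 2 * ((deriv zt (Qf h b x / c) / c) ^ 2 *
    (Qf h b x * ((Qf h b x + d) ^ 2 / d))) with hκ0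
  have hκ0c : Continuous κ0 := by
    simp only [hκ0]
    fun_prop
  have hκ00 : ∀ x, 0 ≤ κ0 x := fun x => by
    have := hq0 x
    simp only [hκ0]; positivity
  have hk0 : ∀ x (w : Fin n → ℂ), ‖∑ j, db j (Gc c h b f) x * conj (w j)‖ ^ 2 ≤
      κ0 x * Levi Φ x w := by
    intro x w
    rw [dbar_Gc hh hb hf]
    refine le_trans (le_of_eq ?_) (mul_le_mul_of_nonneg_left (hΦL' x w) (hκ00 x))
    simp only [hκ0]
    have hp : Qf h b x + d ≠ 0 := by have := hq0 x; positivity
    field_simp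
  have hκ0int : ∫⁻ x, ENNReal.ofReal (κ0 x * Real.exp (-Φ x)) ∂μ ≤
      ENNReal.ofReal (Cz / c ^ 2 * (c * (c + d) / d)) * S := by
    refine lint_le_indicator hQc (by positivity) hf2m (fun x hx => ?_) fun x hx => ?_
    · rw [hΦe]
      simp only [hκ0]
      have h2 := hq0 x
      have hp : 0 < Qf h b x + d := by linarith
      have e1 : ‖f x‖ ^ 2 * ((deriv zt (Qf h b x / c) / c) ^ 2 *
          (Qf h b x * ((Qf h b x + d) ^ 2 / d))) * (Real.exp (-φ x) / (Qf h b x + d)) =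
          ((deriv zt (Qf h b x / c)) ^ 2 / c ^ 2 * (Qf h b x * (Qf h b x + d) / d)) *
            (‖f x‖ ^ 2 * Real.exp (-φ x)) := by
        field_simp
      rw [e1]
      refine mul_le_mul_of_nonneg_right ?_ (by positivity)
      have h1 := Cz_bound (Qf h b x / c)
      gcongr
    · simp only [hκ0, zt_off hc hx]
      simp
  have hfin0 : ENNReal.ofReal (Cz / c ^ 2 * (c * (c + d) / d)) * S ≠ ⊤ :=
    ENNReal.mul_ne_top ENNReal.ofReal_ne_top hS
  obtain ⟨F0, hF0, hF0b⟩ := hormT hμ hρ hcpt hL hΦ hΦp hG hκ00 hκ0c.measurable hk0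
    (K0 := (ENNReal.ofReal (Cz / c ^ 2 * (c * (c + d) / d)) * S).toReal) ENNReal.toReal_nonneg
    (by rw [ENNReal.ofReal_toReal hfin0]; exact hκ0int) (τ := 1) one_pos
  have hF0fin : I2 μ Φ (fun x => F0 x - Gc c h b f x) ≠ ⊤ :=
    ne_top_of_le_ne_top ENNReal.ofReal_ne_top hF0b
  obtain ⟨F, hF, hmin⟩ := exists_min hμ hρ.continuous hcpt hΦ.continuous hG.continuous hF0 hF0fin
  have hFfin : I2 μ Φ (fun x => F x - Gc c h b f x) ≠ ⊤ :=
    ne_top_of_le_ne_top hF0fin (hmin F0 hF0)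
  refine ⟨F, hF, ?_⟩
  -- the twisted estimate
  obtain ⟨B, hB⟩ := psi_bounded hc hbd
  set ψ : M → ℝ := fun x => Pc c (Qf h b x) with hψdef
  have hψ : Sm ψ := sm_psi hh hb hc hbd
  have hT := T_ge (h := h) (b := b) hc hbd
  have hN := N_pos (h := h) (b := b) hc hbd
  have hTa : ∀ x, 2 / Tc c (Qf h b x) ≤ a := by
    intro x
    have h0 : 0 < Tc c (Qf h b x) := by linarith [hT x]
    have h1 : 2 / a ≤ Tc c (Qf h b x) := by
      unfold Tc
      have h2 : Real.log (Qf h b x + c) ≤ -(2 / a) := by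
        rw [← Real.log_exp (-(2 / a))]
        exact Real.log_le_log (Qc_pos hc x) (hbda x)
      linarith
    rw [div_le_iff₀ h0]
    rw [div_le_iff₀ ha] at h1
    linarith
  have hΨL : ∀ x w, (P1 c (Qf h b x) + Qf h b x * P2 c (Qf h b x)) * Pn h b x w ≤
      Levi (fun y => Φ y + ψ y) x w := by
    intro x w
    rw [Levi_add hΦ hψ, show Levi ψ x w = _ from Levi_psi hh hb hc hbd x w]
    have h1 := hΦL x w
    have h2 := hΦ0p x w
    have h3 := loss_le hh hb hc hbd x
    have h4 := hTa x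
    have h5 := hbp x w
    have h6 : 0 ≤ d / (Qf h b x + d) ^ 2 * Pn h b x w := by
      have := Pn_nonneg h b x w
      positivity
    have h7 : Qf h b x * P1 c (Qf h b x) * Levi b x w ≤ a * Levi b x w :=
      mul_le_mul_of_nonneg_right (h3.trans h4) h5
    linarith
  have hlow := fun x => P_lower hc (hq0 x) (hT x)
  have hΨp : ∀ x w, 0 ≤ Levi (fun y => Φ y + ψ y) x w := by
    intro x w
    refine le_trans ?_ (hΨL x w)
    have h1 := hlow x
    have h2 := hN x
    have h3 : 0 ≤ c / (Nc c (Qf h b x) * (Qf h b x + c) ^ 2) := by positivity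
    exact mul_nonneg (h3.trans h1) (Pn_nonneg h b x w)
  have hNc : Continuous (fun x => Nc c (Qf h b x)) := (sm_N hh hb hc hbd).continuous
  have hTc : Continuous (fun x => Tc c (Qf h b x)) := (sm_T hh hb hc).continuous
  set κ : M → ℝ := fun x => ‖f x‖ ^ 2 * ((deriv zt (Qf h b x / c)) ^ 2 *
    (Qf h b x * (Nc c (Qf h b x) * (Qf h b x + c) ^ 2 / c ^ 3))) with hκ
  have hκc : Continuous κ := by
    simp only [hκ]
    fun_prop
  have hκ0' : ∀ x, 0 ≤ κ x := fun x => by
    have := hN x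
    have := hq0 x
    simp only [hκ]; positivity
  set θ : M → ℝ := fun x => thc c (Qf h b x) with hθ
  have hθc : Continuous θ := by
    simp only [hθ, thc]
    refine continuous_const.sub (hNc.div (by fun_prop) fun x => ?_)
    have := hT x
    positivity
  have hθb := fun x => thc_bounds (hT x)
  have hk : ∀ x (w : Fin n → ℂ), ‖∑ j, db j (Gc c h b f) x * conj (w j)‖ ^ 2 ≤
      κ x * Levi (fun y => Φ y + ψ y) x w := by
    intro x w
    rw [dbar_Gc hh hb hf]
    have h1 := mul_le_mul_of_nonneg_right (hlow x) (Pn_nonneg h b x w)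
    refine le_trans (le_of_eq ?_) (mul_le_mul_of_nonneg_left (h1.trans (hΨL x w)) (hκ0' x))
    simp only [hκ]
    have hp : Qf h b x + c ≠ 0 := (Qc_pos hc x).ne'
    have hN' := (hN x).ne'
    field_simp
  have hth : ∀ x (w : Fin n → ℂ), ‖∑ j, db j (fun y => (ψ y : ℂ)) x * conj (w j)‖ ^ 2 ≤
      θ x * Levi (fun y => Φ y + ψ y) x w := by
    intro x w
    rw [show (fun y => (ψ y : ℂ)) = fun y => ((Pc c (Qf h b y) : ℝ) : ℂ) from rfl,
      dbar_psi hh hb hc hbd]
    have h1 := mul_le_mul_of_nonneg_right (th_ineq hc (hq0 x) (hT x)) (Pn_nonneg h b x w)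
    have h0 : 0 ≤ θ x := by linarith [(hθb x).1]
    have h2 := mul_le_mul_of_nonneg_left (hΨL x w) h0
    simp only [hθ] at h2 ⊢
    linarith
  have hth2 : ∀ x, κ x ≠ 0 → ∀ (w : Fin n → ℂ),
      2 * ‖∑ j, db j (fun y => (ψ y : ℂ)) x * conj (w j)‖ ^ 2 ≤
      θ x * Levi (fun y => Φ y + ψ y) x w := by
    intro x hx w
    have hq : Qf h b x ≤ c := by
      by_contra hcon
      push Not at hcon
      apply hx
      simp only [hκ, zt_off hc hcon.le]
      simp
    have hT5 : 5 ≤ Tc c (Qf h b x) := by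
      unfold Tc
      have h1 : Real.log (Qf h b x + c) ≤ -5 := by
        rw [← Real.log_exp (-5)]
        exact Real.log_le_log (Qc_pos hc x) (by linarith)
      linarith
    rw [show (fun y => (ψ y : ℂ)) = fun y => ((Pc c (Qf h b y) : ℝ) : ℂ) from rfl,
      dbar_psi hh hb hc hbd]
    have h1 := mul_le_mul_of_nonneg_right (th_ineq2 hc (hq0 x) hq hT5) (Pn_nonneg h b x w)
    have h0 : 0 ≤ θ x := by linarith [(hθb x).1]
    have h2 := mul_le_mul_of_nonneg_left (hΨL x w) h0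
    simp only [hθ] at h2 ⊢
    linarith
  have main := twist_est hμ hρ hcpt hL hΦ hψ hB hΨp hG hF hFfin hmin hκc.measurable hκ0'
    hθc.measurable (fun x => by linarith [(hθb x).1]) (fun x => (hθb x).2) hk hth hth2
  -- rewriting
  have hψe : ∀ x, Real.exp (ψ x - Φ x) = 1 / Nc c (Qf h b x) *
      (Real.exp (-φ x) / (Qf h b x + d)) := by
    intro x
    rw [sub_eq_add_neg, Real.exp_add, hΦe]
    simp only [hψdef, Pc]
    rw [Real.exp_neg, Real.exp_log (hN x), one_div]
  have hR : ∫⁻ x, ENNReal.ofReal (κ x * Real.exp (ψ x - Φ x)) ∂μ ≤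
      ENNReal.ofReal (4 * Cz / c) * S := by
    refine lint_le_indicator hQc (by positivity) hf2m (fun x hx => ?_) fun x hx => ?_
    · rw [hψe]
      simp only [hκ]
      have h2 := hq0 x
      have hp : 0 < Qf h b x + d := by linarith
      have hp' : 0 < Qf h b x + c := by linarith
      have hN' := hN x
      have e1 : ‖f x‖ ^ 2 * ((deriv zt (Qf h b x / c)) ^ 2 *
          (Qf h b x * (Nc c (Qf h b x) * (Qf h b x + c) ^ 2 / c ^ 3))) *
          (1 / Nc c (Qf h b x) * (Real.exp (-φ x) / (Qf h b x + d))) =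
          ((deriv zt (Qf h b x / c)) ^ 2 * ((Qf h b x / (Qf h b x + d)) *
            ((Qf h b x + c) ^ 2 / c ^ 3))) * (‖f x‖ ^ 2 * Real.exp (-φ x)) := by
        field_simp
      rw [e1]
      refine mul_le_mul_of_nonneg_right ?_ (by positivity)
      have h1 := Cz_bound (Qf h b x / c)
      have h3 : Qf h b x / (Qf h b x + d) ≤ 1 := by
        rw [div_le_one hp]; linarith
      have h4 : (Qf h b x + c) ^ 2 / c ^ 3 ≤ 4 / c := by
        rw [div_le_div_iff₀ (by positivity) hc]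
        have : (Qf h b x + c) ^ 2 ≤ (2 * c) ^ 2 := by gcongr; linarith
        nlinarith
      have h5 : 0 ≤ Qf h b x / (Qf h b x + d) := by positivity
      have h6 : 0 ≤ (Qf h b x + c) ^ 2 / c ^ 3 := by positivity
      calc (deriv zt (Qf h b x / c)) ^ 2 * ((Qf h b x / (Qf h b x + d)) *
            ((Qf h b x + c) ^ 2 / c ^ 3)) ≤ Cz * (1 * (4 / c)) := by
            gcongr
        _ = 4 * Cz / c := by ring
    · simp only [hκ, zt_off hc hx]
      simp
  have hLeq : ∀ x, ENNReal.ofReal (‖F x - Gc c h b f x‖ ^ 2 * Real.exp (-(Φ0 x + b x +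
        Real.log (Qf h b x + d) + 2 * Real.log (Tc c (Qf h b x) + 1)))) =
      2 * ENNReal.ofReal ((1 - θ x) * (‖F x - Gc c h b f x‖ ^ 2 * Real.exp (ψ x - Φ x))) := by
    intro x
    have h2 : (2 : ℝ≥0∞) = ENNReal.ofReal 2 := by simp
    rw [h2, ← ENNReal.ofReal_mul (by norm_num), hψe]
    congr 1
    have hT' := hT x
    have hN' := hN x
    have hp : 0 < Qf h b x + d := by linarith [hq0 x]
    have hT1 : 0 < Tc c (Qf h b x) + 1 := by linarith
    have e1 : Real.exp (-(Φ0 x + b x + Real.log (Qf h b x + d) +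
        2 * Real.log (Tc c (Qf h b x) + 1))) =
        Real.exp (-φ x) / (Qf h b x + d) / (Tc c (Qf h b x) + 1) ^ 2 := by
      rw [neg_add, Real.exp_add, ← hΦe]
      have h3 : Real.exp (-(2 * Real.log (Tc c (Qf h b x) + 1))) =
          ((Tc c (Qf h b x) + 1) ^ 2)⁻¹ := by
        rw [Real.exp_neg, two_mul, Real.exp_add, Real.exp_log hT1, ← pow_two]
      rw [h3]
      rfl
    rw [e1]
    simp only [hθ, thc]
    field_simp
    ring
  calc ∫⁻ x, ENNReal.ofReal (‖F x - Gc c h b f x‖ ^ 2 * Real.exp (-(Φ0 x + b x +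
        Real.log (Qf h b x + d) + 2 * Real.log (Tc c (Qf h b x) + 1)))) ∂μ
      = 2 * ∫⁻ x, ENNReal.ofReal ((1 - θ x) * (‖F x - Gc c h b f x‖ ^ 2 *
          Real.exp (ψ x - Φ x))) ∂μ := by
        rw [← lintegral_const_mul' _ _ (by simp)]
        exact lintegral_congr hLeq
    _ ≤ 2 * (2 * (ENNReal.ofReal (4 * Cz / c) * S)) := by
        gcongr
        refine main.trans ?_
        gcongr
    _ = ENNReal.ofReal (16 * Cz / c) * S := by
        rw [← mul_assoc, ← mul_assoc]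
        congr 1
        have h2 : (2 : ℝ≥0∞) = ENNReal.ofReal 2 := by simp
        rw [h2, ← ENNReal.ofReal_mul (by norm_num), ← ENNReal.ofReal_mul (by norm_num)]
        congr 1
        ring

end Crest.Agent.R276.OT5_189
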