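import Crest.Agent.R276.OT4_189

/-!
# Row 276, leaf OT (helper189), part 6: `|h|⁻²` is not integrable near a zero of `h`
-/

set_option autoImplicit false
set_option linter.unusedSectionVars false
set_option maxHeartbeats 800000

noncomputable section

open Set Filter Topology MeasureTheory ComplexConjugate Metric
open scoped ENNReal

namespace Crest.Agent.R276.OT6_189

open Crest.Agent.R271.Ho51 Crest.Agent.R271
  OT1_189 OT2_189 OT3_189 OT4_189

/-- the smooth approximation of `1/τ` -/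
def Sf (m : ℝ) (τ : ℂ) : ℂ := ((1 - zt (m * ‖τ‖ ^ 2) : ℝ) : ℂ) * τ⁻¹

lemma Sf_zero_near {m : ℝ} (_hm : 0 ≤ m) : Sf m =ᶠ[𝓝 0] fun _ => 0 := by
  have h1 : ∀ᶠ τ : ℂ in 𝓝 0, m * ‖τ‖ ^ 2 < 1 / 2 := by
    have h2 : Continuous fun τ : ℂ => m * ‖τ‖ ^ 2 := by fun_prop
    apply h2.continuousAt.eventually (gt_mem_nhds _)
    simp
  filter_upwards [h1] with τ hτ
  rw [Sf, zt_one hτ.le]
  simp

lemma Sf_contDiff {m : ℝ} (hm : 0 ≤ m) : ContDiff ℝ (⊤ : ℕ∞) (Sf m) := by
  rw [contDiff_iff_contDiffAt]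
  intro τ
  by_cases hτ : τ = 0
  · subst hτ
    exact contDiffAt_const.congr_of_eventuallyEq (Sf_zero_near hm)
  · unfold Sf
    refine ContDiffAt.mul ?_ ?_
    · have h1 : ContDiff ℝ (⊤ : ℕ∞) (fun τ : ℂ => m * ‖τ‖ ^ 2) :=
        contDiff_const.mul (contDiff_norm_sq ℝ)
      have h2 : ContDiff ℝ (⊤ : ℕ∞) (fun τ : ℂ => 1 - zt (m * ‖τ‖ ^ 2)) :=
        contDiff_const.sub (zt_contDiff.comp h1)
      exact (Complex.ofRealCLM.contDiff.comp h2).contDiffAt
    · exact contDiffAt_inv ℝ hτ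

lemma hasFDerivAt_nsq (τ : ℂ) :
    HasFDerivAt (fun τ : ℂ => ‖τ‖ ^ 2) (2 • (innerSL ℝ τ)) τ := by
  exact (hasStrictFDerivAt_norm_sq τ).hasFDerivAt

lemma Sf_dbar {m : ℝ} (τ : ℂ) (hτ : τ ≠ 0) (a : ℂ) :
    (1 / 2 : ℂ) * (fderiv ℝ (Sf m) τ a + Complex.I * fderiv ℝ (Sf m) τ (Complex.I * a)) =
      -((m * deriv zt (m * ‖τ‖ ^ 2) : ℝ) : ℂ) * conj a := by
  have h1 := (hasFDerivAt_nsq τ).const_mul m
  have h2 : HasDerivAt zt (deriv zt (m * ‖τ‖ ^ 2)) (m * ‖τ‖ ^ 2) :=
    (zt_contDiff.differentiable (by simp) _).hasDerivAt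
  have h3 := (h2.comp_hasFDerivAt τ h1).const_sub 1
  have h4 := Complex.ofRealCLM.hasFDerivAt.comp τ h3
  have h5 : HasFDerivAt (fun τ : ℂ => τ⁻¹) (ContinuousLinearMap.restrictScalars ℝ
      (ContinuousLinearMap.smulRight (1 : ℂ →L[ℂ] ℂ) (-(τ ^ 2)⁻¹))) τ :=
    (hasDerivAt_inv hτ).hasFDerivAt.restrictScalars ℝ
  have h6 := h4.mul h5
  have h7 : HasFDerivAt (Sf m) _ τ := h6
  rw [h7.fderiv]
  simp only [Function.comp_apply, _root_.add_apply, _root_.smul_apply,
    ContinuousLinearMap.coe_restrictScalars', ContinuousLinearMap.smulRight_apply,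
    ContinuousLinearMap.comp_apply, _root_.neg_apply, innerSL_apply_apply, Complex.inner,
    Complex.ofRealCLM_apply, smul_eq_mul, nsmul_eq_mul, Nat.cast_ofNat, one_apply_eq_self]
  have e1 : (Complex.I * a * conj τ).re = -(a * conj τ).im := by
    simp only [Complex.mul_re, Complex.mul_im, Complex.I_re, Complex.I_im]; ring
  rw [e1]
  have e2 : conj a * τ = (((a * conj τ).re : ℝ) : ℂ) - (((a * conj τ).im : ℝ) : ℂ) * Complex.I := by
    apply Complex.ext <;> simp [Complex.mul_re, Complex.mul_im] <;> ring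
  have e3 : conj a = ((((a * conj τ).re : ℝ) : ℂ) -
      (((a * conj τ).im : ℝ) : ℂ) * Complex.I) * τ⁻¹ := by
    rw [← e2, mul_assoc, mul_inv_cancel₀ hτ, mul_one]
  conv_rhs => rw [e3]
  push_cast
  ring_nf
  simp only [Complex.I_sq]
  ring

variable {n : ℕ} {M : Type*} [TopologicalSpace M] [RDom n M]

lemma D_compC {f : M → ℂ} (hf : Sm f) {g : ℂ → ℂ} (hg : ContDiff ℝ (⊤ : ℕ∞) g) (x : M)
    (v : Fin n → ℂ) : D (fun x => g (f x)) x v = fderiv ℝ g (f x) (D f x v) := by
  have h1 : HasFDerivAt g (fderiv ℝ g (f x)) ((f ∘ (ch x).symm) (cp x)) := by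
    have : (f ∘ (ch x).symm) (cp x) = f x := by simp [symm_cp]
    rw [this]
    exact (hg.differentiable (by simp) _).hasFDerivAt
  have h2 := h1.comp (cp x) (hf.differentiableAt x).hasFDerivAt
  have h3 : D (fun x => g (f x)) x = (fderiv ℝ g (f x)).comp (fderiv ℝ (f ∘ (ch x).symm) (cp x)) :=
    h2.fderiv
  rw [h3]
  rfl

lemma db_Sf {h : M → ℂ} (hh : Hol h) {m : ℝ} (hm : 0 ≤ m) (j : Fin n) (x : M) (hx : h x ≠ 0) :
    db j (fun y => Sf m (h y)) x =
      -((m * deriv zt (m * ‖h x‖ ^ 2) : ℝ) : ℂ) * conj (D h x (Pi.single j 1)) := by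
  rw [db_eq, D_compC (hol_sm hh) (Sf_contDiff hm), D_compC (hol_sm hh) (Sf_contDiff hm)]
  have h1 : (Pi.single j Complex.I : Fin n → ℂ) = Complex.I • (Pi.single j 1 : Fin n → ℂ) := by
    ext k
    by_cases hk : k = j
    · subst hk; simp
    · simp [hk]
  rw [h1, (hol_w hh).cl, Sf_dbar _ hx]

lemma db_Sf_zero {h : M → ℂ} (hh : Continuous h) {m : ℝ} (hm : 0 ≤ m) (j : Fin n) (x : M)
    (hx : h x = 0) : db j (fun y => Sf m (h y)) x = 0 := by
  have h1 : (fun y => Sf m (h y)) =ᶠ[𝓝 x] fun _ => 0 := by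
    have h2 : Tendsto h (𝓝 x) (𝓝 0) := by rw [← hx]; exact hh.continuousAt
    exact h2.eventually (Sf_zero_near hm)
  rw [db_congr h1, db_const]

lemma db_Sf_bound {h : M → ℂ} (hh : Hol h) {m : ℝ} (hm : 0 ≤ m) (j : Fin n) (x : M) :
    ‖db j (fun y => Sf m (h y)) x‖ ≤
      Real.sqrt Cz * (‖h x‖ ^ 2)⁻¹ * ‖D h x (Pi.single j 1)‖ := by
  by_cases hx : h x = 0
  · rw [db_Sf_zero (T7a297.Hol.continuous hh) hm j x hx, norm_zero]
    positivity
  · rw [db_Sf hh hm j x hx, norm_mul, norm_neg, Complex.norm_real, Complex.norm_conj]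
    refine mul_le_mul_of_nonneg_right ?_ (norm_nonneg _)
    have hp : 0 < ‖h x‖ ^ 2 := by
      have := norm_pos_iff.2 hx
      positivity
    by_cases hz : deriv zt (m * ‖h x‖ ^ 2) = 0
    · rw [hz, mul_zero, norm_zero]; positivity
    · have h1 := Cz_supp _ hz
      have h2 : m ≤ (‖h x‖ ^ 2)⁻¹ := by
        rw [← one_div, le_div_iff₀ hp]; linarith
      have h3 : |deriv zt (m * ‖h x‖ ^ 2)| ≤ Real.sqrt Cz := Real.abs_le_sqrt (Cz_bound _)
      rw [norm_mul, Real.norm_eq_abs, Real.norm_eq_abs, abs_of_nonneg hm, mul_comm]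
      exact mul_le_mul h3 h2 hm (Real.sqrt_nonneg _)

variable [T2Space M] [SecondCountableTopology M] [MeasurableSpace M] [BorelSpace M]
  {μ : Measure M}

/-- `1/h` is weakly holomorphic where it is `L²` -/
theorem weak_inv (hμ : IsLeb μ) {h : M → ℂ} (hh : Hol h) {θ : M → ℂ} (hθ : Sm θ)
    (hθc : HasCompactSupport θ)
    (hfin : ∫⁻ x in tsupport θ, (‖h x‖ₑ ^ 2)⁻¹ ∂μ ≠ ⊤) (j : Fin n) :
    ∫ x, (h x)⁻¹ * db j θ x ∂μ = 0 := by
  have hloc := hμ.locallyFinite
  have hhc : Continuous h := T7a297.Hol.continuous hh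
  set K := tsupport θ with hK
  have hKc : IsCompact K := hθc
  have hKm : MeasurableSet K := hKc.isClosed.measurableSet
  have hKf : μ K < ⊤ := hKc.measure_lt_top
  have hhm : Measurable h := hhc.measurable
  -- a.e. `h ≠ 0` on `K`
  have hae : ∀ᵐ x ∂(μ.restrict K), h x ≠ 0 := by
    have h1 := ae_lt_top (((hhm.enorm.pow_const 2).inv)) hfin
    filter_upwards [h1] with x hx h0
    simp only [Pi.inv_apply] at hx
    rw [h0] at hx
    simp at hx
  -- integrability of `‖h‖⁻²` on `K`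
  have hI2 : IntegrableOn (fun x => (‖h x‖ ^ 2)⁻¹) K μ := by
    refine ⟨((hhm.norm.pow_const 2).inv).aestronglyMeasurable, ?_⟩
    rw [hasFiniteIntegral_iff_enorm]
    refine lt_of_le_of_lt (lintegral_mono_ae ?_) (lt_top_iff_ne_top.2 hfin)
    filter_upwards [hae] with x hx
    have hp : 0 < ‖h x‖ ^ 2 := by
      have := norm_pos_iff.2 hx
      positivity
    rw [Real.enorm_of_nonneg (by positivity), ENNReal.ofReal_inv_of_pos hp,
      ENNReal.ofReal_pow (norm_nonneg _), ofReal_norm]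
  have hI1 : IntegrableOn (fun x => 1 + (‖h x‖ ^ 2)⁻¹) K μ :=
    (integrableOn_const hKf.ne (by simp)).add hI2
  have hinv : ∀ x, ‖(h x)⁻¹‖ ≤ 1 + (‖h x‖ ^ 2)⁻¹ := by
    intro x
    rw [norm_inv, ← inv_pow]
    nlinarith [sq_nonneg (‖h x‖⁻¹ - 1), inv_nonneg.2 (norm_nonneg (h x))]
  -- bounds on `K`
  have hdθ : Continuous (fun x => db j θ x) := (hθ.db j).continuous
  have hdh : Continuous (fun x => D h x (Pi.single j 1)) := ((hol_sm hh).D.apply _).continuous
  obtain ⟨B1, hB1⟩ := hKc.exists_bound_of_continuousOn hdθ.continuousOn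
  obtain ⟨B2, hB2⟩ := hKc.exists_bound_of_continuousOn
    (f := fun x => (θ x * D h x (Pi.single j 1))) (hθ.continuous.mul hdh).continuousOn
  have hθ0 : ∀ x ∉ K, θ x = 0 := fun x hx => image_eq_zero_of_notMem_tsupport hx
  have hdθ0 : ∀ x ∉ K, db j θ x = 0 := fun x hx => by
    have h1 := notMem_tsupport_iff_eventuallyEq.1 hx
    have h1' : θ =ᶠ[𝓝 x] fun _ => 0 := h1
    rw [db_congr h1', db_const]
  have hS : ∀ m : ℕ, Sm (fun x => Sf (m : ℝ) (h x)) := fun m =>
    Sm.comp (Sf_contDiff (by positivity)) (hol_sm hh)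
  have hSb : ∀ (m : ℕ) x, ‖Sf (m : ℝ) (h x)‖ ≤ ‖(h x)⁻¹‖ := by
    intro m x
    unfold Sf
    rw [norm_mul, Complex.norm_real, Real.norm_eq_abs]
    have h1 := zt_nonneg ((m : ℝ) * ‖h x‖ ^ 2)
    have h2 := zt_le_one ((m : ℝ) * ‖h x‖ ^ 2)
    have h3 : |1 - zt ((m : ℝ) * ‖h x‖ ^ 2)| ≤ 1 := by
      rw [abs_of_nonneg (by linarith)]; linarith
    calc _ ≤ 1 * ‖(h x)⁻¹‖ := mul_le_mul_of_nonneg_right h3 (norm_nonneg _)
      _ = _ := one_mul _
  -- the identity
  have hid : ∀ m : ℕ, ∫ x, Sf (m : ℝ) (h x) * db j θ x ∂μ +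
      ∫ x, θ x * db j (fun y => Sf (m : ℝ) (h y)) x ∂μ = 0 := by
    intro m
    have h1 := integral_db_eq_zero hμ ((hS m).mul hθ) (hθc.mul_left) j
    have h2 : ∀ x, db j (fun y => Sf (m : ℝ) (h y) * θ y) x =
        Sf (m : ℝ) (h x) * db j θ x + θ x * db j (fun y => Sf (m : ℝ) (h y)) x := by
      intro x
      rw [db_mul (hS m) hθ]; ring
    have i1 : Integrable (fun x => Sf (m : ℝ) (h x) * db j θ x) μ := by
      refine Continuous.integrable_of_hasCompactSupport ((hS m).continuous.mul hdθ) ?_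
      exact HasCompactSupport.intro hKc fun x hx => by rw [hdθ0 x hx, mul_zero]
    have i2 : Integrable (fun x => θ x * db j (fun y => Sf (m : ℝ) (h y)) x) μ := by
      refine Continuous.integrable_of_hasCompactSupport
        (hθ.continuous.mul ((hS m).db j).continuous) ?_
      exact HasCompactSupport.intro hKc fun x hx => by rw [hθ0 x hx, zero_mul]
    simp only [h2] at h1
    rw [integral_add i1 i2] at h1
    exact h1
  -- first limit
  have lim1 : Tendsto (fun m : ℕ => ∫ x, Sf (m : ℝ) (h x) * db j θ x ∂μ) atTop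
      (𝓝 (∫ x, (h x)⁻¹ * db j θ x ∂μ)) := by
    refine tendsto_integral_of_dominated_convergence
      (K.indicator fun x => (1 + (‖h x‖ ^ 2)⁻¹) * B1) ?_ ?_ ?_ ?_
    · intro m
      exact ((hS m).continuous.mul hdθ).aestronglyMeasurable
    · rw [integrable_indicator_iff hKm]
      exact hI1.mul_const _
    · intro m
      refine Eventually.of_forall fun x => ?_
      by_cases hx : x ∈ K
      · rw [indicator_of_mem hx, norm_mul]
        exact mul_le_mul ((hSb m x).trans (hinv x)) (hB1 x hx) (norm_nonneg _) (by positivity)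
      · rw [indicator_of_notMem hx, hdθ0 x hx, mul_zero, norm_zero]
    · have h1 : ∀ᵐ x ∂μ, x ∈ K → h x ≠ 0 := (ae_restrict_iff' hKm).1 hae
      filter_upwards [h1] with x hx
      by_cases hxK : x ∈ K
      · have hne := hx hxK
        refine tendsto_const_nhds.congr' ?_
        have hp : 0 < ‖h x‖ ^ 2 := by
          have := norm_pos_iff.2 hne
          positivity
        obtain ⟨m0, hm0⟩ := exists_nat_ge (1 / ‖h x‖ ^ 2)
        filter_upwards [eventually_ge_atTop m0] with m hm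
        have h2 : 1 ≤ (m : ℝ) * ‖h x‖ ^ 2 := by
          have h3 : 1 / ‖h x‖ ^ 2 ≤ m := hm0.trans (by exact_mod_cast hm)
          rwa [div_le_iff₀ hp] at h3
        unfold Sf
        rw [zt_zero (by linarith)]
        simp
      · rw [hdθ0 x hxK]
        simp
  -- second limit
  have lim2 : Tendsto (fun m : ℕ => ∫ x, θ x * db j (fun y => Sf (m : ℝ) (h y)) x ∂μ) atTop
      (𝓝 0) := by
    have h0 : (0 : ℂ) = ∫ _x : M, (0 : ℂ) ∂μ := by simp
    rw [h0]
    refine tendsto_integral_of_dominated_convergence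
      (K.indicator fun x => (‖h x‖ ^ 2)⁻¹ * (Real.sqrt Cz * B2)) ?_ ?_ ?_ ?_
    · intro m
      exact (hθ.continuous.mul ((hS m).db j).continuous).aestronglyMeasurable
    · rw [integrable_indicator_iff hKm]
      exact hI2.mul_const _
    · intro m
      refine Eventually.of_forall fun x => ?_
      by_cases hx : x ∈ K
      · rw [indicator_of_mem hx, norm_mul]
        have h1 := db_Sf_bound hh (m := (m : ℝ)) (by positivity) j x
        have h2 := hB2 x hx
        rw [norm_mul] at h2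
        calc ‖θ x‖ * ‖db j (fun y => Sf (m : ℝ) (h y)) x‖
            ≤ ‖θ x‖ * (Real.sqrt Cz * (‖h x‖ ^ 2)⁻¹ * ‖D h x (Pi.single j 1)‖) :=
              mul_le_mul_of_nonneg_left h1 (norm_nonneg _)
          _ = (‖h x‖ ^ 2)⁻¹ * (Real.sqrt Cz * (‖θ x‖ * ‖D h x (Pi.single j 1)‖)) := by ring
          _ ≤ _ := by gcongr
      · rw [indicator_of_notMem hx, hθ0 x hx, zero_mul, norm_zero]
    · refine Eventually.of_forall fun x => ?_
      by_cases hne : h x = 0
      · refine tendsto_const_nhds.congr' (Eventually.of_forall fun m => ?_)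
        show 0 = θ x * db j (fun y => Sf (m : ℝ) (h y)) x
        rw [db_Sf_zero hhc (by positivity) j x hne, mul_zero]
      · refine tendsto_const_nhds.congr' ?_
        have hp : 0 < ‖h x‖ ^ 2 := by
          have := norm_pos_iff.2 hne
          positivity
        obtain ⟨m0, hm0⟩ := exists_nat_ge (1 / ‖h x‖ ^ 2)
        filter_upwards [eventually_ge_atTop m0] with m hm
        have h2 : 1 ≤ (m : ℝ) * ‖h x‖ ^ 2 := by
          have h3 : 1 / ‖h x‖ ^ 2 ≤ m := hm0.trans (by exact_mod_cast hm)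
          rwa [div_le_iff₀ hp] at h3
        have h3 : deriv zt ((m : ℝ) * ‖h x‖ ^ 2) = 0 := by
          by_contra hcon
          have := Cz_supp _ hcon
          linarith
        show 0 = θ x * db j (fun y => Sf (m : ℝ) (h y)) x
        rw [db_Sf hh (by positivity) j x hne, h3]
        simp
  have h1 := lim1.add lim2
  simp only [hid, add_zero] at h1
  exact (tendsto_nhds_unique h1 tendsto_const_nhds)

/-- **`|h|⁻²` is not integrable near a zero of `h`** -/
theorem ne_zero_of_integrable (hμ : IsLeb μ) {h : M → ℂ} (hh : Hol h) {U : Set M}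
    (hU : IsOpen U) {x0 : M} (hx0 : x0 ∈ U)
    (hfin : ∫⁻ x in U, (‖h x‖ₑ ^ 2)⁻¹ ∂μ ≠ ⊤) : h x0 ≠ 0 := by
  have hloc := hμ.locallyFinite
  have hhc : Continuous h := T7a297.Hol.continuous hh
  have hhm : Measurable h := hhc.measurable
  set e := ch x0 with he_def
  have he : IsCh e := isCh_ch x0
  have hx0e : x0 ∈ e.source := mem_ch x0
  have hcp0 : cp x0 ∈ e.target := he.cp_mem hx0e
  have hsymm0 : e.symm (cp x0) = x0 := he.symm_cp hx0e
  have hnh : e.target ∩ e.symm ⁻¹' U ∈ 𝓝 (cp x0) := by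
    refine inter_mem (e.open_target.mem_nhds hcp0) ?_
    have h1 : ContinuousAt e.symm (cp x0) := e.symm.continuousAt (by simpa using hcp0)
    apply h1.preimage_mem_nhds
    rw [hsymm0]
    exact hU.mem_nhds hx0
  obtain ⟨r, hr, hrs⟩ := Metric.nhds_basis_closedBall.mem_iff.1 hnh
  set B := ball (cp x0) r with hB
  have hBt : B ⊆ e.target := ball_subset_closedBall.trans (hrs.trans inter_subset_left)
  have hBU : ∀ z ∈ B, e.symm z ∈ U := fun z hz => (hrs (ball_subset_closedBall hz)).2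
  have hBo : IsOpen B := isOpen_ball
  have hBm : MeasurableSet B := hBo.measurableSet
  -- the integral over the ball
  have hfm : Measurable (fun x => (‖h x‖ₑ ^ 2)⁻¹) := (hhm.enorm.pow_const 2).inv
  have hfinB : ∫⁻ z in B, (‖h (e.symm z)‖ₑ ^ 2)⁻¹ ≠ ⊤ := by
    have h1 := T7a297.lintegral_ball_le hμ he (isCompact_closedBall (cp x0) r)
      (hrs.trans inter_subset_left) hfm
    refine ne_top_of_le_ne_top hfin (le_trans (lintegral_mono_set ball_subset_closedBall)
      (h1.trans (lintegral_mono_set ?_)))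
    rintro _ ⟨z, hz, rfl⟩
    exact (hrs hz).2
  have hhe : ContinuousOn (fun z => h (e.symm z)) B :=
    hhc.comp_continuousOn (e.symm.continuousOn.mono hBt)
  have hhem : AEMeasurable (fun z => h (e.symm z)) (volume.restrict B) := hhe.aemeasurable hBm
  have hae : ∀ᵐ z ∂(volume.restrict B), h (e.symm z) ≠ 0 := by
    have h1 := ae_lt_top' ((hhem.enorm.pow_const 2).inv) hfinB
    filter_upwards [h1] with x hx h0
    simp only [Pi.inv_apply] at hx
    rw [h0] at hx
    simp at hx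
  have hI2 : IntegrableOn (fun z => (‖h (e.symm z)‖ ^ 2)⁻¹) B := by
    refine ⟨((hhem.norm.pow_const 2).inv).aestronglyMeasurable, ?_⟩
    rw [hasFiniteIntegral_iff_enorm]
    refine lt_of_le_of_lt (lintegral_mono_ae ?_) (lt_top_iff_ne_top.2 hfinB)
    filter_upwards [hae] with x hx
    have hp : 0 < ‖h (e.symm x)‖ ^ 2 := by
      have := norm_pos_iff.2 hx
      positivity
    rw [Real.enorm_of_nonneg (by positivity), ENNReal.ofReal_inv_of_pos hp,
      ENNReal.ofReal_pow (norm_nonneg _), ofReal_norm]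
  have hv : IntegrableOn (fun z => (h (e.symm z))⁻¹) B := by
    have hBf : volume B < ⊤ := measure_ball_lt_top
    have hI1 : IntegrableOn (fun z => 1 + (‖h (e.symm z)‖ ^ 2)⁻¹) B :=
      (integrableOn_const hBf.ne (by simp)).add hI2
    refine Integrable.mono' hI1 hhem.inv.aestronglyMeasurable (Eventually.of_forall fun z => ?_)
    rw [norm_inv, ← inv_pow]
    nlinarith [sq_nonneg (‖h (e.symm z)‖⁻¹ - 1), inv_nonneg.2 (norm_nonneg (h (e.symm z)))]
  -- weak holomorphy
  have hweak : Weyl399.WeakHol (fun z => (h (e.symm z))⁻¹) B := by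
    intro j φ hφ hφc hφt
    have ht : tsupport φ ⊆ e.target := hφt.trans hBt
    have hts : tsupport (WeylM399.ext e φ) ⊆ e.symm '' tsupport φ :=
      closure_minimal (WeylM399.support_ext he φ) (WeylM399.isCompact_K hφc ht).isClosed
    have hK : tsupport (WeylM399.ext e φ) ⊆ U := by
      refine hts.trans ?_
      rintro _ ⟨z, hz, rfl⟩
      exact hBU z (hφt hz)
    have h1 := weak_inv hμ hh (WeylM399.Sm_ext he hφ hφc ht)
      (WeylM399.hasCompactSupport_ext he hφc ht)
      (ne_top_of_le_ne_top hfin (lintegral_mono_set hK)) j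
    rw [WeylM399.integral_chart hμ he] at h1
    · rw [← h1, ← setIntegral_eq_integral_of_forall_compl_eq_zero (s := e.target)]
      · apply setIntegral_congr_fun e.open_target.measurableSet
        intro z hz
        simp only
        rw [WeylM399.db_ext he φ hz]
      · intro z hz
        have h2 : z ∉ tsupport φ := fun h => hz (ht h)
        have h3 : fderiv ℝ φ z = 0 := by
          by_contra h6
          exact h2 (support_fderiv_subset ℝ h6)
        simp [Weyl399.dbar, h3]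
    · exact hhm.inv.aestronglyMeasurable.mul
        ((WeylM399.Sm_ext he hφ hφc ht).db j).continuous.aestronglyMeasurable
    · intro x hx
      have h2 : x ∉ tsupport (WeylM399.ext e φ) :=
        fun h => hx (WeylM399.tsupport_ext he hφc ht h)
      have h5 := notMem_tsupport_iff_eventuallyEq.1 h2
      rw [db_congr h5]
      have : db j (0 : M → ℂ) x = 0 := db_const 0 j x
      rw [this, mul_zero]
  obtain ⟨H, hH, hHae⟩ := Weyl399.weyl hBo hv.locallyIntegrableOn hweak
  -- conclusion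
  have hprod : (fun z => h (e.symm z) * H z) =ᵐ[volume.restrict B] fun _ => 1 := by
    filter_upwards [hae, hHae] with z hz1 hz2
    rw [← hz2]
    exact mul_inv_cancel₀ hz1
  have h5 := Measure.eqOn_open_of_ae_eq hprod hBo (hhe.mul hH.continuousOn) continuousOn_const
  have h6 := h5 (mem_ball_self hr)
  intro h0
  simp only [hsymm0, h0, zero_mul] at h6
  exact zero_ne_one h6

end Crest.Agent.R276.OT6_189
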