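import Crest.Agent.R276.OT5_189
import Crest.Agent.R276.OT6_189

/-!
# Row 276, leaf OT (helper189), part 7: `δ → 0`, the solution equals `f` on `{h = 0}`
-/

set_option autoImplicit false
set_option linter.unusedSectionVars false
set_option maxHeartbeats 800000

noncomputable section

open Set Filter Topology MeasureTheory ComplexConjugate Metric
open scoped ENNReal

namespace Crest.Agent.R276.OT7_189

open Crest.Agent.R271.Ho51 Crest.Agent.R271
  OT1_189 OT2_189 OT3_189 OT4_189 OT5_189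

/-- `1/(k+1)` -/
def dk (k : ℕ) : ℝ := 1 / ((k : ℝ) + 1)

lemma dk_pos (k : ℕ) : 0 < dk k := by unfold dk; positivity

lemma dk_anti (k : ℕ) : dk (k + 1) ≤ dk k := by
  unfold dk
  apply one_div_le_one_div_of_le (by positivity)
  push_cast; linarith

lemma dk_tendsto : Tendsto dk atTop (𝓝 0) := tendsto_one_div_add_atTop_nhds_zero_nat

lemma inv_le_iSup {q : ℝ} (hq : 0 ≤ q) :
    (ENNReal.ofReal q)⁻¹ ≤ ⨆ k : ℕ, ENNReal.ofReal ((q + dk k)⁻¹) := by
  have h1 : Tendsto (fun k : ℕ => (ENNReal.ofReal (q + dk k))⁻¹) atTop (𝓝 (ENNReal.ofReal q)⁻¹) := by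
    have h2 : Tendsto (fun k : ℕ => q + dk k) atTop (𝓝 (q + 0)) := tendsto_const_nhds.add dk_tendsto
    rw [add_zero] at h2
    exact ((ENNReal.continuous_ofReal.tendsto _).comp h2).inv
  refine le_of_tendsto' h1 fun k => ?_
  have hp : 0 < q + dk k := by linarith [dk_pos k]
  rw [← ENNReal.ofReal_inv_of_pos hp]
  exact le_iSup (fun k : ℕ => ENNReal.ofReal ((q + dk k)⁻¹)) k

variable {n : ℕ} {M : Type*} [TopologicalSpace M] [RDom n M] [T2Space M]
  [SecondCountableTopology M] [MeasurableSpace M] [BorelSpace M] {μ : Measure M}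

/-- the logarithmic part of the weight -/
def Wc (c q : ℝ) : ℝ := Real.log (q + c) + 2 * Real.log (Tc c q + 1)

theorem ot_eps (hμ : IsLeb μ) {ρ : M → ℝ} (hρ : Sm ρ)
    (hcpt : ∀ t : ℝ, IsCompact {x | ρ x ≤ t}) (hL : ∀ x w, nsq w ≤ Levi ρ x w)
    {b : M → ℝ} (hb : Sm b) (hbp : ∀ x w, 0 ≤ Levi b x w) {a : ℝ} (ha : 0 < a)
    {Φ0 : M → ℝ} (hΦ0 : Sm Φ0) (hΦ0p : ∀ x w, a * Levi b x w ≤ Levi Φ0 x w)
    {h f : M → ℂ} (hh : Hol h)
    (hf : Hol f) {c : ℝ} (hc : 0 < c) (hbd : ∀ x, Qf h b x + c ≤ Real.exp (-1))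
    (hbda : ∀ x, Qf h b x + c ≤ Real.exp (-(2 / a)))
    (hc5 : 2 * c ≤ Real.exp (-5))
    (hS : ∫⁻ x in {x | Qf h b x < c},
      ENNReal.ofReal (‖f x‖ ^ 2 * Real.exp (-(Φ0 x + b x))) ∂μ ≠ ⊤) :
    ∃ F : M → ℂ, Hol F ∧ (∀ x, h x = 0 → F x = f x) ∧
      ∫⁻ x, ENNReal.ofReal (‖F x - Gc c h b f x‖ ^ 2 * Real.exp (-(Φ0 x + b x +
        Wc c (Qf h b x)))) ∂μ ≤
      ENNReal.ofReal (16 * Cz / c) *
        ∫⁻ x in {x | Qf h b x < c},
          ENNReal.ofReal (‖f x‖ ^ 2 * Real.exp (-(Φ0 x + b x))) ∂μ := by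
  have hhc : Continuous h := T7a297.Hol.continuous hh
  have hfc : Continuous f := T7a297.Hol.continuous hf
  have hΦ0c := hΦ0.continuous
  have hbc := hb.continuous
  have hQc : Continuous (Qf h b) := (sm_Q hh hb).continuous
  have hG : Sm (Gc c h b f) := sm_Gc hh hb hf c
  have hTc : Continuous (fun x => Tc c (Qf h b x)) := (sm_T hh hb hc).continuous
  have hT := T_ge (h := h) (b := b) hc hbd
  have hq0 : ∀ x, 0 ≤ Qf h b x := fun x => Qf_nonneg h b x
  set S := ∫⁻ x in {x | Qf h b x < c}, ENNReal.ofReal (‖f x‖ ^ 2 * Real.exp (-(Φ0 x + b x))) ∂μ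
    with hSdef
  set K : ℝ≥0∞ := ENNReal.ofReal (16 * Cz / c) * S with hK
  have hKt : K ≠ ⊤ := ENNReal.mul_ne_top ENNReal.ofReal_ne_top hS
  choose F hF hFb using fun k : ℕ => ot_delta hμ hρ hcpt hL hb hbp ha hΦ0 hΦ0p hh hf hc hbd hbda
    hc5 (dk_pos k) hS
  set W : ℕ → M → ℝ := fun k x => Φ0 x + b x + Real.log (Qf h b x + dk k) +
    2 * Real.log (Tc c (Qf h b x) + 1) with hW
  have hTc1 : Continuous (fun x => Real.log (Tc c (Qf h b x) + 1)) := by
    refine Continuous.log (hTc.add continuous_const) fun x => ?_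
    have := hT x
    positivity
  have hWc : ∀ k, Continuous (W k) := by
    intro k
    have h1 : Continuous (fun x => Real.log (Qf h b x + dk k)) := by
      refine Continuous.log (hQc.add continuous_const) fun x => ?_
      have := hq0 x
      have := dk_pos k
      positivity
    simp only [hW]
    exact ((hΦ0c.add hbc).add h1).add (continuous_const.mul hTc1)
  have hWm : ∀ k x, W (k + 1) x ≤ W k x := by
    intro k x
    simp only [hW]
    have h1 : Real.log (Qf h b x + dk (k + 1)) ≤ Real.log (Qf h b x + dk k) := by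
      apply Real.log_le_log
      · have := hq0 x
        have := dk_pos (k + 1)
        positivity
      · linarith [dk_anti k]
    linarith
  obtain ⟨F0, hF0, -, hF0b⟩ := engine_limit' hμ ρ hρ.continuous hcpt W hWc hWm (Gc c h b f)
    hG.continuous F hF (fun _ => K) K hKt (fun _ => le_rfl)
    (fun k => (setLIntegral_le_lintegral _ _).trans (hFb k))
  have main := hF0b K (Eventually.of_forall fun _ => le_rfl)
  have hF0c : Continuous F0 := T7a297.Hol.continuous hF0
  have hexpW : ∀ k x, Real.exp (-W k x) = Real.exp (-(Φ0 x + b x +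
      2 * Real.log (Tc c (Qf h b x) + 1))) * (Qf h b x + dk k)⁻¹ := by
    intro k x
    have hp : 0 < Qf h b x + dk k := by linarith [hq0 x, dk_pos k]
    simp only [hW]
    rw [← Real.exp_log (inv_pos.2 hp), ← Real.exp_add, Real.log_inv]
    congr 1; ring
  refine ⟨F0, hF0, fun x0 hx0 => ?_, ?_⟩
  · -- vanishing
    by_contra hne
    set e0 : ℝ := ‖F0 x0 - f x0‖ with he0
    have he0p : 0 < e0 := norm_pos_iff.2 (sub_ne_zero.2 hne)
    have hQ0 : Qf h b x0 = 0 := by unfold Qf; rw [hx0]; simp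
    -- the neighbourhood
    set V : M → ℝ := fun x => Φ0 x + b x + 2 * Real.log (Tc c (Qf h b x) + 1) with hV
    have hVc : Continuous V := by
      simp only [hV]
      exact (hΦ0c.add hbc).add (continuous_const.mul hTc1)
    set U : Set M := {x | Qf h b x < c / 2} ∩ ({x | e0 / 2 < ‖F0 x - f x‖} ∩
      ({x | V x < V x0 + 1} ∩ {x | Real.exp (-b x) < Real.exp (-b x0) + 1})) with hU
    have hUo : IsOpen U := by
      refine (isOpen_lt hQc continuous_const).inter ((isOpen_lt continuous_const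
        (hF0c.sub hfc).norm).inter ((isOpen_lt hVc continuous_const).inter
        (isOpen_lt (Real.continuous_exp.comp hbc.neg) continuous_const)))
    have hx0U : x0 ∈ U := by
      refine ⟨?_, ?_, ?_, ?_⟩
      · show Qf h b x0 < c / 2
        rw [hQ0]; positivity
      · show e0 / 2 < ‖F0 x0 - f x0‖
        rw [← he0]; linarith
      · show V x0 < V x0 + 1
        linarith
      · show Real.exp (-b x0) < Real.exp (-b x0) + 1
        linarith
    set C1 : ℝ := (e0 / 2) ^ 2 * Real.exp (-(V x0 + 1)) with hC1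
    have hC1p : 0 < C1 := by positivity
    set B1 : ℝ := Real.exp (-b x0) + 1 with hB1
    have hB1p : 0 < B1 := by positivity
    have hlow : ∀ x ∈ U, ENNReal.ofReal C1 * ((ENNReal.ofReal B1)⁻¹ * (‖h x‖ₑ ^ 2)⁻¹) ≤
        ENNReal.ofReal (‖F0 x - Gc c h b f x‖ ^ 2) *
          (⨆ k, ENNReal.ofReal (Real.exp (-W k x))) := by
      intro x hx
      obtain ⟨h1, h2, h3, h4⟩ := hx
      have h1 : Qf h b x < c / 2 := h1
      have h2 : e0 / 2 < ‖F0 x - f x‖ := h2
      have h3 : V x < V x0 + 1 := h3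
      have h4 : Real.exp (-b x) < B1 := h4
      have hGf : Gc c h b f x = f x := by
        unfold Gc
        rw [zt_one (by rw [div_le_iff₀ hc]; linarith)]
        simp
      rw [hGf]
      have e1 : (⨆ k, ENNReal.ofReal (Real.exp (-W k x))) =
          ENNReal.ofReal (Real.exp (-V x)) * ⨆ k : ℕ, ENNReal.ofReal ((Qf h b x + dk k)⁻¹) := by
        rw [ENNReal.mul_iSup]
        refine iSup_congr fun k => ?_
        rw [hexpW, ← ENNReal.ofReal_mul (Real.exp_pos _).le]
      rw [e1, ← mul_assoc (ENNReal.ofReal (‖F0 x - f x‖ ^ 2))]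
      refine mul_le_mul' ?_ ?_
      · rw [← ENNReal.ofReal_mul (by positivity)]
        apply ENNReal.ofReal_le_ofReal
        rw [hC1]
        have h5 : (e0 / 2) ^ 2 ≤ ‖F0 x - f x‖ ^ 2 := by gcongr
        have h6 : Real.exp (-(V x0 + 1)) ≤ Real.exp (-V x) := Real.exp_le_exp.2 (by linarith)
        exact mul_le_mul h5 h6 (Real.exp_pos _).le (by positivity)
      · refine le_trans ?_ (inv_le_iSup (hq0 x))
        rw [← ENNReal.mul_inv (Or.inl (by simpa using hB1p)) (Or.inl ENNReal.ofReal_ne_top)]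
        rw [ENNReal.inv_le_inv]
        unfold Qf
        rw [mul_comm, ENNReal.ofReal_mul (Real.exp_pos _).le, ENNReal.ofReal_pow (norm_nonneg _),
          ofReal_norm]
        gcongr
    have hfin : ∫⁻ x in U, (‖h x‖ₑ ^ 2)⁻¹ ∂μ ≠ ⊤ := by
      have h5 : ∫⁻ x in U, ENNReal.ofReal C1 * ((ENNReal.ofReal B1)⁻¹ * (‖h x‖ₑ ^ 2)⁻¹) ∂μ ≤ K :=
        (setLIntegral_mono' hUo.measurableSet hlow).trans
          ((setLIntegral_le_lintegral _ _).trans main)
      have hm : Measurable (fun x => (‖h x‖ₑ ^ 2)⁻¹) := (hhc.measurable.enorm.pow_const 2).inv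
      rw [lintegral_const_mul _ (hm.const_mul _), lintegral_const_mul _ hm] at h5
      intro htop
      rw [htop, ENNReal.mul_top, ENNReal.mul_top] at h5
      · exact hKt (top_le_iff.1 h5)
      · simpa using hC1p
      · simp
    exact OT6_189.ne_zero_of_integrable hμ hh hUo hx0U hfin hx0
  · obtain ⟨k0, hk0⟩ : ∃ k0 : ℕ, dk k0 ≤ c := by
      have := (dk_tendsto.eventually (gt_mem_nhds hc)).exists
      obtain ⟨k, hk⟩ := this
      exact ⟨k, hk.le⟩
    refine le_trans (lintegral_mono fun x => ?_) main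
    rw [ENNReal.ofReal_mul (by positivity)]
    refine mul_le_mul_right ?_ _
    refine le_trans (ENNReal.ofReal_le_ofReal ?_)
      (le_iSup (fun k => ENNReal.ofReal (Real.exp (-W k x))) k0)
    apply Real.exp_le_exp.2
    simp only [hW, Wc]
    have h1 : Real.log (Qf h b x + dk k0) ≤ Real.log (Qf h b x + c) :=
      Real.log_le_log (by linarith [hq0 x, dk_pos k0]) (by linarith)
    linarith

lemma exp_Wc {c q : ℝ} (h : 0 < q + c) (hT : 0 < Tc c q + 1) :
    Real.exp (-Wc c q) = 1 / ((q + c) * (Tc c q + 1) ^ 2) := by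
  unfold Wc
  rw [neg_add, Real.exp_add, Real.exp_neg, Real.exp_log h, Real.exp_neg, two_mul, Real.exp_add,
    Real.exp_log hT, one_div, mul_inv, ← pow_two, inv_pow, mul_inv]

/-- bound of `F` itself -/
theorem ot_eps' (hμ : IsLeb μ) {ρ : M → ℝ} (hρ : Sm ρ)
    (hcpt : ∀ t : ℝ, IsCompact {x | ρ x ≤ t}) (hL : ∀ x w, nsq w ≤ Levi ρ x w)
    {b : M → ℝ} (hb : Sm b) (hbp : ∀ x w, 0 ≤ Levi b x w) {a : ℝ} (ha : 0 < a)
    {Φ0 : M → ℝ} (hΦ0 : Sm Φ0) (hΦ0p : ∀ x w, a * Levi b x w ≤ Levi Φ0 x w)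
    {h f : M → ℂ} (hh : Hol h)
    (hf : Hol f) {c : ℝ} (hc : 0 < c) (hbd : ∀ x, Qf h b x + c ≤ Real.exp (-1))
    (hbda : ∀ x, Qf h b x + c ≤ Real.exp (-(2 / a)))
    (hc5 : 2 * c ≤ Real.exp (-5))
    (hS : ∫⁻ x in {x | Qf h b x < c},
      ENNReal.ofReal (‖f x‖ ^ 2 * Real.exp (-(Φ0 x + b x))) ∂μ ≠ ⊤) :
    ∃ F : M → ℂ, Hol F ∧ (∀ x, h x = 0 → F x = f x) ∧
      ∫⁻ x, ENNReal.ofReal (‖F x‖ ^ 2 * Real.exp (-(Φ0 x + b x +
        Wc c (Qf h b x)))) ∂μ ≤
      ENNReal.ofReal ((32 * Cz + 2) / c) *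
        ∫⁻ x in {x | Qf h b x < c},
          ENNReal.ofReal (‖f x‖ ^ 2 * Real.exp (-(Φ0 x + b x))) ∂μ := by
  obtain ⟨F, hF, hF0, hFb⟩ := ot_eps hμ hρ hcpt hL hb hbp ha hΦ0 hΦ0p hh hf hc hbd hbda hc5 hS
  refine ⟨F, hF, hF0, ?_⟩
  have hFc : Continuous F := T7a297.Hol.continuous hF
  have hfc : Continuous f := T7a297.Hol.continuous hf
  have hΦ0c := hΦ0.continuous
  have hbc := hb.continuous
  have hCz := Cz_pos
  have hQc : Continuous (Qf h b) := (sm_Q hh hb).continuous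
  have hG : Sm (Gc c h b f) := sm_Gc hh hb hf c
  have hGc := hG.continuous
  have hTc : Continuous (fun x => Tc c (Qf h b x)) := (sm_T hh hb hc).continuous
  have hT := T_ge (h := h) (b := b) hc hbd
  have hq0 : ∀ x, 0 ≤ Qf h b x := fun x => Qf_nonneg h b x
  have hWcc : Continuous (fun x => Wc c (Qf h b x)) := by
    unfold Wc
    refine Continuous.add ?_ (continuous_const.mul ?_)
    · refine Continuous.log (hQc.add continuous_const) fun x => ?_
      have := hq0 x
      positivity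
    · refine Continuous.log (hTc.add continuous_const) fun x => ?_
      have := hT x
      positivity
  set E : M → ℝ := fun x => Real.exp (-(Φ0 x + b x + Wc c (Qf h b x))) with hE
  have hEc : Continuous E := by simp only [hE]; fun_prop
  have hE0 : ∀ x, 0 ≤ E x := fun x => (Real.exp_pos _).le
  set S := ∫⁻ x in {x | Qf h b x < c}, ENNReal.ofReal (‖f x‖ ^ 2 * Real.exp (-(Φ0 x + b x))) ∂μ
    with hSdef
  have h2 : (2 : ℝ≥0∞) = ENNReal.ofReal 2 := by simp
  have hsplit : ∀ x, ENNReal.ofReal (‖F x‖ ^ 2 * E x) ≤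
      2 * ENNReal.ofReal (‖F x - Gc c h b f x‖ ^ 2 * E x) +
        2 * ENNReal.ofReal (‖Gc c h b f x‖ ^ 2 * E x) := by
    intro x
    have hx := hE0 x
    rw [h2, ← ENNReal.ofReal_mul (by norm_num), ← ENNReal.ofReal_mul (by norm_num),
      ← ENNReal.ofReal_add (by positivity) (by positivity)]
    apply ENNReal.ofReal_le_ofReal
    have h3 := norm_add_sq_le (F x - Gc c h b f x) (Gc c h b f x)
    rw [sub_add_cancel] at h3
    nlinarith
  have hGb : ∫⁻ x, ENNReal.ofReal (‖Gc c h b f x‖ ^ 2 * E x) ∂μ ≤ ENNReal.ofReal (1 / c) * S := by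
    refine lint_le_indicator hQc (by positivity)
      ((by fun_prop : Continuous (fun x => ‖f x‖ ^ 2 * Real.exp (-(Φ0 x + b x)))).measurable)
      (fun x _ => ?_) fun x hx => ?_
    · have hp : 0 < Qf h b x + c := Qc_pos hc x
      have hT1 : 0 < Tc c (Qf h b x) + 1 := by linarith [hT x]
      have e1 : E x = 1 / ((Qf h b x + c) * (Tc c (Qf h b x) + 1) ^ 2) *
          Real.exp (-(Φ0 x + b x)) := by
        simp only [hE]
        rw [← exp_Wc hp hT1, ← Real.exp_add]; congr 1; ring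
      have h3 : 1 / ((Qf h b x + c) * (Tc c (Qf h b x) + 1) ^ 2) ≤ 1 / c := by
        apply one_div_le_one_div_of_le hc
        have h4 : 1 ≤ (Tc c (Qf h b x) + 1) ^ 2 := by nlinarith [hT x]
        nlinarith [hq0 x]
      have h5 : ‖Gc c h b f x‖ ^ 2 ≤ ‖f x‖ ^ 2 := by
        unfold Gc
        rw [norm_mul, mul_pow, Complex.norm_real, Real.norm_eq_abs,
          abs_of_nonneg (zt_nonneg _)]
        have h6 := zt_nonneg (Qf h b x / c)
        have h7 := zt_le_one (Qf h b x / c)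
        have h8 : zt (Qf h b x / c) ^ 2 ≤ 1 := by nlinarith
        nlinarith [sq_nonneg ‖f x‖]
      rw [e1]
      calc ‖Gc c h b f x‖ ^ 2 * (1 / ((Qf h b x + c) * (Tc c (Qf h b x) + 1) ^ 2) *
          Real.exp (-(Φ0 x + b x))) ≤ ‖f x‖ ^ 2 * (1 / c * Real.exp (-(Φ0 x + b x))) := by
            gcongr
        _ = _ := by ring
    · unfold Gc
      rw [zt_zero (by rw [le_div_iff₀ hc]; linarith)]
      simp
  calc ∫⁻ x, ENNReal.ofReal (‖F x‖ ^ 2 * E x) ∂μ
      ≤ ∫⁻ x, (2 * ENNReal.ofReal (‖F x - Gc c h b f x‖ ^ 2 * E x) +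
        2 * ENNReal.ofReal (‖Gc c h b f x‖ ^ 2 * E x)) ∂μ := lintegral_mono hsplit
    _ = 2 * ∫⁻ x, ENNReal.ofReal (‖F x - Gc c h b f x‖ ^ 2 * E x) ∂μ +
        2 * ∫⁻ x, ENNReal.ofReal (‖Gc c h b f x‖ ^ 2 * E x) ∂μ := by
        rw [lintegral_add_left, lintegral_const_mul' _ _ (by simp),
          lintegral_const_mul' _ _ (by simp)]
        exact ((((hFc.sub hGc).norm.pow 2).mul hEc).measurable.ennreal_ofReal).const_mul 2
    _ ≤ 2 * (ENNReal.ofReal (16 * Cz / c) * S) + 2 * (ENNReal.ofReal (1 / c) * S) := by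
        gcongr
    _ = ENNReal.ofReal ((32 * Cz + 2) / c) * S := by
        rw [← mul_assoc, ← mul_assoc, ← add_mul]
        congr 1
        rw [h2, ← ENNReal.ofReal_mul (by norm_num), ← ENNReal.ofReal_mul (by norm_num),
          ← ENNReal.ofReal_add (by positivity) (by positivity)]
        congr 1
        ring

end Crest.Agent.R276.OT7_189
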