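import Crest.Agent.R276.OTF_189

/-!
# Row 276, leaf OT (helper189): corollaries of the Ohsawa–Takegoshi theorem

* `ot_slice'` : no finiteness hypothesis, right-hand side = constant * slice integral;
* `ot_disc` : `|h| ≤ R`, no further weights, constant `Cot 1 * π * R²`;
* `ot_line` : `h` unbounded, factor `(1 + |h|²)⁻²`, constant `Cot 1 * π`;
* `ot_dec` : decreasing sequence of smooth psh weights.
-/

set_option autoImplicit false
set_option linter.unusedSectionVars false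
set_option maxHeartbeats 800000

noncomputable section

open Set Filter Topology MeasureTheory Metric
open scoped ENNReal

namespace Crest.Agent.R276.OTF_189

open Crest.Agent.R271 Crest.Agent.R271.Ho51 Crest.Agent.R273.Dir73 Crest.Agent.R273.OTU_34
  Crest.Agent.R273.OTD_34 Crest.Agent.R273.OTE_34 Crest.Agent.R273.OTA_34 Crest.Agent.R273.OTX_34
  Crest.Agent.R276.EngU_29 Crest.Agent.R276.LimW_29 Crest.Agent.R273.Reg_844
  Crest.Agent.R276.OTS_189 Crest.Agent.R273.OTC_34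
open Crest.Agent.R271.W792 (Levi_eq_lev lev_const)

variable {n : ℕ} {M : Type*} [TopologicalSpace M] [RDom (n + 1) M] [T2Space M]
  [SecondCountableTopology M] [MeasurableSpace M] [BorelSpace M] {μ : Measure M}
  {a : Fin (n + 1) → ℂ} [MeasurableSpace (Hs M a)] [BorelSpace (Hs M a)] {μD : Measure (Hs M a)}

lemma Cot_pos {α : ℝ} : 0 < Cot α := by
  unfold Cot
  have := Cst_nonneg
  positivity

theorem ot_slice' (hμ : IsLeb μ) (hμD : IsLeb μD) {ρ : M → ℝ} (hρ : Sm ρ)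
    (hcpt : ∀ t : ℝ, IsCompact {x | ρ x ≤ t}) (hL : ∀ x w, nsq w ≤ Levi ρ x w)
    {Ψ Φ : M → ℝ} (hΨ : Sm Ψ) (hΦ : Sm Φ) (hs : ∀ x, ‖ell a (cp x)‖ ^ 2 ≤ Real.exp (Ψ x))
    {α : ℝ} (hα : 0 < α) (hα1 : α ≤ 1) (hΨ0 : ∀ x w, 0 ≤ Levi Ψ x w)
    (hΦΨ : ∀ x w, α * Levi Ψ x w ≤ Levi Φ x w) {b : M → ℝ} (hb : LPsh b) {f : Hs M a → ℂ}
    (hf : Hol f) :
    ∃ F : M → ℂ, Hol F ∧ (∀ y : Hs M a, F (ι y) = f y) ∧
      ∫⁻ x, ENNReal.ofReal (‖F x‖ ^ 2 * Real.exp (-(Φ x + Ψ x))) / ENNReal.ofReal (b x) ∂μ ≤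
          ENNReal.ofReal (Cot α * Real.pi) *
            ∫⁻ y : Hs M a, ENNReal.ofReal (‖f y‖ ^ 2 * Real.exp (-Φ (ι y))) /
              ENNReal.ofReal (b (ι y)) ∂μD := by
  by_cases hK : ∫⁻ y : Hs M a, ENNReal.ofReal (‖f y‖ ^ 2 * Real.exp (-Φ (ι y))) /
              ENNReal.ofReal (b (ι y)) ∂μD = ⊤
  · obtain ⟨F1, hF1, hF1f⟩ := ext_slice hμ hρ hcpt hL hf
    refine ⟨F1, hF1, hF1f, ?_⟩
    rw [hK, ENNReal.mul_top]
    · exact le_top
    · have := Cot_pos (α := α)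
      have := Real.pi_pos
      simpa using by positivity
  · exact ot_slice hμ hμD hρ hcpt hL hΨ hΦ hs hα hα1 hΨ0 hΦΨ hb hf hK le_rfl

/-- bounded `h`: `∫ |F|²/b ≤ C R² ∫_D |f|²/b` -/
theorem ot_disc (hμ : IsLeb μ) (hμD : IsLeb μD) {ρ : M → ℝ} (hρ : Sm ρ)
    (hcpt : ∀ t : ℝ, IsCompact {x | ρ x ≤ t}) (hL : ∀ x w, nsq w ≤ Levi ρ x w)
    {R : ℝ} (hR : 0 < R) (hs : ∀ x : M, ‖ell a (cp x)‖ ≤ R)
    {b : M → ℝ} (hb : LPsh b) {f : Hs M a → ℂ} (hf : Hol f) :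
    ∃ F : M → ℂ, Hol F ∧ (∀ y : Hs M a, F (ι y) = f y) ∧
      ∫⁻ x, ENNReal.ofReal (‖F x‖ ^ 2) / ENNReal.ofReal (b x) ∂μ ≤
          ENNReal.ofReal (Cot 1 * Real.pi * R ^ 2) *
            ∫⁻ y : Hs M a, ENNReal.ofReal (‖f y‖ ^ 2) / ENNReal.ofReal (b (ι y)) ∂μD := by
  have hL0 : ∀ (c : ℝ) (x : M) w, Levi (fun _ : M => c) x w = 0 := by
    intro c x w
    rw [Levi_eq_lev (Sm.const c), lev_const]
  obtain ⟨F, hF, hFf, hFb⟩ := ot_slice' hμ hμD hρ hcpt hL (Ψ := fun _ => Real.log (R ^ 2))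
    (Φ := fun _ => 0) (Sm.const _) (Sm.const _) (fun x => by
      rw [Real.exp_log (by positivity)]
      have := hs x
      gcongr) (α := 1) one_pos le_rfl (fun x w => by rw [hL0]) (fun x w => by rw [hL0, hL0]; simp)
      hb hf
  refine ⟨F, hF, hFf, ?_⟩
  have h1 : ∀ x, ENNReal.ofReal (‖F x‖ ^ 2) / ENNReal.ofReal (b x) =
      ENNReal.ofReal (R ^ 2) * (ENNReal.ofReal (‖F x‖ ^ 2 * Real.exp (-(0 + Real.log (R ^ 2)))) /
        ENNReal.ofReal (b x)) := by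
    intro x
    rw [zero_add, Real.exp_neg, Real.exp_log (by positivity), ← mul_div_assoc,
      ← ENNReal.ofReal_mul (by positivity)]
    congr 2
    field_simp
  simp only [h1]
  rw [lintegral_const_mul' _ _ ENNReal.ofReal_ne_top, mul_comm (Cot 1 * Real.pi),
    ENNReal.ofReal_mul (by positivity), mul_assoc]
  refine mul_le_mul_right (hFb.trans (mul_le_mul_right (le_of_eq ?_) _)) _
  refine lintegral_congr fun y => ?_
  simp

/-- unbounded `h` -/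
theorem ot_line (hμ : IsLeb μ) (hμD : IsLeb μD) {ρ : M → ℝ} (hρ : Sm ρ)
    (hcpt : ∀ t : ℝ, IsCompact {x | ρ x ≤ t}) (hL : ∀ x w, nsq w ≤ Levi ρ x w)
    {b : M → ℝ} (hb : LPsh b) {f : Hs M a → ℂ} (hf : Hol f) :
    ∃ F : M → ℂ, Hol F ∧ (∀ y : Hs M a, F (ι y) = f y) ∧
      ∫⁻ x, ENNReal.ofReal (‖F x‖ ^ 2 / (1 + ‖ell a (cp x)‖ ^ 2) ^ 2) / ENNReal.ofReal (b x) ∂μ ≤
          ENNReal.ofReal (Cot 1 * Real.pi) *
            ∫⁻ y : Hs M a, ENNReal.ofReal (‖f y‖ ^ 2) / ENNReal.ofReal (b (ι y)) ∂μD := by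
  set h : M → ℂ := fun x => ell a (cp x) with hh
  have hhol : W792.Hol h := hol_ell a
  set Ψ : M → ℝ := Wd h (fun _ => 0) 1 with hΨd
  have hΨ : Sm Ψ := sm_Wd hhol.sm (Sm.const 0) one_pos
  have hexp : ∀ x, Real.exp (Ψ x) = 1 + ‖h x‖ ^ 2 := by
    intro x
    simp only [hΨd, Wd]
    rw [zero_add, Real.exp_log (by positivity)]
    ring
  have hL0 : ∀ x w, 0 ≤ Levi Ψ x w := by
    intro x w
    rw [Levi_eq_lev hΨ]
    refine le_trans (le_of_eq ?_) (lev_Wd hhol (Sm.const 0) one_pos x w)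
    rw [lev_const]
  obtain ⟨F, hF, hFf, hFb⟩ := ot_slice' hμ hμD hρ hcpt hL hΨ hΨ (a := a) (fun x => by
      rw [hexp]
      simp [hh]) (α := 1) one_pos le_rfl hL0 (fun x w => by rw [one_mul])
      hb hf
  refine ⟨F, hF, hFf, ?_⟩
  have h1 : ∀ x, ENNReal.ofReal (‖F x‖ ^ 2 / (1 + ‖h x‖ ^ 2) ^ 2) / ENNReal.ofReal (b x) =
      (ENNReal.ofReal (‖F x‖ ^ 2 * Real.exp (-(Ψ x + Ψ x))) / ENNReal.ofReal (b x)) := by
    intro x
    have h2 : ‖F x‖ ^ 2 / (1 + ‖h x‖ ^ 2) ^ 2 = ‖F x‖ ^ 2 * Real.exp (-(Ψ x + Ψ x)) := by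
      rw [Real.exp_neg, Real.exp_add, hexp, ← pow_two, div_eq_mul_inv]
    rw [h2]
  refine le_trans (le_of_eq (lintegral_congr h1)) ?_
  refine hFb.trans (mul_le_mul_right (le_of_eq ?_) _)
  refine lintegral_congr fun y => ?_
  have h2 : h (ι y) = 0 := ell_ι y
  rw [Real.exp_neg, hexp, h2]
  simp

/-- decreasing smooth weights, exhaustion limit: `e^{-φ} = sup_k e^{-φ_k}` -/
theorem ot_dec (hμ : IsLeb μ) (hμD : IsLeb μD) {ρ : M → ℝ} (hρ : Sm ρ)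
    (hcpt : ∀ t : ℝ, IsCompact {x | ρ x ≤ t}) (hL : ∀ x w, nsq w ≤ Levi ρ x w)
    {Ψ : M → ℝ} {φ : ℕ → M → ℝ} (hΨ : Sm Ψ) (hφ : ∀ k, Sm (φ k)) (hφm : ∀ x, Antitone fun k => φ k x)
    (hs : ∀ x, ‖ell a (cp x)‖ ^ 2 ≤ Real.exp (Ψ x))
    {α : ℝ} (hα : 0 < α) (hα1 : α ≤ 1) (hΨ0 : ∀ x w, 0 ≤ Levi Ψ x w)
    (hφΨ : ∀ k x w, α * Levi Ψ x w ≤ Levi (φ k) x w) {f : Hs M a → ℂ} (hf : Hol f) :
    ∃ F : M → ℂ, Hol F ∧ (∀ y : Hs M a, F (ι y) = f y) ∧
      ∫⁻ x, ENNReal.ofReal (‖F x‖ ^ 2) * ENNReal.ofReal (Real.exp (-Ψ x)) *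
        (⨆ k, ENNReal.ofReal (Real.exp (-φ k x))) ∂μ ≤
          ENNReal.ofReal (Cot α * Real.pi) *
            ∫⁻ y : Hs M a, ENNReal.ofReal (‖f y‖ ^ 2) *
              (⨆ k, ENNReal.ofReal (Real.exp (-φ k (ι y)))) ∂μD := by
  set K := ∫⁻ y : Hs M a, ENNReal.ofReal (‖f y‖ ^ 2) *
              (⨆ k, ENNReal.ofReal (Real.exp (-φ k (ι y)))) ∂μD with hKdef
  by_cases hK : K = ⊤
  · obtain ⟨F1, hF1, hF1f⟩ := ext_slice hμ hρ hcpt hL hf
    refine ⟨F1, hF1, hF1f, ?_⟩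
    rw [hK, ENNReal.mul_top]
    · exact le_top
    · have := Cot_pos (α := α)
      have := Real.pi_pos
      simpa using by positivity
  have h0 : PSH (fun _ : M => (0 : ℝ)) :=
    PSH.of_smooth (Sm.const 0) fun x w => by rw [lev_const]
  have hstep : ∀ k, ∃ F : M → ℂ, Hol F ∧ (∀ y : Hs M a, F (ι y) = f y) ∧
      ∫⁻ x, ENNReal.ofReal (‖F x‖ ^ 2) *
        ENNReal.ofReal (Real.exp (-(φ k x + Ψ x)) * Real.exp (-0)) ∂μ ≤
          ENNReal.ofReal (Cot α * Real.pi) * K := by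
    intro k
    refine ot_slice_psh hμ hμD hρ hcpt hL hΨ (hφ k) hs hα hα1 hΨ0 (hφΨ k) h0 hf hK ?_
    refine lintegral_mono fun y => ?_
    rw [ENNReal.ofReal_mul (by positivity), mul_assoc]
    refine mul_le_mul_right ?_ _
    simp only [neg_zero, Real.exp_zero, ENNReal.ofReal_one, mul_one]
    exact le_iSup (fun k => ENNReal.ofReal (Real.exp (-φ k (ι y)))) k
  choose F hF hFf hFb using hstep
  have hWc : ∀ k, Continuous (fun x => Real.exp (-(φ k x + Ψ x)) * Real.exp (-0)) := fun k =>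
    (Real.continuous_exp.comp ((hφ k).continuous.add hΨ.continuous).neg).mul continuous_const
  obtain ⟨F0, hF0h, hlim, hbd⟩ := limW (Ω := fun _ : ℕ => (univ : Set M)) (G := fun _ => (0 : ℂ)) hμ
    (fun _ => isOpen_univ) (fun _ _ _ => le_rfl) (fun C _ => ⟨0, subset_univ C⟩) continuous_const
    (fun k => HolOn.of_hol (hF k) univ)
    (W := fun k x => ENNReal.ofReal (Real.exp (-(φ k x + Ψ x)) * Real.exp (-0)))
    (fun x k k' hkk' => by
      apply ENNReal.ofReal_le_ofReal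
      have h1 : φ k' x ≤ φ k x := hφm x hkk'
      gcongr)
    (fun k => (hWc k).measurable.ennreal_ofReal)
    (fun x => by
      have hp : 0 < Real.exp (-(φ 0 x + Ψ x)) * Real.exp (-0) := by positivity
      refine ⟨0, ENNReal.ofReal ((Real.exp (-(φ 0 x + Ψ x)) * Real.exp (-0)) / 2),
        ENNReal.ofReal_pos.2 (by positivity), ?_⟩
      filter_upwards [(hWc 0).continuousAt.eventually (lt_mem_nhds (half_lt_self hp))] with y hy
      exact ENNReal.ofReal_le_ofReal hy.le)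
    (K := ENNReal.ofReal (Cot α * Real.pi) * K)
    (ENNReal.mul_ne_top ENNReal.ofReal_ne_top hK)
    (fun k => by
      rw [Measure.restrict_univ]
      refine le_trans (le_of_eq ?_) (hFb k)
      refine lintegral_congr fun x => ?_
      rw [sub_zero])
  refine ⟨F0, hF0h, fun y => ?_, le_trans (le_of_eq ?_) hbd⟩
  · refine tendsto_nhds_unique (hlim (ι y)) ?_
    simp only [hFf]
    exact tendsto_const_nhds
  · refine lintegral_congr fun x => ?_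
    rw [sub_zero, mul_assoc, ENNReal.mul_iSup]
    congr 1
    refine iSup_congr fun k => ?_
    rw [← ENNReal.ofReal_mul (Real.exp_pos _).le, neg_zero, Real.exp_zero, mul_one, ← Real.exp_add]
    congr 2
    ring

end Crest.Agent.R276.OTF_189
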