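import Crest.Agent.R276.OTS_189
import Crest.Agent.R273.OTU_34

/-!
# Row 276, leaf OT (helper189), (OT3) part 2: functions continuous on a sublevel only; `TubeB` of
helper34 for the extension of a function on the slice
-/

set_option autoImplicit false
set_option linter.unusedSectionVars false
set_option maxHeartbeats 800000

noncomputable section

open Set Filter Topology MeasureTheory Metric
open scoped ENNReal

namespace Crest.Agent.R276.OTS_189

open Crest.Agent.R271 Crest.Agent.R271.Ho51 Crest.Agent.R273.Dir73 Crest.Agent.R273.OTU_34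
  Crest.Agent.R273.OTD_34 Crest.Agent.R273.OTE_34 Crest.Agent.R273.OTA_34
  Crest.Agent.R276.EngU_29 Crest.Agent.R273.Reg_844

variable {n : ℕ} {M : Type*} [TopologicalSpace M] [RDom (n + 1) M] [T2Space M]
  [SecondCountableTopology M] [MeasurableSpace M] [BorelSpace M] {μ : Measure M}
  {a : Fin (n + 1) → ℂ} [MeasurableSpace (Hs M a)] [BorelSpace (Hs M a)] {μD : Measure (Hs M a)}

/-- the cut-off -/
def kap (ρ : M → ℝ) (c : ℝ) (j : ℕ) (x : M) : ℝ := min 1 (max 0 (1 - (j : ℝ) * (ρ x - c)))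

theorem tube_leOn (hμ : IsLeb μ) (hμD : IsLeb μD) {ρ : M → ℝ} (hρ : Continuous ρ)
    (hcpt : ∀ t : ℝ, IsCompact {x | ρ x ≤ t}) {Ψ : M → ℝ} (hΨ : Continuous Ψ) {c : ℝ} {v : M → ℝ}
    (hv : ContinuousOn v {x | ρ x ≤ c}) (hv0 : ∀ x, ρ x ≤ c → 0 ≤ v x) {K' : ℝ≥0∞}
    (hK' : ENNReal.ofReal Real.pi *
        ∫⁻ y in {y : Hs M a | ρ (ι y) ≤ c}, ENNReal.ofReal (v (ι y) * Real.exp (Ψ (ι y))) ∂μD < K') :
    ∀ᶠ ε : ℝ in 𝓝[>] 0, ∫⁻ x in {x | ‖ell a (cp x)‖ ^ 2 ≤ ε ^ 2 * Real.exp (Ψ x) ∧ ρ x ≤ c},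
        ENNReal.ofReal (v x) ∂μ ≤ ENNReal.ofReal (ε ^ 2) * K' := by
  have hlc : LocallyCompactSpace M := locallyCompact_rdom (n + 1) M
  have hclo : IsClosed {x | ρ x ≤ c} := isClosed_le hρ continuous_const
  have hfin := hμD.locallyFinite
  -- extension
  obtain ⟨g, hg⟩ := ContinuousMap.exists_restrict_eq hclo
    (⟨({x | ρ x ≤ c}).domRestrict v, continuousOn_iff_continuous_domRestrict.1 hv⟩ :
      C({x | ρ x ≤ c}, ℝ))
  have hgv : ∀ x, ρ x ≤ c → g x = v x := by
    intro x hx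
    have h1 := congrArg (fun F => F ⟨x, hx⟩) hg
    simpa using h1
  set w : M → ℝ := fun x => max (g x) 0 with hw
  have hwc : Continuous w := g.continuous.max continuous_const
  have hw0 : ∀ x, 0 ≤ w x := fun x => le_max_right _ _
  have hwv : ∀ x, ρ x ≤ c → w x = v x := by
    intro x hx
    simp only [hw]
    rw [hgv x hx, max_eq_left (hv0 x hx)]
  -- cut-offs
  have hkc : ∀ j, Continuous (kap ρ c j) := by
    intro j
    unfold kap
    exact continuous_const.min (continuous_const.max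
      (continuous_const.sub (continuous_const.mul (hρ.sub continuous_const))))
  have hk0 : ∀ j x, 0 ≤ kap ρ c j x := fun j x => le_min zero_le_one (le_max_left _ _)
  have hk1 : ∀ j x, kap ρ c j x ≤ 1 := fun j x => min_le_left _ _
  have hkone : ∀ j x, ρ x ≤ c → kap ρ c j x = 1 := by
    intro j x hx
    unfold kap
    have h1 : (j : ℝ) * (ρ x - c) ≤ 0 := mul_nonpos_of_nonneg_of_nonpos (by positivity) (by linarith)
    rw [max_eq_right (by linarith), min_eq_left (by linarith)]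
  have hkzero : ∀ (j : ℕ) x, 1 ≤ (j : ℝ) * (ρ x - c) → kap ρ c j x = 0 := by
    intro j x hx
    unfold kap
    rw [max_eq_left (by linarith), min_eq_right (by norm_num)]
  have hksupp : ∀ (j : ℕ) x, 1 ≤ j → c + 1 ≤ ρ x → kap ρ c j x = 0 := by
    intro j x hj hx
    apply hkzero
    have h1 : (1 : ℝ) ≤ j := by exact_mod_cast hj
    nlinarith
  have hkcs : ∀ j, 1 ≤ j → HasCompactSupport (kap ρ c j) := by
    intro j hj
    refine HasCompactSupport.intro (hcpt (c + 1)) fun x hx => ?_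
    have hx' : ¬ ρ x ≤ c + 1 := hx
    exact hksupp j x hj (not_le.1 hx').le
  -- the integrals on `D`
  have hCD : IsCompact {y : Hs M a | ρ (ι y) ≤ c + 1} := isCompact_sub hcpt (c + 1)
  have hWD : Continuous (fun y : Hs M a => w (ι y) * Real.exp (Ψ (ι y))) :=
    (hwc.comp continuous_ι).mul (Real.continuous_exp.comp (hΨ.comp continuous_ι))
  have hkD : ∀ j, Continuous (fun y : Hs M a => kap ρ c j (ι y) * w (ι y) * Real.exp (Ψ (ι y))) :=
    fun j => (((hkc j).comp continuous_ι).mul (hwc.comp continuous_ι)).mul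
      (Real.continuous_exp.comp (hΨ.comp continuous_ι))
  have hmeas : MeasurableSet {y : Hs M a | ρ (ι y) ≤ c} :=
    (isClosed_le (hρ.comp continuous_ι) continuous_const).measurableSet
  have hlim : Tendsto (fun j : ℕ => ∫⁻ y : Hs M a,
      ENNReal.ofReal (kap ρ c (j + 1) (ι y) * w (ι y) * Real.exp (Ψ (ι y))) ∂μD) atTop
      (𝓝 (∫⁻ y : Hs M a, {y : Hs M a | ρ (ι y) ≤ c}.indicator
        (fun y => ENNReal.ofReal (v (ι y) * Real.exp (Ψ (ι y)))) y ∂μD)) := by
    refine tendsto_lintegral_of_dominated_convergence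
      (fun y => {y : Hs M a | ρ (ι y) ≤ c + 1}.indicator
        (fun y => ENNReal.ofReal (w (ι y) * Real.exp (Ψ (ι y)))) y) ?_ ?_ ?_ ?_
    · exact fun j => (hkD (j + 1)).measurable.ennreal_ofReal
    · refine fun j => Eventually.of_forall fun y => ?_
      beta_reduce
      by_cases hy : ρ (ι y) ≤ c + 1
      · rw [indicator_of_mem (by exact hy)]
        apply ENNReal.ofReal_le_ofReal
        have h1 := hk1 (j + 1) (ι y)
        have h2 := hw0 (ι y)
        have h3 := Real.exp_pos (Ψ (ι y))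
        gcongr
        nlinarith
      · rw [hksupp (j + 1) (ι y) (by omega) (not_le.1 hy).le]
        simp
    · have hmeas1 : MeasurableSet {y : Hs M a | ρ (ι y) ≤ c + 1} :=
        (isClosed_le (hρ.comp continuous_ι) continuous_const).measurableSet
      rw [lintegral_indicator hmeas1]
      obtain ⟨B, hB⟩ := hCD.exists_bound_of_continuousOn hWD.continuousOn
      refine ((setLIntegral_mono' hmeas1 (g := fun _ => ENNReal.ofReal B)
        fun y hy => ?_).trans_lt ?_).ne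
      · apply ENNReal.ofReal_le_ofReal
        exact (le_abs_self _).trans (hB y hy)
      · rw [setLIntegral_const]
        exact ENNReal.mul_lt_top ENNReal.ofReal_lt_top hCD.measure_lt_top
    · refine Eventually.of_forall fun y => ?_
      beta_reduce
      by_cases hy : ρ (ι y) ≤ c
      · rw [indicator_of_mem (by exact hy)]
        have h1 : ∀ j : ℕ, ENNReal.ofReal (kap ρ c (j + 1) (ι y) * w (ι y) * Real.exp (Ψ (ι y))) =
            ENNReal.ofReal (v (ι y) * Real.exp (Ψ (ι y))) := by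
          intro j
          rw [hkone (j + 1) _ hy, one_mul, hwv _ hy]
        simp only [h1]
        exact tendsto_const_nhds
      · rw [indicator_of_notMem (by exact hy)]
        have hpos : 0 < ρ (ι y) - c := by linarith [not_le.1 hy]
        obtain ⟨N, hN⟩ := exists_nat_gt (1 / (ρ (ι y) - c))
        refine tendsto_const_nhds.congr' ?_
        filter_upwards [eventually_ge_atTop N] with j hj
        rw [hkzero (j + 1) (ι y) ?_]
        · simp
        · have h1 : (N : ℝ) ≤ j := by exact_mod_cast hj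
          have h2 : 1 / (ρ (ι y) - c) < ((j + 1 : ℕ) : ℝ) := by push_cast; linarith
          rw [div_lt_iff₀ hpos] at h2
          exact h2.le
  rw [lintegral_indicator hmeas] at hlim
  have hlim2 := ENNReal.Tendsto.const_mul (a := ENNReal.ofReal Real.pi) hlim
    (Or.inr ENNReal.ofReal_ne_top)
  obtain ⟨j, hj⟩ := (hlim2.eventually (gt_mem_nhds hK')).exists
  have h1 := tube_limit hμ hμD hΨ ((hkc (j + 1)).mul hwc) (hkcs (j + 1) (by omega)).mul_right
    (fun x => mul_nonneg (hk0 (j + 1) x) (hw0 x))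
  filter_upwards [h1.eventually (gt_mem_nhds hj), self_mem_nhdsWithin] with ε hε hpos
  have hpos : 0 < ε := hpos
  have h3 : ∫⁻ x in {x | ‖ell a (cp x)‖ ^ 2 ≤ ε ^ 2 * Real.exp (Ψ x)},
        ENNReal.ofReal (kap ρ c (j + 1) x * w x) ∂μ ≤ ENNReal.ofReal (ε ^ 2) * K' := by
    rw [mul_comm]
    exact (ENNReal.div_le_iff_le_mul (Or.inl (by simpa using hpos.ne'))
      (Or.inl ENNReal.ofReal_ne_top)).1 hε.le
  refine le_trans ?_ h3
  have hcp : Continuous (fun x : M => ‖ell a (cp x)‖ ^ 2) :=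
    ((continuous_ell a).comp cp_cont).norm.pow 2
  have hS : MeasurableSet {x : M | ‖ell a (cp x)‖ ^ 2 ≤ ε ^ 2 * Real.exp (Ψ x) ∧ ρ x ≤ c} :=
    (isClosed_le hcp (continuous_const.mul (Real.continuous_exp.comp hΨ))).measurableSet.inter
      hclo.measurableSet
  calc ∫⁻ x in {x | ‖ell a (cp x)‖ ^ 2 ≤ ε ^ 2 * Real.exp (Ψ x) ∧ ρ x ≤ c}, ENNReal.ofReal (v x) ∂μ
      = ∫⁻ x in {x | ‖ell a (cp x)‖ ^ 2 ≤ ε ^ 2 * Real.exp (Ψ x) ∧ ρ x ≤ c},
        ENNReal.ofReal (kap ρ c (j + 1) x * w x) ∂μ := by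
        refine setLIntegral_congr_fun hS fun x hx => ?_
        rw [hkone (j + 1) x hx.2, one_mul, hwv x hx.2]
    _ ≤ _ := lintegral_mono_set fun x hx => hx.1

/-- `TubeB` from the integral on the slice -/
theorem tubeB_slice (hμ : IsLeb μ) (hμD : IsLeb μD) {ρ : M → ℝ} (hρ : Continuous ρ)
    (hcpt : ∀ t : ℝ, IsCompact {x | ρ x ≤ t}) {Ψ Φ : M → ℝ} (hΨ : Continuous Ψ) (hΦ : Continuous Φ)
    {u : M → ℝ} {F1 : M → ℂ} (hF1 : Continuous F1) {K : ℝ≥0∞}
    (hK : ENNReal.ofReal Real.pi * ∫⁻ y : Hs M a,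
      ENNReal.ofReal (‖F1 (ι y)‖ ^ 2 * Real.exp (-Φ (ι y))) *
        ENNReal.ofReal (Real.exp (-u (ι y))) ∂μD ≤ K) :
    TubeB μ (fun x => ell a (cp x)) F1 Ψ Φ ρ u K := by
  intro c φ hφ hφu K' hK'
  refine tube_leOn hμ hμD hρ hcpt hΨ (v := fun x => ‖F1 x‖ ^ 2 * Real.exp (-(Φ x + Ψ x + φ x)))
    ?_ (fun x _ => by positivity) (lt_of_le_of_lt ?_ hK')
  · exact (hF1.norm.pow 2).continuousOn.mul (Real.continuous_exp.comp_continuousOn
      (((hΦ.continuousOn.add hΨ.continuousOn).add hφ).neg))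
  · refine le_trans (mul_le_mul_right ?_ _) hK
    have hmeas : MeasurableSet {y : Hs M a | ρ (ι y) ≤ c} :=
      (isClosed_le (hρ.comp continuous_ι) continuous_const).measurableSet
    refine (setLIntegral_mono' hmeas fun y hy => ?_).trans (setLIntegral_le_lintegral _ _)
    rw [← ENNReal.ofReal_mul (by positivity)]
    apply ENNReal.ofReal_le_ofReal
    have h1 : Real.exp (-(Φ (ι y) + Ψ (ι y) + φ (ι y))) * Real.exp (Ψ (ι y)) ≤
        Real.exp (-Φ (ι y)) * Real.exp (-u (ι y)) := by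
      rw [← Real.exp_add, ← Real.exp_add]
      apply Real.exp_le_exp.2
      have := hφu (ι y) hy
      linarith
    calc ‖F1 (ι y)‖ ^ 2 * Real.exp (-(Φ (ι y) + Ψ (ι y) + φ (ι y))) * Real.exp (Ψ (ι y))
        = ‖F1 (ι y)‖ ^ 2 * (Real.exp (-(Φ (ι y) + Ψ (ι y) + φ (ι y))) * Real.exp (Ψ (ι y))) := by ring
      _ ≤ ‖F1 (ι y)‖ ^ 2 * (Real.exp (-Φ (ι y)) * Real.exp (-u (ι y))) := by gcongr
      _ = _ := by ring

end Crest.Agent.R276.OTS_189
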