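import Crest.Agent.R276.Pa_748

/-!
# Row 276, W2 (helper748), part b: pointed Stein data over a disc, products, powers, the Bergman
inequality on products.
-/

set_option autoImplicit false
set_option linter.unusedSectionVars false

noncomputable section

open Set Filter Topology Complex MeasureTheory Metric
open scoped ENNReal

namespace Crest.Agent.R276.P_748

open Crest.Agent.R271 Crest.Agent.R271.Ho51 Crest.Agent.R271.W792 Crest.Agent.R276.PV_159

/-- A Stein Riemann domain over the disc `|l| < R` with a decreasing sequence of smooth psh weights,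
a linear section `p` and a function `s` holomorphic on the fibre over `0`. -/
structure PD (R : ℝ) where
  /-- the Riemann domain -/
  P : Type
  [top : TopologicalSpace P]
  [t2 : T2Space P]
  [sc : SecondCountableTopology P]
  /-- fibre dimension -/
  a : ℕ
  [rd : RDom (a + 1) P]
  /-- exhaustion -/
  ρ : P → ℝ
  ρ_sm : Sm ρ
  ρ_cpt : ∀ c : ℝ, IsCompact {x | ρ x ≤ c}
  ρ_lev : ∀ x w, nsq w ≤ lev ρ x w
  /-- weights -/
  φ : ℕ → P → ℝ
  φ_sm : ∀ k, Sm (φ k)
  φ_anti : ∀ x, Antitone fun k => φ k x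
  φ_lev : ∀ k x w, 0 ≤ lev (φ k) x w
  tR : ∀ x : P, ‖tc x‖ < R
  /-- section -/
  p : ball (0 : ℂ) R → P
  p_cont : Continuous p
  /-- centre of the section -/
  c : Fin (a + 1) → ℂ
  /-- direction of the section -/
  v : Fin (a + 1) → ℂ
  c0 : c 0 = 0
  v0 : v 0 = 1
  p_cp : ∀ l : ball (0 : ℂ) R, cp (p l) = c + (l : ℂ) • v
  /-- the function on the central fibre -/
  s : P → ℂ
  s_hol : FH1 0 s

attribute [instance] PD.top PD.t2 PD.sc PD.rd

variable {R : ℝ}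

/-- `e^{-φ}`, `φ = lim φ_k` -/
def PD.wt (D : PD R) (x : D.P) : ℝ≥0∞ := ⨆ k, ENNReal.ofReal (Real.exp (-D.φ k x))

/-- `|f|² e^{-φ}` -/
def PD.dens (D : PD R) (f : D.P → ℂ) (x : D.P) : ℝ≥0∞ := ‖f x‖ₑ ^ 2 * D.wt x

/-- squared norm on the fibre -/
def PD.nrm (D : PD R) (f : D.P → ℂ) (t : ℂ) : ℝ≥0∞ := fi (D.dens f) t

instance (D : PD R) : MeasurableSpace D.P := borel _
instance (D : PD R) : BorelSpace D.P := ⟨rfl⟩

lemma PD.tc_p (D : PD R) (l : ball (0 : ℂ) R) : tc (D.p l) = l := by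
  unfold tc
  rw [D.p_cp]
  simp [D.c0, D.v0]

lemma PD.wt_meas (D : PD R) : Measurable D.wt :=
  Measurable.iSup fun k => ((Real.continuous_exp.comp
    (D.φ_sm k).continuous.neg).measurable).ennreal_ofReal

lemma PD.dens_meas (D : PD R) {f : D.P → ℂ} (hf : Measurable f) : Measurable (D.dens f) :=
  (hf.enorm.pow_const 2).mul D.wt_meas

lemma PD.nrm_congr (D : PD R) {f g : D.P → ℂ} {l : ℂ} (h : ∀ y, tc y = l → f y = g y) :
    D.nrm f l = D.nrm g l := fi_congr fun y hy => by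
  unfold PD.dens
  rw [h y hy]

lemma PD.nrm_ind (D : PD R) (f : D.P → ℂ) (l : ℂ) :
    D.nrm ({y | tc y = l}.indicator f) l = D.nrm f l :=
  D.nrm_congr fun y hy => indicator_of_mem (by exact hy) f

/-! ### evaluation of holomorphic functions along the section -/

lemma PD.exists_eval (D : PD R) {F : D.P → ℂ} (hF : Ho51.Hol F) :
    ∃ h : ℂ → ℂ, DifferentiableOn ℂ h (ball 0 R) ∧ ∀ l : ball (0 : ℂ) R, h l = F (D.p l) := by
  classical
  refine ⟨fun l => if hl : l ∈ ball (0 : ℂ) R then F (D.p ⟨l, hl⟩) else 0, ?_, fun l => ?_⟩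
  · intro l0 hl0
    apply DifferentiableAt.differentiableWithinAt
    set y := D.p ⟨l0, hl0⟩ with hy
    have hcp : cp y = D.c + l0 • D.v := D.p_cp ⟨l0, hl0⟩
    have h1 : DifferentiableAt ℂ (F ∘ (ch y).symm) (D.c + l0 • D.v) := by
      rw [← hcp]
      exact (hF _ (isCh_ch y)).differentiableAt
        ((ch y).open_target.mem_nhds ((isCh_ch y).cp_mem (mem_ch y)))
    have h2 : DifferentiableAt ℂ (fun l : ℂ => D.c + l • D.v) l0 := by fun_prop
    have h3 : DifferentiableAt ℂ (fun l : ℂ => (F ∘ (ch y).symm) (D.c + l • D.v)) l0 :=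
      DifferentiableAt.comp (g := F ∘ (ch y).symm) l0 h1 h2
    refine h3.congr_of_eventuallyEq ?_
    have h4 : IsOpen (D.p ⁻¹' (ch y).source) := (ch y).open_source.preimage D.p_cont
    have h5 : IsOpen ((Subtype.val : ball (0 : ℂ) R → ℂ) '' (D.p ⁻¹' (ch y).source)) :=
      isOpen_ball.isOpenEmbedding_subtypeVal.isOpenMap _ h4
    have h6 : l0 ∈ (Subtype.val : ball (0 : ℂ) R → ℂ) '' (D.p ⁻¹' (ch y).source) :=
      ⟨⟨l0, hl0⟩, mem_ch y, rfl⟩
    filter_upwards [h5.mem_nhds h6]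
    rintro _ ⟨⟨l, hl⟩, hl2, rfl⟩
    have hl3 : l ∈ ball (0 : ℂ) R := hl
    simp only [Function.comp_apply]
    rw [dif_pos hl3, ← D.p_cp ⟨l, hl⟩, (isCh_ch y).symm_cp hl2]
  · exact dif_pos l.2

/-! ### product -/

/-- product over the disc -/
def PD.prod (D E : PD R) : PD R where
  P := FP D.P E.P
  a := D.a + E.a
  ρ := fun p => D.ρ p.fst + E.ρ p.snd
  ρ_sm := sm_fp D.ρ_sm E.ρ_sm
  ρ_cpt := fp_cpt D.ρ_sm.continuous E.ρ_sm.continuous D.ρ_cpt E.ρ_cpt
  ρ_lev := fun x w => by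
    rw [lev_fp D.ρ_sm E.ρ_sm]
    exact (nsq_L w).trans (add_le_add (D.ρ_lev _ _) (E.ρ_lev _ _))
  φ := fun k p => D.φ k p.fst + E.φ k p.snd
  φ_sm := fun k => sm_fp (D.φ_sm k) (E.φ_sm k)
  φ_anti := fun x k l h => add_le_add (D.φ_anti x.fst h) (E.φ_anti x.snd h)
  φ_lev := fun k x w => by
    rw [lev_fp (D.φ_sm k) (E.φ_sm k)]
    exact add_nonneg (D.φ_lev _ _ _) (E.φ_lev _ _ _)
  tR := fun x => by
    rw [← tc_fst x]; exact D.tR _
  p := fun l => FP.mk' (D.p l) (E.p l) ((D.tc_p l).trans (E.tc_p l).symm)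
  p_cont := Continuous.subtype_mk (D.p_cont.prodMk E.p_cont) _
  c := glue D.c E.c
  v := glue D.v E.v
  c0 := D.c0
  v0 := D.v0
  p_cp := fun l => by
    show glue (cp (D.p l)) (cp (E.p l)) = _
    rw [D.p_cp, E.p_cp]
    funext i
    refine Fin.cases ?_ (fun j => ?_) i
    · rfl
    · refine Fin.addCases (fun j => ?_) (fun j => ?_) j
      · simp [glue]
      · simp [glue]
  s := fun p => D.s p.fst * E.s p.snd
  s_hol := D.s_hol.fst.mul E.s_hol.snd

instance (D E : PD R) : MeasurableSpace (FP D.P E.P) := borel _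
instance (D E : PD R) : BorelSpace (FP D.P E.P) := ⟨rfl⟩

lemma iSup_mul {f g : ℕ → ℝ≥0∞} (hf : Monotone f) (hg : Monotone g) :
    (⨆ k, f k * g k) = (⨆ k, f k) * ⨆ k, g k := by
  apply le_antisymm
  · exact iSup_le fun k => mul_le_mul' (le_iSup f k) (le_iSup g k)
  · rw [ENNReal.iSup_mul]
    refine iSup_le fun i => ?_
    rw [ENNReal.mul_iSup]
    refine iSup_le fun j => ?_
    exact (mul_le_mul' (hf (le_max_left i j)) (hg (le_max_right i j))).trans
      (le_iSup (fun k => f k * g k) (max i j))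

lemma PD.wt_prod (D E : PD R) (x : D.P) (y : E.P)
    (h : (cp x : Fin (D.a + 1) → ℂ) 0 = (cp y : Fin (E.a + 1) → ℂ) 0) :
    (D.prod E).wt (FP.mk' x y h) = D.wt x * E.wt y := by
  unfold PD.wt
  rw [← iSup_mul]
  · refine iSup_congr fun k => ?_
    rw [← ENNReal.ofReal_mul (Real.exp_pos _).le, ← Real.exp_add]
    congr 2
    show -(D.φ k x + E.φ k y) = _
    ring
  · intro k l hkl
    apply ENNReal.ofReal_le_ofReal
    exact Real.exp_le_exp.2 (neg_le_neg (D.φ_anti x hkl))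
  · intro k l hkl
    apply ENNReal.ofReal_le_ofReal
    exact Real.exp_le_exp.2 (neg_le_neg (E.φ_anti y hkl))

/-- Fubini for the fibre norm of the product -/
lemma PD.nrm_prod (D E : PD R) {f : (D.prod E).P → ℂ} {l : ℂ} (hf : FH1 l f) :
    (D.prod E).nrm f l = fi (fun x => D.wt x * E.nrm (fun y => ext2 f x y) l) l := by
  set S : Set (D.prod E).P := {y | tc y = l} with hS
  let G : FP D.P E.P → ℝ≥0∞ := (D.prod E).dens (S.indicator f)
  have hm : Measurable G := (D.prod E).dens_meas hf.measurable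
  rw [← (D.prod E).nrm_ind f l]
  unfold PD.nrm
  rw [show fi ((D.prod E).dens (S.indicator f)) l =
    fi (fun x => fi (fun y => ext2 (M := D.P) (N := E.P) ((D.prod E).dens (S.indicator f)) x y) l) l
    from fi_FP (M := D.P) (N := E.P) hm l]
  refine fi_congr fun x hx => ?_
  have hx' : tc x = l := hx
  have h1 : Measurable (E.dens ({y | tc y = l}.indicator fun y => ext2 f x y)) :=
    E.dens_meas (hf.ext2_right hx').measurable
  have h2 : fi (E.dens (fun y => ext2 f x y)) l =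
      fi (E.dens ({y | tc y = l}.indicator fun y => ext2 f x y)) l :=
    (E.nrm_ind (fun y => ext2 f x y) l).symm
  show _ = D.wt x * fi (E.dens (fun y => ext2 f x y)) l
  rw [h2, ← fi_const_mul' h1]
  refine fi_congr fun y hy => ?_
  have hy' : tc y = l := hy
  have hc : (cp x : Fin (D.a + 1) → ℂ) 0 = (cp y : Fin (E.a + 1) → ℂ) 0 := hx'.trans hy'.symm
  have h3 : (FP.mk' x y hc : FP D.P E.P) ∈ S := hx'
  rw [ext2_of _ hc]
  have h4 : S.indicator f (FP.mk' x y hc : FP D.P E.P) = ext2 (M := D.P) (N := E.P) f x y := by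
    rw [ext2_of (M := D.P) (N := E.P) f hc]
    exact indicator_of_mem h3 f
  have h5 : (D.prod E).wt (FP.mk' x y hc : FP D.P E.P) = D.wt x * E.wt y := D.wt_prod E x y hc
  have h6 : ({y | tc y = l}.indicator (fun y => ext2 (M := D.P) (N := E.P) f x y)) y =
      ext2 (M := D.P) (N := E.P) f x y := indicator_of_mem (show y ∈ {y | tc y = l} from hy') _
  calc (D.prod E).dens (S.indicator f) (FP.mk' x y hc : FP D.P E.P)
      = ‖S.indicator f (FP.mk' x y hc : FP D.P E.P)‖ₑ ^ 2 *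
          (D.prod E).wt (FP.mk' x y hc : FP D.P E.P) := rfl
    _ = D.wt x * (‖ext2 (M := D.P) (N := E.P) f x y‖ₑ ^ 2 * E.wt y) := by rw [h4, h5]; ring
    _ = _ := by
      show _ = D.wt x * (‖({y | tc y = l}.indicator (fun y => ext2 (M := D.P) (N := E.P) f x y)) y‖ₑ
        ^ 2 * E.wt y)
      rw [h6]

/-- norm of the product function -/
lemma PD.nrm_s_prod (D E : PD R) : (D.prod E).nrm (D.prod E).s 0 = D.nrm D.s 0 * E.nrm E.s 0 := by
  rw [D.nrm_prod E (D.prod E).s_hol]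
  have h1 : ∀ x : D.P, tc x = 0 → D.wt x * E.nrm (fun y => ext2 (D.prod E).s x y) 0 =
      E.nrm E.s 0 * D.dens D.s x := by
    intro x hx
    have h2 : E.nrm (fun y => ext2 (D.prod E).s x y) 0 = ‖D.s x‖ₑ ^ 2 * E.nrm E.s 0 := by
      have h4 : E.nrm E.s 0 = fi (E.dens ({y | tc y = 0}.indicator E.s)) 0 :=
        (E.nrm_ind E.s 0).symm
      rw [h4, ← fi_const_mul' (E.dens_meas E.s_hol.measurable)]
      refine fi_congr fun y hy => ?_
      have hy' : tc y = 0 := hy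
      have hc : (cp x : Fin (D.a + 1) → ℂ) 0 = (cp y : Fin (E.a + 1) → ℂ) 0 := hx.trans hy'.symm
      have h6 : ext2 (M := D.P) (N := E.P) (D.prod E).s x y = D.s x * E.s y :=
        ext2_of (M := D.P) (N := E.P) (D.prod E).s hc
      show ‖ext2 (M := D.P) (N := E.P) (D.prod E).s x y‖ₑ ^ 2 * E.wt y =
        ‖D.s x‖ₑ ^ 2 * (‖({y | tc y = 0}.indicator E.s) y‖ₑ ^ 2 * E.wt y)
      rw [h6, indicator_of_mem (show y ∈ {y | tc y = 0} from hy'), enorm_mul]
      ring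
    rw [h2]
    unfold PD.dens
    ring
  rw [fi_congr (h := fun x => E.nrm E.s 0 * D.dens D.s x) (fun x hx => h1 x hx)]
  have h5 : fi (fun x => E.nrm E.s 0 * D.dens D.s x) 0 =
      fi (fun x => E.nrm E.s 0 * D.dens ({y | tc y = 0}.indicator D.s) x) 0 := by
    refine fi_congr fun y hy => ?_
    unfold PD.dens
    rw [indicator_of_mem (show y ∈ {y | tc y = 0} from hy)]
  rw [h5, fi_const_mul' (D.dens_meas D.s_hol.measurable)]
  rw [show fi (fun x => D.dens ({y | tc y = 0}.indicator D.s) x) 0 = D.nrm D.s 0 from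
    D.nrm_ind D.s 0, mul_comm]

/-- the Bergman inequality with constants `B l` along the section -/
def PD.BI (D : PD R) (B : ℂ → ℝ≥0∞) : Prop :=
  ∀ (l : ball (0 : ℂ) R) (f : D.P → ℂ), FH1 (l : ℂ) f → ‖f (D.p l)‖ₑ ^ 2 ≤ B l * D.nrm f l

lemma PD.BI.prod {D E : PD R} {B C : ℂ → ℝ≥0∞} (hD : D.BI B) (hE : E.BI C)
    (hC : ∀ l, C l ≠ ∞) : (D.prod E).BI (fun l => B l * C l) := by
  intro l f hf
  rw [D.nrm_prod E hf]
  have hpl := D.tc_p l
  have hql := E.tc_p l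
  have h1 := hD l (fun x => ext2 f x (E.p l)) (hf.ext2_left hql)
  have h2 : D.nrm (fun x => ext2 f x (E.p l)) l ≤
      fi (fun x => C l * (D.wt x * E.nrm (fun y => ext2 f x y) l)) l := by
    refine fi_mono fun x hx => ?_
    have hx' : tc x = l := hx
    unfold PD.dens
    have h3 := hE l (fun y => ext2 f x y) (hf.ext2_right hx')
    calc ‖ext2 f x (E.p l)‖ₑ ^ 2 * D.wt x ≤ (C l * E.nrm (fun y => ext2 f x y) l) * D.wt x := by
          gcongr
      _ = _ := by ring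
  rw [fi_const_mul (hC l)] at h2
  have h4 : f ((D.prod E).p l) = ext2 f (D.p l) (E.p l) :=
    (ext2_of f ((D.tc_p l).trans (E.tc_p l).symm)).symm
  rw [h4]
  calc ‖ext2 f (D.p l) (E.p l)‖ₑ ^ 2 ≤ B l * D.nrm (fun x => ext2 f x (E.p l)) l := h1
    _ ≤ B l * (C l * fi (fun x => D.wt x * E.nrm (fun y => ext2 f x y) l) l) := by gcongr
    _ = _ := by ring

/-- tensor powers (`pow D j` is the `j+1`-st power) -/
def PD.pow (D : PD R) : ℕ → PD R
  | 0 => D
  | j + 1 => D.prod (D.pow j)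

lemma PD.pow_nrm (D : PD R) (j : ℕ) : (D.pow j).nrm (D.pow j).s 0 = (D.nrm D.s 0) ^ (j + 1) := by
  induction j with
  | zero => simp [PD.pow]
  | succ j ih =>
    show (D.prod (D.pow j)).nrm (D.prod (D.pow j)).s 0 = _
    rw [D.nrm_s_prod, ih]
    ring

lemma PD.pow_s (D : PD R) (j : ℕ) (l : ball (0 : ℂ) R) :
    (D.pow j).s ((D.pow j).p l) = (D.s (D.p l)) ^ (j + 1) := by
  induction j with
  | zero => simp [PD.pow]
  | succ j ih =>
    show D.s (D.p l) * (D.pow j).s ((D.pow j).p l) = _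
    rw [ih]
    ring

lemma PD.pow_BI {D : PD R} {B : ℂ → ℝ≥0∞} (hD : D.BI B) (hB : ∀ l, B l ≠ ∞) (j : ℕ) :
    (D.pow j).BI (fun l => (B l) ^ (j + 1)) := by
  induction j with
  | zero => simpa [PD.pow] using hD
  | succ j ih =>
    have h := hD.prod ih (fun l => ENNReal.pow_ne_top (hB l))
    intro l f hf
    have h1 := h l f hf
    have h2 : B l ^ (j + 1 + 1) = B l * B l ^ (j + 1) := by ring
    show _ ≤ B l ^ (j + 1 + 1) * _
    rw [h2]
    exact h1

/-- **Ohsawa–Takegoshi** extension from the central fibre, with a constant which does not depend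
on the domain (input, helper34/189). -/
def OTS (R : ℝ) : Prop := ∃ C : ℝ≥0∞, C ≠ ∞ ∧ ∀ D : PD R, D.nrm D.s 0 ≠ ∞ →
  ∃ F : D.P → ℂ, Ho51.Hol F ∧ (∀ x, tc x = 0 → F x = D.s x) ∧
    ∫⁻ t, D.nrm F t ≤ C * D.nrm D.s 0

/-- **output of the tensor power trick** -/
theorem PD.tensor (hOT : OTS R) {D : PD R} {B : ℂ → ℝ≥0∞} (hB : ∀ l, B l ≠ ∞) (hD : D.BI B)
    (hR : 0 < R) (hN : D.nrm D.s 0 ≤ 1) : ∃ C : ℝ≥0∞, C ≠ ∞ ∧ ∀ j : ℕ,
      ∃ (h : ℂ → ℂ) (A : ℂ → ℝ≥0∞), DifferentiableOn ℂ h (ball 0 R) ∧ Measurable A ∧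
        ∫⁻ l, A l ≤ C ∧ h 0 = (D.s (D.p ⟨0, mem_ball_self hR⟩)) ^ (j + 1) ∧
        ∀ l ∈ ball (0 : ℂ) R, ‖h l‖ₑ ^ 2 ≤ (B l) ^ (j + 1) * A l := by
  obtain ⟨C, hC, hOT⟩ := hOT
  refine ⟨C, hC, fun j => ?_⟩
  have hNj : (D.pow j).nrm (D.pow j).s 0 ≤ 1 := by
    rw [D.pow_nrm]
    exact pow_le_one' hN _
  obtain ⟨F, hF, hF0, hFC⟩ := hOT (D.pow j) (hNj.trans_lt ENNReal.one_lt_top).ne
  obtain ⟨h, hh, hhF⟩ := (D.pow j).exists_eval hF
  refine ⟨h, (D.pow j).nrm F, hh, ?_, ?_, ?_, ?_⟩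
  · exact measurable_fi ((D.pow j).dens_meas
      ((T7a297.Hol.continuous hF).measurable))
  · refine hFC.trans ?_
    calc C * (D.pow j).nrm (D.pow j).s 0 ≤ C * 1 := by gcongr
      _ = C := mul_one C
  · have h1 := hhF ⟨0, mem_ball_self hR⟩
    have h2 : tc ((D.pow j).p ⟨0, mem_ball_self hR⟩) = 0 := (D.pow j).tc_p ⟨0, mem_ball_self hR⟩
    rw [hF0 _ h2, D.pow_s] at h1
    exact h1
  · intro l hl
    have h1 := hhF ⟨l, hl⟩
    rw [show h l = F ((D.pow j).p ⟨l, hl⟩) from h1]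
    exact PD.pow_BI hD hB j ⟨l, hl⟩ F (FH1.of_hol hF)

end Crest.Agent.R276.P_748
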