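import Crest.Agent.R276.OTB_189
import Crest.Agent.R276.OTG_189
import Crest.Agent.R276.Pb_748

/-!
# Row 276, W2 (helper748): discharge of the Ohsawa–Takegoshi input `OTS` of `Pb_748`
with helper189's `OTF_189.ot_dec`.
-/

set_option autoImplicit false
set_option linter.unusedSectionVars false
set_option maxHeartbeats 800000

noncomputable section

open Set Filter Topology MeasureTheory Metric
open scoped ENNReal

namespace Crest.Agent.R276.P_748

open Crest.Agent.R271 Crest.Agent.R271.Ho51 Crest.Agent.R273.Dir73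
  Crest.Agent.R276.EngU_29 Crest.Agent.R276.OTF_189 Crest.Agent.R276.PV_159
  Crest.Agent.R273.OTD_34 Crest.Agent.R273.Reg_844 Crest.Agent.R276.OTB_189
open Crest.Agent.R271.W792 (Levi_eq_lev lev lev_const)

theorem ots {R : ℝ} (hR : 0 < R) : OTS R := by
  refine ⟨ENNReal.ofReal (R ^ 2) * ENNReal.ofReal (Cot 1 * Real.pi),
    ENNReal.mul_ne_top ENNReal.ofReal_ne_top ENNReal.ofReal_ne_top, fun D _ => ?_⟩
  letI : MeasurableSpace (Hs D.P (hyp (n := D.a) 0)) := borel _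
  haveI : BorelSpace (Hs D.P (hyp (n := D.a) 0)) := ⟨rfl⟩
  obtain ⟨μ, hμ⟩ := exists_leb (M := D.P)
  obtain ⟨μD, hμD⟩ := exists_leb (M := Hs D.P (hyp (n := D.a) 0))
  have hfD : Hol (fun y : Hs D.P (hyp (n := D.a) 0) => D.s (ι y)) :=
    hol_of_FHol (fun e he => D.s_hol.diffOn he)
  have hR2 : (0 : ℝ) < R ^ 2 := by positivity
  have hcs : ∀ (x : D.P) (w : Fin (D.a + 1) → ℂ), Levi (fun _ : D.P => Real.log (R ^ 2)) x w = 0 := by
    intro x w
    rw [Levi_eq_lev (Sm.const _), lev_const]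
  obtain ⟨F, hF, hFf, hFb⟩ := ot_dec hμ hμD D.ρ_sm D.ρ_cpt
    (fun x w => by rw [Levi_eq_lev D.ρ_sm]; exact D.ρ_lev x w)
    (a := hyp (n := D.a) 0) (Ψ := fun _ => Real.log (R ^ 2)) (φ := D.φ) (Sm.const _) D.φ_sm D.φ_anti
    (fun x => by
      rw [Real.exp_log hR2, ell_hyp, sub_zero]
      have := (D.tR x).le
      have h0 := norm_nonneg (tc x)
      exact pow_le_pow_left₀ h0 this 2)
    one_pos le_rfl (fun x w => by rw [hcs]) (fun k x w => by
      rw [hcs, mul_zero, Levi_eq_lev (D.φ_sm k)]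
      exact D.φ_lev k x w) hfD
  have hen : ∀ c : ℂ, ‖c‖ₑ ^ 2 = ENNReal.ofReal (‖c‖ ^ 2) := fun c => by
    rw [← ofReal_norm, ENNReal.ofReal_pow (norm_nonneg _)]
  refine ⟨F, hF, fun x hx => ?_, ?_⟩
  · have h1 : ell (hyp 0) (cp x) = 0 := by rw [ell_hyp]; exact sub_eq_zero.2 hx
    exact hFf (mkHs x h1)
  · have hFc : Continuous F := T7a297.Hol.continuous hF
    have hfc : Continuous (fun y : Hs D.P (hyp (n := D.a) 0) => D.s (ι y)) := T7a297.Hol.continuous hfD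
    have h1 : ∫⁻ t, D.nrm F t = ∫⁻ x, D.dens F x ∂μ :=
      (lintegral_eq_fi hμ (D.dens_meas hFc.measurable)).symm
    have h2 : D.nrm D.s 0 = ∫⁻ y : Hs D.P (hyp (n := D.a) 0), D.dens D.s (ι y) ∂μD := by
      refine (lintegral_Hs_eq_fi hμD (g := D.dens D.s) ?_).symm
      exact (hfc.measurable.enorm.pow_const 2).mul (D.wt_meas.comp continuous_ι.measurable)
    have h3 : ∫⁻ x, ENNReal.ofReal (‖F x‖ ^ 2) * ENNReal.ofReal (Real.exp (-Real.log (R ^ 2))) *
        (⨆ k, ENNReal.ofReal (Real.exp (-D.φ k x))) ∂μ =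
        ENNReal.ofReal ((R ^ 2)⁻¹) * ∫⁻ x, D.dens F x ∂μ := by
      rw [← lintegral_const_mul _ (D.dens_meas hFc.measurable)]
      refine lintegral_congr fun x => ?_
      rw [Real.exp_neg, Real.exp_log hR2]
      unfold PD.dens PD.wt
      rw [hen]
      ring
    rw [h3] at hFb
    have h4 : ∫⁻ y : Hs D.P (hyp (n := D.a) 0), ENNReal.ofReal (‖D.s (ι y)‖ ^ 2) *
        (⨆ k, ENNReal.ofReal (Real.exp (-D.φ k (ι y)))) ∂μD =
        ∫⁻ y : Hs D.P (hyp (n := D.a) 0), D.dens D.s (ι y) ∂μD := by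
      refine lintegral_congr fun y => ?_
      unfold PD.dens PD.wt
      rw [hen]
    rw [h4, ← h2, ← h1] at hFb
    calc ∫⁻ t, D.nrm F t = ENNReal.ofReal (R ^ 2) *
          (ENNReal.ofReal ((R ^ 2)⁻¹) * ∫⁻ t, D.nrm F t) := by
          rw [← mul_assoc, ← ENNReal.ofReal_mul hR2.le, mul_inv_cancel₀ hR2.ne', ENNReal.ofReal_one,
            one_mul]
      _ ≤ ENNReal.ofReal (R ^ 2) * (ENNReal.ofReal (Cot 1 * Real.pi) * D.nrm D.s 0) := by
          gcongr
      _ = _ := by rw [mul_assoc]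

end Crest.Agent.R276.P_748
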