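import Mathlib

/-!
# R276, leaf OPEN (helper317), abstract part

A family of Hilbert norms on a finite dimensional space which decreases to `0` and whose dual norms are
log-convex decays exponentially.  (This is the core of the strong openness property; the log-convexity is the
plurisubharmonic variation of Bergman kernels for a product family.)
-/

set_option autoImplicit false

open Set Filter Topology MeasureTheory
open scoped ComplexConjugate ENNReal

noncomputable section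

namespace Crest.Agent.R276.OpenA_317

/-! ### Hermitian squares and dual constants -/

section herm

variable {E : Type*} [AddCommGroup E] [Module ℂ E]

/-- `N` is the square of a Hilbert seminorm -/
def HSq (N : E → ℝ) : Prop :=
  ∃ c : PreInnerProductSpace.Core ℂ E, ∀ x, N x = (c.inner x x).re

/-- pull back of the norm of an inner product space -/
lemma hSq_of_map {F : Type*} [SeminormedAddCommGroup F] [InnerProductSpace ℂ F] (j : E →ₗ[ℂ] F)
    {N : E → ℝ} (h : ∀ x, N x = ‖j x‖ ^ 2) : HSq N := by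
  refine ⟨{ inner := fun x y => inner ℂ (j x) (j y)
            conj_inner_symm := fun x y => inner_conj_symm _ _
            re_inner_nonneg := fun x => inner_self_nonneg (𝕜 := ℂ)
            add_left := fun x y z => by simp only [map_add, inner_add_left]
            smul_left := fun x y r => by simp only [map_smul, inner_smul_left] }, fun x => ?_⟩
  rw [h x]
  exact (inner_self_eq_norm_sq (𝕜 := ℂ) (j x)).symm

variable {N N' : E → ℝ}

lemma HSq.nonneg (h : HSq N) (x : E) : 0 ≤ N x := by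
  obtain ⟨c, hc⟩ := h
  rw [hc]
  exact c.re_inner_nonneg x

/-- norming functional -/
lemma HSq.norming (h : HSq N) (g : E) (hg : 0 < N g) :
    ∃ ξ : E →ₗ[ℂ] ℂ, (∀ x, ‖ξ x‖ ^ 2 ≤ N x) ∧ ‖ξ g‖ ^ 2 = N g := by
  obtain ⟨c, hc⟩ := h
  let _ := c
  have hcs : ∀ x y : E, ‖c.inner x y‖ ^ 2 ≤ N x * N y := by
    intro x y
    have h1 := InnerProductSpace.Core.inner_mul_inner_self_le (𝕜 := ℂ) (F := E) x y
    have h2 : ‖c.inner y x‖ = ‖c.inner x y‖ := by
      rw [← c.conj_inner_symm y x]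
      exact RCLike.norm_conj _
    rw [hc x, hc y]
    have h3 : ‖c.inner x y‖ * ‖c.inner y x‖ ≤ (c.inner x x).re * (c.inner y y).re := h1
    rw [h2] at h3
    nlinarith [h3]
  have hrs : ∀ x y z : E, c.inner x (y + z) = c.inner x y + c.inner x z := by
    intro x y z
    rw [← c.conj_inner_symm x (y + z), c.add_left, map_add, c.conj_inner_symm, c.conj_inner_symm]
  have hrm : ∀ (x : E) (r : ℂ) (y : E), c.inner x (r • y) = r * c.inner x y := by
    intro x r y
    rw [← c.conj_inner_symm x (r • y), c.smul_left, map_mul, c.conj_inner_symm, Complex.conj_conj]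
  have hself : c.inner g g = (N g : ℂ) := by
    have h1 : conj (c.inner g g) = c.inner g g := c.conj_inner_symm g g
    rw [hc g]
    exact ((Complex.conj_eq_iff_re).1 h1).symm
  refine ⟨((Real.sqrt (N g) : ℂ))⁻¹ •
    { toFun := fun y => c.inner g y
      map_add' := fun y z => hrs g y z
      map_smul' := fun r y => hrm g r y }, fun x => ?_, ?_⟩
  · have h1 : ‖c.inner g x‖ ^ 2 ≤ N g * N x := hcs g x
    have h2 : ‖((Real.sqrt (N g) : ℂ))⁻¹ * c.inner g x‖ ^ 2 = (N g)⁻¹ * ‖c.inner g x‖ ^ 2 := by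
      rw [norm_mul, mul_pow, norm_inv, Complex.norm_real, Real.norm_of_nonneg (Real.sqrt_nonneg _),
        inv_pow, Real.sq_sqrt hg.le]
    show ‖((Real.sqrt (N g) : ℂ))⁻¹ * c.inner g x‖ ^ 2 ≤ N x
    rw [h2, inv_mul_le_iff₀ hg]
    exact h1
  · have h2 : ‖((Real.sqrt (N g) : ℂ))⁻¹ * c.inner g g‖ ^ 2 = (N g)⁻¹ * ‖c.inner g g‖ ^ 2 := by
      rw [norm_mul, mul_pow, norm_inv, Complex.norm_real, Real.norm_of_nonneg (Real.sqrt_nonneg _),
        inv_pow, Real.sq_sqrt hg.le]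
    show ‖((Real.sqrt (N g) : ℂ))⁻¹ * c.inner g g‖ ^ 2 = N g
    rw [h2, hself, Complex.norm_real, Real.norm_of_nonneg hg.le]
    field_simp

/-- the functions `c ↦ N (∑ c_i e_i)` are continuous -/
lemma HSq.continuous (h : HSq N) {n : ℕ} (e : Fin n → E) :
    Continuous fun c : Fin n → ℂ => N (∑ i, c i • e i) := by
  obtain ⟨k, hk⟩ := h
  have hrs : ∀ x y z : E, k.inner x (y + z) = k.inner x y + k.inner x z := by
    intro x y z
    rw [← k.conj_inner_symm x (y + z), k.add_left, map_add, k.conj_inner_symm, k.conj_inner_symm]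
  have hrm : ∀ (x : E) (r : ℂ) (y : E), k.inner x (r • y) = r * k.inner x y := by
    intro x r y
    rw [← k.conj_inner_symm x (r • y), k.smul_left, map_mul, k.conj_inner_symm, Complex.conj_conj]
  have hr0 : ∀ x : E, k.inner x 0 = 0 := fun x => by
    have := hrm x 0 0
    simpa using this
  have hl0 : ∀ x : E, k.inner 0 x = 0 := fun x => by
    have := k.smul_left 0 x 0
    simpa using this
  have hsumr : ∀ (x : E) (s : Finset (Fin n)) (f : Fin n → E),
      k.inner x (∑ i ∈ s, f i) = ∑ i ∈ s, k.inner x (f i) := by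
    intro x s f
    induction s using Finset.induction_on with
    | empty => simp [hr0]
    | insert a s ha ih => rw [Finset.sum_insert ha, Finset.sum_insert ha, hrs, ih]
  have hsuml : ∀ (x : E) (s : Finset (Fin n)) (f : Fin n → E),
      k.inner (∑ i ∈ s, f i) x = ∑ i ∈ s, k.inner (f i) x := by
    intro x s f
    induction s using Finset.induction_on with
    | empty => simp [hl0]
    | insert a s ha ih => rw [Finset.sum_insert ha, Finset.sum_insert ha, k.add_left, ih]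
  have hEq : (fun c : Fin n → ℂ => N (∑ i, c i • e i)) =
      fun c => (∑ i, ∑ j, conj (c i) * (c j * k.inner (e i) (e j))).re := by
    funext c
    rw [hk, hsuml]
    congr 1
    refine Finset.sum_congr rfl fun i _ => ?_
    rw [k.smul_left, hsumr, Finset.mul_sum]
    refine Finset.sum_congr rfl fun j _ => ?_
    rw [hrm]
  rw [hEq]
  fun_prop

/-- least constant `c` with `|ξ g|² ≤ c N g` -/
def dual (N : E → ℝ) (ξ : E →ₗ[ℂ] ℂ) : ℝ := sInf {c : ℝ | 0 ≤ c ∧ ∀ g, ‖ξ g‖ ^ 2 ≤ c * N g}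

lemma bdd (N : E → ℝ) (ξ : E →ₗ[ℂ] ℂ) : BddBelow {c : ℝ | 0 ≤ c ∧ ∀ g, ‖ξ g‖ ^ 2 ≤ c * N g} :=
  ⟨0, fun _ h => h.1⟩

lemma dual_le {N : E → ℝ} {ξ : E →ₗ[ℂ] ℂ} {c : ℝ} (hc : 0 ≤ c) (h : ∀ g, ‖ξ g‖ ^ 2 ≤ c * N g) :
    dual N ξ ≤ c := csInf_le (bdd N ξ) ⟨hc, h⟩

lemma dual_nonneg (N : E → ℝ) (ξ : E →ₗ[ℂ] ℂ) : 0 ≤ dual N ξ := Real.sInf_nonneg fun _ h => h.1

end herm

section fin

variable {E : Type*} [AddCommGroup E] [Module ℂ E] [FiniteDimensional ℂ E] {N N' : E → ℝ}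

/-- comparison with the coordinates in a basis -/
lemma exists_min (h : HSq N) (hd : ∀ g, g ≠ 0 → 0 < N g) :
    ∃ m : ℝ, 0 < m ∧ ∀ c : Fin (Module.finrank ℂ E) → ℂ, ‖c‖ = 1 →
      m ≤ N (∑ i, c i • Module.finBasis ℂ E i) := by
  have hcont := h.continuous (Module.finBasis ℂ E)
  have hK : IsCompact (Metric.sphere (0 : Fin (Module.finrank ℂ E) → ℂ) 1) := isCompact_sphere _ _
  rcases (Metric.sphere (0 : Fin (Module.finrank ℂ E) → ℂ) 1).eq_empty_or_nonempty with he | hne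
  · refine ⟨1, one_pos, fun c hc => ?_⟩
    have : c ∈ Metric.sphere (0 : Fin (Module.finrank ℂ E) → ℂ) 1 := by simpa using hc
    rw [he] at this
    exact absurd this (Set.notMem_empty _)
  · obtain ⟨c0, hc0, hmin⟩ := hK.exists_isMinOn hne hcont.continuousOn
    refine ⟨_, hd (∑ i, c0 i • Module.finBasis ℂ E i) ?_, fun c hc => hmin (by simpa using hc)⟩
    intro h0
    have h1 : ∀ i, c0 i = 0 := by
      have := (Module.finBasis ℂ E).linearIndependent
      rw [Fintype.linearIndependent_iff] at this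
      exact this c0 h0
    have h2 : c0 = 0 := funext h1
    rw [h2] at hc0
    simp at hc0

omit [FiniteDimensional ℂ E] in
lemma smul_sq (h : HSq N) (r : ℂ) (g : E) : N (r • g) = ‖r‖ ^ 2 * N g := by
  obtain ⟨k, hk⟩ := h
  have hrm : ∀ (x : E) (r : ℂ) (y : E), k.inner x (r • y) = r * k.inner x y := by
    intro x r y
    rw [← k.conj_inner_symm x (r • y), k.smul_left, map_mul, k.conj_inner_symm, Complex.conj_conj]
  rw [hk, hk, k.smul_left, hrm, ← mul_assoc, mul_comm (conj r) r, Complex.mul_conj,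
    Complex.re_ofReal_mul, Complex.normSq_eq_norm_sq]

/-- every vector is a multiple of a combination with coordinates of norm one -/
lemma exists_coord (g : E) (hg : g ≠ 0) : ∃ (c : Fin (Module.finrank ℂ E) → ℂ) (r : ℂ), ‖c‖ = 1 ∧
    r ≠ 0 ∧ g = r • ∑ i, c i • Module.finBasis ℂ E i := by
  set b := Module.finBasis ℂ E
  have hne : (fun i => b.repr g i) ≠ 0 := by
    intro h0
    apply hg
    apply b.repr.map_eq_zero_iff.1
    ext i
    exact congrFun h0 i
  set c0 : Fin (Module.finrank ℂ E) → ℂ := fun i => b.repr g i with hc0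
  have hn : ‖c0‖ ≠ 0 := norm_ne_zero_iff.2 hne
  refine ⟨((‖c0‖ : ℂ))⁻¹ • c0, (‖c0‖ : ℂ), ?_, by exact_mod_cast hn, ?_⟩
  · rw [norm_smul, norm_inv, Complex.norm_real, Real.norm_of_nonneg (norm_nonneg _),
      inv_mul_cancel₀ hn]
  · have h1 : ∀ i, ((((‖c0‖ : ℂ))⁻¹ • c0) i) • b i = ((‖c0‖ : ℂ))⁻¹ • (c0 i • b i) := by
      intro i
      rw [Pi.smul_apply, smul_eq_mul, mul_smul]
    simp_rw [h1, ← Finset.smul_sum]
    rw [smul_smul, mul_inv_cancel₀ (by exact_mod_cast hn), one_smul]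
    exact (b.sum_repr g).symm

lemma dual_set_nonempty (h : HSq N) (hd : ∀ g, g ≠ 0 → 0 < N g) (ξ : E →ₗ[ℂ] ℂ) :
    {c : ℝ | 0 ≤ c ∧ ∀ g, ‖ξ g‖ ^ 2 ≤ c * N g}.Nonempty := by
  obtain ⟨m, hm, hmin⟩ := exists_min h hd
  set S := ∑ i, ‖ξ (Module.finBasis ℂ E i)‖ with hS
  have hS0 : 0 ≤ S := Finset.sum_nonneg fun i _ => norm_nonneg _
  refine ⟨S ^ 2 / m, by positivity, fun g => ?_⟩
  rcases eq_or_ne g 0 with rfl | hg
  · simp only [map_zero, norm_zero, ne_eq, OfNat.ofNat_ne_zero, not_false_eq_true, zero_pow]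
    have := h.nonneg (0 : E)
    positivity
  · obtain ⟨c, r, hc, hr, hgr⟩ := exists_coord g hg
    set g' := ∑ i, c i • Module.finBasis ℂ E i with hg'
    have h1 : ‖ξ g'‖ ≤ S := by
      rw [hg', map_sum]
      refine (norm_sum_le _ _).trans ?_
      refine Finset.sum_le_sum fun i _ => ?_
      rw [map_smul, norm_smul]
      have : ‖c i‖ ≤ 1 := hc ▸ norm_le_pi_norm c i
      nlinarith [norm_nonneg (ξ (Module.finBasis ℂ E i))]
    have h2 : m ≤ N g' := hmin c hc
    rw [hgr, map_smul, norm_smul, smul_sq h, mul_pow]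
    have h3 : ‖ξ g'‖ ^ 2 ≤ S ^ 2 := by
      have := norm_nonneg (ξ g')
      nlinarith
    have h4 : S ^ 2 ≤ S ^ 2 / m * N g' := by
      rw [div_mul_eq_mul_div, le_div_iff₀ hm]
      have : 0 ≤ S ^ 2 := sq_nonneg _
      nlinarith
    calc ‖r‖ ^ 2 * ‖ξ g'‖ ^ 2 ≤ ‖r‖ ^ 2 * (S ^ 2 / m * N g') := by
          refine mul_le_mul_of_nonneg_left (h3.trans h4) (sq_nonneg _)
      _ = S ^ 2 / m * (‖r‖ ^ 2 * N g') := by ring

lemma le_dual (h : HSq N) (hd : ∀ g, g ≠ 0 → 0 < N g) (ξ : E →ₗ[ℂ] ℂ) (g : E) :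
    ‖ξ g‖ ^ 2 ≤ dual N ξ * N g := by
  rcases eq_or_ne g 0 with rfl | hg
  · simp only [map_zero, norm_zero, ne_eq, OfNat.ofNat_ne_zero, not_false_eq_true, zero_pow]
    have h1 := h.nonneg (0 : E)
    have h2 := dual_nonneg N ξ
    positivity
  · have hpos := hd g hg
    rw [← div_le_iff₀ hpos]
    refine le_csInf (dual_set_nonempty h hd ξ) fun c hc => ?_
    rw [div_le_iff₀ hpos]
    exact hc.2 g

lemma dual_pos (h : HSq N) (hd : ∀ g, g ≠ 0 → 0 < N g) {ξ : E →ₗ[ℂ] ℂ} (hξ : ξ ≠ 0) :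
    0 < dual N ξ := by
  obtain ⟨g, hg⟩ : ∃ g, ξ g ≠ 0 := by
    by_contra hcon
    push Not at hcon
    exact hξ (LinearMap.ext fun g => by simpa using hcon g)
  have h1 := le_dual h hd ξ g
  have h2 : 0 < ‖ξ g‖ ^ 2 := by positivity
  rcases (dual_nonneg N ξ).lt_or_eq with h3 | h3
  · exact h3
  · rw [← h3, zero_mul] at h1
    linarith

/-- a smaller norm has a larger dual norm -/
lemma dual_ge_of_le (h' : HSq N')
    (hd' : ∀ g, g ≠ 0 → 0 < N' g) {r : ℝ} (hr : 0 < r) (hle : ∀ g, N' g ≤ r * N g)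
    (ξ : E →ₗ[ℂ] ℂ) : dual N ξ ≤ r * dual N' ξ := by
  refine dual_le (by have := dual_nonneg N' ξ; positivity) fun g => ?_
  calc ‖ξ g‖ ^ 2 ≤ dual N' ξ * N' g := le_dual h' hd' ξ g
    _ ≤ dual N' ξ * (r * N g) := mul_le_mul_of_nonneg_left (hle g) (dual_nonneg _ _)
    _ = r * dual N' ξ * N g := by ring

/-- conversely -/
lemma le_of_dual_ge (h : HSq N) (hd : ∀ g, g ≠ 0 → 0 < N g) (h' : HSq N')
    (hd' : ∀ g, g ≠ 0 → 0 < N' g) {r : ℝ} (hr : 0 < r)
    (hle : ∀ ξ : E →ₗ[ℂ] ℂ, ξ ≠ 0 → dual N ξ ≤ r * dual N' ξ) (g : E) : N' g ≤ r * N g := by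
  rcases eq_or_ne g 0 with rfl | hg
  · have h1 := smul_sq h 0 (0 : E)
    have h2 := smul_sq h' 0 (0 : E)
    simp only [smul_zero, norm_zero, ne_eq, OfNat.ofNat_ne_zero, not_false_eq_true, zero_pow,
      zero_mul] at h1 h2
    rw [h1, h2, mul_zero]
  · obtain ⟨ξ, hξ1, hξ2⟩ := h'.norming g (hd' g hg)
    have hξ : ξ ≠ 0 := by
      rintro rfl
      simp only [LinearMap.zero_apply, norm_zero, ne_eq, OfNat.ofNat_ne_zero, not_false_eq_true,
        zero_pow] at hξ2
      exact absurd hξ2.symm (hd' g hg).ne'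
    have h1 : dual N' ξ ≤ 1 := dual_le zero_le_one fun x => by simpa using hξ1 x
    have h2 := le_dual h hd ξ g
    have h3 := hle ξ hξ
    have h4 : 0 ≤ N g := h.nonneg g
    calc N' g = ‖ξ g‖ ^ 2 := hξ2.symm
      _ ≤ dual N ξ * N g := h2
      _ ≤ (r * dual N' ξ) * N g := mul_le_mul_of_nonneg_right h3 h4
      _ ≤ (r * 1) * N g := mul_le_mul_of_nonneg_right (mul_le_mul_of_nonneg_left h1 hr.le) h4
      _ = r * N g := by ring

end fin

/-! ### the contraction -/

section main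

variable {E : Type*} [AddCommGroup E] [Module ℂ E] [FiniteDimensional ℂ E] (N : ℝ → E → ℝ)

/-- Dini: a decreasing family which tends to zero is eventually at most half of `N 0` -/
lemma exists_half (hH : ∀ t, HSq (N t)) (hd : ∀ t g, g ≠ 0 → 0 < N t g)
    (hanti : ∀ g, Antitone fun t => N t g) (hlim : ∀ g, Tendsto (fun t => N t g) atTop (𝓝 0)) :
    ∃ T : ℝ, 0 < T ∧ ∀ g, N T g ≤ 1 / 2 * N 0 g := by
  obtain ⟨m, hm, hmin⟩ := exists_min (hH 0) (hd 0)
  set b := Module.finBasis ℂ E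
  have hK : IsCompact (Metric.sphere (0 : Fin (Module.finrank ℂ E) → ℂ) 1) := isCompact_sphere _ _
  have hloc : ∀ c : Fin (Module.finrank ℂ E) → ℂ, ∃ t : ℝ,
      ∀ᶠ c' in 𝓝 c, N t (∑ i, c' i • b i) < m / 2 := by
    intro c
    obtain ⟨t, ht⟩ := ((hlim (∑ i, c i • b i)).eventually (gt_mem_nhds (half_pos hm))).exists
    exact ⟨t, ((hH t).continuous b).continuousAt.eventually (gt_mem_nhds ht)⟩
  choose t ht using hloc
  obtain ⟨s, hs, hcov⟩ := hK.elim_nhds_subcover (fun c => {c' | N (t c) (∑ i, c' i • b i) < m / 2})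
    (fun c _ => ht c)
  obtain ⟨T, hT⟩ : ∃ T : ℝ, 0 < T ∧ ∀ c ∈ s, t c ≤ T := by
    obtain ⟨T, hT⟩ := (s.image t).bddAbove
    refine ⟨max T 1, by positivity, fun c hc => le_max_of_le_left (hT ?_)⟩
    exact Finset.mem_coe.2 (Finset.mem_image_of_mem t hc)
  refine ⟨T, hT.1, fun g => ?_⟩
  rcases eq_or_ne g 0 with rfl | hg
  · have h1 := smul_sq (hH T) 0 (0 : E)
    have h2 := smul_sq (hH 0) 0 (0 : E)
    simp only [smul_zero, norm_zero, ne_eq, OfNat.ofNat_ne_zero, not_false_eq_true, zero_pow,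
      zero_mul] at h1 h2
    rw [h1, h2, mul_zero]
  · obtain ⟨c, r, hc, hr, hgr⟩ := exists_coord g hg
    have hmem : c ∈ Metric.sphere (0 : Fin (Module.finrank ℂ E) → ℂ) 1 := by simpa using hc
    obtain ⟨c', hc', hcc⟩ := Set.mem_iUnion₂.1 (hcov hmem)
    have h1 : N T (∑ i, c i • b i) < m / 2 := lt_of_le_of_lt (hanti _ (hT.2 c' hc')) hcc
    have h2 : m ≤ N 0 (∑ i, c i • b i) := hmin c hc
    rw [hgr, smul_sq (hH T), smul_sq (hH 0)]
    have h3 : N T (∑ i, c i • b i) ≤ 1 / 2 * N 0 (∑ i, c i • b i) := by linarith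
    calc ‖r‖ ^ 2 * N T (∑ i, c i • b i) ≤ ‖r‖ ^ 2 * (1 / 2 * N 0 (∑ i, c i • b i)) :=
          mul_le_mul_of_nonneg_left h3 (sq_nonneg _)
      _ = 1 / 2 * (‖r‖ ^ 2 * N 0 (∑ i, c i • b i)) := by ring

/-- **exponential decay** -/
theorem exp_decay (hH : ∀ t, HSq (N t)) (hd : ∀ t g, g ≠ 0 → 0 < N t g)
    (hanti : ∀ g, Antitone fun t => N t g) (hlim : ∀ g, Tendsto (fun t => N t g) atTop (𝓝 0))
    (hconv : ∀ ξ : E →ₗ[ℂ] ℂ, ξ ≠ 0 →
      ConvexOn ℝ (Ici (0 : ℝ)) fun t => Real.log (dual (N t) ξ)) :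
    ∃ T : ℝ, 0 < T ∧ ∀ (n : ℕ) (g : E), N (n * T) g ≤ (1 / 2) ^ n * N 0 g := by
  obtain ⟨T, hT0, hT⟩ := exists_half N hH hd hanti hlim
  refine ⟨T, hT0, fun n => ?_⟩
  rcases Nat.eq_zero_or_pos n with rfl | hn
  · intro g
    simp
  refine le_of_dual_ge (hH 0) (hd 0) (hH _) (hd _) (by positivity) fun ξ hξ => ?_
  have hpos : ∀ t, 0 < dual (N t) ξ := fun t => dual_pos (hH t) (hd t) hξ
  have h1 : dual (N 0) ξ ≤ 1 / 2 * dual (N T) ξ :=
    dual_ge_of_le (hH T) (hd T) (by norm_num) hT ξ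
  set a : ℝ → ℝ := fun t => Real.log (dual (N t) ξ) with ha
  have h2 : a 0 + Real.log 2 ≤ a T := by
    rw [ha, ← Real.log_mul (hpos 0).ne' (by norm_num)]
    exact Real.log_le_log (by have := hpos 0; positivity) (by linarith)
  have hn' : (0 : ℝ) < n := by exact_mod_cast hn
  have hn1 : (1 : ℝ) ≤ n := by exact_mod_cast hn
  have h3 : a T ≤ (1 - 1 / n) * a 0 + 1 / n * a (n * T) := by
    have hm0 : (0 : ℝ) ∈ Ici (0 : ℝ) := by simp
    have hm1 : (n : ℝ) * T ∈ Ici (0 : ℝ) := by simp only [mem_Ici]; positivity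
    have hw0 : 0 ≤ 1 - 1 / (n : ℝ) := by rw [sub_nonneg, div_le_one hn']; exact hn1
    have hw1 : 0 ≤ 1 / (n : ℝ) := by positivity
    have := (hconv ξ hξ).2 hm0 hm1 hw0 hw1 (by ring)
    simp only [smul_eq_mul, mul_zero, zero_add] at this
    have he : 1 / (n : ℝ) * (n * T) = T := by field_simp
    rw [he] at this
    exact this
  have h4 : a 0 + n * Real.log 2 ≤ a (n * T) := by
    have h5 : n * a T ≤ (n - 1) * a 0 + a (n * T) := by
      have := mul_le_mul_of_nonneg_left h3 hn'.le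
      have he : (n : ℝ) * ((1 - 1 / n) * a 0 + 1 / n * a (n * T)) = (n - 1) * a 0 + a (n * T) := by
        field_simp
      rw [he] at this
      exact this
    nlinarith
  have h6 : Real.log (2 ^ n * dual (N 0) ξ) ≤ Real.log (dual (N (n * T)) ξ) := by
    rw [Real.log_mul (by positivity) (hpos 0).ne', Real.log_pow]
    simp only [ha] at h4
    linarith
  have h7 : 2 ^ n * dual (N 0) ξ ≤ dual (N (n * T)) ξ :=
    (Real.log_le_log_iff (by have := hpos 0; positivity) (hpos _)).1 h6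
  rw [one_div, inv_pow, ← div_eq_inv_mul, le_div_iff₀ (by positivity)]
  linarith

end main

end Crest.Agent.R276.OpenA_317
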