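import Crest.Agent.R276.OpenA_317

/-!
# R276, leaf OPEN (helper317), part B

* `convexOn_of_submean` : a continuous function of `Re τ` with the sub-mean value property on small discs
  is convex;
* `layer` : exponential decay of the mass of `{‖G‖ < e^{-nT}}` gives integrability of `‖G‖^{-κ}`;
* `hSq_lintegral` : weighted `L²` norms are Hilbert norms;
* `open_main` : strong openness, measure form.
-/

set_option autoImplicit false

open Set Filter Topology MeasureTheory Metric
open scoped ComplexConjugate ENNReal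

noncomputable section

namespace Crest.Agent.R276.OpenB_317

open Crest.Agent.R276.OpenA_317

/-! ### sub-mean value property and convexity -/

lemma setIntegral_symm (c : ℂ) (R : ℝ) (f : ℂ → ℝ) :
    ∫ z in ball c R, f (2 * c - z) = ∫ z in ball c R, f z := by
  have h1 : MeasurePreserving (fun z : ℂ => 2 * c - z) volume volume :=
    Measure.measurePreserving_sub_left volume (2 * c)
  have h2 : MeasurableEmbedding (fun z : ℂ => 2 * c - z) :=
    (MeasurableEquiv.subLeft (2 * c)).measurableEmbedding
  have h3 := h1.setIntegral_preimage_emb h2 f (ball c R)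
  have h4 : (fun z : ℂ => 2 * c - z) ⁻¹' ball c R = ball c R := by
    ext z
    simp only [mem_preimage, mem_ball, dist_eq_norm]
    rw [show 2 * c - z - c = -(z - c) by ring, norm_neg]
  rw [h4] at h3
  exact h3

lemma integral_re_sub (t : ℝ) (R : ℝ) : ∫ z in ball (t : ℂ) R, (z.re - t) = 0 := by
  have h1 := setIntegral_symm (t : ℂ) R (fun z => z.re - t)
  have h2 : ∀ z : ℂ, (2 * (t : ℂ) - z).re - t = -(z.re - t) := by
    intro z
    simp
    ring
  simp_rw [h2, integral_neg] at h1
  linarith

lemma integrableOn_re {a : ℝ → ℝ} (hc : Continuous a) (c : ℂ) (R : ℝ) :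
    IntegrableOn (fun z : ℂ => a z.re) (ball c R) := by
  have h1 : Continuous fun z : ℂ => a z.re := hc.comp Complex.continuous_re
  exact (h1.continuousOn.integrableOn_compact (isCompact_closedBall c R)).mono_set
    ball_subset_closedBall

theorem convexOn_of_submean {a : ℝ → ℝ} (hc : Continuous a)
    (hs : ∀ t : ℝ, ∃ R₀ > 0, ∀ R, 0 < R → R < R₀ →
      a t * (volume (ball (t : ℂ) R)).toReal ≤ ∫ z in ball (t : ℂ) R, a z.re) :
    ConvexOn ℝ univ a := by
  -- main step: a chord with both ends at height zero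
  have key : ∀ x y : ℝ, x < y → ∀ k l : ℝ, a x + k * x + l ≤ 0 → a y + k * y + l ≤ 0 →
      ∀ t ∈ Icc x y, a t + k * t + l ≤ 0 := by
    intro x y hxy k l hx hy
    by_contra hcon
    push Not at hcon
    obtain ⟨t₁, ht₁, hpos⟩ := hcon
    set b : ℝ → ℝ := fun t => a t + k * t + l with hb
    have hbc : Continuous b := by fun_prop
    obtain ⟨t₂, ht₂, hmax⟩ := isCompact_Icc.exists_isMaxOn ⟨t₁, ht₁⟩ hbc.continuousOn
    set M := b t₂ with hM
    have hMpos : 0 < M := lt_of_lt_of_le hpos (hmax ht₁)
    -- the smallest maximiser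
    have hKc : IsCompact (Icc x y ∩ b ⁻¹' {M}) :=
      isCompact_Icc.inter_right (isClosed_singleton.preimage hbc)
    obtain ⟨t, ht, hmin⟩ := hKc.exists_isLeast ⟨t₂, ht₂, rfl⟩
    have htM : b t = M := ht.2
    have htx : x < t := by
      rcases ht.1.1.lt_or_eq with h | h
      · exact h
      · rw [← h] at htM
        simp only [hb] at htM
        linarith
    have hty : t < y := by
      rcases ht.1.2.lt_or_eq with h | h
      · exact h
      · rw [h] at htM
        simp only [hb] at htM
        linarith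
    obtain ⟨R₀, hR₀, hsub⟩ := hs t
    obtain ⟨R, hR, hR1⟩ : ∃ R, 0 < R ∧ R < min R₀ (min (t - x) (y - t)) :=
      exists_between (by simp only [lt_min_iff]; exact ⟨hR₀, by linarith, by linarith⟩)
    have hRR₀ : R < R₀ := hR1.trans_le (min_le_left _ _)
    have hRx : R < t - x := hR1.trans_le ((min_le_right _ _).trans (min_le_left _ _))
    have hRy : R < y - t := hR1.trans_le ((min_le_right _ _).trans (min_le_right _ _))
    have h1 := hsub R hR hRR₀
    have hre : ∀ z ∈ ball (t : ℂ) R, |z.re - t| < R := by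
      intro z hz
      have h2 : |(z - t).re| ≤ ‖z - t‖ := Complex.abs_re_le_norm _
      rw [mem_ball, dist_eq_norm] at hz
      simp only [Complex.sub_re, Complex.ofReal_re] at h2
      exact h2.trans_lt hz
    have hIcc : ∀ z ∈ ball (t : ℂ) R, z.re ∈ Icc x y := by
      intro z hz
      have h2 := abs_lt.1 (hre z hz)
      exact ⟨by linarith [h2.1], by linarith [h2.2]⟩
    have hvol : (volume (ball (t : ℂ) R)) ≠ ⊤ := measure_ball_lt_top.ne
    -- integral of `b`
    have hIb : M * (volume (ball (t : ℂ) R)).toReal ≤ ∫ z in ball (t : ℂ) R, b z.re := by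
      have h2 : ∫ z in ball (t : ℂ) R, b z.re =
          (∫ z in ball (t : ℂ) R, a z.re) + k * (∫ z in ball (t : ℂ) R, (z.re - t)) +
            (k * t + l) * (volume (ball (t : ℂ) R)).toReal := by
        have h3 : ∀ z : ℂ, b z.re = (a z.re + k * (z.re - t)) + (k * t + l) := by
          intro z
          simp only [hb]
          ring
        simp_rw [h3]
        rw [integral_add, integral_add, integral_const_mul, setIntegral_const, smul_eq_mul]
        · simp only [Measure.real]
          ring
        · exact integrableOn_re hc _ _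
        · exact integrableOn_re (a := fun s => k * (s - t)) (by fun_prop) _ _
        · exact (integrableOn_re hc _ _).add
            (integrableOn_re (a := fun s => k * (s - t)) (by fun_prop) _ _)
        · exact integrableOn_const hvol
      rw [h2, integral_re_sub, mul_zero, add_zero]
      have h4 : M = a t + (k * t + l) := by
        rw [← htM]
        simp only [hb]
        ring
      rw [h4, add_mul]
      linarith
    have hI2 : 0 < ∫ z in ball (t : ℂ) R, (M - b z.re) := by
      have hcont : Continuous fun z : ℂ => M - b z.re := by fun_prop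
      have hle : ∀ z ∈ ball (t : ℂ) R, 0 ≤ M - b z.re := by
        intro z hz
        have := hmax (hIcc z hz)
        simp only [mem_ofPred_eq] at this
        linarith
      rw [setIntegral_pos_iff_support_of_nonneg_ae]
      · have hop : IsOpen (ball (t : ℂ) R ∩ {z : ℂ | z.re < t}) :=
          isOpen_ball.inter (isOpen_lt Complex.continuous_re continuous_const)
        have hne : (ball (t : ℂ) R ∩ {z : ℂ | z.re < t}).Nonempty := by
          refine ⟨((t - R / 2 : ℝ) : ℂ), ?_, ?_⟩
          · rw [mem_ball, dist_eq_norm, ← Complex.ofReal_sub, Complex.norm_real, Real.norm_eq_abs,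
              show t - R / 2 - t = -(R / 2) by ring, abs_neg, abs_of_pos (by positivity)]
            linarith
          · simp only [mem_ofPred_eq, Complex.ofReal_re]
            linarith
        refine lt_of_lt_of_le (hop.measure_pos volume hne) (measure_mono ?_)
        rintro z ⟨hz, hz2⟩
        refine ⟨?_, hz⟩
        simp only [Function.mem_support]
        intro h0
        have h5 : z.re ∈ Icc x y ∩ b ⁻¹' {M} :=
          ⟨hIcc z hz, by simp only [mem_preimage, mem_singleton_iff]; linarith⟩
        have h6 := hmin h5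
        simp only [mem_ofPred_eq] at hz2
        linarith
      · exact (ae_restrict_iff' measurableSet_ball).2 (Eventually.of_forall hle)
      · exact integrableOn_re (a := fun s => M - b s) (by fun_prop) _ _
    rw [integral_sub (continuous_const.continuousOn.integrableOn_compact
      (isCompact_closedBall (t : ℂ) R) |>.mono_set ball_subset_closedBall)
      (integrableOn_re hbc _ _), setIntegral_const, smul_eq_mul] at hI2
    simp only [Measure.real] at hI2
    linarith [mul_comm M (volume (ball (t : ℂ) R)).toReal]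
  have main : ∀ x y : ℝ, x < y → ∀ α β : ℝ, 0 ≤ α → 0 ≤ β → α + β = 1 →
      a (α * x + β * y) ≤ α * a x + β * a y := by
    intro x y hxy α β hα hβ hαβ
    have hyx : y - x ≠ 0 := by linarith
    set k := -(a y - a x) / (y - x) with hk
    set l := -(a x + k * x) with hl
    have hky : k * (y - x) = -(a y - a x) := by rw [hk]; field_simp
    have h1 : a x + k * x + l ≤ 0 := by rw [hl]; linarith
    have h2 : a y + k * y + l ≤ 0 := by rw [hl]; nlinarith
    have hmem : α * x + β * y ∈ Icc x y := by
      have e : β = 1 - α := by linarith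
      subst e
      constructor <;> nlinarith
    have h3 := key x y hxy k l h1 h2 _ hmem
    have e : β = 1 - α := by linarith
    subst e
    rw [hl] at h3
    nlinarith
  refine ⟨convex_univ, fun x _ y _ α β hα hβ hαβ => ?_⟩
  simp only [smul_eq_mul]
  rcases lt_trichotomy x y with h | h | h
  · exact main x y h α β hα hβ hαβ
  · subst h
    rw [← add_mul, ← add_mul, hαβ, one_mul, one_mul]
  · have := main y x h β α hβ hα (by linarith)
    rw [add_comm, add_comm (α * a x)]
    exact this

/-! ### the layer cake step -/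

theorem layer {X : Type*} [MeasurableSpace X] {ν : Measure X} {G : X → ℂ} (hG : Measurable G)
    {w : X → ℝ≥0∞} (hw : Measurable w) {T : ℝ} (hT : 0 < T) {C : ℝ≥0∞} (hC : C ≠ ⊤)
    (h : ∀ n : ℕ, ∫⁻ x in {x | ‖G x‖ < Real.exp (-(n * T))}, w x ∂ν ≤ C * (1 / 2) ^ n)
    {κ : ℝ} (hκ : 0 < κ) (hκT : κ * T < Real.log 2) :
    ∫⁻ x in {x | ‖G x‖ < 1}, w x * ‖G x‖ₑ ^ (-κ) ∂ν < ⊤ := by
  set A : ℕ → Set X := fun n => {x | Real.exp (-((n + 1 : ℕ) * T)) ≤ ‖G x‖ ∧
    ‖G x‖ < Real.exp (-(n * T))} with hA
  have hGn : Measurable fun x => ‖G x‖ := hG.norm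
  have hAm : ∀ n, MeasurableSet (A n) := fun n =>
    (measurableSet_le measurable_const hGn).inter (measurableSet_lt hGn measurable_const)
  have hBm : MeasurableSet {x | G x = 0} := hG (measurableSet_singleton 0)
  have hexp : Tendsto (fun n : ℕ => Real.exp (-(n * T))) atTop (𝓝 0) := by
    refine Real.tendsto_exp_atBot.comp ?_
    refine tendsto_neg_atTop_atBot.comp ?_
    exact tendsto_natCast_atTop_atTop.atTop_mul_const hT
  have hcov : {x | ‖G x‖ < 1} ⊆ {x | G x = 0} ∪ ⋃ n, A n := by
    intro x hx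
    by_cases h0 : G x = 0
    · exact Or.inl h0
    · right
      have hpos : 0 < ‖G x‖ := norm_pos_iff.2 h0
      have hex : ∃ n : ℕ, Real.exp (-(n * T)) ≤ ‖G x‖ :=
        ((hexp.eventually (gt_mem_nhds hpos)).exists).imp fun n hn => hn.le
      classical
      set n := Nat.find hex with hn
      have hn1 : Real.exp (-(n * T)) ≤ ‖G x‖ := Nat.find_spec hex
      have hn0 : n ≠ 0 := by
        intro h0
        rw [h0] at hn1
        simp only [Nat.cast_zero, zero_mul, neg_zero, Real.exp_zero] at hn1
        exact absurd hx (not_lt.2 hn1)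
      obtain ⟨m, hm⟩ := Nat.exists_eq_succ_of_ne_zero hn0
      refine mem_iUnion.2 ⟨m, ?_, ?_⟩
      · rw [hm] at hn1
        exact hn1
      · have := Nat.find_min hex (m := m) (by omega)
        exact not_le.1 this
  -- the zero set
  have hzero : ∫⁻ x in {x | G x = 0}, w x ∂ν = 0 := by
    have h1 : ∀ n : ℕ, ∫⁻ x in {x | G x = 0}, w x ∂ν ≤ C * (1 / 2) ^ n := fun n =>
      (lintegral_mono_set (fun x (hx : G x = 0) => by
        simp only [mem_ofPred_eq, hx, norm_zero]; exact Real.exp_pos _)).trans (h n)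
    have h2 : Tendsto (fun n : ℕ => C * (1 / 2 : ℝ≥0∞) ^ n) atTop (𝓝 (C * 0)) := by
      refine ENNReal.Tendsto.const_mul ?_ (Or.inr hC)
      exact ENNReal.tendsto_pow_atTop_nhds_zero_of_lt_one (by
        rw [one_div]; exact ENNReal.inv_lt_one.2 (by norm_num))
    rw [mul_zero] at h2
    exact le_antisymm (ge_of_tendsto' h2 h1) bot_le
  have hzero2 : ∫⁻ x in {x | G x = 0}, w x * ‖G x‖ₑ ^ (-κ) ∂ν = 0 := by
    rw [lintegral_eq_zero_iff' hw.aemeasurable] at hzero
    rw [lintegral_eq_zero_iff' (by fun_prop)]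
    filter_upwards [hzero] with x hx
    simp only [Pi.zero_apply] at hx ⊢
    rw [hx, zero_mul]
  have hlay : ∀ n : ℕ, ∫⁻ x in A n, w x * ‖G x‖ₑ ^ (-κ) ∂ν ≤
      C * ENNReal.ofReal (Real.exp (κ * T)) * (ENNReal.ofReal (Real.exp (κ * T) / 2)) ^ n := by
    intro n
    have hpt : ∀ x ∈ A n, w x * ‖G x‖ₑ ^ (-κ) ≤
        w x * ENNReal.ofReal (Real.exp (κ * ((n + 1 : ℕ) * T))) := by
      intro x hx
      have h1 : ENNReal.ofReal (Real.exp (-((n + 1 : ℕ) * T))) ≤ ‖G x‖ₑ := by
        rw [← ofReal_norm]
        exact ENNReal.ofReal_le_ofReal hx.1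
      have h2 : ‖G x‖ₑ ^ (-κ) ≤ ENNReal.ofReal (Real.exp (κ * ((n + 1 : ℕ) * T))) := by
        have h3 : ‖G x‖ₑ ^ (-κ) ≤ (ENNReal.ofReal (Real.exp (-((n + 1 : ℕ) * T)))) ^ (-κ) := by
          rw [ENNReal.rpow_neg, ENNReal.rpow_neg]
          exact ENNReal.inv_le_inv.2 (ENNReal.rpow_le_rpow h1 hκ.le)
        refine h3.trans_eq ?_
        rw [ENNReal.ofReal_rpow_of_pos (Real.exp_pos _), ← Real.exp_mul]
        congr 2
        ring
      gcongr
    calc ∫⁻ x in A n, w x * ‖G x‖ₑ ^ (-κ) ∂ν
        ≤ ∫⁻ x in A n, w x * ENNReal.ofReal (Real.exp (κ * ((n + 1 : ℕ) * T))) ∂ν :=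
          setLIntegral_mono' (hAm n) hpt
      _ = (∫⁻ x in A n, w x ∂ν) * ENNReal.ofReal (Real.exp (κ * ((n + 1 : ℕ) * T))) :=
          lintegral_mul_const _ hw
      _ ≤ (C * (1 / 2) ^ n) * ENNReal.ofReal (Real.exp (κ * ((n + 1 : ℕ) * T))) := by
          gcongr
          exact (lintegral_mono_set fun x hx => hx.2).trans (h n)
      _ = C * ENNReal.ofReal (Real.exp (κ * T)) * (ENNReal.ofReal (Real.exp (κ * T) / 2)) ^ n := by
          have e1 : Real.exp (κ * ((n + 1 : ℕ) * T)) = Real.exp (κ * T) * Real.exp (κ * T) ^ n := by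
            rw [← Real.exp_nat_mul, ← Real.exp_add]
            congr 1
            push_cast
            ring
          have e2 : (1 / 2 : ℝ≥0∞) ^ n = ENNReal.ofReal ((1 / 2 : ℝ) ^ n) := by
            rw [ENNReal.ofReal_pow (by norm_num), ENNReal.ofReal_div_of_pos (by norm_num)]
            simp
          rw [e1, e2, ← ENNReal.ofReal_pow (by positivity), mul_assoc, mul_assoc,
            ← ENNReal.ofReal_mul (by positivity), ← ENNReal.ofReal_mul (by positivity)]
          congr 2
          rw [one_div, inv_pow, div_pow]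
          field_simp
  have hr : ENNReal.ofReal (Real.exp (κ * T) / 2) < 1 := by
    rw [ENNReal.ofReal_lt_one, div_lt_one (by norm_num)]
    calc Real.exp (κ * T) < Real.exp (Real.log 2) := Real.exp_lt_exp.2 hκT
      _ = 2 := Real.exp_log (by norm_num)
  calc ∫⁻ x in {x | ‖G x‖ < 1}, w x * ‖G x‖ₑ ^ (-κ) ∂ν
      ≤ ∫⁻ x in {x | G x = 0} ∪ ⋃ n, A n, w x * ‖G x‖ₑ ^ (-κ) ∂ν := lintegral_mono_set hcov
    _ ≤ ∫⁻ x in {x | G x = 0}, w x * ‖G x‖ₑ ^ (-κ) ∂ν +
        ∫⁻ x in ⋃ n, A n, w x * ‖G x‖ₑ ^ (-κ) ∂ν := lintegral_union_le _ _ _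
    _ ≤ 0 + ∑' n, ∫⁻ x in A n, w x * ‖G x‖ₑ ^ (-κ) ∂ν := by
        rw [hzero2]
        gcongr
        exact lintegral_iUnion_le _ _
    _ ≤ ∑' n : ℕ, C * ENNReal.ofReal (Real.exp (κ * T)) *
        (ENNReal.ofReal (Real.exp (κ * T) / 2)) ^ n := by
        rw [zero_add]
        exact ENNReal.tsum_le_tsum hlay
    _ = C * ENNReal.ofReal (Real.exp (κ * T)) *
        (1 - ENNReal.ofReal (Real.exp (κ * T) / 2))⁻¹ := by
        rw [ENNReal.tsum_mul_left, ENNReal.tsum_geometric]
    _ < ⊤ := by
        refine ENNReal.mul_lt_top (ENNReal.mul_lt_top hC.lt_top ENNReal.ofReal_lt_top) ?_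
        rw [ENNReal.inv_lt_top, tsub_pos_iff_lt]
        exact hr

end Crest.Agent.R276.OpenB_317
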