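import Crest.Agent.R276.OpenB_317

/-!
# R276, leaf OPEN (helper317), part C: strong openness, measure form

`LN μ c g = ∫ |g|² / c` (with `x/0 = ∞` for `x > 0`, `0/0 = 0`), weight `c = e^φ`.
`open_main` : `E` a finite dimensional space of measurable functions with finite norm for the weight
`b max(1,|G|²)`; if the dual norms of `LN (b max(1,|G|² e^{2t}))` on `E` are log-convex in `t`, then
`∫_{|G|<1} |g|²/b |G|^{-κ} < ∞` for some `κ > 0` and all `g ∈ E`.
-/

set_option autoImplicit false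

open Set Filter Topology MeasureTheory Metric
open scoped ComplexConjugate ENNReal

noncomputable section

namespace Crest.Agent.R276.OpenC_317

open Crest.Agent.R276.OpenA_317 Crest.Agent.R276.OpenB_317

variable {X : Type*} [MeasurableSpace X]

/-- `∫ |g|² / c` -/
def LN (μ : Measure X) (c : X → ℝ) (g : X → ℂ) : ℝ≥0∞ :=
  ∫⁻ x, ENNReal.ofReal (‖g x‖ ^ 2) / ENNReal.ofReal (c x) ∂μ

lemma hSq_lintegral (ν : Measure X) (E : Submodule ℂ (X → ℂ)) (hm : ∀ g ∈ E, Measurable g)
    (hf : ∀ g ∈ E, ∫⁻ x, ‖g x‖ₑ ^ (2 : ℝ) ∂ν < ⊤) :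
    HSq fun g : E => (∫⁻ x, ‖(g : X → ℂ) x‖ₑ ^ (2 : ℝ) ∂ν).toReal := by
  have hmem : ∀ g : E, MemLp (g : X → ℂ) 2 ν := by
    intro g
    refine ⟨(hm g g.2).aestronglyMeasurable, ?_⟩
    rw [eLpNorm_eq_lintegral_rpow_enorm_toReal (by norm_num) (by norm_num)]
    simp only [ENNReal.toReal_ofNat]
    exact ENNReal.rpow_lt_top_of_nonneg (by norm_num) (hf g g.2).ne
  let j : E →ₗ[ℂ] Lp ℂ 2 ν :=
    { toFun := fun g => (hmem g).toLp
      map_add' := fun g g' => (hmem g).toLp_add (hmem g')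
      map_smul' := fun c g => (hmem g).toLp_const_smul c }
  refine hSq_of_map j fun g => ?_
  have h1 : ‖j g‖ = (eLpNorm (g : X → ℂ) 2 ν).toReal := Lp.norm_toLp _ (hmem g)
  rw [h1, eLpNorm_eq_lintegral_rpow_enorm_toReal (by norm_num) (by norm_num)]
  simp only [ENNReal.toReal_ofNat]
  rw [← ENNReal.toReal_rpow, ← Real.rpow_natCast, ← Real.rpow_mul ENNReal.toReal_nonneg]
  norm_num

lemma LN_eq (μ : Measure X) {c : X → ℝ} (hc : Measurable c) {g : X → ℂ} (hg : Measurable g) :
    LN μ c g = ∫⁻ x, ‖g x‖ₑ ^ (2 : ℝ) ∂(μ.withDensity fun x => (ENNReal.ofReal (c x))⁻¹) := by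
  rw [lintegral_withDensity_eq_lintegral_mul _ (by fun_prop) (by fun_prop)]
  unfold LN
  refine lintegral_congr fun x => ?_
  simp only [Pi.mul_apply]
  rw [div_eq_mul_inv, mul_comm, ENNReal.ofReal_pow (norm_nonneg _), ofReal_norm, ← ENNReal.rpow_natCast]
  norm_num

lemma hSq_LN (μ : Measure X) {c : X → ℝ} (hc : Measurable c) (E : Submodule ℂ (X → ℂ))
    (hm : ∀ g ∈ E, Measurable g) (hf : ∀ g ∈ E, LN μ c g < ⊤) :
    HSq fun g : E => (LN μ c g).toReal := by
  have h1 := hSq_lintegral (μ.withDensity fun x => (ENNReal.ofReal (c x))⁻¹) E hm (fun g hg => by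
    rw [← LN_eq μ hc (hm g hg)]
    exact hf g hg)
  have h2 : (fun g : E => (LN μ c g).toReal) = fun g : E =>
      (∫⁻ x, ‖(g : X → ℂ) x‖ₑ ^ (2 : ℝ) ∂(μ.withDensity fun x => (ENNReal.ofReal (c x))⁻¹)).toReal := by
    funext g
    rw [LN_eq μ hc (hm g g.2)]
  rw [h2]
  exact h1

/-- the weight at time `t` -/
def bt (b : X → ℝ) (G : X → ℂ) (t : ℝ) (x : X) : ℝ := b x * max 1 (‖G x‖ ^ 2 * Real.exp (2 * t))

lemma measurable_bt {b : X → ℝ} (hb : Measurable b) {G : X → ℂ} (hG : Measurable G) (t : ℝ) :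
    Measurable (bt b G t) := by
  unfold bt
  exact hb.mul (measurable_const.max ((hG.norm.pow_const 2).mul_const _))

omit [MeasurableSpace X] in
lemma bt_mono {b : X → ℝ} (hb0 : ∀ x, 0 ≤ b x) (G : X → ℂ) {s t : ℝ} (h : s ≤ t) (x : X) :
    bt b G s x ≤ bt b G t x := by
  unfold bt
  have := hb0 x
  gcongr

lemma LN_anti (μ : Measure X) {c c' : X → ℝ} (h : ∀ x, c x ≤ c' x) (g : X → ℂ) :
    LN μ c' g ≤ LN μ c g := by
  unfold LN
  gcongr with x
  exact h x

theorem open_main (μ : Measure X) {b : X → ℝ} (hb : Measurable b) (hb0 : ∀ x, 0 ≤ b x)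
    {G : X → ℂ} (hG : Measurable G) (hG0 : μ {x | G x = 0} = 0) (E : Submodule ℂ (X → ℂ))
    [FiniteDimensional ℂ E] (hm : ∀ g ∈ E, Measurable g)
    (hf : ∀ g ∈ E, ∀ t : ℝ, LN μ (bt b G t) g < ⊤)
    (hd : ∀ g ∈ E, g ≠ 0 → ∀ t : ℝ, LN μ (bt b G t) g ≠ 0)
    (hconv : ∀ ξ : E →ₗ[ℂ] ℂ, ξ ≠ 0 → ConvexOn ℝ (Ici (0 : ℝ)) fun t =>
      Real.log (dual (fun g : E => (LN μ (bt b G t) g).toReal) ξ)) :
    ∃ κ : ℝ, 0 < κ ∧ ∀ g ∈ E, ∫⁻ x in {x | ‖G x‖ < 1},
      ENNReal.ofReal (‖g x‖ ^ 2) / ENNReal.ofReal (b x) * ‖G x‖ₑ ^ (-κ) ∂μ < ⊤ := by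
  set N : ℝ → E → ℝ := fun t g => (LN μ (bt b G t) g).toReal with hN
  have hH : ∀ t, HSq (N t) := fun t =>
    hSq_LN μ (measurable_bt hb hG t) E hm fun g hg => hf g hg t
  have hdef : ∀ t (g : E), g ≠ 0 → 0 < N t g := fun t g hg =>
    ENNReal.toReal_pos (hd g g.2 (fun h => hg (Subtype.ext h)) t) (hf g g.2 t).ne
  have hanti : ∀ g : E, Antitone fun t => N t g := fun g s t hst =>
    ENNReal.toReal_mono (hf g g.2 s).ne (LN_anti μ (bt_mono hb0 G hst) g)
  have hlim : ∀ g : E, Tendsto (fun t => N t g) atTop (𝓝 0) := by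
    intro g
    have hmg := hm g g.2
    have h1 : Tendsto (fun t => LN μ (bt b G t) g) atTop (𝓝 (∫⁻ _, 0 ∂μ)) := by
      refine tendsto_lintegral_filter_of_dominated_convergence
        (fun x => ENNReal.ofReal (‖(g : X → ℂ) x‖ ^ 2) / ENNReal.ofReal (bt b G 0 x)) ?_ ?_ ?_ ?_
      · exact Eventually.of_forall fun t => by
          have := measurable_bt hb hG t
          fun_prop
      · filter_upwards [eventually_ge_atTop (0 : ℝ)] with t ht
        refine Eventually.of_forall fun x => ?_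
        gcongr
        exact bt_mono hb0 G ht x
      · exact (hf g g.2 0).ne
      · have hae : ∀ᵐ x ∂μ, G x ≠ 0 := by
          rw [ae_iff]
          simpa using hG0
        have hfin : ∀ᵐ x ∂μ, ENNReal.ofReal (‖(g : X → ℂ) x‖ ^ 2) / ENNReal.ofReal (bt b G 0 x) < ⊤ :=
          ae_lt_top (by have := measurable_bt hb hG 0; fun_prop) (hf g g.2 0).ne
        filter_upwards [hae, hfin] with x hx hfx
        by_cases hgx : (g : X → ℂ) x = 0
        · simp [hgx]
        · have hbpos : 0 < b x := by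
            rcases (hb0 x).lt_or_eq with h | h
            · exact h
            · exfalso
              have h2 : bt b G 0 x = 0 := by unfold bt; rw [← h, zero_mul]
              rw [h2, ENNReal.ofReal_zero, ENNReal.div_zero] at hfx
              · exact lt_irrefl _ hfx
              · rw [ne_eq, ENNReal.ofReal_eq_zero, not_le]
                positivity
          have h3 : Tendsto (fun t => bt b G t x) atTop atTop := by
            have hGx : 0 < ‖G x‖ ^ 2 := by positivity
            have h4 : Tendsto (fun t : ℝ => ‖G x‖ ^ 2 * Real.exp (2 * t)) atTop atTop :=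
              (Real.tendsto_exp_atTop.comp (tendsto_id.const_mul_atTop (by norm_num))).const_mul_atTop
                hGx
            have h5 : Tendsto (fun t : ℝ => max 1 (‖G x‖ ^ 2 * Real.exp (2 * t))) atTop atTop :=
              tendsto_atTop_mono (fun t => le_max_right _ _) h4
            exact h5.const_mul_atTop hbpos
          have h6 : Tendsto (fun t => ENNReal.ofReal (bt b G t x)) atTop (𝓝 ⊤) :=
            ENNReal.tendsto_ofReal_atTop.comp h3
          have h7 := ENNReal.Tendsto.const_div (a := ENNReal.ofReal (‖(g : X → ℂ) x‖ ^ 2)) h6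
            (Or.inr ENNReal.ofReal_ne_top)
          simpa using h7
    rw [lintegral_zero] at h1
    have h2 := (ENNReal.tendsto_toReal ENNReal.zero_ne_top).comp h1
    rw [ENNReal.toReal_zero] at h2
    exact h2
  obtain ⟨T, hT, hdec⟩ := exp_decay N hH hdef hanti hlim hconv
  have hlog2 : 0 < Real.log 2 := Real.log_pos (by norm_num)
  refine ⟨Real.log 2 / (2 * T), by positivity, fun g hg => ?_⟩
  have hmg := hm g hg
  refine layer hG (w := fun x => ENNReal.ofReal (‖g x‖ ^ 2) / ENNReal.ofReal (b x)) (by fun_prop)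
    hT (C := LN μ (bt b G 0) g) (hf g hg 0).ne (fun n => ?_) (by positivity) ?_
  · have h1 := hdec n ⟨g, hg⟩
    simp only [hN] at h1
    have h2 : LN μ (bt b G (n * T)) g ≤ LN μ (bt b G 0) g * (1 / 2) ^ n := by
      rw [← ENNReal.toReal_le_toReal (hf g hg _).ne
        (ENNReal.mul_ne_top (hf g hg 0).ne (by simp)), ENNReal.toReal_mul, ENNReal.toReal_pow]
      have h3 : (1 / 2 : ℝ≥0∞).toReal = 1 / 2 := by simp
      rw [h3, mul_comm (LN μ (bt b G 0) g).toReal]
      exact h1
    refine le_trans ?_ h2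
    unfold LN
    have hms : MeasurableSet {x | ‖G x‖ < Real.exp (-(n * T))} :=
      measurableSet_lt hG.norm measurable_const
    calc ∫⁻ x in {x | ‖G x‖ < Real.exp (-(n * T))},
          ENNReal.ofReal (‖g x‖ ^ 2) / ENNReal.ofReal (b x) ∂μ
        = ∫⁻ x in {x | ‖G x‖ < Real.exp (-(n * T))},
          ENNReal.ofReal (‖g x‖ ^ 2) / ENNReal.ofReal (bt b G (n * T) x) ∂μ := by
          refine setLIntegral_congr_fun hms fun x hx => ?_
          have h4 : ‖G x‖ ^ 2 * Real.exp (2 * (n * T)) ≤ 1 := by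
            have h5 : ‖G x‖ < Real.exp (-(n * T)) := hx
            have h6 : ‖G x‖ * Real.exp (n * T) ≤ 1 := by
              have h7 := mul_le_mul_of_nonneg_right h5.le (Real.exp_pos (n * T)).le
              rwa [← Real.exp_add, neg_add_cancel, Real.exp_zero] at h7
            have h8 : Real.exp (2 * (n * T)) = Real.exp (n * T) ^ 2 := by
              rw [← Real.exp_nat_mul]
              norm_num
            rw [h8, ← mul_pow]
            exact pow_le_one₀ (by positivity) h6
          simp only [bt]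
          rw [max_eq_left h4, mul_one]
      _ ≤ ∫⁻ x, ENNReal.ofReal (‖g x‖ ^ 2) / ENNReal.ofReal (bt b G (n * T) x) ∂μ :=
          setLIntegral_le_lintegral _ _
  · have : Real.log 2 / (2 * T) * T = Real.log 2 / 2 := by field_simp
    rw [this]
    linarith

end Crest.Agent.R276.OpenC_317
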