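import Mathlib
import Crest.Agent.R276.LC1b_464
import Crest.Agent.R276.SkoQ_425

/-!
# Row 276 (helper425): `PEAll` of LC1b_464 is a theorem; the data of (C1) without hypothesis
-/

set_option autoImplicit false

noncomputable section

namespace Crest.Agent.R276.PEAll_425

open Crest.Agent.R276.LC1a_464

theorem peAll : PEAll := by
  intro L K _ _ _ _ _ _ r bas N s Y u hS _ _ hY hu _
  obtain ⟨p0, hp0, AA, BB, h⟩ := SkoQ_425.exists_pe_all hS.ac bas N Y hY.jac_ne hu
  exact ⟨p0, hp0, AA, BB, h⟩

end Crest.Agent.R276.PEAll_425
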