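import Mathlib
import Crest.Agent.R276.FKDefs_779

/-!
# Row 276, PFIN part A (helper337): coordinates of differentials, change of basis of the Jacobian,
the bound for the Jacobian over the integral closure of a stable subring.
-/

set_option autoImplicit false

noncomputable section

open KaehlerDifferential Crest.Agent.R276.FKDefs_779

namespace Crest.Agent.R276.PFinA_337

section coord

variable {k K : Type*} [Field k] [Field K] [Algebra k K] {n : ℕ}

/-- the coefficients of `dz` in the basis `b` -/
def co (b : Module.Basis (Fin n) K (Ω[K⁄k])) (i : Fin n) (z : K) : K := b.repr (D k K z) i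

variable (b : Module.Basis (Fin n) K (Ω[K⁄k]))

lemma co_add (i : Fin n) (x y : K) : co b i (x + y) = co b i x + co b i y := by
  simp [co]

lemma co_mul (i : Fin n) (x y : K) : co b i (x * y) = x * co b i y + y * co b i x := by
  simp [co]

lemma co_algebraMap (i : Fin n) (c : k) : co b i (algebraMap k K c) = 0 := by
  simp [co]

lemma co_zero (i : Fin n) : co b i 0 = 0 := by simp [co]

lemma co_one (i : Fin n) : co b i 1 = 0 := by
  simpa using co_algebraMap b i 1

lemma co_sum {ι : Type*} (s : Finset ι) (f : ι → K) (i : Fin n) :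
    co b i (∑ j ∈ s, f j) = ∑ j ∈ s, co b i (f j) := by
  classical
  induction s using Finset.induction_on with
  | empty => simp [co_zero]
  | insert a s ha ih => rw [Finset.sum_insert ha, Finset.sum_insert ha, co_add, ih]

/-- quotient rule, denominators cleared -/
lemma co_div (i : Fin n) {z u v : K} (h : z * v = u) :
    v * v * co b i z = co b i u * v - u * co b i v := by
  have h1 := co_mul b i z v
  rw [h] at h1
  rw [h1, ← h]
  ring

lemma jac_eq (z : Fin n → K) : jac k b z = Matrix.det (Matrix.of fun i j => co b i (z j)) := rfl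

lemma jac_change (b' : Module.Basis (Fin n) K (Ω[K⁄k])) (z : Fin n → K) :
    jac k b z = b.det b' * jac k b' z := by
  unfold jac
  rw [b.det_apply, b.det_apply, b'.det_apply, ← Matrix.det_mul, b.toMatrix_mul_toMatrix]

lemma det_mul_det (b' : Module.Basis (Fin n) K (Ω[K⁄k])) :
    b.det b' * b'.det b = 1 := by
  rw [b.det_apply, b'.det_apply, ← Matrix.det_mul,
    Module.Basis.toMatrix_mul_toMatrix_flip, Matrix.det_one]

lemma det_basis_ne_zero (b' : Module.Basis (Fin n) K (Ω[K⁄k])) : b.det b' ≠ 0 :=
  left_ne_zero_of_mul_eq_one (det_mul_det b b')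

end coord

section bound

variable {k K : Type*} [Field k] [Field K] [Algebra k K] {n : ℕ}
variable {P : Type*} (E : Type*) [CommRing P] [IsDomain P] [Algebra P K] [Field E] [Algebra P E]
  [IsFractionRing P E] [Algebra E K] [IsScalarTower P E K] [FiniteDimensional E K]

include E

/-- If `P ⊆ K` is stable under the derivations dual to the basis `b`, then there is a common
denominator for the derivatives of all elements of the integral closure of `P`. -/
theorem exists_bound (b : Module.Basis (Fin n) K (Ω[K⁄k]))
    (hfin : IsNoetherian P (integralClosure P K))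
    (hst : ∀ (s : P) (i : Fin n), ∃ t : P, co b i (algebraMap P K s) = algebraMap P K t) :
    ∃ a : P, a ≠ 0 ∧ ∀ z : K, IsIntegral P z → ∀ i, IsIntegral P (algebraMap P K a * co b i z) := by
  classical
  have hfg : (Subalgebra.toSubmodule (integralClosure P K)).FG :=
    (Module.Finite.iff_fg (N := Subalgebra.toSubmodule (integralClosure P K))).mp
      (Module.IsNoetherian.finite P (integralClosure P K))
  obtain ⟨T, hT⟩ := hfg
  obtain ⟨a, ha, hTa⟩ := exists_integral_multiples P E (L := K)
    ((T ×ˢ Finset.univ).image fun ti : K × Fin n => co b ti.2 ti.1)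
  refine ⟨a, ha, ?_⟩
  have hint : ∀ z : K, z ∈ Submodule.span P (T : Set K) ↔ IsIntegral P z := by
    intro z
    rw [hT]
    exact Iff.rfl
  intro z hz
  rw [← hint] at hz
  induction hz using Submodule.span_induction with
  | mem x hx =>
    intro i
    have := hTa (co b i x) (Finset.mem_image.mpr ⟨(x, i), by simpa using hx, rfl⟩)
    rwa [Algebra.smul_def] at this
  | zero => intro i; rw [co_zero, mul_zero]; exact isIntegral_zero
  | add x y _ _ hx hy => intro i; rw [co_add, mul_add]; exact (hx i).add (hy i)
  | smul s x hxm hx =>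
    intro i
    obtain ⟨t, ht⟩ := hst s i
    rw [Algebra.smul_def, co_mul, ht]
    have h1 : algebraMap P K a * (algebraMap P K s * co b i x + x * algebraMap P K t) =
        algebraMap P K s * (algebraMap P K a * co b i x) +
          algebraMap P K (a * t) * x := by
      rw [map_mul]; ring
    rw [h1]
    exact (isIntegral_algebraMap.mul (hx i)).add
      (isIntegral_algebraMap.mul ((hint x).mp hxm))

end bound

section loc

variable {A K : Type*} [CommRing A] [IsDomain A] [Field K] [Algebra A K] [IsFractionRing A K]

/-- the localisation of `A` at `p` as a valuation subring of the fraction field -/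
def locVal (K : Type*) [Field K] [Algebra A K] [IsFractionRing A K] (p : Ideal A) [hp : p.IsPrime]
    (hv : ValuationRing (Localization.AtPrime p)) : ValuationSubring K where
  carrier := {z | ∃ u v : A, v ∉ p ∧ z * algebraMap A K v = algebraMap A K u}
  mul_mem' := by
    rintro z z' ⟨u, v, hv, h⟩ ⟨u', v', hv', h'⟩
    refine ⟨u * u', v * v', fun h0 => (hp.mem_or_mem h0).elim hv hv', ?_⟩
    rw [map_mul, map_mul, ← h, ← h']
    ring
  one_mem' := ⟨1, 1, fun h => hp.ne_top ((Ideal.eq_top_iff_one p).mpr h), by simp⟩
  add_mem' := by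
    rintro z z' ⟨u, v, hv, h⟩ ⟨u', v', hv', h'⟩
    refine ⟨u * v' + u' * v, v * v', fun h0 => (hp.mem_or_mem h0).elim hv hv', ?_⟩
    rw [map_mul, map_add, map_mul, map_mul, ← h, ← h']
    ring
  zero_mem' := ⟨0, 1, fun h => hp.ne_top ((Ideal.eq_top_iff_one p).mpr h), by simp⟩
  neg_mem' := by
    rintro z ⟨u, v, hv, h⟩
    exact ⟨-u, v, hv, by rw [map_neg, ← h]; ring⟩
  mem_or_inv_mem' := by
    intro z
    obtain ⟨u, v, hv0, rfl⟩ := IsFractionRing.div_surjective (A := A) z
    have hv : v ≠ 0 := nonZeroDivisors.ne_zero hv0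
    have hinj : Function.Injective (algebraMap A K) := IsFractionRing.injective A K
    have hv' : algebraMap A K v ≠ 0 := (map_ne_zero_iff _ hinj).mpr hv
    by_cases hu : u = 0
    · left
      exact ⟨0, 1, fun h => hp.ne_top ((Ideal.eq_top_iff_one p).mpr h), by simp [hu]⟩
    have hu' : algebraMap A K u ≠ 0 := (map_ne_zero_iff _ hinj).mpr hu
    have hinj2 : Function.Injective (algebraMap A (Localization.AtPrime p)) :=
      IsLocalization.injective _ (Ideal.primeCompl_le_nonZeroDivisors p)
    have key : ∀ r s : A, algebraMap A (Localization.AtPrime p) r ∣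
        algebraMap A (Localization.AtPrime p) s → ∃ c t : A, t ∉ p ∧ s * t = r * c := by
      rintro r s ⟨d, hd⟩
      obtain ⟨c, t, rfl⟩ := IsLocalization.exists_mk'_eq p.primeCompl d
      refine ⟨c, t, t.2, hinj2 ?_⟩
      rw [map_mul, map_mul, hd, mul_assoc, IsLocalization.mk'_spec]
    rcases ValuationRing.dvd_total (algebraMap A (Localization.AtPrime p) v)
      (algebraMap A (Localization.AtPrime p) u) with h | h
    · left
      obtain ⟨c, t, ht, hct⟩ := key _ _ h
      refine ⟨c, t, ht, ?_⟩
      have := congrArg (algebraMap A K) hct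
      rw [map_mul, map_mul] at this
      field_simp
      exact this
    · right
      obtain ⟨c, t, ht, hct⟩ := key _ _ h
      refine ⟨c, t, ht, ?_⟩
      have := congrArg (algebraMap A K) hct
      rw [map_mul, map_mul] at this
      rw [inv_div]
      field_simp
      exact this

variable {p : Ideal A} [hp : p.IsPrime] {hv : ValuationRing (Localization.AtPrime p)}

lemma mem_locVal {z : K} : z ∈ locVal K p hv ↔
    ∃ u v : A, v ∉ p ∧ z * algebraMap A K v = algebraMap A K u := Iff.rfl

lemma algebraMap_mem (a : A) : algebraMap A K a ∈ locVal K p hv :=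
  ⟨a, 1, fun h => hp.ne_top ((Ideal.eq_top_iff_one p).mpr h), by simp⟩

lemma valuation_eq_one {v : A} (h : v ∉ p) :
    (locVal K p hv).valuation (algebraMap A K v) = 1 := by
  have hv0 : v ≠ 0 := by rintro rfl; exact h p.zero_mem
  have hinj : Function.Injective (algebraMap A K) := IsFractionRing.injective A K
  have hv' : algebraMap A K v ≠ 0 := (map_ne_zero_iff _ hinj).mpr hv0
  have h1 : (locVal K p hv).valuation (algebraMap A K v) ≤ 1 :=
    ((locVal K p hv).valuation_le_one_iff _).mpr (algebraMap_mem v)
  have h2 : (locVal K p hv).valuation (algebraMap A K v)⁻¹ ≤ 1 := by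
    rw [(locVal K p hv).valuation_le_one_iff]
    exact ⟨1, v, h, by rw [inv_mul_cancel₀ hv', map_one]⟩
  rw [map_inv₀] at h2
  refine le_antisymm h1 ?_
  have h3 : (locVal K p hv).valuation (algebraMap A K v) ≠ 0 :=
    (Valuation.ne_zero_iff _).mpr hv'
  exact (inv_le_one₀ (zero_lt_iff.mpr h3)).mp h2

lemma ne_top (hp0 : p ≠ ⊥) : locVal K p hv ≠ ⊤ := by
  intro htop
  obtain ⟨u, hu, hu0⟩ := Submodule.exists_mem_ne_zero_of_ne_bot hp0
  have hinj : Function.Injective (algebraMap A K) := IsFractionRing.injective A K
  have hu' : algebraMap A K u ≠ 0 := (map_ne_zero_iff _ hinj).mpr hu0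
  have h1 : (algebraMap A K u)⁻¹ ∈ locVal K p hv := by rw [htop]; trivial
  obtain ⟨w, v, hv', h⟩ := h1
  apply hv'
  have h2 : v = w * u := hinj (by rw [map_mul, ← h]; field_simp)
  rw [h2]
  exact p.mul_mem_left w hu

/-- a height one prime of a Noetherian integrally closed domain gives a valuation ring -/
lemma valuationRing_of_height_one {A : Type*} [CommRing A] [IsDomain A] [IsNoetherianRing A]
    [IsIntegrallyClosed A] (p : Ideal A) [hp : p.IsPrime] (h : p.height = 1) :
    ValuationRing (Localization.AtPrime p) := by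
  have hpc : p.primeCompl ≤ nonZeroDivisors A := Ideal.primeCompl_le_nonZeroDivisors p
  have hic : IsIntegrallyClosed (Localization.AtPrime p) :=
    isIntegrallyClosed_of_isLocalization _ p.primeCompl hpc
  have key : ValuationRing (Localization.AtPrime p) ↔ IsIntegrallyClosed (Localization.AtPrime p) ∧
      ∀ P : Ideal (Localization.AtPrime p), P ≠ ⊥ → P.IsPrime → P = IsLocalRing.maximalIdeal _ :=
    (tfae_of_isNoetherianRing_of_isLocalRing_of_isDomain (Localization.AtPrime p)).out 1 3
  refine key.mpr ⟨hic, ?_⟩
  intro Q hQ hQp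
  have h1 : Ideal.map (algebraMap A (Localization.AtPrime p)) (Ideal.under A Q) = Q :=
    IsLocalization.map_under p.primeCompl _ Q
  have h2 : Ideal.under A (IsLocalRing.maximalIdeal (Localization.AtPrime p)) = p :=
    Localization.AtPrime.under_maximalIdeal
  have h3 : Ideal.under A Q ≤ p :=
    (Ideal.comap_mono (IsLocalRing.le_maximalIdeal_of_isPrime Q)).trans h2.le
  have hprime : (Ideal.under A Q).IsPrime := inferInstance
  rcases h3.lt_or_eq with hlt | heq
  · exfalso
    have h4 := Ideal.height_add_one_le_of_lt_of_isPrime hlt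
    rw [h] at h4
    have h5 : (Ideal.under A Q).height = 0 := by
      by_contra h0
      have : 1 ≤ (Ideal.under A Q).height := Order.one_le_iff_ne_zero.mpr h0
      have h6 : (1 : ℕ∞) + 1 ≤ 1 := le_trans (by gcongr) h4
      norm_num at h6
    rw [Ideal.height_eq_zero_iff_eq_bot] at h5
    apply hQ
    rw [← h1, h5, Ideal.map_bot]
  · rw [← h1, heq, ← IsLocalization.map_under p.primeCompl _
      (IsLocalRing.maximalIdeal (Localization.AtPrime p))]
    exact congrArg _ h2.symm

end loc

end Crest.Agent.R276.PFinA_337
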