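import Mathlib
import Crest.Agent.R276.FKDefs_779
import Crest.Agent.R276.PFinA_337

/-!
# Row 276, PFIN part B (helper337): differentials and transcendence bases in characteristic zero.
-/

set_option autoImplicit false

noncomputable section

open KaehlerDifferential Crest.Agent.R276.FKDefs_779 Crest.Agent.R276.PFinA_337 MvPolynomial

namespace Crest.Agent.R276.PFinB_337

variable {k K : Type*} [Field k] [Field K] [Algebra k K] {n : ℕ}

/-- chain rule -/
lemma D_aeval (x : Fin n → K) (p : MvPolynomial (Fin n) k) :
    D k K (aeval x p) = ∑ i, aeval x (pderiv i p) • D k K (x i) := by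
  induction p using MvPolynomial.induction_on with
  | C a => simp
  | add p q hp hq =>
    simp only [map_add, hp, hq, add_smul, Finset.sum_add_distrib]
  | mul_X p j hp =>
    rw [map_mul, Derivation.leibniz, hp, aeval_X]
    have h1 : ∀ i, aeval x (pderiv i (p * X j)) =
        x j * aeval x (pderiv i p) + if i = j then aeval x p else 0 := by
      intro i
      rw [pderiv_mul, map_add, map_mul, map_mul, aeval_X, mul_comm (aeval x (pderiv i p))]
      congr 1
      by_cases hij : i = j
      · subst hij; simp
      · rw [pderiv_X_of_ne (Ne.symm hij)]; simp [hij]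
    simp only [h1, add_smul, Finset.sum_add_distrib, ite_smul, zero_smul, Finset.sum_ite_eq',
      Finset.mem_univ, if_true, mul_smul, ← Finset.smul_sum]
    rw [add_comm]

lemma co_aeval (b : Module.Basis (Fin n) K (Ω[K⁄k])) (x : Fin n → K)
    (hb : ∀ i, b i = D k K (x i)) (i : Fin n) (p : MvPolynomial (Fin n) k) :
    co b i (aeval x p) = aeval x (pderiv i p) := by
  classical
  unfold co
  rw [D_aeval]
  simp only [← hb, map_sum, map_smul, b.repr_self, Finsupp.coe_finsetSum, Finset.sum_apply,
    Finsupp.smul_apply, smul_eq_mul]
  rw [Finset.sum_eq_single i]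
  · simp
  · intro j _ hj; simp [hj]
  · simp

/-- elements with linearly independent differentials are algebraically independent
(characteristic zero) -/
theorem algInd [CharZero k] (x : Fin n → K)
    (hx : LinearIndependent K (fun i => D k K (x i))) : AlgebraicIndependent k x := by
  classical
  rw [algebraicIndependent_iff]
  suffices H : ∀ (N : ℕ) (p : MvPolynomial (Fin n) k), p.totalDegree < N →
      aeval x p = 0 → p = 0 from fun p hp => H (p.totalDegree + 1) p (Nat.lt_succ_self _) hp
  intro N
  induction N with
  | zero => intro p hp; omega
  | succ N ih =>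
    intro p hp h0
    have h1 : ∑ i, aeval x (pderiv i p) • D k K (x i) = 0 := by
      rw [← D_aeval, h0, map_zero]
    have h2 : ∀ i, aeval x (pderiv i p) = 0 := by
      intro i
      exact Fintype.linearIndependent_iff.mp hx _ h1 i
    have h3 : ∀ i, pderiv i p = 0 := by
      intro i
      by_cases hc : pderiv i p = 0
      · exact hc
      apply ih _ _ (h2 i)
      rw [Nat.lt_succ_iff] at hp
      refine lt_of_lt_of_le ?_ hp
      -- degree drops
      have : ∀ m ∈ (pderiv i p).support, (m.sum fun _ e => e) < p.totalDegree := by
        intro m hm
        rw [mem_support_iff, coeff_pderiv] at hm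
        have hm' : m + Finsupp.single i 1 ∈ p.support := by
          rw [mem_support_iff]
          intro h
          apply hm
          rw [h, zero_mul]
        have := le_totalDegree hm'
        rw [Finsupp.sum_add_index' (by simp) (by simp), Finsupp.sum_single_index (by simp)] at this
        omega
      rw [totalDegree, Finset.sup_lt_iff]
      · exact this
      · obtain ⟨m, hm⟩ := MvPolynomial.support_nonempty.mpr hc
        exact lt_of_le_of_lt (Nat.zero_le _) (this m hm)
    -- p is constant
    have h4 : p = C (coeff 0 p) := by
      ext m
      rw [coeff_C]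
      by_cases hm : 0 = m
      · subst hm; simp
      · rw [if_neg hm]
        obtain ⟨i, hi⟩ : ∃ i, m i ≠ 0 := by
          by_contra hcon
          push Not at hcon
          exact hm (Finsupp.ext fun i => (hcon i).symm)
        have h5 := coeff_pderiv (i := i) p (m - Finsupp.single i 1)
        have h6 : m - Finsupp.single i 1 + Finsupp.single i 1 = m :=
          tsub_add_cancel_of_le (Finsupp.single_le_iff.mpr (Nat.one_le_iff_ne_zero.mpr hi))
        rw [h3 i, coeff_zero, h6] at h5
        rcases mul_eq_zero.mp h5.symm with h7 | h7
        · exact h7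
        · exfalso
          have : ((((m - Finsupp.single i 1 : Fin n →₀ ℕ) i + 1 : ℕ)) : k) = 0 := by
            push_cast; exact h7
          exact absurd (Nat.cast_eq_zero.mp this) (Nat.succ_ne_zero _)
    rw [h4] at h0 ⊢
    rw [aeval_C] at h0
    have : coeff 0 p = 0 := (map_eq_zero _).mp h0
    rw [this, C_0]

/-- if the differentials of `x` form a basis then `K` is finite and separable over `k(x)` -/
theorem finite_of_basis [CharZero k] (hfg : FGF k K) (b : Module.Basis (Fin n) K (Ω[K⁄k]))
    (x : Fin n → K) (hb : ∀ i, b i = D k K (x i)) (E : IntermediateField k K)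
    (hE : ∀ i, x i ∈ E) : FiniteDimensional E K := by
  have h1 : Algebra.EssFiniteType k (⊤ : IntermediateField k K) :=
    IntermediateField.essFiniteType_iff.mpr hfg
  have h2 : Algebra.EssFiniteType k K :=
    Algebra.EssFiniteType.iff_of_algEquiv (IntermediateField.topEquiv (F := k) (E := K)) |>.mp h1
  have h3 : Algebra.EssFiniteType E K := Algebra.EssFiniteType.of_comp k E K
  have h4 : Subsingleton (Ω[K⁄E]) := by
    rw [subsingleton_iff_forall_eq 0]
    intro w
    obtain ⟨w', rfl⟩ := KaehlerDifferential.map_surjective k E K w
    rw [← b.linearCombination_repr w', Finsupp.linearCombination_apply, Finsupp.sum, map_sum]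
    refine Finset.sum_eq_zero fun i _ => ?_
    rw [map_smul, hb, KaehlerDifferential.map_D]
    have : D E K (algebraMap K K (x i)) = 0 := by
      have h5 := (D E K).map_algebraMap ⟨x i, hE i⟩
      exact h5
    rw [this, smul_zero]
  have h5 : Algebra.FormallyUnramified E K := ⟨h4⟩
  exact Algebra.FormallyUnramified.finite_of_free E K

end Crest.Agent.R276.PFinB_337
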