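import Mathlib
import Crest.Agent.R276.FKDefs_779
import Crest.Agent.R276.PFinA_337
import Crest.Agent.R276.PFinB_337
import Crest.Agent.R271.Br2_958

/-!
# Row 276, PFIN part C (helper337): height one primes of integral closures of polynomial rings are
divisorial; pluricanonical forms have a common denominator on an affine chart.
-/

set_option autoImplicit false
set_option linter.style.haveILetI false

noncomputable section

open KaehlerDifferential Crest.Agent.R276.FKDefs_779 Crest.Agent.R276.PFinA_337
  Crest.Agent.R276.PFinB_337 MvPolynomial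

namespace Crest.Agent.R276.PFinC_337

section div

variable {k K : Type*} [Field k] [Field K] [Algebra k K] {n : ℕ}
  [Algebra (MvPolynomial (Fin (n + 1)) k) K] [IsScalarTower k (MvPolynomial (Fin (n + 1)) k) K]

/-- A height one prime of (a ring `A` integral over) the polynomial ring is divisorial. -/
theorem isDiv_locVal {A : Type*} [CommRing A] [IsDomain A]
    [Algebra (MvPolynomial (Fin (n + 1)) k) A] [Algebra A K] [IsFractionRing A K]
    [IsScalarTower (MvPolynomial (Fin (n + 1)) k) A K]
    [Algebra.IsIntegral (MvPolynomial (Fin (n + 1)) k) A]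
    [FaithfulSMul (MvPolynomial (Fin (n + 1)) k) A]
    (p : Ideal A) [hp : p.IsPrime] (h : p.height = 1) (hv : ValuationRing (Localization.AtPrime p)) :
    IsDiv k (n + 1) (locVal K p hv) := by
  classical
  have hp0 : p ≠ ⊥ := Ideal.ne_bot_of_height_eq_one h
  have hmem : ∀ q : MvPolynomial (Fin (n + 1)) k, algebraMap _ K q ∈ locVal K p hv := by
    intro q
    rw [IsScalarTower.algebraMap_apply (MvPolynomial (Fin (n + 1)) k) A K]
    exact algebraMap_mem _
  refine ⟨fun c => ?_, ne_top hp0, ?_⟩
  · rw [IsScalarTower.algebraMap_apply k (MvPolynomial (Fin (n + 1)) k) K]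
    exact hmem _
  · -- the trace of `p` on the polynomial ring is principal
    set q : Ideal (MvPolynomial (Fin (n + 1)) k) := p.under (MvPolynomial (Fin (n + 1)) k) with hq
    have hqp : q.IsPrime := inferInstance
    have hq0 : q ≠ ⊥ := fun h0 => hp0 (Ideal.eq_bot_of_comap_eq_bot h0)
    obtain ⟨f, hfq, hf⟩ := hqp.exists_mem_prime_of_ne_bot hq0
    have hqf : q = Ideal.span {f} := by
      by_contra hne
      have hfp : (Ideal.span {f}).IsPrime := by
        rw [Ideal.span_singleton_prime hf.ne_zero]; exact hf
      have hlt : Ideal.span {f} < q :=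
        lt_of_le_of_ne ((Ideal.span_singleton_le_iff_mem _).mpr hfq) (Ne.symm hne)
      obtain ⟨P', hP', hP'p, hP'o⟩ := Ideal.exists_ideal_lt_liesOver_of_lt (S := A) p hlt
      have h1 := Ideal.height_add_one_le_of_lt_of_isPrime hP'
      rw [h] at h1
      have h2 : P'.height = 0 := by
        by_contra h0
        have : 1 ≤ P'.height := Order.one_le_iff_ne_zero.mpr h0
        have h6 : (1 : ℕ∞) + 1 ≤ 1 := le_trans (by gcongr) h1
        norm_num at h6
      rw [Ideal.height_eq_zero_iff_eq_bot] at h2
      have h3 : f ∈ P'.under (MvPolynomial (Fin (n + 1)) k) := by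
        rw [← hP'o.over]
        exact Ideal.mem_span_singleton_self f
      rw [h2, Ideal.under_def, Ideal.mem_comap, Ideal.mem_bot] at h3
      exact hf.ne_zero ((FaithfulSMul.algebraMap_eq_zero_iff _ _).mp h3)
    -- a variable occurring in `f`
    obtain ⟨i, hi⟩ : ∃ i, 0 < degreeOf i f := by
      by_contra hcon
      push Not at hcon
      have h0 : f.vars = ∅ := by
        rw [Finset.eq_empty_iff_forall_notMem]
        intro i hi
        obtain ⟨d, hd, hid⟩ := (mem_vars_iff_mem_support i).mp hi
        have h2 := monomial_le_degreeOf i hd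
        have h3 := hcon i
        have h4 := Finsupp.mem_support_iff.mp hid
        omega
      have hc := vars_eq_empty_iff_eq_C.mp h0
      have hc0 : f.coeff 0 ≠ 0 := by intro h; exact hf.ne_zero (by rw [hc, h, C_0])
      apply hf.not_isUnit
      rw [hc]
      exact (isUnit_iff_ne_zero.mpr hc0).map C
    refine ⟨fun j => algebraMap _ K (X (i.succAbove j) : MvPolynomial (Fin (n + 1)) k),
      fun j => hmem _, ?_⟩
    intro Q hQ
    change MvPolynomial (Fin n) k at Q
    have h1 : aeval (fun j => algebraMap _ K (X (i.succAbove j) : MvPolynomial (Fin (n + 1)) k)) Q =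
        algebraMap A K (algebraMap (MvPolynomial (Fin (n + 1)) k) A (rename i.succAbove Q)) := by
      rw [← IsScalarTower.algebraMap_apply (MvPolynomial (Fin (n + 1)) k) A K]
      have : (aeval (fun j => algebraMap _ K (X (i.succAbove j) : MvPolynomial (Fin (n + 1)) k)) :
          MvPolynomial (Fin n) k →ₐ[k] K) =
          (IsScalarTower.toAlgHom k (MvPolynomial (Fin (n + 1)) k) K).comp
            (rename i.succAbove) := by
        ext j
        simp
      rw [this]
      rfl
    have goal : (locVal K p hv).valuation (algebraMap A K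
        (algebraMap (MvPolynomial (Fin (n + 1)) k) A (rename i.succAbove Q))) = 1 := ?_
    · exact (congrArg _ h1).trans goal
    apply valuation_eq_one
    intro h2
    have h3 : rename i.succAbove Q ∈ q := h2
    rw [hqf, Ideal.mem_span_singleton] at h3
    obtain ⟨g, hg⟩ := h3
    have hr0 : rename i.succAbove Q ≠ 0 := by
      rw [Ne, rename_eq_zero_iff_of_injective Q Fin.succAbove_right_injective]
      exact hQ
    have hg0 : g ≠ 0 := by rintro rfl; exact hr0 (by rw [hg, mul_zero])
    have h4 := congrArg (degreeOf i) hg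
    rw [degreeOf_mul_eq hf.ne_zero hg0] at h4
    have h5 : degreeOf i (rename i.succAbove Q) = 0 := by
      by_contra h6
      rw [degreeOf_eq_sup, ← Ne, ← Nat.pos_iff_ne_zero, Finset.lt_sup_iff] at h6
      obtain ⟨d, hd, hdi⟩ := h6
      have h7 : i ∈ (rename i.succAbove Q).vars :=
        (mem_vars_iff_mem_support i).mpr ⟨d, hd, Finsupp.mem_support_iff.mpr (by omega)⟩
      obtain ⟨j, -, hj⟩ := mem_vars_rename _ _ h7
      exact Fin.succAbove_ne i j hj
    omega

end div

section chart

variable {k K : Type*} [Field k] [Field K] [Algebra k K] {n : ℕ}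

/-- `z` is integral over `k[y₁, …, yₙ]` -/
def IntOver (k : Type*) {K : Type*} [Field k] [Field K] [Algebra k K] {n : ℕ} (y : Fin n → K)
    (z : K) : Prop :=
  ((aeval y : MvPolynomial (Fin n) k →ₐ[k] K) : MvPolynomial (Fin n) k →+* K).IsIntegralElem z

/-- membership in a valuation ring containing a localisation: the coefficients of the differential
of an element of `R` have the common denominator `a` -/
lemma co_mem {A : Type*} [CommRing A] [IsDomain A] [Algebra A K] [IsFractionRing A K]
    (b : Module.Basis (Fin n) K (Ω[K⁄k])) (a : K) {p : Ideal A} [hp : p.IsPrime]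
    {hv : ValuationRing (Localization.AtPrime p)}
    (ha : ∀ u : A, ∀ i, a * co b i (algebraMap A K u) ∈ (algebraMap A K).range)
    {z : K} (hz : z ∈ locVal K p hv) (i : Fin n) : a * co b i z ∈ locVal K p hv := by
  obtain ⟨u, v, hvp, huv⟩ := hz
  have hv0 : algebraMap A K v ≠ 0 := by
    intro h0
    have : v = 0 := (IsFractionRing.injective A K) (by rw [h0, map_zero])
    exact hvp (this ▸ p.zero_mem)
  have h1 := co_div b i huv
  obtain ⟨u', hu'⟩ := ha u i
  obtain ⟨v', hv'⟩ := ha v i
  refine ⟨u' * v - u * v', v * v, fun h => (hp.mem_or_mem h).elim hvp hvp, ?_⟩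
  rw [map_mul, map_sub, map_mul, map_mul, hu', hv']
  linear_combination a * h1

/-- **Common denominators on a chart.** -/
theorem exists_mult [CharZero k] (hfg : FGF k K) (b₀ b : Module.Basis (Fin (n + 1)) K (Ω[K⁄k]))
    (y : Fin (n + 1) → K) (hb : ∀ i, b i = D k K (y i)) (m : ℕ) :
    ∃ a : MvPolynomial (Fin (n + 1)) k, a ≠ 0 ∧ ∀ g : K,
      (∀ R : ValuationSubring K, IsDiv k (n + 1) R → (∀ i, y i ∈ R) → RegAt k R b₀ m g) →
      IntOver k y (aeval y a * g) := by
  classical
  let P := MvPolynomial (Fin (n + 1)) k
  have hai : AlgebraicIndependent k y := algInd y (by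
    have := b.linearIndependent
    simpa only [← hb] using this)
  let E : IntermediateField k K := IntermediateField.adjoin k (Set.range y)
  have hyE : ∀ i, y i ∈ E := fun i => IntermediateField.subset_adjoin k _ ⟨i, rfl⟩
  letI algPK : Algebra P K := ((aeval y : P →ₐ[k] K) : P →+* K).toAlgebra
  have hPK : ∀ p : P, algebraMap P K p = aeval y p := fun p => rfl
  letI algPE : Algebra P E := ((aeval (fun i => (⟨y i, hyE i⟩ : E)) : P →ₐ[k] E) : P →+* E).toAlgebra
  have hPE : ∀ p : P, algebraMap P E p = aeval (fun i => (⟨y i, hyE i⟩ : E)) p := fun p => rfl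
  haveI st1 : IsScalarTower k P K := IsScalarTower.of_algebraMap_eq fun c => by
    rw [hPK]; simp [P]
  haveI st2 : IsScalarTower P E K := IsScalarTower.of_algebraMap_eq fun p => by
    rw [hPK, hPE]
    have := aeval_algebraMap_apply K (fun i => (⟨y i, hyE i⟩ : E)) p
    exact this
  have hinjK : Function.Injective (algebraMap P K) := hai
  haveI fsK : FaithfulSMul P K := (faithfulSMul_iff_algebraMap_injective P K).mpr hinjK
  have hinjE : Function.Injective (algebraMap P E) := by
    intro p q hpq
    apply hinjK
    rw [IsScalarTower.algebraMap_apply P E K, IsScalarTower.algebraMap_apply P E K, hpq]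
  haveI fsE : FaithfulSMul P E := (faithfulSMul_iff_algebraMap_injective P E).mpr hinjE
  haveI frE : IsFractionRing P E := by
    refine IsFractionRing.of_field P E fun z => ?_
    obtain ⟨r, s, hrs⟩ := (IntermediateField.mem_adjoin_range_iff k y (z : K)).mp z.2
    refine ⟨r, s, Subtype.ext ?_⟩
    rw [hrs]
    push_cast
    have h := fun q : P => (IsScalarTower.algebraMap_apply P E K q)
    have h2 : ∀ q : P, ((algebraMap P E q : E) : K) = aeval y q := fun q => (h q).symm
    rw [h2, h2]
  haveI fdE : FiniteDimensional E K := finite_of_basis hfg b y hb E hyE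
  haveI : CharZero E := charZero_of_injective_algebraMap (algebraMap k E).injective
  haveI sep : Algebra.IsSeparable E K := inferInstance
  let A := integralClosure P K
  have noeth : IsNoetherian P A := IsIntegralClosure.isNoetherian P E K A
  haveI : IsNoetherianRing A := isNoetherian_of_tower P noeth
  haveI : IsIntegrallyClosed A := integralClosure.isIntegrallyClosedOfFiniteExtension E
  haveI : IsFractionRing A K := integralClosure.isFractionRing_of_finite_extension E K
  haveI : FaithfulSMul P A := (faithfulSMul_iff_algebraMap_injective P A).mpr (by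
    intro p q hpq
    apply hinjK
    exact congrArg Subtype.val hpq)
  obtain ⟨a₀, ha₀, hbd⟩ := exists_bound E b noeth (fun s i => ⟨pderiv i s, by
    rw [hPK, hPK, co_aeval b y hb]⟩)
  have ha₀K : algebraMap P K a₀ ≠ 0 := (map_ne_zero_iff _ hinjK).mpr ha₀
  -- the change of basis
  set j : K := b₀.det b with hj
  have hj0 : j ≠ 0 := det_basis_ne_zero b₀ b
  obtain ⟨c, hc0, hc⟩ := exists_integral_multiples P E (L := K) {j ^ m}
  refine ⟨c * a₀ ^ ((n + 1) * m), mul_ne_zero hc0 (pow_ne_zero _ ha₀), fun g hg => ?_⟩
  have key : ∃ a : A, algebraMap A K a = algebraMap P K a₀ ^ ((n + 1) * m) * g / j ^ m := by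
    apply Crest.Agent.R271.Br958.hartogs
    intro p hp hp1
    have hv := valuationRing_of_height_one p hp1
    have hdiv : IsDiv k (n + 1) (locVal K p hv) := isDiv_locVal p hp1 hv
    have hyR : ∀ i, y i ∈ locVal K p hv := by
      intro i
      have h1 : y i = algebraMap A K (algebraMap P A (X i)) := by
        rw [← IsScalarTower.algebraMap_apply P A K, hPK, aeval_X]
      rw [h1]
      exact algebraMap_mem _
    obtain ⟨z, hz, hvg⟩ := hg _ hdiv hyR
    set R := locVal K p hv with hR
    have hco : ∀ i l, algebraMap P K a₀ * co b i (z l) ∈ R := by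
      intro i l
      refine co_mem b _ (fun u i => ?_) (hz l) i
      exact ⟨⟨_, hbd (algebraMap A K u) u.2 i⟩, rfl⟩
    have hdet : algebraMap P K a₀ ^ (n + 1) * jac k b z ∈ R := by
      rw [jac_eq]
      have h1 : algebraMap P K a₀ ^ (n + 1) * Matrix.det (Matrix.of fun i l => co b i (z l)) =
          Matrix.det (Matrix.of fun i l => algebraMap P K a₀ * co b i (z l)) := by
        have := Matrix.det_smul (Matrix.of fun i l => co b i (z l)) (algebraMap P K a₀)
        rw [Fintype.card_fin] at this
        exact this.symm
      rw [h1, Matrix.det_apply]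
      refine sum_mem fun σ _ => ?_
      rw [Units.smul_def, zsmul_eq_mul]
      refine mul_mem ?_ (prod_mem fun i _ => hco _ _)
      exact intCast_mem R _
    have hval : R.valuation (algebraMap P K a₀ ^ ((n + 1) * m) * g / j ^ m) ≤ 1 := by
      have h2 : R.valuation (algebraMap P K a₀ ^ (n + 1) * jac k b z) ≤ 1 :=
        (R.valuation_le_one_iff _).mpr hdet
      have hj0' : R.valuation j ≠ 0 := (Valuation.ne_zero_iff _).mpr hj0
      rw [map_div₀, map_mul, map_pow, map_pow]
      rw [jac_change b₀ b z, map_mul, ← hj, mul_pow] at hvg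
      rw [map_mul, map_pow] at h2
      calc R.valuation (algebraMap P K a₀) ^ ((n + 1) * m) * R.valuation g / R.valuation j ^ m
          ≤ R.valuation (algebraMap P K a₀) ^ ((n + 1) * m) *
            (R.valuation j ^ m * R.valuation (jac k b z) ^ m) / R.valuation j ^ m := by
            gcongr
            exact zero_le
        _ = (R.valuation (algebraMap P K a₀) ^ (n + 1) * R.valuation (jac k b z)) ^ m := by
            rw [mul_pow, ← pow_mul, mul_comm (R.valuation j ^ m), ← mul_assoc,
              mul_div_assoc, div_self (pow_ne_zero _ hj0'), mul_one]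
        _ ≤ 1 := pow_le_one₀ (zero_le) h2
    rw [R.valuation_le_one_iff] at hval
    obtain ⟨u, v, hvp, huv⟩ := hval
    exact ⟨u, v, hvp, by rw [← huv]; ring⟩
  obtain ⟨w, hw⟩ := key
  have hwi : IsIntegral P (algebraMap P K a₀ ^ ((n + 1) * m) * g / j ^ m) := by
    rw [← hw]; exact w.2
  have hfin := (hc (j ^ m) (Finset.mem_singleton_self _)).mul hwi
  have heq : c • j ^ m * (algebraMap P K a₀ ^ ((n + 1) * m) * g / j ^ m) =
      aeval y (c * a₀ ^ ((n + 1) * m)) * g := by
    rw [Algebra.smul_def, map_mul, map_pow, ← hPK, ← hPK]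
    field_simp
  rw [heq] at hfin
  exact hfin

end chart

end Crest.Agent.R276.PFinC_337
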