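import Mathlib
import Crest.Agent.R276.FKDefs_779
import Crest.Agent.R276.PFinB_337
import Crest.Agent.R276.PFinC_337

/-!
# Row 276, PFIN part D (helper337): charts at infinity, traces, degree bounds.
-/

set_option autoImplicit false
set_option linter.style.haveILetI false

noncomputable section

open KaehlerDifferential Crest.Agent.R276.FKDefs_779 Crest.Agent.R276.PFinA_337
  Crest.Agent.R276.PFinB_337 Crest.Agent.R276.PFinC_337 MvPolynomial

namespace Crest.Agent.R276.PFinD_337

variable {k K : Type*} [Field k] [Field K] [Algebra k K] {n : ℕ}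

lemma IntOver.mul {y : Fin n → K} {z w : K} (hz : IntOver k y z) (hw : IntOver k y w) :
    IntOver k y (z * w) :=
  RingHom.IsIntegralElem.mul _ hz hw

lemma intOver_aeval (y : Fin n → K) (p : MvPolynomial (Fin n) k) : IntOver k y (aeval y p) :=
  RingHom.isIntegralElem_map _

/-- traces of elements integral over `k[y]` are polynomials in `y` -/
theorem trace_mem (y : Fin n → K) (hy : AlgebraicIndependent k y)
    (E : IntermediateField k K) (hyE : ∀ i, y i ∈ E)
    (hE : E ≤ IntermediateField.adjoin k (Set.range y)) [FiniteDimensional E K] (z : K)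
    (hz : IntOver k y z) : ∃ p : MvPolynomial (Fin n) k, ((Algebra.trace E K z : E) : K) = aeval y p := by
  let P := MvPolynomial (Fin n) k
  letI algPK : Algebra P K := ((aeval y : P →ₐ[k] K) : P →+* K).toAlgebra
  have hPK : ∀ p : P, algebraMap P K p = aeval y p := fun p => rfl
  letI algPE : Algebra P E := ((aeval (fun i => (⟨y i, hyE i⟩ : E)) : P →ₐ[k] E) : P →+* E).toAlgebra
  have hPE : ∀ p : P, algebraMap P E p = aeval (fun i => (⟨y i, hyE i⟩ : E)) p := fun p => rfl
  haveI st2 : IsScalarTower P E K := IsScalarTower.of_algebraMap_eq fun p => by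
    rw [hPK, hPE]
    have := aeval_algebraMap_apply K (fun i => (⟨y i, hyE i⟩ : E)) p
    exact this
  have hinjK : Function.Injective (algebraMap P K) := hy
  have hinjE : Function.Injective (algebraMap P E) := by
    intro p q hpq
    apply hinjK
    rw [IsScalarTower.algebraMap_apply P E K, IsScalarTower.algebraMap_apply P E K, hpq]
  haveI fsE : FaithfulSMul P E := (faithfulSMul_iff_algebraMap_injective P E).mpr hinjE
  haveI frE : IsFractionRing P E := by
    refine IsFractionRing.of_field P E fun z => ?_
    obtain ⟨r, s, hrs⟩ := (IntermediateField.mem_adjoin_range_iff k y (z : K)).mp (hE z.2)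
    refine ⟨r, s, Subtype.ext ?_⟩
    rw [hrs]
    push_cast
    have h := fun q : P => (IsScalarTower.algebraMap_apply P E K q)
    have h2 : ∀ q : P, ((algebraMap P E q : E) : K) = aeval y q := fun q => (h q).symm
    rw [h2, h2]
  have h1 : IsIntegral P (Algebra.trace E K z) := Algebra.isIntegral_trace (R := P) hz
  obtain ⟨p, hp⟩ := IsIntegrallyClosed.isIntegral_iff.mp h1
  refine ⟨p, ?_⟩
  rw [← hp]
  exact (IsScalarTower.algebraMap_apply P E K p).symm

/-- denominators -/
theorem exists_den (y : Fin n → K) (hy : AlgebraicIndependent k y)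
    (E : IntermediateField k K) (hyE : ∀ i, y i ∈ E)
    (hE : E ≤ IntermediateField.adjoin k (Set.range y)) [FiniteDimensional E K] (z : K) :
    ∃ c : MvPolynomial (Fin n) k, c ≠ 0 ∧ IntOver k y (aeval y c * z) := by
  let P := MvPolynomial (Fin n) k
  letI algPK : Algebra P K := ((aeval y : P →ₐ[k] K) : P →+* K).toAlgebra
  have hPK : ∀ p : P, algebraMap P K p = aeval y p := fun p => rfl
  letI algPE : Algebra P E := ((aeval (fun i => (⟨y i, hyE i⟩ : E)) : P →ₐ[k] E) : P →+* E).toAlgebra
  have hPE : ∀ p : P, algebraMap P E p = aeval (fun i => (⟨y i, hyE i⟩ : E)) p := fun p => rfl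
  haveI st2 : IsScalarTower P E K := IsScalarTower.of_algebraMap_eq fun p => by
    rw [hPK, hPE]
    have := aeval_algebraMap_apply K (fun i => (⟨y i, hyE i⟩ : E)) p
    exact this
  have hinjK : Function.Injective (algebraMap P K) := hy
  have hinjE : Function.Injective (algebraMap P E) := by
    intro p q hpq
    apply hinjK
    rw [IsScalarTower.algebraMap_apply P E K, IsScalarTower.algebraMap_apply P E K, hpq]
  haveI fsE : FaithfulSMul P E := (faithfulSMul_iff_algebraMap_injective P E).mpr hinjE
  haveI frE : IsFractionRing P E := by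
    refine IsFractionRing.of_field P E fun z => ?_
    obtain ⟨r, s, hrs⟩ := (IntermediateField.mem_adjoin_range_iff k y (z : K)).mp (hE z.2)
    refine ⟨r, s, Subtype.ext ?_⟩
    rw [hrs]
    push_cast
    have h := fun q : P => (IsScalarTower.algebraMap_apply P E K q)
    have h2 : ∀ q : P, ((algebraMap P E q : E) : K) = aeval y q := fun q => (h q).symm
    rw [h2, h2]
  obtain ⟨c, hc0, hc⟩ := exists_integral_multiples P E (L := K) {z}
  refine ⟨c, hc0, ?_⟩
  have := hc z (Finset.mem_singleton_self _)
  rw [Algebra.smul_def, hPK] at this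
  exact this

/-- reversal of the exponent of the variable `i` -/
def rev (i : Fin n) (d : ℕ) (p : MvPolynomial (Fin n) k) : MvPolynomial (Fin n) k :=
  ∑ m ∈ p.support, monomial (m.update i (d - m i)) (coeff m p)

lemma aeval_rev (x : Fin n → K) (i : Fin n) (hx : x i ≠ 0) {d : ℕ} {p : MvPolynomial (Fin n) k}
    (hd : degreeOf i p ≤ d) :
    aeval (Function.update x i (x i)⁻¹) (rev i d p) = (x i)⁻¹ ^ d * aeval x p := by
  classical
  obtain ⟨n, rfl⟩ : ∃ n', n = n' + 1 := ⟨n - 1, by have := i.2; omega⟩
  conv_rhs => rw [p.as_sum]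
  rw [rev, map_sum, map_sum, Finset.mul_sum]
  refine Finset.sum_congr rfl fun m hm => ?_
  have hmi : m i ≤ d := (monomial_le_degreeOf i hm).trans hd
  rw [aeval_monomial, aeval_monomial, Finsupp.prod_fintype _ _ (by simp),
    Finsupp.prod_fintype _ _ (by simp), Fin.prod_univ_succAbove _ i, Fin.prod_univ_succAbove _ i]
  have h1 : ∀ j, (Function.update x i (x i)⁻¹) (i.succAbove j) ^ (m.update i (d - m i)) (i.succAbove j)
      = x (i.succAbove j) ^ m (i.succAbove j) := by
    intro j
    rw [Function.update_of_ne (Fin.succAbove_ne i j), Finsupp.coe_update,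
      Function.update_of_ne (Fin.succAbove_ne i j)]
  rw [Finset.prod_congr rfl fun j _ => h1 j]
  rw [Function.update_self, Finsupp.coe_update, Function.update_self]
  have h2 : (x i)⁻¹ ^ d * x i ^ m i = (x i)⁻¹ ^ (d - m i) := by
    obtain ⟨e, rfl⟩ := Nat.exists_eq_add_of_le hmi
    rw [pow_add, Nat.add_sub_cancel_left, mul_comm ((x i)⁻¹ ^ m i), mul_assoc, ← mul_pow,
      inv_mul_cancel₀ hx, one_pow, mul_one]
  rw [← h2]
  ring

lemma not_X_dvd_rev (i : Fin n) {p : MvPolynomial (Fin n) k} (hp : p ≠ 0) :
    ¬ (X i ∣ rev i (degreeOf i p) p) := by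
  classical
  rintro ⟨r, hr⟩
  obtain ⟨m, hm, hmd⟩ : ∃ m ∈ p.support, degreeOf i p = m i := by
    rw [degreeOf_eq_sup]
    exact Finset.exists_mem_eq_sup _ (support_nonempty.mpr hp) _
  have h1 : coeff (m.update i 0) (rev i (degreeOf i p) p) = coeff m p := by
    rw [rev, coeff_sum, Finset.sum_eq_single m]
    · rw [← hmd, Nat.sub_self, coeff_monomial, if_pos rfl]
    · intro m2 hm2 hne
      rw [coeff_monomial, if_neg]
      intro heq
      apply hne
      have h2 := monomial_le_degreeOf i hm2
      ext j
      by_cases hj : j = i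
      · subst hj
        have h3 := DFunLike.congr_fun heq j
        rw [Finsupp.coe_update, Finsupp.coe_update, Function.update_self,
          Function.update_self] at h3
        omega
      · have h3 := DFunLike.congr_fun heq j
        rwa [Finsupp.coe_update, Finsupp.coe_update, Function.update_of_ne hj,
          Function.update_of_ne hj] at h3
    · intro h; exact absurd hm h
  rw [hr, coeff_X_mul', if_neg (by simp)] at h1
  exact (mem_support_iff.mp hm) h1.symm

/-- bound for the degree in the variable `i` -/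
theorem degree_le (x : Fin n → K) (i : Fin n) (hx : x i ≠ 0)
    (hy : AlgebraicIndependent k (Function.update x i (x i)⁻¹))
    (p A r : MvPolynomial (Fin n) k) (hA : A ≠ 0)
    (h : aeval (Function.update x i (x i)⁻¹) A * aeval x p =
      aeval (Function.update x i (x i)⁻¹) r) : degreeOf i p ≤ degreeOf i A := by
  classical
  by_cases hp : p = 0
  · subst hp; simp
  set d := degreeOf i p with hd
  have h1 : aeval (Function.update x i (x i)⁻¹) (A * rev i d p) =
      aeval (Function.update x i (x i)⁻¹) (X i ^ d * r) := by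
    rw [map_mul, map_mul, aeval_rev x i hx hd.symm.le, map_pow, aeval_X, Function.update_self, ← h]
    ring
  have h2 : A * rev i d p = X i ^ d * r := hy h1
  have h3 : X i ^ d ∣ A :=
    (X_prime (i := i)).pow_dvd_of_dvd_mul_right d (not_X_dvd_rev i hp) ⟨r, h2⟩
  obtain ⟨s, hs⟩ := h3
  have hs0 : s ≠ 0 := by rintro rfl; exact hA (by rw [hs, mul_zero])
  rw [hs, degreeOf_mul_eq (pow_ne_zero _ (X_ne_zero i)) hs0,
    degreeOf_pow_eq i _ _ (X_ne_zero i), degreeOf_X, if_pos rfl]
  omega

end Crest.Agent.R276.PFinD_337
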