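import Mathlib
import Crest.Agent.R276.FKDefs_779
import Crest.Agent.R276.PFinB_337
import Crest.Agent.R276.PFinC_337
import Crest.Agent.R276.PFinD_337

/-!
# Row 276, task PFIN (helper337): the spaces of pluricanonical forms of a finitely generated field
extension of characteristic zero are finite dimensional.
-/

set_option autoImplicit false
set_option linter.style.haveILetI false

noncomputable section

open KaehlerDifferential Crest.Agent.R276.FKDefs_779 Crest.Agent.R276.PFinA_337
  Crest.Agent.R276.PFinB_337 Crest.Agent.R276.PFinC_337 Crest.Agent.R276.PFinD_337 MvPolynomial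

namespace Crest.Agent.R276.PFin_337

variable {k K : Type*} [Field k] [Field K] [Algebra k K] {n : ℕ}

/-- the chart at infinity in the direction `i` -/
def inv (x : Fin n → K) (i : Fin n) : Fin n → K := Function.update x i (x i)⁻¹

/-- the basis of differentials belonging to the chart at infinity -/
theorem exists_inv_basis (b : Module.Basis (Fin n) K (Ω[K⁄k])) (x : Fin n → K)
    (hb : ∀ i, b i = D k K (x i)) (i : Fin n) :
    ∃ b' : Module.Basis (Fin n) K (Ω[K⁄k]), ∀ j, b' j = D k K (inv x i j) := by
  classical
  have hxi : x i ≠ 0 := by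
    intro h0
    have h1 := hb i
    rw [h0, map_zero] at h1
    exact b.ne_zero i h1
  have hu : ∀ j, IsUnit (if j = i then -(x i)⁻¹ ^ 2 else (1 : K)) := by
    intro j
    split_ifs
    · exact (isUnit_iff_ne_zero.mpr (neg_ne_zero.mpr (pow_ne_zero _ (inv_ne_zero hxi))))
    · exact isUnit_one
  refine ⟨b.isUnitSMul hu, fun j => ?_⟩
  rw [Module.Basis.isUnitSMul_apply, inv]
  by_cases hj : j = i
  · subst hj
    rw [if_pos rfl, Function.update_self, Derivation.leibniz_inv, hb]
  · rw [if_neg hj, one_smul, Function.update_of_ne hj, hb]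

/-- **Finite dimensionality from bounded denominators** on the affine chart `x` and on the charts
at infinity. -/
theorem finite_of_charts [CharZero k] (hfg : FGF k K) (b : Module.Basis (Fin n) K (Ω[K⁄k]))
    (x : Fin n → K) (hb : ∀ i, b i = D k K (x i)) (V : Submodule k K)
    (h0 : ∃ a : MvPolynomial (Fin n) k, a ≠ 0 ∧ ∀ g ∈ V, IntOver k x (aeval x a * g))
    (h1 : ∀ i, ∃ a : MvPolynomial (Fin n) k, a ≠ 0 ∧
      ∀ g ∈ V, IntOver k (inv x i) (aeval (inv x i) a * g)) :
    FiniteDimensional k V := by
  classical
  have hxi : ∀ i, x i ≠ 0 := by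
    intro i h0
    have h1 := hb i
    rw [h0, map_zero] at h1
    exact b.ne_zero i h1
  have hx : AlgebraicIndependent k x := algInd x (by
    have := b.linearIndependent
    simpa only [← hb] using this)
  have hxv : ∀ i, AlgebraicIndependent k (inv x i) := by
    intro i
    obtain ⟨b', hb'⟩ := exists_inv_basis b x hb i
    exact algInd _ (by
      have := b'.linearIndependent
      simpa only [← hb'] using this)
  let E : IntermediateField k K := IntermediateField.adjoin k (Set.range x)
  have hxE : ∀ i, x i ∈ E := fun i => IntermediateField.subset_adjoin k _ ⟨i, rfl⟩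
  have hvE : ∀ i j, inv x i j ∈ E := by
    intro i j
    unfold inv
    by_cases hj : j = i
    · subst hj
      rw [Function.update_self]
      exact inv_mem (hxE _)
    · rw [Function.update_of_ne hj]
      exact hxE _
  have hEv : ∀ i, E ≤ IntermediateField.adjoin k (Set.range (inv x i)) := by
    intro i
    rw [IntermediateField.adjoin_le_iff]
    rintro _ ⟨j, rfl⟩
    have hmem : ∀ j, inv x i j ∈ IntermediateField.adjoin k (Set.range (inv x i)) :=
      fun j => IntermediateField.subset_adjoin k _ ⟨j, rfl⟩
    by_cases hj : j = i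
    · subst hj
      have := inv_mem (hmem j)
      unfold inv at this ⊢
      rwa [Function.update_self, inv_inv] at this
    · have := hmem j
      unfold inv at this ⊢
      rwa [Function.update_of_ne hj] at this
  haveI fdE : FiniteDimensional E K := finite_of_basis hfg b x hb E hxE
  haveI : CharZero E := charZero_of_injective_algebraMap (algebraMap k E).injective
  haveI sep : Algebra.IsSeparable E K := inferInstance
  obtain ⟨a, ha0, ha⟩ := h0
  choose av hav0 hav using h1
  -- the basis
  let u := Module.finBasis E K
  choose c hc0 hc using fun j => exists_den x hx E hxE le_rfl (u j)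
  set w := fun j => aeval x (c j) * u j with hw
  choose cv hcv0 hcv using fun i j => exists_den (inv x i) (hxv i) E (hvE i) (hEv i) (w j)
  have haK : aeval x a ≠ 0 := fun h => ha0 (hx (by rw [h, map_zero]))
  -- the trace map
  let T : K →ₗ[k] (Fin (Module.finrank E K) → K) :=
    LinearMap.pi fun j => (E.val.toLinearMap ∘ₗ (Algebra.trace E K).restrictScalars k) ∘ₗ
      LinearMap.mulLeft k (aeval x a * w j)
  have hT : ∀ g j, T g j = ((Algebra.trace E K (aeval x a * w j * g) : E) : K) := fun g j => rfl
  -- the degree bound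
  let N := fun j => ∑ i, degreeOf i (av i * cv i j * X i ^ degreeOf i a)
  let M := ∑ j, N j
  have hmain : ∀ g ∈ V, ∀ j, ∃ p : MvPolynomial (Fin n) k, p ∈ restrictTotalDegree (Fin n) k M ∧
      T g j = aeval x p := by
    intro g hg j
    have hint : IntOver k x (aeval x a * w j * g) := by
      have := IntOver.mul (ha g hg) (hc j)
      have h3 : aeval x a * g * (aeval x (c j) * u j) = aeval x a * w j * g := by
        rw [hw]; ring
      rwa [h3] at this
    obtain ⟨p, hp⟩ := trace_mem x hx E hxE le_rfl _ hint
    refine ⟨p, ?_, by rw [hT, hp]⟩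
    rw [mem_restrictTotalDegree]
    have hdeg : ∀ i, degreeOf i p ≤ degreeOf i (av i * cv i j * X i ^ degreeOf i a) := by
      intro i
      set A := av i * cv i j * X i ^ degreeOf i a with hA
      have hA0 : A ≠ 0 := mul_ne_zero (mul_ne_zero (hav0 i) (hcv0 i j))
        (pow_ne_zero _ (X_ne_zero i))
      -- integrality over the chart at infinity
      have hrev : aeval (inv x i) (rev i (degreeOf i a) a) = (x i)⁻¹ ^ degreeOf i a * aeval x a :=
        aeval_rev x i (hxi i) le_rfl
      have h4 : IntOver k (inv x i) (aeval (inv x i) A * (aeval x a * w j * g)) := by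
        have h5 := IntOver.mul (IntOver.mul (hav i g hg) (hcv i j))
          (intOver_aeval (inv x i) (rev i (degreeOf i a) a))
        have h6 : aeval (inv x i) (av i) * g * (aeval (inv x i) (cv i j) * w j) *
            aeval (inv x i) (rev i (degreeOf i a) a) =
            aeval (inv x i) A * (aeval x a * w j * g) := by
          rw [hrev, hA, map_mul, map_mul, map_pow, aeval_X]
          have : inv x i i = (x i)⁻¹ := by unfold inv; rw [Function.update_self]
          rw [this]
          ring
        rwa [h6] at h5
      obtain ⟨r, hr⟩ := trace_mem (inv x i) (hxv i) E (hvE i) (hEv i) _ h4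
      have h7 : ((Algebra.trace E K (aeval (inv x i) A * (aeval x a * w j * g)) : E) : K) =
          aeval (inv x i) A * aeval x p := by
        have h8 : aeval (inv x i) A =
            algebraMap E K (aeval (fun l => (⟨inv x i l, hvE i l⟩ : E)) A) :=
          aeval_algebraMap_apply K (fun l => (⟨inv x i l, hvE i l⟩ : E)) A
        rw [h8, ← Algebra.smul_def, map_smul, smul_eq_mul]
        rw [← hp]
        rfl
      rw [h7] at hr
      exact degree_le x i (hxi i) (hxv i) p A r hA0 hr
    have h9 : p.totalDegree ≤ ∑ i, degreeOf i p := by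
      rw [totalDegree, Finset.sup_le_iff]
      intro m hm
      rw [Finsupp.sum_fintype _ _ (by simp)]
      exact Finset.sum_le_sum fun i _ => monomial_le_degreeOf i hm
    calc p.totalDegree ≤ ∑ i, degreeOf i p := h9
      _ ≤ N j := Finset.sum_le_sum fun i _ => hdeg i
      _ ≤ M := Finset.single_le_sum (f := N) (fun _ _ => Nat.zero_le _) (Finset.mem_univ j)
  -- injectivity
  have hinj : Function.Injective T := by
    rw [injective_iff_map_eq_zero]
    intro g hg
    have h3 : ∀ j, Algebra.trace E K (u j * (aeval x a * g)) = 0 := by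
      intro j
      have h4 : Algebra.trace E K (aeval x a * w j * g) = 0 := by
        have := congrFun hg j
        rw [hT] at this
        exact Subtype.ext (by simpa using this)
      have h8 : aeval x (c j) = algebraMap E K (aeval (fun l => (⟨x l, hxE l⟩ : E)) (c j)) :=
        aeval_algebraMap_apply K (fun l => (⟨x l, hxE l⟩ : E)) (c j)
      have h5 : aeval x a * w j * g =
          (aeval (fun l => (⟨x l, hxE l⟩ : E)) (c j)) • (u j * (aeval x a * g)) := by
        rw [Algebra.smul_def, ← h8, hw]
        ring
      rw [h5, map_smul, smul_eq_mul] at h4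
      rcases mul_eq_zero.mp h4 with h6 | h6
      · exfalso
        apply hc0 j
        apply hx
        rw [h8, h6, map_zero, map_zero]
      · exact h6
    have h4 : ∀ z, Algebra.trace E K (z * (aeval x a * g)) = 0 := by
      intro z
      rw [← u.sum_repr z, Finset.sum_mul, map_sum]
      refine Finset.sum_eq_zero fun j _ => ?_
      rw [smul_mul_assoc, map_smul, h3, smul_zero]
    have h5 : aeval x a * g = 0 := by
      have hnd := traceForm_nondegenerate E K
      exact hnd.2 _ (fun z => by
        rw [Algebra.traceForm_apply]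
        exact h4 z)
    exact (mul_eq_zero.mp h5).resolve_left haK
  -- conclusion
  let W : Submodule k (Fin (Module.finrank E K) → K) :=
    Submodule.pi Set.univ fun _ => (restrictTotalDegree (Fin n) k M).map (aeval x).toLinearMap
  haveI : FiniteDimensional k ((restrictTotalDegree (Fin n) k M).map
      (aeval x : MvPolynomial (Fin n) k →ₐ[k] K).toLinearMap) := inferInstance
  have hW : FiniteDimensional k W := by
    let Φ : W →ₗ[k] (Fin (Module.finrank E K) → (restrictTotalDegree (Fin n) k M).map
        (aeval x : MvPolynomial (Fin n) k →ₐ[k] K).toLinearMap) :=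
      LinearMap.pi fun j => (LinearMap.proj j ∘ₗ W.subtype).codRestrict _ fun v => by
        exact (Submodule.mem_pi.mp v.2) j (Set.mem_univ _)
    refine FiniteDimensional.of_injective Φ ?_
    intro v v' hvv
    apply Subtype.ext
    funext j
    exact congrArg Subtype.val (congrFun hvv j)
  let Ψ : V →ₗ[k] W := (T ∘ₗ V.subtype).codRestrict W fun v => by
    rw [Submodule.mem_pi]
    intro j _
    obtain ⟨p, hp, hpT⟩ := hmain v v.2 j
    exact ⟨p, hp, hpT.symm⟩
  refine FiniteDimensional.of_injective Ψ ?_
  intro v v' hvv
  apply Subtype.ext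
  exact hinj (congrArg Subtype.val hvv)

/-- the space of `g` with `g · b^m` regular at all `R` in a family -/
def VSp (k : Type*) {K : Type*} [Field k] [Field K] [Algebra k K]
    (S : Set (ValuationSubring K)) (hS : ∀ R ∈ S, ∀ c : k, algebraMap k K c ∈ R)
    (b : Module.Basis (Fin n) K (Ω[K⁄k])) (m : ℕ) : Submodule k K where
  carrier := {g | ∀ R ∈ S, RegAt k R b m g}
  zero_mem' := by
    intro R _
    exact ⟨fun _ => 0, fun _ => R.zero_mem, by simp⟩
  add_mem' := by
    intro g g' hg hg' R hR
    obtain ⟨y, hy, h⟩ := hg R hR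
    obtain ⟨y', hy', h'⟩ := hg' R hR
    rcases le_total (R.valuation (jac k b y)) (R.valuation (jac k b y')) with hle | hle
    · exact ⟨y', hy', (Valuation.map_add _ _ _).trans
        (max_le (h.trans (pow_le_pow_left₀ (zero_le) hle m)) h')⟩
    · exact ⟨y, hy, (Valuation.map_add _ _ _).trans
        (max_le h (h'.trans (pow_le_pow_left₀ (zero_le) hle m)))⟩
  smul_mem' := by
    intro c g hg R hR
    obtain ⟨y, hy, h⟩ := hg R hR
    refine ⟨y, hy, ?_⟩
    rw [Algebra.smul_def, map_mul]
    have h1 : R.valuation (algebraMap k K c) ≤ 1 := (R.valuation_le_one_iff _).mpr (hS R hR c)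
    exact (mul_le_of_le_one_left (zero_le) h1).trans h

lemma mem_VSp {S : Set (ValuationSubring K)} {hS : ∀ R ∈ S, ∀ c : k, algebraMap k K c ∈ R}
    {b : Module.Basis (Fin n) K (Ω[K⁄k])} {m : ℕ} {g : K} :
    g ∈ VSp k S hS b m ↔ ∀ R ∈ S, RegAt k R b m g := Iff.rfl

/-- a basis of `Ω` contains, up to change of basis, exact differentials -/
theorem exists_exact_basis (b : Module.Basis (Fin n) K (Ω[K⁄k])) :
    ∃ (x : Fin n → K) (b' : Module.Basis (Fin n) K (Ω[K⁄k])), ∀ i, b' i = D k K (x i) := by
  classical
  obtain ⟨s, hs, hspan, hli⟩ := exists_linearIndependent K (Set.range (D k K))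
  rw [KaehlerDifferential.span_range_derivation] at hspan
  let B : Module.Basis s K (Ω[K⁄k]) := Module.Basis.mk hli (by rw [Subtype.range_coe, hspan])
  let e : s ≃ Fin n := B.indexEquiv b
  have hx : ∀ i : Fin n, ∃ x : K, D k K x = ((e.symm i : s) : Ω[K⁄k]) := fun i => hs (e.symm i).2
  choose x hx using hx
  refine ⟨x, B.reindex e, fun i => ?_⟩
  rw [hx, Module.Basis.reindex_apply, Module.Basis.mk_apply]

/-- **Finite dimensionality** (transcendence degree `n + 1`): it is enough to have regularity at
the divisorial valuation rings containing the coordinates of one of the `n + 2` charts `x`,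
`inv x j`. -/
theorem vsp_finite_succ [CharZero k] (hfg : FGF k K)
    (b₀ b : Module.Basis (Fin (n + 1)) K (Ω[K⁄k])) (x : Fin (n + 1) → K)
    (hb : ∀ i, b i = D k K (x i)) (m : ℕ) (S : Set (ValuationSubring K))
    (hS : ∀ R ∈ S, ∀ c : k, algebraMap k K c ∈ R)
    (h : ∀ R, IsDiv k (n + 1) R → ((∀ i, x i ∈ R) ∨ ∃ j, ∀ i, inv x j i ∈ R) → R ∈ S) :
    FiniteDimensional k (VSp k S hS b₀ m) := by
  refine finite_of_charts hfg b x hb _ ?_ fun i => ?_
  · obtain ⟨a, ha0, ha⟩ := exists_mult hfg b₀ b x hb m
    exact ⟨a, ha0, fun g hg => ha g fun R hR hx => hg R (h R hR (Or.inl hx))⟩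
  · obtain ⟨b', hb'⟩ := exists_inv_basis b x hb i
    obtain ⟨a, ha0, ha⟩ := exists_mult hfg b₀ b' (inv x i) hb' m
    exact ⟨a, ha0, fun g hg => ha g fun R hR hx => hg R (h R hR (Or.inr ⟨i, hx⟩))⟩

/-- in transcendence degree `0` the field itself is finite dimensional -/
theorem finite_zero [CharZero k] (hfg : FGF k K) (b : Module.Basis (Fin 0) K (Ω[K⁄k])) :
    FiniteDimensional k K := by
  have h1 := finite_of_basis hfg b (fun i => i.elim0) (fun i => i.elim0) (⊥ : IntermediateField k K)
    (fun i => i.elim0)
  haveI : FiniteDimensional k (⊥ : IntermediateField k K) := inferInstance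
  exact FiniteDimensional.trans k (⊥ : IntermediateField k K) K

/-- the space of pluricanonical forms of weight `m` (regular at all divisorial valuation rings) -/
def PluriSp (k : Type*) {K : Type*} [Field k] [Field K] [Algebra k K]
    (b : Module.Basis (Fin n) K (Ω[K⁄k])) (m : ℕ) : Submodule k K :=
  VSp k {R | IsDiv k n R} (fun _ hR => hR.alg) b m

lemma mem_PluriSp {b : Module.Basis (Fin n) K (Ω[K⁄k])} {m : ℕ} {g : K} :
    g ∈ PluriSp k b m ↔ Pluri k b m g := Iff.rfl

/-- the space of pluricanonical forms of weight `m` regular at all valuation rings -/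
def PluriSSp (k : Type*) {K : Type*} [Field k] [Field K] [Algebra k K]
    (b : Module.Basis (Fin n) K (Ω[K⁄k])) (m : ℕ) : Submodule k K :=
  VSp k {R | ∀ c : k, algebraMap k K c ∈ R} (fun _ hR => hR) b m

lemma mem_PluriSSp {b : Module.Basis (Fin n) K (Ω[K⁄k])} {m : ℕ} {g : K} :
    g ∈ PluriSSp k b m ↔ PluriS k b m g := Iff.rfl

lemma PluriSSp_le (b : Module.Basis (Fin n) K (Ω[K⁄k])) (m : ℕ) :
    PluriSSp k b m ≤ PluriSp k b m := fun _ hg R hR => hg R hR.alg

/-- **PFIN.** The space of pluricanonical forms of weight `m` of a finitely generated field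
extension of characteristic zero is finite dimensional. -/
theorem pluriSp_finite [CharZero k] (hfg : FGF k K) (b : Module.Basis (Fin n) K (Ω[K⁄k]))
    (m : ℕ) : FiniteDimensional k (PluriSp k b m) := by
  rcases n with _ | n
  · haveI := finite_zero hfg b
    infer_instance
  · obtain ⟨x, b', hb'⟩ := exists_exact_basis b
    exact vsp_finite_succ hfg b b' x hb' m _ _ fun R hR _ => hR

theorem pluriSSp_finite [CharZero k] (hfg : FGF k K) (b : Module.Basis (Fin n) K (Ω[K⁄k]))
    (m : ℕ) : FiniteDimensional k (PluriSSp k b m) := by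
  haveI := pluriSp_finite hfg b m
  exact Submodule.finiteDimensional_of_le (PluriSSp_le b m)

end Crest.Agent.R276.PFin_337
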