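import Crest.Agent.R276.PVa_159

/-!
# Row 276, part D1 (helper159): fibre products of Riemann domains over the first coordinate
-/

set_option autoImplicit false
set_option linter.unusedSectionVars false

noncomputable section

open Set Filter Topology Complex

namespace Crest.Agent.R276.PV_159

open Crest.Agent.R271 Crest.Agent.R271.Ho51 Crest.Agent.R271.W792

/-! ### coordinate maps -/

/-- `(t, x, y) ↦ (t, x)` -/
def L1 (a b : ℕ) : (Fin (a + b + 1) → ℂ) →L[ℂ] (Fin (a + 1) → ℂ) :=
  ContinuousLinearMap.pi fun i : Fin (a + 1) =>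
    Fin.cases (ContinuousLinearMap.proj (0 : Fin (a + b + 1)))
      (fun j => ContinuousLinearMap.proj (Fin.castAdd b j).succ) i

/-- `(t, x, y) ↦ (t, y)` -/
def L2 (a b : ℕ) : (Fin (a + b + 1) → ℂ) →L[ℂ] (Fin (b + 1) → ℂ) :=
  ContinuousLinearMap.pi fun i : Fin (b + 1) =>
    Fin.cases (ContinuousLinearMap.proj (0 : Fin (a + b + 1)))
      (fun j => ContinuousLinearMap.proj (Fin.natAdd a j).succ) i

variable {a b : ℕ}

@[simp] lemma L1_zero (z : Fin (a + b + 1) → ℂ) : L1 a b z 0 = z 0 := rfl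
@[simp] lemma L1_succ (z : Fin (a + b + 1) → ℂ) (j : Fin a) :
    L1 a b z j.succ = z (Fin.castAdd b j).succ := rfl
@[simp] lemma L2_zero (z : Fin (a + b + 1) → ℂ) : L2 a b z 0 = z 0 := rfl
@[simp] lemma L2_succ (z : Fin (a + b + 1) → ℂ) (j : Fin b) :
    L2 a b z j.succ = z (Fin.natAdd a j).succ := rfl

/-- `(t, x), (t, y) ↦ (t, x, y)` -/
def glue (u : Fin (a + 1) → ℂ) (v : Fin (b + 1) → ℂ) : Fin (a + b + 1) → ℂ :=
  Fin.cons (u 0) (Fin.append (fun i => u i.succ) (fun j => v j.succ))

@[simp] lemma glue_zero (u : Fin (a + 1) → ℂ) (v : Fin (b + 1) → ℂ) : glue u v 0 = u 0 := rfl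

lemma L1_glue (u : Fin (a + 1) → ℂ) (v : Fin (b + 1) → ℂ) : L1 a b (glue u v) = u := by
  funext i
  refine Fin.cases ?_ (fun j => ?_) i
  · rfl
  · simp [glue]

lemma L2_glue (u : Fin (a + 1) → ℂ) (v : Fin (b + 1) → ℂ) (h : u 0 = v 0) :
    L2 a b (glue u v) = v := by
  funext i
  refine Fin.cases ?_ (fun j => ?_) i
  · simp [h]
  · simp [glue]

lemma glue_L (z : Fin (a + b + 1) → ℂ) : glue (L1 a b z) (L2 a b z) = z := by
  funext i
  refine Fin.cases ?_ (fun j => ?_) i
  · rfl
  · refine Fin.addCases (fun j => ?_) (fun j => ?_) j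
    · simp [glue]
    · simp [glue]

lemma continuous_glue : Continuous fun p : (Fin (a + 1) → ℂ) × (Fin (b + 1) → ℂ) =>
    (glue p.1 p.2 : Fin (a + b + 1) → ℂ) := by
  refine continuous_pi fun i => ?_
  refine Fin.cases ?_ (fun j => ?_) i
  · simp only [glue_zero]; fun_prop
  · refine Fin.addCases (fun j => ?_) (fun j => ?_) j
    · simp only [glue, Fin.cons_succ, Fin.append_left]; fun_prop
    · simp only [glue, Fin.cons_succ, Fin.append_right]; fun_prop

/-! ### the fibre product -/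

variable (M : Type) (N : Type) [TopologicalSpace M] [TopologicalSpace N]
  [RDom (a + 1) M] [RDom (b + 1) N]

/-- the fibre product `M ×_t N` -/
def FP : Type := {p : M × N // (cp p.1 : Fin (a + 1) → ℂ) 0 = (cp p.2 : Fin (b + 1) → ℂ) 0}

instance instTopFP : TopologicalSpace (FP M N) := instTopologicalSpaceSubtype
instance [T2Space M] [T2Space N] : T2Space (FP M N) :=
  inferInstanceAs (T2Space {p : M × N // (cp p.1 : Fin (a + 1) → ℂ) 0 = (cp p.2 : Fin (b + 1) → ℂ) 0})
instance [SecondCountableTopology M] [SecondCountableTopology N] :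
    SecondCountableTopology (FP M N) :=
  TopologicalSpace.Subtype.secondCountableTopology
    {p : M × N | (cp p.1 : Fin (a + 1) → ℂ) 0 = (cp p.2 : Fin (b + 1) → ℂ) 0}

variable {M N}

/-- first projection -/
def FP.fst (p : FP M N) : M := p.1.1
/-- second projection -/
def FP.snd (p : FP M N) : N := p.1.2

lemma FP.cond (p : FP M N) : (cp p.fst : Fin (a + 1) → ℂ) 0 = (cp p.snd : Fin (b + 1) → ℂ) 0 := p.2

/-- constructor -/
def FP.mk' (x : M) (y : N) (h : (cp x : Fin (a + 1) → ℂ) 0 = (cp y : Fin (b + 1) → ℂ) 0) :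
    FP M N := ⟨(x, y), h⟩

lemma FP.ext' {p q : FP M N} (h1 : p.fst = q.fst) (h2 : p.snd = q.snd) : p = q :=
  Subtype.ext (Prod.ext h1 h2)

lemma FP.cont_fst : Continuous (FP.fst : FP M N → M) :=
  continuous_fst.comp continuous_subtype_val
lemma FP.cont_snd : Continuous (FP.snd : FP M N → N) :=
  continuous_snd.comp continuous_subtype_val

/-- coordinates on the fibre product -/
def FP.crd (p : FP M N) : Fin (a + b + 1) → ℂ := glue (cp p.fst) (cp p.snd)

lemma FP.cont_crd : Continuous (FP.crd : FP M N → Fin (a + b + 1) → ℂ) :=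
  continuous_glue.comp ((cp_cont.comp FP.cont_fst).prodMk (cp_cont.comp FP.cont_snd))

lemma FP.L1_crd (p : FP M N) : L1 a b p.crd = cp p.fst := L1_glue _ _
lemma FP.L2_crd (p : FP M N) : L2 a b p.crd = cp p.snd := L2_glue _ _ p.cond

lemma FP.compat {e : OpenPartialHomeomorph M (Fin (a + 1) → ℂ)}
    {d : OpenPartialHomeomorph N (Fin (b + 1) → ℂ)} (he : IsCh e) (hd : IsCh d)
    {z : Fin (a + b + 1) → ℂ} (h : L1 a b z ∈ e.target ∧ L2 a b z ∈ d.target) :
    (cp (e.symm (L1 a b z)) : Fin (a + 1) → ℂ) 0 = (cp (d.symm (L2 a b z)) : Fin (b + 1) → ℂ) 0 := by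
  rw [he.cp_symm h.1, hd.cp_symm h.2, L1_zero, L2_zero]

open Classical in
/-- the chart of the fibre product given by two charts -/
def FP.chart (e : OpenPartialHomeomorph M (Fin (a + 1) → ℂ))
    (d : OpenPartialHomeomorph N (Fin (b + 1) → ℂ)) (he : IsCh e) (hd : IsCh d) (p0 : FP M N) :
    OpenPartialHomeomorph (FP M N) (Fin (a + b + 1) → ℂ) where
  toFun := FP.crd
  invFun z := if h : L1 a b z ∈ e.target ∧ L2 a b z ∈ d.target then
    FP.mk' (e.symm (L1 a b z)) (d.symm (L2 a b z)) (FP.compat he hd h) else p0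
  source := {p | p.fst ∈ e.source ∧ p.snd ∈ d.source}
  target := {z | L1 a b z ∈ e.target ∧ L2 a b z ∈ d.target}
  map_source' p hp := by
    show L1 a b p.crd ∈ e.target ∧ L2 a b p.crd ∈ d.target
    rw [FP.L1_crd, FP.L2_crd]
    exact ⟨he.cp_mem hp.1, hd.cp_mem hp.2⟩
  map_target' z hz := by
    have hz' : L1 a b z ∈ e.target ∧ L2 a b z ∈ d.target := hz
    rw [dif_pos hz']
    exact ⟨e.map_target hz.1, d.map_target hz.2⟩
  left_inv' p hp := by
    have h : L1 a b p.crd ∈ e.target ∧ L2 a b p.crd ∈ d.target := by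
      rw [FP.L1_crd, FP.L2_crd]
      exact ⟨he.cp_mem hp.1, hd.cp_mem hp.2⟩
    rw [dif_pos h]
    apply FP.ext'
    · show e.symm (L1 a b p.crd) = p.fst
      rw [FP.L1_crd]; exact he.symm_cp hp.1
    · show d.symm (L2 a b p.crd) = p.snd
      rw [FP.L2_crd]; exact hd.symm_cp hp.2
  right_inv' z hz := by
    have hz' : L1 a b z ∈ e.target ∧ L2 a b z ∈ d.target := hz
    rw [dif_pos hz']
    show glue (cp (e.symm (L1 a b z))) (cp (d.symm (L2 a b z))) = z
    rw [he.cp_symm hz.1, hd.cp_symm hz.2, glue_L]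
  open_source := (e.open_source.preimage FP.cont_fst).inter (d.open_source.preimage FP.cont_snd)
  open_target := (e.open_target.preimage (L1 a b).continuous).inter
    (d.open_target.preimage (L2 a b).continuous)
  continuousOn_toFun := FP.cont_crd.continuousOn
  continuousOn_invFun := by
    rw [continuousOn_iff_continuous_domRestrict]
    have h1 : (({z : Fin (a + b + 1) → ℂ | L1 a b z ∈ e.target ∧ L2 a b z ∈ d.target}).domRestrict
        (fun z => if h : L1 a b z ∈ e.target ∧ L2 a b z ∈ d.target then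
          FP.mk' (e.symm (L1 a b z)) (d.symm (L2 a b z)) (FP.compat he hd h) else p0)) =
        fun z => FP.mk' (e.symm (L1 a b z.1)) (d.symm (L2 a b z.1)) (FP.compat he hd z.2) := by
      funext z
      exact dif_pos z.2
    rw [h1]
    refine Continuous.subtype_mk ?_ _
    refine Continuous.prodMk ?_ ?_
    · have := e.continuousOn_symm
      rw [continuousOn_iff_continuous_domRestrict] at this
      exact this.comp (f := fun z : {z : Fin (a + b + 1) → ℂ | L1 a b z ∈ e.target ∧
        L2 a b z ∈ d.target} => (⟨L1 a b z.1, z.2.1⟩ : e.target))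
        (Continuous.subtype_mk ((L1 a b).continuous.comp continuous_subtype_val) _)
    · have := d.continuousOn_symm
      rw [continuousOn_iff_continuous_domRestrict] at this
      exact this.comp (f := fun z : {z : Fin (a + b + 1) → ℂ | L1 a b z ∈ e.target ∧
        L2 a b z ∈ d.target} => (⟨L2 a b z.1, z.2.2⟩ : d.target))
        (Continuous.subtype_mk ((L2 a b).continuous.comp continuous_subtype_val) _)

instance instRDomFP : RDom (a + b + 1) (FP M N) where
  p := FP.crd
  hp := fun p => ⟨FP.chart (ch p.fst) (ch p.snd) (isCh_ch _) (isCh_ch _) p,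
    ⟨mem_ch _, mem_ch _⟩, rfl⟩

lemma FP.cp_eq (p : FP M N) : (cp p : Fin (a + b + 1) → ℂ) = FP.crd p := rfl

lemma FP.isCh_chart {e : OpenPartialHomeomorph M (Fin (a + 1) → ℂ)}
    {d : OpenPartialHomeomorph N (Fin (b + 1) → ℂ)} (he : IsCh e) (hd : IsCh d) (p0 : FP M N) :
    IsCh (FP.chart e d he hd p0) := rfl

lemma FP.cp_zero (p : FP M N) :
    (cp p : Fin (a + b + 1) → ℂ) 0 = (cp p.fst : Fin (a + 1) → ℂ) 0 := rfl

lemma FP.mor_fst : Mor (0 : Fin (a + 1) → ℂ) (L1 a b) (FP.fst : FP M N → M) where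
  cont := FP.cont_fst
  eq p := by rw [zero_add]; exact (FP.L1_crd p).symm

lemma FP.mor_snd : Mor (0 : Fin (b + 1) → ℂ) (L2 a b) (FP.snd : FP M N → N) where
  cont := FP.cont_snd
  eq p := by rw [zero_add]; exact (FP.L2_crd p).symm

end Crest.Agent.R276.PV_159
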