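import Crest.Agent.R276.PVc_159
import Crest.Agent.R271.Engine_51
import Crest.Agent.R271.G3a_792

/-!
# Row 276, part D1 (helper159): data over a disc and the crude extension lemma
-/

set_option autoImplicit false
set_option linter.unusedSectionVars false

noncomputable section

open Set Filter Topology Complex MeasureTheory
open scoped ENNReal ComplexConjugate

namespace Crest.Agent.R276.PV_159

open Crest.Agent.R271 Crest.Agent.R271.Ho51 Crest.Agent.R271.W792

/-! ### the cut-off -/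

/-- cut-off: `1` on `(-∞, 1/2]`, `0` on `[1, ∞)` -/
def th (s : ℝ) : ℝ := Real.smoothTransition (2 - 2 * s)

lemma th_contDiff : ContDiff ℝ (⊤ : ℕ∞) th :=
  Real.smoothTransition.contDiff.comp (contDiff_const.sub (contDiff_const.mul contDiff_id))

lemma th_one {s : ℝ} (h : s ≤ 1 / 2) : th s = 1 :=
  Real.smoothTransition.one_of_one_le (by linarith)

lemma th_zero {s : ℝ} (h : 1 ≤ s) : th s = 0 :=
  Real.smoothTransition.zero_of_nonpos (by linarith)

lemma th_le_one (s : ℝ) : th s ≤ 1 := Real.smoothTransition.le_one _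
lemma th_nonneg (s : ℝ) : 0 ≤ th s := Real.smoothTransition.nonneg _

lemma exists_th_bound : ∃ C : ℝ, 0 ≤ C ∧ ∀ s, (deriv th s) ^ 2 ≤ C ∧
    (s < 1 / 2 ∨ 1 < s → deriv th s = 0) := by
  obtain ⟨C, hC0, hC, _⟩ := H868.exists_deriv_st_bound
  refine ⟨4 * C, by positivity, fun s => ⟨?_, ?_⟩⟩
  · have h1 : HasDerivAt th (deriv Real.smoothTransition (2 - 2 * s) * (-2)) s := by
      have h2 : HasDerivAt (fun s : ℝ => 2 - 2 * s) (-2) s := by
        have := ((hasDerivAt_id' s).const_mul (2 : ℝ)).const_sub 2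
        simpa using this
      have h3 : HasDerivAt Real.smoothTransition (deriv Real.smoothTransition (2 - 2 * s))
          (2 - 2 * s) :=
        ((Real.smoothTransition.contDiff (n := 1)).differentiable (by norm_num) _).hasDerivAt
      exact h3.comp s h2
    rw [h1.deriv]
    have := hC (2 - 2 * s)
    nlinarith
  · rintro (h | h)
    · have : th =ᶠ[𝓝 s] fun _ => 1 := by
        filter_upwards [gt_mem_nhds h] with u hu
        exact th_one hu.le
      rw [this.deriv_eq]; simp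
    · have : th =ᶠ[𝓝 s] fun _ => 0 := by
        filter_upwards [lt_mem_nhds h] with u hu
        exact th_zero (le_of_lt hu)
      rw [this.deriv_eq]; simp

/-! ### the coordinate `t` -/

section tc

variable {a : ℕ} {P : Type} [TopologicalSpace P] [RDom (a + 1) P]

/-- the coordinate `t` -/
def tc (x : P) : ℂ := (cp x : Fin (a + 1) → ℂ) 0

lemma hol_tc : W792.Hol (tc : P → ℂ) := G792.hol_coord (M := P) (0 : Fin (a + 1))

lemma cont_tc : Continuous (tc : P → ℂ) := (hol_tc (P := P)).sm.continuous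

lemma D_tc (x : P) (w : Fin (a + 1) → ℂ) : D (tc : P → ℂ) x w = w 0 :=
  G792.D_coord (M := P) (0 : Fin (a + 1)) x w

/-- `log (|t|² + δ)` -/
def lt (δ : ℝ) (x : P) : ℝ := lg (fun _ : Unit => (tc : P → ℂ)) δ x

lemma lt_eq (δ : ℝ) (x : P) : lt δ x = Real.log (‖tc x‖ ^ 2 + δ) := by
  unfold lt lg
  rw [G792.nS_unit]

lemma lt_pos {δ : ℝ} (hδ : 0 < δ) (x : P) : 0 < nS (fun _ : Unit => (tc : P → ℂ)) x + δ := by
  have := nS_nonneg (fun _ : Unit => (tc : P → ℂ)) x
  linarith

lemma sm_lt {δ : ℝ} (hδ : 0 < δ) : Sm (lt δ : P → ℝ) :=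
  sm_lg (fun _ => (hol_tc (P := P)).sm) (lt_pos hδ)

lemma lev_lt {δ : ℝ} (hδ : 0 < δ) (x : P) (w : Fin (a + 1) → ℂ) :
    δ * ‖w 0‖ ^ 2 / (‖tc x‖ ^ 2 + δ) ^ 2 ≤ lev (lt δ : P → ℝ) x w := by
  have h := lev_lg_ge (fun _ : Unit => hol_tc (P := P)) (lt_pos hδ) x w
  have h1 : nT (fun _ : Unit => (tc : P → ℂ)) x w = ‖w 0‖ ^ 2 := by
    simp [nT, D_tc]
  rw [h1, G792.nS_unit] at h
  exact h

lemma lev_lt_nonneg {δ : ℝ} (hδ : 0 < δ) (x : P) (w : Fin (a + 1) → ℂ) :
    0 ≤ lev (lt δ : P → ℝ) x w :=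
  le_trans (by positivity) (lev_lt hδ x w)

end tc

/-- the antilinear part of the derivative -/
lemma AL_eq {n : ℕ} {P : Type} [TopologicalSpace P] [RDom n P] (f : P → ℂ) (x : P)
    (w : Fin n → ℂ) :
    ∑ j, db j f x * conj (w j) = (1 / 2) * (D f x w + I * D f x (I • w)) := by
  rw [D_wirtinger f x w, D_wirtinger f x (I • w)]
  rw [Finset.mul_sum, ← Finset.sum_add_distrib, Finset.mul_sum]
  refine Finset.sum_congr rfl fun j _ => ?_
  simp only [Pi.smul_apply, smul_eq_mul, map_mul, conj_I]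
  linear_combination (-(1 / 2 : ℂ) * dz j f x * w j + (1 / 2 : ℂ) * db j f x * conj (w j)) * I_mul_I

/-! ### conversion between the two notions of holomorphic functions -/

section hol

variable {n : ℕ} {P : Type} [TopologicalSpace P] [RDom n P]

lemma hol_of (F : P → ℂ) (hF : Ho51.Hol F) : W792.Hol F := by
  have han : ∀ x : P, AnalyticAt ℂ (F ∘ (ch x).symm) (cp x) := fun x =>
    R266.SCV.analyticOnNhd_of_differentiableOn (ch x).open_target (hF (ch x) (isCh_ch x)) _
      ((isCh_ch x).cp_mem (mem_ch x))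
  refine ⟨fun x => ?_, fun x w => ?_⟩
  · exact (han x).restrictScalars.contDiffAt
  · have h1 : DifferentiableAt ℂ (F ∘ (ch x).symm) (cp x) := (han x).differentiableAt
    have h2 : D F x = (fderiv ℂ (F ∘ (ch x).symm) (cp x)).restrictScalars ℝ :=
      (h1.hasFDerivAt.restrictScalars ℝ).fderiv
    rw [h2]
    simp

lemma hol_to (F : P → ℂ) (hF : W792.Hol F) : Ho51.Hol F := by
  intro e he z hz
  apply DifferentiableAt.differentiableWithinAt
  have h1 : HasFDerivAt (𝕜 := ℝ) (F ∘ e.symm) (D F (e.symm z)) z := by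
    rw [D_symm he hz]
    exact ((hF.sm.contDiffAt' he hz).differentiableAt (by simp)).hasFDerivAt
  have h2 : ∀ (c : ℂ) (w : Fin n → ℂ), D F (e.symm z) (c • w) = c • D F (e.symm z) w := by
    intro c w
    have h3 : c • w = c.re • w + c.im • (I • w) := by
      conv_lhs => rw [← Complex.re_add_im c, add_smul, mul_smul]
      rfl
    rw [h3, map_add, map_smul, map_smul, hF.cl]
    simp only [Complex.real_smul, smul_eq_mul]
    conv_rhs => rw [← Complex.re_add_im c]
    ring
  let A : (Fin n → ℂ) →L[ℂ] ℂ :=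
    { toFun := D F (e.symm z)
      map_add' := map_add _
      map_smul' := h2
      cont := (D F (e.symm z)).continuous }
  have h3 : HasFDerivAt (𝕜 := ℂ) (F ∘ e.symm) A z := by
    rw [hasFDerivAt_iff_isLittleO] at h1 ⊢
    exact h1
  exact h3.differentiableAt

end hol

/-! ### data -/

/-- A Stein Riemann domain over a disc of radius `R` with a decreasing sequence of smooth psh weights
and a holomorphic function. -/
structure Dat (R : ℝ) where
  /-- the Riemann domain -/
  P : Type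
  [top : TopologicalSpace P]
  [t2 : T2Space P]
  [sc : SecondCountableTopology P]
  /-- fibre dimension -/
  a : ℕ
  [rd : RDom (a + 1) P]
  /-- exhaustion -/
  ρ : P → ℝ
  ρ_sm : Sm ρ
  ρ_cpt : ∀ c : ℝ, IsCompact {x | ρ x ≤ c}
  ρ_lev : ∀ x w, nsq w ≤ lev ρ x w
  /-- weights -/
  φ : ℕ → P → ℝ
  φ_sm : ∀ k, Sm (φ k)
  φ_anti : ∀ x, Antitone fun k => φ k x
  φ_lev : ∀ k x w, 0 ≤ lev (φ k) x w
  /-- the function to be extended -/
  U : P → ℂ
  U_hol : W792.Hol U
  tR : ∀ x : P, ‖tc x‖ < R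

attribute [instance] Dat.top Dat.t2 Dat.sc Dat.rd

variable {R : ℝ}

/-- `e^{-φ}`, `φ = lim φ_k` -/
def Dat.wt (D : Dat R) (x : D.P) : ℝ≥0∞ := ⨆ k, ENNReal.ofReal (Real.exp (-D.φ k x))

/-- `|F|² e^{-φ}` -/
def Dat.dens (D : Dat R) (F : D.P → ℂ) (x : D.P) : ℝ≥0∞ := ENNReal.ofReal (‖F x‖ ^ 2) * D.wt x

/-- squared norm on the fibre -/
def Dat.nrm (D : Dat R) (F : D.P → ℂ) (t : ℂ) : ℝ≥0∞ := fi (D.dens F) t

instance (D : Dat R) : MeasurableSpace D.P := borel _
instance (D : Dat R) : BorelSpace D.P := ⟨rfl⟩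

lemma Dat.wt_meas (D : Dat R) : Measurable D.wt :=
  Measurable.iSup fun k => ((Real.continuous_exp.comp
    (D.φ_sm k).continuous.neg).measurable).ennreal_ofReal

lemma Dat.dens_meas (D : Dat R) {F : D.P → ℂ} (hF : Continuous F) : Measurable (D.dens F) :=
  ((hF.norm.pow 2).measurable.ennreal_ofReal).mul D.wt_meas

lemma Dat.wt_ne_zero (D : Dat R) (x : D.P) : D.wt x ≠ 0 := by
  have h : ENNReal.ofReal (Real.exp (-D.φ 0 x)) ≤ D.wt x := le_iSup
    (fun k => ENNReal.ofReal (Real.exp (-D.φ k x))) 0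
  intro h0
  rw [h0] at h
  have := ENNReal.ofReal_pos.2 (Real.exp_pos (-D.φ 0 x))
  exact absurd h (not_le.2 this)

/-- fibre integrals are zero outside the disc -/
lemma fi_out {a : ℕ} {P : Type} [TopologicalSpace P] [RDom (a + 1) P] (g : P → ℝ≥0∞) {t : ℂ}
    (h : ∀ x : P, tc x ≠ t) : fi g t = 0 := by
  unfold fi fsum
  rw [lintegral_eq_zero_of_ae_eq_zero]
  refine Eventually.of_forall fun x => ?_
  have : IsEmpty {y : P // cp y = (Fin.cons t x : Fin (a + 1) → ℂ)} := by
    refine ⟨fun y => h y.1 ?_⟩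
    unfold tc
    rw [y.2]; rfl
  simp

end Crest.Agent.R276.PV_159
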