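import Crest.Agent.R276.PVd_159

/-!
# Row 276, part D1 (helper159): the crude extension lemma
-/

set_option autoImplicit false
set_option linter.unusedSectionVars false

noncomputable section

open Set Filter Topology Complex MeasureTheory Metric
open scoped ENNReal ComplexConjugate

namespace Crest.Agent.R276.PV_159

open Crest.Agent.R271 Crest.Agent.R271.Ho51 Crest.Agent.R271.W792

/-- lower bound for fibre integrals in a chart -/
lemma fi_ge {a : ℕ} {P : Type} [TopologicalSpace P] [RDom (a + 1) P]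
    {e : OpenPartialHomeomorph P (Fin (a + 1) → ℂ)} (he : IsCh e) (g : P → ℝ≥0∞) {t : ℂ}
    {S : Set (Fin a → ℂ)} (hS : MeasurableSet S)
    (h : ∀ x ∈ S, (Fin.cons t x : Fin (a + 1) → ℂ) ∈ e.target) :
    ∫⁻ x in S, g (e.symm (Fin.cons t x)) ≤ fi g t := by
  unfold fi
  refine le_trans (setLIntegral_mono' hS fun x hx => ?_) (setLIntegral_le_lintegral _ _)
  have h1 : cp (e.symm (Fin.cons t x)) = (Fin.cons t x : Fin (a + 1) → ℂ) := he.cp_symm (h x hx)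
  exact ENNReal.le_tsum (f := fun y : {y : P // cp y = (Fin.cons t x : Fin (a + 1) → ℂ)} => g y.1)
    ⟨e.symm (Fin.cons t x), h1⟩

variable {R : ℝ}

section weights

variable (D : Dat R) (ε : ℝ)

/-- the weights used in the engine -/
def psiK (k : ℕ) (x : D.P) : ℝ := (D.φ k x + lt (1 / ((k : ℝ) + 1)) x) + lt (ε ^ 2) x

variable {ε}

lemma inv_pos' (k : ℕ) : (0 : ℝ) < 1 / ((k : ℝ) + 1) := by positivity

lemma psiK_sm (hε : 0 < ε) (k : ℕ) : Sm (psiK D ε k) :=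
  ((D.φ_sm k).add (sm_lt (inv_pos' k))).add (sm_lt (by positivity))

lemma psiK_anti (x : D.P) : Antitone fun k => psiK D ε k x := by
  intro k l hkl
  have h1 := D.φ_anti x hkl
  have h2 : (lt (1 / ((l : ℝ) + 1)) x : ℝ) ≤ lt (1 / ((k : ℝ) + 1)) x := by
    refine lg_antitone _ ?_ x (lt_pos (inv_pos' l) x)
    have : (k : ℝ) ≤ l := by exact_mod_cast hkl
    gcongr
  simp only [psiK] at *
  linarith

lemma psiK_lev (hε : 0 < ε) (k : ℕ) (x : D.P) (w : Fin (D.a + 1) → ℂ) :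
    ε ^ 2 * ‖w 0‖ ^ 2 / (‖tc x‖ ^ 2 + ε ^ 2) ^ 2 ≤ lev (psiK D ε k) x w := by
  have h1 := lev_lt_nonneg (P := D.P) (inv_pos' k) x w
  have h2 := D.φ_lev k x w
  have h3 := lev_lt (P := D.P) (δ := ε ^ 2) (by positivity) x w
  have h4 : lev (psiK D ε k) x w = (lev (D.φ k) x w + lev (lt (1 / ((k : ℝ) + 1))) x w) +
      lev (lt (ε ^ 2)) x w := by
    have e1 := lev_add ((D.φ_sm k).add (sm_lt (inv_pos' k))) (sm_lt (P := D.P) (δ := ε ^ 2)
      (by positivity)) x w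
    have e2 := lev_add (D.φ_sm k) (sm_lt (P := D.P) (inv_pos' k)) x w
    rw [e2] at e1
    exact e1
  rw [h4]
  linarith

lemma exp_psiK (hε : 0 < ε) (k : ℕ) (x : D.P) :
    Real.exp (-psiK D ε k x) = Real.exp (-D.φ k x) /
      ((‖tc x‖ ^ 2 + 1 / ((k : ℝ) + 1)) * (‖tc x‖ ^ 2 + ε ^ 2)) := by
  have h1 : 0 < ‖tc x‖ ^ 2 + 1 / ((k : ℝ) + 1) := by have := inv_pos' k; positivity
  have h2 : 0 < ‖tc x‖ ^ 2 + ε ^ 2 := by positivity
  have h3 : -psiK D ε k x = -D.φ k x - (Real.log (‖tc x‖ ^ 2 + 1 / ((k : ℝ) + 1)) +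
      Real.log (‖tc x‖ ^ 2 + ε ^ 2)) := by
    unfold psiK
    rw [lt_eq, lt_eq]; ring
  rw [h3, Real.exp_sub, Real.exp_add, Real.exp_log h1, Real.exp_log h2]

end weights

section cut

variable (D : Dat R) {ε : ℝ}

/-- cut-off of `U` -/
def GG (ε : ℝ) (x : D.P) : ℂ := ((th (‖tc x‖ ^ 2 / ε ^ 2) : ℝ) : ℂ) * D.U x

lemma sm_T (ε : ℝ) : Sm (fun x : D.P => ‖tc x‖ ^ 2 / ε ^ 2) := by
  have h1 : Sm (fun x : D.P => (1 / ε ^ 2) * ‖tc x‖ ^ 2) :=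
    (Sm.const (1 / ε ^ 2)).mulR (Hol.sm_normSq (hol_tc (P := D.P)).sm)
  have h2 : (fun x : D.P => ‖tc x‖ ^ 2 / ε ^ 2) = fun x => (1 / ε ^ 2) * ‖tc x‖ ^ 2 := by
    funext x; ring
  rw [h2]; exact h1

lemma D_T (ε : ℝ) (x : D.P) (v : Fin (D.a + 1) → ℂ) :
    Ho51.D (fun x : D.P => ‖tc x‖ ^ 2 / ε ^ 2) x v = (2 / ε ^ 2) * (v 0 * conj (tc x)).re := by
  have h2 : (fun x : D.P => ‖tc x‖ ^ 2 / ε ^ 2) = fun x => (1 / ε ^ 2) * ‖tc x‖ ^ 2 := by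
    funext x; ring
  rw [h2]
  have h3 := D_smul (Sm.const (M := D.P) (1 / ε ^ 2)) (Hol.sm_normSq (hol_tc (P := D.P)).sm) x v
  simp only [smul_eq_mul] at h3
  rw [h3, D_const, D_normSq (hol_tc (P := D.P)).sm, D_tc]
  simp
  ring

lemma sm_thT (ε : ℝ) : Sm (fun x : D.P => th (‖tc x‖ ^ 2 / ε ^ 2)) :=
  Sm.comp th_contDiff (sm_T D ε)

lemma sm_GG (ε : ℝ) : Sm (GG D ε) := (sm_thT D ε).ofReal.mul D.U_hol.sm

lemma AL_GG (ε : ℝ) (x : D.P) (w : Fin (D.a + 1) → ℂ) :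
    ∑ j, db j (GG D ε) x * conj (w j) =
      (deriv th (‖tc x‖ ^ 2 / ε ^ 2) : ℝ) * ((1 / ε ^ 2 : ℝ) : ℂ) * conj (w 0 * conj (tc x)) *
        D.U x := by
  rw [AL_eq]
  have hth : HasDerivAt th (deriv th (‖tc x‖ ^ 2 / ε ^ 2)) (‖tc x‖ ^ 2 / ε ^ 2) :=
    (th_contDiff.differentiable (by simp) _).hasDerivAt
  have h1 : ∀ v : Fin (D.a + 1) → ℂ, Ho51.D (GG D ε) x v =
      ((deriv th (‖tc x‖ ^ 2 / ε ^ 2) * ((2 / ε ^ 2) * (v 0 * conj (tc x)).re) : ℝ) : ℂ) * D.U x +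
        ((th (‖tc x‖ ^ 2 / ε ^ 2) : ℝ) : ℂ) * Ho51.D D.U x v := by
    intro v
    have e1 := D_mul (sm_thT D ε).ofReal D.U_hol.sm x v
    have e2 := D_ofReal (sm_thT D ε) x v
    have e3 := D_comp_real (sm_T D ε) x hth v
    rw [e2, e3, D_T] at e1
    exact e1
  rw [h1, h1, D.U_hol.cl]
  have h2 : ((I • w) 0 * conj (tc x)) = I * (w 0 * conj (tc x)) := by
    simp [mul_assoc]
  rw [h2]
  set A := w 0 * conj (tc x) with hA
  have h3 : (I * A).re = -A.im := by simp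
  rw [h3]
  have h4 : (conj A : ℂ) = (A.re : ℂ) - (A.im : ℂ) * I := by
    apply Complex.ext <;> simp
  rw [h4]
  push_cast
  linear_combination ((1 / 2 : ℂ) * (th (‖tc x‖ ^ 2 / ε ^ 2) : ℂ) * Ho51.D D.U x w) * I_mul_I

end cut

end Crest.Agent.R276.PV_159
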