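import Crest.Agent.R276.PVe_159
import Crest.Agent.R271.L0_934

/-!
# Row 276, part D1 (helper159): the crude extension theorem
-/

set_option autoImplicit false
set_option linter.unusedSectionVars false

noncomputable section

open Set Filter Topology Complex MeasureTheory Metric
open scoped ENNReal ComplexConjugate

namespace Crest.Agent.R276.PV_159

open Crest.Agent.R271 Crest.Agent.R271.Ho51 Crest.Agent.R271.W792

variable {R : ℝ}

/-- `|t|^{-2}` is not integrable near `0` -/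
lemma lint_inv_sq {r : ℝ} (hr : 0 < r) :
    ∫⁻ t in ball (0 : ℂ) r, (⨆ k : ℕ, ENNReal.ofReal (1 / (‖t‖ ^ 2 + 1 / ((k : ℝ) + 1)))) = ∞ := by
  have h := L934.lintegral_ball_norm_eq_top (V := ℂ) volume
    (by rw [Complex.finrank_real_complex]; norm_num) hr
  rw [Complex.finrank_real_complex] at h
  rw [eq_top_iff, ← h]
  refine lintegral_mono_ae ?_
  have h0 : ∀ᵐ t : ℂ ∂(volume.restrict (ball (0 : ℂ) r)), t ≠ 0 := by
    refine ae_restrict_of_ae ?_
    have : (volume : Measure ℂ) {0} = 0 := by simp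
    exact compl_mem_ae_iff.2 this
  filter_upwards [h0] with t ht
  have htn : 0 < ‖t‖ := norm_pos_iff.2 ht
  have h1 : (ENNReal.ofReal ‖t‖) ^ (-((2 : ℕ) : ℝ)) = ENNReal.ofReal (1 / ‖t‖ ^ 2) := by
    rw [ENNReal.ofReal_rpow_of_pos htn, Real.rpow_neg htn.le]
    congr 1
    rw [one_div]
    congr 1
    exact_mod_cast Real.rpow_natCast ‖t‖ 2
  rw [h1]
  have h2 : Tendsto (fun k : ℕ => ENNReal.ofReal (1 / (‖t‖ ^ 2 + 1 / ((k : ℝ) + 1)))) atTop
      (𝓝 (ENNReal.ofReal (1 / ‖t‖ ^ 2))) := by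
    refine ENNReal.tendsto_ofReal ?_
    have h3 : Tendsto (fun k : ℕ => ‖t‖ ^ 2 + 1 / ((k : ℝ) + 1)) atTop (𝓝 (‖t‖ ^ 2 + 0)) :=
      tendsto_const_nhds.add tendsto_one_div_add_atTop_nhds_zero_nat
    rw [add_zero] at h3
    exact Tendsto.div tendsto_const_nhds h3 (by positivity)
  exact le_of_tendsto' h2 fun k => le_iSup
    (fun k : ℕ => ENNReal.ofReal (1 / (‖t‖ ^ 2 + 1 / ((k : ℝ) + 1)))) k

/-- square integrability against the polar weight forces equality on `t = 0` -/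
lemma eq_on_zero (D : Dat R) {ε : ℝ} (hε : 0 < ε) {F : D.P → ℂ} (hF : Continuous F)
    {μ : Measure D.P} (hμ : IsLeb μ)
    (hfin : ∫⁻ x, ENNReal.ofReal (‖F x - GG D ε x‖ ^ 2) *
        (⨆ k, ENNReal.ofReal (Real.exp (-psiK D ε k x))) ∂μ ≠ ∞)
    {x0 : D.P} (h0 : tc x0 = 0) : F x0 = D.U x0 := by
  by_contra hne
  apply hfin
  set e := ch x0 with he
  have hech : IsCh e := isCh_ch x0
  set c0 : ℝ := ‖F x0 - D.U x0‖ / 2 with hc0
  have hc0p : 0 < c0 := by
    have : 0 < ‖F x0 - D.U x0‖ := norm_pos_iff.2 (sub_ne_zero.2 hne)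
    rw [hc0]; linarith
  set c1 : ℝ := Real.exp (-D.φ 0 x0) / 2 with hc1
  have hc1p : 0 < c1 := by have := Real.exp_pos (-D.φ 0 x0); rw [hc1]; linarith
  have hUc : Continuous D.U := D.U_hol.sm.continuous
  -- the neighbourhood
  have hopen : IsOpen {x : D.P | c0 < ‖F x - D.U x‖ ∧ c1 < Real.exp (-D.φ 0 x) ∧
      ‖tc x‖ ^ 2 / ε ^ 2 < 1 / 2 ∧ x ∈ e.source} := by
    refine IsOpen.inter (isOpen_lt continuous_const (hF.sub hUc).norm) (IsOpen.inter
      (isOpen_lt continuous_const (Real.continuous_exp.comp (D.φ_sm 0).continuous.neg))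
      (IsOpen.inter (isOpen_lt (sm_T D ε).continuous continuous_const) e.open_source))
  have hmem : x0 ∈ {x : D.P | c0 < ‖F x - D.U x‖ ∧ c1 < Real.exp (-D.φ 0 x) ∧
      ‖tc x‖ ^ 2 / ε ^ 2 < 1 / 2 ∧ x ∈ e.source} := by
    refine ⟨?_, ?_, ?_, mem_ch x0⟩
    · have : 0 < ‖F x0 - D.U x0‖ := norm_pos_iff.2 (sub_ne_zero.2 hne)
      rw [hc0]; linarith
    · have := Real.exp_pos (-D.φ 0 x0); rw [hc1]; linarith
    · rw [h0]; simp
  set N : Set D.P := {x : D.P | c0 < ‖F x - D.U x‖ ∧ c1 < Real.exp (-D.φ 0 x) ∧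
      ‖tc x‖ ^ 2 / ε ^ 2 < 1 / 2 ∧ x ∈ e.source} with hN
  have hT : e.target ∩ e.symm ⁻¹' N ∈ 𝓝 (cp x0) := by
    refine inter_mem (e.open_target.mem_nhds (hech.cp_mem (mem_ch x0))) ?_
    have : ContinuousAt e.symm (cp x0) :=
      e.symm.continuousAt (by simpa using hech.cp_mem (mem_ch x0))
    refine this.preimage_mem_nhds ?_
    rw [hech.symm_cp (mem_ch x0)]
    exact hopen.mem_nhds hmem
  obtain ⟨r, hr, hball⟩ := Metric.mem_nhds_iff.1 hT
  set y0 : Fin D.a → ℂ := fun i => cp x0 i.succ with hy0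
  have hin : ∀ t : ℂ, t ∈ ball (0 : ℂ) r → ∀ y ∈ ball y0 r,
      (Fin.cons t y : Fin (D.a + 1) → ℂ) ∈ e.target ∩ e.symm ⁻¹' N := by
    intro t ht y hy
    apply hball
    rw [mem_ball, dist_pi_lt_iff hr]
    intro i
    refine Fin.cases ?_ (fun j => ?_) i
    · have h1 : cp x0 0 = 0 := h0
      rw [Fin.cons_zero, h1]
      exact ht
    · rw [Fin.cons_succ]
      exact (dist_pi_lt_iff hr).1 (mem_ball.1 hy) j
  -- the function
  set g : D.P → ℝ≥0∞ := fun x => ENNReal.ofReal (‖F x - GG D ε x‖ ^ 2) *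
        (⨆ k, ENNReal.ofReal (Real.exp (-psiK D ε k x))) with hg
  have hgm : Measurable g := by
    refine Measurable.mul ?_ (Measurable.iSup fun k => ?_)
    · exact (((hF.sub (sm_GG D ε).continuous).norm.pow 2).measurable).ennreal_ofReal
    · exact ((Real.continuous_exp.comp (psiK_sm D hε k).continuous.neg).measurable).ennreal_ofReal
  rw [lintegral_eq_fi hμ hgm, eq_top_iff]
  set c2 : ℝ := c0 ^ 2 * (c1 / (ε ^ 2 / 2 + ε ^ 2)) with hc2
  have hc2p : 0 < c2 := by positivity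
  have hlow : ∀ t ∈ ball (0 : ℂ) r, (ENNReal.ofReal c2 * volume (ball y0 r)) *
      (⨆ k : ℕ, ENNReal.ofReal (1 / (‖t‖ ^ 2 + 1 / ((k : ℝ) + 1)))) ≤ fi g t := by
    intro t ht
    refine le_trans ?_ (fi_ge hech g (t := t) (S := ball y0 r) measurableSet_ball
      (fun y hy => (hin t ht y hy).1))
    have h1 : ∀ y ∈ ball y0 r, ENNReal.ofReal c2 *
        (⨆ k : ℕ, ENNReal.ofReal (1 / (‖t‖ ^ 2 + 1 / ((k : ℝ) + 1)))) ≤
        g (e.symm (Fin.cons t y)) := by
      intro y hy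
      obtain ⟨hm1, hm2, hm3, hm4⟩ := (hin t ht y hy).2
      set x := e.symm (Fin.cons t y) with hx
      have htx : tc x = t := by
        unfold tc
        rw [hx, hech.cp_symm (hin t ht y hy).1]
        rfl
      have hGx : GG D ε x = D.U x := by
        unfold GG
        rw [th_one hm3.le]; simp
      rw [ENNReal.mul_iSup]
      refine iSup_le fun k => ?_
      rw [hg]
      simp only
      rw [hGx]
      refine le_trans ?_ (mul_le_mul_right
        (le_iSup (fun k => ENNReal.ofReal (Real.exp (-psiK D ε k x))) k) _)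
      rw [← ENNReal.ofReal_mul hc2p.le, ← ENNReal.ofReal_mul (by positivity)]
      apply ENNReal.ofReal_le_ofReal
      rw [exp_psiK D hε, htx]
      have hk := inv_pos' k
      have h3 : c1 ≤ Real.exp (-D.φ k x) :=
        hm2.le.trans (Real.exp_le_exp.2 (neg_le_neg (D.φ_anti x (Nat.zero_le k))))
      have h4 : c0 ^ 2 ≤ ‖F x - D.U x‖ ^ 2 := by
        have := hm1.le
        gcongr
      have h5 : ‖t‖ ^ 2 + ε ^ 2 ≤ ε ^ 2 / 2 + ε ^ 2 := by
        have h6 : ‖tc x‖ ^ 2 / ε ^ 2 < 1 / 2 := hm3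
        rw [htx, div_lt_iff₀ (by positivity)] at h6
        linarith
      rw [hc2]
      calc c0 ^ 2 * (c1 / (ε ^ 2 / 2 + ε ^ 2)) * (1 / (‖t‖ ^ 2 + 1 / ((k : ℝ) + 1)))
          ≤ ‖F x - D.U x‖ ^ 2 * (Real.exp (-D.φ k x) / (‖t‖ ^ 2 + ε ^ 2)) *
            (1 / (‖t‖ ^ 2 + 1 / ((k : ℝ) + 1))) := by
            gcongr
        _ = ‖F x - D.U x‖ ^ 2 * (Real.exp (-D.φ k x) /
            ((‖t‖ ^ 2 + 1 / ((k : ℝ) + 1)) * (‖t‖ ^ 2 + ε ^ 2))) := by
            field_simp
    calc (ENNReal.ofReal c2 * volume (ball y0 r)) *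
        (⨆ k : ℕ, ENNReal.ofReal (1 / (‖t‖ ^ 2 + 1 / ((k : ℝ) + 1))))
        = ∫⁻ y in ball y0 r, ENNReal.ofReal c2 *
          (⨆ k : ℕ, ENNReal.ofReal (1 / (‖t‖ ^ 2 + 1 / ((k : ℝ) + 1)))) := by
          rw [lintegral_const, Measure.restrict_apply_univ]; ring
      _ ≤ _ := setLIntegral_mono' measurableSet_ball h1
  have hne0 : ENNReal.ofReal c2 * volume (ball y0 r) ≠ 0 := by
    refine mul_ne_zero (ENNReal.ofReal_pos.2 hc2p).ne' ?_
    exact (isOpen_ball.measure_pos volume ⟨y0, mem_ball_self hr⟩).ne'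
  calc ∞ = (ENNReal.ofReal c2 * volume (ball y0 r)) *
        ∫⁻ t in ball (0 : ℂ) r, (⨆ k : ℕ, ENNReal.ofReal (1 / (‖t‖ ^ 2 + 1 / ((k : ℝ) + 1)))) := by
        rw [lint_inv_sq hr, ENNReal.mul_top hne0]
    _ = ∫⁻ t in ball (0 : ℂ) r, (ENNReal.ofReal c2 * volume (ball y0 r)) *
        (⨆ k : ℕ, ENNReal.ofReal (1 / (‖t‖ ^ 2 + 1 / ((k : ℝ) + 1)))) := by
        rw [lintegral_const_mul']
        refine ENNReal.mul_ne_top ENNReal.ofReal_ne_top ?_
        exact (measure_ball_lt_top).ne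
    _ ≤ ∫⁻ t in ball (0 : ℂ) r, fi g t := setLIntegral_mono' measurableSet_ball hlow
    _ ≤ ∫⁻ t, fi g t := setLIntegral_le_lintegral _ _

/-- **crude extension** -/
theorem crude {ε : ℝ} (hε : 0 < ε) (hR : 0 < R) : ∃ C : ℝ≥0∞, C ≠ ∞ ∧ 1 ≤ C ∧
    ∀ (D : Dat R) (S : ℝ≥0∞), (∀ t, ‖t‖ ≤ ε → D.nrm D.U t ≤ S) →
      ∃ F : D.P → ℂ, Ho51.Hol F ∧ (∀ x, tc x = 0 → F x = D.U x) ∧
        ∫⁻ t, D.nrm F t ≤ C * S := by
  obtain ⟨C1, hC1, hth⟩ := exists_th_bound
  set V : ℝ≥0∞ := volume (closedBall (0 : ℂ) ε) with hV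
  have hVfin : V ≠ ∞ := (isCompact_closedBall (0 : ℂ) ε).measure_lt_top.ne
  set c3 : ℝ := (R ^ 2 + 1) * (R ^ 2 + ε ^ 2) with hc3
  set CC : ℝ≥0∞ := 2 * (ENNReal.ofReal c3 * (2 * (ENNReal.ofReal (8 * C1 / ε ^ 4) * V))) +
    2 * V + 1 with hCC
  refine ⟨CC, ?_, le_add_self, ?_⟩
  · have h1 : ENNReal.ofReal (8 * C1 / ε ^ 4) * V ≠ ∞ := ENNReal.mul_ne_top ENNReal.ofReal_ne_top hVfin
    refine ENNReal.add_ne_top.2 ⟨ENNReal.add_ne_top.2 ⟨?_, ?_⟩, by simp⟩
    · exact ENNReal.mul_ne_top (by simp) (ENNReal.mul_ne_top ENNReal.ofReal_ne_top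
        (ENNReal.mul_ne_top (by simp) h1))
    · exact ENNReal.mul_ne_top (by simp) hVfin
  intro D S hS
  by_cases hSt : S = ∞
  · refine ⟨D.U, hol_to _ D.U_hol, fun x _ => rfl, ?_⟩
    have hC0 : CC ≠ 0 := (lt_of_lt_of_le one_pos (le_add_self : (1 : ℝ≥0∞) ≤ CC)).ne'
    rw [hSt, ENNReal.mul_top hC0]
    exact le_top
  obtain ⟨μ, hμ⟩ := exists_leb (M := D.P)
  have hUc : Continuous D.U := D.U_hol.sm.continuous
  -- the integral of the density over `|t| ≤ ε`
  set E : Set D.P := {x | ‖tc x‖ ≤ ε} with hE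
  have hEm : MeasurableSet E := (isClosed_le cont_tc.norm continuous_const).measurableSet
  have hIE : ∫⁻ x, E.indicator (D.dens D.U) x ∂μ ≤ V * S := by
    rw [lintegral_eq_fi hμ ((D.dens_meas hUc).indicator hEm)]
    calc ∫⁻ t, fi (E.indicator (D.dens D.U)) t
        ≤ ∫⁻ t, (closedBall (0 : ℂ) ε).indicator (fun _ => S) t := by
          refine lintegral_mono fun t => ?_
          by_cases ht : t ∈ closedBall (0 : ℂ) ε
          · rw [indicator_of_mem ht]
            refine le_trans (fi_mono fun y _ => ?_) (hS t (by simpa using ht))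
            exact indicator_le_self _ _ _
          · rw [indicator_of_notMem ht]
            refine le_trans (fi_mono (h := fun _ => 0) fun y hy => ?_) ?_
            · rw [indicator_of_notMem]
              intro hyE
              apply ht
              have : tc y = t := hy
              rw [mem_closedBall_zero_iff, ← this]
              exact hyE
            · unfold fi fsum
              simp
      _ = V * S := by
          rw [lintegral_indicator isClosed_closedBall.measurableSet, lintegral_const,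
            Measure.restrict_apply_univ, mul_comm]
  -- the engine
  set kap : ℕ → D.P → ℝ := fun _ x =>
    (if 1 / 2 ≤ ‖tc x‖ ^ 2 / ε ^ 2 ∧ ‖tc x‖ ^ 2 / ε ^ 2 ≤ 1 then 4 * C1 * ‖D.U x‖ ^ 2 else 0)
    with hkap
  have hε2 : (0 : ℝ) < ε ^ 2 := by positivity
  have hk : ∀ k x (w : Fin (D.a + 1) → ℂ),
      ‖∑ j, db j (GG D ε) x * (starRingEnd ℂ) (w j)‖ ^ 2 ≤ kap k x * Levi (psiK D ε k) x w := by
    intro k x w
    rw [Levi_eq_lev (psiK_sm D hε k), AL_GG]
    have hlev := psiK_lev D hε k x w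
    set T := ‖tc x‖ ^ 2 / ε ^ 2 with hT
    by_cases hTc : 1 / 2 ≤ T ∧ T ≤ 1
    · have h1 : kap k x = 4 * C1 * ‖D.U x‖ ^ 2 := by
        rw [hkap]; simp only; rw [if_pos hTc]
      rw [h1]
      have htle : ‖tc x‖ ^ 2 ≤ ε ^ 2 := by
        have := hTc.2
        rw [hT, div_le_one hε2] at this
        exact this
      have h2 : ‖w 0‖ ^ 2 / (4 * ε ^ 2) ≤ lev (psiK D ε k) x w := by
        refine le_trans ?_ hlev
        rw [div_le_div_iff₀ (by positivity) (by positivity)]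
        have h3 : (‖tc x‖ ^ 2 + ε ^ 2) ^ 2 ≤ (2 * ε ^ 2) ^ 2 := by
          have := sq_nonneg ‖tc x‖
          apply pow_le_pow_left₀ (by positivity)
          linarith
        have h4 : 0 ≤ ‖w 0‖ ^ 2 := by positivity
        nlinarith
      have h5 : ‖(deriv th T : ℝ) * ((1 / ε ^ 2 : ℝ) : ℂ) * conj (w 0 * conj (tc x)) *
          D.U x‖ ^ 2 = (deriv th T) ^ 2 * (1 / ε ^ 2) ^ 2 * (‖w 0‖ ^ 2 * ‖tc x‖ ^ 2) *
            ‖D.U x‖ ^ 2 := by
        simp only [norm_mul, mul_pow, RCLike.norm_conj, Complex.norm_real, Real.norm_eq_abs, sq_abs]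
      rw [h5]
      have h6 := (hth T).1
      calc (deriv th T) ^ 2 * (1 / ε ^ 2) ^ 2 * (‖w 0‖ ^ 2 * ‖tc x‖ ^ 2) * ‖D.U x‖ ^ 2
          ≤ C1 * (1 / ε ^ 2) ^ 2 * (‖w 0‖ ^ 2 * ε ^ 2) * ‖D.U x‖ ^ 2 := by gcongr
        _ = 4 * C1 * ‖D.U x‖ ^ 2 * (‖w 0‖ ^ 2 / (4 * ε ^ 2)) := by field_simp
        _ ≤ _ := by gcongr
    · have h1 : deriv th T = 0 := by
        apply (hth T).2
        by_contra h2
        push Not at h2
        exact hTc ⟨h2.1, h2.2⟩
      rw [h1]
      have h2 : kap k x = 0 := by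
        rw [hkap]; simp only; rw [if_neg hTc]
      rw [h2]
      simp
  set K : ℝ≥0∞ := ENNReal.ofReal (8 * C1 / ε ^ 4) * (V * S) with hK
  have hKb : ∀ k, ∫⁻ x, ENNReal.ofReal (kap k x * Real.exp (-psiK D ε k x)) ∂μ ≤ K := by
    intro k
    calc ∫⁻ x, ENNReal.ofReal (kap k x * Real.exp (-psiK D ε k x)) ∂μ
        ≤ ∫⁻ x, ENNReal.ofReal (8 * C1 / ε ^ 4) * E.indicator (D.dens D.U) x ∂μ := by
          refine lintegral_mono fun x => ?_
          by_cases hTc : 1 / 2 ≤ ‖tc x‖ ^ 2 / ε ^ 2 ∧ ‖tc x‖ ^ 2 / ε ^ 2 ≤ 1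
          · have h1 : kap k x = 4 * C1 * ‖D.U x‖ ^ 2 := by
              rw [hkap]; simp only; rw [if_pos hTc]
            have htle : ‖tc x‖ ^ 2 ≤ ε ^ 2 := by
              have := hTc.2
              rw [div_le_one hε2] at this
              exact this
            have htge : ε ^ 2 / 2 ≤ ‖tc x‖ ^ 2 := by
              have := hTc.1
              rw [le_div_iff₀ hε2] at this
              linarith
            have hxE : x ∈ E := by
              show ‖tc x‖ ≤ ε
              exact le_of_sq_le_sq htle hε.le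
            rw [indicator_of_mem hxE, h1, exp_psiK D hε]
            unfold Dat.dens
            have hle : ENNReal.ofReal (Real.exp (-D.φ k x)) ≤ D.wt x :=
              le_iSup (fun k => ENNReal.ofReal (Real.exp (-D.φ k x))) k
            refine le_trans ?_ (mul_le_mul_right (mul_le_mul_right hle _) _)
            rw [← ENNReal.ofReal_mul (by positivity), ← ENNReal.ofReal_mul (by positivity)]
            apply ENNReal.ofReal_le_ofReal
            have hkp := inv_pos' k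
            have h7 : Real.exp (-D.φ k x) /
                ((‖tc x‖ ^ 2 + 1 / ((k : ℝ) + 1)) * (‖tc x‖ ^ 2 + ε ^ 2)) ≤
                Real.exp (-D.φ k x) / ((ε ^ 2 / 2) * ε ^ 2) := by
              gcongr
              · linarith
              · have := sq_nonneg ‖tc x‖
                linarith
            calc 4 * C1 * ‖D.U x‖ ^ 2 * (Real.exp (-D.φ k x) /
                ((‖tc x‖ ^ 2 + 1 / ((k : ℝ) + 1)) * (‖tc x‖ ^ 2 + ε ^ 2)))
                ≤ 4 * C1 * ‖D.U x‖ ^ 2 * (Real.exp (-D.φ k x) / ((ε ^ 2 / 2) * ε ^ 2)) := by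
                  gcongr
              _ = 8 * C1 / ε ^ 4 * (‖D.U x‖ ^ 2 * Real.exp (-D.φ k x)) := by
                  field_simp
                  ring
          · have h2 : kap k x = 0 := by
              rw [hkap]; simp only; rw [if_neg hTc]
            rw [h2, zero_mul, ENNReal.ofReal_zero]
            exact zero_le
      _ = ENNReal.ofReal (8 * C1 / ε ^ 4) * ∫⁻ x, E.indicator (D.dens D.U) x ∂μ :=
          lintegral_const_mul' _ _ ENNReal.ofReal_ne_top
      _ ≤ K := by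
          rw [hK]
          gcongr
  obtain ⟨F, hF, hFK⟩ := engineP (D.a + 1) D.P μ hμ D.ρ D.ρ_sm D.ρ_cpt
    (fun x w => by rw [Levi_eq_lev D.ρ_sm]; exact D.ρ_lev x w)
    (psiK D ε) (psiK_sm D hε) (psiK_anti D)
    (fun k x w => by
      rw [Levi_eq_lev (psiK_sm D hε k)]
      exact le_trans (by positivity) (psiK_lev D hε k x w))
    (GG D ε) (sm_GG D ε) kap hk K hKb
  have hFc : Continuous F := T7a297.Hol.continuous hF
  have hGc : Continuous (GG D ε) := (sm_GG D ε).continuous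
  have hKfin : 2 * K ≠ ∞ := by
    refine ENNReal.mul_ne_top (by simp) ?_
    exact ENNReal.mul_ne_top ENNReal.ofReal_ne_top (ENNReal.mul_ne_top hVfin hSt)
  refine ⟨F, hF, fun x hx => eq_on_zero D hε hFc hμ (lt_of_le_of_lt hFK hKfin.lt_top).ne hx, ?_⟩
  have hrw : ∫⁻ t, D.nrm F t = ∫⁻ x, D.dens F x ∂μ := (lintegral_eq_fi hμ (D.dens_meas hFc)).symm
  rw [hrw]
  -- pointwise estimate
  have hpt : ∀ x, D.dens F x ≤ 2 * (ENNReal.ofReal c3 * (ENNReal.ofReal (‖F x - GG D ε x‖ ^ 2) *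
      (⨆ k, ENNReal.ofReal (Real.exp (-psiK D ε k x))))) + 2 * E.indicator (D.dens D.U) x := by
    intro x
    have hw : D.wt x ≤ ENNReal.ofReal c3 * ⨆ k, ENNReal.ofReal (Real.exp (-psiK D ε k x)) := by
      unfold Dat.wt
      refine iSup_le fun k => ?_
      refine le_trans ?_ (mul_le_mul_right
        (le_iSup (fun k => ENNReal.ofReal (Real.exp (-psiK D ε k x))) k) _)
      rw [← ENNReal.ofReal_mul (by positivity)]
      apply ENNReal.ofReal_le_ofReal
      rw [exp_psiK D hε]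
      have hkp := inv_pos' k
      have htR : ‖tc x‖ ^ 2 ≤ R ^ 2 := by
        have := (D.tR x).le
        gcongr
      have hk1 : 1 / ((k : ℝ) + 1) ≤ 1 := by
        rw [div_le_one (by positivity)]
        have : (0 : ℝ) ≤ k := Nat.cast_nonneg k
        linarith
      have h8 : (‖tc x‖ ^ 2 + 1 / ((k : ℝ) + 1)) * (‖tc x‖ ^ 2 + ε ^ 2) ≤ c3 := by
        rw [hc3]
        gcongr
      rw [mul_div_assoc', le_div_iff₀ (by positivity)]
      have h9 := Real.exp_pos (-D.φ k x)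
      nlinarith
    have hsq : ENNReal.ofReal (‖F x‖ ^ 2) ≤ 2 * ENNReal.ofReal (‖F x - GG D ε x‖ ^ 2) +
        2 * ENNReal.ofReal (‖GG D ε x‖ ^ 2) := by
      have := T7a297.enorm_sq_le_aux (F x) (GG D ε x)
      rwa [show ‖F x‖ₑ ^ 2 = ENNReal.ofReal (‖F x‖ ^ 2) by
        rw [ENNReal.ofReal_pow (norm_nonneg _), ofReal_norm]] at this
    have hGle : ENNReal.ofReal (‖GG D ε x‖ ^ 2) * D.wt x ≤ E.indicator (D.dens D.U) x := by
      by_cases hxE : x ∈ E
      · rw [indicator_of_mem hxE]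
        unfold Dat.dens
        gcongr
        unfold GG
        rw [norm_mul, Complex.norm_real, Real.norm_eq_abs, abs_of_nonneg (th_nonneg _)]
        exact mul_le_of_le_one_left (norm_nonneg _) (th_le_one _)
      · have h1 : 1 ≤ ‖tc x‖ ^ 2 / ε ^ 2 := by
          have : ε < ‖tc x‖ := not_le.1 hxE
          rw [one_le_div hε2]
          have h3 := this.le
          gcongr
        have h2 : GG D ε x = 0 := by
          unfold GG
          rw [th_zero h1]; simp
        rw [h2]; simp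
    calc D.dens F x = ENNReal.ofReal (‖F x‖ ^ 2) * D.wt x := rfl
      _ ≤ (2 * ENNReal.ofReal (‖F x - GG D ε x‖ ^ 2) +
        2 * ENNReal.ofReal (‖GG D ε x‖ ^ 2)) * D.wt x := by gcongr
      _ = 2 * (ENNReal.ofReal (‖F x - GG D ε x‖ ^ 2) * D.wt x) +
        2 * (ENNReal.ofReal (‖GG D ε x‖ ^ 2) * D.wt x) := by ring
      _ ≤ 2 * (ENNReal.ofReal (‖F x - GG D ε x‖ ^ 2) * (ENNReal.ofReal c3 *
          ⨆ k, ENNReal.ofReal (Real.exp (-psiK D ε k x)))) +
          2 * E.indicator (D.dens D.U) x := by gcongr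
      _ = _ := by ring
  have hmI : Measurable fun x => 2 * E.indicator (D.dens D.U) x :=
    ((D.dens_meas hUc).indicator hEm).const_mul 2
  calc ∫⁻ x, D.dens F x ∂μ
      ≤ ∫⁻ x, (2 * (ENNReal.ofReal c3 * (ENNReal.ofReal (‖F x - GG D ε x‖ ^ 2) *
      (⨆ k, ENNReal.ofReal (Real.exp (-psiK D ε k x))))) + 2 * E.indicator (D.dens D.U) x) ∂μ :=
        lintegral_mono hpt
    _ = ∫⁻ x, 2 * (ENNReal.ofReal c3 * (ENNReal.ofReal (‖F x - GG D ε x‖ ^ 2) *
      (⨆ k, ENNReal.ofReal (Real.exp (-psiK D ε k x))))) ∂μ +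
        ∫⁻ x, 2 * E.indicator (D.dens D.U) x ∂μ := lintegral_add_right _ hmI
    _ = 2 * (ENNReal.ofReal c3 * ∫⁻ x, (ENNReal.ofReal (‖F x - GG D ε x‖ ^ 2) *
      (⨆ k, ENNReal.ofReal (Real.exp (-psiK D ε k x)))) ∂μ) +
        2 * ∫⁻ x, E.indicator (D.dens D.U) x ∂μ := by
        rw [lintegral_const_mul' _ _ (by simp), lintegral_const_mul' _ _ ENNReal.ofReal_ne_top,
          lintegral_const_mul' _ _ (by simp)]
    _ ≤ 2 * (ENNReal.ofReal c3 * (2 * K)) + 2 * (V * S) := by gcongr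
    _ ≤ CC * S := by
        rw [hCC, hK]
        have : 2 * (ENNReal.ofReal c3 * (2 * (ENNReal.ofReal (8 * C1 / ε ^ 4) * (V * S)))) +
            2 * (V * S) = (2 * (ENNReal.ofReal c3 * (2 * (ENNReal.ofReal (8 * C1 / ε ^ 4) * V))) +
              2 * V) * S := by ring
        rw [this]
        exact mul_le_mul_left le_self_add S

end Crest.Agent.R276.PV_159
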