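import Crest.Agent.R276.PVg_159
import Crest.Agent.R276.PVj_159

/-!
# Row 276, part D1 (helper159): plurisubharmonic variation by the tensor power trick
-/

set_option autoImplicit false
set_option linter.unusedSectionVars false

noncomputable section

open Set Filter Topology Complex MeasureTheory Metric
open scoped ENNReal ComplexConjugate

namespace Crest.Agent.R276.PV_159

open Crest.Agent.R271 Crest.Agent.R271.Ho51 Crest.Agent.R271.W792

variable {R : ℝ} {D : Dom R}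

/-- outside the disc the norms vanish -/
lemma Dom.nrm_out (Q : Dom R) (F : Q.P → ℂ) {t : ℂ} (ht : R ≤ ‖t‖) : Q.nrm F t = 0 := by
  refine fi_out _ fun x hx => ?_
  have := Q.tR x
  rw [hx] at this
  exact absurd this (not_lt.2 ht)

lemma FF.hol_E (X : FF D) (Q : Dom R) {F : (Q.mul D).P → ℂ} (hF : Ho51.Hol F)
    (hfin : ∀ᵐ t, (Q.mul D).nrm F t < ∞) : Ho51.Hol (X.E Q F) := X.hol1 Q F hF hfin

lemma FF.fin_E (X : FF D) (Q : Dom R) {F : (Q.mul D).P → ℂ} (hF : Ho51.Hol F)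
    (hfin : ∀ᵐ t, (Q.mul D).nrm F t < ∞) : ∀ᵐ t, Q.nrm (X.E Q F) t < ∞ := by
  filter_upwards [hfin] with t ht
  by_cases h : ‖t‖ < R
  · exact lt_of_le_of_lt (X.nrm_E Q hF h) (ENNReal.mul_lt_top ENNReal.ofReal_lt_top ht)
  · rw [Q.nrm_out _ (not_lt.1 h)]
    exact ENNReal.zero_lt_top

lemma FF.down_spec (X : FF D) : ∀ (j : ℕ) (F : (D.pw j).P → ℂ), Ho51.Hol F →
    (∀ᵐ t, (D.pw j).nrm F t < ∞) → Ho51.Hol (X.down j F) ∧ (∀ᵐ t, D.nrm (X.down j F) t < ∞) ∧
      ∀ t, ‖t‖ < R → D.nrm (X.down j F) t ≤ ENNReal.ofReal (X.κ t) ^ j * (D.pw j).nrm F t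
  | 0, F, hF, hfin => ⟨hF, hfin, fun t _ => by rw [pow_zero, one_mul]; exact le_rfl⟩
  | j + 1, F, hF, hfin => by
    have h1 := X.hol_E (D.pw j) hF hfin
    have h2 := X.fin_E (D.pw j) hF hfin
    obtain ⟨h3, h4, h5⟩ := X.down_spec j (X.E (D.pw j) F) h1 h2
    refine ⟨h3, h4, fun t ht => ?_⟩
    refine (h5 t ht).trans ?_
    rw [pow_succ, mul_assoc]
    exact mul_le_mul_right (X.nrm_E (D.pw j) hF ht) _

lemma FF.E_zero (X : FF D) (Q : Dom R) {F : (Q.mul D).P → ℂ} {V : Q.P → ℂ} {U : D.P → ℂ}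
    (h : ∀ p : (Q.mul D).P, tc p = 0 → F p = V (FP.fst (M := Q.P) (N := D.P) p) *
      U (FP.snd (M := Q.P) (N := D.P) p)) (q : Q.P) (hq : tc q = 0) :
    X.E Q F q = X.ξ 0 U * V q := by
  unfold FF.E
  rw [hq]
  have h1 : X.ξ 0 (fun x : D.P => ext2 (M := Q.P) (N := D.P) F q x) =
      X.ξ 0 (fun x => V q * U x) := by
    apply X.loc
    intro x hx
    have hc : (cp q : Fin (Q.a + 1) → ℂ) 0 = (cp x : Fin (D.a + 1) → ℂ) 0 := by
      have h2 : (cp q : Fin (Q.a + 1) → ℂ) 0 = 0 := hq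
      have h3 : (cp x : Fin (D.a + 1) → ℂ) 0 = 0 := hx
      rw [h2, h3]
    rw [ext2_of (M := Q.P) (N := D.P) F hc]
    exact h (FP.mk' q x hc) hq
  rw [h1, X.hom, mul_comm]

lemma FF.down_zero (X : FF D) (U : D.P → ℂ) : ∀ (j : ℕ) (c : ℂ) (F : (D.pw j).P → ℂ),
    (∀ p, tc p = 0 → F p = c * D.upw U j p) →
      ∀ x, tc x = 0 → X.down j F x = c * X.ξ 0 U ^ j * U x
  | 0, c, F, hF => fun x hx => by
    rw [pow_zero, mul_one]
    exact hF x hx
  | j + 1, c, F, hF => fun x hx => by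
    have h1 : ∀ q : (D.pw j).P, tc q = 0 → X.E (D.pw j) F q = (c * X.ξ 0 U) * D.upw U j q := by
      intro q hq
      have h2 := X.E_zero (D.pw j) (F := F) (V := fun q => c * D.upw U j q) (U := U) ?_ q hq
      · rw [h2]; ring
      · intro p hp
        have := hF p hp
        rw [this]
        show c * (D.upw U j _ * U _) = _
        ring
    have h3 := X.down_zero U j (c * X.ξ 0 U) (X.E (D.pw j) F) h1 x hx
    show X.down j (X.E (D.pw j) F) x = _
    rw [h3, pow_succ]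
    ring

lemma le_of_pow_le {a b c : ℝ} (_ha : 0 ≤ a) (hb : 0 ≤ b)
    (h : ∀ n : ℕ, a ^ (n + 1) ≤ c * b ^ (n + 1)) : a ≤ b := by
  rcases hb.eq_or_lt with hb0 | hb0
  · have := h 0
    rw [← hb0] at this ⊢
    simpa using this
  · by_contra hlt
    push Not at hlt
    have h1 : 1 < a / b := by rwa [one_lt_div hb0]
    have h2 : ∀ n : ℕ, (a / b) ^ (n + 1) ≤ c := by
      intro n
      rw [div_pow, div_le_iff₀ (by positivity)]
      exact h n
    have h3 := tendsto_pow_atTop_atTop_of_one_lt h1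
    have h4 : Tendsto (fun n : ℕ => (a / b) ^ (n + 1)) atTop atTop :=
      h3.comp (tendsto_add_atTop_nat 1)
    obtain ⟨n, hn⟩ := (h4.eventually_gt_atTop c).exists
    exact absurd (h2 n) (not_le.2 hn)

/-- **plurisubharmonic variation**, abstract form: if `U ⊗ ... ⊗ U` can be extended from the central
fibre with bounds `C S^(j+1)` then `|ξ_0(U)|² ≤ exp(avg log κ) S`. -/
theorem FF.pv (X : FF D) {U : D.P → ℂ} {C S : ℝ≥0∞} (hC : C ≠ ∞) (hS : S ≠ ∞)
    (hext : ∀ j, ∃ F : (D.pw j).P → ℂ, Ho51.Hol F ∧ (∀ x, tc x = 0 → F x = D.upw U j x) ∧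
      ∫⁻ t, (D.pw j).nrm F t ≤ C * S ^ (j + 1))
    {r1 r2 : ℝ} (hr1 : 0 ≤ r1) (hr : r1 < r2) (hrR : r2 < R)
    (hκ : IntegrableOn (fun t => Real.log (X.κ t)) (Ann r1 r2))
    {c0 : ℝ} (hc0 : ∀ t ∈ Ann r1 r2, c0 ≤ Real.log (X.κ t)) :
    ‖X.ξ 0 U‖ ^ 2 ≤ Real.exp (⨍ t in Ann r1 r2, Real.log (X.κ t)) * S.toReal := by
  set b : ℝ := Real.exp (⨍ t in Ann r1 r2, Real.log (X.κ t)) * S.toReal with hb
  have hb0 : 0 ≤ b := by positivity
  refine le_of_pow_le (c := C.toReal / volume.real (Ann r1 r2)) (by positivity) hb0 fun j => ?_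
  obtain ⟨F, hF, hF0, hFb⟩ := hext j
  have hBfin : C * S ^ (j + 1) ≠ ∞ := ENNReal.mul_ne_top hC (ENNReal.pow_ne_top hS)
  have hmeas : Measurable ((D.pw j).nrm F) :=
    measurable_fi ((D.pw j).dens_meas (T7a297.Hol.continuous hF))
  have hfin : ∀ᵐ t, (D.pw j).nrm F t < ∞ :=
    ae_lt_top hmeas (lt_of_le_of_lt hFb hBfin.lt_top).ne
  obtain ⟨h1, h2, h3⟩ := X.down_spec j F hF hfin
  have hh := X.hol0 (X.down j F) h1 h2
  have hzero : X.ξ 0 (X.down j F) = X.ξ 0 U ^ (j + 1) := by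
    have h4 := X.down_zero U j 1 F (fun p hp => by rw [one_mul]; exact hF0 p hp)
    have h5 : X.ξ 0 (X.down j F) = X.ξ 0 (fun x => (1 * X.ξ 0 U ^ j) * U x) :=
      X.loc 0 _ _ h4
    rw [h5, X.hom]
    ring
  have hle : ∀ t ∈ Ann r1 r2, ENNReal.ofReal (‖X.ξ t (X.down j F)‖ ^ 2) ≤
      ENNReal.ofReal (Real.exp (((j + 1 : ℕ) : ℝ) * Real.log (X.κ t))) * (D.pw j).nrm F t := by
    intro t ht
    have htR : ‖t‖ < R := ht.2.trans hrR
    refine (X.bd t htR _ (Hol.fhol h1 t)).trans ?_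
    refine (mul_le_mul_right (h3 t htR) _).trans ?_
    rw [← mul_assoc, ← pow_succ', ← Real.log_pow, Real.exp_log (pow_pos (X.κ_pos t) _),
      ENNReal.ofReal_pow (X.κ_pos t).le]
  have hw := weighted_mean hr1 hr hrR hh (u := fun t => ((j + 1 : ℕ) : ℝ) * Real.log (X.κ t))
    (hκ.const_mul _) (c0 := ((j + 1 : ℕ) : ℝ) * c0)
    (fun t ht => mul_le_mul_of_nonneg_left (hc0 t ht) (by positivity)) hBfin hFb hle
  rw [hzero, norm_pow, ← pow_mul, mul_comm (j + 1) 2, pow_mul] at hw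
  refine hw.trans_eq ?_
  have h6 : ⨍ t in Ann r1 r2, ((j + 1 : ℕ) : ℝ) * Real.log (X.κ t) =
      ((j + 1 : ℕ) : ℝ) * ⨍ t in Ann r1 r2, Real.log (X.κ t) := by
    rw [setAverage_eq, setAverage_eq, integral_const_mul, smul_eq_mul, smul_eq_mul]
    ring
  rw [h6, Real.exp_nat_mul, ENNReal.toReal_mul, ENNReal.toReal_pow, hb, mul_pow]
  ring

/-! ### the crude extension gives the hypothesis of `FF.pv` -/

lemma hol_mul {n : ℕ} {M : Type*} [TopologicalSpace M] [RDom n M] {f g : M → ℂ}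
    (hf : Ho51.Hol f) (hg : Ho51.Hol g) : Ho51.Hol (fun x => f x * g x) :=
  fun e he => (hf e he).mul (hg e he)

lemma Dom.upw_hol {U : D.P → ℂ} (hU : W792.Hol U) : ∀ j, W792.Hol (D.upw U j)
  | 0 => hU
  | j + 1 => hol_of _ (hol_mul (hol_to _ (FP.mor_fst.hol (Dom.upw_hol hU j)))
      (hol_to _ (FP.mor_snd.hol hU)))

lemma fi_const_mul_meas {a : ℕ} {M : Type} [TopologicalSpace M] [RDom (a + 1) M]
    [MeasurableSpace M] [BorelSpace M] [SecondCountableTopology M] {g : M → ℝ≥0∞}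
    (hg : Measurable g) (t : ℂ) (k : ℝ≥0∞) : fi (fun y => k * g y) t = k * fi g t := by
  have hm : Measurable fun x : Fin a → ℂ => fsum g (Fin.cons t x) :=
    (measurable_cons (measurable_fsum hg)).comp (measurable_const.prodMk measurable_id)
  unfold fi
  rw [← lintegral_const_mul k hm]
  refine lintegral_congr fun x => ?_
  unfold fsum
  rw [ENNReal.tsum_mul_left]

local instance instMFP' {a b : ℕ} {M N : Type} [TopologicalSpace M] [TopologicalSpace N]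
    [RDom (a + 1) M] [RDom (b + 1) N] : MeasurableSpace (FP M N) := borel _
local instance instBFP' {a b : ℕ} {M N : Type} [TopologicalSpace M] [TopologicalSpace N]
    [RDom (a + 1) M] [RDom (b + 1) N] : BorelSpace (FP M N) := ⟨rfl⟩

lemma Dom.nrm_tensor (Q E : Dom R) (V : Q.P → ℂ) (U : E.P → ℂ) (hV : Continuous V)
    (hU : Continuous U) (t : ℂ) :
    (Q.mul E).nrm (fun p => V (FP.fst (M := Q.P) (N := E.P) p) * U (FP.snd (M := Q.P) (N := E.P) p)) t
      = Q.nrm V t * E.nrm U t := by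
  set F : (Q.mul E).P → ℂ := fun p => V (FP.fst (M := Q.P) (N := E.P) p) *
    U (FP.snd (M := Q.P) (N := E.P) p) with hF
  have hFc : Continuous F := (hV.comp FP.cont_fst).mul (hU.comp FP.cont_snd)
  have hm : Measurable ((Q.mul E).dens F) := (Q.mul E).dens_meas hFc
  have hfub : (Q.mul E).nrm F t = fi (fun m : Q.P => fi (fun n : E.P =>
      ext2 (M := Q.P) (N := E.P) ((Q.mul E).dens F) m n) t) t :=
    fi_FP (M := Q.P) (N := E.P) hm t
  have h1 : ∀ m : Q.P, tc m = t → fi (fun n : E.P =>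
      ext2 (M := Q.P) (N := E.P) ((Q.mul E).dens F) m n) t = Q.dens V m * E.nrm U t := by
    intro m hm'
    unfold Dom.nrm
    rw [← fi_const_mul_meas (E.dens_meas hU)]
    refine fi_congr fun n hn => ?_
    have h : (cp m : Fin (Q.a + 1) → ℂ) 0 = (cp n : Fin (E.a + 1) → ℂ) 0 := by
      rw [hn]; exact hm'
    rw [ext2_of (M := Q.P) (N := E.P) _ h]
    unfold Dom.dens
    rw [Dom.wt_mul]
    show ENNReal.ofReal (‖V m * U n‖ ^ 2) * (Q.wt m * E.wt n) = _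
    rw [norm_mul, mul_pow, ENNReal.ofReal_mul (by positivity)]
    ring
  rw [hfub]
  calc fi (fun m : Q.P => fi (fun n : E.P =>
      ext2 (M := Q.P) (N := E.P) ((Q.mul E).dens F) m n) t) t
      = fi (fun m => E.nrm U t * Q.dens V m) t := fi_congr fun m hm' => by
        rw [h1 m hm', mul_comm]
    _ = E.nrm U t * Q.nrm V t := fi_const_mul_meas (Q.dens_meas hV) t _
    _ = _ := mul_comm _ _

lemma Dom.upw_cont {U : D.P → ℂ} (hU : W792.Hol U) (j : ℕ) : Continuous (D.upw U j) :=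
  (Dom.upw_hol hU j).sm.continuous

lemma Dom.nrm_upw {U : D.P → ℂ} (hU : W792.Hol U) (t : ℂ) : ∀ j, (D.pw j).nrm (D.upw U j) t =
    D.nrm U t ^ (j + 1)
  | 0 => by rw [zero_add, pow_one]; rfl
  | j + 1 => by
    have h1 := Dom.nrm_tensor (D.pw j) D (D.upw U j) U (Dom.upw_cont hU j) hU.sm.continuous t
    have h2 := Dom.nrm_upw hU t j
    rw [h2] at h1
    rw [pow_succ (D.nrm U t) (j + 1)]
    exact h1

/-- **plurisubharmonic variation, crude form**: `U` is a global holomorphic function, its norms near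
`0` are at most `S`. -/
theorem FF.pv_crude (X : FF D) {U : D.P → ℂ} (hU : W792.Hol U) {S : ℝ≥0∞} (hS : S ≠ ∞)
    (hnrm : ∀ᶠ t in 𝓝 (0 : ℂ), D.nrm U t ≤ S)
    {r1 r2 : ℝ} (hr1 : 0 ≤ r1) (hr : r1 < r2) (hrR : r2 < R)
    (hκ : IntegrableOn (fun t => Real.log (X.κ t)) (Ann r1 r2))
    {c0 : ℝ} (hc0 : ∀ t ∈ Ann r1 r2, c0 ≤ Real.log (X.κ t)) :
    ‖X.ξ 0 U‖ ^ 2 ≤ Real.exp (⨍ t in Ann r1 r2, Real.log (X.κ t)) * S.toReal := by
  obtain ⟨ε, hε, hball⟩ := Metric.eventually_nhds_iff_ball.1 hnrm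
  have hR : 0 < R := lt_of_le_of_lt hr1 (hr.trans hrR)
  obtain ⟨C, hC, _, hcr⟩ := crude (ε := ε / 2) (R := R) (by positivity) hR
  refine X.pv hC hS (fun j => ?_) hr1 hr hrR hκ hc0
  have hUj := Dom.upw_hol (D := D) hU j
  obtain ⟨F, hF, hF0, hFb⟩ := hcr ((D.pw j).dat (D.upw U j) hUj) (S ^ (j + 1)) (fun t ht => by
    have h1 := Dom.nrm_upw (D := D) hU t j
    have h2 : D.nrm U t ≤ S := hball t (by
      rw [mem_ball_zero_iff]; linarith)
    show (D.pw j).nrm (D.upw U j) t ≤ _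
    rw [h1]
    exact pow_le_pow_left' h2 _)
  exact ⟨F, hF, hF0, hFb⟩

end Crest.Agent.R276.PV_159
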