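import Crest.Agent.R276.PVh_159
import Crest.Agent.R276.Lq_464

/-!
# Row 276, part D1 (helper159): plurisubharmonic variation, exponent `p` and two norms; evaluation
functionals
-/

set_option autoImplicit false
set_option linter.unusedSectionVars false

noncomputable section

open Set Filter Topology Complex MeasureTheory Metric
open scoped ENNReal ComplexConjugate

namespace Crest.Agent.R276.PV_159

open Crest.Agent.R271 Crest.Agent.R271.Ho51 Crest.Agent.R271.W792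

/-! ### the weighted mean value inequality with exponent `p ≤ 2` -/

theorem weighted_mean_p {h : ℂ → ℂ} {p : ℝ} (hp : 0 < p) (hp2 : p ≤ 2) {r1 r2 R : ℝ} (hr1 : 0 ≤ r1)
    (hr : r1 < r2) (hrR : r2 < R)
    (hh : DifferentiableOn ℂ h (ball 0 R)) {u : ℂ → ℝ} (hu : IntegrableOn u (Ann r1 r2))
    {c0 : ℝ} (hc0 : ∀ t ∈ Ann r1 r2, c0 ≤ u t) {A : ℂ → ℝ≥0∞} {B : ℝ≥0∞} (hB : B ≠ ∞)
    (hA : ∫⁻ t, A t ≤ B)
    (hle : ∀ᵐ t, t ∈ Ann r1 r2 →
      ENNReal.ofReal (‖h t‖ ^ p) ≤ ENNReal.ofReal (Real.exp (u t)) * A t) :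
    ‖h 0‖ ^ p ≤ Real.exp (⨍ t in Ann r1 r2, u t) * (B.toReal / volume.real (Ann r1 r2)) := by
  set S := Ann r1 r2 with hS
  have hSm : MeasurableSet S := measurableSet_Ann r1 r2
  have hV : 0 < volume.real S := ENNReal.toReal_pos (vol_Ann_pos hr1 hr).ne' (vol_Ann_lt r1 r2).ne
  have hr2 : 0 < r2 := lt_of_le_of_lt hr1 hr
  have hsubs : closedBall (0 : ℂ) r2 ⊆ ball 0 R := closedBall_subset_ball hrR
  have han : AnalyticOnNhd ℂ h (ball 0 R) := hh.analyticOnNhd isOpen_ball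
  have hhc : ContinuousOn h (closedBall 0 r2) := hh.continuousOn.mono hsubs
  have hum : AEStronglyMeasurable u (volume.restrict S) := hu.aestronglyMeasurable
  have hexpm : AEStronglyMeasurable (fun t => Real.exp (-u t)) (volume.restrict S) :=
    Real.continuous_exp.comp_aestronglyMeasurable hum.neg
  have hhm : AEStronglyMeasurable (fun t => ‖h t‖ ^ p) (volume.restrict S) := by
    have : ContinuousOn (fun t => ‖h t‖ ^ p) S :=
      (hhc.mono (Ann_sub r1 r2)).norm.rpow_const fun _ _ => Or.inr hp.le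
    exact this.aestronglyMeasurable hSm
  have hprodm : AEStronglyMeasurable (fun t => ‖h t‖ ^ p * Real.exp (-u t)) (volume.restrict S) :=
    hhm.mul hexpm
  have hlint : ∫⁻ t in S, ENNReal.ofReal (‖h t‖ ^ p * Real.exp (-u t)) ≤ B := by
    refine le_trans ?_ (le_trans (setLIntegral_le_lintegral S A) hA)
    refine setLIntegral_mono_ae' hSm ?_
    filter_upwards [hle] with t hle ht
    rw [ENNReal.ofReal_mul (by positivity)]
    calc ENNReal.ofReal (‖h t‖ ^ p) * ENNReal.ofReal (Real.exp (-u t))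
        ≤ (ENNReal.ofReal (Real.exp (u t)) * A t) * ENNReal.ofReal (Real.exp (-u t)) := by
          gcongr
          exact hle ht
      _ = (ENNReal.ofReal (Real.exp (u t)) * ENNReal.ofReal (Real.exp (-u t))) * A t := by ring
      _ = A t := by
          rw [← ENNReal.ofReal_mul (Real.exp_pos _).le, ← Real.exp_add, add_neg_cancel, Real.exp_zero,
            ENNReal.ofReal_one, one_mul]
  have hI1 : IntegrableOn (fun t => ‖h t‖ ^ p * Real.exp (-u t)) S := by
    refine ⟨hprodm, ?_⟩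
    rw [hasFiniteIntegral_iff_ofReal (Eventually.of_forall fun t => by positivity)]
    exact lt_of_le_of_lt hlint hB.lt_top
  have hv1 : ∫ t in S, ‖h t‖ ^ p * Real.exp (-u t) ≤ B.toReal := by
    rw [integral_eq_lintegral_of_nonneg_ae (Eventually.of_forall fun t => by positivity) hprodm]
    exact ENNReal.toReal_mono hB hlint
  have hI2 : IntegrableOn (fun t => Real.exp (-u t)) S := by
    refine IntegrableOn.of_bound (vol_Ann_lt r1 r2) hexpm (Real.exp (-c0)) ?_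
    rw [ae_restrict_iff' hSm]
    refine Eventually.of_forall fun t ht => ?_
    rw [Real.norm_eq_abs, abs_of_pos (Real.exp_pos _)]
    exact Real.exp_le_exp.2 (neg_le_neg (hc0 t ht))
  -- the inequality for `η > 0`
  have key : ∀ η : ℝ, 0 < η → ‖h 0‖ ^ p ≤ Real.exp (⨍ t in S, u t) *
      ((B.toReal + η ^ (p / 2) * ∫ t in S, Real.exp (-u t)) / volume.real S) := by
    intro η hη
    set F : ℂ → ℝ := fun t => (p / 2) * Real.log (‖h t‖ ^ 2 + η) with hF
    have hpos : ∀ t, 0 < ‖h t‖ ^ 2 + η := fun t => by positivity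
    have hexpF : ∀ t, Real.exp (F t) = (‖h t‖ ^ 2 + η) ^ (p / 2) := by
      intro t
      rw [hF, Real.rpow_def_of_pos (hpos t), mul_comm]
    have hsplit : ∀ t, (‖h t‖ ^ 2 + η) ^ (p / 2) ≤ ‖h t‖ ^ p + η ^ (p / 2) := by
      intro t
      refine (Real.rpow_add_le_add_rpow (sq_nonneg _) hη.le (by positivity) (by linarith)).trans
        (le_of_eq ?_)
      congr 1
      rw [← Real.rpow_natCast, ← Real.rpow_mul (norm_nonneg _)]
      congr 1
      push_cast
      ring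
    have hFc : ContinuousOn F (closedBall 0 r2) :=
      continuousOn_const.mul (((hhc.norm.pow 2).add continuousOn_const).log fun t _ => (hpos t).ne')
    have h1 : F 0 ≤ ⨍ t in S, F t := by
      refine submean_Ann hr1 hr hFc fun r hr0 hrr => ?_
      have h2 := log_add_le_cA hr0 hη
        (han.mono ((closedBall_subset_closedBall hrr.le).trans hsubs))
      have h3 : Real.circleAverage F 0 r =
          (p / 2) * Real.circleAverage (fun t => Real.log (‖h t‖ ^ 2 + η)) 0 r := by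
        rw [← smul_eq_mul, ← Real.circleAverage_fun_smul]
        rfl
      rw [h3]
      exact mul_le_mul_of_nonneg_left h2 (by positivity)
    have hFi : IntegrableOn F S :=
      (hFc.integrableOn_compact (isCompact_closedBall (0 : ℂ) r2)).mono_set (Ann_sub r1 r2)
    have hexpi : IntegrableOn (fun t => Real.exp (F t - u t)) S := by
      refine Integrable.mono' (hI1.add (hI2.const_mul (η ^ (p / 2)))) ?_ ?_
      · exact Real.continuous_exp.comp_aestronglyMeasurable (hFi.sub hu).aestronglyMeasurable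
      · refine Eventually.of_forall fun t => ?_
        rw [Real.norm_eq_abs, abs_of_pos (Real.exp_pos _), sub_eq_add_neg, Real.exp_add, hexpF]
        have := hsplit t
        have h5 := Real.exp_pos (-u t)
        simp only [Pi.add_apply]
        nlinarith
    have h2 : Real.exp (⨍ t in S, (F t - u t)) ≤ ⨍ t in S, Real.exp (F t - u t) :=
      convexOn_exp.map_set_average_le Real.continuous_exp.continuousOn isClosed_univ
        (vol_Ann_pos hr1 hr).ne' (vol_Ann_lt r1 r2).ne (Eventually.of_forall fun _ => mem_univ _)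
        (hFi.sub hu) hexpi
    have h3 : ⨍ t in S, Real.exp (F t - u t) ≤
        (B.toReal + η ^ (p / 2) * ∫ t in S, Real.exp (-u t)) / volume.real S := by
      rw [setAverage_eq, smul_eq_mul, ← div_eq_inv_mul]
      refine div_le_div_of_nonneg_right ?_ hV.le
      have h4 : ∫ t in S, Real.exp (F t - u t) ≤
          ∫ t in S, (‖h t‖ ^ p * Real.exp (-u t) + η ^ (p / 2) * Real.exp (-u t)) := by
        refine integral_mono hexpi (hI1.add (hI2.const_mul (η ^ (p / 2)))) fun t => ?_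
        simp only
        rw [sub_eq_add_neg, Real.exp_add, hexpF]
        have := hsplit t
        have h5 := Real.exp_pos (-u t)
        nlinarith
      refine h4.trans ?_
      rw [integral_add hI1 (hI2.const_mul _), integral_const_mul]
      linarith
    have h5 : ⨍ t in S, (F t - u t) = (⨍ t in S, F t) - ⨍ t in S, u t := by
      rw [setAverage_eq, setAverage_eq, setAverage_eq, integral_sub hFi hu]
      rw [smul_sub]
    rw [h5] at h2
    have h6 : ‖h 0‖ ^ p ≤ Real.exp (F 0) := by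
      rw [hexpF]
      have h7 : ‖h 0‖ ^ p = (‖h 0‖ ^ 2) ^ (p / 2) := by
        rw [← Real.rpow_natCast, ← Real.rpow_mul (norm_nonneg _)]
        congr 1
        push_cast
        ring
      rw [h7]
      exact Real.rpow_le_rpow (sq_nonneg _) (by linarith) (by positivity)
    calc ‖h 0‖ ^ p ≤ Real.exp (F 0) := h6
      _ ≤ Real.exp (⨍ t in S, F t) := Real.exp_le_exp.2 h1
      _ = Real.exp (⨍ t in S, u t) * Real.exp ((⨍ t in S, F t) - ⨍ t in S, u t) := by
          rw [← Real.exp_add]; congr 1; ring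
      _ ≤ _ := mul_le_mul_of_nonneg_left (h2.trans h3) (Real.exp_pos _).le
  -- the limit
  have hlim : Tendsto (fun η : ℝ => Real.exp (⨍ t in S, u t) *
      ((B.toReal + η ^ (p / 2) * ∫ t in S, Real.exp (-u t)) / volume.real S)) (𝓝[>] 0)
      (𝓝 (Real.exp (⨍ t in S, u t) *
        ((B.toReal + (0 : ℝ) ^ (p / 2) * ∫ t in S, Real.exp (-u t)) / volume.real S))) := by
    apply tendsto_nhdsWithin_of_tendsto_nhds
    have h0 : ContinuousAt (fun η : ℝ => η ^ (p / 2)) 0 :=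
      Real.continuousAt_rpow_const 0 (p / 2) (Or.inr (by positivity))
    exact tendsto_const_nhds.mul (((tendsto_const_nhds.add (h0.tendsto.mul tendsto_const_nhds))).div_const _)
  rw [Real.zero_rpow (by positivity), zero_mul, add_zero] at hlim
  refine ge_of_tendsto hlim ?_
  filter_upwards [self_mem_nhdsWithin] with η hη
  exact key η hη

/-! ### weighted `p`-norms on fibres -/

section pn

variable {a : ℕ} {M : Type} [TopologicalSpace M] [RDom (a + 1) M]

/-- `∫_{M_t} |F|^p w` -/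
def pn (p : ℝ) (w : M → ℝ≥0∞) (F : M → ℂ) (t : ℂ) : ℝ≥0∞ :=
  fi (fun x => ENNReal.ofReal (‖F x‖ ^ p) * w x) t

lemma fi_mono_ae {g h : M → ℝ≥0∞} {t : ℂ}
    (H : ∀ᵐ x : Fin a → ℂ, ∀ y : M, cp y = (Fin.cons t x : Fin (a + 1) → ℂ) → g y ≤ h y) :
    fi g t ≤ fi h t := by
  refine lintegral_mono_ae ?_
  filter_upwards [H] with x hx
  exact fsum_mono hx

end pn

local instance instMFP2 {a b : ℕ} {M N : Type} [TopologicalSpace M] [TopologicalSpace N]
    [RDom (a + 1) M] [RDom (b + 1) N] : MeasurableSpace (FP M N) := borel _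
local instance instBFP2 {a b : ℕ} {M N : Type} [TopologicalSpace M] [TopologicalSpace N]
    [RDom (a + 1) M] [RDom (b + 1) N] : BorelSpace (FP M N) := ⟨rfl⟩

/-- finite integrals have a.e. finite slices -/
lemma ae_fin {a b : ℕ} {M N : Type} [TopologicalSpace M] [TopologicalSpace N]
    [RDom (a + 1) M] [RDom (b + 1) N] [SecondCountableTopology M] [SecondCountableTopology N]
    [T2Space M] [T2Space N] {G : FP M N → ℝ≥0∞} (hG : Measurable G) {t : ℂ} (h : fi G t < ∞) :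
    ∀ᵐ x : Fin a → ℂ, ∀ q : M, cp q = (Fin.cons t x : Fin (a + 1) → ℂ) →
      fi (fun n : N => ext2 G q n) t < ∞ := by
  have h0 : Measurable fun z : Fin (a + b) → ℂ => fsum G (Fin.cons t z : Fin (a + b + 1) → ℂ) :=
    (measurable_cons (measurable_fsum hG)).comp (measurable_const.prodMk measurable_id)
  have h1 := measurable_append h0
  have h2 : Measurable fun x : Fin a → ℂ => ∫⁻ y : Fin b → ℂ,
      fsum G (Fin.cons t (Fin.append x y) : Fin (a + b + 1) → ℂ) := h1.lintegral_prod_right'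
  have h3 : ∫⁻ x : Fin a → ℂ, ∫⁻ y : Fin b → ℂ,
      fsum G (Fin.cons t (Fin.append x y) : Fin (a + b + 1) → ℂ) ≠ ∞ := by
    have h4 : fi G t = ∫⁻ x : Fin a → ℂ, ∫⁻ y : Fin b → ℂ,
      fsum G (Fin.cons t (Fin.append x y) : Fin (a + b + 1) → ℂ) := by
      unfold fi
      rw [lintegral_append h0]
    rw [← h4]
    exact h.ne
  filter_upwards [ae_lt_top h2 h3] with x hx q hq
  refine lt_of_le_of_lt ?_ hx
  unfold fi
  refine lintegral_mono fun y => ?_
  rw [fsum_FP]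
  unfold fsum
  exact ENNReal.le_tsum (f := fun m : {m : M // cp m = (Fin.cons t x : Fin (a + 1) → ℂ)} =>
    ∑' n : {n : N // cp n = (Fin.cons t y : Fin (b + 1) → ℂ)}, ext2 G m.1 n.1) ⟨q, hq⟩

variable {R : ℝ}

/-- product weights -/
def wmul {D E : Dom R} (w : D.P → ℝ≥0∞) (w' : E.P → ℝ≥0∞) (p : (D.mul E).P) : ℝ≥0∞ :=
  w (FP.fst (M := D.P) (N := E.P) p) * w' (FP.snd (M := D.P) (N := E.P) p)

lemma measurable_wmul {D E : Dom R} {w : D.P → ℝ≥0∞} {w' : E.P → ℝ≥0∞} (hw : Measurable w)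
    (hw' : Measurable w') : Measurable (wmul w w' : (D.mul E).P → ℝ≥0∞) :=
  (hw.comp (FP.cont_fst (M := D.P) (N := E.P)).measurable).mul
    (hw'.comp (FP.cont_snd (M := D.P) (N := E.P)).measurable)

/-- powers of a weight -/
def wpw {D : Dom R} (w : D.P → ℝ≥0∞) : ∀ j : ℕ, (D.pw j).P → ℝ≥0∞
  | 0 => w
  | j + 1 => wmul (D := D.pw j) (E := D) (wpw w j) w

lemma measurable_wpw {D : Dom R} {w : D.P → ℝ≥0∞} (hw : Measurable w) :
    ∀ j, Measurable (wpw w j : (D.pw j).P → ℝ≥0∞)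
  | 0 => hw
  | j + 1 => measurable_wmul (D := D.pw j) (E := D) (measurable_wpw hw j) hw

lemma measurable_pden {X : Type*} [TopologicalSpace X] [MeasurableSpace X] [BorelSpace X] {p : ℝ}
    (hp : 0 ≤ p) {w : X → ℝ≥0∞} (hw : Measurable w) {F : X → ℂ} (hF : Continuous F) :
    Measurable fun x => ENNReal.ofReal (‖F x‖ ^ p) * w x :=
  ((hF.norm.rpow_const fun _ => Or.inr hp).measurable.ennreal_ofReal).mul hw

/-- Fubini for `p`-norms -/
lemma pn_mul_ge (Q D : Dom R) {p : ℝ} (hp : 0 < p) {wQ : Q.P → ℝ≥0∞} {w : D.P → ℝ≥0∞}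
    (hwQ : Measurable wQ) (hw : Measurable w)
    {F : (Q.mul D).P → ℂ} (hF : Continuous F) (t : ℂ) :
    fi (fun q : Q.P => wQ q * pn p w (fun x : D.P => ext2 (M := Q.P) (N := D.P) F q x) t) t ≤
      pn p (wmul (D := Q) (E := D) wQ w) F t := by
  have hm : Measurable (fun x : (Q.mul D).P => ENNReal.ofReal (‖F x‖ ^ p) *
      wmul (D := Q) (E := D) wQ w x) := measurable_pden hp.le (measurable_wmul hwQ hw) hF
  have hfub : pn p (wmul (D := Q) (E := D) wQ w) F t = fi (fun m : Q.P => fi (fun n : D.P =>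
      ext2 (M := Q.P) (N := D.P) (fun x : (Q.mul D).P => ENNReal.ofReal (‖F x‖ ^ p) *
      wmul (D := Q) (E := D) wQ w x) m n) t) t :=
    fi_FP (M := Q.P) (N := D.P) hm t
  rw [hfub]
  refine fi_mono fun q hq => ?_
  refine (fi_const_mul_le _ t _).trans ?_
  refine fi_mono fun x hx => ?_
  have h : (cp q : Fin (Q.a + 1) → ℂ) 0 = (cp x : Fin (D.a + 1) → ℂ) 0 := by rw [hq, hx]
  beta_reduce
  rw [ext2_of (M := Q.P) (N := D.P) _ h, ext2_of (M := Q.P) (N := D.P) _ h]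
  unfold wmul
  show wQ q * (ENNReal.ofReal (‖F (FP.mk' q x h)‖ ^ p) * w x) ≤
    ENNReal.ofReal (‖F (FP.mk' q x h)‖ ^ p) * (wQ q * w x)
  exact le_of_eq (by ring)

/-- slices of functions with finite norm have finite norm -/
lemma Dom.ae_slice_fin (Q D : Dom R) {F : (Q.mul D).P → ℂ} (hF : Continuous F) {t : ℂ}
    (h : (Q.mul D).nrm F t < ∞) :
    ∀ᵐ x : Fin Q.a → ℂ, ∀ q : Q.P, cp q = (Fin.cons t x : Fin (Q.a + 1) → ℂ) →
      D.nrm (fun x : D.P => ext2 (M := Q.P) (N := D.P) F q x) t < ∞ := by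
  have hm : Measurable ((Q.mul D).dens F) := (Q.mul D).dens_meas hF
  filter_upwards [ae_fin (M := Q.P) (N := D.P) hm h] with x hx q hq
  have h1 := hx q hq
  have h2 : Q.wt q * D.nrm (fun x : D.P => ext2 (M := Q.P) (N := D.P) F q x) t ≤
      fi (fun n : D.P => ext2 (M := Q.P) (N := D.P) ((Q.mul D).dens F) q n) t := by
    refine (fi_const_mul_le _ t _).trans ?_
    refine fi_mono fun x' hx' => ?_
    have hqt : (cp q : Fin (Q.a + 1) → ℂ) 0 = t := by rw [hq]; rfl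
    have hc : (cp q : Fin (Q.a + 1) → ℂ) 0 = (cp x' : Fin (D.a + 1) → ℂ) 0 := by rw [hqt, hx']
    rw [ext2_of (M := Q.P) (N := D.P) _ hc]
    unfold Dom.dens
    beta_reduce
    rw [Dom.wt_mul, ext2_of (M := Q.P) (N := D.P) _ hc]
    show Q.wt q * (ENNReal.ofReal (‖F (FP.mk' q x' hc)‖ ^ 2) * D.wt x') ≤
      ENNReal.ofReal (‖F (FP.mk' q x' hc)‖ ^ 2) * (Q.wt q * D.wt x')
    exact le_of_eq (by ring)
  have h3 : Q.wt q * D.nrm (fun x : D.P => ext2 (M := Q.P) (N := D.P) F q x) t < ∞ :=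
    lt_of_le_of_lt h2 h1
  have hw0 : Q.wt q ≠ 0 := by
    have h4 : ENNReal.ofReal (Real.exp (-Q.φ 0 q)) ≤ Q.wt q := le_iSup
      (fun k => ENNReal.ofReal (Real.exp (-Q.φ k q))) 0
    intro h0
    rw [h0] at h4
    exact absurd h4 (not_le.2 (ENNReal.ofReal_pos.2 (Real.exp_pos _)))
  by_contra h5
  rw [not_lt, top_le_iff] at h5
  rw [h5, ENNReal.mul_top hw0] at h3
  exact absurd h3 (lt_irrefl _)

/-- a holomorphic family of functionals with a `p`-norm bound on functions with finite norm -/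
structure FF2 (D : Dom R) (w : D.P → ℝ≥0∞) (p : ℝ) where
  /-- the functional -/
  ξ : ℂ → (D.P → ℂ) → ℂ
  /-- the bound -/
  κ : ℂ → ℝ
  /-- the auxiliary bound -/
  κ2 : ℂ → ℝ≥0∞
  κ_pos : ∀ t, 0 < κ t
  κ2_fin : ∀ t, κ2 t ≠ ∞
  loc : ∀ t g g', (∀ x, tc x = t → g x = g' x) → ξ t g = ξ t g'
  hom : ∀ t c g, ξ t (fun x => c * g x) = c * ξ t g
  bd2 : ∀ t, ‖t‖ < R → ∀ g, FHol t g →
    ENNReal.ofReal (‖ξ t g‖ ^ 2) ≤ κ2 t * D.nrm g t
  bdp : ∀ᵐ t, ‖t‖ < R → ∀ g, FHol t g → D.nrm g t < ∞ →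
    ENNReal.ofReal (‖ξ t g‖ ^ p) ≤ ENNReal.ofReal (κ t) * pn p w g t
  hol0 : ∀ G : D.P → ℂ, Ho51.Hol G → (∀ᵐ t, D.nrm G t < ∞) →
    DifferentiableOn ℂ (fun t => ξ t G) (ball 0 R)
  hol1 : ∀ (Q : Dom R) (F : (Q.mul D).P → ℂ), Ho51.Hol F → (∀ᵐ t, (Q.mul D).nrm F t < ∞) →
    Ho51.Hol (fun q : Q.P => ξ (tc q) (fun x : D.P => ext2 (M := Q.P) (N := D.P) F q x))

variable {D : Dom R} {w : D.P → ℝ≥0∞} {p : ℝ}

/-- apply the functional to the last factor -/
def FF2.E (X : FF2 D w p) (Q : Dom R) (F : (Q.mul D).P → ℂ) (q : Q.P) : ℂ :=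
  X.ξ (tc q) (fun x : D.P => ext2 (M := Q.P) (N := D.P) F q x)

lemma FF2.nrm_E (X : FF2 D w p) (Q : Dom R) {F : (Q.mul D).P → ℂ} (hF : Ho51.Hol F) {t : ℂ}
    (ht : ‖t‖ < R) : Q.nrm (X.E Q F) t ≤ X.κ2 t * (Q.mul D).nrm F t := by
  refine le_trans ?_ (mul_le_mul_right (Q.nrm_mul_ge D (T7a297.Hol.continuous hF) t) _)
  rw [← fi_const_mul (X.κ2_fin t)]
  refine fi_mono fun q hq => ?_
  have hq' : tc q = t := hq
  have h1 := X.bd2 (tc q) (by rw [hq']; exact ht) _ (FHol.slice (M := Q.P) (N := D.P) hF q)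
  unfold Dom.dens FF2.E
  rw [hq'] at h1 ⊢
  calc _ ≤ (X.κ2 t * D.nrm (fun x => ext2 (M := Q.P) (N := D.P) F q x) t) * Q.wt q :=
        mul_le_mul_left h1 _
    _ = _ := by ring

lemma FF2.fin_E (X : FF2 D w p) (Q : Dom R) {F : (Q.mul D).P → ℂ} (hF : Ho51.Hol F)
    (hfin : ∀ᵐ t, (Q.mul D).nrm F t < ∞) : ∀ᵐ t, Q.nrm (X.E Q F) t < ∞ := by
  filter_upwards [hfin] with t ht
  by_cases h : ‖t‖ < R
  · exact lt_of_le_of_lt (X.nrm_E Q hF h) (ENNReal.mul_lt_top (X.κ2_fin t).lt_top ht)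
  · rw [Q.nrm_out _ (not_lt.1 h)]
    exact ENNReal.zero_lt_top

/-- Bergman inequality in one variable, exponent `p` -/
lemma FF2.pn_E (X : FF2 D w p) (hp : 0 < p) (Q : Dom R) {wQ : Q.P → ℝ≥0∞} (hwQ : Measurable wQ)
    (hw : Measurable w) {F : (Q.mul D).P → ℂ} (hF : Ho51.Hol F) {t : ℂ}
    (hbd : ∀ g, FHol t g → D.nrm g t < ∞ →
      ENNReal.ofReal (‖X.ξ t g‖ ^ p) ≤ ENNReal.ofReal (X.κ t) * pn p w g t)
    (hfin : (Q.mul D).nrm F t < ∞) :
    pn p wQ (X.E Q F) t ≤ ENNReal.ofReal (X.κ t) * pn p (wmul (D := Q) (E := D) wQ w) F t := by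
  refine le_trans ?_ (mul_le_mul_right
    (pn_mul_ge Q D hp hwQ hw (T7a297.Hol.continuous hF) t) _)
  rw [← fi_const_mul ENNReal.ofReal_ne_top]
  refine fi_mono_ae ?_
  filter_upwards [Q.ae_slice_fin D (T7a297.Hol.continuous hF) hfin] with x hx q hq
  have hq' : tc q = t := by unfold tc; rw [hq]; rfl
  have h0 := FHol.slice (M := Q.P) (N := D.P) hF q
  rw [hq'] at h0
  have h1 := hbd _ h0 (hx q hq)
  unfold FF2.E
  rw [hq']
  calc _ ≤ (ENNReal.ofReal (X.κ t) * pn p w (fun x => ext2 (M := Q.P) (N := D.P) F q x) t) * wQ q :=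
        mul_le_mul_left h1 _
    _ = _ := by ring

/-- apply the functional to all factors but the first one -/
def FF2.down (X : FF2 D w p) : ∀ j : ℕ, ((D.pw j).P → ℂ) → (D.P → ℂ)
  | 0, F => F
  | j + 1, F => X.down j (X.E (D.pw j) F)

lemma FF2.down_spec (X : FF2 D w p) (hp : 0 < p) (hw : Measurable w) : ∀ (j : ℕ)
    (F : (D.pw j).P → ℂ), Ho51.Hol F →
    (∀ᵐ t, (D.pw j).nrm F t < ∞) → Ho51.Hol (X.down j F) ∧ (∀ᵐ t, D.nrm (X.down j F) t < ∞) ∧
      ∀ᵐ t, ‖t‖ < R → pn p w (X.down j F) t ≤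
        ENNReal.ofReal (X.κ t) ^ j * pn p (wpw w j) F t
  | 0, F, hF, hfin => ⟨hF, hfin, Eventually.of_forall fun t _ => by
      rw [pow_zero, one_mul]; exact le_rfl⟩
  | j + 1, F, hF, hfin => by
    have h1 : Ho51.Hol (X.E (D.pw j) F) := X.hol1 (D.pw j) F hF hfin
    have h2 := X.fin_E (D.pw j) hF hfin
    obtain ⟨h3, h4, h5⟩ := X.down_spec hp hw j (X.E (D.pw j) F) h1 h2
    refine ⟨h3, h4, ?_⟩
    filter_upwards [h5, X.bdp, hfin] with t h5 hbd hfin ht
    refine (h5 ht).trans ?_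
    rw [pow_succ, mul_assoc]
    exact mul_le_mul_right (X.pn_E hp (D.pw j) (measurable_wpw hw j) hw hF (hbd ht) hfin) _

lemma FF2.down_zero (X : FF2 D w p) (U : D.P → ℂ) : ∀ (j : ℕ) (c : ℂ) (F : (D.pw j).P → ℂ),
    (∀ q, tc q = 0 → F q = c * D.upw U j q) →
      ∀ x, tc x = 0 → X.down j F x = c * X.ξ 0 U ^ j * U x
  | 0, c, F, hF => fun x hx => by
    rw [pow_zero, mul_one]
    exact hF x hx
  | j + 1, c, F, hF => fun x hx => by
    have h1 : ∀ q : (D.pw j).P, tc q = 0 → X.E (D.pw j) F q = (c * X.ξ 0 U) * D.upw U j q := by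
      intro q hq
      unfold FF2.E
      rw [hq]
      have h1 : X.ξ 0 (fun x : D.P => ext2 (M := (D.pw j).P) (N := D.P) F q x) =
          X.ξ 0 (fun x => (c * D.upw U j q) * U x) := by
        apply X.loc
        intro x hx
        have hc : (cp q : Fin ((D.pw j).a + 1) → ℂ) 0 = (cp x : Fin (D.a + 1) → ℂ) 0 := by
          have h2 : (cp q : Fin ((D.pw j).a + 1) → ℂ) 0 = 0 := hq
          have h3 : (cp x : Fin (D.a + 1) → ℂ) 0 = 0 := hx
          rw [h2, h3]
        rw [ext2_of (M := (D.pw j).P) (N := D.P) F hc]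
        have := hF (FP.mk' q x hc) hq
        rw [this]
        show c * (D.upw U j q * U x) = _
        ring
      rw [h1, X.hom]
      ring
    have h3 := X.down_zero U j (c * X.ξ 0 U) (X.E (D.pw j) F) h1 x hx
    show X.down j (X.E (D.pw j) F) x = _
    rw [h3, pow_succ]
    ring

/-- **plurisubharmonic variation**, exponent `p` and two norms -/
theorem FF2.pv (X : FF2 D w p) (hp : 0 < p) (hp2 : p ≤ 2) (hw : Measurable w) {U : D.P → ℂ}
    {C S : ℝ≥0∞} (hC : C ≠ ∞) (hS : S ≠ ∞)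
    (hext : ∀ j, ∃ F : (D.pw j).P → ℂ, Ho51.Hol F ∧ (∀ x, tc x = 0 → F x = D.upw U j x) ∧
      (∀ᵐ t, (D.pw j).nrm F t < ∞) ∧ ∫⁻ t, pn p (wpw w j) F t ≤ C * S ^ (j + 1))
    {r1 r2 : ℝ} (hr1 : 0 ≤ r1) (hr : r1 < r2) (hrR : r2 < R)
    (hκ : IntegrableOn (fun t => Real.log (X.κ t)) (Ann r1 r2))
    {c0 : ℝ} (hc0 : ∀ t ∈ Ann r1 r2, c0 ≤ Real.log (X.κ t)) :
    ‖X.ξ 0 U‖ ^ p ≤ Real.exp (⨍ t in Ann r1 r2, Real.log (X.κ t)) * S.toReal := by
  set b : ℝ := Real.exp (⨍ t in Ann r1 r2, Real.log (X.κ t)) * S.toReal with hb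
  have hb0 : 0 ≤ b := by positivity
  refine le_of_pow_le (c := C.toReal / volume.real (Ann r1 r2)) (by positivity) hb0 fun j => ?_
  obtain ⟨F, hF, hF0, hfin, hFb⟩ := hext j
  have hBfin : C * S ^ (j + 1) ≠ ∞ := ENNReal.mul_ne_top hC (ENNReal.pow_ne_top hS)
  obtain ⟨h1, h2, h3⟩ := X.down_spec hp hw j F hF hfin
  have hh := X.hol0 (X.down j F) h1 h2
  have hzero : X.ξ 0 (X.down j F) = X.ξ 0 U ^ (j + 1) := by
    have h4 := X.down_zero U j 1 F (fun q hq => by rw [one_mul]; exact hF0 q hq)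
    have h5 : X.ξ 0 (X.down j F) = X.ξ 0 (fun x => (1 * X.ξ 0 U ^ j) * U x) :=
      X.loc 0 _ _ h4
    rw [h5, X.hom]
    ring
  have hle : ∀ᵐ t, t ∈ Ann r1 r2 → ENNReal.ofReal (‖X.ξ t (X.down j F)‖ ^ p) ≤
      ENNReal.ofReal (Real.exp (((j + 1 : ℕ) : ℝ) * Real.log (X.κ t))) * pn p (wpw w j) F t := by
    filter_upwards [h3, X.bdp, h2] with t h3 hbd h2 ht
    have htR : ‖t‖ < R := ht.2.trans hrR
    refine (hbd htR _ (Hol.fhol h1 t) h2).trans ?_
    refine (mul_le_mul_right (h3 htR) _).trans ?_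
    rw [← mul_assoc, ← pow_succ', ← Real.log_pow, Real.exp_log (pow_pos (X.κ_pos t) _),
      ENNReal.ofReal_pow (X.κ_pos t).le]
  have hwm := weighted_mean_p hp hp2 hr1 hr hrR hh
    (u := fun t => ((j + 1 : ℕ) : ℝ) * Real.log (X.κ t))
    (hκ.const_mul _) (c0 := ((j + 1 : ℕ) : ℝ) * c0)
    (fun t ht => mul_le_mul_of_nonneg_left (hc0 t ht) (by positivity)) hBfin hFb hle
  rw [hzero, norm_pow, ← Real.rpow_natCast (‖X.ξ 0 U‖) (j + 1), ← Real.rpow_mul (norm_nonneg _),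
    mul_comm ((j + 1 : ℕ) : ℝ) p, Real.rpow_mul (norm_nonneg _), Real.rpow_natCast] at hwm
  refine hwm.trans_eq ?_
  have h6 : ⨍ t in Ann r1 r2, ((j + 1 : ℕ) : ℝ) * Real.log (X.κ t) =
      ((j + 1 : ℕ) : ℝ) * ⨍ t in Ann r1 r2, Real.log (X.κ t) := by
    rw [setAverage_eq, setAverage_eq, integral_const_mul, smul_eq_mul, smul_eq_mul]
    ring
  rw [h6, Real.exp_nat_mul, ENNReal.toReal_mul, ENNReal.toReal_pow, hb, mul_pow]
  ring

end Crest.Agent.R276.PV_159
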