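import Crest.Agent.R276.PVl_159

/-!
# Row 276, part D1 (helper159): covectors of a holomorphic frame as families of functionals
-/

set_option autoImplicit false
set_option linter.unusedSectionVars false

noncomputable section

open Set Filter Topology Complex MeasureTheory Metric
open scoped ENNReal ComplexConjugate Matrix

namespace Crest.Agent.R276.PV_159

open Crest.Agent.R271 Crest.Agent.R271.Ho51 Crest.Agent.R271.W792

/-! ### linear algebra -/

/-- linearly independent functions have a nonvanishing determinant of values -/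
lemma exists_points {X : Type*} {s : ℕ} (u : Fin s → X → ℂ)
    (h : ∀ c : Fin s → ℂ, (∀ x, ∑ i, c i * u i x = 0) → c = 0) :
    ∃ q : Fin s → X, (Matrix.of fun k i => u i (q k)).det ≠ 0 := by
  set S : Set (Fin s → ℂ) := Set.range fun x : X => fun i => u i x with hS
  have hspan : Submodule.span ℂ S = ⊤ := by
    by_contra hne
    obtain ⟨f, hf0, hf⟩ := Submodule.exists_dual_map_eq_bot_of_lt_top (lt_top_iff_ne_top.2 hne)
      inferInstance
    apply hf0
    have h1 : (fun i => f (Pi.single i 1)) = (0 : Fin s → ℂ) := by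
      apply h
      intro x
      have h2 : f (fun i => u i x) = 0 := by
        have h3 : f (fun i => u i x) ∈ (Submodule.span ℂ S).map f :=
          Submodule.mem_map_of_mem (Submodule.subset_span ⟨x, rfl⟩)
        rw [hf] at h3
        exact (Submodule.mem_bot ℂ).1 h3
      have h4 : (fun i => u i x) = ∑ i, u i x • (Pi.single i 1 : Fin s → ℂ) := by
        funext j
        simp [Finset.sum_apply, Pi.single_apply]
      rw [h4, map_sum] at h2
      simp only [map_smul, smul_eq_mul] at h2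
      rw [← h2]
      exact Finset.sum_congr rfl fun i _ => mul_comm _ _
    refine LinearMap.pi_ext' fun i => ?_
    ext
    have := congrFun h1 i
    simpa using this
  obtain ⟨f, hf1, hf2, hf3⟩ := Submodule.exists_fun_fin_finrank_span_eq ℂ S
  have hfin : Module.finrank ℂ (Submodule.span ℂ S) = s := by
    rw [hspan, finrank_top]
    simp
  have h5 : ∀ i : Fin (Module.finrank ℂ (Submodule.span ℂ S)), ∃ x : X, (fun j => u j x) = f i :=
    fun i => hf1 i
  choose q hq using h5
  refine ⟨fun k => q (Fin.cast hfin.symm k), ?_⟩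
  have h6 : LinearIndependent ℂ (Matrix.of fun (k : Fin s) i => u i (q (Fin.cast hfin.symm k))).row := by
    have h7 : (Matrix.of fun (k : Fin s) i => u i (q (Fin.cast hfin.symm k))).row =
        f ∘ (Fin.cast hfin.symm) := by
      funext k
      exact hq _
    rw [h7]
    exact hf3.comp _ (Fin.cast_injective _)
  rw [Matrix.linearIndependent_rows_iff_isUnit, Matrix.isUnit_iff_isUnit_det] at h6
  exact h6.ne_zero

section det

variable {E : Type*} [NormedAddCommGroup E] [NormedSpace ℂ E] {s : ℕ}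

lemma differentiableOn_prod {ι : Type*} (S : Finset ι) {f : ι → E → ℂ} {W : Set E}
    (h : ∀ i, DifferentiableOn ℂ (f i) W) : DifferentiableOn ℂ (fun z => ∏ i ∈ S, f i z) W := by
  classical
  induction S using Finset.induction_on with
  | empty => simp only [Finset.prod_empty]; exact differentiableOn_const _
  | insert i S hi ih =>
    simp only [Finset.prod_insert hi]
    exact (h i).mul ih

lemma differentiableOn_det {A : E → Matrix (Fin s) (Fin s) ℂ} {W : Set E}
    (h : ∀ k i, DifferentiableOn ℂ (fun z => A z k i) W) :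
    DifferentiableOn ℂ (fun z => (A z).det) W := by
  have h1 : (fun z => (A z).det) = fun z => ∑ σ : Equiv.Perm (Fin s),
      ((Equiv.Perm.sign σ : ℤ) : ℂ) * ∏ i, A z (σ i) i := by
    funext z
    rw [Matrix.det_apply']
  rw [h1]
  refine DifferentiableOn.fun_sum fun σ _ => ?_
  refine (differentiableOn_const _).mul ?_
  exact differentiableOn_prod _ fun i => h _ _

/-- solution of a linear system depending on a parameter -/
def sol (A : E → Matrix (Fin s) (Fin s) ℂ) (b : E → Fin s → ℂ) (z : E) (i : Fin s) : ℂ :=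
  ((A z).updateCol i (b z)).det / (A z).det

lemma sol_eq {A : E → Matrix (Fin s) (Fin s) ℂ} {b : E → Fin s → ℂ} {z : E} (h0 : (A z).det ≠ 0)
    {c : Fin s → ℂ} (h : A z *ᵥ c = b z) : sol A b z = c := by
  have h1 : A z *ᵥ (sol A b z) = b z := by
    have h2 : sol A b z = ((A z).det)⁻¹ • Matrix.cramer (A z) (b z) := by
      funext i
      simp only [sol, Pi.smul_apply, smul_eq_mul, Matrix.cramer_apply]
      rw [div_eq_inv_mul]
    rw [h2, Matrix.mulVec_smul, Matrix.mulVec_cramer, smul_smul, inv_mul_cancel₀ h0, one_smul]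
  have h3 : IsUnit (A z) := (Matrix.isUnit_iff_isUnit_det _).2 (isUnit_iff_ne_zero.2 h0)
  exact Matrix.mulVec_injective_of_isUnit h3 (h1.trans h.symm)

lemma differentiableOn_sol {A : E → Matrix (Fin s) (Fin s) ℂ} {b : E → Fin s → ℂ} {W : Set E}
    (hA : ∀ k i, DifferentiableOn ℂ (fun z => A z k i) W)
    (hb : ∀ k, DifferentiableOn ℂ (fun z => b z k) W) (h0 : ∀ z ∈ W, (A z).det ≠ 0) (i : Fin s) :
    DifferentiableOn ℂ (fun z => sol A b z i) W := by
  have h1 : (fun z => sol A b z i) = fun z => ((A z).updateCol i (b z)).det * ((A z).det)⁻¹ := by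
    funext z
    simp only [sol, div_eq_mul_inv]
  rw [h1]
  refine DifferentiableOn.mul (differentiableOn_det fun k j => ?_) ((differentiableOn_det hA).inv h0)
  by_cases hj : j = i
  · have : (fun z => (A z).updateCol i (b z) k j) = fun z => b z k := by
      funext z; rw [hj]; simp
    rw [this]; exact hb k
  · have : (fun z => (A z).updateCol i (b z) k j) = fun z => A z k j := by
      funext z; rw [Matrix.updateCol_ne hj]
    rw [this]; exact hA k j

end det

/-! ### local sections -/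

section lsec

variable {a : ℕ} {M : Type} [TopologicalSpace M] [RDom (a + 1) M]

/-- coordinates of the local section through `x` -/
def lco (x : M) (t : ℂ) : Fin (a + 1) → ℂ := Fin.cons t fun i => cp x i.succ

/-- local section through `x`, constant in the fibre coordinates -/
def lsec (x : M) (t : ℂ) : M := (ch x).symm (lco x t)

/-- its domain -/
def ldom (x : M) : Set ℂ := {t | lco x t ∈ (ch x).target}

lemma lco_self (x : M) : lco x (tc x) = cp x := by
  funext i
  refine Fin.cases rfl (fun j => rfl) i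

lemma lco_diff (x : M) : Differentiable ℂ (lco x) := by
  rw [differentiable_pi]
  intro i
  refine Fin.cases ?_ (fun j => ?_) i
  · exact differentiable_id
  · exact differentiable_const _

lemma isOpen_ldom (x : M) : IsOpen (ldom x) :=
  (ch x).open_target.preimage (lco_diff x).continuous

lemma mem_ldom (x : M) : tc x ∈ ldom x := by
  show lco x (tc x) ∈ (ch x).target
  rw [lco_self]
  exact (isCh_ch x).cp_mem (mem_ch x)

lemma lsec_self (x : M) : lsec x (tc x) = x := by
  unfold lsec
  rw [lco_self]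
  exact (isCh_ch x).symm_cp (mem_ch x)

lemma lsec_of {x : M} {t : ℂ} (h : tc x = t) : lsec x t = x := by
  subst h
  exact lsec_self x

lemma cp_lsec {x : M} {t : ℂ} (ht : t ∈ ldom x) : cp (lsec x t) = lco x t :=
  (isCh_ch x).cp_symm ht

lemma tc_lsec {x : M} {t : ℂ} (ht : t ∈ ldom x) : tc (lsec x t) = t := by
  unfold tc
  rw [cp_lsec ht]
  rfl

lemma cont_lsec (x : M) : ContinuousOn (lsec x) (ldom x) :=
  (ch x).continuousOn_symm.comp (lco_diff x).continuous.continuousOn fun _ h => h

lemma diff_lsec (x : M) : DifferentiableOn ℂ (fun t => (cp (lsec x t) : Fin (a + 1) → ℂ)) (ldom x) :=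
  (lco_diff x).differentiableOn.congr fun _ ht => cp_lsec ht

lemma hol_lsec {G : M → ℂ} (hG : Ho51.Hol G) (x : M) :
    DifferentiableOn ℂ (fun t => G (lsec x t)) (ldom x) :=
  comp_hol_at (isOpen_ldom x) (cont_lsec x) (diff_lsec x) hG

end lsec

variable {R : ℝ}

/-- holomorphic frames of the spaces of holomorphic functions with finite norm -/
structure Frame (D : Dom R) (s : ℕ) where
  /-- the frame -/
  u : Fin s → D.P → ℂ
  hol : ∀ i, Ho51.Hol (u i)
  ind : ∀ t, ‖t‖ < R → ∀ c : Fin s → ℂ, (∀ x, tc x = t → ∑ i, c i * u i x = 0) → c = 0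
  sat : ∀ᵐ t, ‖t‖ < R → ∀ g, FHol t g → D.nrm g t < ∞ →
    ∃ c : Fin s → ℂ, ∀ x, tc x = t → g x = ∑ i, c i * u i x

variable {D : Dom R} {s : ℕ}

/-- `g` is a combination of the frame on the fibre over `t` -/
def Frame.In (B : Frame D s) (t : ℂ) (g : D.P → ℂ) : Prop :=
  ∃ c : Fin s → ℂ, ∀ x, tc x = t → g x = ∑ i, c i * B.u i x

open Classical in
/-- the covector `ξ` as a functional -/
def Frame.fn (B : Frame D s) (ξ : ℂ → Fin s → ℂ) (t : ℂ) (g : D.P → ℂ) : ℂ :=
  if h : ‖t‖ < R ∧ B.In t g then ∑ i, ξ t i * h.2.choose i else 0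

lemma Frame.uniq (B : Frame D s) {t : ℂ} (ht : ‖t‖ < R) {g : D.P → ℂ} {c c' : Fin s → ℂ}
    (h : ∀ x, tc x = t → g x = ∑ i, c i * B.u i x)
    (h' : ∀ x, tc x = t → g x = ∑ i, c' i * B.u i x) : c = c' := by
  have h1 : c - c' = 0 := by
    apply B.ind t ht
    intro x hx
    simp only [Pi.sub_apply, sub_mul, Finset.sum_sub_distrib]
    rw [← h x hx, ← h' x hx, sub_self]
  exact sub_eq_zero.1 h1

lemma Frame.fn_eq (B : Frame D s) (ξ : ℂ → Fin s → ℂ) {t : ℂ} (ht : ‖t‖ < R) {g : D.P → ℂ}
    {c : Fin s → ℂ} (h : ∀ x, tc x = t → g x = ∑ i, c i * B.u i x) :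
    B.fn ξ t g = ∑ i, ξ t i * c i := by
  have h0 : ‖t‖ < R ∧ B.In t g := ⟨ht, c, h⟩
  unfold Frame.fn
  rw [dif_pos h0]
  have h1 := B.uniq ht h h0.2.choose_spec
  rw [← h1]

lemma Frame.fn_zero (B : Frame D s) (ξ : ℂ → Fin s → ℂ) {t : ℂ} {g : D.P → ℂ}
    (h : ¬ (‖t‖ < R ∧ B.In t g)) : B.fn ξ t g = 0 := dif_neg h

lemma Frame.In.congr {B : Frame D s} {t : ℂ} {g g' : D.P → ℂ} (h : ∀ x, tc x = t → g x = g' x)
    (hg : B.In t g) : B.In t g' := by
  obtain ⟨c, hc⟩ := hg
  exact ⟨c, fun x hx => by rw [← h x hx]; exact hc x hx⟩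

lemma Frame.In.smul {B : Frame D s} {t : ℂ} {g : D.P → ℂ} (hg : B.In t g) (a : ℂ) :
    B.In t (fun x => a * g x) := by
  obtain ⟨c, hc⟩ := hg
  refine ⟨fun i => a * c i, fun x hx => ?_⟩
  beta_reduce
  rw [hc x hx, Finset.mul_sum]
  exact Finset.sum_congr rfl fun i _ => by ring

/-- **key lemma**: holomorphic dependence of the coordinates -/
theorem Frame.hol_fn (B : Frame D s) {ξ : ℂ → Fin s → ℂ}
    (hξ : ∀ i, DifferentiableOn ℂ (fun t => ξ t i) (ball 0 R))
    {E : Type*} [NormedAddCommGroup E] [NormedSpace ℂ E] {W : Set E} (hW : IsOpen W) {τ : E → ℂ}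
    (hτ : DifferentiableOn ℂ τ W) (hτR : ∀ z ∈ W, ‖τ z‖ < R) (Φ : E → D.P → ℂ)
    (hΦ : ∀ x : D.P, DifferentiableOn ℂ (fun z => Φ z (lsec x (τ z))) (W ∩ τ ⁻¹' ldom x))
    (hd : W ⊆ closure {z | z ∈ W ∧ B.In (τ z) (Φ z)}) :
    DifferentiableOn ℂ (fun z => B.fn ξ (τ z) (Φ z)) W := by
  intro z0 hz0
  -- the points
  obtain ⟨q, hq⟩ := exists_points (X := {x : D.P // tc x = τ z0}) (fun i x => B.u i x.1) (by
    intro c hc
    exact B.ind (τ z0) (hτR z0 hz0) c fun x hx => hc ⟨x, hx⟩)
  set A : E → Matrix (Fin s) (Fin s) ℂ := fun z => Matrix.of fun k i => B.u i (lsec (q k).1 (τ z))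
    with hA
  set b : E → Fin s → ℂ := fun z k => Φ z (lsec (q k).1 (τ z)) with hb
  set W1 : Set E := W ∩ ⋂ k, τ ⁻¹' ldom (q k).1 with hW1
  have hopen : ∀ V : Set ℂ, IsOpen V → IsOpen (W ∩ τ ⁻¹' V) := fun V hV =>
    hτ.continuousOn.isOpen_inter_preimage hW hV
  have hW1o : IsOpen W1 := by
    have h1 : W1 = W ∩ τ ⁻¹' (⋂ k, ldom (q k).1) := by rw [hW1, preimage_iInter]
    rw [h1]
    exact hopen _ (isOpen_iInter_of_finite fun k => isOpen_ldom _)
  have hAd : ∀ k i, DifferentiableOn ℂ (fun z => A z k i) W1 := by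
    intro k i
    have h1 := (hol_lsec (B.hol i) (q k).1).comp (s := W1) (hτ.mono inter_subset_left)
      (fun z hz => by
        have := mem_iInter.1 hz.2 k
        exact this)
    exact h1
  have hbd : ∀ k, DifferentiableOn ℂ (fun z => b z k) W1 := by
    intro k
    exact (hΦ (q k).1).mono fun z hz => ⟨hz.1, mem_iInter.1 hz.2 k⟩
  have hz01 : z0 ∈ W1 := by
    refine ⟨hz0, mem_iInter.2 fun k => ?_⟩
    show τ z0 ∈ ldom (q k).1
    have := mem_ldom (q k).1
    rwa [(q k).2] at this
  have hA0 : (A z0).det ≠ 0 := by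
    have h1 : A z0 = Matrix.of fun k i => B.u i (q k).1 := by
      ext k i
      simp only [hA, Matrix.of_apply]
      have h2 : lsec (q k).1 (τ z0) = (q k).1 := lsec_of (q k).2
      rw [h2]
    rw [h1]
    exact hq
  set W2 : Set E := {z ∈ W1 | (A z).det ≠ 0} with hW2
  have hdc : ContinuousOn (fun z => (A z).det) W1 := (differentiableOn_det hAd).continuousOn
  have hW2o : IsOpen W2 := by
    have h1 : W2 = W1 ∩ (fun z => (A z).det) ⁻¹' {0}ᶜ := rfl
    rw [h1]
    exact hdc.isOpen_inter_preimage hW1o isOpen_compl_singleton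
  have hsd : ∀ i, DifferentiableOn ℂ (fun z => sol A b z i) W2 := fun i =>
    differentiableOn_sol (fun k i => (hAd k i).mono fun z hz => hz.1)
      (fun k => (hbd k).mono fun z hz => hz.1) (fun z hz => hz.2) i
  -- good points
  have hgood : ∀ z ∈ W2, B.In (τ z) (Φ z) →
      ∀ x, tc x = τ z → Φ z x = ∑ i, sol A b z i * B.u i x := by
    rintro z hz ⟨c, hc⟩ x hx
    have h1 : A z *ᵥ c = b z := by
      funext k
      simp only [hA, hb, Matrix.mulVec, dotProduct, Matrix.of_apply]
      have h2 : τ z ∈ ldom (q k).1 := mem_iInter.1 hz.1.2 k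
      rw [hc (lsec (q k).1 (τ z)) (tc_lsec h2)]
      exact Finset.sum_congr rfl fun i _ => mul_comm _ _
    rw [sol_eq hz.2 h1]
    exact hc x hx
  -- all points
  have hall : ∀ z ∈ W2, ∀ x, tc x = τ z → Φ z x = ∑ i, sol A b z i * B.u i x := by
    intro z1 hz1 x hx
    set V : Set E := W2 ∩ τ ⁻¹' ldom x with hV
    have hVo : IsOpen V := by
      have h1 : V = W2 ∩ (W ∩ τ ⁻¹' ldom x) := by
        rw [hV, ← inter_assoc]
        congr 1
        exact (inter_eq_left.2 fun z hz => hz.1.1).symm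
      rw [h1]
      exact hW2o.inter (hopen _ (isOpen_ldom x))
    have hz1V : z1 ∈ V := ⟨hz1, by
      show τ z1 ∈ ldom x
      rw [← hx]; exact mem_ldom x⟩
    set f : E → ℂ := fun z => Φ z (lsec x (τ z)) - ∑ i, sol A b z i * B.u i (lsec x (τ z)) with hf
    have hfc : ContinuousOn f V := by
      refine ContinuousOn.sub ?_ ?_
      · exact (hΦ x).continuousOn.mono fun z hz => ⟨hz.1.1.1, hz.2⟩
      · refine continuousOn_finsetSum _ fun i _ => ?_
        refine ContinuousOn.mul ?_ ?_
        · exact (hsd i).continuousOn.mono inter_subset_left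
        · exact (hol_lsec (B.hol i) x).continuousOn.comp
            (hτ.continuousOn.mono fun z hz => hz.1.1.1) fun z hz => hz.2
    have hf0 : ∀ z ∈ V, B.In (τ z) (Φ z) → f z = 0 := by
      intro z hz hin
      simp only [hf]
      rw [hgood z hz.1 hin (lsec x (τ z)) (tc_lsec hz.2), sub_self]
    have hcl : z1 ∈ closure (V ∩ {z | z ∈ W ∧ B.In (τ z) (Φ z)}) :=
      hVo.inter_closure ⟨hz1V, hd hz1.1.1⟩
    have hfat : ContinuousAt f z1 := hfc.continuousAt (hVo.mem_nhds hz1V)
    have hfz : f z1 = 0 := by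
      have h1 : z1 ∈ closure (f ⁻¹' {0}) := by
        refine closure_mono ?_ hcl
        intro z hz
        exact hf0 z hz.1 hz.2.2
      have h2 := mem_closure_iff_clusterPt.1 h1
      have h5 : Tendsto f (𝓝 z1 ⊓ 𝓟 (f ⁻¹' {0})) (𝓝 (f z1)) := hfat.mono_left inf_le_left
      have h6 : Tendsto f (𝓝 z1 ⊓ 𝓟 (f ⁻¹' {0})) (𝓝 0) := by
        refine Tendsto.congr' ?_ tendsto_const_nhds
        have : f ⁻¹' {0} ∈ 𝓝 z1 ⊓ 𝓟 (f ⁻¹' {0}) := mem_inf_of_right (mem_principal_self _)
        filter_upwards [this] with z hz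
        exact hz.symm
      have h7 : (𝓝 z1 ⊓ 𝓟 (f ⁻¹' {0})).NeBot := h2
      exact tendsto_nhds_unique h5 h6
    have hls : lsec x (τ z1) = x := lsec_of hx
    simp only [hf, hls] at hfz
    exact sub_eq_zero.1 hfz
  -- conclusion
  have hz02 : z0 ∈ W2 := ⟨hz01, hA0⟩
  have hfin : DifferentiableOn ℂ (fun z => ∑ i, ξ (τ z) i * sol A b z i) W2 := by
    refine DifferentiableOn.fun_sum fun i _ => DifferentiableOn.mul ?_ (hsd i)
    exact (hξ i).comp (hτ.mono fun z hz => hz.1.1) fun z hz => by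
      rw [mem_ball_zero_iff]; exact hτR z hz.1.1
  have h1 : DifferentiableAt ℂ (fun z => B.fn ξ (τ z) (Φ z)) z0 := by
    refine (hfin.differentiableAt (hW2o.mem_nhds hz02)).congr_of_eventuallyEq ?_
    filter_upwards [hW2o.mem_nhds hz02] with z hz
    exact B.fn_eq ξ (hτR z hz.1.1) (hall z hz)
  exact h1.differentiableWithinAt

end Crest.Agent.R276.PV_159
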