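import Crest.Agent.R276.PVm_159

/-!
# Row 276, part D1 (helper159): covectors of a holomorphic frame as families of functionals, II
-/

set_option autoImplicit false
set_option linter.unusedSectionVars false

noncomputable section

open Set Filter Topology Complex MeasureTheory Metric
open scoped ENNReal ComplexConjugate Matrix

namespace Crest.Agent.R276.PV_159

open Crest.Agent.R271 Crest.Agent.R271.Ho51 Crest.Agent.R271.W792

variable {R : ℝ} {D : Dom R} {s : ℕ}

/-- combinations of the frame -/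
def Frame.cmb (B : Frame D s) (c : Fin s → ℂ) (x : D.P) : ℂ := ∑ i, c i * B.u i x

lemma Frame.cmb_hol (B : Frame D s) (c : Fin s → ℂ) : Ho51.Hol (B.cmb c) := by
  intro e he
  have h1 : (B.cmb c ∘ e.symm) = fun z => ∑ i, c i * (B.u i ∘ e.symm) z := rfl
  rw [h1]
  exact DifferentiableOn.fun_sum fun i _ => (differentiableOn_const _).mul (B.hol i e he)

/-- covectors are bounded for the norm -/
lemma Frame.bd2 (B : Frame D s) (ξ : ℂ → Fin s → ℂ) (t : ℂ) : ∃ C : ℝ≥0∞, C ≠ ∞ ∧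
    (‖t‖ < R → ∀ g, FHol t g → ENNReal.ofReal (‖B.fn ξ t g‖ ^ 2) ≤ C * D.nrm g t) := by
  by_cases ht : ‖t‖ < R
  · obtain ⟨q, hq⟩ := exists_points (X := {x : D.P // tc x = t}) (fun i x => B.u i x.1) (by
      intro c hc
      exact B.ind t ht c fun x hx => hc ⟨x, hx⟩)
    set A : Matrix (Fin s) (Fin s) ℂ := Matrix.of fun k i => B.u i (q k).1 with hA
    have hAu : IsUnit A.det := isUnit_iff_ne_zero.2 hq
    set L : Fin s → ℂ := ξ t ᵥ* A⁻¹ with hL
    have hC : ∀ k, ∃ C : ℝ≥0∞, C ≠ ∞ ∧ ∀ g, FHol t g →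
        ENNReal.ofReal (‖g (q k).1‖ ^ 2) ≤ C * D.nrm g t := by
      intro k
      obtain ⟨C, hC1, hC2⟩ := D.ev_bd (q k).1
      refine ⟨C, hC1, fun g hg => ?_⟩
      have h1 := hC2 g (by rw [(q k).2]; exact hg)
      rwa [(q k).2] at h1
    choose C hC1 hC2 using hC
    refine ⟨ENNReal.ofReal (∑ k, ‖L k‖ ^ 2) * ∑ k, C k,
      ENNReal.mul_ne_top ENNReal.ofReal_ne_top (ENNReal.sum_ne_top.2 fun k _ => hC1 k), ?_⟩
    intro _ g hg
    by_cases hin : B.In t g
    · obtain ⟨c, hc⟩ := hin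
      rw [B.fn_eq ξ ht hc]
      have h1 : A *ᵥ c = fun k => g (q k).1 := by
        funext k
        simp only [hA, Matrix.mulVec, dotProduct, Matrix.of_apply]
        rw [hc (q k).1 (q k).2]
        exact Finset.sum_congr rfl fun i _ => mul_comm _ _
      have h2 : ∑ i, ξ t i * c i = ∑ k, L k * g (q k).1 := by
        have h3 : L ⬝ᵥ (fun k => g (q k).1) = ξ t ⬝ᵥ c := by
          rw [← h1, hL, Matrix.dotProduct_mulVec, Matrix.vecMul_vecMul,
            Matrix.nonsing_inv_mul _ hAu, Matrix.vecMul_one]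
        exact h3.symm
      rw [h2]
      have h3 : ‖∑ k, L k * g (q k).1‖ ^ 2 ≤ (∑ k, ‖L k‖ ^ 2) * ∑ k, ‖g (q k).1‖ ^ 2 := by
        have h4 : ‖∑ k, L k * g (q k).1‖ ≤ ∑ k, ‖L k‖ * ‖g (q k).1‖ :=
          (norm_sum_le _ _).trans (le_of_eq (Finset.sum_congr rfl fun k _ => norm_mul _ _))
        calc ‖∑ k, L k * g (q k).1‖ ^ 2 ≤ (∑ k, ‖L k‖ * ‖g (q k).1‖) ^ 2 := by gcongr
          _ ≤ _ := Finset.sum_mul_sq_le_sq_mul_sq _ _ _
      calc ENNReal.ofReal (‖∑ k, L k * g (q k).1‖ ^ 2)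
          ≤ ENNReal.ofReal ((∑ k, ‖L k‖ ^ 2) * ∑ k, ‖g (q k).1‖ ^ 2) := ENNReal.ofReal_le_ofReal h3
        _ = ENNReal.ofReal (∑ k, ‖L k‖ ^ 2) * ∑ k, ENNReal.ofReal (‖g (q k).1‖ ^ 2) := by
            rw [ENNReal.ofReal_mul (Finset.sum_nonneg fun _ _ => by positivity),
              ENNReal.ofReal_sum_of_nonneg (s := Finset.univ) (f := fun k => ‖g (q k).1‖ ^ 2)
                (fun _ _ => by positivity)]
        _ ≤ ENNReal.ofReal (∑ k, ‖L k‖ ^ 2) * ∑ k, (C k * D.nrm g t) := by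
            gcongr with k _
            exact hC2 k g hg
        _ = _ := by rw [← Finset.sum_mul, mul_assoc]
    · rw [B.fn_zero ξ (fun h => hin h.2)]
      simp
  · exact ⟨0, by simp, fun h => absurd h ht⟩

/-- a.e. points of a ball are dense in it -/
lemma dense_of_ae {p : ℂ → Prop} (h : ∀ᵐ t, p t) (S : Set ℂ) : S ⊆ closure {t | t ∈ S ∧ p t} ∨
    ¬ IsOpen S := by
  by_cases hS : IsOpen S
  · left
    intro t ht
    rw [mem_closure_iff_nhds]
    intro V hV
    obtain ⟨O, hOV, hO, htO⟩ := _root_.mem_nhds_iff.1 (inter_mem hV (hS.mem_nhds ht))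
    have h1 : 0 < volume O := hO.measure_pos volume ⟨t, htO⟩
    have h2 : ∃ x ∈ O, p x := by
      by_contra hcon
      push Not at hcon
      have h3 : O ⊆ {x | ¬ p x} := fun x hx => hcon x hx
      have h4 : volume O ≤ volume {x | ¬ p x} := measure_mono h3
      rw [ae_iff] at h
      rw [h] at h4
      exact absurd (le_antisymm h4 bot_le) h1.ne'
    obtain ⟨x, hxO, hx⟩ := h2
    exact ⟨x, (hOV hxO).1, (hOV hxO).2, hx⟩
  · exact Or.inr hS

/-- holomorphy of the value of a covector on a holomorphic function -/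
lemma Frame.hol0 (B : Frame D s) {ξ : ℂ → Fin s → ℂ}
    (hξ : ∀ i, DifferentiableOn ℂ (fun t => ξ t i) (ball 0 R)) (G : D.P → ℂ) (hG : Ho51.Hol G)
    (hfin : ∀ᵐ t, D.nrm G t < ∞) : DifferentiableOn ℂ (fun t => B.fn ξ t G) (ball 0 R) := by
  have h := B.hol_fn hξ (W := ball (0 : ℂ) R) isOpen_ball (τ := fun t => t) differentiableOn_id
    (fun z hz => by rwa [mem_ball_zero_iff] at hz) (fun _ => G)
    (fun x => (hol_lsec hG x).mono inter_subset_right) (by
      have h1 : ∀ᵐ t, ‖t‖ < R → B.In t G := by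
        filter_upwards [hfin, B.sat] with t h1 h2 ht
        exact h2 ht G (Hol.fhol hG t) h1
      have h2 := (dense_of_ae h1 (ball (0 : ℂ) R)).resolve_right (fun h => h isOpen_ball)
      refine h2.trans (closure_mono ?_)
      rintro t ⟨ht, ht2⟩
      exact ⟨ht, ht2 (by rwa [mem_ball_zero_iff] at ht)⟩)
  exact h

/-- holomorphy in the other variables -/
lemma Frame.hol1 (B : Frame D s) {ξ : ℂ → Fin s → ℂ}
    (hξ : ∀ i, DifferentiableOn ℂ (fun t => ξ t i) (ball 0 R)) (Q : Dom R) (F : (Q.mul D).P → ℂ)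
    (hF : Ho51.Hol F) (hfin : ∀ᵐ t, (Q.mul D).nrm F t < ∞) :
    Ho51.Hol (fun q : Q.P => B.fn ξ (tc q) (fun x : D.P => ext2 (M := Q.P) (N := D.P) F q x)) := by
  intro e he
  have htc : ∀ z ∈ e.target, tc (e.symm z) = z 0 := by
    intro z hz
    unfold tc
    rw [he.cp_symm hz]
  have h0 : DifferentiableOn ℂ (fun z : Fin (Q.a + 1) → ℂ => z 0) e.target :=
    (differentiable_apply (𝕜 := ℂ) (0 : Fin (Q.a + 1))).differentiableOn
  have h := B.hol_fn hξ (W := e.target) e.open_target (τ := fun z => z 0) h0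
    (fun z hz => by rw [← htc z hz]; exact Q.tR _)
    (fun z x => ext2 (M := Q.P) (N := D.P) F (e.symm z) x) (by
      intro x
      have hVo : IsOpen (e.target ∩ (fun z : Fin (Q.a + 1) → ℂ => z 0) ⁻¹' ldom x) :=
        e.open_target.inter ((isOpen_ldom x).preimage (continuous_apply 0))
      refine ext2_hol (M := Q.P) (N := D.P) hF hVo (e.continuousOn_symm.mono inter_subset_left)
        ((cont_lsec x).comp (continuous_apply 0).continuousOn fun z hz => hz.2) ?_ ?_ ?_
      · exact (differentiableOn_id.congr fun z hz => he.cp_symm hz).mono inter_subset_left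
      · exact (diff_lsec x).comp (h0.mono inter_subset_left) fun z hz => hz.2
      · intro z hz
        have h5 := tc_lsec hz.2
        have h6 := htc z hz.1
        unfold tc at h5 h6
        rw [h5, h6]) (by
      -- density
      intro z hz
      rw [mem_closure_iff_nhds]
      intro V hV
      obtain ⟨r, hr, hrV⟩ := Metric.mem_nhds_iff.1 (inter_mem hV (e.open_target.mem_nhds hz))
      have h1 : ∀ᵐ t : ℂ, (Q.mul D).nrm F t < ∞ ∧ (‖t‖ < R → ∀ g, FHol t g → D.nrm g t < ∞ →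
          ∃ c : Fin s → ℂ, ∀ x, tc x = t → g x = ∑ i, c i * B.u i x) := by
        filter_upwards [hfin, B.sat] with t h1 h2
        exact ⟨h1, h2⟩
      have h2 := (dense_of_ae h1 (ball (z 0) r)).resolve_right (fun h => h isOpen_ball)
      obtain ⟨t, ht, ht1, ht2, ht3⟩ := mem_closure_iff_nhds.1 (h2 (mem_ball_self hr)) (ball (z 0) r)
        (isOpen_ball.mem_nhds (mem_ball_self hr))
      have h3 := Q.ae_slice_fin D (T7a297.Hol.continuous hF) ht2
      set y0 : Fin Q.a → ℂ := fun i => z i.succ with hy0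
      have h4 : 0 < volume (ball y0 r) := isOpen_ball.measure_pos volume ⟨y0, mem_ball_self hr⟩
      have h5 : ∃ y ∈ ball y0 r, ∀ q : Q.P, cp q = (Fin.cons t y : Fin (Q.a + 1) → ℂ) →
          D.nrm (fun x : D.P => ext2 (M := Q.P) (N := D.P) F q x) t < ∞ := by
        by_contra hcon
        push Not at hcon
        have h6 : ball y0 r ⊆ {y | ¬ ∀ q : Q.P, cp q = (Fin.cons t y : Fin (Q.a + 1) → ℂ) →
          D.nrm (fun x : D.P => ext2 (M := Q.P) (N := D.P) F q x) t < ∞} := by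
          intro y hy
          obtain ⟨q, hq1, hq2⟩ := hcon y hy
          intro hall
          exact absurd (hall q hq1) (not_lt.2 hq2)
        have h7 := measure_mono (μ := volume) h6
        rw [ae_iff] at h3
        rw [h3] at h7
        exact absurd (le_antisymm h7 bot_le) h4.ne'
      obtain ⟨y, hy, hyq⟩ := h5
      set z' : Fin (Q.a + 1) → ℂ := Fin.cons t y with hz'
      have hz'b : z' ∈ ball z r := by
        rw [mem_ball, dist_pi_lt_iff hr]
        intro i
        refine Fin.cases ?_ (fun j => ?_) i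
        · exact mem_ball.1 ht
        · exact (dist_pi_lt_iff hr).1 (mem_ball.1 hy) j
      have hz't : z' ∈ e.target := (hrV hz'b).2
      refine ⟨z', (hrV hz'b).1, hz't, ?_⟩
      have htc' : tc (e.symm z') = t := htc z' hz't
      have htR : ‖t‖ < R := by rw [← htc']; exact Q.tR _
      have hsl := FHol.slice (M := Q.P) (N := D.P) hF (e.symm z')
      rw [htc'] at hsl
      exact ht3 htR _ hsl (hyq (e.symm z') (he.cp_symm hz't)))
  refine h.congr fun z hz => ?_
  show B.fn ξ (tc (e.symm z)) (fun x => ext2 (M := Q.P) (N := D.P) F (e.symm z) x) = _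
  rw [htc z hz]

/-- covectors of a frame, as a family of functionals -/
def Frame.ff2 (B : Frame D s) (ξ : ℂ → Fin s → ℂ)
    (hξ : ∀ i, DifferentiableOn ℂ (fun t => ξ t i) (ball 0 R)) (w : D.P → ℝ≥0∞) (p : ℝ)
    (κ : ℂ → ℝ) (hκ : ∀ t, 0 < κ t)
    (hbd : ∀ᵐ t, ‖t‖ < R → ∀ c : Fin s → ℂ, D.nrm (B.cmb c) t < ∞ →
      ENNReal.ofReal (‖∑ i, ξ t i * c i‖ ^ p) ≤ ENNReal.ofReal (κ t) * pn p w (B.cmb c) t) :
    FF2 D w p where
  ξ := B.fn ξ
  κ := κ
  κ2 t := (B.bd2 ξ t).choose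
  κ_pos := hκ
  κ2_fin t := (B.bd2 ξ t).choose_spec.1
  loc t g g' h := by
    by_cases hin : ‖t‖ < R ∧ B.In t g
    · obtain ⟨ht, c, hc⟩ := hin
      rw [B.fn_eq ξ ht hc, B.fn_eq ξ ht (c := c) fun x hx => by rw [← h x hx]; exact hc x hx]
    · rw [B.fn_zero ξ hin, B.fn_zero ξ fun h' => hin ⟨h'.1, h'.2.congr fun x hx => (h x hx).symm⟩]
  hom t a g := by
    by_cases hin : ‖t‖ < R ∧ B.In t g
    · obtain ⟨ht, c, hc⟩ := hin
      rw [B.fn_eq ξ ht hc, B.fn_eq ξ ht (c := fun i => a * c i) fun x hx => by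
        rw [hc x hx, Finset.mul_sum]
        exact Finset.sum_congr rfl fun i _ => by ring]
      rw [Finset.mul_sum]
      exact Finset.sum_congr rfl fun i _ => by ring
    · rw [B.fn_zero ξ hin, mul_zero]
      by_cases ha : a = 0
      · rw [ha]
        by_cases ht : ‖t‖ < R
        · rw [B.fn_eq ξ ht (c := 0) fun x hx => by simp]
          simp
        · rw [B.fn_zero ξ fun h => ht h.1]
      · refine B.fn_zero ξ fun h' => hin ⟨h'.1, ?_⟩
        refine (h'.2.smul a⁻¹).congr fun x _ => ?_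
        rw [← mul_assoc, inv_mul_cancel₀ ha, one_mul]
  bd2 t ht g hg := (B.bd2 ξ t).choose_spec.2 ht g hg
  bdp := by
    filter_upwards [B.sat, hbd] with t hs hb ht g hg hfin
    obtain ⟨c, hc⟩ := hs ht g hg hfin
    have h1 : ∀ x, tc x = t → g x = B.cmb c x := hc
    rw [B.fn_eq ξ ht hc]
    have h2 : D.nrm (B.cmb c) t < ∞ := by
      rw [← D.nrm_congr h1]; exact hfin
    refine (hb ht c h2).trans (mul_le_mul_right ?_ _)
    unfold pn
    refine fi_mono fun y hy => ?_
    rw [h1 y hy]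
  hol0 G hG hfin := B.hol0 hξ G hG hfin
  hol1 Q F hF hfin := B.hol1 hξ Q F hF hfin

end Crest.Agent.R276.PV_159
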