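import Crest.Agent.R276.PVn_159
import Crest.Agent.R276.NBcore_696

/-!
# Row 276, part D1 (helper159): plurisubharmonic variation for continuous families of Hermitian metrics
(matrix form, circles around the centre)
-/

set_option autoImplicit false
set_option linter.unusedSectionVars false

noncomputable section

open Set Filter Topology Complex MeasureTheory Metric Polynomial
open scoped ENNReal ComplexConjugate Matrix Real ComplexOrder

namespace Crest.Agent.R276.PV_159

open Crest.Agent.R271 Crest.Agent.R271.Ho51 Crest.Agent.R271.W792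
open Crest.Agent.R276.Circ_696 (vN dN)
open Crest.Agent.R276

/-! ### from annuli to circles -/

/-- integrals over annuli are integrals of circle averages -/
lemma int_Ann_circ {F : ℂ → ℝ} {r1 r2 : ℝ}
    (hF : ContinuousOn F (closedBall 0 r2)) :
    ∫ t in Ann r1 r2, F t = ∫ t in Ann r1 r2, Real.circleAverage F 0 ‖t‖ := by
  set A := Ann r1 r2 with hA
  have hAm : MeasurableSet A := measurableSet_Ann r1 r2
  have hrot : ∀ θ : ℝ, ∫ t in A, F (exp (θ * I) * t) = ∫ t in A, F t := by
    intro θ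
    have hmp := (rotation (Circle.exp θ)).measurePreserving
    have hemb : MeasurableEmbedding (rotation (Circle.exp θ)) :=
      (rotation (Circle.exp θ)).toHomeomorph.measurableEmbedding
    have h2 := hmp.setIntegral_preimage_emb hemb F A
    rw [← h2]
    have h3 : (rotation (Circle.exp θ)) ⁻¹' A = A := by
      ext t
      simp only [mem_preimage, hA, Ann, mem_ofPred_eq, LinearIsometryEquiv.norm_map]
    rw [h3]
    refine setIntegral_congr_fun hAm fun t _ => ?_
    simp [rotation_apply]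
  have hcK : ContinuousOn (fun p : ℂ × ℝ => F (exp (p.2 * I) * p.1))
      (closedBall (0 : ℂ) r2 ×ˢ Icc 0 (2 * π)) := by
    refine hF.comp (by fun_prop) ?_
    rintro ⟨t, θ⟩ ⟨ht, _⟩
    rw [mem_closedBall_zero_iff] at ht ⊢
    simp only [norm_mul, Complex.norm_exp_ofReal_mul_I, one_mul]
    exact ht
  have hint : Integrable (Function.uncurry fun (t : ℂ) (θ : ℝ) => F (exp (θ * I) * t))
      ((volume.restrict A).prod (volume.restrict (Ioc 0 (2 * π)))) := by
    rw [Measure.prod_restrict]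
    have h2 : IntegrableOn (fun p : ℂ × ℝ => F (exp (p.2 * I) * p.1))
        (closedBall (0 : ℂ) r2 ×ˢ Icc 0 (2 * π)) (volume.prod volume) :=
      hcK.integrableOn_compact ((isCompact_closedBall (0 : ℂ) r2).prod isCompact_Icc)
    exact h2.mono_set (prod_mono (Ann_sub r1 r2) Ioc_subset_Icc_self)
  have hswap := integral_integral_swap hint
  have hin : ∀ t ∈ A, ∫ θ in Ioc 0 (2 * π), F (exp (θ * I) * t) =
      2 * π * Real.circleAverage F 0 ‖t‖ := by
    intro t ht
    rw [Real.circleAverage_eq_integral_add (arg t)]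
    have h3 : (fun θ : ℝ => F (circleMap 0 ‖t‖ (θ + arg t))) = fun θ : ℝ => F (exp (θ * I) * t) := by
      funext θ
      congr 1
      rw [circleMap_zero]
      push_cast
      rw [add_mul, Complex.exp_add]
      conv_rhs => rw [← Complex.norm_mul_exp_arg_mul_I t]
      ring
    rw [h3, intervalIntegral.integral_of_le Real.two_pi_pos.le, smul_eq_mul, ← mul_assoc,
      mul_inv_cancel₀ Real.two_pi_pos.ne', one_mul]
  have hL : ∫ t in A, ∫ θ in Ioc 0 (2 * π), F (exp (θ * I) * t) =
      ∫ t in A, 2 * π * Real.circleAverage F 0 ‖t‖ := setIntegral_congr_fun hAm hin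
  have hR : ∫ θ in Ioc 0 (2 * π), ∫ t in A, F (exp (θ * I) * t) = 2 * π * ∫ t in A, F t := by
    have h2 : (fun θ : ℝ => ∫ t in A, F (exp (θ * I) * t)) = fun _ => ∫ t in A, F t := by
      funext θ; exact hrot θ
    rw [h2, setIntegral_const]
    simp [Real.two_pi_pos.le]
  rw [hL, hR, integral_const_mul] at hswap
  exact (mul_left_cancel₀ Real.two_pi_pos.ne' hswap).symm

/-- thin annuli approximate the circle average -/
lemma exists_Ann {F : ℂ → ℝ} {r R : ℝ} (hr : 0 < r) (hrR : r < R)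
    (hF : ContinuousOn F (ball 0 R)) {ε : ℝ} (hε : 0 < ε) :
    ∃ r1 r2 : ℝ, 0 ≤ r1 ∧ r1 < r2 ∧ r2 < R ∧
      ⨍ t in Ann r1 r2, F t ≤ Real.circleAverage F 0 r + ε := by
  have hm : ContinuousOn (Real.circleAverage F 0) (Ico 0 R) := by
    refine Real.ContinuousOn.circleAverage ?_ (fun x hx => hx.1)
    refine hF.mono fun z hz => ?_
    have hz' : ‖z - 0‖ ∈ Ico 0 R := hz
    rw [mem_ball_zero_iff]
    simpa using hz'.2
  have hIco : Ico 0 R ∈ 𝓝 r := Ico_mem_nhds hr hrR
  have hmr : ContinuousAt (Real.circleAverage F 0) r := hm.continuousAt hIco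
  have hev : ∀ᶠ x in 𝓝 r, Real.circleAverage F 0 x < Real.circleAverage F 0 r + ε :=
    hmr.eventually_lt continuousAt_const (by linarith)
  obtain ⟨η, hη, hball⟩ := Metric.eventually_nhds_iff_ball.1 (hev.and hIco)
  set r1 := r - η / 2 with hr1
  set r2 := r + η / 2 with hr2
  have h1m : r1 ∈ ball r η := by
    rw [mem_ball, Real.dist_eq, hr1]
    rw [abs_lt]; constructor <;> linarith
  have h2m : r2 ∈ ball r η := by
    rw [mem_ball, Real.dist_eq, hr2]
    rw [abs_lt]; constructor <;> linarith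
  have hr10 : 0 ≤ r1 := (hball r1 h1m).2.1
  have hr2R : r2 < R := (hball r2 h2m).2.2
  have hlt : r1 < r2 := by rw [hr1, hr2]; linarith
  refine ⟨r1, r2, hr10, hlt, hr2R, ?_⟩
  have hFc : ContinuousOn F (closedBall 0 r2) := hF.mono (closedBall_subset_ball hr2R)
  rw [setAverage_eq, int_Ann_circ hFc, ← setAverage_eq]
  set A := Ann r1 r2 with hA
  have hAm : MeasurableSet A := measurableSet_Ann r1 r2
  have hV : 0 < volume.real A :=
    ENNReal.toReal_pos (vol_Ann_pos hr10 hlt).ne' (vol_Ann_lt r1 r2).ne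
  have hle : ∀ t ∈ A, Real.circleAverage F 0 ‖t‖ ≤ Real.circleAverage F 0 r + ε := by
    intro t ht
    refine (hball ‖t‖ ?_).1.le
    rw [mem_ball, Real.dist_eq, abs_lt]
    have h1 := ht.1
    have h2 := ht.2
    rw [hr1] at h1
    rw [hr2] at h2
    constructor <;> linarith
  have hcont : ContinuousOn (fun t : ℂ => Real.circleAverage F 0 ‖t‖) (closedBall 0 r2) :=
    hm.comp continuous_norm.continuousOn fun t ht => by
      rw [mem_closedBall_zero_iff] at ht
      exact ⟨norm_nonneg _, lt_of_le_of_lt ht hr2R⟩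
  have hint : IntegrableOn (fun t : ℂ => Real.circleAverage F 0 ‖t‖) A :=
    (hcont.integrableOn_compact (isCompact_closedBall (0 : ℂ) r2)).mono_set (Ann_sub r1 r2)
  have h5 : ∫ t in A, Real.circleAverage F 0 ‖t‖ ≤ ∫ _ in A, (Real.circleAverage F 0 r + ε) :=
    setIntegral_mono_on hint (integrableOn_const (vol_Ann_lt r1 r2).ne) hAm hle
  rw [setIntegral_const, smul_eq_mul] at h5
  rw [setAverage_eq, smul_eq_mul, ← div_eq_inv_mul, div_le_iff₀ hV]
  linarith

/-! ### superadditivity of geometric means on circles -/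

lemma geom_add {ρ : ℝ} (hρ : 0 < ρ) {a : ℂ → ℝ} (ha : ContinuousOn a (sphere 0 ρ))
    (ha0 : ∀ t ∈ sphere (0 : ℂ) ρ, 0 < a t) {δ : ℝ} (hδ : 0 < δ) :
    Real.exp (Real.circleAverage (fun t => Real.log (a t)) 0 ρ) + δ ≤
      Real.exp (Real.circleAverage (fun t => Real.log (a t + δ)) 0 ρ) := by
  set S := Real.circleAverage (fun t => Real.log (a t + δ)) 0 ρ with hS
  have hpos : ∀ t ∈ sphere (0 : ℂ) ρ, 0 < a t + δ := fun t ht => by have := ha0 t ht; linarith
  have haδ : ContinuousOn (fun t => a t + δ) (sphere 0 ρ) := ha.add continuousOn_const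
  have hlogS : ContinuousOn (fun t => Real.log (a t + δ)) (sphere 0 ρ) :=
    haδ.log fun t ht => (hpos t ht).ne'
  have hloga : ContinuousOn (fun t => Real.log (a t)) (sphere 0 ρ) :=
    ha.log fun t ht => (ha0 t ht).ne'
  -- the two ratios
  have hr1 : ContinuousOn (fun t => a t / (a t + δ)) (sphere 0 ρ) :=
    ha.div haδ fun t ht => (hpos t ht).ne'
  have hr2 : ContinuousOn (fun t => δ / (a t + δ)) (sphere 0 ρ) :=
    continuousOn_const.div haδ fun t ht => (hpos t ht).ne'
  have hr1p : ∀ t ∈ sphere (0 : ℂ) ρ, 0 < a t / (a t + δ) := fun t ht =>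
    div_pos (ha0 t ht) (hpos t ht)
  have hr2p : ∀ t ∈ sphere (0 : ℂ) ρ, 0 < δ / (a t + δ) := fun t ht => div_pos hδ (hpos t ht)
  have hci := fun {f : ℂ → ℝ} (hf : ContinuousOn f (sphere 0 ρ)) => NBcore_696.ci hρ hf
  have hsum : Real.circleAverage (fun t => a t / (a t + δ)) 0 ρ +
      Real.circleAverage (fun t => δ / (a t + δ)) 0 ρ = 1 := by
    rw [← Real.circleAverage_fun_add (hci hr1) (hci hr2)]
    have h1 : Real.circleAverage (fun t => a t / (a t + δ) + δ / (a t + δ)) 0 ρ =
        Real.circleAverage (fun _ : ℂ => (1 : ℝ)) 0 ρ := by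
      apply Real.circleAverage_congr_sphere
      intro t ht
      rw [abs_of_pos hρ] at ht
      simp only
      rw [← add_div, div_self (hpos t ht).ne']
    rw [h1, Real.circleAverage_const]
  have hmin : ∀ {f : ℂ → ℝ}, ContinuousOn f (sphere 0 ρ) → (∀ t ∈ sphere (0 : ℂ) ρ, 0 < f t) →
      Real.exp (Real.circleAverage (fun t => Real.log (f t)) 0 ρ) ≤ Real.circleAverage f 0 ρ := by
    intro f hf hf0
    have hpos : 0 < Real.circleAverage f 0 ρ := by
      obtain ⟨t0, ht0, hmin⟩ := (isCompact_sphere (0 : ℂ) ρ).exists_isMinOn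
        (NormedSpace.sphere_nonempty.2 hρ.le) hf
      have h1 : Real.circleAverage (fun _ : ℂ => f t0) 0 ρ ≤ Real.circleAverage f 0 ρ :=
        NBcore_696.mono hρ continuousOn_const hf fun t ht => hmin ht
      rw [Real.circleAverage_const] at h1
      exact lt_of_lt_of_le (hf0 t0 ht0) h1
    have h2 := NBcore_696.avg_log_le hρ hf hf0 hpos le_rfl
    calc _ ≤ Real.exp (Real.log (Real.circleAverage f 0 ρ)) := Real.exp_le_exp.2 h2
      _ = _ := Real.exp_log hpos
  have h1 := hmin hr1 hr1p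
  have h2 := hmin hr2 hr2p
  have e1 : Real.circleAverage (fun t => Real.log (a t / (a t + δ))) 0 ρ =
      Real.circleAverage (fun t => Real.log (a t)) 0 ρ - S := by
    rw [hS, ← Real.circleAverage_fun_sub (hci hloga) (hci hlogS)]
    apply Real.circleAverage_congr_sphere
    intro t ht
    rw [abs_of_pos hρ] at ht
    simp only
    rw [Real.log_div (ha0 t ht).ne' (hpos t ht).ne']
  have e2 : Real.circleAverage (fun t => Real.log (δ / (a t + δ))) 0 ρ = Real.log δ - S := by
    have h3 : Real.log δ = Real.circleAverage (fun _ : ℂ => Real.log δ) 0 ρ := by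
      rw [Real.circleAverage_const]
    rw [h3, hS, ← Real.circleAverage_fun_sub (hci continuousOn_const) (hci hlogS)]
    apply Real.circleAverage_congr_sphere
    intro t ht
    rw [abs_of_pos hρ] at ht
    simp only
    rw [Real.log_div hδ.ne' (hpos t ht).ne']
  rw [e1, Real.exp_sub] at h1
  rw [e2, Real.exp_sub, Real.exp_log hδ] at h2
  have h4 : Real.exp (Real.circleAverage (fun t => Real.log (a t)) 0 ρ) / Real.exp S +
      δ / Real.exp S ≤ 1 := by linarith
  rwa [← add_div, div_le_one (Real.exp_pos S)] at h4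

/-! ### the crude form for two norms with `p = 2` -/

variable {R : ℝ} {D : Dom R} {s : ℕ}

lemma wpw_wt : ∀ j, wpw D.wt j = (D.pw j).wt
  | 0 => rfl
  | j + 1 => by
    funext q
    show wpw D.wt j _ * D.wt _ = _
    rw [wpw_wt j]
    exact (Dom.wt_mul (D.pw j) D q).symm

lemma pn_two (Q : Dom R) (F : Q.P → ℂ) (t : ℂ) : pn 2 Q.wt F t = Q.nrm F t := by
  unfold pn Dom.nrm Dom.dens
  refine fi_congr fun y _ => ?_
  rw [Real.rpow_two]

/-- **plurisubharmonic variation, crude form** (`p = 2`) -/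
theorem FF2.pv_crude (X : FF2 D D.wt 2) {U : D.P → ℂ} (hU : W792.Hol U) {S : ℝ≥0∞} (hS : S ≠ ∞)
    (hnrm : ∀ᶠ t in 𝓝 (0 : ℂ), D.nrm U t ≤ S)
    {r1 r2 : ℝ} (hr1 : 0 ≤ r1) (hr : r1 < r2) (hrR : r2 < R)
    (hκ : IntegrableOn (fun t => Real.log (X.κ t)) (Ann r1 r2))
    {c0 : ℝ} (hc0 : ∀ t ∈ Ann r1 r2, c0 ≤ Real.log (X.κ t)) :
    ‖X.ξ 0 U‖ ^ 2 ≤ Real.exp (⨍ t in Ann r1 r2, Real.log (X.κ t)) * S.toReal := by
  obtain ⟨ε, hε, hball⟩ := Metric.eventually_nhds_iff_ball.1 hnrm
  have hR : 0 < R := lt_of_le_of_lt hr1 (hr.trans hrR)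
  obtain ⟨C, hC, _, hcr⟩ := crude (ε := ε / 2) (R := R) (by positivity) hR
  have hmain := X.pv (by norm_num) le_rfl D.wt_meas (U := U) hC hS (fun j => ?_) hr1 hr hrR hκ hc0
  · rwa [Real.rpow_two] at hmain
  have hUj := Dom.upw_hol (D := D) hU j
  obtain ⟨F, hF, hF0, hFb⟩ := hcr ((D.pw j).dat (D.upw U j) hUj) (S ^ (j + 1)) (fun t ht => by
    have h1 := Dom.nrm_upw (D := D) hU t j
    have h2 : D.nrm U t ≤ S := hball t (by
      rw [mem_ball_zero_iff]; linarith)
    show (D.pw j).nrm (D.upw U j) t ≤ _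
    rw [h1]
    exact pow_le_pow_left' h2 _)
  have hBfin : C * S ^ (j + 1) ≠ ∞ := ENNReal.mul_ne_top hC (ENNReal.pow_ne_top hS)
  have hmeas : Measurable ((D.pw j).nrm F) :=
    measurable_fi ((D.pw j).dens_meas (T7a297.Hol.continuous hF))
  refine ⟨F, hF, hF0, ae_lt_top hmeas (lt_of_le_of_lt hFb hBfin.lt_top).ne, ?_⟩
  have h3 : ∀ t, pn 2 (wpw D.wt j) F t = (D.pw j).nrm F t := by
    intro t
    rw [wpw_wt j]
    exact pn_two (D.pw j) F t
  simp_rw [h3]
  exact hFb

/-! ### continuous metrics -/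

/-- the data: a frame whose norms are given by a continuous positive definite matrix -/
structure Met (D : Dom R) (s : ℕ) extends Frame D s where
  /-- the Gram matrix -/
  G : ℂ → Matrix (Fin s) (Fin s) ℂ
  pd : ∀ t, ‖t‖ < R → (G t).PosDef
  cont : ContinuousOn G (ball 0 R)
  eq : ∀ t, ‖t‖ < R → ∀ v, D.nrm (toFrame.cmb v) t = ENNReal.ofReal (vN (G t) v)

lemma vN_contOn {G : ℂ → Matrix (Fin s) (Fin s) ℂ} {K : Set ℂ} (hG : ContinuousOn G K)
    {v : ℂ → Fin s → ℂ} (hv : ContinuousOn v K) : ContinuousOn (fun t => vN (G t) (v t)) K := by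
  unfold vN
  refine Complex.continuous_re.comp_continuousOn ?_
  simp only [dotProduct, Matrix.mulVec]
  have hGij : ∀ i j, ContinuousOn (fun t => G t i j) K := fun i j =>
    (continuous_apply_apply i j).comp_continuousOn hG
  have hvi : ∀ i, ContinuousOn (fun t => v t i) K := fun i => (continuous_apply i).comp_continuousOn hv
  refine continuousOn_finsetSum _ fun i _ => ContinuousOn.mul ?_ ?_
  · exact (hvi i).star
  · exact continuousOn_finsetSum _ fun j _ => (hGij i j).mul (hvi j)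

lemma dN_contOn {G : ℂ → Matrix (Fin s) (Fin s) ℂ} {K : Set ℂ} (hG : ContinuousOn G K)
    (hpd : ∀ t ∈ K, (G t).PosDef)
    {v : ℂ → Fin s → ℂ} (hv : ContinuousOn v K) : ContinuousOn (fun t => dN (G t) (v t)) K := by
  have hinv : ContinuousOn (fun t => (G t)⁻¹) K := by
    have h1 : ∀ t, (G t)⁻¹ = (G t).det⁻¹ • (G t).adjugate := by
      intro t; rw [Matrix.inv_def, Ring.inverse_eq_inv']
    simp only [h1]
    have hdet : ContinuousOn (fun t => (G t).det⁻¹) K := by
      refine ContinuousOn.inv₀ ?_ fun t ht => ?_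
      · exact (continuous_id.matrix_det).comp_continuousOn hG
      · exact ((Matrix.isUnit_iff_isUnit_det _).1 (hpd t ht).isUnit).ne_zero
    exact hdet.smul ((continuous_id.matrix_adjugate).comp_continuousOn hG)
  have h2 : (fun t => dN (G t) (v t)) = fun t => vN ((G t)⁻¹) (star (v t)) := by
    funext t; exact Circ_696.dN_eq _ _
  rw [h2]
  exact vN_contOn hinv hv.star

/-- **dual metrics are log-plurisubharmonic**, annuli -/
theorem Met.le_exp_Ann (B : Met D s) {ξ : ℂ → Fin s → ℂ}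
    (hξ : ∀ i, DifferentiableOn ℂ (fun t => ξ t i) (ball 0 R)) {δ : ℝ} (hδ : 0 < δ)
    {r1 r2 : ℝ} (hr1 : 0 ≤ r1) (hr : r1 < r2) (hrR : r2 < R) :
    dN (B.G 0) (ξ 0) ≤ Real.exp (⨍ t in Ann r1 r2, Real.log (dN (B.G t) (ξ t) + δ)) := by
  classical
  have hR : 0 < R := lt_of_le_of_lt hr1 (hr.trans hrR)
  have h0R : ‖(0 : ℂ)‖ < R := by rwa [norm_zero]
  set κ : ℂ → ℝ := fun t => if ‖t‖ < R then dN (B.G t) (ξ t) + δ else δ with hκd
  have hκ : ∀ t, 0 < κ t := by
    intro t
    simp only [hκd]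
    by_cases ht : ‖t‖ < R
    · rw [if_pos ht]
      have := Circ_696.dN_nonneg (B.pd t ht) (ξ t)
      linarith
    · rw [if_neg ht]; exact hδ
  have hbd : ∀ᵐ t, ‖t‖ < R → ∀ c : Fin s → ℂ, D.nrm (B.toFrame.cmb c) t < ∞ →
      ENNReal.ofReal (‖∑ i, ξ t i * c i‖ ^ (2 : ℝ)) ≤ ENNReal.ofReal (κ t) *
        pn 2 D.wt (B.toFrame.cmb c) t := by
    refine Eventually.of_forall fun t ht c _ => ?_
    rw [pn_two, B.eq t ht, ← ENNReal.ofReal_mul (hκ t).le]
    apply ENNReal.ofReal_le_ofReal
    have h1 := Circ_696.cs (B.pd t ht) (ξ t) c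
    have h2 : κ t = dN (B.G t) (ξ t) + δ := by simp only [hκd]; rw [if_pos ht]
    have h3 := Circ_696.vN_nonneg (B.pd t ht).posSemidef c
    rw [Real.rpow_two, h2]
    refine h1.trans ?_
    nlinarith
  set X := B.toFrame.ff2 ξ hξ D.wt 2 κ hκ hbd with hX
  -- the averages
  have hcontξ : ContinuousOn ξ (ball 0 R) :=
    continuousOn_pi.2 fun i => (hξ i).continuousOn
  have hdN : ContinuousOn (fun t => dN (B.G t) (ξ t)) (ball 0 R) :=
    dN_contOn B.cont (fun t ht => B.pd t (by rwa [mem_ball_zero_iff] at ht)) hcontξ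
  have hAnnR : Ann r1 r2 ⊆ ball 0 R := (Ann_sub r1 r2).trans (closedBall_subset_ball hrR)
  have hAm : MeasurableSet (Ann r1 r2) := measurableSet_Ann r1 r2
  have hlogc : ContinuousOn (fun t => Real.log (dN (B.G t) (ξ t) + δ)) (closedBall 0 r2) := by
    refine ContinuousOn.log ((hdN.mono (closedBall_subset_ball hrR)).add continuousOn_const) ?_
    intro t ht
    have ht' : ‖t‖ < R := by
      have := closedBall_subset_ball hrR ht
      rwa [mem_ball_zero_iff] at this
    have := Circ_696.dN_nonneg (B.pd t ht') (ξ t)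
    linarith
  have heq : ∀ t ∈ Ann r1 r2, Real.log (X.κ t) = Real.log (dN (B.G t) (ξ t) + δ) := by
    intro t ht
    have ht' : ‖t‖ < R := ht.2.trans hrR
    show Real.log (κ t) = _
    simp only [hκd]
    rw [if_pos ht']
  have hint : IntegrableOn (fun t => Real.log (X.κ t)) (Ann r1 r2) := by
    refine IntegrableOn.congr_fun ?_ (fun t ht => (heq t ht).symm) hAm
    exact (hlogc.integrableOn_compact (isCompact_closedBall (0 : ℂ) r2)).mono_set (Ann_sub r1 r2)
  have hlow : ∀ t ∈ Ann r1 r2, Real.log δ ≤ Real.log (X.κ t) := by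
    intro t ht
    rw [heq t ht]
    have := Circ_696.dN_nonneg (B.pd t (ht.2.trans hrR)) (ξ t)
    exact Real.log_le_log hδ (by linarith)
  have havg : ⨍ t in Ann r1 r2, Real.log (X.κ t) =
      ⨍ t in Ann r1 r2, Real.log (dN (B.G t) (ξ t) + δ) := by
    rw [setAverage_eq, setAverage_eq, setIntegral_congr_fun hAm heq]
  refine NBcore_696.dN_le (B.pd 0 h0R) (Real.exp_pos _).le fun v => ?_
  -- apply the crude form with `S = vN (G 0) v + ε`
  refine le_of_forall_pos_le_add fun ε hε => ?_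
  set m := Real.exp (⨍ t in Ann r1 r2, Real.log (dN (B.G t) (ξ t) + δ)) with hm
  have hm0 : 0 < m := Real.exp_pos _
  have hvc : ContinuousAt (fun t => vN (B.G t) v) 0 :=
    (vN_contOn B.cont continuousOn_const).continuousAt (ball_mem_nhds 0 hR)
  have hv0 := Circ_696.vN_nonneg (B.pd 0 h0R).posSemidef v
  have hev : ∀ᶠ t in 𝓝 (0 : ℂ), D.nrm (B.toFrame.cmb v) t ≤
      ENNReal.ofReal (vN (B.G 0) v + ε / m) := by
    have h1 : ∀ᶠ t in 𝓝 (0 : ℂ), vN (B.G t) v < vN (B.G 0) v + ε / m :=
      hvc.eventually_lt continuousAt_const (by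
        have : 0 < ε / m := by positivity
        linarith)
    filter_upwards [h1, ball_mem_nhds (0 : ℂ) hR] with t ht htR
    rw [B.eq t (by rwa [mem_ball_zero_iff] at htR)]
    exact ENNReal.ofReal_le_ofReal ht.le
  have hpv := X.pv_crude (hol_of _ (B.toFrame.cmb_hol v)) ENNReal.ofReal_ne_top hev hr1 hr hrR
    hint hlow
  rw [ENNReal.toReal_ofReal (by positivity), havg] at hpv
  have hval : X.ξ 0 (B.toFrame.cmb v) = ξ 0 ⬝ᵥ v := B.toFrame.fn_eq ξ h0R fun x _ => rfl
  rw [hval] at hpv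
  refine hpv.trans (le_of_eq ?_)
  rw [← hm]
  field_simp

/-- **dual metrics are log-plurisubharmonic**, circles -/
theorem Met.log_le (B : Met D s) {ξ : ℂ → Fin s → ℂ}
    (hξ : ∀ i, DifferentiableOn ℂ (fun t => ξ t i) (ball 0 R)) {δ : ℝ} (hδ : 0 < δ)
    {r : ℝ} (hr : 0 < r) (hrR : r < R) :
    Real.log (dN (B.G 0) (ξ 0) + δ) ≤
      Real.circleAverage (fun t => Real.log (dN (B.G t) (ξ t) + δ)) 0 r := by
  have hR : 0 < R := hr.trans hrR
  have h0R : ‖(0 : ℂ)‖ < R := by rwa [norm_zero]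
  have hcontξ : ContinuousOn ξ (ball 0 R) := continuousOn_pi.2 fun i => (hξ i).continuousOn
  have hdN : ContinuousOn (fun t => dN (B.G t) (ξ t)) (ball 0 R) :=
    dN_contOn B.cont (fun t ht => B.pd t (by rwa [mem_ball_zero_iff] at ht)) hcontξ
  have hsub : sphere (0 : ℂ) r ⊆ ball 0 R := fun t ht => by
    rw [mem_sphere_zero_iff_norm] at ht
    rw [mem_ball_zero_iff, ht]
    exact hrR
  have hnn : ∀ t ∈ ball (0 : ℂ) R, 0 ≤ dN (B.G t) (ξ t) := fun t ht =>
    Circ_696.dN_nonneg (B.pd t (by rwa [mem_ball_zero_iff] at ht)) (ξ t)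
  have hlogc : ∀ η : ℝ, 0 < η → ContinuousOn (fun t => Real.log (dN (B.G t) (ξ t) + η)) (ball 0 R) :=
    fun η hη => (hdN.add continuousOn_const).log fun t ht => by
      have := hnn t ht
      have h2 : 0 < dN (B.G t) (ξ t) + η := by linarith
      exact h2.ne'
  -- circle form with exponentials
  have h1 : ∀ η : ℝ, 0 < η → dN (B.G 0) (ξ 0) ≤
      Real.exp (Real.circleAverage (fun t => Real.log (dN (B.G t) (ξ t) + η)) 0 r) := by
    intro η hη
    have h2 : ∀ ε : ℝ, 0 < ε → dN (B.G 0) (ξ 0) ≤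
        Real.exp (Real.circleAverage (fun t => Real.log (dN (B.G t) (ξ t) + η)) 0 r + ε) := by
      intro ε hε
      obtain ⟨r1, r2, hr1, hr12, hr2R, hle⟩ := exists_Ann hr hrR (hlogc η hη) hε
      exact (B.le_exp_Ann hξ hη hr1 hr12 hr2R).trans (Real.exp_le_exp.2 hle)
    have h3 : Tendsto (fun ε : ℝ => Real.exp (Real.circleAverage
        (fun t => Real.log (dN (B.G t) (ξ t) + η)) 0 r + ε)) (𝓝[>] 0)
        (𝓝 (Real.exp (Real.circleAverage (fun t => Real.log (dN (B.G t) (ξ t) + η)) 0 r + 0))) := by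
      apply tendsto_nhdsWithin_of_tendsto_nhds
      exact (Real.continuous_exp.comp (continuous_const.add continuous_id)).tendsto 0
    rw [add_zero] at h3
    refine ge_of_tendsto h3 ?_
    filter_upwards [self_mem_nhdsWithin] with ε hε
    exact h2 ε hε
  -- add `δ`
  have h2 : ∀ η : ℝ, 0 < η → Real.log (dN (B.G 0) (ξ 0) + δ) ≤
      Real.circleAverage (fun t => Real.log (dN (B.G t) (ξ t) + δ)) 0 r + η / δ := by
    intro η hη
    have h3 := geom_add hr (a := fun t => dN (B.G t) (ξ t) + η)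
      ((hdN.mono hsub).add continuousOn_const) (fun t ht => by
        have := hnn t (hsub ht)
        linarith) hδ
    have h4 : dN (B.G 0) (ξ 0) + δ ≤
        Real.exp (Real.circleAverage (fun t => Real.log (dN (B.G t) (ξ t) + η + δ)) 0 r) := by
      have := h1 η hη
      linarith
    have hp : 0 < dN (B.G 0) (ξ 0) + δ := by
      have := hnn 0 (mem_ball_self hR)
      linarith
    have h5 := Real.log_le_log hp h4
    rw [Real.log_exp] at h5
    refine h5.trans ?_
    have h6 : Real.circleAverage (fun t => Real.log (dN (B.G t) (ξ t) + η + δ)) 0 r ≤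
        Real.circleAverage (fun t => Real.log (dN (B.G t) (ξ t) + δ) + η / δ) 0 r := by
      have hc1 : ContinuousOn (fun t => Real.log (dN (B.G t) (ξ t) + η + δ)) (sphere 0 r) := by
        have h7 : (fun t => Real.log (dN (B.G t) (ξ t) + η + δ)) =
            fun t => Real.log (dN (B.G t) (ξ t) + (η + δ)) := by
          funext t; rw [add_assoc]
        rw [h7]
        exact (hlogc (η + δ) (by linarith)).mono hsub
      refine NBcore_696.mono hr hc1 (((hlogc δ hδ).mono hsub).add continuousOn_const) ?_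
      intro t ht
      have h8 := hnn t (hsub ht)
      have h9 : 0 < dN (B.G t) (ξ t) + δ := by linarith
      have h10 : dN (B.G t) (ξ t) + η + δ = (dN (B.G t) (ξ t) + δ) * (1 + η / (dN (B.G t) (ξ t) + δ)) := by
        field_simp
        ring
      have h11 : 0 < 1 + η / (dN (B.G t) (ξ t) + δ) := by positivity
      rw [h10, Real.log_mul h9.ne' h11.ne']
      have h12 : Real.log (1 + η / (dN (B.G t) (ξ t) + δ)) ≤ η / (dN (B.G t) (ξ t) + δ) := by
        have := Real.log_le_sub_one_of_pos h11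
        linarith
      have h13 : η / (dN (B.G t) (ξ t) + δ) ≤ η / δ :=
        div_le_div_of_nonneg_left hη.le hδ (by linarith)
      linarith
    refine h6.trans (le_of_eq ?_)
    rw [Real.circleAverage_fun_add (NBcore_696.ci hr ((hlogc δ hδ).mono hsub))
      (NBcore_696.ci hr continuousOn_const), Real.circleAverage_const]
  have h3 : Tendsto (fun η : ℝ => Real.circleAverage
      (fun t => Real.log (dN (B.G t) (ξ t) + δ)) 0 r + η / δ) (𝓝[>] 0)
      (𝓝 (Real.circleAverage (fun t => Real.log (dN (B.G t) (ξ t) + δ)) 0 r + 0 / δ)) := by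
    apply tendsto_nhdsWithin_of_tendsto_nhds
    exact (continuous_const.add (continuous_id.div_const δ)).tendsto 0
  rw [zero_div, add_zero] at h3
  refine ge_of_tendsto h3 ?_
  filter_upwards [self_mem_nhdsWithin] with η hη
  exact h2 η hη

/-- hypothesis of `Circ_696.circle` -/
theorem Met.dN_le (B : Met D s) (ξ : Fin s → ℂ[X]) {r : ℝ} (hr : 0 < r) (hrR : r < R) :
    dN (B.G 0) (fun i => (ξ i).eval 0) ≤
      Real.circleAverage (fun t => dN (B.G t) (fun i => (ξ i).eval t)) 0 r := by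
  have hξ : ∀ i, DifferentiableOn ℂ (fun t => (ξ i).eval t) (ball 0 R) := fun i =>
    (ξ i).differentiable.differentiableOn
  have hR : 0 < R := hr.trans hrR
  have hsub : sphere (0 : ℂ) r ⊆ ball 0 R := fun t ht => by
    rw [mem_sphere_zero_iff_norm] at ht
    rw [mem_ball_zero_iff, ht]
    exact hrR
  have hdN : ContinuousOn (fun t => dN (B.G t) (fun i => (ξ i).eval t)) (ball 0 R) :=
    dN_contOn B.cont (fun t ht => B.pd t (by rwa [mem_ball_zero_iff] at ht))
      (continuousOn_pi.2 fun i => (hξ i).continuousOn)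
  refine NBcore_696.le_avg_of_log hr (hdN.mono hsub) (fun t ht => ?_) ?_ one_pos
    (B.log_le hξ one_pos hr hrR)
  · exact Circ_696.dN_nonneg (B.pd t (by
      have := hsub ht
      rwa [mem_ball_zero_iff] at this)) _
  · exact Circ_696.dN_nonneg (B.pd 0 (by rwa [norm_zero])) _

end Crest.Agent.R276.PV_159
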