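import Crest.Agent.R276.PVo_159

/-!
# Row 276, part D1 (helper159): re-centring of families over a disc
-/

set_option autoImplicit false
set_option linter.unusedSectionVars false

noncomputable section

open Set Filter Topology Complex MeasureTheory Metric Polynomial
open scoped ENNReal ComplexConjugate Matrix Real ComplexOrder

namespace Crest.Agent.R276.PV_159

open Crest.Agent.R271 Crest.Agent.R271.Ho51 Crest.Agent.R271.W792
open Crest.Agent.R276.Circ_696 (vN dN)
open Crest.Agent.R276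

/-! ### barrier functions -/

section barrier

variable {n : ℕ} {M : Type*} [TopologicalSpace M] [RDom n M]

/-- `1 / (r² - |f|²)` -/
def bar (f : M → ℂ) (r : ℝ) (x : M) : ℝ := (r ^ 2 - ‖f x‖ ^ 2)⁻¹

lemma sm_bar {f : M → ℂ} (hf : W792.Hol f) {r : ℝ} (h : ∀ x, ‖f x‖ < r) : Sm (bar f r) := by
  have h1 : Sm (fun x => ‖f x‖ ^ 2) := Hol.sm_normSq hf.sm
  refine Sm.comp_at (g := fun v : ℝ => (r ^ 2 - v)⁻¹) h1 ?_
  intro x
  have h2 : r ^ 2 - ‖f x‖ ^ 2 ≠ 0 := by
    have h3 := h x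
    have h4 := norm_nonneg (f x)
    have : ‖f x‖ ^ 2 < r ^ 2 := by gcongr
    linarith
  exact (contDiffAt_const.sub contDiffAt_id).inv h2

lemma lev_bar {f : M → ℂ} (hf : W792.Hol f) {r : ℝ} (h : ∀ x, ‖f x‖ < r) (x : M)
    (w : Fin n → ℂ) : 0 ≤ lev (bar f r) x w := by
  have h1 : Sm (fun x => ‖f x‖ ^ 2) := Hol.sm_normSq hf.sm
  have hpos : ∀ y, 0 < r ^ 2 - ‖f y‖ ^ 2 := by
    intro y
    have h3 := h y
    have h4 := norm_nonneg (f y)
    have : ‖f y‖ ^ 2 < r ^ 2 := by gcongr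
    linarith
  have hd1 : ∀ v : ℝ, r ^ 2 - v ≠ 0 → HasDerivAt (fun v : ℝ => (r ^ 2 - v)⁻¹) ((r ^ 2 - v)⁻¹ ^ 2) v := by
    intro v hv
    have h5 : HasDerivAt (fun v : ℝ => r ^ 2 - v) (-1) v := by
      simpa using (hasDerivAt_id v).const_sub (r ^ 2)
    have h6 := h5.inv hv
    refine h6.congr_deriv ?_
    rw [inv_pow, neg_neg, one_div]
  have hd2 : HasDerivAt (fun v : ℝ => (r ^ 2 - v)⁻¹ ^ 2)
      (2 * (r ^ 2 - ‖f x‖ ^ 2)⁻¹ * ((r ^ 2 - ‖f x‖ ^ 2)⁻¹ ^ 2)) (‖f x‖ ^ 2) := by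
    have h5 := (hd1 _ (hpos x).ne').fun_pow 2
    refine h5.congr_deriv ?_
    norm_num
  have hsm' : Sm (fun y => (fun v : ℝ => (r ^ 2 - v)⁻¹ ^ 2) ((fun x => ‖f x‖ ^ 2) y)) := by
    refine Sm.comp_at (g := fun v : ℝ => (r ^ 2 - v)⁻¹ ^ 2) h1 ?_
    intro y
    exact ((contDiffAt_const.sub contDiffAt_id).inv (hpos y).ne').pow 2
  have hev : ∀ᶠ v : ℝ in 𝓝 (‖f x‖ ^ 2), r ^ 2 - v ≠ 0 := by
    have : Continuous fun v : ℝ => r ^ 2 - v := by fun_prop
    filter_upwards [this.continuousAt.eventually_ne (hpos x).ne'] with v hv using hv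
  have hmain := lev_comp (φ := fun x => ‖f x‖ ^ 2) h1 (g := fun v : ℝ => (r ^ 2 - v)⁻¹)
    (g' := fun v : ℝ => (r ^ 2 - v)⁻¹ ^ 2) x (hev.mono fun v hv => hd1 v hv) hd2 w hsm'
  have heq : lev (bar f r) x w = lev (fun y => (fun v : ℝ => (r ^ 2 - v)⁻¹) (‖f y‖ ^ 2)) x w := rfl
  rw [heq, hmain, lev_normSq hf]
  have h7 : 0 < (r ^ 2 - ‖f x‖ ^ 2)⁻¹ := inv_pos.2 (hpos x)
  have h8 := dsq_nonneg (fun x => ‖f x‖ ^ 2) x w
  positivity

lemma bar_pos {f : M → ℂ} {r : ℝ} (h : ∀ x, ‖f x‖ < r) (x : M) : 0 < bar f r x := by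
  unfold bar
  have h3 := h x
  have h4 := norm_nonneg (f x)
  have : ‖f x‖ ^ 2 < r ^ 2 := by gcongr
  exact inv_pos.2 (by linarith)

end barrier

variable {R : ℝ}

/-- the part of a family over the disc of radius `r` around `c` -/
def Rc (D : Dom R) (c : ℂ) (r : ℝ) : Type := {x : D.P // ‖tc x - c‖ < r}

section rc

variable {D : Dom R} {c : ℂ} {r : ℝ}

instance : TopologicalSpace (Rc D c r) :=
  inferInstanceAs (TopologicalSpace {x : D.P // ‖tc x - c‖ < r})
instance : T2Space (Rc D c r) := inferInstanceAs (T2Space {x : D.P // ‖tc x - c‖ < r})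
instance : SecondCountableTopology (Rc D c r) :=
  TopologicalSpace.Subtype.secondCountableTopology {x : D.P | ‖tc x - c‖ < r}

/-- inclusion -/
def Rc.val (x : Rc D c r) : D.P := x.1

lemma Rc.prop (x : Rc D c r) : ‖tc x.val - c‖ < r := x.2

lemma Rc.isOpen (D : Dom R) (c : ℂ) (r : ℝ) : IsOpen {x : D.P | ‖tc x - c‖ < r} :=
  isOpen_lt (cont_tc.sub continuous_const).norm continuous_const

lemma Rc.openEmb : IsOpenEmbedding (Rc.val : Rc D c r → D.P) :=
  (Rc.isOpen D c r).isOpenEmbedding_subtypeVal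

/-- the shift -/
def sh (a : ℕ) (c : ℂ) : Fin (a + 1) → ℂ := Fin.cons c 0

instance : RDom (D.a + 1) (Rc D c r) where
  p x := cp x.val - sh D.a c
  hp := ((Homeomorph.subRight (sh D.a c)).isLocalHomeomorph).comp
    (cp_lh.comp Rc.openEmb.isLocalHomeomorph)

lemma Rc.cp_eq (x : Rc D c r) : (cp x : Fin (D.a + 1) → ℂ) = cp x.val - sh D.a c := rfl

lemma Rc.tc_eq (x : Rc D c r) : tc x = tc x.val - c := rfl

lemma Rc.mor : Mor (sh D.a c) (ContinuousLinearMap.id ℂ _) (Rc.val : Rc D c r → D.P) where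
  cont := Rc.openEmb.continuous
  eq x := by rw [Rc.cp_eq]; simp

end rc

/-- re-centring -/
@[reducible] def Dom.rc (D : Dom R) (c : ℂ) (r : ℝ) : Dom r where
  P := Rc D c r
  a := D.a
  ρ x := D.ρ x.val + bar (fun y : Rc D c r => tc y) r x
  ρ_sm := (Rc.mor.sm D.ρ_sm).add (sm_bar hol_tc fun x => x.prop)
  ρ_cpt := by
    intro m
    obtain ⟨b, hb⟩ := exists_lower D.ρ_sm.continuous D.ρ_cpt
    -- the set is contained in a compact set of `D.P` on which `|tc - c| ≤ r' < r`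
    set K : Set D.P := {x | D.ρ x ≤ m} ∩ {x | ‖tc x - c‖ ^ 2 ≤ r ^ 2 - (max (m - b) 1)⁻¹} with hK
    have hKc : IsCompact K := (D.ρ_cpt m).inter_right
      (isClosed_le ((cont_tc.sub continuous_const).norm.pow 2) continuous_const)
    have hmax : 0 < max (m - b) 1 := lt_of_lt_of_le one_pos (le_max_right _ _)
    have hpre : IsCompact (Rc.val ⁻¹' K : Set (Rc D c r)) := by
      by_cases hr : 0 < r
      · refine Rc.openEmb.toIsInducing.isCompact_preimage' hKc ?_
        intro x hx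
        refine ⟨⟨x, ?_⟩, rfl⟩
        have h1 : ‖tc x - c‖ ^ 2 ≤ r ^ 2 - (max (m - b) 1)⁻¹ := hx.2
        have h2 : 0 < (max (m - b) 1)⁻¹ := inv_pos.2 hmax
        have h3 : ‖tc x - c‖ ^ 2 < r ^ 2 := by linarith
        exact lt_of_pow_lt_pow_left₀ 2 hr.le h3
      · have : (Rc.val ⁻¹' K : Set (Rc D c r)) = ∅ := by
          rw [eq_empty_iff_forall_notMem]
          intro x _
          have h1 := x.prop
          have h2 := norm_nonneg (tc x.val - c)
          linarith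
        rw [this]
        exact isCompact_empty
    refine hpre.of_isClosed_subset ?_ ?_
    · refine isClosed_le ?_ continuous_const
      exact ((Rc.mor.sm D.ρ_sm).add (sm_bar hol_tc fun x => x.prop)).continuous
    · intro x hx
      have hx' : D.ρ x.val + bar (fun y : Rc D c r => tc y) r x ≤ m := hx
      have h1 := bar_pos (f := fun y : Rc D c r => tc y) (r := r) (fun x => x.prop) x
      refine ⟨?_, ?_⟩
      · show D.ρ x.val ≤ m
        linarith
      · show ‖tc x.val - c‖ ^ 2 ≤ r ^ 2 - (max (m - b) 1)⁻¹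
        have h2 : bar (fun y : Rc D c r => tc y) r x ≤ max (m - b) 1 := by
          have := hb x.val
          exact le_trans (by linarith) (le_max_left _ _)
        unfold bar at h1 h2
        have h3 : 0 < r ^ 2 - ‖tc x‖ ^ 2 := inv_pos.1 h1
        have h4 : (max (m - b) 1)⁻¹ ≤ r ^ 2 - ‖tc x‖ ^ 2 := by
          rw [inv_le_comm₀ hmax h3]; exact h2
        have h5 : ‖tc x.val - c‖ ^ 2 = ‖tc x‖ ^ 2 := rfl
        rw [h5]
        linarith
  ρ_lev x w := by
    rw [lev_add (Rc.mor.sm D.ρ_sm) (sm_bar hol_tc fun x => x.prop), Rc.mor.lev_eq D.ρ_sm]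
    have h1 := D.ρ_lev x.val w
    have h2 := lev_bar (f := fun y : Rc D c r => tc y) hol_tc (r := r) (fun x => x.prop) x w
    have h3 : (ContinuousLinearMap.id ℂ (Fin (D.a + 1) → ℂ)) w = w := rfl
    rw [h3]
    linarith
  φ k x := D.φ k x.val
  φ_sm k := Rc.mor.sm (D.φ_sm k)
  φ_anti x _ _ h := D.φ_anti x.val h
  φ_lev k x w := by
    rw [Rc.mor.lev_eq (D.φ_sm k)]
    exact D.φ_lev k _ _
  tR x := x.prop

section rcl

variable {D : Dom R} {c : ℂ} {r : ℝ}

lemma Rc.cons_sub {a : ℕ} (t c : ℂ) (u : Fin a → ℂ) :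
    (Fin.cons t u : Fin (a + 1) → ℂ) + sh a c = Fin.cons (t + c) u := by
  funext i
  refine Fin.cases ?_ (fun j => ?_) i
  · rfl
  · simp [sh]

/-- fibre integrals -/
lemma fi_rc (g : D.P → ℝ≥0∞) {t : ℂ} (ht : ‖t‖ < r) :
    fi (fun x : Rc D c r => g x.val) t = fi g (t + c) := by
  unfold fi
  refine lintegral_congr fun u => ?_
  unfold fsum
  let e : {y : Rc D c r // cp y = (Fin.cons t u : Fin (D.a + 1) → ℂ)} ≃
      {y : D.P // cp y = (Fin.cons (t + c) u : Fin (D.a + 1) → ℂ)} :=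
    { toFun := fun y => ⟨y.1.val, by
        have h1 := y.2
        rw [Rc.cp_eq, sub_eq_iff_eq_add, Rc.cons_sub] at h1
        exact h1⟩
      invFun := fun y => ⟨⟨y.1, by
        have h1 : tc y.1 = t + c := by unfold tc; rw [y.2]; rfl
        rw [h1, add_sub_cancel_right]; exact ht⟩, by
        show (cp y.1 : Fin (D.a + 1) → ℂ) - sh D.a c = _
        rw [sub_eq_iff_eq_add, Rc.cons_sub]
        exact y.2⟩
      left_inv := fun y => rfl
      right_inv := fun y => rfl }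
  exact e.tsum_eq (fun y => g y.1)

lemma nrm_rc (F : D.P → ℂ) {t : ℂ} (ht : ‖t‖ < r) :
    (D.rc c r).nrm (fun x => F x.val) t = D.nrm F (t + c) := fi_rc (D.dens F) ht

open Classical in
/-- extension by zero -/
def rcx (g : Rc D c r → ℂ) (x : D.P) : ℂ := if h : ‖tc x - c‖ < r then g ⟨x, h⟩ else 0

lemma rcx_val (g : Rc D c r → ℂ) (x : Rc D c r) : rcx g x.val = g x := dif_pos x.prop

lemma fhol_rcx {g : Rc D c r → ℂ} {t : ℂ} (ht : ‖t‖ < r) (hg : FHol t g) : FHol (t + c) (rcx g) := by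
  intro e he u hu
  -- the point
  set x1 : D.P := e.symm (Fin.cons (t + c) u) with hx1
  have htx : ∀ v : Fin D.a → ℂ, (Fin.cons (t + c) v : Fin (D.a + 1) → ℂ) ∈ e.target →
      ‖tc (e.symm (Fin.cons (t + c) v)) - c‖ < r := by
    intro v hv
    have h1 : tc (e.symm (Fin.cons (t + c) v)) = t + c := by
      unfold tc; rw [he.cp_symm hv]; rfl
    rw [h1, add_sub_cancel_right]; exact ht
  set x0 : Rc D c r := ⟨x1, htx u hu⟩ with hx0
  set e' := ch x0 with he'
  have he'ch : IsCh e' := isCh_ch x0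
  have hcp : cp x0 = (Fin.cons t u : Fin (D.a + 1) → ℂ) := by
    rw [Rc.cp_eq, sub_eq_iff_eq_add, Rc.cons_sub]
    exact he.cp_symm hu
  have hmem : (Fin.cons t u : Fin (D.a + 1) → ℂ) ∈ e'.target := by
    rw [← hcp]
    exact he'ch.cp_mem (mem_ch x0)
  have h1 := hg e' he'ch
  have hVo : IsOpen {v : Fin D.a → ℂ | (Fin.cons t v : Fin (D.a + 1) → ℂ) ∈ e'.target} :=
    e'.open_target.preimage (differentiable_cons t).continuous
  have h2 : DifferentiableAt ℂ (fun v : Fin D.a → ℂ => g (e'.symm (Fin.cons t v))) u :=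
    h1.differentiableAt (hVo.mem_nhds hmem)
  refine DifferentiableAt.differentiableWithinAt (h2.congr_of_eventuallyEq ?_)
  -- near `u` the two sections agree
  have hVo2 : IsOpen {v : Fin D.a → ℂ | (Fin.cons (t + c) v : Fin (D.a + 1) → ℂ) ∈ e.target} :=
    e.open_target.preimage (differentiable_cons (t + c)).continuous
  have hcont : ContinuousAt (fun v : Fin D.a → ℂ => e.symm (Fin.cons (t + c) v)) u := by
    refine ContinuousAt.comp (g := e.symm) ?_ (differentiable_cons (t + c)).continuous.continuousAt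
    exact e.symm.continuousAt hu
  have hsrc : IsOpen (Rc.val '' e'.source) := Rc.openEmb.isOpenMap _ e'.open_source
  have hx1mem : e.symm (Fin.cons (t + c) u) ∈ Rc.val '' e'.source := ⟨x0, mem_ch x0, rfl⟩
  filter_upwards [hcont.eventually_mem (hsrc.mem_nhds hx1mem), hVo2.mem_nhds hu,
    hVo.mem_nhds hmem] with v hv1 hv2 hv3
  obtain ⟨y, hy, hyv⟩ := hv1
  have hyv' : y.val = e.symm (Fin.cons (t + c) v) := hyv
  rw [← hyv', rcx_val]
  congr 1
  have hcy : cp y = (Fin.cons t v : Fin (D.a + 1) → ℂ) := by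
    rw [Rc.cp_eq, sub_eq_iff_eq_add, Rc.cons_sub, hyv']
    exact he.cp_symm hv2
  rw [← hcy]
  exact (he'ch.symm_cp hy).symm

/-- re-centred frames -/
def Frame.rc {s : ℕ} (B : Frame D s) (c : ℂ) {r : ℝ} (hr : ‖c‖ + r ≤ R) : Frame (D.rc c r) s where
  u i x := B.u i x.val
  hol i := hol_to _ (Rc.mor.hol (hol_of _ (B.hol i)))
  ind t ht a ha := by
    have htc : ‖t + c‖ < R := lt_of_le_of_lt (norm_add_le _ _) (by linarith)
    refine B.ind (t + c) htc a fun x hx => ?_
    have hx' : ‖tc x - c‖ < r := by rw [hx, add_sub_cancel_right]; exact ht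
    refine ha ⟨x, hx'⟩ ?_
    show tc x - c = t
    rw [hx, add_sub_cancel_right]
  sat := by
    have h1 := B.sat
    have h2 : ∀ᵐ t : ℂ, ‖t + c‖ < R → ∀ g, FHol (t + c) g → D.nrm g (t + c) < ∞ →
        ∃ a : Fin s → ℂ, ∀ x, tc x = t + c → g x = ∑ i, a i * B.u i x :=
      (measurePreserving_add_right volume c).quasiMeasurePreserving.ae h1
    filter_upwards [h2] with t h2 ht g hg hfin
    have htc : ‖t + c‖ < R := lt_of_le_of_lt (norm_add_le _ _) (by linarith)
    have h3 : D.nrm (rcx g) (t + c) < ∞ := by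
      rw [← nrm_rc (rcx g) ht]
      have h4 : (fun x : Rc D c r => rcx g x.val) = g := by
        funext x; exact rcx_val g x
      rw [h4]
      exact hfin
    obtain ⟨a, ha⟩ := h2 htc _ (fhol_rcx ht hg) h3
    refine ⟨a, fun x hx => ?_⟩
    have hx' : tc x.val = t + c := by
      have : tc x.val - c = t := hx
      rw [← this]; ring
    rw [← ha x.val hx', rcx_val]

/-- re-centred metrics -/
def Met.rc {s : ℕ} (B : Met D s) (c : ℂ) {r : ℝ} (hr : ‖c‖ + r ≤ R) : Met (D.rc c r) s where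
  toFrame := B.toFrame.rc c hr
  G t := B.G (t + c)
  pd t ht := B.pd (t + c) (lt_of_le_of_lt (norm_add_le _ _) (by linarith))
  cont := B.cont.comp (by fun_prop) fun t ht => by
    rw [mem_ball_zero_iff] at ht ⊢
    exact lt_of_le_of_lt (norm_add_le _ _) (by linarith)
  eq t ht v := by
    have h1 := nrm_rc (c := c) (B.toFrame.cmb v) ht
    have htc : ‖t + c‖ < R := lt_of_le_of_lt (norm_add_le _ _) (by linarith)
    rw [B.eq _ htc] at h1
    exact h1

end rcl

/-- **dual metrics are log-plurisubharmonic**, circles around any centre -/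
theorem Met.log_le_center {D : Dom R} {s : ℕ} (B : Met D s) {ξ : ℂ → Fin s → ℂ}
    (hξ : ∀ i, DifferentiableOn ℂ (fun t => ξ t i) (ball 0 R)) {δ : ℝ} (hδ : 0 < δ)
    {c : ℂ} {r : ℝ} (hr : 0 < r) (hrR : ‖c‖ + r < R) :
    Real.log (dN (B.G c) (ξ c) + δ) ≤
      Real.circleAverage (fun t => Real.log (dN (B.G t) (ξ t) + δ)) c r := by
  set r' := R - ‖c‖ with hr'
  have hle : ‖c‖ + r' ≤ R := by rw [hr']; linarith
  have h1 : Real.log (dN (B.G (0 + c)) (ξ (0 + c)) + δ) ≤
      Real.circleAverage (fun t => Real.log (dN (B.G (t + c)) (ξ (t + c)) + δ)) 0 r :=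
    (B.rc c (r := r') hle).log_le (ξ := fun t => ξ (t + c)) (fun i => by
      refine (hξ i).comp (by fun_prop) fun t ht => ?_
      rw [mem_ball_zero_iff] at ht ⊢
      refine lt_of_le_of_lt (norm_add_le _ _) ?_
      rw [hr'] at ht; linarith) hδ hr (by rw [hr']; linarith)
  have h2 : Real.circleAverage (fun t => Real.log (dN (B.G t) (ξ t) + δ)) c r =
      Real.circleAverage (fun t => Real.log (dN (B.G (t + c)) (ξ (t + c)) + δ)) 0 r := by
    rw [← Real.circleAverage_map_add_const]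
  rw [h2]
  rwa [zero_add] at h1

end Crest.Agent.R276.PV_159
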