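import Crest.Agent.R276.PVp_159
import Crest.Agent.R276.Pvx_999

/-!
# Row 276, part D1 (helper159): (PV) and (OT) for the matrix of a family, in 999's form
-/

set_option autoImplicit false

noncomputable section

open Set Filter Topology Complex MeasureTheory Metric Polynomial
open scoped ENNReal ComplexConjugate Matrix Real ComplexOrder

namespace Crest.Agent.R276.PV_159

open Crest.Agent.R271 Crest.Agent.R271.Ho51 Crest.Agent.R271.W792
open Crest.Agent.R276

variable {R : ℝ}

/-- **(PV)** for a frame of a family over a disc of radius `≥ 1` -/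
theorem Met.pv {D : Dom R} {s : ℕ} (B : Met D s) (hR : 1 ≤ R) : Fdc_999.PV B.G := by
  intro ξ δ hδ c hc
  have hcn : ‖c‖ < 1 := by simpa using hc
  refine ⟨R - ‖c‖, by linarith, fun r hr1 hr2 => ?_⟩
  have h := B.log_le_center (ξ := fun t i => (ξ i).eval t)
    (fun i => (ξ i).differentiable.differentiableOn) hδ hr1 (c := c) (by linarith)
  have h2 : ∀ t, Circ_696.dN (B.G t) (fun i => (ξ i).eval t) = Fdc_999.dN (B.G t) (Fda_999.ev ξ t) :=
    fun t => Pvx_999.dN_eq _ _
  simp only [h2] at h
  exact h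

lemma Met.contOn_closed {D : Dom R} {s : ℕ} (B : Met D s) (hR : 1 < R) :
    ContinuousOn B.G (closedBall 0 1) := B.cont.mono (closedBall_subset_ball hR)

lemma Met.posDef_closed {D : Dom R} {s : ℕ} (B : Met D s) (hR : 1 < R) :
    ∀ z ∈ closedBall (0 : ℂ) 1, (B.G z).PosDef := fun z hz =>
  B.pd z (lt_of_le_of_lt (by simpa using hz) hR)

/-- **(OT)** on the circle -/
theorem Met.ot {D : Dom R} {s : ℕ} (B : Met D s) (hR : 1 < R) : Fdd_999.OT B.G :=
  Pvx_999.ot_of_pv (B.contOn_closed hR) (B.posDef_closed hR) (B.pv hR.le)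

/-- `log det` is super-mean -/
theorem Met.det_le {D : Dom R} {s : ℕ} (B : Met D s) (hR : 1 < R) :
    Real.circleAverage (fun z => Real.log (B.G z).det.re) 0 1 ≤ Real.log (B.G 0).det.re :=
  Pvx_999.det_supermean (B.contOn_closed hR) (B.posDef_closed hR) (B.ot hR)

end Crest.Agent.R276.PV_159
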