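import Crest.Agent.R276.PVq_159
import Crest.Agent.R276.OTB_189
import Crest.Agent.R276.Restr_29
import Crest.Agent.R276.NbB_185

/-!
# Row 276, part D1 (helper159): (PV) for weights `1 / b`, `b` log-psh (`LPsh`)

The extension property comes from 189's `otb_dom`.
-/

set_option autoImplicit false
set_option linter.unusedSectionVars false

noncomputable section

open Set Filter Topology Complex MeasureTheory Metric Polynomial
open scoped ENNReal ComplexConjugate Matrix Real ComplexOrder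

namespace Crest.Agent.R276.PV_159

open Crest.Agent.R271 Crest.Agent.R271.Ho51 Crest.Agent.R271.W792
open Crest.Agent.R276.Circ_696 (vN dN)
open Crest.Agent.R276
open Crest.Agent.R276.EngU_29 (LPsh)
open Crest.Agent.R276.NbB_185 (tp)

variable {R : ℝ}

/-- the weight `1 / b` -/
def iw {X : Type*} (b : X → ℝ) (x : X) : ℝ≥0∞ := (ENNReal.ofReal (b x))⁻¹

lemma lpsh_tp (D : Dom R) {b : D.P → ℝ} (hb : LPsh b) : ∀ j, LPsh (tp D b j)
  | 0 => hb
  | j + 1 => LPsh.mul
      (LPsh.comp_hol (Restr_29.HolMap.of_mor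
        (FP.mor_fst (M := (D.pw j).P) (N := D.P))) (lpsh_tp D hb j))
      (LPsh.comp_hol (Restr_29.HolMap.of_mor
        (FP.mor_snd (M := (D.pw j).P) (N := D.P))) hb)

lemma tp_nonneg (D : Dom R) {b : D.P → ℝ} (hb : ∀ x, 0 ≤ b x) : ∀ j x, 0 ≤ tp D b j x
  | 0, _ => hb _
  | j + 1, _ => mul_nonneg (tp_nonneg D hb j _) (hb _)

lemma wpw_iw (D : Dom R) {b : D.P → ℝ} (hb : ∀ x, 0 ≤ b x) : ∀ j, wpw (iw b) j = iw (tp D b j)
  | 0 => rfl
  | j + 1 => by
    funext q
    show wpw (iw b) j _ * iw b _ = (ENNReal.ofReal (tp D b j _ * b _))⁻¹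
    rw [wpw_iw D hb j, ENNReal.ofReal_mul (tp_nonneg D hb j _),
      ENNReal.mul_inv (Or.inr ENNReal.ofReal_ne_top) (Or.inl ENNReal.ofReal_ne_top)]
    rfl

local instance instMFPr {a b : ℕ} {M N : Type} [TopologicalSpace M] [TopologicalSpace N]
    [RDom (a + 1) M] [RDom (b + 1) N] : MeasurableSpace (FP M N) := borel _
local instance instBFPr {a b : ℕ} {M N : Type} [TopologicalSpace M] [TopologicalSpace N]
    [RDom (a + 1) M] [RDom (b + 1) N] : BorelSpace (FP M N) := ⟨rfl⟩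

/-- `p`-norms of tensor products -/
lemma pn_tensor (Q E : Dom R) {p : ℝ} (hp : 0 ≤ p) {wQ : Q.P → ℝ≥0∞} {w : E.P → ℝ≥0∞}
    (hwQ : Measurable wQ) (hw : Measurable w) (V : Q.P → ℂ) (U : E.P → ℂ) (hV : Continuous V)
    (hU : Continuous U) (t : ℂ) :
    pn p (wmul (D := Q) (E := E) wQ w)
      (fun q : (Q.mul E).P => V (FP.fst (M := Q.P) (N := E.P) q) *
        U (FP.snd (M := Q.P) (N := E.P) q)) t
      = pn p wQ V t * pn p w U t := by
  set F : (Q.mul E).P → ℂ := fun p => V (FP.fst (M := Q.P) (N := E.P) p) *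
    U (FP.snd (M := Q.P) (N := E.P) p) with hF
  have hFc : Continuous F := (hV.comp FP.cont_fst).mul (hU.comp FP.cont_snd)
  have hm : Measurable (fun x : (Q.mul E).P => ENNReal.ofReal (‖F x‖ ^ p) *
      wmul (D := Q) (E := E) wQ w x) := measurable_pden hp (measurable_wmul hwQ hw) hFc
  have hfub : pn p (wmul (D := Q) (E := E) wQ w) F t = fi (fun m : Q.P => fi (fun n : E.P =>
      ext2 (M := Q.P) (N := E.P) (fun x : (Q.mul E).P => ENNReal.ofReal (‖F x‖ ^ p) *
      wmul (D := Q) (E := E) wQ w x) m n) t) t :=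
    fi_FP (M := Q.P) (N := E.P) hm t
  have h1 : ∀ m : Q.P, tc m = t → fi (fun n : E.P =>
      ext2 (M := Q.P) (N := E.P) (fun x : (Q.mul E).P => ENNReal.ofReal (‖F x‖ ^ p) *
      wmul (D := Q) (E := E) wQ w x) m n) t =
      (ENNReal.ofReal (‖V m‖ ^ p) * wQ m) * pn p w U t := by
    intro m hm'
    unfold pn
    rw [← fi_const_mul_meas (measurable_pden hp hw hU)]
    refine fi_congr fun n hn => ?_
    have h : (cp m : Fin (Q.a + 1) → ℂ) 0 = (cp n : Fin (E.a + 1) → ℂ) 0 := by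
      rw [hn]; exact hm'
    rw [ext2_of (M := Q.P) (N := E.P) _ h]
    show ENNReal.ofReal (‖V m * U n‖ ^ p) * (wQ m * w n) = _
    rw [norm_mul, Real.mul_rpow (norm_nonneg _) (norm_nonneg _),
      ENNReal.ofReal_mul (Real.rpow_nonneg (norm_nonneg _) _)]
    ring
  rw [hfub]
  calc fi (fun m : Q.P => fi (fun n : E.P =>
      ext2 (M := Q.P) (N := E.P) (fun x : (Q.mul E).P => ENNReal.ofReal (‖F x‖ ^ p) *
      wmul (D := Q) (E := E) wQ w x) m n) t) t
      = fi (fun m => pn p w U t * (ENNReal.ofReal (‖V m‖ ^ p) * wQ m)) t :=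
        fi_congr fun m hm' => by rw [h1 m hm', mul_comm]
    _ = pn p w U t * pn p wQ V t := fi_const_mul_meas (measurable_pden hp hwQ hV) t _
    _ = _ := mul_comm _ _

lemma pn_upw {D : Dom R} {p : ℝ} (hp : 0 ≤ p) {w : D.P → ℝ≥0∞} (hw : Measurable w) {U : D.P → ℂ}
    (hU : W792.Hol U) (t : ℂ) : ∀ j, pn p (wpw w j) (D.upw U j) t = pn p w U t ^ (j + 1)
  | 0 => by rw [zero_add, pow_one]; rfl
  | j + 1 => by
    have h1 := pn_tensor (D.pw j) D hp (measurable_wpw hw j) hw (D.upw U j) U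
      (Dom.upw_cont hU j) hU.sm.continuous t
    rw [pn_upw hp hw hU t j] at h1
    rw [pow_succ (pn p w U t) (j + 1)]
    exact h1

/-- comparison of the class with the weight `1 / b` -/
def Cmp (D : Dom R) (b : D.P → ℝ) : Prop :=
  ∀ t : ℂ, ‖t‖ < R → ∃ c : ℝ≥0∞, c ≠ ∞ ∧ ∀ x : D.P, tc x = t → D.wt x ≤ c * iw b x

lemma Cmp.pw {D : Dom R} {b : D.P → ℝ} (h : Cmp D b) (hb : ∀ x, 0 ≤ b x) {t : ℂ} (ht : ‖t‖ < R) :
    ∀ j, ∃ c : ℝ≥0∞, c ≠ ∞ ∧ ∀ x : (D.pw j).P, tc x = t → (D.pw j).wt x ≤ c * iw (tp D b j) x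
  | 0 => h t ht
  | j + 1 => by
    obtain ⟨c1, hc1, h1⟩ := Cmp.pw h hb ht j
    obtain ⟨c2, hc2, h2⟩ := h t ht
    refine ⟨c1 * c2, ENNReal.mul_ne_top hc1 hc2, fun x hx => ?_⟩
    have hx1 : tc (FP.fst (M := (D.pw j).P) (N := D.P) x) = t := hx
    have hx2 : tc (FP.snd (M := (D.pw j).P) (N := D.P) x) = t := by
      rw [← hx]; exact (FP.cond x).symm
    have e1 : ((D.pw j).mul D).wt x = (D.pw j).wt (FP.fst (M := (D.pw j).P) (N := D.P) x) *
        D.wt (FP.snd (M := (D.pw j).P) (N := D.P) x) := Dom.wt_mul (D.pw j) D x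
    show ((D.pw j).mul D).wt x ≤ _
    rw [e1, ← wpw_iw D hb (j + 1)]
    show _ ≤ c1 * c2 * (wpw (iw b) j (FP.fst (M := (D.pw j).P) (N := D.P) x) *
      iw b (FP.snd (M := (D.pw j).P) (N := D.P) x))
    rw [wpw_iw D hb j]
    calc _ ≤ (c1 * iw (tp D b j) (FP.fst (M := (D.pw j).P) (N := D.P) x)) *
          (c2 * iw b (FP.snd (M := (D.pw j).P) (N := D.P) x)) :=
          mul_le_mul' (h1 _ hx1) (h2 _ hx2)
      _ = _ := by ring

/-- **the extension property of all tensor powers**, for weights `1 / b` -/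
theorem ext_lpsh (hR : 0 < R) : ∃ C : ℝ≥0∞, C ≠ ∞ ∧ ∀ (D : Dom R) (b : D.P → ℝ), LPsh b →
    Cmp D b → ∀ U : D.P → ℂ, W792.Hol U → ∀ S : ℝ≥0∞, S ≠ ∞ → pn 2 (iw b) U 0 ≤ S →
    ∀ j, ∃ F : (D.pw j).P → ℂ, Ho51.Hol F ∧ (∀ x, tc x = 0 → F x = D.upw U j x) ∧
      (∀ᵐ t, (D.pw j).nrm F t < ∞) ∧ ∫⁻ t, pn 2 (wpw (iw b) j) F t ≤ C * S ^ (j + 1) := by
  obtain ⟨C, hC, h⟩ := OTB_189.otb_dom hR
  refine ⟨C, hC, fun D b hb hcmp U hU S hS hUS j => ?_⟩
  have hb0 := hb.nonneg
  have hbm : Measurable (iw b) := (EngU_29.LPsh.measurable hb).ennreal_ofReal.inv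
  obtain ⟨F, hF, hF0, hFb⟩ := h (D.pw j) (tp D b j) (lpsh_tp D hb j) (D.upw U j)
    (Hol.fhol (hol_to _ (Dom.upw_hol hU j)) 0)
  have e1 : ∀ (g : (D.pw j).P → ℂ) (t : ℂ),
      fi (fun x => ENNReal.ofReal (‖g x‖ ^ 2) / ENNReal.ofReal (tp D b j x)) t =
      pn 2 (wpw (iw b) j) g t := by
    intro g t
    unfold pn
    rw [wpw_iw D hb0 j]
    refine fi_congr fun x _ => ?_
    rw [Real.rpow_two]
    rfl
  simp_rw [e1] at hFb
  rw [pn_upw (by norm_num) hbm hU] at hFb
  have hBfin : C * S ^ (j + 1) ≠ ∞ := ENNReal.mul_ne_top hC (ENNReal.pow_ne_top hS)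
  have hle : ∫⁻ t, pn 2 (wpw (iw b) j) F t ≤ C * S ^ (j + 1) :=
    hFb.trans (mul_le_mul_right (pow_le_pow_left' hUS _) _)
  refine ⟨F, hF, hF0, ?_, hle⟩
  have hmeas : Measurable (pn 2 (wpw (iw b) j) F) :=
    measurable_fi (measurable_pden (by norm_num) (measurable_wpw hbm j)
      (T7a297.Hol.continuous hF))
  filter_upwards [ae_lt_top hmeas (lt_of_le_of_lt hle hBfin.lt_top).ne] with t ht
  by_cases htR : ‖t‖ < R
  · obtain ⟨c, hc, hcx⟩ := hcmp.pw hb0 htR j
    refine lt_of_le_of_lt ?_ (ENNReal.mul_lt_top hc.lt_top ht)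
    unfold Dom.nrm pn
    refine le_trans (fi_mono fun x hx => ?_) (fi_const_mul_meas (measurable_pden (p := 2)
      (by norm_num) (measurable_wpw hbm j) (T7a297.Hol.continuous hF)) t c).le
    unfold Dom.dens
    rw [Real.rpow_two, wpw_iw D hb0 j]
    calc ENNReal.ofReal (‖F x‖ ^ 2) * (D.pw j).wt x
        ≤ ENNReal.ofReal (‖F x‖ ^ 2) * (c * iw (tp D b j) x) := by
          gcongr
          exact hcx x hx
      _ = _ := by ring
  · rw [Dom.nrm_out _ _ (not_lt.1 htR)]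
    exact ENNReal.zero_lt_top

/-! ### frames with log-psh weights -/

/-- a frame whose norms for the weight `1 / b` are given by a continuous positive definite
matrix -/
structure MetB (D : Dom R) (s : ℕ) extends Frame D s where
  /-- the weight is `1 / b` -/
  b : D.P → ℝ
  lpsh : LPsh b
  cmp : Cmp D b
  /-- the Gram matrix -/
  G : ℂ → Matrix (Fin s) (Fin s) ℂ
  pd : ∀ t, ‖t‖ < R → (G t).PosDef
  cont : ContinuousOn G (ball 0 R)
  eq : ∀ t, ‖t‖ < R → ∀ v, pn 2 (iw b) (toFrame.cmb v) t = ENNReal.ofReal (vN (G t) v)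

variable {D : Dom R} {s : ℕ}

/-- **dual metrics are log-plurisubharmonic**, annuli -/
theorem MetB.le_exp_Ann (B : MetB D s) {ξ : ℂ → Fin s → ℂ}
    (hξ : ∀ i, DifferentiableOn ℂ (fun t => ξ t i) (ball 0 R)) {δ : ℝ} (hδ : 0 < δ)
    {r1 r2 : ℝ} (hr1 : 0 ≤ r1) (hr : r1 < r2) (hrR : r2 < R) :
    dN (B.G 0) (ξ 0) ≤ Real.exp (⨍ t in Ann r1 r2, Real.log (dN (B.G t) (ξ t) + δ)) := by
  classical
  have hR : 0 < R := lt_of_le_of_lt hr1 (hr.trans hrR)
  have h0R : ‖(0 : ℂ)‖ < R := by rwa [norm_zero]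
  set κ : ℂ → ℝ := fun t => if ‖t‖ < R then dN (B.G t) (ξ t) + δ else δ with hκd
  have hκ : ∀ t, 0 < κ t := by
    intro t
    simp only [hκd]
    by_cases ht : ‖t‖ < R
    · rw [if_pos ht]
      have := Circ_696.dN_nonneg (B.pd t ht) (ξ t)
      linarith
    · rw [if_neg ht]; exact hδ
  have hbd : ∀ᵐ t, ‖t‖ < R → ∀ c : Fin s → ℂ, D.nrm (B.toFrame.cmb c) t < ∞ →
      ENNReal.ofReal (‖∑ i, ξ t i * c i‖ ^ (2 : ℝ)) ≤ ENNReal.ofReal (κ t) *
        pn 2 (iw B.b) (B.toFrame.cmb c) t := by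
    refine Eventually.of_forall fun t ht c _ => ?_
    rw [B.eq t ht, ← ENNReal.ofReal_mul (hκ t).le]
    apply ENNReal.ofReal_le_ofReal
    have h1 := Circ_696.cs (B.pd t ht) (ξ t) c
    have h2 : κ t = dN (B.G t) (ξ t) + δ := by simp only [hκd]; rw [if_pos ht]
    have h3 := Circ_696.vN_nonneg (B.pd t ht).posSemidef c
    rw [Real.rpow_two, h2]
    refine h1.trans ?_
    nlinarith
  set X := B.toFrame.ff2 ξ hξ (iw B.b) 2 κ hκ hbd with hX
  have hbm : Measurable (iw B.b) := (EngU_29.LPsh.measurable B.lpsh).ennreal_ofReal.inv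
  -- the averages
  have hcontξ : ContinuousOn ξ (ball 0 R) :=
    continuousOn_pi.2 fun i => (hξ i).continuousOn
  have hdN : ContinuousOn (fun t => dN (B.G t) (ξ t)) (ball 0 R) :=
    dN_contOn B.cont (fun t ht => B.pd t (by rwa [mem_ball_zero_iff] at ht)) hcontξ
  have hAm : MeasurableSet (Ann r1 r2) := measurableSet_Ann r1 r2
  have hlogc : ContinuousOn (fun t => Real.log (dN (B.G t) (ξ t) + δ)) (closedBall 0 r2) := by
    refine ContinuousOn.log ((hdN.mono (closedBall_subset_ball hrR)).add continuousOn_const) ?_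
    intro t ht
    have ht' : ‖t‖ < R := by
      have := closedBall_subset_ball hrR ht
      rwa [mem_ball_zero_iff] at this
    have := Circ_696.dN_nonneg (B.pd t ht') (ξ t)
    linarith
  have heq : ∀ t ∈ Ann r1 r2, Real.log (X.κ t) = Real.log (dN (B.G t) (ξ t) + δ) := by
    intro t ht
    have ht' : ‖t‖ < R := ht.2.trans hrR
    show Real.log (κ t) = _
    simp only [hκd]
    rw [if_pos ht']
  have hint : IntegrableOn (fun t => Real.log (X.κ t)) (Ann r1 r2) := by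
    refine IntegrableOn.congr_fun ?_ (fun t ht => (heq t ht).symm) hAm
    exact (hlogc.integrableOn_compact (isCompact_closedBall (0 : ℂ) r2)).mono_set (Ann_sub r1 r2)
  have hlow : ∀ t ∈ Ann r1 r2, Real.log δ ≤ Real.log (X.κ t) := by
    intro t ht
    rw [heq t ht]
    have := Circ_696.dN_nonneg (B.pd t (ht.2.trans hrR)) (ξ t)
    exact Real.log_le_log hδ (by linarith)
  have havg : ⨍ t in Ann r1 r2, Real.log (X.κ t) =
      ⨍ t in Ann r1 r2, Real.log (dN (B.G t) (ξ t) + δ) := by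
    rw [setAverage_eq, setAverage_eq, setIntegral_congr_fun hAm heq]
  obtain ⟨C, hC, hCext⟩ := ext_lpsh hR
  refine NBcore_696.dN_le (B.pd 0 h0R) (Real.exp_pos _).le fun v => ?_
  have hUv := hol_of _ (B.toFrame.cmb_hol v)
  have hpv := X.pv (by norm_num) le_rfl hbm (U := B.toFrame.cmb v) hC ENNReal.ofReal_ne_top
    (fun j => hCext D B.b B.lpsh B.cmp (B.toFrame.cmb v) hUv _ ENNReal.ofReal_ne_top
      (B.eq 0 h0R v).le j) hr1 hr hrR hint hlow
  have hv0 := Circ_696.vN_nonneg (B.pd 0 h0R).posSemidef v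
  rw [ENNReal.toReal_ofReal hv0, havg, Real.rpow_two] at hpv
  have hval : X.ξ 0 (B.toFrame.cmb v) = ξ 0 ⬝ᵥ v := B.toFrame.fn_eq ξ h0R fun x _ => rfl
  rw [hval] at hpv
  exact hpv

/-- from annuli to circles -/
theorem log_le_of_Ann {G : ℂ → Matrix (Fin s) (Fin s) ℂ} (pd : ∀ t, ‖t‖ < R → (G t).PosDef)
    (cont : ContinuousOn G (ball 0 R)) {ξ : ℂ → Fin s → ℂ}
    (hξ : ∀ i, DifferentiableOn ℂ (fun t => ξ t i) (ball 0 R))
    (hAnn : ∀ δ : ℝ, 0 < δ → ∀ r1 r2 : ℝ, 0 ≤ r1 → r1 < r2 → r2 < R →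
      dN (G 0) (ξ 0) ≤ Real.exp (⨍ t in Ann r1 r2, Real.log (dN (G t) (ξ t) + δ)))
    {δ : ℝ} (hδ : 0 < δ) {r : ℝ} (hr : 0 < r) (hrR : r < R) :
    Real.log (dN (G 0) (ξ 0) + δ) ≤
      Real.circleAverage (fun t => Real.log (dN (G t) (ξ t) + δ)) 0 r := by
  have hR : 0 < R := hr.trans hrR
  have h0R : ‖(0 : ℂ)‖ < R := by rwa [norm_zero]
  have hcontξ : ContinuousOn ξ (ball 0 R) := continuousOn_pi.2 fun i => (hξ i).continuousOn
  have hdN : ContinuousOn (fun t => dN (G t) (ξ t)) (ball 0 R) :=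
    dN_contOn cont (fun t ht => pd t (by rwa [mem_ball_zero_iff] at ht)) hcontξ
  have hsub : sphere (0 : ℂ) r ⊆ ball 0 R := fun t ht => by
    rw [mem_sphere_zero_iff_norm] at ht
    rw [mem_ball_zero_iff, ht]
    exact hrR
  have hnn : ∀ t ∈ ball (0 : ℂ) R, 0 ≤ dN (G t) (ξ t) := fun t ht =>
    Circ_696.dN_nonneg (pd t (by rwa [mem_ball_zero_iff] at ht)) (ξ t)
  have hlogc : ∀ η : ℝ, 0 < η → ContinuousOn (fun t => Real.log (dN (G t) (ξ t) + η)) (ball 0 R) :=
    fun η hη => (hdN.add continuousOn_const).log fun t ht => by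
      have := hnn t ht
      have h2 : 0 < dN (G t) (ξ t) + η := by linarith
      exact h2.ne'
  -- circle form with exponentials
  have h1 : ∀ η : ℝ, 0 < η → dN (G 0) (ξ 0) ≤
      Real.exp (Real.circleAverage (fun t => Real.log (dN (G t) (ξ t) + η)) 0 r) := by
    intro η hη
    have h2 : ∀ ε : ℝ, 0 < ε → dN (G 0) (ξ 0) ≤
        Real.exp (Real.circleAverage (fun t => Real.log (dN (G t) (ξ t) + η)) 0 r + ε) := by
      intro ε hε
      obtain ⟨r1, r2, hr1, hr12, hr2R, hle⟩ := exists_Ann hr hrR (hlogc η hη) hε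
      exact (hAnn η hη r1 r2 hr1 hr12 hr2R).trans (Real.exp_le_exp.2 hle)
    have h3 : Tendsto (fun ε : ℝ => Real.exp (Real.circleAverage
        (fun t => Real.log (dN (G t) (ξ t) + η)) 0 r + ε)) (𝓝[>] 0)
        (𝓝 (Real.exp (Real.circleAverage (fun t => Real.log (dN (G t) (ξ t) + η)) 0 r + 0))) := by
      apply tendsto_nhdsWithin_of_tendsto_nhds
      exact (Real.continuous_exp.comp (continuous_const.add continuous_id)).tendsto 0
    rw [add_zero] at h3
    refine ge_of_tendsto h3 ?_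
    filter_upwards [self_mem_nhdsWithin] with ε hε
    exact h2 ε hε
  -- add `δ`
  have h2 : ∀ η : ℝ, 0 < η → Real.log (dN (G 0) (ξ 0) + δ) ≤
      Real.circleAverage (fun t => Real.log (dN (G t) (ξ t) + δ)) 0 r + η / δ := by
    intro η hη
    have h3 := geom_add hr (a := fun t => dN (G t) (ξ t) + η)
      ((hdN.mono hsub).add continuousOn_const) (fun t ht => by
        have := hnn t (hsub ht)
        linarith) hδ
    have h4 : dN (G 0) (ξ 0) + δ ≤
        Real.exp (Real.circleAverage (fun t => Real.log (dN (G t) (ξ t) + η + δ)) 0 r) := by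
      have := h1 η hη
      linarith
    have hp : 0 < dN (G 0) (ξ 0) + δ := by
      have := hnn 0 (mem_ball_self hR)
      linarith
    have h5 := Real.log_le_log hp h4
    rw [Real.log_exp] at h5
    refine h5.trans ?_
    have h6 : Real.circleAverage (fun t => Real.log (dN (G t) (ξ t) + η + δ)) 0 r ≤
        Real.circleAverage (fun t => Real.log (dN (G t) (ξ t) + δ) + η / δ) 0 r := by
      have hc1 : ContinuousOn (fun t => Real.log (dN (G t) (ξ t) + η + δ)) (sphere 0 r) := by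
        have h7 : (fun t => Real.log (dN (G t) (ξ t) + η + δ)) =
            fun t => Real.log (dN (G t) (ξ t) + (η + δ)) := by
          funext t; rw [add_assoc]
        rw [h7]
        exact (hlogc (η + δ) (by linarith)).mono hsub
      refine NBcore_696.mono hr hc1 (((hlogc δ hδ).mono hsub).add continuousOn_const) ?_
      intro t ht
      have h8 := hnn t (hsub ht)
      have h9 : 0 < dN (G t) (ξ t) + δ := by linarith
      have h10 : dN (G t) (ξ t) + η + δ = (dN (G t) (ξ t) + δ) * (1 + η / (dN (G t) (ξ t) + δ)) := by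
        field_simp
        ring
      have h11 : 0 < 1 + η / (dN (G t) (ξ t) + δ) := by positivity
      rw [h10, Real.log_mul h9.ne' h11.ne']
      have h12 : Real.log (1 + η / (dN (G t) (ξ t) + δ)) ≤ η / (dN (G t) (ξ t) + δ) := by
        have := Real.log_le_sub_one_of_pos h11
        linarith
      have h13 : η / (dN (G t) (ξ t) + δ) ≤ η / δ :=
        div_le_div_of_nonneg_left hη.le hδ (by linarith)
      linarith
    refine h6.trans (le_of_eq ?_)
    rw [Real.circleAverage_fun_add (NBcore_696.ci hr ((hlogc δ hδ).mono hsub))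
      (NBcore_696.ci hr continuousOn_const), Real.circleAverage_const]
  have h3 : Tendsto (fun η : ℝ => Real.circleAverage
      (fun t => Real.log (dN (G t) (ξ t) + δ)) 0 r + η / δ) (𝓝[>] 0)
      (𝓝 (Real.circleAverage (fun t => Real.log (dN (G t) (ξ t) + δ)) 0 r + 0 / δ)) := by
    apply tendsto_nhdsWithin_of_tendsto_nhds
    exact (continuous_const.add (continuous_id.div_const δ)).tendsto 0
  rw [zero_div, add_zero] at h3
  refine ge_of_tendsto h3 ?_
  filter_upwards [self_mem_nhdsWithin] with η hη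
  exact h2 η hη


/-- **dual metrics are log-plurisubharmonic**, circles -/
theorem MetB.log_le (B : MetB D s) {ξ : ℂ → Fin s → ℂ}
    (hξ : ∀ i, DifferentiableOn ℂ (fun t => ξ t i) (ball 0 R)) {δ : ℝ} (hδ : 0 < δ)
    {r : ℝ} (hr : 0 < r) (hrR : r < R) :
    Real.log (dN (B.G 0) (ξ 0) + δ) ≤
      Real.circleAverage (fun t => Real.log (dN (B.G t) (ξ t) + δ)) 0 r :=
  log_le_of_Ann B.pd B.cont hξ (fun _ h _ _ h1 h2 h3 => B.le_exp_Ann hξ h h1 h2 h3) hδ hr hrR

/-- re-centring -/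
def MetB.rc (B : MetB D s) (c : ℂ) {r : ℝ} (hr : ‖c‖ + r ≤ R) : MetB (D.rc c r) s where
  toFrame := B.toFrame.rc c hr
  b x := B.b x.val
  lpsh := LPsh.comp_hol (Restr_29.HolMap.of_mor (Rc.mor (D := D) (c := c) (r := r))) B.lpsh
  cmp t ht := by
    obtain ⟨k, hk, h⟩ := B.cmp (t + c) (lt_of_le_of_lt (norm_add_le _ _) (by linarith))
    refine ⟨k, hk, fun x hx => ?_⟩
    refine h x.val ?_
    have h1 : tc x.val - c = t := hx
    rw [← h1]; ring
  G t := B.G (t + c)
  pd t ht := B.pd (t + c) (lt_of_le_of_lt (norm_add_le _ _) (by linarith))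
  cont := B.cont.comp (by fun_prop) fun t ht => by
    rw [mem_ball_zero_iff] at ht ⊢
    exact lt_of_le_of_lt (norm_add_le _ _) (by linarith)
  eq t ht v := by
    have htc : ‖t + c‖ < R := lt_of_le_of_lt (norm_add_le _ _) (by linarith)
    have h1 := fi_rc (D := D) (c := c)
      (fun x => ENNReal.ofReal (‖B.toFrame.cmb v x‖ ^ (2 : ℝ)) * iw B.b x) ht
    have h2 := B.eq _ htc v
    unfold pn at h2 ⊢
    rw [h2] at h1
    exact h1

/-- **dual metrics are log-plurisubharmonic**, circles around any centre -/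
theorem MetB.log_le_center (B : MetB D s) {ξ : ℂ → Fin s → ℂ}
    (hξ : ∀ i, DifferentiableOn ℂ (fun t => ξ t i) (ball 0 R)) {δ : ℝ} (hδ : 0 < δ)
    {c : ℂ} {r : ℝ} (hr : 0 < r) (hrR : ‖c‖ + r < R) :
    Real.log (dN (B.G c) (ξ c) + δ) ≤
      Real.circleAverage (fun t => Real.log (dN (B.G t) (ξ t) + δ)) c r := by
  set r' := R - ‖c‖ with hr'
  have hle : ‖c‖ + r' ≤ R := by rw [hr']; linarith
  have h1 : Real.log (dN (B.G (0 + c)) (ξ (0 + c)) + δ) ≤
      Real.circleAverage (fun t => Real.log (dN (B.G (t + c)) (ξ (t + c)) + δ)) 0 r :=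
    (B.rc c (r := r') hle).log_le (ξ := fun t => ξ (t + c)) (fun i => by
      refine (hξ i).comp (by fun_prop) fun t ht => ?_
      rw [mem_ball_zero_iff] at ht ⊢
      refine lt_of_le_of_lt (norm_add_le _ _) ?_
      rw [hr'] at ht; linarith) hδ hr (by rw [hr']; linarith)
  have h2 : Real.circleAverage (fun t => Real.log (dN (B.G t) (ξ t) + δ)) c r =
      Real.circleAverage (fun t => Real.log (dN (B.G (t + c)) (ξ (t + c)) + δ)) 0 r := by
    rw [← Real.circleAverage_map_add_const]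
  rw [h2]
  rwa [zero_add] at h1

/-- **(PV)** -/
theorem MetB.pv (B : MetB D s) (hR : 1 ≤ R) : Fdc_999.PV B.G := by
  intro ξ δ hδ c hc
  have hcn : ‖c‖ < 1 := by simpa using hc
  refine ⟨R - ‖c‖, by linarith, fun r hr1 hr2 => ?_⟩
  have h := B.log_le_center (ξ := fun t i => (ξ i).eval t)
    (fun i => (ξ i).differentiable.differentiableOn) hδ hr1 (c := c) (by linarith)
  have h2 : ∀ t, Circ_696.dN (B.G t) (fun i => (ξ i).eval t) = Fdc_999.dN (B.G t) (Fda_999.ev ξ t) :=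
    fun t => Pvx_999.dN_eq _ _
  simp only [h2] at h
  exact h

lemma MetB.contOn_closed (B : MetB D s) (hR : 1 < R) : ContinuousOn B.G (closedBall 0 1) :=
  B.cont.mono (closedBall_subset_ball hR)

lemma MetB.posDef_closed (B : MetB D s) (hR : 1 < R) :
    ∀ z ∈ closedBall (0 : ℂ) 1, (B.G z).PosDef := fun z hz =>
  B.pd z (lt_of_le_of_lt (by simpa using hz) hR)

/-- **(OT)** -/
theorem MetB.ot (B : MetB D s) (hR : 1 < R) : Fdd_999.OT B.G :=
  Pvx_999.ot_of_pv (B.contOn_closed hR) (B.posDef_closed hR) (B.pv hR.le)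

/-- `log det` is super-mean -/
theorem MetB.det_le (B : MetB D s) (hR : 1 < R) :
    Real.circleAverage (fun z => Real.log (B.G z).det.re) 0 1 ≤ Real.log (B.G 0).det.re :=
  Pvx_999.det_supermean (B.contOn_closed hR) (B.posDef_closed hR) (B.ot hR)

end Crest.Agent.R276.PV_159
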