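import Crest.Agent.R276.PVr_159
import Crest.Agent.R276.LNd_333

/-!
# Row 276, part D1 (helper159): (PV) and (OT) for the metrics of LEMMA N over a disc

`Dsc L R` : a family over the disc `|t| < R` whose fibre over `t` is the fibre over `x t` of the
data `L : LN M Y s N` of helper999.  For a family `ω t` of weights of degree `2/N - 2` (helper333)
with `p ↦ 1 / ω (tc p) (u p)` log-psh, the Gram matrix `Qm (L.μ (x t)) L.σ (ω t)` is a `MetB`.
-/

set_option autoImplicit false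
set_option linter.unusedSectionVars false

noncomputable section

open Set Filter Topology Complex MeasureTheory Metric Polynomial
open scoped ENNReal ComplexConjugate Matrix Real ComplexOrder

namespace Crest.Agent.R276.PV_159

open Crest.Agent.R271 Crest.Agent.R271.Ho51 Crest.Agent.R271.W792
open Crest.Agent.R276.Circ_696 (vN dN)
open Crest.Agent.R276
open Crest.Agent.R276.EngU_29 (LPsh)
open Crest.Agent.R276.LN_999 (LN)
open Crest.Agent.R276.LNb_333 (dt dt_sg)
open Crest.Agent.R276.LNc_333 (Wt Qm)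
open Crest.Agent.R276.LNd_333 (wH wG Spn)

variable {R : ℝ} {M Y : Type*} [TopologicalSpace M] [MeasurableSpace Y] {s N : ℕ}

/-- `∑ |u_i|²` -/
def Ku {X : Type*} (u : Fin s → X → ℂ) (p : X) : ℝ := ∑ i, ‖u i p‖ ^ 2

/-- a family over a disc which represents the fibres over the points `x t` -/
structure Dsc (L : LN M Y s N) (R : ℝ) where
  D : Dom R
  /-- the base disc -/
  x : ℂ → M
  xc : ContinuousOn x (ball 0 R)
  /-- the frame -/
  u : Fin s → D.P → ℂ
  hol : ∀ i, Ho51.Hol (u i)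
  wt : ∀ p, D.wt p = (ENNReal.ofReal (Ku u p ^ (1 - 1 / N : ℝ)))⁻¹
  ind : ∀ t, ‖t‖ < R → ∀ a : Fin s → ℂ, (∀ p, tc p = t → ∑ i, a i * u i p = 0) → a = 0
  clos : ∀ t, ‖t‖ < R → ∀ g, FHol t g → D.nrm g t < ∞ →
    ∃ a : Fin s → ℂ, ∀ p, tc p = t → g p = ∑ i, a i * u i p
  /-- the fibre integrals -/
  lk : ∀ t, ‖t‖ < R → ∀ h : (Fin s → ℂ) → ℝ≥0∞, Measurable h →
    ∫⁻ y, h (L.sg y) ∂(L.μ (x t)) = fi (fun p : D.P => h (fun i => u i p)) t

variable {L : LN M Y s N}

/-- the frame -/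
def Dsc.fr (X : Dsc L R) : Frame X.D s where
  u := X.u
  hol := X.hol
  ind := X.ind
  sat := Eventually.of_forall X.clos

/-- inverse weights -/
lemma inv_le_of {b c k : ℝ≥0∞} (hc0 : c ≠ 0) (hc : c ≠ ∞) (h : b ≤ c * k) : k⁻¹ ≤ c * b⁻¹ := by
  have h1 : (c * k)⁻¹ ≤ b⁻¹ := ENNReal.inv_le_inv.2 h
  have h2 : c * (c * k)⁻¹ = k⁻¹ := by
    rw [ENNReal.mul_inv (Or.inl hc0) (Or.inl hc), ← mul_assoc, ENNReal.mul_inv_cancel hc0 hc,
      one_mul]
  rw [← h2]
  exact mul_le_mul_right h1 _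

/-- the general metric -/
def Dsc.met (X : Dsc L R) (hN : 2 ≤ N) (ω : ℂ → (Fin s → ℂ) → ℝ)
    (hω : ∀ t, ‖t‖ < R → Wt (2 / N : ℝ) (ω t)) (hω0 : ∀ t, ‖t‖ < R → ω t 0 = 0)
    (hb : LPsh (fun p : X.D.P => (ω (tc p) (fun i => X.u i p))⁻¹))
    (hG : ContinuousOn (fun t => Qm (L.μ (X.x t)) L.σ (ω t)) (ball 0 R)) : MetB X.D s where
  toFrame := X.fr
  b := fun p => (ω (tc p) (fun i => X.u i p))⁻¹
  lpsh := hb
  cmp := by
    intro t ht
    have hNp := LNd_333.N_pos hN
    have hq : (0 : ℝ) < 2 - 2 / N := by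
      have := LNb_333.p_le hN
      linarith
    have hw := hω t ht
    obtain ⟨C, hC0, hC⟩ := HomC_201.hom_bd (p := (2 - 2 / N : ℝ)) hq
      (g := fun σ => (ω t σ)⁻¹) (hw.cont.inv₀ fun σ hσ => (hw.pos σ hσ).ne') (by
        intro c σ
        by_cases hc : c = 0
        · rw [hc, zero_smul, hω0 t ht, norm_zero, Real.zero_rpow hq.ne', inv_zero, zero_mul]
        · rw [hw.hom c hc, mul_inv, ← Real.rpow_neg (norm_nonneg _)]
          congr 2
          ring)
    refine ⟨ENNReal.ofReal (C + 1), ENNReal.ofReal_ne_top, fun p hp => ?_⟩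
    rw [X.wt p]
    refine inv_le_of (ENNReal.ofReal_pos.2 (by linarith)).ne' ENNReal.ofReal_ne_top ?_
    rw [← ENNReal.ofReal_mul (by linarith)]
    apply ENNReal.ofReal_le_ofReal
    show (ω (tc p) (fun i => X.u i p))⁻¹ ≤ _
    rw [hp]
    have h1 := (le_abs_self _).trans (hC (fun i => X.u i p))
    refine h1.trans ?_
    have h2 : ‖fun i => X.u i p‖ ^ 2 ≤ Ku X.u p := by
      unfold Ku
      by_cases hs : ‖fun i => X.u i p‖ = 0
      · rw [hs]
        have : 0 ≤ ∑ i, ‖X.u i p‖ ^ 2 := Finset.sum_nonneg fun _ _ => by positivity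
        simpa using this
      · obtain ⟨i, hi⟩ : ∃ i, ‖fun i => X.u i p‖ = ‖X.u i p‖ := by
          have hne : Nonempty (Fin s) := by
            by_contra hcon
            rw [not_nonempty_iff] at hcon
            exact hs (by rw [norm_eq_zero]; exact Subsingleton.elim _ _)
          obtain ⟨i, -, hi⟩ := Finset.exists_max_image (Finset.univ : Finset (Fin s))
            (fun i => ‖X.u i p‖) Finset.univ_nonempty
          refine ⟨i, le_antisymm ?_ (norm_le_pi_norm (fun i => X.u i p) i)⟩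
          exact (pi_norm_le_iff_of_nonneg (norm_nonneg _)).2 fun j => hi j (Finset.mem_univ j)
        rw [hi]
        exact Finset.single_le_sum (f := fun i => ‖X.u i p‖ ^ 2) (fun _ _ => by positivity)
          (Finset.mem_univ i)
    have h3 : ‖fun i => X.u i p‖ ^ (2 - 2 / N : ℝ) = (‖fun i => X.u i p‖ ^ 2) ^ (1 - 1 / N : ℝ) := by
      rw [← Real.rpow_natCast, ← Real.rpow_mul (norm_nonneg _)]
      congr 1
      push_cast
      ring
    rw [h3]
    have h4 : (0 : ℝ) ≤ 1 - 1 / N := (LNd_333.one_sub_pos hN).le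
    have h5 : (‖fun i => X.u i p‖ ^ 2) ^ (1 - 1 / N : ℝ) ≤ Ku X.u p ^ (1 - 1 / N : ℝ) :=
      Real.rpow_le_rpow (by positivity) h2 h4
    have h6 : 0 ≤ (‖fun i => X.u i p‖ ^ 2) ^ (1 - 1 / N : ℝ) := by positivity
    calc C * (‖fun i => X.u i p‖ ^ 2) ^ (1 - 1 / N : ℝ)
        ≤ (C + 1) * (‖fun i => X.u i p‖ ^ 2) ^ (1 - 1 / N : ℝ) := by gcongr; linarith
      _ ≤ _ := by gcongr
  G := fun t => Qm (L.μ (X.x t)) L.σ (ω t)
  pd := fun t ht => LNc_333.Qm_posDef (LNb_333.p_pos hN) (LNd_333.fam L hN (X.x t))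
    (fun v hv => L.pos (X.x t) v hv) (hω t ht)
  cont := hG
  eq := by
    intro t ht v
    have hw := hω t ht
    have h1 : pn 2 (iw fun p : X.D.P => (ω (tc p) (fun i => X.u i p))⁻¹) (X.fr.cmb v) t =
        fi (fun p : X.D.P => (fun σ : Fin s → ℂ => ENNReal.ofReal (‖dt v σ‖ ^ 2) *
          (ENNReal.ofReal ((ω t σ)⁻¹))⁻¹) (fun i => X.u i p)) t := by
      unfold pn
      refine fi_congr fun p hp => ?_
      have hp' : tc p = t := hp
      show ENNReal.ofReal (‖X.fr.cmb v p‖ ^ (2 : ℝ)) *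
        (ENNReal.ofReal (ω (tc p) (fun i => X.u i p))⁻¹)⁻¹ = _
      rw [Real.rpow_two, hp']
      rfl
    have hmeas : Measurable (fun σ : Fin s → ℂ => ENNReal.ofReal (‖dt v σ‖ ^ 2) *
          (ENNReal.ofReal ((ω t σ)⁻¹))⁻¹) := by
      have h3 : Continuous fun σ : Fin s → ℂ => dt v σ := LNb_333.dt_cont.comp (Continuous.prodMk_right v)
      exact ((h3.norm.pow 2).measurable.ennreal_ofReal).mul
        ((LNc_333.meas_wt hw.cont).inv.ennreal_ofReal.inv)
    rw [h1, ← X.lk t ht _ hmeas]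
    have h2 : vN (Qm (L.μ (X.x t)) L.σ (ω t)) v = Nc_999.qf (Qm (L.μ (X.x t)) L.σ (ω t)) v := rfl
    rw [h2, LNc_333.qf_Qm (LNb_333.p_pos hN) (LNd_333.fam L hN (X.x t)) hw]
    have hI := LNc_333.integrable_sq (LNb_333.p_pos hN) (LNd_333.fam L hN (X.x t)) hw v
    rw [ofReal_integral_eq_lintegral_ofReal hI
      (Eventually.of_forall fun y => LNc_333.sq_nonneg' hw v _)]
    refine lintegral_congr fun y => ?_
    show ENNReal.ofReal (‖dt v (L.sg y)‖ ^ 2) * (ENNReal.ofReal ((ω t (L.sg y))⁻¹))⁻¹ =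
      ENNReal.ofReal (‖dt v (L.sg y)‖ ^ 2 * ω t (L.sg y))
    by_cases h0 : L.sg y = 0
    · rw [h0]
      simp [dt]
    · have h3 := hw.pos _ h0
      rw [ENNReal.ofReal_inv_of_pos h3, inv_inv, ENNReal.ofReal_mul (by positivity)]

/-- **the Narasimhan–Simha metric `L.H`** over a disc; input: log-psh-ness of `B` -/
def Dsc.metH (X : Dsc L R) (hN : 2 ≤ N) (hs : 0 < s)
    (hB : LPsh (fun p : X.D.P => L.B (X.x (tc p)) (fun i => X.u i p))) : MetB X.D s :=
  X.met hN (fun t => wH L (X.x t)) (fun t _ => LNd_333.wt_H L hN hs (X.x t))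
    (fun t _ => by
      unfold wH
      rw [LNb_333.B_zero L hN, zero_pow (by omega), inv_zero])
    (by
      have h1 : (fun p : X.D.P => (wH L (X.x (tc p)) (fun i => X.u i p))⁻¹) =
          fun p => L.B (X.x (tc p)) (fun i => X.u i p) ^ (N - 1) := by
        funext p
        unfold wH
        rw [inv_inv]
      rw [h1]
      exact hB.pow (N - 1))
    ((LNd_333.H_cont L hN hs).comp_continuousOn X.xc)

lemma Dsc.metH_G (X : Dsc L R) (hN : 2 ≤ N) (hs : 0 < s)
    (hB : LPsh (fun p : X.D.P => L.B (X.x (tc p)) (fun i => X.u i p))) :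
    (X.metH hN hs hB).G = fun t => L.H (X.x t) := rfl

/-- holomorphic functions of the base variable -/
lemma hol_comp_tc {D : Dom R} {g : ℂ → ℂ} (hg : DifferentiableOn ℂ g (ball 0 R)) :
    Ho51.Hol (fun p : D.P => g (tc p)) := by
  intro e he
  have h1 : DifferentiableOn ℂ (fun z : Fin (D.a + 1) → ℂ => g (z 0)) e.target := by
    refine hg.comp (differentiable_apply (𝕜 := ℂ) (0 : Fin (D.a + 1))).differentiableOn ?_
    intro z hz
    rw [mem_ball_zero_iff]
    have h2 : ‖(cp (e.symm z) : Fin (D.a + 1) → ℂ) 0‖ < R := D.tR (e.symm z)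
    rw [he.cp_symm hz] at h2
    exact h2
  refine h1.congr fun z hz => ?_
  show g ((cp (e.symm z) : Fin (D.a + 1) → ℂ) 0) = g (z 0)
  rw [he.cp_symm hz]

/-- **the metrics `L.G`** over a disc -/
def Dsc.metG (X : Dsc L R) (hN : 2 ≤ N) {m : ℕ} (w : ℂ → Fin m → Fin s → ℂ)
    (hw : ∀ l i, DifferentiableOn ℂ (fun t => w t l i) (ball 0 R))
    (hsp : ∀ t, ‖t‖ < R → Spn (w t)) : MetB X.D s :=
  X.met hN (fun t => wG N (w t)) (fun t ht => LNd_333.wt_G hN (hsp t ht))
    (fun t _ => by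
      unfold wG
      have h1 : ∑ l, ‖dt (w t l) (0 : Fin s → ℂ)‖ ^ 2 = 0 := by simp [dt]
      rw [h1]
      exact Real.zero_rpow (by linarith [LNd_333.one_sub_pos hN]))
    (by
      have h1 : (fun p : X.D.P => (wG N (w (tc p)) (fun i => X.u i p))⁻¹) =
          fun p => (∑ l, ‖∑ i, w (tc p) l i * X.u i p‖ ^ 2) ^ (1 - 1 / N : ℝ) := by
        funext p
        unfold wG
        rw [Real.rpow_neg (Finset.sum_nonneg fun _ _ => by positivity), inv_inv]
        rfl
      rw [h1]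
      refine EngU_29.LPsh.rpow ?_ (LNd_333.one_sub_pos hN).le
      refine EngU_29.LPsh.sum_hol Finset.univ (f := fun l p => ∑ i, w (tc p) l i * X.u i p)
        fun l _ => ?_
      intro e he
      have h2 : ((fun p : X.D.P => ∑ i, w (tc p) l i * X.u i p) ∘ e.symm) = fun z =>
          ∑ i, ((fun p : X.D.P => w (tc p) l i * X.u i p) ∘ e.symm) z := rfl
      rw [h2]
      exact DifferentiableOn.fun_sum fun i _ =>
        hol_mul (hol_comp_tc (D := X.D) (hw l i)) (X.hol i) e he)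
    (by
      refine (LNd_333.G_cont L hN).comp (X.xc.prodMk (f := X.x) (g := w) ?_) ?_
      · exact continuousOn_pi.2 fun l => continuousOn_pi.2 fun i => (hw l i).continuousOn
      · intro t ht
        exact hsp t (by rwa [mem_ball_zero_iff] at ht))

lemma Dsc.metG_G (X : Dsc L R) (hN : 2 ≤ N) {m : ℕ} (w : ℂ → Fin m → Fin s → ℂ)
    (hw : ∀ l i, DifferentiableOn ℂ (fun t => w t l i) (ball 0 R))
    (hsp : ∀ t, ‖t‖ < R → Spn (w t)) :
    (X.metG hN w hw hsp).G = fun t => L.G (X.x t) (w t) := rfl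

end Crest.Agent.R276.PV_159
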