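import Crest.Agent.R276.PVs_159
import Crest.Agent.R276.NbE_185

/-!
# Row 276, part D1 (helper159): log-subharmonicity of `B` along sections, from 185's `nb`
-/

set_option autoImplicit false
set_option linter.unusedSectionVars false

noncomputable section

open Set Filter Topology Complex MeasureTheory Metric
open scoped ENNReal ComplexConjugate Matrix Real ComplexOrder

namespace Crest.Agent.R276.PV_159

open Crest.Agent.R271 Crest.Agent.R271.Ho51 Crest.Agent.R271.W792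
open Crest.Agent.R276.Circ_696 (vN dN)
open Crest.Agent.R276
open Crest.Agent.R276.EngU_29 (LPsh)
open Crest.Agent.R276.LN_999 (LN)
open Crest.Agent.R276.LNb_333 (dt dt_sg)
open Crest.Agent.R276.LNc_333 (Wt Qm)
open Crest.Agent.R276.LNd_333 (wH wG Spn)
open Crest.Agent.R276.NbD_185 (NB wi SS)

variable {R : ℝ} {M Y : Type*} [TopologicalSpace M] [MeasurableSpace Y] {s N : ℕ} {L : LN M Y s N}

/-- the standard frame of functionals -/
def e0 (s : ℕ) : Fin s → Fin s → ℂ := fun l => Pi.single l 1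

lemma dt_e0 (l : Fin s) (σ : Fin s → ℂ) : dt (e0 s l) σ = σ l := by
  unfold dt e0
  rw [Finset.sum_eq_single l]
  · simp
  · intro j _ hj
    rw [Pi.single_eq_of_ne hj, zero_mul]
  · intro h; exact absurd (Finset.mem_univ l) h

lemma spn_e0 : Spn (e0 s) := by
  intro v hv
  funext l
  have := hv l
  rwa [dt_e0] at this

/-- the norm of the class in the frame -/
lemma Dsc.nrm_cmb (X : Dsc L R) (hN : 2 ≤ N) {t : ℂ} (ht : ‖t‖ < R) (a : Fin s → ℂ) :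
    X.D.nrm (X.fr.cmb a) t = ENNReal.ofReal (vN (L.G (X.x t) (e0 s)) a) := by
  have h1 := (X.metG hN (fun _ => e0 s) (fun _ _ => differentiableOn_const _)
    (fun _ _ => spn_e0)).eq t ht a
  have h2 : vN ((X.metG hN (fun _ => e0 s) (fun _ _ => differentiableOn_const _)
    (fun _ _ => spn_e0)).G t) a = vN (L.G (X.x t) (e0 s)) a := rfl
  rw [h2] at h1
  rw [← h1]
  unfold Dom.nrm pn
  refine fi_congr fun p _ => ?_
  unfold Dom.dens
  rw [X.wt p, Real.rpow_two]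
  congr 1
  show _ = (ENNReal.ofReal (wG N (e0 s) (fun i => X.u i p))⁻¹)⁻¹
  congr 2
  unfold wG
  rw [Real.rpow_neg (Finset.sum_nonneg fun _ _ => by positivity), inv_inv]
  unfold Ku
  simp only [dt_e0]

lemma dN_le_Ku (W : Matrix (Fin s) (Fin s) ℂ) (ξ : Fin s → ℂ) :
    dN W ξ ≤ (∑ i, ∑ j, ‖W⁻¹ i j‖) * ∑ i, ‖ξ i‖ ^ 2 := by
  have hexp : ξ ⬝ᵥ W⁻¹.mulVec (star ξ) = ∑ i, ∑ j, ξ i * (W⁻¹ i j * star (ξ j)) := by
    simp only [dotProduct, Matrix.mulVec, Finset.mul_sum, Pi.star_apply]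
  unfold Circ_696.dN
  rw [hexp]
  refine (Complex.re_le_norm _).trans ?_
  refine (norm_sum_le _ _).trans ?_
  rw [Finset.sum_mul]
  refine Finset.sum_le_sum fun i _ => ?_
  refine (norm_sum_le _ _).trans ?_
  rw [Finset.sum_mul]
  refine Finset.sum_le_sum fun j _ => ?_
  rw [norm_mul, norm_mul, norm_star]
  have h1 : ‖ξ i‖ * ‖ξ j‖ ≤ ∑ i, ‖ξ i‖ ^ 2 := by
    have hi : ‖ξ i‖ ^ 2 ≤ ∑ i, ‖ξ i‖ ^ 2 :=
      Finset.single_le_sum (f := fun i => ‖ξ i‖ ^ 2) (fun _ _ => by positivity) (Finset.mem_univ i)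
    have hj : ‖ξ j‖ ^ 2 ≤ ∑ i, ‖ξ i‖ ^ 2 :=
      Finset.single_le_sum (f := fun i => ‖ξ i‖ ^ 2) (fun _ _ => by positivity) (Finset.mem_univ j)
    nlinarith [sq_nonneg (‖ξ i‖ - ‖ξ j‖)]
  calc ‖ξ i‖ * (‖W⁻¹ i j‖ * ‖ξ j‖) = ‖W⁻¹ i j‖ * (‖ξ i‖ * ‖ξ j‖) := by ring
    _ ≤ ‖W⁻¹ i j‖ * ∑ i, ‖ξ i‖ ^ 2 := by gcongr

/-- (Cl) for functions of finite norm -/
lemma Dsc.cl (X : Dsc L R) (hN : 2 ≤ N) {t : ℂ} (ht : ‖t‖ < R) :
    ∃ C : ℝ≥0∞, C ≠ ∞ ∧ ∀ f, FHol t f → X.D.nrm f t < ∞ → ∀ x, tc x = t →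
      ENNReal.ofReal (‖f x‖ ^ 2) ≤ C * ENNReal.ofReal (Ku X.u x) * X.D.nrm f t := by
  set W := L.G (X.x t) (e0 s) with hW
  have hWp : W.PosDef := LNd_333.G_posDef L hN (X.x t) spn_e0
  refine ⟨ENNReal.ofReal (∑ i, ∑ j, ‖W⁻¹ i j‖), ENNReal.ofReal_ne_top, fun f hf hfin x hx => ?_⟩
  obtain ⟨a, ha⟩ := X.clos t ht f hf hfin
  have h1 : X.D.nrm f t = X.D.nrm (X.fr.cmb a) t := X.D.nrm_congr ha
  rw [h1, X.nrm_cmb hN ht, ha x hx]
  have hK : 0 ≤ Ku X.u x := Finset.sum_nonneg fun _ _ => by positivity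
  have hS : 0 ≤ ∑ i, ∑ j, ‖W⁻¹ i j‖ :=
    Finset.sum_nonneg fun _ _ => Finset.sum_nonneg fun _ _ => norm_nonneg _
  rw [← ENNReal.ofReal_mul hS, ← ENNReal.ofReal_mul (mul_nonneg hS hK)]
  apply ENNReal.ofReal_le_ofReal
  have h2 := Circ_696.cs hWp (fun i => X.u i x) a
  have h3 : ∑ i, a i * X.u i x = (fun i => X.u i x) ⬝ᵥ a := by
    unfold dotProduct
    exact Finset.sum_congr rfl fun i _ => mul_comm _ _
  rw [h3]
  refine h2.trans ?_
  have h4 := dN_le_Ku W (fun i => X.u i x)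
  have h5 := Circ_696.vN_nonneg hWp.posSemidef a
  exact mul_le_mul_of_nonneg_right h4 h5

/-- the `2/N`-norm in the frame -/
lemma Dsc.pn_cmb (X : Dsc L R) (hN : 2 ≤ N) {t : ℂ} (ht : ‖t‖ < R) {g : X.D.P → ℂ}
    {a : Fin s → ℂ} (ha : ∀ p, tc p = t → g p = ∑ i, a i * X.u i p) :
    pn (2 * (1 / N : ℝ)) (wi fun _ => (1 : ℝ)) g t = ENNReal.ofReal (L.Phi (X.x t) a) := by
  have h1 : pn (2 * (1 / N : ℝ)) (wi fun _ => (1 : ℝ)) g t =
      fi (fun p : X.D.P => (fun σ : Fin s → ℂ => ENNReal.ofReal (‖dt a σ‖ ^ (2 / N : ℝ)))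
        (fun i => X.u i p)) t := by
    unfold pn
    refine fi_congr fun p hp => ?_
    have hw : wi (fun _ : X.D.P => (1 : ℝ)) p = 1 := by
      unfold NbD_185.wi
      simp
    rw [hw, mul_one, ha p hp, mul_one_div]
    rfl
  have hm : Measurable fun σ : Fin s → ℂ => ENNReal.ofReal (‖dt a σ‖ ^ (2 / N : ℝ)) := by
    have h3 : Continuous fun σ : Fin s → ℂ => dt a σ :=
      LNb_333.dt_cont.comp (Continuous.prodMk_right a)
    exact (h3.norm.measurable.pow_const _).ennreal_ofReal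
  rw [h1, ← X.lk t ht _ hm, LNb_333.ofReal_Phi L hN]
  rfl

lemma rpow_sum_le {ι : Type*} (S : Finset ι) (f : ι → ℝ≥0∞) {θ : ℝ} (h0 : 0 < θ) (h1 : θ ≤ 1) :
    (∑ i ∈ S, f i) ^ θ ≤ ∑ i ∈ S, f i ^ θ := by
  classical
  induction S using Finset.induction_on with
  | empty => simp [ENNReal.zero_rpow_of_pos h0]
  | insert a S ha ih =>
    rw [Finset.sum_insert ha, Finset.sum_insert ha]
    exact (ENNReal.rpow_add_le_add_rpow _ _ h0.le h1).trans (by gcongr)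

/-- `K^{1/N} ≤ ∑ |u_i|^{2/N}` -/
lemma Ku_rpow_le {X : Type*} (u : Fin s → X → ℂ) (hN : 2 ≤ N) (p : X) :
    ENNReal.ofReal (Ku u p) ^ (1 / N : ℝ) ≤ ∑ i, ENNReal.ofReal (‖u i p‖ ^ (2 / N : ℝ)) := by
  have hNp := LNd_333.N_pos hN
  have h00 : (0 : ℝ) < 1 / N := by positivity
  have h0 := h00.le
  have h1 : (1 / N : ℝ) ≤ 1 := by
    rw [div_le_one hNp]
    have : (2 : ℝ) ≤ N := by exact_mod_cast hN
    linarith
  unfold Ku
  rw [ENNReal.ofReal_sum_of_nonneg fun _ _ => by positivity]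
  refine (rpow_sum_le _ _ h00 h1).trans (le_of_eq ?_)
  refine Finset.sum_congr rfl fun i _ => ?_
  rw [ENNReal.ofReal_rpow_of_nonneg (by positivity) h0, ← Real.rpow_natCast,
    ← Real.rpow_mul (norm_nonneg _)]
  congr 2
  push_cast
  ring

/-- the data of `nb` -/
lemma Dsc.nbData (X : Dsc L R) (hN : 2 ≤ N) {C : ℝ}
    (hC : ∀ t, ‖t‖ < R → ∀ i, L.Phi (X.x t) (Pi.single i 1) ≤ C) :
    NB X.D (1 / N : ℝ) (Ku X.u) (fun _ => 1) where
  h0 := by have := LNd_333.N_pos hN; positivity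
  h1 := by
    rw [div_le_one (LNd_333.N_pos hN)]
    have : (2 : ℝ) ≤ N := by exact_mod_cast hN
    linarith
  K_lpsh := EngU_29.LPsh.sum_hol Finset.univ fun i _ => X.hol i
  b_lpsh := EngU_29.LPsh.const zero_le_one
  wt x := by rw [X.wt x, mul_one]
  bd := by
    refine ⟨∑ _i : Fin s, ENNReal.ofReal C,
      ENNReal.sum_ne_top.2 fun _ _ => ENNReal.ofReal_ne_top, fun t ht => ?_⟩
    set h : (Fin s → ℂ) → ℝ≥0∞ := fun σ => ∑ i, ENNReal.ofReal (‖σ i‖ ^ (2 / N : ℝ)) with hh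
    have hm1 : ∀ i : Fin s, Measurable fun σ : Fin s → ℂ => ENNReal.ofReal (‖σ i‖ ^ (2 / N : ℝ)) :=
      fun i => ((measurable_pi_apply i).norm.pow_const _).ennreal_ofReal
    have hm : Measurable h := Finset.measurable_fun_sum _ fun i _ => hm1 i
    have h1 : fi (fun x : X.D.P => ENNReal.ofReal (Ku X.u x) ^ (1 / N : ℝ) / ENNReal.ofReal 1) t ≤
        fi (fun p : X.D.P => h (fun i => X.u i p)) t := by
      refine fi_mono fun p _ => ?_
      rw [ENNReal.ofReal_one, div_one]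
      exact Ku_rpow_le X.u hN p
    refine h1.trans ?_
    rw [← X.lk t ht h hm]
    have hsum : ∫⁻ y, h (L.sg y) ∂(L.μ (X.x t)) =
        ∑ i, ∫⁻ y, ENNReal.ofReal (‖L.sg y i‖ ^ (2 / N : ℝ)) ∂(L.μ (X.x t)) :=
      lintegral_finsetSum (f := fun i y => ENNReal.ofReal (‖L.sg y i‖ ^ (2 / N : ℝ))) Finset.univ
        fun i _ => (hm1 i).comp (LNb_333.meas_sg L)
    rw [hsum]
    refine Finset.sum_le_sum fun i _ => ?_
    refine le_trans (le_of_eq ?_) (ENNReal.ofReal_le_ofReal (hC t ht i))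
    rw [LNb_333.ofReal_Phi L hN]
    refine lintegral_congr fun y => ?_
    have h2 := dt_e0 i (L.sg y)
    have h3 : ∑ j, (Pi.single i (1 : ℂ) : Fin s → ℂ) j * L.σ j y = L.sg y i := h2
    rw [h3]
  cl := Eventually.of_forall fun t ht => X.cl hN ht

/-- **`B` is log-subharmonic along sections** (annuli, any majorant `κ`) -/
theorem Dsc.subB (X : Dsc L R) (hN : 2 ≤ N) {C : ℝ}
    (hC : ∀ t, ‖t‖ < R → ∀ i, L.Phi (X.x t) (Pi.single i 1) ≤ C) (σ : Sec X.D) (κ : ℂ → ℝ)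
    (hκ : ∀ t, 0 < κ t)
    (hle : ∀ t, ‖t‖ < R → L.B (X.x t) (fun i => X.u i (σ.x t)) ≤ κ t)
    {r1 r2 : ℝ} (hr1 : 0 ≤ r1) (hr : r1 < r2) (hrR : r2 < R)
    (hκi : IntegrableOn (fun t => Real.log (κ t)) (Ann r1 r2))
    {c0 : ℝ} (hc0 : ∀ t ∈ Ann r1 r2, c0 ≤ Real.log (κ t)) :
    L.B (X.x 0) (fun i => X.u i (σ.x 0)) ≤ Real.exp (⨍ t in Ann r1 r2, Real.log (κ t)) := by
  have hR : 0 < R := lt_of_le_of_lt hr1 (hr.trans hrR)
  have h0R : ‖(0 : ℂ)‖ < R := by rwa [norm_zero]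
  refine LNb_333.B_le_of L _ _ hN fun v hv => ?_
  have hexp : (2 * (1 / N : ℝ)) = 2 / N := by ring
  have hbd : ∀ᵐ t, ‖t‖ < R → ∀ g, FHol t g → X.D.nrm g t < ∞ →
      ENNReal.ofReal (‖g (σ.x t)‖ ^ (2 * (1 / N : ℝ))) ≤ ENNReal.ofReal (κ t) *
        pn (2 * (1 / N : ℝ)) (wi fun _ => (1 : ℝ)) g t := by
    refine Eventually.of_forall fun t ht g hg hfin => ?_
    obtain ⟨a, ha⟩ := X.clos t ht g hg hfin
    rw [X.pn_cmb hN ht ha, ← ENNReal.ofReal_mul (hκ t).le]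
    apply ENNReal.ofReal_le_ofReal
    have h1 := LNb_333.le_B L hN (X.x t) (fun i => X.u i (σ.x t)) a
    have h2 := LNb_333.Phi_nonneg L (X.x t) a
    have h3 : g (σ.x t) = dt a (fun i => X.u i (σ.x t)) :=
      ha _ (σ.sec t (by rwa [mem_ball_zero_iff]))
    rw [h3, hexp]
    refine h1.trans ?_
    rw [mul_comm (κ t)]
    exact mul_le_mul_of_nonneg_left (hle t ht) h2
  have hcs : ∀ x, tc x = 0 → ‖X.fr.cmb v x‖ₑ ^ (2 : ℝ) ≤
      ENNReal.ofReal (∑ i, ‖v i‖ ^ 2) * ENNReal.ofReal (Ku X.u x) := by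
    intro x _
    rw [← NbD_185.ofReal_sq_norm, ← ENNReal.ofReal_mul (Finset.sum_nonneg fun _ _ => by positivity)]
    apply ENNReal.ofReal_le_ofReal
    have h4 : ‖X.fr.cmb v x‖ ≤ ∑ k, ‖v k‖ * ‖X.u k x‖ :=
      (norm_sum_le _ _).trans (le_of_eq (Finset.sum_congr rfl fun k _ => norm_mul _ _))
    calc ‖X.fr.cmb v x‖ ^ 2 ≤ (∑ k, ‖v k‖ * ‖X.u k x‖) ^ 2 := by gcongr
      _ ≤ _ := Finset.sum_mul_sq_le_sq_mul_sq _ _ _
  have hmain := NbD_185.nb (OTB_189.otb_dom hR) (X.nbData hN hC) σ κ hκ hbd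
    (U := X.fr.cmb v) (Hol.fhol (X.fr.cmb_hol v) 0) ENNReal.ofReal_ne_top hcs hr1 hr hrR hκi hc0
  have hSS : SS X.D (1 / N : ℝ) (fun _ => (1 : ℝ)) (X.fr.cmb v) =
      ENNReal.ofReal (L.Phi (X.x 0) v) := by
    rw [← X.pn_cmb hN h0R (g := X.fr.cmb v) (a := v) fun p _ => rfl]
    unfold NbD_185.SS pn
    refine fi_congr fun p _ => ?_
    rw [NbD_185.ofReal_rpow_norm (by positivity)]
    rfl
  rw [hSS, ENNReal.toReal_ofReal (LNb_333.Phi_nonneg L _ _), hexp] at hmain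
  refine hmain.trans ?_
  calc _ ≤ Real.exp (⨍ t in Ann r1 r2, Real.log (κ t)) * 1 := by gcongr
    _ = _ := mul_one _

end Crest.Agent.R276.PV_159
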